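import Vale.Agent.Lib.P154.PChain.BD.R4_0

set_option linter.all false

namespace Vale.Agent.Lib.P154.PChain.BD.S5

open Vale.Agent.Lib.P154.Chain

noncomputable def pc0 : PT := (PT.nd (nat_lit 8640060) (PT.nd (nat_lit 8452704) (PT.nd (nat_lit 8327748) (PT.nd (nat_lit 8202948) (PT.nd (nat_lit 8202870) (PT.nd (nat_lit 8140470) PT.nil (PT.lf (nat_lit 76) (nat_lit 3) (nat_lit 1) (nat_lit 1) (nat_lit 235) (nat_lit 130) (nat_lit 235))) (PT.lf (nat_lit 152) (nat_lit 6) (nat_lit 2) (nat_lit 3) (nat_lit 234) (nat_lit 131) (nat_lit 235))) (PT.nd (nat_lit 62400) (PT.lf (nat_lit 152) (nat_lit 6) (nat_lit 2) (nat_lit 1) (nat_lit 235) (nat_lit 131) (nat_lit 234)) (PT.lf (nat_lit 304) (nat_lit 3) (nat_lit 4) (nat_lit 1) (nat_lit 234) (nat_lit 132) (nat_lit 234)))) (PT.nd (nat_lit 62478) (PT.nd (nat_lit 78) (PT.lf (nat_lit 380) (nat_lit 6) (nat_lit 5) (nat_lit 3) (nat_lit 233) (nat_lit 133) (nat_lit 234)) (PT.lf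 (nat_lit 380) (nat_lit 6) (nat_lit 5) (nat_lit 1) (nat_lit 234) (nat_lit 133) (nat_lit 233))) (PT.nd (nat_lit 62400) (PT.lf (nat_lit 532) (nat_lit 3) (nat_lit 7) (nat_lit 1) (nat_lit 233) (nat_lit 134) (nat_lit 233)) (PT.lf (nat_lit 608) (nat_lit 6) (nat_lit 8) (nat_lit 3) (nat_lit 232) (nat_lit 135) (nat_lit 233))))) (PT.nd (nat_lit 124800) (PT.nd (nat_lit 62400) (PT.nd (nat_lit 62322) (PT.lf (nat_lit 608) (nat_lit 6) (nat_lit 8) (nat_lit 1) (nat_lit 233) (nat_lit 135) (nat_lit 232)) (PT.lf (nat_lit 684) (nat_lit 6) (nat_lit 9) (nat_lit 3) (nat_lit 231) (nat_lit 136) (nat_lit 233))) (PT.nd (nat_lit 78) (PT.lf (nat_lit 760) (nat_lit 3) (nat_lit 10) (nat_lit 1) (nat_lit 232) (nat_lit 136) (nat_lit 232)) (PT.lf (nat_lit 684) (nat_lit 6) (nat_lit 9) (nat_lit 1) (nat_lit 233) (nat_lit 136) (nat_lit 231)))) (PT.nd (nat_lit 62400) (PT.nd (nat_lit 78) (PT.lf (nat_lit 836) (nat_lit 6) (nat_lit 11) (nat_lit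 3) (nat_lit 231) (nat_lit 137) (nat_lit 232)) (PT.lf (nat_lit 836) (nat_lit 6) (nat_lit 11) (nat_lit 1) (nat_lit 232) (nat_lit 137) (nat_lit 231))) (PT.nd (nat_lit 78) (PT.lf (nat_lit 912) (nat_lit 6) (nat_lit 12) (nat_lit 3) (nat_lit 230) (nat_lit 138) (nat_lit 232)) (PT.lf (nat_lit 988) (nat_lit 3) (nat_lit 13) (nat_lit 1) (nat_lit 231) (nat_lit 138) (nat_lit 231)))))) (PT.nd (nat_lit 249600) (PT.nd (nat_lit 124800) (PT.nd (nat_lit 62400) (PT.nd (nat_lit 62322) (PT.lf (nat_lit 912) (nat_lit 6) (nat_lit 12) (nat_lit 1) (nat_lit 232) (nat_lit 138) (nat_lit 230)) (PT.lf (nat_lit 1064) (nat_lit 6) (nat_lit 14) (nat_lit 3) (nat_lit 230) (nat_lit 139) (nat_lit 231))) (PT.nd (nat_lit 62322) (PT.lf (nat_lit 1064) (nat_lit 6) (nat_lit 14) (nat_lit 1) (nat_lit 231) (nat_lit 139) (nat_lit 230)) (PT.lf (nat_lit 1140) (nat_lit 6) (nat_lit 15) (nat_lit 3) (nat_lit 229) (nat_lit 140) (nat_lit 231)))) (PT.nd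 (nat_lit 62400) (PT.nd (nat_lit 78) (PT.lf (nat_lit 1216) (nat_lit 3) (nat_lit 16) (nat_lit 1) (nat_lit 230) (nat_lit 140) (nat_lit 230)) (PT.lf (nat_lit 1140) (nat_lit 6) (nat_lit 15) (nat_lit 1) (nat_lit 231) (nat_lit 140) (nat_lit 229))) (PT.nd (nat_lit 78) (PT.lf (nat_lit 1292) (nat_lit 6) (nat_lit 17) (nat_lit 3) (nat_lit 229) (nat_lit 141) (nat_lit 230)) (PT.lf (nat_lit 1292) (nat_lit 6) (nat_lit 17) (nat_lit 1) (nat_lit 230) (nat_lit 141) (nat_lit 229))))) (PT.nd (nat_lit 62556) (PT.nd (nat_lit 156) (PT.nd (nat_lit 78) (PT.lf (nat_lit 1368) (nat_lit 6) (nat_lit 18) (nat_lit 3) (nat_lit 228) (nat_lit 142) (nat_lit 230)) (PT.lf (nat_lit 1444) (nat_lit 3) (nat_lit 19) (nat_lit 1) (nat_lit 229) (nat_lit 142) (nat_lit 229))) (PT.nd (nat_lit 62322) (PT.lf (nat_lit 1368) (nat_lit 6) (nat_lit 18) (nat_lit 1) (nat_lit 230) (nat_lit 142) (nat_lit 228)) (PT.lf (nat_lit 1520) (nat_lit 6) (nat_lit 20)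 (nat_lit 3) (nat_lit 228) (nat_lit 143) (nat_lit 229)))) (PT.nd (nat_lit 62400) (PT.nd (nat_lit 62322) (PT.lf (nat_lit 1520) (nat_lit 6) (nat_lit 20) (nat_lit 1) (nat_lit 229) (nat_lit 143) (nat_lit 228)) (PT.lf (nat_lit 1596) (nat_lit 6) (nat_lit 21) (nat_lit 3) (nat_lit 227) (nat_lit 144) (nat_lit 229))) (PT.nd (nat_lit 78) (PT.lf (nat_lit 1672) (nat_lit 3) (nat_lit 22) (nat_lit 1) (nat_lit 228) (nat_lit 144) (nat_lit 228)) (PT.lf (nat_lit 1596) (nat_lit 6) (nat_lit 21) (nat_lit 1) (nat_lit 229) (nat_lit 144) (nat_lit 227)))))))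
noncomputable def pc1 : PT := (PT.nd (nat_lit 374712) (PT.nd (nat_lit 187356) (PT.nd (nat_lit 62556) (PT.nd (nat_lit 62400) (PT.nd (nat_lit 78) (PT.lf (nat_lit 1748) (nat_lit 6) (nat_lit 23) (nat_lit 3) (nat_lit 227) (nat_lit 145) (nat_lit 228)) (PT.lf (nat_lit 1748) (nat_lit 6) (nat_lit 23) (nat_lit 1) (nat_lit 228) (nat_lit 145) (nat_lit 227))) (PT.nd (nat_lit 78) (PT.lf (nat_lit 1824) (nat_lit 6) (nat_lit 24) (nat_lit 3) (nat_lit 226) (nat_lit 146) (nat_lit 228)) (PT.lf (nat_lit 1900) (nat_lit 3) (nat_lit 25) (nat_lit 1) (nat_lit 227) (nat_lit 146) (nat_lit 227)))) (PT.nd (nat_lit 62400) (PT.nd (nat_lit 62322) (PT.lf (nat_lit 1824) (nat_lit 6) (nat_lit 24) (nat_lit 1) (nat_lit 228) (nat_lit 146) (nat_lit 226)) (PT.lf (nat_lit 1976) (nat_lit 6) (nat_lit 26) (nat_lit 3) (nat_lit 226) (nat_lit 147) (nat_lit 227))) (PT.nd (nat_lit 62322) (PT.lf (nat_lit 1976) (nat_lit 6) (nat_lit 26) (nat_lit 1)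 (nat_lit 227) (nat_lit 147) (nat_lit 226)) (PT.lf (nat_lit 2052) (nat_lit 6) (nat_lit 27) (nat_lit 3) (nat_lit 225) (nat_lit 148) (nat_lit 227))))) (PT.nd (nat_lit 124800) (PT.nd (nat_lit 62400) (PT.nd (nat_lit 78) (PT.lf (nat_lit 2128) (nat_lit 3) (nat_lit 28) (nat_lit 1) (nat_lit 226) (nat_lit 148) (nat_lit 226)) (PT.lf (nat_lit 2052) (nat_lit 6) (nat_lit 27) (nat_lit 1) (nat_lit 227) (nat_lit 148) (nat_lit 225))) (PT.nd (nat_lit 78) (PT.lf (nat_lit 2204) (nat_lit 6) (nat_lit 29) (nat_lit 3) (nat_lit 225) (nat_lit 149) (nat_lit 226)) (PT.lf (nat_lit 2204) (nat_lit 6) (nat_lit 29) (nat_lit 1) (nat_lit 226) (nat_lit 149) (nat_lit 225)))) (PT.nd (nat_lit 156) (PT.nd (nat_lit 78) (PT.lf (nat_lit 2280) (nat_lit 6) (nat_lit 30) (nat_lit 3) (nat_lit 224) (nat_lit 150) (nat_lit 226)) (PT.lf (nat_lit 2356) (nat_lit 3) (nat_lit 31) (nat_lit 1) (nat_lit 225) (nat_lit 150) (nat_lit 225))) (PT.nd (nat_lit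 62322) (PT.lf (nat_lit 2280) (nat_lit 6) (nat_lit 30) (nat_lit 1) (nat_lit 226) (nat_lit 150) (nat_lit 224)) (PT.lf (nat_lit 2432) (nat_lit 6) (nat_lit 32) (nat_lit 3) (nat_lit 224) (nat_lit 151) (nat_lit 225)))))) (PT.nd (nat_lit 187356) (PT.nd (nat_lit 124800) (PT.nd (nat_lit 62400) (PT.nd (nat_lit 62322) (PT.lf (nat_lit 2432) (nat_lit 6) (nat_lit 32) (nat_lit 1) (nat_lit 225) (nat_lit 151) (nat_lit 224)) (PT.lf (nat_lit 2508) (nat_lit 6) (nat_lit 33) (nat_lit 3) (nat_lit 223) (nat_lit 152) (nat_lit 225))) (PT.nd (nat_lit 78) (PT.lf (nat_lit 2584) (nat_lit 3) (nat_lit 34) (nat_lit 1) (nat_lit 224) (nat_lit 152) (nat_lit 224)) (PT.lf (nat_lit 2508) (nat_lit 6) (nat_lit 33) (nat_lit 1) (nat_lit 225) (nat_lit 152) (nat_lit 223)))) (PT.nd (nat_lit 62400) (PT.nd (nat_lit 78) (PT.lf (nat_lit 2660) (nat_lit 6) (nat_lit 35) (nat_lit 3) (nat_lit 223) (nat_lit 153) (nat_lit 224)) (PT.lf (nat_lit 2660)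 (nat_lit 6) (nat_lit 35) (nat_lit 1) (nat_lit 224) (nat_lit 153) (nat_lit 223))) (PT.nd (nat_lit 78) (PT.lf (nat_lit 2736) (nat_lit 6) (nat_lit 36) (nat_lit 3) (nat_lit 222) (nat_lit 154) (nat_lit 224)) (PT.lf (nat_lit 2812) (nat_lit 3) (nat_lit 37) (nat_lit 1) (nat_lit 223) (nat_lit 154) (nat_lit 223))))) (PT.nd (nat_lit 124800) (PT.nd (nat_lit 62400) (PT.nd (nat_lit 62322) (PT.lf (nat_lit 2736) (nat_lit 6) (nat_lit 36) (nat_lit 1) (nat_lit 224) (nat_lit 154) (nat_lit 222)) (PT.lf (nat_lit 2888) (nat_lit 6) (nat_lit 38) (nat_lit 3) (nat_lit 222) (nat_lit 155) (nat_lit 223))) (PT.nd (nat_lit 62322) (PT.lf (nat_lit 2888) (nat_lit 6) (nat_lit 38) (nat_lit 1) (nat_lit 223) (nat_lit 155) (nat_lit 222)) (PT.lf (nat_lit 2964) (nat_lit 6) (nat_lit 39) (nat_lit 3) (nat_lit 221) (nat_lit 156) (nat_lit 223)))) (PT.nd (nat_lit 62400) (PT.nd (nat_lit 78) (PT.lf (nat_lit 3040) (nat_lit 3) (nat_lit 40) (nat_lit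 1) (nat_lit 222) (nat_lit 156) (nat_lit 222)) (PT.lf (nat_lit 2964) (nat_lit 6) (nat_lit 39) (nat_lit 1) (nat_lit 223) (nat_lit 156) (nat_lit 221))) (PT.nd (nat_lit 78) (PT.lf (nat_lit 3116) (nat_lit 6) (nat_lit 41) (nat_lit 3) (nat_lit 221) (nat_lit 157) (nat_lit 222)) (PT.nd (nat_lit 62322) (PT.lf (nat_lit 3116) (nat_lit 6) (nat_lit 41) (nat_lit 1) (nat_lit 222) (nat_lit 157) (nat_lit 221)) (PT.lf (nat_lit 3192) (nat_lit 6) (nat_lit 42) (nat_lit 3) (nat_lit 220) (nat_lit 158) (nat_lit 222))))))))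
noncomputable def pc2 : PT := (PT.nd (nat_lit 374556) (PT.nd (nat_lit 187356) (PT.nd (nat_lit 124800) (PT.nd (nat_lit 62400) (PT.nd (nat_lit 78) (PT.lf (nat_lit 3268) (nat_lit 3) (nat_lit 43) (nat_lit 1) (nat_lit 221) (nat_lit 158) (nat_lit 221)) (PT.lf (nat_lit 3192) (nat_lit 6) (nat_lit 42) (nat_lit 1) (nat_lit 222) (nat_lit 158) (nat_lit 220))) (PT.nd (nat_lit 78) (PT.lf (nat_lit 3344) (nat_lit 6) (nat_lit 44) (nat_lit 3) (nat_lit 220) (nat_lit 159) (nat_lit 221)) (PT.lf (nat_lit 3344) (nat_lit 6) (nat_lit 44) (nat_lit 1) (nat_lit 221) (nat_lit 159) (nat_lit 220)))) (PT.nd (nat_lit 156) (PT.nd (nat_lit 78) (PT.lf (nat_lit 3420) (nat_lit 6) (nat_lit 45) (nat_lit 3) (nat_lit 219) (nat_lit 160) (nat_lit 221)) (PT.lf (nat_lit 3496) (nat_lit 3) (nat_lit 46) (nat_lit 1) (nat_lit 220) (nat_lit 160) (nat_lit 220))) (PT.nd (nat_lit 62322) (PT.lf (nat_lit 3420) (nat_lit 6) (nat_lit 45) (nat_lit 1) (nat_lit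 221) (nat_lit 160) (nat_lit 219)) (PT.lf (nat_lit 3572) (nat_lit 6) (nat_lit 47) (nat_lit 3) (nat_lit 219) (nat_lit 161) (nat_lit 220))))) (PT.nd (nat_lit 124722) (PT.nd (nat_lit 62400) (PT.nd (nat_lit 62322) (PT.lf (nat_lit 3572) (nat_lit 6) (nat_lit 47) (nat_lit 1) (nat_lit 220) (nat_lit 161) (nat_lit 219)) (PT.lf (nat_lit 3648) (nat_lit 6) (nat_lit 48) (nat_lit 3) (nat_lit 218) (nat_lit 162) (nat_lit 220))) (PT.nd (nat_lit 78) (PT.lf (nat_lit 3724) (nat_lit 3) (nat_lit 49) (nat_lit 1) (nat_lit 219) (nat_lit 162) (nat_lit 219)) (PT.lf (nat_lit 3648) (nat_lit 6) (nat_lit 48) (nat_lit 1) (nat_lit 220) (nat_lit 162) (nat_lit 218)))) (PT.nd (nat_lit 156) (PT.nd (nat_lit 78) (PT.lf (nat_lit 3800) (nat_lit 6) (nat_lit 50) (nat_lit 3) (nat_lit 217) (nat_lit 163) (nat_lit 220)) (PT.lf (nat_lit 3876) (nat_lit 6) (nat_lit 51) (nat_lit 3) (nat_lit 218) (nat_lit 163) (nat_lit 219))) (PT.nd (nat_lit 78) (PT.lf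 (nat_lit 3876) (nat_lit 6) (nat_lit 51) (nat_lit 1) (nat_lit 219) (nat_lit 163) (nat_lit 218)) (PT.lf (nat_lit 3800) (nat_lit 6) (nat_lit 50) (nat_lit 1) (nat_lit 220) (nat_lit 163) (nat_lit 217)))))) (PT.nd (nat_lit 124956) (PT.nd (nat_lit 62478) (PT.nd (nat_lit 156) (PT.nd (nat_lit 78) (PT.lf (nat_lit 3952) (nat_lit 6) (nat_lit 52) (nat_lit 3) (nat_lit 217) (nat_lit 164) (nat_lit 219)) (PT.lf (nat_lit 4028) (nat_lit 3) (nat_lit 53) (nat_lit 1) (nat_lit 218) (nat_lit 164) (nat_lit 218))) (PT.nd (nat_lit 62244) (PT.lf (nat_lit 3952) (nat_lit 6) (nat_lit 52) (nat_lit 1) (nat_lit 219) (nat_lit 164) (nat_lit 217)) (PT.lf (nat_lit 4104) (nat_lit 6) (nat_lit 54) (nat_lit 3) (nat_lit 216) (nat_lit 165) (nat_lit 219)))) (PT.nd (nat_lit 156) (PT.nd (nat_lit 78) (PT.lf (nat_lit 4180) (nat_lit 6) (nat_lit 55) (nat_lit 3) (nat_lit 217) (nat_lit 165) (nat_lit 218)) (PT.lf (nat_lit 4180) (nat_lit 6) (nat_lit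 55) (nat_lit 1) (nat_lit 218) (nat_lit 165) (nat_lit 217))) (PT.nd (nat_lit 62244) (PT.lf (nat_lit 4104) (nat_lit 6) (nat_lit 54) (nat_lit 1) (nat_lit 219) (nat_lit 165) (nat_lit 216)) (PT.lf (nat_lit 4256) (nat_lit 6) (nat_lit 56) (nat_lit 3) (nat_lit 216) (nat_lit 166) (nat_lit 218))))) (PT.nd (nat_lit 62478) (PT.nd (nat_lit 62322) (PT.nd (nat_lit 78) (PT.lf (nat_lit 4332) (nat_lit 3) (nat_lit 57) (nat_lit 1) (nat_lit 217) (nat_lit 166) (nat_lit 217)) (PT.lf (nat_lit 4256) (nat_lit 6) (nat_lit 56) (nat_lit 1) (nat_lit 218) (nat_lit 166) (nat_lit 216))) (PT.nd (nat_lit 78) (PT.lf (nat_lit 4408) (nat_lit 6) (nat_lit 58) (nat_lit 3) (nat_lit 215) (nat_lit 167) (nat_lit 218)) (PT.lf (nat_lit 4484) (nat_lit 6) (nat_lit 59) (nat_lit 3) (nat_lit 216) (nat_lit 167) (nat_lit 217)))) (PT.nd (nat_lit 62322) (PT.nd (nat_lit 78) (PT.lf (nat_lit 4484) (nat_lit 6) (nat_lit 59) (nat_lit 1) (nat_lit 217) (nat_lit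 167) (nat_lit 216)) (PT.lf (nat_lit 4408) (nat_lit 6) (nat_lit 58) (nat_lit 1) (nat_lit 218) (nat_lit 167) (nat_lit 215))) (PT.nd (nat_lit 78) (PT.lf (nat_lit 4560) (nat_lit 6) (nat_lit 60) (nat_lit 3) (nat_lit 215) (nat_lit 168) (nat_lit 217)) (PT.lf (nat_lit 4636) (nat_lit 3) (nat_lit 61) (nat_lit 1) (nat_lit 216) (nat_lit 168) (nat_lit 216)))))))
noncomputable def pc3 : PT := (PT.nd (nat_lit 249678) (PT.nd (nat_lit 124878) (PT.nd (nat_lit 62478) (PT.nd (nat_lit 62322) (PT.nd (nat_lit 62244) (PT.lf (nat_lit 4560) (nat_lit 6) (nat_lit 60) (nat_lit 1) (nat_lit 217) (nat_lit 168) (nat_lit 215)) (PT.lf (nat_lit 4712) (nat_lit 6) (nat_lit 62) (nat_lit 3) (nat_lit 214) (nat_lit 169) (nat_lit 217))) (PT.nd (nat_lit 78) (PT.lf (nat_lit 4788) (nat_lit 6) (nat_lit 63) (nat_lit 3) (nat_lit 215) (nat_lit 169) (nat_lit 216)) (PT.lf (nat_lit 4788) (nat_lit 6) (nat_lit 63) (nat_lit 1) (nat_lit 216) (nat_lit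 169) (nat_lit 215)))) (PT.nd (nat_lit 62244) (PT.nd (nat_lit 62166) (PT.lf (nat_lit 4712) (nat_lit 6) (nat_lit 62) (nat_lit 1) (nat_lit 217) (nat_lit 169) (nat_lit 214)) (PT.lf (nat_lit 4864) (nat_lit 6) (nat_lit 64) (nat_lit 3) (nat_lit 213) (nat_lit 170) (nat_lit 217))) (PT.nd (nat_lit 78) (PT.lf (nat_lit 4940) (nat_lit 6) (nat_lit 65) (nat_lit 3) (nat_lit 214) (nat_lit 170) (nat_lit 216)) (PT.lf (nat_lit 5016) (nat_lit 3) (nat_lit 66) (nat_lit 1) (nat_lit 215) (nat_lit 170) (nat_lit 215))))) (PT.nd (nat_lit 62400) (PT.nd (nat_lit 62244) (PT.nd (nat_lit 78) (PT.lf (nat_lit 4940) (nat_lit 6) (nat_lit 65) (nat_lit 1) (nat_lit 216) (nat_lit 170) (nat_lit 214)) (PT.lf (nat_lit 4864) (nat_lit 6) (nat_lit 64) (nat_lit 1) (nat_lit 217) (nat_lit 170) (nat_lit 213))) (PT.nd (nat_lit 78) (PT.lf (nat_lit 5092) (nat_lit 6) (nat_lit 67) (nat_lit 3) (nat_lit 213) (nat_lit 171) (nat_lit 216)) (PT.lf (nat_lit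 5168) (nat_lit 6) (nat_lit 68) (nat_lit 3) (nat_lit 214) (nat_lit 171) (nat_lit 215)))) (PT.nd (nat_lit 62244) (PT.nd (nat_lit 78) (PT.lf (nat_lit 5168) (nat_lit 6) (nat_lit 68) (nat_lit 1) (nat_lit 215) (nat_lit 171) (nat_lit 214)) (PT.lf (nat_lit 5092) (nat_lit 6) (nat_lit 67) (nat_lit 1) (nat_lit 216) (nat_lit 171) (nat_lit 213))) (PT.nd (nat_lit 78) (PT.lf (nat_lit 5244) (nat_lit 6) (nat_lit 69) (nat_lit 3) (nat_lit 212) (nat_lit 172) (nat_lit 216)) (PT.lf (nat_lit 5320) (nat_lit 6) (nat_lit 70) (nat_lit 3) (nat_lit 213) (nat_lit 172) (nat_lit 215)))))) (PT.nd (nat_lit 124800) (PT.nd (nat_lit 62400) (PT.nd (nat_lit 156) (PT.nd (nat_lit 78) (PT.lf (nat_lit 5396) (nat_lit 3) (nat_lit 71) (nat_lit 1) (nat_lit 214) (nat_lit 172) (nat_lit 214)) (PT.lf (nat_lit 5320) (nat_lit 6) (nat_lit 70) (nat_lit 1) (nat_lit 215) (nat_lit 172) (nat_lit 213))) (PT.nd (nat_lit 62166) (PT.lf (nat_lit 5244) (nat_lit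 6) (nat_lit 69) (nat_lit 1) (nat_lit 216) (nat_lit 172) (nat_lit 212)) (PT.lf (nat_lit 5472) (nat_lit 6) (nat_lit 72) (nat_lit 3) (nat_lit 212) (nat_lit 173) (nat_lit 215)))) (PT.nd (nat_lit 156) (PT.nd (nat_lit 78) (PT.lf (nat_lit 5548) (nat_lit 6) (nat_lit 73) (nat_lit 3) (nat_lit 213) (nat_lit 173) (nat_lit 214)) (PT.lf (nat_lit 5548) (nat_lit 6) (nat_lit 73) (nat_lit 1) (nat_lit 214) (nat_lit 173) (nat_lit 213))) (PT.nd (nat_lit 62166) (PT.lf (nat_lit 5472) (nat_lit 6) (nat_lit 72) (nat_lit 1) (nat_lit 215) (nat_lit 173) (nat_lit 212)) (PT.lf (nat_lit 5624) (nat_lit 6) (nat_lit 74) (nat_lit 3) (nat_lit 211) (nat_lit 174) (nat_lit 215))))) (PT.nd (nat_lit 62322) (PT.nd (nat_lit 156) (PT.nd (nat_lit 78) (PT.lf (nat_lit 5700) (nat_lit 6) (nat_lit 75) (nat_lit 3) (nat_lit 212) (nat_lit 174) (nat_lit 214)) (PT.lf (nat_lit 5776) (nat_lit 3) (nat_lit 76) (nat_lit 1) (nat_lit 213) (nat_lit 174) (nat_lit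 213))) (PT.nd (nat_lit 78) (PT.lf (nat_lit 5700) (nat_lit 6) (nat_lit 75) (nat_lit 1) (nat_lit 214) (nat_lit 174) (nat_lit 212)) (PT.lf (nat_lit 5624) (nat_lit 6) (nat_lit 74) (nat_lit 1) (nat_lit 215) (nat_lit 174) (nat_lit 211)))) (PT.nd (nat_lit 156) (PT.nd (nat_lit 78) (PT.lf (nat_lit 5852) (nat_lit 6) (nat_lit 77) (nat_lit 3) (nat_lit 210) (nat_lit 175) (nat_lit 215)) (PT.lf (nat_lit 5928) (nat_lit 6) (nat_lit 78) (nat_lit 3) (nat_lit 211) (nat_lit 175) (nat_lit 214))) (PT.nd (nat_lit 78) (PT.lf (nat_lit 6004) (nat_lit 6) (nat_lit 79) (nat_lit 3) (nat_lit 212) (nat_lit 175) (nat_lit 213)) (PT.nd (nat_lit 78) (PT.lf (nat_lit 6004) (nat_lit 6) (nat_lit 79) (nat_lit 1) (nat_lit 213) (nat_lit 175) (nat_lit 212)) (PT.lf (nat_lit 5928) (nat_lit 6) (nat_lit 78) (nat_lit 1) (nat_lit 214) (nat_lit 175) (nat_lit 211))))))))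
noncomputable def pc4 : PT := (PT.nd (nat_lit 187278) (PT.nd (nat_lit 124644) (PT.nd (nat_lit 62322) (PT.nd (nat_lit 62166) (PT.nd (nat_lit 62088) (PT.lf (nat_lit 5852) (nat_lit 6) (nat_lit 77) (nat_lit 1) (nat_lit 215) (nat_lit 175) (nat_lit 210)) (PT.lf (nat_lit 6080) (nat_lit 6) (nat_lit 80) (nat_lit 3) (nat_lit 210) (nat_lit 176) (nat_lit 214))) (PT.nd (nat_lit 78) (PT.lf (nat_lit 6156) (nat_lit 6) (nat_lit 81) (nat_lit 3) (nat_lit 211) (nat_lit 176) (nat_lit 213)) (PT.lf (nat_lit 6232) (nat_lit 3) (nat_lit 82) (nat_lit 1) (nat_lit 212) (nat_lit 176) (nat_lit 212)))) (PT.nd (nat_lit 62166) (PT.nd (nat_lit 78) (PT.lf (nat_lit 6156) (nat_lit 6) (nat_lit 81) (nat_lit 1) (nat_lit 213) (nat_lit 176) (nat_lit 211)) (PT.lf (nat_lit 6080) (nat_lit 6) (nat_lit 80) (nat_lit 1) (nat_lit 214) (nat_lit 176) (nat_lit 210))) (PT.nd (nat_lit 78) (PT.lf (nat_lit 6308) (nat_lit 6) (nat_lit 83) (nat_lit 3) (nat_lit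 209) (nat_lit 177) (nat_lit 214)) (PT.lf (nat_lit 6384) (nat_lit 6) (nat_lit 84) (nat_lit 3) (nat_lit 210) (nat_lit 177) (nat_lit 213))))) (PT.nd (nat_lit 62322) (PT.nd (nat_lit 156) (PT.nd (nat_lit 78) (PT.lf (nat_lit 6460) (nat_lit 6) (nat_lit 85) (nat_lit 3) (nat_lit 211) (nat_lit 177) (nat_lit 212)) (PT.lf (nat_lit 6460) (nat_lit 6) (nat_lit 85) (nat_lit 1) (nat_lit 212) (nat_lit 177) (nat_lit 211))) (PT.nd (nat_lit 78) (PT.lf (nat_lit 6384) (nat_lit 6) (nat_lit 84) (nat_lit 1) (nat_lit 213) (nat_lit 177) (nat_lit 210)) (PT.lf (nat_lit 6308) (nat_lit 6) (nat_lit 83) (nat_lit 1) (nat_lit 214) (nat_lit 177) (nat_lit 209)))) (PT.nd (nat_lit 156) (PT.nd (nat_lit 78) (PT.lf (nat_lit 6536) (nat_lit 6) (nat_lit 86) (nat_lit 3) (nat_lit 209) (nat_lit 178) (nat_lit 213)) (PT.lf (nat_lit 6612) (nat_lit 6) (nat_lit 87) (nat_lit 3) (nat_lit 210) (nat_lit 178) (nat_lit 212))) (PT.nd (nat_lit 78) (PT.lf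 (nat_lit 6688) (nat_lit 3) (nat_lit 88) (nat_lit 1) (nat_lit 211) (nat_lit 178) (nat_lit 211)) (PT.lf (nat_lit 6612) (nat_lit 6) (nat_lit 87) (nat_lit 1) (nat_lit 212) (nat_lit 178) (nat_lit 210)))))) (PT.nd (nat_lit 124566) (PT.nd (nat_lit 62322) (PT.nd (nat_lit 62166) (PT.nd (nat_lit 62088) (PT.lf (nat_lit 6536) (nat_lit 6) (nat_lit 86) (nat_lit 1) (nat_lit 213) (nat_lit 178) (nat_lit 209)) (PT.lf (nat_lit 6764) (nat_lit 6) (nat_lit 89) (nat_lit 3) (nat_lit 208) (nat_lit 179) (nat_lit 213))) (PT.nd (nat_lit 78) (PT.lf (nat_lit 6840) (nat_lit 6) (nat_lit 90) (nat_lit 3) (nat_lit 209) (nat_lit 179) (nat_lit 212)) (PT.lf (nat_lit 6916) (nat_lit 6) (nat_lit 91) (nat_lit 3) (nat_lit 210) (nat_lit 179) (nat_lit 211)))) (PT.nd (nat_lit 156) (PT.nd (nat_lit 78) (PT.lf (nat_lit 6916) (nat_lit 6) (nat_lit 91) (nat_lit 1) (nat_lit 211) (nat_lit 179) (nat_lit 210)) (PT.lf (nat_lit 6840) (nat_lit 6) (nat_lit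 90) (nat_lit 1) (nat_lit 212) (nat_lit 179) (nat_lit 209))) (PT.nd (nat_lit 62010) (PT.lf (nat_lit 6764) (nat_lit 6) (nat_lit 89) (nat_lit 1) (nat_lit 213) (nat_lit 179) (nat_lit 208)) (PT.lf (nat_lit 6992) (nat_lit 6) (nat_lit 92) (nat_lit 3) (nat_lit 207) (nat_lit 180) (nat_lit 213))))) (PT.nd (nat_lit 312) (PT.nd (nat_lit 156) (PT.nd (nat_lit 78) (PT.lf (nat_lit 7068) (nat_lit 6) (nat_lit 93) (nat_lit 3) (nat_lit 208) (nat_lit 180) (nat_lit 212)) (PT.lf (nat_lit 7144) (nat_lit 6) (nat_lit 94) (nat_lit 3) (nat_lit 209) (nat_lit 180) (nat_lit 211))) (PT.nd (nat_lit 78) (PT.lf (nat_lit 7220) (nat_lit 3) (nat_lit 95) (nat_lit 1) (nat_lit 210) (nat_lit 180) (nat_lit 210)) (PT.lf (nat_lit 7144) (nat_lit 6) (nat_lit 94) (nat_lit 1) (nat_lit 211) (nat_lit 180) (nat_lit 209)))) (PT.nd (nat_lit 62088) (PT.nd (nat_lit 78) (PT.lf (nat_lit 7068) (nat_lit 6) (nat_lit 93) (nat_lit 1) (nat_lit 212) (nat_lit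 180) (nat_lit 208)) (PT.lf (nat_lit 6992) (nat_lit 6) (nat_lit 92) (nat_lit 1) (nat_lit 213) (nat_lit 180) (nat_lit 207))) (PT.nd (nat_lit 78) (PT.lf (nat_lit 7296) (nat_lit 6) (nat_lit 96) (nat_lit 3) (nat_lit 207) (nat_lit 181) (nat_lit 212)) (PT.lf (nat_lit 7372) (nat_lit 6) (nat_lit 97) (nat_lit 3) (nat_lit 208) (nat_lit 181) (nat_lit 211)))))))
noncomputable def pc5 : PT := (PT.nd (nat_lit 125034) (PT.nd (nat_lit 62556) (PT.nd (nat_lit 62244) (PT.nd (nat_lit 156) (PT.nd (nat_lit 78) (PT.lf (nat_lit 7448) (nat_lit 6) (nat_lit 98) (nat_lit 3) (nat_lit 209) (nat_lit 181) (nat_lit 210)) (PT.lf (nat_lit 7448) (nat_lit 6) (nat_lit 98) (nat_lit 1) (nat_lit 210) (nat_lit 181) (nat_lit 209))) (PT.nd (nat_lit 78) (PT.lf (nat_lit 7372) (nat_lit 6) (nat_lit 97) (nat_lit 1) (nat_lit 211) (nat_lit 181) (nat_lit 208)) (PT.lf (nat_lit 7296) (nat_lit 6) (nat_lit 96) (nat_lit 1) (nat_lit 212) (nat_lit 181)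 (nat_lit 207)))) (PT.nd (nat_lit 156) (PT.nd (nat_lit 78) (PT.lf (nat_lit 7524) (nat_lit 6) (nat_lit 99) (nat_lit 3) (nat_lit 206) (nat_lit 182) (nat_lit 212)) (PT.lf (nat_lit 7600) (nat_lit 6) (nat_lit 100) (nat_lit 3) (nat_lit 207) (nat_lit 182) (nat_lit 211))) (PT.nd (nat_lit 78) (PT.lf (nat_lit 7676) (nat_lit 6) (nat_lit 101) (nat_lit 3) (nat_lit 208) (nat_lit 182) (nat_lit 210)) (PT.lf (nat_lit 7752) (nat_lit 3) (nat_lit 102) (nat_lit 1) (nat_lit 209) (nat_lit 182) (nat_lit 209))))) (PT.nd (nat_lit 62166) (PT.nd (nat_lit 156) (PT.nd (nat_lit 78) (PT.lf (nat_lit 7676) (nat_lit 6) (nat_lit 101) (nat_lit 1) (nat_lit 210) (nat_lit 182) (nat_lit 208)) (PT.lf (nat_lit 7600) (nat_lit 6) (nat_lit 100) (nat_lit 1) (nat_lit 211) (nat_lit 182) (nat_lit 207))) (PT.nd (nat_lit 61932) (PT.lf (nat_lit 7524) (nat_lit 6) (nat_lit 99) (nat_lit 1) (nat_lit 212) (nat_lit 182) (nat_lit 206)) (PT.lf (nat_lit 7828)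 (nat_lit 6) (nat_lit 103) (nat_lit 3) (nat_lit 205) (nat_lit 183) (nat_lit 212)))) (PT.nd (nat_lit 156) (PT.nd (nat_lit 78) (PT.lf (nat_lit 7904) (nat_lit 6) (nat_lit 104) (nat_lit 3) (nat_lit 206) (nat_lit 183) (nat_lit 211)) (PT.lf (nat_lit 7980) (nat_lit 6) (nat_lit 105) (nat_lit 3) (nat_lit 207) (nat_lit 183) (nat_lit 210))) (PT.nd (nat_lit 78) (PT.lf (nat_lit 8056) (nat_lit 6) (nat_lit 106) (nat_lit 3) (nat_lit 208) (nat_lit 183) (nat_lit 209)) (PT.lf (nat_lit 8056) (nat_lit 6) (nat_lit 106) (nat_lit 1) (nat_lit 209) (nat_lit 183) (nat_lit 208)))))) (PT.nd (nat_lit 62400) (PT.nd (nat_lit 62088) (PT.nd (nat_lit 156) (PT.nd (nat_lit 78) (PT.lf (nat_lit 7980) (nat_lit 6) (nat_lit 105) (nat_lit 1) (nat_lit 210) (nat_lit 183) (nat_lit 207)) (PT.lf (nat_lit 7904) (nat_lit 6) (nat_lit 104) (nat_lit 1) (nat_lit 211) (nat_lit 183) (nat_lit 206))) (PT.nd (nat_lit 61854) (PT.lf (nat_lit 7828) (nat_lit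 6) (nat_lit 103) (nat_lit 1) (nat_lit 212) (nat_lit 183) (nat_lit 205)) (PT.lf (nat_lit 8132) (nat_lit 6) (nat_lit 107) (nat_lit 3) (nat_lit 204) (nat_lit 184) (nat_lit 212)))) (PT.nd (nat_lit 156) (PT.nd (nat_lit 78) (PT.lf (nat_lit 8208) (nat_lit 6) (nat_lit 108) (nat_lit 3) (nat_lit 205) (nat_lit 184) (nat_lit 211)) (PT.lf (nat_lit 8284) (nat_lit 6) (nat_lit 109) (nat_lit 3) (nat_lit 206) (nat_lit 184) (nat_lit 210))) (PT.nd (nat_lit 78) (PT.lf (nat_lit 8360) (nat_lit 6) (nat_lit 110) (nat_lit 3) (nat_lit 207) (nat_lit 184) (nat_lit 209)) (PT.lf (nat_lit 8436) (nat_lit 3) (nat_lit 111) (nat_lit 1) (nat_lit 208) (nat_lit 184) (nat_lit 208))))) (PT.nd (nat_lit 62088) (PT.nd (nat_lit 156) (PT.nd (nat_lit 78) (PT.lf (nat_lit 8360) (nat_lit 6) (nat_lit 110) (nat_lit 1) (nat_lit 209) (nat_lit 184) (nat_lit 207)) (PT.lf (nat_lit 8284) (nat_lit 6) (nat_lit 109) (nat_lit 1) (nat_lit 210) (nat_lit 184)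 (nat_lit 206))) (PT.nd (nat_lit 78) (PT.lf (nat_lit 8208) (nat_lit 6) (nat_lit 108) (nat_lit 1) (nat_lit 211) (nat_lit 184) (nat_lit 205)) (PT.lf (nat_lit 8132) (nat_lit 6) (nat_lit 107) (nat_lit 1) (nat_lit 212) (nat_lit 184) (nat_lit 204)))) (PT.nd (nat_lit 156) (PT.nd (nat_lit 78) (PT.lf (nat_lit 8512) (nat_lit 6) (nat_lit 112) (nat_lit 3) (nat_lit 204) (nat_lit 185) (nat_lit 211)) (PT.lf (nat_lit 8588) (nat_lit 6) (nat_lit 113) (nat_lit 3) (nat_lit 205) (nat_lit 185) (nat_lit 210))) (PT.nd (nat_lit 78) (PT.lf (nat_lit 8664) (nat_lit 6) (nat_lit 114) (nat_lit 3) (nat_lit 206) (nat_lit 185) (nat_lit 209)) (PT.nd (nat_lit 78) (PT.lf (nat_lit 8740) (nat_lit 6) (nat_lit 115) (nat_lit 3) (nat_lit 207) (nat_lit 185) (nat_lit 208)) (PT.lf (nat_lit 8740) (nat_lit 6) (nat_lit 115) (nat_lit 1) (nat_lit 208) (nat_lit 185) (nat_lit 207))))))))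
noncomputable def pc6 : PT := (PT.nd (nat_lit 124722) (PT.nd (nat_lit 62400) (PT.nd (nat_lit 62088) (PT.nd (nat_lit 156) (PT.nd (nat_lit 78) (PT.lf (nat_lit 8664) (nat_lit 6) (nat_lit 114) (nat_lit 1) (nat_lit 209) (nat_lit 185) (nat_lit 206)) (PT.lf (nat_lit 8588) (nat_lit 6) (nat_lit 113) (nat_lit 1) (nat_lit 210) (nat_lit 185) (nat_lit 205))) (PT.nd (nat_lit 61854) (PT.lf (nat_lit 8512) (nat_lit 6) (nat_lit 112) (nat_lit 1) (nat_lit 211) (nat_lit 185) (nat_lit 204)) (PT.lf (nat_lit 8816) (nat_lit 6) (nat_lit 116) (nat_lit 3) (nat_lit 203) (nat_lit 186) (nat_lit 211)))) (PT.nd (nat_lit 156) (PT.nd (nat_lit 78) (PT.lf (nat_lit 8892) (nat_lit 6) (nat_lit 117) (nat_lit 3) (nat_lit 204) (nat_lit 186) (nat_lit 210)) (PT.lf (nat_lit 8968) (nat_lit 6) (nat_lit 118) (nat_lit 3) (nat_lit 205) (nat_lit 186) (nat_lit 209))) (PT.nd (nat_lit 78) (PT.lf (nat_lit 9044) (nat_lit 6) (nat_lit 119) (nat_lit 3)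 (nat_lit 206) (nat_lit 186) (nat_lit 208)) (PT.lf (nat_lit 9120) (nat_lit 3) (nat_lit 120) (nat_lit 1) (nat_lit 207) (nat_lit 186) (nat_lit 207))))) (PT.nd (nat_lit 62010) (PT.nd (nat_lit 156) (PT.nd (nat_lit 78) (PT.lf (nat_lit 9044) (nat_lit 6) (nat_lit 119) (nat_lit 1) (nat_lit 208) (nat_lit 186) (nat_lit 206)) (PT.lf (nat_lit 8968) (nat_lit 6) (nat_lit 118) (nat_lit 1) (nat_lit 209) (nat_lit 186) (nat_lit 205))) (PT.nd (nat_lit 78) (PT.lf (nat_lit 8892) (nat_lit 6) (nat_lit 117) (nat_lit 1) (nat_lit 210) (nat_lit 186) (nat_lit 204)) (PT.lf (nat_lit 8816) (nat_lit 6) (nat_lit 116) (nat_lit 1) (nat_lit 211) (nat_lit 186) (nat_lit 203)))) (PT.nd (nat_lit 156) (PT.nd (nat_lit 78) (PT.lf (nat_lit 9196) (nat_lit 6) (nat_lit 121) (nat_lit 3) (nat_lit 202) (nat_lit 187) (nat_lit 211)) (PT.lf (nat_lit 9272) (nat_lit 6) (nat_lit 122) (nat_lit 3) (nat_lit 203) (nat_lit 187) (nat_lit 210))) (PT.nd (nat_lit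 78) (PT.lf (nat_lit 9348) (nat_lit 6) (nat_lit 123) (nat_lit 3) (nat_lit 204) (nat_lit 187) (nat_lit 209)) (PT.lf (nat_lit 9424) (nat_lit 6) (nat_lit 124) (nat_lit 3) (nat_lit 205) (nat_lit 187) (nat_lit 208)))))) (PT.nd (nat_lit 62244) (PT.nd (nat_lit 312) (PT.nd (nat_lit 156) (PT.nd (nat_lit 78) (PT.lf (nat_lit 9500) (nat_lit 6) (nat_lit 125) (nat_lit 3) (nat_lit 206) (nat_lit 187) (nat_lit 207)) (PT.lf (nat_lit 9500) (nat_lit 6) (nat_lit 125) (nat_lit 1) (nat_lit 207) (nat_lit 187) (nat_lit 206))) (PT.nd (nat_lit 78) (PT.lf (nat_lit 9424) (nat_lit 6) (nat_lit 124) (nat_lit 1) (nat_lit 208) (nat_lit 187) (nat_lit 205)) (PT.lf (nat_lit 9348) (nat_lit 6) (nat_lit 123) (nat_lit 1) (nat_lit 209) (nat_lit 187) (nat_lit 204)))) (PT.nd (nat_lit 61776) (PT.nd (nat_lit 78) (PT.lf (nat_lit 9272) (nat_lit 6) (nat_lit 122) (nat_lit 1) (nat_lit 210) (nat_lit 187) (nat_lit 203)) (PT.lf (nat_lit 9196) (nat_lit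 6) (nat_lit 121) (nat_lit 1) (nat_lit 211) (nat_lit 187) (nat_lit 202))) (PT.nd (nat_lit 78) (PT.lf (nat_lit 9576) (nat_lit 6) (nat_lit 126) (nat_lit 3) (nat_lit 201) (nat_lit 188) (nat_lit 211)) (PT.lf (nat_lit 9652) (nat_lit 6) (nat_lit 127) (nat_lit 3) (nat_lit 202) (nat_lit 188) (nat_lit 210))))) (PT.nd (nat_lit 312) (PT.nd (nat_lit 156) (PT.nd (nat_lit 78) (PT.lf (nat_lit 9728) (nat_lit 6) (nat_lit 128) (nat_lit 3) (nat_lit 203) (nat_lit 188) (nat_lit 209)) (PT.lf (nat_lit 9804) (nat_lit 6) (nat_lit 129) (nat_lit 3) (nat_lit 204) (nat_lit 188) (nat_lit 208))) (PT.nd (nat_lit 78) (PT.lf (nat_lit 9880) (nat_lit 6) (nat_lit 130) (nat_lit 3) (nat_lit 205) (nat_lit 188) (nat_lit 207)) (PT.lf (nat_lit 9956) (nat_lit 3) (nat_lit 131) (nat_lit 1) (nat_lit 206) (nat_lit 188) (nat_lit 206)))) (PT.nd (nat_lit 156) (PT.nd (nat_lit 78) (PT.lf (nat_lit 9880) (nat_lit 6) (nat_lit 130) (nat_lit 1) (nat_lit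 207) (nat_lit 188) (nat_lit 205)) (PT.lf (nat_lit 9804) (nat_lit 6) (nat_lit 129) (nat_lit 1) (nat_lit 208) (nat_lit 188) (nat_lit 204))) (PT.nd (nat_lit 78) (PT.lf (nat_lit 9728) (nat_lit 6) (nat_lit 128) (nat_lit 1) (nat_lit 209) (nat_lit 188) (nat_lit 203)) (PT.nd (nat_lit 78) (PT.lf (nat_lit 9652) (nat_lit 6) (nat_lit 127) (nat_lit 1) (nat_lit 210) (nat_lit 188) (nat_lit 202)) (PT.lf (nat_lit 9576) (nat_lit 6) (nat_lit 126) (nat_lit 1) (nat_lit 211) (nat_lit 188) (nat_lit 201))))))))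
noncomputable def pc7 : PT := (PT.nd (nat_lit 62868) (PT.nd (nat_lit 624) (PT.nd (nat_lit 312) (PT.nd (nat_lit 156) (PT.nd (nat_lit 78) (PT.lf (nat_lit 10032) (nat_lit 6) (nat_lit 132) (nat_lit 3) (nat_lit 201) (nat_lit 189) (nat_lit 210)) (PT.lf (nat_lit 10108) (nat_lit 6) (nat_lit 133) (nat_lit 3) (nat_lit 202) (nat_lit 189) (nat_lit 209))) (PT.nd (nat_lit 78) (PT.lf (nat_lit 10184) (nat_lit 6) (nat_lit 134) (nat_lit 3) (nat_lit 203) (nat_lit 189) (nat_lit 208)) (PT.lf (nat_lit 10260) (nat_lit 6) (nat_lit 135) (nat_lit 3) (nat_lit 204) (nat_lit 189) (nat_lit 207)))) (PT.nd (nat_lit 156) (PT.nd (nat_lit 78) (PT.lf (nat_lit 10336) (nat_lit 6) (nat_lit 136) (nat_lit 3) (nat_lit 205) (nat_lit 189) (nat_lit 206)) (PT.lf (nat_lit 10336) (nat_lit 6) (nat_lit 136) (nat_lit 1) (nat_lit 206) (nat_lit 189) (nat_lit 205))) (PT.nd (nat_lit 78) (PT.lf (nat_lit 10260) (nat_lit 6) (nat_lit 135) (nat_lit 1) (nat_lit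 207) (nat_lit 189) (nat_lit 204)) (PT.lf (nat_lit 10184) (nat_lit 6) (nat_lit 134) (nat_lit 1) (nat_lit 208) (nat_lit 189) (nat_lit 203))))) (PT.nd (nat_lit 61932) (PT.nd (nat_lit 61776) (PT.nd (nat_lit 78) (PT.lf (nat_lit 10108) (nat_lit 6) (nat_lit 133) (nat_lit 1) (nat_lit 209) (nat_lit 189) (nat_lit 202)) (PT.lf (nat_lit 10032) (nat_lit 6) (nat_lit 132) (nat_lit 1) (nat_lit 210) (nat_lit 189) (nat_lit 201))) (PT.nd (nat_lit 78) (PT.lf (nat_lit 10792) (nat_lit 6) (nat_lit 142) (nat_lit 3) (nat_lit 200) (nat_lit 190) (nat_lit 210)) (PT.lf (nat_lit 10868) (nat_lit 6) (nat_lit 143) (nat_lit 3) (nat_lit 201) (nat_lit 190) (nat_lit 209)))) (PT.nd (nat_lit 156) (PT.nd (nat_lit 78) (PT.lf (nat_lit 10944) (nat_lit 6) (nat_lit 144) (nat_lit 3) (nat_lit 202) (nat_lit 190) (nat_lit 208)) (PT.lf (nat_lit 11020) (nat_lit 6) (nat_lit 145) (nat_lit 3) (nat_lit 203) (nat_lit 190) (nat_lit 207))) (PT.nd (nat_lit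 78) (PT.lf (nat_lit 11096) (nat_lit 6) (nat_lit 146) (nat_lit 3) (nat_lit 204) (nat_lit 190) (nat_lit 206)) (PT.lf (nat_lit 11172) (nat_lit 3) (nat_lit 147) (nat_lit 1) (nat_lit 205) (nat_lit 190) (nat_lit 205)))))) (PT.nd (nat_lit 62166) (PT.nd (nat_lit 312) (PT.nd (nat_lit 156) (PT.nd (nat_lit 78) (PT.lf (nat_lit 11096) (nat_lit 6) (nat_lit 146) (nat_lit 1) (nat_lit 206) (nat_lit 190) (nat_lit 204)) (PT.lf (nat_lit 11020) (nat_lit 6) (nat_lit 145) (nat_lit 1) (nat_lit 207) (nat_lit 190) (nat_lit 203))) (PT.nd (nat_lit 78) (PT.lf (nat_lit 10944) (nat_lit 6) (nat_lit 144) (nat_lit 1) (nat_lit 208) (nat_lit 190) (nat_lit 202)) (PT.lf (nat_lit 10868) (nat_lit 6) (nat_lit 143) (nat_lit 1) (nat_lit 209) (nat_lit 190) (nat_lit 201)))) (PT.nd (nat_lit 61698) (PT.nd (nat_lit 61620) (PT.lf (nat_lit 10792) (nat_lit 6) (nat_lit 142) (nat_lit 1) (nat_lit 210) (nat_lit 190) (nat_lit 200)) (PT.lf (nat_lit 10716)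 (nat_lit 6) (nat_lit 141) (nat_lit 3) (nat_lit 199) (nat_lit 191) (nat_lit 210))) (PT.nd (nat_lit 78) (PT.lf (nat_lit 11552) (nat_lit 6) (nat_lit 152) (nat_lit 3) (nat_lit 200) (nat_lit 191) (nat_lit 209)) (PT.lf (nat_lit 11628) (nat_lit 6) (nat_lit 153) (nat_lit 3) (nat_lit 201) (nat_lit 191) (nat_lit 208))))) (PT.nd (nat_lit 312) (PT.nd (nat_lit 156) (PT.nd (nat_lit 78) (PT.lf (nat_lit 11704) (nat_lit 6) (nat_lit 154) (nat_lit 3) (nat_lit 202) (nat_lit 191) (nat_lit 207)) (PT.lf (nat_lit 11780) (nat_lit 6) (nat_lit 155) (nat_lit 3) (nat_lit 203) (nat_lit 191) (nat_lit 206))) (PT.nd (nat_lit 78) (PT.lf (nat_lit 11856) (nat_lit 6) (nat_lit 156) (nat_lit 3) (nat_lit 204) (nat_lit 191) (nat_lit 205)) (PT.lf (nat_lit 11856) (nat_lit 6) (nat_lit 156) (nat_lit 1) (nat_lit 205) (nat_lit 191) (nat_lit 204)))) (PT.nd (nat_lit 156) (PT.nd (nat_lit 78) (PT.lf (nat_lit 11780) (nat_lit 6) (nat_lit 155) (nat_lit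 1) (nat_lit 206) (nat_lit 191) (nat_lit 203)) (PT.lf (nat_lit 11704) (nat_lit 6) (nat_lit 154) (nat_lit 1) (nat_lit 207) (nat_lit 191) (nat_lit 202))) (PT.nd (nat_lit 78) (PT.lf (nat_lit 11628) (nat_lit 6) (nat_lit 153) (nat_lit 1) (nat_lit 208) (nat_lit 191) (nat_lit 201)) (PT.nd (nat_lit 78) (PT.lf (nat_lit 11552) (nat_lit 6) (nat_lit 152) (nat_lit 1) (nat_lit 209) (nat_lit 191) (nat_lit 200)) (PT.lf (nat_lit 10716) (nat_lit 6) (nat_lit 141) (nat_lit 1) (nat_lit 210) (nat_lit 191) (nat_lit 199))))))))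
noncomputable def pc8 : PT := (PT.nd (nat_lit 62634) (PT.nd (nat_lit 624) (PT.nd (nat_lit 312) (PT.nd (nat_lit 156) (PT.nd (nat_lit 78) (PT.lf (nat_lit 10640) (nat_lit 6) (nat_lit 140) (nat_lit 3) (nat_lit 198) (nat_lit 192) (nat_lit 210)) (PT.lf (nat_lit 11476) (nat_lit 6) (nat_lit 151) (nat_lit 3) (nat_lit 199) (nat_lit 192) (nat_lit 209))) (PT.nd (nat_lit 78) (PT.lf (nat_lit 12236) (nat_lit 6) (nat_lit 161) (nat_lit 3) (nat_lit 200) (nat_lit 192) (nat_lit 208)) (PT.lf (nat_lit 12312) (nat_lit 6) (nat_lit 162) (nat_lit 3) (nat_lit 201) (nat_lit 192) (nat_lit 207)))) (PT.nd (nat_lit 156) (PT.nd (nat_lit 78) (PT.lf (nat_lit 12388) (nat_lit 6) (nat_lit 163) (nat_lit 3) (nat_lit 202) (nat_lit 192) (nat_lit 206)) (PT.lf (nat_lit 12464) (nat_lit 6) (nat_lit 164) (nat_lit 3) (nat_lit 203) (nat_lit 192) (nat_lit 205))) (PT.nd (nat_lit 78) (PT.lf (nat_lit 12540) (nat_lit 3) (nat_lit 165) (nat_lit 1) (nat_lit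 204) (nat_lit 192) (nat_lit 204)) (PT.lf (nat_lit 12464) (nat_lit 6) (nat_lit 164) (nat_lit 1) (nat_lit 205) (nat_lit 192) (nat_lit 203))))) (PT.nd (nat_lit 312) (PT.nd (nat_lit 156) (PT.nd (nat_lit 78) (PT.lf (nat_lit 12388) (nat_lit 6) (nat_lit 163) (nat_lit 1) (nat_lit 206) (nat_lit 192) (nat_lit 202)) (PT.lf (nat_lit 12312) (nat_lit 6) (nat_lit 162) (nat_lit 1) (nat_lit 207) (nat_lit 192) (nat_lit 201))) (PT.nd (nat_lit 78) (PT.lf (nat_lit 12236) (nat_lit 6) (nat_lit 161) (nat_lit 1) (nat_lit 208) (nat_lit 192) (nat_lit 200)) (PT.lf (nat_lit 11476) (nat_lit 6) (nat_lit 151) (nat_lit 1) (nat_lit 209) (nat_lit 192) (nat_lit 199)))) (PT.nd (nat_lit 61542) (PT.nd (nat_lit 61464) (PT.lf (nat_lit 10640) (nat_lit 6) (nat_lit 140) (nat_lit 1) (nat_lit 210) (nat_lit 192) (nat_lit 198)) (PT.lf (nat_lit 10564) (nat_lit 6) (nat_lit 139) (nat_lit 3) (nat_lit 197) (nat_lit 193) (nat_lit 210))) (PT.nd (nat_lit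 78) (PT.lf (nat_lit 11400) (nat_lit 6) (nat_lit 150) (nat_lit 3) (nat_lit 198) (nat_lit 193) (nat_lit 209)) (PT.lf (nat_lit 12160) (nat_lit 6) (nat_lit 160) (nat_lit 3) (nat_lit 199) (nat_lit 193) (nat_lit 208)))))) (PT.nd (nat_lit 624) (PT.nd (nat_lit 312) (PT.nd (nat_lit 156) (PT.nd (nat_lit 78) (PT.lf (nat_lit 12844) (nat_lit 6) (nat_lit 169) (nat_lit 3) (nat_lit 200) (nat_lit 193) (nat_lit 207)) (PT.lf (nat_lit 12920) (nat_lit 6) (nat_lit 170) (nat_lit 3) (nat_lit 201) (nat_lit 193) (nat_lit 206))) (PT.nd (nat_lit 78) (PT.lf (nat_lit 12996) (nat_lit 6) (nat_lit 171) (nat_lit 3) (nat_lit 202) (nat_lit 193) (nat_lit 205)) (PT.lf (nat_lit 13072) (nat_lit 6) (nat_lit 172) (nat_lit 3) (nat_lit 203) (nat_lit 193) (nat_lit 204)))) (PT.nd (nat_lit 156) (PT.nd (nat_lit 78) (PT.lf (nat_lit 13072) (nat_lit 6) (nat_lit 172) (nat_lit 1) (nat_lit 204) (nat_lit 193) (nat_lit 203)) (PT.lf (nat_lit 12996) (nat_lit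 6) (nat_lit 171) (nat_lit 1) (nat_lit 205) (nat_lit 193) (nat_lit 202))) (PT.nd (nat_lit 78) (PT.lf (nat_lit 12920) (nat_lit 6) (nat_lit 170) (nat_lit 1) (nat_lit 206) (nat_lit 193) (nat_lit 201)) (PT.lf (nat_lit 12844) (nat_lit 6) (nat_lit 169) (nat_lit 1) (nat_lit 207) (nat_lit 193) (nat_lit 200))))) (PT.nd (nat_lit 61620) (PT.nd (nat_lit 156) (PT.nd (nat_lit 78) (PT.lf (nat_lit 12160) (nat_lit 6) (nat_lit 160) (nat_lit 1) (nat_lit 208) (nat_lit 193) (nat_lit 199)) (PT.lf (nat_lit 11400) (nat_lit 6) (nat_lit 150) (nat_lit 1) (nat_lit 209) (nat_lit 193) (nat_lit 198))) (PT.nd (nat_lit 61386) (PT.lf (nat_lit 10564) (nat_lit 6) (nat_lit 139) (nat_lit 1) (nat_lit 210) (nat_lit 193) (nat_lit 197)) (PT.lf (nat_lit 10488) (nat_lit 6) (nat_lit 138) (nat_lit 3) (nat_lit 196) (nat_lit 194) (nat_lit 210)))) (PT.nd (nat_lit 156) (PT.nd (nat_lit 78) (PT.lf (nat_lit 11324) (nat_lit 6) (nat_lit 149) (nat_lit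 3) (nat_lit 197) (nat_lit 194) (nat_lit 209)) (PT.lf (nat_lit 12084) (nat_lit 6) (nat_lit 159) (nat_lit 3) (nat_lit 198) (nat_lit 194) (nat_lit 208))) (PT.nd (nat_lit 78) (PT.lf (nat_lit 12768) (nat_lit 6) (nat_lit 168) (nat_lit 3) (nat_lit 199) (nat_lit 194) (nat_lit 207)) (PT.lf (nat_lit 13376) (nat_lit 6) (nat_lit 176) (nat_lit 3) (nat_lit 200) (nat_lit 194) (nat_lit 206)))))))
noncomputable def pc9 : PT := (PT.nd (nat_lit 62478) (PT.nd (nat_lit 624) (PT.nd (nat_lit 312) (PT.nd (nat_lit 156) (PT.nd (nat_lit 78) (PT.lf (nat_lit 13452) (nat_lit 6) (nat_lit 177) (nat_lit 3) (nat_lit 201) (nat_lit 194) (nat_lit 205)) (PT.lf (nat_lit 13528) (nat_lit 6) (nat_lit 178) (nat_lit 3) (nat_lit 202) (nat_lit 194) (nat_lit 204))) (PT.nd (nat_lit 78) (PT.lf (nat_lit 13604) (nat_lit 3) (nat_lit 179) (nat_lit 1) (nat_lit 203) (nat_lit 194) (nat_lit 203)) (PT.lf (nat_lit 13528) (nat_lit 6) (nat_lit 178) (nat_lit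 1) (nat_lit 204) (nat_lit 194) (nat_lit 202)))) (PT.nd (nat_lit 156) (PT.nd (nat_lit 78) (PT.lf (nat_lit 13452) (nat_lit 6) (nat_lit 177) (nat_lit 1) (nat_lit 205) (nat_lit 194) (nat_lit 201)) (PT.lf (nat_lit 13376) (nat_lit 6) (nat_lit 176) (nat_lit 1) (nat_lit 206) (nat_lit 194) (nat_lit 200))) (PT.nd (nat_lit 78) (PT.lf (nat_lit 12768) (nat_lit 6) (nat_lit 168) (nat_lit 1) (nat_lit 207) (nat_lit 194) (nat_lit 199)) (PT.lf (nat_lit 12084) (nat_lit 6) (nat_lit 159) (nat_lit 1) (nat_lit 208) (nat_lit 194) (nat_lit 198))))) (PT.nd (nat_lit 61542) (PT.nd (nat_lit 61386) (PT.nd (nat_lit 78) (PT.lf (nat_lit 11324) (nat_lit 6) (nat_lit 149) (nat_lit 1) (nat_lit 209) (nat_lit 194) (nat_lit 197)) (PT.lf (nat_lit 10488) (nat_lit 6) (nat_lit 138) (nat_lit 1) (nat_lit 210) (nat_lit 194) (nat_lit 196))) (PT.nd (nat_lit 78) (PT.lf (nat_lit 10412) (nat_lit 3) (nat_lit 137) (nat_lit 3) (nat_lit 195) (nat_lit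 195) (nat_lit 210)) (PT.lf (nat_lit 11248) (nat_lit 6) (nat_lit 148) (nat_lit 3) (nat_lit 196) (nat_lit 195) (nat_lit 209)))) (PT.nd (nat_lit 156) (PT.nd (nat_lit 78) (PT.lf (nat_lit 12008) (nat_lit 6) (nat_lit 158) (nat_lit 3) (nat_lit 197) (nat_lit 195) (nat_lit 208)) (PT.lf (nat_lit 12692) (nat_lit 6) (nat_lit 167) (nat_lit 3) (nat_lit 198) (nat_lit 195) (nat_lit 207))) (PT.nd (nat_lit 78) (PT.lf (nat_lit 13300) (nat_lit 6) (nat_lit 175) (nat_lit 3) (nat_lit 199) (nat_lit 195) (nat_lit 206)) (PT.lf (nat_lit 13832) (nat_lit 6) (nat_lit 182) (nat_lit 3) (nat_lit 200) (nat_lit 195) (nat_lit 205)))))) (PT.nd (nat_lit 624) (PT.nd (nat_lit 312) (PT.nd (nat_lit 156) (PT.nd (nat_lit 78) (PT.lf (nat_lit 13908) (nat_lit 6) (nat_lit 183) (nat_lit 3) (nat_lit 201) (nat_lit 195) (nat_lit 204)) (PT.lf (nat_lit 13984) (nat_lit 6) (nat_lit 184) (nat_lit 3) (nat_lit 202) (nat_lit 195) (nat_lit 203))) (PT.nd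 (nat_lit 78) (PT.lf (nat_lit 13984) (nat_lit 6) (nat_lit 184) (nat_lit 1) (nat_lit 203) (nat_lit 195) (nat_lit 202)) (PT.lf (nat_lit 13908) (nat_lit 6) (nat_lit 183) (nat_lit 1) (nat_lit 204) (nat_lit 195) (nat_lit 201)))) (PT.nd (nat_lit 156) (PT.nd (nat_lit 78) (PT.lf (nat_lit 13832) (nat_lit 6) (nat_lit 182) (nat_lit 1) (nat_lit 205) (nat_lit 195) (nat_lit 200)) (PT.lf (nat_lit 13300) (nat_lit 6) (nat_lit 175) (nat_lit 1) (nat_lit 206) (nat_lit 195) (nat_lit 199))) (PT.nd (nat_lit 78) (PT.lf (nat_lit 12692) (nat_lit 6) (nat_lit 167) (nat_lit 1) (nat_lit 207) (nat_lit 195) (nat_lit 198)) (PT.lf (nat_lit 12008) (nat_lit 6) (nat_lit 158) (nat_lit 1) (nat_lit 208) (nat_lit 195) (nat_lit 197))))) (PT.nd (nat_lit 61464) (PT.nd (nat_lit 61308) (PT.nd (nat_lit 78) (PT.lf (nat_lit 11248) (nat_lit 6) (nat_lit 148) (nat_lit 1) (nat_lit 209) (nat_lit 195) (nat_lit 196)) (PT.lf (nat_lit 10412) (nat_lit 3)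 (nat_lit 137) (nat_lit 0) (nat_lit 210) (nat_lit 195) (nat_lit 195))) (PT.nd (nat_lit 78) (PT.lf (nat_lit 10488) (nat_lit 6) (nat_lit 138) (nat_lit 5) (nat_lit 194) (nat_lit 196) (nat_lit 210)) (PT.lf (nat_lit 11248) (nat_lit 6) (nat_lit 148) (nat_lit 5) (nat_lit 195) (nat_lit 196) (nat_lit 209)))) (PT.nd (nat_lit 156) (PT.nd (nat_lit 78) (PT.lf (nat_lit 11932) (nat_lit 3) (nat_lit 157) (nat_lit 3) (nat_lit 196) (nat_lit 196) (nat_lit 208)) (PT.lf (nat_lit 12616) (nat_lit 6) (nat_lit 166) (nat_lit 3) (nat_lit 197) (nat_lit 196) (nat_lit 207))) (PT.nd (nat_lit 78) (PT.lf (nat_lit 13224) (nat_lit 6) (nat_lit 174) (nat_lit 3) (nat_lit 198) (nat_lit 196) (nat_lit 206)) (PT.nd (nat_lit 78) (PT.lf (nat_lit 13756) (nat_lit 6) (nat_lit 181) (nat_lit 3) (nat_lit 199) (nat_lit 196) (nat_lit 205)) (PT.lf (nat_lit 14212) (nat_lit 6) (nat_lit 187) (nat_lit 3) (nat_lit 200) (nat_lit 196) (nat_lit 204))))))))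
noncomputable def pc10 : PT := (PT.nd (nat_lit 62322) (PT.nd (nat_lit 624) (PT.nd (nat_lit 312) (PT.nd (nat_lit 156) (PT.nd (nat_lit 78) (PT.lf (nat_lit 14288) (nat_lit 6) (nat_lit 188) (nat_lit 3) (nat_lit 201) (nat_lit 196) (nat_lit 203)) (PT.lf (nat_lit 14364) (nat_lit 3) (nat_lit 189) (nat_lit 1) (nat_lit 202) (nat_lit 196) (nat_lit 202))) (PT.nd (nat_lit 78) (PT.lf (nat_lit 14288) (nat_lit 6) (nat_lit 188) (nat_lit 1) (nat_lit 203) (nat_lit 196) (nat_lit 201)) (PT.lf (nat_lit 14212) (nat_lit 6) (nat_lit 187) (nat_lit 1) (nat_lit 204) (nat_lit 196) (nat_lit 200)))) (PT.nd (nat_lit 156) (PT.nd (nat_lit 78) (PT.lf (nat_lit 13756) (nat_lit 6) (nat_lit 181) (nat_lit 1) (nat_lit 205) (nat_lit 196) (nat_lit 199)) (PT.lf (nat_lit 13224) (nat_lit 6) (nat_lit 174) (nat_lit 1) (nat_lit 206) (nat_lit 196) (nat_lit 198))) (PT.nd (nat_lit 78) (PT.lf (nat_lit 12616) (nat_lit 6) (nat_lit 166) (nat_lit 1)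 (nat_lit 207) (nat_lit 196) (nat_lit 197)) (PT.lf (nat_lit 11932) (nat_lit 3) (nat_lit 157) (nat_lit 0) (nat_lit 208) (nat_lit 196) (nat_lit 196))))) (PT.nd (nat_lit 61386) (PT.nd (nat_lit 61230) (PT.nd (nat_lit 78) (PT.lf (nat_lit 11248) (nat_lit 6) (nat_lit 148) (nat_lit 0) (nat_lit 209) (nat_lit 196) (nat_lit 195)) (PT.lf (nat_lit 10488) (nat_lit 6) (nat_lit 138) (nat_lit 0) (nat_lit 210) (nat_lit 196) (nat_lit 194))) (PT.nd (nat_lit 78) (PT.lf (nat_lit 10564) (nat_lit 6) (nat_lit 139) (nat_lit 5) (nat_lit 193) (nat_lit 197) (nat_lit 210)) (PT.lf (nat_lit 11324) (nat_lit 6) (nat_lit 149) (nat_lit 5) (nat_lit 194) (nat_lit 197) (nat_lit 209)))) (PT.nd (nat_lit 156) (PT.nd (nat_lit 78) (PT.lf (nat_lit 12008) (nat_lit 6) (nat_lit 158) (nat_lit 5) (nat_lit 195) (nat_lit 197) (nat_lit 208)) (PT.lf (nat_lit 12616) (nat_lit 6) (nat_lit 166) (nat_lit 5) (nat_lit 196) (nat_lit 197) (nat_lit 207))) (PT.nd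 (nat_lit 78) (PT.lf (nat_lit 13148) (nat_lit 3) (nat_lit 173) (nat_lit 3) (nat_lit 197) (nat_lit 197) (nat_lit 206)) (PT.lf (nat_lit 13680) (nat_lit 6) (nat_lit 180) (nat_lit 3) (nat_lit 198) (nat_lit 197) (nat_lit 205)))))) (PT.nd (nat_lit 624) (PT.nd (nat_lit 312) (PT.nd (nat_lit 156) (PT.nd (nat_lit 78) (PT.lf (nat_lit 14136) (nat_lit 6) (nat_lit 186) (nat_lit 3) (nat_lit 199) (nat_lit 197) (nat_lit 204)) (PT.lf (nat_lit 14516) (nat_lit 6) (nat_lit 191) (nat_lit 3) (nat_lit 200) (nat_lit 197) (nat_lit 203))) (PT.nd (nat_lit 78) (PT.lf (nat_lit 14592) (nat_lit 6) (nat_lit 192) (nat_lit 3) (nat_lit 201) (nat_lit 197) (nat_lit 202)) (PT.lf (nat_lit 14592) (nat_lit 6) (nat_lit 192) (nat_lit 1) (nat_lit 202) (nat_lit 197) (nat_lit 201)))) (PT.nd (nat_lit 156) (PT.nd (nat_lit 78) (PT.lf (nat_lit 14516) (nat_lit 6) (nat_lit 191) (nat_lit 1) (nat_lit 203) (nat_lit 197) (nat_lit 200)) (PT.lf (nat_lit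 14136) (nat_lit 6) (nat_lit 186) (nat_lit 1) (nat_lit 204) (nat_lit 197) (nat_lit 199))) (PT.nd (nat_lit 78) (PT.lf (nat_lit 13680) (nat_lit 6) (nat_lit 180) (nat_lit 1) (nat_lit 205) (nat_lit 197) (nat_lit 198)) (PT.lf (nat_lit 13148) (nat_lit 3) (nat_lit 173) (nat_lit 0) (nat_lit 206) (nat_lit 197) (nat_lit 197))))) (PT.nd (nat_lit 61308) (PT.nd (nat_lit 156) (PT.nd (nat_lit 78) (PT.lf (nat_lit 12616) (nat_lit 6) (nat_lit 166) (nat_lit 0) (nat_lit 207) (nat_lit 197) (nat_lit 196)) (PT.lf (nat_lit 12008) (nat_lit 6) (nat_lit 158) (nat_lit 0) (nat_lit 208) (nat_lit 197) (nat_lit 195))) (PT.nd (nat_lit 78) (PT.lf (nat_lit 11324) (nat_lit 6) (nat_lit 149) (nat_lit 0) (nat_lit 209) (nat_lit 197) (nat_lit 194)) (PT.lf (nat_lit 10564) (nat_lit 6) (nat_lit 139) (nat_lit 0) (nat_lit 210) (nat_lit 197) (nat_lit 193)))) (PT.nd (nat_lit 156) (PT.nd (nat_lit 78) (PT.lf (nat_lit 10640) (nat_lit 6) (nat_lit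 140) (nat_lit 5) (nat_lit 192) (nat_lit 198) (nat_lit 210)) (PT.lf (nat_lit 11400) (nat_lit 6) (nat_lit 150) (nat_lit 5) (nat_lit 193) (nat_lit 198) (nat_lit 209))) (PT.nd (nat_lit 78) (PT.lf (nat_lit 12084) (nat_lit 6) (nat_lit 159) (nat_lit 5) (nat_lit 194) (nat_lit 198) (nat_lit 208)) (PT.lf (nat_lit 12692) (nat_lit 6) (nat_lit 167) (nat_lit 5) (nat_lit 195) (nat_lit 198) (nat_lit 207)))))))
noncomputable def pc11 : PT := (PT.nd (nat_lit 62166) (PT.nd (nat_lit 624) (PT.nd (nat_lit 312) (PT.nd (nat_lit 156) (PT.nd (nat_lit 78) (PT.lf (nat_lit 13224) (nat_lit 6) (nat_lit 174) (nat_lit 5) (nat_lit 196) (nat_lit 198) (nat_lit 206)) (PT.lf (nat_lit 13680) (nat_lit 6) (nat_lit 180) (nat_lit 5) (nat_lit 197) (nat_lit 198) (nat_lit 205))) (PT.nd (nat_lit 78) (PT.lf (nat_lit 14060) (nat_lit 3) (nat_lit 185) (nat_lit 3) (nat_lit 198) (nat_lit 198) (nat_lit 204)) (PT.lf (nat_lit 14440) (nat_lit 6) (nat_lit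 190) (nat_lit 3) (nat_lit 199) (nat_lit 198) (nat_lit 203)))) (PT.nd (nat_lit 156) (PT.nd (nat_lit 78) (PT.lf (nat_lit 14744) (nat_lit 6) (nat_lit 194) (nat_lit 3) (nat_lit 200) (nat_lit 198) (nat_lit 202)) (PT.lf (nat_lit 14820) (nat_lit 3) (nat_lit 195) (nat_lit 1) (nat_lit 201) (nat_lit 198) (nat_lit 201))) (PT.nd (nat_lit 78) (PT.lf (nat_lit 14744) (nat_lit 6) (nat_lit 194) (nat_lit 1) (nat_lit 202) (nat_lit 198) (nat_lit 200)) (PT.lf (nat_lit 14440) (nat_lit 6) (nat_lit 190) (nat_lit 1) (nat_lit 203) (nat_lit 198) (nat_lit 199))))) (PT.nd (nat_lit 312) (PT.nd (nat_lit 156) (PT.nd (nat_lit 78) (PT.lf (nat_lit 14060) (nat_lit 3) (nat_lit 185) (nat_lit 0) (nat_lit 204) (nat_lit 198) (nat_lit 198)) (PT.lf (nat_lit 13680) (nat_lit 6) (nat_lit 180) (nat_lit 0) (nat_lit 205) (nat_lit 198) (nat_lit 197))) (PT.nd (nat_lit 78) (PT.lf (nat_lit 13224) (nat_lit 6) (nat_lit 174) (nat_lit 0) (nat_lit 206)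 (nat_lit 198) (nat_lit 196)) (PT.lf (nat_lit 12692) (nat_lit 6) (nat_lit 167) (nat_lit 0) (nat_lit 207) (nat_lit 198) (nat_lit 195)))) (PT.nd (nat_lit 156) (PT.nd (nat_lit 78) (PT.lf (nat_lit 12084) (nat_lit 6) (nat_lit 159) (nat_lit 0) (nat_lit 208) (nat_lit 198) (nat_lit 194)) (PT.lf (nat_lit 11400) (nat_lit 6) (nat_lit 150) (nat_lit 0) (nat_lit 209) (nat_lit 198) (nat_lit 193))) (PT.nd (nat_lit 60996) (PT.lf (nat_lit 10640) (nat_lit 6) (nat_lit 140) (nat_lit 0) (nat_lit 210) (nat_lit 198) (nat_lit 192)) (PT.lf (nat_lit 10716) (nat_lit 6) (nat_lit 141) (nat_lit 5) (nat_lit 191) (nat_lit 199) (nat_lit 210)))))) (PT.nd (nat_lit 624) (PT.nd (nat_lit 312) (PT.nd (nat_lit 156) (PT.nd (nat_lit 78) (PT.lf (nat_lit 11476) (nat_lit 6) (nat_lit 151) (nat_lit 5) (nat_lit 192) (nat_lit 199) (nat_lit 209)) (PT.lf (nat_lit 12160) (nat_lit 6) (nat_lit 160) (nat_lit 5) (nat_lit 193) (nat_lit 199) (nat_lit 208)))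 (PT.nd (nat_lit 78) (PT.lf (nat_lit 12768) (nat_lit 6) (nat_lit 168) (nat_lit 5) (nat_lit 194) (nat_lit 199) (nat_lit 207)) (PT.lf (nat_lit 13300) (nat_lit 6) (nat_lit 175) (nat_lit 5) (nat_lit 195) (nat_lit 199) (nat_lit 206)))) (PT.nd (nat_lit 156) (PT.nd (nat_lit 78) (PT.lf (nat_lit 13756) (nat_lit 6) (nat_lit 181) (nat_lit 5) (nat_lit 196) (nat_lit 199) (nat_lit 205)) (PT.lf (nat_lit 14136) (nat_lit 6) (nat_lit 186) (nat_lit 5) (nat_lit 197) (nat_lit 199) (nat_lit 204))) (PT.nd (nat_lit 78) (PT.lf (nat_lit 14440) (nat_lit 6) (nat_lit 190) (nat_lit 5) (nat_lit 198) (nat_lit 199) (nat_lit 203)) (PT.lf (nat_lit 14668) (nat_lit 3) (nat_lit 193) (nat_lit 3) (nat_lit 199) (nat_lit 199) (nat_lit 202))))) (PT.nd (nat_lit 312) (PT.nd (nat_lit 156) (PT.nd (nat_lit 78) (PT.lf (nat_lit 14896) (nat_lit 6) (nat_lit 196) (nat_lit 3) (nat_lit 200) (nat_lit 199) (nat_lit 201)) (PT.lf (nat_lit 14896) (nat_lit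 6) (nat_lit 196) (nat_lit 1) (nat_lit 201) (nat_lit 199) (nat_lit 200))) (PT.nd (nat_lit 78) (PT.lf (nat_lit 14668) (nat_lit 3) (nat_lit 193) (nat_lit 0) (nat_lit 202) (nat_lit 199) (nat_lit 199)) (PT.lf (nat_lit 14440) (nat_lit 6) (nat_lit 190) (nat_lit 0) (nat_lit 203) (nat_lit 199) (nat_lit 198)))) (PT.nd (nat_lit 156) (PT.nd (nat_lit 78) (PT.lf (nat_lit 14136) (nat_lit 6) (nat_lit 186) (nat_lit 0) (nat_lit 204) (nat_lit 199) (nat_lit 197)) (PT.lf (nat_lit 13756) (nat_lit 6) (nat_lit 181) (nat_lit 0) (nat_lit 205) (nat_lit 199) (nat_lit 196))) (PT.nd (nat_lit 78) (PT.lf (nat_lit 13300) (nat_lit 6) (nat_lit 175) (nat_lit 0) (nat_lit 206) (nat_lit 199) (nat_lit 195)) (PT.nd (nat_lit 78) (PT.lf (nat_lit 12768) (nat_lit 6) (nat_lit 168) (nat_lit 0) (nat_lit 207) (nat_lit 199) (nat_lit 194)) (PT.lf (nat_lit 12160) (nat_lit 6) (nat_lit 160) (nat_lit 0) (nat_lit 208) (nat_lit 199) (nat_lit 193))))))))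
noncomputable def pc12 : PT := (PT.nd (nat_lit 62088) (PT.nd (nat_lit 61464) (PT.nd (nat_lit 61152) (PT.nd (nat_lit 60996) (PT.nd (nat_lit 78) (PT.lf (nat_lit 11476) (nat_lit 6) (nat_lit 151) (nat_lit 0) (nat_lit 209) (nat_lit 199) (nat_lit 192)) (PT.lf (nat_lit 10716) (nat_lit 6) (nat_lit 141) (nat_lit 0) (nat_lit 210) (nat_lit 199) (nat_lit 191))) (PT.nd (nat_lit 78) (PT.lf (nat_lit 10792) (nat_lit 6) (nat_lit 142) (nat_lit 5) (nat_lit 190) (nat_lit 200) (nat_lit 210)) (PT.lf (nat_lit 11552) (nat_lit 6) (nat_lit 152) (nat_lit 5) (nat_lit 191) (nat_lit 200) (nat_lit 209)))) (PT.nd (nat_lit 156) (PT.nd (nat_lit 78) (PT.lf (nat_lit 12236) (nat_lit 6) (nat_lit 161) (nat_lit 5) (nat_lit 192) (nat_lit 200) (nat_lit 208)) (PT.lf (nat_lit 12844) (nat_lit 6) (nat_lit 169) (nat_lit 5) (nat_lit 193) (nat_lit 200) (nat_lit 207))) (PT.nd (nat_lit 78) (PT.lf (nat_lit 13376) (nat_lit 6) (nat_lit 176) (nat_lit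 5) (nat_lit 194) (nat_lit 200) (nat_lit 206)) (PT.lf (nat_lit 13832) (nat_lit 6) (nat_lit 182) (nat_lit 5) (nat_lit 195) (nat_lit 200) (nat_lit 205))))) (PT.nd (nat_lit 312) (PT.nd (nat_lit 156) (PT.nd (nat_lit 78) (PT.lf (nat_lit 14212) (nat_lit 6) (nat_lit 187) (nat_lit 5) (nat_lit 196) (nat_lit 200) (nat_lit 204)) (PT.lf (nat_lit 14516) (nat_lit 6) (nat_lit 191) (nat_lit 5) (nat_lit 197) (nat_lit 200) (nat_lit 203))) (PT.nd (nat_lit 78) (PT.lf (nat_lit 14744) (nat_lit 6) (nat_lit 194) (nat_lit 5) (nat_lit 198) (nat_lit 200) (nat_lit 202)) (PT.lf (nat_lit 14896) (nat_lit 6) (nat_lit 196) (nat_lit 5) (nat_lit 199) (nat_lit 200) (nat_lit 201)))) (PT.nd (nat_lit 156) (PT.nd (nat_lit 78) (PT.lf (nat_lit 14972) (nat_lit 1) (nat_lit 197) (nat_lit 0) (nat_lit 200) (nat_lit 200) (nat_lit 200)) (PT.lf (nat_lit 14896) (nat_lit 6) (nat_lit 196) (nat_lit 0) (nat_lit 201) (nat_lit 200) (nat_lit 199))) (PT.nd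 (nat_lit 78) (PT.lf (nat_lit 14744) (nat_lit 6) (nat_lit 194) (nat_lit 0) (nat_lit 202) (nat_lit 200) (nat_lit 198)) (PT.lf (nat_lit 14516) (nat_lit 6) (nat_lit 191) (nat_lit 0) (nat_lit 203) (nat_lit 200) (nat_lit 197)))))) (PT.nd (nat_lit 61308) (PT.nd (nat_lit 312) (PT.nd (nat_lit 156) (PT.nd (nat_lit 78) (PT.lf (nat_lit 14212) (nat_lit 6) (nat_lit 187) (nat_lit 0) (nat_lit 204) (nat_lit 200) (nat_lit 196)) (PT.lf (nat_lit 13832) (nat_lit 6) (nat_lit 182) (nat_lit 0) (nat_lit 205) (nat_lit 200) (nat_lit 195))) (PT.nd (nat_lit 78) (PT.lf (nat_lit 13376) (nat_lit 6) (nat_lit 176) (nat_lit 0) (nat_lit 206) (nat_lit 200) (nat_lit 194)) (PT.lf (nat_lit 12844) (nat_lit 6) (nat_lit 169) (nat_lit 0) (nat_lit 207) (nat_lit 200) (nat_lit 193)))) (PT.nd (nat_lit 156) (PT.nd (nat_lit 78) (PT.lf (nat_lit 12236) (nat_lit 6) (nat_lit 161) (nat_lit 0) (nat_lit 208) (nat_lit 200) (nat_lit 192)) (PT.lf (nat_lit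 11552) (nat_lit 6) (nat_lit 152) (nat_lit 0) (nat_lit 209) (nat_lit 200) (nat_lit 191))) (PT.nd (nat_lit 60762) (PT.lf (nat_lit 10792) (nat_lit 6) (nat_lit 142) (nat_lit 0) (nat_lit 210) (nat_lit 200) (nat_lit 190)) (PT.lf (nat_lit 9576) (nat_lit 6) (nat_lit 126) (nat_lit 5) (nat_lit 188) (nat_lit 201) (nat_lit 211))))) (PT.nd (nat_lit 312) (PT.nd (nat_lit 156) (PT.nd (nat_lit 78) (PT.lf (nat_lit 10032) (nat_lit 6) (nat_lit 132) (nat_lit 5) (nat_lit 189) (nat_lit 201) (nat_lit 210)) (PT.lf (nat_lit 10868) (nat_lit 6) (nat_lit 143) (nat_lit 5) (nat_lit 190) (nat_lit 201) (nat_lit 209))) (PT.nd (nat_lit 78) (PT.lf (nat_lit 11628) (nat_lit 6) (nat_lit 153) (nat_lit 5) (nat_lit 191) (nat_lit 201) (nat_lit 208)) (PT.lf (nat_lit 12312) (nat_lit 6) (nat_lit 162) (nat_lit 5) (nat_lit 192) (nat_lit 201) (nat_lit 207)))) (PT.nd (nat_lit 156) (PT.nd (nat_lit 78) (PT.lf (nat_lit 12920) (nat_lit 6) (nat_lit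 170) (nat_lit 5) (nat_lit 193) (nat_lit 201) (nat_lit 206)) (PT.lf (nat_lit 13452) (nat_lit 6) (nat_lit 177) (nat_lit 5) (nat_lit 194) (nat_lit 201) (nat_lit 205))) (PT.nd (nat_lit 78) (PT.lf (nat_lit 13908) (nat_lit 6) (nat_lit 183) (nat_lit 5) (nat_lit 195) (nat_lit 201) (nat_lit 204)) (PT.lf (nat_lit 14288) (nat_lit 6) (nat_lit 188) (nat_lit 5) (nat_lit 196) (nat_lit 201) (nat_lit 203)))))))
noncomputable def pc13 : PT := (PT.nd (nat_lit 61776) (PT.nd (nat_lit 624) (PT.nd (nat_lit 312) (PT.nd (nat_lit 156) (PT.nd (nat_lit 78) (PT.lf (nat_lit 14592) (nat_lit 6) (nat_lit 192) (nat_lit 5) (nat_lit 197) (nat_lit 201) (nat_lit 202)) (PT.lf (nat_lit 14820) (nat_lit 3) (nat_lit 195) (nat_lit 4) (nat_lit 198) (nat_lit 201) (nat_lit 201))) (PT.nd (nat_lit 78) (PT.lf (nat_lit 14896) (nat_lit 6) (nat_lit 196) (nat_lit 4) (nat_lit 199) (nat_lit 201) (nat_lit 200)) (PT.lf (nat_lit 14896) (nat_lit 6) (nat_lit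 196) (nat_lit 2) (nat_lit 200) (nat_lit 201) (nat_lit 199)))) (PT.nd (nat_lit 156) (PT.nd (nat_lit 78) (PT.lf (nat_lit 14820) (nat_lit 3) (nat_lit 195) (nat_lit 0) (nat_lit 201) (nat_lit 201) (nat_lit 198)) (PT.lf (nat_lit 14592) (nat_lit 6) (nat_lit 192) (nat_lit 0) (nat_lit 202) (nat_lit 201) (nat_lit 197))) (PT.nd (nat_lit 78) (PT.lf (nat_lit 14288) (nat_lit 6) (nat_lit 188) (nat_lit 0) (nat_lit 203) (nat_lit 201) (nat_lit 196)) (PT.lf (nat_lit 13908) (nat_lit 6) (nat_lit 183) (nat_lit 0) (nat_lit 204) (nat_lit 201) (nat_lit 195))))) (PT.nd (nat_lit 312) (PT.nd (nat_lit 156) (PT.nd (nat_lit 78) (PT.lf (nat_lit 13452) (nat_lit 6) (nat_lit 177) (nat_lit 0) (nat_lit 205) (nat_lit 201) (nat_lit 194)) (PT.lf (nat_lit 12920) (nat_lit 6) (nat_lit 170) (nat_lit 0) (nat_lit 206) (nat_lit 201) (nat_lit 193))) (PT.nd (nat_lit 78) (PT.lf (nat_lit 12312) (nat_lit 6) (nat_lit 162) (nat_lit 0) (nat_lit 207)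 (nat_lit 201) (nat_lit 192)) (PT.lf (nat_lit 11628) (nat_lit 6) (nat_lit 153) (nat_lit 0) (nat_lit 208) (nat_lit 201) (nat_lit 191)))) (PT.nd (nat_lit 156) (PT.nd (nat_lit 78) (PT.lf (nat_lit 10868) (nat_lit 6) (nat_lit 143) (nat_lit 0) (nat_lit 209) (nat_lit 201) (nat_lit 190)) (PT.lf (nat_lit 10032) (nat_lit 6) (nat_lit 132) (nat_lit 0) (nat_lit 210) (nat_lit 201) (nat_lit 189))) (PT.nd (nat_lit 60606) (PT.lf (nat_lit 9576) (nat_lit 6) (nat_lit 126) (nat_lit 0) (nat_lit 211) (nat_lit 201) (nat_lit 188)) (PT.lf (nat_lit 9196) (nat_lit 6) (nat_lit 121) (nat_lit 5) (nat_lit 187) (nat_lit 202) (nat_lit 211)))))) (PT.nd (nat_lit 624) (PT.nd (nat_lit 312) (PT.nd (nat_lit 156) (PT.nd (nat_lit 78) (PT.lf (nat_lit 9652) (nat_lit 6) (nat_lit 127) (nat_lit 5) (nat_lit 188) (nat_lit 202) (nat_lit 210)) (PT.lf (nat_lit 10108) (nat_lit 6) (nat_lit 133) (nat_lit 5) (nat_lit 189) (nat_lit 202) (nat_lit 209)))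 (PT.nd (nat_lit 78) (PT.lf (nat_lit 10944) (nat_lit 6) (nat_lit 144) (nat_lit 5) (nat_lit 190) (nat_lit 202) (nat_lit 208)) (PT.lf (nat_lit 11704) (nat_lit 6) (nat_lit 154) (nat_lit 5) (nat_lit 191) (nat_lit 202) (nat_lit 207)))) (PT.nd (nat_lit 156) (PT.nd (nat_lit 78) (PT.lf (nat_lit 12388) (nat_lit 6) (nat_lit 163) (nat_lit 5) (nat_lit 192) (nat_lit 202) (nat_lit 206)) (PT.lf (nat_lit 12996) (nat_lit 6) (nat_lit 171) (nat_lit 5) (nat_lit 193) (nat_lit 202) (nat_lit 205))) (PT.nd (nat_lit 78) (PT.lf (nat_lit 13528) (nat_lit 6) (nat_lit 178) (nat_lit 5) (nat_lit 194) (nat_lit 202) (nat_lit 204)) (PT.lf (nat_lit 13984) (nat_lit 6) (nat_lit 184) (nat_lit 5) (nat_lit 195) (nat_lit 202) (nat_lit 203))))) (PT.nd (nat_lit 312) (PT.nd (nat_lit 156) (PT.nd (nat_lit 78) (PT.lf (nat_lit 14364) (nat_lit 3) (nat_lit 189) (nat_lit 4) (nat_lit 196) (nat_lit 202) (nat_lit 202)) (PT.lf (nat_lit 14592) (nat_lit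 6) (nat_lit 192) (nat_lit 4) (nat_lit 197) (nat_lit 202) (nat_lit 201))) (PT.nd (nat_lit 78) (PT.lf (nat_lit 14744) (nat_lit 6) (nat_lit 194) (nat_lit 4) (nat_lit 198) (nat_lit 202) (nat_lit 200)) (PT.lf (nat_lit 14668) (nat_lit 3) (nat_lit 193) (nat_lit 2) (nat_lit 199) (nat_lit 202) (nat_lit 199)))) (PT.nd (nat_lit 156) (PT.nd (nat_lit 78) (PT.lf (nat_lit 14744) (nat_lit 6) (nat_lit 194) (nat_lit 2) (nat_lit 200) (nat_lit 202) (nat_lit 198)) (PT.lf (nat_lit 14592) (nat_lit 6) (nat_lit 192) (nat_lit 2) (nat_lit 201) (nat_lit 202) (nat_lit 197))) (PT.nd (nat_lit 78) (PT.lf (nat_lit 14364) (nat_lit 3) (nat_lit 189) (nat_lit 0) (nat_lit 202) (nat_lit 202) (nat_lit 196)) (PT.nd (nat_lit 78) (PT.lf (nat_lit 13984) (nat_lit 6) (nat_lit 184) (nat_lit 0) (nat_lit 203) (nat_lit 202) (nat_lit 195)) (PT.lf (nat_lit 13528) (nat_lit 6) (nat_lit 178) (nat_lit 0) (nat_lit 204) (nat_lit 202) (nat_lit 194))))))))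
noncomputable def pc14 : PT := (PT.nd (nat_lit 61698) (PT.nd (nat_lit 61074) (PT.nd (nat_lit 312) (PT.nd (nat_lit 156) (PT.nd (nat_lit 78) (PT.lf (nat_lit 12996) (nat_lit 6) (nat_lit 171) (nat_lit 0) (nat_lit 205) (nat_lit 202) (nat_lit 193)) (PT.lf (nat_lit 12388) (nat_lit 6) (nat_lit 163) (nat_lit 0) (nat_lit 206) (nat_lit 202) (nat_lit 192))) (PT.nd (nat_lit 78) (PT.lf (nat_lit 11704) (nat_lit 6) (nat_lit 154) (nat_lit 0) (nat_lit 207) (nat_lit 202) (nat_lit 191)) (PT.lf (nat_lit 10944) (nat_lit 6) (nat_lit 144) (nat_lit 0) (nat_lit 208) (nat_lit 202) (nat_lit 190)))) (PT.nd (nat_lit 156) (PT.nd (nat_lit 78) (PT.lf (nat_lit 10108) (nat_lit 6) (nat_lit 133) (nat_lit 0) (nat_lit 209) (nat_lit 202) (nat_lit 189)) (PT.lf (nat_lit 9652) (nat_lit 6) (nat_lit 127) (nat_lit 0) (nat_lit 210) (nat_lit 202) (nat_lit 188))) (PT.nd (nat_lit 60528) (PT.lf (nat_lit 9196) (nat_lit 6) (nat_lit 121) (nat_lit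 0) (nat_lit 211) (nat_lit 202) (nat_lit 187)) (PT.lf (nat_lit 8816) (nat_lit 6) (nat_lit 116) (nat_lit 5) (nat_lit 186) (nat_lit 203) (nat_lit 211))))) (PT.nd (nat_lit 312) (PT.nd (nat_lit 156) (PT.nd (nat_lit 78) (PT.lf (nat_lit 9272) (nat_lit 6) (nat_lit 122) (nat_lit 5) (nat_lit 187) (nat_lit 203) (nat_lit 210)) (PT.lf (nat_lit 9728) (nat_lit 6) (nat_lit 128) (nat_lit 5) (nat_lit 188) (nat_lit 203) (nat_lit 209))) (PT.nd (nat_lit 78) (PT.lf (nat_lit 10184) (nat_lit 6) (nat_lit 134) (nat_lit 5) (nat_lit 189) (nat_lit 203) (nat_lit 208)) (PT.lf (nat_lit 11020) (nat_lit 6) (nat_lit 145) (nat_lit 5) (nat_lit 190) (nat_lit 203) (nat_lit 207)))) (PT.nd (nat_lit 156) (PT.nd (nat_lit 78) (PT.lf (nat_lit 11780) (nat_lit 6) (nat_lit 155) (nat_lit 5) (nat_lit 191) (nat_lit 203) (nat_lit 206)) (PT.lf (nat_lit 12464) (nat_lit 6) (nat_lit 164) (nat_lit 5) (nat_lit 192) (nat_lit 203) (nat_lit 205))) (PT.nd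 (nat_lit 78) (PT.lf (nat_lit 13072) (nat_lit 6) (nat_lit 172) (nat_lit 5) (nat_lit 193) (nat_lit 203) (nat_lit 204)) (PT.lf (nat_lit 13604) (nat_lit 3) (nat_lit 179) (nat_lit 4) (nat_lit 194) (nat_lit 203) (nat_lit 203)))))) (PT.nd (nat_lit 624) (PT.nd (nat_lit 312) (PT.nd (nat_lit 156) (PT.nd (nat_lit 78) (PT.lf (nat_lit 13984) (nat_lit 6) (nat_lit 184) (nat_lit 4) (nat_lit 195) (nat_lit 203) (nat_lit 202)) (PT.lf (nat_lit 14288) (nat_lit 6) (nat_lit 188) (nat_lit 4) (nat_lit 196) (nat_lit 203) (nat_lit 201))) (PT.nd (nat_lit 78) (PT.lf (nat_lit 14516) (nat_lit 6) (nat_lit 191) (nat_lit 4) (nat_lit 197) (nat_lit 203) (nat_lit 200)) (PT.lf (nat_lit 14440) (nat_lit 6) (nat_lit 190) (nat_lit 4) (nat_lit 198) (nat_lit 203) (nat_lit 199)))) (PT.nd (nat_lit 156) (PT.nd (nat_lit 78) (PT.lf (nat_lit 14440) (nat_lit 6) (nat_lit 190) (nat_lit 2) (nat_lit 199) (nat_lit 203) (nat_lit 198)) (PT.lf (nat_lit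 14516) (nat_lit 6) (nat_lit 191) (nat_lit 2) (nat_lit 200) (nat_lit 203) (nat_lit 197))) (PT.nd (nat_lit 78) (PT.lf (nat_lit 14288) (nat_lit 6) (nat_lit 188) (nat_lit 2) (nat_lit 201) (nat_lit 203) (nat_lit 196)) (PT.lf (nat_lit 13984) (nat_lit 6) (nat_lit 184) (nat_lit 2) (nat_lit 202) (nat_lit 203) (nat_lit 195))))) (PT.nd (nat_lit 312) (PT.nd (nat_lit 156) (PT.nd (nat_lit 78) (PT.lf (nat_lit 13604) (nat_lit 3) (nat_lit 179) (nat_lit 0) (nat_lit 203) (nat_lit 203) (nat_lit 194)) (PT.lf (nat_lit 13072) (nat_lit 6) (nat_lit 172) (nat_lit 0) (nat_lit 204) (nat_lit 203) (nat_lit 193))) (PT.nd (nat_lit 78) (PT.lf (nat_lit 12464) (nat_lit 6) (nat_lit 164) (nat_lit 0) (nat_lit 205) (nat_lit 203) (nat_lit 192)) (PT.lf (nat_lit 11780) (nat_lit 6) (nat_lit 155) (nat_lit 0) (nat_lit 206) (nat_lit 203) (nat_lit 191)))) (PT.nd (nat_lit 156) (PT.nd (nat_lit 78) (PT.lf (nat_lit 11020) (nat_lit 6) (nat_lit 145)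 (nat_lit 0) (nat_lit 207) (nat_lit 203) (nat_lit 190)) (PT.lf (nat_lit 10184) (nat_lit 6) (nat_lit 134) (nat_lit 0) (nat_lit 208) (nat_lit 203) (nat_lit 189))) (PT.nd (nat_lit 78) (PT.lf (nat_lit 9728) (nat_lit 6) (nat_lit 128) (nat_lit 0) (nat_lit 209) (nat_lit 203) (nat_lit 188)) (PT.nd (nat_lit 78) (PT.lf (nat_lit 9272) (nat_lit 6) (nat_lit 122) (nat_lit 0) (nat_lit 210) (nat_lit 203) (nat_lit 187)) (PT.lf (nat_lit 8816) (nat_lit 6) (nat_lit 116) (nat_lit 0) (nat_lit 211) (nat_lit 203) (nat_lit 186))))))))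
noncomputable def pc15 : PT := (PT.nd (nat_lit 1248) (PT.nd (nat_lit 624) (PT.nd (nat_lit 312) (PT.nd (nat_lit 156) (PT.nd (nat_lit 78) (PT.lf (nat_lit 8132) (nat_lit 6) (nat_lit 107) (nat_lit 5) (nat_lit 184) (nat_lit 204) (nat_lit 212)) (PT.lf (nat_lit 8512) (nat_lit 6) (nat_lit 112) (nat_lit 5) (nat_lit 185) (nat_lit 204) (nat_lit 211))) (PT.nd (nat_lit 78) (PT.lf (nat_lit 8892) (nat_lit 6) (nat_lit 117) (nat_lit 5) (nat_lit 186) (nat_lit 204) (nat_lit 210)) (PT.lf (nat_lit 9348) (nat_lit 6) (nat_lit 123) (nat_lit 5) (nat_lit 187) (nat_lit 204) (nat_lit 209)))) (PT.nd (nat_lit 156) (PT.nd (nat_lit 78) (PT.lf (nat_lit 9804) (nat_lit 6) (nat_lit 129) (nat_lit 5) (nat_lit 188) (nat_lit 204) (nat_lit 208)) (PT.lf (nat_lit 10260) (nat_lit 6) (nat_lit 135) (nat_lit 5) (nat_lit 189) (nat_lit 204) (nat_lit 207))) (PT.nd (nat_lit 78) (PT.lf (nat_lit 11096) (nat_lit 6) (nat_lit 146) (nat_lit 5) (nat_lit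 190) (nat_lit 204) (nat_lit 206)) (PT.lf (nat_lit 11856) (nat_lit 6) (nat_lit 156) (nat_lit 5) (nat_lit 191) (nat_lit 204) (nat_lit 205))))) (PT.nd (nat_lit 312) (PT.nd (nat_lit 156) (PT.nd (nat_lit 78) (PT.lf (nat_lit 12540) (nat_lit 3) (nat_lit 165) (nat_lit 4) (nat_lit 192) (nat_lit 204) (nat_lit 204)) (PT.lf (nat_lit 13072) (nat_lit 6) (nat_lit 172) (nat_lit 4) (nat_lit 193) (nat_lit 204) (nat_lit 203))) (PT.nd (nat_lit 78) (PT.lf (nat_lit 13528) (nat_lit 6) (nat_lit 178) (nat_lit 4) (nat_lit 194) (nat_lit 204) (nat_lit 202)) (PT.lf (nat_lit 13908) (nat_lit 6) (nat_lit 183) (nat_lit 4) (nat_lit 195) (nat_lit 204) (nat_lit 201)))) (PT.nd (nat_lit 156) (PT.nd (nat_lit 78) (PT.lf (nat_lit 14212) (nat_lit 6) (nat_lit 187) (nat_lit 4) (nat_lit 196) (nat_lit 204) (nat_lit 200)) (PT.lf (nat_lit 14136) (nat_lit 6) (nat_lit 186) (nat_lit 4) (nat_lit 197) (nat_lit 204) (nat_lit 199))) (PT.nd (nat_lit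 78) (PT.lf (nat_lit 14060) (nat_lit 3) (nat_lit 185) (nat_lit 2) (nat_lit 198) (nat_lit 204) (nat_lit 198)) (PT.lf (nat_lit 14136) (nat_lit 6) (nat_lit 186) (nat_lit 2) (nat_lit 199) (nat_lit 204) (nat_lit 197)))))) (PT.nd (nat_lit 624) (PT.nd (nat_lit 312) (PT.nd (nat_lit 156) (PT.nd (nat_lit 78) (PT.lf (nat_lit 14212) (nat_lit 6) (nat_lit 187) (nat_lit 2) (nat_lit 200) (nat_lit 204) (nat_lit 196)) (PT.lf (nat_lit 13908) (nat_lit 6) (nat_lit 183) (nat_lit 2) (nat_lit 201) (nat_lit 204) (nat_lit 195))) (PT.nd (nat_lit 78) (PT.lf (nat_lit 13528) (nat_lit 6) (nat_lit 178) (nat_lit 2) (nat_lit 202) (nat_lit 204) (nat_lit 194)) (PT.lf (nat_lit 13072) (nat_lit 6) (nat_lit 172) (nat_lit 2) (nat_lit 203) (nat_lit 204) (nat_lit 193)))) (PT.nd (nat_lit 156) (PT.nd (nat_lit 78) (PT.lf (nat_lit 12540) (nat_lit 3) (nat_lit 165) (nat_lit 0) (nat_lit 204) (nat_lit 204) (nat_lit 192)) (PT.lf (nat_lit 11856) (nat_lit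 6) (nat_lit 156) (nat_lit 0) (nat_lit 205) (nat_lit 204) (nat_lit 191))) (PT.nd (nat_lit 78) (PT.lf (nat_lit 11096) (nat_lit 6) (nat_lit 146) (nat_lit 0) (nat_lit 206) (nat_lit 204) (nat_lit 190)) (PT.lf (nat_lit 10260) (nat_lit 6) (nat_lit 135) (nat_lit 0) (nat_lit 207) (nat_lit 204) (nat_lit 189))))) (PT.nd (nat_lit 312) (PT.nd (nat_lit 156) (PT.nd (nat_lit 78) (PT.lf (nat_lit 9804) (nat_lit 6) (nat_lit 129) (nat_lit 0) (nat_lit 208) (nat_lit 204) (nat_lit 188)) (PT.lf (nat_lit 9348) (nat_lit 6) (nat_lit 123) (nat_lit 0) (nat_lit 209) (nat_lit 204) (nat_lit 187))) (PT.nd (nat_lit 78) (PT.lf (nat_lit 8892) (nat_lit 6) (nat_lit 117) (nat_lit 0) (nat_lit 210) (nat_lit 204) (nat_lit 186)) (PT.lf (nat_lit 8512) (nat_lit 6) (nat_lit 112) (nat_lit 0) (nat_lit 211) (nat_lit 204) (nat_lit 185)))) (PT.nd (nat_lit 60294) (PT.nd (nat_lit 60216) (PT.lf (nat_lit 8132) (nat_lit 6) (nat_lit 107) (nat_lit 0)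 (nat_lit 212) (nat_lit 204) (nat_lit 184)) (PT.lf (nat_lit 7828) (nat_lit 6) (nat_lit 103) (nat_lit 5) (nat_lit 183) (nat_lit 205) (nat_lit 212))) (PT.nd (nat_lit 78) (PT.lf (nat_lit 8208) (nat_lit 6) (nat_lit 108) (nat_lit 5) (nat_lit 184) (nat_lit 205) (nat_lit 211)) (PT.nd (nat_lit 78) (PT.lf (nat_lit 8588) (nat_lit 6) (nat_lit 113) (nat_lit 5) (nat_lit 185) (nat_lit 205) (nat_lit 210)) (PT.lf (nat_lit 8968) (nat_lit 6) (nat_lit 118) (nat_lit 5) (nat_lit 186) (nat_lit 205) (nat_lit 209))))))))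
noncomputable def pc16 : PT := (PT.nd (nat_lit 1248) (PT.nd (nat_lit 624) (PT.nd (nat_lit 312) (PT.nd (nat_lit 156) (PT.nd (nat_lit 78) (PT.lf (nat_lit 9424) (nat_lit 6) (nat_lit 124) (nat_lit 5) (nat_lit 187) (nat_lit 205) (nat_lit 208)) (PT.lf (nat_lit 9880) (nat_lit 6) (nat_lit 130) (nat_lit 5) (nat_lit 188) (nat_lit 205) (nat_lit 207))) (PT.nd (nat_lit 78) (PT.lf (nat_lit 10336) (nat_lit 6) (nat_lit 136) (nat_lit 5) (nat_lit 189) (nat_lit 205) (nat_lit 206)) (PT.lf (nat_lit 11172) (nat_lit 3) (nat_lit 147) (nat_lit 4) (nat_lit 190) (nat_lit 205) (nat_lit 205)))) (PT.nd (nat_lit 156) (PT.nd (nat_lit 78) (PT.lf (nat_lit 11856) (nat_lit 6) (nat_lit 156) (nat_lit 4) (nat_lit 191) (nat_lit 205) (nat_lit 204)) (PT.lf (nat_lit 12464) (nat_lit 6) (nat_lit 164) (nat_lit 4) (nat_lit 192) (nat_lit 205) (nat_lit 203))) (PT.nd (nat_lit 78) (PT.lf (nat_lit 12996) (nat_lit 6) (nat_lit 171) (nat_lit 4) (nat_lit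 193) (nat_lit 205) (nat_lit 202)) (PT.lf (nat_lit 13452) (nat_lit 6) (nat_lit 177) (nat_lit 4) (nat_lit 194) (nat_lit 205) (nat_lit 201))))) (PT.nd (nat_lit 312) (PT.nd (nat_lit 156) (PT.nd (nat_lit 78) (PT.lf (nat_lit 13832) (nat_lit 6) (nat_lit 182) (nat_lit 4) (nat_lit 195) (nat_lit 205) (nat_lit 200)) (PT.lf (nat_lit 13756) (nat_lit 6) (nat_lit 181) (nat_lit 4) (nat_lit 196) (nat_lit 205) (nat_lit 199))) (PT.nd (nat_lit 78) (PT.lf (nat_lit 13680) (nat_lit 6) (nat_lit 180) (nat_lit 4) (nat_lit 197) (nat_lit 205) (nat_lit 198)) (PT.lf (nat_lit 13680) (nat_lit 6) (nat_lit 180) (nat_lit 2) (nat_lit 198) (nat_lit 205) (nat_lit 197)))) (PT.nd (nat_lit 156) (PT.nd (nat_lit 78) (PT.lf (nat_lit 13756) (nat_lit 6) (nat_lit 181) (nat_lit 2) (nat_lit 199) (nat_lit 205) (nat_lit 196)) (PT.lf (nat_lit 13832) (nat_lit 6) (nat_lit 182) (nat_lit 2) (nat_lit 200) (nat_lit 205) (nat_lit 195))) (PT.nd (nat_lit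 78) (PT.lf (nat_lit 13452) (nat_lit 6) (nat_lit 177) (nat_lit 2) (nat_lit 201) (nat_lit 205) (nat_lit 194)) (PT.lf (nat_lit 12996) (nat_lit 6) (nat_lit 171) (nat_lit 2) (nat_lit 202) (nat_lit 205) (nat_lit 193)))))) (PT.nd (nat_lit 624) (PT.nd (nat_lit 312) (PT.nd (nat_lit 156) (PT.nd (nat_lit 78) (PT.lf (nat_lit 12464) (nat_lit 6) (nat_lit 164) (nat_lit 2) (nat_lit 203) (nat_lit 205) (nat_lit 192)) (PT.lf (nat_lit 11856) (nat_lit 6) (nat_lit 156) (nat_lit 2) (nat_lit 204) (nat_lit 205) (nat_lit 191))) (PT.nd (nat_lit 78) (PT.lf (nat_lit 11172) (nat_lit 3) (nat_lit 147) (nat_lit 0) (nat_lit 205) (nat_lit 205) (nat_lit 190)) (PT.lf (nat_lit 10336) (nat_lit 6) (nat_lit 136) (nat_lit 0) (nat_lit 206) (nat_lit 205) (nat_lit 189)))) (PT.nd (nat_lit 156) (PT.nd (nat_lit 78) (PT.lf (nat_lit 9880) (nat_lit 6) (nat_lit 130) (nat_lit 0) (nat_lit 207) (nat_lit 205) (nat_lit 188)) (PT.lf (nat_lit 9424) (nat_lit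 6) (nat_lit 124) (nat_lit 0) (nat_lit 208) (nat_lit 205) (nat_lit 187))) (PT.nd (nat_lit 78) (PT.lf (nat_lit 8968) (nat_lit 6) (nat_lit 118) (nat_lit 0) (nat_lit 209) (nat_lit 205) (nat_lit 186)) (PT.lf (nat_lit 8588) (nat_lit 6) (nat_lit 113) (nat_lit 0) (nat_lit 210) (nat_lit 205) (nat_lit 185))))) (PT.nd (nat_lit 60372) (PT.nd (nat_lit 60216) (PT.nd (nat_lit 78) (PT.lf (nat_lit 8208) (nat_lit 6) (nat_lit 108) (nat_lit 0) (nat_lit 211) (nat_lit 205) (nat_lit 184)) (PT.lf (nat_lit 7828) (nat_lit 6) (nat_lit 103) (nat_lit 0) (nat_lit 212) (nat_lit 205) (nat_lit 183))) (PT.nd (nat_lit 78) (PT.lf (nat_lit 7524) (nat_lit 6) (nat_lit 99) (nat_lit 5) (nat_lit 182) (nat_lit 206) (nat_lit 212)) (PT.lf (nat_lit 7904) (nat_lit 6) (nat_lit 104) (nat_lit 5) (nat_lit 183) (nat_lit 206) (nat_lit 211)))) (PT.nd (nat_lit 156) (PT.nd (nat_lit 78) (PT.lf (nat_lit 8284) (nat_lit 6) (nat_lit 109) (nat_lit 5) (nat_lit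 184) (nat_lit 206) (nat_lit 210)) (PT.lf (nat_lit 8664) (nat_lit 6) (nat_lit 114) (nat_lit 5) (nat_lit 185) (nat_lit 206) (nat_lit 209))) (PT.nd (nat_lit 78) (PT.lf (nat_lit 9044) (nat_lit 6) (nat_lit 119) (nat_lit 5) (nat_lit 186) (nat_lit 206) (nat_lit 208)) (PT.lf (nat_lit 9500) (nat_lit 6) (nat_lit 125) (nat_lit 5) (nat_lit 187) (nat_lit 206) (nat_lit 207)))))))
noncomputable def pc17 : PT := (PT.nd (nat_lit 1248) (PT.nd (nat_lit 624) (PT.nd (nat_lit 312) (PT.nd (nat_lit 156) (PT.nd (nat_lit 78) (PT.lf (nat_lit 9956) (nat_lit 3) (nat_lit 131) (nat_lit 4) (nat_lit 188) (nat_lit 206) (nat_lit 206)) (PT.lf (nat_lit 10336) (nat_lit 6) (nat_lit 136) (nat_lit 4) (nat_lit 189) (nat_lit 206) (nat_lit 205))) (PT.nd (nat_lit 78) (PT.lf (nat_lit 11096) (nat_lit 6) (nat_lit 146) (nat_lit 4) (nat_lit 190) (nat_lit 206) (nat_lit 204)) (PT.lf (nat_lit 11780) (nat_lit 6) (nat_lit 155) (nat_lit 4) (nat_lit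 191) (nat_lit 206) (nat_lit 203)))) (PT.nd (nat_lit 156) (PT.nd (nat_lit 78) (PT.lf (nat_lit 12388) (nat_lit 6) (nat_lit 163) (nat_lit 4) (nat_lit 192) (nat_lit 206) (nat_lit 202)) (PT.lf (nat_lit 12920) (nat_lit 6) (nat_lit 170) (nat_lit 4) (nat_lit 193) (nat_lit 206) (nat_lit 201))) (PT.nd (nat_lit 78) (PT.lf (nat_lit 13376) (nat_lit 6) (nat_lit 176) (nat_lit 4) (nat_lit 194) (nat_lit 206) (nat_lit 200)) (PT.lf (nat_lit 13300) (nat_lit 6) (nat_lit 175) (nat_lit 4) (nat_lit 195) (nat_lit 206) (nat_lit 199))))) (PT.nd (nat_lit 312) (PT.nd (nat_lit 156) (PT.nd (nat_lit 78) (PT.lf (nat_lit 13224) (nat_lit 6) (nat_lit 174) (nat_lit 4) (nat_lit 196) (nat_lit 206) (nat_lit 198)) (PT.lf (nat_lit 13148) (nat_lit 3) (nat_lit 173) (nat_lit 2) (nat_lit 197) (nat_lit 206) (nat_lit 197))) (PT.nd (nat_lit 78) (PT.lf (nat_lit 13224) (nat_lit 6) (nat_lit 174) (nat_lit 2) (nat_lit 198) (nat_lit 206) (nat_lit 196))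 (PT.lf (nat_lit 13300) (nat_lit 6) (nat_lit 175) (nat_lit 2) (nat_lit 199) (nat_lit 206) (nat_lit 195)))) (PT.nd (nat_lit 156) (PT.nd (nat_lit 78) (PT.lf (nat_lit 13376) (nat_lit 6) (nat_lit 176) (nat_lit 2) (nat_lit 200) (nat_lit 206) (nat_lit 194)) (PT.lf (nat_lit 12920) (nat_lit 6) (nat_lit 170) (nat_lit 2) (nat_lit 201) (nat_lit 206) (nat_lit 193))) (PT.nd (nat_lit 78) (PT.lf (nat_lit 12388) (nat_lit 6) (nat_lit 163) (nat_lit 2) (nat_lit 202) (nat_lit 206) (nat_lit 192)) (PT.lf (nat_lit 11780) (nat_lit 6) (nat_lit 155) (nat_lit 2) (nat_lit 203) (nat_lit 206) (nat_lit 191)))))) (PT.nd (nat_lit 624) (PT.nd (nat_lit 312) (PT.nd (nat_lit 156) (PT.nd (nat_lit 78) (PT.lf (nat_lit 11096) (nat_lit 6) (nat_lit 146) (nat_lit 2) (nat_lit 204) (nat_lit 206) (nat_lit 190)) (PT.lf (nat_lit 10336) (nat_lit 6) (nat_lit 136) (nat_lit 2) (nat_lit 205) (nat_lit 206) (nat_lit 189))) (PT.nd (nat_lit 78) (PT.lf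 (nat_lit 9956) (nat_lit 3) (nat_lit 131) (nat_lit 0) (nat_lit 206) (nat_lit 206) (nat_lit 188)) (PT.lf (nat_lit 9500) (nat_lit 6) (nat_lit 125) (nat_lit 0) (nat_lit 207) (nat_lit 206) (nat_lit 187)))) (PT.nd (nat_lit 156) (PT.nd (nat_lit 78) (PT.lf (nat_lit 9044) (nat_lit 6) (nat_lit 119) (nat_lit 0) (nat_lit 208) (nat_lit 206) (nat_lit 186)) (PT.lf (nat_lit 8664) (nat_lit 6) (nat_lit 114) (nat_lit 0) (nat_lit 209) (nat_lit 206) (nat_lit 185))) (PT.nd (nat_lit 78) (PT.lf (nat_lit 8284) (nat_lit 6) (nat_lit 109) (nat_lit 0) (nat_lit 210) (nat_lit 206) (nat_lit 184)) (PT.lf (nat_lit 7904) (nat_lit 6) (nat_lit 104) (nat_lit 0) (nat_lit 211) (nat_lit 206) (nat_lit 183))))) (PT.nd (nat_lit 60216) (PT.nd (nat_lit 60060) (PT.nd (nat_lit 59982) (PT.lf (nat_lit 7524) (nat_lit 6) (nat_lit 99) (nat_lit 0) (nat_lit 212) (nat_lit 206) (nat_lit 182)) (PT.lf (nat_lit 6992) (nat_lit 6) (nat_lit 92) (nat_lit 5)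 (nat_lit 180) (nat_lit 207) (nat_lit 213))) (PT.nd (nat_lit 78) (PT.lf (nat_lit 7296) (nat_lit 6) (nat_lit 96) (nat_lit 5) (nat_lit 181) (nat_lit 207) (nat_lit 212)) (PT.lf (nat_lit 7600) (nat_lit 6) (nat_lit 100) (nat_lit 5) (nat_lit 182) (nat_lit 207) (nat_lit 211)))) (PT.nd (nat_lit 156) (PT.nd (nat_lit 78) (PT.lf (nat_lit 7980) (nat_lit 6) (nat_lit 105) (nat_lit 5) (nat_lit 183) (nat_lit 207) (nat_lit 210)) (PT.lf (nat_lit 8360) (nat_lit 6) (nat_lit 110) (nat_lit 5) (nat_lit 184) (nat_lit 207) (nat_lit 209))) (PT.nd (nat_lit 78) (PT.lf (nat_lit 8740) (nat_lit 6) (nat_lit 115) (nat_lit 5) (nat_lit 185) (nat_lit 207) (nat_lit 208)) (PT.nd (nat_lit 78) (PT.lf (nat_lit 9120) (nat_lit 3) (nat_lit 120) (nat_lit 4) (nat_lit 186) (nat_lit 207) (nat_lit 207)) (PT.lf (nat_lit 9500) (nat_lit 6) (nat_lit 125) (nat_lit 4) (nat_lit 187) (nat_lit 207) (nat_lit 206))))))))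
noncomputable def pc18 : PT := (PT.nd (nat_lit 1248) (PT.nd (nat_lit 624) (PT.nd (nat_lit 312) (PT.nd (nat_lit 156) (PT.nd (nat_lit 78) (PT.lf (nat_lit 9880) (nat_lit 6) (nat_lit 130) (nat_lit 4) (nat_lit 188) (nat_lit 207) (nat_lit 205)) (PT.lf (nat_lit 10260) (nat_lit 6) (nat_lit 135) (nat_lit 4) (nat_lit 189) (nat_lit 207) (nat_lit 204))) (PT.nd (nat_lit 78) (PT.lf (nat_lit 11020) (nat_lit 6) (nat_lit 145) (nat_lit 4) (nat_lit 190) (nat_lit 207) (nat_lit 203)) (PT.lf (nat_lit 11704) (nat_lit 6) (nat_lit 154) (nat_lit 4) (nat_lit 191) (nat_lit 207) (nat_lit 202)))) (PT.nd (nat_lit 156) (PT.nd (nat_lit 78) (PT.lf (nat_lit 12312) (nat_lit 6) (nat_lit 162) (nat_lit 4) (nat_lit 192) (nat_lit 207) (nat_lit 201)) (PT.lf (nat_lit 12844) (nat_lit 6) (nat_lit 169) (nat_lit 4) (nat_lit 193) (nat_lit 207) (nat_lit 200))) (PT.nd (nat_lit 78) (PT.lf (nat_lit 12768) (nat_lit 6) (nat_lit 168) (nat_lit 4) (nat_lit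 194) (nat_lit 207) (nat_lit 199)) (PT.lf (nat_lit 12692) (nat_lit 6) (nat_lit 167) (nat_lit 4) (nat_lit 195) (nat_lit 207) (nat_lit 198))))) (PT.nd (nat_lit 312) (PT.nd (nat_lit 156) (PT.nd (nat_lit 78) (PT.lf (nat_lit 12616) (nat_lit 6) (nat_lit 166) (nat_lit 4) (nat_lit 196) (nat_lit 207) (nat_lit 197)) (PT.lf (nat_lit 12616) (nat_lit 6) (nat_lit 166) (nat_lit 2) (nat_lit 197) (nat_lit 207) (nat_lit 196))) (PT.nd (nat_lit 78) (PT.lf (nat_lit 12692) (nat_lit 6) (nat_lit 167) (nat_lit 2) (nat_lit 198) (nat_lit 207) (nat_lit 195)) (PT.lf (nat_lit 12768) (nat_lit 6) (nat_lit 168) (nat_lit 2) (nat_lit 199) (nat_lit 207) (nat_lit 194)))) (PT.nd (nat_lit 156) (PT.nd (nat_lit 78) (PT.lf (nat_lit 12844) (nat_lit 6) (nat_lit 169) (nat_lit 2) (nat_lit 200) (nat_lit 207) (nat_lit 193)) (PT.lf (nat_lit 12312) (nat_lit 6) (nat_lit 162) (nat_lit 2) (nat_lit 201) (nat_lit 207) (nat_lit 192))) (PT.nd (nat_lit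 78) (PT.lf (nat_lit 11704) (nat_lit 6) (nat_lit 154) (nat_lit 2) (nat_lit 202) (nat_lit 207) (nat_lit 191)) (PT.lf (nat_lit 11020) (nat_lit 6) (nat_lit 145) (nat_lit 2) (nat_lit 203) (nat_lit 207) (nat_lit 190)))))) (PT.nd (nat_lit 624) (PT.nd (nat_lit 312) (PT.nd (nat_lit 156) (PT.nd (nat_lit 78) (PT.lf (nat_lit 10260) (nat_lit 6) (nat_lit 135) (nat_lit 2) (nat_lit 204) (nat_lit 207) (nat_lit 189)) (PT.lf (nat_lit 9880) (nat_lit 6) (nat_lit 130) (nat_lit 2) (nat_lit 205) (nat_lit 207) (nat_lit 188))) (PT.nd (nat_lit 78) (PT.lf (nat_lit 9500) (nat_lit 6) (nat_lit 125) (nat_lit 2) (nat_lit 206) (nat_lit 207) (nat_lit 187)) (PT.lf (nat_lit 9120) (nat_lit 3) (nat_lit 120) (nat_lit 0) (nat_lit 207) (nat_lit 207) (nat_lit 186)))) (PT.nd (nat_lit 156) (PT.nd (nat_lit 78) (PT.lf (nat_lit 8740) (nat_lit 6) (nat_lit 115) (nat_lit 0) (nat_lit 208) (nat_lit 207) (nat_lit 185)) (PT.lf (nat_lit 8360) (nat_lit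 6) (nat_lit 110) (nat_lit 0) (nat_lit 209) (nat_lit 207) (nat_lit 184))) (PT.nd (nat_lit 78) (PT.lf (nat_lit 7980) (nat_lit 6) (nat_lit 105) (nat_lit 0) (nat_lit 210) (nat_lit 207) (nat_lit 183)) (PT.lf (nat_lit 7600) (nat_lit 6) (nat_lit 100) (nat_lit 0) (nat_lit 211) (nat_lit 207) (nat_lit 182))))) (PT.nd (nat_lit 60060) (PT.nd (nat_lit 59904) (PT.nd (nat_lit 78) (PT.lf (nat_lit 7296) (nat_lit 6) (nat_lit 96) (nat_lit 0) (nat_lit 212) (nat_lit 207) (nat_lit 181)) (PT.lf (nat_lit 6992) (nat_lit 6) (nat_lit 92) (nat_lit 0) (nat_lit 213) (nat_lit 207) (nat_lit 180))) (PT.nd (nat_lit 78) (PT.lf (nat_lit 6764) (nat_lit 6) (nat_lit 89) (nat_lit 5) (nat_lit 179) (nat_lit 208) (nat_lit 213)) (PT.lf (nat_lit 7068) (nat_lit 6) (nat_lit 93) (nat_lit 5) (nat_lit 180) (nat_lit 208) (nat_lit 212)))) (PT.nd (nat_lit 156) (PT.nd (nat_lit 78) (PT.lf (nat_lit 7372) (nat_lit 6) (nat_lit 97) (nat_lit 5) (nat_lit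 181) (nat_lit 208) (nat_lit 211)) (PT.lf (nat_lit 7676) (nat_lit 6) (nat_lit 101) (nat_lit 5) (nat_lit 182) (nat_lit 208) (nat_lit 210))) (PT.nd (nat_lit 78) (PT.lf (nat_lit 8056) (nat_lit 6) (nat_lit 106) (nat_lit 5) (nat_lit 183) (nat_lit 208) (nat_lit 209)) (PT.lf (nat_lit 8436) (nat_lit 3) (nat_lit 111) (nat_lit 4) (nat_lit 184) (nat_lit 208) (nat_lit 208)))))))
noncomputable def pc19 : PT := (PT.nd (nat_lit 1248) (PT.nd (nat_lit 624) (PT.nd (nat_lit 312) (PT.nd (nat_lit 156) (PT.nd (nat_lit 78) (PT.lf (nat_lit 8740) (nat_lit 6) (nat_lit 115) (nat_lit 4) (nat_lit 185) (nat_lit 208) (nat_lit 207)) (PT.lf (nat_lit 9044) (nat_lit 6) (nat_lit 119) (nat_lit 4) (nat_lit 186) (nat_lit 208) (nat_lit 206))) (PT.nd (nat_lit 78) (PT.lf (nat_lit 9424) (nat_lit 6) (nat_lit 124) (nat_lit 4) (nat_lit 187) (nat_lit 208) (nat_lit 205)) (PT.lf (nat_lit 9804) (nat_lit 6) (nat_lit 129) (nat_lit 4) (nat_lit 188)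 (nat_lit 208) (nat_lit 204)))) (PT.nd (nat_lit 156) (PT.nd (nat_lit 78) (PT.lf (nat_lit 10184) (nat_lit 6) (nat_lit 134) (nat_lit 4) (nat_lit 189) (nat_lit 208) (nat_lit 203)) (PT.lf (nat_lit 10944) (nat_lit 6) (nat_lit 144) (nat_lit 4) (nat_lit 190) (nat_lit 208) (nat_lit 202))) (PT.nd (nat_lit 78) (PT.lf (nat_lit 11628) (nat_lit 6) (nat_lit 153) (nat_lit 4) (nat_lit 191) (nat_lit 208) (nat_lit 201)) (PT.lf (nat_lit 12236) (nat_lit 6) (nat_lit 161) (nat_lit 4) (nat_lit 192) (nat_lit 208) (nat_lit 200))))) (PT.nd (nat_lit 312) (PT.nd (nat_lit 156) (PT.nd (nat_lit 78) (PT.lf (nat_lit 12160) (nat_lit 6) (nat_lit 160) (nat_lit 4) (nat_lit 193) (nat_lit 208) (nat_lit 199)) (PT.lf (nat_lit 12084) (nat_lit 6) (nat_lit 159) (nat_lit 4) (nat_lit 194) (nat_lit 208) (nat_lit 198))) (PT.nd (nat_lit 78) (PT.lf (nat_lit 12008) (nat_lit 6) (nat_lit 158) (nat_lit 4) (nat_lit 195) (nat_lit 208) (nat_lit 197))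 (PT.lf (nat_lit 11932) (nat_lit 3) (nat_lit 157) (nat_lit 2) (nat_lit 196) (nat_lit 208) (nat_lit 196)))) (PT.nd (nat_lit 156) (PT.nd (nat_lit 78) (PT.lf (nat_lit 12008) (nat_lit 6) (nat_lit 158) (nat_lit 2) (nat_lit 197) (nat_lit 208) (nat_lit 195)) (PT.lf (nat_lit 12084) (nat_lit 6) (nat_lit 159) (nat_lit 2) (nat_lit 198) (nat_lit 208) (nat_lit 194))) (PT.nd (nat_lit 78) (PT.lf (nat_lit 12160) (nat_lit 6) (nat_lit 160) (nat_lit 2) (nat_lit 199) (nat_lit 208) (nat_lit 193)) (PT.lf (nat_lit 12236) (nat_lit 6) (nat_lit 161) (nat_lit 2) (nat_lit 200) (nat_lit 208) (nat_lit 192)))))) (PT.nd (nat_lit 624) (PT.nd (nat_lit 312) (PT.nd (nat_lit 156) (PT.nd (nat_lit 78) (PT.lf (nat_lit 11628) (nat_lit 6) (nat_lit 153) (nat_lit 2) (nat_lit 201) (nat_lit 208) (nat_lit 191)) (PT.lf (nat_lit 10944) (nat_lit 6) (nat_lit 144) (nat_lit 2) (nat_lit 202) (nat_lit 208) (nat_lit 190))) (PT.nd (nat_lit 78) (PT.lf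 (nat_lit 10184) (nat_lit 6) (nat_lit 134) (nat_lit 2) (nat_lit 203) (nat_lit 208) (nat_lit 189)) (PT.lf (nat_lit 9804) (nat_lit 6) (nat_lit 129) (nat_lit 2) (nat_lit 204) (nat_lit 208) (nat_lit 188)))) (PT.nd (nat_lit 156) (PT.nd (nat_lit 78) (PT.lf (nat_lit 9424) (nat_lit 6) (nat_lit 124) (nat_lit 2) (nat_lit 205) (nat_lit 208) (nat_lit 187)) (PT.lf (nat_lit 9044) (nat_lit 6) (nat_lit 119) (nat_lit 2) (nat_lit 206) (nat_lit 208) (nat_lit 186))) (PT.nd (nat_lit 78) (PT.lf (nat_lit 8740) (nat_lit 6) (nat_lit 115) (nat_lit 2) (nat_lit 207) (nat_lit 208) (nat_lit 185)) (PT.lf (nat_lit 8436) (nat_lit 3) (nat_lit 111) (nat_lit 0) (nat_lit 208) (nat_lit 208) (nat_lit 184))))) (PT.nd (nat_lit 312) (PT.nd (nat_lit 156) (PT.nd (nat_lit 78) (PT.lf (nat_lit 8056) (nat_lit 6) (nat_lit 106) (nat_lit 0) (nat_lit 209) (nat_lit 208) (nat_lit 183)) (PT.lf (nat_lit 7676) (nat_lit 6) (nat_lit 101) (nat_lit 0) (nat_lit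 210) (nat_lit 208) (nat_lit 182))) (PT.nd (nat_lit 78) (PT.lf (nat_lit 7372) (nat_lit 6) (nat_lit 97) (nat_lit 0) (nat_lit 211) (nat_lit 208) (nat_lit 181)) (PT.lf (nat_lit 7068) (nat_lit 6) (nat_lit 93) (nat_lit 0) (nat_lit 212) (nat_lit 208) (nat_lit 180)))) (PT.nd (nat_lit 59748) (PT.nd (nat_lit 59670) (PT.lf (nat_lit 6764) (nat_lit 6) (nat_lit 89) (nat_lit 0) (nat_lit 213) (nat_lit 208) (nat_lit 179)) (PT.lf (nat_lit 6308) (nat_lit 6) (nat_lit 83) (nat_lit 5) (nat_lit 177) (nat_lit 209) (nat_lit 214))) (PT.nd (nat_lit 78) (PT.lf (nat_lit 6536) (nat_lit 6) (nat_lit 86) (nat_lit 5) (nat_lit 178) (nat_lit 209) (nat_lit 213)) (PT.nd (nat_lit 78) (PT.lf (nat_lit 6840) (nat_lit 6) (nat_lit 90) (nat_lit 5) (nat_lit 179) (nat_lit 209) (nat_lit 212)) (PT.lf (nat_lit 7144) (nat_lit 6) (nat_lit 94) (nat_lit 5) (nat_lit 180) (nat_lit 209) (nat_lit 211))))))))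
noncomputable def pc20 : PT := (PT.nd (nat_lit 1248) (PT.nd (nat_lit 624) (PT.nd (nat_lit 312) (PT.nd (nat_lit 156) (PT.nd (nat_lit 78) (PT.lf (nat_lit 7448) (nat_lit 6) (nat_lit 98) (nat_lit 5) (nat_lit 181) (nat_lit 209) (nat_lit 210)) (PT.lf (nat_lit 7752) (nat_lit 3) (nat_lit 102) (nat_lit 4) (nat_lit 182) (nat_lit 209) (nat_lit 209))) (PT.nd (nat_lit 78) (PT.lf (nat_lit 8056) (nat_lit 6) (nat_lit 106) (nat_lit 4) (nat_lit 183) (nat_lit 209) (nat_lit 208)) (PT.lf (nat_lit 8360) (nat_lit 6) (nat_lit 110) (nat_lit 4) (nat_lit 184) (nat_lit 209) (nat_lit 207)))) (PT.nd (nat_lit 156) (PT.nd (nat_lit 78) (PT.lf (nat_lit 8664) (nat_lit 6) (nat_lit 114) (nat_lit 4) (nat_lit 185) (nat_lit 209) (nat_lit 206)) (PT.lf (nat_lit 8968) (nat_lit 6) (nat_lit 118) (nat_lit 4) (nat_lit 186) (nat_lit 209) (nat_lit 205))) (PT.nd (nat_lit 78) (PT.lf (nat_lit 9348) (nat_lit 6) (nat_lit 123) (nat_lit 4) (nat_lit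 187) (nat_lit 209) (nat_lit 204)) (PT.lf (nat_lit 9728) (nat_lit 6) (nat_lit 128) (nat_lit 4) (nat_lit 188) (nat_lit 209) (nat_lit 203))))) (PT.nd (nat_lit 312) (PT.nd (nat_lit 156) (PT.nd (nat_lit 78) (PT.lf (nat_lit 10108) (nat_lit 6) (nat_lit 133) (nat_lit 4) (nat_lit 189) (nat_lit 209) (nat_lit 202)) (PT.lf (nat_lit 10868) (nat_lit 6) (nat_lit 143) (nat_lit 4) (nat_lit 190) (nat_lit 209) (nat_lit 201))) (PT.nd (nat_lit 78) (PT.lf (nat_lit 11552) (nat_lit 6) (nat_lit 152) (nat_lit 4) (nat_lit 191) (nat_lit 209) (nat_lit 200)) (PT.lf (nat_lit 11476) (nat_lit 6) (nat_lit 151) (nat_lit 4) (nat_lit 192) (nat_lit 209) (nat_lit 199)))) (PT.nd (nat_lit 156) (PT.nd (nat_lit 78) (PT.lf (nat_lit 11400) (nat_lit 6) (nat_lit 150) (nat_lit 4) (nat_lit 193) (nat_lit 209) (nat_lit 198)) (PT.lf (nat_lit 11324) (nat_lit 6) (nat_lit 149) (nat_lit 4) (nat_lit 194) (nat_lit 209) (nat_lit 197))) (PT.nd (nat_lit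 78) (PT.lf (nat_lit 11248) (nat_lit 6) (nat_lit 148) (nat_lit 4) (nat_lit 195) (nat_lit 209) (nat_lit 196)) (PT.lf (nat_lit 11248) (nat_lit 6) (nat_lit 148) (nat_lit 2) (nat_lit 196) (nat_lit 209) (nat_lit 195)))))) (PT.nd (nat_lit 624) (PT.nd (nat_lit 312) (PT.nd (nat_lit 156) (PT.nd (nat_lit 78) (PT.lf (nat_lit 11324) (nat_lit 6) (nat_lit 149) (nat_lit 2) (nat_lit 197) (nat_lit 209) (nat_lit 194)) (PT.lf (nat_lit 11400) (nat_lit 6) (nat_lit 150) (nat_lit 2) (nat_lit 198) (nat_lit 209) (nat_lit 193))) (PT.nd (nat_lit 78) (PT.lf (nat_lit 11476) (nat_lit 6) (nat_lit 151) (nat_lit 2) (nat_lit 199) (nat_lit 209) (nat_lit 192)) (PT.lf (nat_lit 11552) (nat_lit 6) (nat_lit 152) (nat_lit 2) (nat_lit 200) (nat_lit 209) (nat_lit 191)))) (PT.nd (nat_lit 156) (PT.nd (nat_lit 78) (PT.lf (nat_lit 10868) (nat_lit 6) (nat_lit 143) (nat_lit 2) (nat_lit 201) (nat_lit 209) (nat_lit 190)) (PT.lf (nat_lit 10108) (nat_lit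 6) (nat_lit 133) (nat_lit 2) (nat_lit 202) (nat_lit 209) (nat_lit 189))) (PT.nd (nat_lit 78) (PT.lf (nat_lit 9728) (nat_lit 6) (nat_lit 128) (nat_lit 2) (nat_lit 203) (nat_lit 209) (nat_lit 188)) (PT.lf (nat_lit 9348) (nat_lit 6) (nat_lit 123) (nat_lit 2) (nat_lit 204) (nat_lit 209) (nat_lit 187))))) (PT.nd (nat_lit 312) (PT.nd (nat_lit 156) (PT.nd (nat_lit 78) (PT.lf (nat_lit 8968) (nat_lit 6) (nat_lit 118) (nat_lit 2) (nat_lit 205) (nat_lit 209) (nat_lit 186)) (PT.lf (nat_lit 8664) (nat_lit 6) (nat_lit 114) (nat_lit 2) (nat_lit 206) (nat_lit 209) (nat_lit 185))) (PT.nd (nat_lit 78) (PT.lf (nat_lit 8360) (nat_lit 6) (nat_lit 110) (nat_lit 2) (nat_lit 207) (nat_lit 209) (nat_lit 184)) (PT.lf (nat_lit 8056) (nat_lit 6) (nat_lit 106) (nat_lit 2) (nat_lit 208) (nat_lit 209) (nat_lit 183)))) (PT.nd (nat_lit 156) (PT.nd (nat_lit 78) (PT.lf (nat_lit 7752) (nat_lit 3) (nat_lit 102) (nat_lit 0) (nat_lit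 209) (nat_lit 209) (nat_lit 182)) (PT.lf (nat_lit 7448) (nat_lit 6) (nat_lit 98) (nat_lit 0) (nat_lit 210) (nat_lit 209) (nat_lit 181))) (PT.nd (nat_lit 78) (PT.lf (nat_lit 7144) (nat_lit 6) (nat_lit 94) (nat_lit 0) (nat_lit 211) (nat_lit 209) (nat_lit 180)) (PT.lf (nat_lit 6840) (nat_lit 6) (nat_lit 90) (nat_lit 0) (nat_lit 212) (nat_lit 209) (nat_lit 179)))))))
noncomputable def pc21 : PT := (PT.nd (nat_lit 60606) (PT.nd (nat_lit 59982) (PT.nd (nat_lit 59670) (PT.nd (nat_lit 59514) (PT.nd (nat_lit 78) (PT.lf (nat_lit 6536) (nat_lit 6) (nat_lit 86) (nat_lit 0) (nat_lit 213) (nat_lit 209) (nat_lit 178)) (PT.lf (nat_lit 6308) (nat_lit 6) (nat_lit 83) (nat_lit 0) (nat_lit 214) (nat_lit 209) (nat_lit 177))) (PT.nd (nat_lit 78) (PT.lf (nat_lit 5852) (nat_lit 6) (nat_lit 77) (nat_lit 5) (nat_lit 175) (nat_lit 210) (nat_lit 215)) (PT.lf (nat_lit 6080) (nat_lit 6) (nat_lit 80) (nat_lit 5) (nat_lit 176)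 (nat_lit 210) (nat_lit 214)))) (PT.nd (nat_lit 156) (PT.nd (nat_lit 78) (PT.lf (nat_lit 6384) (nat_lit 6) (nat_lit 84) (nat_lit 5) (nat_lit 177) (nat_lit 210) (nat_lit 213)) (PT.lf (nat_lit 6612) (nat_lit 6) (nat_lit 87) (nat_lit 5) (nat_lit 178) (nat_lit 210) (nat_lit 212))) (PT.nd (nat_lit 78) (PT.lf (nat_lit 6916) (nat_lit 6) (nat_lit 91) (nat_lit 5) (nat_lit 179) (nat_lit 210) (nat_lit 211)) (PT.lf (nat_lit 7220) (nat_lit 3) (nat_lit 95) (nat_lit 4) (nat_lit 180) (nat_lit 210) (nat_lit 210))))) (PT.nd (nat_lit 312) (PT.nd (nat_lit 156) (PT.nd (nat_lit 78) (PT.lf (nat_lit 7448) (nat_lit 6) (nat_lit 98) (nat_lit 4) (nat_lit 181) (nat_lit 210) (nat_lit 209)) (PT.lf (nat_lit 7676) (nat_lit 6) (nat_lit 101) (nat_lit 4) (nat_lit 182) (nat_lit 210) (nat_lit 208))) (PT.nd (nat_lit 78) (PT.lf (nat_lit 7980) (nat_lit 6) (nat_lit 105) (nat_lit 4) (nat_lit 183) (nat_lit 210) (nat_lit 207)) (PT.lf (nat_lit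 8284) (nat_lit 6) (nat_lit 109) (nat_lit 4) (nat_lit 184) (nat_lit 210) (nat_lit 206)))) (PT.nd (nat_lit 156) (PT.nd (nat_lit 78) (PT.lf (nat_lit 8588) (nat_lit 6) (nat_lit 113) (nat_lit 4) (nat_lit 185) (nat_lit 210) (nat_lit 205)) (PT.lf (nat_lit 8892) (nat_lit 6) (nat_lit 117) (nat_lit 4) (nat_lit 186) (nat_lit 210) (nat_lit 204))) (PT.nd (nat_lit 78) (PT.lf (nat_lit 9272) (nat_lit 6) (nat_lit 122) (nat_lit 4) (nat_lit 187) (nat_lit 210) (nat_lit 203)) (PT.lf (nat_lit 9652) (nat_lit 6) (nat_lit 127) (nat_lit 4) (nat_lit 188) (nat_lit 210) (nat_lit 202)))))) (PT.nd (nat_lit 624) (PT.nd (nat_lit 312) (PT.nd (nat_lit 156) (PT.nd (nat_lit 78) (PT.lf (nat_lit 10032) (nat_lit 6) (nat_lit 132) (nat_lit 4) (nat_lit 189) (nat_lit 210) (nat_lit 201)) (PT.lf (nat_lit 10792) (nat_lit 6) (nat_lit 142) (nat_lit 4) (nat_lit 190) (nat_lit 210) (nat_lit 200))) (PT.nd (nat_lit 78) (PT.lf (nat_lit 10716) (nat_lit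 6) (nat_lit 141) (nat_lit 4) (nat_lit 191) (nat_lit 210) (nat_lit 199)) (PT.lf (nat_lit 10640) (nat_lit 6) (nat_lit 140) (nat_lit 4) (nat_lit 192) (nat_lit 210) (nat_lit 198)))) (PT.nd (nat_lit 156) (PT.nd (nat_lit 78) (PT.lf (nat_lit 10564) (nat_lit 6) (nat_lit 139) (nat_lit 4) (nat_lit 193) (nat_lit 210) (nat_lit 197)) (PT.lf (nat_lit 10488) (nat_lit 6) (nat_lit 138) (nat_lit 4) (nat_lit 194) (nat_lit 210) (nat_lit 196))) (PT.nd (nat_lit 78) (PT.lf (nat_lit 10412) (nat_lit 3) (nat_lit 137) (nat_lit 2) (nat_lit 195) (nat_lit 210) (nat_lit 195)) (PT.lf (nat_lit 10488) (nat_lit 6) (nat_lit 138) (nat_lit 2) (nat_lit 196) (nat_lit 210) (nat_lit 194))))) (PT.nd (nat_lit 312) (PT.nd (nat_lit 156) (PT.nd (nat_lit 78) (PT.lf (nat_lit 10564) (nat_lit 6) (nat_lit 139) (nat_lit 2) (nat_lit 197) (nat_lit 210) (nat_lit 193)) (PT.lf (nat_lit 10640) (nat_lit 6) (nat_lit 140) (nat_lit 2) (nat_lit 198) (nat_lit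 210) (nat_lit 192))) (PT.nd (nat_lit 78) (PT.lf (nat_lit 10716) (nat_lit 6) (nat_lit 141) (nat_lit 2) (nat_lit 199) (nat_lit 210) (nat_lit 191)) (PT.lf (nat_lit 10792) (nat_lit 6) (nat_lit 142) (nat_lit 2) (nat_lit 200) (nat_lit 210) (nat_lit 190)))) (PT.nd (nat_lit 156) (PT.nd (nat_lit 78) (PT.lf (nat_lit 10032) (nat_lit 6) (nat_lit 132) (nat_lit 2) (nat_lit 201) (nat_lit 210) (nat_lit 189)) (PT.lf (nat_lit 9652) (nat_lit 6) (nat_lit 127) (nat_lit 2) (nat_lit 202) (nat_lit 210) (nat_lit 188))) (PT.nd (nat_lit 78) (PT.lf (nat_lit 9272) (nat_lit 6) (nat_lit 122) (nat_lit 2) (nat_lit 203) (nat_lit 210) (nat_lit 187)) (PT.nd (nat_lit 78) (PT.lf (nat_lit 8892) (nat_lit 6) (nat_lit 117) (nat_lit 2) (nat_lit 204) (nat_lit 210) (nat_lit 186)) (PT.lf (nat_lit 8588) (nat_lit 6) (nat_lit 113) (nat_lit 2) (nat_lit 205) (nat_lit 210) (nat_lit 185))))))))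
noncomputable def pc22 : PT := (PT.nd (nat_lit 60450) (PT.nd (nat_lit 624) (PT.nd (nat_lit 312) (PT.nd (nat_lit 156) (PT.nd (nat_lit 78) (PT.lf (nat_lit 8284) (nat_lit 6) (nat_lit 109) (nat_lit 2) (nat_lit 206) (nat_lit 210) (nat_lit 184)) (PT.lf (nat_lit 7980) (nat_lit 6) (nat_lit 105) (nat_lit 2) (nat_lit 207) (nat_lit 210) (nat_lit 183))) (PT.nd (nat_lit 78) (PT.lf (nat_lit 7676) (nat_lit 6) (nat_lit 101) (nat_lit 2) (nat_lit 208) (nat_lit 210) (nat_lit 182)) (PT.lf (nat_lit 7448) (nat_lit 6) (nat_lit 98) (nat_lit 2) (nat_lit 209) (nat_lit 210) (nat_lit 181)))) (PT.nd (nat_lit 156) (PT.nd (nat_lit 78) (PT.lf (nat_lit 7220) (nat_lit 3) (nat_lit 95) (nat_lit 0) (nat_lit 210) (nat_lit 210) (nat_lit 180)) (PT.lf (nat_lit 6916) (nat_lit 6) (nat_lit 91) (nat_lit 0) (nat_lit 211) (nat_lit 210) (nat_lit 179))) (PT.nd (nat_lit 78) (PT.lf (nat_lit 6612) (nat_lit 6) (nat_lit 87) (nat_lit 0) (nat_lit 212)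 (nat_lit 210) (nat_lit 178)) (PT.lf (nat_lit 6384) (nat_lit 6) (nat_lit 84) (nat_lit 0) (nat_lit 213) (nat_lit 210) (nat_lit 177))))) (PT.nd (nat_lit 59514) (PT.nd (nat_lit 59358) (PT.nd (nat_lit 78) (PT.lf (nat_lit 6080) (nat_lit 6) (nat_lit 80) (nat_lit 0) (nat_lit 214) (nat_lit 210) (nat_lit 176)) (PT.lf (nat_lit 5852) (nat_lit 6) (nat_lit 77) (nat_lit 0) (nat_lit 215) (nat_lit 210) (nat_lit 175))) (PT.nd (nat_lit 78) (PT.lf (nat_lit 5624) (nat_lit 6) (nat_lit 74) (nat_lit 5) (nat_lit 174) (nat_lit 211) (nat_lit 215)) (PT.lf (nat_lit 5928) (nat_lit 6) (nat_lit 78) (nat_lit 5) (nat_lit 175) (nat_lit 211) (nat_lit 214)))) (PT.nd (nat_lit 156) (PT.nd (nat_lit 78) (PT.lf (nat_lit 6156) (nat_lit 6) (nat_lit 81) (nat_lit 5) (nat_lit 176) (nat_lit 211) (nat_lit 213)) (PT.lf (nat_lit 6460) (nat_lit 6) (nat_lit 85) (nat_lit 5) (nat_lit 177) (nat_lit 211) (nat_lit 212))) (PT.nd (nat_lit 78) (PT.lf (nat_lit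 6688) (nat_lit 3) (nat_lit 88) (nat_lit 4) (nat_lit 178) (nat_lit 211) (nat_lit 211)) (PT.lf (nat_lit 6916) (nat_lit 6) (nat_lit 91) (nat_lit 4) (nat_lit 179) (nat_lit 211) (nat_lit 210)))))) (PT.nd (nat_lit 624) (PT.nd (nat_lit 312) (PT.nd (nat_lit 156) (PT.nd (nat_lit 78) (PT.lf (nat_lit 7144) (nat_lit 6) (nat_lit 94) (nat_lit 4) (nat_lit 180) (nat_lit 211) (nat_lit 209)) (PT.lf (nat_lit 7372) (nat_lit 6) (nat_lit 97) (nat_lit 4) (nat_lit 181) (nat_lit 211) (nat_lit 208))) (PT.nd (nat_lit 78) (PT.lf (nat_lit 7600) (nat_lit 6) (nat_lit 100) (nat_lit 4) (nat_lit 182) (nat_lit 211) (nat_lit 207)) (PT.lf (nat_lit 7904) (nat_lit 6) (nat_lit 104) (nat_lit 4) (nat_lit 183) (nat_lit 211) (nat_lit 206)))) (PT.nd (nat_lit 156) (PT.nd (nat_lit 78) (PT.lf (nat_lit 8208) (nat_lit 6) (nat_lit 108) (nat_lit 4) (nat_lit 184) (nat_lit 211) (nat_lit 205)) (PT.lf (nat_lit 8512) (nat_lit 6) (nat_lit 112) (nat_lit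 4) (nat_lit 185) (nat_lit 211) (nat_lit 204))) (PT.nd (nat_lit 78) (PT.lf (nat_lit 8816) (nat_lit 6) (nat_lit 116) (nat_lit 4) (nat_lit 186) (nat_lit 211) (nat_lit 203)) (PT.lf (nat_lit 9196) (nat_lit 6) (nat_lit 121) (nat_lit 4) (nat_lit 187) (nat_lit 211) (nat_lit 202))))) (PT.nd (nat_lit 1248) (PT.nd (nat_lit 1092) (PT.nd (nat_lit 1014) (PT.lf (nat_lit 9576) (nat_lit 6) (nat_lit 126) (nat_lit 4) (nat_lit 188) (nat_lit 211) (nat_lit 201)) (PT.lf (nat_lit 9576) (nat_lit 6) (nat_lit 126) (nat_lit 2) (nat_lit 201) (nat_lit 211) (nat_lit 188))) (PT.nd (nat_lit 78) (PT.lf (nat_lit 9196) (nat_lit 6) (nat_lit 121) (nat_lit 2) (nat_lit 202) (nat_lit 211) (nat_lit 187)) (PT.lf (nat_lit 8816) (nat_lit 6) (nat_lit 116) (nat_lit 2) (nat_lit 203) (nat_lit 211) (nat_lit 186)))) (PT.nd (nat_lit 156) (PT.nd (nat_lit 78) (PT.lf (nat_lit 8512) (nat_lit 6) (nat_lit 112) (nat_lit 2) (nat_lit 204) (nat_lit 211) (nat_lit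 185)) (PT.lf (nat_lit 8208) (nat_lit 6) (nat_lit 108) (nat_lit 2) (nat_lit 205) (nat_lit 211) (nat_lit 184))) (PT.nd (nat_lit 78) (PT.lf (nat_lit 7904) (nat_lit 6) (nat_lit 104) (nat_lit 2) (nat_lit 206) (nat_lit 211) (nat_lit 183)) (PT.nd (nat_lit 78) (PT.lf (nat_lit 7600) (nat_lit 6) (nat_lit 100) (nat_lit 2) (nat_lit 207) (nat_lit 211) (nat_lit 182)) (PT.lf (nat_lit 7372) (nat_lit 6) (nat_lit 97) (nat_lit 2) (nat_lit 208) (nat_lit 211) (nat_lit 181))))))))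
noncomputable def pc23 : PT := (PT.nd (nat_lit 60294) (PT.nd (nat_lit 59670) (PT.nd (nat_lit 312) (PT.nd (nat_lit 156) (PT.nd (nat_lit 78) (PT.lf (nat_lit 7144) (nat_lit 6) (nat_lit 94) (nat_lit 2) (nat_lit 209) (nat_lit 211) (nat_lit 180)) (PT.lf (nat_lit 6916) (nat_lit 6) (nat_lit 91) (nat_lit 2) (nat_lit 210) (nat_lit 211) (nat_lit 179))) (PT.nd (nat_lit 78) (PT.lf (nat_lit 6688) (nat_lit 3) (nat_lit 88) (nat_lit 0) (nat_lit 211) (nat_lit 211) (nat_lit 178)) (PT.lf (nat_lit 6460) (nat_lit 6) (nat_lit 85) (nat_lit 0) (nat_lit 212) (nat_lit 211) (nat_lit 177)))) (PT.nd (nat_lit 156) (PT.nd (nat_lit 78) (PT.lf (nat_lit 6156) (nat_lit 6) (nat_lit 81) (nat_lit 0) (nat_lit 213) (nat_lit 211) (nat_lit 176)) (PT.lf (nat_lit 5928) (nat_lit 6) (nat_lit 78) (nat_lit 0) (nat_lit 214) (nat_lit 211) (nat_lit 175))) (PT.nd (nat_lit 59124) (PT.lf (nat_lit 5624) (nat_lit 6) (nat_lit 74) (nat_lit 0) (nat_lit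 215) (nat_lit 211) (nat_lit 174)) (PT.lf (nat_lit 5244) (nat_lit 6) (nat_lit 69) (nat_lit 5) (nat_lit 172) (nat_lit 212) (nat_lit 216))))) (PT.nd (nat_lit 312) (PT.nd (nat_lit 156) (PT.nd (nat_lit 78) (PT.lf (nat_lit 5472) (nat_lit 6) (nat_lit 72) (nat_lit 5) (nat_lit 173) (nat_lit 212) (nat_lit 215)) (PT.lf (nat_lit 5700) (nat_lit 6) (nat_lit 75) (nat_lit 5) (nat_lit 174) (nat_lit 212) (nat_lit 214))) (PT.nd (nat_lit 78) (PT.lf (nat_lit 6004) (nat_lit 6) (nat_lit 79) (nat_lit 5) (nat_lit 175) (nat_lit 212) (nat_lit 213)) (PT.lf (nat_lit 6232) (nat_lit 3) (nat_lit 82) (nat_lit 4) (nat_lit 176) (nat_lit 212) (nat_lit 212)))) (PT.nd (nat_lit 156) (PT.nd (nat_lit 78) (PT.lf (nat_lit 6460) (nat_lit 6) (nat_lit 85) (nat_lit 4) (nat_lit 177) (nat_lit 212) (nat_lit 211)) (PT.lf (nat_lit 6612) (nat_lit 6) (nat_lit 87) (nat_lit 4) (nat_lit 178) (nat_lit 212) (nat_lit 210))) (PT.nd (nat_lit 78) (PT.lf (nat_lit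 6840) (nat_lit 6) (nat_lit 90) (nat_lit 4) (nat_lit 179) (nat_lit 212) (nat_lit 209)) (PT.lf (nat_lit 7068) (nat_lit 6) (nat_lit 93) (nat_lit 4) (nat_lit 180) (nat_lit 212) (nat_lit 208)))))) (PT.nd (nat_lit 2106) (PT.nd (nat_lit 1794) (PT.nd (nat_lit 156) (PT.nd (nat_lit 78) (PT.lf (nat_lit 7296) (nat_lit 6) (nat_lit 96) (nat_lit 4) (nat_lit 181) (nat_lit 212) (nat_lit 207)) (PT.lf (nat_lit 7524) (nat_lit 6) (nat_lit 99) (nat_lit 4) (nat_lit 182) (nat_lit 212) (nat_lit 206))) (PT.nd (nat_lit 78) (PT.lf (nat_lit 7828) (nat_lit 6) (nat_lit 103) (nat_lit 4) (nat_lit 183) (nat_lit 212) (nat_lit 205)) (PT.lf (nat_lit 8132) (nat_lit 6) (nat_lit 107) (nat_lit 4) (nat_lit 184) (nat_lit 212) (nat_lit 204)))) (PT.nd (nat_lit 156) (PT.nd (nat_lit 78) (PT.lf (nat_lit 8132) (nat_lit 6) (nat_lit 107) (nat_lit 2) (nat_lit 204) (nat_lit 212) (nat_lit 184)) (PT.lf (nat_lit 7828) (nat_lit 6) (nat_lit 103) (nat_lit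 2) (nat_lit 205) (nat_lit 212) (nat_lit 183))) (PT.nd (nat_lit 78) (PT.lf (nat_lit 7524) (nat_lit 6) (nat_lit 99) (nat_lit 2) (nat_lit 206) (nat_lit 212) (nat_lit 182)) (PT.lf (nat_lit 7296) (nat_lit 6) (nat_lit 96) (nat_lit 2) (nat_lit 207) (nat_lit 212) (nat_lit 181))))) (PT.nd (nat_lit 312) (PT.nd (nat_lit 156) (PT.nd (nat_lit 78) (PT.lf (nat_lit 7068) (nat_lit 6) (nat_lit 93) (nat_lit 2) (nat_lit 208) (nat_lit 212) (nat_lit 180)) (PT.lf (nat_lit 6840) (nat_lit 6) (nat_lit 90) (nat_lit 2) (nat_lit 209) (nat_lit 212) (nat_lit 179))) (PT.nd (nat_lit 78) (PT.lf (nat_lit 6612) (nat_lit 6) (nat_lit 87) (nat_lit 2) (nat_lit 210) (nat_lit 212) (nat_lit 178)) (PT.lf (nat_lit 6460) (nat_lit 6) (nat_lit 85) (nat_lit 2) (nat_lit 211) (nat_lit 212) (nat_lit 177)))) (PT.nd (nat_lit 156) (PT.nd (nat_lit 78) (PT.lf (nat_lit 6232) (nat_lit 3) (nat_lit 82) (nat_lit 0) (nat_lit 212) (nat_lit 212) (nat_lit 176))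 (PT.lf (nat_lit 6004) (nat_lit 6) (nat_lit 79) (nat_lit 0) (nat_lit 213) (nat_lit 212) (nat_lit 175))) (PT.nd (nat_lit 78) (PT.lf (nat_lit 5700) (nat_lit 6) (nat_lit 75) (nat_lit 0) (nat_lit 214) (nat_lit 212) (nat_lit 174)) (PT.nd (nat_lit 78) (PT.lf (nat_lit 5472) (nat_lit 6) (nat_lit 72) (nat_lit 0) (nat_lit 215) (nat_lit 212) (nat_lit 173)) (PT.lf (nat_lit 5244) (nat_lit 6) (nat_lit 69) (nat_lit 0) (nat_lit 216) (nat_lit 212) (nat_lit 172))))))))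
noncomputable def pc24 : PT := (PT.nd (nat_lit 3276) (PT.nd (nat_lit 624) (PT.nd (nat_lit 312) (PT.nd (nat_lit 156) (PT.nd (nat_lit 78) (PT.lf (nat_lit 4864) (nat_lit 6) (nat_lit 64) (nat_lit 5) (nat_lit 170) (nat_lit 213) (nat_lit 217)) (PT.lf (nat_lit 5092) (nat_lit 6) (nat_lit 67) (nat_lit 5) (nat_lit 171) (nat_lit 213) (nat_lit 216))) (PT.nd (nat_lit 78) (PT.lf (nat_lit 5320) (nat_lit 6) (nat_lit 70) (nat_lit 5) (nat_lit 172) (nat_lit 213) (nat_lit 215)) (PT.lf (nat_lit 5548) (nat_lit 6) (nat_lit 73) (nat_lit 5) (nat_lit 173) (nat_lit 213) (nat_lit 214)))) (PT.nd (nat_lit 156) (PT.nd (nat_lit 78) (PT.lf (nat_lit 5776) (nat_lit 3) (nat_lit 76) (nat_lit 4) (nat_lit 174) (nat_lit 213) (nat_lit 213)) (PT.lf (nat_lit 6004) (nat_lit 6) (nat_lit 79) (nat_lit 4) (nat_lit 175) (nat_lit 213) (nat_lit 212))) (PT.nd (nat_lit 78) (PT.lf (nat_lit 6156) (nat_lit 6) (nat_lit 81) (nat_lit 4) (nat_lit 176) (nat_lit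 213) (nat_lit 211)) (PT.lf (nat_lit 6384) (nat_lit 6) (nat_lit 84) (nat_lit 4) (nat_lit 177) (nat_lit 213) (nat_lit 210))))) (PT.nd (nat_lit 2340) (PT.nd (nat_lit 156) (PT.nd (nat_lit 78) (PT.lf (nat_lit 6536) (nat_lit 6) (nat_lit 86) (nat_lit 4) (nat_lit 178) (nat_lit 213) (nat_lit 209)) (PT.lf (nat_lit 6764) (nat_lit 6) (nat_lit 89) (nat_lit 4) (nat_lit 179) (nat_lit 213) (nat_lit 208))) (PT.nd (nat_lit 2106) (PT.lf (nat_lit 6992) (nat_lit 6) (nat_lit 92) (nat_lit 4) (nat_lit 180) (nat_lit 213) (nat_lit 207)) (PT.lf (nat_lit 6992) (nat_lit 6) (nat_lit 92) (nat_lit 2) (nat_lit 207) (nat_lit 213) (nat_lit 180)))) (PT.nd (nat_lit 156) (PT.nd (nat_lit 78) (PT.lf (nat_lit 6764) (nat_lit 6) (nat_lit 89) (nat_lit 2) (nat_lit 208) (nat_lit 213) (nat_lit 179)) (PT.lf (nat_lit 6536) (nat_lit 6) (nat_lit 86) (nat_lit 2) (nat_lit 209) (nat_lit 213) (nat_lit 178))) (PT.nd (nat_lit 78) (PT.lf (nat_lit 6384)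 (nat_lit 6) (nat_lit 84) (nat_lit 2) (nat_lit 210) (nat_lit 213) (nat_lit 177)) (PT.lf (nat_lit 6156) (nat_lit 6) (nat_lit 81) (nat_lit 2) (nat_lit 211) (nat_lit 213) (nat_lit 176)))))) (PT.nd (nat_lit 59280) (PT.nd (nat_lit 312) (PT.nd (nat_lit 156) (PT.nd (nat_lit 78) (PT.lf (nat_lit 6004) (nat_lit 6) (nat_lit 79) (nat_lit 2) (nat_lit 212) (nat_lit 213) (nat_lit 175)) (PT.lf (nat_lit 5776) (nat_lit 3) (nat_lit 76) (nat_lit 0) (nat_lit 213) (nat_lit 213) (nat_lit 174))) (PT.nd (nat_lit 78) (PT.lf (nat_lit 5548) (nat_lit 6) (nat_lit 73) (nat_lit 0) (nat_lit 214) (nat_lit 213) (nat_lit 173)) (PT.lf (nat_lit 5320) (nat_lit 6) (nat_lit 70) (nat_lit 0) (nat_lit 215) (nat_lit 213) (nat_lit 172)))) (PT.nd (nat_lit 58812) (PT.nd (nat_lit 78) (PT.lf (nat_lit 5092) (nat_lit 6) (nat_lit 67) (nat_lit 0) (nat_lit 216) (nat_lit 213) (nat_lit 171)) (PT.lf (nat_lit 4864) (nat_lit 6) (nat_lit 64) (nat_lit 0) (nat_lit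 217) (nat_lit 213) (nat_lit 170))) (PT.nd (nat_lit 78) (PT.lf (nat_lit 4712) (nat_lit 6) (nat_lit 62) (nat_lit 5) (nat_lit 169) (nat_lit 214) (nat_lit 217)) (PT.lf (nat_lit 4940) (nat_lit 6) (nat_lit 65) (nat_lit 5) (nat_lit 170) (nat_lit 214) (nat_lit 216))))) (PT.nd (nat_lit 312) (PT.nd (nat_lit 156) (PT.nd (nat_lit 78) (PT.lf (nat_lit 5168) (nat_lit 6) (nat_lit 68) (nat_lit 5) (nat_lit 171) (nat_lit 214) (nat_lit 215)) (PT.lf (nat_lit 5396) (nat_lit 3) (nat_lit 71) (nat_lit 4) (nat_lit 172) (nat_lit 214) (nat_lit 214))) (PT.nd (nat_lit 78) (PT.lf (nat_lit 5548) (nat_lit 6) (nat_lit 73) (nat_lit 4) (nat_lit 173) (nat_lit 214) (nat_lit 213)) (PT.lf (nat_lit 5700) (nat_lit 6) (nat_lit 75) (nat_lit 4) (nat_lit 174) (nat_lit 214) (nat_lit 212)))) (PT.nd (nat_lit 156) (PT.nd (nat_lit 78) (PT.lf (nat_lit 5928) (nat_lit 6) (nat_lit 78) (nat_lit 4) (nat_lit 175) (nat_lit 214) (nat_lit 211)) (PT.lf (nat_lit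 6080) (nat_lit 6) (nat_lit 80) (nat_lit 4) (nat_lit 176) (nat_lit 214) (nat_lit 210))) (PT.nd (nat_lit 2496) (PT.lf (nat_lit 6308) (nat_lit 6) (nat_lit 83) (nat_lit 4) (nat_lit 177) (nat_lit 214) (nat_lit 209)) (PT.lf (nat_lit 6308) (nat_lit 6) (nat_lit 83) (nat_lit 2) (nat_lit 209) (nat_lit 214) (nat_lit 177)))))))
noncomputable def pc25 : PT := (PT.nd (nat_lit 59748) (PT.nd (nat_lit 59124) (PT.nd (nat_lit 312) (PT.nd (nat_lit 156) (PT.nd (nat_lit 78) (PT.lf (nat_lit 6080) (nat_lit 6) (nat_lit 80) (nat_lit 2) (nat_lit 210) (nat_lit 214) (nat_lit 176)) (PT.lf (nat_lit 5928) (nat_lit 6) (nat_lit 78) (nat_lit 2) (nat_lit 211) (nat_lit 214) (nat_lit 175))) (PT.nd (nat_lit 78) (PT.lf (nat_lit 5700) (nat_lit 6) (nat_lit 75) (nat_lit 2) (nat_lit 212) (nat_lit 214) (nat_lit 174)) (PT.lf (nat_lit 5548) (nat_lit 6) (nat_lit 73) (nat_lit 2) (nat_lit 213) (nat_lit 214) (nat_lit 173)))) (PT.nd (nat_lit 156)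 (PT.nd (nat_lit 78) (PT.lf (nat_lit 5396) (nat_lit 3) (nat_lit 71) (nat_lit 0) (nat_lit 214) (nat_lit 214) (nat_lit 172)) (PT.lf (nat_lit 5168) (nat_lit 6) (nat_lit 68) (nat_lit 0) (nat_lit 215) (nat_lit 214) (nat_lit 171))) (PT.nd (nat_lit 78) (PT.lf (nat_lit 4940) (nat_lit 6) (nat_lit 65) (nat_lit 0) (nat_lit 216) (nat_lit 214) (nat_lit 170)) (PT.lf (nat_lit 4712) (nat_lit 6) (nat_lit 62) (nat_lit 0) (nat_lit 217) (nat_lit 214) (nat_lit 169))))) (PT.nd (nat_lit 312) (PT.nd (nat_lit 156) (PT.nd (nat_lit 78) (PT.lf (nat_lit 4408) (nat_lit 6) (nat_lit 58) (nat_lit 5) (nat_lit 167) (nat_lit 215) (nat_lit 218)) (PT.lf (nat_lit 4560) (nat_lit 6) (nat_lit 60) (nat_lit 5) (nat_lit 168) (nat_lit 215) (nat_lit 217))) (PT.nd (nat_lit 78) (PT.lf (nat_lit 4788) (nat_lit 6) (nat_lit 63) (nat_lit 5) (nat_lit 169) (nat_lit 215) (nat_lit 216)) (PT.lf (nat_lit 5016) (nat_lit 3) (nat_lit 66) (nat_lit 4) (nat_lit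 170) (nat_lit 215) (nat_lit 215)))) (PT.nd (nat_lit 156) (PT.nd (nat_lit 78) (PT.lf (nat_lit 5168) (nat_lit 6) (nat_lit 68) (nat_lit 4) (nat_lit 171) (nat_lit 215) (nat_lit 214)) (PT.lf (nat_lit 5320) (nat_lit 6) (nat_lit 70) (nat_lit 4) (nat_lit 172) (nat_lit 215) (nat_lit 213))) (PT.nd (nat_lit 78) (PT.lf (nat_lit 5472) (nat_lit 6) (nat_lit 72) (nat_lit 4) (nat_lit 173) (nat_lit 215) (nat_lit 212)) (PT.lf (nat_lit 5624) (nat_lit 6) (nat_lit 74) (nat_lit 4) (nat_lit 174) (nat_lit 215) (nat_lit 211)))))) (PT.nd (nat_lit 3276) (PT.nd (nat_lit 2964) (PT.nd (nat_lit 2808) (PT.nd (nat_lit 2730) (PT.lf (nat_lit 5852) (nat_lit 6) (nat_lit 77) (nat_lit 4) (nat_lit 175) (nat_lit 215) (nat_lit 210)) (PT.lf (nat_lit 5852) (nat_lit 6) (nat_lit 77) (nat_lit 2) (nat_lit 210) (nat_lit 215) (nat_lit 175))) (PT.nd (nat_lit 78) (PT.lf (nat_lit 5624) (nat_lit 6) (nat_lit 74) (nat_lit 2) (nat_lit 211) (nat_lit 215)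 (nat_lit 174)) (PT.lf (nat_lit 5472) (nat_lit 6) (nat_lit 72) (nat_lit 2) (nat_lit 212) (nat_lit 215) (nat_lit 173)))) (PT.nd (nat_lit 156) (PT.nd (nat_lit 78) (PT.lf (nat_lit 5320) (nat_lit 6) (nat_lit 70) (nat_lit 2) (nat_lit 213) (nat_lit 215) (nat_lit 172)) (PT.lf (nat_lit 5168) (nat_lit 6) (nat_lit 68) (nat_lit 2) (nat_lit 214) (nat_lit 215) (nat_lit 171))) (PT.nd (nat_lit 78) (PT.lf (nat_lit 5016) (nat_lit 3) (nat_lit 66) (nat_lit 0) (nat_lit 215) (nat_lit 215) (nat_lit 170)) (PT.lf (nat_lit 4788) (nat_lit 6) (nat_lit 63) (nat_lit 0) (nat_lit 216) (nat_lit 215) (nat_lit 169))))) (PT.nd (nat_lit 58578) (PT.nd (nat_lit 58422) (PT.nd (nat_lit 78) (PT.lf (nat_lit 4560) (nat_lit 6) (nat_lit 60) (nat_lit 0) (nat_lit 217) (nat_lit 215) (nat_lit 168)) (PT.lf (nat_lit 4408) (nat_lit 6) (nat_lit 58) (nat_lit 0) (nat_lit 218) (nat_lit 215) (nat_lit 167))) (PT.nd (nat_lit 78) (PT.lf (nat_lit 4104) (nat_lit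 6) (nat_lit 54) (nat_lit 5) (nat_lit 165) (nat_lit 216) (nat_lit 219)) (PT.lf (nat_lit 4256) (nat_lit 6) (nat_lit 56) (nat_lit 5) (nat_lit 166) (nat_lit 216) (nat_lit 218)))) (PT.nd (nat_lit 156) (PT.nd (nat_lit 78) (PT.lf (nat_lit 4484) (nat_lit 6) (nat_lit 59) (nat_lit 5) (nat_lit 167) (nat_lit 216) (nat_lit 217)) (PT.lf (nat_lit 4636) (nat_lit 3) (nat_lit 61) (nat_lit 4) (nat_lit 168) (nat_lit 216) (nat_lit 216))) (PT.nd (nat_lit 78) (PT.lf (nat_lit 4788) (nat_lit 6) (nat_lit 63) (nat_lit 4) (nat_lit 169) (nat_lit 216) (nat_lit 215)) (PT.nd (nat_lit 78) (PT.lf (nat_lit 4940) (nat_lit 6) (nat_lit 65) (nat_lit 4) (nat_lit 170) (nat_lit 216) (nat_lit 214)) (PT.lf (nat_lit 5092) (nat_lit 6) (nat_lit 67) (nat_lit 4) (nat_lit 171) (nat_lit 216) (nat_lit 213))))))))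
noncomputable def pc26 : PT := (PT.nd (nat_lit 62322) (PT.nd (nat_lit 3666) (PT.nd (nat_lit 3354) (PT.nd (nat_lit 3198) (PT.nd (nat_lit 3120) (PT.lf (nat_lit 5244) (nat_lit 6) (nat_lit 69) (nat_lit 4) (nat_lit 172) (nat_lit 216) (nat_lit 212)) (PT.lf (nat_lit 5244) (nat_lit 6) (nat_lit 69) (nat_lit 2) (nat_lit 212) (nat_lit 216) (nat_lit 172))) (PT.nd (nat_lit 78) (PT.lf (nat_lit 5092) (nat_lit 6) (nat_lit 67) (nat_lit 2) (nat_lit 213) (nat_lit 216) (nat_lit 171)) (PT.lf (nat_lit 4940) (nat_lit 6) (nat_lit 65) (nat_lit 2) (nat_lit 214) (nat_lit 216) (nat_lit 170)))) (PT.nd (nat_lit 156) (PT.nd (nat_lit 78) (PT.lf (nat_lit 4788) (nat_lit 6) (nat_lit 63) (nat_lit 2) (nat_lit 215) (nat_lit 216) (nat_lit 169)) (PT.lf (nat_lit 4636) (nat_lit 3) (nat_lit 61) (nat_lit 0) (nat_lit 216) (nat_lit 216) (nat_lit 168))) (PT.nd (nat_lit 78) (PT.lf (nat_lit 4484) (nat_lit 6) (nat_lit 59) (nat_lit 0) (nat_lit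 217) (nat_lit 216) (nat_lit 167)) (PT.lf (nat_lit 4256) (nat_lit 6) (nat_lit 56) (nat_lit 0) (nat_lit 218) (nat_lit 216) (nat_lit 166))))) (PT.nd (nat_lit 58344) (PT.nd (nat_lit 58188) (PT.nd (nat_lit 58110) (PT.lf (nat_lit 4104) (nat_lit 6) (nat_lit 54) (nat_lit 0) (nat_lit 219) (nat_lit 216) (nat_lit 165)) (PT.lf (nat_lit 3800) (nat_lit 6) (nat_lit 50) (nat_lit 5) (nat_lit 163) (nat_lit 217) (nat_lit 220))) (PT.nd (nat_lit 78) (PT.lf (nat_lit 3952) (nat_lit 6) (nat_lit 52) (nat_lit 5) (nat_lit 164) (nat_lit 217) (nat_lit 219)) (PT.lf (nat_lit 4180) (nat_lit 6) (nat_lit 55) (nat_lit 5) (nat_lit 165) (nat_lit 217) (nat_lit 218)))) (PT.nd (nat_lit 156) (PT.nd (nat_lit 78) (PT.lf (nat_lit 4332) (nat_lit 3) (nat_lit 57) (nat_lit 4) (nat_lit 166) (nat_lit 217) (nat_lit 217)) (PT.lf (nat_lit 4484) (nat_lit 6) (nat_lit 59) (nat_lit 4) (nat_lit 167) (nat_lit 217) (nat_lit 216))) (PT.nd (nat_lit 78) (PT.lf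 (nat_lit 4560) (nat_lit 6) (nat_lit 60) (nat_lit 4) (nat_lit 168) (nat_lit 217) (nat_lit 215)) (PT.lf (nat_lit 4712) (nat_lit 6) (nat_lit 62) (nat_lit 4) (nat_lit 169) (nat_lit 217) (nat_lit 214)))))) (PT.nd (nat_lit 3900) (PT.nd (nat_lit 3588) (PT.nd (nat_lit 3432) (PT.nd (nat_lit 3354) (PT.lf (nat_lit 4864) (nat_lit 6) (nat_lit 64) (nat_lit 4) (nat_lit 170) (nat_lit 217) (nat_lit 213)) (PT.lf (nat_lit 4864) (nat_lit 6) (nat_lit 64) (nat_lit 2) (nat_lit 213) (nat_lit 217) (nat_lit 170))) (PT.nd (nat_lit 78) (PT.lf (nat_lit 4712) (nat_lit 6) (nat_lit 62) (nat_lit 2) (nat_lit 214) (nat_lit 217) (nat_lit 169)) (PT.lf (nat_lit 4560) (nat_lit 6) (nat_lit 60) (nat_lit 2) (nat_lit 215) (nat_lit 217) (nat_lit 168)))) (PT.nd (nat_lit 156) (PT.nd (nat_lit 78) (PT.lf (nat_lit 4484) (nat_lit 6) (nat_lit 59) (nat_lit 2) (nat_lit 216) (nat_lit 217) (nat_lit 167)) (PT.lf (nat_lit 4332) (nat_lit 3) (nat_lit 57)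 (nat_lit 0) (nat_lit 217) (nat_lit 217) (nat_lit 166))) (PT.nd (nat_lit 78) (PT.lf (nat_lit 4180) (nat_lit 6) (nat_lit 55) (nat_lit 0) (nat_lit 218) (nat_lit 217) (nat_lit 165)) (PT.lf (nat_lit 3952) (nat_lit 6) (nat_lit 52) (nat_lit 0) (nat_lit 219) (nat_lit 217) (nat_lit 164))))) (PT.nd (nat_lit 58188) (PT.nd (nat_lit 58032) (PT.nd (nat_lit 57954) (PT.lf (nat_lit 3800) (nat_lit 6) (nat_lit 50) (nat_lit 0) (nat_lit 220) (nat_lit 217) (nat_lit 163)) (PT.lf (nat_lit 3648) (nat_lit 6) (nat_lit 48) (nat_lit 5) (nat_lit 162) (nat_lit 218) (nat_lit 220))) (PT.nd (nat_lit 78) (PT.lf (nat_lit 3876) (nat_lit 6) (nat_lit 51) (nat_lit 5) (nat_lit 163) (nat_lit 218) (nat_lit 219)) (PT.lf (nat_lit 4028) (nat_lit 3) (nat_lit 53) (nat_lit 4) (nat_lit 164) (nat_lit 218) (nat_lit 218)))) (PT.nd (nat_lit 156) (PT.nd (nat_lit 78) (PT.lf (nat_lit 4180) (nat_lit 6) (nat_lit 55) (nat_lit 4) (nat_lit 165) (nat_lit 218)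 (nat_lit 217)) (PT.lf (nat_lit 4256) (nat_lit 6) (nat_lit 56) (nat_lit 4) (nat_lit 166) (nat_lit 218) (nat_lit 216))) (PT.nd (nat_lit 3744) (PT.lf (nat_lit 4408) (nat_lit 6) (nat_lit 58) (nat_lit 4) (nat_lit 167) (nat_lit 218) (nat_lit 215)) (PT.nd (nat_lit 78) (PT.lf (nat_lit 4408) (nat_lit 6) (nat_lit 58) (nat_lit 2) (nat_lit 215) (nat_lit 218) (nat_lit 167)) (PT.lf (nat_lit 4256) (nat_lit 6) (nat_lit 56) (nat_lit 2) (nat_lit 216) (nat_lit 218) (nat_lit 166))))))))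
noncomputable def pc27 : PT := (PT.nd (nat_lit 120354) (PT.nd (nat_lit 58344) (PT.nd (nat_lit 58032) (PT.nd (nat_lit 156) (PT.nd (nat_lit 78) (PT.lf (nat_lit 4180) (nat_lit 6) (nat_lit 55) (nat_lit 2) (nat_lit 217) (nat_lit 218) (nat_lit 165)) (PT.lf (nat_lit 4028) (nat_lit 3) (nat_lit 53) (nat_lit 0) (nat_lit 218) (nat_lit 218) (nat_lit 164))) (PT.nd (nat_lit 78) (PT.lf (nat_lit 3876) (nat_lit 6) (nat_lit 51) (nat_lit 0) (nat_lit 219) (nat_lit 218) (nat_lit 163)) (PT.lf (nat_lit 3648) (nat_lit 6) (nat_lit 48) (nat_lit 0) (nat_lit 220) (nat_lit 218) (nat_lit 162)))) (PT.nd (nat_lit 156) (PT.nd (nat_lit 78) (PT.lf (nat_lit 3420) (nat_lit 6) (nat_lit 45) (nat_lit 5) (nat_lit 160) (nat_lit 219) (nat_lit 221)) (PT.lf (nat_lit 3572) (nat_lit 6) (nat_lit 47) (nat_lit 5) (nat_lit 161) (nat_lit 219) (nat_lit 220))) (PT.nd (nat_lit 78) (PT.lf (nat_lit 3724) (nat_lit 3) (nat_lit 49) (nat_lit 4) (nat_lit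 162) (nat_lit 219) (nat_lit 219)) (PT.lf (nat_lit 3876) (nat_lit 6) (nat_lit 51) (nat_lit 4) (nat_lit 163) (nat_lit 219) (nat_lit 218))))) (PT.nd (nat_lit 4212) (PT.nd (nat_lit 4056) (PT.nd (nat_lit 78) (PT.lf (nat_lit 3952) (nat_lit 6) (nat_lit 52) (nat_lit 4) (nat_lit 164) (nat_lit 219) (nat_lit 217)) (PT.lf (nat_lit 4104) (nat_lit 6) (nat_lit 54) (nat_lit 4) (nat_lit 165) (nat_lit 219) (nat_lit 216))) (PT.nd (nat_lit 78) (PT.lf (nat_lit 4104) (nat_lit 6) (nat_lit 54) (nat_lit 2) (nat_lit 216) (nat_lit 219) (nat_lit 165)) (PT.lf (nat_lit 3952) (nat_lit 6) (nat_lit 52) (nat_lit 2) (nat_lit 217) (nat_lit 219) (nat_lit 164)))) (PT.nd (nat_lit 156) (PT.nd (nat_lit 78) (PT.lf (nat_lit 3876) (nat_lit 6) (nat_lit 51) (nat_lit 2) (nat_lit 218) (nat_lit 219) (nat_lit 163)) (PT.lf (nat_lit 3724) (nat_lit 3) (nat_lit 49) (nat_lit 0) (nat_lit 219) (nat_lit 219) (nat_lit 162))) (PT.nd (nat_lit 78) (PT.lf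 (nat_lit 3572) (nat_lit 6) (nat_lit 47) (nat_lit 0) (nat_lit 220) (nat_lit 219) (nat_lit 161)) (PT.lf (nat_lit 3420) (nat_lit 6) (nat_lit 45) (nat_lit 0) (nat_lit 221) (nat_lit 219) (nat_lit 160)))))) (PT.nd (nat_lit 4758) (PT.nd (nat_lit 312) (PT.nd (nat_lit 156) (PT.nd (nat_lit 78) (PT.lf (nat_lit 3192) (nat_lit 6) (nat_lit 42) (nat_lit 5) (nat_lit 158) (nat_lit 220) (nat_lit 222)) (PT.lf (nat_lit 3344) (nat_lit 6) (nat_lit 44) (nat_lit 5) (nat_lit 159) (nat_lit 220) (nat_lit 221))) (PT.nd (nat_lit 78) (PT.lf (nat_lit 3496) (nat_lit 3) (nat_lit 46) (nat_lit 4) (nat_lit 160) (nat_lit 220) (nat_lit 220)) (PT.lf (nat_lit 3572) (nat_lit 6) (nat_lit 47) (nat_lit 4) (nat_lit 161) (nat_lit 220) (nat_lit 219)))) (PT.nd (nat_lit 4290) (PT.nd (nat_lit 78) (PT.lf (nat_lit 3648) (nat_lit 6) (nat_lit 48) (nat_lit 4) (nat_lit 162) (nat_lit 220) (nat_lit 218)) (PT.lf (nat_lit 3800) (nat_lit 6) (nat_lit 50)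 (nat_lit 4) (nat_lit 163) (nat_lit 220) (nat_lit 217))) (PT.nd (nat_lit 78) (PT.lf (nat_lit 3800) (nat_lit 6) (nat_lit 50) (nat_lit 2) (nat_lit 217) (nat_lit 220) (nat_lit 163)) (PT.lf (nat_lit 3648) (nat_lit 6) (nat_lit 48) (nat_lit 2) (nat_lit 218) (nat_lit 220) (nat_lit 162))))) (PT.nd (nat_lit 57564) (PT.nd (nat_lit 156) (PT.nd (nat_lit 78) (PT.lf (nat_lit 3572) (nat_lit 6) (nat_lit 47) (nat_lit 2) (nat_lit 219) (nat_lit 220) (nat_lit 161)) (PT.lf (nat_lit 3496) (nat_lit 3) (nat_lit 46) (nat_lit 0) (nat_lit 220) (nat_lit 220) (nat_lit 160))) (PT.nd (nat_lit 78) (PT.lf (nat_lit 3344) (nat_lit 6) (nat_lit 44) (nat_lit 0) (nat_lit 221) (nat_lit 220) (nat_lit 159)) (PT.lf (nat_lit 3192) (nat_lit 6) (nat_lit 42) (nat_lit 0) (nat_lit 222) (nat_lit 220) (nat_lit 158)))) (PT.nd (nat_lit 156) (PT.nd (nat_lit 78) (PT.lf (nat_lit 2964) (nat_lit 6) (nat_lit 39) (nat_lit 5) (nat_lit 156) (nat_lit 221) (nat_lit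 223)) (PT.lf (nat_lit 3116) (nat_lit 6) (nat_lit 41) (nat_lit 5) (nat_lit 157) (nat_lit 221) (nat_lit 222))) (PT.nd (nat_lit 78) (PT.lf (nat_lit 3268) (nat_lit 3) (nat_lit 43) (nat_lit 4) (nat_lit 158) (nat_lit 221) (nat_lit 221)) (PT.nd (nat_lit 78) (PT.lf (nat_lit 3344) (nat_lit 6) (nat_lit 44) (nat_lit 4) (nat_lit 159) (nat_lit 221) (nat_lit 220)) (PT.lf (nat_lit 3420) (nat_lit 6) (nat_lit 45) (nat_lit 4) (nat_lit 160) (nat_lit 221) (nat_lit 219))))))))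
noncomputable def pc28 : PT := (PT.nd (nat_lit 119808) (PT.nd (nat_lit 57642) (PT.nd (nat_lit 312) (PT.nd (nat_lit 156) (PT.nd (nat_lit 78) (PT.lf (nat_lit 3420) (nat_lit 6) (nat_lit 45) (nat_lit 2) (nat_lit 219) (nat_lit 221) (nat_lit 160)) (PT.lf (nat_lit 3344) (nat_lit 6) (nat_lit 44) (nat_lit 2) (nat_lit 220) (nat_lit 221) (nat_lit 159))) (PT.nd (nat_lit 78) (PT.lf (nat_lit 3268) (nat_lit 3) (nat_lit 43) (nat_lit 0) (nat_lit 221) (nat_lit 221) (nat_lit 158)) (PT.lf (nat_lit 3116) (nat_lit 6) (nat_lit 41) (nat_lit 0) (nat_lit 222) (nat_lit 221) (nat_lit 157)))) (PT.nd (nat_lit 57174) (PT.nd (nat_lit 57096) (PT.lf (nat_lit 2964) (nat_lit 6) (nat_lit 39) (nat_lit 0) (nat_lit 223) (nat_lit 221) (nat_lit 156)) (PT.lf (nat_lit 2736) (nat_lit 6) (nat_lit 36) (nat_lit 5) (nat_lit 154) (nat_lit 222) (nat_lit 224))) (PT.nd (nat_lit 78) (PT.lf (nat_lit 2888) (nat_lit 6) (nat_lit 38) (nat_lit 5) (nat_lit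 155) (nat_lit 222) (nat_lit 223)) (PT.lf (nat_lit 3040) (nat_lit 3) (nat_lit 40) (nat_lit 4) (nat_lit 156) (nat_lit 222) (nat_lit 222))))) (PT.nd (nat_lit 5070) (PT.nd (nat_lit 4914) (PT.nd (nat_lit 78) (PT.lf (nat_lit 3116) (nat_lit 6) (nat_lit 41) (nat_lit 4) (nat_lit 157) (nat_lit 222) (nat_lit 221)) (PT.lf (nat_lit 3192) (nat_lit 6) (nat_lit 42) (nat_lit 4) (nat_lit 158) (nat_lit 222) (nat_lit 220))) (PT.nd (nat_lit 78) (PT.lf (nat_lit 3192) (nat_lit 6) (nat_lit 42) (nat_lit 2) (nat_lit 220) (nat_lit 222) (nat_lit 158)) (PT.lf (nat_lit 3116) (nat_lit 6) (nat_lit 41) (nat_lit 2) (nat_lit 221) (nat_lit 222) (nat_lit 157)))) (PT.nd (nat_lit 156) (PT.nd (nat_lit 78) (PT.lf (nat_lit 3040) (nat_lit 3) (nat_lit 40) (nat_lit 0) (nat_lit 222) (nat_lit 222) (nat_lit 156)) (PT.lf (nat_lit 2888) (nat_lit 6) (nat_lit 38) (nat_lit 0) (nat_lit 223) (nat_lit 222) (nat_lit 155))) (PT.nd (nat_lit 56862) (PT.lf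 (nat_lit 2736) (nat_lit 6) (nat_lit 36) (nat_lit 0) (nat_lit 224) (nat_lit 222) (nat_lit 154)) (PT.lf (nat_lit 2508) (nat_lit 6) (nat_lit 33) (nat_lit 5) (nat_lit 152) (nat_lit 223) (nat_lit 225)))))) (PT.nd (nat_lit 5616) (PT.nd (nat_lit 5304) (PT.nd (nat_lit 156) (PT.nd (nat_lit 78) (PT.lf (nat_lit 2660) (nat_lit 6) (nat_lit 35) (nat_lit 5) (nat_lit 153) (nat_lit 223) (nat_lit 224)) (PT.lf (nat_lit 2812) (nat_lit 3) (nat_lit 37) (nat_lit 4) (nat_lit 154) (nat_lit 223) (nat_lit 223))) (PT.nd (nat_lit 78) (PT.lf (nat_lit 2888) (nat_lit 6) (nat_lit 38) (nat_lit 4) (nat_lit 155) (nat_lit 223) (nat_lit 222)) (PT.lf (nat_lit 2964) (nat_lit 6) (nat_lit 39) (nat_lit 4) (nat_lit 156) (nat_lit 223) (nat_lit 221)))) (PT.nd (nat_lit 156) (PT.nd (nat_lit 78) (PT.lf (nat_lit 2964) (nat_lit 6) (nat_lit 39) (nat_lit 2) (nat_lit 221) (nat_lit 223) (nat_lit 156)) (PT.lf (nat_lit 2888) (nat_lit 6) (nat_lit 38)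 (nat_lit 2) (nat_lit 222) (nat_lit 223) (nat_lit 155))) (PT.nd (nat_lit 78) (PT.lf (nat_lit 2812) (nat_lit 3) (nat_lit 37) (nat_lit 0) (nat_lit 223) (nat_lit 223) (nat_lit 154)) (PT.lf (nat_lit 2660) (nat_lit 6) (nat_lit 35) (nat_lit 0) (nat_lit 224) (nat_lit 223) (nat_lit 153))))) (PT.nd (nat_lit 56862) (PT.nd (nat_lit 56706) (PT.nd (nat_lit 56628) (PT.lf (nat_lit 2508) (nat_lit 6) (nat_lit 33) (nat_lit 0) (nat_lit 225) (nat_lit 223) (nat_lit 152)) (PT.lf (nat_lit 2280) (nat_lit 6) (nat_lit 30) (nat_lit 5) (nat_lit 150) (nat_lit 224) (nat_lit 226))) (PT.nd (nat_lit 78) (PT.lf (nat_lit 2432) (nat_lit 6) (nat_lit 32) (nat_lit 5) (nat_lit 151) (nat_lit 224) (nat_lit 225)) (PT.lf (nat_lit 2584) (nat_lit 3) (nat_lit 34) (nat_lit 4) (nat_lit 152) (nat_lit 224) (nat_lit 224)))) (PT.nd (nat_lit 5382) (PT.nd (nat_lit 78) (PT.lf (nat_lit 2660) (nat_lit 6) (nat_lit 35) (nat_lit 4) (nat_lit 153) (nat_lit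 224) (nat_lit 223)) (PT.lf (nat_lit 2736) (nat_lit 6) (nat_lit 36) (nat_lit 4) (nat_lit 154) (nat_lit 224) (nat_lit 222))) (PT.nd (nat_lit 78) (PT.lf (nat_lit 2736) (nat_lit 6) (nat_lit 36) (nat_lit 2) (nat_lit 222) (nat_lit 224) (nat_lit 154)) (PT.lf (nat_lit 2660) (nat_lit 6) (nat_lit 35) (nat_lit 2) (nat_lit 223) (nat_lit 224) (nat_lit 153)))))))
noncomputable def pc29 : PT := (PT.nd (nat_lit 119106) (PT.nd (nat_lit 62400) (PT.nd (nat_lit 56628) (PT.nd (nat_lit 156) (PT.nd (nat_lit 78) (PT.lf (nat_lit 2584) (nat_lit 3) (nat_lit 34) (nat_lit 0) (nat_lit 224) (nat_lit 224) (nat_lit 152)) (PT.lf (nat_lit 2432) (nat_lit 6) (nat_lit 32) (nat_lit 0) (nat_lit 225) (nat_lit 224) (nat_lit 151))) (PT.nd (nat_lit 56394) (PT.lf (nat_lit 2280) (nat_lit 6) (nat_lit 30) (nat_lit 0) (nat_lit 226) (nat_lit 224) (nat_lit 150)) (PT.lf (nat_lit 2052) (nat_lit 6) (nat_lit 27) (nat_lit 5) (nat_lit 148) (nat_lit 225)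 (nat_lit 227)))) (PT.nd (nat_lit 156) (PT.nd (nat_lit 78) (PT.lf (nat_lit 2204) (nat_lit 6) (nat_lit 29) (nat_lit 5) (nat_lit 149) (nat_lit 225) (nat_lit 226)) (PT.lf (nat_lit 2356) (nat_lit 3) (nat_lit 31) (nat_lit 4) (nat_lit 150) (nat_lit 225) (nat_lit 225))) (PT.nd (nat_lit 78) (PT.lf (nat_lit 2432) (nat_lit 6) (nat_lit 32) (nat_lit 4) (nat_lit 151) (nat_lit 225) (nat_lit 224)) (PT.lf (nat_lit 2508) (nat_lit 6) (nat_lit 33) (nat_lit 4) (nat_lit 152) (nat_lit 225) (nat_lit 223))))) (PT.nd (nat_lit 312) (PT.nd (nat_lit 156) (PT.nd (nat_lit 78) (PT.lf (nat_lit 2508) (nat_lit 6) (nat_lit 33) (nat_lit 2) (nat_lit 223) (nat_lit 225) (nat_lit 152)) (PT.lf (nat_lit 2432) (nat_lit 6) (nat_lit 32) (nat_lit 2) (nat_lit 224) (nat_lit 225) (nat_lit 151))) (PT.nd (nat_lit 78) (PT.lf (nat_lit 2356) (nat_lit 3) (nat_lit 31) (nat_lit 0) (nat_lit 225) (nat_lit 225) (nat_lit 150)) (PT.lf (nat_lit 2204) (nat_lit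 6) (nat_lit 29) (nat_lit 0) (nat_lit 226) (nat_lit 225) (nat_lit 149)))) (PT.nd (nat_lit 56238) (PT.nd (nat_lit 56160) (PT.lf (nat_lit 2052) (nat_lit 6) (nat_lit 27) (nat_lit 0) (nat_lit 227) (nat_lit 225) (nat_lit 148)) (PT.lf (nat_lit 1824) (nat_lit 6) (nat_lit 24) (nat_lit 5) (nat_lit 146) (nat_lit 226) (nat_lit 228))) (PT.nd (nat_lit 78) (PT.lf (nat_lit 1976) (nat_lit 6) (nat_lit 26) (nat_lit 5) (nat_lit 147) (nat_lit 226) (nat_lit 227)) (PT.lf (nat_lit 2128) (nat_lit 3) (nat_lit 28) (nat_lit 4) (nat_lit 148) (nat_lit 226) (nat_lit 226)))))) (PT.nd (nat_lit 62166) (PT.nd (nat_lit 6006) (PT.nd (nat_lit 5850) (PT.nd (nat_lit 78) (PT.lf (nat_lit 2204) (nat_lit 6) (nat_lit 29) (nat_lit 4) (nat_lit 149) (nat_lit 226) (nat_lit 225)) (PT.lf (nat_lit 2280) (nat_lit 6) (nat_lit 30) (nat_lit 4) (nat_lit 150) (nat_lit 226) (nat_lit 224))) (PT.nd (nat_lit 78) (PT.lf (nat_lit 2280) (nat_lit 6) (nat_lit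 30) (nat_lit 2) (nat_lit 224) (nat_lit 226) (nat_lit 150)) (PT.lf (nat_lit 2204) (nat_lit 6) (nat_lit 29) (nat_lit 2) (nat_lit 225) (nat_lit 226) (nat_lit 149)))) (PT.nd (nat_lit 156) (PT.nd (nat_lit 78) (PT.lf (nat_lit 2128) (nat_lit 3) (nat_lit 28) (nat_lit 0) (nat_lit 226) (nat_lit 226) (nat_lit 148)) (PT.lf (nat_lit 1976) (nat_lit 6) (nat_lit 26) (nat_lit 0) (nat_lit 227) (nat_lit 226) (nat_lit 147))) (PT.nd (nat_lit 55926) (PT.lf (nat_lit 1824) (nat_lit 6) (nat_lit 24) (nat_lit 0) (nat_lit 228) (nat_lit 226) (nat_lit 146)) (PT.lf (nat_lit 1596) (nat_lit 6) (nat_lit 21) (nat_lit 5) (nat_lit 144) (nat_lit 227) (nat_lit 229))))) (PT.nd (nat_lit 6240) (PT.nd (nat_lit 156) (PT.nd (nat_lit 78) (PT.lf (nat_lit 1748) (nat_lit 6) (nat_lit 23) (nat_lit 5) (nat_lit 145) (nat_lit 227) (nat_lit 228)) (PT.lf (nat_lit 1900) (nat_lit 3) (nat_lit 25) (nat_lit 4) (nat_lit 146) (nat_lit 227) (nat_lit 227)))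 (PT.nd (nat_lit 78) (PT.lf (nat_lit 1976) (nat_lit 6) (nat_lit 26) (nat_lit 4) (nat_lit 147) (nat_lit 227) (nat_lit 226)) (PT.lf (nat_lit 2052) (nat_lit 6) (nat_lit 27) (nat_lit 4) (nat_lit 148) (nat_lit 227) (nat_lit 225)))) (PT.nd (nat_lit 156) (PT.nd (nat_lit 78) (PT.lf (nat_lit 2052) (nat_lit 6) (nat_lit 27) (nat_lit 2) (nat_lit 225) (nat_lit 227) (nat_lit 148)) (PT.lf (nat_lit 1976) (nat_lit 6) (nat_lit 26) (nat_lit 2) (nat_lit 226) (nat_lit 227) (nat_lit 147))) (PT.nd (nat_lit 78) (PT.lf (nat_lit 1900) (nat_lit 3) (nat_lit 25) (nat_lit 0) (nat_lit 227) (nat_lit 227) (nat_lit 146)) (PT.nd (nat_lit 78) (PT.lf (nat_lit 1748) (nat_lit 6) (nat_lit 23) (nat_lit 0) (nat_lit 228) (nat_lit 227) (nat_lit 145)) (PT.lf (nat_lit 1596) (nat_lit 6) (nat_lit 21) (nat_lit 0) (nat_lit 229) (nat_lit 227) (nat_lit 144))))))))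
noncomputable def pc30 : PT := (PT.nd (nat_lit 69186) (PT.nd (nat_lit 6786) (PT.nd (nat_lit 312) (PT.nd (nat_lit 156) (PT.nd (nat_lit 78) (PT.lf (nat_lit 1368) (nat_lit 6) (nat_lit 18) (nat_lit 5) (nat_lit 142) (nat_lit 228) (nat_lit 230)) (PT.lf (nat_lit 1520) (nat_lit 6) (nat_lit 20) (nat_lit 5) (nat_lit 143) (nat_lit 228) (nat_lit 229))) (PT.nd (nat_lit 78) (PT.lf (nat_lit 1672) (nat_lit 3) (nat_lit 22) (nat_lit 4) (nat_lit 144) (nat_lit 228) (nat_lit 228)) (PT.lf (nat_lit 1748) (nat_lit 6) (nat_lit 23) (nat_lit 4) (nat_lit 145) (nat_lit 228) (nat_lit 227)))) (PT.nd (nat_lit 6318) (PT.nd (nat_lit 6240) (PT.lf (nat_lit 1824) (nat_lit 6) (nat_lit 24) (nat_lit 4) (nat_lit 146) (nat_lit 228) (nat_lit 226)) (PT.lf (nat_lit 1824) (nat_lit 6) (nat_lit 24) (nat_lit 2) (nat_lit 226) (nat_lit 228) (nat_lit 146))) (PT.nd (nat_lit 78) (PT.lf (nat_lit 1748) (nat_lit 6) (nat_lit 23) (nat_lit 2) (nat_lit 227)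 (nat_lit 228) (nat_lit 145)) (PT.lf (nat_lit 1672) (nat_lit 3) (nat_lit 22) (nat_lit 0) (nat_lit 228) (nat_lit 228) (nat_lit 144))))) (PT.nd (nat_lit 55692) (PT.nd (nat_lit 55536) (PT.nd (nat_lit 78) (PT.lf (nat_lit 1520) (nat_lit 6) (nat_lit 20) (nat_lit 0) (nat_lit 229) (nat_lit 228) (nat_lit 143)) (PT.lf (nat_lit 1368) (nat_lit 6) (nat_lit 18) (nat_lit 0) (nat_lit 230) (nat_lit 228) (nat_lit 142))) (PT.nd (nat_lit 78) (PT.lf (nat_lit 1140) (nat_lit 6) (nat_lit 15) (nat_lit 5) (nat_lit 140) (nat_lit 229) (nat_lit 231)) (PT.lf (nat_lit 1292) (nat_lit 6) (nat_lit 17) (nat_lit 5) (nat_lit 141) (nat_lit 229) (nat_lit 230)))) (PT.nd (nat_lit 156) (PT.nd (nat_lit 78) (PT.lf (nat_lit 1444) (nat_lit 3) (nat_lit 19) (nat_lit 4) (nat_lit 142) (nat_lit 229) (nat_lit 229)) (PT.lf (nat_lit 1520) (nat_lit 6) (nat_lit 20) (nat_lit 4) (nat_lit 143) (nat_lit 229) (nat_lit 228))) (PT.nd (nat_lit 6474) (PT.lf (nat_lit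 1596) (nat_lit 6) (nat_lit 21) (nat_lit 4) (nat_lit 144) (nat_lit 229) (nat_lit 227)) (PT.lf (nat_lit 1596) (nat_lit 6) (nat_lit 21) (nat_lit 2) (nat_lit 227) (nat_lit 229) (nat_lit 144)))))) (PT.nd (nat_lit 55770) (PT.nd (nat_lit 55458) (PT.nd (nat_lit 156) (PT.nd (nat_lit 78) (PT.lf (nat_lit 1520) (nat_lit 6) (nat_lit 20) (nat_lit 2) (nat_lit 228) (nat_lit 229) (nat_lit 143)) (PT.lf (nat_lit 1444) (nat_lit 3) (nat_lit 19) (nat_lit 0) (nat_lit 229) (nat_lit 229) (nat_lit 142))) (PT.nd (nat_lit 78) (PT.lf (nat_lit 1292) (nat_lit 6) (nat_lit 17) (nat_lit 0) (nat_lit 230) (nat_lit 229) (nat_lit 141)) (PT.lf (nat_lit 1140) (nat_lit 6) (nat_lit 15) (nat_lit 0) (nat_lit 231) (nat_lit 229) (nat_lit 140)))) (PT.nd (nat_lit 156) (PT.nd (nat_lit 78) (PT.lf (nat_lit 912) (nat_lit 6) (nat_lit 12) (nat_lit 5) (nat_lit 138) (nat_lit 230) (nat_lit 232)) (PT.lf (nat_lit 1064) (nat_lit 6) (nat_lit 14) (nat_lit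 5) (nat_lit 139) (nat_lit 230) (nat_lit 231))) (PT.nd (nat_lit 78) (PT.lf (nat_lit 1216) (nat_lit 3) (nat_lit 16) (nat_lit 4) (nat_lit 140) (nat_lit 230) (nat_lit 230)) (PT.lf (nat_lit 1292) (nat_lit 6) (nat_lit 17) (nat_lit 4) (nat_lit 141) (nat_lit 230) (nat_lit 229))))) (PT.nd (nat_lit 6942) (PT.nd (nat_lit 6786) (PT.nd (nat_lit 6708) (PT.lf (nat_lit 1368) (nat_lit 6) (nat_lit 18) (nat_lit 4) (nat_lit 142) (nat_lit 230) (nat_lit 228)) (PT.lf (nat_lit 1368) (nat_lit 6) (nat_lit 18) (nat_lit 2) (nat_lit 228) (nat_lit 230) (nat_lit 142))) (PT.nd (nat_lit 78) (PT.lf (nat_lit 1292) (nat_lit 6) (nat_lit 17) (nat_lit 2) (nat_lit 229) (nat_lit 230) (nat_lit 141)) (PT.lf (nat_lit 1216) (nat_lit 3) (nat_lit 16) (nat_lit 0) (nat_lit 230) (nat_lit 230) (nat_lit 140)))) (PT.nd (nat_lit 55068) (PT.nd (nat_lit 78) (PT.lf (nat_lit 1064) (nat_lit 6) (nat_lit 14) (nat_lit 0) (nat_lit 231) (nat_lit 230) (nat_lit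 139)) (PT.lf (nat_lit 912) (nat_lit 6) (nat_lit 12) (nat_lit 0) (nat_lit 232) (nat_lit 230) (nat_lit 138))) (PT.nd (nat_lit 78) (PT.lf (nat_lit 684) (nat_lit 6) (nat_lit 9) (nat_lit 5) (nat_lit 136) (nat_lit 231) (nat_lit 233)) (PT.nd (nat_lit 78) (PT.lf (nat_lit 836) (nat_lit 6) (nat_lit 11) (nat_lit 5) (nat_lit 137) (nat_lit 231) (nat_lit 232)) (PT.lf (nat_lit 988) (nat_lit 3) (nat_lit 13) (nat_lit 4) (nat_lit 138) (nat_lit 231) (nat_lit 231))))))))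
noncomputable def pc31 : PT := (PT.nd (nat_lit 124566) (PT.nd (nat_lit 62244) (PT.nd (nat_lit 7176) (PT.nd (nat_lit 7020) (PT.nd (nat_lit 78) (PT.lf (nat_lit 1064) (nat_lit 6) (nat_lit 14) (nat_lit 4) (nat_lit 139) (nat_lit 231) (nat_lit 230)) (PT.lf (nat_lit 1140) (nat_lit 6) (nat_lit 15) (nat_lit 4) (nat_lit 140) (nat_lit 231) (nat_lit 229))) (PT.nd (nat_lit 78) (PT.lf (nat_lit 1140) (nat_lit 6) (nat_lit 15) (nat_lit 2) (nat_lit 229) (nat_lit 231) (nat_lit 140)) (PT.lf (nat_lit 1064) (nat_lit 6) (nat_lit 14) (nat_lit 2) (nat_lit 230) (nat_lit 231) (nat_lit 139)))) (PT.nd (nat_lit 156) (PT.nd (nat_lit 78) (PT.lf (nat_lit 988) (nat_lit 3) (nat_lit 13) (nat_lit 0) (nat_lit 231) (nat_lit 231) (nat_lit 138)) (PT.lf (nat_lit 836) (nat_lit 6) (nat_lit 11) (nat_lit 0) (nat_lit 232) (nat_lit 231) (nat_lit 137))) (PT.nd (nat_lit 54834) (PT.lf (nat_lit 684) (nat_lit 6) (nat_lit 9) (nat_lit 0) (nat_lit 233)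 (nat_lit 231) (nat_lit 136)) (PT.lf (nat_lit 608) (nat_lit 6) (nat_lit 8) (nat_lit 5) (nat_lit 135) (nat_lit 232) (nat_lit 233))))) (PT.nd (nat_lit 7410) (PT.nd (nat_lit 156) (PT.nd (nat_lit 78) (PT.lf (nat_lit 760) (nat_lit 3) (nat_lit 10) (nat_lit 4) (nat_lit 136) (nat_lit 232) (nat_lit 232)) (PT.lf (nat_lit 836) (nat_lit 6) (nat_lit 11) (nat_lit 4) (nat_lit 137) (nat_lit 232) (nat_lit 231))) (PT.nd (nat_lit 7176) (PT.lf (nat_lit 912) (nat_lit 6) (nat_lit 12) (nat_lit 4) (nat_lit 138) (nat_lit 232) (nat_lit 230)) (PT.lf (nat_lit 912) (nat_lit 6) (nat_lit 12) (nat_lit 2) (nat_lit 230) (nat_lit 232) (nat_lit 138)))) (PT.nd (nat_lit 156) (PT.nd (nat_lit 78) (PT.lf (nat_lit 836) (nat_lit 6) (nat_lit 11) (nat_lit 2) (nat_lit 231) (nat_lit 232) (nat_lit 137)) (PT.lf (nat_lit 760) (nat_lit 3) (nat_lit 10) (nat_lit 0) (nat_lit 232) (nat_lit 232) (nat_lit 136))) (PT.nd (nat_lit 54678) (PT.lf (nat_lit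 608) (nat_lit 6) (nat_lit 8) (nat_lit 0) (nat_lit 233) (nat_lit 232) (nat_lit 135)) (PT.lf (nat_lit 380) (nat_lit 6) (nat_lit 5) (nat_lit 5) (nat_lit 133) (nat_lit 233) (nat_lit 234)))))) (PT.nd (nat_lit 62322) (PT.nd (nat_lit 7644) (PT.nd (nat_lit 156) (PT.nd (nat_lit 78) (PT.lf (nat_lit 532) (nat_lit 3) (nat_lit 7) (nat_lit 4) (nat_lit 134) (nat_lit 233) (nat_lit 233)) (PT.lf (nat_lit 608) (nat_lit 6) (nat_lit 8) (nat_lit 4) (nat_lit 135) (nat_lit 233) (nat_lit 232))) (PT.nd (nat_lit 7410) (PT.lf (nat_lit 684) (nat_lit 6) (nat_lit 9) (nat_lit 4) (nat_lit 136) (nat_lit 233) (nat_lit 231)) (PT.lf (nat_lit 684) (nat_lit 6) (nat_lit 9) (nat_lit 2) (nat_lit 231) (nat_lit 233) (nat_lit 136)))) (PT.nd (nat_lit 156) (PT.nd (nat_lit 78) (PT.lf (nat_lit 608) (nat_lit 6) (nat_lit 8) (nat_lit 2) (nat_lit 232) (nat_lit 233) (nat_lit 135)) (PT.lf (nat_lit 532) (nat_lit 3) (nat_lit 7) (nat_lit 0) (nat_lit 233)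 (nat_lit 233) (nat_lit 134))) (PT.nd (nat_lit 54444) (PT.lf (nat_lit 380) (nat_lit 6) (nat_lit 5) (nat_lit 0) (nat_lit 234) (nat_lit 233) (nat_lit 133)) (PT.lf (nat_lit 152) (nat_lit 6) (nat_lit 2) (nat_lit 5) (nat_lit 131) (nat_lit 234) (nat_lit 235))))) (PT.nd (nat_lit 8034) (PT.nd (nat_lit 7878) (PT.nd (nat_lit 78) (PT.lf (nat_lit 304) (nat_lit 3) (nat_lit 4) (nat_lit 4) (nat_lit 132) (nat_lit 234) (nat_lit 234)) (PT.lf (nat_lit 380) (nat_lit 6) (nat_lit 5) (nat_lit 4) (nat_lit 133) (nat_lit 234) (nat_lit 233))) (PT.nd (nat_lit 78) (PT.lf (nat_lit 380) (nat_lit 6) (nat_lit 5) (nat_lit 2) (nat_lit 233) (nat_lit 234) (nat_lit 133)) (PT.lf (nat_lit 304) (nat_lit 3) (nat_lit 4) (nat_lit 0) (nat_lit 234) (nat_lit 234) (nat_lit 132)))) (PT.nd (nat_lit 54366) (PT.nd (nat_lit 54288) (PT.lf (nat_lit 152) (nat_lit 6) (nat_lit 2) (nat_lit 0) (nat_lit 235) (nat_lit 234) (nat_lit 131)) (PT.lf (nat_lit 76)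 (nat_lit 3) (nat_lit 1) (nat_lit 4) (nat_lit 130) (nat_lit 235) (nat_lit 235))) (PT.nd (nat_lit 8034) (PT.lf (nat_lit 152) (nat_lit 6) (nat_lit 2) (nat_lit 4) (nat_lit 131) (nat_lit 235) (nat_lit 234)) (PT.nd (nat_lit 78) (PT.lf (nat_lit 152) (nat_lit 6) (nat_lit 2) (nat_lit 2) (nat_lit 234) (nat_lit 235) (nat_lit 131)) (PT.lf (nat_lit 76) (nat_lit 3) (nat_lit 1) (nat_lit 0) (nat_lit 235) (nat_lit 235) (nat_lit 130))))))))
noncomputable def xc0 : XT := (XT.nd (nat_lit 249678) (nat_lit 0) (nat_lit 0) (XT.nd (nat_lit 186966) (nat_lit 0) (nat_lit 0) (XT.nd (nat_lit 124644) (nat_lit 0) (nat_lit 0) (XT.nd (nat_lit 62400) (nat_lit 0) (nat_lit 0) (XT.nd (nat_lit 62244) (nat_lit 0) (nat_lit 152) (XT.lf (nat_lit 0) (nat_lit 21034443022) (nat_lit 152) (nat_lit 36592023533) (nat_lit 0) (nat_lit 20943151339) (nat_lit 3) (nat_lit 5) (nat_lit 5) (nat_lit 4) (nat_lit 3) (nat_lit 4) (nat_lit 499) (nat_lit 351)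 (nat_lit 350)) (XT.nd (nat_lit 78) (nat_lit 0) (nat_lit 0) (XT.lf (nat_lit 0) (nat_lit 17317440853) (nat_lit 76) (nat_lit 8572966397) (nat_lit 76) (nat_lit 8572966397) (nat_lit 5) (nat_lit 4) (nat_lit 6) (nat_lit 5) (nat_lit 6) (nat_lit 4) (nat_lit 496) (nat_lit 352) (nat_lit 352)) (XT.lf (nat_lit 0) (nat_lit 62295126213) (nat_lit 76) (nat_lit 4894466318) (nat_lit 76) (nat_lit 4795734362) (nat_lit 5) (nat_lit 4) (nat_lit 6) (nat_lit 5) (nat_lit 6) (nat_lit 4) (nat_lit 497) (nat_lit 352) (nat_lit 351)))) (XT.nd (nat_lit 78) (nat_lit 0) (nat_lit 0) (XT.lf (nat_lit 0) (nat_lit 7825804204) (nat_lit 152) (nat_lit 59735621245) (nat_lit 0) (nat_lit 7638656253) (nat_lit 3) (nat_lit 5) (nat_lit 5) (nat_lit 4) (nat_lit 3) (nat_lit 4) (nat_lit 498) (nat_lit 352) (nat_lit 350)) (XT.nd (nat_lit 62088) (nat_lit 0) (nat_lit 228) (XT.lf (nat_lit 0) (nat_lit 20727317520) (nat_lit 152) (nat_lit 37401166337) (nat_lit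 0) (nat_lit 20453225108) (nat_lit 3) (nat_lit 5) (nat_lit 5) (nat_lit 4) (nat_lit 3) (nat_lit 4) (nat_lit 499) (nat_lit 352) (nat_lit 349)) (XT.lf (nat_lit 0) (nat_lit 11205533046) (nat_lit 152) (nat_lit 9221064925) (nat_lit 0) (nat_lit 11205533046) (nat_lit 6) (nat_lit 5) (nat_lit 8) (nat_lit 4) (nat_lit 6) (nat_lit 4) (nat_lit 494) (nat_lit 353) (nat_lit 353))))) (XT.nd (nat_lit 234) (nat_lit 152) (nat_lit 0) (XT.nd (nat_lit 78) (nat_lit 0) (nat_lit 0) (XT.lf (nat_lit 0) (nat_lit 7475302825) (nat_lit 76) (nat_lit 29327195287) (nat_lit 76) (nat_lit 29223526733) (nat_lit 5) (nat_lit 4) (nat_lit 6) (nat_lit 5) (nat_lit 6) (nat_lit 4) (nat_lit 495) (nat_lit 353) (nat_lit 352)) (XT.nd (nat_lit 78) (nat_lit 0) (nat_lit 0) (XT.lf (nat_lit 0) (nat_lit 34216680087) (nat_lit 76) (nat_lit 17459360938) (nat_lit 76) (nat_lit 17256960428) (nat_lit 5) (nat_lit 4) (nat_lit 6) (nat_lit 5) (nat_lit 6) (nat_lit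 4) (nat_lit 496) (nat_lit 353) (nat_lit 351)) (XT.lf (nat_lit 0) (nat_lit 61478637336) (nat_lit 76) (nat_lit 5407665499) (nat_lit 76) (nat_lit 5111234555) (nat_lit 5) (nat_lit 4) (nat_lit 6) (nat_lit 5) (nat_lit 6) (nat_lit 4) (nat_lit 497) (nat_lit 353) (nat_lit 350)))) (XT.nd (nat_lit 78) (nat_lit 0) (nat_lit 0) (XT.lf (nat_lit 0) (nat_lit 7306745954) (nat_lit 152) (nat_lit 60979924996) (nat_lit 0) (nat_lit 6932004461) (nat_lit 3) (nat_lit 5) (nat_lit 5) (nat_lit 4) (nat_lit 3) (nat_lit 4) (nat_lit 498) (nat_lit 353) (nat_lit 349)) (XT.nd (nat_lit 61932) (nat_lit 0) (nat_lit 380) (XT.lf (nat_lit 0) (nat_lit 20021043582) (nat_lit 152) (nat_lit 39021378476) (nat_lit 0) (nat_lit 19563497840) (nat_lit 3) (nat_lit 5) (nat_lit 5) (nat_lit 4) (nat_lit 3) (nat_lit 4) (nat_lit 499) (nat_lit 353) (nat_lit 348)) (XT.lf (nat_lit 0) (nat_lit 23986531630) (nat_lit 76) (nat_lit 2544242807) (nat_lit 76) (nat_lit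 2544242807) (nat_lit 8) (nat_lit 4) (nat_lit 9) (nat_lit 5) (nat_lit 9) (nat_lit 4) (nat_lit 492) (nat_lit 354) (nat_lit 354)))))) (XT.nd (nat_lit 468) (nat_lit 0) (nat_lit 0) (XT.nd (nat_lit 234) (nat_lit 152) (nat_lit 0) (XT.nd (nat_lit 78) (nat_lit 76) (nat_lit 0) (XT.lf (nat_lit 0) (nat_lit 8463162613) (nat_lit 152) (nat_lit 43827059228) (nat_lit 0) (nat_lit 8354310632) (nat_lit 6) (nat_lit 5) (nat_lit 8) (nat_lit 4) (nat_lit 6) (nat_lit 4) (nat_lit 493) (nat_lit 354) (nat_lit 353)) (XT.nd (nat_lit 78) (nat_lit 76) (nat_lit 0) (XT.lf (nat_lit 0) (nat_lit 22305274953) (nat_lit 152) (nat_lit 18872672901) (nat_lit 0) (nat_lit 22092754418) (nat_lit 6) (nat_lit 5) (nat_lit 8) (nat_lit 4) (nat_lit 6) (nat_lit 4) (nat_lit 494) (nat_lit 354) (nat_lit 352)) (XT.lf (nat_lit 0) (nat_lit 6617989504) (nat_lit 76) (nat_lit 29866054427) (nat_lit 76) (nat_lit 29554801936) (nat_lit 5) (nat_lit 4) (nat_lit 6)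 (nat_lit 5) (nat_lit 6) (nat_lit 4) (nat_lit 495) (nat_lit 354) (nat_lit 351)))) (XT.nd (nat_lit 78) (nat_lit 152) (nat_lit 0) (XT.lf (nat_lit 0) (nat_lit 32961079510) (nat_lit 76) (nat_lit 18197991116) (nat_lit 76) (nat_lit 17792708191) (nat_lit 5) (nat_lit 4) (nat_lit 6) (nat_lit 5) (nat_lit 6) (nat_lit 4) (nat_lit 496) (nat_lit 354) (nat_lit 350)) (XT.nd (nat_lit 78) (nat_lit 152) (nat_lit 0) (XT.lf (nat_lit 0) (nat_lit 59843715562) (nat_lit 76) (nat_lit 6336553808) (nat_lit 76) (nat_lit 5841718089) (nat_lit 5) (nat_lit 4) (nat_lit 6) (nat_lit 5) (nat_lit 6) (nat_lit 4) (nat_lit 497) (nat_lit 354) (nat_lit 349)) (XT.lf (nat_lit 0) (nat_lit 6377942629) (nat_lit 152) (nat_lit 63057056129) (nat_lit 0) (nat_lit 5814715353) (nat_lit 3) (nat_lit 5) (nat_lit 5) (nat_lit 4) (nat_lit 3) (nat_lit 4) (nat_lit 498) (nat_lit 354) (nat_lit 348))))) (XT.nd (nat_lit 61932) (nat_lit 0) (nat_lit 152) (XT.nd (nat_lit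 61776) (nat_lit 0) (nat_lit 380) (XT.lf (nat_lit 0) (nat_lit 18913939602) (nat_lit 152) (nat_lit 41456517597) (nat_lit 0) (nat_lit 18271851136) (nat_lit 3) (nat_lit 5) (nat_lit 5) (nat_lit 4) (nat_lit 3) (nat_lit 4) (nat_lit 499) (nat_lit 354) (nat_lit 347)) (XT.nd (nat_lit 78) (nat_lit 76) (nat_lit 0) (XT.lf (nat_lit 0) (nat_lit 11257614040) (nat_lit 152) (nat_lit 4245977495) (nat_lit 0) (nat_lit 11257614040) (nat_lit 9) (nat_lit 5) (nat_lit 11) (nat_lit 4) (nat_lit 9) (nat_lit 4) (nat_lit 490) (nat_lit 355) (nat_lit 355)) (XT.lf (nat_lit 0) (nat_lit 19187909080) (nat_lit 76) (nat_lit 18353775314) (nat_lit 76) (nat_lit 18236051896) (nat_lit 8) (nat_lit 4) (nat_lit 9) (nat_lit 5) (nat_lit 9) (nat_lit 4) (nat_lit 491) (nat_lit 355) (nat_lit 354)))) (XT.nd (nat_lit 156) (nat_lit 76) (nat_lit 0) (XT.nd (nat_lit 78) (nat_lit 152) (nat_lit 0) (XT.lf (nat_lit 0) (nat_lit 47538625184) (nat_lit 76) (nat_lit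 5423877190) (nat_lit 76) (nat_lit 5194036231) (nat_lit 8) (nat_lit 4) (nat_lit 9) (nat_lit 5) (nat_lit 9) (nat_lit 4) (nat_lit 492) (nat_lit 355) (nat_lit 353)) (XT.lf (nat_lit 0) (nat_lit 8137438795) (nat_lit 152) (nat_lit 44709672480) (nat_lit 0) (nat_lit 7810623680) (nat_lit 6) (nat_lit 5) (nat_lit 8) (nat_lit 4) (nat_lit 6) (nat_lit 4) (nat_lit 493) (nat_lit 355) (nat_lit 352))) (XT.nd (nat_lit 78) (nat_lit 76) (nat_lit 0) (XT.lf (nat_lit 0) (nat_lit 21775129115) (nat_lit 152) (nat_lit 20165327152) (nat_lit 0) (nat_lit 21349582043) (nat_lit 6) (nat_lit 5) (nat_lit 8) (nat_lit 4) (nat_lit 6) (nat_lit 4) (nat_lit 494) (nat_lit 355) (nat_lit 351)) (XT.lf (nat_lit 0) (nat_lit 4901321641) (nat_lit 76) (nat_lit 30841387152) (nat_lit 76) (nat_lit 30321809647) (nat_lit 5) (nat_lit 4) (nat_lit 6) (nat_lit 5) (nat_lit 6) (nat_lit 4) (nat_lit 495) (nat_lit 355) (nat_lit 350))))))) (XT.nd (nat_lit 62556)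 (nat_lit 0) (nat_lit 0) (XT.nd (nat_lit 62010) (nat_lit 0) (nat_lit 152) (XT.nd (nat_lit 234) (nat_lit 0) (nat_lit 0) (XT.nd (nat_lit 78) (nat_lit 152) (nat_lit 0) (XT.lf (nat_lit 0) (nat_lit 30865090450) (nat_lit 76) (nat_lit 19363581972) (nat_lit 76) (nat_lit 18754451672) (nat_lit 5) (nat_lit 4) (nat_lit 6) (nat_lit 5) (nat_lit 6) (nat_lit 4) (nat_lit 496) (nat_lit 355) (nat_lit 349)) (XT.nd (nat_lit 78) (nat_lit 152) (nat_lit 0) (XT.lf (nat_lit 0) (nat_lit 57386468219) (nat_lit 76) (nat_lit 7683342884) (nat_lit 76) (nat_lit 6988924209) (nat_lit 5) (nat_lit 4) (nat_lit 6) (nat_lit 5) (nat_lit 6) (nat_lit 4) (nat_lit 497) (nat_lit 355) (nat_lit 348)) (XT.lf (nat_lit 0) (nat_lit 5037182795) (nat_lit 152) (nat_lit 65971960195) (nat_lit 0) (nat_lit 4284128717) (nat_lit 3) (nat_lit 5) (nat_lit 5) (nat_lit 4) (nat_lit 3) (nat_lit 4) (nat_lit 498) (nat_lit 355) (nat_lit 347)))) (XT.nd (nat_lit 61620)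 (nat_lit 0) (nat_lit 456) (XT.lf (nat_lit 0) (nat_lit 17403369618) (nat_lit 152) (nat_lit 44712381651) (nat_lit 0) (nat_lit 16575209647) (nat_lit 3) (nat_lit 5) (nat_lit 5) (nat_lit 4) (nat_lit 3) (nat_lit 4) (nat_lit 499) (nat_lit 355) (nat_lit 346)) (XT.nd (nat_lit 78) (nat_lit 152) (nat_lit 0) (XT.lf (nat_lit 0) (nat_lit 18698378214) (nat_lit 76) (nat_lit 2986756308) (nat_lit 76) (nat_lit 2986756308) (nat_lit 11) (nat_lit 4) (nat_lit 12) (nat_lit 5) (nat_lit 12) (nat_lit 4) (nat_lit 488) (nat_lit 356) (nat_lit 356)) (XT.lf (nat_lit 0) (nat_lit 8067772317) (nat_lit 152) (nat_lit 35370354131) (nat_lit 0) (nat_lit 7944162728) (nat_lit 9) (nat_lit 5) (nat_lit 11) (nat_lit 4) (nat_lit 9) (nat_lit 4) (nat_lit 489) (nat_lit 356) (nat_lit 355))))) (XT.nd (nat_lit 234) (nat_lit 228) (nat_lit 0) (XT.nd (nat_lit 78) (nat_lit 76) (nat_lit 0) (XT.lf (nat_lit 0) (nat_lit 22415614144) (nat_lit 152) (nat_lit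 8939213646) (nat_lit 0) (nat_lit 22174281138) (nat_lit 9) (nat_lit 5) (nat_lit 11) (nat_lit 4) (nat_lit 9) (nat_lit 4) (nat_lit 490) (nat_lit 356) (nat_lit 354)) (XT.nd (nat_lit 78) (nat_lit 0) (nat_lit 0) (XT.lf (nat_lit 0) (nat_lit 18297311025) (nat_lit 76) (nat_lit 18923604625) (nat_lit 76) (nat_lit 18570154077) (nat_lit 8) (nat_lit 4) (nat_lit 9) (nat_lit 5) (nat_lit 9) (nat_lit 4) (nat_lit 491) (nat_lit 356) (nat_lit 353)) (XT.lf (nat_lit 0) (nat_lit 46234276582) (nat_lit 76) (nat_lit 6201009507) (nat_lit 76) (nat_lit 5740780350) (nat_lit 8) (nat_lit 4) (nat_lit 9) (nat_lit 5) (nat_lit 9) (nat_lit 4) (nat_lit 492) (nat_lit 356) (nat_lit 352)))) (XT.nd (nat_lit 156) (nat_lit 76) (nat_lit 0) (XT.nd (nat_lit 78) (nat_lit 0) (nat_lit 0) (XT.lf (nat_lit 0) (nat_lit 7376363645) (nat_lit 152) (nat_lit 46477000444) (nat_lit 0) (nat_lit 6830807264) (nat_lit 6) (nat_lit 5) (nat_lit 8) (nat_lit 4) (nat_lit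 6) (nat_lit 4) (nat_lit 493) (nat_lit 356) (nat_lit 351)) (XT.lf (nat_lit 0) (nat_lit 20819366326) (nat_lit 152) (nat_lit 22323170355) (nat_lit 0) (nat_lit 20179779511) (nat_lit 6) (nat_lit 5) (nat_lit 8) (nat_lit 4) (nat_lit 6) (nat_lit 4) (nat_lit 494) (nat_lit 356) (nat_lit 350))) (XT.nd (nat_lit 78) (nat_lit 0) (nat_lit 0) (XT.lf (nat_lit 0) (nat_lit 2321211932) (nat_lit 76) (nat_lit 32255515682) (nat_lit 76) (nat_lit 31526376073) (nat_lit 5) (nat_lit 4) (nat_lit 6) (nat_lit 5) (nat_lit 6) (nat_lit 4) (nat_lit 495) (nat_lit 356) (nat_lit 349)) (XT.lf (nat_lit 0) (nat_lit 27923722457) (nat_lit 76) (nat_lit 20958908722) (nat_lit 76) (nat_lit 20144480738) (nat_lit 5) (nat_lit 4) (nat_lit 6) (nat_lit 5) (nat_lit 6) (nat_lit 4) (nat_lit 496) (nat_lit 356) (nat_lit 348)))))) (XT.nd (nat_lit 61854) (nat_lit 0) (nat_lit 228) (XT.nd (nat_lit 61620) (nat_lit 0) (nat_lit 608) (XT.nd (nat_lit 78) (nat_lit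 152) (nat_lit 0) (XT.lf (nat_lit 0) (nat_lit 54101044719) (nat_lit 76) (nat_lit 9451239368) (nat_lit 76) (nat_lit 8555584359) (nat_lit 5) (nat_lit 4) (nat_lit 6) (nat_lit 5) (nat_lit 6) (nat_lit 4) (nat_lit 497) (nat_lit 356) (nat_lit 347)) (XT.nd (nat_lit 78) (nat_lit 0) (nat_lit 0) (XT.lf (nat_lit 0) (nat_lit 3281274164) (nat_lit 152) (nat_lit 69731577440) (nat_lit 0) (nat_lit 2336600300) (nat_lit 3) (nat_lit 5) (nat_lit 5) (nat_lit 4) (nat_lit 3) (nat_lit 4) (nat_lit 498) (nat_lit 356) (nat_lit 346)) (XT.lf (nat_lit 0) (nat_lit 15485737036) (nat_lit 152) (nat_lit 48796722695) (nat_lit 0) (nat_lit 14469533750) (nat_lit 3) (nat_lit 5) (nat_lit 5) (nat_lit 4) (nat_lit 3) (nat_lit 4) (nat_lit 499) (nat_lit 356) (nat_lit 345)))) (XT.nd (nat_lit 78) (nat_lit 76) (nat_lit 0) (XT.lf (nat_lit 0) (nat_lit 6420192052) (nat_lit 152) (nat_lit 9941017376) (nat_lit 0) (nat_lit 6420192052) (nat_lit 12) (nat_lit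 5) (nat_lit 14) (nat_lit 4) (nat_lit 12) (nat_lit 4) (nat_lit 486) (nat_lit 357) (nat_lit 357)) (XT.nd (nat_lit 78) (nat_lit 0) (nat_lit 0) (XT.lf (nat_lit 0) (nat_lit 8087315889) (nat_lit 76) (nat_lit 19726540543) (nat_lit 76) (nat_lit 19592856773) (nat_lit 11) (nat_lit 4) (nat_lit 12) (nat_lit 5) (nat_lit 12) (nat_lit 4) (nat_lit 487) (nat_lit 357) (nat_lit 356)) (XT.lf (nat_lit 0) (nat_lit 36945467205) (nat_lit 76) (nat_lit 6333040308) (nat_lit 76) (nat_lit 6072038662) (nat_lit 11) (nat_lit 4) (nat_lit 12) (nat_lit 5) (nat_lit 12) (nat_lit 4) (nat_lit 488) (nat_lit 357) (nat_lit 355))))) (XT.nd (nat_lit 234) (nat_lit 152) (nat_lit 0) (XT.nd (nat_lit 78) (nat_lit 76) (nat_lit 0) (XT.lf (nat_lit 0) (nat_lit 7739954158) (nat_lit 152) (nat_lit 36287234374) (nat_lit 0) (nat_lit 7368831083) (nat_lit 9) (nat_lit 5) (nat_lit 11) (nat_lit 4) (nat_lit 9) (nat_lit 4) (nat_lit 489) (nat_lit 357) (nat_lit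 354)) (XT.nd (nat_lit 78) (nat_lit 76) (nat_lit 0) (XT.lf (nat_lit 0) (nat_lit 21875202151) (nat_lit 152) (nat_lit 10282054513) (nat_lit 0) (nat_lit 21391961536) (nat_lit 9) (nat_lit 5) (nat_lit 11) (nat_lit 4) (nat_lit 9) (nat_lit 4) (nat_lit 490) (nat_lit 357) (nat_lit 353)) (XT.lf (nat_lit 0) (nat_lit 16513994445) (nat_lit 76) (nat_lit 19946896564) (nat_lit 76) (nat_lit 19356877339) (nat_lit 8) (nat_lit 4) (nat_lit 9) (nat_lit 5) (nat_lit 9) (nat_lit 4) (nat_lit 491) (nat_lit 357) (nat_lit 352)))) (XT.nd (nat_lit 156) (nat_lit 0) (nat_lit 0) (XT.nd (nat_lit 78) (nat_lit 152) (nat_lit 0) (XT.lf (nat_lit 0) (nat_lit 44056911860) (nat_lit 76) (nat_lit 7421732882) (nat_lit 76) (nat_lit 6730019742) (nat_lit 8) (nat_lit 4) (nat_lit 9) (nat_lit 5) (nat_lit 9) (nat_lit 4) (nat_lit 492) (nat_lit 357) (nat_lit 351)) (XT.lf (nat_lit 0) (nat_lit 6178125078) (nat_lit 152) (nat_lit 49133251044) (nat_lit 0)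 (nat_lit 5412528489) (nat_lit 6) (nat_lit 5) (nat_lit 8) (nat_lit 4) (nat_lit 6) (nat_lit 4) (nat_lit 493) (nat_lit 357) (nat_lit 350))) (XT.nd (nat_lit 78) (nat_lit 0) (nat_lit 0) (XT.lf (nat_lit 0) (nat_lit 19435710962) (nat_lit 152) (nat_lit 25351340229) (nat_lit 0) (nat_lit 18580561578) (nat_lit 6) (nat_lit 5) (nat_lit 8) (nat_lit 4) (nat_lit 6) (nat_lit 4) (nat_lit 494) (nat_lit 357) (nat_lit 349)) (XT.lf (nat_lit 0) (nat_lit 32994171913) (nat_lit 152) (nat_lit 1106461980) (nat_lit 0) (nat_lit 32053734154) (nat_lit 6) (nat_lit 5) (nat_lit 8) (nat_lit 4) (nat_lit 6) (nat_lit 4) (nat_lit 495) (nat_lit 357) (nat_lit 348))))))))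
noncomputable def xc1 : XT := (XT.nd (nat_lit 124254) (nat_lit 0) (nat_lit 0) (XT.nd (nat_lit 62166) (nat_lit 0) (nat_lit 0) (XT.nd (nat_lit 61698) (nat_lit 0) (nat_lit 380) (XT.nd (nat_lit 234) (nat_lit 0) (nat_lit 0) (XT.nd (nat_lit 78) (nat_lit 152) (nat_lit 0) (XT.lf (nat_lit 0) (nat_lit 24129972275) (nat_lit 76) (nat_lit 22987769764) (nat_lit 76) (nat_lit 21966104980) (nat_lit 5) (nat_lit 4) (nat_lit 6) (nat_lit 5) (nat_lit 6) (nat_lit 4) (nat_lit 496) (nat_lit 357) (nat_lit 347)) (XT.nd (nat_lit 78) (nat_lit 152) (nat_lit 0) (XT.lf (nat_lit 0) (nat_lit 49979622624) (nat_lit 76) (nat_lit 11644452537) (nat_lit 76) (nat_lit 10545428683) (nat_lit 5) (nat_lit 4) (nat_lit 6) (nat_lit 5) (nat_lit 6) (nat_lit 4) (nat_lit 497) (nat_lit 357) (nat_lit 346)) (XT.lf (nat_lit 0) (nat_lit 1073200874) (nat_lit 76) (nat_lit 33153822) (nat_lit 152) (nat_lit 74312024208) (nat_lit 3) (nat_lit 5) (nat_lit 4)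 (nat_lit 5) (nat_lit 5) (nat_lit 4) (nat_lit 498) (nat_lit 357) (nat_lit 345)))) (XT.nd (nat_lit 61308) (nat_lit 0) (nat_lit 836) (XT.lf (nat_lit 0) (nat_lit 13156476064) (nat_lit 152) (nat_lit 53719265351) (nat_lit 0) (nat_lit 11949809930) (nat_lit 3) (nat_lit 5) (nat_lit 5) (nat_lit 4) (nat_lit 3) (nat_lit 4) (nat_lit 499) (nat_lit 357) (nat_lit 344)) (XT.nd (nat_lit 78) (nat_lit 0) (nat_lit 0) (XT.lf (nat_lit 0) (nat_lit 5394107938) (nat_lit 76) (nat_lit 7839206864) (nat_lit 76) (nat_lit 7839206864) (nat_lit 14) (nat_lit 4) (nat_lit 15) (nat_lit 5) (nat_lit 15) (nat_lit 4) (nat_lit 484) (nat_lit 358) (nat_lit 358)) (XT.lf (nat_lit 0) (nat_lit 40391750309) (nat_lit 76) (nat_lit 1784450673) (nat_lit 76) (nat_lit 1639871676) (nat_lit 14) (nat_lit 4) (nat_lit 15) (nat_lit 5) (nat_lit 15) (nat_lit 4) (nat_lit 485) (nat_lit 358) (nat_lit 357))))) (XT.nd (nat_lit 234) (nat_lit 228) (nat_lit 0) (XT.nd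 (nat_lit 78) (nat_lit 76) (nat_lit 0) (XT.lf (nat_lit 0) (nat_lit 12748589469) (nat_lit 152) (nat_lit 20346641844) (nat_lit 0) (nat_lit 12474537740) (nat_lit 12) (nat_lit 5) (nat_lit 14) (nat_lit 4) (nat_lit 12) (nat_lit 4) (nat_lit 486) (nat_lit 358) (nat_lit 356)) (XT.nd (nat_lit 78) (nat_lit 0) (nat_lit 0) (XT.lf (nat_lit 0) (nat_lit 7162172981) (nat_lit 76) (nat_lit 20329888542) (nat_lit 76) (nat_lit 19928518937) (nat_lit 11) (nat_lit 4) (nat_lit 12) (nat_lit 5) (nat_lit 12) (nat_lit 4) (nat_lit 487) (nat_lit 358) (nat_lit 355)) (XT.lf (nat_lit 0) (nat_lit 35590525037) (nat_lit 76) (nat_lit 7151477758) (nat_lit 76) (nat_lit 6628853032) (nat_lit 11) (nat_lit 4) (nat_lit 12) (nat_lit 5) (nat_lit 12) (nat_lit 4) (nat_lit 488) (nat_lit 358) (nat_lit 354)))) (XT.nd (nat_lit 78) (nat_lit 76) (nat_lit 0) (XT.lf (nat_lit 0) (nat_lit 6959927732) (nat_lit 152) (nat_lit 38123177907) (nat_lit 0) (nat_lit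 6340407545) (nat_lit 9) (nat_lit 5) (nat_lit 11) (nat_lit 4) (nat_lit 9) (nat_lit 4) (nat_lit 489) (nat_lit 358) (nat_lit 353)) (XT.nd (nat_lit 78) (nat_lit 76) (nat_lit 0) (XT.lf (nat_lit 0) (nat_lit 20892705407) (nat_lit 152) (nat_lit 12523674830) (nat_lit 0) (nat_lit 20166406610) (nat_lit 9) (nat_lit 5) (nat_lit 11) (nat_lit 4) (nat_lit 9) (nat_lit 4) (nat_lit 490) (nat_lit 358) (nat_lit 352)) (XT.lf (nat_lit 0) (nat_lit 13833713347) (nat_lit 76) (nat_lit 21426087543) (nat_lit 76) (nat_lit 20598094831) (nat_lit 8) (nat_lit 4) (nat_lit 9) (nat_lit 5) (nat_lit 9) (nat_lit 4) (nat_lit 491) (nat_lit 358) (nat_lit 351)))))) (XT.nd (nat_lit 468) (nat_lit 152) (nat_lit 0) (XT.nd (nat_lit 234) (nat_lit 76) (nat_lit 0) (XT.nd (nat_lit 78) (nat_lit 152) (nat_lit 0) (XT.lf (nat_lit 0) (nat_lit 41001346818) (nat_lit 76) (nat_lit 9088953798) (nat_lit 76) (nat_lit 8164109740) (nat_lit 8) (nat_lit 4) (nat_lit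 9) (nat_lit 5) (nat_lit 9) (nat_lit 4) (nat_lit 492) (nat_lit 358) (nat_lit 350)) (XT.nd (nat_lit 78) (nat_lit 0) (nat_lit 0) (XT.lf (nat_lit 0) (nat_lit 4539870147) (nat_lit 152) (nat_lit 52684748686) (nat_lit 0) (nat_lit 3552410500) (nat_lit 6) (nat_lit 5) (nat_lit 8) (nat_lit 4) (nat_lit 6) (nat_lit 4) (nat_lit 493) (nat_lit 358) (nat_lit 349)) (XT.lf (nat_lit 0) (nat_lit 17620868604) (nat_lit 152) (nat_lit 29257046704) (nat_lit 0) (nat_lit 16548120580) (nat_lit 6) (nat_lit 5) (nat_lit 8) (nat_lit 4) (nat_lit 6) (nat_lit 4) (nat_lit 494) (nat_lit 358) (nat_lit 348)))) (XT.nd (nat_lit 78) (nat_lit 76) (nat_lit 0) (XT.lf (nat_lit 0) (nat_lit 31011151054) (nat_lit 152) (nat_lit 5349510200) (nat_lit 0) (nat_lit 29857176006) (nat_lit 6) (nat_lit 5) (nat_lit 8) (nat_lit 4) (nat_lit 6) (nat_lit 4) (nat_lit 495) (nat_lit 358) (nat_lit 347)) (XT.nd (nat_lit 78) (nat_lit 0) (nat_lit 0) (XT.lf (nat_lit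 0) (nat_lit 19474807163) (nat_lit 76) (nat_lit 25454995719) (nat_lit 76) (nat_lit 24223661600) (nat_lit 5) (nat_lit 4) (nat_lit 6) (nat_lit 5) (nat_lit 6) (nat_lit 4) (nat_lit 496) (nat_lit 358) (nat_lit 346)) (XT.lf (nat_lit 0) (nat_lit 45012389026) (nat_lit 76) (nat_lit 14268204327) (nat_lit 76) (nat_lit 12963194904) (nat_lit 5) (nat_lit 4) (nat_lit 6) (nat_lit 5) (nat_lit 6) (nat_lit 4) (nat_lit 497) (nat_lit 358) (nat_lit 345))))) (XT.nd (nat_lit 61308) (nat_lit 0) (nat_lit 684) (XT.nd (nat_lit 78) (nat_lit 152) (nat_lit 0) (XT.lf (nat_lit 0) (nat_lit 71217573410) (nat_lit 76) (nat_lit 2827671426) (nat_lit 76) (nat_lit 1452495045) (nat_lit 5) (nat_lit 4) (nat_lit 6) (nat_lit 5) (nat_lit 6) (nat_lit 4) (nat_lit 498) (nat_lit 358) (nat_lit 344)) (XT.nd (nat_lit 61152) (nat_lit 0) (nat_lit 1064) (XT.lf (nat_lit 0) (nat_lit 10410040842) (nat_lit 152) (nat_lit 59491729958) (nat_lit 0) (nat_lit 9010038847)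 (nat_lit 3) (nat_lit 5) (nat_lit 5) (nat_lit 4) (nat_lit 3) (nat_lit 4) (nat_lit 499) (nat_lit 358) (nat_lit 343)) (XT.lf (nat_lit 0) (nat_lit 16286084191) (nat_lit 76) (nat_lit 1620598147) (nat_lit 76) (nat_lit 1620598147) (nat_lit 17) (nat_lit 4) (nat_lit 18) (nat_lit 5) (nat_lit 18) (nat_lit 4) (nat_lit 482) (nat_lit 359) (nat_lit 359)))) (XT.nd (nat_lit 156) (nat_lit 152) (nat_lit 0) (XT.nd (nat_lit 78) (nat_lit 76) (nat_lit 0) (XT.lf (nat_lit 0) (nat_lit 11375248932) (nat_lit 152) (nat_lit 17963350245) (nat_lit 0) (nat_lit 11223440984) (nat_lit 15) (nat_lit 5) (nat_lit 17) (nat_lit 4) (nat_lit 15) (nat_lit 4) (nat_lit 483) (nat_lit 359) (nat_lit 358)) (XT.lf (nat_lit 0) (nat_lit 10319439690) (nat_lit 76) (nat_lit 16064513221) (nat_lit 76) (nat_lit 15768126276) (nat_lit 14) (nat_lit 4) (nat_lit 15) (nat_lit 5) (nat_lit 15) (nat_lit 4) (nat_lit 484) (nat_lit 359) (nat_lit 357))) (XT.nd (nat_lit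 78) (nat_lit 152) (nat_lit 0) (XT.lf (nat_lit 0) (nat_lit 39476520610) (nat_lit 76) (nat_lit 2393684970) (nat_lit 76) (nat_lit 1959603743) (nat_lit 14) (nat_lit 4) (nat_lit 15) (nat_lit 5) (nat_lit 15) (nat_lit 4) (nat_lit 485) (nat_lit 359) (nat_lit 356)) (XT.lf (nat_lit 0) (nat_lit 12198935274) (nat_lit 152) (nat_lit 21741569328) (nat_lit 0) (nat_lit 11650179313) (nat_lit 12) (nat_lit 5) (nat_lit 14) (nat_lit 4) (nat_lit 12) (nat_lit 4) (nat_lit 486) (nat_lit 359) (nat_lit 355))))))) (XT.nd (nat_lit 61932) (nat_lit 0) (nat_lit 380) (XT.nd (nat_lit 468) (nat_lit 380) (nat_lit 0) (XT.nd (nat_lit 234) (nat_lit 76) (nat_lit 0) (XT.nd (nat_lit 78) (nat_lit 152) (nat_lit 0) (XT.lf (nat_lit 0) (nat_lit 5309684445) (nat_lit 76) (nat_lit 21404337314) (nat_lit 76) (nat_lit 20734326232) (nat_lit 11) (nat_lit 4) (nat_lit 12) (nat_lit 5) (nat_lit 12) (nat_lit 4) (nat_lit 487) (nat_lit 359) (nat_lit 354))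 (XT.nd (nat_lit 78) (nat_lit 152) (nat_lit 0) (XT.lf (nat_lit 0) (nat_lit 33328703872) (nat_lit 76) (nat_lit 8430773624) (nat_lit 76) (nat_lit 7645281475) (nat_lit 11) (nat_lit 4) (nat_lit 12) (nat_lit 5) (nat_lit 12) (nat_lit 4) (nat_lit 488) (nat_lit 359) (nat_lit 353)) (XT.lf (nat_lit 0) (nat_lit 5725835832) (nat_lit 152) (nat_lit 40882556025) (nat_lit 0) (nat_lit 4856443485) (nat_lit 9) (nat_lit 5) (nat_lit 11) (nat_lit 4) (nat_lit 9) (nat_lit 4) (nat_lit 489) (nat_lit 359) (nat_lit 352)))) (XT.nd (nat_lit 78) (nat_lit 76) (nat_lit 0) (XT.lf (nat_lit 0) (nat_lit 19465784634) (nat_lit 152) (nat_lit 15669411791) (nat_lit 0) (nat_lit 18494698372) (nat_lit 9) (nat_lit 5) (nat_lit 11) (nat_lit 4) (nat_lit 9) (nat_lit 4) (nat_lit 490) (nat_lit 359) (nat_lit 351)) (XT.nd (nat_lit 78) (nat_lit 0) (nat_lit 0) (XT.lf (nat_lit 0) (nat_lit 10250086109) (nat_lit 76) (nat_lit 23364699443) (nat_lit 76) (nat_lit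 22296761835) (nat_lit 8) (nat_lit 4) (nat_lit 9) (nat_lit 5) (nat_lit 9) (nat_lit 4) (nat_lit 491) (nat_lit 359) (nat_lit 350)) (XT.lf (nat_lit 0) (nat_lit 37060306301) (nat_lit 76) (nat_lit 11206641830) (nat_lit 76) (nat_lit 10046464843) (nat_lit 8) (nat_lit 4) (nat_lit 9) (nat_lit 5) (nat_lit 9) (nat_lit 4) (nat_lit 492) (nat_lit 359) (nat_lit 349))))) (XT.nd (nat_lit 234) (nat_lit 228) (nat_lit 0) (XT.nd (nat_lit 78) (nat_lit 0) (nat_lit 0) (XT.lf (nat_lit 0) (nat_lit 2457698245) (nat_lit 152) (nat_lit 57139949317) (nat_lit 0) (nat_lit 1246024445) (nat_lit 6) (nat_lit 5) (nat_lit 8) (nat_lit 4) (nat_lit 6) (nat_lit 4) (nat_lit 493) (nat_lit 359) (nat_lit 348)) (XT.nd (nat_lit 78) (nat_lit 0) (nat_lit 0) (XT.lf (nat_lit 0) (nat_lit 15370518199) (nat_lit 152) (nat_lit 34049589080) (nat_lit 0) (nat_lit 14077617374) (nat_lit 6) (nat_lit 5) (nat_lit 8) (nat_lit 4) (nat_lit 6) (nat_lit 4) (nat_lit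 494) (nat_lit 359) (nat_lit 347)) (XT.lf (nat_lit 0) (nat_lit 28600630647) (nat_lit 152) (nat_lit 10463330429) (nat_lit 0) (nat_lit 27230370752) (nat_lit 6) (nat_lit 5) (nat_lit 8) (nat_lit 4) (nat_lit 6) (nat_lit 4) (nat_lit 495) (nat_lit 359) (nat_lit 346)))) (XT.nd (nat_lit 156) (nat_lit 152) (nat_lit 0) (XT.nd (nat_lit 78) (nat_lit 0) (nat_lit 0) (XT.lf (nat_lit 0) (nat_lit 13947143397) (nat_lit 76) (nat_lit 28366460934) (nat_lit 76) (nat_lit 26922525733) (nat_lit 5) (nat_lit 4) (nat_lit 6) (nat_lit 5) (nat_lit 6) (nat_lit 4) (nat_lit 496) (nat_lit 359) (nat_lit 345)) (XT.lf (nat_lit 0) (nat_lit 39187517176) (nat_lit 76) (nat_lit 17328741767) (nat_lit 76) (nat_lit 15814639608) (nat_lit 5) (nat_lit 4) (nat_lit 6) (nat_lit 5) (nat_lit 6) (nat_lit 4) (nat_lit 497) (nat_lit 359) (nat_lit 344))) (XT.nd (nat_lit 78) (nat_lit 152) (nat_lit 0) (XT.lf (nat_lit 0) (nat_lit 65109646243) (nat_lit 76) (nat_lit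 6030182413) (nat_lit 76) (nat_lit 4449254580) (nat_lit 5) (nat_lit 4) (nat_lit 6) (nat_lit 5) (nat_lit 6) (nat_lit 4) (nat_lit 498) (nat_lit 359) (nat_lit 343)) (XT.lf (nat_lit 0) (nat_lit 7239892239) (nat_lit 152) (nat_lit 66127860479) (nat_lit 0) (nat_lit 5643221044) (nat_lit 3) (nat_lit 5) (nat_lit 5) (nat_lit 4) (nat_lit 3) (nat_lit 4) (nat_lit 499) (nat_lit 359) (nat_lit 342)))))) (XT.nd (nat_lit 468) (nat_lit 456) (nat_lit 0) (XT.nd (nat_lit 234) (nat_lit 228) (nat_lit 0) (XT.nd (nat_lit 78) (nat_lit 76) (nat_lit 0) (XT.lf (nat_lit 0) (nat_lit 2653779789) (nat_lit 152) (nat_lit 12819029878) (nat_lit 0) (nat_lit 2653779789) (nat_lit 18) (nat_lit 5) (nat_lit 20) (nat_lit 4) (nat_lit 18) (nat_lit 4) (nat_lit 480) (nat_lit 360) (nat_lit 360)) (XT.nd (nat_lit 78) (nat_lit 0) (nat_lit 0) (XT.lf (nat_lit 0) (nat_lit 2733349324) (nat_lit 76) (nat_lit 17525414953) (nat_lit 76) (nat_lit 17361234658)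 (nat_lit 17) (nat_lit 4) (nat_lit 18) (nat_lit 5) (nat_lit 18) (nat_lit 4) (nat_lit 481) (nat_lit 360) (nat_lit 359)) (XT.lf (nat_lit 0) (nat_lit 32108434557) (nat_lit 76) (nat_lit 3636819522) (nat_lit 76) (nat_lit 3316277042) (nat_lit 17) (nat_lit 4) (nat_lit 18) (nat_lit 5) (nat_lit 18) (nat_lit 4) (nat_lit 482) (nat_lit 360) (nat_lit 358)))) (XT.nd (nat_lit 78) (nat_lit 76) (nat_lit 0) (XT.lf (nat_lit 0) (nat_lit 11063191394) (nat_lit 152) (nat_lit 18905589031) (nat_lit 0) (nat_lit 10607406105) (nat_lit 15) (nat_lit 5) (nat_lit 17) (nat_lit 4) (nat_lit 15) (nat_lit 4) (nat_lit 483) (nat_lit 360) (nat_lit 357)) (XT.nd (nat_lit 78) (nat_lit 0) (nat_lit 0) (XT.lf (nat_lit 0) (nat_lit 8911994993) (nat_lit 76) (nat_lit 16927344038) (nat_lit 76) (nat_lit 16333864465) (nat_lit 14) (nat_lit 4) (nat_lit 15) (nat_lit 5) (nat_lit 15) (nat_lit 4) (nat_lit 484) (nat_lit 360) (nat_lit 356)) (XT.lf (nat_lit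 0) (nat_lit 37643882092) (nat_lit 76) (nat_lit 3469025125) (nat_lit 76) (nat_lit 2744408140) (nat_lit 14) (nat_lit 4) (nat_lit 15) (nat_lit 5) (nat_lit 15) (nat_lit 4) (nat_lit 485) (nat_lit 360) (nat_lit 355))))) (XT.nd (nat_lit 234) (nat_lit 228) (nat_lit 0) (XT.nd (nat_lit 78) (nat_lit 76) (nat_lit 0) (XT.lf (nat_lit 0) (nat_lit 11190112820) (nat_lit 152) (nat_lit 24070138460) (nat_lit 0) (nat_lit 10365346064) (nat_lit 12) (nat_lit 5) (nat_lit 14) (nat_lit 4) (nat_lit 12) (nat_lit 4) (nat_lit 486) (nat_lit 360) (nat_lit 354)) (XT.nd (nat_lit 78) (nat_lit 0) (nat_lit 0) (XT.lf (nat_lit 0) (nat_lit 2525439593) (nat_lit 76) (nat_lit 22952445069) (nat_lit 76) (nat_lit 22012197245) (nat_lit 11) (nat_lit 4) (nat_lit 12) (nat_lit 5) (nat_lit 12) (nat_lit 4) (nat_lit 487) (nat_lit 360) (nat_lit 353)) (XT.lf (nat_lit 0) (nat_lit 30154618422) (nat_lit 76) (nat_lit 10173973851) (nat_lit 76) (nat_lit 9123744059)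 (nat_lit 11) (nat_lit 4) (nat_lit 12) (nat_lit 5) (nat_lit 12) (nat_lit 4) (nat_lit 488) (nat_lit 360) (nat_lit 352)))) (XT.nd (nat_lit 156) (nat_lit 76) (nat_lit 0) (XT.nd (nat_lit 78) (nat_lit 0) (nat_lit 0) (XT.lf (nat_lit 0) (nat_lit 4034740146) (nat_lit 152) (nat_lit 44571938676) (nat_lit 0) (nat_lit 2913405657) (nat_lit 9) (nat_lit 5) (nat_lit 11) (nat_lit 4) (nat_lit 9) (nat_lit 4) (nat_lit 489) (nat_lit 360) (nat_lit 351)) (XT.lf (nat_lit 0) (nat_lit 17591042401) (nat_lit 152) (nat_lit 19726755244) (nat_lit 0) (nat_lit 16372856565) (nat_lit 9) (nat_lit 5) (nat_lit 11) (nat_lit 4) (nat_lit 9) (nat_lit 4) (nat_lit 490) (nat_lit 360) (nat_lit 350))) (XT.nd (nat_lit 78) (nat_lit 0) (nat_lit 0) (XT.lf (nat_lit 0) (nat_lit 5754580285) (nat_lit 76) (nat_lit 25767348008) (nat_lit 76) (nat_lit 24456922794) (nat_lit 8) (nat_lit 4) (nat_lit 9) (nat_lit 5) (nat_lit 9) (nat_lit 4) (nat_lit 491) (nat_lit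 360) (nat_lit 349)) (XT.lf (nat_lit 0) (nat_lit 32224406878) (nat_lit 76) (nat_lit 13779839092) (nat_lit 76) (nat_lit 12381566851) (nat_lit 8) (nat_lit 4) (nat_lit 9) (nat_lit 5) (nat_lit 9) (nat_lit 4) (nat_lit 492) (nat_lit 360) (nat_lit 348))))))))
noncomputable def xc2 : XT := (XT.nd (nat_lit 62712) (nat_lit 0) (nat_lit 152) (XT.nd (nat_lit 61698) (nat_lit 0) (nat_lit 228) (XT.nd (nat_lit 468) (nat_lit 152) (nat_lit 0) (XT.nd (nat_lit 234) (nat_lit 76) (nat_lit 0) (XT.nd (nat_lit 78) (nat_lit 152) (nat_lit 0) (XT.lf (nat_lit 0) (nat_lit 59353146819) (nat_lit 76) (nat_lit 1525930757) (nat_lit 76) (nat_lit 43994680) (nat_lit 8) (nat_lit 4) (nat_lit 9) (nat_lit 5) (nat_lit 9) (nat_lit 4) (nat_lit 493) (nat_lit 360) (nat_lit 347)) (XT.nd (nat_lit 78) (nat_lit 0) (nat_lit 0) (XT.lf (nat_lit 0) (nat_lit 12679301770) (nat_lit 152) (nat_lit 39740378173) (nat_lit 0) (nat_lit 11163169809) (nat_lit 6)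 (nat_lit 5) (nat_lit 8) (nat_lit 4) (nat_lit 6) (nat_lit 4) (nat_lit 494) (nat_lit 360) (nat_lit 346)) (XT.lf (nat_lit 0) (nat_lit 25756871359) (nat_lit 152) (nat_lit 16460098429) (nat_lit 0) (nat_lit 24167064093) (nat_lit 6) (nat_lit 5) (nat_lit 8) (nat_lit 4) (nat_lit 6) (nat_lit 4) (nat_lit 495) (nat_lit 360) (nat_lit 345)))) (XT.nd (nat_lit 78) (nat_lit 0) (nat_lit 0) (XT.lf (nat_lit 0) (nat_lit 7533819872) (nat_lit 76) (nat_lit 31729097469) (nat_lit 76) (nat_lit 30069123245) (nat_lit 5) (nat_lit 4) (nat_lit 6) (nat_lit 5) (nat_lit 6) (nat_lit 4) (nat_lit 496) (nat_lit 360) (nat_lit 344)) (XT.nd (nat_lit 78) (nat_lit 0) (nat_lit 0) (XT.lf (nat_lit 0) (nat_lit 32491138333) (nat_lit 76) (nat_lit 20833351849) (nat_lit 76) (nat_lit 19106551951) (nat_lit 5) (nat_lit 4) (nat_lit 6) (nat_lit 5) (nat_lit 6) (nat_lit 4) (nat_lit 497) (nat_lit 360) (nat_lit 343)) (XT.lf (nat_lit 0) (nat_lit 58143690908)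 (nat_lit 76) (nat_lit 9670005397) (nat_lit 76) (nat_lit 7879562000) (nat_lit 5) (nat_lit 4) (nat_lit 6) (nat_lit 5) (nat_lit 6) (nat_lit 4) (nat_lit 498) (nat_lit 360) (nat_lit 342))))) (XT.nd (nat_lit 60996) (nat_lit 0) (nat_lit 1064) (XT.nd (nat_lit 60840) (nat_lit 0) (nat_lit 1292) (XT.lf (nat_lit 0) (nat_lit 3638482282) (nat_lit 152) (nat_lit 73643457226) (nat_lit 0) (nat_lit 1841340289) (nat_lit 3) (nat_lit 5) (nat_lit 5) (nat_lit 4) (nat_lit 3) (nat_lit 4) (nat_lit 499) (nat_lit 360) (nat_lit 341)) (XT.nd (nat_lit 78) (nat_lit 76) (nat_lit 0) (XT.lf (nat_lit 0) (nat_lit 5323154866) (nat_lit 152) (nat_lit 6210673194) (nat_lit 0) (nat_lit 5323154866) (nat_lit 21) (nat_lit 5) (nat_lit 23) (nat_lit 4) (nat_lit 21) (nat_lit 4) (nat_lit 478) (nat_lit 361) (nat_lit 361)) (XT.lf (nat_lit 0) (nat_lit 16561004542) (nat_lit 76) (nat_lit 9285249292) (nat_lit 76) (nat_lit 9107688303) (nat_lit 20) (nat_lit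 4) (nat_lit 21) (nat_lit 5) (nat_lit 21) (nat_lit 4) (nat_lit 479) (nat_lit 361) (nat_lit 360)))) (XT.nd (nat_lit 78) (nat_lit 76) (nat_lit 0) (XT.lf (nat_lit 0) (nat_lit 5240724028) (nat_lit 152) (nat_lit 26115478700) (nat_lit 0) (nat_lit 4904154423) (nat_lit 18) (nat_lit 5) (nat_lit 20) (nat_lit 4) (nat_lit 18) (nat_lit 4) (nat_lit 480) (nat_lit 361) (nat_lit 359)) (XT.nd (nat_lit 78) (nat_lit 0) (nat_lit 0) (XT.lf (nat_lit 0) (nat_lit 1782694979) (nat_lit 76) (nat_lit 18172262273) (nat_lit 76) (nat_lit 17679330483) (nat_lit 17) (nat_lit 4) (nat_lit 18) (nat_lit 5) (nat_lit 18) (nat_lit 4) (nat_lit 481) (nat_lit 361) (nat_lit 358)) (XT.lf (nat_lit 0) (nat_lit 30716128949) (nat_lit 76) (nat_lit 4504088683) (nat_lit 76) (nat_lit 3862240525) (nat_lit 17) (nat_lit 4) (nat_lit 18) (nat_lit 5) (nat_lit 18) (nat_lit 4) (nat_lit 482) (nat_lit 361) (nat_lit 357)))))) (XT.nd (nat_lit 468) (nat_lit 380)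 (nat_lit 0) (XT.nd (nat_lit 234) (nat_lit 228) (nat_lit 0) (XT.nd (nat_lit 78) (nat_lit 76) (nat_lit 0) (XT.lf (nat_lit 0) (nat_lit 10286525378) (nat_lit 152) (nat_lit 20792310027) (nat_lit 0) (nat_lit 9525677543) (nat_lit 15) (nat_lit 5) (nat_lit 17) (nat_lit 4) (nat_lit 15) (nat_lit 4) (nat_lit 483) (nat_lit 361) (nat_lit 356)) (XT.nd (nat_lit 78) (nat_lit 0) (nat_lit 0) (XT.lf (nat_lit 0) (nat_lit 6562530728) (nat_lit 76) (nat_lit 18268960538) (nat_lit 76) (nat_lit 17376975291) (nat_lit 14) (nat_lit 4) (nat_lit 15) (nat_lit 5) (nat_lit 15) (nat_lit 4) (nat_lit 484) (nat_lit 361) (nat_lit 355)) (XT.lf (nat_lit 0) (nat_lit 34889471330) (nat_lit 76) (nat_lit 5013031471) (nat_lit 76) (nat_lit 3996153450) (nat_lit 14) (nat_lit 4) (nat_lit 15) (nat_lit 5) (nat_lit 15) (nat_lit 4) (nat_lit 485) (nat_lit 361) (nat_lit 354)))) (XT.nd (nat_lit 78) (nat_lit 76) (nat_lit 0) (XT.lf (nat_lit 0) (nat_lit 9719720148)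 (nat_lit 152) (nat_lit 27337893451) (nat_lit 0) (nat_lit 8616978867) (nat_lit 12) (nat_lit 5) (nat_lit 14) (nat_lit 4) (nat_lit 12) (nat_lit 4) (nat_lit 486) (nat_lit 361) (nat_lit 353)) (XT.nd (nat_lit 78) (nat_lit 76) (nat_lit 0) (XT.lf (nat_lit 0) (nat_lit 23792215179) (nat_lit 152) (nat_lit 1173829225) (nat_lit 0) (nat_lit 22579491929) (nat_lit 12) (nat_lit 5) (nat_lit 14) (nat_lit 4) (nat_lit 12) (nat_lit 4) (nat_lit 487) (nat_lit 361) (nat_lit 352)) (XT.lf (nat_lit 0) (nat_lit 26060711339) (nat_lit 76) (nat_lit 12385228914) (nat_lit 76) (nat_lit 11067760932) (nat_lit 11) (nat_lit 4) (nat_lit 12) (nat_lit 5) (nat_lit 12) (nat_lit 4) (nat_lit 488) (nat_lit 361) (nat_lit 351))))) (XT.nd (nat_lit 234) (nat_lit 152) (nat_lit 0) (XT.nd (nat_lit 78) (nat_lit 76) (nat_lit 0) (XT.lf (nat_lit 0) (nat_lit 1882614255) (nat_lit 152) (nat_lit 49200110104) (nat_lit 0) (nat_lit 506667780) (nat_lit 9) (nat_lit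 5) (nat_lit 11) (nat_lit 4) (nat_lit 9) (nat_lit 4) (nat_lit 489) (nat_lit 361) (nat_lit 350)) (XT.nd (nat_lit 78) (nat_lit 76) (nat_lit 0) (XT.lf (nat_lit 0) (nat_lit 15264015036) (nat_lit 152) (nat_lit 24705365532) (nat_lit 0) (nat_lit 13795829183) (nat_lit 9) (nat_lit 5) (nat_lit 11) (nat_lit 4) (nat_lit 9) (nat_lit 4) (nat_lit 490) (nat_lit 361) (nat_lit 349)) (XT.lf (nat_lit 0) (nat_lit 336492292) (nat_lit 76) (nat_lit 28639753830) (nat_lit 76) (nat_lit 27083720949) (nat_lit 8) (nat_lit 4) (nat_lit 9) (nat_lit 5) (nat_lit 9) (nat_lit 4) (nat_lit 491) (nat_lit 361) (nat_lit 348)))) (XT.nd (nat_lit 156) (nat_lit 152) (nat_lit 0) (XT.nd (nat_lit 78) (nat_lit 0) (nat_lit 0) (XT.lf (nat_lit 0) (nat_lit 26482134503) (nat_lit 76) (nat_lit 16814672243) (nat_lit 76) (nat_lit 15174975528) (nat_lit 8) (nat_lit 4) (nat_lit 9) (nat_lit 5) (nat_lit 9) (nat_lit 4) (nat_lit 492) (nat_lit 361) (nat_lit 347))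 (XT.lf (nat_lit 0) (nat_lit 53302127416) (nat_lit 76) (nat_lit 4715456603) (nat_lit 76) (nat_lit 2996080045) (nat_lit 8) (nat_lit 4) (nat_lit 9) (nat_lit 5) (nat_lit 9) (nat_lit 4) (nat_lit 493) (nat_lit 361) (nat_lit 346))) (XT.nd (nat_lit 78) (nat_lit 0) (nat_lit 0) (XT.lf (nat_lit 0) (nat_lit 9540811659) (nat_lit 152) (nat_lit 46342963481) (nat_lit 0) (nat_lit 7797838724) (nat_lit 6) (nat_lit 5) (nat_lit 8) (nat_lit 4) (nat_lit 6) (nat_lit 4) (nat_lit 494) (nat_lit 361) (nat_lit 345)) (XT.lf (nat_lit 0) (nat_lit 22473102335) (nat_lit 152) (nat_lit 23354092220) (nat_lit 0) (nat_lit 20659962443) (nat_lit 6) (nat_lit 5) (nat_lit 8) (nat_lit 4) (nat_lit 6) (nat_lit 4) (nat_lit 495) (nat_lit 361) (nat_lit 344))))))) (XT.nd (nat_lit 61620) (nat_lit 0) (nat_lit 0) (XT.nd (nat_lit 61074) (nat_lit 0) (nat_lit 684) (XT.nd (nat_lit 234) (nat_lit 0) (nat_lit 0) (XT.nd (nat_lit 78) (nat_lit 0) (nat_lit 0)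 (XT.lf (nat_lit 0) (nat_lit 219566770) (nat_lit 76) (nat_lit 35550911603) (nat_lit 76) (nat_lit 33670946036) (nat_lit 5) (nat_lit 4) (nat_lit 6) (nat_lit 5) (nat_lit 6) (nat_lit 4) (nat_lit 496) (nat_lit 361) (nat_lit 343)) (XT.nd (nat_lit 78) (nat_lit 0) (nat_lit 0) (XT.lf (nat_lit 0) (nat_lit 24907308738) (nat_lit 76) (nat_lit 24790378884) (nat_lit 76) (nat_lit 22846769818) (nat_lit 5) (nat_lit 4) (nat_lit 6) (nat_lit 5) (nat_lit 6) (nat_lit 4) (nat_lit 497) (nat_lit 361) (nat_lit 342)) (XT.lf (nat_lit 0) (nat_lit 50303121795) (nat_lit 76) (nat_lit 13755806624) (nat_lit 76) (nat_lit 11751584702) (nat_lit 5) (nat_lit 4) (nat_lit 6) (nat_lit 5) (nat_lit 6) (nat_lit 4) (nat_lit 498) (nat_lit 361) (nat_lit 341)))) (XT.nd (nat_lit 60684) (nat_lit 0) (nat_lit 1368) (XT.lf (nat_lit 0) (nat_lit 76467472163) (nat_lit 76) (nat_lit 2420922031) (nat_lit 76) (nat_lit 358973579) (nat_lit 5) (nat_lit 4) (nat_lit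 6) (nat_lit 5) (nat_lit 6) (nat_lit 4) (nat_lit 499) (nat_lit 361) (nat_lit 340)) (XT.nd (nat_lit 78) (nat_lit 76) (nat_lit 0) (XT.lf (nat_lit 0) (nat_lit 6681476149) (nat_lit 152) (nat_lit 2342606664) (nat_lit 0) (nat_lit 6681476149) (nat_lit 24) (nat_lit 5) (nat_lit 26) (nat_lit 4) (nat_lit 24) (nat_lit 4) (nat_lit 476) (nat_lit 362) (nat_lit 362)) (XT.lf (nat_lit 0) (nat_lit 24521575819) (nat_lit 76) (nat_lit 4104068372) (nat_lit 76) (nat_lit 3912036162) (nat_lit 23) (nat_lit 4) (nat_lit 24) (nat_lit 5) (nat_lit 24) (nat_lit 4) (nat_lit 477) (nat_lit 362) (nat_lit 361))))) (XT.nd (nat_lit 234) (nat_lit 304) (nat_lit 0) (XT.nd (nat_lit 78) (nat_lit 228) (nat_lit 0) (XT.lf (nat_lit 0) (nat_lit 10595734688) (nat_lit 152) (nat_lit 12893608540) (nat_lit 0) (nat_lit 10231734660) (nat_lit 21) (nat_lit 5) (nat_lit 23) (nat_lit 4) (nat_lit 21) (nat_lit 4) (nat_lit 478) (nat_lit 362) (nat_lit 360)) (XT.nd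 (nat_lit 78) (nat_lit 152) (nat_lit 0) (XT.lf (nat_lit 0) (nat_lit 15620618596) (nat_lit 76) (nat_lit 9940292930) (nat_lit 76) (nat_lit 9407187199) (nat_lit 20) (nat_lit 4) (nat_lit 21) (nat_lit 5) (nat_lit 21) (nat_lit 4) (nat_lit 479) (nat_lit 362) (nat_lit 359)) (XT.lf (nat_lit 0) (nat_lit 4703488636) (nat_lit 152) (nat_lit 27548872247) (nat_lit 0) (nat_lit 4029548070) (nat_lit 18) (nat_lit 5) (nat_lit 20) (nat_lit 4) (nat_lit 18) (nat_lit 4) (nat_lit 480) (nat_lit 362) (nat_lit 358)))) (XT.nd (nat_lit 156) (nat_lit 228) (nat_lit 0) (XT.nd (nat_lit 78) (nat_lit 76) (nat_lit 0) (XT.lf (nat_lit 0) (nat_lit 19183601505) (nat_lit 152) (nat_lit 118518422) (nat_lit 0) (nat_lit 18360744572) (nat_lit 18) (nat_lit 5) (nat_lit 20) (nat_lit 4) (nat_lit 18) (nat_lit 4) (nat_lit 481) (nat_lit 362) (nat_lit 357)) (XT.lf (nat_lit 0) (nat_lit 28391936546) (nat_lit 76) (nat_lit 5845068704) (nat_lit 76) (nat_lit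 4880386659) (nat_lit 17) (nat_lit 4) (nat_lit 18) (nat_lit 5) (nat_lit 18) (nat_lit 4) (nat_lit 482) (nat_lit 362) (nat_lit 356))) (XT.nd (nat_lit 78) (nat_lit 76) (nat_lit 0) (XT.lf (nat_lit 0) (nat_lit 9043401677) (nat_lit 152) (nat_lit 23628005428) (nat_lit 0) (nat_lit 7975679755) (nat_lit 15) (nat_lit 5) (nat_lit 17) (nat_lit 4) (nat_lit 15) (nat_lit 4) (nat_lit 483) (nat_lit 362) (nat_lit 355)) (XT.lf (nat_lit 0) (nat_lit 3265452932) (nat_lit 76) (nat_lit 20092557047) (nat_lit 76) (nat_lit 18899942352) (nat_lit 14) (nat_lit 4) (nat_lit 15) (nat_lit 5) (nat_lit 15) (nat_lit 4) (nat_lit 484) (nat_lit 362) (nat_lit 354)))))) (XT.nd (nat_lit 468) (nat_lit 304) (nat_lit 0) (XT.nd (nat_lit 234) (nat_lit 228) (nat_lit 0) (XT.nd (nat_lit 78) (nat_lit 152) (nat_lit 0) (XT.lf (nat_lit 0) (nat_lit 31206730205) (nat_lit 76) (nat_lit 7029380214) (nat_lit 76) (nat_lit 5717820020) (nat_lit 14) (nat_lit 4)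 (nat_lit 15) (nat_lit 5) (nat_lit 15) (nat_lit 4) (nat_lit 485) (nat_lit 362) (nat_lit 353)) (XT.nd (nat_lit 78) (nat_lit 0) (nat_lit 0) (XT.lf (nat_lit 0) (nat_lit 7784256324) (nat_lit 152) (nat_lit 31552614672) (nat_lit 0) (nat_lit 6400914943) (nat_lit 12) (nat_lit 5) (nat_lit 14) (nat_lit 4) (nat_lit 12) (nat_lit 4) (nat_lit 486) (nat_lit 362) (nat_lit 352)) (XT.lf (nat_lit 0) (nat_lit 21674845888) (nat_lit 152) (nat_lit 5752582259) (nat_lit 0) (nat_lit 20186759775) (nat_lit 12) (nat_lit 5) (nat_lit 14) (nat_lit 4) (nat_lit 12) (nat_lit 4) (nat_lit 487) (nat_lit 362) (nat_lit 351)))) (XT.nd (nat_lit 78) (nat_lit 152) (nat_lit 0) (XT.lf (nat_lit 0) (nat_lit 21037235226) (nat_lit 76) (nat_lit 15069803707) (nat_lit 76) (nat_lit 13481960706) (nat_lit 11) (nat_lit 4) (nat_lit 12) (nat_lit 5) (nat_lit 12) (nat_lit 4) (nat_lit 488) (nat_lit 362) (nat_lit 350)) (XT.nd (nat_lit 78) (nat_lit 152) (nat_lit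 0) (XT.lf (nat_lit 0) (nat_lit 48596399755) (nat_lit 76) (nat_lit 2378786588) (nat_lit 76) (nat_lit 695937028) (nat_lit 11) (nat_lit 4) (nat_lit 12) (nat_lit 5) (nat_lit 12) (nat_lit 4) (nat_lit 489) (nat_lit 362) (nat_lit 349)) (XT.lf (nat_lit 0) (nat_lit 12479161999) (nat_lit 152) (nat_lit 30617096487) (nat_lit 0) (nat_lit 10757480448) (nat_lit 9) (nat_lit 5) (nat_lit 11) (nat_lit 4) (nat_lit 9) (nat_lit 4) (nat_lit 490) (nat_lit 362) (nat_lit 348))))) (XT.nd (nat_lit 234) (nat_lit 228) (nat_lit 0) (XT.nd (nat_lit 78) (nat_lit 76) (nat_lit 0) (XT.lf (nat_lit 0) (nat_lit 26029517723) (nat_lit 152) (nat_lit 5899663215) (nat_lit 0) (nat_lit 24224172336) (nat_lit 9) (nat_lit 5) (nat_lit 11) (nat_lit 4) (nat_lit 9) (nat_lit 4) (nat_lit 491) (nat_lit 362) (nat_lit 347)) (XT.nd (nat_lit 78) (nat_lit 0) (nat_lit 0) (XT.lf (nat_lit 0) (nat_lit 19819817100) (nat_lit 76) (nat_lit 20318367078) (nat_lit 76)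 (nat_lit 18433341849) (nat_lit 8) (nat_lit 4) (nat_lit 9) (nat_lit 5) (nat_lit 9) (nat_lit 4) (nat_lit 492) (nat_lit 362) (nat_lit 346)) (XT.lf (nat_lit 0) (nat_lit 46345765223) (nat_lit 76) (nat_lit 8366477815) (nat_lit 76) (nat_lit 6405567020) (nat_lit 8) (nat_lit 4) (nat_lit 9) (nat_lit 5) (nat_lit 9) (nat_lit 4) (nat_lit 493) (nat_lit 362) (nat_lit 345)))) (XT.nd (nat_lit 156) (nat_lit 76) (nat_lit 0) (XT.nd (nat_lit 78) (nat_lit 0) (nat_lit 0) (XT.lf (nat_lit 0) (nat_lit 5947575271) (nat_lit 152) (nat_lit 53873065444) (nat_lit 0) (nat_lit 3973611426) (nat_lit 6) (nat_lit 5) (nat_lit 8) (nat_lit 4) (nat_lit 6) (nat_lit 4) (nat_lit 494) (nat_lit 362) (nat_lit 344)) (XT.lf (nat_lit 0) (nat_lit 18741505077) (nat_lit 152) (nat_lit 31161726072) (nat_lit 0) (nat_lit 16700715558) (nat_lit 6) (nat_lit 5) (nat_lit 8) (nat_lit 4) (nat_lit 6) (nat_lit 4) (nat_lit 495) (nat_lit 362) (nat_lit 343))) (XT.nd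 (nat_lit 78) (nat_lit 76) (nat_lit 0) (XT.lf (nat_lit 0) (nat_lit 31904998248) (nat_lit 152) (nat_lit 7856667705) (nat_lit 0) (nat_lit 29800565229) (nat_lit 6) (nat_lit 5) (nat_lit 8) (nat_lit 4) (nat_lit 6) (nat_lit 4) (nat_lit 496) (nat_lit 362) (nat_lit 342)) (XT.lf (nat_lit 0) (nat_lit 16417971653) (nat_lit 76) (nat_lit 29209244365) (nat_lit 76) (nat_lit 27044198491) (nat_lit 5) (nat_lit 4) (nat_lit 6) (nat_lit 5) (nat_lit 6) (nat_lit 4) (nat_lit 497) (nat_lit 362) (nat_lit 341))))))))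
noncomputable def xc3 : XT := (XT.nd (nat_lit 62400) (nat_lit 0) (nat_lit 0) (XT.nd (nat_lit 61386) (nat_lit 0) (nat_lit 76) (XT.nd (nat_lit 60918) (nat_lit 0) (nat_lit 760) (XT.nd (nat_lit 60684) (nat_lit 0) (nat_lit 1368) (XT.nd (nat_lit 78) (nat_lit 0) (nat_lit 0) (XT.lf (nat_lit 0) (nat_lit 41569270885) (nat_lit 76) (nat_lit 18297314193) (nat_lit 76) (nat_lit 16074541789) (nat_lit 5) (nat_lit 4) (nat_lit 6) (nat_lit 5) (nat_lit 6) (nat_lit 4) (nat_lit 498) (nat_lit 362) (nat_lit 340)) (XT.nd (nat_lit 60528) (nat_lit 0) (nat_lit 1672) (XT.lf (nat_lit 0) (nat_lit 67500750942) (nat_lit 76) (nat_lit 7079231588) (nat_lit 76) (nat_lit 4801481536) (nat_lit 5) (nat_lit 4) (nat_lit 6) (nat_lit 5) (nat_lit 6) (nat_lit 4) (nat_lit 499) (nat_lit 362) (nat_lit 339)) (XT.lf (nat_lit 0) (nat_lit 6988895439) (nat_lit 152) (nat_lit 681588125) (nat_lit 0) (nat_lit 6988895439) (nat_lit 27) (nat_lit 5) (nat_lit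 29) (nat_lit 4) (nat_lit 27) (nat_lit 4) (nat_lit 474) (nat_lit 363) (nat_lit 363)))) (XT.nd (nat_lit 78) (nat_lit 228) (nat_lit 0) (XT.lf (nat_lit 0) (nat_lit 27757031292) (nat_lit 76) (nat_lit 1397181268) (nat_lit 76) (nat_lit 1189498433) (nat_lit 26) (nat_lit 4) (nat_lit 27) (nat_lit 5) (nat_lit 27) (nat_lit 4) (nat_lit 475) (nat_lit 363) (nat_lit 362)) (XT.nd (nat_lit 78) (nat_lit 76) (nat_lit 0) (XT.lf (nat_lit 0) (nat_lit 13329739962) (nat_lit 152) (nat_lit 5152351160) (nat_lit 0) (nat_lit 12936073933) (nat_lit 24) (nat_lit 5) (nat_lit 26) (nat_lit 4) (nat_lit 24) (nat_lit 4) (nat_lit 476) (nat_lit 363) (nat_lit 361)) (XT.lf (nat_lit 0) (nat_lit 23591393610) (nat_lit 76) (nat_lit 4768433758) (nat_lit 76) (nat_lit 4191879910) (nat_lit 23) (nat_lit 4) (nat_lit 24) (nat_lit 5) (nat_lit 24) (nat_lit 4) (nat_lit 477) (nat_lit 363) (nat_lit 360))))) (XT.nd (nat_lit 234) (nat_lit 228) (nat_lit 0)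 (XT.nd (nat_lit 78) (nat_lit 228) (nat_lit 0) (XT.lf (nat_lit 0) (nat_lit 10079889110) (nat_lit 152) (nat_lit 14311519428) (nat_lit 0) (nat_lit 9351022388) (nat_lit 21) (nat_lit 5) (nat_lit 23) (nat_lit 4) (nat_lit 21) (nat_lit 4) (nat_lit 478) (nat_lit 363) (nat_lit 359)) (XT.nd (nat_lit 78) (nat_lit 152) (nat_lit 0) (XT.lf (nat_lit 0) (nat_lit 13737607689) (nat_lit 76) (nat_lit 11074378847) (nat_lit 76) (nat_lit 10184459074) (nat_lit 20) (nat_lit 4) (nat_lit 21) (nat_lit 5) (nat_lit 21) (nat_lit 4) (nat_lit 479) (nat_lit 363) (nat_lit 358)) (XT.lf (nat_lit 0) (nat_lit 3694574272) (nat_lit 152) (nat_lit 29941653236) (nat_lit 0) (nat_lit 2681658125) (nat_lit 18) (nat_lit 5) (nat_lit 20) (nat_lit 4) (nat_lit 18) (nat_lit 4) (nat_lit 480) (nat_lit 363) (nat_lit 357)))) (XT.nd (nat_lit 78) (nat_lit 228) (nat_lit 0) (XT.lf (nat_lit 0) (nat_lit 17968035712) (nat_lit 152) (nat_lit 2923711847) (nat_lit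 0) (nat_lit 16813294453) (nat_lit 18) (nat_lit 5) (nat_lit 20) (nat_lit 4) (nat_lit 18) (nat_lit 4) (nat_lit 481) (nat_lit 363) (nat_lit 356)) (XT.nd (nat_lit 78) (nat_lit 152) (nat_lit 0) (XT.lf (nat_lit 0) (nat_lit 25130323557) (nat_lit 76) (nat_lit 7662952394) (nat_lit 76) (nat_lit 6373139600) (nat_lit 17) (nat_lit 4) (nat_lit 18) (nat_lit 5) (nat_lit 18) (nat_lit 4) (nat_lit 482) (nat_lit 363) (nat_lit 355)) (XT.lf (nat_lit 0) (nat_lit 7330860474) (nat_lit 152) (nat_lit 27419426888) (nat_lit 0) (nat_lit 5953722270) (nat_lit 15) (nat_lit 5) (nat_lit 17) (nat_lit 4) (nat_lit 15) (nat_lit 4) (nat_lit 483) (nat_lit 363) (nat_lit 354)))))) (XT.nd (nat_lit 468) (nat_lit 380) (nat_lit 0) (XT.nd (nat_lit 234) (nat_lit 76) (nat_lit 0) (XT.nd (nat_lit 78) (nat_lit 228) (nat_lit 0) (XT.lf (nat_lit 0) (nat_lit 21424875383) (nat_lit 152) (nat_lit 967826924) (nat_lit 0) (nat_lit 19928791679) (nat_lit 15)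 (nat_lit 5) (nat_lit 17) (nat_lit 4) (nat_lit 15) (nat_lit 4) (nat_lit 484) (nat_lit 363) (nat_lit 353)) (XT.nd (nat_lit 78) (nat_lit 152) (nat_lit 0) (XT.lf (nat_lit 0) (nat_lit 26586890285) (nat_lit 76) (nat_lit 9522872185) (nat_lit 76) (nat_lit 7913507054) (nat_lit 14) (nat_lit 4) (nat_lit 15) (nat_lit 5) (nat_lit 15) (nat_lit 4) (nat_lit 485) (nat_lit 363) (nat_lit 352)) (XT.lf (nat_lit 0) (nat_lit 5379113100) (nat_lit 152) (nat_lit 36724337172) (nat_lit 0) (nat_lit 3711877949) (nat_lit 12) (nat_lit 5) (nat_lit 14) (nat_lit 4) (nat_lit 12) (nat_lit 4) (nat_lit 486) (nat_lit 363) (nat_lit 351)))) (XT.nd (nat_lit 78) (nat_lit 76) (nat_lit 0) (XT.lf (nat_lit 0) (nat_lit 19096459361) (nat_lit 152) (nat_lit 11271001725) (nat_lit 0) (nat_lit 17329467323) (nat_lit 12) (nat_lit 5) (nat_lit 14) (nat_lit 4) (nat_lit 12) (nat_lit 4) (nat_lit 487) (nat_lit 363) (nat_lit 350)) (XT.nd (nat_lit 78) (nat_lit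 0) (nat_lit 0) (XT.lf (nat_lit 0) (nat_lit 15072229426) (nat_lit 76) (nat_lit 18234090074) (nat_lit 76) (nat_lit 16372091477) (nat_lit 11) (nat_lit 4) (nat_lit 12) (nat_lit 5) (nat_lit 12) (nat_lit 4) (nat_lit 488) (nat_lit 363) (nat_lit 349)) (XT.lf (nat_lit 0) (nat_lit 42310671129) (nat_lit 76) (nat_lit 5703576015) (nat_lit 76) (nat_lit 3751094979) (nat_lit 11) (nat_lit 4) (nat_lit 12) (nat_lit 5) (nat_lit 12) (nat_lit 4) (nat_lit 489) (nat_lit 363) (nat_lit 348))))) (XT.nd (nat_lit 234) (nat_lit 152) (nat_lit 0) (XT.nd (nat_lit 78) (nat_lit 76) (nat_lit 0) (XT.lf (nat_lit 0) (nat_lit 9229852686) (nat_lit 152) (nat_lit 37476023661) (nat_lit 0) (nat_lit 7250576195) (nat_lit 9) (nat_lit 5) (nat_lit 11) (nat_lit 4) (nat_lit 9) (nat_lit 4) (nat_lit 490) (nat_lit 363) (nat_lit 347)) (XT.nd (nat_lit 78) (nat_lit 76) (nat_lit 0) (XT.lf (nat_lit 0) (nat_lit 22629121941) (nat_lit 152) (nat_lit 13061312652)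 (nat_lit 0) (nat_lit 20570165607) (nat_lit 9) (nat_lit 5) (nat_lit 11) (nat_lit 4) (nat_lit 9) (nat_lit 4) (nat_lit 491) (nat_lit 363) (nat_lit 346)) (XT.lf (nat_lit 0) (nat_lit 12221592008) (nat_lit 76) (nat_lit 24299265726) (nat_lit 76) (nat_lit 22164423828) (nat_lit 8) (nat_lit 4) (nat_lit 9) (nat_lit 5) (nat_lit 9) (nat_lit 4) (nat_lit 492) (nat_lit 363) (nat_lit 345)))) (XT.nd (nat_lit 156) (nat_lit 0) (nat_lit 0) (XT.nd (nat_lit 78) (nat_lit 152) (nat_lit 0) (XT.lf (nat_lit 0) (nat_lit 38467497473) (nat_lit 76) (nat_lit 12487687298) (nat_lit 76) (nat_lit 10280573433) (nat_lit 8) (nat_lit 4) (nat_lit 9) (nat_lit 5) (nat_lit 9) (nat_lit 4) (nat_lit 493) (nat_lit 363) (nat_lit 344)) (XT.lf (nat_lit 0) (nat_lit 1569202481) (nat_lit 76) (nat_lit 324958499) (nat_lit 152) (nat_lit 62026778078) (nat_lit 6) (nat_lit 5) (nat_lit 7) (nat_lit 5) (nat_lit 8) (nat_lit 4) (nat_lit 494) (nat_lit 363) (nat_lit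 343))) (XT.nd (nat_lit 78) (nat_lit 0) (nat_lit 0) (XT.lf (nat_lit 0) (nat_lit 14553194830) (nat_lit 152) (nat_lit 39901589590) (nat_lit 0) (nat_lit 12279896662) (nat_lit 6) (nat_lit 5) (nat_lit 8) (nat_lit 4) (nat_lit 6) (nat_lit 4) (nat_lit 495) (nat_lit 363) (nat_lit 342)) (XT.lf (nat_lit 0) (nat_lit 27591190612) (nat_lit 152) (nat_lit 16848260827) (nat_lit 0) (nat_lit 25257279588) (nat_lit 6) (nat_lit 5) (nat_lit 8) (nat_lit 4) (nat_lit 6) (nat_lit 4) (nat_lit 496) (nat_lit 363) (nat_lit 341))))))) (XT.nd (nat_lit 61308) (nat_lit 0) (nat_lit 228) (XT.nd (nat_lit 60762) (nat_lit 0) (nat_lit 988) (XT.nd (nat_lit 60528) (nat_lit 0) (nat_lit 1672) (XT.nd (nat_lit 78) (nat_lit 0) (nat_lit 0) (XT.lf (nat_lit 0) (nat_lit 7002914372) (nat_lit 76) (nat_lit 34100469400) (nat_lit 76) (nat_lit 31708831846) (nat_lit 5) (nat_lit 4) (nat_lit 6) (nat_lit 5) (nat_lit 6) (nat_lit 4) (nat_lit 497) (nat_lit 363)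 (nat_lit 340)) (XT.nd (nat_lit 78) (nat_lit 0) (nat_lit 0) (XT.lf (nat_lit 0) (nat_lit 31921343293) (nat_lit 76) (nat_lit 23305341216) (nat_lit 76) (nat_lit 20858726015) (nat_lit 5) (nat_lit 4) (nat_lit 6) (nat_lit 5) (nat_lit 6) (nat_lit 4) (nat_lit 498) (nat_lit 363) (nat_lit 339)) (XT.lf (nat_lit 0) (nat_lit 57631042103) (nat_lit 76) (nat_lit 12198498600) (nat_lit 76) (nat_lit 9699523734) (nat_lit 5) (nat_lit 4) (nat_lit 6) (nat_lit 5) (nat_lit 6) (nat_lit 4) (nat_lit 499) (nat_lit 363) (nat_lit 338)))) (XT.nd (nat_lit 78) (nat_lit 228) (nat_lit 0) (XT.lf (nat_lit 0) (nat_lit 6463282573) (nat_lit 152) (nat_lit 780549574) (nat_lit 0) (nat_lit 6463282573) (nat_lit 30) (nat_lit 5) (nat_lit 32) (nat_lit 4) (nat_lit 30) (nat_lit 4) (nat_lit 472) (nat_lit 364) (nat_lit 364)) (XT.nd (nat_lit 78) (nat_lit 152) (nat_lit 0) (XT.lf (nat_lit 0) (nat_lit 27224764470) (nat_lit 76) (nat_lit 673905244) (nat_lit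 76) (nat_lit 449296258) (nat_lit 29) (nat_lit 4) (nat_lit 30) (nat_lit 5) (nat_lit 30) (nat_lit 4) (nat_lit 473) (nat_lit 364) (nat_lit 363)) (XT.lf (nat_lit 0) (nat_lit 13963135571) (nat_lit 152) (nat_lit 1825220229) (nat_lit 0) (nat_lit 13537385760) (nat_lit 27) (nat_lit 5) (nat_lit 29) (nat_lit 4) (nat_lit 27) (nat_lit 4) (nat_lit 474) (nat_lit 364) (nat_lit 362))))) (XT.nd (nat_lit 234) (nat_lit 380) (nat_lit 0) (XT.nd (nat_lit 78) (nat_lit 228) (nat_lit 0) (XT.lf (nat_lit 0) (nat_lit 26836992151) (nat_lit 76) (nat_lit 2072080854) (nat_lit 76) (nat_lit 1448537867) (nat_lit 26) (nat_lit 4) (nat_lit 27) (nat_lit 5) (nat_lit 27) (nat_lit 4) (nat_lit 475) (nat_lit 364) (nat_lit 361)) (XT.nd (nat_lit 78) (nat_lit 76) (nat_lit 0) (XT.lf (nat_lit 0) (nat_lit 12836357846) (nat_lit 152) (nat_lit 6554876888) (nat_lit 0) (nat_lit 12048088487) (nat_lit 24) (nat_lit 5) (nat_lit 26) (nat_lit 4) (nat_lit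 24) (nat_lit 4) (nat_lit 476) (nat_lit 364) (nat_lit 360)) (XT.lf (nat_lit 0) (nat_lit 21728814471) (nat_lit 76) (nat_lit 5906714143) (nat_lit 76) (nat_lit 4944265909) (nat_lit 23) (nat_lit 4) (nat_lit 24) (nat_lit 5) (nat_lit 24) (nat_lit 4) (nat_lit 477) (nat_lit 364) (nat_lit 359)))) (XT.nd (nat_lit 156) (nat_lit 152) (nat_lit 0) (XT.nd (nat_lit 78) (nat_lit 76) (nat_lit 0) (XT.lf (nat_lit 0) (nat_lit 9097544795) (nat_lit 152) (nat_lit 16678455032) (nat_lit 0) (nat_lit 8002075982) (nat_lit 21) (nat_lit 5) (nat_lit 23) (nat_lit 4) (nat_lit 21) (nat_lit 4) (nat_lit 478) (nat_lit 364) (nat_lit 358)) (XT.lf (nat_lit 0) (nat_lit 10907488462) (nat_lit 76) (nat_lit 12690207244) (nat_lit 76) (nat_lit 11441354573) (nat_lit 20) (nat_lit 4) (nat_lit 21) (nat_lit 5) (nat_lit 21) (nat_lit 4) (nat_lit 479) (nat_lit 364) (nat_lit 357))) (XT.nd (nat_lit 78) (nat_lit 0) (nat_lit 0) (XT.lf (nat_lit 0) (nat_lit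 2211578759) (nat_lit 152) (nat_lit 33299518766) (nat_lit 0) (nat_lit 857275326) (nat_lit 18) (nat_lit 5) (nat_lit 20) (nat_lit 4) (nat_lit 18) (nat_lit 4) (nat_lit 480) (nat_lit 364) (nat_lit 356)) (XT.lf (nat_lit 0) (nat_lit 16288229313) (nat_lit 152) (nat_lit 6674351124) (nat_lit 0) (nat_lit 14798854345) (nat_lit 18) (nat_lit 5) (nat_lit 20) (nat_lit 4) (nat_lit 18) (nat_lit 4) (nat_lit 481) (nat_lit 364) (nat_lit 355)))))) (XT.nd (nat_lit 468) (nat_lit 304) (nat_lit 0) (XT.nd (nat_lit 234) (nat_lit 228) (nat_lit 0) (XT.nd (nat_lit 78) (nat_lit 152) (nat_lit 0) (XT.lf (nat_lit 0) (nat_lit 20923524237) (nat_lit 76) (nat_lit 9962068049) (nat_lit 76) (nat_lit 8344053523) (nat_lit 17) (nat_lit 4) (nat_lit 18) (nat_lit 5) (nat_lit 18) (nat_lit 4) (nat_lit 482) (nat_lit 364) (nat_lit 354)) (XT.nd (nat_lit 78) (nat_lit 0) (nat_lit 0) (XT.lf (nat_lit 0) (nat_lit 5144824291) (nat_lit 152) (nat_lit 32175601602)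 (nat_lit 0) (nat_lit 3454990903) (nat_lit 15) (nat_lit 5) (nat_lit 17) (nat_lit 4) (nat_lit 15) (nat_lit 4) (nat_lit 483) (nat_lit 364) (nat_lit 353)) (XT.lf (nat_lit 0) (nat_lit 19058645043) (nat_lit 152) (nat_lit 6084132733) (nat_lit 0) (nat_lit 17255530227) (nat_lit 15) (nat_lit 5) (nat_lit 17) (nat_lit 4) (nat_lit 15) (nat_lit 4) (nat_lit 484) (nat_lit 364) (nat_lit 352)))) (XT.nd (nat_lit 78) (nat_lit 152) (nat_lit 0) (XT.lf (nat_lit 0) (nat_lit 21018951950) (nat_lit 76) (nat_lit 12499444268) (nat_lit 76) (nat_lit 10588442379) (nat_lit 14) (nat_lit 4) (nat_lit 15) (nat_lit 5) (nat_lit 15) (nat_lit 4) (nat_lit 485) (nat_lit 364) (nat_lit 351)) (XT.nd (nat_lit 78) (nat_lit 0) (nat_lit 0) (XT.lf (nat_lit 0) (nat_lit 2498563945) (nat_lit 152) (nat_lit 42865374577) (nat_lit 0) (nat_lit 543465417) (nat_lit 12) (nat_lit 5) (nat_lit 14) (nat_lit 4) (nat_lit 12) (nat_lit 4) (nat_lit 486) (nat_lit 364)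 (nat_lit 350)) (XT.lf (nat_lit 0) (nat_lit 16050916584) (nat_lit 152) (nat_lit 17742226716) (nat_lit 0) (nat_lit 14000811497) (nat_lit 12) (nat_lit 5) (nat_lit 14) (nat_lit 4) (nat_lit 12) (nat_lit 4) (nat_lit 487) (nat_lit 364) (nat_lit 349))))) (XT.nd (nat_lit 234) (nat_lit 76) (nat_lit 0) (XT.nd (nat_lit 78) (nat_lit 152) (nat_lit 0) (XT.lf (nat_lit 0) (nat_lit 8151491544) (nat_lit 76) (nat_lit 21885622031) (nat_lit 76) (nat_lit 19745034506) (nat_lit 11) (nat_lit 4) (nat_lit 12) (nat_lit 5) (nat_lit 12) (nat_lit 4) (nat_lit 488) (nat_lit 364) (nat_lit 348)) (XT.nd (nat_lit 78) (nat_lit 152) (nat_lit 0) (XT.lf (nat_lit 0) (nat_lit 35084482937) (nat_lit 76) (nat_lit 9507968028) (nat_lit 76) (nat_lit 7281206753) (nat_lit 11) (nat_lit 4) (nat_lit 12) (nat_lit 5) (nat_lit 12) (nat_lit 4) (nat_lit 489) (nat_lit 364) (nat_lit 347)) (XT.lf (nat_lit 0) (nat_lit 5508350647) (nat_lit 152) (nat_lit 45298477832)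 (nat_lit 0) (nat_lit 3266766653) (nat_lit 9) (nat_lit 5) (nat_lit 11) (nat_lit 4) (nat_lit 9) (nat_lit 4) (nat_lit 490) (nat_lit 364) (nat_lit 346)))) (XT.nd (nat_lit 156) (nat_lit 0) (nat_lit 0) (XT.nd (nat_lit 78) (nat_lit 76) (nat_lit 0) (XT.lf (nat_lit 0) (nat_lit 18763728027) (nat_lit 152) (nat_lit 21172073739) (nat_lit 0) (nat_lit 16446258469) (nat_lit 9) (nat_lit 5) (nat_lit 11) (nat_lit 4) (nat_lit 9) (nat_lit 4) (nat_lit 491) (nat_lit 364) (nat_lit 345)) (XT.lf (nat_lit 0) (nat_lit 3669368214) (nat_lit 76) (nat_lit 28766846518) (nat_lit 76) (nat_lit 26377104994) (nat_lit 8) (nat_lit 4) (nat_lit 9) (nat_lit 5) (nat_lit 9) (nat_lit 4) (nat_lit 492) (nat_lit 364) (nat_lit 344))) (XT.nd (nat_lit 78) (nat_lit 0) (nat_lit 0) (XT.lf (nat_lit 0) (nat_lit 29648566387) (nat_lit 76) (nat_lit 17088897456) (nat_lit 76) (nat_lit 14630325487) (nat_lit 8) (nat_lit 4) (nat_lit 9) (nat_lit 5) (nat_lit 9)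 (nat_lit 4) (nat_lit 493) (nat_lit 364) (nat_lit 343)) (XT.lf (nat_lit 0) (nat_lit 56406010232) (nat_lit 76) (nat_lit 5087946371) (nat_lit 76) (nat_lit 2563821598) (nat_lit 8) (nat_lit 4) (nat_lit 9) (nat_lit 5) (nat_lit 9) (nat_lit 4) (nat_lit 494) (nat_lit 364) (nat_lit 342))))))))
noncomputable def xc4 : XT := (XT.nd (nat_lit 62088) (nat_lit 0) (nat_lit 0) (XT.nd (nat_lit 61074) (nat_lit 0) (nat_lit 456) (XT.nd (nat_lit 60606) (nat_lit 0) (nat_lit 1444) (XT.nd (nat_lit 234) (nat_lit 76) (nat_lit 0) (XT.nd (nat_lit 78) (nat_lit 0) (nat_lit 0) (XT.lf (nat_lit 0) (nat_lit 9898199425) (nat_lit 152) (nat_lit 49594491973) (nat_lit 0) (nat_lit 7386979994) (nat_lit 6) (nat_lit 5) (nat_lit 8) (nat_lit 4) (nat_lit 6) (nat_lit 4) (nat_lit 495) (nat_lit 364) (nat_lit 341)) (XT.nd (nat_lit 78) (nat_lit 0) (nat_lit 0) (XT.lf (nat_lit 0) (nat_lit 22816673887) (nat_lit 152) (nat_lit 26780905690) (nat_lit 0)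 (nat_lit 20247727925) (nat_lit 6) (nat_lit 5) (nat_lit 8) (nat_lit 4) (nat_lit 6) (nat_lit 4) (nat_lit 496) (nat_lit 364) (nat_lit 340)) (XT.lf (nat_lit 0) (nat_lit 36147720920) (nat_lit 152) (nat_lit 3294708745) (nat_lit 0) (nat_lit 33523797311) (nat_lit 6) (nat_lit 5) (nat_lit 8) (nat_lit 4) (nat_lit 6) (nat_lit 4) (nat_lit 497) (nat_lit 364) (nat_lit 339)))) (XT.nd (nat_lit 78) (nat_lit 0) (nat_lit 0) (XT.lf (nat_lit 0) (nat_lit 21336367764) (nat_lit 76) (nat_lit 28791811568) (nat_lit 76) (nat_lit 26115528295) (nat_lit 5) (nat_lit 4) (nat_lit 6) (nat_lit 5) (nat_lit 6) (nat_lit 4) (nat_lit 498) (nat_lit 364) (nat_lit 338)) (XT.nd (nat_lit 60216) (nat_lit 0) (nat_lit 2128) (XT.lf (nat_lit 0) (nat_lit 46834846337) (nat_lit 76) (nat_lit 17790911799) (nat_lit 76) (nat_lit 15064762179) (nat_lit 5) (nat_lit 4) (nat_lit 6) (nat_lit 5) (nat_lit 6) (nat_lit 4) (nat_lit 499) (nat_lit 364) (nat_lit 337))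 (XT.lf (nat_lit 0) (nat_lit 5286668642) (nat_lit 152) (nat_lit 2265495320) (nat_lit 0) (nat_lit 5286668642) (nat_lit 33) (nat_lit 5) (nat_lit 35) (nat_lit 4) (nat_lit 33) (nat_lit 4) (nat_lit 470) (nat_lit 365) (nat_lit 365))))) (XT.nd (nat_lit 234) (nat_lit 380) (nat_lit 0) (XT.nd (nat_lit 78) (nat_lit 228) (nat_lit 0) (XT.lf (nat_lit 0) (nat_lit 23725655082) (nat_lit 76) (nat_lit 1523305365) (nat_lit 76) (nat_lit 1280390747) (nat_lit 32) (nat_lit 4) (nat_lit 33) (nat_lit 5) (nat_lit 33) (nat_lit 4) (nat_lit 471) (nat_lit 365) (nat_lit 364)) (XT.nd (nat_lit 78) (nat_lit 76) (nat_lit 0) (XT.lf (nat_lit 0) (nat_lit 12931760797) (nat_lit 152) (nat_lit 2018077622) (nat_lit 0) (nat_lit 12471312376) (nat_lit 30) (nat_lit 5) (nat_lit 32) (nat_lit 4) (nat_lit 30) (nat_lit 4) (nat_lit 472) (nat_lit 365) (nat_lit 363)) (XT.lf (nat_lit 0) (nat_lit 26314811951) (nat_lit 76) (nat_lit 1360645645) (nat_lit 76)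 (nat_lit 686283905) (nat_lit 29) (nat_lit 4) (nat_lit 30) (nat_lit 5) (nat_lit 30) (nat_lit 4) (nat_lit 473) (nat_lit 365) (nat_lit 362)))) (XT.nd (nat_lit 78) (nat_lit 228) (nat_lit 0) (XT.lf (nat_lit 0) (nat_lit 13493384947) (nat_lit 152) (nat_lit 3212452271) (nat_lit 0) (nat_lit 12640871634) (nat_lit 27) (nat_lit 5) (nat_lit 29) (nat_lit 4) (nat_lit 27) (nat_lit 4) (nat_lit 474) (nat_lit 365) (nat_lit 361)) (XT.nd (nat_lit 78) (nat_lit 152) (nat_lit 0) (XT.lf (nat_lit 0) (nat_lit 24994723299) (nat_lit 76) (nat_lit 3215804095) (nat_lit 76) (nat_lit 2174916329) (nat_lit 26) (nat_lit 4) (nat_lit 27) (nat_lit 5) (nat_lit 27) (nat_lit 4) (nat_lit 475) (nat_lit 365) (nat_lit 360)) (XT.lf (nat_lit 0) (nat_lit 11881631231) (nat_lit 152) (nat_lit 8896129857) (nat_lit 0) (nat_lit 10696881710) (nat_lit 24) (nat_lit 5) (nat_lit 26) (nat_lit 4) (nat_lit 24) (nat_lit 4) (nat_lit 476) (nat_lit 365) (nat_lit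 359)))))) (XT.nd (nat_lit 468) (nat_lit 456) (nat_lit 0) (XT.nd (nat_lit 234) (nat_lit 228) (nat_lit 0) (XT.nd (nat_lit 78) (nat_lit 228) (nat_lit 0) (XT.lf (nat_lit 0) (nat_lit 18929403692) (nat_lit 76) (nat_lit 7521619719) (nat_lit 76) (nat_lit 6170985555) (nat_lit 23) (nat_lit 4) (nat_lit 24) (nat_lit 5) (nat_lit 24) (nat_lit 4) (nat_lit 477) (nat_lit 365) (nat_lit 358)) (XT.nd (nat_lit 78) (nat_lit 76) (nat_lit 0) (XT.lf (nat_lit 0) (nat_lit 7646362828) (nat_lit 152) (nat_lit 20000050912) (nat_lit 0) (nat_lit 6181683665) (nat_lit 21) (nat_lit 5) (nat_lit 23) (nat_lit 4) (nat_lit 21) (nat_lit 4) (nat_lit 478) (nat_lit 365) (nat_lit 357)) (XT.lf (nat_lit 0) (nat_lit 7123522537) (nat_lit 76) (nat_lit 14791625335) (nat_lit 76) (nat_lit 13180866307) (nat_lit 20) (nat_lit 4) (nat_lit 21) (nat_lit 5) (nat_lit 21) (nat_lit 4) (nat_lit 479) (nat_lit 365) (nat_lit 356)))) (XT.nd (nat_lit 78) (nat_lit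 152) (nat_lit 0) (XT.lf (nat_lit 0) (nat_lit 276813271) (nat_lit 152) (nat_lit 1187951767) (nat_lit 76) (nat_lit 34967950512) (nat_lit 19) (nat_lit 5) (nat_lit 21) (nat_lit 5) (nat_lit 20) (nat_lit 4) (nat_lit 480) (nat_lit 365) (nat_lit 355)) (XT.nd (nat_lit 78) (nat_lit 76) (nat_lit 0) (XT.lf (nat_lit 0) (nat_lit 14140182771) (nat_lit 152) (nat_lit 11379366348) (nat_lit 0) (nat_lit 12312627962) (nat_lit 18) (nat_lit 5) (nat_lit 20) (nat_lit 4) (nat_lit 18) (nat_lit 4) (nat_lit 481) (nat_lit 365) (nat_lit 354)) (XT.lf (nat_lit 0) (nat_lit 15761522397) (nat_lit 76) (nat_lit 12747889752) (nat_lit 76) (nat_lit 10797821079) (nat_lit 17) (nat_lit 4) (nat_lit 18) (nat_lit 5) (nat_lit 18) (nat_lit 4) (nat_lit 482) (nat_lit 365) (nat_lit 353))))) (XT.nd (nat_lit 234) (nat_lit 228) (nat_lit 0) (XT.nd (nat_lit 78) (nat_lit 76) (nat_lit 0) (XT.lf (nat_lit 0) (nat_lit 2480088277) (nat_lit 152) (nat_lit 37907853795)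 (nat_lit 0) (nat_lit 473536294) (nat_lit 15) (nat_lit 5) (nat_lit 17) (nat_lit 4) (nat_lit 15) (nat_lit 4) (nat_lit 483) (nat_lit 365) (nat_lit 352)) (XT.nd (nat_lit 78) (nat_lit 76) (nat_lit 0) (XT.lf (nat_lit 0) (nat_lit 16222295547) (nat_lit 152) (nat_lit 12159366920) (nat_lit 0) (nat_lit 14107856490) (nat_lit 15) (nat_lit 5) (nat_lit 17) (nat_lit 4) (nat_lit 15) (nat_lit 4) (nat_lit 484) (nat_lit 365) (nat_lit 351)) (XT.lf (nat_lit 0) (nat_lit 14489658205) (nat_lit 76) (nat_lit 15966183540) (nat_lit 76) (nat_lit 13748994889) (nat_lit 14) (nat_lit 4) (nat_lit 15) (nat_lit 5) (nat_lit 15) (nat_lit 4) (nat_lit 485) (nat_lit 365) (nat_lit 350)))) (XT.nd (nat_lit 156) (nat_lit 76) (nat_lit 0) (XT.nd (nat_lit 78) (nat_lit 152) (nat_lit 0) (XT.lf (nat_lit 0) (nat_lit 42074792933) (nat_lit 76) (nat_lit 3126089981) (nat_lit 76) (nat_lit 811044573) (nat_lit 14) (nat_lit 4) (nat_lit 15) (nat_lit 5) (nat_lit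 15) (nat_lit 4) (nat_lit 486) (nat_lit 365) (nat_lit 349)) (XT.lf (nat_lit 0) (nat_lit 12530966265) (nat_lit 152) (nat_lit 25181664910) (nat_lit 0) (nat_lit 10192866926) (nat_lit 12) (nat_lit 5) (nat_lit 14) (nat_lit 4) (nat_lit 12) (nat_lit 4) (nat_lit 487) (nat_lit 365) (nat_lit 348))) (XT.nd (nat_lit 78) (nat_lit 0) (nat_lit 0) (XT.lf (nat_lit 0) (nat_lit 258543632) (nat_lit 76) (nat_lit 26033093701) (nat_lit 76) (nat_lit 23608820612) (nat_lit 11) (nat_lit 4) (nat_lit 12) (nat_lit 5) (nat_lit 12) (nat_lit 4) (nat_lit 488) (nat_lit 365) (nat_lit 347)) (XT.lf (nat_lit 0) (nat_lit 26900629968) (nat_lit 76) (nat_lit 13801020704) (nat_lit 76) (nat_lit 11294677377) (nat_lit 11) (nat_lit 4) (nat_lit 12) (nat_lit 5) (nat_lit 12) (nat_lit 4) (nat_lit 489) (nat_lit 365) (nat_lit 346))))))) (XT.nd (nat_lit 60996) (nat_lit 0) (nat_lit 912) (XT.nd (nat_lit 468) (nat_lit 76) (nat_lit 0) (XT.nd (nat_lit 234)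 (nat_lit 228) (nat_lit 0) (XT.nd (nat_lit 78) (nat_lit 0) (nat_lit 0) (XT.lf (nat_lit 0) (nat_lit 90209406) (nat_lit 76) (nat_lit 1227384123) (nat_lit 152) (nat_lit 52887498134) (nat_lit 9) (nat_lit 5) (nat_lit 10) (nat_lit 5) (nat_lit 11) (nat_lit 4) (nat_lit 490) (nat_lit 365) (nat_lit 345)) (XT.nd (nat_lit 78) (nat_lit 0) (nat_lit 0) (XT.lf (nat_lit 0) (nat_lit 14424132662) (nat_lit 152) (nat_lit 30251257814) (nat_lit 0) (nat_lit 11842632094) (nat_lit 9) (nat_lit 5) (nat_lit 11) (nat_lit 4) (nat_lit 9) (nat_lit 4) (nat_lit 491) (nat_lit 365) (nat_lit 344)) (XT.lf (nat_lit 0) (nat_lit 27930832983) (nat_lit 152) (nat_lit 5742921323) (nat_lit 0) (nat_lit 25280501972) (nat_lit 9) (nat_lit 5) (nat_lit 11) (nat_lit 4) (nat_lit 9) (nat_lit 4) (nat_lit 492) (nat_lit 365) (nat_lit 343)))) (XT.nd (nat_lit 78) (nat_lit 152) (nat_lit 0) (XT.lf (nat_lit 0) (nat_lit 19867974510) (nat_lit 76) (nat_lit 22181063552)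 (nat_lit 76) (nat_lit 19465179737) (nat_lit 8) (nat_lit 4) (nat_lit 9) (nat_lit 5) (nat_lit 9) (nat_lit 4) (nat_lit 493) (nat_lit 365) (nat_lit 342)) (XT.nd (nat_lit 78) (nat_lit 152) (nat_lit 0) (XT.lf (nat_lit 0) (nat_lit 46383506978) (nat_lit 76) (nat_lit 10301318241) (nat_lit 76) (nat_lit 7523003184) (nat_lit 8) (nat_lit 4) (nat_lit 9) (nat_lit 5) (nat_lit 9) (nat_lit 4) (nat_lit 494) (nat_lit 365) (nat_lit 341)) (XT.lf (nat_lit 0) (nat_lit 4765435542) (nat_lit 152) (nat_lit 60263511559) (nat_lit 0) (nat_lit 2010315753) (nat_lit 6) (nat_lit 5) (nat_lit 8) (nat_lit 4) (nat_lit 6) (nat_lit 4) (nat_lit 495) (nat_lit 365) (nat_lit 340))))) (XT.nd (nat_lit 234) (nat_lit 0) (nat_lit 0) (XT.nd (nat_lit 78) (nat_lit 76) (nat_lit 0) (XT.lf (nat_lit 0) (nat_lit 17570080173) (nat_lit 152) (nat_lit 37678251448) (nat_lit 0) (nat_lit 14759982737) (nat_lit 6) (nat_lit 5) (nat_lit 8) (nat_lit 4) (nat_lit 6)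 (nat_lit 4) (nat_lit 496) (nat_lit 365) (nat_lit 339)) (XT.nd (nat_lit 78) (nat_lit 76) (nat_lit 0) (XT.lf (nat_lit 0) (nat_lit 30792717845) (nat_lit 152) (nat_lit 14409507999) (nat_lit 0) (nat_lit 27930260744) (nat_lit 6) (nat_lit 5) (nat_lit 8) (nat_lit 4) (nat_lit 6) (nat_lit 4) (nat_lit 497) (nat_lit 365) (nat_lit 338)) (XT.lf (nat_lit 0) (nat_lit 9789141974) (nat_lit 76) (nat_lit 34769788273) (nat_lit 76) (nat_lit 31857464825) (nat_lit 5) (nat_lit 4) (nat_lit 6) (nat_lit 5) (nat_lit 6) (nat_lit 4) (nat_lit 498) (nat_lit 365) (nat_lit 337)))) (XT.nd (nat_lit 60138) (nat_lit 0) (nat_lit 2128) (XT.nd (nat_lit 60060) (nat_lit 0) (nat_lit 2356) (XT.lf (nat_lit 0) (nat_lit 35086458418) (nat_lit 76) (nat_lit 23869786453) (nat_lit 76) (nat_lit 20909971246) (nat_lit 5) (nat_lit 4) (nat_lit 6) (nat_lit 5) (nat_lit 6) (nat_lit 4) (nat_lit 499) (nat_lit 365) (nat_lit 336)) (XT.lf (nat_lit 0) (nat_lit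 3610735121) (nat_lit 152) (nat_lit 4824338385) (nat_lit 0) (nat_lit 3610735121) (nat_lit 36) (nat_lit 5) (nat_lit 38) (nat_lit 4) (nat_lit 36) (nat_lit 4) (nat_lit 468) (nat_lit 366) (nat_lit 366))) (XT.nd (nat_lit 78) (nat_lit 152) (nat_lit 0) (XT.lf (nat_lit 0) (nat_lit 17927978521) (nat_lit 76) (nat_lit 3602042047) (nat_lit 76) (nat_lit 3339329887) (nat_lit 35) (nat_lit 4) (nat_lit 36) (nat_lit 5) (nat_lit 36) (nat_lit 4) (nat_lit 469) (nat_lit 366) (nat_lit 365)) (XT.lf (nat_lit 0) (nat_lit 10599785519) (nat_lit 152) (nat_lit 4982929709) (nat_lit 0) (nat_lit 10101810552) (nat_lit 33) (nat_lit 5) (nat_lit 35) (nat_lit 4) (nat_lit 33) (nat_lit 4) (nat_lit 470) (nat_lit 366) (nat_lit 364)))))) (XT.nd (nat_lit 468) (nat_lit 532) (nat_lit 0) (XT.nd (nat_lit 234) (nat_lit 380) (nat_lit 0) (XT.nd (nat_lit 78) (nat_lit 228) (nat_lit 0) (XT.lf (nat_lit 0) (nat_lit 22825737214) (nat_lit 76) (nat_lit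 2223295083) (nat_lit 76) (nat_lit 1493972860) (nat_lit 32) (nat_lit 4) (nat_lit 33) (nat_lit 5) (nat_lit 33) (nat_lit 4) (nat_lit 471) (nat_lit 366) (nat_lit 363)) (XT.nd (nat_lit 78) (nat_lit 76) (nat_lit 0) (XT.lf (nat_lit 0) (nat_lit 12486911698) (nat_lit 152) (nat_lit 3390101087) (nat_lit 0) (nat_lit 11564918550) (nat_lit 30) (nat_lit 5) (nat_lit 32) (nat_lit 4) (nat_lit 30) (nat_lit 4) (nat_lit 472) (nat_lit 366) (nat_lit 362)) (XT.lf (nat_lit 0) (nat_lit 24492740360) (nat_lit 76) (nat_lit 2511152558) (nat_lit 76) (nat_lit 1385432440) (nat_lit 29) (nat_lit 4) (nat_lit 30) (nat_lit 5) (nat_lit 30) (nat_lit 4) (nat_lit 473) (nat_lit 366) (nat_lit 361)))) (XT.nd (nat_lit 78) (nat_lit 228) (nat_lit 0) (XT.lf (nat_lit 0) (nat_lit 12567420550) (nat_lit 152) (nat_lit 5528175309) (nat_lit 0) (nat_lit 11286113943) (nat_lit 27) (nat_lit 5) (nat_lit 29) (nat_lit 4) (nat_lit 27) (nat_lit 4) (nat_lit 474)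 (nat_lit 366) (nat_lit 360)) (XT.nd (nat_lit 78) (nat_lit 152) (nat_lit 0) (XT.lf (nat_lit 0) (nat_lit 22225838382) (nat_lit 76) (nat_lit 4831074142) (nat_lit 76) (nat_lit 3370363293) (nat_lit 26) (nat_lit 4) (nat_lit 27) (nat_lit 5) (nat_lit 27) (nat_lit 4) (nat_lit 475) (nat_lit 366) (nat_lit 359)) (XT.lf (nat_lit 0) (nat_lit 10463286958) (nat_lit 152) (nat_lit 12181684482) (nat_lit 0) (nat_lit 8879236443) (nat_lit 24) (nat_lit 5) (nat_lit 26) (nat_lit 4) (nat_lit 24) (nat_lit 4) (nat_lit 476) (nat_lit 366) (nat_lit 358))))) (XT.nd (nat_lit 234) (nat_lit 228) (nat_lit 0) (XT.nd (nat_lit 78) (nat_lit 228) (nat_lit 0) (XT.lf (nat_lit 0) (nat_lit 15186496007) (nat_lit 76) (nat_lit 9616995498) (nat_lit 76) (nat_lit 7874959609) (nat_lit 23) (nat_lit 4) (nat_lit 24) (nat_lit 5) (nat_lit 24) (nat_lit 4) (nat_lit 477) (nat_lit 366) (nat_lit 357)) (XT.nd (nat_lit 78) (nat_lit 76) (nat_lit 0) (XT.lf (nat_lit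 0) (nat_lit 5722888013) (nat_lit 152) (nat_lit 24284215630) (nat_lit 0) (nat_lit 3885511168) (nat_lit 21) (nat_lit 5) (nat_lit 23) (nat_lit 4) (nat_lit 21) (nat_lit 4) (nat_lit 478) (nat_lit 366) (nat_lit 356)) (XT.lf (nat_lit 0) (nat_lit 2376700470) (nat_lit 76) (nat_lit 17383636494) (nat_lit 76) (nat_lit 15407135968) (nat_lit 20) (nat_lit 4) (nat_lit 21) (nat_lit 5) (nat_lit 21) (nat_lit 4) (nat_lit 479) (nat_lit 366) (nat_lit 355)))) (XT.nd (nat_lit 156) (nat_lit 76) (nat_lit 0) (XT.nd (nat_lit 78) (nat_lit 152) (nat_lit 0) (XT.lf (nat_lit 0) (nat_lit 30141314063) (nat_lit 76) (nat_lit 4238675843) (nat_lit 76) (nat_lit 2129676573) (nat_lit 20) (nat_lit 4) (nat_lit 21) (nat_lit 5) (nat_lit 21) (nat_lit 4) (nat_lit 480) (nat_lit 366) (nat_lit 354)) (XT.lf (nat_lit 0) (nat_lit 11518781688) (nat_lit 152) (nat_lit 17049959937) (nat_lit 0) (nat_lit 9348695718) (nat_lit 18) (nat_lit 5) (nat_lit 20)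 (nat_lit 4) (nat_lit 18) (nat_lit 4) (nat_lit 481) (nat_lit 366) (nat_lit 353))) (XT.nd (nat_lit 78) (nat_lit 0) (nat_lit 0) (XT.lf (nat_lit 0) (nat_lit 9632027556) (nat_lit 76) (nat_lit 16027050414) (nat_lit 76) (nat_lit 13740284573) (nat_lit 17) (nat_lit 4) (nat_lit 18) (nat_lit 5) (nat_lit 18) (nat_lit 4) (nat_lit 482) (nat_lit 366) (nat_lit 352)) (XT.lf (nat_lit 0) (nat_lit 37328796146) (nat_lit 76) (nat_lit 3014683369) (nat_lit 76) (nat_lit 616793842) (nat_lit 17) (nat_lit 4) (nat_lit 18) (nat_lit 5) (nat_lit 18) (nat_lit 4) (nat_lit 483) (nat_lit 366) (nat_lit 351))))))))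
noncomputable def xc5 : XT := (XT.nd (nat_lit 61776) (nat_lit 0) (nat_lit 0) (XT.nd (nat_lit 936) (nat_lit 228) (nat_lit 0) (XT.nd (nat_lit 468) (nat_lit 228) (nat_lit 0) (XT.nd (nat_lit 234) (nat_lit 228) (nat_lit 0) (XT.nd (nat_lit 78) (nat_lit 76) (nat_lit 0) (XT.lf (nat_lit 0) (nat_lit 12909073684) (nat_lit 152) (nat_lit 19207994331) (nat_lit 0) (nat_lit 10478276005) (nat_lit 15) (nat_lit 5) (nat_lit 17) (nat_lit 4) (nat_lit 15) (nat_lit 4) (nat_lit 484) (nat_lit 366) (nat_lit 350)) (XT.nd (nat_lit 78) (nat_lit 0) (nat_lit 0) (XT.lf (nat_lit 0) (nat_lit 6983463113) (nat_lit 76) (nat_lit 19931344143) (nat_lit 76) (nat_lit 17402689708) (nat_lit 14) (nat_lit 4) (nat_lit 15) (nat_lit 5) (nat_lit 15) (nat_lit 4) (nat_lit 485) (nat_lit 366) (nat_lit 349)) (XT.lf (nat_lit 0) (nat_lit 34266420530) (nat_lit 76) (nat_lit 7242277003) (nat_lit 76) (nat_lit 4620425657) (nat_lit 14) (nat_lit 4) (nat_lit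 15) (nat_lit 5) (nat_lit 15) (nat_lit 4) (nat_lit 486) (nat_lit 366) (nat_lit 348)))) (XT.nd (nat_lit 78) (nat_lit 76) (nat_lit 0) (XT.lf (nat_lit 0) (nat_lit 8528227569) (nat_lit 152) (nat_lit 33607029256) (nat_lit 0) (nat_lit 5896567075) (nat_lit 12) (nat_lit 5) (nat_lit 14) (nat_lit 4) (nat_lit 12) (nat_lit 4) (nat_lit 487) (nat_lit 366) (nat_lit 347)) (XT.nd (nat_lit 78) (nat_lit 76) (nat_lit 0) (XT.lf (nat_lit 0) (nat_lit 22143885665) (nat_lit 152) (nat_lit 8457094282) (nat_lit 0) (nat_lit 19430154933) (nat_lit 12) (nat_lit 5) (nat_lit 14) (nat_lit 4) (nat_lit 12) (nat_lit 4) (nat_lit 488) (nat_lit 366) (nat_lit 346)) (XT.lf (nat_lit 0) (nat_lit 17739626859) (nat_lit 76) (nat_lit 18592955597) (nat_lit 76) (nat_lit 15801062734) (nat_lit 11) (nat_lit 4) (nat_lit 12) (nat_lit 5) (nat_lit 12) (nat_lit 4) (nat_lit 489) (nat_lit 366) (nat_lit 345))))) (XT.nd (nat_lit 234) (nat_lit 76) (nat_lit 0)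 (XT.nd (nat_lit 78) (nat_lit 152) (nat_lit 0) (XT.lf (nat_lit 0) (nat_lit 44882000557) (nat_lit 76) (nat_lit 6165554797) (nat_lit 76) (nat_lit 3299221808) (nat_lit 11) (nat_lit 4) (nat_lit 12) (nat_lit 5) (nat_lit 12) (nat_lit 4) (nat_lit 490) (nat_lit 366) (nat_lit 344)) (XT.nd (nat_lit 78) (nat_lit 0) (nat_lit 0) (XT.lf (nat_lit 0) (nat_lit 9600003475) (nat_lit 152) (nat_lit 40320481981) (nat_lit 0) (nat_lit 6748325469) (nat_lit 9) (nat_lit 5) (nat_lit 11) (nat_lit 4) (nat_lit 9) (nat_lit 4) (nat_lit 491) (nat_lit 366) (nat_lit 343)) (XT.lf (nat_lit 0) (nat_lit 22982404585) (nat_lit 152) (nat_lit 16061195844) (nat_lit 0) (nat_lit 20065173775) (nat_lit 9) (nat_lit 5) (nat_lit 11) (nat_lit 4) (nat_lit 9) (nat_lit 4) (nat_lit 492) (nat_lit 366) (nat_lit 342)))) (XT.nd (nat_lit 78) (nat_lit 0) (nat_lit 0) (XT.lf (nat_lit 0) (nat_lit 9102434717) (nat_lit 76) (nat_lit 27776309791) (nat_lit 76) (nat_lit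 24796647739) (nat_lit 8) (nat_lit 4) (nat_lit 9) (nat_lit 5) (nat_lit 9) (nat_lit 4) (nat_lit 493) (nat_lit 366) (nat_lit 341)) (XT.nd (nat_lit 78) (nat_lit 0) (nat_lit 0) (XT.lf (nat_lit 0) (nat_lit 35387575399) (nat_lit 76) (nat_lit 16011998551) (nat_lit 76) (nat_lit 12972878173) (nat_lit 8) (nat_lit 4) (nat_lit 9) (nat_lit 5) (nat_lit 9) (nat_lit 4) (nat_lit 494) (nat_lit 366) (nat_lit 340)) (XT.lf (nat_lit 0) (nat_lit 62537160578) (nat_lit 76) (nat_lit 3884843031) (nat_lit 76) (nat_lit 789095676) (nat_lit 8) (nat_lit 4) (nat_lit 9) (nat_lit 5) (nat_lit 9) (nat_lit 4) (nat_lit 495) (nat_lit 366) (nat_lit 339)))))) (XT.nd (nat_lit 60294) (nat_lit 0) (nat_lit 1672) (XT.nd (nat_lit 234) (nat_lit 76) (nat_lit 0) (XT.nd (nat_lit 78) (nat_lit 0) (nat_lit 0) (XT.lf (nat_lit 0) (nat_lit 11838917583) (nat_lit 152) (nat_lit 49566244162) (nat_lit 0) (nat_lit 8780977962) (nat_lit 6) (nat_lit 5) (nat_lit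 8) (nat_lit 4) (nat_lit 6) (nat_lit 4) (nat_lit 496) (nat_lit 366) (nat_lit 338)) (XT.nd (nat_lit 78) (nat_lit 0) (nat_lit 0) (XT.lf (nat_lit 0) (nat_lit 24958308243) (nat_lit 152) (nat_lit 26504599282) (nat_lit 0) (nat_lit 21850502276) (nat_lit 6) (nat_lit 5) (nat_lit 8) (nat_lit 4) (nat_lit 6) (nat_lit 4) (nat_lit 497) (nat_lit 366) (nat_lit 337)) (XT.lf (nat_lit 0) (nat_lit 38532090937) (nat_lit 152) (nat_lit 2694207458) (nat_lit 0) (nat_lit 35376793211) (nat_lit 6) (nat_lit 5) (nat_lit 8) (nat_lit 4) (nat_lit 6) (nat_lit 4) (nat_lit 498) (nat_lit 366) (nat_lit 336)))) (XT.nd (nat_lit 59904) (nat_lit 0) (nat_lit 2508) (XT.lf (nat_lit 0) (nat_lit 22357905993) (nat_lit 76) (nat_lit 30449596073) (nat_lit 76) (nat_lit 27249068101) (nat_lit 5) (nat_lit 4) (nat_lit 6) (nat_lit 5) (nat_lit 6) (nat_lit 4) (nat_lit 499) (nat_lit 366) (nat_lit 335)) (XT.nd (nat_lit 78) (nat_lit 76) (nat_lit 0) (XT.lf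 (nat_lit 0) (nat_lit 1561488657) (nat_lit 152) (nat_lit 8197391419) (nat_lit 0) (nat_lit 1561488657) (nat_lit 39) (nat_lit 5) (nat_lit 41) (nat_lit 4) (nat_lit 39) (nat_lit 4) (nat_lit 466) (nat_lit 367) (nat_lit 367)) (XT.lf (nat_lit 0) (nat_lit 10387771619) (nat_lit 76) (nat_lit 6624018079) (nat_lit 76) (nat_lit 6339894878) (nat_lit 38) (nat_lit 4) (nat_lit 39) (nat_lit 5) (nat_lit 39) (nat_lit 4) (nat_lit 467) (nat_lit 367) (nat_lit 366))))) (XT.nd (nat_lit 234) (nat_lit 456) (nat_lit 0) (XT.nd (nat_lit 78) (nat_lit 228) (nat_lit 0) (XT.lf (nat_lit 0) (nat_lit 7270689140) (nat_lit 152) (nat_lit 10095600154) (nat_lit 0) (nat_lit 6732129213) (nat_lit 36) (nat_lit 5) (nat_lit 38) (nat_lit 4) (nat_lit 36) (nat_lit 4) (nat_lit 468) (nat_lit 367) (nat_lit 365)) (XT.nd (nat_lit 78) (nat_lit 152) (nat_lit 0) (XT.lf (nat_lit 0) (nat_lit 17038048074) (nat_lit 76) (nat_lit 4316799818) (nat_lit 76) (nat_lit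 3528037835) (nat_lit 35) (nat_lit 4) (nat_lit 36) (nat_lit 5) (nat_lit 36) (nat_lit 4) (nat_lit 469) (nat_lit 367) (nat_lit 364)) (XT.lf (nat_lit 0) (nat_lit 10181218226) (nat_lit 152) (nat_lit 6339822961) (nat_lit 0) (nat_lit 9184082637) (nat_lit 33) (nat_lit 5) (nat_lit 35) (nat_lit 4) (nat_lit 33) (nat_lit 4) (nat_lit 470) (nat_lit 367) (nat_lit 363)))) (XT.nd (nat_lit 156) (nat_lit 228) (nat_lit 0) (XT.nd (nat_lit 78) (nat_lit 152) (nat_lit 0) (XT.lf (nat_lit 0) (nat_lit 21023758815) (nat_lit 76) (nat_lit 3382026542) (nat_lit 76) (nat_lit 2164560234) (nat_lit 32) (nat_lit 4) (nat_lit 33) (nat_lit 5) (nat_lit 33) (nat_lit 4) (nat_lit 471) (nat_lit 367) (nat_lit 362)) (XT.lf (nat_lit 0) (nat_lit 11590958684) (nat_lit 152) (nat_lit 5680436266) (nat_lit 0) (nat_lit 10205225589) (nat_lit 30) (nat_lit 5) (nat_lit 32) (nat_lit 4) (nat_lit 30) (nat_lit 4) (nat_lit 472) (nat_lit 367) (nat_lit 361)))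 (XT.nd (nat_lit 78) (nat_lit 152) (nat_lit 0) (XT.lf (nat_lit 0) (nat_lit 21754211431) (nat_lit 76) (nat_lit 4128165285) (nat_lit 76) (nat_lit 2548406503) (nat_lit 29) (nat_lit 4) (nat_lit 30) (nat_lit 5) (nat_lit 30) (nat_lit 4) (nat_lit 473) (nat_lit 367) (nat_lit 360)) (XT.lf (nat_lit 0) (nat_lit 11183037705) (nat_lit 152) (nat_lit 8777902969) (nat_lit 0) (nat_lit 9469887073) (nat_lit 27) (nat_lit 5) (nat_lit 29) (nat_lit 4) (nat_lit 27) (nat_lit 4) (nat_lit 474) (nat_lit 367) (nat_lit 359))))))) (XT.nd (nat_lit 1014) (nat_lit 532) (nat_lit 0) (XT.nd (nat_lit 468) (nat_lit 608) (nat_lit 0) (XT.nd (nat_lit 234) (nat_lit 228) (nat_lit 0) (XT.nd (nat_lit 78) (nat_lit 228) (nat_lit 0) (XT.lf (nat_lit 0) (nat_lit 18523744817) (nat_lit 76) (nat_lit 6921736875) (nat_lit 76) (nat_lit 5037725061) (nat_lit 26) (nat_lit 4) (nat_lit 27) (nat_lit 5) (nat_lit 27) (nat_lit 4) (nat_lit 475) (nat_lit 367) (nat_lit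 358)) (XT.nd (nat_lit 78) (nat_lit 76) (nat_lit 0) (XT.lf (nat_lit 0) (nat_lit 8577948017) (nat_lit 152) (nat_lit 16419363510) (nat_lit 0) (nat_lit 6590824960) (nat_lit 24) (nat_lit 5) (nat_lit 26) (nat_lit 4) (nat_lit 24) (nat_lit 4) (nat_lit 476) (nat_lit 367) (nat_lit 357)) (XT.lf (nat_lit 0) (nat_lit 10491179732) (nat_lit 76) (nat_lit 12197830471) (nat_lit 76) (nat_lit 10060245152) (nat_lit 23) (nat_lit 4) (nat_lit 24) (nat_lit 5) (nat_lit 24) (nat_lit 4) (nat_lit 477) (nat_lit 367) (nat_lit 356)))) (XT.nd (nat_lit 78) (nat_lit 76) (nat_lit 0) (XT.lf (nat_lit 0) (nat_lit 3322540649) (nat_lit 152) (nat_lit 29541149578) (nat_lit 0) (nat_lit 1108091416) (nat_lit 21) (nat_lit 5) (nat_lit 23) (nat_lit 4) (nat_lit 21) (nat_lit 4) (nat_lit 478) (nat_lit 367) (nat_lit 355)) (XT.nd (nat_lit 78) (nat_lit 76) (nat_lit 0) (XT.lf (nat_lit 0) (nat_lit 17160279744) (nat_lit 152) (nat_lit 3279020753) (nat_lit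 0) (nat_lit 14813331767) (nat_lit 21) (nat_lit 5) (nat_lit 23) (nat_lit 4) (nat_lit 21) (nat_lit 4) (nat_lit 479) (nat_lit 367) (nat_lit 354)) (XT.lf (nat_lit 0) (nat_lit 24078026350) (nat_lit 76) (nat_lit 7498027120) (nat_lit 76) (nat_lit 5024889863) (nat_lit 20) (nat_lit 4) (nat_lit 21) (nat_lit 5) (nat_lit 21) (nat_lit 4) (nat_lit 480) (nat_lit 367) (nat_lit 353))))) (XT.nd (nat_lit 234) (nat_lit 380) (nat_lit 0) (XT.nd (nat_lit 78) (nat_lit 76) (nat_lit 0) (XT.lf (nat_lit 0) (nat_lit 8417784634) (nat_lit 152) (nat_lit 23699633303) (nat_lit 0) (nat_lit 5900000631) (nat_lit 18) (nat_lit 5) (nat_lit 20) (nat_lit 4) (nat_lit 18) (nat_lit 4) (nat_lit 481) (nat_lit 367) (nat_lit 352)) (XT.nd (nat_lit 78) (nat_lit 0) (nat_lit 0) (XT.lf (nat_lit 0) (nat_lit 2520445679) (nat_lit 76) (nat_lit 19807357558) (nat_lit 76) (nat_lit 17178449869) (nat_lit 17) (nat_lit 4) (nat_lit 18) (nat_lit 5) (nat_lit 18)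 (nat_lit 4) (nat_lit 482) (nat_lit 367) (nat_lit 351)) (XT.lf (nat_lit 0) (nat_lit 29903340961) (nat_lit 76) (nat_lit 6951640200) (nat_lit 76) (nat_lit 4216900429) (nat_lit 17) (nat_lit 4) (nat_lit 18) (nat_lit 5) (nat_lit 18) (nat_lit 4) (nat_lit 483) (nat_lit 367) (nat_lit 350)))) (XT.nd (nat_lit 156) (nat_lit 228) (nat_lit 0) (XT.nd (nat_lit 78) (nat_lit 0) (nat_lit 0) (XT.lf (nat_lit 0) (nat_lit 9111090829) (nat_lit 152) (nat_lit 27246797410) (nat_lit 0) (nat_lit 6358146916) (nat_lit 15) (nat_lit 5) (nat_lit 17) (nat_lit 4) (nat_lit 15) (nat_lit 4) (nat_lit 484) (nat_lit 367) (nat_lit 349)) (XT.lf (nat_lit 0) (nat_lit 22901448904) (nat_lit 152) (nat_lit 1487893227) (nat_lit 0) (nat_lit 20055308080) (nat_lit 15) (nat_lit 5) (nat_lit 17) (nat_lit 4) (nat_lit 15) (nat_lit 4) (nat_lit 485) (nat_lit 367) (nat_lit 348))) (XT.nd (nat_lit 78) (nat_lit 152) (nat_lit 0) (XT.lf (nat_lit 0) (nat_lit 25477664283)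 (nat_lit 76) (nat_lit 11859134479) (nat_lit 76) (nat_lit 8924234693) (nat_lit 14) (nat_lit 4) (nat_lit 15) (nat_lit 5) (nat_lit 15) (nat_lit 4) (nat_lit 486) (nat_lit 367) (nat_lit 347)) (XT.lf (nat_lit 0) (nat_lit 4033170166) (nat_lit 152) (nat_lit 43038380146) (nat_lit 0) (nat_lit 1101682659) (nat_lit 12) (nat_lit 5) (nat_lit 14) (nat_lit 4) (nat_lit 12) (nat_lit 4) (nat_lit 487) (nat_lit 367) (nat_lit 346)))))) (XT.nd (nat_lit 468) (nat_lit 304) (nat_lit 0) (XT.nd (nat_lit 234) (nat_lit 152) (nat_lit 0) (XT.nd (nat_lit 78) (nat_lit 76) (nat_lit 0) (XT.lf (nat_lit 0) (nat_lit 17513087601) (nat_lit 152) (nat_lit 18160091316) (nat_lit 0) (nat_lit 14503437963) (nat_lit 12) (nat_lit 5) (nat_lit 14) (nat_lit 4) (nat_lit 12) (nat_lit 4) (nat_lit 488) (nat_lit 367) (nat_lit 345)) (XT.nd (nat_lit 78) (nat_lit 0) (nat_lit 0) (XT.lf (nat_lit 0) (nat_lit 7579661696) (nat_lit 76) (nat_lit 23895182076) (nat_lit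 76) (nat_lit 20811092312) (nat_lit 11) (nat_lit 4) (nat_lit 12) (nat_lit 5) (nat_lit 12) (nat_lit 4) (nat_lit 489) (nat_lit 367) (nat_lit 344)) (XT.lf (nat_lit 0) (nat_lit 34470740669) (nat_lit 76) (nat_lit 11593539622) (nat_lit 76) (nat_lit 8438554501) (nat_lit 11) (nat_lit 4) (nat_lit 12) (nat_lit 5) (nat_lit 12) (nat_lit 4) (nat_lit 490) (nat_lit 367) (nat_lit 343)))) (XT.nd (nat_lit 78) (nat_lit 0) (nat_lit 0) (XT.lf (nat_lit 0) (nat_lit 4279854446) (nat_lit 152) (nat_lit 51403720584) (nat_lit 0) (nat_lit 1151209291) (nat_lit 9) (nat_lit 5) (nat_lit 11) (nat_lit 4) (nat_lit 9) (nat_lit 4) (nat_lit 491) (nat_lit 367) (nat_lit 342)) (XT.nd (nat_lit 78) (nat_lit 0) (nat_lit 0) (XT.lf (nat_lit 0) (nat_lit 17543875354) (nat_lit 152) (nat_lit 27381625261) (nat_lit 0) (nat_lit 14352798958) (nat_lit 9) (nat_lit 5) (nat_lit 11) (nat_lit 4) (nat_lit 9) (nat_lit 4) (nat_lit 492) (nat_lit 367) (nat_lit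 341)) (XT.lf (nat_lit 0) (nat_lit 31239974058) (nat_lit 152) (nat_lit 2621511999) (nat_lit 0) (nat_lit 27989439335) (nat_lit 9) (nat_lit 5) (nat_lit 11) (nat_lit 4) (nat_lit 9) (nat_lit 4) (nat_lit 493) (nat_lit 367) (nat_lit 340))))) (XT.nd (nat_lit 234) (nat_lit 76) (nat_lit 0) (XT.nd (nat_lit 78) (nat_lit 152) (nat_lit 0) (XT.lf (nat_lit 0) (nat_lit 23392034704) (nat_lit 76) (nat_lit 22233584158) (nat_lit 76) (nat_lit 18926422459) (nat_lit 8) (nat_lit 4) (nat_lit 9) (nat_lit 5) (nat_lit 9) (nat_lit 4) (nat_lit 494) (nat_lit 367) (nat_lit 339)) (XT.nd (nat_lit 78) (nat_lit 152) (nat_lit 0) (XT.lf (nat_lit 0) (nat_lit 50332647741) (nat_lit 76) (nat_lit 10211130743) (nat_lit 76) (nat_lit 6850038590) (nat_lit 8) (nat_lit 4) (nat_lit 9) (nat_lit 5) (nat_lit 9) (nat_lit 4) (nat_lit 495) (nat_lit 367) (nat_lit 338)) (XT.lf (nat_lit 0) (nat_lit 5609540489) (nat_lit 152) (nat_lit 62473188577) (nat_lit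 0) (nat_lit 2296477877) (nat_lit 6) (nat_lit 5) (nat_lit 8) (nat_lit 4) (nat_lit 6) (nat_lit 4) (nat_lit 496) (nat_lit 367) (nat_lit 337)))) (XT.nd (nat_lit 156) (nat_lit 76) (nat_lit 0) (XT.nd (nat_lit 78) (nat_lit 0) (nat_lit 0) (XT.lf (nat_lit 0) (nat_lit 18630600662) (nat_lit 152) (nat_lit 39608780429) (nat_lit 0) (nat_lit 15270046291) (nat_lit 6) (nat_lit 5) (nat_lit 8) (nat_lit 4) (nat_lit 6) (nat_lit 4) (nat_lit 497) (nat_lit 367) (nat_lit 336)) (XT.lf (nat_lit 0) (nat_lit 32110735274) (nat_lit 152) (nat_lit 15986233112) (nat_lit 0) (nat_lit 28704950657) (nat_lit 6) (nat_lit 5) (nat_lit 8) (nat_lit 4) (nat_lit 6) (nat_lit 4) (nat_lit 498) (nat_lit 367) (nat_lit 335))) (XT.nd (nat_lit 59748) (nat_lit 0) (nat_lit 2964) (XT.lf (nat_lit 0) (nat_lit 8618882985) (nat_lit 76) (nat_lit 37546006874) (nat_lit 76) (nat_lit 34097145832) (nat_lit 5) (nat_lit 4) (nat_lit 6) (nat_lit 5) (nat_lit 6) (nat_lit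 4) (nat_lit 499) (nat_lit 367) (nat_lit 334)) (XT.lf (nat_lit 0) (nat_lit 9156194391) (nat_lit 76) (nat_lit 749339880) (nat_lit 76) (nat_lit 749339880) (nat_lit 44) (nat_lit 4) (nat_lit 45) (nat_lit 5) (nat_lit 45) (nat_lit 4) (nat_lit 464) (nat_lit 368) (nat_lit 368))))))))
noncomputable def xc6 : XT := (XT.nd (nat_lit 1950) (nat_lit 456) (nat_lit 0) (XT.nd (nat_lit 936) (nat_lit 912) (nat_lit 0) (XT.nd (nat_lit 468) (nat_lit 684) (nat_lit 0) (XT.nd (nat_lit 234) (nat_lit 380) (nat_lit 0) (XT.nd (nat_lit 78) (nat_lit 228) (nat_lit 0) (XT.lf (nat_lit 0) (nat_lit 1566174024) (nat_lit 76) (nat_lit 10351561572) (nat_lit 76) (nat_lit 10044282330) (nat_lit 41) (nat_lit 4) (nat_lit 42) (nat_lit 5) (nat_lit 42) (nat_lit 4) (nat_lit 465) (nat_lit 368) (nat_lit 367)) (XT.nd (nat_lit 78) (nat_lit 76) (nat_lit 0) (XT.lf (nat_lit 0) (nat_lit 3196610881) (nat_lit 152) (nat_lit 16836711721) (nat_lit 0) (nat_lit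 2614158321) (nat_lit 39) (nat_lit 5) (nat_lit 41) (nat_lit 4) (nat_lit 39) (nat_lit 4) (nat_lit 466) (nat_lit 368) (nat_lit 366)) (XT.lf (nat_lit 0) (nat_lit 9507786404) (nat_lit 76) (nat_lit 7355181909) (nat_lit 76) (nat_lit 6502135824) (nat_lit 38) (nat_lit 4) (nat_lit 39) (nat_lit 5) (nat_lit 39) (nat_lit 4) (nat_lit 467) (nat_lit 368) (nat_lit 365)))) (XT.nd (nat_lit 78) (nat_lit 228) (nat_lit 0) (XT.lf (nat_lit 0) (nat_lit 6879903096) (nat_lit 152) (nat_lit 11437434404) (nat_lit 0) (nat_lit 5801500957) (nat_lit 36) (nat_lit 5) (nat_lit 38) (nat_lit 4) (nat_lit 36) (nat_lit 4) (nat_lit 468) (nat_lit 368) (nat_lit 364)) (XT.nd (nat_lit 78) (nat_lit 152) (nat_lit 0) (XT.lf (nat_lit 0) (nat_lit 15256068298) (nat_lit 76) (nat_lit 5485305005) (nat_lit 76) (nat_lit 4168615193) (nat_lit 35) (nat_lit 4) (nat_lit 36) (nat_lit 5) (nat_lit 36) (nat_lit 4) (nat_lit 469) (nat_lit 368) (nat_lit 363)) (XT.lf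 (nat_lit 0) (nat_lit 9316638816) (nat_lit 152) (nat_lit 8604901095) (nat_lit 0) (nat_lit 7817968473) (nat_lit 33) (nat_lit 5) (nat_lit 35) (nat_lit 4) (nat_lit 33) (nat_lit 4) (nat_lit 470) (nat_lit 368) (nat_lit 362))))) (XT.nd (nat_lit 234) (nat_lit 380) (nat_lit 0) (XT.nd (nat_lit 78) (nat_lit 228) (nat_lit 0) (XT.lf (nat_lit 0) (nat_lit 18315429461) (nat_lit 76) (nat_lit 5002258627) (nat_lit 76) (nat_lit 3293749504) (nat_lit 32) (nat_lit 4) (nat_lit 33) (nat_lit 5) (nat_lit 33) (nat_lit 4) (nat_lit 471) (nat_lit 368) (nat_lit 361)) (XT.nd (nat_lit 78) (nat_lit 76) (nat_lit 0) (XT.lf (nat_lit 0) (nat_lit 10241768535) (nat_lit 152) (nat_lit 8894536337) (nat_lit 0) (nat_lit 8388996127) (nat_lit 30) (nat_lit 5) (nat_lit 32) (nat_lit 4) (nat_lit 30) (nat_lit 4) (nat_lit 472) (nat_lit 368) (nat_lit 360)) (XT.lf (nat_lit 0) (nat_lit 18092704858) (nat_lit 76) (nat_lit 6215533856) (nat_lit 76) (nat_lit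 4177975079) (nat_lit 29) (nat_lit 4) (nat_lit 30) (nat_lit 5) (nat_lit 30) (nat_lit 4) (nat_lit 473) (nat_lit 368) (nat_lit 359)))) (XT.nd (nat_lit 78) (nat_lit 228) (nat_lit 0) (XT.lf (nat_lit 0) (nat_lit 9336940261) (nat_lit 152) (nat_lit 12969372699) (nat_lit 0) (nat_lit 7187866674) (nat_lit 27) (nat_lit 5) (nat_lit 29) (nat_lit 4) (nat_lit 27) (nat_lit 4) (nat_lit 474) (nat_lit 368) (nat_lit 358)) (XT.nd (nat_lit 78) (nat_lit 152) (nat_lit 0) (XT.lf (nat_lit 0) (nat_lit 13879628095) (nat_lit 76) (nat_lit 9492770064) (nat_lit 76) (nat_lit 7180971541) (nat_lit 26) (nat_lit 4) (nat_lit 27) (nat_lit 5) (nat_lit 27) (nat_lit 4) (nat_lit 475) (nat_lit 368) (nat_lit 357)) (XT.lf (nat_lit 0) (nat_lit 6221125506) (nat_lit 152) (nat_lit 21619256654) (nat_lit 0) (nat_lit 3826198661) (nat_lit 24) (nat_lit 5) (nat_lit 26) (nat_lit 4) (nat_lit 24) (nat_lit 4) (nat_lit 476) (nat_lit 368) (nat_lit 356))))))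 (XT.nd (nat_lit 468) (nat_lit 456) (nat_lit 0) (XT.nd (nat_lit 234) (nat_lit 228) (nat_lit 0) (XT.nd (nat_lit 78) (nat_lit 152) (nat_lit 0) (XT.lf (nat_lit 0) (nat_lit 4832275542) (nat_lit 76) (nat_lit 15270269483) (nat_lit 76) (nat_lit 12732045246) (nat_lit 23) (nat_lit 4) (nat_lit 24) (nat_lit 5) (nat_lit 24) (nat_lit 4) (nat_lit 477) (nat_lit 368) (nat_lit 355)) (XT.nd (nat_lit 78) (nat_lit 76) (nat_lit 0) (XT.lf (nat_lit 0) (nat_lit 477474383) (nat_lit 152) (nat_lit 1705424944) (nat_lit 76) (nat_lit 31881751003) (nat_lit 22) (nat_lit 5) (nat_lit 24) (nat_lit 5) (nat_lit 23) (nat_lit 4) (nat_lit 478) (nat_lit 368) (nat_lit 354)) (XT.lf (nat_lit 0) (nat_lit 14108903234) (nat_lit 152) (nat_lit 9856868334) (nat_lit 0) (nat_lit 11385919835) (nat_lit 21) (nat_lit 5) (nat_lit 23) (nat_lit 4) (nat_lit 21) (nat_lit 4) (nat_lit 479) (nat_lit 368) (nat_lit 353)))) (XT.nd (nat_lit 78) (nat_lit 152) (nat_lit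 0) (XT.lf (nat_lit 0) (nat_lit 17043259516) (nat_lit 76) (nat_lit 11253374501) (nat_lit 76) (nat_lit 8410210835) (nat_lit 20) (nat_lit 4) (nat_lit 21) (nat_lit 5) (nat_lit 21) (nat_lit 4) (nat_lit 480) (nat_lit 368) (nat_lit 352)) (XT.nd (nat_lit 78) (nat_lit 0) (nat_lit 0) (XT.lf (nat_lit 0) (nat_lit 4829808281) (nat_lit 152) (nat_lit 31344219002) (nat_lit 0) (nat_lit 1958331522) (nat_lit 18) (nat_lit 5) (nat_lit 20) (nat_lit 4) (nat_lit 18) (nat_lit 4) (nat_lit 481) (nat_lit 368) (nat_lit 351)) (XT.lf (nat_lit 0) (nat_lit 18561392341) (nat_lit 152) (nat_lit 5481071501) (nat_lit 0) (nat_lit 15584083499) (nat_lit 18) (nat_lit 5) (nat_lit 20) (nat_lit 4) (nat_lit 18) (nat_lit 4) (nat_lit 482) (nat_lit 368) (nat_lit 350))))) (XT.nd (nat_lit 234) (nat_lit 228) (nat_lit 0) (XT.nd (nat_lit 78) (nat_lit 152) (nat_lit 0) (XT.lf (nat_lit 0) (nat_lit 21493812751) (nat_lit 76) (nat_lit 11391284737) (nat_lit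 76) (nat_lit 8313183436) (nat_lit 17) (nat_lit 4) (nat_lit 18) (nat_lit 5) (nat_lit 18) (nat_lit 4) (nat_lit 483) (nat_lit 368) (nat_lit 349)) (XT.nd (nat_lit 78) (nat_lit 0) (nat_lit 0) (XT.lf (nat_lit 0) (nat_lit 4819304166) (nat_lit 152) (nat_lit 36294916166) (nat_lit 0) (nat_lit 1737659390) (nat_lit 15) (nat_lit 5) (nat_lit 17) (nat_lit 4) (nat_lit 15) (nat_lit 4) (nat_lit 484) (nat_lit 368) (nat_lit 348)) (XT.lf (nat_lit 0) (nat_lit 18468475404) (nat_lit 152) (nat_lit 10818184118) (nat_lit 0) (nat_lit 15298071665) (nat_lit 15) (nat_lit 5) (nat_lit 17) (nat_lit 4) (nat_lit 15) (nat_lit 4) (nat_lit 485) (nat_lit 368) (nat_lit 347)))) (XT.nd (nat_lit 156) (nat_lit 152) (nat_lit 0) (XT.nd (nat_lit 78) (nat_lit 0) (nat_lit 0) (XT.lf (nat_lit 0) (nat_lit 15687598580) (nat_lit 76) (nat_lit 16987654929) (nat_lit 76) (nat_lit 13732718845) (nat_lit 14) (nat_lit 4) (nat_lit 15) (nat_lit 5) (nat_lit 15)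 (nat_lit 4) (nat_lit 486) (nat_lit 368) (nat_lit 346)) (XT.lf (nat_lit 0) (nat_lit 43209622793) (nat_lit 76) (nat_lit 4226443248) (nat_lit 76) (nat_lit 891000168) (nat_lit 14) (nat_lit 4) (nat_lit 15) (nat_lit 5) (nat_lit 15) (nat_lit 4) (nat_lit 487) (nat_lit 368) (nat_lit 345))) (XT.nd (nat_lit 78) (nat_lit 0) (nat_lit 0) (XT.lf (nat_lit 0) (nat_lit 12385732154) (nat_lit 152) (nat_lit 28878594960) (nat_lit 0) (nat_lit 9072997777) (nat_lit 12) (nat_lit 5) (nat_lit 14) (nat_lit 4) (nat_lit 12) (nat_lit 4) (nat_lit 488) (nat_lit 368) (nat_lit 344)) (XT.lf (nat_lit 0) (nat_lit 26151507200) (nat_lit 152) (nat_lit 3533139507) (nat_lit 0) (nat_lit 22767877465) (nat_lit 12) (nat_lit 5) (nat_lit 14) (nat_lit 4) (nat_lit 12) (nat_lit 4) (nat_lit 489) (nat_lit 368) (nat_lit 343))))))) (XT.nd (nat_lit 60528) (nat_lit 0) (nat_lit 1368) (XT.nd (nat_lit 468) (nat_lit 152) (nat_lit 0) (XT.nd (nat_lit 234) (nat_lit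 76) (nat_lit 0) (XT.nd (nat_lit 78) (nat_lit 152) (nat_lit 0) (XT.lf (nat_lit 0) (nat_lit 23048294750) (nat_lit 76) (nat_lit 17538451890) (nat_lit 76) (nat_lit 14087302767) (nat_lit 11) (nat_lit 4) (nat_lit 12) (nat_lit 5) (nat_lit 12) (nat_lit 4) (nat_lit 490) (nat_lit 368) (nat_lit 342)) (XT.nd (nat_lit 78) (nat_lit 152) (nat_lit 0) (XT.lf (nat_lit 0) (nat_lit 50565372911) (nat_lit 76) (nat_lit 4981322042) (nat_lit 76) (nat_lit 1465868739) (nat_lit 11) (nat_lit 4) (nat_lit 12) (nat_lit 5) (nat_lit 12) (nat_lit 4) (nat_lit 491) (nat_lit 368) (nat_lit 341)) (XT.lf (nat_lit 0) (nat_lit 11602296411) (nat_lit 152) (nat_lit 39731162975) (nat_lit 0) (nat_lit 8129776627) (nat_lit 9) (nat_lit 5) (nat_lit 11) (nat_lit 4) (nat_lit 9) (nat_lit 4) (nat_lit 492) (nat_lit 368) (nat_lit 340)))) (XT.nd (nat_lit 78) (nat_lit 76) (nat_lit 0) (XT.lf (nat_lit 0) (nat_lit 25191020782) (nat_lit 152) (nat_lit 15186188773)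 (nat_lit 0) (nat_lit 21661874021) (nat_lit 9) (nat_lit 5) (nat_lit 11) (nat_lit 4) (nat_lit 9) (nat_lit 4) (nat_lit 493) (nat_lit 368) (nat_lit 339)) (XT.nd (nat_lit 78) (nat_lit 0) (nat_lit 0) (XT.lf (nat_lit 0) (nat_lit 10368324082) (nat_lit 76) (nat_lit 28980888361) (nat_lit 76) (nat_lit 25397811146) (nat_lit 8) (nat_lit 4) (nat_lit 9) (nat_lit 5) (nat_lit 9) (nat_lit 4) (nat_lit 494) (nat_lit 368) (nat_lit 338)) (XT.lf (nat_lit 0) (nat_lit 37109916031) (nat_lit 76) (nat_lit 17058151237) (nat_lit 76) (nat_lit 13423711685) (nat_lit 8) (nat_lit 4) (nat_lit 9) (nat_lit 5) (nat_lit 9) (nat_lit 4) (nat_lit 495) (nat_lit 368) (nat_lit 337))))) (XT.nd (nat_lit 234) (nat_lit 0) (nat_lit 0) (XT.nd (nat_lit 78) (nat_lit 152) (nat_lit 0) (XT.lf (nat_lit 0) (nat_lit 64800022597) (nat_lit 76) (nat_lit 4733961443) (nat_lit 76) (nat_lit 1050605379) (nat_lit 8) (nat_lit 4) (nat_lit 9) (nat_lit 5) (nat_lit 9)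 (nat_lit 4) (nat_lit 496) (nat_lit 368) (nat_lit 336)) (XT.nd (nat_lit 78) (nat_lit 0) (nat_lit 0) (XT.lf (nat_lit 0) (nat_lit 11794529133) (nat_lit 152) (nat_lit 53753251872) (nat_lit 0) (nat_lit 8173225038) (nat_lit 6) (nat_lit 5) (nat_lit 8) (nat_lit 4) (nat_lit 6) (nat_lit 4) (nat_lit 497) (nat_lit 368) (nat_lit 335)) (XT.lf (nat_lit 0) (nat_lit 25185475095) (nat_lit 152) (nat_lit 30309604085) (nat_lit 0) (nat_lit 21521094574) (nat_lit 6) (nat_lit 5) (nat_lit 8) (nat_lit 4) (nat_lit 6) (nat_lit 4) (nat_lit 498) (nat_lit 368) (nat_lit 334)))) (XT.nd (nat_lit 59670) (nat_lit 0) (nat_lit 2888) (XT.nd (nat_lit 59592) (nat_lit 0) (nat_lit 3116) (XT.lf (nat_lit 0) (nat_lit 39071838133) (nat_lit 152) (nat_lit 6043053943) (nat_lit 0) (nat_lit 35366432445) (nat_lit 6) (nat_lit 5) (nat_lit 8) (nat_lit 4) (nat_lit 6) (nat_lit 4) (nat_lit 499) (nat_lit 368) (nat_lit 333)) (XT.lf (nat_lit 0) (nat_lit 3590085885)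 (nat_lit 76) (nat_lit 3226063356) (nat_lit 76) (nat_lit 3226063356) (nat_lit 47) (nat_lit 4) (nat_lit 48) (nat_lit 5) (nat_lit 48) (nat_lit 4) (nat_lit 462) (nat_lit 369) (nat_lit 369))) (XT.nd (nat_lit 78) (nat_lit 76) (nat_lit 0) (XT.lf (nat_lit 0) (nat_lit 6510507091) (nat_lit 152) (nat_lit 7996661959) (nat_lit 0) (nat_lit 6178184591) (nat_lit 45) (nat_lit 5) (nat_lit 47) (nat_lit 4) (nat_lit 45) (nat_lit 4) (nat_lit 463) (nat_lit 369) (nat_lit 368)) (XT.lf (nat_lit 0) (nat_lit 17892779251) (nat_lit 76) (nat_lit 2036113497) (nat_lit 76) (nat_lit 1387293379) (nat_lit 44) (nat_lit 4) (nat_lit 45) (nat_lit 5) (nat_lit 45) (nat_lit 4) (nat_lit 464) (nat_lit 369) (nat_lit 367)))))) (XT.nd (nat_lit 468) (nat_lit 684) (nat_lit 0) (XT.nd (nat_lit 234) (nat_lit 380) (nat_lit 0) (XT.nd (nat_lit 78) (nat_lit 228) (nat_lit 0) (XT.lf (nat_lit 0) (nat_lit 696097209) (nat_lit 76) (nat_lit 11100898500) (nat_lit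 76) (nat_lit 10178329158) (nat_lit 41) (nat_lit 4) (nat_lit 42) (nat_lit 5) (nat_lit 42) (nat_lit 4) (nat_lit 465) (nat_lit 369) (nat_lit 366)) (XT.nd (nat_lit 78) (nat_lit 76) (nat_lit 0) (XT.lf (nat_lit 0) (nat_lit 2835234336) (nat_lit 152) (nat_lit 18163550583) (nat_lit 0) (nat_lit 1668942423) (nat_lit 39) (nat_lit 5) (nat_lit 41) (nat_lit 4) (nat_lit 39) (nat_lit 4) (nat_lit 466) (nat_lit 369) (nat_lit 365)) (XT.lf (nat_lit 0) (nat_lit 7745720771) (nat_lit 76) (nat_lit 8535127234) (nat_lit 76) (nat_lit 7111127203) (nat_lit 38) (nat_lit 4) (nat_lit 39) (nat_lit 5) (nat_lit 39) (nat_lit 4) (nat_lit 467) (nat_lit 369) (nat_lit 364)))) (XT.nd (nat_lit 78) (nat_lit 228) (nat_lit 0) (XT.lf (nat_lit 0) (nat_lit 6048181666) (nat_lit 152) (nat_lit 13677374365) (nat_lit 0) (nat_lit 4427369691) (nat_lit 36) (nat_lit 5) (nat_lit 38) (nat_lit 4) (nat_lit 36) (nat_lit 4) (nat_lit 468) (nat_lit 369) (nat_lit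 363)) (XT.nd (nat_lit 78) (nat_lit 152) (nat_lit 0) (XT.lf (nat_lit 0) (nat_lit 12577796384) (nat_lit 76) (nat_lit 7110339764) (nat_lit 76) (nat_lit 5262587147) (nat_lit 35) (nat_lit 4) (nat_lit 36) (nat_lit 5) (nat_lit 36) (nat_lit 4) (nat_lit 469) (nat_lit 369) (nat_lit 362)) (XT.lf (nat_lit 0) (nat_lit 8003988768) (nat_lit 152) (nat_lit 11783557153) (nat_lit 0) (nat_lit 6000215408) (nat_lit 33) (nat_lit 5) (nat_lit 35) (nat_lit 4) (nat_lit 33) (nat_lit 4) (nat_lit 470) (nat_lit 369) (nat_lit 361))))) (XT.nd (nat_lit 234) (nat_lit 380) (nat_lit 0) (XT.nd (nat_lit 78) (nat_lit 228) (nat_lit 0) (XT.lf (nat_lit 0) (nat_lit 14694300749) (nat_lit 76) (nat_lit 7087849034) (nat_lit 76) (nat_lit 4884229217) (nat_lit 32) (nat_lit 4) (nat_lit 33) (nat_lit 5) (nat_lit 33) (nat_lit 4) (nat_lit 471) (nat_lit 369) (nat_lit 360)) (XT.nd (nat_lit 78) (nat_lit 76) (nat_lit 0) (XT.lf (nat_lit 0) (nat_lit 8436128893)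 (nat_lit 152) (nat_lit 13040053920) (nat_lit 0) (nat_lit 6111905809) (nat_lit 30) (nat_lit 5) (nat_lit 32) (nat_lit 4) (nat_lit 30) (nat_lit 4) (nat_lit 472) (nat_lit 369) (nat_lit 359)) (XT.lf (nat_lit 0) (nat_lit 13499502766) (nat_lit 76) (nat_lit 8778228197) (nat_lit 76) (nat_lit 6278018095) (nat_lit 29) (nat_lit 4) (nat_lit 30) (nat_lit 5) (nat_lit 30) (nat_lit 4) (nat_lit 473) (nat_lit 369) (nat_lit 358)))) (XT.nd (nat_lit 156) (nat_lit 152) (nat_lit 0) (XT.nd (nat_lit 78) (nat_lit 76) (nat_lit 0) (XT.lf (nat_lit 0) (nat_lit 7024732748) (nat_lit 152) (nat_lit 18112564187) (nat_lit 0) (nat_lit 4434619364) (nat_lit 27) (nat_lit 5) (nat_lit 29) (nat_lit 4) (nat_lit 27) (nat_lit 4) (nat_lit 474) (nat_lit 369) (nat_lit 357)) (XT.lf (nat_lit 0) (nat_lit 8282430796) (nat_lit 76) (nat_lit 12550295215) (nat_lit 76) (nat_lit 9805205702) (nat_lit 26) (nat_lit 4) (nat_lit 27) (nat_lit 5) (nat_lit 27)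 (nat_lit 4) (nat_lit 475) (nat_lit 369) (nat_lit 356))) (XT.nd (nat_lit 78) (nat_lit 0) (nat_lit 0) (XT.lf (nat_lit 0) (nat_lit 3387207943) (nat_lit 152) (nat_lit 27793744612) (nat_lit 0) (nat_lit 578775103) (nat_lit 24) (nat_lit 5) (nat_lit 26) (nat_lit 4) (nat_lit 24) (nat_lit 4) (nat_lit 476) (nat_lit 369) (nat_lit 355)) (XT.lf (nat_lit 0) (nat_lit 17055275895) (nat_lit 152) (nat_lit 1768493650) (nat_lit 0) (nat_lit 14110369348) (nat_lit 24) (nat_lit 5) (nat_lit 26) (nat_lit 4) (nat_lit 24) (nat_lit 4) (nat_lit 477) (nat_lit 369) (nat_lit 354))))))))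
noncomputable def xc7 : XT := (XT.nd (nat_lit 61308) (nat_lit 0) (nat_lit 532) (XT.nd (nat_lit 936) (nat_lit 456) (nat_lit 0) (XT.nd (nat_lit 468) (nat_lit 380) (nat_lit 0) (XT.nd (nat_lit 234) (nat_lit 228) (nat_lit 0) (XT.nd (nat_lit 78) (nat_lit 228) (nat_lit 0) (XT.lf (nat_lit 0) (nat_lit 25405611437) (nat_lit 76) (nat_lit 5919496184) (nat_lit 76) (nat_lit 2844614679) (nat_lit 23) (nat_lit 4) (nat_lit 24) (nat_lit 5) (nat_lit 24) (nat_lit 4) (nat_lit 478) (nat_lit 369) (nat_lit 353)) (XT.nd (nat_lit 78) (nat_lit 76) (nat_lit 0) (XT.lf (nat_lit 0) (nat_lit 10576095955) (nat_lit 152) (nat_lit 17418881802) (nat_lit 0) (nat_lit 7470593839) (nat_lit 21) (nat_lit 5) (nat_lit 23) (nat_lit 4) (nat_lit 21) (nat_lit 4) (nat_lit 479) (nat_lit 369) (nat_lit 352)) (XT.lf (nat_lit 0) (nat_lit 9020264116) (nat_lit 76) (nat_lit 15513659291) (nat_lit 76) (nat_lit 12293699778) (nat_lit 20) (nat_lit 4) (nat_lit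 21) (nat_lit 5) (nat_lit 21) (nat_lit 4) (nat_lit 480) (nat_lit 369) (nat_lit 351)))) (XT.nd (nat_lit 78) (nat_lit 152) (nat_lit 0) (XT.lf (nat_lit 0) (nat_lit 787640736) (nat_lit 152) (nat_lit 1730055861) (nat_lit 76) (nat_lit 35743595199) (nat_lit 19) (nat_lit 5) (nat_lit 21) (nat_lit 5) (nat_lit 20) (nat_lit 4) (nat_lit 481) (nat_lit 369) (nat_lit 350)) (XT.nd (nat_lit 78) (nat_lit 76) (nat_lit 0) (XT.lf (nat_lit 0) (nat_lit 14331030577) (nat_lit 152) (nat_lit 14431864746) (nat_lit 0) (nat_lit 10998231752) (nat_lit 18) (nat_lit 5) (nat_lit 20) (nat_lit 4) (nat_lit 18) (nat_lit 4) (nat_lit 482) (nat_lit 369) (nat_lit 349)) (XT.lf (nat_lit 0) (nat_lit 12080188828) (nat_lit 76) (nat_lit 16344187562) (nat_lit 76) (nat_lit 12915395919) (nat_lit 17) (nat_lit 4) (nat_lit 18) (nat_lit 5) (nat_lit 18) (nat_lit 4) (nat_lit 483) (nat_lit 369) (nat_lit 348))))) (XT.nd (nat_lit 234) (nat_lit 152) (nat_lit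 0) (XT.nd (nat_lit 78) (nat_lit 152) (nat_lit 0) (XT.lf (nat_lit 0) (nat_lit 89502133) (nat_lit 152) (nat_lit 3338524043) (nat_lit 76) (nat_lit 39573194773) (nat_lit 16) (nat_lit 5) (nat_lit 18) (nat_lit 5) (nat_lit 17) (nat_lit 4) (nat_lit 484) (nat_lit 369) (nat_lit 347)) (XT.nd (nat_lit 78) (nat_lit 76) (nat_lit 0) (XT.lf (nat_lit 0) (nat_lit 13538202739) (nat_lit 152) (nat_lit 21165897058) (nat_lit 0) (nat_lit 10035987506) (nat_lit 15) (nat_lit 5) (nat_lit 17) (nat_lit 4) (nat_lit 15) (nat_lit 4) (nat_lit 485) (nat_lit 369) (nat_lit 346)) (XT.lf (nat_lit 0) (nat_lit 4872913741) (nat_lit 76) (nat_lit 22640049113) (nat_lit 76) (nat_lit 19057326884) (nat_lit 14) (nat_lit 4) (nat_lit 15) (nat_lit 5) (nat_lit 15) (nat_lit 4) (nat_lit 486) (nat_lit 369) (nat_lit 345)))) (XT.nd (nat_lit 78) (nat_lit 152) (nat_lit 0) (XT.lf (nat_lit 0) (nat_lit 32146335934) (nat_lit 76) (nat_lit 10003087241) (nat_lit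 76) (nat_lit 6343691683) (nat_lit 14) (nat_lit 4) (nat_lit 15) (nat_lit 5) (nat_lit 15) (nat_lit 4) (nat_lit 487) (nat_lit 369) (nat_lit 344)) (XT.nd (nat_lit 78) (nat_lit 0) (nat_lit 0) (XT.lf (nat_lit 0) (nat_lit 6749611335) (nat_lit 152) (nat_lit 40638125460) (nat_lit 0) (nat_lit 3125904755) (nat_lit 12) (nat_lit 5) (nat_lit 14) (nat_lit 4) (nat_lit 12) (nat_lit 4) (nat_lit 488) (nat_lit 369) (nat_lit 343)) (XT.lf (nat_lit 0) (nat_lit 20398128494) (nat_lit 152) (nat_lit 15527328160) (nat_lit 0) (nat_lit 16706902527) (nat_lit 12) (nat_lit 5) (nat_lit 14) (nat_lit 4) (nat_lit 12) (nat_lit 4) (nat_lit 489) (nat_lit 369) (nat_lit 342)))))) (XT.nd (nat_lit 468) (nat_lit 152) (nat_lit 0) (XT.nd (nat_lit 234) (nat_lit 76) (nat_lit 0) (XT.nd (nat_lit 78) (nat_lit 152) (nat_lit 0) (XT.lf (nat_lit 0) (nat_lit 10587466501) (nat_lit 76) (nat_lit 24014446152) (nat_lit 76) (nat_lit 20258916005) (nat_lit 11)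 (nat_lit 4) (nat_lit 12) (nat_lit 5) (nat_lit 12) (nat_lit 4) (nat_lit 490) (nat_lit 369) (nat_lit 341)) (XT.nd (nat_lit 78) (nat_lit 152) (nat_lit 0) (XT.lf (nat_lit 0) (nat_lit 37887466829) (nat_lit 76) (nat_lit 11565951092) (nat_lit 76) (nat_lit 7749178870) (nat_lit 11) (nat_lit 4) (nat_lit 12) (nat_lit 5) (nat_lit 12) (nat_lit 4) (nat_lit 491) (nat_lit 369) (nat_lit 340)) (XT.lf (nat_lit 0) (nat_lit 5143521139) (nat_lit 152) (nat_lit 53139212649) (nat_lit 0) (nat_lit 1381290063) (nat_lit 9) (nat_lit 5) (nat_lit 11) (nat_lit 4) (nat_lit 9) (nat_lit 4) (nat_lit 492) (nat_lit 369) (nat_lit 339)))) (XT.nd (nat_lit 78) (nat_lit 76) (nat_lit 0) (XT.lf (nat_lit 0) (nat_lit 18629984241) (nat_lit 152) (nat_lit 28799132790) (nat_lit 0) (nat_lit 14813822711) (nat_lit 9) (nat_lit 5) (nat_lit 11) (nat_lit 4) (nat_lit 9) (nat_lit 4) (nat_lit 493) (nat_lit 369) (nat_lit 338)) (XT.nd (nat_lit 78) (nat_lit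 76) (nat_lit 0) (XT.lf (nat_lit 0) (nat_lit 32591117545) (nat_lit 152) (nat_lit 3642080751) (nat_lit 0) (nat_lit 28723593678) (nat_lit 9) (nat_lit 5) (nat_lit 11) (nat_lit 4) (nat_lit 9) (nat_lit 4) (nat_lit 494) (nat_lit 369) (nat_lit 337)) (XT.lf (nat_lit 0) (nat_lit 22837482755) (nat_lit 76) (nat_lit 24442206942) (nat_lit 76) (nat_lit 20525766563) (nat_lit 8) (nat_lit 4) (nat_lit 9) (nat_lit 5) (nat_lit 9) (nat_lit 4) (nat_lit 495) (nat_lit 369) (nat_lit 336))))) (XT.nd (nat_lit 234) (nat_lit 0) (nat_lit 0) (XT.nd (nat_lit 78) (nat_lit 152) (nat_lit 0) (XT.lf (nat_lit 0) (nat_lit 50347071327) (nat_lit 76) (nat_lit 12208462763) (nat_lit 76) (nat_lit 8245435231) (nat_lit 8) (nat_lit 4) (nat_lit 9) (nat_lit 5) (nat_lit 9) (nat_lit 4) (nat_lit 496) (nat_lit 369) (nat_lit 335)) (XT.nd (nat_lit 78) (nat_lit 0) (nat_lit 0) (XT.lf (nat_lit 0) (nat_lit 4433817294) (nat_lit 152) (nat_lit 68971690923)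 (nat_lit 0) (nat_lit 543141323) (nat_lit 6) (nat_lit 5) (nat_lit 8) (nat_lit 4) (nat_lit 6) (nat_lit 4) (nat_lit 497) (nat_lit 369) (nat_lit 334)) (XT.lf (nat_lit 0) (nat_lit 17739821685) (nat_lit 152) (nat_lit 45698423641) (nat_lit 0) (nat_lit 13808120546) (nat_lit 6) (nat_lit 5) (nat_lit 8) (nat_lit 4) (nat_lit 6) (nat_lit 4) (nat_lit 498) (nat_lit 369) (nat_lit 333)))) (XT.nd (nat_lit 59514) (nat_lit 0) (nat_lit 3116) (XT.nd (nat_lit 59436) (nat_lit 0) (nat_lit 3420) (XT.lf (nat_lit 0) (nat_lit 31545287987) (nat_lit 152) (nat_lit 21594140646) (nat_lit 0) (nat_lit 27574515261) (nat_lit 6) (nat_lit 5) (nat_lit 8) (nat_lit 4) (nat_lit 6) (nat_lit 4) (nat_lit 499) (nat_lit 369) (nat_lit 332)) (XT.lf (nat_lit 0) (nat_lit 3685554799) (nat_lit 152) (nat_lit 2107271847) (nat_lit 0) (nat_lit 3685554799) (nat_lit 51) (nat_lit 5) (nat_lit 53) (nat_lit 4) (nat_lit 51) (nat_lit 4) (nat_lit 460) (nat_lit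 370) (nat_lit 370))) (XT.nd (nat_lit 78) (nat_lit 76) (nat_lit 0) (XT.lf (nat_lit 0) (nat_lit 883606256) (nat_lit 152) (nat_lit 18104444914) (nat_lit 0) (nat_lit 524199473) (nat_lit 48) (nat_lit 5) (nat_lit 50) (nat_lit 4) (nat_lit 48) (nat_lit 4) (nat_lit 461) (nat_lit 370) (nat_lit 369)) (XT.lf (nat_lit 0) (nat_lit 6765368202) (nat_lit 76) (nat_lit 7013571020) (nat_lit 76) (nat_lit 6311872062) (nat_lit 47) (nat_lit 4) (nat_lit 48) (nat_lit 5) (nat_lit 48) (nat_lit 4) (nat_lit 462) (nat_lit 370) (nat_lit 368))))))) (XT.nd (nat_lit 1014) (nat_lit 988) (nat_lit 0) (XT.nd (nat_lit 468) (nat_lit 760) (nat_lit 0) (XT.nd (nat_lit 234) (nat_lit 456) (nat_lit 0) (XT.nd (nat_lit 78) (nat_lit 228) (nat_lit 0) (XT.lf (nat_lit 0) (nat_lit 6427992974) (nat_lit 152) (nat_lit 8840075909) (nat_lit 0) (nat_lit 5430234232) (nat_lit 45) (nat_lit 5) (nat_lit 47) (nat_lit 4) (nat_lit 45) (nat_lit 4) (nat_lit 463)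 (nat_lit 370) (nat_lit 367)) (XT.nd (nat_lit 78) (nat_lit 152) (nat_lit 0) (XT.lf (nat_lit 0) (nat_lit 16632951583) (nat_lit 76) (nat_lit 3000874194) (nat_lit 76) (nat_lit 1701689148) (nat_lit 44) (nat_lit 4) (nat_lit 45) (nat_lit 5) (nat_lit 45) (nat_lit 4) (nat_lit 464) (nat_lit 370) (nat_lit 366)) (XT.lf (nat_lit 0) (nat_lit 11258005241) (nat_lit 152) (nat_lit 1025714305) (nat_lit 0) (nat_lit 9717949206) (nat_lit 42) (nat_lit 5) (nat_lit 44) (nat_lit 4) (nat_lit 42) (nat_lit 4) (nat_lit 465) (nat_lit 370) (nat_lit 365)))) (XT.nd (nat_lit 78) (nat_lit 228) (nat_lit 0) (XT.lf (nat_lit 0) (nat_lit 2037987260) (nat_lit 152) (nat_lit 20378458562) (nat_lit 0) (nat_lit 285079108) (nat_lit 39) (nat_lit 5) (nat_lit 41) (nat_lit 4) (nat_lit 39) (nat_lit 4) (nat_lit 466) (nat_lit 370) (nat_lit 364)) (XT.nd (nat_lit 78) (nat_lit 152) (nat_lit 0) (XT.lf (nat_lit 0) (nat_lit 5097379325) (nat_lit 76) (nat_lit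 10166663450) (nat_lit 76) (nat_lit 8168318995) (nat_lit 38) (nat_lit 4) (nat_lit 39) (nat_lit 5) (nat_lit 39) (nat_lit 4) (nat_lit 467) (nat_lit 370) (nat_lit 363)) (XT.lf (nat_lit 0) (nat_lit 4773544562) (nat_lit 152) (nat_lit 16820753227) (nat_lit 0) (nat_lit 2606463674) (nat_lit 36) (nat_lit 5) (nat_lit 38) (nat_lit 4) (nat_lit 36) (nat_lit 4) (nat_lit 468) (nat_lit 370) (nat_lit 362))))) (XT.nd (nat_lit 234) (nat_lit 456) (nat_lit 0) (XT.nd (nat_lit 78) (nat_lit 228) (nat_lit 0) (XT.lf (nat_lit 0) (nat_lit 8996855494) (nat_lit 76) (nat_lit 9195773224) (nat_lit 76) (nat_lit 6812558392) (nat_lit 35) (nat_lit 4) (nat_lit 36) (nat_lit 5) (nat_lit 36) (nat_lit 4) (nat_lit 469) (nat_lit 370) (nat_lit 361)) (XT.nd (nat_lit 78) (nat_lit 76) (nat_lit 0) (XT.lf (nat_lit 0) (nat_lit 6240142724) (nat_lit 152) (nat_lit 15883359364) (nat_lit 0) (nat_lit 3726495459) (nat_lit 33) (nat_lit 5) (nat_lit 35) (nat_lit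 4) (nat_lit 33) (nat_lit 4) (nat_lit 470) (nat_lit 370) (nat_lit 360)) (XT.lf (nat_lit 0) (nat_lit 10151750943) (nat_lit 76) (nat_lit 9643763454) (nat_lit 76) (nat_lit 6939786229) (nat_lit 32) (nat_lit 4) (nat_lit 33) (nat_lit 5) (nat_lit 33) (nat_lit 4) (nat_lit 471) (nat_lit 370) (nat_lit 359)))) (XT.nd (nat_lit 156) (nat_lit 228) (nat_lit 0) (XT.nd (nat_lit 78) (nat_lit 76) (nat_lit 0) (XT.lf (nat_lit 0) (nat_lit 6169740616) (nat_lit 152) (nat_lit 18126859295) (nat_lit 0) (nat_lit 3368532991) (nat_lit 30) (nat_lit 5) (nat_lit 32) (nat_lit 4) (nat_lit 30) (nat_lit 4) (nat_lit 472) (nat_lit 370) (nat_lit 358)) (XT.lf (nat_lit 0) (nat_lit 7963668961) (nat_lit 76) (nat_lit 11822349960) (nat_lit 76) (nat_lit 8853535652) (nat_lit 29) (nat_lit 4) (nat_lit 30) (nat_lit 5) (nat_lit 30) (nat_lit 4) (nat_lit 473) (nat_lit 370) (nat_lit 357))) (XT.nd (nat_lit 78) (nat_lit 76) (nat_lit 0) (XT.lf (nat_lit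 0) (nat_lit 4240909910) (nat_lit 152) (nat_lit 24219723129) (nat_lit 0) (nat_lit 1203589793) (nat_lit 27) (nat_lit 5) (nat_lit 29) (nat_lit 4) (nat_lit 27) (nat_lit 4) (nat_lit 474) (nat_lit 370) (nat_lit 356)) (XT.lf (nat_lit 0) (nat_lit 1718826259) (nat_lit 76) (nat_lit 16101592150) (nat_lit 76) (nat_lit 12916675720) (nat_lit 26) (nat_lit 4) (nat_lit 27) (nat_lit 5) (nat_lit 27) (nat_lit 4) (nat_lit 475) (nat_lit 370) (nat_lit 355)))))) (XT.nd (nat_lit 468) (nat_lit 532) (nat_lit 0) (XT.nd (nat_lit 234) (nat_lit 228) (nat_lit 0) (XT.nd (nat_lit 78) (nat_lit 152) (nat_lit 0) (XT.lf (nat_lit 0) (nat_lit 130427264) (nat_lit 152) (nat_lit 3060716999) (nat_lit 76) (nat_lit 28674825130) (nat_lit 25) (nat_lit 5) (nat_lit 27) (nat_lit 5) (nat_lit 26) (nat_lit 4) (nat_lit 476) (nat_lit 370) (nat_lit 354)) (XT.nd (nat_lit 78) (nat_lit 76) (nat_lit 0) (XT.lf (nat_lit 0) (nat_lit 13578562734) (nat_lit 152)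 (nat_lit 9248454855) (nat_lit 0) (nat_lit 10219962196) (nat_lit 24) (nat_lit 5) (nat_lit 26) (nat_lit 4) (nat_lit 24) (nat_lit 4) (nat_lit 477) (nat_lit 370) (nat_lit 353)) (XT.lf (nat_lit 0) (nat_lit 17469670224) (nat_lit 76) (nat_lit 10151055188) (nat_lit 76) (nat_lit 6668668975) (nat_lit 23) (nat_lit 4) (nat_lit 24) (nat_lit 5) (nat_lit 24) (nat_lit 4) (nat_lit 478) (nat_lit 370) (nat_lit 352)))) (XT.nd (nat_lit 78) (nat_lit 76) (nat_lit 0) (XT.lf (nat_lit 0) (nat_lit 6553446459) (nat_lit 152) (nat_lit 25983065951) (nat_lit 0) (nat_lit 3058031574) (nat_lit 21) (nat_lit 5) (nat_lit 23) (nat_lit 4) (nat_lit 21) (nat_lit 4) (nat_lit 479) (nat_lit 370) (nat_lit 351)) (XT.nd (nat_lit 78) (nat_lit 76) (nat_lit 0) (XT.lf (nat_lit 0) (nat_lit 20279059528) (nat_lit 152) (nat_lit 9865869) (nat_lit 0) (nat_lit 16674637598) (nat_lit 21) (nat_lit 5) (nat_lit 23) (nat_lit 4) (nat_lit 21) (nat_lit 4) (nat_lit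 480) (nat_lit 370) (nat_lit 350)) (XT.lf (nat_lit 0) (nat_lit 27227245961) (nat_lit 76) (nat_lit 7441348920) (nat_lit 76) (nat_lit 3733110758) (nat_lit 20) (nat_lit 4) (nat_lit 21) (nat_lit 5) (nat_lit 21) (nat_lit 4) (nat_lit 481) (nat_lit 370) (nat_lit 349))))) (XT.nd (nat_lit 234) (nat_lit 304) (nat_lit 0) (XT.nd (nat_lit 78) (nat_lit 76) (nat_lit 0) (XT.lf (nat_lit 0) (nat_lit 9602417590) (nat_lit 152) (nat_lit 24402428439) (nat_lit 0) (nat_lit 5906193547) (nat_lit 18) (nat_lit 5) (nat_lit 20) (nat_lit 4) (nat_lit 18) (nat_lit 4) (nat_lit 482) (nat_lit 370) (nat_lit 348)) (XT.nd (nat_lit 78) (nat_lit 0) (nat_lit 0) (XT.lf (nat_lit 0) (nat_lit 1640055803) (nat_lit 76) (nat_lit 21822141301) (nat_lit 76) (nat_lit 18034495526) (nat_lit 17) (nat_lit 4) (nat_lit 18) (nat_lit 5) (nat_lit 18) (nat_lit 4) (nat_lit 483) (nat_lit 370) (nat_lit 347)) (XT.lf (nat_lit 0) (nat_lit 28965243331) (nat_lit 76)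 (nat_lit 9035759796) (nat_lit 76) (nat_lit 5161045705) (nat_lit 17) (nat_lit 4) (nat_lit 18) (nat_lit 5) (nat_lit 18) (nat_lit 4) (nat_lit 484) (nat_lit 370) (nat_lit 346)))) (XT.nd (nat_lit 156) (nat_lit 152) (nat_lit 0) (XT.nd (nat_lit 78) (nat_lit 0) (nat_lit 0) (XT.lf (nat_lit 0) (nat_lit 8098892165) (nat_lit 152) (nat_lit 32555669456) (nat_lit 0) (nat_lit 4256526829) (nat_lit 15) (nat_lit 5) (nat_lit 17) (nat_lit 4) (nat_lit 15) (nat_lit 4) (nat_lit 485) (nat_lit 370) (nat_lit 345)) (XT.lf (nat_lit 0) (nat_lit 21904848355) (nat_lit 152) (nat_lit 6855697655) (nat_lit 0) (nat_lit 17985809690) (nat_lit 15) (nat_lit 5) (nat_lit 17) (nat_lit 4) (nat_lit 15) (nat_lit 4) (nat_lit 486) (nat_lit 370) (nat_lit 344))) (XT.nd (nat_lit 78) (nat_lit 76) (nat_lit 0) (XT.lf (nat_lit 0) (nat_lit 20044518881) (nat_lit 76) (nat_lit 16311146394) (nat_lit 76) (nat_lit 12319085510) (nat_lit 14) (nat_lit 4) (nat_lit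 15) (nat_lit 5) (nat_lit 15) (nat_lit 4) (nat_lit 487) (nat_lit 370) (nat_lit 343)) (XT.lf (nat_lit 0) (nat_lit 651031424) (nat_lit 152) (nat_lit 2740012061) (nat_lit 76) (nat_lit 47313151405) (nat_lit 13) (nat_lit 5) (nat_lit 15) (nat_lit 5) (nat_lit 14) (nat_lit 4) (nat_lit 488) (nat_lit 370) (nat_lit 342))))))))
noncomputable def xc8 : XT := (XT.nd (nat_lit 61152) (nat_lit 0) (nat_lit 152) (XT.nd (nat_lit 60138) (nat_lit 0) (nat_lit 1976) (XT.nd (nat_lit 468) (nat_lit 228) (nat_lit 0) (XT.nd (nat_lit 234) (nat_lit 152) (nat_lit 0) (XT.nd (nat_lit 78) (nat_lit 76) (nat_lit 0) (XT.lf (nat_lit 0) (nat_lit 14128148789) (nat_lit 152) (nat_lit 28579368354) (nat_lit 0) (nat_lit 10120537956) (nat_lit 12) (nat_lit 5) (nat_lit 14) (nat_lit 4) (nat_lit 12) (nat_lit 4) (nat_lit 489) (nat_lit 370) (nat_lit 341)) (XT.nd (nat_lit 78) (nat_lit 76) (nat_lit 0) (XT.lf (nat_lit 0) (nat_lit 28123803384) (nat_lit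 152) (nat_lit 2884015160) (nat_lit 0) (nat_lit 24054950475) (nat_lit 12) (nat_lit 5) (nat_lit 14) (nat_lit 4) (nat_lit 12) (nat_lit 4) (nat_lit 490) (nat_lit 370) (nat_lit 340)) (XT.lf (nat_lit 0) (nat_lit 24151846817) (nat_lit 76) (nat_lit 18691908086) (nat_lit 76) (nat_lit 14564729391) (nat_lit 11) (nat_lit 4) (nat_lit 12) (nat_lit 5) (nat_lit 12) (nat_lit 4) (nat_lit 491) (nat_lit 370) (nat_lit 339)))) (XT.nd (nat_lit 78) (nat_lit 152) (nat_lit 0) (XT.lf (nat_lit 0) (nat_lit 52196132543) (nat_lit 76) (nat_lit 5931619719) (nat_lit 76) (nat_lit 1748892657) (nat_lit 11) (nat_lit 4) (nat_lit 12) (nat_lit 5) (nat_lit 12) (nat_lit 4) (nat_lit 492) (nat_lit 370) (nat_lit 338)) (XT.nd (nat_lit 78) (nat_lit 0) (nat_lit 0) (XT.lf (nat_lit 0) (nat_lit 11541242920) (nat_lit 152) (nat_lit 43492755820) (nat_lit 0) (nat_lit 7428980522) (nat_lit 9) (nat_lit 5) (nat_lit 11) (nat_lit 4) (nat_lit 9) (nat_lit 4)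 (nat_lit 493) (nat_lit 370) (nat_lit 337)) (XT.lf (nat_lit 0) (nat_lit 25409622238) (nat_lit 152) (nat_lit 18521548991) (nat_lit 0) (nat_lit 21248443328) (nat_lit 9) (nat_lit 5) (nat_lit 11) (nat_lit 4) (nat_lit 9) (nat_lit 4) (nat_lit 494) (nat_lit 370) (nat_lit 336))))) (XT.nd (nat_lit 234) (nat_lit 152) (nat_lit 0) (XT.nd (nat_lit 78) (nat_lit 0) (nat_lit 0) (XT.lf (nat_lit 0) (nat_lit 7481365929) (nat_lit 76) (nat_lit 32380878944) (nat_lit 76) (nat_lit 28173112880) (nat_lit 8) (nat_lit 4) (nat_lit 9) (nat_lit 5) (nat_lit 9) (nat_lit 4) (nat_lit 495) (nat_lit 370) (nat_lit 335)) (XT.nd (nat_lit 78) (nat_lit 0) (nat_lit 0) (XT.lf (nat_lit 0) (nat_lit 34819032602) (nat_lit 76) (nat_lit 20233273446) (nat_lit 76) (nat_lit 15981138664) (nat_lit 8) (nat_lit 4) (nat_lit 9) (nat_lit 5) (nat_lit 9) (nat_lit 4) (nat_lit 496) (nat_lit 370) (nat_lit 334)) (XT.lf (nat_lit 0) (nat_lit 63187925569) (nat_lit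 76) (nat_lit 7646463193) (nat_lit 76) (nat_lit 3352072490) (nat_lit 8) (nat_lit 4) (nat_lit 9) (nat_lit 5) (nat_lit 9) (nat_lit 4) (nat_lit 497) (nat_lit 370) (nat_lit 333)))) (XT.nd (nat_lit 78) (nat_lit 0) (nat_lit 0) (XT.lf (nat_lit 0) (nat_lit 9756047297) (nat_lit 152) (nat_lit 62189331827) (nat_lit 0) (nat_lit 5547664347) (nat_lit 6) (nat_lit 5) (nat_lit 8) (nat_lit 4) (nat_lit 6) (nat_lit 4) (nat_lit 498) (nat_lit 370) (nat_lit 332)) (XT.nd (nat_lit 59280) (nat_lit 0) (nat_lit 3648) (XT.lf (nat_lit 0) (nat_lit 23484469091) (nat_lit 152) (nat_lit 38239588973) (nat_lit 0) (nat_lit 19238875105) (nat_lit 6) (nat_lit 5) (nat_lit 8) (nat_lit 4) (nat_lit 6) (nat_lit 4) (nat_lit 499) (nat_lit 370) (nat_lit 331)) (XT.lf (nat_lit 0) (nat_lit 580644361) (nat_lit 152) (nat_lit 7797054100) (nat_lit 0) (nat_lit 580644361) (nat_lit 54) (nat_lit 5) (nat_lit 56) (nat_lit 4) (nat_lit 54) (nat_lit 4) (nat_lit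 458) (nat_lit 371) (nat_lit 371)))))) (XT.nd (nat_lit 468) (nat_lit 912) (nat_lit 0) (XT.nd (nat_lit 234) (nat_lit 304) (nat_lit 0) (XT.nd (nat_lit 78) (nat_lit 380) (nat_lit 0) (XT.lf (nat_lit 0) (nat_lit 8423671685) (nat_lit 76) (nat_lit 5202089324) (nat_lit 76) (nat_lit 4801729935) (nat_lit 53) (nat_lit 4) (nat_lit 54) (nat_lit 5) (nat_lit 54) (nat_lit 4) (nat_lit 459) (nat_lit 371) (nat_lit 370)) (XT.nd (nat_lit 78) (nat_lit 228) (nat_lit 0) (XT.lf (nat_lit 0) (nat_lit 7552659247) (nat_lit 152) (nat_lit 4616549647) (nat_lit 0) (nat_lit 6793771824) (nat_lit 51) (nat_lit 5) (nat_lit 53) (nat_lit 4) (nat_lit 51) (nat_lit 4) (nat_lit 460) (nat_lit 371) (nat_lit 369)) (XT.lf (nat_lit 0) (nat_lit 584412999) (nat_lit 76) (nat_lit 250986686) (nat_lit 152) (nat_lit 18689624842) (nat_lit 48) (nat_lit 5) (nat_lit 49) (nat_lit 5) (nat_lit 50) (nat_lit 4) (nat_lit 461) (nat_lit 371) (nat_lit 368)))) (XT.nd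 (nat_lit 78) (nat_lit 228) (nat_lit 0) (XT.lf (nat_lit 0) (nat_lit 5519969868) (nat_lit 76) (nat_lit 7997541759) (nat_lit 76) (nat_lit 6592473132) (nat_lit 47) (nat_lit 4) (nat_lit 48) (nat_lit 5) (nat_lit 48) (nat_lit 4) (nat_lit 462) (nat_lit 371) (nat_lit 367)) (XT.nd (nat_lit 78) (nat_lit 76) (nat_lit 0) (XT.lf (nat_lit 0) (nat_lit 5930445780) (nat_lit 152) (nat_lit 10528911938) (nat_lit 0) (nat_lit 4264875179) (nat_lit 45) (nat_lit 5) (nat_lit 47) (nat_lit 4) (nat_lit 45) (nat_lit 4) (nat_lit 463) (nat_lit 371) (nat_lit 366)) (XT.lf (nat_lit 0) (nat_lit 14529906190) (nat_lit 76) (nat_lit 4395258900) (nat_lit 76) (nat_lit 2442615629) (nat_lit 44) (nat_lit 4) (nat_lit 45) (nat_lit 5) (nat_lit 45) (nat_lit 4) (nat_lit 464) (nat_lit 371) (nat_lit 365))))) (XT.nd (nat_lit 234) (nat_lit 456) (nat_lit 0) (XT.nd (nat_lit 78) (nat_lit 304) (nat_lit 0) (XT.lf (nat_lit 0) (nat_lit 10304515726) (nat_lit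 152) (nat_lit 3593139335) (nat_lit 0) (nat_lit 8143306198) (nat_lit 42) (nat_lit 5) (nat_lit 44) (nat_lit 4) (nat_lit 42) (nat_lit 4) (nat_lit 465) (nat_lit 371) (nat_lit 364)) (XT.nd (nat_lit 78) (nat_lit 152) (nat_lit 0) (XT.lf (nat_lit 0) (nat_lit 825317916) (nat_lit 152) (nat_lit 738613549) (nat_lit 76) (nat_lit 21184352299) (nat_lit 40) (nat_lit 5) (nat_lit 42) (nat_lit 5) (nat_lit 41) (nat_lit 4) (nat_lit 466) (nat_lit 371) (nat_lit 363)) (XT.lf (nat_lit 0) (nat_lit 1556456493) (nat_lit 76) (nat_lit 12253675164) (nat_lit 76) (nat_lit 9676228323) (nat_lit 38) (nat_lit 4) (nat_lit 39) (nat_lit 5) (nat_lit 39) (nat_lit 4) (nat_lit 467) (nat_lit 371) (nat_lit 362)))) (XT.nd (nat_lit 156) (nat_lit 228) (nat_lit 0) (XT.nd (nat_lit 78) (nat_lit 76) (nat_lit 0) (XT.lf (nat_lit 0) (nat_lit 3052956934) (nat_lit 152) (nat_lit 20875055227) (nat_lit 0) (nat_lit 334447416) (nat_lit 36) (nat_lit 5) (nat_lit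 38) (nat_lit 4) (nat_lit 36) (nat_lit 4) (nat_lit 468) (nat_lit 371) (nat_lit 361)) (XT.lf (nat_lit 0) (nat_lit 4504719578) (nat_lit 76) (nat_lit 11746570704) (nat_lit 76) (nat_lit 8822219335) (nat_lit 35) (nat_lit 4) (nat_lit 36) (nat_lit 5) (nat_lit 36) (nat_lit 4) (nat_lit 469) (nat_lit 371) (nat_lit 360))) (XT.nd (nat_lit 78) (nat_lit 76) (nat_lit 0) (XT.lf (nat_lit 0) (nat_lit 4020901051) (nat_lit 152) (nat_lit 20914069162) (nat_lit 0) (nat_lit 991395005) (nat_lit 33) (nat_lit 5) (nat_lit 35) (nat_lit 4) (nat_lit 33) (nat_lit 4) (nat_lit 470) (nat_lit 371) (nat_lit 359)) (XT.lf (nat_lit 0) (nat_lit 4676964450) (nat_lit 76) (nat_lit 12676087397) (nat_lit 76) (nat_lit 9465314723) (nat_lit 32) (nat_lit 4) (nat_lit 33) (nat_lit 5) (nat_lit 33) (nat_lit 4) (nat_lit 471) (nat_lit 371) (nat_lit 358))))))) (XT.nd (nat_lit 1014) (nat_lit 684) (nat_lit 0) (XT.nd (nat_lit 468) (nat_lit 532) (nat_lit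 0) (XT.nd (nat_lit 234) (nat_lit 304) (nat_lit 0) (XT.nd (nat_lit 78) (nat_lit 152) (nat_lit 0) (XT.lf (nat_lit 0) (nat_lit 3437207541) (nat_lit 152) (nat_lit 24167063903) (nat_lit 0) (nat_lit 152345834) (nat_lit 30) (nat_lit 5) (nat_lit 32) (nat_lit 4) (nat_lit 30) (nat_lit 4) (nat_lit 472) (nat_lit 371) (nat_lit 357)) (XT.nd (nat_lit 78) (nat_lit 76) (nat_lit 0) (XT.lf (nat_lit 0) (nat_lit 1472022887) (nat_lit 76) (nat_lit 15355147054) (nat_lit 76) (nat_lit 11910659935) (nat_lit 29) (nat_lit 4) (nat_lit 30) (nat_lit 5) (nat_lit 30) (nat_lit 4) (nat_lit 473) (nat_lit 371) (nat_lit 356)) (XT.lf (nat_lit 0) (nat_lit 1018470377) (nat_lit 152) (nat_lit 1529016455) (nat_lit 76) (nat_lit 27222643376) (nat_lit 28) (nat_lit 5) (nat_lit 30) (nat_lit 5) (nat_lit 29) (nat_lit 4) (nat_lit 474) (nat_lit 371) (nat_lit 355)))) (XT.nd (nat_lit 78) (nat_lit 228) (nat_lit 0) (XT.lf (nat_lit 0) (nat_lit 14384314087)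 (nat_lit 152) (nat_lit 5713111033) (nat_lit 0) (nat_lit 10751987605) (nat_lit 27) (nat_lit 5) (nat_lit 29) (nat_lit 4) (nat_lit 27) (nat_lit 4) (nat_lit 475) (nat_lit 371) (nat_lit 354)) (XT.nd (nat_lit 78) (nat_lit 152) (nat_lit 0) (XT.lf (nat_lit 0) (nat_lit 20957164828) (nat_lit 76) (nat_lit 7396815899) (nat_lit 76) (nat_lit 3630615210) (nat_lit 26) (nat_lit 4) (nat_lit 27) (nat_lit 5) (nat_lit 27) (nat_lit 4) (nat_lit 476) (nat_lit 371) (nat_lit 353)) (XT.lf (nat_lit 0) (nat_lit 9617676866) (nat_lit 152) (nat_lit 17719712603) (nat_lit 0) (nat_lit 5837385668) (nat_lit 24) (nat_lit 5) (nat_lit 26) (nat_lit 4) (nat_lit 24) (nat_lit 4) (nat_lit 477) (nat_lit 371) (nat_lit 352))))) (XT.nd (nat_lit 234) (nat_lit 304) (nat_lit 0) (XT.nd (nat_lit 78) (nat_lit 152) (nat_lit 0) (XT.lf (nat_lit 0) (nat_lit 8537328204) (nat_lit 76) (nat_lit 14892473035) (nat_lit 76) (nat_lit 10994290719) (nat_lit 23) (nat_lit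 4) (nat_lit 24) (nat_lit 5) (nat_lit 24) (nat_lit 4) (nat_lit 478) (nat_lit 371) (nat_lit 351)) (XT.nd (nat_lit 78) (nat_lit 0) (nat_lit 0) (XT.lf (nat_lit 0) (nat_lit 150298646) (nat_lit 76) (nat_lit 1899335944) (nat_lit 152) (nat_lit 33688733330) (nat_lit 21) (nat_lit 5) (nat_lit 22) (nat_lit 5) (nat_lit 23) (nat_lit 4) (nat_lit 479) (nat_lit 371) (nat_lit 350)) (XT.lf (nat_lit 0) (nat_lit 15618412854) (nat_lit 152) (nat_lit 9872733512) (nat_lit 0) (nat_lit 11620946551) (nat_lit 21) (nat_lit 5) (nat_lit 23) (nat_lit 4) (nat_lit 21) (nat_lit 4) (nat_lit 480) (nat_lit 371) (nat_lit 349)))) (XT.nd (nat_lit 156) (nat_lit 76) (nat_lit 0) (XT.nd (nat_lit 78) (nat_lit 152) (nat_lit 0) (XT.lf (nat_lit 0) (nat_lit 16899880993) (nat_lit 76) (nat_lit 12876815955) (nat_lit 76) (nat_lit 8780477049) (nat_lit 20) (nat_lit 4) (nat_lit 21) (nat_lit 5) (nat_lit 21) (nat_lit 4) (nat_lit 481) (nat_lit 371) (nat_lit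 348)) (XT.lf (nat_lit 0) (nat_lit 4364294778) (nat_lit 152) (nat_lit 35416502019) (nat_lit 0) (nat_lit 295844982) (nat_lit 18) (nat_lit 5) (nat_lit 20) (nat_lit 4) (nat_lit 18) (nat_lit 4) (nat_lit 482) (nat_lit 371) (nat_lit 347))) (XT.nd (nat_lit 78) (nat_lit 76) (nat_lit 0) (XT.lf (nat_lit 0) (nat_lit 18081443021) (nat_lit 152) (nat_lit 9659206631) (nat_lit 0) (nat_lit 13925924910) (nat_lit 18) (nat_lit 5) (nat_lit 20) (nat_lit 4) (nat_lit 18) (nat_lit 4) (nat_lit 483) (nat_lit 371) (nat_lit 346)) (XT.lf (nat_lit 0) (nat_lit 17227815794) (nat_lit 76) (nat_lit 15174546324) (nat_lit 76) (nat_lit 10936106007) (nat_lit 17) (nat_lit 4) (nat_lit 18) (nat_lit 5) (nat_lit 18) (nat_lit 4) (nat_lit 484) (nat_lit 371) (nat_lit 345)))))) (XT.nd (nat_lit 468) (nat_lit 304) (nat_lit 0) (XT.nd (nat_lit 234) (nat_lit 152) (nat_lit 0) (XT.nd (nat_lit 78) (nat_lit 76) (nat_lit 0) (XT.lf (nat_lit 0) (nat_lit 62779867)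 (nat_lit 76) (nat_lit 2094951025) (nat_lit 152) (nat_lit 42939806746) (nat_lit 15) (nat_lit 5) (nat_lit 16) (nat_lit 5) (nat_lit 17) (nat_lit 4) (nat_lit 485) (nat_lit 371) (nat_lit 344)) (XT.nd (nat_lit 78) (nat_lit 76) (nat_lit 0) (XT.lf (nat_lit 0) (nat_lit 15827394372) (nat_lit 152) (nat_lit 19546791734) (nat_lit 0) (nat_lit 11562708226) (nat_lit 15) (nat_lit 5) (nat_lit 17) (nat_lit 4) (nat_lit 15) (nat_lit 4) (nat_lit 486) (nat_lit 371) (nat_lit 343)) (XT.lf (nat_lit 0) (nat_lit 6875357784) (nat_lit 76) (nat_lit 23165639894) (nat_lit 76) (nat_lit 18831408778) (nat_lit 14) (nat_lit 4) (nat_lit 15) (nat_lit 5) (nat_lit 15) (nat_lit 4) (nat_lit 487) (nat_lit 371) (nat_lit 342)))) (XT.nd (nat_lit 78) (nat_lit 152) (nat_lit 0) (XT.lf (nat_lit 0) (nat_lit 34586844101) (nat_lit 76) (nat_lit 10359442783) (nat_lit 76) (nat_lit 5958978363) (nat_lit 14) (nat_lit 4) (nat_lit 15) (nat_lit 5) (nat_lit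 15) (nat_lit 4) (nat_lit 488) (nat_lit 371) (nat_lit 341)) (XT.nd (nat_lit 78) (nat_lit 0) (nat_lit 0) (XT.lf (nat_lit 0) (nat_lit 7326639562) (nat_lit 152) (nat_lit 42720336375) (nat_lit 0) (nat_lit 2993101933) (nat_lit 12) (nat_lit 5) (nat_lit 14) (nat_lit 4) (nat_lit 12) (nat_lit 4) (nat_lit 489) (nat_lit 371) (nat_lit 340)) (XT.lf (nat_lit 0) (nat_lit 21221002386) (nat_lit 152) (nat_lit 17227689717) (nat_lit 0) (nat_lit 16829138970) (nat_lit 12) (nat_lit 5) (nat_lit 14) (nat_lit 4) (nat_lit 12) (nat_lit 4) (nat_lit 490) (nat_lit 371) (nat_lit 339))))) (XT.nd (nat_lit 234) (nat_lit 76) (nat_lit 0) (XT.nd (nat_lit 78) (nat_lit 152) (nat_lit 0) (XT.lf (nat_lit 0) (nat_lit 9325809019) (nat_lit 76) (nat_lit 26376159588) (nat_lit 76) (nat_lit 21928747805) (nat_lit 11) (nat_lit 4) (nat_lit 12) (nat_lit 5) (nat_lit 12) (nat_lit 4) (nat_lit 491) (nat_lit 371) (nat_lit 338)) (XT.nd (nat_lit 78) (nat_lit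 152) (nat_lit 0) (XT.lf (nat_lit 0) (nat_lit 37182574752) (nat_lit 76) (nat_lit 13709714036) (nat_lit 76) (nat_lit 9209399045) (nat_lit 11) (nat_lit 4) (nat_lit 12) (nat_lit 5) (nat_lit 12) (nat_lit 4) (nat_lit 492) (nat_lit 371) (nat_lit 337)) (XT.lf (nat_lit 0) (nat_lit 3392530980) (nat_lit 76) (nat_lit 520390191) (nat_lit 152) (nat_lit 58786654799) (nat_lit 9) (nat_lit 5) (nat_lit 10) (nat_lit 5) (nat_lit 11) (nat_lit 4) (nat_lit 493) (nat_lit 371) (nat_lit 336)))) (XT.nd (nat_lit 156) (nat_lit 76) (nat_lit 0) (XT.nd (nat_lit 78) (nat_lit 0) (nat_lit 0) (XT.lf (nat_lit 0) (nat_lit 17687961051) (nat_lit 152) (nat_lit 34507831289) (nat_lit 0) (nat_lit 13223219530) (nat_lit 9) (nat_lit 5) (nat_lit 11) (nat_lit 4) (nat_lit 9) (nat_lit 4) (nat_lit 494) (nat_lit 371) (nat_lit 335)) (XT.lf (nat_lit 0) (nat_lit 31984537621) (nat_lit 152) (nat_lit 8819471847) (nat_lit 0) (nat_lit 27475427382) (nat_lit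 9) (nat_lit 5) (nat_lit 11) (nat_lit 4) (nat_lit 9) (nat_lit 4) (nat_lit 495) (nat_lit 371) (nat_lit 334))) (XT.nd (nat_lit 78) (nat_lit 0) (nat_lit 0) (XT.lf (nat_lit 0) (nat_lit 18178934900) (nat_lit 76) (nat_lit 28827500183) (nat_lit 76) (nat_lit 24276134022) (nat_lit 8) (nat_lit 4) (nat_lit 9) (nat_lit 5) (nat_lit 9) (nat_lit 4) (nat_lit 496) (nat_lit 371) (nat_lit 333)) (XT.lf (nat_lit 0) (nat_lit 46391889637) (nat_lit 76) (nat_lit 16318820253) (nat_lit 76) (nat_lit 11727210358) (nat_lit 8) (nat_lit 4) (nat_lit 9) (nat_lit 5) (nat_lit 9) (nat_lit 4) (nat_lit 497) (nat_lit 371) (nat_lit 332))))))))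
noncomputable def xc9 : XT := (XT.nd (nat_lit 60996) (nat_lit 0) (nat_lit 152) (XT.nd (nat_lit 59982) (nat_lit 0) (nat_lit 1368) (XT.nd (nat_lit 59514) (nat_lit 0) (nat_lit 2736) (XT.nd (nat_lit 59280) (nat_lit 0) (nat_lit 3572) (XT.nd (nat_lit 78) (nat_lit 76) (nat_lit 0) (XT.lf (nat_lit 0) (nat_lit 1267465726) (nat_lit 152) (nat_lit 2056981836) (nat_lit 76) (nat_lit 74430776635) (nat_lit 7) (nat_lit 5) (nat_lit 9) (nat_lit 5) (nat_lit 8) (nat_lit 4) (nat_lit 498) (nat_lit 371) (nat_lit 331)) (XT.nd (nat_lit 59124) (nat_lit 0) (nat_lit 4028) (XT.lf (nat_lit 0) (nat_lit 14870189016) (nat_lit 152) (nat_lit 56019030942) (nat_lit 0) (nat_lit 10339665214) (nat_lit 6) (nat_lit 5) (nat_lit 8) (nat_lit 4) (nat_lit 6) (nat_lit 4) (nat_lit 499) (nat_lit 371) (nat_lit 330)) (XT.lf (nat_lit 0) (nat_lit 3541468863) (nat_lit 152) (nat_lit 2467355711) (nat_lit 152) (nat_lit 2467355711) (nat_lit 59) (nat_lit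 4) (nat_lit 61) (nat_lit 5) (nat_lit 61) (nat_lit 4) (nat_lit 456) (nat_lit 372) (nat_lit 372)))) (XT.nd (nat_lit 78) (nat_lit 304) (nat_lit 0) (XT.lf (nat_lit 0) (nat_lit 6964828040) (nat_lit 152) (nat_lit 3929567483) (nat_lit 0) (nat_lit 6531839361) (nat_lit 57) (nat_lit 5) (nat_lit 59) (nat_lit 4) (nat_lit 57) (nat_lit 4) (nat_lit 457) (nat_lit 372) (nat_lit 371)) (XT.nd (nat_lit 78) (nat_lit 76) (nat_lit 0) (XT.lf (nat_lit 0) (nat_lit 1376088473) (nat_lit 152) (nat_lit 15991416411) (nat_lit 0) (nat_lit 555351726) (nat_lit 54) (nat_lit 5) (nat_lit 56) (nat_lit 4) (nat_lit 54) (nat_lit 4) (nat_lit 458) (nat_lit 372) (nat_lit 370)) (XT.lf (nat_lit 0) (nat_lit 7632536809) (nat_lit 76) (nat_lit 6004630879) (nat_lit 76) (nat_lit 4802599475) (nat_lit 53) (nat_lit 4) (nat_lit 54) (nat_lit 5) (nat_lit 54) (nat_lit 4) (nat_lit 459) (nat_lit 372) (nat_lit 369))))) (XT.nd (nat_lit 234) (nat_lit 380) (nat_lit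 0) (XT.nd (nat_lit 78) (nat_lit 304) (nat_lit 0) (XT.lf (nat_lit 0) (nat_lit 7338853029) (nat_lit 152) (nat_lit 5823524661) (nat_lit 0) (nat_lit 5819271309) (nat_lit 51) (nat_lit 5) (nat_lit 53) (nat_lit 4) (nat_lit 51) (nat_lit 4) (nat_lit 460) (nat_lit 372) (nat_lit 368)) (XT.nd (nat_lit 78) (nat_lit 152) (nat_lit 0) (XT.lf (nat_lit 0) (nat_lit 396530063) (nat_lit 152) (nat_lit 1050398015) (nat_lit 76) (nat_lit 18103162677) (nat_lit 49) (nat_lit 5) (nat_lit 51) (nat_lit 5) (nat_lit 50) (nat_lit 4) (nat_lit 461) (nat_lit 372) (nat_lit 367)) (XT.lf (nat_lit 0) (nat_lit 3441011535) (nat_lit 76) (nat_lit 9406381716) (nat_lit 76) (nat_lit 7294598018) (nat_lit 47) (nat_lit 4) (nat_lit 48) (nat_lit 5) (nat_lit 48) (nat_lit 4) (nat_lit 462) (nat_lit 372) (nat_lit 366)))) (XT.nd (nat_lit 78) (nat_lit 228) (nat_lit 0) (XT.lf (nat_lit 0) (nat_lit 5016680872) (nat_lit 152) (nat_lit 13067191084) (nat_lit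 0) (nat_lit 2679332767) (nat_lit 45) (nat_lit 5) (nat_lit 47) (nat_lit 4) (nat_lit 45) (nat_lit 4) (nat_lit 463) (nat_lit 372) (nat_lit 365)) (XT.nd (nat_lit 78) (nat_lit 152) (nat_lit 0) (XT.lf (nat_lit 0) (nat_lit 11578635821) (nat_lit 76) (nat_lit 6222587578) (nat_lit 76) (nat_lit 3611836931) (nat_lit 44) (nat_lit 4) (nat_lit 45) (nat_lit 5) (nat_lit 45) (nat_lit 4) (nat_lit 464) (nat_lit 372) (nat_lit 364)) (XT.lf (nat_lit 0) (nat_lit 8927565639) (nat_lit 152) (nat_lit 7025874160) (nat_lit 0) (nat_lit 6140056880) (nat_lit 42) (nat_lit 5) (nat_lit 44) (nat_lit 4) (nat_lit 42) (nat_lit 4) (nat_lit 465) (nat_lit 372) (nat_lit 363)))))) (XT.nd (nat_lit 468) (nat_lit 684) (nat_lit 0) (XT.nd (nat_lit 234) (nat_lit 304) (nat_lit 0) (XT.nd (nat_lit 78) (nat_lit 304) (nat_lit 0) (XT.lf (nat_lit 0) (nat_lit 18167773598) (nat_lit 76) (nat_lit 3833954180) (nat_lit 76) (nat_lit 805684095) (nat_lit 41) (nat_lit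 4) (nat_lit 42) (nat_lit 5) (nat_lit 42) (nat_lit 4) (nat_lit 466) (nat_lit 372) (nat_lit 362)) (XT.nd (nat_lit 78) (nat_lit 152) (nat_lit 0) (XT.lf (nat_lit 0) (nat_lit 11943389943) (nat_lit 152) (nat_lit 2829172416) (nat_lit 0) (nat_lit 8780703938) (nat_lit 39) (nat_lit 5) (nat_lit 41) (nat_lit 4) (nat_lit 39) (nat_lit 4) (nat_lit 467) (nat_lit 372) (nat_lit 361)) (XT.lf (nat_lit 0) (nat_lit 920558016) (nat_lit 152) (nat_lit 1505970339) (nat_lit 76) (nat_lit 21910491531) (nat_lit 37) (nat_lit 5) (nat_lit 39) (nat_lit 5) (nat_lit 38) (nat_lit 4) (nat_lit 468) (nat_lit 372) (nat_lit 360)))) (XT.nd (nat_lit 78) (nat_lit 228) (nat_lit 0) (XT.lf (nat_lit 0) (nat_lit 13868239420) (nat_lit 152) (nat_lit 891563071) (nat_lit 0) (nat_lit 10395788773) (nat_lit 36) (nat_lit 5) (nat_lit 38) (nat_lit 4) (nat_lit 36) (nat_lit 4) (nat_lit 469) (nat_lit 372) (nat_lit 359)) (XT.nd (nat_lit 78) (nat_lit 76) (nat_lit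 0) (XT.lf (nat_lit 0) (nat_lit 1371245766) (nat_lit 152) (nat_lit 875526367) (nat_lit 76) (nat_lit 23769366061) (nat_lit 34) (nat_lit 5) (nat_lit 36) (nat_lit 5) (nat_lit 35) (nat_lit 4) (nat_lit 470) (nat_lit 372) (nat_lit 358)) (XT.lf (nat_lit 0) (nat_lit 14465702431) (nat_lit 152) (nat_lit 1709079895) (nat_lit 0) (nat_lit 10740489611) (nat_lit 33) (nat_lit 5) (nat_lit 35) (nat_lit 4) (nat_lit 33) (nat_lit 4) (nat_lit 471) (nat_lit 372) (nat_lit 357))))) (XT.nd (nat_lit 234) (nat_lit 380) (nat_lit 0) (XT.nd (nat_lit 78) (nat_lit 152) (nat_lit 0) (XT.lf (nat_lit 0) (nat_lit 298955601) (nat_lit 152) (nat_lit 3282747122) (nat_lit 76) (nat_lit 24279048888) (nat_lit 31) (nat_lit 5) (nat_lit 33) (nat_lit 5) (nat_lit 32) (nat_lit 4) (nat_lit 472) (nat_lit 372) (nat_lit 356)) (XT.nd (nat_lit 78) (nat_lit 76) (nat_lit 0) (XT.lf (nat_lit 0) (nat_lit 13451727261) (nat_lit 152) (nat_lit 5873987880) (nat_lit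 0) (nat_lit 9523366171) (nat_lit 30) (nat_lit 5) (nat_lit 32) (nat_lit 4) (nat_lit 30) (nat_lit 4) (nat_lit 473) (nat_lit 372) (nat_lit 355)) (XT.lf (nat_lit 0) (nat_lit 20488048696) (nat_lit 76) (nat_lit 6736527196) (nat_lit 76) (nat_lit 2663381151) (nat_lit 29) (nat_lit 4) (nat_lit 30) (nat_lit 5) (nat_lit 30) (nat_lit 4) (nat_lit 474) (nat_lit 372) (nat_lit 354)))) (XT.nd (nat_lit 156) (nat_lit 152) (nat_lit 0) (XT.nd (nat_lit 78) (nat_lit 76) (nat_lit 0) (XT.lf (nat_lit 0) (nat_lit 10486222617) (nat_lit 152) (nat_lit 14091994895) (nat_lit 0) (nat_lit 6397837687) (nat_lit 27) (nat_lit 5) (nat_lit 29) (nat_lit 4) (nat_lit 27) (nat_lit 4) (nat_lit 475) (nat_lit 372) (nat_lit 353)) (XT.lf (nat_lit 0) (nat_lit 12122224537) (nat_lit 76) (nat_lit 12105866577) (nat_lit 76) (nat_lit 7889982401) (nat_lit 26) (nat_lit 4) (nat_lit 27) (nat_lit 5) (nat_lit 27) (nat_lit 4) (nat_lit 476) (nat_lit 372) (nat_lit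 352))) (XT.nd (nat_lit 78) (nat_lit 0) (nat_lit 0) (XT.lf (nat_lit 0) (nat_lit 5163187609) (nat_lit 152) (nat_lit 27202436556) (nat_lit 0) (nat_lit 952205058) (nat_lit 24) (nat_lit 5) (nat_lit 26) (nat_lit 4) (nat_lit 24) (nat_lit 4) (nat_lit 477) (nat_lit 372) (nat_lit 351)) (XT.lf (nat_lit 0) (nat_lit 18755936278) (nat_lit 152) (nat_lit 1385115586) (nat_lit 0) (nat_lit 14432676471) (nat_lit 24) (nat_lit 5) (nat_lit 26) (nat_lit 4) (nat_lit 24) (nat_lit 4) (nat_lit 478) (nat_lit 372) (nat_lit 350))))))) (XT.nd (nat_lit 1014) (nat_lit 304) (nat_lit 0) (XT.nd (nat_lit 468) (nat_lit 380) (nat_lit 0) (XT.nd (nat_lit 234) (nat_lit 228) (nat_lit 0) (XT.nd (nat_lit 78) (nat_lit 228) (nat_lit 0) (XT.lf (nat_lit 0) (nat_lit 25691152717) (nat_lit 76) (nat_lit 7316047928) (nat_lit 76) (nat_lit 2885857402) (nat_lit 23) (nat_lit 4) (nat_lit 24) (nat_lit 5) (nat_lit 24) (nat_lit 4) (nat_lit 479) (nat_lit 372)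 (nat_lit 349)) (XT.nd (nat_lit 78) (nat_lit 76) (nat_lit 0) (XT.lf (nat_lit 0) (nat_lit 10454178311) (nat_lit 152) (nat_lit 20767839673) (nat_lit 0) (nat_lit 6054149857) (nat_lit 21) (nat_lit 5) (nat_lit 23) (nat_lit 4) (nat_lit 21) (nat_lit 4) (nat_lit 480) (nat_lit 372) (nat_lit 348)) (XT.lf (nat_lit 0) (nat_lit 5532505694) (nat_lit 76) (nat_lit 18844992917) (nat_lit 76) (nat_lit 14350800080) (nat_lit 20) (nat_lit 4) (nat_lit 21) (nat_lit 5) (nat_lit 21) (nat_lit 4) (nat_lit 481) (nat_lit 372) (nat_lit 347)))) (XT.nd (nat_lit 78) (nat_lit 228) (nat_lit 0) (XT.lf (nat_lit 0) (nat_lit 33083148352) (nat_lit 76) (nat_lit 5877427438) (nat_lit 76) (nat_lit 1293554236) (nat_lit 20) (nat_lit 4) (nat_lit 21) (nat_lit 5) (nat_lit 21) (nat_lit 4) (nat_lit 482) (nat_lit 372) (nat_lit 346)) (XT.nd (nat_lit 78) (nat_lit 76) (nat_lit 0) (XT.lf (nat_lit 0) (nat_lit 12200513852) (nat_lit 152) (nat_lit 21984143091)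 (nat_lit 0) (nat_lit 7667229314) (nat_lit 18) (nat_lit 5) (nat_lit 20) (nat_lit 4) (nat_lit 18) (nat_lit 4) (nat_lit 483) (nat_lit 372) (nat_lit 345)) (XT.lf (nat_lit 0) (nat_lit 4423371837) (nat_lit 76) (nat_lit 21859905714) (nat_lit 76) (nat_lit 17247647647) (nat_lit 17) (nat_lit 4) (nat_lit 18) (nat_lit 5) (nat_lit 18) (nat_lit 4) (nat_lit 484) (nat_lit 372) (nat_lit 344))))) (XT.nd (nat_lit 234) (nat_lit 228) (nat_lit 0) (XT.nd (nat_lit 78) (nat_lit 152) (nat_lit 0) (XT.lf (nat_lit 0) (nat_lit 32153385451) (nat_lit 76) (nat_lit 8914042763) (nat_lit 76) (nat_lit 4226571811) (nat_lit 17) (nat_lit 4) (nat_lit 18) (nat_lit 5) (nat_lit 18) (nat_lit 4) (nat_lit 485) (nat_lit 372) (nat_lit 343)) (XT.nd (nat_lit 78) (nat_lit 0) (nat_lit 0) (XT.lf (nat_lit 0) (nat_lit 9219289350) (nat_lit 152) (nat_lit 33325673483) (nat_lit 0) (nat_lit 4598801709) (nat_lit 15) (nat_lit 5) (nat_lit 17) (nat_lit 4) (nat_lit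 15) (nat_lit 4) (nat_lit 486) (nat_lit 372) (nat_lit 342)) (XT.lf (nat_lit 0) (nat_lit 23261446720) (nat_lit 152) (nat_lit 7248248150) (nat_lit 0) (nat_lit 18574725774) (nat_lit 15) (nat_lit 5) (nat_lit 17) (nat_lit 4) (nat_lit 15) (nat_lit 4) (nat_lit 487) (nat_lit 372) (nat_lit 341)))) (XT.nd (nat_lit 156) (nat_lit 76) (nat_lit 0) (XT.nd (nat_lit 78) (nat_lit 76) (nat_lit 0) (XT.lf (nat_lit 0) (nat_lit 20114458318) (nat_lit 76) (nat_lit 17878911479) (nat_lit 76) (nat_lit 13129111196) (nat_lit 14) (nat_lit 4) (nat_lit 15) (nat_lit 5) (nat_lit 15) (nat_lit 4) (nat_lit 488) (nat_lit 372) (nat_lit 340)) (XT.lf (nat_lit 0) (nat_lit 69189073) (nat_lit 152) (nat_lit 4669422023) (nat_lit 76) (nat_lit 48527567744) (nat_lit 13) (nat_lit 5) (nat_lit 15) (nat_lit 5) (nat_lit 14) (nat_lit 4) (nat_lit 489) (nat_lit 372) (nat_lit 339))) (XT.nd (nat_lit 78) (nat_lit 0) (nat_lit 0) (XT.lf (nat_lit 0) (nat_lit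 13775301214) (nat_lit 152) (nat_lit 32684308380) (nat_lit 0) (nat_lit 9049970474) (nat_lit 12) (nat_lit 5) (nat_lit 14) (nat_lit 4) (nat_lit 12) (nat_lit 4) (nat_lit 490) (nat_lit 372) (nat_lit 338)) (XT.lf (nat_lit 0) (nat_lit 28074747432) (nat_lit 152) (nat_lit 6496650570) (nat_lit 0) (nat_lit 23296513485) (nat_lit 12) (nat_lit 5) (nat_lit 14) (nat_lit 4) (nat_lit 12) (nat_lit 4) (nat_lit 491) (nat_lit 372) (nat_lit 337)))))) (XT.nd (nat_lit 468) (nat_lit 0) (nat_lit 0) (XT.nd (nat_lit 234) (nat_lit 76) (nat_lit 0) (XT.nd (nat_lit 78) (nat_lit 152) (nat_lit 0) (XT.lf (nat_lit 0) (nat_lit 21052228607) (nat_lit 76) (nat_lit 22059929991) (nat_lit 76) (nat_lit 17231312037) (nat_lit 11) (nat_lit 4) (nat_lit 12) (nat_lit 5) (nat_lit 12) (nat_lit 4) (nat_lit 492) (nat_lit 372) (nat_lit 336)) (XT.nd (nat_lit 78) (nat_lit 152) (nat_lit 0) (XT.lf (nat_lit 0) (nat_lit 49765636000) (nat_lit 76) (nat_lit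 9028497285) (nat_lit 76) (nat_lit 4151894562) (nat_lit 11) (nat_lit 4) (nat_lit 12) (nat_lit 5) (nat_lit 12) (nat_lit 4) (nat_lit 493) (nat_lit 372) (nat_lit 335)) (XT.lf (nat_lit 0) (nat_lit 9407749076) (nat_lit 152) (nat_lit 51638990222) (nat_lit 0) (nat_lit 4628814608) (nat_lit 9) (nat_lit 5) (nat_lit 11) (nat_lit 4) (nat_lit 9) (nat_lit 4) (nat_lit 494) (nat_lit 372) (nat_lit 334)))) (XT.nd (nat_lit 78) (nat_lit 76) (nat_lit 0) (XT.lf (nat_lit 0) (nat_lit 23624201267) (nat_lit 152) (nat_lit 26111170860) (nat_lit 0) (nat_lit 18803010876) (nat_lit 9) (nat_lit 5) (nat_lit 11) (nat_lit 4) (nat_lit 9) (nat_lit 4) (nat_lit 495) (nat_lit 372) (nat_lit 333)) (XT.nd (nat_lit 78) (nat_lit 0) (nat_lit 0) (XT.lf (nat_lit 0) (nat_lit 387158942) (nat_lit 76) (nat_lit 38011605419) (nat_lit 76) (nat_lit 33150171293) (nat_lit 8) (nat_lit 4) (nat_lit 9) (nat_lit 5) (nat_lit 9) (nat_lit 4) (nat_lit 496) (nat_lit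 372) (nat_lit 332)) (XT.lf (nat_lit 0) (nat_lit 28451601079) (nat_lit 76) (nat_lit 25577335321) (nat_lit 76) (nat_lit 20677573828) (nat_lit 8) (nat_lit 4) (nat_lit 9) (nat_lit 5) (nat_lit 9) (nat_lit 4) (nat_lit 497) (nat_lit 372) (nat_lit 331))))) (XT.nd (nat_lit 59202) (nat_lit 0) (nat_lit 3420) (XT.nd (nat_lit 59046) (nat_lit 0) (nat_lit 4028) (XT.lf (nat_lit 0) (nat_lit 57629312151) (nat_lit 76) (nat_lit 12666628055) (nat_lit 76) (nat_lit 7730364309) (nat_lit 8) (nat_lit 4) (nat_lit 9) (nat_lit 5) (nat_lit 9) (nat_lit 4) (nat_lit 498) (nat_lit 372) (nat_lit 330)) (XT.nd (nat_lit 78) (nat_lit 304) (nat_lit 0) (XT.lf (nat_lit 0) (nat_lit 2613122121) (nat_lit 152) (nat_lit 2803500439) (nat_lit 0) (nat_lit 2613122121) (nat_lit 65) (nat_lit 5) (nat_lit 67) (nat_lit 4) (nat_lit 65) (nat_lit 4) (nat_lit 454) (nat_lit 373) (nat_lit 373)) (XT.lf (nat_lit 0) (nat_lit 523363070) (nat_lit 152) (nat_lit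 15921991669) (nat_lit 0) (nat_lit 55085814) (nat_lit 61) (nat_lit 5) (nat_lit 63) (nat_lit 4) (nat_lit 61) (nat_lit 4) (nat_lit 455) (nat_lit 373) (nat_lit 372)))) (XT.nd (nat_lit 156) (nat_lit 304) (nat_lit 0) (XT.nd (nat_lit 78) (nat_lit 152) (nat_lit 0) (XT.lf (nat_lit 0) (nat_lit 6706142226) (nat_lit 152) (nat_lit 5583187940) (nat_lit 152) (nat_lit 4668932344) (nat_lit 59) (nat_lit 4) (nat_lit 61) (nat_lit 5) (nat_lit 61) (nat_lit 4) (nat_lit 456) (nat_lit 373) (nat_lit 371)) (XT.lf (nat_lit 0) (nat_lit 7021047721) (nat_lit 152) (nat_lit 4696096635) (nat_lit 0) (nat_lit 5721050758) (nat_lit 57) (nat_lit 5) (nat_lit 59) (nat_lit 4) (nat_lit 57) (nat_lit 4) (nat_lit 457) (nat_lit 373) (nat_lit 370))) (XT.nd (nat_lit 78) (nat_lit 76) (nat_lit 0) (XT.lf (nat_lit 0) (nat_lit 752622079) (nat_lit 76) (nat_lit 451985082) (nat_lit 152) (nat_lit 16736646693) (nat_lit 54) (nat_lit 5) (nat_lit 55) (nat_lit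 5) (nat_lit 56) (nat_lit 4) (nat_lit 458) (nat_lit 373) (nat_lit 369)) (XT.lf (nat_lit 0) (nat_lit 6048383404) (nat_lit 76) (nat_lit 7211265412) (nat_lit 76) (nat_lit 5204700014) (nat_lit 53) (nat_lit 4) (nat_lit 54) (nat_lit 5) (nat_lit 54) (nat_lit 4) (nat_lit 459) (nat_lit 373) (nat_lit 368))))))))
noncomputable def xc10 : XT := (XT.nd (nat_lit 1950) (nat_lit 760) (nat_lit 0) (XT.nd (nat_lit 936) (nat_lit 1140) (nat_lit 0) (XT.nd (nat_lit 468) (nat_lit 684) (nat_lit 0) (XT.nd (nat_lit 234) (nat_lit 380) (nat_lit 0) (XT.nd (nat_lit 78) (nat_lit 304) (nat_lit 0) (XT.lf (nat_lit 0) (nat_lit 6729181883) (nat_lit 152) (nat_lit 7838342487) (nat_lit 0) (nat_lit 4445287814) (nat_lit 51) (nat_lit 5) (nat_lit 53) (nat_lit 4) (nat_lit 51) (nat_lit 4) (nat_lit 460) (nat_lit 373) (nat_lit 367)) (XT.nd (nat_lit 78) (nat_lit 228) (nat_lit 0) (XT.lf (nat_lit 0) (nat_lit 16094601097) (nat_lit 76) (nat_lit 3048256313)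 (nat_lit 76) (nat_lit 444579079) (nat_lit 50) (nat_lit 4) (nat_lit 51) (nat_lit 5) (nat_lit 51) (nat_lit 4) (nat_lit 461) (nat_lit 373) (nat_lit 366)) (XT.lf (nat_lit 0) (nat_lit 523543302) (nat_lit 76) (nat_lit 11243445273) (nat_lit 76) (nat_lit 8419918448) (nat_lit 47) (nat_lit 4) (nat_lit 48) (nat_lit 5) (nat_lit 48) (nat_lit 4) (nat_lit 462) (nat_lit 373) (nat_lit 365)))) (XT.nd (nat_lit 78) (nat_lit 228) (nat_lit 0) (XT.lf (nat_lit 0) (nat_lit 3684522618) (nat_lit 152) (nat_lit 16460956868) (nat_lit 0) (nat_lit 669831896) (nat_lit 45) (nat_lit 5) (nat_lit 47) (nat_lit 4) (nat_lit 45) (nat_lit 4) (nat_lit 463) (nat_lit 373) (nat_lit 364)) (XT.nd (nat_lit 78) (nat_lit 152) (nat_lit 0) (XT.lf (nat_lit 0) (nat_lit 7772113643) (nat_lit 76) (nat_lit 8487211012) (nat_lit 76) (nat_lit 5212136915) (nat_lit 44) (nat_lit 4) (nat_lit 45) (nat_lit 5) (nat_lit 45) (nat_lit 4) (nat_lit 464) (nat_lit 373)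 (nat_lit 363)) (XT.lf (nat_lit 0) (nat_lit 7123876527) (nat_lit 152) (nat_lit 11332091960) (nat_lit 0) (nat_lit 3703431613) (nat_lit 42) (nat_lit 5) (nat_lit 44) (nat_lit 4) (nat_lit 42) (nat_lit 4) (nat_lit 465) (nat_lit 373) (nat_lit 362))))) (XT.nd (nat_lit 234) (nat_lit 380) (nat_lit 0) (XT.nd (nat_lit 78) (nat_lit 228) (nat_lit 0) (XT.lf (nat_lit 0) (nat_lit 13443303400) (nat_lit 76) (nat_lit 6543052930) (nat_lit 76) (nat_lit 2893311515) (nat_lit 41) (nat_lit 4) (nat_lit 42) (nat_lit 5) (nat_lit 42) (nat_lit 4) (nat_lit 466) (nat_lit 373) (nat_lit 361)) (XT.nd (nat_lit 78) (nat_lit 76) (nat_lit 0) (XT.lf (nat_lit 0) (nat_lit 9655294340) (nat_lit 152) (nat_lit 8078229076) (nat_lit 0) (nat_lit 5899838965) (nat_lit 39) (nat_lit 5) (nat_lit 41) (nat_lit 4) (nat_lit 39) (nat_lit 4) (nat_lit 467) (nat_lit 373) (nat_lit 360)) (XT.lf (nat_lit 0) (nat_lit 17166500971) (nat_lit 76) (nat_lit 5607345420)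 (nat_lit 76) (nat_lit 1649968992) (nat_lit 38) (nat_lit 4) (nat_lit 39) (nat_lit 5) (nat_lit 39) (nat_lit 4) (nat_lit 468) (nat_lit 373) (nat_lit 359)))) (XT.nd (nat_lit 78) (nat_lit 228) (nat_lit 0) (XT.lf (nat_lit 0) (nat_lit 11081328383) (nat_lit 152) (nat_lit 7116482596) (nat_lit 0) (nat_lit 7052510719) (nat_lit 36) (nat_lit 5) (nat_lit 38) (nat_lit 4) (nat_lit 36) (nat_lit 4) (nat_lit 469) (nat_lit 373) (nat_lit 358)) (XT.nd (nat_lit 78) (nat_lit 152) (nat_lit 0) (XT.lf (nat_lit 0) (nat_lit 18497135504) (nat_lit 76) (nat_lit 5913645605) (nat_lit 76) (nat_lit 1707014010) (nat_lit 35) (nat_lit 4) (nat_lit 36) (nat_lit 5) (nat_lit 36) (nat_lit 4) (nat_lit 470) (nat_lit 373) (nat_lit 357)) (XT.lf (nat_lit 0) (nat_lit 11163987239) (nat_lit 152) (nat_lit 8945673626) (nat_lit 0) (nat_lit 6915464719) (nat_lit 33) (nat_lit 5) (nat_lit 35) (nat_lit 4) (nat_lit 33) (nat_lit 4) (nat_lit 471) (nat_lit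 373) (nat_lit 356)))))) (XT.nd (nat_lit 468) (nat_lit 532) (nat_lit 0) (XT.nd (nat_lit 234) (nat_lit 304) (nat_lit 0) (XT.nd (nat_lit 78) (nat_lit 228) (nat_lit 0) (XT.lf (nat_lit 0) (nat_lit 16903285349) (nat_lit 76) (nat_lit 7739575881) (nat_lit 76) (nat_lit 3334468433) (nat_lit 32) (nat_lit 4) (nat_lit 33) (nat_lit 5) (nat_lit 33) (nat_lit 4) (nat_lit 472) (nat_lit 373) (nat_lit 355)) (XT.nd (nat_lit 78) (nat_lit 76) (nat_lit 0) (XT.lf (nat_lit 0) (nat_lit 9617586098) (nat_lit 152) (nat_lit 14161011912) (nat_lit 0) (nat_lit 5195997796) (nat_lit 30) (nat_lit 5) (nat_lit 32) (nat_lit 4) (nat_lit 30) (nat_lit 4) (nat_lit 473) (nat_lit 373) (nat_lit 354)) (XT.lf (nat_lit 0) (nat_lit 11749968097) (nat_lit 76) (nat_lit 11414875579) (nat_lit 76) (nat_lit 6855396844) (nat_lit 29) (nat_lit 4) (nat_lit 30) (nat_lit 5) (nat_lit 30) (nat_lit 4) (nat_lit 474) (nat_lit 373) (nat_lit 353)))) (XT.nd (nat_lit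 78) (nat_lit 152) (nat_lit 0) (XT.lf (nat_lit 0) (nat_lit 6100340422) (nat_lit 152) (nat_lit 23471315541) (nat_lit 0) (nat_lit 1546162793) (nat_lit 27) (nat_lit 5) (nat_lit 29) (nat_lit 4) (nat_lit 27) (nat_lit 4) (nat_lit 475) (nat_lit 373) (nat_lit 352)) (XT.nd (nat_lit 78) (nat_lit 76) (nat_lit 0) (XT.lf (nat_lit 0) (nat_lit 2280713008) (nat_lit 76) (nat_lit 17330825382) (nat_lit 76) (nat_lit 12655219901) (nat_lit 26) (nat_lit 4) (nat_lit 27) (nat_lit 5) (nat_lit 27) (nat_lit 4) (nat_lit 476) (nat_lit 373) (nat_lit 351)) (XT.lf (nat_lit 0) (nat_lit 289304469) (nat_lit 152) (nat_lit 4203962980) (nat_lit 76) (nat_lit 28980670738) (nat_lit 25) (nat_lit 5) (nat_lit 27) (nat_lit 5) (nat_lit 26) (nat_lit 4) (nat_lit 477) (nat_lit 373) (nat_lit 350))))) (XT.nd (nat_lit 234) (nat_lit 228) (nat_lit 0) (XT.nd (nat_lit 78) (nat_lit 228) (nat_lit 0) (XT.lf (nat_lit 0) (nat_lit 13666466580) (nat_lit 152)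 (nat_lit 12162003482) (nat_lit 0) (nat_lit 8907835807) (nat_lit 24) (nat_lit 5) (nat_lit 26) (nat_lit 4) (nat_lit 24) (nat_lit 4) (nat_lit 478) (nat_lit 373) (nat_lit 349)) (XT.nd (nat_lit 78) (nat_lit 152) (nat_lit 0) (XT.lf (nat_lit 0) (nat_lit 14447120080) (nat_lit 76) (nat_lit 13237982415) (nat_lit 76) (nat_lit 8377512862) (nat_lit 23) (nat_lit 4) (nat_lit 24) (nat_lit 5) (nat_lit 24) (nat_lit 4) (nat_lit 479) (nat_lit 373) (nat_lit 348)) (XT.lf (nat_lit 0) (nat_lit 4734659450) (nat_lit 76) (nat_lit 39783071) (nat_lit 152) (nat_lit 32681724430) (nat_lit 21) (nat_lit 5) (nat_lit 22) (nat_lit 5) (nat_lit 23) (nat_lit 4) (nat_lit 480) (nat_lit 373) (nat_lit 347)))) (XT.nd (nat_lit 156) (nat_lit 152) (nat_lit 0) (XT.nd (nat_lit 78) (nat_lit 76) (nat_lit 0) (XT.lf (nat_lit 0) (nat_lit 18524490355) (nat_lit 152) (nat_lit 6767263306) (nat_lit 0) (nat_lit 13621743127) (nat_lit 21) (nat_lit 5) (nat_lit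 23) (nat_lit 4) (nat_lit 21) (nat_lit 4) (nat_lit 481) (nat_lit 373) (nat_lit 346)) (XT.lf (nat_lit 0) (nat_lit 20417010320) (nat_lit 76) (nat_lit 12507976549) (nat_lit 76) (nat_lit 7519819449) (nat_lit 20) (nat_lit 4) (nat_lit 21) (nat_lit 5) (nat_lit 21) (nat_lit 4) (nat_lit 482) (nat_lit 373) (nat_lit 345))) (XT.nd (nat_lit 78) (nat_lit 0) (nat_lit 0) (XT.lf (nat_lit 0) (nat_lit 5789642164) (nat_lit 152) (nat_lit 35396102059) (nat_lit 0) (nat_lit 867797664) (nat_lit 18) (nat_lit 5) (nat_lit 20) (nat_lit 4) (nat_lit 18) (nat_lit 4) (nat_lit 483) (nat_lit 373) (nat_lit 344)) (XT.lf (nat_lit 0) (nat_lit 19720294043) (nat_lit 152) (nat_lit 9293614166) (nat_lit 0) (nat_lit 14723236659) (nat_lit 18) (nat_lit 5) (nat_lit 20) (nat_lit 4) (nat_lit 18) (nat_lit 4) (nat_lit 484) (nat_lit 373) (nat_lit 343))))))) (XT.nd (nat_lit 1014) (nat_lit 0) (nat_lit 0) (XT.nd (nat_lit 468) (nat_lit 304) (nat_lit 0)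 (XT.nd (nat_lit 234) (nat_lit 228) (nat_lit 0) (XT.nd (nat_lit 78) (nat_lit 152) (nat_lit 0) (XT.lf (nat_lit 0) (nat_lit 18038996493) (nat_lit 76) (nat_lit 16267919212) (nat_lit 76) (nat_lit 11199230509) (nat_lit 17) (nat_lit 4) (nat_lit 18) (nat_lit 5) (nat_lit 18) (nat_lit 4) (nat_lit 485) (nat_lit 373) (nat_lit 342)) (XT.nd (nat_lit 78) (nat_lit 76) (nat_lit 0) (XT.lf (nat_lit 0) (nat_lit 2101979905) (nat_lit 152) (nat_lit 869889799) (nat_lit 76) (nat_lit 44394473765) (nat_lit 16) (nat_lit 5) (nat_lit 18) (nat_lit 5) (nat_lit 17) (nat_lit 4) (nat_lit 486) (nat_lit 373) (nat_lit 341)) (XT.lf (nat_lit 0) (nat_lit 16006618226) (nat_lit 152) (nat_lit 22348258899) (nat_lit 0) (nat_lit 10956248591) (nat_lit 15) (nat_lit 5) (nat_lit 17) (nat_lit 4) (nat_lit 15) (nat_lit 4) (nat_lit 487) (nat_lit 373) (nat_lit 340)))) (XT.nd (nat_lit 78) (nat_lit 152) (nat_lit 0) (XT.lf (nat_lit 0) (nat_lit 4519141558)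 (nat_lit 76) (nat_lit 25973927212) (nat_lit 76) (nat_lit 20863482016) (nat_lit 14) (nat_lit 4) (nat_lit 15) (nat_lit 5) (nat_lit 15) (nat_lit 4) (nat_lit 488) (nat_lit 373) (nat_lit 339)) (XT.nd (nat_lit 78) (nat_lit 152) (nat_lit 0) (XT.lf (nat_lit 0) (nat_lit 32816628077) (nat_lit 76) (nat_lit 12927042623) (nat_lit 76) (nat_lit 7759382609) (nat_lit 14) (nat_lit 4) (nat_lit 15) (nat_lit 5) (nat_lit 15) (nat_lit 4) (nat_lit 489) (nat_lit 373) (nat_lit 338)) (XT.lf (nat_lit 0) (nat_lit 5768972008) (nat_lit 152) (nat_lit 49290672622) (nat_lit 0) (nat_lit 698923156) (nat_lit 12) (nat_lit 5) (nat_lit 14) (nat_lit 4) (nat_lit 12) (nat_lit 4) (nat_lit 490) (nat_lit 373) (nat_lit 337))))) (XT.nd (nat_lit 234) (nat_lit 228) (nat_lit 0) (XT.nd (nat_lit 78) (nat_lit 76) (nat_lit 0) (XT.lf (nat_lit 0) (nat_lit 19980918586) (nat_lit 152) (nat_lit 23278120339) (nat_lit 0) (nat_lit 14860485727) (nat_lit 12)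 (nat_lit 5) (nat_lit 14) (nat_lit 4) (nat_lit 12) (nat_lit 4) (nat_lit 491) (nat_lit 373) (nat_lit 336)) (XT.nd (nat_lit 78) (nat_lit 0) (nat_lit 0) (XT.lf (nat_lit 0) (nat_lit 3766688523) (nat_lit 76) (nat_lit 31002149053) (nat_lit 76) (nat_lit 25833731426) (nat_lit 11) (nat_lit 4) (nat_lit 12) (nat_lit 5) (nat_lit 12) (nat_lit 4) (nat_lit 492) (nat_lit 373) (nat_lit 335)) (XT.lf (nat_lit 0) (nat_lit 32318109095) (nat_lit 76) (nat_lit 18051781298) (nat_lit 76) (nat_lit 12837663891) (nat_lit 11) (nat_lit 4) (nat_lit 12) (nat_lit 5) (nat_lit 12) (nat_lit 4) (nat_lit 493) (nat_lit 373) (nat_lit 334)))) (XT.nd (nat_lit 156) (nat_lit 76) (nat_lit 0) (XT.nd (nat_lit 78) (nat_lit 76) (nat_lit 0) (XT.lf (nat_lit 0) (nat_lit 632880619) (nat_lit 152) (nat_lit 3972893349) (nat_lit 76) (nat_lit 61341569240) (nat_lit 10) (nat_lit 5) (nat_lit 12) (nat_lit 5) (nat_lit 11) (nat_lit 4) (nat_lit 494) (nat_lit 373)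 (nat_lit 333)) (XT.lf (nat_lit 0) (nat_lit 14689414781) (nat_lit 152) (nat_lit 44580890216) (nat_lit 0) (nat_lit 9544665214) (nat_lit 9) (nat_lit 5) (nat_lit 11) (nat_lit 4) (nat_lit 9) (nat_lit 4) (nat_lit 495) (nat_lit 373) (nat_lit 332))) (XT.nd (nat_lit 78) (nat_lit 76) (nat_lit 0) (XT.lf (nat_lit 0) (nat_lit 29387581092) (nat_lit 152) (nat_lit 18235729863) (nat_lit 0) (nat_lit 24204504159) (nat_lit 9) (nat_lit 5) (nat_lit 11) (nat_lit 4) (nat_lit 9) (nat_lit 4) (nat_lit 496) (nat_lit 373) (nat_lit 331)) (XT.lf (nat_lit 0) (nat_lit 9324344921) (nat_lit 76) (nat_lit 35444052479) (nat_lit 76) (nat_lit 30224473291) (nat_lit 8) (nat_lit 4) (nat_lit 9) (nat_lit 5) (nat_lit 9) (nat_lit 4) (nat_lit 497) (nat_lit 373) (nat_lit 330)))))) (XT.nd (nat_lit 59280) (nat_lit 0) (nat_lit 2812) (XT.nd (nat_lit 59046) (nat_lit 0) (nat_lit 3876) (XT.nd (nat_lit 58890) (nat_lit 0) (nat_lit 4484) (XT.lf (nat_lit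 0) (nat_lit 38367350687) (nat_lit 76) (nat_lit 22600837124) (nat_lit 76) (nat_lit 17346493885) (nat_lit 8) (nat_lit 4) (nat_lit 9) (nat_lit 5) (nat_lit 9) (nat_lit 4) (nat_lit 498) (nat_lit 373) (nat_lit 329)) (XT.nd (nat_lit 78) (nat_lit 304) (nat_lit 0) (XT.lf (nat_lit 0) (nat_lit 6375501465) (nat_lit 152) (nat_lit 620076794) (nat_lit 152) (nat_lit 620076794) (nat_lit 71) (nat_lit 4) (nat_lit 73) (nat_lit 5) (nat_lit 73) (nat_lit 4) (nat_lit 452) (nat_lit 374) (nat_lit 374)) (XT.lf (nat_lit 0) (nat_lit 3799042803) (nat_lit 152) (nat_lit 6180711519) (nat_lit 152) (nat_lit 5659076410) (nat_lit 67) (nat_lit 4) (nat_lit 69) (nat_lit 5) (nat_lit 69) (nat_lit 4) (nat_lit 453) (nat_lit 374) (nat_lit 373)))) (XT.nd (nat_lit 78) (nat_lit 456) (nat_lit 0) (XT.lf (nat_lit 0) (nat_lit 5541023330) (nat_lit 152) (nat_lit 5971964395) (nat_lit 0) (nat_lit 4552255903) (nat_lit 65) (nat_lit 5) (nat_lit 67) (nat_lit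 4) (nat_lit 65) (nat_lit 4) (nat_lit 454) (nat_lit 374) (nat_lit 372)) (XT.nd (nat_lit 78) (nat_lit 228) (nat_lit 0) (XT.lf (nat_lit 0) (nat_lit 628849624) (nat_lit 228) (nat_lit 171560379) (nat_lit 76) (nat_lit 15711624990) (nat_lit 62) (nat_lit 5) (nat_lit 65) (nat_lit 5) (nat_lit 63) (nat_lit 4) (nat_lit 455) (nat_lit 374) (nat_lit 371)) (XT.lf (nat_lit 0) (nat_lit 5574858594) (nat_lit 152) (nat_lit 6615905886) (nat_lit 152) (nat_lit 4785217895) (nat_lit 59) (nat_lit 4) (nat_lit 61) (nat_lit 5) (nat_lit 61) (nat_lit 4) (nat_lit 456) (nat_lit 374) (nat_lit 370))))) (XT.nd (nat_lit 234) (nat_lit 608) (nat_lit 0) (XT.nd (nat_lit 78) (nat_lit 304) (nat_lit 0) (XT.lf (nat_lit 0) (nat_lit 6700632260) (nat_lit 152) (nat_lit 6230980009) (nat_lit 0) (nat_lit 4530531782) (nat_lit 57) (nat_lit 5) (nat_lit 59) (nat_lit 4) (nat_lit 57) (nat_lit 4) (nat_lit 457) (nat_lit 374) (nat_lit 369)) (XT.nd (nat_lit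 78) (nat_lit 152) (nat_lit 0) (XT.lf (nat_lit 0) (nat_lit 663142785) (nat_lit 152) (nat_lit 1197952525) (nat_lit 76) (nat_lit 16110324680) (nat_lit 55) (nat_lit 5) (nat_lit 57) (nat_lit 5) (nat_lit 56) (nat_lit 4) (nat_lit 458) (nat_lit 374) (nat_lit 368)) (XT.lf (nat_lit 0) (nat_lit 3667439674) (nat_lit 76) (nat_lit 8824865864) (nat_lit 76) (nat_lit 6008988935) (nat_lit 53) (nat_lit 4) (nat_lit 54) (nat_lit 5) (nat_lit 54) (nat_lit 4) (nat_lit 459) (nat_lit 374) (nat_lit 367)))) (XT.nd (nat_lit 156) (nat_lit 380) (nat_lit 0) (XT.nd (nat_lit 78) (nat_lit 76) (nat_lit 0) (XT.lf (nat_lit 0) (nat_lit 5722194211) (nat_lit 152) (nat_lit 10665800311) (nat_lit 0) (nat_lit 2668549950) (nat_lit 51) (nat_lit 5) (nat_lit 53) (nat_lit 4) (nat_lit 51) (nat_lit 4) (nat_lit 460) (nat_lit 374) (nat_lit 366)) (XT.lf (nat_lit 0) (nat_lit 12873557826) (nat_lit 76) (nat_lit 5060927453) (nat_lit 76) (nat_lit 1702727796)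 (nat_lit 50) (nat_lit 4) (nat_lit 51) (nat_lit 5) (nat_lit 51) (nat_lit 4) (nat_lit 461) (nat_lit 374) (nat_lit 365))) (XT.nd (nat_lit 78) (nat_lit 228) (nat_lit 0) (XT.lf (nat_lit 0) (nat_lit 10304864119) (nat_lit 152) (nat_lit 3176169189) (nat_lit 0) (nat_lit 6762871484) (nat_lit 48) (nat_lit 5) (nat_lit 50) (nat_lit 4) (nat_lit 48) (nat_lit 4) (nat_lit 462) (nat_lit 374) (nat_lit 364)) (XT.lf (nat_lit 0) (nat_lit 144529762) (nat_lit 76) (nat_lit 1803606825) (nat_lit 152) (nat_lit 18932020233) (nat_lit 45) (nat_lit 5) (nat_lit 46) (nat_lit 5) (nat_lit 47) (nat_lit 4) (nat_lit 463) (nat_lit 374) (nat_lit 363))))))))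
noncomputable def xc11 : XT := (XT.nd (nat_lit 1950) (nat_lit 532) (nat_lit 0) (XT.nd (nat_lit 936) (nat_lit 988) (nat_lit 0) (XT.nd (nat_lit 468) (nat_lit 608) (nat_lit 0) (XT.nd (nat_lit 234) (nat_lit 380) (nat_lit 0) (XT.nd (nat_lit 78) (nat_lit 228) (nat_lit 0) (XT.lf (nat_lit 0) (nat_lit 3101276506) (nat_lit 76) (nat_lit 11194521161) (nat_lit 76) (nat_lit 7247325820) (nat_lit 44) (nat_lit 4) (nat_lit 45) (nat_lit 5) (nat_lit 45) (nat_lit 4) (nat_lit 464) (nat_lit 374) (nat_lit 362)) (XT.nd (nat_lit 78) (nat_lit 76) (nat_lit 0) (XT.lf (nat_lit 0) (nat_lit 4889153893) (nat_lit 152) (nat_lit 16522045632) (nat_lit 0) (nat_lit 827628906) (nat_lit 42) (nat_lit 5) (nat_lit 44) (nat_lit 4) (nat_lit 42) (nat_lit 4) (nat_lit 465) (nat_lit 374) (nat_lit 361)) (XT.lf (nat_lit 0) (nat_lit 7833344978) (nat_lit 76) (nat_lit 9706012045) (nat_lit 76) (nat_lit 5426109438) (nat_lit 41) (nat_lit 4) (nat_lit 42)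 (nat_lit 5) (nat_lit 42) (nat_lit 4) (nat_lit 466) (nat_lit 374) (nat_lit 360)))) (XT.nd (nat_lit 78) (nat_lit 228) (nat_lit 0) (XT.lf (nat_lit 0) (nat_lit 6925435389) (nat_lit 152) (nat_lit 14233583312) (nat_lit 0) (nat_lit 2568269085) (nat_lit 39) (nat_lit 5) (nat_lit 41) (nat_lit 4) (nat_lit 39) (nat_lit 4) (nat_lit 467) (nat_lit 374) (nat_lit 359)) (XT.nd (nat_lit 78) (nat_lit 152) (nat_lit 0) (XT.lf (nat_lit 0) (nat_lit 10583575280) (nat_lit 76) (nat_lit 9245050093) (nat_lit 76) (nat_lit 4695578023) (nat_lit 38) (nat_lit 4) (nat_lit 39) (nat_lit 5) (nat_lit 39) (nat_lit 4) (nat_lit 468) (nat_lit 374) (nat_lit 358)) (XT.lf (nat_lit 0) (nat_lit 7840619549) (nat_lit 152) (nat_lit 14272763538) (nat_lit 0) (nat_lit 3245842444) (nat_lit 36) (nat_lit 5) (nat_lit 38) (nat_lit 4) (nat_lit 36) (nat_lit 4) (nat_lit 469) (nat_lit 374) (nat_lit 357))))) (XT.nd (nat_lit 234) (nat_lit 304) (nat_lit 0) (XT.nd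 (nat_lit 78) (nat_lit 228) (nat_lit 0) (XT.lf (nat_lit 0) (nat_lit 10904606170) (nat_lit 76) (nat_lit 10046395078) (nat_lit 76) (nat_lit 5282271373) (nat_lit 35) (nat_lit 4) (nat_lit 36) (nat_lit 5) (nat_lit 36) (nat_lit 4) (nat_lit 470) (nat_lit 374) (nat_lit 356)) (XT.nd (nat_lit 78) (nat_lit 76) (nat_lit 0) (XT.lf (nat_lit 0) (nat_lit 7395087201) (nat_lit 152) (nat_lit 17141311146) (nat_lit 0) (nat_lit 2613139452) (nat_lit 33) (nat_lit 5) (nat_lit 35) (nat_lit 4) (nat_lit 33) (nat_lit 4) (nat_lit 471) (nat_lit 374) (nat_lit 355)) (XT.lf (nat_lit 0) (nat_lit 8261565361) (nat_lit 76) (nat_lit 12388978325) (nat_lit 76) (nat_lit 7457902073) (nat_lit 32) (nat_lit 4) (nat_lit 33) (nat_lit 5) (nat_lit 33) (nat_lit 4) (nat_lit 472) (nat_lit 374) (nat_lit 354)))) (XT.nd (nat_lit 78) (nat_lit 152) (nat_lit 0) (XT.lf (nat_lit 0) (nat_lit 5301467561) (nat_lit 152) (nat_lit 23437504685) (nat_lit 0) (nat_lit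 376124455) (nat_lit 30) (nat_lit 5) (nat_lit 32) (nat_lit 4) (nat_lit 30) (nat_lit 4) (nat_lit 473) (nat_lit 374) (nat_lit 353)) (XT.nd (nat_lit 78) (nat_lit 76) (nat_lit 0) (XT.lf (nat_lit 0) (nat_lit 2016351557) (nat_lit 76) (nat_lit 16603955461) (nat_lit 76) (nat_lit 11547288133) (nat_lit 29) (nat_lit 4) (nat_lit 30) (nat_lit 5) (nat_lit 30) (nat_lit 4) (nat_lit 474) (nat_lit 374) (nat_lit 352)) (XT.lf (nat_lit 0) (nat_lit 1278970191) (nat_lit 152) (nat_lit 2585428527) (nat_lit 76) (nat_lit 27408759852) (nat_lit 28) (nat_lit 5) (nat_lit 30) (nat_lit 5) (nat_lit 29) (nat_lit 4) (nat_lit 475) (nat_lit 374) (nat_lit 351)))))) (XT.nd (nat_lit 468) (nat_lit 456) (nat_lit 0) (XT.nd (nat_lit 234) (nat_lit 228) (nat_lit 0) (XT.nd (nat_lit 78) (nat_lit 228) (nat_lit 0) (XT.lf (nat_lit 0) (nat_lit 14575910808) (nat_lit 152) (nat_lit 8423164439) (nat_lit 0) (nat_lit 9429451627) (nat_lit 27) (nat_lit 5)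 (nat_lit 29) (nat_lit 4) (nat_lit 27) (nat_lit 4) (nat_lit 476) (nat_lit 374) (nat_lit 350)) (XT.nd (nat_lit 78) (nat_lit 152) (nat_lit 0) (XT.lf (nat_lit 0) (nat_lit 18151473279) (nat_lit 76) (nat_lit 10373584701) (nat_lit 76) (nat_lit 5116986879) (nat_lit 26) (nat_lit 4) (nat_lit 27) (nat_lit 5) (nat_lit 27) (nat_lit 4) (nat_lit 477) (nat_lit 374) (nat_lit 349)) (XT.lf (nat_lit 0) (nat_lit 8067208338) (nat_lit 152) (nat_lit 23985588761) (nat_lit 0) (nat_lit 2861876526) (nat_lit 24) (nat_lit 5) (nat_lit 26) (nat_lit 4) (nat_lit 24) (nat_lit 4) (nat_lit 478) (nat_lit 374) (nat_lit 348)))) (XT.nd (nat_lit 78) (nat_lit 152) (nat_lit 0) (XT.lf (nat_lit 0) (nat_lit 2147590325) (nat_lit 76) (nat_lit 19701410056) (nat_lit 76) (nat_lit 14399088929) (nat_lit 23) (nat_lit 4) (nat_lit 24) (nat_lit 5) (nat_lit 24) (nat_lit 4) (nat_lit 479) (nat_lit 374) (nat_lit 347)) (XT.nd (nat_lit 78) (nat_lit 152) (nat_lit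 0) (XT.lf (nat_lit 0) (nat_lit 29618851402) (nat_lit 76) (nat_lit 6711846759) (nat_lit 76) (nat_lit 1317154856) (nat_lit 23) (nat_lit 4) (nat_lit 24) (nat_lit 5) (nat_lit 24) (nat_lit 4) (nat_lit 480) (nat_lit 374) (nat_lit 346)) (XT.lf (nat_lit 0) (nat_lit 12200956563) (nat_lit 152) (nat_lit 20034354335) (nat_lit 0) (nat_lit 6877981737) (nat_lit 21) (nat_lit 5) (nat_lit 23) (nat_lit 4) (nat_lit 21) (nat_lit 4) (nat_lit 481) (nat_lit 374) (nat_lit 345))))) (XT.nd (nat_lit 234) (nat_lit 228) (nat_lit 0) (XT.nd (nat_lit 78) (nat_lit 152) (nat_lit 0) (XT.lf (nat_lit 0) (nat_lit 6665223668) (nat_lit 76) (nat_lit 19695459941) (nat_lit 76) (nat_lit 14291142379) (nat_lit 20) (nat_lit 4) (nat_lit 21) (nat_lit 5) (nat_lit 21) (nat_lit 4) (nat_lit 482) (nat_lit 374) (nat_lit 344)) (XT.nd (nat_lit 78) (nat_lit 152) (nat_lit 0) (XT.lf (nat_lit 0) (nat_lit 34687638018) (nat_lit 76) (nat_lit 6530866520) (nat_lit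 76) (nat_lit 1049079688) (nat_lit 20) (nat_lit 4) (nat_lit 21) (nat_lit 5) (nat_lit 21) (nat_lit 4) (nat_lit 483) (nat_lit 374) (nat_lit 343)) (XT.lf (nat_lit 0) (nat_lit 12659842842) (nat_lit 152) (nat_lit 24032825181) (nat_lit 0) (nat_lit 7266088385) (nat_lit 18) (nat_lit 5) (nat_lit 20) (nat_lit 4) (nat_lit 18) (nat_lit 4) (nat_lit 484) (nat_lit 374) (nat_lit 342)))) (XT.nd (nat_lit 156) (nat_lit 152) (nat_lit 0) (XT.nd (nat_lit 78) (nat_lit 0) (nat_lit 0) (XT.lf (nat_lit 0) (nat_lit 2804120745) (nat_lit 76) (nat_lit 24196493942) (nat_lit 76) (nat_lit 18734519181) (nat_lit 17) (nat_lit 4) (nat_lit 18) (nat_lit 5) (nat_lit 18) (nat_lit 4) (nat_lit 485) (nat_lit 374) (nat_lit 341)) (XT.lf (nat_lit 0) (nat_lit 31090112815) (nat_lit 76) (nat_lit 11017839628) (nat_lit 76) (nat_lit 5490893150) (nat_lit 17) (nat_lit 4) (nat_lit 18) (nat_lit 5) (nat_lit 18) (nat_lit 4) (nat_lit 486) (nat_lit 374) (nat_lit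 340))) (XT.nd (nat_lit 78) (nat_lit 0) (nat_lit 0) (XT.lf (nat_lit 0) (nat_lit 8193148651) (nat_lit 152) (nat_lit 38594789863) (nat_lit 0) (nat_lit 2767105636) (nat_lit 15) (nat_lit 5) (nat_lit 17) (nat_lit 4) (nat_lit 15) (nat_lit 4) (nat_lit 487) (nat_lit 374) (nat_lit 339)) (XT.lf (nat_lit 0) (nat_lit 22545148148) (nat_lit 152) (nat_lit 11997464808) (nat_lit 0) (nat_lit 17061890315) (nat_lit 15) (nat_lit 5) (nat_lit 17) (nat_lit 4) (nat_lit 15) (nat_lit 4) (nat_lit 488) (nat_lit 374) (nat_lit 338))))))) (XT.nd (nat_lit 59670) (nat_lit 0) (nat_lit 2660) (XT.nd (nat_lit 468) (nat_lit 228) (nat_lit 0) (XT.nd (nat_lit 234) (nat_lit 76) (nat_lit 0) (XT.nd (nat_lit 78) (nat_lit 152) (nat_lit 0) (XT.lf (nat_lit 0) (nat_lit 15884571820) (nat_lit 76) (nat_lit 21705181258) (nat_lit 76) (nat_lit 16167433120) (nat_lit 14) (nat_lit 4) (nat_lit 15) (nat_lit 5) (nat_lit 15) (nat_lit 4) (nat_lit 489) (nat_lit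 374) (nat_lit 337)) (XT.nd (nat_lit 78) (nat_lit 152) (nat_lit 0) (XT.lf (nat_lit 0) (nat_lit 45066481560) (nat_lit 76) (nat_lit 8271068740) (nat_lit 76) (nat_lit 2681425076) (nat_lit 14) (nat_lit 4) (nat_lit 15) (nat_lit 5) (nat_lit 15) (nat_lit 4) (nat_lit 490) (nat_lit 374) (nat_lit 336)) (XT.lf (nat_lit 0) (nat_lit 11311565666) (nat_lit 152) (nat_lit 41240536291) (nat_lit 0) (nat_lit 5836742389) (nat_lit 12) (nat_lit 5) (nat_lit 14) (nat_lit 4) (nat_lit 12) (nat_lit 4) (nat_lit 491) (nat_lit 374) (nat_lit 335)))) (XT.nd (nat_lit 78) (nat_lit 76) (nat_lit 0) (XT.lf (nat_lit 0) (nat_lit 25983912190) (nat_lit 152) (nat_lit 14428054964) (nat_lit 0) (nat_lit 20463389132) (nat_lit 12) (nat_lit 5) (nat_lit 14) (nat_lit 4) (nat_lit 12) (nat_lit 4) (nat_lit 492) (nat_lit 374) (nat_lit 334)) (XT.nd (nat_lit 78) (nat_lit 0) (nat_lit 0) (XT.lf (nat_lit 0) (nat_lit 13681945861) (nat_lit 76) (nat_lit 27684499179)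 (nat_lit 76) (nat_lit 22120452522) (nat_lit 11) (nat_lit 4) (nat_lit 12) (nat_lit 5) (nat_lit 12) (nat_lit 4) (nat_lit 493) (nat_lit 374) (nat_lit 333)) (XT.lf (nat_lit 0) (nat_lit 43197750657) (nat_lit 76) (nat_lit 14318411004) (nat_lit 76) (nat_lit 8712913300) (nat_lit 11) (nat_lit 4) (nat_lit 12) (nat_lit 5) (nat_lit 12) (nat_lit 4) (nat_lit 494) (nat_lit 374) (nat_lit 332))))) (XT.nd (nat_lit 234) (nat_lit 76) (nat_lit 0) (XT.nd (nat_lit 78) (nat_lit 0) (nat_lit 0) (XT.lf (nat_lit 0) (nat_lit 4834003511) (nat_lit 76) (nat_lit 328054815) (nat_lit 152) (nat_lit 63947704086) (nat_lit 9) (nat_lit 5) (nat_lit 10) (nat_lit 5) (nat_lit 11) (nat_lit 4) (nat_lit 495) (nat_lit 374) (nat_lit 331)) (XT.nd (nat_lit 78) (nat_lit 0) (nat_lit 0) (XT.lf (nat_lit 0) (nat_lit 19787856722) (nat_lit 152) (nat_lit 38066125641) (nat_lit 0) (nat_lit 14270796321) (nat_lit 9) (nat_lit 5) (nat_lit 11) (nat_lit 4) (nat_lit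 9) (nat_lit 4) (nat_lit 496) (nat_lit 374) (nat_lit 330)) (XT.lf (nat_lit 0) (nat_lit 35013123197) (nat_lit 152) (nat_lit 10820079131) (nat_lit 0) (nat_lit 29461298744) (nat_lit 9) (nat_lit 5) (nat_lit 11) (nat_lit 4) (nat_lit 9) (nat_lit 4) (nat_lit 497) (nat_lit 374) (nat_lit 329)))) (XT.nd (nat_lit 58812) (nat_lit 0) (nat_lit 4788) (XT.nd (nat_lit 58734) (nat_lit 0) (nat_lit 5244) (XT.lf (nat_lit 0) (nat_lit 17879295076) (nat_lit 76) (nat_lit 33163526567) (nat_lit 76) (nat_lit 27578593493) (nat_lit 8) (nat_lit 4) (nat_lit 9) (nat_lit 5) (nat_lit 9) (nat_lit 4) (nat_lit 498) (nat_lit 374) (nat_lit 328)) (XT.lf (nat_lit 0) (nat_lit 3541340283) (nat_lit 152) (nat_lit 147222787) (nat_lit 0) (nat_lit 3541340283) (nat_lit 77) (nat_lit 5) (nat_lit 79) (nat_lit 4) (nat_lit 77) (nat_lit 4) (nat_lit 450) (nat_lit 375) (nat_lit 375))) (XT.nd (nat_lit 78) (nat_lit 152) (nat_lit 0) (XT.lf (nat_lit 0) (nat_lit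 3315197213) (nat_lit 152) (nat_lit 8773395605) (nat_lit 0) (nat_lit 2751048843) (nat_lit 73) (nat_lit 5) (nat_lit 75) (nat_lit 4) (nat_lit 73) (nat_lit 4) (nat_lit 451) (nat_lit 375) (nat_lit 374)) (XT.lf (nat_lit 0) (nat_lit 12405235459) (nat_lit 152) (nat_lit 1966509429) (nat_lit 152) (nat_lit 865076897) (nat_lit 71) (nat_lit 4) (nat_lit 73) (nat_lit 5) (nat_lit 73) (nat_lit 4) (nat_lit 452) (nat_lit 375) (nat_lit 373)))))) (XT.nd (nat_lit 468) (nat_lit 988) (nat_lit 0) (XT.nd (nat_lit 234) (nat_lit 456) (nat_lit 0) (XT.nd (nat_lit 78) (nat_lit 380) (nat_lit 0) (XT.lf (nat_lit 0) (nat_lit 3081252618) (nat_lit 152) (nat_lit 7067547406) (nat_lit 152) (nat_lit 5501400092) (nat_lit 67) (nat_lit 4) (nat_lit 69) (nat_lit 5) (nat_lit 69) (nat_lit 4) (nat_lit 453) (nat_lit 375) (nat_lit 372)) (XT.nd (nat_lit 78) (nat_lit 228) (nat_lit 0) (XT.lf (nat_lit 0) (nat_lit 5497342637) (nat_lit 152) (nat_lit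 7067723908) (nat_lit 0) (nat_lit 3517453574) (nat_lit 65) (nat_lit 5) (nat_lit 67) (nat_lit 4) (nat_lit 65) (nat_lit 4) (nat_lit 454) (nat_lit 375) (nat_lit 371)) (XT.lf (nat_lit 0) (nat_lit 379386379) (nat_lit 228) (nat_lit 1647218227) (nat_lit 76) (nat_lit 14508419181) (nat_lit 62) (nat_lit 5) (nat_lit 65) (nat_lit 5) (nat_lit 63) (nat_lit 4) (nat_lit 455) (nat_lit 375) (nat_lit 370)))) (XT.nd (nat_lit 78) (nat_lit 228) (nat_lit 0) (XT.lf (nat_lit 0) (nat_lit 3686393297) (nat_lit 152) (nat_lit 8035324114) (nat_lit 152) (nat_lit 5283844946) (nat_lit 59) (nat_lit 4) (nat_lit 61) (nat_lit 5) (nat_lit 61) (nat_lit 4) (nat_lit 456) (nat_lit 375) (nat_lit 369)) (XT.nd (nat_lit 78) (nat_lit 76) (nat_lit 0) (XT.lf (nat_lit 0) (nat_lit 6002818763) (nat_lit 152) (nat_lit 8537872089) (nat_lit 0) (nat_lit 2957447865) (nat_lit 57) (nat_lit 5) (nat_lit 59) (nat_lit 4) (nat_lit 57) (nat_lit 4) (nat_lit 457)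 (nat_lit 375) (nat_lit 368)) (XT.lf (nat_lit 0) (nat_lit 14097928483) (nat_lit 76) (nat_lit 3658543160) (nat_lit 76) (nat_lit 256951404) (nat_lit 56) (nat_lit 4) (nat_lit 57) (nat_lit 5) (nat_lit 57) (nat_lit 4) (nat_lit 458) (nat_lit 375) (nat_lit 367))))) (XT.nd (nat_lit 234) (nat_lit 532) (nat_lit 0) (XT.nd (nat_lit 78) (nat_lit 228) (nat_lit 0) (XT.lf (nat_lit 0) (nat_lit 484036707) (nat_lit 76) (nat_lit 10849274140) (nat_lit 76) (nat_lit 7217381211) (nat_lit 53) (nat_lit 4) (nat_lit 54) (nat_lit 5) (nat_lit 54) (nat_lit 4) (nat_lit 459) (nat_lit 375) (nat_lit 366)) (XT.nd (nat_lit 78) (nat_lit 76) (nat_lit 0) (XT.lf (nat_lit 0) (nat_lit 4315492423) (nat_lit 152) (nat_lit 14312630174) (nat_lit 0) (nat_lit 484827388) (nat_lit 51) (nat_lit 5) (nat_lit 53) (nat_lit 4) (nat_lit 51) (nat_lit 4) (nat_lit 460) (nat_lit 375) (nat_lit 365)) (XT.lf (nat_lit 0) (nat_lit 8832897952) (nat_lit 76) (nat_lit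 7493737749) (nat_lit 76) (nat_lit 3373019956) (nat_lit 50) (nat_lit 4) (nat_lit 51) (nat_lit 5) (nat_lit 51) (nat_lit 4) (nat_lit 461) (nat_lit 375) (nat_lit 364)))) (XT.nd (nat_lit 156) (nat_lit 304) (nat_lit 0) (XT.nd (nat_lit 78) (nat_lit 76) (nat_lit 0) (XT.lf (nat_lit 0) (nat_lit 8439571365) (nat_lit 152) (nat_lit 7703408336) (nat_lit 0) (nat_lit 4170679604) (nat_lit 48) (nat_lit 5) (nat_lit 50) (nat_lit 4) (nat_lit 48) (nat_lit 4) (nat_lit 462) (nat_lit 375) (nat_lit 363)) (XT.lf (nat_lit 0) (nat_lit 16114693403) (nat_lit 76) (nat_lit 4683122287) (nat_lit 76) (nat_lit 158806835) (nat_lit 47) (nat_lit 4) (nat_lit 48) (nat_lit 5) (nat_lit 48) (nat_lit 4) (nat_lit 463) (nat_lit 375) (nat_lit 362))) (XT.nd (nat_lit 78) (nat_lit 152) (nat_lit 0) (XT.lf (nat_lit 0) (nat_lit 11929470177) (nat_lit 152) (nat_lit 2397285939) (nat_lit 0) (nat_lit 7300755507) (nat_lit 45) (nat_lit 5) (nat_lit 47) (nat_lit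 4) (nat_lit 45) (nat_lit 4) (nat_lit 464) (nat_lit 375) (nat_lit 361)) (XT.lf (nat_lit 0) (nat_lit 2245426250) (nat_lit 152) (nat_lit 295428328) (nat_lit 76) (nat_lit 19790295734) (nat_lit 43) (nat_lit 5) (nat_lit 45) (nat_lit 5) (nat_lit 44) (nat_lit 4) (nat_lit 465) (nat_lit 375) (nat_lit 360))))))))
noncomputable def xc12 : XT := (XT.nd (nat_lit 1950) (nat_lit 380) (nat_lit 0) (XT.nd (nat_lit 936) (nat_lit 912) (nat_lit 0) (XT.nd (nat_lit 468) (nat_lit 532) (nat_lit 0) (XT.nd (nat_lit 234) (nat_lit 380) (nat_lit 0) (XT.nd (nat_lit 78) (nat_lit 228) (nat_lit 0) (XT.lf (nat_lit 0) (nat_lit 1324541286) (nat_lit 76) (nat_lit 13330362379) (nat_lit 76) (nat_lit 8410108336) (nat_lit 41) (nat_lit 4) (nat_lit 42) (nat_lit 5) (nat_lit 42) (nat_lit 4) (nat_lit 466) (nat_lit 375) (nat_lit 359)) (XT.nd (nat_lit 78) (nat_lit 76) (nat_lit 0) (XT.lf (nat_lit 0) (nat_lit 2513036235) (nat_lit 76) (nat_lit 1246256975)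 (nat_lit 152) (nat_lit 20075613540) (nat_lit 39) (nat_lit 5) (nat_lit 40) (nat_lit 5) (nat_lit 41) (nat_lit 4) (nat_lit 467) (nat_lit 375) (nat_lit 358)) (XT.lf (nat_lit 0) (nat_lit 3075894673) (nat_lit 76) (nat_lit 13357599405) (nat_lit 76) (nat_lit 8205199618) (nat_lit 38) (nat_lit 4) (nat_lit 39) (nat_lit 5) (nat_lit 39) (nat_lit 4) (nat_lit 468) (nat_lit 375) (nat_lit 357)))) (XT.nd (nat_lit 78) (nat_lit 228) (nat_lit 0) (XT.lf (nat_lit 0) (nat_lit 3094683301) (nat_lit 76) (nat_lit 1053843834) (nat_lit 152) (nat_lit 21333731019) (nat_lit 36) (nat_lit 5) (nat_lit 37) (nat_lit 5) (nat_lit 38) (nat_lit 4) (nat_lit 469) (nat_lit 375) (nat_lit 356)) (XT.nd (nat_lit 78) (nat_lit 152) (nat_lit 0) (XT.lf (nat_lit 0) (nat_lit 2358793268) (nat_lit 76) (nat_lit 14668707327) (nat_lit 76) (nat_lit 9335748360) (nat_lit 35) (nat_lit 4) (nat_lit 36) (nat_lit 5) (nat_lit 36) (nat_lit 4) (nat_lit 470) (nat_lit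 375) (nat_lit 355)) (XT.lf (nat_lit 0) (nat_lit 951318222) (nat_lit 76) (nat_lit 2220051013) (nat_lit 152) (nat_lit 24116795356) (nat_lit 33) (nat_lit 5) (nat_lit 34) (nat_lit 5) (nat_lit 35) (nat_lit 4) (nat_lit 471) (nat_lit 375) (nat_lit 354))))) (XT.nd (nat_lit 234) (nat_lit 304) (nat_lit 0) (XT.nd (nat_lit 78) (nat_lit 228) (nat_lit 0) (XT.lf (nat_lit 0) (nat_lit 16192405243) (nat_lit 152) (nat_lit 1338081683) (nat_lit 0) (nat_lit 10723619528) (nat_lit 33) (nat_lit 5) (nat_lit 35) (nat_lit 4) (nat_lit 33) (nat_lit 4) (nat_lit 472) (nat_lit 375) (nat_lit 353)) (XT.nd (nat_lit 78) (nat_lit 76) (nat_lit 0) (XT.lf (nat_lit 0) (nat_lit 584903272) (nat_lit 152) (nat_lit 4416696020) (nat_lit 76) (nat_lit 24266564989) (nat_lit 31) (nat_lit 5) (nat_lit 33) (nat_lit 5) (nat_lit 32) (nat_lit 4) (nat_lit 473) (nat_lit 375) (nat_lit 352)) (XT.lf (nat_lit 0) (nat_lit 13664121139) (nat_lit 152) (nat_lit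 8565505840) (nat_lit 0) (nat_lit 8098225535) (nat_lit 30) (nat_lit 5) (nat_lit 32) (nat_lit 4) (nat_lit 30) (nat_lit 4) (nat_lit 474) (nat_lit 375) (nat_lit 351)))) (XT.nd (nat_lit 78) (nat_lit 228) (nat_lit 0) (XT.lf (nat_lit 0) (nat_lit 17701148785) (nat_lit 76) (nat_lit 9711957473) (nat_lit 76) (nat_lit 4026946929) (nat_lit 29) (nat_lit 4) (nat_lit 30) (nat_lit 5) (nat_lit 30) (nat_lit 4) (nat_lit 475) (nat_lit 375) (nat_lit 350)) (XT.nd (nat_lit 78) (nat_lit 76) (nat_lit 0) (XT.lf (nat_lit 0) (nat_lit 9058515565) (nat_lit 152) (nat_lit 20117820751) (nat_lit 0) (nat_lit 3428949210) (nat_lit 27) (nat_lit 5) (nat_lit 29) (nat_lit 4) (nat_lit 27) (nat_lit 4) (nat_lit 476) (nat_lit 375) (nat_lit 349)) (XT.lf (nat_lit 0) (nat_lit 5986062376) (nat_lit 76) (nat_lit 16787118422) (nat_lit 76) (nat_lit 11052658123) (nat_lit 26) (nat_lit 4) (nat_lit 27) (nat_lit 5) (nat_lit 27) (nat_lit 4) (nat_lit 477)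 (nat_lit 375) (nat_lit 348)))))) (XT.nd (nat_lit 468) (nat_lit 456) (nat_lit 0) (XT.nd (nat_lit 234) (nat_lit 228) (nat_lit 0) (XT.nd (nat_lit 78) (nat_lit 152) (nat_lit 0) (XT.lf (nat_lit 0) (nat_lit 1998717815) (nat_lit 152) (nat_lit 1776962128) (nat_lit 76) (nat_lit 31331959713) (nat_lit 25) (nat_lit 5) (nat_lit 27) (nat_lit 5) (nat_lit 26) (nat_lit 4) (nat_lit 478) (nat_lit 375) (nat_lit 347)) (XT.nd (nat_lit 78) (nat_lit 76) (nat_lit 0) (XT.lf (nat_lit 0) (nat_lit 15593013061) (nat_lit 152) (nat_lit 11017452238) (nat_lit 0) (nat_lit 9836215786) (nat_lit 24) (nat_lit 5) (nat_lit 26) (nat_lit 4) (nat_lit 24) (nat_lit 4) (nat_lit 479) (nat_lit 375) (nat_lit 346)) (XT.lf (nat_lit 0) (nat_lit 16016279669) (nat_lit 76) (nat_lit 13840733152) (nat_lit 76) (nat_lit 7995963710) (nat_lit 23) (nat_lit 4) (nat_lit 24) (nat_lit 5) (nat_lit 24) (nat_lit 4) (nat_lit 480) (nat_lit 375) (nat_lit 345)))) (XT.nd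 (nat_lit 78) (nat_lit 76) (nat_lit 0) (XT.lf (nat_lit 0) (nat_lit 4917229499) (nat_lit 76) (nat_lit 425520233) (nat_lit 152) (nat_lit 33986884946) (nat_lit 21) (nat_lit 5) (nat_lit 22) (nat_lit 5) (nat_lit 23) (nat_lit 4) (nat_lit 481) (nat_lit 375) (nat_lit 344)) (XT.nd (nat_lit 78) (nat_lit 76) (nat_lit 0) (XT.lf (nat_lit 0) (nat_lit 19330907752) (nat_lit 152) (nat_lit 8044845748) (nat_lit 0) (nat_lit 13497562307) (nat_lit 21) (nat_lit 5) (nat_lit 23) (nat_lit 4) (nat_lit 21) (nat_lit 4) (nat_lit 482) (nat_lit 375) (nat_lit 343)) (XT.lf (nat_lit 0) (nat_lit 19617320262) (nat_lit 76) (nat_lit 14392129265) (nat_lit 76) (nat_lit 8485003561) (nat_lit 20) (nat_lit 4) (nat_lit 21) (nat_lit 5) (nat_lit 21) (nat_lit 4) (nat_lit 483) (nat_lit 375) (nat_lit 342))))) (XT.nd (nat_lit 234) (nat_lit 228) (nat_lit 0) (XT.nd (nat_lit 78) (nat_lit 76) (nat_lit 0) (XT.lf (nat_lit 0) (nat_lit 4274211005) (nat_lit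 76) (nat_lit 775840039) (nat_lit 152) (nat_lit 39147288293) (nat_lit 18) (nat_lit 5) (nat_lit 19) (nat_lit 5) (nat_lit 20) (nat_lit 4) (nat_lit 484) (nat_lit 375) (nat_lit 341)) (XT.nd (nat_lit 78) (nat_lit 76) (nat_lit 0) (XT.lf (nat_lit 0) (nat_lit 19261740717) (nat_lit 152) (nat_lit 13322373940) (nat_lit 0) (nat_lit 13393475197) (nat_lit 18) (nat_lit 5) (nat_lit 20) (nat_lit 4) (nat_lit 18) (nat_lit 4) (nat_lit 485) (nat_lit 375) (nat_lit 340)) (XT.lf (nat_lit 0) (nat_lit 14514961542) (nat_lit 76) (nat_lit 19631580026) (nat_lit 76) (nat_lit 13701436679) (nat_lit 17) (nat_lit 4) (nat_lit 18) (nat_lit 5) (nat_lit 18) (nat_lit 4) (nat_lit 486) (nat_lit 375) (nat_lit 339)))) (XT.nd (nat_lit 156) (nat_lit 76) (nat_lit 0) (XT.nd (nat_lit 78) (nat_lit 152) (nat_lit 0) (XT.lf (nat_lit 0) (nat_lit 43664270608) (nat_lit 76) (nat_lit 6068980549) (nat_lit 76) (nat_lit 79905939) (nat_lit 17) (nat_lit 4)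 (nat_lit 18) (nat_lit 5) (nat_lit 18) (nat_lit 4) (nat_lit 487) (nat_lit 375) (nat_lit 338)) (XT.lf (nat_lit 0) (nat_lit 14067757522) (nat_lit 152) (nat_lit 29602427417) (nat_lit 0) (nat_lit 8198631675) (nat_lit 15) (nat_lit 5) (nat_lit 17) (nat_lit 4) (nat_lit 15) (nat_lit 4) (nat_lit 488) (nat_lit 375) (nat_lit 337))) (XT.nd (nat_lit 78) (nat_lit 76) (nat_lit 0) (XT.lf (nat_lit 0) (nat_lit 28877121211) (nat_lit 152) (nat_lit 2195336201) (nat_lit 0) (nat_lit 22956099837) (nat_lit 15) (nat_lit 5) (nat_lit 17) (nat_lit 4) (nat_lit 15) (nat_lit 4) (nat_lit 489) (nat_lit 375) (nat_lit 336)) (XT.lf (nat_lit 0) (nat_lit 26782630963) (nat_lit 76) (nat_lit 17740606021) (nat_lit 76) (nat_lit 11770160335) (nat_lit 14) (nat_lit 4) (nat_lit 15) (nat_lit 5) (nat_lit 15) (nat_lit 4) (nat_lit 490) (nat_lit 375) (nat_lit 335))))))) (XT.nd (nat_lit 59514) (nat_lit 0) (nat_lit 2660) (XT.nd (nat_lit 468) (nat_lit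 0) (nat_lit 0) (XT.nd (nat_lit 234) (nat_lit 228) (nat_lit 0) (XT.nd (nat_lit 78) (nat_lit 76) (nat_lit 0) (XT.lf (nat_lit 0) (nat_lit 2100457066) (nat_lit 152) (nat_lit 1753588614) (nat_lit 76) (nat_lit 54820833838) (nat_lit 13) (nat_lit 5) (nat_lit 15) (nat_lit 5) (nat_lit 14) (nat_lit 4) (nat_lit 491) (nat_lit 375) (nat_lit 334)) (XT.nd (nat_lit 78) (nat_lit 0) (nat_lit 0) (XT.lf (nat_lit 0) (nat_lit 16642808402) (nat_lit 152) (nat_lit 33765447494) (nat_lit 0) (nat_lit 10757035813) (nat_lit 12) (nat_lit 5) (nat_lit 14) (nat_lit 4) (nat_lit 12) (nat_lit 4) (nat_lit 492) (nat_lit 375) (nat_lit 333)) (XT.lf (nat_lit 0) (nat_lit 31821835849) (nat_lit 152) (nat_lit 6066490463) (nat_lit 0) (nat_lit 25894612212) (nat_lit 12) (nat_lit 5) (nat_lit 14) (nat_lit 4) (nat_lit 12) (nat_lit 4) (nat_lit 493) (nat_lit 375) (nat_lit 332)))) (XT.nd (nat_lit 78) (nat_lit 152) (nat_lit 0) (XT.lf (nat_lit 0) (nat_lit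 23188648971) (nat_lit 76) (nat_lit 24653524748) (nat_lit 76) (nat_lit 18686823924) (nat_lit 11) (nat_lit 4) (nat_lit 12) (nat_lit 5) (nat_lit 12) (nat_lit 4) (nat_lit 494) (nat_lit 375) (nat_lit 331)) (XT.nd (nat_lit 78) (nat_lit 152) (nat_lit 0) (XT.lf (nat_lit 0) (nat_lit 53760119920) (nat_lit 76) (nat_lit 10829379754) (nat_lit 76) (nat_lit 4825081608) (nat_lit 11) (nat_lit 4) (nat_lit 12) (nat_lit 5) (nat_lit 12) (nat_lit 4) (nat_lit 495) (nat_lit 375) (nat_lit 330)) (XT.lf (nat_lit 0) (nat_lit 9573013156) (nat_lit 152) (nat_lit 59158798485) (nat_lit 0) (nat_lit 3708833429) (nat_lit 9) (nat_lit 5) (nat_lit 11) (nat_lit 4) (nat_lit 9) (nat_lit 4) (nat_lit 496) (nat_lit 375) (nat_lit 329))))) (XT.nd (nat_lit 58734) (nat_lit 0) (nat_lit 4712) (XT.nd (nat_lit 78) (nat_lit 0) (nat_lit 0) (XT.lf (nat_lit 0) (nat_lit 24735500082) (nat_lit 152) (nat_lit 32038539328) (nat_lit 0) (nat_lit 18838211734)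 (nat_lit 9) (nat_lit 5) (nat_lit 11) (nat_lit 4) (nat_lit 9) (nat_lit 4) (nat_lit 497) (nat_lit 375) (nat_lit 328)) (XT.nd (nat_lit 58578) (nat_lit 0) (nat_lit 5472) (XT.lf (nat_lit 0) (nat_lit 40533541761) (nat_lit 152) (nat_lit 3807852044) (nat_lit 0) (nat_lit 34604721393) (nat_lit 9) (nat_lit 5) (nat_lit 11) (nat_lit 4) (nat_lit 9) (nat_lit 4) (nat_lit 498) (nat_lit 375) (nat_lit 327)) (XT.lf (nat_lit 0) (nat_lit 323863520) (nat_lit 152) (nat_lit 6223558964) (nat_lit 0) (nat_lit 323863520) (nat_lit 81) (nat_lit 5) (nat_lit 83) (nat_lit 4) (nat_lit 81) (nat_lit 4) (nat_lit 448) (nat_lit 376) (nat_lit 376)))) (XT.nd (nat_lit 156) (nat_lit 456) (nat_lit 0) (XT.nd (nat_lit 78) (nat_lit 152) (nat_lit 0) (XT.lf (nat_lit 0) (nat_lit 7561892811) (nat_lit 152) (nat_lit 3581101119) (nat_lit 152) (nat_lit 2952670863) (nat_lit 79) (nat_lit 4) (nat_lit 81) (nat_lit 5) (nat_lit 81) (nat_lit 4) (nat_lit 449)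 (nat_lit 376) (nat_lit 375)) (XT.lf (nat_lit 0) (nat_lit 7513613955) (nat_lit 152) (nat_lit 629159151) (nat_lit 0) (nat_lit 6322414672) (nat_lit 77) (nat_lit 5) (nat_lit 79) (nat_lit 4) (nat_lit 77) (nat_lit 4) (nat_lit 450) (nat_lit 376) (nat_lit 374))) (XT.nd (nat_lit 78) (nat_lit 152) (nat_lit 0) (XT.lf (nat_lit 0) (nat_lit 3538068646) (nat_lit 152) (nat_lit 9468387223) (nat_lit 0) (nat_lit 1844280326) (nat_lit 73) (nat_lit 5) (nat_lit 75) (nat_lit 4) (nat_lit 73) (nat_lit 4) (nat_lit 451) (nat_lit 376) (nat_lit 373)) (XT.lf (nat_lit 0) (nat_lit 11367109792) (nat_lit 152) (nat_lit 3045873838) (nat_lit 152) (nat_lit 840386316) (nat_lit 71) (nat_lit 4) (nat_lit 73) (nat_lit 5) (nat_lit 73) (nat_lit 4) (nat_lit 452) (nat_lit 376) (nat_lit 372)))))) (XT.nd (nat_lit 468) (nat_lit 912) (nat_lit 0) (XT.nd (nat_lit 234) (nat_lit 532) (nat_lit 0) (XT.nd (nat_lit 78) (nat_lit 304) (nat_lit 0) (XT.lf (nat_lit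 0) (nat_lit 1643963224) (nat_lit 152) (nat_lit 8321695586) (nat_lit 152) (nat_lit 5707307144) (nat_lit 67) (nat_lit 4) (nat_lit 69) (nat_lit 5) (nat_lit 69) (nat_lit 4) (nat_lit 453) (nat_lit 376) (nat_lit 371)) (XT.nd (nat_lit 78) (nat_lit 152) (nat_lit 0) (XT.lf (nat_lit 0) (nat_lit 5095098162) (nat_lit 152) (nat_lit 8896888367) (nat_lit 0) (nat_lit 2119373442) (nat_lit 65) (nat_lit 5) (nat_lit 67) (nat_lit 4) (nat_lit 65) (nat_lit 4) (nat_lit 454) (nat_lit 376) (nat_lit 370)) (XT.lf (nat_lit 0) (nat_lit 12704524516) (nat_lit 152) (nat_lit 3628713929) (nat_lit 152) (nat_lit 236338243) (nat_lit 63) (nat_lit 4) (nat_lit 65) (nat_lit 5) (nat_lit 65) (nat_lit 4) (nat_lit 455) (nat_lit 376) (nat_lit 369)))) (XT.nd (nat_lit 78) (nat_lit 228) (nat_lit 0) (XT.lf (nat_lit 0) (nat_lit 1036249990) (nat_lit 152) (nat_lit 9844822190) (nat_lit 152) (nat_lit 6166000705) (nat_lit 59) (nat_lit 4) (nat_lit 61)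 (nat_lit 5) (nat_lit 61) (nat_lit 4) (nat_lit 456) (nat_lit 376) (nat_lit 368)) (XT.nd (nat_lit 78) (nat_lit 76) (nat_lit 0) (XT.lf (nat_lit 0) (nat_lit 4925945770) (nat_lit 152) (nat_lit 11622265475) (nat_lit 0) (nat_lit 998053567) (nat_lit 57) (nat_lit 5) (nat_lit 59) (nat_lit 4) (nat_lit 57) (nat_lit 4) (nat_lit 457) (nat_lit 376) (nat_lit 367)) (XT.lf (nat_lit 0) (nat_lit 10638405176) (nat_lit 76) (nat_lit 5848045820) (nat_lit 76) (nat_lit 1580895658) (nat_lit 56) (nat_lit 4) (nat_lit 57) (nat_lit 5) (nat_lit 57) (nat_lit 4) (nat_lit 458) (nat_lit 376) (nat_lit 366))))) (XT.nd (nat_lit 234) (nat_lit 456) (nat_lit 0) (XT.nd (nat_lit 78) (nat_lit 304) (nat_lit 0) (XT.lf (nat_lit 0) (nat_lit 9813639780) (nat_lit 152) (nat_lit 3440923895) (nat_lit 0) (nat_lit 5357083488) (nat_lit 54) (nat_lit 5) (nat_lit 56) (nat_lit 4) (nat_lit 54) (nat_lit 4) (nat_lit 459) (nat_lit 376) (nat_lit 365)) (XT.nd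 (nat_lit 78) (nat_lit 76) (nat_lit 0) (XT.lf (nat_lit 0) (nat_lit 373330258) (nat_lit 76) (nat_lit 2153093825) (nat_lit 152) (nat_lit 16655118034) (nat_lit 51) (nat_lit 5) (nat_lit 52) (nat_lit 5) (nat_lit 53) (nat_lit 4) (nat_lit 460) (nat_lit 376) (nat_lit 364)) (XT.lf (nat_lit 0) (nat_lit 3963000857) (nat_lit 76) (nat_lit 10352479605) (nat_lit 76) (nat_lit 5459432443) (nat_lit 50) (nat_lit 4) (nat_lit 51) (nat_lit 5) (nat_lit 51) (nat_lit 4) (nat_lit 461) (nat_lit 376) (nat_lit 363)))) (XT.nd (nat_lit 156) (nat_lit 228) (nat_lit 0) (XT.nd (nat_lit 78) (nat_lit 76) (nat_lit 0) (XT.lf (nat_lit 0) (nat_lit 6161636521) (nat_lit 152) (nat_lit 13079169496) (nat_lit 0) (nat_lit 1155681606) (nat_lit 48) (nat_lit 5) (nat_lit 50) (nat_lit 4) (nat_lit 48) (nat_lit 4) (nat_lit 462) (nat_lit 376) (nat_lit 362)) (XT.lf (nat_lit 0) (nat_lit 10337150903) (nat_lit 76) (nat_lit 7978817546) (nat_lit 76) (nat_lit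 2729601973) (nat_lit 47) (nat_lit 4) (nat_lit 48) (nat_lit 5) (nat_lit 48) (nat_lit 4) (nat_lit 463) (nat_lit 376) (nat_lit 361))) (XT.nd (nat_lit 78) (nat_lit 76) (nat_lit 0) (XT.lf (nat_lit 0) (nat_lit 9169502839) (nat_lit 152) (nat_lit 8706632125) (nat_lit 0) (nat_lit 3848248091) (nat_lit 45) (nat_lit 5) (nat_lit 47) (nat_lit 4) (nat_lit 45) (nat_lit 4) (nat_lit 464) (nat_lit 376) (nat_lit 360)) (XT.lf (nat_lit 0) (nat_lit 15339473592) (nat_lit 76) (nat_lit 6315447215) (nat_lit 76) (nat_lit 779974421) (nat_lit 44) (nat_lit 4) (nat_lit 45) (nat_lit 5) (nat_lit 45) (nat_lit 4) (nat_lit 465) (nat_lit 376) (nat_lit 359))))))))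
noncomputable def xc13 : XT := (XT.nd (nat_lit 1950) (nat_lit 380) (nat_lit 0) (XT.nd (nat_lit 936) (nat_lit 988) (nat_lit 0) (XT.nd (nat_lit 468) (nat_lit 608) (nat_lit 0) (XT.nd (nat_lit 234) (nat_lit 304) (nat_lit 0) (XT.nd (nat_lit 78) (nat_lit 228) (nat_lit 0) (XT.lf (nat_lit 0) (nat_lit 11384752033) (nat_lit 152) (nat_lit 5979599079) (nat_lit 0) (nat_lit 5812431664) (nat_lit 42) (nat_lit 5) (nat_lit 44) (nat_lit 4) (nat_lit 42) (nat_lit 4) (nat_lit 466) (nat_lit 376) (nat_lit 358)) (XT.nd (nat_lit 78) (nat_lit 76) (nat_lit 0) (XT.lf (nat_lit 0) (nat_lit 219202558) (nat_lit 152) (nat_lit 5315981974) (nat_lit 76) (nat_lit 18419194780) (nat_lit 40) (nat_lit 5) (nat_lit 42) (nat_lit 5) (nat_lit 41) (nat_lit 4) (nat_lit 467) (nat_lit 376) (nat_lit 357)) (XT.lf (nat_lit 0) (nat_lit 12632031039) (nat_lit 152) (nat_lit 5269542059) (nat_lit 0) (nat_lit 6864435916) (nat_lit 39) (nat_lit 5) (nat_lit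 41) (nat_lit 4) (nat_lit 39) (nat_lit 4) (nat_lit 468) (nat_lit 376) (nat_lit 356)))) (XT.nd (nat_lit 78) (nat_lit 152) (nat_lit 0) (XT.lf (nat_lit 0) (nat_lit 79256239) (nat_lit 152) (nat_lit 5772825906) (nat_lit 76) (nat_lit 19765140481) (nat_lit 37) (nat_lit 5) (nat_lit 39) (nat_lit 5) (nat_lit 38) (nat_lit 4) (nat_lit 469) (nat_lit 376) (nat_lit 355)) (XT.nd (nat_lit 78) (nat_lit 76) (nat_lit 0) (XT.lf (nat_lit 0) (nat_lit 12699770035) (nat_lit 152) (nat_lit 7020920293) (nat_lit 0) (nat_lit 6785278284) (nat_lit 36) (nat_lit 5) (nat_lit 38) (nat_lit 4) (nat_lit 36) (nat_lit 4) (nat_lit 470) (nat_lit 376) (nat_lit 354)) (XT.lf (nat_lit 0) (nat_lit 18479865597) (nat_lit 76) (nat_lit 7509464066) (nat_lit 76) (nat_lit 1448684354) (nat_lit 35) (nat_lit 4) (nat_lit 36) (nat_lit 5) (nat_lit 36) (nat_lit 4) (nat_lit 471) (nat_lit 376) (nat_lit 353))))) (XT.nd (nat_lit 234) (nat_lit 228) (nat_lit 0)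 (XT.nd (nat_lit 78) (nat_lit 228) (nat_lit 0) (XT.lf (nat_lit 0) (nat_lit 11333781309) (nat_lit 152) (nat_lit 11764333537) (nat_lit 0) (nat_lit 5314265214) (nat_lit 33) (nat_lit 5) (nat_lit 35) (nat_lit 4) (nat_lit 33) (nat_lit 4) (nat_lit 472) (nat_lit 376) (nat_lit 352)) (XT.nd (nat_lit 78) (nat_lit 152) (nat_lit 0) (XT.lf (nat_lit 0) (nat_lit 13979177030) (nat_lit 76) (nat_lit 10801273567) (nat_lit 76) (nat_lit 4652934663) (nat_lit 32) (nat_lit 4) (nat_lit 33) (nat_lit 5) (nat_lit 33) (nat_lit 4) (nat_lit 473) (nat_lit 376) (nat_lit 351)) (XT.lf (nat_lit 0) (nat_lit 8229731078) (nat_lit 152) (nat_lit 20131950666) (nat_lit 0) (nat_lit 2141355066) (nat_lit 30) (nat_lit 5) (nat_lit 32) (nat_lit 4) (nat_lit 30) (nat_lit 4) (nat_lit 474) (nat_lit 376) (nat_lit 350)))) (XT.nd (nat_lit 78) (nat_lit 152) (nat_lit 0) (XT.lf (nat_lit 0) (nat_lit 5669110369) (nat_lit 76) (nat_lit 16077455730) (nat_lit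 76) (nat_lit 9875636917) (nat_lit 29) (nat_lit 4) (nat_lit 30) (nat_lit 5) (nat_lit 30) (nat_lit 4) (nat_lit 475) (nat_lit 376) (nat_lit 349)) (XT.nd (nat_lit 78) (nat_lit 76) (nat_lit 0) (XT.lf (nat_lit 0) (nat_lit 3055748044) (nat_lit 152) (nat_lit 106691046) (nat_lit 76) (nat_lit 29634730051) (nat_lit 28) (nat_lit 5) (nat_lit 30) (nat_lit 5) (nat_lit 29) (nat_lit 4) (nat_lit 476) (nat_lit 376) (nat_lit 348)) (XT.lf (nat_lit 0) (nat_lit 16569472541) (nat_lit 152) (nat_lit 7110782836) (nat_lit 0) (nat_lit 10343496288) (nat_lit 27) (nat_lit 5) (nat_lit 29) (nat_lit 4) (nat_lit 27) (nat_lit 4) (nat_lit 477) (nat_lit 376) (nat_lit 347)))))) (XT.nd (nat_lit 468) (nat_lit 456) (nat_lit 0) (XT.nd (nat_lit 234) (nat_lit 228) (nat_lit 0) (XT.nd (nat_lit 78) (nat_lit 228) (nat_lit 0) (XT.lf (nat_lit 0) (nat_lit 19896616653) (nat_lit 76) (nat_lit 10867997332) (nat_lit 76) (nat_lit 4546879180) (nat_lit 26)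 (nat_lit 4) (nat_lit 27) (nat_lit 5) (nat_lit 27) (nat_lit 4) (nat_lit 478) (nat_lit 376) (nat_lit 346)) (XT.nd (nat_lit 78) (nat_lit 76) (nat_lit 0) (XT.lf (nat_lit 0) (nat_lit 8825351776) (nat_lit 152) (nat_lit 25235446854) (nat_lit 0) (nat_lit 2600371693) (nat_lit 24) (nat_lit 5) (nat_lit 26) (nat_lit 4) (nat_lit 24) (nat_lit 4) (nat_lit 479) (nat_lit 376) (nat_lit 345)) (XT.lf (nat_lit 0) (nat_lit 1307452160) (nat_lit 76) (nat_lit 21538046527) (nat_lit 76) (nat_lit 15229283428) (nat_lit 23) (nat_lit 4) (nat_lit 24) (nat_lit 5) (nat_lit 24) (nat_lit 4) (nat_lit 480) (nat_lit 376) (nat_lit 344)))) (XT.nd (nat_lit 78) (nat_lit 228) (nat_lit 0) (XT.lf (nat_lit 0) (nat_lit 29299007327) (nat_lit 76) (nat_lit 8323475110) (nat_lit 76) (nat_lit 1934918661) (nat_lit 23) (nat_lit 4) (nat_lit 24) (nat_lit 5) (nat_lit 24) (nat_lit 4) (nat_lit 481) (nat_lit 376) (nat_lit 343)) (XT.nd (nat_lit 78) (nat_lit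 76) (nat_lit 0) (XT.lf (nat_lit 0) (nat_lit 11815024114) (nat_lit 152) (nat_lit 23756134079) (nat_lit 0) (nat_lit 5538761866) (nat_lit 21) (nat_lit 5) (nat_lit 23) (nat_lit 4) (nat_lit 21) (nat_lit 4) (nat_lit 482) (nat_lit 376) (nat_lit 342)) (XT.lf (nat_lit 0) (nat_lit 3402736835) (nat_lit 76) (nat_lit 22841170037) (nat_lit 76) (nat_lit 16494640877) (nat_lit 20) (nat_lit 4) (nat_lit 21) (nat_lit 5) (nat_lit 21) (nat_lit 4) (nat_lit 483) (nat_lit 376) (nat_lit 341))))) (XT.nd (nat_lit 234) (nat_lit 304) (nat_lit 0) (XT.nd (nat_lit 78) (nat_lit 152) (nat_lit 0) (XT.lf (nat_lit 0) (nat_lit 32043841977) (nat_lit 76) (nat_lit 9408240334) (nat_lit 76) (nat_lit 2994790304) (nat_lit 20) (nat_lit 4) (nat_lit 21) (nat_lit 5) (nat_lit 21) (nat_lit 4) (nat_lit 484) (nat_lit 376) (nat_lit 340)) (XT.nd (nat_lit 78) (nat_lit 0) (nat_lit 0) (XT.lf (nat_lit 0) (nat_lit 10979394982) (nat_lit 152) (nat_lit 30566604008)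 (nat_lit 0) (nat_lit 4690866641) (nat_lit 18) (nat_lit 5) (nat_lit 20) (nat_lit 4) (nat_lit 18) (nat_lit 4) (nat_lit 485) (nat_lit 376) (nat_lit 339)) (XT.lf (nat_lit 0) (nat_lit 25638801206) (nat_lit 152) (nat_lit 3183873590) (nat_lit 0) (nat_lit 19291341602) (nat_lit 18) (nat_lit 5) (nat_lit 20) (nat_lit 4) (nat_lit 18) (nat_lit 4) (nat_lit 486) (nat_lit 376) (nat_lit 338)))) (XT.nd (nat_lit 156) (nat_lit 76) (nat_lit 0) (XT.nd (nat_lit 78) (nat_lit 152) (nat_lit 0) (XT.lf (nat_lit 0) (nat_lit 25735616431) (nat_lit 76) (nat_lit 15375300874) (nat_lit 76) (nat_lit 8971716257) (nat_lit 17) (nat_lit 4) (nat_lit 18) (nat_lit 5) (nat_lit 18) (nat_lit 4) (nat_lit 487) (nat_lit 376) (nat_lit 337)) (XT.lf (nat_lit 0) (nat_lit 3712734143) (nat_lit 76) (nat_lit 1297005340) (nat_lit 152) (nat_lit 47141309842) (nat_lit 15) (nat_lit 5) (nat_lit 16) (nat_lit 5) (nat_lit 17) (nat_lit 4) (nat_lit 488) (nat_lit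 376) (nat_lit 336))) (XT.nd (nat_lit 78) (nat_lit 76) (nat_lit 0) (XT.lf (nat_lit 0) (nat_lit 19728017451) (nat_lit 152) (nat_lit 21175880362) (nat_lit 0) (nat_lit 13409625169) (nat_lit 15) (nat_lit 5) (nat_lit 17) (nat_lit 4) (nat_lit 15) (nat_lit 4) (nat_lit 489) (nat_lit 376) (nat_lit 335)) (XT.lf (nat_lit 0) (nat_lit 7271716682) (nat_lit 76) (nat_lit 27839991305) (nat_lit 76) (nat_lit 21474528250) (nat_lit 14) (nat_lit 4) (nat_lit 15) (nat_lit 5) (nat_lit 15) (nat_lit 4) (nat_lit 490) (nat_lit 376) (nat_lit 334))))))) (XT.nd (nat_lit 59358) (nat_lit 0) (nat_lit 2888) (XT.nd (nat_lit 468) (nat_lit 152) (nat_lit 0) (XT.nd (nat_lit 234) (nat_lit 76) (nat_lit 0) (XT.nd (nat_lit 78) (nat_lit 152) (nat_lit 0) (XT.lf (nat_lit 0) (nat_lit 37286234668) (nat_lit 76) (nat_lit 14047287752) (nat_lit 76) (nat_lit 7636995389) (nat_lit 14) (nat_lit 4) (nat_lit 15) (nat_lit 5) (nat_lit 15) (nat_lit 4) (nat_lit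 491) (nat_lit 376) (nat_lit 333)) (XT.nd (nat_lit 78) (nat_lit 0) (nat_lit 0) (XT.lf (nat_lit 0) (nat_lit 6687077775) (nat_lit 152) (nat_lit 54365032139) (nat_lit 0) (nat_lit 422041909) (nat_lit 12) (nat_lit 5) (nat_lit 14) (nat_lit 4) (nat_lit 12) (nat_lit 4) (nat_lit 492) (nat_lit 376) (nat_lit 332)) (XT.lf (nat_lit 0) (nat_lit 21797546964) (nat_lit 152) (nat_lit 26803274870) (nat_lit 0) (nat_lit 15493033911) (nat_lit 12) (nat_lit 5) (nat_lit 14) (nat_lit 4) (nat_lit 12) (nat_lit 4) (nat_lit 493) (nat_lit 376) (nat_lit 331)))) (XT.nd (nat_lit 78) (nat_lit 0) (nat_lit 0) (XT.lf (nat_lit 0) (nat_lit 1905894935) (nat_lit 76) (nat_lit 35642113469) (nat_lit 76) (nat_lit 29300003094) (nat_lit 11) (nat_lit 4) (nat_lit 12) (nat_lit 5) (nat_lit 12) (nat_lit 4) (nat_lit 494) (nat_lit 376) (nat_lit 330)) (XT.nd (nat_lit 78) (nat_lit 0) (nat_lit 0) (XT.lf (nat_lit 0) (nat_lit 32350444971) (nat_lit 76) (nat_lit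 21881484986) (nat_lit 76) (nat_lit 15503567638) (nat_lit 11) (nat_lit 4) (nat_lit 12) (nat_lit 5) (nat_lit 12) (nat_lit 4) (nat_lit 495) (nat_lit 376) (nat_lit 329)) (XT.lf (nat_lit 0) (nat_lit 64069424537) (nat_lit 76) (nat_lit 7556833504) (nat_lit 76) (nat_lit 1144814277) (nat_lit 11) (nat_lit 4) (nat_lit 12) (nat_lit 5) (nat_lit 12) (nat_lit 4) (nat_lit 496) (nat_lit 376) (nat_lit 328))))) (XT.nd (nat_lit 58578) (nat_lit 0) (nat_lit 5168) (XT.nd (nat_lit 78) (nat_lit 0) (nat_lit 0) (XT.lf (nat_lit 0) (nat_lit 13821426217) (nat_lit 152) (nat_lit 54563507366) (nat_lit 0) (nat_lit 7564632812) (nat_lit 9) (nat_lit 5) (nat_lit 11) (nat_lit 4) (nat_lit 9) (nat_lit 4) (nat_lit 497) (nat_lit 376) (nat_lit 327)) (XT.nd (nat_lit 58422) (nat_lit 0) (nat_lit 6004) (XT.lf (nat_lit 0) (nat_lit 29562524995) (nat_lit 152) (nat_lit 26446912920) (nat_lit 0) (nat_lit 23275701094) (nat_lit 9) (nat_lit 5) (nat_lit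 11) (nat_lit 4) (nat_lit 9) (nat_lit 4) (nat_lit 498) (nat_lit 376) (nat_lit 326)) (XT.lf (nat_lit 0) (nat_lit 1165487910) (nat_lit 152) (nat_lit 2685370161) (nat_lit 152) (nat_lit 2685370161) (nat_lit 88) (nat_lit 4) (nat_lit 90) (nat_lit 5) (nat_lit 90) (nat_lit 4) (nat_lit 446) (nat_lit 377) (nat_lit 377)))) (XT.nd (nat_lit 156) (nat_lit 304) (nat_lit 0) (XT.nd (nat_lit 78) (nat_lit 304) (nat_lit 0) (XT.lf (nat_lit 0) (nat_lit 4586408076) (nat_lit 228) (nat_lit 4909275842) (nat_lit 0) (nat_lit 3906760755) (nat_lit 85) (nat_lit 5) (nat_lit 88) (nat_lit 4) (nat_lit 85) (nat_lit 4) (nat_lit 447) (nat_lit 377) (nat_lit 376)) (XT.lf (nat_lit 0) (nat_lit 968817725) (nat_lit 76) (nat_lit 162092723) (nat_lit 152) (nat_lit 12616967321) (nat_lit 81) (nat_lit 5) (nat_lit 82) (nat_lit 5) (nat_lit 83) (nat_lit 4) (nat_lit 448) (nat_lit 377) (nat_lit 375))) (XT.nd (nat_lit 78) (nat_lit 152) (nat_lit 0) (XT.lf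 (nat_lit 0) (nat_lit 6904019949) (nat_lit 152) (nat_lit 4544535857) (nat_lit 152) (nat_lit 2657748827) (nat_lit 79) (nat_lit 4) (nat_lit 81) (nat_lit 5) (nat_lit 81) (nat_lit 4) (nat_lit 449) (nat_lit 377) (nat_lit 374)) (XT.lf (nat_lit 0) (nat_lit 7616240868) (nat_lit 152) (nat_lit 1634096817) (nat_lit 0) (nat_lit 5231006113) (nat_lit 77) (nat_lit 5) (nat_lit 79) (nat_lit 4) (nat_lit 77) (nat_lit 4) (nat_lit 450) (nat_lit 377) (nat_lit 373)))))) (XT.nd (nat_lit 468) (nat_lit 1064) (nat_lit 0) (XT.nd (nat_lit 234) (nat_lit 608) (nat_lit 0) (XT.nd (nat_lit 78) (nat_lit 304) (nat_lit 0) (XT.lf (nat_lit 0) (nat_lit 3420193788) (nat_lit 152) (nat_lit 10860025202) (nat_lit 0) (nat_lit 592732688) (nat_lit 73) (nat_lit 5) (nat_lit 75) (nat_lit 4) (nat_lit 73) (nat_lit 4) (nat_lit 451) (nat_lit 377) (nat_lit 372)) (XT.nd (nat_lit 78) (nat_lit 152) (nat_lit 0) (XT.lf (nat_lit 0) (nat_lit 9634154201) (nat_lit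 152) (nat_lit 4480816731) (nat_lit 152) (nat_lit 1166023058) (nat_lit 71) (nat_lit 4) (nat_lit 73) (nat_lit 5) (nat_lit 73) (nat_lit 4) (nat_lit 452) (nat_lit 377) (nat_lit 371)) (XT.lf (nat_lit 0) (nat_lit 9434857116) (nat_lit 152) (nat_lit 506173649) (nat_lit 0) (nat_lit 5766002812) (nat_lit 69) (nat_lit 5) (nat_lit 71) (nat_lit 4) (nat_lit 69) (nat_lit 4) (nat_lit 453) (nat_lit 377) (nat_lit 370)))) (XT.nd (nat_lit 78) (nat_lit 304) (nat_lit 0) (XT.lf (nat_lit 0) (nat_lit 4333332180) (nat_lit 152) (nat_lit 11463812927) (nat_lit 0) (nat_lit 354686744) (nat_lit 65) (nat_lit 5) (nat_lit 67) (nat_lit 4) (nat_lit 65) (nat_lit 4) (nat_lit 454) (nat_lit 377) (nat_lit 369)) (XT.nd (nat_lit 78) (nat_lit 152) (nat_lit 0) (XT.lf (nat_lit 0) (nat_lit 9780281045) (nat_lit 152) (nat_lit 5605400369) (nat_lit 152) (nat_lit 1229944490) (nat_lit 63) (nat_lit 4) (nat_lit 65) (nat_lit 5) (nat_lit 65) (nat_lit 4)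 (nat_lit 455) (nat_lit 377) (nat_lit 368)) (XT.lf (nat_lit 0) (nat_lit 9689723350) (nat_lit 152) (nat_lit 2335402111) (nat_lit 0) (nat_lit 5074800449) (nat_lit 61) (nat_lit 5) (nat_lit 63) (nat_lit 4) (nat_lit 61) (nat_lit 4) (nat_lit 456) (nat_lit 377) (nat_lit 367))))) (XT.nd (nat_lit 234) (nat_lit 532) (nat_lit 0) (XT.nd (nat_lit 78) (nat_lit 228) (nat_lit 0) (XT.lf (nat_lit 0) (nat_lit 2101477220) (nat_lit 76) (nat_lit 1379230079) (nat_lit 152) (nat_lit 14125531884) (nat_lit 57) (nat_lit 5) (nat_lit 58) (nat_lit 5) (nat_lit 59) (nat_lit 4) (nat_lit 457) (nat_lit 377) (nat_lit 366)) (XT.nd (nat_lit 78) (nat_lit 152) (nat_lit 0) (XT.lf (nat_lit 0) (nat_lit 6393357024) (nat_lit 76) (nat_lit 8441512833) (nat_lit 76) (nat_lit 3298644383) (nat_lit 56) (nat_lit 4) (nat_lit 57) (nat_lit 5) (nat_lit 57) (nat_lit 4) (nat_lit 458) (nat_lit 377) (nat_lit 365)) (XT.lf (nat_lit 0) (nat_lit 7908390047) (nat_lit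 152) (nat_lit 8159993848) (nat_lit 0) (nat_lit 2616559542) (nat_lit 54) (nat_lit 5) (nat_lit 56) (nat_lit 4) (nat_lit 54) (nat_lit 4) (nat_lit 459) (nat_lit 377) (nat_lit 364)))) (XT.nd (nat_lit 156) (nat_lit 304) (nat_lit 0) (XT.nd (nat_lit 78) (nat_lit 76) (nat_lit 0) (XT.lf (nat_lit 0) (nat_lit 385829615) (nat_lit 152) (nat_lit 4793124329) (nat_lit 76) (nat_lit 14082477238) (nat_lit 52) (nat_lit 5) (nat_lit 54) (nat_lit 5) (nat_lit 53) (nat_lit 4) (nat_lit 460) (nat_lit 377) (nat_lit 363)) (XT.lf (nat_lit 0) (nat_lit 11913031333) (nat_lit 152) (nat_lit 1713623975) (nat_lit 0) (nat_lit 6236004691) (nat_lit 51) (nat_lit 5) (nat_lit 53) (nat_lit 4) (nat_lit 51) (nat_lit 4) (nat_lit 461) (nat_lit 377) (nat_lit 362))) (XT.nd (nat_lit 78) (nat_lit 76) (nat_lit 0) (XT.lf (nat_lit 0) (nat_lit 1153217405) (nat_lit 76) (nat_lit 2334862656) (nat_lit 152) (nat_lit 17003833571) (nat_lit 48) (nat_lit 5) (nat_lit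 49) (nat_lit 5) (nat_lit 50) (nat_lit 4) (nat_lit 462) (nat_lit 377) (nat_lit 361)) (XT.lf (nat_lit 0) (nat_lit 3695182744) (nat_lit 76) (nat_lit 11719628815) (nat_lit 76) (nat_lit 5733014989) (nat_lit 47) (nat_lit 4) (nat_lit 48) (nat_lit 5) (nat_lit 48) (nat_lit 4) (nat_lit 463) (nat_lit 377) (nat_lit 360))))))))
noncomputable def xc14 : XT := (XT.nd (nat_lit 1950) (nat_lit 608) (nat_lit 0) (XT.nd (nat_lit 936) (nat_lit 988) (nat_lit 0) (XT.nd (nat_lit 468) (nat_lit 608) (nat_lit 0) (XT.nd (nat_lit 234) (nat_lit 304) (nat_lit 0) (XT.nd (nat_lit 78) (nat_lit 228) (nat_lit 0) (XT.lf (nat_lit 0) (nat_lit 5932087276) (nat_lit 76) (nat_lit 47885970) (nat_lit 152) (nat_lit 15854875720) (nat_lit 45) (nat_lit 5) (nat_lit 46) (nat_lit 5) (nat_lit 47) (nat_lit 4) (nat_lit 464) (nat_lit 377) (nat_lit 359)) (XT.nd (nat_lit 78) (nat_lit 152) (nat_lit 0) (XT.lf (nat_lit 0) (nat_lit 7730112362) (nat_lit 76)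 (nat_lit 10526005252) (nat_lit 76) (nat_lit 4295523585) (nat_lit 44) (nat_lit 4) (nat_lit 45) (nat_lit 5) (nat_lit 45) (nat_lit 4) (nat_lit 465) (nat_lit 377) (nat_lit 358)) (XT.lf (nat_lit 0) (nat_lit 7684044364) (nat_lit 152) (nat_lit 14171722451) (nat_lit 0) (nat_lit 1446390239) (nat_lit 42) (nat_lit 5) (nat_lit 44) (nat_lit 4) (nat_lit 42) (nat_lit 4) (nat_lit 466) (nat_lit 377) (nat_lit 357)))) (XT.nd (nat_lit 78) (nat_lit 228) (nat_lit 0) (XT.lf (nat_lit 0) (nat_lit 10024886365) (nat_lit 76) (nat_lit 10239320053) (nat_lit 76) (nat_lit 3822006119) (nat_lit 41) (nat_lit 4) (nat_lit 42) (nat_lit 5) (nat_lit 42) (nat_lit 4) (nat_lit 467) (nat_lit 377) (nat_lit 356)) (XT.nd (nat_lit 78) (nat_lit 76) (nat_lit 0) (XT.lf (nat_lit 0) (nat_lit 8402221894) (nat_lit 152) (nat_lit 14498920420) (nat_lit 0) (nat_lit 2005699066) (nat_lit 39) (nat_lit 5) (nat_lit 41) (nat_lit 4) (nat_lit 39) (nat_lit 4) (nat_lit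 468) (nat_lit 377) (nat_lit 355)) (XT.lf (nat_lit 0) (nat_lit 10181155903) (nat_lit 76) (nat_lit 11069098783) (nat_lit 76) (nat_lit 4514365525) (nat_lit 38) (nat_lit 4) (nat_lit 39) (nat_lit 5) (nat_lit 39) (nat_lit 4) (nat_lit 469) (nat_lit 377) (nat_lit 354))))) (XT.nd (nat_lit 234) (nat_lit 228) (nat_lit 0) (XT.nd (nat_lit 78) (nat_lit 228) (nat_lit 0) (XT.lf (nat_lit 0) (nat_lit 7920760178) (nat_lit 152) (nat_lit 17331460061) (nat_lit 0) (nat_lit 1410653520) (nat_lit 36) (nat_lit 5) (nat_lit 38) (nat_lit 4) (nat_lit 36) (nat_lit 4) (nat_lit 470) (nat_lit 377) (nat_lit 353)) (XT.nd (nat_lit 78) (nat_lit 152) (nat_lit 0) (XT.lf (nat_lit 0) (nat_lit 7722395836) (nat_lit 76) (nat_lit 13264330461) (nat_lit 76) (nat_lit 6614901937) (nat_lit 35) (nat_lit 4) (nat_lit 36) (nat_lit 5) (nat_lit 36) (nat_lit 4) (nat_lit 471) (nat_lit 377) (nat_lit 352)) (XT.lf (nat_lit 0) (nat_lit 5376730558) (nat_lit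 76) (nat_lit 612849035) (nat_lit 152) (nat_lit 22596269548) (nat_lit 33) (nat_lit 5) (nat_lit 34) (nat_lit 5) (nat_lit 35) (nat_lit 4) (nat_lit 472) (nat_lit 377) (nat_lit 351)))) (XT.nd (nat_lit 78) (nat_lit 152) (nat_lit 0) (XT.lf (nat_lit 0) (nat_lit 2079823882) (nat_lit 76) (nat_lit 17120685404) (nat_lit 76) (nat_lit 10413418358) (nat_lit 32) (nat_lit 4) (nat_lit 33) (nat_lit 5) (nat_lit 33) (nat_lit 4) (nat_lit 473) (nat_lit 377) (nat_lit 350)) (XT.nd (nat_lit 78) (nat_lit 76) (nat_lit 0) (XT.lf (nat_lit 0) (nat_lit 2347551877) (nat_lit 152) (nat_lit 2058582820) (nat_lit 76) (nat_lit 26286129825) (nat_lit 31) (nat_lit 5) (nat_lit 33) (nat_lit 5) (nat_lit 32) (nat_lit 4) (nat_lit 474) (nat_lit 377) (nat_lit 349)) (XT.lf (nat_lit 0) (nat_lit 15636211866) (nat_lit 152) (nat_lit 7279246543) (nat_lit 0) (nat_lit 8902818549) (nat_lit 30) (nat_lit 5) (nat_lit 32) (nat_lit 4) (nat_lit 30) (nat_lit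 4) (nat_lit 475) (nat_lit 377) (nat_lit 348)))))) (XT.nd (nat_lit 468) (nat_lit 456) (nat_lit 0) (XT.nd (nat_lit 234) (nat_lit 228) (nat_lit 0) (XT.nd (nat_lit 78) (nat_lit 228) (nat_lit 0) (XT.lf (nat_lit 0) (nat_lit 19414593444) (nat_lit 76) (nat_lit 10210605475) (nat_lit 76) (nat_lit 3374316194) (nat_lit 29) (nat_lit 4) (nat_lit 30) (nat_lit 5) (nat_lit 30) (nat_lit 4) (nat_lit 476) (nat_lit 377) (nat_lit 347)) (XT.nd (nat_lit 78) (nat_lit 76) (nat_lit 0) (XT.lf (nat_lit 0) (nat_lit 9897441491) (nat_lit 152) (nat_lit 21173738914) (nat_lit 0) (nat_lit 3165125532) (nat_lit 27) (nat_lit 5) (nat_lit 29) (nat_lit 4) (nat_lit 27) (nat_lit 4) (nat_lit 477) (nat_lit 377) (nat_lit 346)) (XT.lf (nat_lit 0) (nat_lit 5348179915) (nat_lit 76) (nat_lit 18503018585) (nat_lit 76) (nat_lit 11680091293) (nat_lit 26) (nat_lit 4) (nat_lit 27) (nat_lit 5) (nat_lit 27) (nat_lit 4) (nat_lit 478) (nat_lit 377) (nat_lit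 345)))) (XT.nd (nat_lit 78) (nat_lit 152) (nat_lit 0) (XT.lf (nat_lit 0) (nat_lit 1596197027) (nat_lit 152) (nat_lit 3668943832) (nat_lit 76) (nat_lit 31624938036) (nat_lit 25) (nat_lit 5) (nat_lit 27) (nat_lit 5) (nat_lit 26) (nat_lit 4) (nat_lit 479) (nat_lit 377) (nat_lit 344)) (XT.nd (nat_lit 78) (nat_lit 76) (nat_lit 0) (XT.lf (nat_lit 0) (nat_lit 15419254550) (nat_lit 152) (nat_lit 14258872615) (nat_lit 0) (nat_lit 8631476929) (nat_lit 24) (nat_lit 5) (nat_lit 26) (nat_lit 4) (nat_lit 24) (nat_lit 4) (nat_lit 480) (nat_lit 377) (nat_lit 343)) (XT.lf (nat_lit 0) (nat_lit 13260361602) (nat_lit 76) (nat_lit 16701334854) (nat_lit 76) (nat_lit 9837563567) (nat_lit 23) (nat_lit 4) (nat_lit 24) (nat_lit 5) (nat_lit 24) (nat_lit 4) (nat_lit 481) (nat_lit 377) (nat_lit 342))))) (XT.nd (nat_lit 234) (nat_lit 228) (nat_lit 0) (XT.nd (nat_lit 78) (nat_lit 76) (nat_lit 0) (XT.lf (nat_lit 0) (nat_lit 697687552)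 (nat_lit 76) (nat_lit 3062821688) (nat_lit 152) (nat_lit 37602731704) (nat_lit 21) (nat_lit 5) (nat_lit 22) (nat_lit 5) (nat_lit 23) (nat_lit 4) (nat_lit 482) (nat_lit 377) (nat_lit 341)) (XT.nd (nat_lit 78) (nat_lit 76) (nat_lit 0) (XT.lf (nat_lit 0) (nat_lit 18037912982) (nat_lit 152) (nat_lit 13721631051) (nat_lit 0) (nat_lit 11236869581) (nat_lit 21) (nat_lit 5) (nat_lit 23) (nat_lit 4) (nat_lit 21) (nat_lit 4) (nat_lit 483) (nat_lit 377) (nat_lit 340)) (XT.lf (nat_lit 0) (nat_lit 14473498155) (nat_lit 76) (nat_lit 18551328164) (nat_lit 76) (nat_lit 11686550602) (nat_lit 20) (nat_lit 4) (nat_lit 21) (nat_lit 5) (nat_lit 21) (nat_lit 4) (nat_lit 484) (nat_lit 377) (nat_lit 339)))) (XT.nd (nat_lit 156) (nat_lit 76) (nat_lit 0) (XT.nd (nat_lit 78) (nat_lit 76) (nat_lit 0) (XT.lf (nat_lit 0) (nat_lit 2176741442) (nat_lit 152) (nat_lit 2506691635) (nat_lit 76) (nat_lit 41828858935) (nat_lit 19)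 (nat_lit 5) (nat_lit 21) (nat_lit 5) (nat_lit 20) (nat_lit 4) (nat_lit 485) (nat_lit 377) (nat_lit 338)) (XT.lf (nat_lit 0) (nat_lit 16684529925) (nat_lit 152) (nat_lit 21804820830) (nat_lit 0) (nat_lit 9904641065) (nat_lit 18) (nat_lit 5) (nat_lit 20) (nat_lit 4) (nat_lit 18) (nat_lit 4) (nat_lit 486) (nat_lit 377) (nat_lit 337))) (XT.nd (nat_lit 78) (nat_lit 0) (nat_lit 0) (XT.lf (nat_lit 0) (nat_lit 6585548480) (nat_lit 76) (nat_lit 25309130625) (nat_lit 76) (nat_lit 18475789372) (nat_lit 17) (nat_lit 4) (nat_lit 18) (nat_lit 5) (nat_lit 18) (nat_lit 4) (nat_lit 487) (nat_lit 377) (nat_lit 336)) (XT.lf (nat_lit 0) (nat_lit 36541587104) (nat_lit 76) (nat_lit 11393174169) (nat_lit 76) (nat_lit 4508925875) (nat_lit 17) (nat_lit 4) (nat_lit 18) (nat_lit 5) (nat_lit 18) (nat_lit 4) (nat_lit 488) (nat_lit 377) (nat_lit 335))))))) (XT.nd (nat_lit 59202) (nat_lit 0) (nat_lit 3420) (XT.nd (nat_lit 468)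 (nat_lit 228) (nat_lit 0) (XT.nd (nat_lit 234) (nat_lit 152) (nat_lit 0) (XT.nd (nat_lit 78) (nat_lit 76) (nat_lit 0) (XT.lf (nat_lit 0) (nat_lit 9967965996) (nat_lit 152) (nat_lit 41412217642) (nat_lit 0) (nat_lit 3237159015) (nat_lit 15) (nat_lit 5) (nat_lit 17) (nat_lit 4) (nat_lit 15) (nat_lit 4) (nat_lit 489) (nat_lit 377) (nat_lit 334)) (XT.nd (nat_lit 78) (nat_lit 76) (nat_lit 0) (XT.lf (nat_lit 0) (nat_lit 25210447397) (nat_lit 152) (nat_lit 13249034085) (nat_lit 0) (nat_lit 18434811108) (nat_lit 15) (nat_lit 5) (nat_lit 17) (nat_lit 4) (nat_lit 15) (nat_lit 4) (nat_lit 490) (nat_lit 377) (nat_lit 333)) (XT.lf (nat_lit 0) (nat_lit 16363371236) (nat_lit 76) (nat_lit 24869754137) (nat_lit 76) (nat_lit 18051423270) (nat_lit 14) (nat_lit 4) (nat_lit 15) (nat_lit 5) (nat_lit 15) (nat_lit 4) (nat_lit 491) (nat_lit 377) (nat_lit 332)))) (XT.nd (nat_lit 78) (nat_lit 152) (nat_lit 0) (XT.lf (nat_lit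 0) (nat_lit 47462992801) (nat_lit 76) (nat_lit 10595140965) (nat_lit 76) (nat_lit 3736148594) (nat_lit 14) (nat_lit 4) (nat_lit 15) (nat_lit 5) (nat_lit 15) (nat_lit 4) (nat_lit 492) (nat_lit 377) (nat_lit 331)) (XT.nd (nat_lit 78) (nat_lit 0) (nat_lit 0) (XT.lf (nat_lit 0) (nat_lit 11138191799) (nat_lit 152) (nat_lit 48844764699) (nat_lit 0) (nat_lit 4441378584) (nat_lit 12) (nat_lit 5) (nat_lit 14) (nat_lit 4) (nat_lit 12) (nat_lit 4) (nat_lit 493) (nat_lit 377) (nat_lit 330)) (XT.lf (nat_lit 0) (nat_lit 26808148251) (nat_lit 152) (nat_lit 20297229997) (nat_lit 0) (nat_lit 20075528062) (nat_lit 12) (nat_lit 5) (nat_lit 14) (nat_lit 4) (nat_lit 12) (nat_lit 4) (nat_lit 494) (nat_lit 377) (nat_lit 329))))) (XT.nd (nat_lit 234) (nat_lit 76) (nat_lit 0) (XT.nd (nat_lit 78) (nat_lit 76) (nat_lit 0) (XT.lf (nat_lit 0) (nat_lit 9622488303) (nat_lit 76) (nat_lit 33610203905) (nat_lit 76) (nat_lit 26843481837)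 (nat_lit 11) (nat_lit 4) (nat_lit 12) (nat_lit 5) (nat_lit 12) (nat_lit 4) (nat_lit 495) (nat_lit 377) (nat_lit 328)) (XT.nd (nat_lit 78) (nat_lit 76) (nat_lit 0) (XT.lf (nat_lit 0) (nat_lit 41226346859) (nat_lit 76) (nat_lit 19343163771) (nat_lit 76) (nat_lit 12543963723) (nat_lit 11) (nat_lit 4) (nat_lit 12) (nat_lit 5) (nat_lit 12) (nat_lit 4) (nat_lit 496) (nat_lit 377) (nat_lit 327)) (XT.lf (nat_lit 0) (nat_lit 2308928328) (nat_lit 152) (nat_lit 2143006950) (nat_lit 76) (nat_lit 71853394300) (nat_lit 10) (nat_lit 5) (nat_lit 12) (nat_lit 5) (nat_lit 11) (nat_lit 4) (nat_lit 497) (nat_lit 377) (nat_lit 326)))) (XT.nd (nat_lit 58344) (nat_lit 0) (nat_lit 6004) (XT.nd (nat_lit 58266) (nat_lit 0) (nat_lit 6536) (XT.lf (nat_lit 0) (nat_lit 17931783155) (nat_lit 152) (nat_lit 50440679521) (nat_lit 0) (nat_lit 11271987094) (nat_lit 9) (nat_lit 5) (nat_lit 11) (nat_lit 4) (nat_lit 9) (nat_lit 4) (nat_lit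 498) (nat_lit 377) (nat_lit 325)) (XT.lf (nat_lit 0) (nat_lit 763707595) (nat_lit 228) (nat_lit 4696876291) (nat_lit 0) (nat_lit 763707595) (nat_lit 95) (nat_lit 5) (nat_lit 98) (nat_lit 4) (nat_lit 95) (nat_lit 4) (nat_lit 444) (nat_lit 378) (nat_lit 378))) (XT.nd (nat_lit 78) (nat_lit 380) (nat_lit 0) (XT.lf (nat_lit 0) (nat_lit 9043143753) (nat_lit 152) (nat_lit 2235223025) (nat_lit 152) (nat_lit 1478133290) (nat_lit 93) (nat_lit 4) (nat_lit 95) (nat_lit 5) (nat_lit 95) (nat_lit 4) (nat_lit 445) (nat_lit 378) (nat_lit 377)) (XT.lf (nat_lit 0) (nat_lit 2018560566) (nat_lit 152) (nat_lit 6247055863) (nat_lit 152) (nat_lit 4811980543) (nat_lit 88) (nat_lit 4) (nat_lit 90) (nat_lit 5) (nat_lit 90) (nat_lit 4) (nat_lit 446) (nat_lit 378) (nat_lit 376)))))) (XT.nd (nat_lit 468) (nat_lit 1292) (nat_lit 0) (XT.nd (nat_lit 234) (nat_lit 608) (nat_lit 0) (XT.nd (nat_lit 78) (nat_lit 456) (nat_lit 0) (XT.lf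 (nat_lit 0) (nat_lit 4953800337) (nat_lit 228) (nat_lit 5545803347) (nat_lit 0) (nat_lit 2913240163) (nat_lit 85) (nat_lit 5) (nat_lit 88) (nat_lit 4) (nat_lit 85) (nat_lit 4) (nat_lit 447) (nat_lit 378) (nat_lit 375)) (XT.nd (nat_lit 78) (nat_lit 228) (nat_lit 0) (XT.lf (nat_lit 0) (nat_lit 1299942592) (nat_lit 228) (nat_lit 18136865) (nat_lit 76) (nat_lit 12445529812) (nat_lit 82) (nat_lit 5) (nat_lit 85) (nat_lit 5) (nat_lit 83) (nat_lit 4) (nat_lit 448) (nat_lit 378) (nat_lit 374)) (XT.lf (nat_lit 0) (nat_lit 5586707860) (nat_lit 152) (nat_lit 5845268969) (nat_lit 152) (nat_lit 2695632814) (nat_lit 79) (nat_lit 4) (nat_lit 81) (nat_lit 5) (nat_lit 81) (nat_lit 4) (nat_lit 449) (nat_lit 378) (nat_lit 373)))) (XT.nd (nat_lit 78) (nat_lit 456) (nat_lit 0) (XT.lf (nat_lit 0) (nat_lit 7390805656) (nat_lit 152) (nat_lit 3311651281) (nat_lit 0) (nat_lit 3805856298) (nat_lit 77) (nat_lit 5) (nat_lit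 79) (nat_lit 4) (nat_lit 77) (nat_lit 4) (nat_lit 450) (nat_lit 378) (nat_lit 372)) (XT.nd (nat_lit 78) (nat_lit 152) (nat_lit 0) (XT.lf (nat_lit 0) (nat_lit 1944553616) (nat_lit 76) (nat_lit 1026606740) (nat_lit 152) (nat_lit 11934884596) (nat_lit 73) (nat_lit 5) (nat_lit 74) (nat_lit 5) (nat_lit 75) (nat_lit 4) (nat_lit 451) (nat_lit 378) (nat_lit 371)) (XT.lf (nat_lit 0) (nat_lit 7202242600) (nat_lit 152) (nat_lit 6274754639) (nat_lit 152) (nat_lit 1842762449) (nat_lit 71) (nat_lit 4) (nat_lit 73) (nat_lit 5) (nat_lit 73) (nat_lit 4) (nat_lit 452) (nat_lit 378) (nat_lit 370))))) (XT.nd (nat_lit 234) (nat_lit 684) (nat_lit 0) (XT.nd (nat_lit 78) (nat_lit 456) (nat_lit 0) (XT.lf (nat_lit 0) (nat_lit 8572958208) (nat_lit 152) (nat_lit 3338088399) (nat_lit 0) (nat_lit 3840902675) (nat_lit 69) (nat_lit 5) (nat_lit 71) (nat_lit 4) (nat_lit 69) (nat_lit 4) (nat_lit 453) (nat_lit 378) (nat_lit 369))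 (XT.nd (nat_lit 78) (nat_lit 152) (nat_lit 0) (XT.lf (nat_lit 0) (nat_lit 1411440140) (nat_lit 76) (nat_lit 1816249727) (nat_lit 152) (nat_lit 12975818488) (nat_lit 65) (nat_lit 5) (nat_lit 66) (nat_lit 5) (nat_lit 67) (nat_lit 4) (nat_lit 454) (nat_lit 378) (nat_lit 368)) (XT.lf (nat_lit 0) (nat_lit 6111943721) (nat_lit 152) (nat_lit 7965201382) (nat_lit 152) (nat_lit 2596247557) (nat_lit 63) (nat_lit 4) (nat_lit 65) (nat_lit 5) (nat_lit 65) (nat_lit 4) (nat_lit 455) (nat_lit 378) (nat_lit 367)))) (XT.nd (nat_lit 156) (nat_lit 304) (nat_lit 0) (XT.nd (nat_lit 78) (nat_lit 228) (nat_lit 0) (XT.lf (nat_lit 0) (nat_lit 8139305431) (nat_lit 152) (nat_lit 6447814507) (nat_lit 0) (nat_lit 2577293203) (nat_lit 61) (nat_lit 5) (nat_lit 63) (nat_lit 4) (nat_lit 61) (nat_lit 4) (nat_lit 456) (nat_lit 378) (nat_lit 366)) (XT.lf (nat_lit 0) (nat_lit 1688238516) (nat_lit 228) (nat_lit 2467683942) (nat_lit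 76) (nat_lit 13521544882) (nat_lit 58) (nat_lit 5) (nat_lit 61) (nat_lit 5) (nat_lit 59) (nat_lit 4) (nat_lit 457) (nat_lit 378) (nat_lit 365))) (XT.nd (nat_lit 78) (nat_lit 152) (nat_lit 0) (XT.lf (nat_lit 0) (nat_lit 1352676769) (nat_lit 76) (nat_lit 11445119119) (nat_lit 76) (nat_lit 5414287458) (nat_lit 56) (nat_lit 4) (nat_lit 57) (nat_lit 5) (nat_lit 57) (nat_lit 4) (nat_lit 458) (nat_lit 378) (nat_lit 364)) (XT.lf (nat_lit 0) (nat_lit 5071675243) (nat_lit 76) (nat_lit 541906375) (nat_lit 152) (nat_lit 13157157091) (nat_lit 54) (nat_lit 5) (nat_lit 55) (nat_lit 5) (nat_lit 56) (nat_lit 4) (nat_lit 459) (nat_lit 378) (nat_lit 363))))))))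
noncomputable def xc15 : XT := (XT.nd (nat_lit 1950) (nat_lit 912) (nat_lit 0) (XT.nd (nat_lit 936) (nat_lit 1140) (nat_lit 0) (XT.nd (nat_lit 468) (nat_lit 684) (nat_lit 0) (XT.nd (nat_lit 234) (nat_lit 304) (nat_lit 0) (XT.nd (nat_lit 78) (nat_lit 304) (nat_lit 0) (XT.lf (nat_lit 0) (nat_lit 8553942069) (nat_lit 76) (nat_lit 8605060447) (nat_lit 76) (nat_lit 2194377140) (nat_lit 53) (nat_lit 4) (nat_lit 54) (nat_lit 5) (nat_lit 54) (nat_lit 4) (nat_lit 460) (nat_lit 378) (nat_lit 362)) (XT.nd (nat_lit 78) (nat_lit 152) (nat_lit 0) (XT.lf (nat_lit 0) (nat_lit 9143036045) (nat_lit 152) (nat_lit 8150672584) (nat_lit 0) (nat_lit 2668513192) (nat_lit 51) (nat_lit 5) (nat_lit 53) (nat_lit 4) (nat_lit 51) (nat_lit 4) (nat_lit 461) (nat_lit 378) (nat_lit 361)) (XT.lf (nat_lit 0) (nat_lit 462279891) (nat_lit 152) (nat_lit 5774721794) (nat_lit 76) (nat_lit 14361670545) (nat_lit 49) (nat_lit 5) (nat_lit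 51) (nat_lit 5) (nat_lit 50) (nat_lit 4) (nat_lit 462) (nat_lit 378) (nat_lit 360)))) (XT.nd (nat_lit 78) (nat_lit 228) (nat_lit 0) (XT.lf (nat_lit 0) (nat_lit 12124225212) (nat_lit 152) (nat_lit 3752346236) (nat_lit 0) (nat_lit 5385959289) (nat_lit 48) (nat_lit 5) (nat_lit 50) (nat_lit 4) (nat_lit 48) (nat_lit 4) (nat_lit 463) (nat_lit 378) (nat_lit 359)) (XT.nd (nat_lit 78) (nat_lit 76) (nat_lit 0) (XT.lf (nat_lit 0) (nat_lit 2415042366) (nat_lit 152) (nat_lit 2045867620) (nat_lit 76) (nat_lit 17496409728) (nat_lit 46) (nat_lit 5) (nat_lit 48) (nat_lit 5) (nat_lit 47) (nat_lit 4) (nat_lit 464) (nat_lit 378) (nat_lit 358)) (XT.lf (nat_lit 0) (nat_lit 14424996264) (nat_lit 152) (nat_lit 772431917) (nat_lit 0) (nat_lit 7484671244) (nat_lit 45) (nat_lit 5) (nat_lit 47) (nat_lit 4) (nat_lit 45) (nat_lit 4) (nat_lit 465) (nat_lit 378) (nat_lit 357))))) (XT.nd (nat_lit 234) (nat_lit 228) (nat_lit 0)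 (XT.nd (nat_lit 78) (nat_lit 228) (nat_lit 0) (XT.lf (nat_lit 0) (nat_lit 110436817) (nat_lit 76) (nat_lit 3454002315) (nat_lit 152) (nat_lit 19876380125) (nat_lit 42) (nat_lit 5) (nat_lit 43) (nat_lit 5) (nat_lit 44) (nat_lit 4) (nat_lit 466) (nat_lit 378) (nat_lit 356)) (XT.nd (nat_lit 78) (nat_lit 152) (nat_lit 0) (XT.lf (nat_lit 0) (nat_lit 469659758) (nat_lit 76) (nat_lit 15425817142) (nat_lit 76) (nat_lit 8336873123) (nat_lit 41) (nat_lit 4) (nat_lit 42) (nat_lit 5) (nat_lit 42) (nat_lit 4) (nat_lit 467) (nat_lit 378) (nat_lit 355)) (XT.lf (nat_lit 0) (nat_lit 334486623) (nat_lit 76) (nat_lit 3402650018) (nat_lit 152) (nat_lit 21324295237) (nat_lit 39) (nat_lit 5) (nat_lit 40) (nat_lit 5) (nat_lit 41) (nat_lit 4) (nat_lit 468) (nat_lit 378) (nat_lit 354)))) (XT.nd (nat_lit 78) (nat_lit 228) (nat_lit 0) (XT.lf (nat_lit 0) (nat_lit 16335432604) (nat_lit 152) (nat_lit 447195924) (nat_lit 0)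 (nat_lit 9144075655) (nat_lit 39) (nat_lit 5) (nat_lit 41) (nat_lit 4) (nat_lit 39) (nat_lit 4) (nat_lit 469) (nat_lit 378) (nat_lit 353)) (XT.nd (nat_lit 78) (nat_lit 76) (nat_lit 0) (XT.lf (nat_lit 0) (nat_lit 2718007547) (nat_lit 152) (nat_lit 1817303151) (nat_lit 76) (nat_lit 22297859827) (nat_lit 37) (nat_lit 5) (nat_lit 39) (nat_lit 5) (nat_lit 38) (nat_lit 4) (nat_lit 470) (nat_lit 378) (nat_lit 352)) (XT.lf (nat_lit 0) (nat_lit 15533689014) (nat_lit 152) (nat_lit 3965966028) (nat_lit 0) (nat_lit 8279779703) (nat_lit 36) (nat_lit 5) (nat_lit 38) (nat_lit 4) (nat_lit 36) (nat_lit 4) (nat_lit 471) (nat_lit 378) (nat_lit 351)))))) (XT.nd (nat_lit 468) (nat_lit 532) (nat_lit 0) (XT.nd (nat_lit 234) (nat_lit 304) (nat_lit 0) (XT.nd (nat_lit 78) (nat_lit 152) (nat_lit 0) (XT.lf (nat_lit 0) (nat_lit 265441119) (nat_lit 152) (nat_lit 6841432878) (nat_lit 76) (nat_lit 21664501764) (nat_lit 34) (nat_lit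 5) (nat_lit 36) (nat_lit 5) (nat_lit 35) (nat_lit 4) (nat_lit 472) (nat_lit 378) (nat_lit 350)) (XT.nd (nat_lit 78) (nat_lit 76) (nat_lit 0) (XT.lf (nat_lit 0) (nat_lit 13216250437) (nat_lit 152) (nat_lit 10656922935) (nat_lit 0) (nat_lit 5934085564) (nat_lit 33) (nat_lit 5) (nat_lit 35) (nat_lit 4) (nat_lit 33) (nat_lit 4) (nat_lit 473) (nat_lit 378) (nat_lit 349)) (XT.lf (nat_lit 0) (nat_lit 15497387926) (nat_lit 76) (nat_lit 11394341696) (nat_lit 76) (nat_lit 4000894838) (nat_lit 32) (nat_lit 4) (nat_lit 33) (nat_lit 5) (nat_lit 33) (nat_lit 4) (nat_lit 474) (nat_lit 378) (nat_lit 348)))) (XT.nd (nat_lit 78) (nat_lit 152) (nat_lit 0) (XT.lf (nat_lit 0) (nat_lit 9060955447) (nat_lit 152) (nat_lit 21188026865) (nat_lit 0) (nat_lit 1779955738) (nat_lit 30) (nat_lit 5) (nat_lit 32) (nat_lit 4) (nat_lit 30) (nat_lit 4) (nat_lit 475) (nat_lit 378) (nat_lit 347)) (XT.nd (nat_lit 78) (nat_lit 76) (nat_lit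 0) (XT.lf (nat_lit 0) (nat_lit 5025654910) (nat_lit 76) (nat_lit 17785343190) (nat_lit 76) (nat_lit 10406347324) (nat_lit 29) (nat_lit 4) (nat_lit 30) (nat_lit 5) (nat_lit 30) (nat_lit 4) (nat_lit 476) (nat_lit 378) (nat_lit 346)) (XT.lf (nat_lit 0) (nat_lit 2747060343) (nat_lit 152) (nat_lit 1895793040) (nat_lit 76) (nat_lit 29820978683) (nat_lit 28) (nat_lit 5) (nat_lit 30) (nat_lit 5) (nat_lit 29) (nat_lit 4) (nat_lit 477) (nat_lit 378) (nat_lit 345))))) (XT.nd (nat_lit 234) (nat_lit 228) (nat_lit 0) (XT.nd (nat_lit 78) (nat_lit 228) (nat_lit 0) (XT.lf (nat_lit 0) (nat_lit 16489306285) (nat_lit 152) (nat_lit 10127530965) (nat_lit 0) (nat_lit 9148324789) (nat_lit 27) (nat_lit 5) (nat_lit 29) (nat_lit 4) (nat_lit 27) (nat_lit 4) (nat_lit 478) (nat_lit 378) (nat_lit 344)) (XT.nd (nat_lit 78) (nat_lit 152) (nat_lit 0) (XT.lf (nat_lit 0) (nat_lit 17373499423) (nat_lit 76) (nat_lit 13589942964) (nat_lit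 76) (nat_lit 6166774317) (nat_lit 26) (nat_lit 4) (nat_lit 27) (nat_lit 5) (nat_lit 27) (nat_lit 4) (nat_lit 479) (nat_lit 378) (nat_lit 343)) (XT.lf (nat_lit 0) (nat_lit 7444374608) (nat_lit 152) (nat_lit 30955692595) (nat_lit 0) (nat_lit 161421091) (nat_lit 24) (nat_lit 5) (nat_lit 26) (nat_lit 4) (nat_lit 24) (nat_lit 4) (nat_lit 480) (nat_lit 378) (nat_lit 342)))) (XT.nd (nat_lit 156) (nat_lit 152) (nat_lit 0) (XT.nd (nat_lit 78) (nat_lit 76) (nat_lit 0) (XT.lf (nat_lit 0) (nat_lit 21770838760) (nat_lit 152) (nat_lit 3871275129) (nat_lit 0) (nat_lit 14415510323) (nat_lit 24) (nat_lit 5) (nat_lit 26) (nat_lit 4) (nat_lit 24) (nat_lit 4) (nat_lit 481) (nat_lit 378) (nat_lit 341)) (XT.lf (nat_lit 0) (nat_lit 24705726016) (nat_lit 76) (nat_lit 12172579374) (nat_lit 76) (nat_lit 4748322441) (nat_lit 23) (nat_lit 4) (nat_lit 24) (nat_lit 5) (nat_lit 24) (nat_lit 4) (nat_lit 482) (nat_lit 378) (nat_lit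 340))) (XT.nd (nat_lit 78) (nat_lit 0) (nat_lit 0) (XT.lf (nat_lit 0) (nat_lit 9281561532) (nat_lit 152) (nat_lit 31980003229) (nat_lit 0) (nat_lit 2009810931) (nat_lit 21) (nat_lit 5) (nat_lit 23) (nat_lit 4) (nat_lit 21) (nat_lit 4) (nat_lit 483) (nat_lit 378) (nat_lit 339)) (XT.lf (nat_lit 0) (nat_lit 24048323517) (nat_lit 152) (nat_lit 4228746859) (nat_lit 0) (nat_lit 16715873715) (nat_lit 21) (nat_lit 5) (nat_lit 23) (nat_lit 4) (nat_lit 21) (nat_lit 4) (nat_lit 484) (nat_lit 378) (nat_lit 338))))))) (XT.nd (nat_lit 1014) (nat_lit 152) (nat_lit 0) (XT.nd (nat_lit 468) (nat_lit 304) (nat_lit 0) (XT.nd (nat_lit 234) (nat_lit 228) (nat_lit 0) (XT.nd (nat_lit 78) (nat_lit 152) (nat_lit 0) (XT.lf (nat_lit 0) (nat_lit 25084360797) (nat_lit 76) (nat_lit 14552000807) (nat_lit 76) (nat_lit 7161742242) (nat_lit 20) (nat_lit 4) (nat_lit 21) (nat_lit 5) (nat_lit 21) (nat_lit 4) (nat_lit 485) (nat_lit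 378) (nat_lit 337)) (XT.nd (nat_lit 78) (nat_lit 0) (nat_lit 0) (XT.lf (nat_lit 0) (nat_lit 7016235829) (nat_lit 76) (nat_lit 107680603) (nat_lit 152) (nat_lit 41568809435) (nat_lit 18) (nat_lit 5) (nat_lit 19) (nat_lit 5) (nat_lit 20) (nat_lit 4) (nat_lit 486) (nat_lit 378) (nat_lit 336)) (XT.lf (nat_lit 0) (nat_lit 22195550248) (nat_lit 152) (nat_lit 13561625701) (nat_lit 0) (nat_lit 14916182498) (nat_lit 18) (nat_lit 5) (nat_lit 20) (nat_lit 4) (nat_lit 18) (nat_lit 4) (nat_lit 487) (nat_lit 378) (nat_lit 335)))) (XT.nd (nat_lit 78) (nat_lit 152) (nat_lit 0) (XT.lf (nat_lit 0) (nat_lit 15980721001) (nat_lit 76) (nat_lit 22049928348) (nat_lit 76) (nat_lit 14722077702) (nat_lit 17) (nat_lit 4) (nat_lit 18) (nat_lit 5) (nat_lit 18) (nat_lit 4) (nat_lit 488) (nat_lit 378) (nat_lit 334)) (XT.nd (nat_lit 78) (nat_lit 152) (nat_lit 0) (XT.lf (nat_lit 0) (nat_lit 47002852266) (nat_lit 76) (nat_lit 7653634012)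 (nat_lit 76) (nat_lit 279609179) (nat_lit 17) (nat_lit 4) (nat_lit 18) (nat_lit 5) (nat_lit 18) (nat_lit 4) (nat_lit 489) (nat_lit 378) (nat_lit 333)) (XT.lf (nat_lit 0) (nat_lit 14748296746) (nat_lit 152) (nat_lit 34925075862) (nat_lit 0) (nat_lit 7546354757) (nat_lit 15) (nat_lit 5) (nat_lit 17) (nat_lit 4) (nat_lit 15) (nat_lit 4) (nat_lit 490) (nat_lit 378) (nat_lit 332))))) (XT.nd (nat_lit 234) (nat_lit 228) (nat_lit 0) (XT.nd (nat_lit 78) (nat_lit 76) (nat_lit 0) (XT.lf (nat_lit 0) (nat_lit 30549000672) (nat_lit 152) (nat_lit 5761245158) (nat_lit 0) (nat_lit 23306397179) (nat_lit 15) (nat_lit 5) (nat_lit 17) (nat_lit 4) (nat_lit 15) (nat_lit 4) (nat_lit 491) (nat_lit 378) (nat_lit 331)) (XT.nd (nat_lit 78) (nat_lit 0) (nat_lit 0) (XT.lf (nat_lit 0) (nat_lit 25098155417) (nat_lit 76) (nat_lit 22156564534) (nat_lit 76) (nat_lit 14875235800) (nat_lit 14) (nat_lit 4) (nat_lit 15) (nat_lit 5)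 (nat_lit 15) (nat_lit 4) (nat_lit 492) (nat_lit 378) (nat_lit 330)) (XT.lf (nat_lit 0) (nat_lit 57375776365) (nat_lit 76) (nat_lit 7356633909) (nat_lit 76) (nat_lit 38423992) (nat_lit 14) (nat_lit 4) (nat_lit 15) (nat_lit 5) (nat_lit 15) (nat_lit 4) (nat_lit 493) (nat_lit 378) (nat_lit 329)))) (XT.nd (nat_lit 156) (nat_lit 76) (nat_lit 0) (XT.nd (nat_lit 78) (nat_lit 0) (nat_lit 0) (XT.lf (nat_lit 0) (nat_lit 15429124188) (nat_lit 152) (nat_lit 43814423300) (nat_lit 0) (nat_lit 8289964138) (nat_lit 12) (nat_lit 5) (nat_lit 14) (nat_lit 4) (nat_lit 12) (nat_lit 4) (nat_lit 494) (nat_lit 378) (nat_lit 328)) (XT.lf (nat_lit 0) (nat_lit 31704767853) (nat_lit 152) (nat_lit 14195348988) (nat_lit 0) (nat_lit 24533129822) (nat_lit 12) (nat_lit 5) (nat_lit 14) (nat_lit 4) (nat_lit 12) (nat_lit 4) (nat_lit 495) (nat_lit 378) (nat_lit 327))) (XT.nd (nat_lit 78) (nat_lit 0) (nat_lit 0) (XT.lf (nat_lit 0) (nat_lit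 17016355232) (nat_lit 76) (nat_lit 31831289848) (nat_lit 76) (nat_lit 24628720408) (nat_lit 11) (nat_lit 4) (nat_lit 12) (nat_lit 5) (nat_lit 12) (nat_lit 4) (nat_lit 496) (nat_lit 378) (nat_lit 326)) (XT.lf (nat_lit 0) (nat_lit 49871228501) (nat_lit 76) (nat_lit 17015632196) (nat_lit 76) (nat_lit 9783604270) (nat_lit 11) (nat_lit 4) (nat_lit 12) (nat_lit 5) (nat_lit 12) (nat_lit 4) (nat_lit 497) (nat_lit 378) (nat_lit 325)))))) (XT.nd (nat_lit 58500) (nat_lit 0) (nat_lit 4560) (XT.nd (nat_lit 58266) (nat_lit 0) (nat_lit 6004) (XT.nd (nat_lit 58110) (nat_lit 0) (nat_lit 6916) (XT.lf (nat_lit 0) (nat_lit 4164132425) (nat_lit 76) (nat_lit 1463560210) (nat_lit 152) (nat_lit 74396788288) (nat_lit 9) (nat_lit 5) (nat_lit 10) (nat_lit 5) (nat_lit 11) (nat_lit 4) (nat_lit 498) (nat_lit 378) (nat_lit 324)) (XT.nd (nat_lit 78) (nat_lit 228) (nat_lit 0) (XT.lf (nat_lit 0) (nat_lit 1757920761) (nat_lit 152)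 (nat_lit 2087405296) (nat_lit 152) (nat_lit 2087405296) (nat_lit 103) (nat_lit 4) (nat_lit 105) (nat_lit 5) (nat_lit 105) (nat_lit 4) (nat_lit 442) (nat_lit 379) (nat_lit 379)) (XT.lf (nat_lit 0) (nat_lit 5059881412) (nat_lit 228) (nat_lit 2852039878) (nat_lit 0) (nat_lit 4241088862) (nat_lit 100) (nat_lit 5) (nat_lit 103) (nat_lit 4) (nat_lit 100) (nat_lit 4) (nat_lit 443) (nat_lit 379) (nat_lit 378)))) (XT.nd (nat_lit 78) (nat_lit 532) (nat_lit 0) (XT.lf (nat_lit 0) (nat_lit 2154898174) (nat_lit 228) (nat_lit 9695851287) (nat_lit 0) (nat_lit 602864216) (nat_lit 95) (nat_lit 5) (nat_lit 98) (nat_lit 4) (nat_lit 95) (nat_lit 4) (nat_lit 444) (nat_lit 379) (nat_lit 377)) (XT.nd (nat_lit 78) (nat_lit 380) (nat_lit 0) (XT.lf (nat_lit 0) (nat_lit 8441593587) (nat_lit 152) (nat_lit 3298986813) (nat_lit 152) (nat_lit 1025915010) (nat_lit 93) (nat_lit 4) (nat_lit 95) (nat_lit 5) (nat_lit 95) (nat_lit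 4) (nat_lit 445) (nat_lit 379) (nat_lit 376)) (XT.lf (nat_lit 0) (nat_lit 1080570958) (nat_lit 152) (nat_lit 7443013630) (nat_lit 152) (nat_lit 4569446143) (nat_lit 88) (nat_lit 4) (nat_lit 90) (nat_lit 5) (nat_lit 90) (nat_lit 4) (nat_lit 446) (nat_lit 379) (nat_lit 375))))) (XT.nd (nat_lit 234) (nat_lit 760) (nat_lit 0) (XT.nd (nat_lit 78) (nat_lit 456) (nat_lit 0) (XT.lf (nat_lit 0) (nat_lit 5009812279) (nat_lit 228) (nat_lit 6820373898) (nat_lit 0) (nat_lit 1603480777) (nat_lit 85) (nat_lit 5) (nat_lit 88) (nat_lit 4) (nat_lit 85) (nat_lit 4) (nat_lit 447) (nat_lit 379) (nat_lit 374)) (XT.nd (nat_lit 78) (nat_lit 228) (nat_lit 0) (XT.lf (nat_lit 0) (nat_lit 1164320875) (nat_lit 228) (nat_lit 1629865035) (nat_lit 76) (nat_lit 10995345213) (nat_lit 82) (nat_lit 5) (nat_lit 85) (nat_lit 5) (nat_lit 83) (nat_lit 4) (nat_lit 448) (nat_lit 379) (nat_lit 373)) (XT.lf (nat_lit 0) (nat_lit 3606820089)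 (nat_lit 152) (nat_lit 7486397440) (nat_lit 152) (nat_lit 3066413026) (nat_lit 79) (nat_lit 4) (nat_lit 81) (nat_lit 5) (nat_lit 81) (nat_lit 4) (nat_lit 449) (nat_lit 379) (nat_lit 372)))) (XT.nd (nat_lit 156) (nat_lit 380) (nat_lit 0) (XT.nd (nat_lit 78) (nat_lit 228) (nat_lit 0) (XT.lf (nat_lit 0) (nat_lit 6836771568) (nat_lit 152) (nat_lit 5665816721) (nat_lit 0) (nat_lit 2043572014) (nat_lit 77) (nat_lit 5) (nat_lit 79) (nat_lit 4) (nat_lit 77) (nat_lit 4) (nat_lit 450) (nat_lit 379) (nat_lit 371)) (XT.lf (nat_lit 0) (nat_lit 2197215221) (nat_lit 228) (nat_lit 810902701) (nat_lit 76) (nat_lit 11941757410) (nat_lit 74) (nat_lit 5) (nat_lit 77) (nat_lit 5) (nat_lit 75) (nat_lit 4) (nat_lit 451) (nat_lit 379) (nat_lit 370))) (XT.nd (nat_lit 78) (nat_lit 152) (nat_lit 0) (XT.lf (nat_lit 0) (nat_lit 4065584724) (nat_lit 152) (nat_lit 8431958842) (nat_lit 152) (nat_lit 2872215773) (nat_lit 71) (nat_lit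 4) (nat_lit 73) (nat_lit 5) (nat_lit 73) (nat_lit 4) (nat_lit 452) (nat_lit 379) (nat_lit 369)) (XT.lf (nat_lit 0) (nat_lit 7362107168) (nat_lit 152) (nat_lit 6890603325) (nat_lit 0) (nat_lit 1555583605) (nat_lit 69) (nat_lit 5) (nat_lit 71) (nat_lit 4) (nat_lit 69) (nat_lit 4) (nat_lit 453) (nat_lit 379) (nat_lit 368))))))))
noncomputable def xc16 : XT := (XT.nd (nat_lit 1950) (nat_lit 1216) (nat_lit 0) (XT.nd (nat_lit 936) (nat_lit 1368) (nat_lit 0) (XT.nd (nat_lit 468) (nat_lit 760) (nat_lit 0) (XT.nd (nat_lit 234) (nat_lit 456) (nat_lit 0) (XT.nd (nat_lit 78) (nat_lit 380) (nat_lit 0) (XT.lf (nat_lit 0) (nat_lit 1790312972) (nat_lit 228) (nat_lit 2561440376) (nat_lit 76) (nat_lit 11914315945) (nat_lit 66) (nat_lit 5) (nat_lit 69) (nat_lit 5) (nat_lit 67) (nat_lit 4) (nat_lit 454) (nat_lit 379) (nat_lit 367)) (XT.nd (nat_lit 78) (nat_lit 152) (nat_lit 0) (XT.lf (nat_lit 0) (nat_lit 1690778406)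 (nat_lit 152) (nat_lit 10713735541) (nat_lit 152) (nat_lit 4338500547) (nat_lit 63) (nat_lit 4) (nat_lit 65) (nat_lit 5) (nat_lit 65) (nat_lit 4) (nat_lit 455) (nat_lit 379) (nat_lit 366)) (XT.lf (nat_lit 0) (nat_lit 5906895524) (nat_lit 76) (nat_lit 312272110) (nat_lit 152) (nat_lit 11021729265) (nat_lit 61) (nat_lit 5) (nat_lit 62) (nat_lit 5) (nat_lit 63) (nat_lit 4) (nat_lit 456) (nat_lit 379) (nat_lit 365)))) (XT.nd (nat_lit 78) (nat_lit 304) (nat_lit 0) (XT.lf (nat_lit 0) (nat_lit 9978679694) (nat_lit 152) (nat_lit 7310390774) (nat_lit 152) (nat_lit 471097852) (nat_lit 59) (nat_lit 4) (nat_lit 61) (nat_lit 5) (nat_lit 61) (nat_lit 4) (nat_lit 457) (nat_lit 379) (nat_lit 364)) (XT.nd (nat_lit 78) (nat_lit 152) (nat_lit 0) (XT.lf (nat_lit 0) (nat_lit 10413593732) (nat_lit 152) (nat_lit 4407911131) (nat_lit 0) (nat_lit 3480439736) (nat_lit 57) (nat_lit 5) (nat_lit 59) (nat_lit 4) (nat_lit 57)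 (nat_lit 4) (nat_lit 458) (nat_lit 379) (nat_lit 363)) (XT.lf (nat_lit 0) (nat_lit 2960046670) (nat_lit 152) (nat_lit 1203367618) (nat_lit 76) (nat_lit 14704734084) (nat_lit 55) (nat_lit 5) (nat_lit 57) (nat_lit 5) (nat_lit 56) (nat_lit 4) (nat_lit 459) (nat_lit 379) (nat_lit 362))))) (XT.nd (nat_lit 234) (nat_lit 380) (nat_lit 0) (XT.nd (nat_lit 78) (nat_lit 228) (nat_lit 0) (XT.lf (nat_lit 0) (nat_lit 1804296892) (nat_lit 76) (nat_lit 12457045118) (nat_lit 76) (nat_lit 5196773420) (nat_lit 53) (nat_lit 4) (nat_lit 54) (nat_lit 5) (nat_lit 54) (nat_lit 4) (nat_lit 460) (nat_lit 379) (nat_lit 361)) (XT.nd (nat_lit 78) (nat_lit 76) (nat_lit 0) (XT.lf (nat_lit 0) (nat_lit 4620778212) (nat_lit 76) (nat_lit 1353032548) (nat_lit 152) (nat_lit 14100777325) (nat_lit 51) (nat_lit 5) (nat_lit 52) (nat_lit 5) (nat_lit 53) (nat_lit 4) (nat_lit 461) (nat_lit 379) (nat_lit 360)) (XT.lf (nat_lit 0) (nat_lit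 7141691018) (nat_lit 76) (nat_lit 10545303048) (nat_lit 76) (nat_lit 3030604528) (nat_lit 50) (nat_lit 4) (nat_lit 51) (nat_lit 5) (nat_lit 51) (nat_lit 4) (nat_lit 462) (nat_lit 379) (nat_lit 359)))) (XT.nd (nat_lit 78) (nat_lit 228) (nat_lit 0) (XT.lf (nat_lit 0) (nat_lit 8443653301) (nat_lit 152) (nat_lit 12008392642) (nat_lit 0) (nat_lit 937691792) (nat_lit 48) (nat_lit 5) (nat_lit 50) (nat_lit 4) (nat_lit 48) (nat_lit 4) (nat_lit 463) (nat_lit 379) (nat_lit 358)) (XT.nd (nat_lit 78) (nat_lit 152) (nat_lit 0) (XT.lf (nat_lit 0) (nat_lit 11272954314) (nat_lit 76) (nat_lit 9262268711) (nat_lit 76) (nat_lit 1556176057) (nat_lit 47) (nat_lit 4) (nat_lit 48) (nat_lit 5) (nat_lit 48) (nat_lit 4) (nat_lit 464) (nat_lit 379) (nat_lit 357)) (XT.lf (nat_lit 0) (nat_lit 10228079262) (nat_lit 152) (nat_lit 10034845629) (nat_lit 0) (nat_lit 2561386306) (nat_lit 45) (nat_lit 5) (nat_lit 47) (nat_lit 4) (nat_lit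 45) (nat_lit 4) (nat_lit 465) (nat_lit 379) (nat_lit 356)))))) (XT.nd (nat_lit 468) (nat_lit 684) (nat_lit 0) (XT.nd (nat_lit 234) (nat_lit 380) (nat_lit 0) (XT.nd (nat_lit 78) (nat_lit 228) (nat_lit 0) (XT.lf (nat_lit 0) (nat_lit 13904707834) (nat_lit 76) (nat_lit 8764321413) (nat_lit 76) (nat_lit 921390740) (nat_lit 44) (nat_lit 4) (nat_lit 45) (nat_lit 5) (nat_lit 45) (nat_lit 4) (nat_lit 466) (nat_lit 379) (nat_lit 355)) (XT.nd (nat_lit 78) (nat_lit 76) (nat_lit 0) (XT.lf (nat_lit 0) (nat_lit 11158004397) (nat_lit 152) (nat_lit 9851750357) (nat_lit 0) (nat_lit 3380551856) (nat_lit 42) (nat_lit 5) (nat_lit 44) (nat_lit 4) (nat_lit 42) (nat_lit 4) (nat_lit 467) (nat_lit 379) (nat_lit 354)) (XT.lf (nat_lit 0) (nat_lit 14684630863) (nat_lit 76) (nat_lit 9237470852) (nat_lit 76) (nat_lit 1304821413) (nat_lit 41) (nat_lit 4) (nat_lit 42) (nat_lit 5) (nat_lit 42) (nat_lit 4) (nat_lit 468) (nat_lit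 379) (nat_lit 353)))) (XT.nd (nat_lit 78) (nat_lit 228) (nat_lit 0) (XT.lf (nat_lit 0) (nat_lit 11044982670) (nat_lit 152) (nat_lit 11855929207) (nat_lit 0) (nat_lit 3199879750) (nat_lit 39) (nat_lit 5) (nat_lit 41) (nat_lit 4) (nat_lit 39) (nat_lit 4) (nat_lit 469) (nat_lit 379) (nat_lit 352)) (XT.nd (nat_lit 78) (nat_lit 152) (nat_lit 0) (XT.lf (nat_lit 0) (nat_lit 13190718460) (nat_lit 76) (nat_lit 10902885855) (nat_lit 76) (nat_lit 2921114818) (nat_lit 38) (nat_lit 4) (nat_lit 39) (nat_lit 5) (nat_lit 39) (nat_lit 4) (nat_lit 470) (nat_lit 379) (nat_lit 351)) (XT.lf (nat_lit 0) (nat_lit 9662468538) (nat_lit 152) (nat_lit 16521224108) (nat_lit 0) (nat_lit 1786807228) (nat_lit 36) (nat_lit 5) (nat_lit 38) (nat_lit 4) (nat_lit 36) (nat_lit 4) (nat_lit 471) (nat_lit 379) (nat_lit 350))))) (XT.nd (nat_lit 234) (nat_lit 380) (nat_lit 0) (XT.nd (nat_lit 78) (nat_lit 228) (nat_lit 0) (XT.lf (nat_lit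 0) (nat_lit 8918675492) (nat_lit 76) (nat_lit 14023362459) (nat_lit 76) (nat_lit 6027349683) (nat_lit 35) (nat_lit 4) (nat_lit 36) (nat_lit 5) (nat_lit 36) (nat_lit 4) (nat_lit 472) (nat_lit 379) (nat_lit 349)) (XT.nd (nat_lit 78) (nat_lit 76) (nat_lit 0) (XT.lf (nat_lit 0) (nat_lit 5592283503) (nat_lit 76) (nat_lit 1157921779) (nat_lit 152) (nat_lit 23265530783) (nat_lit 33) (nat_lit 5) (nat_lit 34) (nat_lit 5) (nat_lit 35) (nat_lit 4) (nat_lit 473) (nat_lit 379) (nat_lit 348)) (XT.lf (nat_lit 0) (nat_lit 1267125762) (nat_lit 76) (nat_lit 18910895360) (nat_lit 76) (nat_lit 10930511331) (nat_lit 32) (nat_lit 4) (nat_lit 33) (nat_lit 5) (nat_lit 33) (nat_lit 4) (nat_lit 474) (nat_lit 379) (nat_lit 347)))) (XT.nd (nat_lit 156) (nat_lit 228) (nat_lit 0) (XT.nd (nat_lit 78) (nat_lit 76) (nat_lit 0) (XT.lf (nat_lit 0) (nat_lit 2046934151) (nat_lit 152) (nat_lit 3926043743) (nat_lit 76) (nat_lit 26280456188)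 (nat_lit 31) (nat_lit 5) (nat_lit 33) (nat_lit 5) (nat_lit 32) (nat_lit 4) (nat_lit 475) (nat_lit 379) (nat_lit 346)) (XT.lf (nat_lit 0) (nat_lit 15556542241) (nat_lit 152) (nat_lit 10275242348) (nat_lit 0) (nat_lit 7617270752) (nat_lit 30) (nat_lit 5) (nat_lit 32) (nat_lit 4) (nat_lit 30) (nat_lit 4) (nat_lit 476) (nat_lit 379) (nat_lit 345))) (XT.nd (nat_lit 78) (nat_lit 152) (nat_lit 0) (XT.lf (nat_lit 0) (nat_lit 16905943212) (nat_lit 76) (nat_lit 12912188977) (nat_lit 76) (nat_lit 4884032086) (nat_lit 29) (nat_lit 4) (nat_lit 30) (nat_lit 5) (nat_lit 30) (nat_lit 4) (nat_lit 477) (nat_lit 379) (nat_lit 344)) (XT.lf (nat_lit 0) (nat_lit 8624502910) (nat_lit 152) (nat_lit 26642282332) (nat_lit 0) (nat_lit 747988681) (nat_lit 27) (nat_lit 5) (nat_lit 29) (nat_lit 4) (nat_lit 27) (nat_lit 4) (nat_lit 478) (nat_lit 379) (nat_lit 343))))))) (XT.nd (nat_lit 1014) (nat_lit 304) (nat_lit 0) (XT.nd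 (nat_lit 468) (nat_lit 456) (nat_lit 0) (XT.nd (nat_lit 234) (nat_lit 228) (nat_lit 0) (XT.nd (nat_lit 78) (nat_lit 152) (nat_lit 0) (XT.lf (nat_lit 0) (nat_lit 352466888) (nat_lit 76) (nat_lit 22494844965) (nat_lit 76) (nat_lit 14540057260) (nat_lit 26) (nat_lit 4) (nat_lit 27) (nat_lit 5) (nat_lit 27) (nat_lit 4) (nat_lit 479) (nat_lit 379) (nat_lit 342)) (XT.nd (nat_lit 78) (nat_lit 152) (nat_lit 0) (XT.lf (nat_lit 0) (nat_lit 28906945835) (nat_lit 76) (nat_lit 8973996528) (nat_lit 76) (nat_lit 944662655) (nat_lit 26) (nat_lit 4) (nat_lit 27) (nat_lit 5) (nat_lit 27) (nat_lit 4) (nat_lit 480) (nat_lit 379) (nat_lit 341)) (XT.lf (nat_lit 0) (nat_lit 13131470941) (nat_lit 152) (nat_lit 21931533304) (nat_lit 0) (nat_lit 5267072666) (nat_lit 24) (nat_lit 5) (nat_lit 26) (nat_lit 4) (nat_lit 24) (nat_lit 4) (nat_lit 481) (nat_lit 379) (nat_lit 340)))) (XT.nd (nat_lit 78) (nat_lit 152) (nat_lit 0)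 (XT.lf (nat_lit 0) (nat_lit 6123164120) (nat_lit 76) (nat_lit 21856864371) (nat_lit 76) (nat_lit 13926819909) (nat_lit 23) (nat_lit 4) (nat_lit 24) (nat_lit 5) (nat_lit 24) (nat_lit 4) (nat_lit 482) (nat_lit 379) (nat_lit 339)) (XT.nd (nat_lit 78) (nat_lit 76) (nat_lit 0) (XT.lf (nat_lit 0) (nat_lit 75008354) (nat_lit 152) (nat_lit 7840297678) (nat_lit 76) (nat_lit 35645152497) (nat_lit 22) (nat_lit 5) (nat_lit 24) (nat_lit 5) (nat_lit 23) (nat_lit 4) (nat_lit 483) (nat_lit 379) (nat_lit 338)) (XT.lf (nat_lit 0) (nat_lit 14610891881) (nat_lit 152) (nat_lit 23884750301) (nat_lit 0) (nat_lit 6793311625) (nat_lit 21) (nat_lit 5) (nat_lit 23) (nat_lit 4) (nat_lit 21) (nat_lit 4) (nat_lit 484) (nat_lit 379) (nat_lit 337))))) (XT.nd (nat_lit 234) (nat_lit 228) (nat_lit 0) (XT.nd (nat_lit 78) (nat_lit 152) (nat_lit 0) (XT.lf (nat_lit 0) (nat_lit 4887816696) (nat_lit 76) (nat_lit 25043481273) (nat_lit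 76) (nat_lit 17170845052) (nat_lit 20) (nat_lit 4) (nat_lit 21) (nat_lit 5) (nat_lit 21) (nat_lit 4) (nat_lit 485) (nat_lit 379) (nat_lit 336)) (XT.nd (nat_lit 78) (nat_lit 152) (nat_lit 0) (XT.lf (nat_lit 0) (nat_lit 35306549571) (nat_lit 76) (nat_lit 10810762965) (nat_lit 76) (nat_lit 2885692492) (nat_lit 20) (nat_lit 4) (nat_lit 21) (nat_lit 5) (nat_lit 21) (nat_lit 4) (nat_lit 486) (nat_lit 379) (nat_lit 335)) (XT.lf (nat_lit 0) (nat_lit 11933114767) (nat_lit 152) (nat_lit 34870240865) (nat_lit 0) (nat_lit 4190388692) (nat_lit 18) (nat_lit 5) (nat_lit 20) (nat_lit 4) (nat_lit 18) (nat_lit 4) (nat_lit 487) (nat_lit 379) (nat_lit 334)))) (XT.nd (nat_lit 156) (nat_lit 152) (nat_lit 0) (XT.nd (nat_lit 78) (nat_lit 76) (nat_lit 0) (XT.lf (nat_lit 0) (nat_lit 27547317626) (nat_lit 152) (nat_lit 5774005243) (nat_lit 0) (nat_lit 19758417365) (nat_lit 18) (nat_lit 5) (nat_lit 20) (nat_lit 4) (nat_lit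 18) (nat_lit 4) (nat_lit 488) (nat_lit 379) (nat_lit 333)) (XT.lf (nat_lit 0) (nat_lit 25002791153) (nat_lit 76) (nat_lit 19048425846) (nat_lit 76) (nat_lit 11215550169) (nat_lit 17) (nat_lit 4) (nat_lit 18) (nat_lit 5) (nat_lit 18) (nat_lit 4) (nat_lit 489) (nat_lit 379) (nat_lit 332))) (XT.nd (nat_lit 78) (nat_lit 76) (nat_lit 0) (XT.lf (nat_lit 0) (nat_lit 3673894017) (nat_lit 152) (nat_lit 416752170) (nat_lit 76) (nat_lit 53473462785) (nat_lit 16) (nat_lit 5) (nat_lit 18) (nat_lit 5) (nat_lit 17) (nat_lit 4) (nat_lit 490) (nat_lit 379) (nat_lit 331)) (XT.lf (nat_lit 0) (nat_lit 19369550541) (nat_lit 152) (nat_lit 28909195721) (nat_lit 0) (nat_lit 11685430128) (nat_lit 15) (nat_lit 5) (nat_lit 17) (nat_lit 4) (nat_lit 15) (nat_lit 4) (nat_lit 491) (nat_lit 379) (nat_lit 330)))))) (XT.nd (nat_lit 468) (nat_lit 0) (nat_lit 0) (XT.nd (nat_lit 234) (nat_lit 152) (nat_lit 0) (XT.nd (nat_lit 78) (nat_lit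 76) (nat_lit 0) (XT.lf (nat_lit 0) (nat_lit 1369933427) (nat_lit 76) (nat_lit 34418580161) (nat_lit 76) (nat_lit 26697578566) (nat_lit 14) (nat_lit 4) (nat_lit 15) (nat_lit 5) (nat_lit 15) (nat_lit 4) (nat_lit 492) (nat_lit 379) (nat_lit 329)) (XT.nd (nat_lit 78) (nat_lit 76) (nat_lit 0) (XT.lf (nat_lit 0) (nat_lit 33533666924) (nat_lit 76) (nat_lit 19675569804) (nat_lit 76) (nat_lit 11919443274) (nat_lit 14) (nat_lit 4) (nat_lit 15) (nat_lit 5) (nat_lit 15) (nat_lit 4) (nat_lit 493) (nat_lit 379) (nat_lit 328)) (XT.lf (nat_lit 0) (nat_lit 3415073217) (nat_lit 152) (nat_lit 856980218) (nat_lit 76) (nat_lit 63633676647) (nat_lit 13) (nat_lit 5) (nat_lit 15) (nat_lit 5) (nat_lit 14) (nat_lit 4) (nat_lit 494) (nat_lit 379) (nat_lit 327)))) (XT.nd (nat_lit 78) (nat_lit 76) (nat_lit 0) (XT.lf (nat_lit 0) (nat_lit 19587449149) (nat_lit 152) (nat_lit 39227294457) (nat_lit 0) (nat_lit 11993819827) (nat_lit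 12) (nat_lit 5) (nat_lit 14) (nat_lit 4) (nat_lit 12) (nat_lit 4) (nat_lit 495) (nat_lit 379) (nat_lit 326)) (XT.nd (nat_lit 78) (nat_lit 76) (nat_lit 0) (XT.lf (nat_lit 0) (nat_lit 36515595533) (nat_lit 152) (nat_lit 8450021192) (nat_lit 0) (nat_lit 28892507726) (nat_lit 12) (nat_lit 5) (nat_lit 14) (nat_lit 4) (nat_lit 12) (nat_lit 4) (nat_lit 496) (nat_lit 379) (nat_lit 325)) (XT.lf (nat_lit 0) (nat_lit 24137234230) (nat_lit 76) (nat_lit 30285054566) (nat_lit 76) (nat_lit 22633911058) (nat_lit 11) (nat_lit 4) (nat_lit 12) (nat_lit 5) (nat_lit 12) (nat_lit 4) (nat_lit 497) (nat_lit 379) (nat_lit 324))))) (XT.nd (nat_lit 58110) (nat_lit 0) (nat_lit 6232) (XT.nd (nat_lit 57954) (nat_lit 0) (nat_lit 7372) (XT.lf (nat_lit 0) (nat_lit 58336276818) (nat_lit 76) (nat_lit 14878033067) (nat_lit 76) (nat_lit 7200169845) (nat_lit 11) (nat_lit 4) (nat_lit 12) (nat_lit 5) (nat_lit 12) (nat_lit 4) (nat_lit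 498) (nat_lit 379) (nat_lit 323)) (XT.nd (nat_lit 78) (nat_lit 228) (nat_lit 0) (XT.lf (nat_lit 0) (nat_lit 967924858) (nat_lit 228) (nat_lit 3725077692) (nat_lit 0) (nat_lit 967924858) (nat_lit 111) (nat_lit 5) (nat_lit 114) (nat_lit 4) (nat_lit 111) (nat_lit 4) (nat_lit 440) (nat_lit 380) (nat_lit 380)) (XT.lf (nat_lit 0) (nat_lit 9434848284) (nat_lit 228) (nat_lit 1533930326) (nat_lit 228) (nat_lit 621840459) (nat_lit 108) (nat_lit 4) (nat_lit 111) (nat_lit 5) (nat_lit 111) (nat_lit 4) (nat_lit 441) (nat_lit 380) (nat_lit 379)))) (XT.nd (nat_lit 156) (nat_lit 532) (nat_lit 0) (XT.nd (nat_lit 78) (nat_lit 228) (nat_lit 0) (XT.lf (nat_lit 0) (nat_lit 3230735839) (nat_lit 152) (nat_lit 5184225718) (nat_lit 152) (nat_lit 3455345249) (nat_lit 103) (nat_lit 4) (nat_lit 105) (nat_lit 5) (nat_lit 105) (nat_lit 4) (nat_lit 442) (nat_lit 380) (nat_lit 378)) (XT.lf (nat_lit 0) (nat_lit 5593800060) (nat_lit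 228) (nat_lit 3433526110) (nat_lit 0) (nat_lit 3135472905) (nat_lit 100) (nat_lit 5) (nat_lit 103) (nat_lit 4) (nat_lit 100) (nat_lit 4) (nat_lit 443) (nat_lit 380) (nat_lit 377))) (XT.nd (nat_lit 78) (nat_lit 152) (nat_lit 0) (XT.lf (nat_lit 0) (nat_lit 1859580673) (nat_lit 152) (nat_lit 633314305) (nat_lit 228) (nat_lit 9975640181) (nat_lit 95) (nat_lit 5) (nat_lit 97) (nat_lit 5) (nat_lit 98) (nat_lit 4) (nat_lit 444) (nat_lit 380) (nat_lit 376)) (XT.lf (nat_lit 0) (nat_lit 7237060992) (nat_lit 152) (nat_lit 4671957423) (nat_lit 152) (nat_lit 877491478) (nat_lit 93) (nat_lit 4) (nat_lit 95) (nat_lit 5) (nat_lit 95) (nat_lit 4) (nat_lit 445) (nat_lit 380) (nat_lit 375))))))))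
noncomputable def xc17 : XT := (XT.nd (nat_lit 1950) (nat_lit 1976) (nat_lit 0) (XT.nd (nat_lit 936) (nat_lit 1596) (nat_lit 0) (XT.nd (nat_lit 468) (nat_lit 1140) (nat_lit 0) (XT.nd (nat_lit 234) (nat_lit 608) (nat_lit 0) (XT.nd (nat_lit 78) (nat_lit 608) (nat_lit 0) (XT.lf (nat_lit 0) (nat_lit 8480899120) (nat_lit 228) (nat_lit 475757799) (nat_lit 0) (nat_lit 4161997641) (nat_lit 90) (nat_lit 5) (nat_lit 93) (nat_lit 4) (nat_lit 90) (nat_lit 4) (nat_lit 446) (nat_lit 380) (nat_lit 374)) (XT.nd (nat_lit 78) (nat_lit 228) (nat_lit 0) (XT.lf (nat_lit 0) (nat_lit 4728682514) (nat_lit 152) (nat_lit 26146082) (nat_lit 228) (nat_lit 8710127438) (nat_lit 85) (nat_lit 5) (nat_lit 87) (nat_lit 5) (nat_lit 88) (nat_lit 4) (nat_lit 447) (nat_lit 380) (nat_lit 373)) (XT.lf (nat_lit 0) (nat_lit 714409518) (nat_lit 228) (nat_lit 3889109354) (nat_lit 76) (nat_lit 9222465560) (nat_lit 82) (nat_lit 5) (nat_lit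 85) (nat_lit 5) (nat_lit 83) (nat_lit 4) (nat_lit 448) (nat_lit 380) (nat_lit 372)))) (XT.nd (nat_lit 78) (nat_lit 380) (nat_lit 0) (XT.lf (nat_lit 0) (nat_lit 959642615) (nat_lit 152) (nat_lit 9471828716) (nat_lit 152) (nat_lit 3770972272) (nat_lit 79) (nat_lit 4) (nat_lit 81) (nat_lit 5) (nat_lit 81) (nat_lit 4) (nat_lit 449) (nat_lit 380) (nat_lit 371)) (XT.nd (nat_lit 78) (nat_lit 228) (nat_lit 0) (XT.lf (nat_lit 0) (nat_lit 5892170509) (nat_lit 76) (nat_lit 61237620) (nat_lit 152) (nat_lit 8641549326) (nat_lit 77) (nat_lit 5) (nat_lit 78) (nat_lit 5) (nat_lit 79) (nat_lit 4) (nat_lit 450) (nat_lit 380) (nat_lit 370)) (XT.lf (nat_lit 0) (nat_lit 1108193534) (nat_lit 228) (nat_lit 4218515014) (nat_lit 76) (nat_lit 9677488292) (nat_lit 74) (nat_lit 5) (nat_lit 77) (nat_lit 5) (nat_lit 75) (nat_lit 4) (nat_lit 451) (nat_lit 380) (nat_lit 369))))) (XT.nd (nat_lit 234) (nat_lit 532) (nat_lit 0)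 (XT.nd (nat_lit 78) (nat_lit 380) (nat_lit 0) (XT.lf (nat_lit 0) (nat_lit 216712340) (nat_lit 152) (nat_lit 10957565541) (nat_lit 152) (nat_lit 4256834108) (nat_lit 71) (nat_lit 4) (nat_lit 73) (nat_lit 5) (nat_lit 73) (nat_lit 4) (nat_lit 452) (nat_lit 380) (nat_lit 368)) (XT.nd (nat_lit 78) (nat_lit 228) (nat_lit 0) (XT.lf (nat_lit 0) (nat_lit 4692964036) (nat_lit 76) (nat_lit 1117196152) (nat_lit 152) (nat_lit 10065719817) (nat_lit 69) (nat_lit 5) (nat_lit 70) (nat_lit 5) (nat_lit 71) (nat_lit 4) (nat_lit 453) (nat_lit 380) (nat_lit 367)) (XT.lf (nat_lit 0) (nat_lit 9938497) (nat_lit 228) (nat_lit 7245357829) (nat_lit 76) (nat_lit 9084602515) (nat_lit 66) (nat_lit 5) (nat_lit 69) (nat_lit 5) (nat_lit 67) (nat_lit 4) (nat_lit 454) (nat_lit 380) (nat_lit 366)))) (XT.nd (nat_lit 78) (nat_lit 456) (nat_lit 0) (XT.lf (nat_lit 0) (nat_lit 10397389475) (nat_lit 152) (nat_lit 3425566000) (nat_lit 0)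 (nat_lit 3000694180) (nat_lit 65) (nat_lit 5) (nat_lit 67) (nat_lit 4) (nat_lit 65) (nat_lit 4) (nat_lit 455) (nat_lit 380) (nat_lit 365)) (XT.nd (nat_lit 78) (nat_lit 152) (nat_lit 0) (XT.lf (nat_lit 0) (nat_lit 297069539) (nat_lit 76) (nat_lit 3653778622) (nat_lit 152) (nat_lit 13377927829) (nat_lit 61) (nat_lit 5) (nat_lit 62) (nat_lit 5) (nat_lit 63) (nat_lit 4) (nat_lit 456) (nat_lit 380) (nat_lit 364)) (XT.lf (nat_lit 0) (nat_lit 3945308957) (nat_lit 152) (nat_lit 10854712413) (nat_lit 152) (nat_lit 3054650671) (nat_lit 59) (nat_lit 4) (nat_lit 61) (nat_lit 5) (nat_lit 61) (nat_lit 4) (nat_lit 457) (nat_lit 380) (nat_lit 363)))))) (XT.nd (nat_lit 468) (nat_lit 760) (nat_lit 0) (XT.nd (nat_lit 234) (nat_lit 456) (nat_lit 0) (XT.nd (nat_lit 78) (nat_lit 228) (nat_lit 0) (XT.lf (nat_lit 0) (nat_lit 7454356788) (nat_lit 76) (nat_lit 201751657) (nat_lit 152) (nat_lit 10747817857) (nat_lit 57)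 (nat_lit 5) (nat_lit 58) (nat_lit 5) (nat_lit 59) (nat_lit 4) (nat_lit 458) (nat_lit 380) (nat_lit 362)) (XT.nd (nat_lit 78) (nat_lit 152) (nat_lit 0) (XT.lf (nat_lit 0) (nat_lit 10778972185) (nat_lit 76) (nat_lit 8157821578) (nat_lit 76) (nat_lit 40020248) (nat_lit 56) (nat_lit 4) (nat_lit 57) (nat_lit 5) (nat_lit 57) (nat_lit 4) (nat_lit 459) (nat_lit 380) (nat_lit 361)) (XT.lf (nat_lit 0) (nat_lit 11010856300) (nat_lit 152) (nat_lit 5679764684) (nat_lit 0) (nat_lit 2883709850) (nat_lit 54) (nat_lit 5) (nat_lit 56) (nat_lit 4) (nat_lit 54) (nat_lit 4) (nat_lit 460) (nat_lit 380) (nat_lit 360)))) (XT.nd (nat_lit 78) (nat_lit 304) (nat_lit 0) (XT.lf (nat_lit 0) (nat_lit 2448463968) (nat_lit 152) (nat_lit 3390846435) (nat_lit 76) (nat_lit 14359196298) (nat_lit 52) (nat_lit 5) (nat_lit 54) (nat_lit 5) (nat_lit 53) (nat_lit 4) (nat_lit 461) (nat_lit 380) (nat_lit 359)) (XT.nd (nat_lit 78) (nat_lit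 228) (nat_lit 0) (XT.lf (nat_lit 0) (nat_lit 13895183781) (nat_lit 152) (nat_lit 1393284723) (nat_lit 0) (nat_lit 5561044576) (nat_lit 51) (nat_lit 5) (nat_lit 53) (nat_lit 4) (nat_lit 51) (nat_lit 4) (nat_lit 462) (nat_lit 380) (nat_lit 358)) (XT.lf (nat_lit 0) (nat_lit 326080312) (nat_lit 76) (nat_lit 4041582050) (nat_lit 152) (nat_lit 17161988159) (nat_lit 48) (nat_lit 5) (nat_lit 49) (nat_lit 5) (nat_lit 50) (nat_lit 4) (nat_lit 463) (nat_lit 380) (nat_lit 357))))) (XT.nd (nat_lit 234) (nat_lit 456) (nat_lit 0) (XT.nd (nat_lit 78) (nat_lit 228) (nat_lit 0) (XT.lf (nat_lit 0) (nat_lit 1703419888) (nat_lit 76) (nat_lit 14508718029) (nat_lit 76) (nat_lit 6026588507) (nat_lit 47) (nat_lit 4) (nat_lit 48) (nat_lit 5) (nat_lit 48) (nat_lit 4) (nat_lit 464) (nat_lit 380) (nat_lit 356)) (XT.nd (nat_lit 78) (nat_lit 76) (nat_lit 0) (XT.lf (nat_lit 0) (nat_lit 2722239885) (nat_lit 76) (nat_lit 2886575019)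 (nat_lit 152) (nat_lit 17371196979) (nat_lit 45) (nat_lit 5) (nat_lit 46) (nat_lit 5) (nat_lit 47) (nat_lit 4) (nat_lit 465) (nat_lit 380) (nat_lit 355)) (XT.lf (nat_lit 0) (nat_lit 3284097047) (nat_lit 76) (nat_lit 14524214558) (nat_lit 76) (nat_lit 5945054191) (nat_lit 44) (nat_lit 4) (nat_lit 45) (nat_lit 5) (nat_lit 45) (nat_lit 4) (nat_lit 466) (nat_lit 380) (nat_lit 354)))) (XT.nd (nat_lit 156) (nat_lit 228) (nat_lit 0) (XT.nd (nat_lit 78) (nat_lit 76) (nat_lit 0) (XT.lf (nat_lit 0) (nat_lit 3405402856) (nat_lit 76) (nat_lit 2577068093) (nat_lit 152) (nat_lit 18579728589) (nat_lit 42) (nat_lit 5) (nat_lit 43) (nat_lit 5) (nat_lit 44) (nat_lit 4) (nat_lit 467) (nat_lit 380) (nat_lit 353)) (XT.lf (nat_lit 0) (nat_lit 2965492487) (nat_lit 76) (nat_lit 15536474168) (nat_lit 76) (nat_lit 6904188791) (nat_lit 41) (nat_lit 4) (nat_lit 42) (nat_lit 5) (nat_lit 42) (nat_lit 4) (nat_lit 468) (nat_lit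 380) (nat_lit 352))) (XT.nd (nat_lit 78) (nat_lit 76) (nat_lit 0) (XT.lf (nat_lit 0) (nat_lit 1986545039) (nat_lit 76) (nat_lit 3313749825) (nat_lit 152) (nat_lit 20988982585) (nat_lit 39) (nat_lit 5) (nat_lit 40) (nat_lit 5) (nat_lit 41) (nat_lit 4) (nat_lit 469) (nat_lit 380) (nat_lit 351)) (XT.lf (nat_lit 0) (nat_lit 322205291) (nat_lit 76) (nat_lit 17768221675) (nat_lit 76) (nat_lit 9120533857) (nat_lit 38) (nat_lit 4) (nat_lit 39) (nat_lit 5) (nat_lit 39) (nat_lit 4) (nat_lit 470) (nat_lit 380) (nat_lit 350))))))) (XT.nd (nat_lit 1014) (nat_lit 836) (nat_lit 0) (XT.nd (nat_lit 468) (nat_lit 532) (nat_lit 0) (XT.nd (nat_lit 234) (nat_lit 380) (nat_lit 0) (XT.nd (nat_lit 78) (nat_lit 152) (nat_lit 0) (XT.lf (nat_lit 0) (nat_lit 3355359090) (nat_lit 152) (nat_lit 1960270874) (nat_lit 76) (nat_lit 22859760373) (nat_lit 37) (nat_lit 5) (nat_lit 39) (nat_lit 5) (nat_lit 38) (nat_lit 4) (nat_lit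 471) (nat_lit 380) (nat_lit 349)) (XT.nd (nat_lit 78) (nat_lit 76) (nat_lit 0) (XT.lf (nat_lit 0) (nat_lit 16379813605) (nat_lit 152) (nat_lit 5053090703) (nat_lit 0) (nat_lit 7749028278) (nat_lit 36) (nat_lit 5) (nat_lit 38) (nat_lit 4) (nat_lit 36) (nat_lit 4) (nat_lit 472) (nat_lit 380) (nat_lit 348)) (XT.lf (nat_lit 0) (nat_lit 21306393256) (nat_lit 76) (nat_lit 8834892269) (nat_lit 76) (nat_lit 94944613) (nat_lit 35) (nat_lit 4) (nat_lit 36) (nat_lit 5) (nat_lit 36) (nat_lit 4) (nat_lit 473) (nat_lit 380) (nat_lit 347)))) (XT.nd (nat_lit 78) (nat_lit 228) (nat_lit 0) (XT.lf (nat_lit 0) (nat_lit 13065340529) (nat_lit 152) (nat_lit 13792777381) (nat_lit 0) (nat_lit 4479018414) (nat_lit 33) (nat_lit 5) (nat_lit 35) (nat_lit 4) (nat_lit 33) (nat_lit 4) (nat_lit 474) (nat_lit 380) (nat_lit 346)) (XT.nd (nat_lit 78) (nat_lit 152) (nat_lit 0) (XT.lf (nat_lit 0) (nat_lit 12831246848) (nat_lit 76)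 (nat_lit 14170334542) (nat_lit 76) (nat_lit 5487882864) (nat_lit 32) (nat_lit 4) (nat_lit 33) (nat_lit 5) (nat_lit 33) (nat_lit 4) (nat_lit 475) (nat_lit 380) (nat_lit 345)) (XT.lf (nat_lit 0) (nat_lit 7080280808) (nat_lit 76) (nat_lit 729711532) (nat_lit 152) (nat_lit 25886241206) (nat_lit 30) (nat_lit 5) (nat_lit 31) (nat_lit 5) (nat_lit 32) (nat_lit 4) (nat_lit 476) (nat_lit 380) (nat_lit 344))))) (XT.nd (nat_lit 234) (nat_lit 304) (nat_lit 0) (XT.nd (nat_lit 78) (nat_lit 152) (nat_lit 0) (XT.lf (nat_lit 0) (nat_lit 71516576) (nat_lit 76) (nat_lit 21744301254) (nat_lit 76) (nat_lit 13141198351) (nat_lit 29) (nat_lit 4) (nat_lit 30) (nat_lit 5) (nat_lit 30) (nat_lit 4) (nat_lit 477) (nat_lit 380) (nat_lit 343)) (XT.nd (nat_lit 78) (nat_lit 76) (nat_lit 0) (XT.lf (nat_lit 0) (nat_lit 345731475) (nat_lit 152) (nat_lit 7981889689) (nat_lit 76) (nat_lit 27949868531) (nat_lit 28) (nat_lit 5) (nat_lit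 30) (nat_lit 5) (nat_lit 29) (nat_lit 4) (nat_lit 478) (nat_lit 380) (nat_lit 342)) (XT.lf (nat_lit 0) (nat_lit 14322539605) (nat_lit 152) (nat_lit 17517733112) (nat_lit 0) (nat_lit 5817192870) (nat_lit 27) (nat_lit 5) (nat_lit 29) (nat_lit 4) (nat_lit 27) (nat_lit 4) (nat_lit 479) (nat_lit 380) (nat_lit 341)))) (XT.nd (nat_lit 156) (nat_lit 152) (nat_lit 0) (XT.nd (nat_lit 78) (nat_lit 76) (nat_lit 0) (XT.lf (nat_lit 0) (nat_lit 10527015414) (nat_lit 76) (nat_lit 18576307610) (nat_lit 76) (nat_lit 9999964525) (nat_lit 26) (nat_lit 4) (nat_lit 27) (nat_lit 5) (nat_lit 27) (nat_lit 4) (nat_lit 480) (nat_lit 380) (nat_lit 340)) (XT.lf (nat_lit 0) (nat_lit 3945855472) (nat_lit 152) (nat_lit 633872047) (nat_lit 76) (nat_lit 36039854328) (nat_lit 25) (nat_lit 5) (nat_lit 27) (nat_lit 5) (nat_lit 26) (nat_lit 4) (nat_lit 481) (nat_lit 380) (nat_lit 339))) (XT.nd (nat_lit 78) (nat_lit 76) (nat_lit 0)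 (XT.lf (nat_lit 0) (nat_lit 18608795149) (nat_lit 152) (nat_lit 13439045188) (nat_lit 0) (nat_lit 10154082101) (nat_lit 24) (nat_lit 5) (nat_lit 26) (nat_lit 4) (nat_lit 24) (nat_lit 4) (nat_lit 482) (nat_lit 380) (nat_lit 338)) (XT.lf (nat_lit 0) (nat_lit 15743518490) (nat_lit 76) (nat_lit 18316236282) (nat_lit 76) (nat_lit 9801980208) (nat_lit 23) (nat_lit 4) (nat_lit 24) (nat_lit 5) (nat_lit 24) (nat_lit 4) (nat_lit 483) (nat_lit 380) (nat_lit 337)))))) (XT.nd (nat_lit 468) (nat_lit 380) (nat_lit 0) (XT.nd (nat_lit 234) (nat_lit 228) (nat_lit 0) (XT.nd (nat_lit 78) (nat_lit 76) (nat_lit 0) (XT.lf (nat_lit 0) (nat_lit 742468885) (nat_lit 76) (nat_lit 3845428948) (nat_lit 152) (nat_lit 41015277926) (nat_lit 21) (nat_lit 5) (nat_lit 22) (nat_lit 5) (nat_lit 23) (nat_lit 4) (nat_lit 484) (nat_lit 380) (nat_lit 336)) (XT.nd (nat_lit 78) (nat_lit 76) (nat_lit 0) (XT.lf (nat_lit 0) (nat_lit 19754363707)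 (nat_lit 152) (nat_lit 16286014492) (nat_lit 0) (nat_lit 11380605457) (nat_lit 21) (nat_lit 5) (nat_lit 23) (nat_lit 4) (nat_lit 21) (nat_lit 4) (nat_lit 485) (nat_lit 380) (nat_lit 335)) (XT.lf (nat_lit 0) (nat_lit 13673132040) (nat_lit 76) (nat_lit 22039619259) (nat_lit 76) (nat_lit 13615923626) (nat_lit 20) (nat_lit 4) (nat_lit 21) (nat_lit 5) (nat_lit 21) (nat_lit 4) (nat_lit 486) (nat_lit 380) (nat_lit 334)))) (XT.nd (nat_lit 78) (nat_lit 152) (nat_lit 0) (XT.lf (nat_lit 0) (nat_lit 1150425893) (nat_lit 152) (nat_lit 6135890482) (nat_lit 76) (nat_lit 44044047929) (nat_lit 19) (nat_lit 5) (nat_lit 21) (nat_lit 5) (nat_lit 20) (nat_lit 4) (nat_lit 487) (nat_lit 380) (nat_lit 333)) (XT.nd (nat_lit 78) (nat_lit 76) (nat_lit 0) (XT.lf (nat_lit 0) (nat_lit 16569760853) (nat_lit 152) (nat_lit 28551179820) (nat_lit 0) (nat_lit 8301265976) (nat_lit 18) (nat_lit 5) (nat_lit 20) (nat_lit 4) (nat_lit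 18) (nat_lit 4) (nat_lit 488) (nat_lit 380) (nat_lit 332)) (XT.lf (nat_lit 0) (nat_lit 1648095815) (nat_lit 76) (nat_lit 31140040052) (nat_lit 76) (nat_lit 22829663826) (nat_lit 17) (nat_lit 4) (nat_lit 18) (nat_lit 5) (nat_lit 18) (nat_lit 4) (nat_lit 489) (nat_lit 380) (nat_lit 331))))) (XT.nd (nat_lit 234) (nat_lit 228) (nat_lit 0) (XT.nd (nat_lit 78) (nat_lit 152) (nat_lit 0) (XT.lf (nat_lit 0) (nat_lit 33711465043) (nat_lit 76) (nat_lit 16278399139) (nat_lit 76) (nat_lit 7928135914) (nat_lit 17) (nat_lit 4) (nat_lit 18) (nat_lit 5) (nat_lit 18) (nat_lit 4) (nat_lit 490) (nat_lit 380) (nat_lit 330)) (XT.nd (nat_lit 78) (nat_lit 0) (nat_lit 0) (XT.lf (nat_lit 0) (nat_lit 6871399389) (nat_lit 76) (nat_lit 645669689) (nat_lit 152) (nat_lit 52815439813) (nat_lit 15) (nat_lit 5) (nat_lit 16) (nat_lit 5) (nat_lit 17) (nat_lit 4) (nat_lit 491) (nat_lit 380) (nat_lit 329)) (XT.lf (nat_lit 0) (nat_lit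 23860784492) (nat_lit 152) (nat_lit 23314171213) (nat_lit 0) (nat_lit 15681726700) (nat_lit 15) (nat_lit 5) (nat_lit 17) (nat_lit 4) (nat_lit 15) (nat_lit 4) (nat_lit 492) (nat_lit 380) (nat_lit 328)))) (XT.nd (nat_lit 156) (nat_lit 152) (nat_lit 0) (XT.nd (nat_lit 78) (nat_lit 0) (nat_lit 0) (XT.lf (nat_lit 0) (nat_lit 8277100323) (nat_lit 76) (nat_lit 32721582544) (nat_lit 76) (nat_lit 24509072432) (nat_lit 14) (nat_lit 4) (nat_lit 15) (nat_lit 5) (nat_lit 15) (nat_lit 4) (nat_lit 493) (nat_lit 380) (nat_lit 327)) (XT.lf (nat_lit 0) (nat_lit 41723369532) (nat_lit 76) (nat_lit 17404180080) (nat_lit 76) (nat_lit 9159810616) (nat_lit 14) (nat_lit 4) (nat_lit 15) (nat_lit 5) (nat_lit 15) (nat_lit 4) (nat_lit 494) (nat_lit 380) (nat_lit 326))) (XT.nd (nat_lit 78) (nat_lit 0) (nat_lit 0) (XT.lf (nat_lit 0) (nat_lit 5472207447) (nat_lit 76) (nat_lit 1299673907) (nat_lit 152) (nat_lit 64433536730) (nat_lit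 12) (nat_lit 5) (nat_lit 13) (nat_lit 5) (nat_lit 14) (nat_lit 4) (nat_lit 495) (nat_lit 380) (nat_lit 325)) (XT.lf (nat_lit 0) (nat_lit 23638811404) (nat_lit 152) (nat_lit 35040949421) (nat_lit 0) (nat_lit 15577055021) (nat_lit 12) (nat_lit 5) (nat_lit 14) (nat_lit 4) (nat_lit 12) (nat_lit 4) (nat_lit 496) (nat_lit 380) (nat_lit 324))))))))
noncomputable def xc18 : XT := (XT.nd (nat_lit 59670) (nat_lit 0) (nat_lit 760) (XT.nd (nat_lit 58656) (nat_lit 0) (nat_lit 3268) (XT.nd (nat_lit 58188) (nat_lit 0) (nat_lit 5624) (XT.nd (nat_lit 57954) (nat_lit 0) (nat_lit 7296) (XT.nd (nat_lit 78) (nat_lit 76) (nat_lit 0) (XT.lf (nat_lit 0) (nat_lit 41267079879) (nat_lit 152) (nat_lit 3017560577) (nat_lit 0) (nat_lit 33178603781) (nat_lit 12) (nat_lit 5) (nat_lit 14) (nat_lit 4) (nat_lit 12) (nat_lit 4) (nat_lit 497) (nat_lit 380) (nat_lit 323)) (XT.nd (nat_lit 57798) (nat_lit 0) (nat_lit 8284) (XT.lf (nat_lit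 0) (nat_lit 31031226315) (nat_lit 76) (nat_lit 28953230401) (nat_lit 76) (nat_lit 20839306955) (nat_lit 11) (nat_lit 4) (nat_lit 12) (nat_lit 5) (nat_lit 12) (nat_lit 4) (nat_lit 498) (nat_lit 380) (nat_lit 322)) (XT.lf (nat_lit 0) (nat_lit 2082496761) (nat_lit 228) (nat_lit 1662267572) (nat_lit 228) (nat_lit 1662267572) (nat_lit 120) (nat_lit 4) (nat_lit 123) (nat_lit 5) (nat_lit 123) (nat_lit 4) (nat_lit 438) (nat_lit 381) (nat_lit 381)))) (XT.nd (nat_lit 78) (nat_lit 760) (nat_lit 0) (XT.lf (nat_lit 0) (nat_lit 5226452707) (nat_lit 228) (nat_lit 1598192706) (nat_lit 0) (nat_lit 4240027516) (nat_lit 117) (nat_lit 5) (nat_lit 120) (nat_lit 4) (nat_lit 117) (nat_lit 4) (nat_lit 439) (nat_lit 381) (nat_lit 380)) (XT.nd (nat_lit 78) (nat_lit 304) (nat_lit 0) (XT.lf (nat_lit 0) (nat_lit 2735428960) (nat_lit 228) (nat_lit 7725532862) (nat_lit 0) (nat_lit 865644734) (nat_lit 111) (nat_lit 5) (nat_lit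 114) (nat_lit 4) (nat_lit 111) (nat_lit 4) (nat_lit 440) (nat_lit 381) (nat_lit 379)) (XT.lf (nat_lit 0) (nat_lit 12203751) (nat_lit 304) (nat_lit 2713667626) (nat_lit 76) (nat_lit 8874179433) (nat_lit 107) (nat_lit 5) (nat_lit 111) (nat_lit 5) (nat_lit 108) (nat_lit 4) (nat_lit 441) (nat_lit 381) (nat_lit 378))))) (XT.nd (nat_lit 234) (nat_lit 760) (nat_lit 0) (XT.nd (nat_lit 78) (nat_lit 608) (nat_lit 0) (XT.lf (nat_lit 0) (nat_lit 2374739968) (nat_lit 152) (nat_lit 6485993995) (nat_lit 152) (nat_lit 3024116677) (nat_lit 103) (nat_lit 4) (nat_lit 105) (nat_lit 5) (nat_lit 105) (nat_lit 4) (nat_lit 442) (nat_lit 381) (nat_lit 377)) (XT.nd (nat_lit 78) (nat_lit 380) (nat_lit 0) (XT.lf (nat_lit 0) (nat_lit 5844116041) (nat_lit 228) (nat_lit 4597883067) (nat_lit 0) (nat_lit 1740401122) (nat_lit 100) (nat_lit 5) (nat_lit 103) (nat_lit 4) (nat_lit 100) (nat_lit 4) (nat_lit 443) (nat_lit 381) (nat_lit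 376)) (XT.lf (nat_lit 0) (nat_lit 355292866) (nat_lit 152) (nat_lit 2189688204) (nat_lit 228) (nat_lit 9948318746) (nat_lit 95) (nat_lit 5) (nat_lit 97) (nat_lit 5) (nat_lit 98) (nat_lit 4) (nat_lit 444) (nat_lit 381) (nat_lit 375)))) (XT.nd (nat_lit 78) (nat_lit 608) (nat_lit 0) (XT.lf (nat_lit 0) (nat_lit 5426678034) (nat_lit 152) (nat_lit 6357403832) (nat_lit 152) (nat_lit 1032509303) (nat_lit 93) (nat_lit 4) (nat_lit 95) (nat_lit 5) (nat_lit 95) (nat_lit 4) (nat_lit 445) (nat_lit 381) (nat_lit 374)) (XT.nd (nat_lit 78) (nat_lit 380) (nat_lit 0) (XT.lf (nat_lit 0) (nat_lit 8149240813) (nat_lit 228) (nat_lit 2630212940) (nat_lit 0) (nat_lit 2374722242) (nat_lit 90) (nat_lit 5) (nat_lit 93) (nat_lit 4) (nat_lit 90) (nat_lit 4) (nat_lit 446) (nat_lit 381) (nat_lit 373)) (XT.lf (nat_lit 0) (nat_lit 2189525132) (nat_lit 152) (nat_lit 2017354504) (nat_lit 228) (nat_lit 9299346824) (nat_lit 85) (nat_lit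 5) (nat_lit 87) (nat_lit 5) (nat_lit 88) (nat_lit 4) (nat_lit 447) (nat_lit 381) (nat_lit 372)))))) (XT.nd (nat_lit 468) (nat_lit 1216) (nat_lit 0) (XT.nd (nat_lit 234) (nat_lit 532) (nat_lit 0) (XT.nd (nat_lit 78) (nat_lit 456) (nat_lit 0) (XT.lf (nat_lit 0) (nat_lit 7071293401) (nat_lit 152) (nat_lit 6749872667) (nat_lit 152) (nat_lit 51874962) (nat_lit 83) (nat_lit 4) (nat_lit 85) (nat_lit 5) (nat_lit 85) (nat_lit 4) (nat_lit 448) (nat_lit 381) (nat_lit 371)) (XT.nd (nat_lit 78) (nat_lit 304) (nat_lit 0) (XT.lf (nat_lit 0) (nat_lit 9467859255) (nat_lit 152) (nat_lit 2315053263) (nat_lit 0) (nat_lit 2472557312) (nat_lit 81) (nat_lit 5) (nat_lit 83) (nat_lit 4) (nat_lit 81) (nat_lit 4) (nat_lit 449) (nat_lit 381) (nat_lit 370)) (XT.lf (nat_lit 0) (nat_lit 2201502376) (nat_lit 76) (nat_lit 2559950160) (nat_lit 152) (nat_lit 9892683122) (nat_lit 77) (nat_lit 5) (nat_lit 78) (nat_lit 5) (nat_lit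 79) (nat_lit 4) (nat_lit 450) (nat_lit 381) (nat_lit 369)))) (XT.nd (nat_lit 78) (nat_lit 380) (nat_lit 0) (XT.lf (nat_lit 0) (nat_lit 6742154653) (nat_lit 152) (nat_lit 8003949082) (nat_lit 152) (nat_lit 323502553) (nat_lit 75) (nat_lit 4) (nat_lit 77) (nat_lit 5) (nat_lit 77) (nat_lit 4) (nat_lit 451) (nat_lit 381) (nat_lit 368)) (XT.nd (nat_lit 78) (nat_lit 228) (nat_lit 0) (XT.lf (nat_lit 0) (nat_lit 9545898427) (nat_lit 152) (nat_lit 4268585315) (nat_lit 0) (nat_lit 1688224510) (nat_lit 73) (nat_lit 5) (nat_lit 75) (nat_lit 4) (nat_lit 73) (nat_lit 4) (nat_lit 452) (nat_lit 381) (nat_lit 367)) (XT.lf (nat_lit 0) (nat_lit 3924234583) (nat_lit 228) (nat_lit 273315535) (nat_lit 76) (nat_lit 11756993428) (nat_lit 70) (nat_lit 5) (nat_lit 73) (nat_lit 5) (nat_lit 71) (nat_lit 4) (nat_lit 453) (nat_lit 381) (nat_lit 366))))) (XT.nd (nat_lit 234) (nat_lit 608) (nat_lit 0) (XT.nd (nat_lit 78) (nat_lit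 380) (nat_lit 0) (XT.lf (nat_lit 0) (nat_lit 3725051782) (nat_lit 152) (nat_lit 10526245165) (nat_lit 152) (nat_lit 2173656030) (nat_lit 67) (nat_lit 4) (nat_lit 69) (nat_lit 5) (nat_lit 69) (nat_lit 4) (nat_lit 454) (nat_lit 381) (nat_lit 365)) (XT.nd (nat_lit 78) (nat_lit 228) (nat_lit 0) (XT.lf (nat_lit 0) (nat_lit 7642323561) (nat_lit 76) (nat_lit 402584487) (nat_lit 152) (nat_lit 8870764626) (nat_lit 65) (nat_lit 5) (nat_lit 66) (nat_lit 5) (nat_lit 67) (nat_lit 4) (nat_lit 455) (nat_lit 381) (nat_lit 364)) (XT.lf (nat_lit 0) (nat_lit 1362317623) (nat_lit 228) (nat_lit 5981173363) (nat_lit 76) (nat_lit 10083767521) (nat_lit 62) (nat_lit 5) (nat_lit 65) (nat_lit 5) (nat_lit 63) (nat_lit 4) (nat_lit 456) (nat_lit 381) (nat_lit 363)))) (XT.nd (nat_lit 156) (nat_lit 228) (nat_lit 0) (XT.nd (nat_lit 78) (nat_lit 304) (nat_lit 0) (XT.lf (nat_lit 0) (nat_lit 11954485875) (nat_lit 152) (nat_lit 2831297705)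 (nat_lit 0) (nat_lit 3175083737) (nat_lit 61) (nat_lit 5) (nat_lit 63) (nat_lit 4) (nat_lit 61) (nat_lit 4) (nat_lit 457) (nat_lit 381) (nat_lit 362)) (XT.lf (nat_lit 0) (nat_lit 167073235) (nat_lit 76) (nat_lit 4374930403) (nat_lit 152) (nat_lit 13975570759) (nat_lit 57) (nat_lit 5) (nat_lit 58) (nat_lit 5) (nat_lit 59) (nat_lit 4) (nat_lit 458) (nat_lit 381) (nat_lit 361))) (XT.nd (nat_lit 78) (nat_lit 152) (nat_lit 0) (XT.lf (nat_lit 0) (nat_lit 3037540068) (nat_lit 76) (nat_lit 12551304041) (nat_lit 76) (nat_lit 3508635642) (nat_lit 56) (nat_lit 4) (nat_lit 57) (nat_lit 5) (nat_lit 57) (nat_lit 4) (nat_lit 459) (nat_lit 381) (nat_lit 360)) (XT.lf (nat_lit 0) (nat_lit 5709337566) (nat_lit 76) (nat_lit 1676431035) (nat_lit 152) (nat_lit 12316955096) (nat_lit 54) (nat_lit 5) (nat_lit 55) (nat_lit 5) (nat_lit 56) (nat_lit 4) (nat_lit 460) (nat_lit 381) (nat_lit 359))))))) (XT.nd (nat_lit 1014)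 (nat_lit 1064) (nat_lit 0) (XT.nd (nat_lit 468) (nat_lit 760) (nat_lit 0) (XT.nd (nat_lit 234) (nat_lit 380) (nat_lit 0) (XT.nd (nat_lit 78) (nat_lit 228) (nat_lit 0) (XT.lf (nat_lit 0) (nat_lit 8144102624) (nat_lit 76) (nat_lit 10713124449) (nat_lit 76) (nat_lit 1476817811) (nat_lit 53) (nat_lit 4) (nat_lit 54) (nat_lit 5) (nat_lit 54) (nat_lit 4) (nat_lit 461) (nat_lit 381) (nat_lit 358)) (XT.nd (nat_lit 78) (nat_lit 76) (nat_lit 0) (XT.lf (nat_lit 0) (nat_lit 9749401997) (nat_lit 152) (nat_lit 10667577643) (nat_lit 0) (nat_lit 575978918) (nat_lit 51) (nat_lit 5) (nat_lit 53) (nat_lit 4) (nat_lit 51) (nat_lit 4) (nat_lit 462) (nat_lit 381) (nat_lit 357)) (XT.lf (nat_lit 0) (nat_lit 12217230221) (nat_lit 76) (nat_lit 9416536790) (nat_lit 76) (nat_lit 46794588) (nat_lit 50) (nat_lit 4) (nat_lit 51) (nat_lit 5) (nat_lit 51) (nat_lit 4) (nat_lit 463) (nat_lit 381) (nat_lit 356)))) (XT.nd (nat_lit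 78) (nat_lit 228) (nat_lit 0) (XT.lf (nat_lit 0) (nat_lit 11526136278) (nat_lit 152) (nat_lit 8623915762) (nat_lit 0) (nat_lit 2247774341) (nat_lit 48) (nat_lit 5) (nat_lit 50) (nat_lit 4) (nat_lit 48) (nat_lit 4) (nat_lit 464) (nat_lit 381) (nat_lit 355)) (XT.nd (nat_lit 78) (nat_lit 76) (nat_lit 0) (XT.lf (nat_lit 0) (nat_lit 638178728) (nat_lit 152) (nat_lit 8155739926) (nat_lit 76) (nat_lit 14353194331) (nat_lit 46) (nat_lit 5) (nat_lit 48) (nat_lit 5) (nat_lit 47) (nat_lit 4) (nat_lit 465) (nat_lit 381) (nat_lit 354)) (XT.lf (nat_lit 0) (nat_lit 12562272778) (nat_lit 152) (nat_lit 8140001510) (nat_lit 0) (nat_lit 3226456143) (nat_lit 45) (nat_lit 5) (nat_lit 47) (nat_lit 4) (nat_lit 45) (nat_lit 4) (nat_lit 466) (nat_lit 381) (nat_lit 353))))) (XT.nd (nat_lit 234) (nat_lit 456) (nat_lit 0) (XT.nd (nat_lit 78) (nat_lit 152) (nat_lit 0) (XT.lf (nat_lit 0) (nat_lit 449329445) (nat_lit 152) (nat_lit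 8575918626) (nat_lit 76) (nat_lit 15720406733) (nat_lit 43) (nat_lit 5) (nat_lit 45) (nat_lit 5) (nat_lit 44) (nat_lit 4) (nat_lit 467) (nat_lit 381) (nat_lit 352)) (XT.nd (nat_lit 78) (nat_lit 76) (nat_lit 0) (XT.lf (nat_lit 0) (nat_lit 12691351057) (nat_lit 152) (nat_lit 9567708474) (nat_lit 0) (nat_lit 3338876682) (nat_lit 42) (nat_lit 5) (nat_lit 44) (nat_lit 4) (nat_lit 42) (nat_lit 4) (nat_lit 468) (nat_lit 381) (nat_lit 351)) (XT.lf (nat_lit 0) (nat_lit 15372908126) (nat_lit 76) (nat_lit 10301301636) (nat_lit 76) (nat_lit 814762346) (nat_lit 41) (nat_lit 4) (nat_lit 42) (nat_lit 5) (nat_lit 42) (nat_lit 4) (nat_lit 469) (nat_lit 381) (nat_lit 350)))) (XT.nd (nat_lit 156) (nat_lit 228) (nat_lit 0) (XT.nd (nat_lit 78) (nat_lit 76) (nat_lit 0) (XT.lf (nat_lit 0) (nat_lit 11712908775) (nat_lit 152) (nat_lit 13327619147) (nat_lit 0) (nat_lit 2378714443) (nat_lit 39) (nat_lit 5) (nat_lit 41) (nat_lit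 4) (nat_lit 39) (nat_lit 4) (nat_lit 470) (nat_lit 381) (nat_lit 349)) (XT.lf (nat_lit 0) (nat_lit 12146646631) (nat_lit 76) (nat_lit 12848520726) (nat_lit 76) (nat_lit 3396267336) (nat_lit 38) (nat_lit 4) (nat_lit 39) (nat_lit 5) (nat_lit 39) (nat_lit 4) (nat_lit 471) (nat_lit 381) (nat_lit 348))) (XT.nd (nat_lit 78) (nat_lit 76) (nat_lit 0) (XT.lf (nat_lit 0) (nat_lit 9386449993) (nat_lit 152) (nat_lit 19921405041) (nat_lit 0) (nat_lit 100342626) (nat_lit 36) (nat_lit 5) (nat_lit 38) (nat_lit 4) (nat_lit 36) (nat_lit 4) (nat_lit 472) (nat_lit 381) (nat_lit 347)) (XT.lf (nat_lit 0) (nat_lit 5961787636) (nat_lit 76) (nat_lit 16948947802) (nat_lit 76) (nat_lit 7558876313) (nat_lit 35) (nat_lit 4) (nat_lit 36) (nat_lit 5) (nat_lit 36) (nat_lit 4) (nat_lit 473) (nat_lit 381) (nat_lit 346)))))) (XT.nd (nat_lit 468) (nat_lit 456) (nat_lit 0) (XT.nd (nat_lit 234) (nat_lit 380) (nat_lit 0) (XT.nd (nat_lit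 78) (nat_lit 76) (nat_lit 0) (XT.lf (nat_lit 0) (nat_lit 1597746620) (nat_lit 76) (nat_lit 3863746759) (nat_lit 152) (nat_lit 26119744776) (nat_lit 33) (nat_lit 5) (nat_lit 34) (nat_lit 5) (nat_lit 35) (nat_lit 4) (nat_lit 474) (nat_lit 381) (nat_lit 345)) (XT.nd (nat_lit 78) (nat_lit 76) (nat_lit 0) (XT.lf (nat_lit 0) (nat_lit 19151090247) (nat_lit 152) (nat_lit 3743041533) (nat_lit 0) (nat_lit 9846834457) (nat_lit 33) (nat_lit 5) (nat_lit 35) (nat_lit 4) (nat_lit 33) (nat_lit 4) (nat_lit 475) (nat_lit 381) (nat_lit 344)) (XT.lf (nat_lit 0) (nat_lit 23904341887) (nat_lit 76) (nat_lit 9721385886) (nat_lit 76) (nat_lit 329937748) (nat_lit 32) (nat_lit 4) (nat_lit 33) (nat_lit 5) (nat_lit 33) (nat_lit 4) (nat_lit 476) (nat_lit 381) (nat_lit 343)))) (XT.nd (nat_lit 78) (nat_lit 228) (nat_lit 0) (XT.lf (nat_lit 0) (nat_lit 13412899199) (nat_lit 152) (nat_lit 17597360937) (nat_lit 0) (nat_lit 4214366705)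 (nat_lit 30) (nat_lit 5) (nat_lit 32) (nat_lit 4) (nat_lit 30) (nat_lit 4) (nat_lit 477) (nat_lit 381) (nat_lit 342)) (XT.nd (nat_lit 78) (nat_lit 152) (nat_lit 0) (XT.lf (nat_lit 0) (nat_lit 10120664638) (nat_lit 76) (nat_lit 17853720077) (nat_lit 76) (nat_lit 8578405031) (nat_lit 29) (nat_lit 4) (nat_lit 30) (nat_lit 5) (nat_lit 30) (nat_lit 4) (nat_lit 478) (nat_lit 381) (nat_lit 341)) (XT.lf (nat_lit 0) (nat_lit 1308815585) (nat_lit 76) (nat_lit 3941064647) (nat_lit 152) (nat_lit 32694837430) (nat_lit 27) (nat_lit 5) (nat_lit 28) (nat_lit 5) (nat_lit 29) (nat_lit 4) (nat_lit 479) (nat_lit 381) (nat_lit 340))))) (XT.nd (nat_lit 234) (nat_lit 228) (nat_lit 0) (XT.nd (nat_lit 78) (nat_lit 228) (nat_lit 0) (XT.lf (nat_lit 0) (nat_lit 19815819918) (nat_lit 152) (nat_lit 8909117875) (nat_lit 0) (nat_lit 10672047757) (nat_lit 27) (nat_lit 5) (nat_lit 29) (nat_lit 4) (nat_lit 27) (nat_lit 4) (nat_lit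 480) (nat_lit 381) (nat_lit 339)) (XT.nd (nat_lit 78) (nat_lit 152) (nat_lit 0) (XT.lf (nat_lit 0) (nat_lit 20265996734) (nat_lit 76) (nat_lit 14930719722) (nat_lit 76) (nat_lit 5722551779) (nat_lit 26) (nat_lit 4) (nat_lit 27) (nat_lit 5) (nat_lit 27) (nat_lit 4) (nat_lit 481) (nat_lit 381) (nat_lit 338)) (XT.lf (nat_lit 0) (nat_lit 8360327640) (nat_lit 76) (nat_lit 324315167) (nat_lit 152) (nat_lit 33829639201) (nat_lit 24) (nat_lit 5) (nat_lit 25) (nat_lit 5) (nat_lit 26) (nat_lit 4) (nat_lit 482) (nat_lit 381) (nat_lit 337)))) (XT.nd (nat_lit 156) (nat_lit 152) (nat_lit 0) (XT.nd (nat_lit 78) (nat_lit 76) (nat_lit 0) (XT.lf (nat_lit 0) (nat_lit 23911797864) (nat_lit 152) (nat_lit 5413433021) (nat_lit 0) (nat_lit 14855578317) (nat_lit 24) (nat_lit 5) (nat_lit 26) (nat_lit 4) (nat_lit 24) (nat_lit 4) (nat_lit 483) (nat_lit 381) (nat_lit 336)) (XT.lf (nat_lit 0) (nat_lit 24978944903) (nat_lit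 76) (nat_lit 15029353032) (nat_lit 76) (nat_lit 5919126206) (nat_lit 23) (nat_lit 4) (nat_lit 24) (nat_lit 5) (nat_lit 24) (nat_lit 4) (nat_lit 484) (nat_lit 381) (nat_lit 335))) (XT.nd (nat_lit 78) (nat_lit 0) (nat_lit 0) (XT.lf (nat_lit 0) (nat_lit 8981267718) (nat_lit 152) (nat_lit 38690669063) (nat_lit 0) (nat_lit 86449921) (nat_lit 21) (nat_lit 5) (nat_lit 23) (nat_lit 4) (nat_lit 21) (nat_lit 4) (nat_lit 485) (nat_lit 381) (nat_lit 334)) (XT.lf (nat_lit 0) (nat_lit 24744736978) (nat_lit 152) (nat_lit 9124829208) (nat_lit 0) (nat_lit 15802359768) (nat_lit 21) (nat_lit 5) (nat_lit 23) (nat_lit 4) (nat_lit 21) (nat_lit 4) (nat_lit 486) (nat_lit 381) (nat_lit 333))))))))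
noncomputable def xc19 : XT := (XT.nd (nat_lit 59514) (nat_lit 0) (nat_lit 1824) (XT.nd (nat_lit 58500) (nat_lit 0) (nat_lit 5472) (XT.nd (nat_lit 468) (nat_lit 304) (nat_lit 0) (XT.nd (nat_lit 234) (nat_lit 228) (nat_lit 0) (XT.nd (nat_lit 78) (nat_lit 152) (nat_lit 0) (XT.lf (nat_lit 0) (nat_lit 22103658945) (nat_lit 76) (nat_lit 19281250038) (nat_lit 76) (nat_lit 10293578150) (nat_lit 20) (nat_lit 4) (nat_lit 21) (nat_lit 5) (nat_lit 21) (nat_lit 4) (nat_lit 487) (nat_lit 381) (nat_lit 332)) (XT.nd (nat_lit 78) (nat_lit 0) (nat_lit 0) (XT.lf (nat_lit 0) (nat_lit 1029801750) (nat_lit 76) (nat_lit 3926164470) (nat_lit 152) (nat_lit 48828451746) (nat_lit 18) (nat_lit 5) (nat_lit 19) (nat_lit 5) (nat_lit 20) (nat_lit 4) (nat_lit 488) (nat_lit 381) (nat_lit 331)) (XT.lf (nat_lit 0) (nat_lit 21062639234) (nat_lit 152) (nat_lit 22665747348) (nat_lit 0) (nat_lit 12254975850) (nat_lit 18) (nat_lit 5)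 (nat_lit 20) (nat_lit 4) (nat_lit 18) (nat_lit 4) (nat_lit 489) (nat_lit 381) (nat_lit 330)))) (XT.nd (nat_lit 78) (nat_lit 152) (nat_lit 0) (XT.lf (nat_lit 0) (nat_lit 8833866637) (nat_lit 76) (nat_lit 29151853484) (nat_lit 76) (nat_lit 20306202482) (nat_lit 17) (nat_lit 4) (nat_lit 18) (nat_lit 5) (nat_lit 18) (nat_lit 4) (nat_lit 490) (nat_lit 381) (nat_lit 329)) (XT.nd (nat_lit 78) (nat_lit 152) (nat_lit 0) (XT.lf (nat_lit 0) (nat_lit 42162148800) (nat_lit 76) (nat_lit 13715949029) (nat_lit 76) (nat_lit 4834119343) (nat_lit 17) (nat_lit 4) (nat_lit 18) (nat_lit 5) (nat_lit 18) (nat_lit 4) (nat_lit 491) (nat_lit 381) (nat_lit 328)) (XT.lf (nat_lit 0) (nat_lit 11241411751) (nat_lit 152) (nat_lit 49422424940) (nat_lit 0) (nat_lit 2584823814) (nat_lit 15) (nat_lit 5) (nat_lit 17) (nat_lit 4) (nat_lit 15) (nat_lit 4) (nat_lit 492) (nat_lit 381) (nat_lit 327))))) (XT.nd (nat_lit 234) (nat_lit 228)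 (nat_lit 0) (XT.nd (nat_lit 78) (nat_lit 76) (nat_lit 0) (XT.lf (nat_lit 0) (nat_lit 28249067638) (nat_lit 152) (nat_lit 18093952977) (nat_lit 0) (nat_lit 19560620349) (nat_lit 15) (nat_lit 5) (nat_lit 17) (nat_lit 4) (nat_lit 15) (nat_lit 4) (nat_lit 493) (nat_lit 381) (nat_lit 326)) (XT.nd (nat_lit 78) (nat_lit 0) (nat_lit 0) (XT.lf (nat_lit 0) (nat_lit 14893830827) (nat_lit 76) (nat_lit 31257501467) (nat_lit 76) (nat_lit 22538711938) (nat_lit 14) (nat_lit 4) (nat_lit 15) (nat_lit 5) (nat_lit 15) (nat_lit 4) (nat_lit 494) (nat_lit 381) (nat_lit 325)) (XT.lf (nat_lit 0) (nat_lit 49717038473) (nat_lit 76) (nat_lit 15321855556) (nat_lit 76) (nat_lit 6574168656) (nat_lit 14) (nat_lit 4) (nat_lit 15) (nat_lit 5) (nat_lit 15) (nat_lit 4) (nat_lit 495) (nat_lit 381) (nat_lit 324)))) (XT.nd (nat_lit 78) (nat_lit 76) (nat_lit 0) (XT.lf (nat_lit 0) (nat_lit 10023062068) (nat_lit 152) (nat_lit 63151791571)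 (nat_lit 0) (nat_lit 1503442450) (nat_lit 12) (nat_lit 5) (nat_lit 14) (nat_lit 4) (nat_lit 12) (nat_lit 4) (nat_lit 496) (nat_lit 381) (nat_lit 323)) (XT.nd (nat_lit 78) (nat_lit 76) (nat_lit 0) (XT.lf (nat_lit 0) (nat_lit 27607137278) (nat_lit 152) (nat_lit 31216842917) (nat_lit 0) (nat_lit 19062070313) (nat_lit 12) (nat_lit 5) (nat_lit 14) (nat_lit 4) (nat_lit 12) (nat_lit 4) (nat_lit 497) (nat_lit 381) (nat_lit 322)) (XT.lf (nat_lit 0) (nat_lit 2184817894) (nat_lit 76) (nat_lit 43820318074) (nat_lit 76) (nat_lit 35251015540) (nat_lit 11) (nat_lit 4) (nat_lit 12) (nat_lit 5) (nat_lit 12) (nat_lit 4) (nat_lit 498) (nat_lit 381) (nat_lit 321)))))) (XT.nd (nat_lit 468) (nat_lit 1824) (nat_lit 0) (XT.nd (nat_lit 234) (nat_lit 988) (nat_lit 0) (XT.nd (nat_lit 78) (nat_lit 760) (nat_lit 0) (XT.lf (nat_lit 0) (nat_lit 1123904792) (nat_lit 304) (nat_lit 2922596521) (nat_lit 0) (nat_lit 1123904792) (nat_lit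 130) (nat_lit 5) (nat_lit 134) (nat_lit 4) (nat_lit 130) (nat_lit 4) (nat_lit 436) (nat_lit 382) (nat_lit 382)) (XT.nd (nat_lit 78) (nat_lit 456) (nat_lit 0) (XT.lf (nat_lit 0) (nat_lit 34863957) (nat_lit 304) (nat_lit 1028049575) (nat_lit 76) (nat_lit 9512183440) (nat_lit 126) (nat_lit 5) (nat_lit 130) (nat_lit 5) (nat_lit 127) (nat_lit 4) (nat_lit 437) (nat_lit 382) (nat_lit 381)) (XT.lf (nat_lit 0) (nat_lit 3905790479) (nat_lit 228) (nat_lit 4497850277) (nat_lit 228) (nat_lit 2415013487) (nat_lit 120) (nat_lit 4) (nat_lit 123) (nat_lit 5) (nat_lit 123) (nat_lit 4) (nat_lit 438) (nat_lit 382) (nat_lit 380)))) (XT.nd (nat_lit 78) (nat_lit 760) (nat_lit 0) (XT.lf (nat_lit 0) (nat_lit 5953989905) (nat_lit 228) (nat_lit 2127581089) (nat_lit 0) (nat_lit 2992365702) (nat_lit 117) (nat_lit 5) (nat_lit 120) (nat_lit 4) (nat_lit 117) (nat_lit 4) (nat_lit 439) (nat_lit 382) (nat_lit 379)) (XT.nd (nat_lit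 78) (nat_lit 304) (nat_lit 0) (XT.lf (nat_lit 0) (nat_lit 2783727950) (nat_lit 152) (nat_lit 487241940) (nat_lit 228) (nat_lit 8069762680) (nat_lit 111) (nat_lit 5) (nat_lit 113) (nat_lit 5) (nat_lit 114) (nat_lit 4) (nat_lit 440) (nat_lit 382) (nat_lit 378)) (XT.lf (nat_lit 0) (nat_lit 363212509) (nat_lit 304) (nat_lit 3833991321) (nat_lit 76) (nat_lit 7421636869) (nat_lit 107) (nat_lit 5) (nat_lit 111) (nat_lit 5) (nat_lit 108) (nat_lit 4) (nat_lit 441) (nat_lit 382) (nat_lit 377))))) (XT.nd (nat_lit 234) (nat_lit 1064) (nat_lit 0) (XT.nd (nat_lit 78) (nat_lit 456) (nat_lit 0) (XT.lf (nat_lit 0) (nat_lit 945815823) (nat_lit 152) (nat_lit 8083214873) (nat_lit 152) (nat_lit 2880098140) (nat_lit 103) (nat_lit 4) (nat_lit 105) (nat_lit 5) (nat_lit 105) (nat_lit 4) (nat_lit 442) (nat_lit 382) (nat_lit 376)) (XT.nd (nat_lit 78) (nat_lit 228) (nat_lit 0) (XT.lf (nat_lit 0) (nat_lit 5811425347) (nat_lit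 228) (nat_lit 6347883025) (nat_lit 0) (nat_lit 52551913) (nat_lit 100) (nat_lit 5) (nat_lit 103) (nat_lit 4) (nat_lit 100) (nat_lit 4) (nat_lit 443) (nat_lit 382) (nat_lit 375)) (XT.lf (nat_lit 0) (nat_lit 2322217048) (nat_lit 228) (nat_lit 1718395481) (nat_lit 76) (nat_lit 8487025987) (nat_lit 97) (nat_lit 5) (nat_lit 100) (nat_lit 5) (nat_lit 98) (nat_lit 4) (nat_lit 444) (nat_lit 382) (nat_lit 374)))) (XT.nd (nat_lit 156) (nat_lit 532) (nat_lit 0) (XT.nd (nat_lit 78) (nat_lit 228) (nat_lit 0) (XT.lf (nat_lit 0) (nat_lit 3006134277) (nat_lit 152) (nat_lit 8359339010) (nat_lit 152) (nat_lit 1491337575) (nat_lit 93) (nat_lit 4) (nat_lit 95) (nat_lit 5) (nat_lit 95) (nat_lit 4) (nat_lit 445) (nat_lit 382) (nat_lit 373)) (XT.lf (nat_lit 0) (nat_lit 7517432896) (nat_lit 228) (nat_lit 5409009950) (nat_lit 0) (nat_lit 273548379) (nat_lit 90) (nat_lit 5) (nat_lit 93) (nat_lit 4) (nat_lit 90) (nat_lit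 4) (nat_lit 446) (nat_lit 382) (nat_lit 372))) (XT.nd (nat_lit 78) (nat_lit 304) (nat_lit 0) (XT.lf (nat_lit 0) (nat_lit 3358495610) (nat_lit 228) (nat_lit 974635532) (nat_lit 76) (nat_lit 9224630309) (nat_lit 87) (nat_lit 5) (nat_lit 90) (nat_lit 5) (nat_lit 88) (nat_lit 4) (nat_lit 447) (nat_lit 382) (nat_lit 371)) (XT.lf (nat_lit 0) (nat_lit 3546196019) (nat_lit 152) (nat_lit 9228455436) (nat_lit 152) (nat_lit 1155873090) (nat_lit 83) (nat_lit 4) (nat_lit 85) (nat_lit 5) (nat_lit 85) (nat_lit 4) (nat_lit 448) (nat_lit 382) (nat_lit 370))))))) (XT.nd (nat_lit 1014) (nat_lit 1444) (nat_lit 0) (XT.nd (nat_lit 468) (nat_lit 1140) (nat_lit 0) (XT.nd (nat_lit 234) (nat_lit 456) (nat_lit 0) (XT.nd (nat_lit 78) (nat_lit 456) (nat_lit 0) (XT.lf (nat_lit 0) (nat_lit 8078677063) (nat_lit 76) (nat_lit 115545632) (nat_lit 152) (nat_lit 6124788720) (nat_lit 81) (nat_lit 5) (nat_lit 82) (nat_lit 5) (nat_lit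 83) (nat_lit 4) (nat_lit 449) (nat_lit 382) (nat_lit 369)) (XT.nd (nat_lit 78) (nat_lit 228) (nat_lit 0) (XT.lf (nat_lit 0) (nat_lit 3258985471) (nat_lit 228) (nat_lit 2137276063) (nat_lit 76) (nat_lit 9327546723) (nat_lit 78) (nat_lit 5) (nat_lit 81) (nat_lit 5) (nat_lit 79) (nat_lit 4) (nat_lit 450) (nat_lit 382) (nat_lit 368)) (XT.lf (nat_lit 0) (nat_lit 1987352842) (nat_lit 152) (nat_lit 11034803082) (nat_lit 152) (nat_lit 2123771135) (nat_lit 75) (nat_lit 4) (nat_lit 77) (nat_lit 5) (nat_lit 77) (nat_lit 4) (nat_lit 451) (nat_lit 382) (nat_lit 367)))) (XT.nd (nat_lit 78) (nat_lit 304) (nat_lit 0) (XT.lf (nat_lit 0) (nat_lit 6103359106) (nat_lit 76) (nat_lit 1486633017) (nat_lit 152) (nat_lit 7995282550) (nat_lit 73) (nat_lit 5) (nat_lit 74) (nat_lit 5) (nat_lit 75) (nat_lit 4) (nat_lit 452) (nat_lit 382) (nat_lit 366)) (XT.nd (nat_lit 78) (nat_lit 76) (nat_lit 0) (XT.lf (nat_lit 0) (nat_lit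 1734158270) (nat_lit 228) (nat_lit 5876638930) (nat_lit 76) (nat_lit 8432645270) (nat_lit 70) (nat_lit 5) (nat_lit 73) (nat_lit 5) (nat_lit 71) (nat_lit 4) (nat_lit 453) (nat_lit 382) (nat_lit 365)) (XT.lf (nat_lit 0) (nat_lit 11814378409) (nat_lit 152) (nat_lit 2352035812) (nat_lit 0) (nat_lit 2354846001) (nat_lit 69) (nat_lit 5) (nat_lit 71) (nat_lit 4) (nat_lit 69) (nat_lit 4) (nat_lit 454) (nat_lit 382) (nat_lit 364))))) (XT.nd (nat_lit 234) (nat_lit 532) (nat_lit 0) (XT.nd (nat_lit 78) (nat_lit 304) (nat_lit 0) (XT.lf (nat_lit 0) (nat_lit 1090047082) (nat_lit 76) (nat_lit 4264543162) (nat_lit 152) (nat_lit 11664318757) (nat_lit 65) (nat_lit 5) (nat_lit 66) (nat_lit 5) (nat_lit 67) (nat_lit 4) (nat_lit 455) (nat_lit 382) (nat_lit 363)) (XT.nd (nat_lit 78) (nat_lit 152) (nat_lit 0) (XT.lf (nat_lit 0) (nat_lit 4481218567) (nat_lit 152) (nat_lit 11423682616) (nat_lit 152) (nat_lit 1632653141)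 (nat_lit 63) (nat_lit 4) (nat_lit 65) (nat_lit 5) (nat_lit 65) (nat_lit 4) (nat_lit 456) (nat_lit 382) (nat_lit 362)) (XT.lf (nat_lit 0) (nat_lit 7737358766) (nat_lit 76) (nat_lit 1036234344) (nat_lit 152) (nat_lit 9304576760) (nat_lit 61) (nat_lit 5) (nat_lit 62) (nat_lit 5) (nat_lit 63) (nat_lit 4) (nat_lit 457) (nat_lit 382) (nat_lit 361)))) (XT.nd (nat_lit 156) (nat_lit 228) (nat_lit 0) (XT.nd (nat_lit 78) (nat_lit 76) (nat_lit 0) (XT.lf (nat_lit 0) (nat_lit 1106163296) (nat_lit 228) (nat_lit 7794888679) (nat_lit 76) (nat_lit 9740838543) (nat_lit 58) (nat_lit 5) (nat_lit 61) (nat_lit 5) (nat_lit 59) (nat_lit 4) (nat_lit 458) (nat_lit 382) (nat_lit 360)) (XT.lf (nat_lit 0) (nat_lit 11889487422) (nat_lit 152) (nat_lit 5439794337) (nat_lit 0) (nat_lit 1900421792) (nat_lit 57) (nat_lit 5) (nat_lit 59) (nat_lit 4) (nat_lit 57) (nat_lit 4) (nat_lit 459) (nat_lit 382) (nat_lit 359))) (XT.nd (nat_lit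 78) (nat_lit 76) (nat_lit 0) (XT.lf (nat_lit 0) (nat_lit 3408858411) (nat_lit 152) (nat_lit 3298706195) (nat_lit 76) (nat_lit 13135092791) (nat_lit 55) (nat_lit 5) (nat_lit 57) (nat_lit 5) (nat_lit 56) (nat_lit 4) (nat_lit 460) (nat_lit 382) (nat_lit 358)) (XT.lf (nat_lit 0) (nat_lit 14611985800) (nat_lit 152) (nat_lit 1391435036) (nat_lit 0) (nat_lit 4478609609) (nat_lit 54) (nat_lit 5) (nat_lit 56) (nat_lit 4) (nat_lit 54) (nat_lit 4) (nat_lit 461) (nat_lit 382) (nat_lit 357)))))) (XT.nd (nat_lit 468) (nat_lit 684) (nat_lit 0) (XT.nd (nat_lit 234) (nat_lit 304) (nat_lit 0) (XT.nd (nat_lit 78) (nat_lit 228) (nat_lit 0) (XT.lf (nat_lit 0) (nat_lit 258595554) (nat_lit 76) (nat_lit 4960212545) (nat_lit 152) (nat_lit 15930097557) (nat_lit 51) (nat_lit 5) (nat_lit 52) (nat_lit 5) (nat_lit 53) (nat_lit 4) (nat_lit 462) (nat_lit 382) (nat_lit 356)) (XT.nd (nat_lit 78) (nat_lit 152) (nat_lit 0) (XT.lf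 (nat_lit 0) (nat_lit 1632593652) (nat_lit 76) (nat_lit 15216528648) (nat_lit 76) (nat_lit 4995009619) (nat_lit 50) (nat_lit 4) (nat_lit 51) (nat_lit 5) (nat_lit 51) (nat_lit 4) (nat_lit 463) (nat_lit 382) (nat_lit 355)) (XT.lf (nat_lit 0) (nat_lit 2679775020) (nat_lit 76) (nat_lit 3763260093) (nat_lit 152) (nat_lit 16126733425) (nat_lit 48) (nat_lit 5) (nat_lit 49) (nat_lit 5) (nat_lit 50) (nat_lit 4) (nat_lit 464) (nat_lit 382) (nat_lit 354)))) (XT.nd (nat_lit 78) (nat_lit 228) (nat_lit 0) (XT.lf (nat_lit 0) (nat_lit 3344889718) (nat_lit 76) (nat_lit 15121573588) (nat_lit 76) (nat_lit 4860239509) (nat_lit 47) (nat_lit 4) (nat_lit 48) (nat_lit 5) (nat_lit 48) (nat_lit 4) (nat_lit 465) (nat_lit 382) (nat_lit 353)) (XT.nd (nat_lit 78) (nat_lit 76) (nat_lit 0) (XT.lf (nat_lit 0) (nat_lit 3611716312) (nat_lit 76) (nat_lit 3299543973) (nat_lit 152) (nat_lit 17205885997) (nat_lit 45) (nat_lit 5) (nat_lit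 46) (nat_lit 5) (nat_lit 47) (nat_lit 4) (nat_lit 466) (nat_lit 382) (nat_lit 352)) (XT.lf (nat_lit 0) (nat_lit 3402869300) (nat_lit 76) (nat_lit 15899277037) (nat_lit 76) (nat_lit 5639584794) (nat_lit 44) (nat_lit 4) (nat_lit 45) (nat_lit 5) (nat_lit 45) (nat_lit 4) (nat_lit 467) (nat_lit 382) (nat_lit 351))))) (XT.nd (nat_lit 234) (nat_lit 380) (nat_lit 0) (XT.nd (nat_lit 78) (nat_lit 152) (nat_lit 0) (XT.lf (nat_lit 0) (nat_lit 2709665250) (nat_lit 76) (nat_lit 3747203889) (nat_lit 152) (nat_lit 19346439442) (nat_lit 42) (nat_lit 5) (nat_lit 43) (nat_lit 5) (nat_lit 44) (nat_lit 4) (nat_lit 468) (nat_lit 382) (nat_lit 350)) (XT.nd (nat_lit 78) (nat_lit 76) (nat_lit 0) (XT.lf (nat_lit 0) (nat_lit 1429341530) (nat_lit 76) (nat_lit 17747747654) (nat_lit 76) (nat_lit 7525135612) (nat_lit 41) (nat_lit 4) (nat_lit 42) (nat_lit 5) (nat_lit 42) (nat_lit 4) (nat_lit 469) (nat_lit 382) (nat_lit 349))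 (XT.lf (nat_lit 0) (nat_lit 4883708589) (nat_lit 152) (nat_lit 430284434) (nat_lit 76) (nat_lit 22327931343) (nat_lit 40) (nat_lit 5) (nat_lit 42) (nat_lit 5) (nat_lit 41) (nat_lit 4) (nat_lit 470) (nat_lit 382) (nat_lit 348)))) (XT.nd (nat_lit 156) (nat_lit 152) (nat_lit 0) (XT.nd (nat_lit 78) (nat_lit 152) (nat_lit 0) (XT.lf (nat_lit 0) (nat_lit 17904944824) (nat_lit 152) (nat_lit 2967421054) (nat_lit 0) (nat_lit 7749582507) (nat_lit 39) (nat_lit 5) (nat_lit 41) (nat_lit 4) (nat_lit 39) (nat_lit 4) (nat_lit 471) (nat_lit 382) (nat_lit 347)) (XT.lf (nat_lit 0) (nat_lit 1999826950) (nat_lit 152) (nat_lit 6202796653) (nat_lit 76) (nat_lit 21444462057) (nat_lit 37) (nat_lit 5) (nat_lit 39) (nat_lit 5) (nat_lit 38) (nat_lit 4) (nat_lit 472) (nat_lit 382) (nat_lit 346))) (XT.nd (nat_lit 78) (nat_lit 76) (nat_lit 0) (XT.lf (nat_lit 0) (nat_lit 15241127544) (nat_lit 152) (nat_lit 10297287745) (nat_lit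 0) (nat_lit 5178574907) (nat_lit 36) (nat_lit 5) (nat_lit 38) (nat_lit 4) (nat_lit 36) (nat_lit 4) (nat_lit 473) (nat_lit 382) (nat_lit 345)) (XT.lf (nat_lit 0) (nat_lit 16575639021) (nat_lit 76) (nat_lit 12708704176) (nat_lit 76) (nat_lit 2551853016) (nat_lit 35) (nat_lit 4) (nat_lit 36) (nat_lit 5) (nat_lit 36) (nat_lit 4) (nat_lit 474) (nat_lit 382) (nat_lit 344))))))))
noncomputable def xc20 : XT := (XT.nd (nat_lit 59358) (nat_lit 0) (nat_lit 3344) (XT.nd (nat_lit 936) (nat_lit 684) (nat_lit 0) (XT.nd (nat_lit 468) (nat_lit 456) (nat_lit 0) (XT.nd (nat_lit 234) (nat_lit 304) (nat_lit 0) (XT.nd (nat_lit 78) (nat_lit 152) (nat_lit 0) (XT.lf (nat_lit 0) (nat_lit 10869363355) (nat_lit 152) (nat_lit 21215692459) (nat_lit 0) (nat_lit 921150463) (nat_lit 33) (nat_lit 5) (nat_lit 35) (nat_lit 4) (nat_lit 33) (nat_lit 4) (nat_lit 475) (nat_lit 382) (nat_lit 343)) (XT.nd (nat_lit 78) (nat_lit 76) (nat_lit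 0) (XT.lf (nat_lit 0) (nat_lit 5926380875) (nat_lit 76) (nat_lit 19166653824) (nat_lit 76) (nat_lit 9135400601) (nat_lit 32) (nat_lit 4) (nat_lit 33) (nat_lit 5) (nat_lit 33) (nat_lit 4) (nat_lit 476) (nat_lit 382) (nat_lit 342)) (XT.lf (nat_lit 0) (nat_lit 4491468184) (nat_lit 152) (nat_lit 992658836) (nat_lit 76) (nat_lit 30024443436) (nat_lit 31) (nat_lit 5) (nat_lit 33) (nat_lit 5) (nat_lit 32) (nat_lit 4) (nat_lit 477) (nat_lit 382) (nat_lit 341)))) (XT.nd (nat_lit 78) (nat_lit 228) (nat_lit 0) (XT.lf (nat_lit 0) (nat_lit 18818031593) (nat_lit 152) (nat_lit 9096708093) (nat_lit 0) (nat_lit 8929042001) (nat_lit 30) (nat_lit 5) (nat_lit 32) (nat_lit 4) (nat_lit 30) (nat_lit 4) (nat_lit 478) (nat_lit 382) (nat_lit 340)) (XT.nd (nat_lit 78) (nat_lit 152) (nat_lit 0) (XT.lf (nat_lit 0) (nat_lit 19738328012) (nat_lit 76) (nat_lit 14231398153) (nat_lit 76) (nat_lit 4272764522) (nat_lit 29) (nat_lit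 4) (nat_lit 30) (nat_lit 5) (nat_lit 30) (nat_lit 4) (nat_lit 479) (nat_lit 382) (nat_lit 339)) (XT.lf (nat_lit 0) (nat_lit 10022265964) (nat_lit 152) (nat_lit 29395060115) (nat_lit 0) (nat_lit 289293841) (nat_lit 27) (nat_lit 5) (nat_lit 29) (nat_lit 4) (nat_lit 27) (nat_lit 4) (nat_lit 480) (nat_lit 382) (nat_lit 338))))) (XT.nd (nat_lit 234) (nat_lit 228) (nat_lit 0) (XT.nd (nat_lit 78) (nat_lit 228) (nat_lit 0) (XT.lf (nat_lit 0) (nat_lit 25139629810) (nat_lit 152) (nat_lit 751850964) (nat_lit 0) (nat_lit 15345328370) (nat_lit 27) (nat_lit 5) (nat_lit 29) (nat_lit 4) (nat_lit 27) (nat_lit 4) (nat_lit 481) (nat_lit 382) (nat_lit 337)) (XT.nd (nat_lit 78) (nat_lit 152) (nat_lit 0) (XT.lf (nat_lit 0) (nat_lit 29635424054) (nat_lit 76) (nat_lit 11528137097) (nat_lit 76) (nat_lit 1675426784) (nat_lit 26) (nat_lit 4) (nat_lit 27) (nat_lit 5) (nat_lit 27) (nat_lit 4) (nat_lit 482) (nat_lit 382) (nat_lit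 336)) (XT.lf (nat_lit 0) (nat_lit 13279947230) (nat_lit 152) (nat_lit 27574984002) (nat_lit 0) (nat_lit 3660201782) (nat_lit 24) (nat_lit 5) (nat_lit 26) (nat_lit 4) (nat_lit 24) (nat_lit 4) (nat_lit 483) (nat_lit 382) (nat_lit 335)))) (XT.nd (nat_lit 78) (nat_lit 152) (nat_lit 0) (XT.lf (nat_lit 0) (nat_lit 2248723345) (nat_lit 76) (nat_lit 26846324014) (nat_lit 76) (nat_lit 17175143062) (nat_lit 23) (nat_lit 4) (nat_lit 24) (nat_lit 5) (nat_lit 24) (nat_lit 4) (nat_lit 484) (nat_lit 382) (nat_lit 334)) (XT.nd (nat_lit 78) (nat_lit 152) (nat_lit 0) (XT.lf (nat_lit 0) (nat_lit 33890704383) (nat_lit 76) (nat_lit 11968852372) (nat_lit 76) (nat_lit 2248685225) (nat_lit 23) (nat_lit 4) (nat_lit 24) (nat_lit 5) (nat_lit 24) (nat_lit 4) (nat_lit 485) (nat_lit 382) (nat_lit 333)) (XT.lf (nat_lit 0) (nat_lit 13242383567) (nat_lit 152) (nat_lit 33029501556) (nat_lit 0) (nat_lit 3760033405) (nat_lit 21)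 (nat_lit 5) (nat_lit 23) (nat_lit 4) (nat_lit 21) (nat_lit 4) (nat_lit 486) (nat_lit 382) (nat_lit 332)))))) (XT.nd (nat_lit 468) (nat_lit 380) (nat_lit 0) (XT.nd (nat_lit 234) (nat_lit 76) (nat_lit 0) (XT.nd (nat_lit 78) (nat_lit 228) (nat_lit 0) (XT.lf (nat_lit 0) (nat_lit 29612499981) (nat_lit 152) (nat_lit 2347069754) (nat_lit 0) (nat_lit 20087012031) (nat_lit 21) (nat_lit 5) (nat_lit 23) (nat_lit 4) (nat_lit 21) (nat_lit 4) (nat_lit 487) (nat_lit 382) (nat_lit 331)) (XT.nd (nat_lit 78) (nat_lit 152) (nat_lit 0) (XT.lf (nat_lit 0) (nat_lit 30235481622) (nat_lit 76) (nat_lit 16743861126) (nat_lit 76) (nat_lit 7177289567) (nat_lit 20) (nat_lit 4) (nat_lit 21) (nat_lit 5) (nat_lit 21) (nat_lit 4) (nat_lit 488) (nat_lit 382) (nat_lit 330)) (XT.lf (nat_lit 0) (nat_lit 7975358795) (nat_lit 76) (nat_lit 685260712) (nat_lit 152) (nat_lit 47709291956) (nat_lit 18) (nat_lit 5) (nat_lit 19) (nat_lit 5)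 (nat_lit 20) (nat_lit 4) (nat_lit 489) (nat_lit 382) (nat_lit 329)))) (XT.nd (nat_lit 78) (nat_lit 76) (nat_lit 0) (XT.lf (nat_lit 0) (nat_lit 25439481254) (nat_lit 152) (nat_lit 17165935882) (nat_lit 0) (nat_lit 16077381400) (nat_lit 18) (nat_lit 5) (nat_lit 20) (nat_lit 4) (nat_lit 18) (nat_lit 4) (nat_lit 490) (nat_lit 382) (nat_lit 328)) (XT.nd (nat_lit 78) (nat_lit 0) (nat_lit 0) (XT.lf (nat_lit 0) (nat_lit 15718522355) (nat_lit 76) (nat_lit 27393855618) (nat_lit 76) (nat_lit 17997299875) (nat_lit 17) (nat_lit 4) (nat_lit 18) (nat_lit 5) (nat_lit 18) (nat_lit 4) (nat_lit 491) (nat_lit 382) (nat_lit 327)) (XT.lf (nat_lit 0) (nat_lit 50406410894) (nat_lit 76) (nat_lit 11339279299) (nat_lit 76) (nat_lit 1909908424) (nat_lit 17) (nat_lit 4) (nat_lit 18) (nat_lit 5) (nat_lit 18) (nat_lit 4) (nat_lit 492) (nat_lit 382) (nat_lit 326))))) (XT.nd (nat_lit 234) (nat_lit 152) (nat_lit 0) (XT.nd (nat_lit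 78) (nat_lit 76) (nat_lit 0) (XT.lf (nat_lit 0) (nat_lit 14846571788) (nat_lit 152) (nat_lit 45811711143) (nat_lit 0) (nat_lit 5661500543) (nat_lit 15) (nat_lit 5) (nat_lit 17) (nat_lit 4) (nat_lit 15) (nat_lit 4) (nat_lit 493) (nat_lit 382) (nat_lit 325)) (XT.nd (nat_lit 78) (nat_lit 76) (nat_lit 0) (XT.lf (nat_lit 0) (nat_lit 32559701448) (nat_lit 152) (nat_lit 13206426773) (nat_lit 0) (nat_lit 23345732832) (nat_lit 15) (nat_lit 5) (nat_lit 17) (nat_lit 4) (nat_lit 15) (nat_lit 4) (nat_lit 494) (nat_lit 382) (nat_lit 324)) (XT.lf (nat_lit 0) (nat_lit 21264713287) (nat_lit 76) (nat_lit 30008439847) (nat_lit 76) (nat_lit 20766949924) (nat_lit 14) (nat_lit 4) (nat_lit 15) (nat_lit 5) (nat_lit 15) (nat_lit 4) (nat_lit 495) (nat_lit 382) (nat_lit 323)))) (XT.nd (nat_lit 156) (nat_lit 0) (nat_lit 0) (XT.nd (nat_lit 78) (nat_lit 152) (nat_lit 0) (XT.lf (nat_lit 0) (nat_lit 57561167462) (nat_lit 76)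 (nat_lit 13409913388) (nat_lit 76) (nat_lit 4142212698) (nat_lit 14) (nat_lit 4) (nat_lit 15) (nat_lit 5) (nat_lit 15) (nat_lit 4) (nat_lit 496) (nat_lit 382) (nat_lit 322)) (XT.lf (nat_lit 0) (nat_lit 13177915461) (nat_lit 152) (nat_lit 60998758316) (nat_lit 0) (nat_lit 4155912231) (nat_lit 12) (nat_lit 5) (nat_lit 14) (nat_lit 4) (nat_lit 12) (nat_lit 4) (nat_lit 497) (nat_lit 382) (nat_lit 321))) (XT.nd (nat_lit 57486) (nat_lit 0) (nat_lit 9804) (XT.lf (nat_lit 0) (nat_lit 31514827751) (nat_lit 152) (nat_lit 27719949030) (nat_lit 0) (nat_lit 22469743028) (nat_lit 12) (nat_lit 5) (nat_lit 14) (nat_lit 4) (nat_lit 12) (nat_lit 4) (nat_lit 498) (nat_lit 382) (nat_lit 320)) (XT.lf (nat_lit 0) (nat_lit 2452205617) (nat_lit 304) (nat_lit 1248829065) (nat_lit 304) (nat_lit 1248829065) (nat_lit 141) (nat_lit 4) (nat_lit 145) (nat_lit 5) (nat_lit 145) (nat_lit 4) (nat_lit 434) (nat_lit 383) (nat_lit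 383))))))) (XT.nd (nat_lit 1014) (nat_lit 2356) (nat_lit 0) (XT.nd (nat_lit 468) (nat_lit 1824) (nat_lit 0) (XT.nd (nat_lit 234) (nat_lit 1140) (nat_lit 0) (XT.nd (nat_lit 78) (nat_lit 836) (nat_lit 0) (XT.lf (nat_lit 0) (nat_lit 5423002094) (nat_lit 304) (nat_lit 459909417) (nat_lit 0) (nat_lit 4234624577) (nat_lit 137) (nat_lit 5) (nat_lit 141) (nat_lit 4) (nat_lit 137) (nat_lit 4) (nat_lit 435) (nat_lit 383) (nat_lit 382)) (XT.nd (nat_lit 78) (nat_lit 304) (nat_lit 0) (XT.lf (nat_lit 0) (nat_lit 3251373292) (nat_lit 304) (nat_lit 6095169623) (nat_lit 0) (nat_lit 998785304) (nat_lit 130) (nat_lit 5) (nat_lit 134) (nat_lit 4) (nat_lit 130) (nat_lit 4) (nat_lit 436) (nat_lit 383) (nat_lit 381)) (XT.lf (nat_lit 0) (nat_lit 865110376) (nat_lit 304) (nat_lit 1542912409) (nat_lit 76) (nat_lit 8175790504) (nat_lit 126) (nat_lit 5) (nat_lit 130) (nat_lit 5) (nat_lit 127) (nat_lit 4) (nat_lit 437) (nat_lit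 383) (nat_lit 380)))) (XT.nd (nat_lit 78) (nat_lit 684) (nat_lit 0) (XT.lf (nat_lit 0) (nat_lit 3127564196) (nat_lit 228) (nat_lit 5937752491) (nat_lit 228) (nat_lit 1767119776) (nat_lit 120) (nat_lit 4) (nat_lit 123) (nat_lit 5) (nat_lit 123) (nat_lit 4) (nat_lit 438) (nat_lit 383) (nat_lit 379)) (XT.nd (nat_lit 78) (nat_lit 456) (nat_lit 0) (XT.lf (nat_lit 0) (nat_lit 6424371343) (nat_lit 228) (nat_lit 3187618304) (nat_lit 0) (nat_lit 1480496641) (nat_lit 117) (nat_lit 5) (nat_lit 120) (nat_lit 4) (nat_lit 117) (nat_lit 4) (nat_lit 439) (nat_lit 383) (nat_lit 378)) (XT.lf (nat_lit 0) (nat_lit 1411019670) (nat_lit 152) (nat_lit 2139229364) (nat_lit 228) (nat_lit 7813822419) (nat_lit 111) (nat_lit 5) (nat_lit 113) (nat_lit 5) (nat_lit 114) (nat_lit 4) (nat_lit 440) (nat_lit 383) (nat_lit 377))))) (XT.nd (nat_lit 234) (nat_lit 988) (nat_lit 0) (XT.nd (nat_lit 78) (nat_lit 532) (nat_lit 0) (XT.lf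 (nat_lit 0) (nat_lit 444155896) (nat_lit 304) (nat_lit 5513431797) (nat_lit 76) (nat_lit 5689625104) (nat_lit 107) (nat_lit 5) (nat_lit 111) (nat_lit 5) (nat_lit 108) (nat_lit 4) (nat_lit 441) (nat_lit 383) (nat_lit 376)) (XT.nd (nat_lit 78) (nat_lit 380) (nat_lit 0) (XT.lf (nat_lit 0) (nat_lit 8930436436) (nat_lit 228) (nat_lit 1038765329) (nat_lit 0) (nat_lit 1973691914) (nat_lit 105) (nat_lit 5) (nat_lit 108) (nat_lit 4) (nat_lit 105) (nat_lit 4) (nat_lit 442) (nat_lit 383) (nat_lit 375)) (XT.lf (nat_lit 0) (nat_lit 3544046377) (nat_lit 152) (nat_lit 1970545857) (nat_lit 228) (nat_lit 6736088887) (nat_lit 100) (nat_lit 5) (nat_lit 102) (nat_lit 5) (nat_lit 103) (nat_lit 4) (nat_lit 443) (nat_lit 383) (nat_lit 374)))) (XT.nd (nat_lit 156) (nat_lit 608) (nat_lit 0) (XT.nd (nat_lit 78) (nat_lit 152) (nat_lit 0) (XT.lf (nat_lit 0) (nat_lit 1816451101) (nat_lit 228) (nat_lit 4381893202) (nat_lit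 76) (nat_lit 6373517355) (nat_lit 97) (nat_lit 5) (nat_lit 100) (nat_lit 5) (nat_lit 98) (nat_lit 4) (nat_lit 444) (nat_lit 383) (nat_lit 373)) (XT.lf (nat_lit 0) (nat_lit 10652487573) (nat_lit 228) (nat_lit 29741561) (nat_lit 0) (nat_lit 2225026849) (nat_lit 95) (nat_lit 5) (nat_lit 98) (nat_lit 4) (nat_lit 95) (nat_lit 4) (nat_lit 445) (nat_lit 383) (nat_lit 372))) (XT.nd (nat_lit 78) (nat_lit 228) (nat_lit 0) (XT.lf (nat_lit 0) (nat_lit 4415768610) (nat_lit 152) (nat_lit 2189246834) (nat_lit 228) (nat_lit 6650562559) (nat_lit 90) (nat_lit 5) (nat_lit 92) (nat_lit 5) (nat_lit 93) (nat_lit 4) (nat_lit 446) (nat_lit 383) (nat_lit 371)) (XT.lf (nat_lit 0) (nat_lit 2225392842) (nat_lit 228) (nat_lit 4735328532) (nat_lit 76) (nat_lit 6658430246) (nat_lit 87) (nat_lit 5) (nat_lit 90) (nat_lit 5) (nat_lit 88) (nat_lit 4) (nat_lit 447) (nat_lit 383) (nat_lit 370)))))) (XT.nd (nat_lit 468) (nat_lit 1140)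 (nat_lit 0) (XT.nd (nat_lit 234) (nat_lit 532) (nat_lit 0) (XT.nd (nat_lit 78) (nat_lit 532) (nat_lit 0) (XT.lf (nat_lit 0) (nat_lit 11418934869) (nat_lit 228) (nat_lit 627115199) (nat_lit 0) (nat_lit 1952547447) (nat_lit 85) (nat_lit 5) (nat_lit 88) (nat_lit 4) (nat_lit 85) (nat_lit 4) (nat_lit 448) (nat_lit 383) (nat_lit 369)) (XT.nd (nat_lit 78) (nat_lit 228) (nat_lit 0) (XT.lf (nat_lit 0) (nat_lit 3521937138) (nat_lit 76) (nat_lit 3102859226) (nat_lit 152) (nat_lit 7767905268) (nat_lit 81) (nat_lit 5) (nat_lit 82) (nat_lit 5) (nat_lit 83) (nat_lit 4) (nat_lit 449) (nat_lit 383) (nat_lit 368)) (XT.lf (nat_lit 0) (nat_lit 1449327430) (nat_lit 228) (nat_lit 7120492701) (nat_lit 76) (nat_lit 6234114072) (nat_lit 78) (nat_lit 5) (nat_lit 81) (nat_lit 5) (nat_lit 79) (nat_lit 4) (nat_lit 450) (nat_lit 383) (nat_lit 367)))) (XT.nd (nat_lit 78) (nat_lit 456) (nat_lit 0) (XT.lf (nat_lit 0) (nat_lit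 10992264340) (nat_lit 152) (nat_lit 3410969009) (nat_lit 0) (nat_lit 829430233) (nat_lit 77) (nat_lit 5) (nat_lit 79) (nat_lit 4) (nat_lit 77) (nat_lit 4) (nat_lit 451) (nat_lit 383) (nat_lit 366)) (XT.nd (nat_lit 78) (nat_lit 152) (nat_lit 0) (XT.lf (nat_lit 0) (nat_lit 233119538) (nat_lit 76) (nat_lit 5072554534) (nat_lit 152) (nat_lit 10373220605) (nat_lit 73) (nat_lit 5) (nat_lit 74) (nat_lit 5) (nat_lit 75) (nat_lit 4) (nat_lit 452) (nat_lit 383) (nat_lit 365)) (XT.lf (nat_lit 0) (nat_lit 3914034366) (nat_lit 152) (nat_lit 11403345767) (nat_lit 152) (nat_lit 826523306) (nat_lit 71) (nat_lit 4) (nat_lit 73) (nat_lit 5) (nat_lit 73) (nat_lit 4) (nat_lit 453) (nat_lit 383) (nat_lit 364))))) (XT.nd (nat_lit 234) (nat_lit 684) (nat_lit 0) (XT.nd (nat_lit 78) (nat_lit 304) (nat_lit 0) (XT.lf (nat_lit 0) (nat_lit 7502626121) (nat_lit 76) (nat_lit 1565991834) (nat_lit 152) (nat_lit 7559380716) (nat_lit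 69) (nat_lit 5) (nat_lit 70) (nat_lit 5) (nat_lit 71) (nat_lit 4) (nat_lit 454) (nat_lit 383) (nat_lit 363)) (XT.nd (nat_lit 78) (nat_lit 76) (nat_lit 0) (XT.lf (nat_lit 0) (nat_lit 2350633557) (nat_lit 228) (nat_lit 6122201499) (nat_lit 76) (nat_lit 8659851291) (nat_lit 66) (nat_lit 5) (nat_lit 69) (nat_lit 5) (nat_lit 67) (nat_lit 4) (nat_lit 455) (nat_lit 383) (nat_lit 362)) (XT.lf (nat_lit 0) (nat_lit 12644738500) (nat_lit 152) (nat_lit 3228236197) (nat_lit 0) (nat_lit 1786045715) (nat_lit 65) (nat_lit 5) (nat_lit 67) (nat_lit 4) (nat_lit 65) (nat_lit 4) (nat_lit 456) (nat_lit 383) (nat_lit 361)))) (XT.nd (nat_lit 156) (nat_lit 228) (nat_lit 0) (XT.nd (nat_lit 78) (nat_lit 228) (nat_lit 0) (XT.lf (nat_lit 0) (nat_lit 5241816930) (nat_lit 228) (nat_lit 486381343) (nat_lit 76) (nat_lit 12478899296) (nat_lit 62) (nat_lit 5) (nat_lit 65) (nat_lit 5) (nat_lit 63) (nat_lit 4) (nat_lit 457) (nat_lit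 383) (nat_lit 360)) (XT.lf (nat_lit 0) (nat_lit 2165485116) (nat_lit 152) (nat_lit 13832200288) (nat_lit 152) (nat_lit 2780688382) (nat_lit 59) (nat_lit 4) (nat_lit 61) (nat_lit 5) (nat_lit 61) (nat_lit 4) (nat_lit 458) (nat_lit 383) (nat_lit 359))) (XT.nd (nat_lit 78) (nat_lit 76) (nat_lit 0) (XT.lf (nat_lit 0) (nat_lit 4636926975) (nat_lit 76) (nat_lit 3207876333) (nat_lit 152) (nat_lit 11528550298) (nat_lit 57) (nat_lit 5) (nat_lit 58) (nat_lit 5) (nat_lit 59) (nat_lit 4) (nat_lit 459) (nat_lit 383) (nat_lit 358)) (XT.lf (nat_lit 0) (nat_lit 6925927784) (nat_lit 76) (nat_lit 12123060000) (nat_lit 76) (nat_lit 945124943) (nat_lit 56) (nat_lit 4) (nat_lit 57) (nat_lit 5) (nat_lit 57) (nat_lit 4) (nat_lit 460) (nat_lit 383) (nat_lit 357))))))))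
noncomputable def xc21 : XT := (XT.nd (nat_lit 1950) (nat_lit 836) (nat_lit 0) (XT.nd (nat_lit 936) (nat_lit 1140) (nat_lit 0) (XT.nd (nat_lit 468) (nat_lit 608) (nat_lit 0) (XT.nd (nat_lit 234) (nat_lit 380) (nat_lit 0) (XT.nd (nat_lit 78) (nat_lit 228) (nat_lit 0) (XT.lf (nat_lit 0) (nat_lit 8982678704) (nat_lit 76) (nat_lit 1051256625) (nat_lit 152) (nat_lit 10607100133) (nat_lit 54) (nat_lit 5) (nat_lit 55) (nat_lit 5) (nat_lit 56) (nat_lit 4) (nat_lit 461) (nat_lit 383) (nat_lit 356)) (XT.nd (nat_lit 78) (nat_lit 76) (nat_lit 0) (XT.lf (nat_lit 0) (nat_lit 358186504) (nat_lit 152) (nat_lit 10520033936) (nat_lit 76) (nat_lit 10437538088) (nat_lit 52) (nat_lit 5) (nat_lit 54) (nat_lit 5) (nat_lit 53) (nat_lit 4) (nat_lit 462) (nat_lit 383) (nat_lit 355)) (XT.lf (nat_lit 0) (nat_lit 11712118844) (nat_lit 152) (nat_lit 9692672984) (nat_lit 0) (nat_lit 614486038) (nat_lit 51) (nat_lit 5) (nat_lit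 53) (nat_lit 4) (nat_lit 51) (nat_lit 4) (nat_lit 463) (nat_lit 383) (nat_lit 354)))) (XT.nd (nat_lit 78) (nat_lit 228) (nat_lit 0) (XT.lf (nat_lit 0) (nat_lit 1015156448) (nat_lit 152) (nat_lit 9206453056) (nat_lit 76) (nat_lit 12531420038) (nat_lit 49) (nat_lit 5) (nat_lit 51) (nat_lit 5) (nat_lit 50) (nat_lit 4) (nat_lit 464) (nat_lit 383) (nat_lit 353)) (XT.nd (nat_lit 78) (nat_lit 152) (nat_lit 0) (XT.lf (nat_lit 0) (nat_lit 12757552981) (nat_lit 152) (nat_lit 9099147391) (nat_lit 0) (nat_lit 1661695821) (nat_lit 48) (nat_lit 5) (nat_lit 50) (nat_lit 4) (nat_lit 48) (nat_lit 4) (nat_lit 465) (nat_lit 383) (nat_lit 352)) (XT.lf (nat_lit 0) (nat_lit 907240469) (nat_lit 152) (nat_lit 9403499949) (nat_lit 76) (nat_lit 14006358909) (nat_lit 46) (nat_lit 5) (nat_lit 48) (nat_lit 5) (nat_lit 47) (nat_lit 4) (nat_lit 466) (nat_lit 383) (nat_lit 351))))) (XT.nd (nat_lit 234) (nat_lit 304) (nat_lit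 0) (XT.nd (nat_lit 78) (nat_lit 228) (nat_lit 0) (XT.lf (nat_lit 0) (nat_lit 13013091117) (nat_lit 152) (nat_lit 10179809182) (nat_lit 0) (nat_lit 1957336194) (nat_lit 45) (nat_lit 5) (nat_lit 47) (nat_lit 4) (nat_lit 45) (nat_lit 4) (nat_lit 467) (nat_lit 383) (nat_lit 350)) (XT.nd (nat_lit 78) (nat_lit 152) (nat_lit 0) (XT.lf (nat_lit 0) (nat_lit 14566185534) (nat_lit 76) (nat_lit 11320618283) (nat_lit 76) (nat_lit 133352063) (nat_lit 44) (nat_lit 4) (nat_lit 45) (nat_lit 5) (nat_lit 45) (nat_lit 4) (nat_lit 468) (nat_lit 383) (nat_lit 349)) (XT.lf (nat_lit 0) (nat_lit 12301349131) (nat_lit 152) (nat_lit 13308081369) (nat_lit 0) (nat_lit 1318324786) (nat_lit 42) (nat_lit 5) (nat_lit 44) (nat_lit 4) (nat_lit 42) (nat_lit 4) (nat_lit 469) (nat_lit 383) (nat_lit 348)))) (XT.nd (nat_lit 78) (nat_lit 228) (nat_lit 0) (XT.lf (nat_lit 0) (nat_lit 12090715542) (nat_lit 76) (nat_lit 13441746642) (nat_lit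 76) (nat_lit 2342911983) (nat_lit 41) (nat_lit 4) (nat_lit 42) (nat_lit 5) (nat_lit 42) (nat_lit 4) (nat_lit 470) (nat_lit 383) (nat_lit 347)) (XT.nd (nat_lit 78) (nat_lit 76) (nat_lit 0) (XT.lf (nat_lit 0) (nat_lit 9930978398) (nat_lit 76) (nat_lit 482868200) (nat_lit 152) (nat_lit 18451534094) (nat_lit 39) (nat_lit 5) (nat_lit 40) (nat_lit 5) (nat_lit 41) (nat_lit 4) (nat_lit 471) (nat_lit 383) (nat_lit 346)) (XT.lf (nat_lit 0) (nat_lit 7022677879) (nat_lit 76) (nat_lit 16930182012) (nat_lit 76) (nat_lit 5945547482) (nat_lit 38) (nat_lit 4) (nat_lit 39) (nat_lit 5) (nat_lit 39) (nat_lit 4) (nat_lit 472) (nat_lit 383) (nat_lit 345)))))) (XT.nd (nat_lit 468) (nat_lit 532) (nat_lit 0) (XT.nd (nat_lit 234) (nat_lit 304) (nat_lit 0) (XT.nd (nat_lit 78) (nat_lit 152) (nat_lit 0) (XT.lf (nat_lit 0) (nat_lit 3366776379) (nat_lit 76) (nat_lit 3750730215) (nat_lit 152) (nat_lit 23861348704) (nat_lit 36)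 (nat_lit 5) (nat_lit 37) (nat_lit 5) (nat_lit 38) (nat_lit 4) (nat_lit 473) (nat_lit 383) (nat_lit 344)) (XT.nd (nat_lit 78) (nat_lit 152) (nat_lit 0) (XT.lf (nat_lit 0) (nat_lit 20887859704) (nat_lit 152) (nat_lit 1179328960) (nat_lit 0) (nat_lit 10039059344) (nat_lit 36) (nat_lit 5) (nat_lit 38) (nat_lit 4) (nat_lit 36) (nat_lit 4) (nat_lit 474) (nat_lit 383) (nat_lit 343)) (XT.lf (nat_lit 0) (nat_lit 2161853128) (nat_lit 152) (nat_lit 6545770050) (nat_lit 76) (nat_lit 24577437596) (nat_lit 34) (nat_lit 5) (nat_lit 36) (nat_lit 5) (nat_lit 35) (nat_lit 4) (nat_lit 475) (nat_lit 383) (nat_lit 342)))) (XT.nd (nat_lit 78) (nat_lit 228) (nat_lit 0) (XT.lf (nat_lit 0) (nat_lit 16105614324) (nat_lit 152) (nat_lit 12999401416) (nat_lit 0) (nat_lit 5410672081) (nat_lit 33) (nat_lit 5) (nat_lit 35) (nat_lit 4) (nat_lit 33) (nat_lit 4) (nat_lit 476) (nat_lit 383) (nat_lit 341)) (XT.nd (nat_lit 78) (nat_lit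 152) (nat_lit 0) (XT.lf (nat_lit 0) (nat_lit 15233850073) (nat_lit 76) (nat_lit 15669774004) (nat_lit 76) (nat_lit 4899511732) (nat_lit 32) (nat_lit 4) (nat_lit 33) (nat_lit 5) (nat_lit 33) (nat_lit 4) (nat_lit 477) (nat_lit 383) (nat_lit 340)) (XT.lf (nat_lit 0) (nat_lit 7778798409) (nat_lit 76) (nat_lit 1394006537) (nat_lit 152) (nat_lit 27977451255) (nat_lit 30) (nat_lit 5) (nat_lit 31) (nat_lit 5) (nat_lit 32) (nat_lit 4) (nat_lit 478) (nat_lit 383) (nat_lit 339))))) (XT.nd (nat_lit 234) (nat_lit 304) (nat_lit 0) (XT.nd (nat_lit 78) (nat_lit 228) (nat_lit 0) (XT.lf (nat_lit 0) (nat_lit 24053252842) (nat_lit 152) (nat_lit 1043134526) (nat_lit 0) (nat_lit 13460715835) (nat_lit 30) (nat_lit 5) (nat_lit 32) (nat_lit 4) (nat_lit 30) (nat_lit 4) (nat_lit 479) (nat_lit 383) (nat_lit 338)) (XT.nd (nat_lit 78) (nat_lit 152) (nat_lit 0) (XT.lf (nat_lit 0) (nat_lit 28989761549) (nat_lit 76) (nat_lit 10847722775)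 (nat_lit 76) (nat_lit 192016571) (nat_lit 29) (nat_lit 4) (nat_lit 30) (nat_lit 5) (nat_lit 30) (nat_lit 4) (nat_lit 480) (nat_lit 383) (nat_lit 337)) (XT.lf (nat_lit 0) (nat_lit 14650063925) (nat_lit 152) (nat_lit 22671743782) (nat_lit 0) (nat_lit 4246309223) (nat_lit 27) (nat_lit 5) (nat_lit 29) (nat_lit 4) (nat_lit 27) (nat_lit 4) (nat_lit 481) (nat_lit 383) (nat_lit 336)))) (XT.nd (nat_lit 156) (nat_lit 152) (nat_lit 0) (XT.nd (nat_lit 78) (nat_lit 76) (nat_lit 0) (XT.lf (nat_lit 0) (nat_lit 7153061664) (nat_lit 76) (nat_lit 23242485110) (nat_lit 76) (nat_lit 12783102910) (nat_lit 26) (nat_lit 4) (nat_lit 27) (nat_lit 5) (nat_lit 27) (nat_lit 4) (nat_lit 482) (nat_lit 383) (nat_lit 335)) (XT.lf (nat_lit 0) (nat_lit 2128821975) (nat_lit 152) (nat_lit 6190852159) (nat_lit 76) (nat_lit 36546130306) (nat_lit 25) (nat_lit 5) (nat_lit 27) (nat_lit 5) (nat_lit 26) (nat_lit 4) (nat_lit 483) (nat_lit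 383) (nat_lit 334))) (XT.nd (nat_lit 78) (nat_lit 76) (nat_lit 0) (XT.lf (nat_lit 0) (nat_lit 17721128876) (nat_lit 152) (nat_lit 21440450035) (nat_lit 0) (nat_lit 7465967177) (nat_lit 24) (nat_lit 5) (nat_lit 26) (nat_lit 4) (nat_lit 24) (nat_lit 4) (nat_lit 484) (nat_lit 383) (nat_lit 333)) (XT.lf (nat_lit 0) (nat_lit 9659075927) (nat_lit 76) (nat_lit 24558194204) (nat_lit 76) (nat_lit 14256378986) (nat_lit 23) (nat_lit 4) (nat_lit 24) (nat_lit 5) (nat_lit 24) (nat_lit 4) (nat_lit 485) (nat_lit 383) (nat_lit 332))))))) (XT.nd (nat_lit 58266) (nat_lit 0) (nat_lit 6460) (XT.nd (nat_lit 468) (nat_lit 456) (nat_lit 0) (XT.nd (nat_lit 234) (nat_lit 152) (nat_lit 0) (XT.nd (nat_lit 78) (nat_lit 152) (nat_lit 0) (XT.lf (nat_lit 0) (nat_lit 1212390824) (nat_lit 152) (nat_lit 7885093767) (nat_lit 76) (nat_lit 41311002593) (nat_lit 22) (nat_lit 5) (nat_lit 24) (nat_lit 5) (nat_lit 23) (nat_lit 4) (nat_lit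 486) (nat_lit 383) (nat_lit 331)) (XT.nd (nat_lit 78) (nat_lit 76) (nat_lit 0) (XT.lf (nat_lit 0) (nat_lit 17362146702) (nat_lit 152) (nat_lit 27791451953) (nat_lit 0) (nat_lit 7276162956) (nat_lit 21) (nat_lit 5) (nat_lit 23) (nat_lit 4) (nat_lit 21) (nat_lit 4) (nat_lit 487) (nat_lit 383) (nat_lit 330)) (XT.lf (nat_lit 0) (nat_lit 4178567741) (nat_lit 76) (nat_lit 30247718433) (nat_lit 76) (nat_lit 20122607441) (nat_lit 20) (nat_lit 4) (nat_lit 21) (nat_lit 5) (nat_lit 21) (nat_lit 4) (nat_lit 488) (nat_lit 383) (nat_lit 329)))) (XT.nd (nat_lit 78) (nat_lit 152) (nat_lit 0) (XT.lf (nat_lit 0) (nat_lit 38120625074) (nat_lit 76) (nat_lit 14405134532) (nat_lit 76) (nat_lit 4242759496) (nat_lit 20) (nat_lit 4) (nat_lit 21) (nat_lit 5) (nat_lit 21) (nat_lit 4) (nat_lit 489) (nat_lit 383) (nat_lit 328)) (XT.nd (nat_lit 78) (nat_lit 0) (nat_lit 0) (XT.lf (nat_lit 0) (nat_lit 12252172130) (nat_lit 152)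 (nat_lit 44490126816) (nat_lit 0) (nat_lit 2351332711) (nat_lit 18) (nat_lit 5) (nat_lit 20) (nat_lit 4) (nat_lit 18) (nat_lit 4) (nat_lit 490) (nat_lit 383) (nat_lit 327)) (XT.lf (nat_lit 0) (nat_lit 29726158316) (nat_lit 152) (nat_lit 12007816502) (nat_lit 0) (nat_lit 19792503765) (nat_lit 18) (nat_lit 5) (nat_lit 20) (nat_lit 4) (nat_lit 18) (nat_lit 4) (nat_lit 491) (nat_lit 383) (nat_lit 326))))) (XT.nd (nat_lit 234) (nat_lit 228) (nat_lit 0) (XT.nd (nat_lit 78) (nat_lit 152) (nat_lit 0) (XT.lf (nat_lit 0) (nat_lit 22348405286) (nat_lit 76) (nat_lit 25846912988) (nat_lit 76) (nat_lit 15882005929) (nat_lit 17) (nat_lit 4) (nat_lit 18) (nat_lit 5) (nat_lit 18) (nat_lit 4) (nat_lit 492) (nat_lit 383) (nat_lit 325)) (XT.nd (nat_lit 78) (nat_lit 76) (nat_lit 0) (XT.lf (nat_lit 0) (nat_lit 849273881) (nat_lit 152) (nat_lit 8270645371) (nat_lit 76) (nat_lit 57634554711) (nat_lit 16) (nat_lit 5) (nat_lit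 18) (nat_lit 5) (nat_lit 17) (nat_lit 4) (nat_lit 493) (nat_lit 383) (nat_lit 324)) (XT.lf (nat_lit 0) (nat_lit 18349072213) (nat_lit 152) (nat_lit 42585893031) (nat_lit 0) (nat_lit 8617986489) (nat_lit 15) (nat_lit 5) (nat_lit 17) (nat_lit 4) (nat_lit 15) (nat_lit 4) (nat_lit 494) (nat_lit 383) (nat_lit 323)))) (XT.nd (nat_lit 156) (nat_lit 152) (nat_lit 0) (XT.nd (nat_lit 78) (nat_lit 76) (nat_lit 0) (XT.lf (nat_lit 0) (nat_lit 36816421603) (nat_lit 152) (nat_lit 8613030332) (nat_lit 0) (nat_lit 27059125110) (nat_lit 15) (nat_lit 5) (nat_lit 17) (nat_lit 4) (nat_lit 15) (nat_lit 4) (nat_lit 495) (nat_lit 383) (nat_lit 322)) (XT.lf (nat_lit 0) (nat_lit 27431069966) (nat_lit 76) (nat_lit 28958352367) (nat_lit 76) (nat_lit 19176093238) (nat_lit 14) (nat_lit 4) (nat_lit 15) (nat_lit 5) (nat_lit 15) (nat_lit 4) (nat_lit 496) (nat_lit 383) (nat_lit 321))) (XT.nd (nat_lit 78) (nat_lit 152) (nat_lit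 0) (XT.lf (nat_lit 0) (nat_lit 65299341087) (nat_lit 76) (nat_lit 11651352417) (nat_lit 76) (nat_lit 1845319350) (nat_lit 14) (nat_lit 4) (nat_lit 15) (nat_lit 5) (nat_lit 15) (nat_lit 4) (nat_lit 497) (nat_lit 383) (nat_lit 320)) (XT.lf (nat_lit 0) (nat_lit 16243795623) (nat_lit 152) (nat_lit 59231804772) (nat_lit 0) (nat_lit 6701392794) (nat_lit 12) (nat_lit 5) (nat_lit 14) (nat_lit 4) (nat_lit 12) (nat_lit 4) (nat_lit 498) (nat_lit 383) (nat_lit 319)))))) (XT.nd (nat_lit 468) (nat_lit 2204) (nat_lit 0) (XT.nd (nat_lit 234) (nat_lit 1140) (nat_lit 0) (XT.nd (nat_lit 78) (nat_lit 912) (nat_lit 0) (XT.lf (nat_lit 0) (nat_lit 1361872357) (nat_lit 380) (nat_lit 2020957593) (nat_lit 0) (nat_lit 1361872357) (nat_lit 153) (nat_lit 5) (nat_lit 158) (nat_lit 4) (nat_lit 153) (nat_lit 4) (nat_lit 432) (nat_lit 384) (nat_lit 384)) (XT.nd (nat_lit 78) (nat_lit 304) (nat_lit 0) (XT.lf (nat_lit 0) (nat_lit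 244322500) (nat_lit 228) (nat_lit 528145328) (nat_lit 304) (nat_lit 8920113601) (nat_lit 145) (nat_lit 5) (nat_lit 148) (nat_lit 5) (nat_lit 149) (nat_lit 4) (nat_lit 433) (nat_lit 384) (nat_lit 383)) (XT.lf (nat_lit 0) (nat_lit 4669952419) (nat_lit 304) (nat_lit 3871707259) (nat_lit 304) (nat_lit 1362448132) (nat_lit 141) (nat_lit 4) (nat_lit 145) (nat_lit 5) (nat_lit 145) (nat_lit 4) (nat_lit 434) (nat_lit 384) (nat_lit 382)))) (XT.nd (nat_lit 78) (nat_lit 836) (nat_lit 0) (XT.lf (nat_lit 0) (nat_lit 6377333420) (nat_lit 304) (nat_lit 939656291) (nat_lit 0) (nat_lit 2809371399) (nat_lit 137) (nat_lit 5) (nat_lit 141) (nat_lit 4) (nat_lit 137) (nat_lit 4) (nat_lit 435) (nat_lit 384) (nat_lit 381)) (XT.nd (nat_lit 78) (nat_lit 304) (nat_lit 0) (XT.lf (nat_lit 0) (nat_lit 3508156817) (nat_lit 228) (nat_lit 508597999) (nat_lit 304) (nat_lit 6341985504) (nat_lit 130) (nat_lit 5) (nat_lit 133) (nat_lit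 5) (nat_lit 134) (nat_lit 4) (nat_lit 436) (nat_lit 384) (nat_lit 380)) (XT.lf (nat_lit 0) (nat_lit 1450198583) (nat_lit 304) (nat_lit 2563301379) (nat_lit 76) (nat_lit 6588083589) (nat_lit 126) (nat_lit 5) (nat_lit 130) (nat_lit 5) (nat_lit 127) (nat_lit 4) (nat_lit 437) (nat_lit 384) (nat_lit 379))))) (XT.nd (nat_lit 234) (nat_lit 1216) (nat_lit 0) (XT.nd (nat_lit 78) (nat_lit 532) (nat_lit 0) (XT.lf (nat_lit 0) (nat_lit 1828461755) (nat_lit 228) (nat_lit 7647670125) (nat_lit 228) (nat_lit 1379311407) (nat_lit 120) (nat_lit 4) (nat_lit 123) (nat_lit 5) (nat_lit 123) (nat_lit 4) (nat_lit 438) (nat_lit 384) (nat_lit 378)) (XT.nd (nat_lit 78) (nat_lit 304) (nat_lit 0) (XT.lf (nat_lit 0) (nat_lit 6336516498) (nat_lit 152) (nat_lit 305133609) (nat_lit 228) (nat_lit 4478627770) (nat_lit 117) (nat_lit 5) (nat_lit 119) (nat_lit 5) (nat_lit 120) (nat_lit 4) (nat_lit 439) (nat_lit 384) (nat_lit 377)) (XT.lf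 (nat_lit 0) (nat_lit 3570362229) (nat_lit 304) (nat_lit 501595451) (nat_lit 76) (nat_lit 7324828165) (nat_lit 113) (nat_lit 5) (nat_lit 117) (nat_lit 5) (nat_lit 114) (nat_lit 4) (nat_lit 440) (nat_lit 384) (nat_lit 376)))) (XT.nd (nat_lit 156) (nat_lit 608) (nat_lit 0) (XT.nd (nat_lit 78) (nat_lit 152) (nat_lit 0) (XT.lf (nat_lit 0) (nat_lit 255226634) (nat_lit 304) (nat_lit 7755987722) (nat_lit 76) (nat_lit 3674020302) (nat_lit 107) (nat_lit 5) (nat_lit 111) (nat_lit 5) (nat_lit 108) (nat_lit 4) (nat_lit 441) (nat_lit 384) (nat_lit 375)) (XT.lf (nat_lit 0) (nat_lit 8409842865) (nat_lit 152) (nat_lit 160889613) (nat_lit 228) (nat_lit 3415312604) (nat_lit 105) (nat_lit 5) (nat_lit 107) (nat_lit 5) (nat_lit 108) (nat_lit 4) (nat_lit 442) (nat_lit 384) (nat_lit 374))) (XT.nd (nat_lit 78) (nat_lit 228) (nat_lit 0) (XT.lf (nat_lit 0) (nat_lit 635182229) (nat_lit 152) (nat_lit 4302211842) (nat_lit 228)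 (nat_lit 7362026573) (nat_lit 100) (nat_lit 5) (nat_lit 102) (nat_lit 5) (nat_lit 103) (nat_lit 4) (nat_lit 443) (nat_lit 384) (nat_lit 373)) (XT.lf (nat_lit 0) (nat_lit 1023063732) (nat_lit 228) (nat_lit 7648475002) (nat_lit 76) (nat_lit 3954638260) (nat_lit 97) (nat_lit 5) (nat_lit 100) (nat_lit 5) (nat_lit 98) (nat_lit 4) (nat_lit 444) (nat_lit 384) (nat_lit 372))))))))
noncomputable def xc22 : XT := (XT.nd (nat_lit 1950) (nat_lit 2128) (nat_lit 0) (XT.nd (nat_lit 936) (nat_lit 1672) (nat_lit 0) (XT.nd (nat_lit 468) (nat_lit 1064) (nat_lit 0) (XT.nd (nat_lit 234) (nat_lit 608) (nat_lit 0) (XT.nd (nat_lit 78) (nat_lit 608) (nat_lit 0) (XT.lf (nat_lit 0) (nat_lit 9345736312) (nat_lit 152) (nat_lit 335510619) (nat_lit 228) (nat_lit 3285665119) (nat_lit 95) (nat_lit 5) (nat_lit 97) (nat_lit 5) (nat_lit 98) (nat_lit 4) (nat_lit 445) (nat_lit 384) (nat_lit 371)) (XT.nd (nat_lit 78) (nat_lit 228) (nat_lit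 0) (XT.lf (nat_lit 0) (nat_lit 405975393) (nat_lit 152) (nat_lit 4988610976) (nat_lit 228) (nat_lit 7926939198) (nat_lit 90) (nat_lit 5) (nat_lit 92) (nat_lit 5) (nat_lit 93) (nat_lit 4) (nat_lit 446) (nat_lit 384) (nat_lit 370)) (XT.lf (nat_lit 0) (nat_lit 783826414) (nat_lit 228) (nat_lit 9144233418) (nat_lit 76) (nat_lit 3763114712) (nat_lit 87) (nat_lit 5) (nat_lit 90) (nat_lit 5) (nat_lit 88) (nat_lit 4) (nat_lit 447) (nat_lit 384) (nat_lit 369)))) (XT.nd (nat_lit 78) (nat_lit 456) (nat_lit 0) (XT.lf (nat_lit 0) (nat_lit 8676506357) (nat_lit 152) (nat_lit 1119414735) (nat_lit 228) (nat_lit 4280146946) (nat_lit 85) (nat_lit 5) (nat_lit 87) (nat_lit 5) (nat_lit 88) (nat_lit 4) (nat_lit 448) (nat_lit 384) (nat_lit 368)) (XT.nd (nat_lit 78) (nat_lit 228) (nat_lit 0) (XT.lf (nat_lit 0) (nat_lit 4748094985) (nat_lit 228) (nat_lit 1682205418) (nat_lit 76) (nat_lit 8046647987) (nat_lit 82) (nat_lit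 5) (nat_lit 85) (nat_lit 5) (nat_lit 83) (nat_lit 4) (nat_lit 449) (nat_lit 384) (nat_lit 367)) (XT.lf (nat_lit 0) (nat_lit 2085369695) (nat_lit 152) (nat_lit 12102981227) (nat_lit 152) (nat_lit 706784393) (nat_lit 79) (nat_lit 4) (nat_lit 81) (nat_lit 5) (nat_lit 81) (nat_lit 4) (nat_lit 450) (nat_lit 384) (nat_lit 366))))) (XT.nd (nat_lit 234) (nat_lit 608) (nat_lit 0) (XT.nd (nat_lit 78) (nat_lit 304) (nat_lit 0) (XT.lf (nat_lit 0) (nat_lit 5821230874) (nat_lit 76) (nat_lit 2850310687) (nat_lit 152) (nat_lit 6657882442) (nat_lit 77) (nat_lit 5) (nat_lit 78) (nat_lit 5) (nat_lit 79) (nat_lit 4) (nat_lit 451) (nat_lit 384) (nat_lit 365)) (XT.nd (nat_lit 78) (nat_lit 76) (nat_lit 0) (XT.lf (nat_lit 0) (nat_lit 2732220420) (nat_lit 228) (nat_lit 6249154344) (nat_lit 76) (nat_lit 6801074957) (nat_lit 74) (nat_lit 5) (nat_lit 77) (nat_lit 5) (nat_lit 75) (nat_lit 4) (nat_lit 452) (nat_lit 384) (nat_lit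 364)) (XT.lf (nat_lit 0) (nat_lit 12496206167) (nat_lit 152) (nat_lit 3044328368) (nat_lit 0) (nat_lit 714358554) (nat_lit 73) (nat_lit 5) (nat_lit 75) (nat_lit 4) (nat_lit 73) (nat_lit 4) (nat_lit 453) (nat_lit 384) (nat_lit 363)))) (XT.nd (nat_lit 78) (nat_lit 304) (nat_lit 0) (XT.lf (nat_lit 0) (nat_lit 50531284) (nat_lit 76) (nat_lit 5932975030) (nat_lit 152) (nat_lit 10762635301) (nat_lit 69) (nat_lit 5) (nat_lit 70) (nat_lit 5) (nat_lit 71) (nat_lit 4) (nat_lit 454) (nat_lit 384) (nat_lit 362)) (XT.nd (nat_lit 78) (nat_lit 152) (nat_lit 0) (XT.lf (nat_lit 0) (nat_lit 3151414329) (nat_lit 152) (nat_lit 13070482356) (nat_lit 152) (nat_lit 1036340162) (nat_lit 67) (nat_lit 4) (nat_lit 69) (nat_lit 5) (nat_lit 69) (nat_lit 4) (nat_lit 455) (nat_lit 384) (nat_lit 361)) (XT.lf (nat_lit 0) (nat_lit 6114486077) (nat_lit 76) (nat_lit 2961997916) (nat_lit 152) (nat_lit 8714433322) (nat_lit 65) (nat_lit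 5) (nat_lit 66) (nat_lit 5) (nat_lit 67) (nat_lit 4) (nat_lit 456) (nat_lit 384) (nat_lit 360)))))) (XT.nd (nat_lit 468) (nat_lit 836) (nat_lit 0) (XT.nd (nat_lit 234) (nat_lit 304) (nat_lit 0) (XT.nd (nat_lit 78) (nat_lit 304) (nat_lit 0) (XT.lf (nat_lit 0) (nat_lit 1397182955) (nat_lit 228) (nat_lit 9371716277) (nat_lit 76) (nat_lit 7577665115) (nat_lit 62) (nat_lit 5) (nat_lit 65) (nat_lit 5) (nat_lit 63) (nat_lit 4) (nat_lit 457) (nat_lit 384) (nat_lit 359)) (XT.nd (nat_lit 78) (nat_lit 228) (nat_lit 0) (XT.lf (nat_lit 0) (nat_lit 11696027760) (nat_lit 76) (nat_lit 199357769) (nat_lit 152) (nat_lit 7030187158) (nat_lit 61) (nat_lit 5) (nat_lit 62) (nat_lit 5) (nat_lit 63) (nat_lit 4) (nat_lit 458) (nat_lit 384) (nat_lit 358)) (XT.lf (nat_lit 0) (nat_lit 3459878999) (nat_lit 228) (nat_lit 5290631761) (nat_lit 76) (nat_lit 10777819654) (nat_lit 58) (nat_lit 5) (nat_lit 61) (nat_lit 5) (nat_lit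 59) (nat_lit 4) (nat_lit 459) (nat_lit 384) (nat_lit 357)))) (XT.nd (nat_lit 78) (nat_lit 228) (nat_lit 0) (XT.lf (nat_lit 0) (nat_lit 14393665349) (nat_lit 152) (nat_lit 3533668146) (nat_lit 0) (nat_lit 2229869876) (nat_lit 57) (nat_lit 5) (nat_lit 59) (nat_lit 4) (nat_lit 57) (nat_lit 4) (nat_lit 460) (nat_lit 384) (nat_lit 356)) (XT.nd (nat_lit 78) (nat_lit 76) (nat_lit 0) (XT.lf (nat_lit 0) (nat_lit 5092018973) (nat_lit 152) (nat_lit 2025354060) (nat_lit 76) (nat_lit 13694670184) (nat_lit 55) (nat_lit 5) (nat_lit 57) (nat_lit 5) (nat_lit 56) (nat_lit 4) (nat_lit 461) (nat_lit 384) (nat_lit 355)) (XT.lf (nat_lit 0) (nat_lit 16462911060) (nat_lit 152) (nat_lit 754840855) (nat_lit 0) (nat_lit 4277411931) (nat_lit 54) (nat_lit 5) (nat_lit 56) (nat_lit 4) (nat_lit 54) (nat_lit 4) (nat_lit 462) (nat_lit 384) (nat_lit 354))))) (XT.nd (nat_lit 234) (nat_lit 380) (nat_lit 0) (XT.nd (nat_lit 78) (nat_lit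 228) (nat_lit 0) (XT.lf (nat_lit 0) (nat_lit 221064365) (nat_lit 76) (nat_lit 5976590299) (nat_lit 152) (nat_lit 16009147920) (nat_lit 51) (nat_lit 5) (nat_lit 52) (nat_lit 5) (nat_lit 53) (nat_lit 4) (nat_lit 463) (nat_lit 384) (nat_lit 353)) (XT.nd (nat_lit 78) (nat_lit 152) (nat_lit 0) (XT.lf (nat_lit 0) (nat_lit 898815713) (nat_lit 76) (nat_lit 17105902750) (nat_lit 76) (nat_lit 4944221003) (nat_lit 50) (nat_lit 4) (nat_lit 51) (nat_lit 5) (nat_lit 51) (nat_lit 4) (nat_lit 464) (nat_lit 384) (nat_lit 352)) (XT.lf (nat_lit 0) (nat_lit 1209660214) (nat_lit 76) (nat_lit 5452981722) (nat_lit 152) (nat_lit 17060051739) (nat_lit 48) (nat_lit 5) (nat_lit 49) (nat_lit 5) (nat_lit 50) (nat_lit 4) (nat_lit 465) (nat_lit 384) (nat_lit 351)))) (XT.nd (nat_lit 156) (nat_lit 152) (nat_lit 0) (XT.nd (nat_lit 78) (nat_lit 152) (nat_lit 0) (XT.lf (nat_lit 0) (nat_lit 1123013178) (nat_lit 76) (nat_lit 17752917401)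 (nat_lit 76) (nat_lit 5653888984) (nat_lit 47) (nat_lit 4) (nat_lit 48) (nat_lit 5) (nat_lit 48) (nat_lit 4) (nat_lit 466) (nat_lit 384) (nat_lit 350)) (XT.lf (nat_lit 0) (nat_lit 594477124) (nat_lit 76) (nat_lit 5725208677) (nat_lit 152) (nat_lit 19052180689) (nat_lit 45) (nat_lit 5) (nat_lit 46) (nat_lit 5) (nat_lit 47) (nat_lit 4) (nat_lit 467) (nat_lit 384) (nat_lit 349))) (XT.nd (nat_lit 78) (nat_lit 152) (nat_lit 0) (XT.lf (nat_lit 0) (nat_lit 18915057159) (nat_lit 152) (nat_lit 423412620) (nat_lit 0) (nat_lit 6911667475) (nat_lit 45) (nat_lit 5) (nat_lit 47) (nat_lit 4) (nat_lit 45) (nat_lit 4) (nat_lit 468) (nat_lit 384) (nat_lit 348)) (XT.lf (nat_lit 0) (nat_lit 5010343558) (nat_lit 152) (nat_lit 1951676884) (nat_lit 76) (nat_lit 20204688369) (nat_lit 43) (nat_lit 5) (nat_lit 45) (nat_lit 5) (nat_lit 44) (nat_lit 4) (nat_lit 469) (nat_lit 384) (nat_lit 347))))))) (XT.nd (nat_lit 1014)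 (nat_lit 912) (nat_lit 0) (XT.nd (nat_lit 468) (nat_lit 608) (nat_lit 0) (XT.nd (nat_lit 234) (nat_lit 304) (nat_lit 0) (XT.nd (nat_lit 78) (nat_lit 228) (nat_lit 0) (XT.lf (nat_lit 0) (nat_lit 17959008851) (nat_lit 152) (nat_lit 4084666668) (nat_lit 0) (nat_lit 6079126607) (nat_lit 42) (nat_lit 5) (nat_lit 44) (nat_lit 4) (nat_lit 42) (nat_lit 4) (nat_lit 470) (nat_lit 384) (nat_lit 346)) (XT.nd (nat_lit 78) (nat_lit 76) (nat_lit 0) (XT.lf (nat_lit 0) (nat_lit 2531270753) (nat_lit 152) (nat_lit 6846445983) (nat_lit 76) (nat_lit 19743777458) (nat_lit 40) (nat_lit 5) (nat_lit 42) (nat_lit 5) (nat_lit 41) (nat_lit 4) (nat_lit 471) (nat_lit 384) (nat_lit 345)) (XT.lf (nat_lit 0) (nat_lit 15772676223) (nat_lit 152) (nat_lit 10351075136) (nat_lit 0) (nat_lit 4039698633) (nat_lit 39) (nat_lit 5) (nat_lit 41) (nat_lit 4) (nat_lit 39) (nat_lit 4) (nat_lit 472) (nat_lit 384) (nat_lit 344)))) (XT.nd (nat_lit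 78) (nat_lit 228) (nat_lit 0) (XT.lf (nat_lit 0) (nat_lit 16625948152) (nat_lit 76) (nat_lit 13225883357) (nat_lit 76) (nat_lit 1400403406) (nat_lit 38) (nat_lit 4) (nat_lit 39) (nat_lit 5) (nat_lit 39) (nat_lit 4) (nat_lit 473) (nat_lit 384) (nat_lit 343)) (XT.nd (nat_lit 78) (nat_lit 76) (nat_lit 0) (XT.lf (nat_lit 0) (nat_lit 12087597070) (nat_lit 152) (nat_lit 19780708530) (nat_lit 0) (nat_lit 521017034) (nat_lit 36) (nat_lit 5) (nat_lit 38) (nat_lit 4) (nat_lit 36) (nat_lit 4) (nat_lit 474) (nat_lit 384) (nat_lit 342)) (XT.lf (nat_lit 0) (nat_lit 7648203161) (nat_lit 76) (nat_lit 18788113664) (nat_lit 76) (nat_lit 7140075016) (nat_lit 35) (nat_lit 4) (nat_lit 36) (nat_lit 5) (nat_lit 36) (nat_lit 4) (nat_lit 475) (nat_lit 384) (nat_lit 341))))) (XT.nd (nat_lit 234) (nat_lit 380) (nat_lit 0) (XT.nd (nat_lit 78) (nat_lit 76) (nat_lit 0) (XT.lf (nat_lit 0) (nat_lit 1734075220) (nat_lit 76) (nat_lit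 4896315664) (nat_lit 152) (nat_lit 28188066447) (nat_lit 33) (nat_lit 5) (nat_lit 34) (nat_lit 5) (nat_lit 35) (nat_lit 4) (nat_lit 476) (nat_lit 384) (nat_lit 340)) (XT.nd (nat_lit 78) (nat_lit 76) (nat_lit 0) (XT.lf (nat_lit 0) (nat_lit 21167387378) (nat_lit 152) (nat_lit 5234790385) (nat_lit 0) (nat_lit 9711558605) (nat_lit 33) (nat_lit 5) (nat_lit 35) (nat_lit 4) (nat_lit 33) (nat_lit 4) (nat_lit 477) (nat_lit 384) (nat_lit 339)) (XT.lf (nat_lit 0) (nat_lit 24168921401) (nat_lit 76) (nat_lit 12412253623) (nat_lit 76) (nat_lit 888107364) (nat_lit 32) (nat_lit 4) (nat_lit 33) (nat_lit 5) (nat_lit 33) (nat_lit 4) (nat_lit 478) (nat_lit 384) (nat_lit 338)))) (XT.nd (nat_lit 156) (nat_lit 152) (nat_lit 0) (XT.nd (nat_lit 78) (nat_lit 76) (nat_lit 0) (XT.lf (nat_lit 0) (nat_lit 13707203403) (nat_lit 152) (nat_lit 22722713996) (nat_lit 0) (nat_lit 2455542693) (nat_lit 30) (nat_lit 5) (nat_lit 32)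 (nat_lit 4) (nat_lit 30) (nat_lit 4) (nat_lit 479) (nat_lit 384) (nat_lit 337)) (XT.lf (nat_lit 0) (nat_lit 6753879004) (nat_lit 76) (nat_lit 22462033425) (nat_lit 76) (nat_lit 11150211576) (nat_lit 29) (nat_lit 4) (nat_lit 30) (nat_lit 5) (nat_lit 30) (nat_lit 4) (nat_lit 480) (nat_lit 384) (nat_lit 336))) (XT.nd (nat_lit 78) (nat_lit 76) (nat_lit 0) (XT.lf (nat_lit 0) (nat_lit 3621443625) (nat_lit 152) (nat_lit 4017587613) (nat_lit 76) (nat_lit 34277397190) (nat_lit 28) (nat_lit 5) (nat_lit 30) (nat_lit 5) (nat_lit 29) (nat_lit 4) (nat_lit 481) (nat_lit 384) (nat_lit 335)) (XT.lf (nat_lit 0) (nat_lit 19125591759) (nat_lit 152) (nat_lit 16373975563) (nat_lit 0) (nat_lit 8034634381) (nat_lit 27) (nat_lit 5) (nat_lit 29) (nat_lit 4) (nat_lit 27) (nat_lit 4) (nat_lit 482) (nat_lit 384) (nat_lit 334)))))) (XT.nd (nat_lit 468) (nat_lit 456) (nat_lit 0) (XT.nd (nat_lit 234) (nat_lit 228) (nat_lit 0)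 (XT.nd (nat_lit 78) (nat_lit 152) (nat_lit 0) (XT.lf (nat_lit 0) (nat_lit 14729051845) (nat_lit 76) (nat_lit 20820444708) (nat_lit 76) (nat_lit 9679031550) (nat_lit 26) (nat_lit 4) (nat_lit 27) (nat_lit 5) (nat_lit 27) (nat_lit 4) (nat_lit 483) (nat_lit 384) (nat_lit 333)) (XT.nd (nat_lit 78) (nat_lit 0) (nat_lit 0) (XT.lf (nat_lit 0) (nat_lit 452636834) (nat_lit 76) (nat_lit 5282389331) (nat_lit 152) (nat_lit 41269048891) (nat_lit 24) (nat_lit 5) (nat_lit 25) (nat_lit 5) (nat_lit 26) (nat_lit 4) (nat_lit 484) (nat_lit 384) (nat_lit 332)) (XT.lf (nat_lit 0) (nat_lit 22033202811) (nat_lit 152) (nat_lit 15697703223) (nat_lit 0) (nat_lit 11125211391) (nat_lit 24) (nat_lit 5) (nat_lit 26) (nat_lit 4) (nat_lit 24) (nat_lit 4) (nat_lit 485) (nat_lit 384) (nat_lit 331)))) (XT.nd (nat_lit 78) (nat_lit 152) (nat_lit 0) (XT.lf (nat_lit 0) (nat_lit 16761455042) (nat_lit 76) (nat_lit 22493182362) (nat_lit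 76) (nat_lit 11542874825) (nat_lit 23) (nat_lit 4) (nat_lit 24) (nat_lit 5) (nat_lit 24) (nat_lit 4) (nat_lit 486) (nat_lit 384) (nat_lit 330)) (XT.nd (nat_lit 78) (nat_lit 76) (nat_lit 0) (XT.lf (nat_lit 0) (nat_lit 4472499132) (nat_lit 152) (nat_lit 1911435362) (nat_lit 76) (nat_lit 46448969982) (nat_lit 22) (nat_lit 5) (nat_lit 24) (nat_lit 5) (nat_lit 23) (nat_lit 4) (nat_lit 487) (nat_lit 384) (nat_lit 329)) (XT.lf (nat_lit 0) (nat_lit 21366439031) (nat_lit 152) (nat_lit 22932022573) (nat_lit 0) (nat_lit 10658681200) (nat_lit 21) (nat_lit 5) (nat_lit 23) (nat_lit 4) (nat_lit 21) (nat_lit 4) (nat_lit 488) (nat_lit 384) (nat_lit 328))))) (XT.nd (nat_lit 234) (nat_lit 228) (nat_lit 0) (XT.nd (nat_lit 78) (nat_lit 152) (nat_lit 0) (XT.lf (nat_lit 0) (nat_lit 10457371718) (nat_lit 76) (nat_lit 28735418973) (nat_lit 76) (nat_lit 17992171576) (nat_lit 20) (nat_lit 4) (nat_lit 21) (nat_lit 5) (nat_lit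 21) (nat_lit 4) (nat_lit 489) (nat_lit 384) (nat_lit 327)) (XT.nd (nat_lit 78) (nat_lit 152) (nat_lit 0) (XT.lf (nat_lit 0) (nat_lit 45807490223) (nat_lit 76) (nat_lit 12244738515) (nat_lit 76) (nat_lit 1467691531) (nat_lit 20) (nat_lit 4) (nat_lit 21) (nat_lit 5) (nat_lit 21) (nat_lit 4) (nat_lit 490) (nat_lit 384) (nat_lit 326)) (XT.lf (nat_lit 0) (nat_lit 15735926451) (nat_lit 152) (nat_lit 40984712991) (nat_lit 0) (nat_lit 5241521532) (nat_lit 18) (nat_lit 5) (nat_lit 20) (nat_lit 4) (nat_lit 18) (nat_lit 4) (nat_lit 491) (nat_lit 384) (nat_lit 325)))) (XT.nd (nat_lit 156) (nat_lit 152) (nat_lit 0) (XT.nd (nat_lit 78) (nat_lit 76) (nat_lit 0) (XT.lf (nat_lit 0) (nat_lit 33946890722) (nat_lit 152) (nat_lit 7151140502) (nat_lit 0) (nat_lit 23422721511) (nat_lit 18) (nat_lit 5) (nat_lit 20) (nat_lit 4) (nat_lit 18) (nat_lit 4) (nat_lit 492) (nat_lit 384) (nat_lit 324)) (XT.lf (nat_lit 0) (nat_lit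 28766466650) (nat_lit 76) (nat_lit 24493784342) (nat_lit 76) (nat_lit 13941268185) (nat_lit 17) (nat_lit 4) (nat_lit 18) (nat_lit 5) (nat_lit 18) (nat_lit 4) (nat_lit 493) (nat_lit 384) (nat_lit 323))) (XT.nd (nat_lit 78) (nat_lit 76) (nat_lit 0) (XT.lf (nat_lit 0) (nat_lit 3445519956) (nat_lit 152) (nat_lit 3585107735) (nat_lit 76) (nat_lit 62984941491) (nat_lit 16) (nat_lit 5) (nat_lit 18) (nat_lit 5) (nat_lit 17) (nat_lit 4) (nat_lit 494) (nat_lit 384) (nat_lit 322)) (XT.lf (nat_lit 0) (nat_lit 21770083045) (nat_lit 152) (nat_lit 39711646940) (nat_lit 0) (nat_lit 11473748325) (nat_lit 15) (nat_lit 5) (nat_lit 17) (nat_lit 4) (nat_lit 15) (nat_lit 4) (nat_lit 495) (nat_lit 384) (nat_lit 321))))))))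
noncomputable def xc23 : XT := (XT.nd (nat_lit 59046) (nat_lit 0) (nat_lit 1520) (XT.nd (nat_lit 58032) (nat_lit 0) (nat_lit 4940) (XT.nd (nat_lit 57564) (nat_lit 0) (nat_lit 8132) (XT.nd (nat_lit 57330) (nat_lit 0) (nat_lit 10640) (XT.nd (nat_lit 78) (nat_lit 152) (nat_lit 0) (XT.lf (nat_lit 0) (nat_lit 41041582893) (nat_lit 152) (nat_lit 4278404951) (nat_lit 0) (nat_lit 30721474234) (nat_lit 15) (nat_lit 5) (nat_lit 17) (nat_lit 4) (nat_lit 15) (nat_lit 4) (nat_lit 496) (nat_lit 384) (nat_lit 320)) (XT.nd (nat_lit 78) (nat_lit 76) (nat_lit 0) (XT.lf (nat_lit 0) (nat_lit 33431304656) (nat_lit 76) (nat_lit 28092882709) (nat_lit 76) (nat_lit 17750132202) (nat_lit 14) (nat_lit 4) (nat_lit 15) (nat_lit 5) (nat_lit 15) (nat_lit 4) (nat_lit 497) (nat_lit 384) (nat_lit 319)) (XT.lf (nat_lit 0) (nat_lit 327109978) (nat_lit 152) (nat_lit 9700280912) (nat_lit 76) (nat_lit 72642162795) (nat_lit 13) (nat_lit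 5) (nat_lit 15) (nat_lit 5) (nat_lit 14) (nat_lit 4) (nat_lit 498) (nat_lit 384) (nat_lit 318)))) (XT.nd (nat_lit 78) (nat_lit 1064) (nat_lit 0) (XT.lf (nat_lit 0) (nat_lit 3088029812) (nat_lit 304) (nat_lit 733168144) (nat_lit 304) (nat_lit 733168144) (nat_lit 167) (nat_lit 4) (nat_lit 171) (nat_lit 5) (nat_lit 171) (nat_lit 4) (nat_lit 430) (nat_lit 385) (nat_lit 385)) (XT.nd (nat_lit 78) (nat_lit 380) (nat_lit 0) (XT.lf (nat_lit 0) (nat_lit 1065516625) (nat_lit 304) (nat_lit 4831337120) (nat_lit 304) (nat_lit 3399661271) (nat_lit 158) (nat_lit 4) (nat_lit 162) (nat_lit 5) (nat_lit 162) (nat_lit 4) (nat_lit 431) (nat_lit 385) (nat_lit 384)) (XT.lf (nat_lit 0) (nat_lit 3969966107) (nat_lit 380) (nat_lit 4267560825) (nat_lit 0) (nat_lit 1256202362) (nat_lit 153) (nat_lit 5) (nat_lit 158) (nat_lit 4) (nat_lit 153) (nat_lit 4) (nat_lit 432) (nat_lit 385) (nat_lit 383))))) (XT.nd (nat_lit 234) (nat_lit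 1292) (nat_lit 0) (XT.nd (nat_lit 78) (nat_lit 836) (nat_lit 0) (XT.lf (nat_lit 0) (nat_lit 1845143801) (nat_lit 380) (nat_lit 228871536) (nat_lit 76) (nat_lit 7626893356) (nat_lit 148) (nat_lit 5) (nat_lit 153) (nat_lit 5) (nat_lit 149) (nat_lit 4) (nat_lit 433) (nat_lit 385) (nat_lit 382)) (XT.nd (nat_lit 78) (nat_lit 304) (nat_lit 0) (XT.lf (nat_lit 0) (nat_lit 3966017737) (nat_lit 304) (nat_lit 5487867064) (nat_lit 304) (nat_lit 463374384) (nat_lit 141) (nat_lit 4) (nat_lit 145) (nat_lit 5) (nat_lit 145) (nat_lit 4) (nat_lit 434) (nat_lit 385) (nat_lit 381)) (XT.lf (nat_lit 0) (nat_lit 7099890773) (nat_lit 304) (nat_lit 1900292294) (nat_lit 0) (nat_lit 1143849101) (nat_lit 137) (nat_lit 5) (nat_lit 141) (nat_lit 4) (nat_lit 137) (nat_lit 4) (nat_lit 435) (nat_lit 385) (nat_lit 380)))) (XT.nd (nat_lit 78) (nat_lit 760) (nat_lit 0) (XT.lf (nat_lit 0) (nat_lit 2260264298) (nat_lit 228) (nat_lit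 2292874199) (nat_lit 304) (nat_lit 5827721090) (nat_lit 130) (nat_lit 5) (nat_lit 133) (nat_lit 5) (nat_lit 134) (nat_lit 4) (nat_lit 436) (nat_lit 385) (nat_lit 379)) (XT.nd (nat_lit 78) (nat_lit 456) (nat_lit 0) (XT.lf (nat_lit 0) (nat_lit 1791521647) (nat_lit 304) (nat_lit 4091645983) (nat_lit 76) (nat_lit 4745282442) (nat_lit 126) (nat_lit 5) (nat_lit 130) (nat_lit 5) (nat_lit 127) (nat_lit 4) (nat_lit 437) (nat_lit 385) (nat_lit 378)) (XT.lf (nat_lit 0) (nat_lit 5390054) (nat_lit 228) (nat_lit 9631674411) (nat_lit 228) (nat_lit 1250665026) (nat_lit 120) (nat_lit 4) (nat_lit 123) (nat_lit 5) (nat_lit 123) (nat_lit 4) (nat_lit 438) (nat_lit 385) (nat_lit 377)))))) (XT.nd (nat_lit 468) (nat_lit 1520) (nat_lit 0) (XT.nd (nat_lit 234) (nat_lit 760) (nat_lit 0) (XT.nd (nat_lit 78) (nat_lit 684) (nat_lit 0) (XT.lf (nat_lit 0) (nat_lit 4222898068) (nat_lit 152) (nat_lit 2397687119) (nat_lit 228) (nat_lit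 4536365196) (nat_lit 117) (nat_lit 5) (nat_lit 119) (nat_lit 5) (nat_lit 120) (nat_lit 4) (nat_lit 439) (nat_lit 385) (nat_lit 376)) (XT.nd (nat_lit 78) (nat_lit 380) (nat_lit 0) (XT.lf (nat_lit 0) (nat_lit 3345321515) (nat_lit 304) (nat_lit 2930324033) (nat_lit 76) (nat_lit 5162889167) (nat_lit 113) (nat_lit 5) (nat_lit 117) (nat_lit 5) (nat_lit 114) (nat_lit 4) (nat_lit 440) (nat_lit 385) (nat_lit 375)) (XT.lf (nat_lit 0) (nat_lit 1163938042) (nat_lit 228) (nat_lit 10360913154) (nat_lit 228) (nat_lit 208085606) (nat_lit 108) (nat_lit 4) (nat_lit 111) (nat_lit 5) (nat_lit 111) (nat_lit 4) (nat_lit 441) (nat_lit 385) (nat_lit 374)))) (XT.nd (nat_lit 78) (nat_lit 532) (nat_lit 0) (XT.lf (nat_lit 0) (nat_lit 5326669618) (nat_lit 152) (nat_lit 2633977015) (nat_lit 228) (nat_lit 4077691626) (nat_lit 105) (nat_lit 5) (nat_lit 107) (nat_lit 5) (nat_lit 108) (nat_lit 4) (nat_lit 442) (nat_lit 385) (nat_lit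 373)) (XT.nd (nat_lit 78) (nat_lit 304) (nat_lit 0) (XT.lf (nat_lit 0) (nat_lit 4105520047) (nat_lit 228) (nat_lit 2813025652) (nat_lit 76) (nat_lit 5438837299) (nat_lit 102) (nat_lit 5) (nat_lit 105) (nat_lit 5) (nat_lit 103) (nat_lit 4) (nat_lit 443) (nat_lit 385) (nat_lit 372)) (XT.lf (nat_lit 0) (nat_lit 1164191186) (nat_lit 152) (nat_lit 11465480174) (nat_lit 152) (nat_lit 61024890) (nat_lit 98) (nat_lit 4) (nat_lit 100) (nat_lit 5) (nat_lit 100) (nat_lit 4) (nat_lit 444) (nat_lit 385) (nat_lit 371))))) (XT.nd (nat_lit 234) (nat_lit 912) (nat_lit 0) (XT.nd (nat_lit 78) (nat_lit 380) (nat_lit 0) (XT.lf (nat_lit 0) (nat_lit 5179073334) (nat_lit 152) (nat_lit 3263153091) (nat_lit 228) (nat_lit 4593911045) (nat_lit 95) (nat_lit 5) (nat_lit 97) (nat_lit 5) (nat_lit 98) (nat_lit 4) (nat_lit 445) (nat_lit 385) (nat_lit 370)) (XT.nd (nat_lit 78) (nat_lit 152) (nat_lit 0) (XT.lf (nat_lit 0) (nat_lit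 3921389150) (nat_lit 228) (nat_lit 4162344383) (nat_lit 76) (nat_lit 5313113639) (nat_lit 92) (nat_lit 5) (nat_lit 95) (nat_lit 5) (nat_lit 93) (nat_lit 4) (nat_lit 446) (nat_lit 385) (nat_lit 369)) (XT.lf (nat_lit 0) (nat_lit 12789085855) (nat_lit 228) (nat_lit 438902280) (nat_lit 0) (nat_lit 545599299) (nat_lit 90) (nat_lit 5) (nat_lit 93) (nat_lit 4) (nat_lit 90) (nat_lit 4) (nat_lit 447) (nat_lit 385) (nat_lit 368)))) (XT.nd (nat_lit 156) (nat_lit 304) (nat_lit 0) (XT.nd (nat_lit 78) (nat_lit 228) (nat_lit 0) (XT.lf (nat_lit 0) (nat_lit 3300377569) (nat_lit 152) (nat_lit 4578988958) (nat_lit 228) (nat_lit 6284425420) (nat_lit 85) (nat_lit 5) (nat_lit 87) (nat_lit 5) (nat_lit 88) (nat_lit 4) (nat_lit 448) (nat_lit 385) (nat_lit 367)) (XT.lf (nat_lit 0) (nat_lit 2583638685) (nat_lit 228) (nat_lit 7497444843) (nat_lit 76) (nat_lit 4490149097) (nat_lit 82) (nat_lit 5) (nat_lit 85) (nat_lit 5) (nat_lit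 83) (nat_lit 4) (nat_lit 449) (nat_lit 385) (nat_lit 366))) (XT.nd (nat_lit 78) (nat_lit 228) (nat_lit 0) (XT.lf (nat_lit 0) (nat_lit 10836980854) (nat_lit 76) (nat_lit 974146210) (nat_lit 152) (nat_lit 3184679015) (nat_lit 81) (nat_lit 5) (nat_lit 82) (nat_lit 5) (nat_lit 83) (nat_lit 4) (nat_lit 450) (nat_lit 385) (nat_lit 365)) (XT.lf (nat_lit 0) (nat_lit 6028348870) (nat_lit 228) (nat_lit 886782033) (nat_lit 76) (nat_lit 8522091197) (nat_lit 78) (nat_lit 5) (nat_lit 81) (nat_lit 5) (nat_lit 79) (nat_lit 4) (nat_lit 451) (nat_lit 385) (nat_lit 364))))))) (XT.nd (nat_lit 1014) (nat_lit 1368) (nat_lit 0) (XT.nd (nat_lit 468) (nat_lit 1064) (nat_lit 0) (XT.nd (nat_lit 234) (nat_lit 380) (nat_lit 0) (XT.nd (nat_lit 78) (nat_lit 380) (nat_lit 0) (XT.lf (nat_lit 0) (nat_lit 2431504544) (nat_lit 152) (nat_lit 13273997036) (nat_lit 152) (nat_lit 192187598) (nat_lit 75) (nat_lit 4) (nat_lit 77) (nat_lit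 5) (nat_lit 77) (nat_lit 4) (nat_lit 452) (nat_lit 385) (nat_lit 363)) (XT.nd (nat_lit 78) (nat_lit 228) (nat_lit 0) (XT.lf (nat_lit 0) (nat_lit 5663039780) (nat_lit 76) (nat_lit 3730266775) (nat_lit 152) (nat_lit 6982351522) (nat_lit 73) (nat_lit 5) (nat_lit 74) (nat_lit 5) (nat_lit 75) (nat_lit 4) (nat_lit 453) (nat_lit 385) (nat_lit 362)) (XT.lf (nat_lit 0) (nat_lit 2607252264) (nat_lit 228) (nat_lit 8021382611) (nat_lit 76) (nat_lit 6245668844) (nat_lit 70) (nat_lit 5) (nat_lit 73) (nat_lit 5) (nat_lit 71) (nat_lit 4) (nat_lit 454) (nat_lit 385) (nat_lit 361)))) (XT.nd (nat_lit 78) (nat_lit 304) (nat_lit 0) (XT.lf (nat_lit 0) (nat_lit 11970476242) (nat_lit 76) (nat_lit 625343567) (nat_lit 152) (nat_lit 4798076340) (nat_lit 69) (nat_lit 5) (nat_lit 70) (nat_lit 5) (nat_lit 71) (nat_lit 4) (nat_lit 455) (nat_lit 385) (nat_lit 360)) (XT.nd (nat_lit 78) (nat_lit 76) (nat_lit 0) (XT.lf (nat_lit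 0) (nat_lit 5170736292) (nat_lit 228) (nat_lit 2969815989) (nat_lit 76) (nat_lit 9793633957) (nat_lit 66) (nat_lit 5) (nat_lit 69) (nat_lit 5) (nat_lit 67) (nat_lit 4) (nat_lit 456) (nat_lit 385) (nat_lit 359)) (XT.lf (nat_lit 0) (nat_lit 15603823593) (nat_lit 152) (nat_lit 608263341) (nat_lit 0) (nat_lit 2286031293) (nat_lit 65) (nat_lit 5) (nat_lit 67) (nat_lit 4) (nat_lit 65) (nat_lit 4) (nat_lit 457) (nat_lit 385) (nat_lit 358))))) (XT.nd (nat_lit 234) (nat_lit 456) (nat_lit 0) (XT.nd (nat_lit 78) (nat_lit 304) (nat_lit 0) (XT.lf (nat_lit 0) (nat_lit 1598991946) (nat_lit 76) (nat_lit 5863466720) (nat_lit 152) (nat_lit 11621442422) (nat_lit 61) (nat_lit 5) (nat_lit 62) (nat_lit 5) (nat_lit 63) (nat_lit 4) (nat_lit 458) (nat_lit 385) (nat_lit 357)) (XT.nd (nat_lit 78) (nat_lit 152) (nat_lit 0) (XT.lf (nat_lit 0) (nat_lit 3687455979) (nat_lit 152) (nat_lit 14688680534) (nat_lit 152) (nat_lit 1319012522)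 (nat_lit 59) (nat_lit 4) (nat_lit 61) (nat_lit 5) (nat_lit 61) (nat_lit 4) (nat_lit 459) (nat_lit 385) (nat_lit 356)) (XT.lf (nat_lit 0) (nat_lit 5550734403) (nat_lit 76) (nat_lit 3870305118) (nat_lit 152) (nat_lit 10909948836) (nat_lit 57) (nat_lit 5) (nat_lit 58) (nat_lit 5) (nat_lit 59) (nat_lit 4) (nat_lit 460) (nat_lit 385) (nat_lit 355)))) (XT.nd (nat_lit 156) (nat_lit 228) (nat_lit 0) (XT.nd (nat_lit 78) (nat_lit 152) (nat_lit 0) (XT.lf (nat_lit 0) (nat_lit 7230933166) (nat_lit 76) (nat_lit 13565528818) (nat_lit 76) (nat_lit 197999983) (nat_lit 56) (nat_lit 4) (nat_lit 57) (nat_lit 5) (nat_lit 57) (nat_lit 4) (nat_lit 461) (nat_lit 385) (nat_lit 354)) (XT.lf (nat_lit 0) (nat_lit 8642200793) (nat_lit 76) (nat_lit 2288658993) (nat_lit 152) (nat_lit 10754158376) (nat_lit 54) (nat_lit 5) (nat_lit 55) (nat_lit 5) (nat_lit 56) (nat_lit 4) (nat_lit 462) (nat_lit 385) (nat_lit 353))) (XT.nd (nat_lit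 78) (nat_lit 76) (nat_lit 0) (XT.lf (nat_lit 0) (nat_lit 353712396) (nat_lit 152) (nat_lit 12601180239) (nat_lit 76) (nat_lit 9450426555) (nat_lit 52) (nat_lit 5) (nat_lit 54) (nat_lit 5) (nat_lit 53) (nat_lit 4) (nat_lit 463) (nat_lit 385) (nat_lit 352)) (XT.lf (nat_lit 0) (nat_lit 10651108754) (nat_lit 76) (nat_lit 1234980390) (nat_lit 152) (nat_lit 11269608937) (nat_lit 51) (nat_lit 5) (nat_lit 52) (nat_lit 5) (nat_lit 53) (nat_lit 4) (nat_lit 464) (nat_lit 385) (nat_lit 351)))))) (XT.nd (nat_lit 468) (nat_lit 684) (nat_lit 0) (XT.nd (nat_lit 234) (nat_lit 380) (nat_lit 0) (XT.nd (nat_lit 78) (nat_lit 152) (nat_lit 0) (XT.lf (nat_lit 0) (nat_lit 229014029) (nat_lit 152) (nat_lit 12766697106) (nat_lit 76) (nat_lit 10942516685) (nat_lit 49) (nat_lit 5) (nat_lit 51) (nat_lit 5) (nat_lit 50) (nat_lit 4) (nat_lit 465) (nat_lit 385) (nat_lit 350)) (XT.nd (nat_lit 78) (nat_lit 76) (nat_lit 0) (XT.lf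 (nat_lit 0) (nat_lit 11309892626) (nat_lit 76) (nat_lit 848239663) (nat_lit 152) (nat_lit 12595747760) (nat_lit 48) (nat_lit 5) (nat_lit 49) (nat_lit 5) (nat_lit 50) (nat_lit 4) (nat_lit 466) (nat_lit 385) (nat_lit 349)) (XT.lf (nat_lit 0) (nat_lit 11036092051) (nat_lit 76) (nat_lit 13839569427) (nat_lit 76) (nat_lit 728897162) (nat_lit 47) (nat_lit 4) (nat_lit 48) (nat_lit 5) (nat_lit 48) (nat_lit 4) (nat_lit 467) (nat_lit 385) (nat_lit 348)))) (XT.nd (nat_lit 78) (nat_lit 228) (nat_lit 0) (XT.lf (nat_lit 0) (nat_lit 10297359768) (nat_lit 76) (nat_lit 1294214219) (nat_lit 152) (nat_lit 14900140408) (nat_lit 45) (nat_lit 5) (nat_lit 46) (nat_lit 5) (nat_lit 47) (nat_lit 4) (nat_lit 468) (nat_lit 385) (nat_lit 347)) (XT.nd (nat_lit 78) (nat_lit 152) (nat_lit 0) (XT.lf (nat_lit 0) (nat_lit 9042884634) (nat_lit 76) (nat_lit 15667945441) (nat_lit 76) (nat_lit 2706248391) (nat_lit 44) (nat_lit 4) (nat_lit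 45) (nat_lit 5) (nat_lit 45) (nat_lit 4) (nat_lit 469) (nat_lit 385) (nat_lit 346)) (XT.lf (nat_lit 0) (nat_lit 7228894949) (nat_lit 76) (nat_lit 2770507351) (nat_lit 152) (nat_lit 18383425557) (nat_lit 42) (nat_lit 5) (nat_lit 43) (nat_lit 5) (nat_lit 44) (nat_lit 4) (nat_lit 470) (nat_lit 385) (nat_lit 345))))) (XT.nd (nat_lit 234) (nat_lit 456) (nat_lit 0) (XT.nd (nat_lit 78) (nat_lit 152) (nat_lit 0) (XT.lf (nat_lit 0) (nat_lit 4773702253) (nat_lit 76) (nat_lit 18702924618) (nat_lit 76) (nat_lit 5913668051) (nat_lit 41) (nat_lit 4) (nat_lit 42) (nat_lit 5) (nat_lit 42) (nat_lit 4) (nat_lit 471) (nat_lit 385) (nat_lit 344)) (XT.nd (nat_lit 78) (nat_lit 0) (nat_lit 0) (XT.lf (nat_lit 0) (nat_lit 1644961680) (nat_lit 76) (nat_lit 5512425353) (nat_lit 152) (nat_lit 23285142321) (nat_lit 39) (nat_lit 5) (nat_lit 40) (nat_lit 5) (nat_lit 41) (nat_lit 4) (nat_lit 472) (nat_lit 385) (nat_lit 343))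 (XT.lf (nat_lit 0) (nat_lit 20954063776) (nat_lit 152) (nat_lit 2229015679) (nat_lit 0) (nat_lit 8356709979) (nat_lit 39) (nat_lit 5) (nat_lit 41) (nat_lit 4) (nat_lit 39) (nat_lit 4) (nat_lit 473) (nat_lit 385) (nat_lit 342)))) (XT.nd (nat_lit 156) (nat_lit 228) (nat_lit 0) (XT.nd (nat_lit 78) (nat_lit 76) (nat_lit 0) (XT.lf (nat_lit 0) (nat_lit 2864780672) (nat_lit 152) (nat_lit 6865751400) (nat_lit 76) (nat_lit 22955496654) (nat_lit 37) (nat_lit 5) (nat_lit 39) (nat_lit 5) (nat_lit 38) (nat_lit 4) (nat_lit 474) (nat_lit 385) (nat_lit 341)) (XT.lf (nat_lit 0) (nat_lit 16911543522) (nat_lit 152) (nat_lit 12448549120) (nat_lit 0) (nat_lit 4522064703) (nat_lit 36) (nat_lit 5) (nat_lit 38) (nat_lit 4) (nat_lit 36) (nat_lit 4) (nat_lit 475) (nat_lit 385) (nat_lit 340))) (XT.nd (nat_lit 78) (nat_lit 152) (nat_lit 0) (XT.lf (nat_lit 0) (nat_lit 16113282776) (nat_lit 76) (nat_lit 15741180308) (nat_lit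 76) (nat_lit 3277816129) (nat_lit 35) (nat_lit 4) (nat_lit 36) (nat_lit 5) (nat_lit 36) (nat_lit 4) (nat_lit 476) (nat_lit 385) (nat_lit 339)) (XT.lf (nat_lit 0) (nat_lit 9751773190) (nat_lit 76) (nat_lit 1226307784) (nat_lit 152) (nat_lit 25460774988) (nat_lit 33) (nat_lit 5) (nat_lit 34) (nat_lit 5) (nat_lit 35) (nat_lit 4) (nat_lit 477) (nat_lit 385) (nat_lit 338))))))))
noncomputable def xc24 : XT := (XT.nd (nat_lit 58890) (nat_lit 0) (nat_lit 3876) (XT.nd (nat_lit 936) (nat_lit 532) (nat_lit 0) (XT.nd (nat_lit 468) (nat_lit 456) (nat_lit 0) (XT.nd (nat_lit 234) (nat_lit 228) (nat_lit 0) (XT.nd (nat_lit 78) (nat_lit 152) (nat_lit 0) (XT.lf (nat_lit 0) (nat_lit 2178248681) (nat_lit 76) (nat_lit 23929210749) (nat_lit 76) (nat_lit 11695475419) (nat_lit 32) (nat_lit 4) (nat_lit 33) (nat_lit 5) (nat_lit 33) (nat_lit 4) (nat_lit 478) (nat_lit 385) (nat_lit 337)) (XT.nd (nat_lit 78) (nat_lit 76) (nat_lit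 0) (XT.lf (nat_lit 0) (nat_lit 2871010617) (nat_lit 152) (nat_lit 6467549750) (nat_lit 76) (nat_lit 29890860808) (nat_lit 31) (nat_lit 5) (nat_lit 33) (nat_lit 5) (nat_lit 32) (nat_lit 4) (nat_lit 479) (nat_lit 385) (nat_lit 336)) (XT.lf (nat_lit 0) (nat_lit 18102158364) (nat_lit 152) (nat_lit 16508966123) (nat_lit 0) (nat_lit 6107287960) (nat_lit 30) (nat_lit 5) (nat_lit 32) (nat_lit 4) (nat_lit 30) (nat_lit 4) (nat_lit 480) (nat_lit 385) (nat_lit 335)))) (XT.nd (nat_lit 78) (nat_lit 152) (nat_lit 0) (XT.lf (nat_lit 0) (nat_lit 14230773591) (nat_lit 76) (nat_lit 20047508243) (nat_lit 76) (nat_lit 7998069913) (nat_lit 29) (nat_lit 4) (nat_lit 30) (nat_lit 5) (nat_lit 30) (nat_lit 4) (nat_lit 481) (nat_lit 385) (nat_lit 334)) (XT.nd (nat_lit 78) (nat_lit 0) (nat_lit 0) (XT.lf (nat_lit 0) (nat_lit 2702477260) (nat_lit 76) (nat_lit 4590076949) (nat_lit 152) (nat_lit 36614965597) (nat_lit 27) (nat_lit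 5) (nat_lit 28) (nat_lit 5) (nat_lit 29) (nat_lit 4) (nat_lit 482) (nat_lit 385) (nat_lit 333)) (XT.lf (nat_lit 0) (nat_lit 23476905032) (nat_lit 152) (nat_lit 10452215920) (nat_lit 0) (nat_lit 11679912310) (nat_lit 27) (nat_lit 5) (nat_lit 29) (nat_lit 4) (nat_lit 27) (nat_lit 4) (nat_lit 483) (nat_lit 385) (nat_lit 332))))) (XT.nd (nat_lit 234) (nat_lit 228) (nat_lit 0) (XT.nd (nat_lit 78) (nat_lit 152) (nat_lit 0) (XT.lf (nat_lit 0) (nat_lit 22012748970) (nat_lit 76) (nat_lit 18610523944) (nat_lit 76) (nat_lit 6767766343) (nat_lit 26) (nat_lit 4) (nat_lit 27) (nat_lit 5) (nat_lit 27) (nat_lit 4) (nat_lit 484) (nat_lit 385) (nat_lit 331)) (XT.nd (nat_lit 78) (nat_lit 0) (nat_lit 0) (XT.lf (nat_lit 0) (nat_lit 6899216254) (nat_lit 76) (nat_lit 2354753921) (nat_lit 152) (nat_lit 40003318623) (nat_lit 24) (nat_lit 5) (nat_lit 25) (nat_lit 5) (nat_lit 26) (nat_lit 4) (nat_lit 485) (nat_lit 385) (nat_lit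 330)) (XT.lf (nat_lit 0) (nat_lit 26242361811) (nat_lit 152) (nat_lit 10301391729) (nat_lit 0) (nat_lit 14661921716) (nat_lit 24) (nat_lit 5) (nat_lit 26) (nat_lit 4) (nat_lit 24) (nat_lit 4) (nat_lit 486) (nat_lit 385) (nat_lit 329)))) (XT.nd (nat_lit 78) (nat_lit 152) (nat_lit 0) (XT.lf (nat_lit 0) (nat_lit 23603541689) (nat_lit 76) (nat_lit 20631064562) (nat_lit 76) (nat_lit 9012242502) (nat_lit 23) (nat_lit 4) (nat_lit 24) (nat_lit 5) (nat_lit 24) (nat_lit 4) (nat_lit 487) (nat_lit 385) (nat_lit 328)) (XT.nd (nat_lit 78) (nat_lit 0) (nat_lit 0) (XT.lf (nat_lit 0) (nat_lit 3843885818) (nat_lit 76) (nat_lit 3791218679) (nat_lit 152) (nat_lit 47751255468) (nat_lit 21) (nat_lit 5) (nat_lit 22) (nat_lit 5) (nat_lit 23) (nat_lit 4) (nat_lit 488) (nat_lit 385) (nat_lit 327)) (XT.lf (nat_lit 0) (nat_lit 25279373223) (nat_lit 152) (nat_lit 18410594697) (nat_lit 0) (nat_lit 13929674303) (nat_lit 21)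 (nat_lit 5) (nat_lit 23) (nat_lit 4) (nat_lit 21) (nat_lit 4) (nat_lit 489) (nat_lit 385) (nat_lit 326)))))) (XT.nd (nat_lit 468) (nat_lit 76) (nat_lit 0) (XT.nd (nat_lit 234) (nat_lit 228) (nat_lit 0) (XT.nd (nat_lit 78) (nat_lit 152) (nat_lit 0) (XT.lf (nat_lit 0) (nat_lit 16485796395) (nat_lit 76) (nat_lit 27428711118) (nat_lit 76) (nat_lit 16046822116) (nat_lit 20) (nat_lit 4) (nat_lit 21) (nat_lit 5) (nat_lit 21) (nat_lit 4) (nat_lit 490) (nat_lit 385) (nat_lit 325)) (XT.nd (nat_lit 78) (nat_lit 76) (nat_lit 0) (XT.lf (nat_lit 0) (nat_lit 1145607894) (nat_lit 152) (nat_lit 9086962197) (nat_lit 76) (nat_lit 52184075200) (nat_lit 19) (nat_lit 5) (nat_lit 21) (nat_lit 5) (nat_lit 20) (nat_lit 4) (nat_lit 491) (nat_lit 385) (nat_lit 324)) (XT.lf (nat_lit 0) (nat_lit 19126936573) (nat_lit 152) (nat_lit 37836742140) (nat_lit 0) (nat_lit 8018447663) (nat_lit 18) (nat_lit 5) (nat_lit 20) (nat_lit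 4) (nat_lit 18) (nat_lit 4) (nat_lit 492) (nat_lit 385) (nat_lit 323)))) (XT.nd (nat_lit 78) (nat_lit 228) (nat_lit 0) (XT.lf (nat_lit 0) (nat_lit 38124438877) (nat_lit 152) (nat_lit 2558977050) (nat_lit 0) (nat_lit 26988952877) (nat_lit 18) (nat_lit 5) (nat_lit 20) (nat_lit 4) (nat_lit 18) (nat_lit 4) (nat_lit 493) (nat_lit 385) (nat_lit 322)) (XT.nd (nat_lit 78) (nat_lit 152) (nat_lit 0) (XT.lf (nat_lit 0) (nat_lit 35012627715) (nat_lit 76) (nat_lit 23318950389) (nat_lit 76) (nat_lit 12157752873) (nat_lit 17) (nat_lit 4) (nat_lit 18) (nat_lit 5) (nat_lit 18) (nat_lit 4) (nat_lit 494) (nat_lit 385) (nat_lit 321)) (XT.lf (nat_lit 0) (nat_lit 877772088) (nat_lit 76) (nat_lit 5064817448) (nat_lit 152) (nat_lit 67504000684) (nat_lit 15) (nat_lit 5) (nat_lit 16) (nat_lit 5) (nat_lit 17) (nat_lit 4) (nat_lit 495) (nat_lit 385) (nat_lit 320))))) (XT.nd (nat_lit 57174) (nat_lit 0) (nat_lit 10944) (XT.nd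 (nat_lit 78) (nat_lit 76) (nat_lit 0) (XT.lf (nat_lit 0) (nat_lit 25129387398) (nat_lit 152) (nat_lit 37158870336) (nat_lit 0) (nat_lit 14246857520) (nat_lit 15) (nat_lit 5) (nat_lit 17) (nat_lit 4) (nat_lit 15) (nat_lit 4) (nat_lit 496) (nat_lit 385) (nat_lit 319)) (XT.nd (nat_lit 78) (nat_lit 76) (nat_lit 0) (XT.lf (nat_lit 0) (nat_lit 45256328896) (nat_lit 152) (nat_lit 170078579) (nat_lit 0) (nat_lit 34352235354) (nat_lit 15) (nat_lit 5) (nat_lit 17) (nat_lit 4) (nat_lit 15) (nat_lit 4) (nat_lit 497) (nat_lit 385) (nat_lit 318)) (XT.lf (nat_lit 0) (nat_lit 39301220177) (nat_lit 76) (nat_lit 27399216389) (nat_lit 76) (nat_lit 16474586025) (nat_lit 14) (nat_lit 4) (nat_lit 15) (nat_lit 5) (nat_lit 15) (nat_lit 4) (nat_lit 498) (nat_lit 385) (nat_lit 317)))) (XT.nd (nat_lit 156) (nat_lit 988) (nat_lit 0) (XT.nd (nat_lit 78) (nat_lit 760) (nat_lit 0) (XT.lf (nat_lit 0) (nat_lit 1775806808) (nat_lit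 380) (nat_lit 826313797) (nat_lit 0) (nat_lit 1775806808) (nat_lit 181) (nat_lit 5) (nat_lit 186) (nat_lit 4) (nat_lit 181) (nat_lit 4) (nat_lit 428) (nat_lit 386) (nat_lit 386)) (XT.lf (nat_lit 0) (nat_lit 1824426893) (nat_lit 380) (nat_lit 6829614486) (nat_lit 0) (nat_lit 276069462) (nat_lit 171) (nat_lit 5) (nat_lit 176) (nat_lit 4) (nat_lit 171) (nat_lit 4) (nat_lit 429) (nat_lit 386) (nat_lit 385))) (XT.nd (nat_lit 78) (nat_lit 684) (nat_lit 0) (XT.lf (nat_lit 0) (nat_lit 5965444891) (nat_lit 304) (nat_lit 3085243110) (nat_lit 304) (nat_lit 62259555) (nat_lit 167) (nat_lit 4) (nat_lit 171) (nat_lit 5) (nat_lit 171) (nat_lit 4) (nat_lit 430) (nat_lit 386) (nat_lit 384)) (XT.lf (nat_lit 0) (nat_lit 624859360) (nat_lit 304) (nat_lit 6489347271) (nat_lit 304) (nat_lit 2190910972) (nat_lit 158) (nat_lit 4) (nat_lit 162) (nat_lit 5) (nat_lit 162) (nat_lit 4) (nat_lit 431) (nat_lit 386) (nat_lit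 383))))))) (XT.nd (nat_lit 1014) (nat_lit 2660) (nat_lit 0) (XT.nd (nat_lit 468) (nat_lit 1976) (nat_lit 0) (XT.nd (nat_lit 234) (nat_lit 1064) (nat_lit 0) (XT.nd (nat_lit 78) (nat_lit 988) (nat_lit 0) (XT.lf (nat_lit 0) (nat_lit 4557274321) (nat_lit 304) (nat_lit 444835441) (nat_lit 380) (nat_lit 4504475579) (nat_lit 153) (nat_lit 5) (nat_lit 157) (nat_lit 5) (nat_lit 158) (nat_lit 4) (nat_lit 432) (nat_lit 386) (nat_lit 382)) (XT.nd (nat_lit 78) (nat_lit 608) (nat_lit 0) (XT.lf (nat_lit 0) (nat_lit 2699797145) (nat_lit 380) (nat_lit 1154114635) (nat_lit 76) (nat_lit 5863911935) (nat_lit 148) (nat_lit 5) (nat_lit 153) (nat_lit 5) (nat_lit 149) (nat_lit 4) (nat_lit 433) (nat_lit 386) (nat_lit 381)) (XT.lf (nat_lit 0) (nat_lit 197767797) (nat_lit 380) (nat_lit 7150220682) (nat_lit 76) (nat_lit 2591166289) (nat_lit 140) (nat_lit 5) (nat_lit 145) (nat_lit 5) (nat_lit 141) (nat_lit 4) (nat_lit 434)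 (nat_lit 386) (nat_lit 380)))) (XT.nd (nat_lit 78) (nat_lit 836) (nat_lit 0) (XT.lf (nat_lit 0) (nat_lit 6818752514) (nat_lit 228) (nat_lit 781150914) (nat_lit 304) (nat_lit 2570462641) (nat_lit 137) (nat_lit 5) (nat_lit 140) (nat_lit 5) (nat_lit 141) (nat_lit 4) (nat_lit 435) (nat_lit 386) (nat_lit 379)) (XT.nd (nat_lit 78) (nat_lit 304) (nat_lit 0) (XT.lf (nat_lit 0) (nat_lit 513595642) (nat_lit 228) (nat_lit 4338413787) (nat_lit 304) (nat_lit 5560023020) (nat_lit 130) (nat_lit 5) (nat_lit 133) (nat_lit 5) (nat_lit 134) (nat_lit 4) (nat_lit 436) (nat_lit 386) (nat_lit 378)) (XT.lf (nat_lit 0) (nat_lit 1889892242) (nat_lit 304) (nat_lit 6131585135) (nat_lit 76) (nat_lit 2642999441) (nat_lit 126) (nat_lit 5) (nat_lit 130) (nat_lit 5) (nat_lit 127) (nat_lit 4) (nat_lit 437) (nat_lit 386) (nat_lit 377))))) (XT.nd (nat_lit 234) (nat_lit 988) (nat_lit 0) (XT.nd (nat_lit 78) (nat_lit 760) (nat_lit 0)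 (XT.lf (nat_lit 0) (nat_lit 8618964542) (nat_lit 228) (nat_lit 961325025) (nat_lit 304) (nat_lit 1348128626) (nat_lit 123) (nat_lit 5) (nat_lit 126) (nat_lit 5) (nat_lit 127) (nat_lit 4) (nat_lit 438) (nat_lit 386) (nat_lit 376)) (XT.nd (nat_lit 78) (nat_lit 304) (nat_lit 0) (XT.lf (nat_lit 0) (nat_lit 1573930382) (nat_lit 152) (nat_lit 4772681373) (nat_lit 228) (nat_lit 4856414806) (nat_lit 117) (nat_lit 5) (nat_lit 119) (nat_lit 5) (nat_lit 120) (nat_lit 4) (nat_lit 439) (nat_lit 386) (nat_lit 375)) (XT.lf (nat_lit 0) (nat_lit 2861027496) (nat_lit 304) (nat_lit 5908482838) (nat_lit 76) (nat_lit 2720314035) (nat_lit 113) (nat_lit 5) (nat_lit 117) (nat_lit 5) (nat_lit 114) (nat_lit 4) (nat_lit 440) (nat_lit 386) (nat_lit 374)))) (XT.nd (nat_lit 156) (nat_lit 380) (nat_lit 0) (XT.nd (nat_lit 78) (nat_lit 456) (nat_lit 0) (XT.lf (nat_lit 0) (nat_lit 9648016743) (nat_lit 152) (nat_lit 1221647969)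 (nat_lit 228) (nat_lit 919694701) (nat_lit 111) (nat_lit 5) (nat_lit 113) (nat_lit 5) (nat_lit 114) (nat_lit 4) (nat_lit 441) (nat_lit 386) (nat_lit 373)) (XT.lf (nat_lit 0) (nat_lit 1667198140) (nat_lit 152) (nat_lit 5412178254) (nat_lit 228) (nat_lit 5021101819) (nat_lit 105) (nat_lit 5) (nat_lit 107) (nat_lit 5) (nat_lit 108) (nat_lit 4) (nat_lit 442) (nat_lit 386) (nat_lit 372))) (XT.nd (nat_lit 78) (nat_lit 152) (nat_lit 0) (XT.lf (nat_lit 0) (nat_lit 3001253783) (nat_lit 228) (nat_lit 6840730805) (nat_lit 76) (nat_lit 2583193670) (nat_lit 102) (nat_lit 5) (nat_lit 105) (nat_lit 5) (nat_lit 103) (nat_lit 4) (nat_lit 443) (nat_lit 386) (nat_lit 371)) (XT.lf (nat_lit 0) (nat_lit 9537847231) (nat_lit 152) (nat_lit 1812862115) (nat_lit 228) (nat_lit 1413028070) (nat_lit 100) (nat_lit 5) (nat_lit 102) (nat_lit 5) (nat_lit 103) (nat_lit 4) (nat_lit 444) (nat_lit 386) (nat_lit 370)))))) (XT.nd (nat_lit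 468) (nat_lit 1216) (nat_lit 0) (XT.nd (nat_lit 234) (nat_lit 684) (nat_lit 0) (XT.nd (nat_lit 78) (nat_lit 380) (nat_lit 0) (XT.lf (nat_lit 0) (nat_lit 390073272) (nat_lit 152) (nat_lit 6520588749) (nat_lit 228) (nat_lit 6205089468) (nat_lit 95) (nat_lit 5) (nat_lit 97) (nat_lit 5) (nat_lit 98) (nat_lit 4) (nat_lit 445) (nat_lit 386) (nat_lit 369)) (XT.nd (nat_lit 78) (nat_lit 152) (nat_lit 0) (XT.lf (nat_lit 0) (nat_lit 2151185846) (nat_lit 228) (nat_lit 9362450235) (nat_lit 76) (nat_lit 1969007984) (nat_lit 92) (nat_lit 5) (nat_lit 95) (nat_lit 5) (nat_lit 93) (nat_lit 4) (nat_lit 446) (nat_lit 386) (nat_lit 368)) (XT.lf (nat_lit 0) (nat_lit 7841529521) (nat_lit 152) (nat_lit 3013482522) (nat_lit 228) (nat_lit 3009292497) (nat_lit 90) (nat_lit 5) (nat_lit 92) (nat_lit 5) (nat_lit 93) (nat_lit 4) (nat_lit 447) (nat_lit 386) (nat_lit 367)))) (XT.nd (nat_lit 78) (nat_lit 456) (nat_lit 0) (XT.lf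 (nat_lit 0) (nat_lit 5671999887) (nat_lit 228) (nat_lit 2696325292) (nat_lit 76) (nat_lit 5893434170) (nat_lit 87) (nat_lit 5) (nat_lit 90) (nat_lit 5) (nat_lit 88) (nat_lit 4) (nat_lit 448) (nat_lit 386) (nat_lit 366)) (XT.nd (nat_lit 78) (nat_lit 76) (nat_lit 0) (XT.lf (nat_lit 0) (nat_lit 92418981) (nat_lit 228) (nat_lit 14006352621) (nat_lit 76) (nat_lit 578022868) (nat_lit 82) (nat_lit 5) (nat_lit 85) (nat_lit 5) (nat_lit 83) (nat_lit 4) (nat_lit 449) (nat_lit 386) (nat_lit 365)) (XT.lf (nat_lit 0) (nat_lit 4007627121) (nat_lit 76) (nat_lit 5145103585) (nat_lit 152) (nat_lit 5953655855) (nat_lit 81) (nat_lit 5) (nat_lit 82) (nat_lit 5) (nat_lit 83) (nat_lit 4) (nat_lit 450) (nat_lit 386) (nat_lit 364))))) (XT.nd (nat_lit 234) (nat_lit 684) (nat_lit 0) (XT.nd (nat_lit 78) (nat_lit 304) (nat_lit 0) (XT.lf (nat_lit 0) (nat_lit 3102548337) (nat_lit 228) (nat_lit 8199737263) (nat_lit 76) (nat_lit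 4252644273) (nat_lit 78) (nat_lit 5) (nat_lit 81) (nat_lit 5) (nat_lit 79) (nat_lit 4) (nat_lit 451) (nat_lit 386) (nat_lit 363)) (XT.nd (nat_lit 78) (nat_lit 228) (nat_lit 0) (XT.lf (nat_lit 0) (nat_lit 10665979358) (nat_lit 76) (nat_lit 1894197847) (nat_lit 152) (nat_lit 3461808399) (nat_lit 77) (nat_lit 5) (nat_lit 78) (nat_lit 5) (nat_lit 79) (nat_lit 4) (nat_lit 452) (nat_lit 386) (nat_lit 362)) (XT.lf (nat_lit 0) (nat_lit 5964082246) (nat_lit 228) (nat_lit 2600272605) (nat_lit 76) (nat_lit 7943247425) (nat_lit 74) (nat_lit 5) (nat_lit 77) (nat_lit 5) (nat_lit 75) (nat_lit 4) (nat_lit 453) (nat_lit 386) (nat_lit 361)))) (XT.nd (nat_lit 156) (nat_lit 304) (nat_lit 0) (XT.nd (nat_lit 78) (nat_lit 152) (nat_lit 0) (XT.lf (nat_lit 0) (nat_lit 127632701) (nat_lit 152) (nat_lit 15725432726) (nat_lit 152) (nat_lit 1161509593) (nat_lit 71) (nat_lit 4) (nat_lit 73) (nat_lit 5) (nat_lit 73) (nat_lit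 4) (nat_lit 454) (nat_lit 386) (nat_lit 360)) (XT.lf (nat_lit 0) (nat_lit 2759847232) (nat_lit 76) (nat_lit 5907707140) (nat_lit 152) (nat_lit 8872415489) (nat_lit 69) (nat_lit 5) (nat_lit 70) (nat_lit 5) (nat_lit 71) (nat_lit 4) (nat_lit 455) (nat_lit 386) (nat_lit 359))) (XT.nd (nat_lit 78) (nat_lit 76) (nat_lit 0) (XT.lf (nat_lit 0) (nat_lit 938263337) (nat_lit 228) (nat_lit 12749433205) (nat_lit 76) (nat_lit 4400869738) (nat_lit 66) (nat_lit 5) (nat_lit 69) (nat_lit 5) (nat_lit 67) (nat_lit 4) (nat_lit 456) (nat_lit 386) (nat_lit 358)) (XT.lf (nat_lit 0) (nat_lit 7765088925) (nat_lit 76) (nat_lit 3396568098) (nat_lit 152) (nat_lit 7497134162) (nat_lit 65) (nat_lit 5) (nat_lit 66) (nat_lit 5) (nat_lit 67) (nat_lit 4) (nat_lit 457) (nat_lit 386) (nat_lit 357))))))))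
noncomputable def xc25 : XT := (XT.nd (nat_lit 1950) (nat_lit 1140) (nat_lit 0) (XT.nd (nat_lit 936) (nat_lit 1216) (nat_lit 0) (XT.nd (nat_lit 468) (nat_lit 684) (nat_lit 0) (XT.nd (nat_lit 234) (nat_lit 304) (nat_lit 0) (XT.nd (nat_lit 78) (nat_lit 304) (nat_lit 0) (XT.lf (nat_lit 0) (nat_lit 2709251099) (nat_lit 228) (nat_lit 9180475125) (nat_lit 76) (nat_lit 7363382709) (nat_lit 62) (nat_lit 5) (nat_lit 65) (nat_lit 5) (nat_lit 63) (nat_lit 4) (nat_lit 458) (nat_lit 386) (nat_lit 356)) (XT.nd (nat_lit 78) (nat_lit 228) (nat_lit 0) (XT.lf (nat_lit 0) (nat_lit 12232352287) (nat_lit 76) (nat_lit 1128753227) (nat_lit 152) (nat_lit 6511107924) (nat_lit 61) (nat_lit 5) (nat_lit 62) (nat_lit 5) (nat_lit 63) (nat_lit 4) (nat_lit 459) (nat_lit 386) (nat_lit 355)) (XT.lf (nat_lit 0) (nat_lit 4103785820) (nat_lit 228) (nat_lit 6320876090) (nat_lit 76) (nat_lit 10091684098) (nat_lit 58) (nat_lit 5) (nat_lit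 61) (nat_lit 5) (nat_lit 59) (nat_lit 4) (nat_lit 460) (nat_lit 386) (nat_lit 354)))) (XT.nd (nat_lit 78) (nat_lit 228) (nat_lit 0) (XT.lf (nat_lit 0) (nat_lit 15199318251) (nat_lit 152) (nat_lit 5194313992) (nat_lit 0) (nat_lit 794585709) (nat_lit 57) (nat_lit 5) (nat_lit 59) (nat_lit 4) (nat_lit 57) (nat_lit 4) (nat_lit 461) (nat_lit 386) (nat_lit 353)) (XT.nd (nat_lit 78) (nat_lit 76) (nat_lit 0) (XT.lf (nat_lit 0) (nat_lit 5035362365) (nat_lit 152) (nat_lit 4354295264) (nat_lit 76) (nat_lit 12497315970) (nat_lit 55) (nat_lit 5) (nat_lit 57) (nat_lit 5) (nat_lit 56) (nat_lit 4) (nat_lit 462) (nat_lit 386) (nat_lit 352)) (XT.lf (nat_lit 0) (nat_lit 16583675037) (nat_lit 152) (nat_lit 3758610734) (nat_lit 0) (nat_lit 2273704410) (nat_lit 54) (nat_lit 5) (nat_lit 56) (nat_lit 4) (nat_lit 54) (nat_lit 4) (nat_lit 463) (nat_lit 386) (nat_lit 351))))) (XT.nd (nat_lit 234) (nat_lit 304) (nat_lit 0)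 (XT.nd (nat_lit 78) (nat_lit 228) (nat_lit 0) (XT.lf (nat_lit 0) (nat_lit 5398443760) (nat_lit 152) (nat_lit 3502021036) (nat_lit 76) (nat_lit 14474225098) (nat_lit 52) (nat_lit 5) (nat_lit 54) (nat_lit 5) (nat_lit 53) (nat_lit 4) (nat_lit 464) (nat_lit 386) (nat_lit 350)) (XT.nd (nat_lit 78) (nat_lit 152) (nat_lit 0) (XT.lf (nat_lit 0) (nat_lit 17390380832) (nat_lit 152) (nat_lit 3564533869) (nat_lit 0) (nat_lit 3211188778) (nat_lit 51) (nat_lit 5) (nat_lit 53) (nat_lit 4) (nat_lit 51) (nat_lit 4) (nat_lit 465) (nat_lit 386) (nat_lit 349)) (XT.lf (nat_lit 0) (nat_lit 5065083819) (nat_lit 152) (nat_lit 4029948410) (nat_lit 76) (nat_lit 15895294540) (nat_lit 49) (nat_lit 5) (nat_lit 51) (nat_lit 5) (nat_lit 50) (nat_lit 4) (nat_lit 466) (nat_lit 386) (nat_lit 348)))) (XT.nd (nat_lit 78) (nat_lit 228) (nat_lit 0) (XT.lf (nat_lit 0) (nat_lit 17482414126) (nat_lit 152) (nat_lit 4903259551) (nat_lit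 0) (nat_lit 3464338766) (nat_lit 48) (nat_lit 5) (nat_lit 50) (nat_lit 4) (nat_lit 48) (nat_lit 4) (nat_lit 467) (nat_lit 386) (nat_lit 347)) (XT.nd (nat_lit 78) (nat_lit 76) (nat_lit 0) (XT.lf (nat_lit 0) (nat_lit 3880944534) (nat_lit 152) (nat_lit 6256770490) (nat_lit 76) (nat_lit 16608286647) (nat_lit 46) (nat_lit 5) (nat_lit 48) (nat_lit 5) (nat_lit 47) (nat_lit 4) (nat_lit 468) (nat_lit 386) (nat_lit 346)) (XT.lf (nat_lit 0) (nat_lit 16694370173) (nat_lit 152) (nat_lit 8123382269) (nat_lit 0) (nat_lit 2862789196) (nat_lit 45) (nat_lit 5) (nat_lit 47) (nat_lit 4) (nat_lit 45) (nat_lit 4) (nat_lit 469) (nat_lit 386) (nat_lit 345)))))) (XT.nd (nat_lit 468) (nat_lit 532) (nat_lit 0) (XT.nd (nat_lit 234) (nat_lit 380) (nat_lit 0) (XT.nd (nat_lit 78) (nat_lit 152) (nat_lit 0) (XT.lf (nat_lit 0) (nat_lit 1660605422) (nat_lit 152) (nat_lit 10563594513) (nat_lit 76) (nat_lit 16431093101) (nat_lit 43)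 (nat_lit 5) (nat_lit 45) (nat_lit 5) (nat_lit 44) (nat_lit 4) (nat_lit 470) (nat_lit 386) (nat_lit 344)) (XT.nd (nat_lit 78) (nat_lit 76) (nat_lit 0) (XT.lf (nat_lit 0) (nat_lit 14827389804) (nat_lit 152) (nat_lit 13641332694) (nat_lit 0) (nat_lit 1203351673) (nat_lit 42) (nat_lit 5) (nat_lit 44) (nat_lit 4) (nat_lit 42) (nat_lit 4) (nat_lit 471) (nat_lit 386) (nat_lit 343)) (XT.lf (nat_lit 0) (nat_lit 13309856549) (nat_lit 76) (nat_lit 15568915149) (nat_lit 76) (nat_lit 1854136606) (nat_lit 41) (nat_lit 4) (nat_lit 42) (nat_lit 5) (nat_lit 42) (nat_lit 4) (nat_lit 472) (nat_lit 386) (nat_lit 342)))) (XT.nd (nat_lit 78) (nat_lit 228) (nat_lit 0) (XT.lf (nat_lit 0) (nat_lit 9869432482) (nat_lit 76) (nat_lit 1790976613) (nat_lit 152) (nat_lit 20179844103) (nat_lit 39) (nat_lit 5) (nat_lit 40) (nat_lit 5) (nat_lit 41) (nat_lit 4) (nat_lit 473) (nat_lit 386) (nat_lit 341)) (XT.nd (nat_lit 78) (nat_lit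 152) (nat_lit 0) (XT.lf (nat_lit 0) (nat_lit 5605296935) (nat_lit 76) (nat_lit 20434708708) (nat_lit 76) (nat_lit 6955580348) (nat_lit 38) (nat_lit 4) (nat_lit 39) (nat_lit 5) (nat_lit 39) (nat_lit 4) (nat_lit 474) (nat_lit 386) (nat_lit 340)) (XT.lf (nat_lit 0) (nat_lit 490061390) (nat_lit 76) (nat_lit 6428801502) (nat_lit 152) (nat_lit 27284099669) (nat_lit 36) (nat_lit 5) (nat_lit 37) (nat_lit 5) (nat_lit 38) (nat_lit 4) (nat_lit 475) (nat_lit 386) (nat_lit 339))))) (XT.nd (nat_lit 234) (nat_lit 304) (nat_lit 0) (XT.nd (nat_lit 78) (nat_lit 228) (nat_lit 0) (XT.lf (nat_lit 0) (nat_lit 21584391989) (nat_lit 152) (nat_lit 5523407563) (nat_lit 0) (nat_lit 8353607229) (nat_lit 36) (nat_lit 5) (nat_lit 38) (nat_lit 4) (nat_lit 36) (nat_lit 4) (nat_lit 476) (nat_lit 386) (nat_lit 338)) (XT.nd (nat_lit 78) (nat_lit 76) (nat_lit 0) (XT.lf (nat_lit 0) (nat_lit 377770284) (nat_lit 152) (nat_lit 12530927281)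 (nat_lit 76) (nat_lit 23868581353) (nat_lit 34) (nat_lit 5) (nat_lit 36) (nat_lit 5) (nat_lit 35) (nat_lit 4) (nat_lit 477) (nat_lit 386) (nat_lit 337)) (XT.lf (nat_lit 0) (nat_lit 15191525721) (nat_lit 152) (nat_lit 20740227958) (nat_lit 0) (nat_lit 2219073379) (nat_lit 33) (nat_lit 5) (nat_lit 35) (nat_lit 4) (nat_lit 33) (nat_lit 4) (nat_lit 478) (nat_lit 386) (nat_lit 336)))) (XT.nd (nat_lit 156) (nat_lit 76) (nat_lit 0) (XT.nd (nat_lit 78) (nat_lit 152) (nat_lit 0) (XT.lf (nat_lit 0) (nat_lit 9347633051) (nat_lit 76) (nat_lit 21634895706) (nat_lit 76) (nat_lit 8603428152) (nat_lit 32) (nat_lit 4) (nat_lit 33) (nat_lit 5) (nat_lit 33) (nat_lit 4) (nat_lit 479) (nat_lit 386) (nat_lit 335)) (XT.lf (nat_lit 0) (nat_lit 1728165) (nat_lit 76) (nat_lit 6446252467) (nat_lit 152) (nat_lit 34639877771) (nat_lit 30) (nat_lit 5) (nat_lit 31) (nat_lit 5) (nat_lit 32) (nat_lit 4) (nat_lit 480) (nat_lit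 386) (nat_lit 334))) (XT.nd (nat_lit 78) (nat_lit 76) (nat_lit 0) (XT.lf (nat_lit 0) (nat_lit 22371978110) (nat_lit 152) (nat_lit 10667853365) (nat_lit 0) (nat_lit 9613530481) (nat_lit 30) (nat_lit 5) (nat_lit 32) (nat_lit 4) (nat_lit 30) (nat_lit 4) (nat_lit 481) (nat_lit 386) (nat_lit 333)) (XT.lf (nat_lit 0) (nat_lit 21417777700) (nat_lit 76) (nat_lit 17841151816) (nat_lit 76) (nat_lit 5033209470) (nat_lit 29) (nat_lit 4) (nat_lit 30) (nat_lit 5) (nat_lit 30) (nat_lit 4) (nat_lit 482) (nat_lit 386) (nat_lit 332))))))) (XT.nd (nat_lit 1014) (nat_lit 228) (nat_lit 0) (XT.nd (nat_lit 468) (nat_lit 456) (nat_lit 0) (XT.nd (nat_lit 234) (nat_lit 228) (nat_lit 0) (XT.nd (nat_lit 78) (nat_lit 76) (nat_lit 0) (XT.lf (nat_lit 0) (nat_lit 9191251934) (nat_lit 76) (nat_lit 1669010187) (nat_lit 152) (nat_lit 35146515064) (nat_lit 27) (nat_lit 5) (nat_lit 28) (nat_lit 5) (nat_lit 29) (nat_lit 4) (nat_lit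 483) (nat_lit 386) (nat_lit 331)) (XT.nd (nat_lit 78) (nat_lit 76) (nat_lit 0) (XT.lf (nat_lit 0) (nat_lit 27730145916) (nat_lit 152) (nat_lit 4861032230) (nat_lit 0) (nat_lit 15205899953) (nat_lit 27) (nat_lit 5) (nat_lit 29) (nat_lit 4) (nat_lit 27) (nat_lit 4) (nat_lit 484) (nat_lit 386) (nat_lit 330)) (XT.lf (nat_lit 0) (nat_lit 29051930213) (nat_lit 76) (nat_lit 16592349008) (nat_lit 76) (nat_lit 4026592950) (nat_lit 26) (nat_lit 4) (nat_lit 27) (nat_lit 5) (nat_lit 27) (nat_lit 4) (nat_lit 485) (nat_lit 386) (nat_lit 329)))) (XT.nd (nat_lit 78) (nat_lit 76) (nat_lit 0) (XT.lf (nat_lit 0) (nat_lit 12652424304) (nat_lit 152) (nat_lit 38565355111) (nat_lit 0) (nat_lit 414279175) (nat_lit 24) (nat_lit 5) (nat_lit 26) (nat_lit 4) (nat_lit 24) (nat_lit 4) (nat_lit 486) (nat_lit 386) (nat_lit 328)) (XT.nd (nat_lit 78) (nat_lit 76) (nat_lit 0) (XT.lf (nat_lit 0) (nat_lit 30373072970) (nat_lit 152)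 (nat_lit 5209933736) (nat_lit 0) (nat_lit 18098373588) (nat_lit 24) (nat_lit 5) (nat_lit 26) (nat_lit 4) (nat_lit 24) (nat_lit 4) (nat_lit 487) (nat_lit 386) (nat_lit 327)) (XT.lf (nat_lit 0) (nat_lit 30229536365) (nat_lit 76) (nat_lit 18953523080) (nat_lit 76) (nat_lit 6644010125) (nat_lit 23) (nat_lit 4) (nat_lit 24) (nat_lit 5) (nat_lit 24) (nat_lit 4) (nat_lit 488) (nat_lit 386) (nat_lit 326))))) (XT.nd (nat_lit 234) (nat_lit 228) (nat_lit 0) (XT.nd (nat_lit 78) (nat_lit 76) (nat_lit 0) (XT.lf (nat_lit 0) (nat_lit 9379242311) (nat_lit 76) (nat_lit 1321206482) (nat_lit 152) (nat_lit 47374703067) (nat_lit 21) (nat_lit 5) (nat_lit 22) (nat_lit 5) (nat_lit 23) (nat_lit 4) (nat_lit 489) (nat_lit 386) (nat_lit 325)) (XT.nd (nat_lit 78) (nat_lit 76) (nat_lit 0) (XT.lf (nat_lit 0) (nat_lit 29123489041) (nat_lit 152) (nat_lit 14190055040) (nat_lit 0) (nat_lit 17109658285) (nat_lit 21) (nat_lit 5) (nat_lit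 23) (nat_lit 4) (nat_lit 21) (nat_lit 4) (nat_lit 490) (nat_lit 386) (nat_lit 324)) (XT.lf (nat_lit 0) (nat_lit 22303787885) (nat_lit 76) (nat_lit 26311730526) (nat_lit 76) (nat_lit 14268702416) (nat_lit 20) (nat_lit 4) (nat_lit 21) (nat_lit 5) (nat_lit 21) (nat_lit 4) (nat_lit 491) (nat_lit 386) (nat_lit 323)))) (XT.nd (nat_lit 156) (nat_lit 76) (nat_lit 0) (XT.nd (nat_lit 78) (nat_lit 76) (nat_lit 0) (XT.lf (nat_lit 0) (nat_lit 3612513737) (nat_lit 152) (nat_lit 4737432224) (nat_lit 76) (nat_lit 57115227371) (nat_lit 19) (nat_lit 5) (nat_lit 21) (nat_lit 5) (nat_lit 20) (nat_lit 4) (nat_lit 492) (nat_lit 386) (nat_lit 322)) (XT.lf (nat_lit 0) (nat_lit 22445382086) (nat_lit 152) (nat_lit 35014559746) (nat_lit 0) (nat_lit 10700413180) (nat_lit 18) (nat_lit 5) (nat_lit 20) (nat_lit 4) (nat_lit 18) (nat_lit 4) (nat_lit 493) (nat_lit 386) (nat_lit 321))) (XT.nd (nat_lit 78) (nat_lit 0) (nat_lit 0)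 (XT.lf (nat_lit 0) (nat_lit 1838492081) (nat_lit 76) (nat_lit 40459459245) (nat_lit 76) (nat_lit 28690003182) (nat_lit 17) (nat_lit 4) (nat_lit 18) (nat_lit 5) (nat_lit 18) (nat_lit 4) (nat_lit 494) (nat_lit 386) (nat_lit 320)) (XT.lf (nat_lit 0) (nat_lit 41124109652) (nat_lit 76) (nat_lit 22308459658) (nat_lit 76) (nat_lit 10515682493) (nat_lit 17) (nat_lit 4) (nat_lit 18) (nat_lit 5) (nat_lit 18) (nat_lit 4) (nat_lit 495) (nat_lit 386) (nat_lit 319)))))) (XT.nd (nat_lit 57252) (nat_lit 0) (nat_lit 9348) (XT.nd (nat_lit 57018) (nat_lit 0) (nat_lit 12692) (XT.nd (nat_lit 78) (nat_lit 76) (nat_lit 0) (XT.lf (nat_lit 0) (nat_lit 5200167194) (nat_lit 76) (nat_lit 3181682525) (nat_lit 152) (nat_lit 68672793743) (nat_lit 15) (nat_lit 5) (nat_lit 16) (nat_lit 5) (nat_lit 17) (nat_lit 4) (nat_lit 496) (nat_lit 386) (nat_lit 318)) (XT.nd (nat_lit 78) (nat_lit 76) (nat_lit 0) (XT.lf (nat_lit 0) (nat_lit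 28445539489) (nat_lit 152) (nat_lit 34900388501) (nat_lit 0) (nat_lit 16954140785) (nat_lit 15) (nat_lit 5) (nat_lit 17) (nat_lit 4) (nat_lit 15) (nat_lit 4) (nat_lit 497) (nat_lit 386) (nat_lit 317)) (XT.lf (nat_lit 0) (nat_lit 3816292195) (nat_lit 76) (nat_lit 45701140273) (nat_lit 76) (nat_lit 34190182690) (nat_lit 14) (nat_lit 4) (nat_lit 15) (nat_lit 5) (nat_lit 15) (nat_lit 4) (nat_lit 498) (nat_lit 386) (nat_lit 316)))) (XT.nd (nat_lit 78) (nat_lit 1216) (nat_lit 0) (XT.lf (nat_lit 0) (nat_lit 4154147022) (nat_lit 456) (nat_lit 30714401) (nat_lit 456) (nat_lit 30714401) (nat_lit 197) (nat_lit 4) (nat_lit 203) (nat_lit 5) (nat_lit 203) (nat_lit 4) (nat_lit 426) (nat_lit 387) (nat_lit 387)) (XT.nd (nat_lit 78) (nat_lit 380) (nat_lit 0) (XT.lf (nat_lit 0) (nat_lit 3333293431) (nat_lit 380) (nat_lit 3491143581) (nat_lit 380) (nat_lit 1766358563) (nat_lit 186) (nat_lit 4) (nat_lit 191) (nat_lit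 5) (nat_lit 191) (nat_lit 4) (nat_lit 427) (nat_lit 387) (nat_lit 386)) (XT.lf (nat_lit 0) (nat_lit 5087320377) (nat_lit 380) (nat_lit 1854750528) (nat_lit 0) (nat_lit 1817963662) (nat_lit 181) (nat_lit 5) (nat_lit 186) (nat_lit 4) (nat_lit 181) (nat_lit 4) (nat_lit 428) (nat_lit 387) (nat_lit 385))))) (XT.nd (nat_lit 234) (nat_lit 1900) (nat_lit 0) (XT.nd (nat_lit 78) (nat_lit 684) (nat_lit 0) (XT.lf (nat_lit 0) (nat_lit 1670717659) (nat_lit 304) (nat_lit 1511025829) (nat_lit 380) (nat_lit 5756448569) (nat_lit 171) (nat_lit 5) (nat_lit 175) (nat_lit 5) (nat_lit 176) (nat_lit 4) (nat_lit 429) (nat_lit 387) (nat_lit 384)) (XT.nd (nat_lit 78) (nat_lit 304) (nat_lit 0) (XT.lf (nat_lit 0) (nat_lit 1108273321) (nat_lit 380) (nat_lit 3803369848) (nat_lit 76) (nat_lit 4213634518) (nat_lit 166) (nat_lit 5) (nat_lit 171) (nat_lit 5) (nat_lit 167) (nat_lit 4) (nat_lit 430) (nat_lit 387) (nat_lit 383)) (XT.lf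 (nat_lit 0) (nat_lit 8122610305) (nat_lit 380) (nat_lit 252479514) (nat_lit 0) (nat_lit 947179184) (nat_lit 162) (nat_lit 5) (nat_lit 167) (nat_lit 4) (nat_lit 162) (nat_lit 4) (nat_lit 431) (nat_lit 387) (nat_lit 382)))) (XT.nd (nat_lit 156) (nat_lit 836) (nat_lit 0) (XT.nd (nat_lit 78) (nat_lit 380) (nat_lit 0) (XT.lf (nat_lit 0) (nat_lit 3428633117) (nat_lit 304) (nat_lit 2404273122) (nat_lit 380) (nat_lit 3694788937) (nat_lit 153) (nat_lit 5) (nat_lit 157) (nat_lit 5) (nat_lit 158) (nat_lit 4) (nat_lit 432) (nat_lit 387) (nat_lit 381)) (XT.lf (nat_lit 0) (nat_lit 3336114172) (nat_lit 380) (nat_lit 2538377368) (nat_lit 76) (nat_lit 3868945688) (nat_lit 148) (nat_lit 5) (nat_lit 153) (nat_lit 5) (nat_lit 149) (nat_lit 4) (nat_lit 433) (nat_lit 387) (nat_lit 380))) (XT.nd (nat_lit 78) (nat_lit 228) (nat_lit 0) (XT.lf (nat_lit 0) (nat_lit 621990994) (nat_lit 380) (nat_lit 8834224436) (nat_lit 76)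 (nat_lit 513622959) (nat_lit 140) (nat_lit 5) (nat_lit 145) (nat_lit 5) (nat_lit 141) (nat_lit 4) (nat_lit 434) (nat_lit 387) (nat_lit 379)) (XT.lf (nat_lit 0) (nat_lit 4902039652) (nat_lit 228) (nat_lit 2982648704) (nat_lit 304) (nat_lit 2320553361) (nat_lit 137) (nat_lit 5) (nat_lit 140) (nat_lit 5) (nat_lit 141) (nat_lit 4) (nat_lit 435) (nat_lit 387) (nat_lit 378))))))))
noncomputable def xc26 : XT := (XT.nd (nat_lit 1950) (nat_lit 2508) (nat_lit 0) (XT.nd (nat_lit 936) (nat_lit 2356) (nat_lit 0) (XT.nd (nat_lit 468) (nat_lit 1596) (nat_lit 0) (XT.nd (nat_lit 234) (nat_lit 912) (nat_lit 0) (XT.nd (nat_lit 78) (nat_lit 760) (nat_lit 0) (XT.lf (nat_lit 0) (nat_lit 4930766776) (nat_lit 304) (nat_lit 1702132121) (nat_lit 76) (nat_lit 3818933600) (nat_lit 133) (nat_lit 5) (nat_lit 137) (nat_lit 5) (nat_lit 134) (nat_lit 4) (nat_lit 436) (nat_lit 387) (nat_lit 377)) (XT.nd (nat_lit 78) (nat_lit 228)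 (nat_lit 0) (XT.lf (nat_lit 0) (nat_lit 1745544582) (nat_lit 304) (nat_lit 8687975834) (nat_lit 76) (nat_lit 276229150) (nat_lit 126) (nat_lit 5) (nat_lit 130) (nat_lit 5) (nat_lit 127) (nat_lit 4) (nat_lit 437) (nat_lit 387) (nat_lit 376)) (XT.lf (nat_lit 0) (nat_lit 5815318933) (nat_lit 228) (nat_lit 3478626493) (nat_lit 304) (nat_lit 1684012639) (nat_lit 123) (nat_lit 5) (nat_lit 126) (nat_lit 5) (nat_lit 127) (nat_lit 4) (nat_lit 438) (nat_lit 387) (nat_lit 375)))) (XT.nd (nat_lit 78) (nat_lit 608) (nat_lit 0) (XT.lf (nat_lit 0) (nat_lit 5834618142) (nat_lit 304) (nat_lit 1585146108) (nat_lit 76) (nat_lit 3838385647) (nat_lit 119) (nat_lit 5) (nat_lit 123) (nat_lit 5) (nat_lit 120) (nat_lit 4) (nat_lit 439) (nat_lit 387) (nat_lit 374)) (XT.nd (nat_lit 78) (nat_lit 152) (nat_lit 0) (XT.lf (nat_lit 0) (nat_lit 2107526226) (nat_lit 228) (nat_lit 8886287) (nat_lit 304) (nat_lit 9434361854) (nat_lit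 113) (nat_lit 5) (nat_lit 116) (nat_lit 5) (nat_lit 117) (nat_lit 5) (nat_lit 440) (nat_lit 387) (nat_lit 373)) (XT.lf (nat_lit 0) (nat_lit 5849853707) (nat_lit 152) (nat_lit 4128871329) (nat_lit 228) (nat_lit 1875980002) (nat_lit 111) (nat_lit 5) (nat_lit 113) (nat_lit 5) (nat_lit 114) (nat_lit 4) (nat_lit 441) (nat_lit 387) (nat_lit 372))))) (XT.nd (nat_lit 234) (nat_lit 760) (nat_lit 0) (XT.nd (nat_lit 78) (nat_lit 532) (nat_lit 0) (XT.lf (nat_lit 0) (nat_lit 5949597936) (nat_lit 304) (nat_lit 2526992491) (nat_lit 76) (nat_lit 3695279239) (nat_lit 107) (nat_lit 5) (nat_lit 111) (nat_lit 5) (nat_lit 108) (nat_lit 4) (nat_lit 442) (nat_lit 387) (nat_lit 371)) (XT.nd (nat_lit 78) (nat_lit 152) (nat_lit 0) (XT.lf (nat_lit 0) (nat_lit 1027349929) (nat_lit 152) (nat_lit 594222415) (nat_lit 228) (nat_lit 10881407310) (nat_lit 102) (nat_lit 5) (nat_lit 104) (nat_lit 5) (nat_lit 105) (nat_lit 5) (nat_lit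 443) (nat_lit 387) (nat_lit 370)) (XT.lf (nat_lit 0) (nat_lit 4626955909) (nat_lit 152) (nat_lit 5186199290) (nat_lit 228) (nat_lit 3033124589) (nat_lit 100) (nat_lit 5) (nat_lit 102) (nat_lit 5) (nat_lit 103) (nat_lit 4) (nat_lit 444) (nat_lit 387) (nat_lit 369)))) (XT.nd (nat_lit 78) (nat_lit 532) (nat_lit 0) (XT.lf (nat_lit 0) (nat_lit 5131284200) (nat_lit 228) (nat_lit 4934460811) (nat_lit 76) (nat_lit 3138747339) (nat_lit 97) (nat_lit 5) (nat_lit 100) (nat_lit 5) (nat_lit 98) (nat_lit 4) (nat_lit 445) (nat_lit 387) (nat_lit 368)) (XT.nd (nat_lit 78) (nat_lit 304) (nat_lit 0) (XT.lf (nat_lit 0) (nat_lit 108522983) (nat_lit 228) (nat_lit 1620438348) (nat_lit 76) (nat_lit 11849296356) (nat_lit 94) (nat_lit 5) (nat_lit 97) (nat_lit 5) (nat_lit 95) (nat_lit 5) (nat_lit 446) (nat_lit 387) (nat_lit 367)) (XT.lf (nat_lit 0) (nat_lit 1687086131) (nat_lit 152) (nat_lit 6932805699) (nat_lit 228) (nat_lit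 5345803955) (nat_lit 90) (nat_lit 5) (nat_lit 92) (nat_lit 5) (nat_lit 93) (nat_lit 4) (nat_lit 447) (nat_lit 387) (nat_lit 366)))))) (XT.nd (nat_lit 468) (nat_lit 1140) (nat_lit 0) (XT.nd (nat_lit 234) (nat_lit 608) (nat_lit 0) (XT.nd (nat_lit 78) (nat_lit 380) (nat_lit 0) (XT.lf (nat_lit 0) (nat_lit 3180412932) (nat_lit 228) (nat_lit 9303829882) (nat_lit 76) (nat_lit 1885605266) (nat_lit 87) (nat_lit 5) (nat_lit 90) (nat_lit 5) (nat_lit 88) (nat_lit 4) (nat_lit 448) (nat_lit 387) (nat_lit 365)) (XT.nd (nat_lit 78) (nat_lit 228) (nat_lit 0) (XT.lf (nat_lit 0) (nat_lit 8422661316) (nat_lit 152) (nat_lit 3682036271) (nat_lit 228) (nat_lit 2685460095) (nat_lit 85) (nat_lit 5) (nat_lit 87) (nat_lit 5) (nat_lit 88) (nat_lit 4) (nat_lit 449) (nat_lit 387) (nat_lit 364)) (XT.lf (nat_lit 0) (nat_lit 6193598334) (nat_lit 228) (nat_lit 3466916951) (nat_lit 76) (nat_lit 5567021784) (nat_lit 82) (nat_lit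 5) (nat_lit 85) (nat_lit 5) (nat_lit 83) (nat_lit 4) (nat_lit 450) (nat_lit 387) (nat_lit 363)))) (XT.nd (nat_lit 78) (nat_lit 532) (nat_lit 0) (XT.lf (nat_lit 0) (nat_lit 15125576506) (nat_lit 76) (nat_lit 395983177) (nat_lit 152) (nat_lit 162619602) (nat_lit 81) (nat_lit 5) (nat_lit 82) (nat_lit 5) (nat_lit 83) (nat_lit 4) (nat_lit 451) (nat_lit 387) (nat_lit 362)) (XT.nd (nat_lit 78) (nat_lit 228) (nat_lit 0) (XT.lf (nat_lit 0) (nat_lit 2281431795) (nat_lit 76) (nat_lit 6834253499) (nat_lit 152) (nat_lit 7041074335) (nat_lit 77) (nat_lit 5) (nat_lit 78) (nat_lit 5) (nat_lit 79) (nat_lit 4) (nat_lit 452) (nat_lit 387) (nat_lit 361)) (XT.lf (nat_lit 0) (nat_lit 2229746953) (nat_lit 228) (nat_lit 11517977811) (nat_lit 76) (nat_lit 2902433719) (nat_lit 74) (nat_lit 5) (nat_lit 77) (nat_lit 5) (nat_lit 75) (nat_lit 4) (nat_lit 453) (nat_lit 387) (nat_lit 360))))) (XT.nd (nat_lit 234) (nat_lit 760)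 (nat_lit 0) (XT.nd (nat_lit 78) (nat_lit 304) (nat_lit 0) (XT.lf (nat_lit 0) (nat_lit 7888297245) (nat_lit 76) (nat_lit 4038878781) (nat_lit 152) (nat_lit 5235704289) (nat_lit 73) (nat_lit 5) (nat_lit 74) (nat_lit 5) (nat_lit 75) (nat_lit 4) (nat_lit 454) (nat_lit 387) (nat_lit 359)) (XT.nd (nat_lit 78) (nat_lit 76) (nat_lit 0) (XT.lf (nat_lit 0) (nat_lit 4426508809) (nat_lit 228) (nat_lit 7121047548) (nat_lit 76) (nat_lit 6149286580) (nat_lit 70) (nat_lit 5) (nat_lit 73) (nat_lit 5) (nat_lit 71) (nat_lit 4) (nat_lit 455) (nat_lit 387) (nat_lit 358)) (XT.lf (nat_lit 0) (nat_lit 13192553679) (nat_lit 76) (nat_lit 1361904535) (nat_lit 152) (nat_lit 3698767523) (nat_lit 69) (nat_lit 5) (nat_lit 70) (nat_lit 5) (nat_lit 71) (nat_lit 4) (nat_lit 456) (nat_lit 387) (nat_lit 357)))) (XT.nd (nat_lit 156) (nat_lit 456) (nat_lit 0) (XT.nd (nat_lit 78) (nat_lit 76) (nat_lit 0) (XT.lf (nat_lit 0) (nat_lit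 6373501390) (nat_lit 228) (nat_lit 3166075474) (nat_lit 76) (nat_lit 9291641461) (nat_lit 66) (nat_lit 5) (nat_lit 69) (nat_lit 5) (nat_lit 67) (nat_lit 4) (nat_lit 457) (nat_lit 387) (nat_lit 356)) (XT.lf (nat_lit 0) (nat_lit 16957813877) (nat_lit 152) (nat_lit 1364503826) (nat_lit 0) (nat_lit 1112150324) (nat_lit 65) (nat_lit 5) (nat_lit 67) (nat_lit 4) (nat_lit 65) (nat_lit 4) (nat_lit 458) (nat_lit 387) (nat_lit 355))) (XT.nd (nat_lit 78) (nat_lit 152) (nat_lit 0) (XT.lf (nat_lit 0) (nat_lit 219523563) (nat_lit 76) (nat_lit 7793088926) (nat_lit 152) (nat_lit 12048003509) (nat_lit 61) (nat_lit 5) (nat_lit 62) (nat_lit 5) (nat_lit 63) (nat_lit 4) (nat_lit 459) (nat_lit 387) (nat_lit 354)) (XT.lf (nat_lit 0) (nat_lit 1701620710) (nat_lit 152) (nat_lit 17388155147) (nat_lit 152) (nat_lit 1624123691) (nat_lit 59) (nat_lit 4) (nat_lit 61) (nat_lit 5) (nat_lit 61) (nat_lit 4) (nat_lit 460) (nat_lit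 387) (nat_lit 353))))))) (XT.nd (nat_lit 1014) (nat_lit 1064) (nat_lit 0) (XT.nd (nat_lit 468) (nat_lit 760) (nat_lit 0) (XT.nd (nat_lit 234) (nat_lit 304) (nat_lit 0) (XT.nd (nat_lit 78) (nat_lit 228) (nat_lit 0) (XT.lf (nat_lit 0) (nat_lit 2920189142) (nat_lit 76) (nat_lit 6370800695) (nat_lit 152) (nat_lit 12101614915) (nat_lit 57) (nat_lit 5) (nat_lit 58) (nat_lit 5) (nat_lit 59) (nat_lit 4) (nat_lit 461) (nat_lit 387) (nat_lit 352)) (XT.nd (nat_lit 78) (nat_lit 152) (nat_lit 0) (XT.lf (nat_lit 0) (nat_lit 3952706133) (nat_lit 76) (nat_lit 16893817107) (nat_lit 76) (nat_lit 1254394995) (nat_lit 56) (nat_lit 4) (nat_lit 57) (nat_lit 5) (nat_lit 57) (nat_lit 4) (nat_lit 462) (nat_lit 387) (nat_lit 351)) (XT.lf (nat_lit 0) (nat_lit 4676072837) (nat_lit 76) (nat_lit 5408120723) (nat_lit 152) (nat_lit 12753130425) (nat_lit 54) (nat_lit 5) (nat_lit 55) (nat_lit 5) (nat_lit 56) (nat_lit 4) (nat_lit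 463) (nat_lit 387) (nat_lit 350)))) (XT.nd (nat_lit 78) (nat_lit 228) (nat_lit 0) (XT.lf (nat_lit 0) (nat_lit 5145473165) (nat_lit 76) (nat_lit 16969338896) (nat_lit 76) (nat_lit 1490836744) (nat_lit 53) (nat_lit 4) (nat_lit 54) (nat_lit 5) (nat_lit 54) (nat_lit 4) (nat_lit 464) (nat_lit 387) (nat_lit 349)) (XT.nd (nat_lit 78) (nat_lit 76) (nat_lit 0) (XT.lf (nat_lit 0) (nat_lit 5250012285) (nat_lit 76) (nat_lit 5028498671) (nat_lit 152) (nat_lit 14126532996) (nat_lit 51) (nat_lit 5) (nat_lit 52) (nat_lit 5) (nat_lit 53) (nat_lit 4) (nat_lit 465) (nat_lit 387) (nat_lit 348)) (XT.lf (nat_lit 0) (nat_lit 5019884783) (nat_lit 76) (nat_lit 17753078532) (nat_lit 76) (nat_lit 2465980973) (nat_lit 50) (nat_lit 4) (nat_lit 51) (nat_lit 5) (nat_lit 51) (nat_lit 4) (nat_lit 466) (nat_lit 387) (nat_lit 347))))) (XT.nd (nat_lit 234) (nat_lit 380) (nat_lit 0) (XT.nd (nat_lit 78) (nat_lit 228) (nat_lit 0) (XT.lf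 (nat_lit 0) (nat_lit 4357053113) (nat_lit 76) (nat_lit 5379239293) (nat_lit 152) (nat_lit 16370945068) (nat_lit 48) (nat_lit 5) (nat_lit 49) (nat_lit 5) (nat_lit 50) (nat_lit 4) (nat_lit 467) (nat_lit 387) (nat_lit 346)) (XT.nd (nat_lit 78) (nat_lit 152) (nat_lit 0) (XT.lf (nat_lit 0) (nat_lit 3263898966) (nat_lit 76) (nat_lit 19409667340) (nat_lit 76) (nat_lit 4339372004) (nat_lit 47) (nat_lit 4) (nat_lit 48) (nat_lit 5) (nat_lit 48) (nat_lit 4) (nat_lit 468) (nat_lit 387) (nat_lit 345)) (XT.lf (nat_lit 0) (nat_lit 1655681141) (nat_lit 76) (nat_lit 6635998807) (nat_lit 152) (nat_lit 19665062158) (nat_lit 45) (nat_lit 5) (nat_lit 46) (nat_lit 5) (nat_lit 47) (nat_lit 4) (nat_lit 469) (nat_lit 387) (nat_lit 344)))) (XT.nd (nat_lit 156) (nat_lit 228) (nat_lit 0) (XT.nd (nat_lit 78) (nat_lit 152) (nat_lit 0) (XT.lf (nat_lit 0) (nat_lit 21643628640) (nat_lit 152) (nat_lit 486352043) (nat_lit 0) (nat_lit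 6811095646) (nat_lit 45) (nat_lit 5) (nat_lit 47) (nat_lit 4) (nat_lit 45) (nat_lit 4) (nat_lit 470) (nat_lit 387) (nat_lit 343)) (XT.lf (nat_lit 0) (nat_lit 5776939227) (nat_lit 152) (nat_lit 3198808986) (nat_lit 76) (nat_lit 20991258410) (nat_lit 43) (nat_lit 5) (nat_lit 45) (nat_lit 5) (nat_lit 44) (nat_lit 4) (nat_lit 471) (nat_lit 387) (nat_lit 342))) (XT.nd (nat_lit 78) (nat_lit 152) (nat_lit 0) (XT.lf (nat_lit 0) (nat_lit 19519762280) (nat_lit 152) (nat_lit 6575251068) (nat_lit 0) (nat_lit 4942084959) (nat_lit 42) (nat_lit 5) (nat_lit 44) (nat_lit 4) (nat_lit 42) (nat_lit 4) (nat_lit 472) (nat_lit 387) (nat_lit 341)) (XT.lf (nat_lit 0) (nat_lit 1964369999) (nat_lit 152) (nat_lit 10672310450) (nat_lit 76) (nat_lit 19517192238) (nat_lit 40) (nat_lit 5) (nat_lit 42) (nat_lit 5) (nat_lit 41) (nat_lit 4) (nat_lit 473) (nat_lit 387) (nat_lit 340)))))) (XT.nd (nat_lit 468) (nat_lit 532) (nat_lit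 0) (XT.nd (nat_lit 234) (nat_lit 228) (nat_lit 0) (XT.nd (nat_lit 78) (nat_lit 228) (nat_lit 0) (XT.lf (nat_lit 0) (nat_lit 16019978633) (nat_lit 152) (nat_lit 15588062261) (nat_lit 0) (nat_lit 1710884915) (nat_lit 39) (nat_lit 5) (nat_lit 41) (nat_lit 4) (nat_lit 39) (nat_lit 4) (nat_lit 474) (nat_lit 387) (nat_lit 339)) (XT.nd (nat_lit 78) (nat_lit 152) (nat_lit 0) (XT.lf (nat_lit 0) (nat_lit 13134852731) (nat_lit 76) (nat_lit 17890767188) (nat_lit 76) (nat_lit 3509195450) (nat_lit 38) (nat_lit 4) (nat_lit 39) (nat_lit 5) (nat_lit 39) (nat_lit 4) (nat_lit 475) (nat_lit 387) (nat_lit 338)) (XT.lf (nat_lit 0) (nat_lit 7628010601) (nat_lit 76) (nat_lit 3248151480) (nat_lit 152) (nat_lit 24928569552) (nat_lit 36) (nat_lit 5) (nat_lit 37) (nat_lit 5) (nat_lit 38) (nat_lit 4) (nat_lit 476) (nat_lit 387) (nat_lit 337)))) (XT.nd (nat_lit 78) (nat_lit 152) (nat_lit 0) (XT.lf (nat_lit 0) (nat_lit 1067112859)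 (nat_lit 76) (nat_lit 25078204354) (nat_lit 76) (nat_lit 10984672193) (nat_lit 35) (nat_lit 4) (nat_lit 36) (nat_lit 5) (nat_lit 36) (nat_lit 4) (nat_lit 477) (nat_lit 387) (nat_lit 336)) (XT.nd (nat_lit 78) (nat_lit 76) (nat_lit 0) (XT.lf (nat_lit 0) (nat_lit 3800121041) (nat_lit 152) (nat_lit 6440072116) (nat_lit 76) (nat_lit 28273812048) (nat_lit 34) (nat_lit 5) (nat_lit 36) (nat_lit 5) (nat_lit 35) (nat_lit 4) (nat_lit 478) (nat_lit 387) (nat_lit 335)) (XT.lf (nat_lit 0) (nat_lit 19286175131) (nat_lit 152) (nat_lit 15184194882) (nat_lit 0) (nat_lit 5487914021) (nat_lit 33) (nat_lit 5) (nat_lit 35) (nat_lit 4) (nat_lit 33) (nat_lit 4) (nat_lit 479) (nat_lit 387) (nat_lit 334))))) (XT.nd (nat_lit 234) (nat_lit 304) (nat_lit 0) (XT.nd (nat_lit 78) (nat_lit 152) (nat_lit 0) (XT.lf (nat_lit 0) (nat_lit 16219070881) (nat_lit 76) (nat_lit 19550404138) (nat_lit 76) (nat_lit 5698614490) (nat_lit 32)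 (nat_lit 4) (nat_lit 33) (nat_lit 5) (nat_lit 33) (nat_lit 4) (nat_lit 480) (nat_lit 387) (nat_lit 333)) (XT.nd (nat_lit 78) (nat_lit 0) (nat_lit 0) (XT.lf (nat_lit 0) (nat_lit 6285540806) (nat_lit 76) (nat_lit 3659439495) (nat_lit 152) (nat_lit 33102004662) (nat_lit 30) (nat_lit 5) (nat_lit 31) (nat_lit 5) (nat_lit 32) (nat_lit 4) (nat_lit 481) (nat_lit 387) (nat_lit 332)) (XT.lf (nat_lit 0) (nat_lit 26542469829) (nat_lit 152) (nat_lit 5154478628) (nat_lit 0) (nat_lit 12997497821) (nat_lit 30) (nat_lit 5) (nat_lit 32) (nat_lit 4) (nat_lit 30) (nat_lit 4) (nat_lit 482) (nat_lit 387) (nat_lit 331)))) (XT.nd (nat_lit 156) (nat_lit 76) (nat_lit 0) (XT.nd (nat_lit 78) (nat_lit 152) (nat_lit 0) (XT.lf (nat_lit 0) (nat_lit 28362104616) (nat_lit 76) (nat_lit 15822795040) (nat_lit 76) (nat_lit 2232929863) (nat_lit 29) (nat_lit 4) (nat_lit 30) (nat_lit 5) (nat_lit 30) (nat_lit 4) (nat_lit 483) (nat_lit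 387) (nat_lit 330)) (XT.lf (nat_lit 0) (nat_lit 14319187249) (nat_lit 152) (nat_lit 32816794374) (nat_lit 0) (nat_lit 1083633292) (nat_lit 27) (nat_lit 5) (nat_lit 29) (nat_lit 4) (nat_lit 27) (nat_lit 4) (nat_lit 484) (nat_lit 387) (nat_lit 329))) (XT.nd (nat_lit 78) (nat_lit 0) (nat_lit 0) (XT.lf (nat_lit 0) (nat_lit 450090875) (nat_lit 76) (nat_lit 31463991499) (nat_lit 76) (nat_lit 18188904118) (nat_lit 26) (nat_lit 4) (nat_lit 27) (nat_lit 5) (nat_lit 27) (nat_lit 4) (nat_lit 485) (nat_lit 387) (nat_lit 328)) (XT.lf (nat_lit 0) (nat_lit 35890961004) (nat_lit 76) (nat_lit 14747407608) (nat_lit 76) (nat_lit 1434669346) (nat_lit 26) (nat_lit 4) (nat_lit 27) (nat_lit 5) (nat_lit 27) (nat_lit 4) (nat_lit 486) (nat_lit 387) (nat_lit 327))))))))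
noncomputable def xc27 : XT := (XT.nd (nat_lit 58578) (nat_lit 0) (nat_lit 3192) (XT.nd (nat_lit 57564) (nat_lit 0) (nat_lit 8968) (XT.nd (nat_lit 468) (nat_lit 380) (nat_lit 0) (XT.nd (nat_lit 234) (nat_lit 228) (nat_lit 0) (XT.nd (nat_lit 78) (nat_lit 76) (nat_lit 0) (XT.lf (nat_lit 0) (nat_lit 15969419871) (nat_lit 152) (nat_lit 35154072792) (nat_lit 0) (nat_lit 3009617693) (nat_lit 24) (nat_lit 5) (nat_lit 26) (nat_lit 4) (nat_lit 24) (nat_lit 4) (nat_lit 487) (nat_lit 387) (nat_lit 326)) (XT.nd (nat_lit 78) (nat_lit 76) (nat_lit 0) (XT.lf (nat_lit 0) (nat_lit 34448273620) (nat_lit 152) (nat_lit 385144637) (nat_lit 0) (nat_lit 21455315657) (nat_lit 24) (nat_lit 5) (nat_lit 26) (nat_lit 4) (nat_lit 24) (nat_lit 4) (nat_lit 488) (nat_lit 387) (nat_lit 325)) (XT.lf (nat_lit 0) (nat_lit 36680530273) (nat_lit 76) (nat_lit 17443970473) (nat_lit 76) (nat_lit 4419435572) (nat_lit 23) (nat_lit 4) (nat_lit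 24) (nat_lit 5) (nat_lit 24) (nat_lit 4) (nat_lit 489) (nat_lit 387) (nat_lit 324)))) (XT.nd (nat_lit 78) (nat_lit 76) (nat_lit 0) (XT.lf (nat_lit 0) (nat_lit 13679418982) (nat_lit 152) (nat_lit 46221113206) (nat_lit 0) (nat_lit 1005042114) (nat_lit 21) (nat_lit 5) (nat_lit 23) (nat_lit 4) (nat_lit 21) (nat_lit 4) (nat_lit 490) (nat_lit 387) (nat_lit 323)) (XT.nd (nat_lit 78) (nat_lit 76) (nat_lit 0) (XT.lf (nat_lit 0) (nat_lit 32919933023) (nat_lit 152) (nat_lit 10236456303) (nat_lit 0) (nat_lit 20217749151) (nat_lit 21) (nat_lit 5) (nat_lit 23) (nat_lit 4) (nat_lit 21) (nat_lit 4) (nat_lit 491) (nat_lit 387) (nat_lit 322)) (XT.lf (nat_lit 0) (nat_lit 27948411901) (nat_lit 76) (nat_lit 25370250251) (nat_lit 76) (nat_lit 12641583519) (nat_lit 20) (nat_lit 4) (nat_lit 21) (nat_lit 5) (nat_lit 21) (nat_lit 4) (nat_lit 492) (nat_lit 387) (nat_lit 321))))) (XT.nd (nat_lit 234) (nat_lit 152) (nat_lit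 0) (XT.nd (nat_lit 78) (nat_lit 152) (nat_lit 0) (XT.lf (nat_lit 0) (nat_lit 5978740738) (nat_lit 152) (nat_lit 617044804) (nat_lit 76) (nat_lit 62077064396) (nat_lit 19) (nat_lit 5) (nat_lit 21) (nat_lit 5) (nat_lit 20) (nat_lit 4) (nat_lit 493) (nat_lit 387) (nat_lit 320)) (XT.nd (nat_lit 78) (nat_lit 76) (nat_lit 0) (XT.lf (nat_lit 0) (nat_lit 25710144329) (nat_lit 152) (nat_lit 32489533083) (nat_lit 0) (nat_lit 13304407203) (nat_lit 18) (nat_lit 5) (nat_lit 20) (nat_lit 4) (nat_lit 18) (nat_lit 4) (nat_lit 494) (nat_lit 387) (nat_lit 319)) (XT.lf (nat_lit 0) (nat_lit 6083607686) (nat_lit 76) (nat_lit 40409633874) (nat_lit 76) (nat_lit 27981686175) (nat_lit 17) (nat_lit 4) (nat_lit 18) (nat_lit 5) (nat_lit 18) (nat_lit 4) (nat_lit 495) (nat_lit 387) (nat_lit 318)))) (XT.nd (nat_lit 78) (nat_lit 152) (nat_lit 0) (XT.lf (nat_lit 0) (nat_lit 47135735136) (nat_lit 76) (nat_lit 21449788990) (nat_lit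 76) (nat_lit 9000688365) (nat_lit 17) (nat_lit 4) (nat_lit 18) (nat_lit 5) (nat_lit 18) (nat_lit 4) (nat_lit 496) (nat_lit 387) (nat_lit 317)) (XT.nd (nat_lit 78) (nat_lit 0) (nat_lit 0) (XT.lf (nat_lit 0) (nat_lit 9340907075) (nat_lit 76) (nat_lit 1403010828) (nat_lit 152) (nat_lit 70105157262) (nat_lit 15) (nat_lit 5) (nat_lit 16) (nat_lit 5) (nat_lit 17) (nat_lit 4) (nat_lit 497) (nat_lit 387) (nat_lit 316)) (XT.lf (nat_lit 0) (nat_lit 31736009409) (nat_lit 152) (nat_lit 32911688786) (nat_lit 0) (nat_lit 19611317565) (nat_lit 15) (nat_lit 5) (nat_lit 17) (nat_lit 4) (nat_lit 15) (nat_lit 4) (nat_lit 498) (nat_lit 387) (nat_lit 315)))))) (XT.nd (nat_lit 468) (nat_lit 2888) (nat_lit 0) (XT.nd (nat_lit 234) (nat_lit 1900) (nat_lit 0) (XT.nd (nat_lit 78) (nat_lit 988) (nat_lit 0) (XT.lf (nat_lit 0) (nat_lit 826521662) (nat_lit 456) (nat_lit 1619575906) (nat_lit 456) (nat_lit 1619575906) (nat_lit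 209) (nat_lit 4) (nat_lit 215) (nat_lit 5) (nat_lit 215) (nat_lit 4) (nat_lit 424) (nat_lit 388) (nat_lit 388)) (XT.nd (nat_lit 78) (nat_lit 532) (nat_lit 0) (XT.lf (nat_lit 0) (nat_lit 3347026542) (nat_lit 456) (nat_lit 3449934971) (nat_lit 0) (nat_lit 1481671545) (nat_lit 203) (nat_lit 5) (nat_lit 209) (nat_lit 4) (nat_lit 203) (nat_lit 4) (nat_lit 425) (nat_lit 388) (nat_lit 387)) (XT.lf (nat_lit 0) (nat_lit 1631299094) (nat_lit 532) (nat_lit 330346405) (nat_lit 76) (nat_lit 6473124382) (nat_lit 196) (nat_lit 5) (nat_lit 203) (nat_lit 5) (nat_lit 197) (nat_lit 4) (nat_lit 426) (nat_lit 388) (nat_lit 386)))) (XT.nd (nat_lit 78) (nat_lit 1140) (nat_lit 0) (XT.lf (nat_lit 0) (nat_lit 2939821392) (nat_lit 380) (nat_lit 5418884555) (nat_lit 380) (nat_lit 240422870) (nat_lit 186) (nat_lit 4) (nat_lit 191) (nat_lit 5) (nat_lit 191) (nat_lit 4) (nat_lit 427) (nat_lit 388) (nat_lit 385)) (XT.nd (nat_lit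 78) (nat_lit 760) (nat_lit 0) (XT.lf (nat_lit 0) (nat_lit 6309794042) (nat_lit 304) (nat_lit 120100826) (nat_lit 380) (nat_lit 2342654229) (nat_lit 181) (nat_lit 5) (nat_lit 185) (nat_lit 5) (nat_lit 186) (nat_lit 4) (nat_lit 428) (nat_lit 388) (nat_lit 384)) (XT.lf (nat_lit 0) (nat_lit 820190198) (nat_lit 304) (nat_lit 3521300352) (nat_lit 380) (nat_lit 4613175989) (nat_lit 171) (nat_lit 5) (nat_lit 175) (nat_lit 5) (nat_lit 176) (nat_lit 4) (nat_lit 429) (nat_lit 388) (nat_lit 383))))) (XT.nd (nat_lit 234) (nat_lit 1520) (nat_lit 0) (XT.nd (nat_lit 78) (nat_lit 988) (nat_lit 0) (XT.lf (nat_lit 0) (nat_lit 2073015207) (nat_lit 380) (nat_lit 4889537252) (nat_lit 76) (nat_lit 2183568450) (nat_lit 166) (nat_lit 5) (nat_lit 171) (nat_lit 5) (nat_lit 167) (nat_lit 4) (nat_lit 430) (nat_lit 388) (nat_lit 382)) (XT.nd (nat_lit 78) (nat_lit 684) (nat_lit 0) (XT.lf (nat_lit 0) (nat_lit 7783520113) (nat_lit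 304) (nat_lit 1159886648) (nat_lit 380) (nat_lit 404035058) (nat_lit 162) (nat_lit 5) (nat_lit 166) (nat_lit 5) (nat_lit 167) (nat_lit 4) (nat_lit 431) (nat_lit 388) (nat_lit 381)) (XT.lf (nat_lit 0) (nat_lit 1850242797) (nat_lit 304) (nat_lit 4601775116) (nat_lit 380) (nat_lit 3105460618) (nat_lit 153) (nat_lit 5) (nat_lit 157) (nat_lit 5) (nat_lit 158) (nat_lit 4) (nat_lit 432) (nat_lit 388) (nat_lit 380)))) (XT.nd (nat_lit 156) (nat_lit 836) (nat_lit 0) (XT.nd (nat_lit 78) (nat_lit 304) (nat_lit 0) (XT.lf (nat_lit 0) (nat_lit 3755609924) (nat_lit 380) (nat_lit 4384955597) (nat_lit 76) (nat_lit 1637244694) (nat_lit 148) (nat_lit 5) (nat_lit 153) (nat_lit 5) (nat_lit 149) (nat_lit 4) (nat_lit 433) (nat_lit 388) (nat_lit 379)) (XT.lf (nat_lit 0) (nat_lit 846842404) (nat_lit 304) (nat_lit 991855500) (nat_lit 76) (nat_lit 8169993977) (nat_lit 144) (nat_lit 5) (nat_lit 148) (nat_lit 5) (nat_lit 145)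 (nat_lit 5) (nat_lit 434) (nat_lit 388) (nat_lit 378))) (XT.nd (nat_lit 78) (nat_lit 304) (nat_lit 0) (XT.lf (nat_lit 0) (nat_lit 2500588320) (nat_lit 228) (nat_lit 5443121089) (nat_lit 304) (nat_lit 2305369167) (nat_lit 137) (nat_lit 5) (nat_lit 140) (nat_lit 5) (nat_lit 141) (nat_lit 4) (nat_lit 435) (nat_lit 388) (nat_lit 377)) (XT.lf (nat_lit 0) (nat_lit 4782693756) (nat_lit 304) (nat_lit 4406210266) (nat_lit 76) (nat_lit 1311657602) (nat_lit 133) (nat_lit 5) (nat_lit 137) (nat_lit 5) (nat_lit 134) (nat_lit 4) (nat_lit 436) (nat_lit 388) (nat_lit 376))))))) (XT.nd (nat_lit 1014) (nat_lit 2128) (nat_lit 0) (XT.nd (nat_lit 468) (nat_lit 1672) (nat_lit 0) (XT.nd (nat_lit 234) (nat_lit 912) (nat_lit 0) (XT.nd (nat_lit 78) (nat_lit 760) (nat_lit 0) (XT.lf (nat_lit 0) (nat_lit 1391144809) (nat_lit 304) (nat_lit 1006338576) (nat_lit 76) (nat_lit 8365902429) (nat_lit 129) (nat_lit 5) (nat_lit 133)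 (nat_lit 5) (nat_lit 130) (nat_lit 5) (nat_lit 437) (nat_lit 388) (nat_lit 375)) (XT.nd (nat_lit 78) (nat_lit 304) (nat_lit 0) (XT.lf (nat_lit 0) (nat_lit 2488086917) (nat_lit 228) (nat_lit 6276897783) (nat_lit 304) (nat_lit 2271853328) (nat_lit 123) (nat_lit 5) (nat_lit 126) (nat_lit 5) (nat_lit 127) (nat_lit 4) (nat_lit 438) (nat_lit 388) (nat_lit 374)) (XT.lf (nat_lit 0) (nat_lit 5088217003) (nat_lit 304) (nat_lit 5252044688) (nat_lit 76) (nat_lit 982044996) (nat_lit 119) (nat_lit 5) (nat_lit 123) (nat_lit 5) (nat_lit 120) (nat_lit 4) (nat_lit 439) (nat_lit 388) (nat_lit 373)))) (XT.nd (nat_lit 78) (nat_lit 684) (nat_lit 0) (XT.lf (nat_lit 0) (nat_lit 1157922187) (nat_lit 228) (nat_lit 1913758537) (nat_lit 76) (nat_lit 8548402546) (nat_lit 116) (nat_lit 5) (nat_lit 119) (nat_lit 5) (nat_lit 117) (nat_lit 5) (nat_lit 440) (nat_lit 388) (nat_lit 372)) (XT.nd (nat_lit 78) (nat_lit 304) (nat_lit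 0) (XT.lf (nat_lit 0) (nat_lit 1484707293) (nat_lit 152) (nat_lit 7340673586) (nat_lit 228) (nat_lit 3104484283) (nat_lit 111) (nat_lit 5) (nat_lit 113) (nat_lit 5) (nat_lit 114) (nat_lit 4) (nat_lit 441) (nat_lit 388) (nat_lit 371)) (XT.lf (nat_lit 0) (nat_lit 4565534644) (nat_lit 304) (nat_lit 7272154372) (nat_lit 76) (nat_lit 415086179) (nat_lit 107) (nat_lit 5) (nat_lit 111) (nat_lit 5) (nat_lit 108) (nat_lit 4) (nat_lit 442) (nat_lit 388) (nat_lit 370))))) (XT.nd (nat_lit 234) (nat_lit 912) (nat_lit 0) (XT.nd (nat_lit 78) (nat_lit 532) (nat_lit 0) (XT.lf (nat_lit 0) (nat_lit 25905247) (nat_lit 228) (nat_lit 4079981907) (nat_lit 76) (nat_lit 8483203841) (nat_lit 104) (nat_lit 5) (nat_lit 107) (nat_lit 5) (nat_lit 105) (nat_lit 5) (nat_lit 443) (nat_lit 388) (nat_lit 369)) (XT.nd (nat_lit 78) (nat_lit 380) (nat_lit 0) (XT.lf (nat_lit 0) (nat_lit 7998902470) (nat_lit 228) (nat_lit 882047220)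 (nat_lit 76) (nat_lit 4058003572) (nat_lit 102) (nat_lit 5) (nat_lit 105) (nat_lit 5) (nat_lit 103) (nat_lit 4) (nat_lit 444) (nat_lit 388) (nat_lit 368)) (XT.lf (nat_lit 0) (nat_lit 2411818495) (nat_lit 152) (nat_lit 655815329) (nat_lit 228) (nat_lit 10235904194) (nat_lit 97) (nat_lit 5) (nat_lit 99) (nat_lit 5) (nat_lit 100) (nat_lit 5) (nat_lit 445) (nat_lit 388) (nat_lit 367)))) (XT.nd (nat_lit 156) (nat_lit 532) (nat_lit 0) (XT.nd (nat_lit 78) (nat_lit 228) (nat_lit 0) (XT.lf (nat_lit 0) (nat_lit 5715070215) (nat_lit 152) (nat_lit 5748436836) (nat_lit 228) (nat_lit 2218686692) (nat_lit 95) (nat_lit 5) (nat_lit 97) (nat_lit 5) (nat_lit 98) (nat_lit 4) (nat_lit 446) (nat_lit 388) (nat_lit 366)) (XT.lf (nat_lit 0) (nat_lit 6122442059) (nat_lit 228) (nat_lit 5037532201) (nat_lit 76) (nat_lit 2916707159) (nat_lit 92) (nat_lit 5) (nat_lit 95) (nat_lit 5) (nat_lit 93) (nat_lit 4) (nat_lit 447) (nat_lit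 388) (nat_lit 365))) (XT.nd (nat_lit 78) (nat_lit 304) (nat_lit 0) (XT.lf (nat_lit 0) (nat_lit 411813519) (nat_lit 228) (nat_lit 2096325025) (nat_lit 76) (nat_lit 11979782743) (nat_lit 89) (nat_lit 5) (nat_lit 92) (nat_lit 5) (nat_lit 90) (nat_lit 5) (nat_lit 448) (nat_lit 388) (nat_lit 364)) (XT.lf (nat_lit 0) (nat_lit 808125601) (nat_lit 152) (nat_lit 8318251349) (nat_lit 228) (nat_lit 5788148849) (nat_lit 85) (nat_lit 5) (nat_lit 87) (nat_lit 5) (nat_lit 88) (nat_lit 4) (nat_lit 449) (nat_lit 388) (nat_lit 363)))))) (XT.nd (nat_lit 468) (nat_lit 1064) (nat_lit 0) (XT.nd (nat_lit 234) (nat_lit 532) (nat_lit 0) (XT.nd (nat_lit 78) (nat_lit 304) (nat_lit 0) (XT.lf (nat_lit 0) (nat_lit 2938175718) (nat_lit 228) (nat_lit 11581120507) (nat_lit 76) (nat_lit 839905090) (nat_lit 82) (nat_lit 5) (nat_lit 85) (nat_lit 5) (nat_lit 83) (nat_lit 4) (nat_lit 450) (nat_lit 388) (nat_lit 362)) (XT.nd (nat_lit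 78) (nat_lit 228) (nat_lit 0) (XT.lf (nat_lit 0) (nat_lit 6684972671) (nat_lit 76) (nat_lit 5412323816) (nat_lit 152) (nat_lit 3723615144) (nat_lit 81) (nat_lit 5) (nat_lit 82) (nat_lit 5) (nat_lit 83) (nat_lit 4) (nat_lit 451) (nat_lit 388) (nat_lit 361)) (XT.lf (nat_lit 0) (nat_lit 5380947863) (nat_lit 228) (nat_lit 6730941338) (nat_lit 76) (nat_lit 4189929245) (nat_lit 78) (nat_lit 5) (nat_lit 81) (nat_lit 5) (nat_lit 79) (nat_lit 4) (nat_lit 452) (nat_lit 388) (nat_lit 360)))) (XT.nd (nat_lit 78) (nat_lit 456) (nat_lit 0) (XT.lf (nat_lit 0) (nat_lit 12429522717) (nat_lit 76) (nat_lit 2531895687) (nat_lit 152) (nat_lit 1841320696) (nat_lit 77) (nat_lit 5) (nat_lit 78) (nat_lit 5) (nat_lit 79) (nat_lit 4) (nat_lit 453) (nat_lit 388) (nat_lit 359)) (XT.nd (nat_lit 78) (nat_lit 228) (nat_lit 0) (XT.lf (nat_lit 0) (nat_lit 7664150996) (nat_lit 228) (nat_lit 2127539187) (nat_lit 76) (nat_lit 7531140737)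 (nat_lit 74) (nat_lit 5) (nat_lit 77) (nat_lit 5) (nat_lit 75) (nat_lit 4) (nat_lit 454) (nat_lit 388) (nat_lit 358)) (XT.lf (nat_lit 0) (nat_lit 96576877) (nat_lit 152) (nat_lit 17593053025) (nat_lit 152) (nat_lit 176270638) (nat_lit 71) (nat_lit 4) (nat_lit 73) (nat_lit 5) (nat_lit 73) (nat_lit 4) (nat_lit 455) (nat_lit 388) (nat_lit 357))))) (XT.nd (nat_lit 234) (nat_lit 608) (nat_lit 0) (XT.nd (nat_lit 78) (nat_lit 304) (nat_lit 0) (XT.lf (nat_lit 0) (nat_lit 2178580729) (nat_lit 76) (nat_lit 7589783022) (nat_lit 152) (nat_lit 8659575130) (nat_lit 69) (nat_lit 5) (nat_lit 70) (nat_lit 5) (nat_lit 71) (nat_lit 4) (nat_lit 456) (nat_lit 388) (nat_lit 356)) (XT.nd (nat_lit 78) (nat_lit 76) (nat_lit 0) (XT.lf (nat_lit 0) (nat_lit 1257460198) (nat_lit 228) (nat_lit 14801191092) (nat_lit 76) (nat_lit 2956273784) (nat_lit 66) (nat_lit 5) (nat_lit 69) (nat_lit 5) (nat_lit 67) (nat_lit 4) (nat_lit 457)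 (nat_lit 388) (nat_lit 355)) (XT.lf (nat_lit 0) (nat_lit 6064555627) (nat_lit 76) (nat_lit 5573286563) (nat_lit 152) (nat_lit 7986452320) (nat_lit 65) (nat_lit 5) (nat_lit 66) (nat_lit 5) (nat_lit 67) (nat_lit 4) (nat_lit 458) (nat_lit 388) (nat_lit 354)))) (XT.nd (nat_lit 156) (nat_lit 304) (nat_lit 0) (XT.nd (nat_lit 78) (nat_lit 76) (nat_lit 0) (XT.lf (nat_lit 0) (nat_lit 2355871277) (nat_lit 228) (nat_lit 12457253935) (nat_lit 76) (nat_lit 5446541632) (nat_lit 62) (nat_lit 5) (nat_lit 65) (nat_lit 5) (nat_lit 63) (nat_lit 4) (nat_lit 459) (nat_lit 388) (nat_lit 353)) (XT.lf (nat_lit 0) (nat_lit 9346932734) (nat_lit 76) (nat_lit 3839465688) (nat_lit 152) (nat_lit 7733952659) (nat_lit 61) (nat_lit 5) (nat_lit 62) (nat_lit 5) (nat_lit 63) (nat_lit 4) (nat_lit 460) (nat_lit 388) (nat_lit 352))) (XT.nd (nat_lit 78) (nat_lit 76) (nat_lit 0) (XT.lf (nat_lit 0) (nat_lit 3045989235) (nat_lit 228) (nat_lit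 10898761411) (nat_lit 76) (nat_lit 7663700957) (nat_lit 58) (nat_lit 5) (nat_lit 61) (nat_lit 5) (nat_lit 59) (nat_lit 4) (nat_lit 461) (nat_lit 388) (nat_lit 351)) (XT.lf (nat_lit 0) (nat_lit 11854585680) (nat_lit 76) (nat_lit 2478806319) (nat_lit 152) (nat_lit 7991418418) (nat_lit 57) (nat_lit 5) (nat_lit 58) (nat_lit 5) (nat_lit 59) (nat_lit 4) (nat_lit 462) (nat_lit 388) (nat_lit 350))))))))
noncomputable def xc28 : XT := (XT.nd (nat_lit 1950) (nat_lit 760) (nat_lit 0) (XT.nd (nat_lit 936) (nat_lit 1140) (nat_lit 0) (XT.nd (nat_lit 468) (nat_lit 608) (nat_lit 0) (XT.nd (nat_lit 234) (nat_lit 304) (nat_lit 0) (XT.nd (nat_lit 78) (nat_lit 228) (nat_lit 0) (XT.lf (nat_lit 0) (nat_lit 3234409579) (nat_lit 152) (nat_lit 10322165755) (nat_lit 76) (nat_lit 9513911674) (nat_lit 55) (nat_lit 5) (nat_lit 57) (nat_lit 5) (nat_lit 56) (nat_lit 4) (nat_lit 463) (nat_lit 388) (nat_lit 349)) (XT.nd (nat_lit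 78) (nat_lit 152) (nat_lit 0) (XT.lf (nat_lit 0) (nat_lit 13380692651) (nat_lit 76) (nat_lit 1599444561) (nat_lit 152) (nat_lit 8867222585) (nat_lit 54) (nat_lit 5) (nat_lit 55) (nat_lit 5) (nat_lit 56) (nat_lit 4) (nat_lit 464) (nat_lit 388) (nat_lit 348)) (XT.lf (nat_lit 0) (nat_lit 2807718715) (nat_lit 152) (nat_lit 10963672548) (nat_lit 76) (nat_lit 10884642409) (nat_lit 52) (nat_lit 5) (nat_lit 54) (nat_lit 5) (nat_lit 53) (nat_lit 4) (nat_lit 465) (nat_lit 388) (nat_lit 347)))) (XT.nd (nat_lit 78) (nat_lit 228) (nat_lit 0) (XT.lf (nat_lit 0) (nat_lit 13676065110) (nat_lit 76) (nat_lit 1330607426) (nat_lit 152) (nat_lit 10492127521) (nat_lit 51) (nat_lit 5) (nat_lit 52) (nat_lit 5) (nat_lit 53) (nat_lit 4) (nat_lit 466) (nat_lit 388) (nat_lit 346)) (XT.nd (nat_lit 78) (nat_lit 76) (nat_lit 0) (XT.lf (nat_lit 0) (nat_lit 1628933524) (nat_lit 152) (nat_lit 13106573076) (nat_lit 76) (nat_lit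 11641037162) (nat_lit 49) (nat_lit 5) (nat_lit 51) (nat_lit 5) (nat_lit 50) (nat_lit 4) (nat_lit 467) (nat_lit 388) (nat_lit 345)) (XT.lf (nat_lit 0) (nat_lit 12441312129) (nat_lit 76) (nat_lit 1826637671) (nat_lit 152) (nat_lit 13023243491) (nat_lit 48) (nat_lit 5) (nat_lit 49) (nat_lit 5) (nat_lit 50) (nat_lit 4) (nat_lit 468) (nat_lit 388) (nat_lit 344))))) (XT.nd (nat_lit 234) (nat_lit 304) (nat_lit 0) (XT.nd (nat_lit 78) (nat_lit 228) (nat_lit 0) (XT.lf (nat_lit 0) (nat_lit 11150255091) (nat_lit 76) (nat_lit 16618446405) (nat_lit 76) (nat_lit 475982144) (nat_lit 47) (nat_lit 4) (nat_lit 48) (nat_lit 5) (nat_lit 48) (nat_lit 4) (nat_lit 469) (nat_lit 388) (nat_lit 343)) (XT.nd (nat_lit 78) (nat_lit 76) (nat_lit 0) (XT.lf (nat_lit 0) (nat_lit 9317638221) (nat_lit 76) (nat_lit 3271706106) (nat_lit 152) (nat_lit 16648688957) (nat_lit 45) (nat_lit 5) (nat_lit 46) (nat_lit 5) (nat_lit 47) (nat_lit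 4) (nat_lit 470) (nat_lit 388) (nat_lit 342)) (XT.lf (nat_lit 0) (nat_lit 6919779070) (nat_lit 76) (nat_lit 19604557183) (nat_lit 76) (nat_lit 3749787137) (nat_lit 44) (nat_lit 4) (nat_lit 45) (nat_lit 5) (nat_lit 45) (nat_lit 4) (nat_lit 471) (nat_lit 388) (nat_lit 341)))) (XT.nd (nat_lit 78) (nat_lit 152) (nat_lit 0) (XT.lf (nat_lit 0) (nat_lit 3876038186) (nat_lit 76) (nat_lit 5885332053) (nat_lit 152) (nat_lit 21593072066) (nat_lit 42) (nat_lit 5) (nat_lit 43) (nat_lit 5) (nat_lit 44) (nat_lit 4) (nat_lit 472) (nat_lit 388) (nat_lit 340)) (XT.nd (nat_lit 78) (nat_lit 76) (nat_lit 0) (XT.lf (nat_lit 0) (nat_lit 126248823) (nat_lit 76) (nat_lit 23954391328) (nat_lit 76) (nat_lit 8400721494) (nat_lit 41) (nat_lit 4) (nat_lit 42) (nat_lit 5) (nat_lit 42) (nat_lit 4) (nat_lit 473) (nat_lit 388) (nat_lit 339)) (XT.lf (nat_lit 0) (nat_lit 5575716398) (nat_lit 152) (nat_lit 4309617906) (nat_lit 76)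 (nat_lit 23770796680) (nat_lit 40) (nat_lit 5) (nat_lit 42) (nat_lit 5) (nat_lit 41) (nat_lit 4) (nat_lit 474) (nat_lit 388) (nat_lit 338)))))) (XT.nd (nat_lit 468) (nat_lit 608) (nat_lit 0) (XT.nd (nat_lit 234) (nat_lit 228) (nat_lit 0) (XT.nd (nat_lit 78) (nat_lit 228) (nat_lit 0) (XT.lf (nat_lit 0) (nat_lit 20262815064) (nat_lit 152) (nat_lit 9598102353) (nat_lit 0) (nat_lit 5020660032) (nat_lit 39) (nat_lit 5) (nat_lit 41) (nat_lit 4) (nat_lit 39) (nat_lit 4) (nat_lit 475) (nat_lit 388) (nat_lit 337)) (XT.nd (nat_lit 78) (nat_lit 152) (nat_lit 0) (XT.lf (nat_lit 0) (nat_lit 20366915956) (nat_lit 76) (nat_lit 15551131438) (nat_lit 76) (nat_lit 243236706) (nat_lit 38) (nat_lit 4) (nat_lit 39) (nat_lit 5) (nat_lit 39) (nat_lit 4) (nat_lit 476) (nat_lit 388) (nat_lit 336)) (XT.lf (nat_lit 0) (nat_lit 14461516475) (nat_lit 76) (nat_lit 234060099) (nat_lit 152) (nat_lit 22801088643) (nat_lit 36)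 (nat_lit 5) (nat_lit 37) (nat_lit 5) (nat_lit 38) (nat_lit 4) (nat_lit 477) (nat_lit 388) (nat_lit 335)))) (XT.nd (nat_lit 78) (nat_lit 152) (nat_lit 0) (XT.lf (nat_lit 0) (nat_lit 7453451516) (nat_lit 76) (nat_lit 23208713626) (nat_lit 76) (nat_lit 8228003123) (nat_lit 35) (nat_lit 4) (nat_lit 36) (nat_lit 5) (nat_lit 36) (nat_lit 4) (nat_lit 478) (nat_lit 388) (nat_lit 334)) (XT.nd (nat_lit 78) (nat_lit 76) (nat_lit 0) (XT.lf (nat_lit 0) (nat_lit 7077167675) (nat_lit 152) (nat_lit 669194516) (nat_lit 76) (nat_lit 32600701406) (nat_lit 34) (nat_lit 5) (nat_lit 36) (nat_lit 5) (nat_lit 35) (nat_lit 4) (nat_lit 479) (nat_lit 388) (nat_lit 333)) (XT.lf (nat_lit 0) (nat_lit 23275493523) (nat_lit 152) (nat_lit 9963318936) (nat_lit 0) (nat_lit 8626606296) (nat_lit 33) (nat_lit 5) (nat_lit 35) (nat_lit 4) (nat_lit 33) (nat_lit 4) (nat_lit 480) (nat_lit 388) (nat_lit 332))))) (XT.nd (nat_lit 234) (nat_lit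 304) (nat_lit 0) (XT.nd (nat_lit 78) (nat_lit 228) (nat_lit 0) (XT.lf (nat_lit 0) (nat_lit 22838692159) (nat_lit 76) (nat_lit 17656054636) (nat_lit 76) (nat_lit 2958615447) (nat_lit 32) (nat_lit 4) (nat_lit 33) (nat_lit 5) (nat_lit 33) (nat_lit 4) (nat_lit 481) (nat_lit 388) (nat_lit 331)) (XT.nd (nat_lit 78) (nat_lit 76) (nat_lit 0) (XT.lf (nat_lit 0) (nat_lit 12299342774) (nat_lit 76) (nat_lit 1022342903) (nat_lit 152) (nat_lit 31791239138) (nat_lit 30) (nat_lit 5) (nat_lit 31) (nat_lit 5) (nat_lit 32) (nat_lit 4) (nat_lit 482) (nat_lit 388) (nat_lit 330)) (XT.lf (nat_lit 0) (nat_lit 73834503) (nat_lit 76) (nat_lit 30564625308) (nat_lit 76) (nat_lit 16207618305) (nat_lit 29) (nat_lit 4) (nat_lit 30) (nat_lit 5) (nat_lit 30) (nat_lit 4) (nat_lit 483) (nat_lit 388) (nat_lit 329)))) (XT.nd (nat_lit 156) (nat_lit 152) (nat_lit 0) (XT.nd (nat_lit 78) (nat_lit 76) (nat_lit 0) (XT.lf (nat_lit 0) (nat_lit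 415356847) (nat_lit 152) (nat_lit 13554552030) (nat_lit 76) (nat_lit 34688040145) (nat_lit 28) (nat_lit 5) (nat_lit 30) (nat_lit 5) (nat_lit 29) (nat_lit 4) (nat_lit 484) (nat_lit 388) (nat_lit 328)) (XT.lf (nat_lit 0) (nat_lit 17695244339) (nat_lit 152) (nat_lit 29176308546) (nat_lit 0) (nat_lit 3679218284) (nat_lit 27) (nat_lit 5) (nat_lit 29) (nat_lit 4) (nat_lit 27) (nat_lit 4) (nat_lit 485) (nat_lit 388) (nat_lit 327))) (XT.nd (nat_lit 78) (nat_lit 76) (nat_lit 0) (XT.lf (nat_lit 0) (nat_lit 5602532829) (nat_lit 76) (nat_lit 30489992168) (nat_lit 76) (nat_lit 16438108132) (nat_lit 26) (nat_lit 4) (nat_lit 27) (nat_lit 5) (nat_lit 27) (nat_lit 4) (nat_lit 486) (nat_lit 388) (nat_lit 326)) (XT.lf (nat_lit 0) (nat_lit 1007116630) (nat_lit 152) (nat_lit 12041587735) (nat_lit 76) (nat_lit 41553877198) (nat_lit 25) (nat_lit 5) (nat_lit 27) (nat_lit 5) (nat_lit 26) (nat_lit 4) (nat_lit 487) (nat_lit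 388) (nat_lit 325))))))) (XT.nd (nat_lit 57486) (nat_lit 0) (nat_lit 8968) (XT.nd (nat_lit 468) (nat_lit 380) (nat_lit 0) (XT.nd (nat_lit 234) (nat_lit 228) (nat_lit 0) (XT.nd (nat_lit 78) (nat_lit 76) (nat_lit 0) (XT.lf (nat_lit 0) (nat_lit 19202697532) (nat_lit 152) (nat_lit 32068647111) (nat_lit 0) (nat_lit 5495358949) (nat_lit 24) (nat_lit 5) (nat_lit 26) (nat_lit 4) (nat_lit 24) (nat_lit 4) (nat_lit 488) (nat_lit 388) (nat_lit 324)) (XT.nd (nat_lit 78) (nat_lit 0) (nat_lit 0) (XT.lf (nat_lit 0) (nat_lit 4291851731) (nat_lit 76) (nat_lit 34238954967) (nat_lit 76) (nat_lit 20501543110) (nat_lit 23) (nat_lit 4) (nat_lit 24) (nat_lit 5) (nat_lit 24) (nat_lit 4) (nat_lit 489) (nat_lit 388) (nat_lit 323)) (XT.lf (nat_lit 0) (nat_lit 42994844396) (nat_lit 76) (nat_lit 16087390074) (nat_lit 76) (nat_lit 2321337003) (nat_lit 23) (nat_lit 4) (nat_lit 24) (nat_lit 5) (nat_lit 24) (nat_lit 4) (nat_lit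 490) (nat_lit 388) (nat_lit 322)))) (XT.nd (nat_lit 78) (nat_lit 76) (nat_lit 0) (XT.lf (nat_lit 0) (nat_lit 16592218055) (nat_lit 152) (nat_lit 44091119829) (nat_lit 0) (nat_lit 3200635125) (nat_lit 21) (nat_lit 5) (nat_lit 23) (nat_lit 4) (nat_lit 21) (nat_lit 4) (nat_lit 491) (nat_lit 388) (nat_lit 321)) (XT.nd (nat_lit 78) (nat_lit 76) (nat_lit 0) (XT.lf (nat_lit 0) (nat_lit 36688623125) (nat_lit 152) (nat_lit 6518708606) (nat_lit 0) (nat_lit 23271818423) (nat_lit 21) (nat_lit 5) (nat_lit 23) (nat_lit 4) (nat_lit 21) (nat_lit 4) (nat_lit 492) (nat_lit 388) (nat_lit 320)) (XT.lf (nat_lit 0) (nat_lit 33454163218) (nat_lit 76) (nat_lit 24591536640) (nat_lit 76) (nat_lit 11150711204) (nat_lit 20) (nat_lit 4) (nat_lit 21) (nat_lit 5) (nat_lit 21) (nat_lit 4) (nat_lit 493) (nat_lit 388) (nat_lit 319))))) (XT.nd (nat_lit 234) (nat_lit 152) (nat_lit 0) (XT.nd (nat_lit 78) (nat_lit 76) (nat_lit 0) (XT.lf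 (nat_lit 0) (nat_lit 3370026701) (nat_lit 76) (nat_lit 4922450652) (nat_lit 152) (nat_lit 63753558378) (nat_lit 18) (nat_lit 5) (nat_lit 19) (nat_lit 5) (nat_lit 20) (nat_lit 4) (nat_lit 494) (nat_lit 388) (nat_lit 318)) (XT.nd (nat_lit 78) (nat_lit 76) (nat_lit 0) (XT.lf (nat_lit 0) (nat_lit 28938955979) (nat_lit 152) (nat_lit 30235774227) (nat_lit 0) (nat_lit 15846247395) (nat_lit 18) (nat_lit 5) (nat_lit 20) (nat_lit 4) (nat_lit 18) (nat_lit 4) (nat_lit 495) (nat_lit 388) (nat_lit 317)) (XT.lf (nat_lit 0) (nat_lit 10154854738) (nat_lit 76) (nat_lit 40550026377) (nat_lit 76) (nat_lit 27437172148) (nat_lit 17) (nat_lit 4) (nat_lit 18) (nat_lit 5) (nat_lit 18) (nat_lit 4) (nat_lit 496) (nat_lit 388) (nat_lit 316)))) (XT.nd (nat_lit 56628) (nat_lit 0) (nat_lit 15656) (XT.nd (nat_lit 78) (nat_lit 152) (nat_lit 0) (XT.lf (nat_lit 0) (nat_lit 53080204433) (nat_lit 76) (nat_lit 20731717306) (nat_lit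 76) (nat_lit 7599676748) (nat_lit 17) (nat_lit 4) (nat_lit 18) (nat_lit 5) (nat_lit 18) (nat_lit 4) (nat_lit 497) (nat_lit 388) (nat_lit 315)) (XT.lf (nat_lit 0) (nat_lit 13046184247) (nat_lit 152) (nat_lit 71513492577) (nat_lit 0) (nat_lit 278889829) (nat_lit 15) (nat_lit 5) (nat_lit 17) (nat_lit 4) (nat_lit 15) (nat_lit 4) (nat_lit 498) (nat_lit 388) (nat_lit 314))) (XT.nd (nat_lit 78) (nat_lit 532) (nat_lit 0) (XT.lf (nat_lit 0) (nat_lit 935564988) (nat_lit 532) (nat_lit 2057879481) (nat_lit 0) (nat_lit 935564988) (nat_lit 228) (nat_lit 5) (nat_lit 235) (nat_lit 4) (nat_lit 228) (nat_lit 4) (nat_lit 422) (nat_lit 389) (nat_lit 389)) (XT.lf (nat_lit 0) (nat_lit 344114471) (nat_lit 532) (nat_lit 1379350496) (nat_lit 76) (nat_lit 6269353849) (nat_lit 221) (nat_lit 5) (nat_lit 228) (nat_lit 5) (nat_lit 222) (nat_lit 4) (nat_lit 423) (nat_lit 389) (nat_lit 388)))))) (XT.nd (nat_lit 468) (nat_lit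 3192) (nat_lit 0) (XT.nd (nat_lit 234) (nat_lit 1596) (nat_lit 0) (XT.nd (nat_lit 78) (nat_lit 988) (nat_lit 0) (XT.lf (nat_lit 0) (nat_lit 1470348251) (nat_lit 456) (nat_lit 5301916292) (nat_lit 456) (nat_lit 1363219216) (nat_lit 209) (nat_lit 4) (nat_lit 215) (nat_lit 5) (nat_lit 215) (nat_lit 4) (nat_lit 424) (nat_lit 389) (nat_lit 387)) (XT.nd (nat_lit 78) (nat_lit 532) (nat_lit 0) (XT.lf (nat_lit 0) (nat_lit 4454562699) (nat_lit 380) (nat_lit 581439370) (nat_lit 456) (nat_lit 3250753481) (nat_lit 203) (nat_lit 5) (nat_lit 208) (nat_lit 5) (nat_lit 209) (nat_lit 4) (nat_lit 425) (nat_lit 389) (nat_lit 386)) (XT.lf (nat_lit 0) (nat_lit 3139096843) (nat_lit 532) (nat_lit 920071691) (nat_lit 76) (nat_lit 4387461708) (nat_lit 196) (nat_lit 5) (nat_lit 203) (nat_lit 5) (nat_lit 197) (nat_lit 4) (nat_lit 426) (nat_lit 389) (nat_lit 385)))) (XT.nd (nat_lit 78) (nat_lit 760) (nat_lit 0) (XT.lf (nat_lit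 0) (nat_lit 1069021062) (nat_lit 456) (nat_lit 6474355266) (nat_lit 76) (nat_lit 1072124396) (nat_lit 185) (nat_lit 5) (nat_lit 191) (nat_lit 5) (nat_lit 186) (nat_lit 4) (nat_lit 427) (nat_lit 389) (nat_lit 384)) (XT.nd (nat_lit 78) (nat_lit 456) (nat_lit 0) (XT.lf (nat_lit 0) (nat_lit 5296086428) (nat_lit 304) (nat_lit 2305139483) (nat_lit 380) (nat_lit 1191641539) (nat_lit 181) (nat_lit 5) (nat_lit 185) (nat_lit 5) (nat_lit 186) (nat_lit 4) (nat_lit 428) (nat_lit 389) (nat_lit 383)) (XT.lf (nat_lit 0) (nat_lit 5308051603) (nat_lit 456) (nat_lit 441535899) (nat_lit 76) (nat_lit 3229937347) (nat_lit 175) (nat_lit 5) (nat_lit 181) (nat_lit 5) (nat_lit 176) (nat_lit 4) (nat_lit 429) (nat_lit 389) (nat_lit 382))))) (XT.nd (nat_lit 234) (nat_lit 1824) (nat_lit 0) (XT.nd (nat_lit 78) (nat_lit 684) (nat_lit 0) (XT.lf (nat_lit 0) (nat_lit 2766866373) (nat_lit 304) (nat_lit 69277580) (nat_lit 380) (nat_lit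 6339380869) (nat_lit 166) (nat_lit 5) (nat_lit 170) (nat_lit 5) (nat_lit 171) (nat_lit 5) (nat_lit 430) (nat_lit 389) (nat_lit 381)) (XT.nd (nat_lit 78) (nat_lit 304) (nat_lit 0) (XT.lf (nat_lit 0) (nat_lit 188264357) (nat_lit 380) (nat_lit 3326962303) (nat_lit 76) (nat_lit 5865584143) (nat_lit 161) (nat_lit 5) (nat_lit 166) (nat_lit 5) (nat_lit 162) (nat_lit 5) (nat_lit 431) (nat_lit 389) (nat_lit 380)) (XT.lf (nat_lit 0) (nat_lit 6862665037) (nat_lit 380) (nat_lit 178109974) (nat_lit 76) (nat_lit 2555178923) (nat_lit 157) (nat_lit 5) (nat_lit 162) (nat_lit 5) (nat_lit 158) (nat_lit 4) (nat_lit 432) (nat_lit 389) (nat_lit 379)))) (XT.nd (nat_lit 156) (nat_lit 836) (nat_lit 0) (XT.nd (nat_lit 78) (nat_lit 304) (nat_lit 0) (XT.lf (nat_lit 0) (nat_lit 3114331524) (nat_lit 304) (nat_lit 853152702) (nat_lit 380) (nat_lit 5853294263) (nat_lit 148) (nat_lit 5) (nat_lit 152) (nat_lit 5) (nat_lit 153)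 (nat_lit 5) (nat_lit 433) (nat_lit 389) (nat_lit 378)) (XT.lf (nat_lit 0) (nat_lit 868436210) (nat_lit 304) (nat_lit 3576042433) (nat_lit 76) (nat_lit 5611461745) (nat_lit 144) (nat_lit 5) (nat_lit 148) (nat_lit 5) (nat_lit 145) (nat_lit 5) (nat_lit 434) (nat_lit 389) (nat_lit 377))) (XT.nd (nat_lit 78) (nat_lit 532) (nat_lit 0) (XT.lf (nat_lit 0) (nat_lit 7780868714) (nat_lit 380) (nat_lit 383683174) (nat_lit 76) (nat_lit 2137316284) (nat_lit 140) (nat_lit 5) (nat_lit 145) (nat_lit 5) (nat_lit 141) (nat_lit 4) (nat_lit 435) (nat_lit 389) (nat_lit 376)) (XT.lf (nat_lit 0) (nat_lit 2928650576) (nat_lit 228) (nat_lit 1488155301) (nat_lit 304) (nat_lit 6141248933) (nat_lit 133) (nat_lit 5) (nat_lit 136) (nat_lit 5) (nat_lit 137) (nat_lit 5) (nat_lit 436) (nat_lit 389) (nat_lit 375))))))))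
noncomputable def xc29 : XT := (XT.nd (nat_lit 1950) (nat_lit 2660) (nat_lit 0) (XT.nd (nat_lit 936) (nat_lit 2204) (nat_lit 0) (XT.nd (nat_lit 468) (nat_lit 1520) (nat_lit 0) (XT.nd (nat_lit 234) (nat_lit 684) (nat_lit 0) (XT.nd (nat_lit 78) (nat_lit 760) (nat_lit 0) (XT.lf (nat_lit 0) (nat_lit 822669063) (nat_lit 304) (nat_lit 4510700910) (nat_lit 76) (nat_lit 5492238697) (nat_lit 129) (nat_lit 5) (nat_lit 133) (nat_lit 5) (nat_lit 130) (nat_lit 5) (nat_lit 437) (nat_lit 389) (nat_lit 374)) (XT.nd (nat_lit 78) (nat_lit 532) (nat_lit 0) (XT.lf (nat_lit 0) (nat_lit 8005323520) (nat_lit 304) (nat_lit 1343907097) (nat_lit 76) (nat_lit 1755572387) (nat_lit 126) (nat_lit 5) (nat_lit 130) (nat_lit 5) (nat_lit 127) (nat_lit 4) (nat_lit 438) (nat_lit 389) (nat_lit 373)) (XT.lf (nat_lit 0) (nat_lit 1908076559) (nat_lit 228) (nat_lit 2203607474) (nat_lit 304) (nat_lit 7283784066) (nat_lit 119) (nat_lit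 5) (nat_lit 122) (nat_lit 5) (nat_lit 123) (nat_lit 5) (nat_lit 439) (nat_lit 389) (nat_lit 372)))) (XT.nd (nat_lit 78) (nat_lit 532) (nat_lit 0) (XT.lf (nat_lit 0) (nat_lit 5247549155) (nat_lit 152) (nat_lit 6413736938) (nat_lit 228) (nat_lit 37212086) (nat_lit 117) (nat_lit 5) (nat_lit 119) (nat_lit 5) (nat_lit 120) (nat_lit 4) (nat_lit 440) (nat_lit 389) (nat_lit 371)) (XT.nd (nat_lit 78) (nat_lit 228) (nat_lit 0) (XT.lf (nat_lit 0) (nat_lit 7440124824) (nat_lit 304) (nat_lit 3390341266) (nat_lit 76) (nat_lit 1183555491) (nat_lit 113) (nat_lit 5) (nat_lit 117) (nat_lit 5) (nat_lit 114) (nat_lit 4) (nat_lit 441) (nat_lit 389) (nat_lit 370)) (XT.lf (nat_lit 0) (nat_lit 2941890274) (nat_lit 228) (nat_lit 294462486) (nat_lit 76) (nat_lit 9106494699) (nat_lit 110) (nat_lit 5) (nat_lit 113) (nat_lit 5) (nat_lit 111) (nat_lit 5) (nat_lit 442) (nat_lit 389) (nat_lit 369))))) (XT.nd (nat_lit 234) (nat_lit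 684) (nat_lit 0) (XT.nd (nat_lit 78) (nat_lit 456) (nat_lit 0) (XT.lf (nat_lit 0) (nat_lit 2893718421) (nat_lit 152) (nat_lit 7915189450) (nat_lit 228) (nat_lit 1875756726) (nat_lit 105) (nat_lit 5) (nat_lit 107) (nat_lit 5) (nat_lit 108) (nat_lit 4) (nat_lit 443) (nat_lit 389) (nat_lit 368)) (XT.nd (nat_lit 78) (nat_lit 228) (nat_lit 0) (XT.lf (nat_lit 0) (nat_lit 5945485179) (nat_lit 228) (nat_lit 6917315886) (nat_lit 76) (nat_lit 177921817) (nat_lit 102) (nat_lit 5) (nat_lit 105) (nat_lit 5) (nat_lit 103) (nat_lit 4) (nat_lit 444) (nat_lit 389) (nat_lit 367)) (XT.lf (nat_lit 0) (nat_lit 778408509) (nat_lit 228) (nat_lit 4038488600) (nat_lit 76) (nat_lit 8594318873) (nat_lit 99) (nat_lit 5) (nat_lit 102) (nat_lit 5) (nat_lit 100) (nat_lit 5) (nat_lit 445) (nat_lit 389) (nat_lit 366)))) (XT.nd (nat_lit 78) (nat_lit 532) (nat_lit 0) (XT.lf (nat_lit 0) (nat_lit 8948417059) (nat_lit 228) (nat_lit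 1158512422) (nat_lit 76) (nat_lit 3689721995) (nat_lit 97) (nat_lit 5) (nat_lit 100) (nat_lit 5) (nat_lit 98) (nat_lit 4) (nat_lit 446) (nat_lit 389) (nat_lit 365)) (XT.nd (nat_lit 78) (nat_lit 152) (nat_lit 0) (XT.lf (nat_lit 0) (nat_lit 1780322556) (nat_lit 152) (nat_lit 1564748125) (nat_lit 228) (nat_lit 10852804384) (nat_lit 92) (nat_lit 5) (nat_lit 94) (nat_lit 5) (nat_lit 95) (nat_lit 5) (nat_lit 447) (nat_lit 389) (nat_lit 364)) (XT.lf (nat_lit 0) (nat_lit 4723716184) (nat_lit 152) (nat_lit 7231243793) (nat_lit 228) (nat_lit 2659551063) (nat_lit 90) (nat_lit 5) (nat_lit 92) (nat_lit 5) (nat_lit 93) (nat_lit 4) (nat_lit 448) (nat_lit 389) (nat_lit 363)))))) (XT.nd (nat_lit 468) (nat_lit 988) (nat_lit 0) (XT.nd (nat_lit 234) (nat_lit 608) (nat_lit 0) (XT.nd (nat_lit 78) (nat_lit 380) (nat_lit 0) (XT.lf (nat_lit 0) (nat_lit 5889271823) (nat_lit 228) (nat_lit 7373929341) (nat_lit 76) (nat_lit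 1785213601) (nat_lit 87) (nat_lit 5) (nat_lit 90) (nat_lit 5) (nat_lit 88) (nat_lit 4) (nat_lit 449) (nat_lit 389) (nat_lit 362)) (XT.nd (nat_lit 78) (nat_lit 228) (nat_lit 0) (XT.lf (nat_lit 0) (nat_lit 10618663092) (nat_lit 152) (nat_lit 4299831428) (nat_lit 228) (nat_lit 581496411) (nat_lit 85) (nat_lit 5) (nat_lit 87) (nat_lit 5) (nat_lit 88) (nat_lit 4) (nat_lit 450) (nat_lit 389) (nat_lit 361)) (XT.lf (nat_lit 0) (nat_lit 8351520875) (nat_lit 228) (nat_lit 2450855032) (nat_lit 76) (nat_lit 5166619293) (nat_lit 82) (nat_lit 5) (nat_lit 85) (nat_lit 5) (nat_lit 83) (nat_lit 4) (nat_lit 451) (nat_lit 389) (nat_lit 360)))) (XT.nd (nat_lit 78) (nat_lit 456) (nat_lit 0) (XT.lf (nat_lit 0) (nat_lit 1323527740) (nat_lit 152) (nat_lit 21351766) (nat_lit 76) (nat_lit 15113334278) (nat_lit 80) (nat_lit 5) (nat_lit 82) (nat_lit 5) (nat_lit 81) (nat_lit 5) (nat_lit 452) (nat_lit 389) (nat_lit 359)) (XT.nd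 (nat_lit 78) (nat_lit 228) (nat_lit 0) (XT.lf (nat_lit 0) (nat_lit 2348063605) (nat_lit 76) (nat_lit 8365927163) (nat_lit 152) (nat_lit 6250846311) (nat_lit 77) (nat_lit 5) (nat_lit 78) (nat_lit 5) (nat_lit 79) (nat_lit 4) (nat_lit 453) (nat_lit 389) (nat_lit 358)) (XT.lf (nat_lit 0) (nat_lit 3102765911) (nat_lit 228) (nat_lit 12791155497) (nat_lit 76) (nat_lit 1599418495) (nat_lit 74) (nat_lit 5) (nat_lit 77) (nat_lit 5) (nat_lit 75) (nat_lit 4) (nat_lit 454) (nat_lit 389) (nat_lit 357))))) (XT.nd (nat_lit 234) (nat_lit 608) (nat_lit 0) (XT.nd (nat_lit 78) (nat_lit 304) (nat_lit 0) (XT.lf (nat_lit 0) (nat_lit 6941295445) (nat_lit 76) (nat_lit 6000829432) (nat_lit 152) (nat_lit 5099870373) (nat_lit 73) (nat_lit 5) (nat_lit 74) (nat_lit 5) (nat_lit 75) (nat_lit 4) (nat_lit 455) (nat_lit 389) (nat_lit 356)) (XT.nd (nat_lit 78) (nat_lit 76) (nat_lit 0) (XT.lf (nat_lit 0) (nat_lit 4675277632) (nat_lit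 228) (nat_lit 9500611944) (nat_lit 76) (nat_lit 4437532750) (nat_lit 70) (nat_lit 5) (nat_lit 73) (nat_lit 5) (nat_lit 71) (nat_lit 4) (nat_lit 456) (nat_lit 389) (nat_lit 355)) (XT.lf (nat_lit 0) (nat_lit 11180470859) (nat_lit 76) (nat_lit 3787271990) (nat_lit 152) (nat_lit 4240145948) (nat_lit 69) (nat_lit 5) (nat_lit 70) (nat_lit 5) (nat_lit 71) (nat_lit 4) (nat_lit 457) (nat_lit 389) (nat_lit 354)))) (XT.nd (nat_lit 156) (nat_lit 304) (nat_lit 0) (XT.nd (nat_lit 78) (nat_lit 76) (nat_lit 0) (XT.lf (nat_lit 0) (nat_lit 5974970838) (nat_lit 228) (nat_lit 6712113930) (nat_lit 76) (nat_lit 7138838136) (nat_lit 66) (nat_lit 5) (nat_lit 69) (nat_lit 5) (nat_lit 67) (nat_lit 4) (nat_lit 458) (nat_lit 389) (nat_lit 353)) (XT.lf (nat_lit 0) (nat_lit 14943834693) (nat_lit 76) (nat_lit 1791326078) (nat_lit 152) (nat_lit 3734781582) (nat_lit 65) (nat_lit 5) (nat_lit 66) (nat_lit 5) (nat_lit 67) (nat_lit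 4) (nat_lit 459) (nat_lit 389) (nat_lit 352))) (XT.nd (nat_lit 78) (nat_lit 76) (nat_lit 0) (XT.lf (nat_lit 0) (nat_lit 6936067295) (nat_lit 228) (nat_lit 4567222775) (nat_lit 76) (nat_lit 9635391796) (nat_lit 62) (nat_lit 5) (nat_lit 65) (nat_lit 5) (nat_lit 63) (nat_lit 4) (nat_lit 460) (nat_lit 389) (nat_lit 351)) (XT.lf (nat_lit 0) (nat_lit 18083152833) (nat_lit 76) (nat_lit 91958080) (nat_lit 152) (nat_lit 3661284283) (nat_lit 61) (nat_lit 5) (nat_lit 62) (nat_lit 5) (nat_lit 63) (nat_lit 4) (nat_lit 461) (nat_lit 389) (nat_lit 350))))))) (XT.nd (nat_lit 1014) (nat_lit 1140) (nat_lit 0) (XT.nd (nat_lit 468) (nat_lit 760) (nat_lit 0) (XT.nd (nat_lit 234) (nat_lit 304) (nat_lit 0) (XT.nd (nat_lit 78) (nat_lit 228) (nat_lit 0) (XT.lf (nat_lit 0) (nat_lit 7477691856) (nat_lit 228) (nat_lit 3237133772) (nat_lit 76) (nat_lit 11845581705) (nat_lit 58) (nat_lit 5) (nat_lit 61) (nat_lit 5) (nat_lit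 59) (nat_lit 4) (nat_lit 462) (nat_lit 389) (nat_lit 349)) (XT.nd (nat_lit 78) (nat_lit 152) (nat_lit 0) (XT.lf (nat_lit 0) (nat_lit 19214001049) (nat_lit 152) (nat_lit 2909453813) (nat_lit 0) (nat_lit 1192597173) (nat_lit 57) (nat_lit 5) (nat_lit 59) (nat_lit 4) (nat_lit 57) (nat_lit 4) (nat_lit 463) (nat_lit 389) (nat_lit 348)) (XT.lf (nat_lit 0) (nat_lit 7501184635) (nat_lit 152) (nat_lit 2928254959) (nat_lit 76) (nat_lit 13671345490) (nat_lit 55) (nat_lit 5) (nat_lit 57) (nat_lit 5) (nat_lit 56) (nat_lit 4) (nat_lit 464) (nat_lit 389) (nat_lit 347)))) (XT.nd (nat_lit 78) (nat_lit 228) (nat_lit 0) (XT.lf (nat_lit 0) (nat_lit 19731997868) (nat_lit 152) (nat_lit 3206568100) (nat_lit 0) (nat_lit 1981005123) (nat_lit 54) (nat_lit 5) (nat_lit 56) (nat_lit 4) (nat_lit 54) (nat_lit 4) (nat_lit 465) (nat_lit 389) (nat_lit 346)) (XT.nd (nat_lit 78) (nat_lit 76) (nat_lit 0) (XT.lf (nat_lit 0) (nat_lit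 6886926531) (nat_lit 152) (nat_lit 3888759124) (nat_lit 76) (nat_lit 14994919318) (nat_lit 52) (nat_lit 5) (nat_lit 54) (nat_lit 5) (nat_lit 53) (nat_lit 4) (nat_lit 466) (nat_lit 389) (nat_lit 345)) (XT.lf (nat_lit 0) (nat_lit 19600446111) (nat_lit 152) (nat_lit 4915557143) (nat_lit 0) (nat_lit 2142371013) (nat_lit 51) (nat_lit 5) (nat_lit 53) (nat_lit 4) (nat_lit 51) (nat_lit 4) (nat_lit 467) (nat_lit 389) (nat_lit 344))))) (XT.nd (nat_lit 234) (nat_lit 380) (nat_lit 0) (XT.nd (nat_lit 78) (nat_lit 228) (nat_lit 0) (XT.lf (nat_lit 0) (nat_lit 5490595500) (nat_lit 152) (nat_lit 6416278455) (nat_lit 76) (nat_lit 15675032658) (nat_lit 49) (nat_lit 5) (nat_lit 51) (nat_lit 5) (nat_lit 50) (nat_lit 4) (nat_lit 468) (nat_lit 389) (nat_lit 343)) (XT.nd (nat_lit 78) (nat_lit 152) (nat_lit 0) (XT.lf (nat_lit 0) (nat_lit 18665022141) (nat_lit 152) (nat_lit 8362077110) (nat_lit 0) (nat_lit 1518088337) (nat_lit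 48) (nat_lit 5) (nat_lit 50) (nat_lit 4) (nat_lit 48) (nat_lit 4) (nat_lit 469) (nat_lit 389) (nat_lit 342)) (XT.lf (nat_lit 0) (nat_lit 3138756740) (nat_lit 152) (nat_lit 10866940004) (nat_lit 76) (nat_lit 15542450672) (nat_lit 46) (nat_lit 5) (nat_lit 48) (nat_lit 5) (nat_lit 47) (nat_lit 4) (nat_lit 470) (nat_lit 389) (nat_lit 341)))) (XT.nd (nat_lit 156) (nat_lit 228) (nat_lit 0) (XT.nd (nat_lit 78) (nat_lit 76) (nat_lit 0) (XT.lf (nat_lit 0) (nat_lit 16658053486) (nat_lit 76) (nat_lit 82826430) (nat_lit 152) (nat_lit 13853344440) (nat_lit 45) (nat_lit 5) (nat_lit 46) (nat_lit 5) (nat_lit 47) (nat_lit 4) (nat_lit 471) (nat_lit 389) (nat_lit 340)) (XT.lf (nat_lit 0) (nat_lit 14014622485) (nat_lit 76) (nat_lit 17285846905) (nat_lit 76) (nat_lit 383816451) (nat_lit 44) (nat_lit 4) (nat_lit 45) (nat_lit 5) (nat_lit 45) (nat_lit 4) (nat_lit 472) (nat_lit 389) (nat_lit 339))) (XT.nd (nat_lit 78)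 (nat_lit 76) (nat_lit 0) (XT.lf (nat_lit 0) (nat_lit 10692636759) (nat_lit 76) (nat_lit 2938673164) (nat_lit 152) (nat_lit 19189355616) (nat_lit 42) (nat_lit 5) (nat_lit 43) (nat_lit 5) (nat_lit 44) (nat_lit 4) (nat_lit 473) (nat_lit 389) (nat_lit 338)) (XT.lf (nat_lit 0) (nat_lit 6633845485) (nat_lit 76) (nat_lit 21963820929) (nat_lit 76) (nat_lit 5408332775) (nat_lit 41) (nat_lit 4) (nat_lit 42) (nat_lit 5) (nat_lit 42) (nat_lit 4) (nat_lit 474) (nat_lit 389) (nat_lit 337)))))) (XT.nd (nat_lit 468) (nat_lit 532) (nat_lit 0) (XT.nd (nat_lit 234) (nat_lit 304) (nat_lit 0) (XT.nd (nat_lit 78) (nat_lit 152) (nat_lit 0) (XT.lf (nat_lit 0) (nat_lit 1764487412) (nat_lit 76) (nat_lit 7293486704) (nat_lit 152) (nat_lit 26184821617) (nat_lit 39) (nat_lit 5) (nat_lit 40) (nat_lit 5) (nat_lit 41) (nat_lit 4) (nat_lit 475) (nat_lit 389) (nat_lit 336)) (XT.nd (nat_lit 78) (nat_lit 152) (nat_lit 0) (XT.lf (nat_lit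 0) (nat_lit 24397803889) (nat_lit 152) (nat_lit 3937995661) (nat_lit 0) (nat_lit 8196165479) (nat_lit 39) (nat_lit 5) (nat_lit 41) (nat_lit 4) (nat_lit 39) (nat_lit 4) (nat_lit 476) (nat_lit 389) (nat_lit 335)) (XT.lf (nat_lit 0) (nat_lit 2810142162) (nat_lit 152) (nat_lit 10556677667) (nat_lit 76) (nat_lit 24510752270) (nat_lit 37) (nat_lit 5) (nat_lit 39) (nat_lit 5) (nat_lit 38) (nat_lit 4) (nat_lit 477) (nat_lit 389) (nat_lit 334)))) (XT.nd (nat_lit 78) (nat_lit 228) (nat_lit 0) (XT.lf (nat_lit 0) (nat_lit 18426760181) (nat_lit 152) (nat_lit 18270825940) (nat_lit 0) (nat_lit 2583988644) (nat_lit 36) (nat_lit 5) (nat_lit 38) (nat_lit 4) (nat_lit 36) (nat_lit 4) (nat_lit 478) (nat_lit 389) (nat_lit 333)) (XT.nd (nat_lit 78) (nat_lit 152) (nat_lit 0) (XT.lf (nat_lit 0) (nat_lit 13570326372) (nat_lit 76) (nat_lit 21536132578) (nat_lit 76) (nat_lit 5640852095) (nat_lit 35) (nat_lit 4) (nat_lit 36)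 (nat_lit 5) (nat_lit 36) (nat_lit 4) (nat_lit 479) (nat_lit 389) (nat_lit 332)) (XT.lf (nat_lit 0) (nat_lit 4919771074) (nat_lit 76) (nat_lit 5358583643) (nat_lit 152) (nat_lit 32000614399) (nat_lit 33) (nat_lit 5) (nat_lit 34) (nat_lit 5) (nat_lit 35) (nat_lit 4) (nat_lit 480) (nat_lit 389) (nat_lit 331))))) (XT.nd (nat_lit 234) (nat_lit 304) (nat_lit 0) (XT.nd (nat_lit 78) (nat_lit 228) (nat_lit 0) (XT.lf (nat_lit 0) (nat_lit 27183041112) (nat_lit 152) (nat_lit 5037370878) (nat_lit 0) (nat_lit 11655938039) (nat_lit 33) (nat_lit 5) (nat_lit 35) (nat_lit 4) (nat_lit 33) (nat_lit 4) (nat_lit 481) (nat_lit 389) (nat_lit 330)) (XT.nd (nat_lit 78) (nat_lit 152) (nat_lit 0) (XT.lf (nat_lit 0) (nat_lit 29249259633) (nat_lit 76) (nat_lit 15933986884) (nat_lit 76) (nat_lit 362845750) (nat_lit 32) (nat_lit 4) (nat_lit 33) (nat_lit 5) (nat_lit 33) (nat_lit 4) (nat_lit 482) (nat_lit 389) (nat_lit 329)) (XT.lf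 (nat_lit 0) (nat_lit 16613790967) (nat_lit 152) (nat_lit 29220517355) (nat_lit 0) (nat_lit 1455458788) (nat_lit 30) (nat_lit 5) (nat_lit 32) (nat_lit 4) (nat_lit 30) (nat_lit 4) (nat_lit 483) (nat_lit 389) (nat_lit 328)))) (XT.nd (nat_lit 156) (nat_lit 152) (nat_lit 0) (XT.nd (nat_lit 78) (nat_lit 76) (nat_lit 0) (XT.lf (nat_lit 0) (nat_lit 5151222832) (nat_lit 76) (nat_lit 29578731216) (nat_lit 76) (nat_lit 14381618630) (nat_lit 29) (nat_lit 4) (nat_lit 30) (nat_lit 5) (nat_lit 30) (nat_lit 4) (nat_lit 484) (nat_lit 389) (nat_lit 327)) (XT.lf (nat_lit 0) (nat_lit 2897967840) (nat_lit 152) (nat_lit 9351171589) (nat_lit 76) (nat_lit 38767831216) (nat_lit 28) (nat_lit 5) (nat_lit 30) (nat_lit 5) (nat_lit 29) (nat_lit 4) (nat_lit 485) (nat_lit 389) (nat_lit 326))) (XT.nd (nat_lit 78) (nat_lit 76) (nat_lit 0) (XT.lf (nat_lit 0) (nat_lit 20992793611) (nat_lit 152) (nat_lit 25844806017) (nat_lit 0) (nat_lit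 6168306933) (nat_lit 27) (nat_lit 5) (nat_lit 29) (nat_lit 4) (nat_lit 27) (nat_lit 4) (nat_lit 486) (nat_lit 389) (nat_lit 325)) (XT.lf (nat_lit 0) (nat_lit 10535663924) (nat_lit 76) (nat_lit 29704107281) (nat_lit 76) (nat_lit 14847096358) (nat_lit 26) (nat_lit 4) (nat_lit 27) (nat_lit 5) (nat_lit 27) (nat_lit 4) (nat_lit 487) (nat_lit 389) (nat_lit 324))))))))
noncomputable def xc30 : XT := (XT.nd (nat_lit 58266) (nat_lit 0) (nat_lit 3648) (XT.nd (nat_lit 57252) (nat_lit 0) (nat_lit 9956) (XT.nd (nat_lit 468) (nat_lit 304) (nat_lit 0) (XT.nd (nat_lit 234) (nat_lit 152) (nat_lit 0) (XT.nd (nat_lit 78) (nat_lit 152) (nat_lit 0) (XT.lf (nat_lit 0) (nat_lit 3310646247) (nat_lit 152) (nat_lit 8167374512) (nat_lit 76) (nat_lit 45787077447) (nat_lit 25) (nat_lit 5) (nat_lit 27) (nat_lit 5) (nat_lit 26) (nat_lit 4) (nat_lit 488) (nat_lit 389) (nat_lit 323)) (XT.nd (nat_lit 78) (nat_lit 76) (nat_lit 0)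 (XT.lf (nat_lit 0) (nat_lit 22371273831) (nat_lit 152) (nat_lit 29279218405) (nat_lit 0) (nat_lit 7888276893) (nat_lit 24) (nat_lit 5) (nat_lit 26) (nat_lit 4) (nat_lit 24) (nat_lit 4) (nat_lit 489) (nat_lit 389) (nat_lit 322)) (XT.lf (nat_lit 0) (nat_lit 8773384898) (nat_lit 76) (nat_lit 33828256123) (nat_lit 76) (nat_lit 19317981839) (nat_lit 23) (nat_lit 4) (nat_lit 24) (nat_lit 5) (nat_lit 24) (nat_lit 4) (nat_lit 490) (nat_lit 389) (nat_lit 321)))) (XT.nd (nat_lit 78) (nat_lit 152) (nat_lit 0) (XT.lf (nat_lit 0) (nat_lit 49208339550) (nat_lit 76) (nat_lit 14870191394) (nat_lit 76) (nat_lit 333938685) (nat_lit 23) (nat_lit 4) (nat_lit 24) (nat_lit 5) (nat_lit 24) (nat_lit 4) (nat_lit 491) (nat_lit 389) (nat_lit 320)) (XT.nd (nat_lit 78) (nat_lit 0) (nat_lit 0) (XT.lf (nat_lit 0) (nat_lit 19443441768) (nat_lit 152) (nat_lit 42267513428) (nat_lit 0) (nat_lit 5306554325) (nat_lit 21) (nat_lit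 5) (nat_lit 23) (nat_lit 4) (nat_lit 21) (nat_lit 4) (nat_lit 492) (nat_lit 389) (nat_lit 319)) (XT.lf (nat_lit 0) (nat_lit 40448399815) (nat_lit 152) (nat_lit 3008298901) (nat_lit 0) (nat_lit 26288635481) (nat_lit 21) (nat_lit 5) (nat_lit 23) (nat_lit 4) (nat_lit 21) (nat_lit 4) (nat_lit 493) (nat_lit 389) (nat_lit 318))))) (XT.nd (nat_lit 234) (nat_lit 76) (nat_lit 0) (XT.nd (nat_lit 78) (nat_lit 152) (nat_lit 0) (XT.lf (nat_lit 0) (nat_lit 38853248451) (nat_lit 76) (nat_lit 23964219029) (nat_lit 76) (nat_lit 9782667180) (nat_lit 20) (nat_lit 4) (nat_lit 21) (nat_lit 5) (nat_lit 21) (nat_lit 4) (nat_lit 494) (nat_lit 389) (nat_lit 317)) (XT.nd (nat_lit 78) (nat_lit 0) (nat_lit 0) (XT.lf (nat_lit 0) (nat_lit 7194598936) (nat_lit 76) (nat_lit 3345746284) (nat_lit 152) (nat_lit 65052983441) (nat_lit 18) (nat_lit 5) (nat_lit 19) (nat_lit 5) (nat_lit 20) (nat_lit 4) (nat_lit 495) (nat_lit 389) (nat_lit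 316)) (XT.lf (nat_lit 0) (nat_lit 32148538185) (nat_lit 152) (nat_lit 28229889007) (nat_lit 0) (nat_lit 18340709271) (nat_lit 18) (nat_lit 5) (nat_lit 20) (nat_lit 4) (nat_lit 18) (nat_lit 4) (nat_lit 496) (nat_lit 389) (nat_lit 315)))) (XT.nd (nat_lit 78) (nat_lit 0) (nat_lit 0) (XT.lf (nat_lit 0) (nat_lit 14079437990) (nat_lit 76) (nat_lit 40872231377) (nat_lit 76) (nat_lit 27046129770) (nat_lit 17) (nat_lit 4) (nat_lit 18) (nat_lit 5) (nat_lit 18) (nat_lit 4) (nat_lit 497) (nat_lit 389) (nat_lit 314)) (XT.nd (nat_lit 56394) (nat_lit 0) (nat_lit 17708) (XT.lf (nat_lit 0) (nat_lit 58988348478) (nat_lit 76) (nat_lit 20144211439) (nat_lit 76) (nat_lit 6300707266) (nat_lit 17) (nat_lit 4) (nat_lit 18) (nat_lit 5) (nat_lit 18) (nat_lit 4) (nat_lit 498) (nat_lit 389) (nat_lit 313)) (XT.lf (nat_lit 0) (nat_lit 3074767727) (nat_lit 532) (nat_lit 365141169) (nat_lit 532) (nat_lit 365141169) (nat_lit 250)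 (nat_lit 4) (nat_lit 257) (nat_lit 5) (nat_lit 257) (nat_lit 4) (nat_lit 420) (nat_lit 390) (nat_lit 390)))))) (XT.nd (nat_lit 468) (nat_lit 3648) (nat_lit 0) (XT.nd (nat_lit 234) (nat_lit 1900) (nat_lit 0) (XT.nd (nat_lit 78) (nat_lit 1064) (nat_lit 0) (XT.lf (nat_lit 0) (nat_lit 979682127) (nat_lit 532) (nat_lit 4499702874) (nat_lit 532) (nat_lit 2252450918) (nat_lit 235) (nat_lit 4) (nat_lit 242) (nat_lit 5) (nat_lit 242) (nat_lit 4) (nat_lit 421) (nat_lit 390) (nat_lit 389)) (XT.nd (nat_lit 78) (nat_lit 532) (nat_lit 0) (XT.lf (nat_lit 0) (nat_lit 3568573809) (nat_lit 456) (nat_lit 350670389) (nat_lit 532) (nat_lit 3942804104) (nat_lit 228) (nat_lit 5) (nat_lit 234) (nat_lit 5) (nat_lit 235) (nat_lit 4) (nat_lit 422) (nat_lit 390) (nat_lit 388)) (XT.lf (nat_lit 0) (nat_lit 2209699224) (nat_lit 532) (nat_lit 1752966578) (nat_lit 76) (nat_lit 4037768756) (nat_lit 221) (nat_lit 5) (nat_lit 228)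 (nat_lit 5) (nat_lit 222) (nat_lit 4) (nat_lit 423) (nat_lit 390) (nat_lit 387)))) (XT.nd (nat_lit 78) (nat_lit 912) (nat_lit 0) (XT.lf (nat_lit 0) (nat_lit 323901725) (nat_lit 532) (nat_lit 7229251501) (nat_lit 76) (nat_lit 594655546) (nat_lit 208) (nat_lit 5) (nat_lit 215) (nat_lit 5) (nat_lit 209) (nat_lit 4) (nat_lit 424) (nat_lit 390) (nat_lit 386)) (XT.nd (nat_lit 78) (nat_lit 532) (nat_lit 0) (XT.lf (nat_lit 0) (nat_lit 3694277972) (nat_lit 380) (nat_lit 2869140700) (nat_lit 456) (nat_lit 1739277224) (nat_lit 203) (nat_lit 5) (nat_lit 208) (nat_lit 5) (nat_lit 209) (nat_lit 4) (nat_lit 425) (nat_lit 390) (nat_lit 385)) (XT.lf (nat_lit 0) (nat_lit 4466753136) (nat_lit 532) (nat_lit 1892847082) (nat_lit 76) (nat_lit 2107178470) (nat_lit 196) (nat_lit 5) (nat_lit 203) (nat_lit 5) (nat_lit 197) (nat_lit 4) (nat_lit 426) (nat_lit 390) (nat_lit 384))))) (XT.nd (nat_lit 234) (nat_lit 2052) (nat_lit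 0) (XT.nd (nat_lit 78) (nat_lit 760) (nat_lit 0) (XT.lf (nat_lit 0) (nat_lit 933186560) (nat_lit 380) (nat_lit 1264441280) (nat_lit 456) (nat_lit 6442259016) (nat_lit 185) (nat_lit 5) (nat_lit 190) (nat_lit 5) (nat_lit 191) (nat_lit 5) (nat_lit 427) (nat_lit 390) (nat_lit 383)) (XT.nd (nat_lit 78) (nat_lit 456) (nat_lit 0) (XT.lf (nat_lit 0) (nat_lit 3880105477) (nat_lit 304) (nat_lit 4706173738) (nat_lit 380) (nat_lit 235293482) (nat_lit 181) (nat_lit 5) (nat_lit 185) (nat_lit 5) (nat_lit 186) (nat_lit 4) (nat_lit 428) (nat_lit 390) (nat_lit 382)) (XT.lf (nat_lit 0) (nat_lit 6091339302) (nat_lit 456) (nat_lit 2102013764) (nat_lit 76) (nat_lit 819244767) (nat_lit 175) (nat_lit 5) (nat_lit 181) (nat_lit 5) (nat_lit 176) (nat_lit 4) (nat_lit 429) (nat_lit 390) (nat_lit 381)))) (XT.nd (nat_lit 156) (nat_lit 988) (nat_lit 0) (XT.nd (nat_lit 78) (nat_lit 380) (nat_lit 0) (XT.lf (nat_lit 0) (nat_lit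 825556710) (nat_lit 304) (nat_lit 2596883254) (nat_lit 380) (nat_lit 5790430572) (nat_lit 166) (nat_lit 5) (nat_lit 170) (nat_lit 5) (nat_lit 171) (nat_lit 5) (nat_lit 430) (nat_lit 390) (nat_lit 380)) (XT.lf (nat_lit 0) (nat_lit 569010128) (nat_lit 380) (nat_lit 5536549895) (nat_lit 76) (nat_lit 3317172855) (nat_lit 161) (nat_lit 5) (nat_lit 166) (nat_lit 5) (nat_lit 162) (nat_lit 5) (nat_lit 431) (nat_lit 390) (nat_lit 379))) (XT.nd (nat_lit 78) (nat_lit 684) (nat_lit 0) (XT.lf (nat_lit 0) (nat_lit 7022200359) (nat_lit 304) (nat_lit 64688027) (nat_lit 380) (nat_lit 2555692716) (nat_lit 157) (nat_lit 5) (nat_lit 161) (nat_lit 5) (nat_lit 162) (nat_lit 5) (nat_lit 432) (nat_lit 390) (nat_lit 378)) (XT.lf (nat_lit 0) (nat_lit 353496038) (nat_lit 304) (nat_lit 3629007134) (nat_lit 380) (nat_lit 5889633330) (nat_lit 148) (nat_lit 5) (nat_lit 152) (nat_lit 5) (nat_lit 153) (nat_lit 5) (nat_lit 433)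 (nat_lit 390) (nat_lit 377))))))) (XT.nd (nat_lit 1014) (nat_lit 2432) (nat_lit 0) (XT.nd (nat_lit 468) (nat_lit 1900) (nat_lit 0) (XT.nd (nat_lit 234) (nat_lit 1064) (nat_lit 0) (XT.nd (nat_lit 78) (nat_lit 608) (nat_lit 0) (XT.lf (nat_lit 0) (nat_lit 670822235) (nat_lit 304) (nat_lit 6640174215) (nat_lit 76) (nat_lit 2801180005) (nat_lit 144) (nat_lit 5) (nat_lit 148) (nat_lit 5) (nat_lit 145) (nat_lit 5) (nat_lit 434) (nat_lit 390) (nat_lit 376)) (XT.nd (nat_lit 78) (nat_lit 304) (nat_lit 0) (XT.lf (nat_lit 0) (nat_lit 6648467476) (nat_lit 304) (nat_lit 779854901) (nat_lit 380) (nat_lit 2934437503) (nat_lit 140) (nat_lit 5) (nat_lit 144) (nat_lit 5) (nat_lit 145) (nat_lit 5) (nat_lit 435) (nat_lit 390) (nat_lit 375)) (XT.lf (nat_lit 0) (nat_lit 3840668739) (nat_lit 304) (nat_lit 741387592) (nat_lit 76) (nat_lit 6042139507) (nat_lit 136) (nat_lit 5) (nat_lit 140) (nat_lit 5) (nat_lit 137) (nat_lit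 5) (nat_lit 436) (nat_lit 390) (nat_lit 374)))) (XT.nd (nat_lit 78) (nat_lit 532) (nat_lit 0) (XT.lf (nat_lit 0) (nat_lit 16594362) (nat_lit 304) (nat_lit 8536374134) (nat_lit 76) (nat_lit 2344262872) (nat_lit 129) (nat_lit 5) (nat_lit 133) (nat_lit 5) (nat_lit 130) (nat_lit 5) (nat_lit 437) (nat_lit 390) (nat_lit 373)) (XT.nd (nat_lit 78) (nat_lit 304) (nat_lit 0) (XT.lf (nat_lit 0) (nat_lit 5508845346) (nat_lit 228) (nat_lit 1534970478) (nat_lit 304) (nat_lit 4137279113) (nat_lit 126) (nat_lit 5) (nat_lit 129) (nat_lit 5) (nat_lit 130) (nat_lit 5) (nat_lit 438) (nat_lit 390) (nat_lit 372)) (XT.lf (nat_lit 0) (nat_lit 2921023991) (nat_lit 304) (nat_lit 2759555560) (nat_lit 76) (nat_lit 5796678883) (nat_lit 122) (nat_lit 5) (nat_lit 126) (nat_lit 5) (nat_lit 123) (nat_lit 5) (nat_lit 439) (nat_lit 390) (nat_lit 371))))) (XT.nd (nat_lit 234) (nat_lit 988) (nat_lit 0) (XT.nd (nat_lit 78) (nat_lit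 532) (nat_lit 0) (XT.lf (nat_lit 0) (nat_lit 216901034) (nat_lit 152) (nat_lit 10049939774) (nat_lit 228) (nat_lit 1519566763) (nat_lit 117) (nat_lit 5) (nat_lit 119) (nat_lit 5) (nat_lit 120) (nat_lit 4) (nat_lit 440) (nat_lit 390) (nat_lit 370)) (XT.nd (nat_lit 78) (nat_lit 228) (nat_lit 0) (XT.lf (nat_lit 0) (nat_lit 3268338150) (nat_lit 228) (nat_lit 2562570840) (nat_lit 304) (nat_lit 6276128163) (nat_lit 113) (nat_lit 5) (nat_lit 116) (nat_lit 5) (nat_lit 117) (nat_lit 5) (nat_lit 441) (nat_lit 390) (nat_lit 369)) (XT.lf (nat_lit 0) (nat_lit 1101583017) (nat_lit 228) (nat_lit 6065089965) (nat_lit 76) (nat_lit 5274824415) (nat_lit 110) (nat_lit 5) (nat_lit 113) (nat_lit 5) (nat_lit 111) (nat_lit 5) (nat_lit 442) (nat_lit 390) (nat_lit 368)))) (XT.nd (nat_lit 156) (nat_lit 532) (nat_lit 0) (XT.nd (nat_lit 78) (nat_lit 228) (nat_lit 0) (XT.lf (nat_lit 0) (nat_lit 8755429969) (nat_lit 304) (nat_lit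 3268425768) (nat_lit 76) (nat_lit 765858393) (nat_lit 107) (nat_lit 5) (nat_lit 111) (nat_lit 5) (nat_lit 108) (nat_lit 4) (nat_lit 443) (nat_lit 390) (nat_lit 367)) (XT.lf (nat_lit 0) (nat_lit 3647613234) (nat_lit 228) (nat_lit 461884946) (nat_lit 76) (nat_lit 9042344804) (nat_lit 104) (nat_lit 5) (nat_lit 107) (nat_lit 5) (nat_lit 105) (nat_lit 5) (nat_lit 444) (nat_lit 390) (nat_lit 366))) (XT.nd (nat_lit 78) (nat_lit 228) (nat_lit 0) (XT.lf (nat_lit 0) (nat_lit 2425761577) (nat_lit 152) (nat_lit 9284435525) (nat_lit 228) (nat_lit 1818290156) (nat_lit 100) (nat_lit 5) (nat_lit 102) (nat_lit 5) (nat_lit 103) (nat_lit 4) (nat_lit 445) (nat_lit 390) (nat_lit 365)) (XT.lf (nat_lit 0) (nat_lit 5335183571) (nat_lit 152) (nat_lit 860789638) (nat_lit 228) (nat_lit 7724214343) (nat_lit 97) (nat_lit 5) (nat_lit 99) (nat_lit 5) (nat_lit 100) (nat_lit 5) (nat_lit 446) (nat_lit 390) (nat_lit 364)))))) (XT.nd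 (nat_lit 468) (nat_lit 1216) (nat_lit 0) (XT.nd (nat_lit 234) (nat_lit 608) (nat_lit 0) (XT.nd (nat_lit 78) (nat_lit 380) (nat_lit 0) (XT.lf (nat_lit 0) (nat_lit 341521869) (nat_lit 228) (nat_lit 6070181639) (nat_lit 76) (nat_lit 7916051063) (nat_lit 94) (nat_lit 5) (nat_lit 97) (nat_lit 5) (nat_lit 95) (nat_lit 5) (nat_lit 447) (nat_lit 390) (nat_lit 363)) (XT.nd (nat_lit 78) (nat_lit 228) (nat_lit 0) (XT.lf (nat_lit 0) (nat_lit 8716519944) (nat_lit 228) (nat_lit 3574114582) (nat_lit 76) (nat_lit 2460805968) (nat_lit 92) (nat_lit 5) (nat_lit 95) (nat_lit 5) (nat_lit 93) (nat_lit 4) (nat_lit 448) (nat_lit 390) (nat_lit 362)) (XT.lf (nat_lit 0) (nat_lit 2371887862) (nat_lit 228) (nat_lit 1078924219) (nat_lit 76) (nat_lit 11741744893) (nat_lit 89) (nat_lit 5) (nat_lit 92) (nat_lit 5) (nat_lit 90) (nat_lit 5) (nat_lit 449) (nat_lit 390) (nat_lit 361)))) (XT.nd (nat_lit 78) (nat_lit 304) (nat_lit 0)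 (XT.lf (nat_lit 0) (nat_lit 1408167622) (nat_lit 152) (nat_lit 9781372764) (nat_lit 228) (nat_lit 4460942686) (nat_lit 85) (nat_lit 5) (nat_lit 87) (nat_lit 5) (nat_lit 88) (nat_lit 4) (nat_lit 450) (nat_lit 390) (nat_lit 360)) (XT.nd (nat_lit 78) (nat_lit 76) (nat_lit 0) (XT.lf (nat_lit 0) (nat_lit 3916131678) (nat_lit 152) (nat_lit 410667085) (nat_lit 228) (nat_lit 11800439275) (nat_lit 82) (nat_lit 5) (nat_lit 84) (nat_lit 5) (nat_lit 85) (nat_lit 5) (nat_lit 451) (nat_lit 390) (nat_lit 359)) (XT.lf (nat_lit 0) (nat_lit 6357296790) (nat_lit 76) (nat_lit 7249723389) (nat_lit 152) (nat_lit 3015130085) (nat_lit 81) (nat_lit 5) (nat_lit 82) (nat_lit 5) (nat_lit 83) (nat_lit 4) (nat_lit 452) (nat_lit 390) (nat_lit 358))))) (XT.nd (nat_lit 234) (nat_lit 684) (nat_lit 0) (XT.nd (nat_lit 78) (nat_lit 304) (nat_lit 0) (XT.lf (nat_lit 0) (nat_lit 6177264613) (nat_lit 228) (nat_lit 8366865163) (nat_lit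 76) (nat_lit 2593222716) (nat_lit 78) (nat_lit 5) (nat_lit 81) (nat_lit 5) (nat_lit 79) (nat_lit 4) (nat_lit 453) (nat_lit 390) (nat_lit 357)) (XT.nd (nat_lit 78) (nat_lit 228) (nat_lit 0) (XT.lf (nat_lit 0) (nat_lit 11133229949) (nat_lit 76) (nat_lit 4772500824) (nat_lit 152) (nat_lit 1767528693) (nat_lit 77) (nat_lit 5) (nat_lit 78) (nat_lit 5) (nat_lit 79) (nat_lit 4) (nat_lit 454) (nat_lit 390) (nat_lit 356)) (XT.lf (nat_lit 0) (nat_lit 7856039782) (nat_lit 228) (nat_lit 4821416208) (nat_lit 76) (nat_lit 5552479007) (nat_lit 74) (nat_lit 5) (nat_lit 77) (nat_lit 5) (nat_lit 75) (nat_lit 4) (nat_lit 455) (nat_lit 390) (nat_lit 355)))) (XT.nd (nat_lit 156) (nat_lit 380) (nat_lit 0) (XT.nd (nat_lit 78) (nat_lit 228) (nat_lit 0) (XT.lf (nat_lit 0) (nat_lit 15650873510) (nat_lit 76) (nat_lit 2397919943) (nat_lit 152) (nat_lit 761392942) (nat_lit 73) (nat_lit 5) (nat_lit 74) (nat_lit 5) (nat_lit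 75) (nat_lit 4) (nat_lit 456) (nat_lit 390) (nat_lit 354)) (XT.lf (nat_lit 0) (nat_lit 9314257064) (nat_lit 228) (nat_lit 1671425979) (nat_lit 76) (nat_lit 8426141360) (nat_lit 70) (nat_lit 5) (nat_lit 73) (nat_lit 5) (nat_lit 71) (nat_lit 4) (nat_lit 457) (nat_lit 390) (nat_lit 353))) (XT.nd (nat_lit 78) (nat_lit 304) (nat_lit 0) (XT.lf (nat_lit 0) (nat_lit 19805672264) (nat_lit 76) (nat_lit 183438145) (nat_lit 152) (nat_lit 50876203) (nat_lit 69) (nat_lit 5) (nat_lit 70) (nat_lit 5) (nat_lit 71) (nat_lit 4) (nat_lit 458) (nat_lit 390) (nat_lit 352)) (XT.lf (nat_lit 0) (nat_lit 979684822) (nat_lit 76) (nat_lit 9525345430) (nat_lit 152) (nat_lit 10185150338) (nat_lit 65) (nat_lit 5) (nat_lit 66) (nat_lit 5) (nat_lit 67) (nat_lit 4) (nat_lit 459) (nat_lit 390) (nat_lit 351))))))))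
noncomputable def xc31 : XT := (XT.nd (nat_lit 1950) (nat_lit 988) (nat_lit 0) (XT.nd (nat_lit 936) (nat_lit 1216) (nat_lit 0) (XT.nd (nat_lit 468) (nat_lit 608) (nat_lit 0) (XT.nd (nat_lit 234) (nat_lit 304) (nat_lit 0) (XT.nd (nat_lit 78) (nat_lit 304) (nat_lit 0) (XT.lf (nat_lit 0) (nat_lit 329379508) (nat_lit 228) (nat_lit 19249180970) (nat_lit 76) (nat_lit 1790686896) (nat_lit 62) (nat_lit 5) (nat_lit 65) (nat_lit 5) (nat_lit 63) (nat_lit 4) (nat_lit 460) (nat_lit 390) (nat_lit 350)) (XT.nd (nat_lit 78) (nat_lit 228) (nat_lit 0) (XT.lf (nat_lit 0) (nat_lit 2984092146) (nat_lit 76) (nat_lit 8374994004) (nat_lit 152) (nat_lit 10714156047) (nat_lit 61) (nat_lit 5) (nat_lit 62) (nat_lit 5) (nat_lit 63) (nat_lit 4) (nat_lit 461) (nat_lit 390) (nat_lit 349)) (XT.lf (nat_lit 0) (nat_lit 266343633) (nat_lit 228) (nat_lit 19094668465) (nat_lit 76) (nat_lit 3447160514) (nat_lit 58) (nat_lit 5) (nat_lit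 61) (nat_lit 5) (nat_lit 59) (nat_lit 4) (nat_lit 462) (nat_lit 390) (nat_lit 348)))) (XT.nd (nat_lit 78) (nat_lit 228) (nat_lit 0) (XT.lf (nat_lit 0) (nat_lit 4125102154) (nat_lit 76) (nat_lit 7647672115) (nat_lit 152) (nat_lit 11797940621) (nat_lit 57) (nat_lit 5) (nat_lit 58) (nat_lit 5) (nat_lit 59) (nat_lit 4) (nat_lit 463) (nat_lit 390) (nat_lit 347)) (XT.nd (nat_lit 78) (nat_lit 152) (nat_lit 0) (XT.lf (nat_lit 0) (nat_lit 4339746670) (nat_lit 76) (nat_lit 19676179703) (nat_lit 76) (nat_lit 350618292) (nat_lit 56) (nat_lit 4) (nat_lit 57) (nat_lit 5) (nat_lit 57) (nat_lit 4) (nat_lit 464) (nat_lit 390) (nat_lit 346)) (XT.lf (nat_lit 0) (nat_lit 4181549876) (nat_lit 76) (nat_lit 7458295119) (nat_lit 152) (nat_lit 13553003613) (nat_lit 54) (nat_lit 5) (nat_lit 55) (nat_lit 5) (nat_lit 56) (nat_lit 4) (nat_lit 465) (nat_lit 390) (nat_lit 345))))) (XT.nd (nat_lit 234) (nat_lit 304) (nat_lit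 0) (XT.nd (nat_lit 78) (nat_lit 228) (nat_lit 0) (XT.lf (nat_lit 0) (nat_lit 3751468077) (nat_lit 76) (nat_lit 20648540184) (nat_lit 76) (nat_lit 1655034596) (nat_lit 53) (nat_lit 4) (nat_lit 54) (nat_lit 5) (nat_lit 54) (nat_lit 4) (nat_lit 466) (nat_lit 390) (nat_lit 344)) (XT.nd (nat_lit 78) (nat_lit 76) (nat_lit 0) (XT.lf (nat_lit 0) (nat_lit 2887522628) (nat_lit 76) (nat_lit 7944134418) (nat_lit 152) (nat_lit 16119407035) (nat_lit 51) (nat_lit 5) (nat_lit 52) (nat_lit 5) (nat_lit 53) (nat_lit 4) (nat_lit 467) (nat_lit 390) (nat_lit 343)) (XT.lf (nat_lit 0) (nat_lit 1660069741) (nat_lit 76) (nat_lit 22434651148) (nat_lit 76) (nat_lit 3791087740) (nat_lit 50) (nat_lit 4) (nat_lit 51) (nat_lit 5) (nat_lit 51) (nat_lit 4) (nat_lit 468) (nat_lit 390) (nat_lit 342)))) (XT.nd (nat_lit 78) (nat_lit 228) (nat_lit 0) (XT.lf (nat_lit 0) (nat_lit 9193891986) (nat_lit 152) (nat_lit 74395529) (nat_lit 76)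 (nat_lit 19589798930) (nat_lit 49) (nat_lit 5) (nat_lit 51) (nat_lit 5) (nat_lit 50) (nat_lit 4) (nat_lit 469) (nat_lit 390) (nat_lit 341)) (XT.nd (nat_lit 78) (nat_lit 152) (nat_lit 0) (XT.lf (nat_lit 0) (nat_lit 22956197555) (nat_lit 152) (nat_lit 2238810068) (nat_lit 0) (nat_lit 4676651618) (nat_lit 48) (nat_lit 5) (nat_lit 50) (nat_lit 4) (nat_lit 48) (nat_lit 4) (nat_lit 470) (nat_lit 390) (nat_lit 340)) (XT.lf (nat_lit 0) (nat_lit 6587109960) (nat_lit 152) (nat_lit 4990871341) (nat_lit 76) (nat_lit 19348784794) (nat_lit 46) (nat_lit 5) (nat_lit 48) (nat_lit 5) (nat_lit 47) (nat_lit 4) (nat_lit 471) (nat_lit 390) (nat_lit 339)))))) (XT.nd (nat_lit 468) (nat_lit 608) (nat_lit 0) (XT.nd (nat_lit 234) (nat_lit 304) (nat_lit 0) (XT.nd (nat_lit 78) (nat_lit 228) (nat_lit 0) (XT.lf (nat_lit 0) (nat_lit 20800937644) (nat_lit 152) (nat_lit 8330086282) (nat_lit 0) (nat_lit 2896177206) (nat_lit 45)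 (nat_lit 5) (nat_lit 47) (nat_lit 4) (nat_lit 45) (nat_lit 4) (nat_lit 472) (nat_lit 390) (nat_lit 338)) (XT.nd (nat_lit 78) (nat_lit 76) (nat_lit 0) (XT.lf (nat_lit 0) (nat_lit 2765055706) (nat_lit 152) (nat_lit 12364927765) (nat_lit 76) (nat_lit 18043786204) (nat_lit 43) (nat_lit 5) (nat_lit 45) (nat_lit 5) (nat_lit 44) (nat_lit 4) (nat_lit 473) (nat_lit 390) (nat_lit 337)) (XT.lf (nat_lit 0) (nat_lit 17234340401) (nat_lit 76) (nat_lit 145991864) (nat_lit 152) (nat_lit 16989304073) (nat_lit 42) (nat_lit 5) (nat_lit 43) (nat_lit 5) (nat_lit 44) (nat_lit 4) (nat_lit 474) (nat_lit 390) (nat_lit 336)))) (XT.nd (nat_lit 78) (nat_lit 228) (nat_lit 0) (XT.lf (nat_lit 0) (nat_lit 12862394196) (nat_lit 76) (nat_lit 20170138990) (nat_lit 76) (nat_lit 2583579534) (nat_lit 41) (nat_lit 4) (nat_lit 42) (nat_lit 5) (nat_lit 42) (nat_lit 4) (nat_lit 475) (nat_lit 390) (nat_lit 335)) (XT.nd (nat_lit 78) (nat_lit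 76) (nat_lit 0) (XT.lf (nat_lit 0) (nat_lit 7639237454) (nat_lit 76) (nat_lit 4817518010) (nat_lit 152) (nat_lit 24459769433) (nat_lit 39) (nat_lit 5) (nat_lit 40) (nat_lit 5) (nat_lit 41) (nat_lit 4) (nat_lit 476) (nat_lit 390) (nat_lit 334)) (XT.lf (nat_lit 0) (nat_lit 1462821175) (nat_lit 76) (nat_lit 27000542669) (nat_lit 76) (nat_lit 9809796827) (nat_lit 38) (nat_lit 4) (nat_lit 39) (nat_lit 5) (nat_lit 39) (nat_lit 4) (nat_lit 477) (nat_lit 390) (nat_lit 333))))) (XT.nd (nat_lit 234) (nat_lit 380) (nat_lit 0) (XT.nd (nat_lit 78) (nat_lit 152) (nat_lit 0) (XT.lf (nat_lit 0) (nat_lit 5726664651) (nat_lit 152) (nat_lit 5619700814) (nat_lit 76) (nat_lit 28341774711) (nat_lit 37) (nat_lit 5) (nat_lit 39) (nat_lit 5) (nat_lit 38) (nat_lit 4) (nat_lit 478) (nat_lit 390) (nat_lit 332)) (XT.nd (nat_lit 78) (nat_lit 76) (nat_lit 0) (XT.lf (nat_lit 0) (nat_lit 22068068441) (nat_lit 152) (nat_lit 13820450852)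 (nat_lit 0) (nat_lit 5275506467) (nat_lit 36) (nat_lit 5) (nat_lit 38) (nat_lit 4) (nat_lit 36) (nat_lit 4) (nat_lit 479) (nat_lit 390) (nat_lit 331)) (XT.lf (nat_lit 0) (nat_lit 19459003490) (nat_lit 76) (nat_lit 20043309519) (nat_lit 76) (nat_lit 3203120383) (nat_lit 35) (nat_lit 4) (nat_lit 36) (nat_lit 5) (nat_lit 36) (nat_lit 4) (nat_lit 480) (nat_lit 390) (nat_lit 330)))) (XT.nd (nat_lit 156) (nat_lit 228) (nat_lit 0) (XT.nd (nat_lit 78) (nat_lit 0) (nat_lit 0) (XT.lf (nat_lit 0) (nat_lit 10278149209) (nat_lit 76) (nat_lit 3102982587) (nat_lit 152) (nat_lit 30934094779) (nat_lit 33) (nat_lit 5) (nat_lit 34) (nat_lit 5) (nat_lit 35) (nat_lit 4) (nat_lit 481) (nat_lit 390) (nat_lit 329)) (XT.lf (nat_lit 0) (nat_lit 31030876082) (nat_lit 152) (nat_lit 369408125) (nat_lit 0) (nat_lit 14595198821) (nat_lit 33) (nat_lit 5) (nat_lit 35) (nat_lit 4) (nat_lit 33) (nat_lit 4) (nat_lit 482) (nat_lit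 390) (nat_lit 328))) (XT.nd (nat_lit 78) (nat_lit 76) (nat_lit 0) (XT.lf (nat_lit 0) (nat_lit 2066501731) (nat_lit 152) (nat_lit 12280622565) (nat_lit 76) (nat_lit 33403158588) (nat_lit 31) (nat_lit 5) (nat_lit 33) (nat_lit 5) (nat_lit 32) (nat_lit 4) (nat_lit 483) (nat_lit 390) (nat_lit 327)) (XT.lf (nat_lit 0) (nat_lit 19835718392) (nat_lit 152) (nat_lit 25943742738) (nat_lit 0) (nat_lit 3803036050) (nat_lit 30) (nat_lit 5) (nat_lit 32) (nat_lit 4) (nat_lit 30) (nat_lit 4) (nat_lit 484) (nat_lit 390) (nat_lit 326))))))) (XT.nd (nat_lit 1014) (nat_lit 76) (nat_lit 0) (XT.nd (nat_lit 468) (nat_lit 456) (nat_lit 0) (XT.nd (nat_lit 234) (nat_lit 228) (nat_lit 0) (XT.nd (nat_lit 78) (nat_lit 152) (nat_lit 0) (XT.lf (nat_lit 0) (nat_lit 10010776358) (nat_lit 76) (nat_lit 28777281965) (nat_lit 76) (nat_lit 12709424650) (nat_lit 29) (nat_lit 4) (nat_lit 30) (nat_lit 5) (nat_lit 30) (nat_lit 4) (nat_lit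 485) (nat_lit 390) (nat_lit 325)) (XT.nd (nat_lit 78) (nat_lit 76) (nat_lit 0) (XT.lf (nat_lit 0) (nat_lit 5275830542) (nat_lit 152) (nat_lit 5391421287) (nat_lit 76) (nat_lit 42833559797) (nat_lit 28) (nat_lit 5) (nat_lit 30) (nat_lit 5) (nat_lit 29) (nat_lit 4) (nat_lit 486) (nat_lit 390) (nat_lit 324)) (XT.lf (nat_lit 0) (nat_lit 24230902276) (nat_lit 152) (nat_lit 22792086721) (nat_lit 0) (nat_lit 8567541087) (nat_lit 27) (nat_lit 5) (nat_lit 29) (nat_lit 4) (nat_lit 27) (nat_lit 4) (nat_lit 487) (nat_lit 390) (nat_lit 323)))) (XT.nd (nat_lit 78) (nat_lit 152) (nat_lit 0) (XT.lf (nat_lit 0) (nat_lit 15282859323) (nat_lit 76) (nat_lit 29093725802) (nat_lit 76) (nat_lit 13400864163) (nat_lit 26) (nat_lit 4) (nat_lit 27) (nat_lit 5) (nat_lit 27) (nat_lit 4) (nat_lit 488) (nat_lit 390) (nat_lit 322)) (XT.nd (nat_lit 78) (nat_lit 76) (nat_lit 0) (XT.lf (nat_lit 0) (nat_lit 5519873604) (nat_lit 152)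 (nat_lit 4515613887) (nat_lit 76) (nat_lit 50031539155) (nat_lit 25) (nat_lit 5) (nat_lit 27) (nat_lit 5) (nat_lit 26) (nat_lit 4) (nat_lit 489) (nat_lit 390) (nat_lit 321)) (XT.lf (nat_lit 0) (nat_lit 25492958994) (nat_lit 152) (nat_lit 26758724848) (nat_lit 0) (nat_lit 10203915224) (nat_lit 24) (nat_lit 5) (nat_lit 26) (nat_lit 4) (nat_lit 24) (nat_lit 4) (nat_lit 490) (nat_lit 390) (nat_lit 320))))) (XT.nd (nat_lit 234) (nat_lit 228) (nat_lit 0) (XT.nd (nat_lit 78) (nat_lit 152) (nat_lit 0) (XT.lf (nat_lit 0) (nat_lit 13082295032) (nat_lit 76) (nat_lit 33594365897) (nat_lit 76) (nat_lit 18280580770) (nat_lit 23) (nat_lit 4) (nat_lit 24) (nat_lit 5) (nat_lit 24) (nat_lit 4) (nat_lit 491) (nat_lit 390) (nat_lit 319)) (XT.nd (nat_lit 78) (nat_lit 76) (nat_lit 0) (XT.lf (nat_lit 0) (nat_lit 1526881362) (nat_lit 152) (nat_lit 12237779158) (nat_lit 76) (nat_lit 53812400362) (nat_lit 22) (nat_lit 5)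 (nat_lit 24) (nat_lit 5) (nat_lit 23) (nat_lit 4) (nat_lit 492) (nat_lit 390) (nat_lit 318)) (XT.lf (nat_lit 0) (nat_lit 22249276270) (nat_lit 152) (nat_lit 40727227066) (nat_lit 0) (nat_lit 7336859314) (nat_lit 21) (nat_lit 5) (nat_lit 23) (nat_lit 4) (nat_lit 21) (nat_lit 4) (nat_lit 493) (nat_lit 390) (nat_lit 317)))) (XT.nd (nat_lit 156) (nat_lit 152) (nat_lit 0) (XT.nd (nat_lit 78) (nat_lit 0) (nat_lit 0) (XT.lf (nat_lit 0) (nat_lit 327352099) (nat_lit 76) (nat_lit 43892959570) (nat_lit 76) (nat_lit 28959792600) (nat_lit 20) (nat_lit 4) (nat_lit 21) (nat_lit 5) (nat_lit 21) (nat_lit 4) (nat_lit 494) (nat_lit 390) (nat_lit 316)) (XT.lf (nat_lit 0) (nat_lit 44175844726) (nat_lit 76) (nat_lit 23478171982) (nat_lit 76) (nat_lit 8525243094) (nat_lit 20) (nat_lit 4) (nat_lit 21) (nat_lit 5) (nat_lit 21) (nat_lit 4) (nat_lit 495) (nat_lit 390) (nat_lit 315))) (XT.nd (nat_lit 78) (nat_lit 0) (nat_lit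 0) (XT.lf (nat_lit 0) (nat_lit 10870492965) (nat_lit 76) (nat_lit 1859675866) (nat_lit 152) (nat_lit 66592931611) (nat_lit 18) (nat_lit 5) (nat_lit 19) (nat_lit 5) (nat_lit 20) (nat_lit 4) (nat_lit 496) (nat_lit 390) (nat_lit 314)) (XT.lf (nat_lit 0) (nat_lit 35354726461) (nat_lit 152) (nat_lit 26450749505) (nat_lit 0) (nat_lit 20801644514) (nat_lit 18) (nat_lit 5) (nat_lit 20) (nat_lit 4) (nat_lit 18) (nat_lit 4) (nat_lit 497) (nat_lit 390) (nat_lit 313)))))) (XT.nd (nat_lit 56628) (nat_lit 0) (nat_lit 12008) (XT.nd (nat_lit 56394) (nat_lit 0) (nat_lit 16036) (XT.nd (nat_lit 56238) (nat_lit 0) (nat_lit 18240) (XT.lf (nat_lit 0) (nat_lit 17882584959) (nat_lit 76) (nat_lit 41369088916) (nat_lit 76) (nat_lit 26799433097) (nat_lit 17) (nat_lit 4) (nat_lit 18) (nat_lit 5) (nat_lit 18) (nat_lit 4) (nat_lit 498) (nat_lit 390) (nat_lit 312)) (XT.nd (nat_lit 78) (nat_lit 608) (nat_lit 0) (XT.lf (nat_lit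 0) (nat_lit 762013801) (nat_lit 608) (nat_lit 1465536163) (nat_lit 608) (nat_lit 1465536163) (nat_lit 265) (nat_lit 4) (nat_lit 273) (nat_lit 5) (nat_lit 273) (nat_lit 4) (nat_lit 418) (nat_lit 391) (nat_lit 391)) (XT.lf (nat_lit 0) (nat_lit 3065239120) (nat_lit 608) (nat_lit 3795882680) (nat_lit 0) (nat_lit 634836129) (nat_lit 257) (nat_lit 5) (nat_lit 265) (nat_lit 4) (nat_lit 257) (nat_lit 4) (nat_lit 419) (nat_lit 391) (nat_lit 390)))) (XT.nd (nat_lit 78) (nat_lit 1596) (nat_lit 0) (XT.lf (nat_lit 0) (nat_lit 1530020807) (nat_lit 608) (nat_lit 1639130267) (nat_lit 76) (nat_lit 4444586919) (nat_lit 249) (nat_lit 5) (nat_lit 257) (nat_lit 5) (nat_lit 250) (nat_lit 4) (nat_lit 420) (nat_lit 391) (nat_lit 389)) (XT.nd (nat_lit 78) (nat_lit 532) (nat_lit 0) (XT.lf (nat_lit 0) (nat_lit 642429343) (nat_lit 532) (nat_lit 6922389162) (nat_lit 532) (nat_lit 175282692) (nat_lit 235) (nat_lit 4) (nat_lit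 242) (nat_lit 5) (nat_lit 242) (nat_lit 4) (nat_lit 421) (nat_lit 391) (nat_lit 388)) (XT.lf (nat_lit 0) (nat_lit 3033387239) (nat_lit 456) (nat_lit 2788690336) (nat_lit 532) (nat_lit 2051669021) (nat_lit 228) (nat_lit 5) (nat_lit 234) (nat_lit 5) (nat_lit 235) (nat_lit 4) (nat_lit 422) (nat_lit 391) (nat_lit 387))))) (XT.nd (nat_lit 234) (nat_lit 2128) (nat_lit 0) (XT.nd (nat_lit 78) (nat_lit 1368) (nat_lit 0) (XT.lf (nat_lit 0) (nat_lit 3907955098) (nat_lit 532) (nat_lit 2481114231) (nat_lit 76) (nat_lit 1627214070) (nat_lit 221) (nat_lit 5) (nat_lit 228) (nat_lit 5) (nat_lit 222) (nat_lit 4) (nat_lit 423) (nat_lit 391) (nat_lit 386)) (XT.nd (nat_lit 78) (nat_lit 836) (nat_lit 0) (XT.lf (nat_lit 0) (nat_lit 1827720757) (nat_lit 532) (nat_lit 29896627) (nat_lit 76) (nat_lit 6309943170) (nat_lit 214) (nat_lit 5) (nat_lit 221) (nat_lit 5) (nat_lit 215) (nat_lit 5) (nat_lit 424) (nat_lit 391) (nat_lit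 385)) (XT.lf (nat_lit 0) (nat_lit 2560995683) (nat_lit 380) (nat_lit 5357391182) (nat_lit 456) (nat_lit 408540972) (nat_lit 203) (nat_lit 5) (nat_lit 208) (nat_lit 5) (nat_lit 209) (nat_lit 4) (nat_lit 425) (nat_lit 391) (nat_lit 384)))) (XT.nd (nat_lit 156) (nat_lit 1140) (nat_lit 0) (XT.nd (nat_lit 78) (nat_lit 456) (nat_lit 0) (XT.lf (nat_lit 0) (nat_lit 5240506353) (nat_lit 456) (nat_lit 380581084) (nat_lit 532) (nat_lit 2874066001) (nat_lit 196) (nat_lit 5) (nat_lit 202) (nat_lit 5) (nat_lit 203) (nat_lit 5) (nat_lit 426) (nat_lit 391) (nat_lit 383)) (XT.lf (nat_lit 0) (nat_lit 3159762331) (nat_lit 456) (nat_lit 671598785) (nat_lit 76) (nat_lit 4840843907) (nat_lit 190) (nat_lit 5) (nat_lit 196) (nat_lit 5) (nat_lit 191) (nat_lit 5) (nat_lit 427) (nat_lit 391) (nat_lit 382))) (XT.nd (nat_lit 78) (nat_lit 380) (nat_lit 0) (XT.lf (nat_lit 0) (nat_lit 518350763) (nat_lit 380) (nat_lit 6805335251)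 (nat_lit 76) (nat_lit 1534894716) (nat_lit 180) (nat_lit 5) (nat_lit 185) (nat_lit 5) (nat_lit 181) (nat_lit 5) (nat_lit 428) (nat_lit 391) (nat_lit 381)) (XT.lf (nat_lit 0) (nat_lit 4854697949) (nat_lit 380) (nat_lit 1848404494) (nat_lit 456) (nat_lit 2350565277) (nat_lit 175) (nat_lit 5) (nat_lit 180) (nat_lit 5) (nat_lit 181) (nat_lit 5) (nat_lit 429) (nat_lit 391) (nat_lit 380))))))))
noncomputable def xc32 : XT := (XT.nd (nat_lit 1950) (nat_lit 3192) (nat_lit 0) (XT.nd (nat_lit 936) (nat_lit 2888) (nat_lit 0) (XT.nd (nat_lit 468) (nat_lit 1824) (nat_lit 0) (XT.nd (nat_lit 234) (nat_lit 1292) (nat_lit 0) (XT.nd (nat_lit 78) (nat_lit 988) (nat_lit 0) (XT.lf (nat_lit 0) (nat_lit 3826790406) (nat_lit 380) (nat_lit 1519673260) (nat_lit 76) (nat_lit 3911978566) (nat_lit 170) (nat_lit 5) (nat_lit 175) (nat_lit 5) (nat_lit 171) (nat_lit 5) (nat_lit 430) (nat_lit 391) (nat_lit 379)) (XT.nd (nat_lit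 78) (nat_lit 304) (nat_lit 0) (XT.lf (nat_lit 0) (nat_lit 746992970) (nat_lit 380) (nat_lit 8194061575) (nat_lit 76) (nat_lit 532369830) (nat_lit 161) (nat_lit 5) (nat_lit 166) (nat_lit 5) (nat_lit 162) (nat_lit 5) (nat_lit 431) (nat_lit 391) (nat_lit 378)) (XT.lf (nat_lit 0) (nat_lit 4151910243) (nat_lit 304) (nat_lit 2982326926) (nat_lit 380) (nat_lit 2562963422) (nat_lit 157) (nat_lit 5) (nat_lit 161) (nat_lit 5) (nat_lit 162) (nat_lit 5) (nat_lit 432) (nat_lit 391) (nat_lit 377)))) (XT.nd (nat_lit 78) (nat_lit 912) (nat_lit 0) (XT.lf (nat_lit 0) (nat_lit 3812332469) (nat_lit 380) (nat_lit 2823499124) (nat_lit 76) (nat_lit 3295826045) (nat_lit 152) (nat_lit 5) (nat_lit 157) (nat_lit 5) (nat_lit 153) (nat_lit 5) (nat_lit 433) (nat_lit 391) (nat_lit 376)) (XT.nd (nat_lit 78) (nat_lit 532) (nat_lit 0) (XT.lf (nat_lit 0) (nat_lit 256313600) (nat_lit 380) (nat_lit 16387920) (nat_lit 76) (nat_lit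 9904748948) (nat_lit 147) (nat_lit 5) (nat_lit 152) (nat_lit 5) (nat_lit 148) (nat_lit 5) (nat_lit 434) (nat_lit 391) (nat_lit 375)) (XT.lf (nat_lit 0) (nat_lit 2868143439) (nat_lit 304) (nat_lit 4009080942) (nat_lit 380) (nat_lit 3554914497) (nat_lit 140) (nat_lit 5) (nat_lit 144) (nat_lit 5) (nat_lit 145) (nat_lit 5) (nat_lit 435) (nat_lit 391) (nat_lit 374))))) (XT.nd (nat_lit 234) (nat_lit 760) (nat_lit 0) (XT.nd (nat_lit 78) (nat_lit 760) (nat_lit 0) (XT.lf (nat_lit 0) (nat_lit 3065864218) (nat_lit 304) (nat_lit 4858855737) (nat_lit 76) (nat_lit 2774033626) (nat_lit 136) (nat_lit 5) (nat_lit 140) (nat_lit 5) (nat_lit 137) (nat_lit 5) (nat_lit 436) (nat_lit 391) (nat_lit 373)) (XT.nd (nat_lit 78) (nat_lit 532) (nat_lit 0) (XT.lf (nat_lit 0) (nat_lit 8883410545) (nat_lit 228) (nat_lit 1076002764) (nat_lit 304) (nat_lit 1017785405) (nat_lit 133) (nat_lit 5) (nat_lit 136) (nat_lit 5) (nat_lit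 137) (nat_lit 5) (nat_lit 437) (nat_lit 391) (nat_lit 372)) (XT.lf (nat_lit 0) (nat_lit 705414127) (nat_lit 228) (nat_lit 5154085031) (nat_lit 304) (nat_lit 5406956508) (nat_lit 126) (nat_lit 5) (nat_lit 129) (nat_lit 5) (nat_lit 130) (nat_lit 5) (nat_lit 438) (nat_lit 391) (nat_lit 371)))) (XT.nd (nat_lit 78) (nat_lit 456) (nat_lit 0) (XT.lf (nat_lit 0) (nat_lit 1500396147) (nat_lit 304) (nat_lit 7940688236) (nat_lit 76) (nat_lit 2127178220) (nat_lit 122) (nat_lit 5) (nat_lit 126) (nat_lit 5) (nat_lit 123) (nat_lit 5) (nat_lit 439) (nat_lit 391) (nat_lit 370)) (XT.nd (nat_lit 78) (nat_lit 228) (nat_lit 0) (XT.lf (nat_lit 0) (nat_lit 6581154461) (nat_lit 228) (nat_lit 2105593382) (nat_lit 304) (nat_lit 3195453089) (nat_lit 119) (nat_lit 5) (nat_lit 122) (nat_lit 5) (nat_lit 123) (nat_lit 5) (nat_lit 440) (nat_lit 391) (nat_lit 369)) (XT.lf (nat_lit 0) (nat_lit 3995401127) (nat_lit 228) (nat_lit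 2630090234) (nat_lit 76) (nat_lit 5583597008) (nat_lit 116) (nat_lit 5) (nat_lit 119) (nat_lit 5) (nat_lit 117) (nat_lit 5) (nat_lit 441) (nat_lit 391) (nat_lit 368)))))) (XT.nd (nat_lit 468) (nat_lit 1444) (nat_lit 0) (XT.nd (nat_lit 234) (nat_lit 532) (nat_lit 0) (XT.nd (nat_lit 78) (nat_lit 532) (nat_lit 0) (XT.lf (nat_lit 0) (nat_lit 102221450) (nat_lit 152) (nat_lit 11416109194) (nat_lit 228) (nat_lit 1031891264) (nat_lit 111) (nat_lit 5) (nat_lit 113) (nat_lit 5) (nat_lit 114) (nat_lit 4) (nat_lit 442) (nat_lit 391) (nat_lit 367)) (XT.nd (nat_lit 78) (nat_lit 228) (nat_lit 0) (XT.lf (nat_lit 0) (nat_lit 2880494939) (nat_lit 228) (nat_lit 3606082952) (nat_lit 304) (nat_lit 6416828002) (nat_lit 107) (nat_lit 5) (nat_lit 110) (nat_lit 5) (nat_lit 111) (nat_lit 5) (nat_lit 443) (nat_lit 391) (nat_lit 366)) (XT.lf (nat_lit 0) (nat_lit 1125753854) (nat_lit 228) (nat_lit 7556279785) (nat_lit 76)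 (nat_lit 4589766351) (nat_lit 104) (nat_lit 5) (nat_lit 107) (nat_lit 5) (nat_lit 105) (nat_lit 5) (nat_lit 444) (nat_lit 391) (nat_lit 365)))) (XT.nd (nat_lit 78) (nat_lit 380) (nat_lit 0) (XT.lf (nat_lit 0) (nat_lit 8570864316) (nat_lit 152) (nat_lit 401585897) (nat_lit 228) (nat_lit 4682474433) (nat_lit 102) (nat_lit 5) (nat_lit 104) (nat_lit 5) (nat_lit 105) (nat_lit 5) (nat_lit 445) (nat_lit 391) (nat_lit 364)) (XT.nd (nat_lit 78) (nat_lit 152) (nat_lit 0) (XT.lf (nat_lit 0) (nat_lit 3201726249) (nat_lit 228) (nat_lit 2619044805) (nat_lit 76) (nat_lit 8232261924) (nat_lit 99) (nat_lit 5) (nat_lit 102) (nat_lit 5) (nat_lit 100) (nat_lit 5) (nat_lit 446) (nat_lit 391) (nat_lit 363)) (XT.lf (nat_lit 0) (nat_lit 11450346509) (nat_lit 228) (nat_lit 132939936) (nat_lit 76) (nat_lit 2884364719) (nat_lit 97) (nat_lit 5) (nat_lit 100) (nat_lit 5) (nat_lit 98) (nat_lit 4) (nat_lit 447) (nat_lit 391)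 (nat_lit 362))))) (XT.nd (nat_lit 234) (nat_lit 684) (nat_lit 0) (XT.nd (nat_lit 78) (nat_lit 380) (nat_lit 0) (XT.lf (nat_lit 0) (nat_lit 2387876090) (nat_lit 152) (nat_lit 2841634878) (nat_lit 228) (nat_lit 9668311128) (nat_lit 92) (nat_lit 5) (nat_lit 94) (nat_lit 5) (nat_lit 95) (nat_lit 5) (nat_lit 448) (nat_lit 391) (nat_lit 361)) (XT.nd (nat_lit 78) (nat_lit 228) (nat_lit 0) (XT.lf (nat_lit 0) (nat_lit 4913140900) (nat_lit 152) (nat_lit 9021117156) (nat_lit 228) (nat_lit 1411113468) (nat_lit 90) (nat_lit 5) (nat_lit 92) (nat_lit 5) (nat_lit 93) (nat_lit 4) (nat_lit 449) (nat_lit 391) (nat_lit 360)) (XT.lf (nat_lit 0) (nat_lit 7198977552) (nat_lit 228) (nat_lit 8384123508) (nat_lit 76) (nat_lit 227659111) (nat_lit 87) (nat_lit 5) (nat_lit 90) (nat_lit 5) (nat_lit 88) (nat_lit 4) (nat_lit 450) (nat_lit 391) (nat_lit 359)))) (XT.nd (nat_lit 156) (nat_lit 304) (nat_lit 0) (XT.nd (nat_lit 78)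 (nat_lit 152) (nat_lit 0) (XT.lf (nat_lit 0) (nat_lit 62470071) (nat_lit 228) (nat_lit 6376797379) (nat_lit 76) (nat_lit 9855281789) (nat_lit 84) (nat_lit 5) (nat_lit 87) (nat_lit 5) (nat_lit 85) (nat_lit 5) (nat_lit 451) (nat_lit 391) (nat_lit 358)) (XT.lf (nat_lit 0) (nat_lit 9088339487) (nat_lit 228) (nat_lit 4430239748) (nat_lit 76) (nat_lit 3278515160) (nat_lit 82) (nat_lit 5) (nat_lit 85) (nat_lit 5) (nat_lit 83) (nat_lit 4) (nat_lit 452) (nat_lit 391) (nat_lit 357))) (XT.nd (nat_lit 78) (nat_lit 152) (nat_lit 0) (XT.lf (nat_lit 0) (nat_lit 1350727188) (nat_lit 152) (nat_lit 2512008129) (nat_lit 76) (nat_lit 13457652102) (nat_lit 80) (nat_lit 5) (nat_lit 82) (nat_lit 5) (nat_lit 81) (nat_lit 5) (nat_lit 453) (nat_lit 391) (nat_lit 356)) (XT.lf (nat_lit 0) (nat_lit 10841099867) (nat_lit 228) (nat_lit 691280912) (nat_lit 76) (nat_lit 6331058507) (nat_lit 78) (nat_lit 5) (nat_lit 81) (nat_lit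 5) (nat_lit 79) (nat_lit 4) (nat_lit 454) (nat_lit 391) (nat_lit 355))))))) (XT.nd (nat_lit 1014) (nat_lit 1216) (nat_lit 0) (XT.nd (nat_lit 468) (nat_lit 988) (nat_lit 0) (XT.nd (nat_lit 234) (nat_lit 380) (nat_lit 0) (XT.nd (nat_lit 78) (nat_lit 304) (nat_lit 0) (XT.lf (nat_lit 0) (nat_lit 1119578461) (nat_lit 152) (nat_lit 1336596310) (nat_lit 228) (nat_lit 15972885187) (nat_lit 74) (nat_lit 5) (nat_lit 76) (nat_lit 5) (nat_lit 77) (nat_lit 5) (nat_lit 455) (nat_lit 391) (nat_lit 354)) (XT.nd (nat_lit 78) (nat_lit 228) (nat_lit 0) (XT.lf (nat_lit 0) (nat_lit 2801057936) (nat_lit 76) (nat_lit 9645353829) (nat_lit 152) (nat_lit 6568976931) (nat_lit 73) (nat_lit 5) (nat_lit 74) (nat_lit 5) (nat_lit 75) (nat_lit 4) (nat_lit 456) (nat_lit 391) (nat_lit 353)) (XT.lf (nat_lit 0) (nat_lit 3354534057) (nat_lit 228) (nat_lit 15193982871) (nat_lit 76) (nat_lit 1078150235) (nat_lit 70) (nat_lit 5) (nat_lit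 73) (nat_lit 5) (nat_lit 71) (nat_lit 4) (nat_lit 457) (nat_lit 391) (nat_lit 352)))) (XT.nd (nat_lit 78) (nat_lit 304) (nat_lit 0) (XT.lf (nat_lit 0) (nat_lit 5892148989) (nat_lit 76) (nat_lit 7940120231) (nat_lit 152) (nat_lit 6428475316) (nat_lit 69) (nat_lit 5) (nat_lit 70) (nat_lit 5) (nat_lit 71) (nat_lit 4) (nat_lit 458) (nat_lit 391) (nat_lit 351)) (XT.nd (nat_lit 78) (nat_lit 76) (nat_lit 0) (XT.lf (nat_lit 0) (nat_lit 3964185969) (nat_lit 228) (nat_lit 13663655720) (nat_lit 76) (nat_lit 3293568339) (nat_lit 66) (nat_lit 5) (nat_lit 69) (nat_lit 5) (nat_lit 67) (nat_lit 4) (nat_lit 459) (nat_lit 391) (nat_lit 350)) (XT.lf (nat_lit 0) (nat_lit 8436984610) (nat_lit 76) (nat_lit 6493892313) (nat_lit 152) (nat_lit 6676704925) (nat_lit 65) (nat_lit 5) (nat_lit 66) (nat_lit 5) (nat_lit 67) (nat_lit 4) (nat_lit 460) (nat_lit 391) (nat_lit 349))))) (XT.nd (nat_lit 234) (nat_lit 456) (nat_lit 0)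 (XT.nd (nat_lit 78) (nat_lit 304) (nat_lit 0) (XT.lf (nat_lit 0) (nat_lit 4200639504) (nat_lit 228) (nat_lit 12857882233) (nat_lit 76) (nat_lit 5263461134) (nat_lit 62) (nat_lit 5) (nat_lit 65) (nat_lit 5) (nat_lit 63) (nat_lit 4) (nat_lit 461) (nat_lit 391) (nat_lit 348)) (XT.nd (nat_lit 78) (nat_lit 228) (nat_lit 0) (XT.lf (nat_lit 0) (nat_lit 10276260547) (nat_lit 76) (nat_lit 5390671990) (nat_lit 152) (nat_lit 7397695825) (nat_lit 61) (nat_lit 5) (nat_lit 62) (nat_lit 5) (nat_lit 63) (nat_lit 4) (nat_lit 462) (nat_lit 391) (nat_lit 347)) (XT.lf (nat_lit 0) (nat_lit 3976370163) (nat_lit 228) (nat_lit 12960261874) (nat_lit 76) (nat_lit 6900974711) (nat_lit 58) (nat_lit 5) (nat_lit 61) (nat_lit 5) (nat_lit 59) (nat_lit 4) (nat_lit 463) (nat_lit 391) (nat_lit 346)))) (XT.nd (nat_lit 156) (nat_lit 228) (nat_lit 0) (XT.nd (nat_lit 78) (nat_lit 152) (nat_lit 0) (XT.lf (nat_lit 0) (nat_lit 11217288501)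 (nat_lit 76) (nat_lit 4730991834) (nat_lit 152) (nat_lit 8693294550) (nat_lit 57) (nat_lit 5) (nat_lit 58) (nat_lit 5) (nat_lit 59) (nat_lit 4) (nat_lit 464) (nat_lit 391) (nat_lit 345)) (XT.lf (nat_lit 0) (nat_lit 3185135198) (nat_lit 152) (nat_lit 14191627129) (nat_lit 76) (nat_lit 8101768248) (nat_lit 55) (nat_lit 5) (nat_lit 57) (nat_lit 5) (nat_lit 56) (nat_lit 4) (nat_lit 465) (nat_lit 391) (nat_lit 344))) (XT.nd (nat_lit 78) (nat_lit 152) (nat_lit 0) (XT.lf (nat_lit 0) (nat_lit 11027733492) (nat_lit 76) (nat_lit 4635142237) (nat_lit 152) (nat_lit 10686322751) (nat_lit 54) (nat_lit 5) (nat_lit 55) (nat_lit 5) (nat_lit 56) (nat_lit 4) (nat_lit 466) (nat_lit 391) (nat_lit 343)) (XT.lf (nat_lit 0) (nat_lit 1698626577) (nat_lit 152) (nat_lit 16816931004) (nat_lit 76) (nat_lit 8740606709) (nat_lit 52) (nat_lit 5) (nat_lit 54) (nat_lit 5) (nat_lit 53) (nat_lit 4) (nat_lit 467) (nat_lit 391) (nat_lit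 342)))))) (XT.nd (nat_lit 468) (nat_lit 684) (nat_lit 0) (XT.nd (nat_lit 234) (nat_lit 228) (nat_lit 0) (XT.nd (nat_lit 78) (nat_lit 228) (nat_lit 0) (XT.lf (nat_lit 0) (nat_lit 9428255529) (nat_lit 76) (nat_lit 5246948573) (nat_lit 152) (nat_lit 13524300185) (nat_lit 51) (nat_lit 5) (nat_lit 52) (nat_lit 5) (nat_lit 53) (nat_lit 4) (nat_lit 468) (nat_lit 391) (nat_lit 341)) (XT.nd (nat_lit 78) (nat_lit 152) (nat_lit 0) (XT.lf (nat_lit 0) (nat_lit 8023459104) (nat_lit 76) (nat_lit 20509425309) (nat_lit 76) (nat_lit 650160326) (nat_lit 50) (nat_lit 4) (nat_lit 51) (nat_lit 5) (nat_lit 51) (nat_lit 4) (nat_lit 469) (nat_lit 391) (nat_lit 340)) (XT.lf (nat_lit 0) (nat_lit 6083865265) (nat_lit 76) (nat_lit 6738195636) (nat_lit 152) (nat_lit 17383828019) (nat_lit 48) (nat_lit 5) (nat_lit 49) (nat_lit 5) (nat_lit 50) (nat_lit 4) (nat_lit 470) (nat_lit 391) (nat_lit 339)))) (XT.nd (nat_lit 78) (nat_lit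 152) (nat_lit 0) (XT.lf (nat_lit 0) (nat_lit 3653763753) (nat_lit 76) (nat_lit 23531102224) (nat_lit 76) (nat_lit 4087905120) (nat_lit 47) (nat_lit 4) (nat_lit 48) (nat_lit 5) (nat_lit 48) (nat_lit 4) (nat_lit 471) (nat_lit 391) (nat_lit 338)) (XT.nd (nat_lit 78) (nat_lit 0) (nat_lit 0) (XT.lf (nat_lit 0) (nat_lit 593770943) (nat_lit 76) (nat_lit 9313812983) (nat_lit 152) (nat_lit 22475744988) (nat_lit 45) (nat_lit 5) (nat_lit 46) (nat_lit 5) (nat_lit 47) (nat_lit 4) (nat_lit 472) (nat_lit 391) (nat_lit 337)) (XT.lf (nat_lit 0) (nat_lit 24765111257) (nat_lit 152) (nat_lit 3030438990) (nat_lit 0) (nat_lit 5745247205) (nat_lit 45) (nat_lit 5) (nat_lit 47) (nat_lit 4) (nat_lit 45) (nat_lit 4) (nat_lit 473) (nat_lit 391) (nat_lit 336))))) (XT.nd (nat_lit 234) (nat_lit 304) (nat_lit 0) (XT.nd (nat_lit 78) (nat_lit 228) (nat_lit 0) (XT.lf (nat_lit 0) (nat_lit 5769702012) (nat_lit 152) (nat_lit 7373791110)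 (nat_lit 76) (nat_lit 21602936306) (nat_lit 43) (nat_lit 5) (nat_lit 45) (nat_lit 5) (nat_lit 44) (nat_lit 4) (nat_lit 474) (nat_lit 391) (nat_lit 335)) (XT.nd (nat_lit 78) (nat_lit 152) (nat_lit 0) (XT.lf (nat_lit 0) (nat_lit 21055779404) (nat_lit 152) (nat_lit 12484122892) (nat_lit 0) (nat_lit 2463987776) (nat_lit 42) (nat_lit 5) (nat_lit 44) (nat_lit 4) (nat_lit 42) (nat_lit 4) (nat_lit 475) (nat_lit 391) (nat_lit 334)) (XT.lf (nat_lit 0) (nat_lit 92804814) (nat_lit 152) (nat_lit 18461889934) (nat_lit 76) (nat_lit 18760394563) (nat_lit 40) (nat_lit 5) (nat_lit 42) (nat_lit 5) (nat_lit 41) (nat_lit 4) (nat_lit 476) (nat_lit 391) (nat_lit 333)))) (XT.nd (nat_lit 156) (nat_lit 152) (nat_lit 0) (XT.nd (nat_lit 78) (nat_lit 76) (nat_lit 0) (XT.lf (nat_lit 0) (nat_lit 13269748689) (nat_lit 76) (nat_lit 2481846944) (nat_lit 152) (nat_lit 22930564468) (nat_lit 39) (nat_lit 5) (nat_lit 40) (nat_lit 5)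 (nat_lit 41) (nat_lit 4) (nat_lit 477) (nat_lit 391) (nat_lit 332)) (XT.lf (nat_lit 0) (nat_lit 6687897968) (nat_lit 76) (nat_lit 25816509761) (nat_lit 76) (nat_lit 7603845210) (nat_lit 38) (nat_lit 4) (nat_lit 39) (nat_lit 5) (nat_lit 39) (nat_lit 4) (nat_lit 478) (nat_lit 391) (nat_lit 331))) (XT.nd (nat_lit 78) (nat_lit 76) (nat_lit 0) (XT.lf (nat_lit 0) (nat_lit 8530925667) (nat_lit 152) (nat_lit 943941422) (nat_lit 76) (nat_lit 32122114991) (nat_lit 37) (nat_lit 5) (nat_lit 39) (nat_lit 5) (nat_lit 38) (nat_lit 4) (nat_lit 479) (nat_lit 391) (nat_lit 330)) (XT.lf (nat_lit 0) (nat_lit 25638565062) (nat_lit 152) (nat_lit 9646243113) (nat_lit 0) (nat_lit 7863380104) (nat_lit 36) (nat_lit 5) (nat_lit 38) (nat_lit 4) (nat_lit 36) (nat_lit 4) (nat_lit 480) (nat_lit 391) (nat_lit 329))))))))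
noncomputable def xc33 : XT := (XT.nd (nat_lit 57954) (nat_lit 0) (nat_lit 5776) (XT.nd (nat_lit 936) (nat_lit 380) (nat_lit 0) (XT.nd (nat_lit 468) (nat_lit 456) (nat_lit 0) (XT.nd (nat_lit 234) (nat_lit 228) (nat_lit 0) (XT.nd (nat_lit 78) (nat_lit 228) (nat_lit 0) (XT.lf (nat_lit 0) (nat_lit 25157723096) (nat_lit 76) (nat_lit 18714745121) (nat_lit 76) (nat_lit 896360923) (nat_lit 35) (nat_lit 4) (nat_lit 36) (nat_lit 5) (nat_lit 36) (nat_lit 4) (nat_lit 481) (nat_lit 391) (nat_lit 328)) (XT.nd (nat_lit 78) (nat_lit 76) (nat_lit 0) (XT.lf (nat_lit 0) (nat_lit 15429144725) (nat_lit 76) (nat_lit 969215400) (nat_lit 152) (nat_lit 30062159754) (nat_lit 33) (nat_lit 5) (nat_lit 34) (nat_lit 5) (nat_lit 35) (nat_lit 4) (nat_lit 482) (nat_lit 391) (nat_lit 327)) (XT.lf (nat_lit 0) (nat_lit 4155645086) (nat_lit 76) (nat_lit 30724030167) (nat_lit 76) (nat_lit 13346642482) (nat_lit 32) (nat_lit 4) (nat_lit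 33) (nat_lit 5) (nat_lit 33) (nat_lit 4) (nat_lit 483) (nat_lit 391) (nat_lit 326)))) (XT.nd (nat_lit 78) (nat_lit 152) (nat_lit 0) (XT.lf (nat_lit 0) (nat_lit 4383028922) (nat_lit 152) (nat_lit 8516069193) (nat_lit 76) (nat_lit 37172282708) (nat_lit 31) (nat_lit 5) (nat_lit 33) (nat_lit 5) (nat_lit 32) (nat_lit 4) (nat_lit 484) (nat_lit 391) (nat_lit 325)) (XT.nd (nat_lit 78) (nat_lit 76) (nat_lit 0) (XT.lf (nat_lit 0) (nat_lit 22996427557) (nat_lit 152) (nat_lit 22943605172) (nat_lit 0) (nat_lit 6056502431) (nat_lit 30) (nat_lit 5) (nat_lit 32) (nat_lit 4) (nat_lit 30) (nat_lit 4) (nat_lit 485) (nat_lit 391) (nat_lit 324)) (XT.lf (nat_lit 0) (nat_lit 14685457929) (nat_lit 76) (nat_lit 28147768909) (nat_lit 76) (nat_lit 11175939047) (nat_lit 29) (nat_lit 4) (nat_lit 30) (nat_lit 5) (nat_lit 30) (nat_lit 4) (nat_lit 486) (nat_lit 391) (nat_lit 323))))) (XT.nd (nat_lit 234) (nat_lit 228) (nat_lit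 0) (XT.nd (nat_lit 78) (nat_lit 152) (nat_lit 0) (XT.lf (nat_lit 0) (nat_lit 7564986522) (nat_lit 152) (nat_lit 1645292685) (nat_lit 76) (nat_lit 46904795174) (nat_lit 28) (nat_lit 5) (nat_lit 30) (nat_lit 5) (nat_lit 29) (nat_lit 4) (nat_lit 487) (nat_lit 391) (nat_lit 322)) (XT.nd (nat_lit 78) (nat_lit 76) (nat_lit 0) (XT.lf (nat_lit 0) (nat_lit 27427453271) (nat_lit 152) (nat_lit 19990684620) (nat_lit 0) (nat_lit 10892352434) (nat_lit 27) (nat_lit 5) (nat_lit 29) (nat_lit 4) (nat_lit 27) (nat_lit 4) (nat_lit 488) (nat_lit 391) (nat_lit 321)) (XT.lf (nat_lit 0) (nat_lit 19875040569) (nat_lit 76) (nat_lit 28647653050) (nat_lit 76) (nat_lit 12085794436) (nat_lit 26) (nat_lit 4) (nat_lit 27) (nat_lit 5) (nat_lit 27) (nat_lit 4) (nat_lit 489) (nat_lit 391) (nat_lit 320)))) (XT.nd (nat_lit 78) (nat_lit 152) (nat_lit 0) (XT.lf (nat_lit 0) (nat_lit 7649558935) (nat_lit 152) (nat_lit 1058737574) (nat_lit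 76) (nat_lit 54306456554) (nat_lit 25) (nat_lit 5) (nat_lit 27) (nat_lit 5) (nat_lit 26) (nat_lit 4) (nat_lit 490) (nat_lit 391) (nat_lit 319)) (XT.nd (nat_lit 78) (nat_lit 76) (nat_lit 0) (XT.lf (nat_lit 0) (nat_lit 28584497167) (nat_lit 152) (nat_lit 24482643424) (nat_lit 0) (nat_lit 12456718229) (nat_lit 24) (nat_lit 5) (nat_lit 26) (nat_lit 4) (nat_lit 24) (nat_lit 4) (nat_lit 491) (nat_lit 391) (nat_lit 318)) (XT.lf (nat_lit 0) (nat_lit 17246832360) (nat_lit 76) (nat_lit 33527777587) (nat_lit 76) (nat_lit 17377557509) (nat_lit 23) (nat_lit 4) (nat_lit 24) (nat_lit 5) (nat_lit 24) (nat_lit 4) (nat_lit 492) (nat_lit 391) (nat_lit 317)))))) (XT.nd (nat_lit 56472) (nat_lit 0) (nat_lit 15960) (XT.nd (nat_lit 234) (nat_lit 152) (nat_lit 0) (XT.nd (nat_lit 78) (nat_lit 152) (nat_lit 0) (XT.lf (nat_lit 0) (nat_lit 3299982634) (nat_lit 152) (nat_lit 9472627844) (nat_lit 76) (nat_lit 58132388851) (nat_lit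 22) (nat_lit 5) (nat_lit 24) (nat_lit 5) (nat_lit 23) (nat_lit 4) (nat_lit 493) (nat_lit 391) (nat_lit 316)) (XT.nd (nat_lit 78) (nat_lit 76) (nat_lit 0) (XT.lf (nat_lit 0) (nat_lit 25024925945) (nat_lit 152) (nat_lit 39449609250) (nat_lit 0) (nat_lit 9304588695) (nat_lit 21) (nat_lit 5) (nat_lit 23) (nat_lit 4) (nat_lit 21) (nat_lit 4) (nat_lit 494) (nat_lit 391) (nat_lit 315)) (XT.lf (nat_lit 0) (nat_lit 3562704325) (nat_lit 76) (nat_lit 44483552312) (nat_lit 76) (nat_lit 28744394187) (nat_lit 20) (nat_lit 4) (nat_lit 21) (nat_lit 5) (nat_lit 21) (nat_lit 4) (nat_lit 495) (nat_lit 391) (nat_lit 314)))) (XT.nd (nat_lit 78) (nat_lit 152) (nat_lit 0) (XT.lf (nat_lit 0) (nat_lit 49450336602) (nat_lit 76) (nat_lit 23124408927) (nat_lit 76) (nat_lit 7367326160) (nat_lit 20) (nat_lit 4) (nat_lit 21) (nat_lit 5) (nat_lit 21) (nat_lit 4) (nat_lit 496) (nat_lit 391) (nat_lit 313)) (XT.nd (nat_lit 78) (nat_lit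 0) (nat_lit 0) (XT.lf (nat_lit 0) (nat_lit 14421876191) (nat_lit 76) (nat_lit 453015457) (nat_lit 152) (nat_lit 68369107894) (nat_lit 18) (nat_lit 5) (nat_lit 19) (nat_lit 5) (nat_lit 20) (nat_lit 4) (nat_lit 497) (nat_lit 391) (nat_lit 312)) (XT.lf (nat_lit 0) (nat_lit 38572586472) (nat_lit 152) (nat_lit 24879287931) (nat_lit 0) (nat_lit 23242089351) (nat_lit 18) (nat_lit 5) (nat_lit 20) (nat_lit 4) (nat_lit 18) (nat_lit 4) (nat_lit 498) (nat_lit 391) (nat_lit 311))))) (XT.nd (nat_lit 234) (nat_lit 2812) (nat_lit 0) (XT.nd (nat_lit 78) (nat_lit 2052) (nat_lit 0) (XT.lf (nat_lit 0) (nat_lit 1225684267) (nat_lit 1292) (nat_lit 1142049918) (nat_lit 0) (nat_lit 1225684267) (nat_lit 292) (nat_lit 5) (nat_lit 309) (nat_lit 4) (nat_lit 292) (nat_lit 4) (nat_lit 416) (nat_lit 392) (nat_lit 392)) (XT.nd (nat_lit 78) (nat_lit 1216) (nat_lit 0) (XT.lf (nat_lit 0) (nat_lit 1077075083) (nat_lit 836) (nat_lit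 520872839) (nat_lit 76) (nat_lit 5686818840) (nat_lit 281) (nat_lit 5) (nat_lit 292) (nat_lit 5) (nat_lit 282) (nat_lit 4) (nat_lit 417) (nat_lit 392) (nat_lit 391)) (XT.lf (nat_lit 0) (nat_lit 1369807057) (nat_lit 608) (nat_lit 5576156187) (nat_lit 608) (nat_lit 444360271) (nat_lit 265) (nat_lit 4) (nat_lit 273) (nat_lit 5) (nat_lit 273) (nat_lit 4) (nat_lit 418) (nat_lit 392) (nat_lit 390)))) (XT.nd (nat_lit 156) (nat_lit 1596) (nat_lit 0) (XT.nd (nat_lit 78) (nat_lit 608) (nat_lit 0) (XT.lf (nat_lit 0) (nat_lit 3368074201) (nat_lit 532) (nat_lit 1993492161) (nat_lit 608) (nat_lit 2142102537) (nat_lit 257) (nat_lit 5) (nat_lit 264) (nat_lit 5) (nat_lit 265) (nat_lit 4) (nat_lit 419) (nat_lit 392) (nat_lit 389)) (XT.lf (nat_lit 0) (nat_lit 3621047622) (nat_lit 608) (nat_lit 2150716131) (nat_lit 76) (nat_lit 1853632570) (nat_lit 249) (nat_lit 5) (nat_lit 257) (nat_lit 5) (nat_lit 250) (nat_lit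 4) (nat_lit 420) (nat_lit 392) (nat_lit 388))) (XT.nd (nat_lit 78) (nat_lit 988) (nat_lit 0) (XT.lf (nat_lit 0) (nat_lit 1720694353) (nat_lit 608) (nat_lit 66453351) (nat_lit 76) (nat_lit 5968467773) (nat_lit 241) (nat_lit 5) (nat_lit 249) (nat_lit 5) (nat_lit 242) (nat_lit 5) (nat_lit 421) (nat_lit 392) (nat_lit 387)) (XT.lf (nat_lit 0) (nat_lit 2154320735) (nat_lit 456) (nat_lit 5411495515) (nat_lit 532) (nat_lit 327875734) (nat_lit 228) (nat_lit 5) (nat_lit 234) (nat_lit 5) (nat_lit 235) (nat_lit 4) (nat_lit 422) (nat_lit 392) (nat_lit 386))))))) (XT.nd (nat_lit 1014) (nat_lit 3800) (nat_lit 0) (XT.nd (nat_lit 468) (nat_lit 3040) (nat_lit 0) (XT.nd (nat_lit 234) (nat_lit 1368) (nat_lit 0) (XT.nd (nat_lit 78) (nat_lit 1444) (nat_lit 0) (XT.lf (nat_lit 0) (nat_lit 4465100530) (nat_lit 456) (nat_lit 987315709) (nat_lit 532) (nat_lit 2587702112) (nat_lit 221) (nat_lit 5) (nat_lit 227) (nat_lit 5)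 (nat_lit 228) (nat_lit 5) (nat_lit 423) (nat_lit 392) (nat_lit 385)) (XT.nd (nat_lit 78) (nat_lit 912) (nat_lit 0) (XT.lf (nat_lit 0) (nat_lit 3180417989) (nat_lit 532) (nat_lit 1328665534) (nat_lit 76) (nat_lit 3686035783) (nat_lit 214) (nat_lit 5) (nat_lit 221) (nat_lit 5) (nat_lit 215) (nat_lit 5) (nat_lit 424) (nat_lit 392) (nat_lit 384)) (XT.lf (nat_lit 0) (nat_lit 730093405) (nat_lit 456) (nat_lit 7314649305) (nat_lit 76) (nat_lit 314551623) (nat_lit 202) (nat_lit 5) (nat_lit 208) (nat_lit 5) (nat_lit 203) (nat_lit 5) (nat_lit 425) (nat_lit 392) (nat_lit 383)))) (XT.nd (nat_lit 78) (nat_lit 912) (nat_lit 0) (XT.lf (nat_lit 0) (nat_lit 3503526955) (nat_lit 456) (nat_lit 3120331903) (nat_lit 532) (nat_lit 1907392875) (nat_lit 196) (nat_lit 5) (nat_lit 202) (nat_lit 5) (nat_lit 203) (nat_lit 5) (nat_lit 426) (nat_lit 392) (nat_lit 382)) (XT.nd (nat_lit 78) (nat_lit 456) (nat_lit 0) (XT.lf (nat_lit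 0) (nat_lit 3953450675) (nat_lit 456) (nat_lit 2653525014) (nat_lit 76) (nat_lit 2105684422) (nat_lit 190) (nat_lit 5) (nat_lit 196) (nat_lit 5) (nat_lit 191) (nat_lit 5) (nat_lit 427) (nat_lit 392) (nat_lit 381)) (XT.lf (nat_lit 0) (nat_lit 1094843427) (nat_lit 456) (nat_lit 192968714) (nat_lit 76) (nat_lit 7615878748) (nat_lit 184) (nat_lit 5) (nat_lit 190) (nat_lit 5) (nat_lit 185) (nat_lit 5) (nat_lit 428) (nat_lit 392) (nat_lit 380))))) (XT.nd (nat_lit 234) (nat_lit 1596) (nat_lit 0) (XT.nd (nat_lit 78) (nat_lit 760) (nat_lit 0) (XT.lf (nat_lit 0) (nat_lit 2373213661) (nat_lit 380) (nat_lit 4764032451) (nat_lit 456) (nat_lit 1965812731) (nat_lit 175) (nat_lit 5) (nat_lit 180) (nat_lit 5) (nat_lit 181) (nat_lit 5) (nat_lit 429) (nat_lit 392) (nat_lit 379)) (XT.nd (nat_lit 78) (nat_lit 380) (nat_lit 0) (XT.lf (nat_lit 0) (nat_lit 4047387367) (nat_lit 380) (nat_lit 4280031838) (nat_lit 76) (nat_lit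 985012327) (nat_lit 170) (nat_lit 5) (nat_lit 175) (nat_lit 5) (nat_lit 171) (nat_lit 5) (nat_lit 430) (nat_lit 392) (nat_lit 378)) (XT.lf (nat_lit 0) (nat_lit 764385549) (nat_lit 380) (nat_lit 1762932165) (nat_lit 76) (nat_lit 7004435805) (nat_lit 165) (nat_lit 5) (nat_lit 170) (nat_lit 5) (nat_lit 166) (nat_lit 5) (nat_lit 431) (nat_lit 392) (nat_lit 377)))) (XT.nd (nat_lit 156) (nat_lit 608) (nat_lit 0) (XT.nd (nat_lit 78) (nat_lit 380) (nat_lit 0) (XT.lf (nat_lit 0) (nat_lit 825941885) (nat_lit 304) (nat_lit 6153831462) (nat_lit 380) (nat_lit 2780920624) (nat_lit 157) (nat_lit 5) (nat_lit 161) (nat_lit 5) (nat_lit 162) (nat_lit 5) (nat_lit 432) (nat_lit 392) (nat_lit 376)) (XT.lf (nat_lit 0) (nat_lit 3436832239) (nat_lit 380) (nat_lit 6464279699) (nat_lit 76) (nat_lit 98963720) (nat_lit 152) (nat_lit 5) (nat_lit 157) (nat_lit 5) (nat_lit 153) (nat_lit 5) (nat_lit 433) (nat_lit 392) (nat_lit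 375))) (XT.nd (nat_lit 78) (nat_lit 304) (nat_lit 0) (XT.lf (nat_lit 0) (nat_lit 6302494493) (nat_lit 304) (nat_lit 3630734183) (nat_lit 380) (nat_lit 316629071) (nat_lit 148) (nat_lit 5) (nat_lit 152) (nat_lit 5) (nat_lit 153) (nat_lit 5) (nat_lit 434) (nat_lit 392) (nat_lit 374)) (XT.lf (nat_lit 0) (nat_lit 6118864264) (nat_lit 304) (nat_lit 1382686996) (nat_lit 76) (nat_lit 3008841046) (nat_lit 144) (nat_lit 5) (nat_lit 148) (nat_lit 5) (nat_lit 145) (nat_lit 5) (nat_lit 435) (nat_lit 392) (nat_lit 373)))))) (XT.nd (nat_lit 468) (nat_lit 1672) (nat_lit 0) (XT.nd (nat_lit 234) (nat_lit 988) (nat_lit 0) (XT.nd (nat_lit 78) (nat_lit 532) (nat_lit 0) (XT.lf (nat_lit 0) (nat_lit 1284265202) (nat_lit 228) (nat_lit 785682819) (nat_lit 304) (nat_lit 8712575520) (nat_lit 136) (nat_lit 5) (nat_lit 139) (nat_lit 5) (nat_lit 140) (nat_lit 5) (nat_lit 436) (nat_lit 392) (nat_lit 372)) (XT.nd (nat_lit 78)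 (nat_lit 304) (nat_lit 0) (XT.lf (nat_lit 0) (nat_lit 4013199336) (nat_lit 228) (nat_lit 4807695759) (nat_lit 304) (nat_lit 2244357767) (nat_lit 133) (nat_lit 5) (nat_lit 136) (nat_lit 5) (nat_lit 137) (nat_lit 5) (nat_lit 437) (nat_lit 392) (nat_lit 371)) (XT.lf (nat_lit 0) (nat_lit 4476974608) (nat_lit 304) (nat_lit 4552502915) (nat_lit 76) (nat_lit 2330788283) (nat_lit 129) (nat_lit 5) (nat_lit 133) (nat_lit 5) (nat_lit 130) (nat_lit 5) (nat_lit 438) (nat_lit 392) (nat_lit 370)))) (XT.nd (nat_lit 78) (nat_lit 760) (nat_lit 0) (XT.lf (nat_lit 0) (nat_lit 9672196925) (nat_lit 228) (nat_lit 1858916209) (nat_lit 304) (nat_lit 136965992) (nat_lit 126) (nat_lit 5) (nat_lit 129) (nat_lit 5) (nat_lit 130) (nat_lit 5) (nat_lit 439) (nat_lit 392) (nat_lit 369)) (XT.nd (nat_lit 78) (nat_lit 228) (nat_lit 0) (XT.lf (nat_lit 0) (nat_lit 578582602) (nat_lit 228) (nat_lit 6294214632) (nat_lit 304) (nat_lit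 5114642542) (nat_lit 119) (nat_lit 5) (nat_lit 122) (nat_lit 5) (nat_lit 123) (nat_lit 5) (nat_lit 440) (nat_lit 392) (nat_lit 368)) (XT.lf (nat_lit 0) (nat_lit 1928943115) (nat_lit 228) (nat_lit 9050726413) (nat_lit 76) (nat_lit 1340757318) (nat_lit 116) (nat_lit 5) (nat_lit 119) (nat_lit 5) (nat_lit 117) (nat_lit 5) (nat_lit 441) (nat_lit 392) (nat_lit 367))))) (XT.nd (nat_lit 234) (nat_lit 988) (nat_lit 0) (XT.nd (nat_lit 78) (nat_lit 456) (nat_lit 0) (XT.lf (nat_lit 0) (nat_lit 5974077877) (nat_lit 228) (nat_lit 3321432629) (nat_lit 304) (nat_lit 3370745134) (nat_lit 113) (nat_lit 5) (nat_lit 116) (nat_lit 5) (nat_lit 117) (nat_lit 5) (nat_lit 442) (nat_lit 392) (nat_lit 366)) (XT.nd (nat_lit 78) (nat_lit 228) (nat_lit 0) (XT.lf (nat_lit 0) (nat_lit 3987396544) (nat_lit 228) (nat_lit 4305099094) (nat_lit 76) (nat_lit 4733801532) (nat_lit 110) (nat_lit 5) (nat_lit 113) (nat_lit 5) (nat_lit 111)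 (nat_lit 5) (nat_lit 443) (nat_lit 392) (nat_lit 365)) (XT.lf (nat_lit 0) (nat_lit 11528448888) (nat_lit 228) (nat_lit 173478736) (nat_lit 304) (nat_lit 1699674037) (nat_lit 107) (nat_lit 5) (nat_lit 110) (nat_lit 5) (nat_lit 111) (nat_lit 5) (nat_lit 444) (nat_lit 392) (nat_lit 364)))) (XT.nd (nat_lit 156) (nat_lit 456) (nat_lit 0) (XT.nd (nat_lit 78) (nat_lit 152) (nat_lit 0) (XT.lf (nat_lit 0) (nat_lit 541807484) (nat_lit 152) (nat_lit 5464554558) (nat_lit 228) (nat_lit 7784072812) (nat_lit 102) (nat_lit 5) (nat_lit 104) (nat_lit 5) (nat_lit 105) (nat_lit 5) (nat_lit 445) (nat_lit 392) (nat_lit 363)) (XT.lf (nat_lit 0) (nat_lit 3054171264) (nat_lit 152) (nat_lit 11095042060) (nat_lit 228) (nat_lit 46398554) (nat_lit 100) (nat_lit 5) (nat_lit 102) (nat_lit 5) (nat_lit 103) (nat_lit 4) (nat_lit 446) (nat_lit 392) (nat_lit 362))) (XT.nd (nat_lit 78) (nat_lit 228) (nat_lit 0) (XT.lf (nat_lit 0)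 (nat_lit 5539934437) (nat_lit 152) (nat_lit 2477104563) (nat_lit 228) (nat_lit 6598790236) (nat_lit 97) (nat_lit 5) (nat_lit 99) (nat_lit 5) (nat_lit 100) (nat_lit 5) (nat_lit 447) (nat_lit 392) (nat_lit 361)) (XT.lf (nat_lit 0) (nat_lit 1509374546) (nat_lit 228) (nat_lit 7002999686) (nat_lit 76) (nat_lit 6540917830) (nat_lit 94) (nat_lit 5) (nat_lit 97) (nat_lit 5) (nat_lit 95) (nat_lit 5) (nat_lit 448) (nat_lit 392) (nat_lit 360))))))))
noncomputable def xc34 : XT := (XT.nd (nat_lit 1950) (nat_lit 2052) (nat_lit 0) (XT.nd (nat_lit 936) (nat_lit 1596) (nat_lit 0) (XT.nd (nat_lit 468) (nat_lit 912) (nat_lit 0) (XT.nd (nat_lit 234) (nat_lit 684) (nat_lit 0) (XT.nd (nat_lit 78) (nat_lit 380) (nat_lit 0) (XT.lf (nat_lit 0) (nat_lit 9971528065) (nat_lit 228) (nat_lit 4944773296) (nat_lit 76) (nat_lit 591820707) (nat_lit 92) (nat_lit 5) (nat_lit 95) (nat_lit 5) (nat_lit 93) (nat_lit 4) (nat_lit 449)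 (nat_lit 392) (nat_lit 359)) (XT.nd (nat_lit 78) (nat_lit 152) (nat_lit 0) (XT.lf (nat_lit 0) (nat_lit 2961388199) (nat_lit 228) (nat_lit 2923560671) (nat_lit 76) (nat_lit 10095532465) (nat_lit 89) (nat_lit 5) (nat_lit 92) (nat_lit 5) (nat_lit 90) (nat_lit 5) (nat_lit 450) (nat_lit 392) (nat_lit 358)) (XT.lf (nat_lit 0) (nat_lit 11871435925) (nat_lit 228) (nat_lit 922267156) (nat_lit 76) (nat_lit 3678065808) (nat_lit 87) (nat_lit 5) (nat_lit 90) (nat_lit 5) (nat_lit 88) (nat_lit 4) (nat_lit 451) (nat_lit 392) (nat_lit 357)))) (XT.nd (nat_lit 78) (nat_lit 304) (nat_lit 0) (XT.lf (nat_lit 0) (nat_lit 1064461641) (nat_lit 152) (nat_lit 3233639363) (nat_lit 228) (nat_lit 12684058071) (nat_lit 82) (nat_lit 5) (nat_lit 84) (nat_lit 5) (nat_lit 85) (nat_lit 5) (nat_lit 452) (nat_lit 392) (nat_lit 356)) (XT.nd (nat_lit 78) (nat_lit 228) (nat_lit 0) (XT.lf (nat_lit 0) (nat_lit 3014581051) (nat_lit 76) (nat_lit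 10683544107) (nat_lit 152) (nat_lit 3814027275) (nat_lit 81) (nat_lit 5) (nat_lit 82) (nat_lit 5) (nat_lit 83) (nat_lit 4) (nat_lit 453) (nat_lit 392) (nat_lit 355)) (XT.lf (nat_lit 0) (nat_lit 4928547565) (nat_lit 152) (nat_lit 577759705) (nat_lit 228) (nat_lit 12557332808) (nat_lit 78) (nat_lit 5) (nat_lit 80) (nat_lit 5) (nat_lit 81) (nat_lit 5) (nat_lit 454) (nat_lit 392) (nat_lit 354))))) (XT.nd (nat_lit 234) (nat_lit 532) (nat_lit 0) (XT.nd (nat_lit 78) (nat_lit 304) (nat_lit 0) (XT.lf (nat_lit 0) (nat_lit 6747249020) (nat_lit 76) (nat_lit 8650852528) (nat_lit 152) (nat_lit 3237941872) (nat_lit 77) (nat_lit 5) (nat_lit 78) (nat_lit 5) (nat_lit 79) (nat_lit 4) (nat_lit 455) (nat_lit 392) (nat_lit 353)) (XT.nd (nat_lit 78) (nat_lit 76) (nat_lit 0) (XT.lf (nat_lit 0) (nat_lit 6537535313) (nat_lit 228) (nat_lit 10724430482) (nat_lit 76) (nat_lit 1969680179) (nat_lit 74) (nat_lit 5) (nat_lit 77)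 (nat_lit 5) (nat_lit 75) (nat_lit 4) (nat_lit 456) (nat_lit 392) (nat_lit 352)) (XT.lf (nat_lit 0) (nat_lit 10164964233) (nat_lit 76) (nat_lit 6756105736) (nat_lit 152) (nat_lit 2929412863) (nat_lit 73) (nat_lit 5) (nat_lit 74) (nat_lit 5) (nat_lit 75) (nat_lit 4) (nat_lit 457) (nat_lit 392) (nat_lit 351)))) (XT.nd (nat_lit 78) (nat_lit 304) (nat_lit 0) (XT.lf (nat_lit 0) (nat_lit 7327651582) (nat_lit 228) (nat_lit 8780187521) (nat_lit 76) (nat_lit 4385902448) (nat_lit 70) (nat_lit 5) (nat_lit 73) (nat_lit 5) (nat_lit 71) (nat_lit 4) (nat_lit 458) (nat_lit 392) (nat_lit 350)) (XT.nd (nat_lit 78) (nat_lit 228) (nat_lit 0) (XT.lf (nat_lit 0) (nat_lit 13154624152) (nat_lit 76) (nat_lit 5060419671) (nat_lit 152) (nat_lit 2947910491) (nat_lit 69) (nat_lit 5) (nat_lit 70) (nat_lit 5) (nat_lit 71) (nat_lit 4) (nat_lit 459) (nat_lit 392) (nat_lit 349)) (XT.lf (nat_lit 0) (nat_lit 7809425646) (nat_lit 228)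 (nat_lit 7428978862) (nat_lit 76) (nat_lit 6619579475) (nat_lit 66) (nat_lit 5) (nat_lit 69) (nat_lit 5) (nat_lit 67) (nat_lit 4) (nat_lit 460) (nat_lit 392) (nat_lit 348)))))) (XT.nd (nat_lit 468) (nat_lit 760) (nat_lit 0) (XT.nd (nat_lit 234) (nat_lit 456) (nat_lit 0) (XT.nd (nat_lit 78) (nat_lit 304) (nat_lit 0) (XT.lf (nat_lit 0) (nat_lit 15578394427) (nat_lit 76) (nat_lit 3636981136) (nat_lit 152) (nat_lit 3366365178) (nat_lit 65) (nat_lit 5) (nat_lit 66) (nat_lit 5) (nat_lit 67) (nat_lit 4) (nat_lit 461) (nat_lit 392) (nat_lit 347)) (XT.nd (nat_lit 78) (nat_lit 76) (nat_lit 0) (XT.lf (nat_lit 0) (nat_lit 7907080567) (nat_lit 228) (nat_lit 6830701256) (nat_lit 76) (nat_lit 8595332508) (nat_lit 62) (nat_lit 5) (nat_lit 65) (nat_lit 5) (nat_lit 63) (nat_lit 4) (nat_lit 462) (nat_lit 392) (nat_lit 346)) (XT.lf (nat_lit 0) (nat_lit 17268952300) (nat_lit 76) (nat_lit 2573519228) (nat_lit 152) (nat_lit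 4273550662) (nat_lit 61) (nat_lit 5) (nat_lit 62) (nat_lit 5) (nat_lit 63) (nat_lit 4) (nat_lit 463) (nat_lit 392) (nat_lit 345)))) (XT.nd (nat_lit 78) (nat_lit 228) (nat_lit 0) (XT.lf (nat_lit 0) (nat_lit 7528213023) (nat_lit 228) (nat_lit 7178215997) (nat_lit 76) (nat_lit 10222400926) (nat_lit 58) (nat_lit 5) (nat_lit 61) (nat_lit 5) (nat_lit 59) (nat_lit 4) (nat_lit 464) (nat_lit 392) (nat_lit 344)) (XT.nd (nat_lit 78) (nat_lit 152) (nat_lit 0) (XT.lf (nat_lit 0) (nat_lit 18023895547) (nat_lit 76) (nat_lit 1975193230) (nat_lit 152) (nat_lit 5776899775) (nat_lit 57) (nat_lit 5) (nat_lit 58) (nat_lit 5) (nat_lit 59) (nat_lit 4) (nat_lit 465) (nat_lit 392) (nat_lit 343)) (XT.lf (nat_lit 0) (nat_lit 6560809634) (nat_lit 152) (nat_lit 8703501556) (nat_lit 76) (nat_lit 11391594904) (nat_lit 55) (nat_lit 5) (nat_lit 57) (nat_lit 5) (nat_lit 56) (nat_lit 4) (nat_lit 466) (nat_lit 392) (nat_lit 342)))))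 (XT.nd (nat_lit 234) (nat_lit 456) (nat_lit 0) (XT.nd (nat_lit 78) (nat_lit 228) (nat_lit 0) (XT.lf (nat_lit 0) (nat_lit 17599171071) (nat_lit 76) (nat_lit 1967971787) (nat_lit 152) (nat_lit 8005826152) (nat_lit 54) (nat_lit 5) (nat_lit 55) (nat_lit 5) (nat_lit 56) (nat_lit 4) (nat_lit 467) (nat_lit 392) (nat_lit 341)) (XT.nd (nat_lit 78) (nat_lit 76) (nat_lit 0) (XT.lf (nat_lit 0) (nat_lit 4869727914) (nat_lit 152) (nat_lit 11684881545) (nat_lit 76) (nat_lit 11971726448) (nat_lit 52) (nat_lit 5) (nat_lit 54) (nat_lit 5) (nat_lit 53) (nat_lit 4) (nat_lit 468) (nat_lit 392) (nat_lit 340)) (XT.lf (nat_lit 0) (nat_lit 15701352449) (nat_lit 76) (nat_lit 2702590726) (nat_lit 152) (nat_lit 11115637914) (nat_lit 51) (nat_lit 5) (nat_lit 52) (nat_lit 5) (nat_lit 53) (nat_lit 4) (nat_lit 469) (nat_lit 392) (nat_lit 339)))) (XT.nd (nat_lit 156) (nat_lit 228) (nat_lit 0) (XT.nd (nat_lit 78) (nat_lit 76) (nat_lit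 0) (XT.lf (nat_lit 0) (nat_lit 2292550577) (nat_lit 152) (nat_lit 16455514646) (nat_lit 76) (nat_lit 11805426342) (nat_lit 49) (nat_lit 5) (nat_lit 51) (nat_lit 5) (nat_lit 50) (nat_lit 4) (nat_lit 470) (nat_lit 392) (nat_lit 338)) (XT.lf (nat_lit 0) (nat_lit 11978566664) (nat_lit 76) (nat_lit 4359191525) (nat_lit 152) (nat_lit 15292144160) (nat_lit 48) (nat_lit 5) (nat_lit 49) (nat_lit 5) (nat_lit 50) (nat_lit 4) (nat_lit 471) (nat_lit 392) (nat_lit 337))) (XT.nd (nat_lit 78) (nat_lit 152) (nat_lit 0) (XT.lf (nat_lit 0) (nat_lit 9325158399) (nat_lit 76) (nat_lit 22034284318) (nat_lit 76) (nat_lit 1392465798) (nat_lit 47) (nat_lit 4) (nat_lit 48) (nat_lit 5) (nat_lit 48) (nat_lit 4) (nat_lit 472) (nat_lit 392) (nat_lit 336)) (XT.lf (nat_lit 0) (nat_lit 6009836255) (nat_lit 76) (nat_lit 7152759597) (nat_lit 152) (nat_lit 20757072493) (nat_lit 45) (nat_lit 5) (nat_lit 46) (nat_lit 5) (nat_lit 47)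 (nat_lit 4) (nat_lit 473) (nat_lit 392) (nat_lit 335))))))) (XT.nd (nat_lit 1014) (nat_lit 912) (nat_lit 0) (XT.nd (nat_lit 468) (nat_lit 608) (nat_lit 0) (XT.nd (nat_lit 234) (nat_lit 304) (nat_lit 0) (XT.nd (nat_lit 78) (nat_lit 152) (nat_lit 0) (XT.lf (nat_lit 0) (nat_lit 2042615861) (nat_lit 76) (nat_lit 26632654975) (nat_lit 76) (nat_lit 6462373146) (nat_lit 44) (nat_lit 4) (nat_lit 45) (nat_lit 5) (nat_lit 45) (nat_lit 4) (nat_lit 474) (nat_lit 392) (nat_lit 334)) (XT.nd (nat_lit 78) (nat_lit 76) (nat_lit 0) (XT.lf (nat_lit 0) (nat_lit 8658090532) (nat_lit 152) (nat_lit 2654604888) (nat_lit 76) (nat_lit 25093024883) (nat_lit 43) (nat_lit 5) (nat_lit 45) (nat_lit 5) (nat_lit 44) (nat_lit 4) (nat_lit 475) (nat_lit 392) (nat_lit 333)) (XT.lf (nat_lit 0) (nat_lit 24655420127) (nat_lit 152) (nat_lit 8113803583) (nat_lit 0) (nat_lit 4958423415) (nat_lit 42) (nat_lit 5) (nat_lit 44) (nat_lit 4)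 (nat_lit 42) (nat_lit 4) (nat_lit 476) (nat_lit 392) (nat_lit 332)))) (XT.nd (nat_lit 78) (nat_lit 152) (nat_lit 0) (XT.lf (nat_lit 0) (nat_lit 2594159463) (nat_lit 152) (nat_lit 14483907041) (nat_lit 76) (nat_lit 22027846346) (nat_lit 40) (nat_lit 5) (nat_lit 42) (nat_lit 5) (nat_lit 41) (nat_lit 4) (nat_lit 477) (nat_lit 392) (nat_lit 331)) (XT.nd (nat_lit 78) (nat_lit 76) (nat_lit 0) (XT.lf (nat_lit 0) (nat_lit 18693825114) (nat_lit 76) (nat_lit 268935241) (nat_lit 152) (nat_lit 21580772114) (nat_lit 39) (nat_lit 5) (nat_lit 40) (nat_lit 5) (nat_lit 41) (nat_lit 4) (nat_lit 478) (nat_lit 392) (nat_lit 330)) (XT.lf (nat_lit 0) (nat_lit 11695250449) (nat_lit 76) (nat_lit 24808868092) (nat_lit 76) (nat_lit 5538285582) (nat_lit 38) (nat_lit 4) (nat_lit 39) (nat_lit 5) (nat_lit 39) (nat_lit 4) (nat_lit 479) (nat_lit 392) (nat_lit 329))))) (XT.nd (nat_lit 234) (nat_lit 304) (nat_lit 0) (XT.nd (nat_lit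 78) (nat_lit 152) (nat_lit 0) (XT.lf (nat_lit 0) (nat_lit 3574526714) (nat_lit 76) (nat_lit 7701140498) (nat_lit 152) (nat_lit 32331593378) (nat_lit 36) (nat_lit 5) (nat_lit 37) (nat_lit 5) (nat_lit 38) (nat_lit 4) (nat_lit 480) (nat_lit 392) (nat_lit 328)) (XT.nd (nat_lit 78) (nat_lit 152) (nat_lit 0) (XT.lf (nat_lit 0) (nat_lit 29158219573) (nat_lit 152) (nat_lit 5715647984) (nat_lit 0) (nat_lit 10364574791) (nat_lit 36) (nat_lit 5) (nat_lit 38) (nat_lit 4) (nat_lit 36) (nat_lit 4) (nat_lit 481) (nat_lit 392) (nat_lit 327)) (XT.lf (nat_lit 0) (nat_lit 1271088929) (nat_lit 152) (nat_lit 16252517238) (nat_lit 76) (nat_lit 29418096999) (nat_lit 34) (nat_lit 5) (nat_lit 36) (nat_lit 5) (nat_lit 35) (nat_lit 4) (nat_lit 482) (nat_lit 392) (nat_lit 326)))) (XT.nd (nat_lit 156) (nat_lit 152) (nat_lit 0) (XT.nd (nat_lit 78) (nat_lit 76) (nat_lit 0) (XT.lf (nat_lit 0) (nat_lit 19358313479) (nat_lit 152)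 (nat_lit 28323226134) (nat_lit 0) (nat_lit 1037784455) (nat_lit 33) (nat_lit 5) (nat_lit 35) (nat_lit 4) (nat_lit 33) (nat_lit 4) (nat_lit 483) (nat_lit 392) (nat_lit 325)) (XT.lf (nat_lit 0) (nat_lit 8491539052) (nat_lit 76) (nat_lit 30219247491) (nat_lit 76) (nat_lit 11864213495) (nat_lit 32) (nat_lit 4) (nat_lit 33) (nat_lit 5) (nat_lit 33) (nat_lit 4) (nat_lit 484) (nat_lit 392) (nat_lit 324))) (XT.nd (nat_lit 78) (nat_lit 76) (nat_lit 0) (XT.lf (nat_lit 0) (nat_lit 6609619919) (nat_lit 152) (nat_lit 4970367437) (nat_lit 76) (nat_lit 40934721053) (nat_lit 31) (nat_lit 5) (nat_lit 33) (nat_lit 5) (nat_lit 32) (nat_lit 4) (nat_lit 485) (nat_lit 392) (nat_lit 323)) (XT.lf (nat_lit 0) (nat_lit 26113526254) (nat_lit 152) (nat_lit 20192985247) (nat_lit 0) (nat_lit 8230814699) (nat_lit 30) (nat_lit 5) (nat_lit 32) (nat_lit 4) (nat_lit 30) (nat_lit 4) (nat_lit 486) (nat_lit 392) (nat_lit 322))))))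 (XT.nd (nat_lit 468) (nat_lit 456) (nat_lit 0) (XT.nd (nat_lit 234) (nat_lit 228) (nat_lit 0) (XT.nd (nat_lit 78) (nat_lit 152) (nat_lit 0) (XT.lf (nat_lit 0) (nat_lit 19205801349) (nat_lit 76) (nat_lit 27679078304) (nat_lit 76) (nat_lit 9767428212) (nat_lit 29) (nat_lit 4) (nat_lit 30) (nat_lit 5) (nat_lit 30) (nat_lit 4) (nat_lit 487) (nat_lit 392) (nat_lit 321)) (XT.nd (nat_lit 78) (nat_lit 0) (nat_lit 0) (XT.lf (nat_lit 0) (nat_lit 1952908941) (nat_lit 76) (nat_lit 7846164725) (nat_lit 152) (nat_lit 49066063977) (nat_lit 27) (nat_lit 5) (nat_lit 28) (nat_lit 5) (nat_lit 29) (nat_lit 4) (nat_lit 488) (nat_lit 392) (nat_lit 320)) (XT.lf (nat_lit 0) (nat_lit 30599284783) (nat_lit 152) (nat_lit 17415609837) (nat_lit 0) (nat_lit 13157091862) (nat_lit 27) (nat_lit 5) (nat_lit 29) (nat_lit 4) (nat_lit 27) (nat_lit 4) (nat_lit 489) (nat_lit 392) (nat_lit 319)))) (XT.nd (nat_lit 78) (nat_lit 152) (nat_lit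 0) (XT.lf (nat_lit 0) (nat_lit 24340936161) (nat_lit 76) (nat_lit 28355991221) (nat_lit 76) (nat_lit 10889528206) (nat_lit 26) (nat_lit 4) (nat_lit 27) (nat_lit 5) (nat_lit 27) (nat_lit 4) (nat_lit 490) (nat_lit 392) (nat_lit 318)) (XT.nd (nat_lit 78) (nat_lit 0) (nat_lit 0) (XT.lf (nat_lit 0) (nat_lit 2272957601) (nat_lit 76) (nat_lit 7462281310) (nat_lit 152) (nat_lit 56379142895) (nat_lit 24) (nat_lit 5) (nat_lit 25) (nat_lit 5) (nat_lit 26) (nat_lit 4) (nat_lit 491) (nat_lit 392) (nat_lit 317)) (XT.lf (nat_lit 0) (nat_lit 31661695017) (nat_lit 152) (nat_lit 22428755036) (nat_lit 0) (nat_lit 14660150281) (nat_lit 24) (nat_lit 5) (nat_lit 26) (nat_lit 4) (nat_lit 24) (nat_lit 4) (nat_lit 492) (nat_lit 392) (nat_lit 316))))) (XT.nd (nat_lit 234) (nat_lit 228) (nat_lit 0) (XT.nd (nat_lit 78) (nat_lit 152) (nat_lit 0) (XT.lf (nat_lit 0) (nat_lit 21293230735) (nat_lit 76) (nat_lit 33620214897) (nat_lit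 76) (nat_lit 16598315385) (nat_lit 23) (nat_lit 4) (nat_lit 24) (nat_lit 5) (nat_lit 24) (nat_lit 4) (nat_lit 493) (nat_lit 392) (nat_lit 315)) (XT.nd (nat_lit 78) (nat_lit 76) (nat_lit 0) (XT.lf (nat_lit 0) (nat_lit 5003990568) (nat_lit 152) (nat_lit 6883184159) (nat_lit 76) (nat_lit 62516893527) (nat_lit 22) (nat_lit 5) (nat_lit 24) (nat_lit 5) (nat_lit 23) (nat_lit 4) (nat_lit 494) (nat_lit 392) (nat_lit 314)) (XT.lf (nat_lit 0) (nat_lit 27784730848) (nat_lit 152) (nat_lit 38416212916) (nat_lit 0) (nat_lit 11221869300) (nat_lit 21) (nat_lit 5) (nat_lit 23) (nat_lit 4) (nat_lit 21) (nat_lit 4) (nat_lit 495) (nat_lit 392) (nat_lit 313)))) (XT.nd (nat_lit 156) (nat_lit 152) (nat_lit 0) (XT.nd (nat_lit 78) (nat_lit 0) (nat_lit 0) (XT.lf (nat_lit 0) (nat_lit 6660553484) (nat_lit 76) (nat_lit 45252804543) (nat_lit 76) (nat_lit 28672871907) (nat_lit 20) (nat_lit 4) (nat_lit 21) (nat_lit 5) (nat_lit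 21) (nat_lit 4) (nat_lit 496) (nat_lit 392) (nat_lit 312)) (XT.lf (nat_lit 0) (nat_lit 54703533377) (nat_lit 76) (nat_lit 22894986150) (nat_lit 76) (nat_lit 6298795335) (nat_lit 20) (nat_lit 4) (nat_lit 21) (nat_lit 5) (nat_lit 21) (nat_lit 4) (nat_lit 497) (nat_lit 392) (nat_lit 311))) (XT.nd (nat_lit 55926) (nat_lit 0) (nat_lit 23256) (XT.lf (nat_lit 0) (nat_lit 16995134016) (nat_lit 152) (nat_lit 69502467554) (nat_lit 0) (nat_lit 867294408) (nat_lit 18) (nat_lit 5) (nat_lit 20) (nat_lit 4) (nat_lit 18) (nat_lit 4) (nat_lit 498) (nat_lit 392) (nat_lit 310)) (XT.lf (nat_lit 0) (nat_lit 422686136) (nat_lit 1140) (nat_lit 2660521495) (nat_lit 0) (nat_lit 422686136) (nat_lit 324) (nat_lit 5) (nat_lit 339) (nat_lit 4) (nat_lit 324) (nat_lit 4) (nat_lit 414) (nat_lit 393) (nat_lit 393))))))))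
noncomputable def xc35 : XT := (XT.nd (nat_lit 1950) (nat_lit 5168) (nat_lit 0) (XT.nd (nat_lit 936) (nat_lit 5320) (nat_lit 0) (XT.nd (nat_lit 468) (nat_lit 4028) (nat_lit 0) (XT.nd (nat_lit 234) (nat_lit 2432) (nat_lit 0) (XT.nd (nat_lit 78) (nat_lit 2128) (nat_lit 0) (XT.lf (nat_lit 0) (nat_lit 3165377054) (nat_lit 1140) (nat_lit 3429936324) (nat_lit 1140) (nat_lit 501953240) (nat_lit 309) (nat_lit 4) (nat_lit 324) (nat_lit 5) (nat_lit 324) (nat_lit 4) (nat_lit 415) (nat_lit 393) (nat_lit 392)) (XT.nd (nat_lit 78) (nat_lit 836) (nat_lit 0) (XT.lf (nat_lit 0) (nat_lit 4757112828) (nat_lit 1216) (nat_lit 402321274) (nat_lit 1292) (nat_lit 2031466484) (nat_lit 292) (nat_lit 5) (nat_lit 308) (nat_lit 5) (nat_lit 309) (nat_lit 4) (nat_lit 416) (nat_lit 393) (nat_lit 391)) (XT.lf (nat_lit 0) (nat_lit 3588350345) (nat_lit 836) (nat_lit 844100614) (nat_lit 76) (nat_lit 2859821298) (nat_lit 281) (nat_lit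 5) (nat_lit 292) (nat_lit 5) (nat_lit 282) (nat_lit 4) (nat_lit 417) (nat_lit 393) (nat_lit 390)))) (XT.nd (nat_lit 78) (nat_lit 1140) (nat_lit 0) (XT.lf (nat_lit 0) (nat_lit 878322184) (nat_lit 608) (nat_lit 984160116) (nat_lit 684) (nat_lit 5539476063) (nat_lit 264) (nat_lit 5) (nat_lit 272) (nat_lit 5) (nat_lit 273) (nat_lit 5) (nat_lit 418) (nat_lit 393) (nat_lit 389)) (XT.nd (nat_lit 78) (nat_lit 608) (nat_lit 0) (XT.lf (nat_lit 0) (nat_lit 2714987468) (nat_lit 532) (nat_lit 4802932942) (nat_lit 608) (nat_lit 1529737) (nat_lit 257) (nat_lit 5) (nat_lit 264) (nat_lit 5) (nat_lit 265) (nat_lit 4) (nat_lit 419) (nat_lit 393) (nat_lit 388)) (XT.lf (nat_lit 0) (nat_lit 4646641879) (nat_lit 532) (nat_lit 924269948) (nat_lit 608) (nat_lit 2074135108) (nat_lit 249) (nat_lit 5) (nat_lit 256) (nat_lit 5) (nat_lit 257) (nat_lit 5) (nat_lit 420) (nat_lit 393) (nat_lit 387))))) (XT.nd (nat_lit 234) (nat_lit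 1900) (nat_lit 0) (XT.nd (nat_lit 78) (nat_lit 1520) (nat_lit 0) (XT.lf (nat_lit 0) (nat_lit 3475108654) (nat_lit 608) (nat_lit 1105846004) (nat_lit 76) (nat_lit 3197915933) (nat_lit 241) (nat_lit 5) (nat_lit 249) (nat_lit 5) (nat_lit 242) (nat_lit 5) (nat_lit 421) (nat_lit 393) (nat_lit 386)) (XT.nd (nat_lit 78) (nat_lit 456) (nat_lit 0) (XT.lf (nat_lit 0) (nat_lit 914132452) (nat_lit 456) (nat_lit 297351875) (nat_lit 532) (nat_lit 6710006402) (nat_lit 227) (nat_lit 5) (nat_lit 233) (nat_lit 5) (nat_lit 234) (nat_lit 5) (nat_lit 422) (nat_lit 393) (nat_lit 385)) (XT.lf (nat_lit 0) (nat_lit 3026153693) (nat_lit 456) (nat_lit 3828917497) (nat_lit 532) (nat_lit 1216675639) (nat_lit 221) (nat_lit 5) (nat_lit 227) (nat_lit 5) (nat_lit 228) (nat_lit 5) (nat_lit 423) (nat_lit 393) (nat_lit 384)))) (XT.nd (nat_lit 78) (nat_lit 1368) (nat_lit 0) (XT.lf (nat_lit 0) (nat_lit 4370496716) (nat_lit 532) (nat_lit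 2992878437) (nat_lit 76) (nat_lit 867617015) (nat_lit 214) (nat_lit 5) (nat_lit 221) (nat_lit 5) (nat_lit 215) (nat_lit 5) (nat_lit 424) (nat_lit 393) (nat_lit 383)) (XT.nd (nat_lit 78) (nat_lit 836) (nat_lit 0) (XT.lf (nat_lit 0) (nat_lit 1722718475) (nat_lit 532) (nat_lit 861831922) (nat_lit 76) (nat_lit 5814468579) (nat_lit 207) (nat_lit 5) (nat_lit 214) (nat_lit 5) (nat_lit 208) (nat_lit 5) (nat_lit 425) (nat_lit 393) (nat_lit 382)) (XT.lf (nat_lit 0) (nat_lit 1380136117) (nat_lit 456) (nat_lit 6076660217) (nat_lit 532) (nat_lit 1118982944) (nat_lit 196) (nat_lit 5) (nat_lit 202) (nat_lit 5) (nat_lit 203) (nat_lit 5) (nat_lit 426) (nat_lit 393) (nat_lit 381)))))) (XT.nd (nat_lit 468) (nat_lit 2660) (nat_lit 0) (XT.nd (nat_lit 234) (nat_lit 1444) (nat_lit 0) (XT.nd (nat_lit 78) (nat_lit 760) (nat_lit 0) (XT.lf (nat_lit 0) (nat_lit 3717558677) (nat_lit 380) (nat_lit 862342937) (nat_lit 456) (nat_lit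 4181467258) (nat_lit 190) (nat_lit 5) (nat_lit 195) (nat_lit 5) (nat_lit 196) (nat_lit 5) (nat_lit 427) (nat_lit 393) (nat_lit 380)) (XT.nd (nat_lit 78) (nat_lit 304) (nat_lit 0) (XT.lf (nat_lit 0) (nat_lit 1526989323) (nat_lit 456) (nat_lit 2821924834) (nat_lit 76) (nat_lit 4607359051) (nat_lit 184) (nat_lit 5) (nat_lit 190) (nat_lit 5) (nat_lit 185) (nat_lit 5) (nat_lit 428) (nat_lit 393) (nat_lit 379)) (XT.lf (nat_lit 0) (nat_lit 7391881315) (nat_lit 380) (nat_lit 521132761) (nat_lit 76) (nat_lit 1247962400) (nat_lit 180) (nat_lit 5) (nat_lit 185) (nat_lit 5) (nat_lit 181) (nat_lit 5) (nat_lit 429) (nat_lit 393) (nat_lit 378)))) (XT.nd (nat_lit 78) (nat_lit 684) (nat_lit 0) (XT.lf (nat_lit 0) (nat_lit 1874992297) (nat_lit 304) (nat_lit 2223198773) (nat_lit 380) (nat_lit 5276372862) (nat_lit 170) (nat_lit 5) (nat_lit 174) (nat_lit 5) (nat_lit 175) (nat_lit 5) (nat_lit 430) (nat_lit 393) (nat_lit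 377)) (XT.nd (nat_lit 78) (nat_lit 304) (nat_lit 0) (XT.lf (nat_lit 0) (nat_lit 603778463) (nat_lit 380) (nat_lit 5231806748) (nat_lit 76) (nat_lit 3762797502) (nat_lit 165) (nat_lit 5) (nat_lit 170) (nat_lit 5) (nat_lit 166) (nat_lit 5) (nat_lit 431) (nat_lit 393) (nat_lit 376)) (XT.lf (nat_lit 0) (nat_lit 6651617313) (nat_lit 380) (nat_lit 2905792714) (nat_lit 76) (nat_lit 274947745) (nat_lit 161) (nat_lit 5) (nat_lit 166) (nat_lit 5) (nat_lit 162) (nat_lit 5) (nat_lit 432) (nat_lit 393) (nat_lit 375))))) (XT.nd (nat_lit 234) (nat_lit 1368) (nat_lit 0) (XT.nd (nat_lit 78) (nat_lit 912) (nat_lit 0) (XT.lf (nat_lit 0) (nat_lit 2889833820) (nat_lit 380) (nat_lit 530120291) (nat_lit 76) (nat_lit 6656557586) (nat_lit 156) (nat_lit 5) (nat_lit 161) (nat_lit 5) (nat_lit 157) (nat_lit 5) (nat_lit 433) (nat_lit 393) (nat_lit 374)) (XT.nd (nat_lit 78) (nat_lit 304) (nat_lit 0) (XT.lf (nat_lit 0) (nat_lit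 1959489884) (nat_lit 304) (nat_lit 7258206593) (nat_lit 380) (nat_lit 1113660489) (nat_lit 148) (nat_lit 5) (nat_lit 152) (nat_lit 5) (nat_lit 153) (nat_lit 5) (nat_lit 434) (nat_lit 393) (nat_lit 373)) (XT.lf (nat_lit 0) (nat_lit 4514743032) (nat_lit 228) (nat_lit 661923741) (nat_lit 304) (nat_lit 5420282794) (nat_lit 144) (nat_lit 5) (nat_lit 147) (nat_lit 5) (nat_lit 148) (nat_lit 5) (nat_lit 435) (nat_lit 393) (nat_lit 372)))) (XT.nd (nat_lit 156) (nat_lit 760) (nat_lit 0) (XT.nd (nat_lit 78) (nat_lit 228) (nat_lit 0) (XT.lf (nat_lit 0) (nat_lit 909667444) (nat_lit 380) (nat_lit 3743522814) (nat_lit 76) (nat_lit 6220741358) (nat_lit 139) (nat_lit 5) (nat_lit 144) (nat_lit 5) (nat_lit 140) (nat_lit 5) (nat_lit 436) (nat_lit 393) (nat_lit 371)) (XT.lf (nat_lit 0) (nat_lit 7463763279) (nat_lit 304) (nat_lit 1358873658) (nat_lit 76) (nat_lit 2339935371) (nat_lit 136) (nat_lit 5) (nat_lit 140) (nat_lit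 5) (nat_lit 137) (nat_lit 5) (nat_lit 437) (nat_lit 393) (nat_lit 370))) (XT.nd (nat_lit 78) (nat_lit 228) (nat_lit 0) (XT.lf (nat_lit 0) (nat_lit 1102559991) (nat_lit 228) (nat_lit 1774855826) (nat_lit 304) (nat_lit 8585798936) (nat_lit 129) (nat_lit 5) (nat_lit 132) (nat_lit 5) (nat_lit 133) (nat_lit 5) (nat_lit 438) (nat_lit 393) (nat_lit 369)) (XT.lf (nat_lit 0) (nat_lit 3630940009) (nat_lit 228) (nat_lit 6145532679) (nat_lit 304) (nat_lit 1999212973) (nat_lit 126) (nat_lit 5) (nat_lit 129) (nat_lit 5) (nat_lit 130) (nat_lit 5) (nat_lit 439) (nat_lit 393) (nat_lit 368))))))) (XT.nd (nat_lit 1014) (nat_lit 2052) (nat_lit 0) (XT.nd (nat_lit 468) (nat_lit 1444) (nat_lit 0) (XT.nd (nat_lit 234) (nat_lit 912) (nat_lit 0) (XT.nd (nat_lit 78) (nat_lit 456) (nat_lit 0) (XT.lf (nat_lit 0) (nat_lit 4859308461) (nat_lit 304) (nat_lit 5888168806) (nat_lit 76) (nat_lit 1353738254) (nat_lit 122) (nat_lit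 5) (nat_lit 126) (nat_lit 5) (nat_lit 123) (nat_lit 5) (nat_lit 440) (nat_lit 393) (nat_lit 367)) (XT.nd (nat_lit 78) (nat_lit 228) (nat_lit 0) (XT.lf (nat_lit 0) (nat_lit 8845373212) (nat_lit 228) (nat_lit 3250087612) (nat_lit 304) (nat_lit 344694952) (nat_lit 119) (nat_lit 5) (nat_lit 122) (nat_lit 5) (nat_lit 123) (nat_lit 5) (nat_lit 441) (nat_lit 393) (nat_lit 366)) (XT.lf (nat_lit 0) (nat_lit 6828164396) (nat_lit 228) (nat_lit 1294599070) (nat_lit 76) (nat_lit 4669337718) (nat_lit 116) (nat_lit 5) (nat_lit 119) (nat_lit 5) (nat_lit 117) (nat_lit 5) (nat_lit 442) (nat_lit 393) (nat_lit 365)))) (XT.nd (nat_lit 78) (nat_lit 456) (nat_lit 0) (XT.lf (nat_lit 0) (nat_lit 1095703769) (nat_lit 152) (nat_lit 141619013) (nat_lit 228) (nat_lit 11921796160) (nat_lit 110) (nat_lit 5) (nat_lit 112) (nat_lit 5) (nat_lit 113) (nat_lit 5) (nat_lit 443) (nat_lit 393) (nat_lit 364)) (XT.nd (nat_lit 78) (nat_lit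 228) (nat_lit 0) (XT.lf (nat_lit 0) (nat_lit 3488662233) (nat_lit 228) (nat_lit 5311902024) (nat_lit 304) (nat_lit 4738401547) (nat_lit 107) (nat_lit 5) (nat_lit 110) (nat_lit 5) (nat_lit 111) (nat_lit 5) (nat_lit 444) (nat_lit 393) (nat_lit 363)) (XT.lf (nat_lit 0) (nat_lit 2818573799) (nat_lit 228) (nat_lit 7996899159) (nat_lit 76) (nat_lit 3119456467) (nat_lit 104) (nat_lit 5) (nat_lit 107) (nat_lit 5) (nat_lit 105) (nat_lit 5) (nat_lit 445) (nat_lit 393) (nat_lit 362))))) (XT.nd (nat_lit 234) (nat_lit 912) (nat_lit 0) (XT.nd (nat_lit 78) (nat_lit 380) (nat_lit 0) (XT.lf (nat_lit 0) (nat_lit 8400013761) (nat_lit 152) (nat_lit 2353020786) (nat_lit 228) (nat_lit 3593326863) (nat_lit 102) (nat_lit 5) (nat_lit 104) (nat_lit 5) (nat_lit 105) (nat_lit 5) (nat_lit 446) (nat_lit 393) (nat_lit 361)) (XT.nd (nat_lit 78) (nat_lit 152) (nat_lit 0) (XT.lf (nat_lit 0) (nat_lit 4335063809) (nat_lit 228) (nat_lit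 3905827754) (nat_lit 76) (nat_lit 6532840869) (nat_lit 99) (nat_lit 5) (nat_lit 102) (nat_lit 5) (nat_lit 100) (nat_lit 5) (nat_lit 447) (nat_lit 393) (nat_lit 360)) (XT.lf (nat_lit 0) (nat_lit 12671703575) (nat_lit 228) (nat_lit 1840179512) (nat_lit 76) (nat_lit 706943100) (nat_lit 97) (nat_lit 5) (nat_lit 100) (nat_lit 5) (nat_lit 98) (nat_lit 4) (nat_lit 448) (nat_lit 393) (nat_lit 359)))) (XT.nd (nat_lit 156) (nat_lit 380) (nat_lit 0) (XT.nd (nat_lit 78) (nat_lit 152) (nat_lit 0) (XT.lf (nat_lit 0) (nat_lit 178655954) (nat_lit 152) (nat_lit 5595754172) (nat_lit 228) (nat_lit 9905692975) (nat_lit 92) (nat_lit 5) (nat_lit 94) (nat_lit 5) (nat_lit 95) (nat_lit 5) (nat_lit 449) (nat_lit 393) (nat_lit 358)) (XT.lf (nat_lit 0) (nat_lit 2255158661) (nat_lit 152) (nat_lit 12326621828) (nat_lit 228) (nat_lit 1578238775) (nat_lit 90) (nat_lit 5) (nat_lit 92) (nat_lit 5) (nat_lit 93) (nat_lit 4) (nat_lit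 450) (nat_lit 393) (nat_lit 357))) (XT.nd (nat_lit 78) (nat_lit 152) (nat_lit 0) (XT.lf (nat_lit 0) (nat_lit 4284653793) (nat_lit 152) (nat_lit 2869749839) (nat_lit 228) (nat_lit 9503606715) (nat_lit 87) (nat_lit 5) (nat_lit 89) (nat_lit 5) (nat_lit 90) (nat_lit 5) (nat_lit 451) (nat_lit 393) (nat_lit 356)) (XT.lf (nat_lit 0) (nat_lit 6302969151) (nat_lit 152) (nat_lit 10134199803) (nat_lit 228) (nat_lit 738883853) (nat_lit 85) (nat_lit 5) (nat_lit 87) (nat_lit 5) (nat_lit 88) (nat_lit 4) (nat_lit 452) (nat_lit 393) (nat_lit 355)))))) (XT.nd (nat_lit 468) (nat_lit 1064) (nat_lit 0) (XT.nd (nat_lit 234) (nat_lit 456) (nat_lit 0) (XT.nd (nat_lit 78) (nat_lit 304) (nat_lit 0) (XT.lf (nat_lit 0) (nat_lit 8277190574) (nat_lit 152) (nat_lit 134365080) (nat_lit 228) (nat_lit 9302625726) (nat_lit 82) (nat_lit 5) (nat_lit 84) (nat_lit 5) (nat_lit 85) (nat_lit 5) (nat_lit 453) (nat_lit 393) (nat_lit 354))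 (XT.nd (nat_lit 78) (nat_lit 228) (nat_lit 0) (XT.lf (nat_lit 0) (nat_lit 10202871799) (nat_lit 76) (nat_lit 7990566971) (nat_lit 152) (nat_lit 79886053) (nat_lit 81) (nat_lit 5) (nat_lit 82) (nat_lit 5) (nat_lit 83) (nat_lit 4) (nat_lit 454) (nat_lit 393) (nat_lit 353)) (XT.lf (nat_lit 0) (nat_lit 9537779739) (nat_lit 228) (nat_lit 6794176769) (nat_lit 76) (nat_lit 2522067119) (nat_lit 78) (nat_lit 5) (nat_lit 81) (nat_lit 5) (nat_lit 79) (nat_lit 4) (nat_lit 455) (nat_lit 393) (nat_lit 352)))) (XT.nd (nat_lit 78) (nat_lit 304) (nat_lit 0) (XT.lf (nat_lit 0) (nat_lit 350859980) (nat_lit 152) (nat_lit 5585702470) (nat_lit 76) (nat_lit 13521627736) (nat_lit 76) (nat_lit 5) (nat_lit 78) (nat_lit 5) (nat_lit 77) (nat_lit 5) (nat_lit 456) (nat_lit 393) (nat_lit 351)) (XT.nd (nat_lit 78) (nat_lit 152) (nat_lit 0) (XT.lf (nat_lit 0) (nat_lit 10467171618) (nat_lit 228) (nat_lit 4515042481) (nat_lit 76)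 (nat_lit 5102831224) (nat_lit 74) (nat_lit 5) (nat_lit 77) (nat_lit 5) (nat_lit 75) (nat_lit 4) (nat_lit 457) (nat_lit 393) (nat_lit 350)) (XT.lf (nat_lit 0) (nat_lit 513011246) (nat_lit 152) (nat_lit 3517655164) (nat_lit 76) (nat_lit 16707268772) (nat_lit 72) (nat_lit 5) (nat_lit 74) (nat_lit 5) (nat_lit 73) (nat_lit 5) (nat_lit 458) (nat_lit 393) (nat_lit 349))))) (XT.nd (nat_lit 234) (nat_lit 608) (nat_lit 0) (XT.nd (nat_lit 78) (nat_lit 304) (nat_lit 0) (XT.lf (nat_lit 0) (nat_lit 11145635813) (nat_lit 228) (nat_lit 2712625928) (nat_lit 76) (nat_lit 7556530634) (nat_lit 70) (nat_lit 5) (nat_lit 73) (nat_lit 5) (nat_lit 71) (nat_lit 4) (nat_lit 459) (nat_lit 393) (nat_lit 348)) (XT.nd (nat_lit 78) (nat_lit 152) (nat_lit 0) (XT.lf (nat_lit 0) (nat_lit 346317318) (nat_lit 152) (nat_lit 1991556758) (nat_lit 76) (nat_lit 19782602334) (nat_lit 68) (nat_lit 5) (nat_lit 70) (nat_lit 5) (nat_lit 69)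 (nat_lit 5) (nat_lit 460) (nat_lit 393) (nat_lit 347)) (XT.lf (nat_lit 0) (nat_lit 11507860991) (nat_lit 228) (nat_lit 1525725180) (nat_lit 76) (nat_lit 9817980416) (nat_lit 66) (nat_lit 5) (nat_lit 69) (nat_lit 5) (nat_lit 67) (nat_lit 4) (nat_lit 461) (nat_lit 393) (nat_lit 346)))) (XT.nd (nat_lit 156) (nat_lit 304) (nat_lit 0) (XT.nd (nat_lit 78) (nat_lit 228) (nat_lit 0) (XT.lf (nat_lit 0) (nat_lit 22452153682) (nat_lit 76) (nat_lit 933019949) (nat_lit 152) (nat_lit 229309293) (nat_lit 65) (nat_lit 5) (nat_lit 66) (nat_lit 5) (nat_lit 67) (nat_lit 4) (nat_lit 462) (nat_lit 393) (nat_lit 345)) (XT.lf (nat_lit 0) (nat_lit 11473780708) (nat_lit 228) (nat_lit 1122281590) (nat_lit 76) (nat_lit 11808498967) (nat_lit 62) (nat_lit 5) (nat_lit 65) (nat_lit 5) (nat_lit 63) (nat_lit 4) (nat_lit 463) (nat_lit 393) (nat_lit 344))) (XT.nd (nat_lit 78) (nat_lit 228) (nat_lit 0) (XT.lf (nat_lit 0) (nat_lit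 23912351000) (nat_lit 152) (nat_lit 1221457122) (nat_lit 0) (nat_lit 95617358) (nat_lit 61) (nat_lit 5) (nat_lit 63) (nat_lit 4) (nat_lit 61) (nat_lit 4) (nat_lit 464) (nat_lit 393) (nat_lit 343)) (XT.lf (nat_lit 0) (nat_lit 10945915603) (nat_lit 228) (nat_lit 1704873763) (nat_lit 76) (nat_lit 13433183086) (nat_lit 58) (nat_lit 5) (nat_lit 61) (nat_lit 5) (nat_lit 59) (nat_lit 4) (nat_lit 465) (nat_lit 393) (nat_lit 342))))))))
noncomputable def xc36 : XT := (XT.nd (nat_lit 1950) (nat_lit 532) (nat_lit 0) (XT.nd (nat_lit 936) (nat_lit 1140) (nat_lit 0) (XT.nd (nat_lit 468) (nat_lit 532) (nat_lit 0) (XT.nd (nat_lit 234) (nat_lit 380) (nat_lit 0) (XT.nd (nat_lit 78) (nat_lit 228) (nat_lit 0) (XT.lf (nat_lit 0) (nat_lit 23956121812) (nat_lit 152) (nat_lit 2392193826) (nat_lit 0) (nat_lit 627702618) (nat_lit 57) (nat_lit 5) (nat_lit 59) (nat_lit 4) (nat_lit 57) (nat_lit 4) (nat_lit 466) (nat_lit 393)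 (nat_lit 341)) (XT.nd (nat_lit 78) (nat_lit 76) (nat_lit 0) (XT.lf (nat_lit 0) (nat_lit 9806235764) (nat_lit 152) (nat_lit 3517173750) (nat_lit 76) (nat_lit 14577717273) (nat_lit 55) (nat_lit 5) (nat_lit 57) (nat_lit 5) (nat_lit 56) (nat_lit 4) (nat_lit 467) (nat_lit 393) (nat_lit 340)) (XT.lf (nat_lit 0) (nat_lit 23381863186) (nat_lit 152) (nat_lit 4932557468) (nat_lit 0) (nat_lit 552055394) (nat_lit 54) (nat_lit 5) (nat_lit 56) (nat_lit 4) (nat_lit 54) (nat_lit 4) (nat_lit 468) (nat_lit 393) (nat_lit 339)))) (XT.nd (nat_lit 78) (nat_lit 228) (nat_lit 0) (XT.lf (nat_lit 0) (nat_lit 7912461483) (nat_lit 152) (nat_lit 6851532871) (nat_lit 76) (nat_lit 15104634224) (nat_lit 52) (nat_lit 5) (nat_lit 54) (nat_lit 5) (nat_lit 53) (nat_lit 4) (nat_lit 469) (nat_lit 393) (nat_lit 338)) (XT.nd (nat_lit 78) (nat_lit 152) (nat_lit 0) (XT.lf (nat_lit 0) (nat_lit 21748718615) (nat_lit 76) (nat_lit 291955840)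 (nat_lit 152) (nat_lit 8873345179) (nat_lit 51) (nat_lit 5) (nat_lit 52) (nat_lit 5) (nat_lit 53) (nat_lit 4) (nat_lit 470) (nat_lit 393) (nat_lit 337)) (XT.lf (nat_lit 0) (nat_lit 5093706543) (nat_lit 152) (nat_lit 12057893058) (nat_lit 76) (nat_lit 14848929556) (nat_lit 49) (nat_lit 5) (nat_lit 51) (nat_lit 5) (nat_lit 50) (nat_lit 4) (nat_lit 471) (nat_lit 393) (nat_lit 336))))) (XT.nd (nat_lit 234) (nat_lit 228) (nat_lit 0) (XT.nd (nat_lit 78) (nat_lit 228) (nat_lit 0) (XT.lf (nat_lit 0) (nat_lit 17648250676) (nat_lit 76) (nat_lit 2113737140) (nat_lit 152) (nat_lit 13371150225) (nat_lit 48) (nat_lit 5) (nat_lit 49) (nat_lit 5) (nat_lit 50) (nat_lit 4) (nat_lit 472) (nat_lit 393) (nat_lit 335)) (XT.nd (nat_lit 78) (nat_lit 76) (nat_lit 0) (XT.lf (nat_lit 0) (nat_lit 1145351612) (nat_lit 152) (nat_lit 19554252982) (nat_lit 76) (nat_lit 13612917457) (nat_lit 46) (nat_lit 5) (nat_lit 48) (nat_lit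 5) (nat_lit 47) (nat_lit 4) (nat_lit 473) (nat_lit 393) (nat_lit 334)) (XT.lf (nat_lit 0) (nat_lit 11195930575) (nat_lit 76) (nat_lit 5127863304) (nat_lit 152) (nat_lit 19216731337) (nat_lit 45) (nat_lit 5) (nat_lit 46) (nat_lit 5) (nat_lit 47) (nat_lit 4) (nat_lit 474) (nat_lit 393) (nat_lit 333)))) (XT.nd (nat_lit 78) (nat_lit 152) (nat_lit 0) (XT.lf (nat_lit 0) (nat_lit 6941031519) (nat_lit 76) (nat_lit 25619793980) (nat_lit 76) (nat_lit 4260114093) (nat_lit 44) (nat_lit 4) (nat_lit 45) (nat_lit 5) (nat_lit 45) (nat_lit 4) (nat_lit 475) (nat_lit 393) (nat_lit 332)) (XT.nd (nat_lit 78) (nat_lit 0) (nat_lit 0) (XT.lf (nat_lit 0) (nat_lit 1863889374) (nat_lit 76) (nat_lit 9603211572) (nat_lit 152) (nat_lit 26687591817) (nat_lit 42) (nat_lit 5) (nat_lit 43) (nat_lit 5) (nat_lit 44) (nat_lit 4) (nat_lit 476) (nat_lit 393) (nat_lit 331)) (XT.lf (nat_lit 0) (nat_lit 28198260750) (nat_lit 152) (nat_lit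 3989311945) (nat_lit 0) (nat_lit 7357125765) (nat_lit 42) (nat_lit 5) (nat_lit 44) (nat_lit 4) (nat_lit 42) (nat_lit 4) (nat_lit 477) (nat_lit 393) (nat_lit 330)))))) (XT.nd (nat_lit 468) (nat_lit 532) (nat_lit 0) (XT.nd (nat_lit 234) (nat_lit 304) (nat_lit 0) (XT.nd (nat_lit 78) (nat_lit 152) (nat_lit 0) (XT.lf (nat_lit 0) (nat_lit 4988461004) (nat_lit 152) (nat_lit 10762680724) (nat_lit 76) (nat_lit 25242102206) (nat_lit 40) (nat_lit 5) (nat_lit 42) (nat_lit 5) (nat_lit 41) (nat_lit 4) (nat_lit 478) (nat_lit 393) (nat_lit 329)) (XT.nd (nat_lit 78) (nat_lit 76) (nat_lit 0) (XT.lf (nat_lit 0) (nat_lit 22126823085) (nat_lit 152) (nat_lit 18575886534) (nat_lit 0) (nat_lit 1801496254) (nat_lit 39) (nat_lit 5) (nat_lit 41) (nat_lit 4) (nat_lit 39) (nat_lit 4) (nat_lit 479) (nat_lit 393) (nat_lit 328)) (XT.lf (nat_lit 0) (nat_lit 16518523249) (nat_lit 76) (nat_lit 23964534029) (nat_lit 76) (nat_lit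 3596830800) (nat_lit 38) (nat_lit 4) (nat_lit 39) (nat_lit 5) (nat_lit 39) (nat_lit 4) (nat_lit 480) (nat_lit 393) (nat_lit 327)))) (XT.nd (nat_lit 78) (nat_lit 152) (nat_lit 0) (XT.lf (nat_lit 0) (nat_lit 7912337683) (nat_lit 76) (nat_lit 6038597974) (nat_lit 152) (nat_lit 31773320974) (nat_lit 36) (nat_lit 5) (nat_lit 37) (nat_lit 5) (nat_lit 38) (nat_lit 4) (nat_lit 481) (nat_lit 393) (nat_lit 326)) (XT.nd (nat_lit 78) (nat_lit 152) (nat_lit 0) (XT.lf (nat_lit 0) (nat_lit 32645814232) (nat_lit 152) (nat_lit 1998793390) (nat_lit 0) (nat_lit 12794844965) (nat_lit 36) (nat_lit 5) (nat_lit 38) (nat_lit 4) (nat_lit 36) (nat_lit 4) (nat_lit 482) (nat_lit 393) (nat_lit 325)) (XT.lf (nat_lit 0) (nat_lit 3324577260) (nat_lit 152) (nat_lit 13137617549) (nat_lit 76) (nat_lit 32766875741) (nat_lit 34) (nat_lit 5) (nat_lit 36) (nat_lit 5) (nat_lit 35) (nat_lit 4) (nat_lit 483) (nat_lit 393) (nat_lit 324)))))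 (XT.nd (nat_lit 234) (nat_lit 304) (nat_lit 0) (XT.nd (nat_lit 78) (nat_lit 152) (nat_lit 0) (XT.lf (nat_lit 0) (nat_lit 22276177336) (nat_lit 152) (nat_lit 25884570885) (nat_lit 0) (nat_lit 2936024788) (nat_lit 33) (nat_lit 5) (nat_lit 35) (nat_lit 4) (nat_lit 33) (nat_lit 4) (nat_lit 484) (nat_lit 393) (nat_lit 323)) (XT.nd (nat_lit 78) (nat_lit 76) (nat_lit 0) (XT.lf (nat_lit 0) (nat_lit 12660435018) (nat_lit 76) (nat_lit 29878977045) (nat_lit 76) (nat_lit 10507527471) (nat_lit 32) (nat_lit 4) (nat_lit 33) (nat_lit 5) (nat_lit 33) (nat_lit 4) (nat_lit 485) (nat_lit 393) (nat_lit 322)) (XT.lf (nat_lit 0) (nat_lit 8760907764) (nat_lit 152) (nat_lit 1616613505) (nat_lit 76) (nat_lit 44708281786) (nat_lit 31) (nat_lit 5) (nat_lit 33) (nat_lit 5) (nat_lit 32) (nat_lit 4) (nat_lit 486) (nat_lit 393) (nat_lit 321)))) (XT.nd (nat_lit 156) (nat_lit 152) (nat_lit 0) (XT.nd (nat_lit 78) (nat_lit 76) (nat_lit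 0) (XT.lf (nat_lit 0) (nat_lit 29203581088) (nat_lit 152) (nat_lit 17667214842) (nat_lit 0) (nat_lit 10339849443) (nat_lit 30) (nat_lit 5) (nat_lit 32) (nat_lit 4) (nat_lit 30) (nat_lit 4) (nat_lit 487) (nat_lit 393) (nat_lit 320)) (XT.lf (nat_lit 0) (nat_lit 23600168990) (nat_lit 76) (nat_lit 27361373216) (nat_lit 76) (nat_lit 8471393466) (nat_lit 29) (nat_lit 4) (nat_lit 30) (nat_lit 5) (nat_lit 30) (nat_lit 4) (nat_lit 488) (nat_lit 393) (nat_lit 319))) (XT.nd (nat_lit 78) (nat_lit 0) (nat_lit 0) (XT.lf (nat_lit 0) (nat_lit 5420031068) (nat_lit 76) (nat_lit 6567658101) (nat_lit 152) (nat_lit 49769731606) (nat_lit 27) (nat_lit 5) (nat_lit 28) (nat_lit 5) (nat_lit 29) (nat_lit 4) (nat_lit 489) (nat_lit 393) (nat_lit 318)) (XT.lf (nat_lit 0) (nat_lit 33762318274) (nat_lit 152) (nat_lit 15044114579) (nat_lit 0) (nat_lit 15375147641) (nat_lit 27) (nat_lit 5) (nat_lit 29) (nat_lit 4) (nat_lit 27)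 (nat_lit 4) (nat_lit 490) (nat_lit 393) (nat_lit 317))))))) (XT.nd (nat_lit 56706) (nat_lit 0) (nat_lit 12160) (XT.nd (nat_lit 468) (nat_lit 76) (nat_lit 0) (XT.nd (nat_lit 234) (nat_lit 228) (nat_lit 0) (XT.nd (nat_lit 78) (nat_lit 152) (nat_lit 0) (XT.lf (nat_lit 0) (nat_lit 28707319535) (nat_lit 76) (nat_lit 28210031614) (nat_lit 76) (nat_lit 9800847291) (nat_lit 26) (nat_lit 4) (nat_lit 27) (nat_lit 5) (nat_lit 27) (nat_lit 4) (nat_lit 491) (nat_lit 393) (nat_lit 316)) (XT.nd (nat_lit 78) (nat_lit 0) (nat_lit 0) (XT.lf (nat_lit 0) (nat_lit 5476634103) (nat_lit 76) (nat_lit 6300106706) (nat_lit 152) (nat_lit 57596706232) (nat_lit 24) (nat_lit 5) (nat_lit 25) (nat_lit 5) (nat_lit 26) (nat_lit 4) (nat_lit 492) (nat_lit 393) (nat_lit 315)) (XT.lf (nat_lit 0) (nat_lit 34739539851) (nat_lit 152) (nat_lit 20576931510) (nat_lit 0) (nat_lit 16826805087) (nat_lit 24) (nat_lit 5) (nat_lit 26) (nat_lit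 4) (nat_lit 24) (nat_lit 4) (nat_lit 493) (nat_lit 393) (nat_lit 314)))) (XT.nd (nat_lit 78) (nat_lit 152) (nat_lit 0) (XT.lf (nat_lit 0) (nat_lit 25245925613) (nat_lit 76) (nat_lit 33864534877) (nat_lit 76) (nat_lit 15933337731) (nat_lit 23) (nat_lit 4) (nat_lit 24) (nat_lit 5) (nat_lit 24) (nat_lit 4) (nat_lit 494) (nat_lit 393) (nat_lit 313)) (XT.nd (nat_lit 78) (nat_lit 76) (nat_lit 0) (XT.lf (nat_lit 0) (nat_lit 6650116448) (nat_lit 152) (nat_lit 4449043977) (nat_lit 76) (nat_lit 66983223677) (nat_lit 22) (nat_lit 5) (nat_lit 24) (nat_lit 5) (nat_lit 23) (nat_lit 4) (nat_lit 495) (nat_lit 393) (nat_lit 312)) (XT.lf (nat_lit 0) (nat_lit 30542274515) (nat_lit 152) (nat_lit 37610604698) (nat_lit 0) (nat_lit 13100015980) (nat_lit 21) (nat_lit 5) (nat_lit 23) (nat_lit 4) (nat_lit 21) (nat_lit 4) (nat_lit 496) (nat_lit 393) (nat_lit 311))))) (XT.nd (nat_lit 55926) (nat_lit 0) (nat_lit 20596) (XT.nd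 (nat_lit 78) (nat_lit 0) (nat_lit 0) (XT.lf (nat_lit 0) (nat_lit 9641847772) (nat_lit 76) (nat_lit 46195784558) (nat_lit 76) (nat_lit 28738042042) (nat_lit 20) (nat_lit 4) (nat_lit 21) (nat_lit 5) (nat_lit 21) (nat_lit 4) (nat_lit 497) (nat_lit 393) (nat_lit 310)) (XT.nd (nat_lit 55770) (nat_lit 0) (nat_lit 26220) (XT.lf (nat_lit 0) (nat_lit 59960868727) (nat_lit 76) (nat_lit 22782916207) (nat_lit 76) (nat_lit 5310427045) (nat_lit 20) (nat_lit 4) (nat_lit 21) (nat_lit 5) (nat_lit 21) (nat_lit 4) (nat_lit 498) (nat_lit 393) (nat_lit 309)) (XT.lf (nat_lit 0) (nat_lit 3049950316) (nat_lit 836) (nat_lit 190122893) (nat_lit 836) (nat_lit 190122893) (nat_lit 365) (nat_lit 4) (nat_lit 376) (nat_lit 5) (nat_lit 376) (nat_lit 4) (nat_lit 412) (nat_lit 394) (nat_lit 394)))) (XT.nd (nat_lit 156) (nat_lit 2508) (nat_lit 0) (XT.nd (nat_lit 78) (nat_lit 1140) (nat_lit 0) (XT.lf (nat_lit 0) (nat_lit 319087947)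 (nat_lit 988) (nat_lit 4890741235) (nat_lit 988) (nat_lit 1724127530) (nat_lit 339) (nat_lit 4) (nat_lit 352) (nat_lit 5) (nat_lit 352) (nat_lit 4) (nat_lit 413) (nat_lit 394) (nat_lit 393)) (XT.lf (nat_lit 0) (nat_lit 1532377469) (nat_lit 1064) (nat_lit 2268023392) (nat_lit 1140) (nat_lit 3214993875) (nat_lit 324) (nat_lit 5) (nat_lit 338) (nat_lit 5) (nat_lit 339) (nat_lit 4) (nat_lit 414) (nat_lit 394) (nat_lit 392))) (XT.nd (nat_lit 78) (nat_lit 1292) (nat_lit 0) (XT.lf (nat_lit 0) (nat_lit 2241153653) (nat_lit 1216) (nat_lit 4241378722) (nat_lit 76) (nat_lit 622475154) (nat_lit 308) (nat_lit 5) (nat_lit 324) (nat_lit 5) (nat_lit 309) (nat_lit 4) (nat_lit 415) (nat_lit 394) (nat_lit 391)) (XT.lf (nat_lit 0) (nat_lit 544382213) (nat_lit 1292) (nat_lit 2906289169) (nat_lit 76) (nat_lit 3751737485) (nat_lit 291) (nat_lit 5) (nat_lit 308) (nat_lit 5) (nat_lit 292) (nat_lit 5) (nat_lit 416) (nat_lit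 394) (nat_lit 390)))))) (XT.nd (nat_lit 468) (nat_lit 4028) (nat_lit 0) (XT.nd (nat_lit 234) (nat_lit 1748) (nat_lit 0) (XT.nd (nat_lit 78) (nat_lit 1900) (nat_lit 0) (XT.lf (nat_lit 0) (nat_lit 5841572996) (nat_lit 760) (nat_lit 121974191) (nat_lit 836) (nat_lit 1344499490) (nat_lit 281) (nat_lit 5) (nat_lit 291) (nat_lit 5) (nat_lit 292) (nat_lit 5) (nat_lit 417) (nat_lit 394) (nat_lit 389)) (XT.nd (nat_lit 78) (nat_lit 608) (nat_lit 0) (XT.lf (nat_lit 0) (nat_lit 54044547) (nat_lit 608) (nat_lit 3981938506) (nat_lit 684) (nat_lit 3385285769) (nat_lit 264) (nat_lit 5) (nat_lit 272) (nat_lit 5) (nat_lit 273) (nat_lit 5) (nat_lit 418) (nat_lit 394) (nat_lit 388)) (XT.lf (nat_lit 0) (nat_lit 1723699887) (nat_lit 532) (nat_lit 229364563) (nat_lit 608) (nat_lit 5589821585) (nat_lit 256) (nat_lit 5) (nat_lit 263) (nat_lit 5) (nat_lit 264) (nat_lit 5) (nat_lit 419) (nat_lit 394) (nat_lit 387)))) (XT.nd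 (nat_lit 78) (nat_lit 1216) (nat_lit 0) (XT.lf (nat_lit 0) (nat_lit 3477204150) (nat_lit 532) (nat_lit 3918039301) (nat_lit 608) (nat_lit 277163544) (nat_lit 249) (nat_lit 5) (nat_lit 256) (nat_lit 5) (nat_lit 257) (nat_lit 5) (nat_lit 420) (nat_lit 394) (nat_lit 386)) (XT.nd (nat_lit 78) (nat_lit 608) (nat_lit 0) (XT.lf (nat_lit 0) (nat_lit 5081286201) (nat_lit 608) (nat_lit 2480978386) (nat_lit 76) (nat_lit 248136015) (nat_lit 241) (nat_lit 5) (nat_lit 249) (nat_lit 5) (nat_lit 242) (nat_lit 5) (nat_lit 421) (nat_lit 394) (nat_lit 385)) (XT.lf (nat_lit 0) (nat_lit 2620976404) (nat_lit 608) (nat_lit 689844373) (nat_lit 76) (nat_lit 4645793795) (nat_lit 233) (nat_lit 5) (nat_lit 241) (nat_lit 5) (nat_lit 234) (nat_lit 5) (nat_lit 422) (nat_lit 394) (nat_lit 384))))) (XT.nd (nat_lit 234) (nat_lit 2052) (nat_lit 0) (XT.nd (nat_lit 78) (nat_lit 1064) (nat_lit 0) (XT.lf (nat_lit 0) (nat_lit 1231334265)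 (nat_lit 456) (nat_lit 6871972261) (nat_lit 532) (nat_lit 8416203) (nat_lit 221) (nat_lit 5) (nat_lit 227) (nat_lit 5) (nat_lit 228) (nat_lit 5) (nat_lit 423) (nat_lit 394) (nat_lit 383)) (XT.nd (nat_lit 78) (nat_lit 532) (nat_lit 0) (XT.lf (nat_lit 0) (nat_lit 3227035584) (nat_lit 456) (nat_lit 2194853145) (nat_lit 532) (nat_lit 2852742876) (nat_lit 214) (nat_lit 5) (nat_lit 220) (nat_lit 5) (nat_lit 221) (nat_lit 5) (nat_lit 424) (nat_lit 394) (nat_lit 382)) (XT.lf (nat_lit 0) (nat_lit 2565150270) (nat_lit 532) (nat_lit 3127767791) (nat_lit 76) (nat_lit 2753831688) (nat_lit 207) (nat_lit 5) (nat_lit 214) (nat_lit 5) (nat_lit 208) (nat_lit 5) (nat_lit 425) (nat_lit 394) (nat_lit 381)))) (XT.nd (nat_lit 156) (nat_lit 760) (nat_lit 0) (XT.nd (nat_lit 78) (nat_lit 912) (nat_lit 0) (XT.lf (nat_lit 0) (nat_lit 7509706493) (nat_lit 380) (nat_lit 629131799) (nat_lit 456) (nat_lit 489495142) (nat_lit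 202) (nat_lit 5) (nat_lit 207) (nat_lit 5) (nat_lit 208) (nat_lit 5) (nat_lit 426) (nat_lit 394) (nat_lit 380)) (XT.lf (nat_lit 0) (nat_lit 955344347) (nat_lit 380) (nat_lit 4099784144) (nat_lit 456) (nat_lit 3762883135) (nat_lit 190) (nat_lit 5) (nat_lit 195) (nat_lit 5) (nat_lit 196) (nat_lit 5) (nat_lit 427) (nat_lit 394) (nat_lit 379))) (XT.nd (nat_lit 78) (nat_lit 304) (nat_lit 0) (XT.lf (nat_lit 0) (nat_lit 1780883343) (nat_lit 456) (nat_lit 5864751536) (nat_lit 76) (nat_lit 1371866026) (nat_lit 184) (nat_lit 5) (nat_lit 190) (nat_lit 5) (nat_lit 185) (nat_lit 5) (nat_lit 428) (nat_lit 394) (nat_lit 378)) (XT.lf (nat_lit 0) (nat_lit 5415242630) (nat_lit 304) (nat_lit 2094330013) (nat_lit 380) (nat_lit 1716727128) (nat_lit 180) (nat_lit 5) (nat_lit 184) (nat_lit 5) (nat_lit 185) (nat_lit 5) (nat_lit 429) (nat_lit 394) (nat_lit 377))))))))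
noncomputable def xc37 : XT := (XT.nd (nat_lit 1950) (nat_lit 3268) (nat_lit 0) (XT.nd (nat_lit 936) (nat_lit 2812) (nat_lit 0) (XT.nd (nat_lit 468) (nat_lit 2128) (nat_lit 0) (XT.nd (nat_lit 234) (nat_lit 1064) (nat_lit 0) (XT.nd (nat_lit 78) (nat_lit 988) (nat_lit 0) (XT.lf (nat_lit 0) (nat_lit 3986606305) (nat_lit 456) (nat_lit 1697546796) (nat_lit 76) (nat_lit 3760615753) (nat_lit 174) (nat_lit 5) (nat_lit 180) (nat_lit 5) (nat_lit 175) (nat_lit 5) (nat_lit 430) (nat_lit 394) (nat_lit 376)) (XT.nd (nat_lit 78) (nat_lit 304) (nat_lit 0) (XT.lf (nat_lit 0) (nat_lit 247220308) (nat_lit 380) (nat_lit 9155214163) (nat_lit 76) (nat_lit 271563200) (nat_lit 165) (nat_lit 5) (nat_lit 170) (nat_lit 5) (nat_lit 166) (nat_lit 5) (nat_lit 431) (nat_lit 394) (nat_lit 375)) (XT.lf (nat_lit 0) (nat_lit 2794664362) (nat_lit 304) (nat_lit 3370650715) (nat_lit 380) (nat_lit 3746557725) (nat_lit 161) (nat_lit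 5) (nat_lit 165) (nat_lit 5) (nat_lit 166) (nat_lit 5) (nat_lit 432) (nat_lit 394) (nat_lit 374)))) (XT.nd (nat_lit 78) (nat_lit 684) (nat_lit 0) (XT.lf (nat_lit 0) (nat_lit 2174062402) (nat_lit 380) (nat_lit 5001134053) (nat_lit 76) (nat_lit 2985830466) (nat_lit 156) (nat_lit 5) (nat_lit 161) (nat_lit 5) (nat_lit 157) (nat_lit 5) (nat_lit 433) (nat_lit 394) (nat_lit 373)) (XT.nd (nat_lit 78) (nat_lit 380) (nat_lit 0) (XT.lf (nat_lit 0) (nat_lit 7594565020) (nat_lit 304) (nat_lit 730742698) (nat_lit 380) (nat_lit 2095869816) (nat_lit 152) (nat_lit 5) (nat_lit 156) (nat_lit 5) (nat_lit 157) (nat_lit 5) (nat_lit 434) (nat_lit 394) (nat_lit 372)) (XT.lf (nat_lit 0) (nat_lit 4052752041) (nat_lit 380) (nat_lit 619048812) (nat_lit 76) (nat_lit 6020084995) (nat_lit 147) (nat_lit 5) (nat_lit 152) (nat_lit 5) (nat_lit 148) (nat_lit 5) (nat_lit 435) (nat_lit 394) (nat_lit 371))))) (XT.nd (nat_lit 234) (nat_lit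 988) (nat_lit 0) (XT.nd (nat_lit 78) (nat_lit 608) (nat_lit 0) (XT.lf (nat_lit 0) (nat_lit 1703215971) (nat_lit 304) (nat_lit 8797721393) (nat_lit 380) (nat_lit 473517653) (nat_lit 140) (nat_lit 5) (nat_lit 144) (nat_lit 5) (nat_lit 145) (nat_lit 5) (nat_lit 436) (nat_lit 394) (nat_lit 370)) (XT.nd (nat_lit 78) (nat_lit 304) (nat_lit 0) (XT.lf (nat_lit 0) (nat_lit 4066166663) (nat_lit 228) (nat_lit 1866997710) (nat_lit 304) (nat_lit 5334773060) (nat_lit 136) (nat_lit 5) (nat_lit 139) (nat_lit 5) (nat_lit 140) (nat_lit 5) (nat_lit 437) (nat_lit 394) (nat_lit 369)) (XT.lf (nat_lit 0) (nat_lit 1108774043) (nat_lit 304) (nat_lit 5078816781) (nat_lit 76) (nat_lit 5386404007) (nat_lit 132) (nat_lit 5) (nat_lit 136) (nat_lit 5) (nat_lit 133) (nat_lit 5) (nat_lit 438) (nat_lit 394) (nat_lit 368)))) (XT.nd (nat_lit 78) (nat_lit 760) (nat_lit 0) (XT.lf (nat_lit 0) (nat_lit 7804083543) (nat_lit 304) (nat_lit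 2917711209) (nat_lit 76) (nat_lit 1170788302) (nat_lit 129) (nat_lit 5) (nat_lit 133) (nat_lit 5) (nat_lit 130) (nat_lit 5) (nat_lit 439) (nat_lit 394) (nat_lit 367)) (XT.nd (nat_lit 78) (nat_lit 456) (nat_lit 0) (XT.lf (nat_lit 0) (nat_lit 2634350210) (nat_lit 304) (nat_lit 722751988) (nat_lit 76) (nat_lit 8866910983) (nat_lit 125) (nat_lit 5) (nat_lit 129) (nat_lit 5) (nat_lit 126) (nat_lit 5) (nat_lit 440) (nat_lit 394) (nat_lit 366)) (XT.lf (nat_lit 0) (nat_lit 1539959703) (nat_lit 228) (nat_lit 8148389943) (nat_lit 304) (nat_lit 2880072686) (nat_lit 119) (nat_lit 5) (nat_lit 122) (nat_lit 5) (nat_lit 123) (nat_lit 5) (nat_lit 441) (nat_lit 394) (nat_lit 365)))))) (XT.nd (nat_lit 468) (nat_lit 1292) (nat_lit 0) (XT.nd (nat_lit 234) (nat_lit 836) (nat_lit 0) (XT.nd (nat_lit 78) (nat_lit 456) (nat_lit 0) (XT.lf (nat_lit 0) (nat_lit 3865574677) (nat_lit 152) (nat_lit 286204519) (nat_lit 228) (nat_lit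 8775038132) (nat_lit 116) (nat_lit 5) (nat_lit 118) (nat_lit 5) (nat_lit 119) (nat_lit 5) (nat_lit 442) (nat_lit 394) (nat_lit 364)) (XT.nd (nat_lit 78) (nat_lit 228) (nat_lit 0) (XT.lf (nat_lit 0) (nat_lit 6207297632) (nat_lit 228) (nat_lit 5378201036) (nat_lit 304) (nat_lit 1713490538) (nat_lit 113) (nat_lit 5) (nat_lit 116) (nat_lit 5) (nat_lit 117) (nat_lit 5) (nat_lit 443) (nat_lit 394) (nat_lit 363)) (XT.lf (nat_lit 0) (nat_lit 5659914509) (nat_lit 228) (nat_lit 5102356616) (nat_lit 76) (nat_lit 2923760771) (nat_lit 110) (nat_lit 5) (nat_lit 113) (nat_lit 5) (nat_lit 111) (nat_lit 5) (nat_lit 444) (nat_lit 394) (nat_lit 362)))) (XT.nd (nat_lit 78) (nat_lit 608) (nat_lit 0) (XT.lf (nat_lit 0) (nat_lit 11009109125) (nat_lit 228) (nat_lit 2456531040) (nat_lit 304) (nat_lit 623311808) (nat_lit 107) (nat_lit 5) (nat_lit 110) (nat_lit 5) (nat_lit 111) (nat_lit 5) (nat_lit 445) (nat_lit 394) (nat_lit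 361)) (XT.nd (nat_lit 78) (nat_lit 380) (nat_lit 0) (XT.lf (nat_lit 0) (nat_lit 7122432895) (nat_lit 228) (nat_lit 1084074950) (nat_lit 76) (nat_lit 6300085325) (nat_lit 104) (nat_lit 5) (nat_lit 107) (nat_lit 5) (nat_lit 105) (nat_lit 5) (nat_lit 446) (nat_lit 394) (nat_lit 360)) (XT.lf (nat_lit 0) (nat_lit 389188757) (nat_lit 228) (nat_lit 13951659424) (nat_lit 76) (nat_lit 601082497) (nat_lit 99) (nat_lit 5) (nat_lit 102) (nat_lit 5) (nat_lit 100) (nat_lit 5) (nat_lit 447) (nat_lit 394) (nat_lit 359))))) (XT.nd (nat_lit 234) (nat_lit 760) (nat_lit 0) (XT.nd (nat_lit 78) (nat_lit 380) (nat_lit 0) (XT.lf (nat_lit 0) (nat_lit 3025693169) (nat_lit 152) (nat_lit 5530566122) (nat_lit 228) (nat_lit 6835854939) (nat_lit 97) (nat_lit 5) (nat_lit 99) (nat_lit 5) (nat_lit 100) (nat_lit 5) (nat_lit 448) (nat_lit 394) (nat_lit 358)) (XT.nd (nat_lit 78) (nat_lit 152) (nat_lit 0) (XT.lf (nat_lit 0) (nat_lit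 1347007489) (nat_lit 228) (nat_lit 10755254332) (nat_lit 76) (nat_lit 3759039385) (nat_lit 94) (nat_lit 5) (nat_lit 97) (nat_lit 5) (nat_lit 95) (nat_lit 5) (nat_lit 449) (nat_lit 394) (nat_lit 357)) (XT.lf (nat_lit 0) (nat_lit 7151895074) (nat_lit 152) (nat_lit 2776683681) (nat_lit 228) (nat_lit 6419414983) (nat_lit 92) (nat_lit 5) (nat_lit 94) (nat_lit 5) (nat_lit 95) (nat_lit 5) (nat_lit 450) (nat_lit 394) (nat_lit 356)))) (XT.nd (nat_lit 156) (nat_lit 380) (nat_lit 0) (XT.nd (nat_lit 78) (nat_lit 152) (nat_lit 0) (XT.lf (nat_lit 0) (nat_lit 2188290369) (nat_lit 228) (nat_lit 7659618402) (nat_lit 76) (nat_lit 7006056531) (nat_lit 89) (nat_lit 5) (nat_lit 92) (nat_lit 5) (nat_lit 90) (nat_lit 5) (nat_lit 451) (nat_lit 394) (nat_lit 355)) (XT.lf (nat_lit 0) (nat_lit 11208466579) (nat_lit 228) (nat_lit 6155101174) (nat_lit 76) (nat_lit 16319791) (nat_lit 87) (nat_lit 5) (nat_lit 90) (nat_lit 5)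 (nat_lit 88) (nat_lit 4) (nat_lit 452) (nat_lit 394) (nat_lit 354))) (XT.nd (nat_lit 78) (nat_lit 152) (nat_lit 0) (XT.lf (nat_lit 0) (nat_lit 2886671200) (nat_lit 228) (nat_lit 4723758102) (nat_lit 76) (nat_lit 10315106064) (nat_lit 84) (nat_lit 5) (nat_lit 87) (nat_lit 5) (nat_lit 85) (nat_lit 5) (nat_lit 453) (nat_lit 394) (nat_lit 353)) (XT.lf (nat_lit 0) (nat_lit 12395308691) (nat_lit 228) (nat_lit 3335833197) (nat_lit 76) (nat_lit 2761736148) (nat_lit 82) (nat_lit 5) (nat_lit 85) (nat_lit 5) (nat_lit 83) (nat_lit 4) (nat_lit 454) (nat_lit 394) (nat_lit 352))))))) (XT.nd (nat_lit 1014) (nat_lit 1292) (nat_lit 0) (XT.nd (nat_lit 468) (nat_lit 988) (nat_lit 0) (XT.nd (nat_lit 234) (nat_lit 380) (nat_lit 0) (XT.nd (nat_lit 78) (nat_lit 456) (nat_lit 0) (XT.lf (nat_lit 0) (nat_lit 3408236968) (nat_lit 152) (nat_lit 2020317721) (nat_lit 76) (nat_lit 13653637824) (nat_lit 80) (nat_lit 5) (nat_lit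 82) (nat_lit 5) (nat_lit 81) (nat_lit 5) (nat_lit 455) (nat_lit 394) (nat_lit 351)) (XT.nd (nat_lit 78) (nat_lit 304) (nat_lit 0) (XT.lf (nat_lit 0) (nat_lit 13426903261) (nat_lit 228) (nat_lit 792081614) (nat_lit 76) (nat_lit 5475269731) (nat_lit 78) (nat_lit 5) (nat_lit 81) (nat_lit 5) (nat_lit 79) (nat_lit 4) (nat_lit 456) (nat_lit 394) (nat_lit 350)) (XT.lf (nat_lit 0) (nat_lit 368831237) (nat_lit 152) (nat_lit 3344936533) (nat_lit 228) (nat_lit 16616875589) (nat_lit 74) (nat_lit 5) (nat_lit 76) (nat_lit 5) (nat_lit 77) (nat_lit 5) (nat_lit 457) (nat_lit 394) (nat_lit 349)))) (XT.nd (nat_lit 78) (nat_lit 304) (nat_lit 0) (XT.lf (nat_lit 0) (nat_lit 1405090459) (nat_lit 76) (nat_lit 12866755435) (nat_lit 152) (nat_lit 6718921375) (nat_lit 73) (nat_lit 5) (nat_lit 74) (nat_lit 5) (nat_lit 75) (nat_lit 4) (nat_lit 458) (nat_lit 394) (nat_lit 348)) (XT.nd (nat_lit 78) (nat_lit 76) (nat_lit 0) (XT.lf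 (nat_lit 0) (nat_lit 2359369994) (nat_lit 152) (nat_lit 1402763529) (nat_lit 228) (nat_lit 17915910263) (nat_lit 70) (nat_lit 5) (nat_lit 72) (nat_lit 5) (nat_lit 73) (nat_lit 5) (nat_lit 459) (nat_lit 394) (nat_lit 347)) (XT.lf (nat_lit 0) (nat_lit 3114162983) (nat_lit 76) (nat_lit 11749394306) (nat_lit 152) (nat_lit 7527075510) (nat_lit 69) (nat_lit 5) (nat_lit 70) (nat_lit 5) (nat_lit 71) (nat_lit 4) (nat_lit 460) (nat_lit 394) (nat_lit 346))))) (XT.nd (nat_lit 234) (nat_lit 456) (nat_lit 0) (XT.nd (nat_lit 78) (nat_lit 304) (nat_lit 0) (XT.lf (nat_lit 0) (nat_lit 3469774115) (nat_lit 228) (nat_lit 19360160571) (nat_lit 76) (nat_lit 303307341) (nat_lit 66) (nat_lit 5) (nat_lit 69) (nat_lit 5) (nat_lit 67) (nat_lit 4) (nat_lit 461) (nat_lit 394) (nat_lit 345)) (XT.nd (nat_lit 78) (nat_lit 228) (nat_lit 0) (XT.lf (nat_lit 0) (nat_lit 4170714472) (nat_lit 76) (nat_lit 10953051946) (nat_lit 152)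 (nat_lit 8779092675) (nat_lit 65) (nat_lit 5) (nat_lit 66) (nat_lit 5) (nat_lit 67) (nat_lit 4) (nat_lit 462) (nat_lit 394) (nat_lit 344)) (XT.lf (nat_lit 0) (nat_lit 2762752437) (nat_lit 228) (nat_lit 20266589209) (nat_lit 76) (nat_lit 1675904851) (nat_lit 62) (nat_lit 5) (nat_lit 65) (nat_lit 5) (nat_lit 63) (nat_lit 4) (nat_lit 463) (nat_lit 394) (nat_lit 343)))) (XT.nd (nat_lit 156) (nat_lit 152) (nat_lit 0) (XT.nd (nat_lit 78) (nat_lit 228) (nat_lit 0) (XT.lf (nat_lit 0) (nat_lit 4394850984) (nat_lit 76) (nat_lit 10571369164) (nat_lit 152) (nat_lit 10570944626) (nat_lit 61) (nat_lit 5) (nat_lit 62) (nat_lit 5) (nat_lit 63) (nat_lit 4) (nat_lit 464) (nat_lit 394) (nat_lit 342)) (XT.lf (nat_lit 0) (nat_lit 1527827893) (nat_lit 228) (nat_lit 22231384065) (nat_lit 76) (nat_lit 2645513132) (nat_lit 58) (nat_lit 5) (nat_lit 61) (nat_lit 5) (nat_lit 59) (nat_lit 4) (nat_lit 465) (nat_lit 394) (nat_lit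 341))) (XT.nd (nat_lit 78) (nat_lit 76) (nat_lit 0) (XT.lf (nat_lit 0) (nat_lit 3569563007) (nat_lit 76) (nat_lit 10716502632) (nat_lit 152) (nat_lit 13018265175) (nat_lit 57) (nat_lit 5) (nat_lit 58) (nat_lit 5) (nat_lit 59) (nat_lit 4) (nat_lit 466) (nat_lit 394) (nat_lit 340)) (XT.lf (nat_lit 0) (nat_lit 2736671568) (nat_lit 76) (nat_lit 25143802985) (nat_lit 76) (nat_lit 362496183) (nat_lit 56) (nat_lit 4) (nat_lit 57) (nat_lit 5) (nat_lit 57) (nat_lit 4) (nat_lit 467) (nat_lit 394) (nat_lit 339)))))) (XT.nd (nat_lit 468) (nat_lit 684) (nat_lit 0) (XT.nd (nat_lit 234) (nat_lit 304) (nat_lit 0) (XT.nd (nat_lit 78) (nat_lit 152) (nat_lit 0) (XT.lf (nat_lit 0) (nat_lit 1433815291) (nat_lit 76) (nat_lit 11522669753) (nat_lit 152) (nat_lit 16259851847) (nat_lit 54) (nat_lit 5) (nat_lit 55) (nat_lit 5) (nat_lit 56) (nat_lit 4) (nat_lit 468) (nat_lit 394) (nat_lit 338)) (XT.nd (nat_lit 78) (nat_lit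 152) (nat_lit 0) (XT.lf (nat_lit 0) (nat_lit 27141637888) (nat_lit 152) (nat_lit 172321712) (nat_lit 0) (nat_lit 2918073983) (nat_lit 54) (nat_lit 5) (nat_lit 56) (nat_lit 4) (nat_lit 54) (nat_lit 4) (nat_lit 469) (nat_lit 394) (nat_lit 337)) (XT.lf (nat_lit 0) (nat_lit 10847084261) (nat_lit 152) (nat_lit 2280193186) (nat_lit 76) (nat_lit 18158570202) (nat_lit 52) (nat_lit 5) (nat_lit 54) (nat_lit 5) (nat_lit 53) (nat_lit 4) (nat_lit 470) (nat_lit 394) (nat_lit 336)))) (XT.nd (nat_lit 78) (nat_lit 228) (nat_lit 0) (XT.lf (nat_lit 0) (nat_lit 25625934247) (nat_lit 152) (nat_lit 4795796063) (nat_lit 0) (nat_lit 1963453175) (nat_lit 51) (nat_lit 5) (nat_lit 53) (nat_lit 4) (nat_lit 51) (nat_lit 4) (nat_lit 471) (nat_lit 394) (nat_lit 335)) (XT.nd (nat_lit 78) (nat_lit 76) (nat_lit 0) (XT.lf (nat_lit 0) (nat_lit 7785152357) (nat_lit 152) (nat_lit 7925733452) (nat_lit 76) (nat_lit 17816529681) (nat_lit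 49) (nat_lit 5) (nat_lit 51) (nat_lit 5) (nat_lit 50) (nat_lit 4) (nat_lit 472) (nat_lit 394) (nat_lit 334)) (XT.lf (nat_lit 0) (nat_lit 23115166859) (nat_lit 152) (nat_lit 11588967102) (nat_lit 0) (nat_lit 14673060) (nat_lit 48) (nat_lit 5) (nat_lit 50) (nat_lit 4) (nat_lit 48) (nat_lit 4) (nat_lit 473) (nat_lit 394) (nat_lit 333))))) (XT.nd (nat_lit 234) (nat_lit 380) (nat_lit 0) (XT.nd (nat_lit 78) (nat_lit 152) (nat_lit 0) (XT.lf (nat_lit 0) (nat_lit 3541766655) (nat_lit 152) (nat_lit 15969806768) (nat_lit 76) (nat_lit 16446367451) (nat_lit 46) (nat_lit 5) (nat_lit 48) (nat_lit 5) (nat_lit 47) (nat_lit 4) (nat_lit 474) (nat_lit 394) (nat_lit 332)) (XT.nd (nat_lit 78) (nat_lit 76) (nat_lit 0) (XT.lf (nat_lit 0) (nat_lit 16187112599) (nat_lit 76) (nat_lit 3223227651) (nat_lit 152) (nat_lit 17839069237) (nat_lit 45) (nat_lit 5) (nat_lit 46) (nat_lit 5) (nat_lit 47) (nat_lit 4) (nat_lit 475) (nat_lit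 394) (nat_lit 331)) (XT.lf (nat_lit 0) (nat_lit 11638454855) (nat_lit 76) (nat_lit 24774258742) (nat_lit 76) (nat_lit 2182527770) (nat_lit 44) (nat_lit 4) (nat_lit 45) (nat_lit 5) (nat_lit 45) (nat_lit 4) (nat_lit 476) (nat_lit 394) (nat_lit 330)))) (XT.nd (nat_lit 156) (nat_lit 228) (nat_lit 0) (XT.nd (nat_lit 78) (nat_lit 0) (nat_lit 0) (XT.lf (nat_lit 0) (nat_lit 6226197623) (nat_lit 76) (nat_lit 7994242682) (nat_lit 152) (nat_lit 25776560013) (nat_lit 42) (nat_lit 5) (nat_lit 43) (nat_lit 5) (nat_lit 44) (nat_lit 4) (nat_lit 477) (nat_lit 394) (nat_lit 329)) (XT.lf (nat_lit 0) (nat_lit 31703475027) (nat_lit 152) (nat_lit 79769092) (nat_lit 0) (nat_lit 9675803985) (nat_lit 42) (nat_lit 5) (nat_lit 44) (nat_lit 4) (nat_lit 42) (nat_lit 4) (nat_lit 478) (nat_lit 394) (nat_lit 328))) (XT.nd (nat_lit 78) (nat_lit 76) (nat_lit 0) (XT.lf (nat_lit 0) (nat_lit 7291937176) (nat_lit 152) (nat_lit 7268686262)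 (nat_lit 76) (nat_lit 28420636833) (nat_lit 40) (nat_lit 5) (nat_lit 42) (nat_lit 5) (nat_lit 41) (nat_lit 4) (nat_lit 479) (nat_lit 394) (nat_lit 327)) (XT.lf (nat_lit 0) (nat_lit 25245535342) (nat_lit 152) (nat_lit 15546774503) (nat_lit 0) (nat_lit 3776712080) (nat_lit 39) (nat_lit 5) (nat_lit 41) (nat_lit 4) (nat_lit 39) (nat_lit 4) (nat_lit 480) (nat_lit 394) (nat_lit 326))))))))
noncomputable def xc38 : XT := (XT.nd (nat_lit 57486) (nat_lit 0) (nat_lit 7448) (XT.nd (nat_lit 936) (nat_lit 456) (nat_lit 0) (XT.nd (nat_lit 468) (nat_lit 456) (nat_lit 0) (XT.nd (nat_lit 234) (nat_lit 228) (nat_lit 0) (XT.nd (nat_lit 78) (nat_lit 228) (nat_lit 0) (XT.lf (nat_lit 0) (nat_lit 21188903179) (nat_lit 76) (nat_lit 23271806112) (nat_lit 76) (nat_lit 1764546208) (nat_lit 38) (nat_lit 4) (nat_lit 39) (nat_lit 5) (nat_lit 39) (nat_lit 4) (nat_lit 481) (nat_lit 394) (nat_lit 325)) (XT.nd (nat_lit 78) (nat_lit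 76) (nat_lit 0) (XT.lf (nat_lit 0) (nat_lit 12080366933) (nat_lit 76) (nat_lit 4483294722) (nat_lit 152) (nat_lit 31389332080) (nat_lit 36) (nat_lit 5) (nat_lit 37) (nat_lit 5) (nat_lit 38) (nat_lit 4) (nat_lit 482) (nat_lit 394) (nat_lit 324)) (XT.lf (nat_lit 0) (nat_lit 1562262043) (nat_lit 76) (nat_lit 34571843248) (nat_lit 76) (nat_lit 13621620533) (nat_lit 35) (nat_lit 4) (nat_lit 36) (nat_lit 5) (nat_lit 36) (nat_lit 4) (nat_lit 483) (nat_lit 394) (nat_lit 323)))) (XT.nd (nat_lit 78) (nat_lit 152) (nat_lit 0) (XT.lf (nat_lit 0) (nat_lit 5295734816) (nat_lit 152) (nat_lit 10232116975) (nat_lit 76) (nat_lit 36108506505) (nat_lit 34) (nat_lit 5) (nat_lit 36) (nat_lit 5) (nat_lit 35) (nat_lit 4) (nat_lit 484) (nat_lit 394) (nat_lit 322)) (XT.nd (nat_lit 78) (nat_lit 76) (nat_lit 0) (XT.lf (nat_lit 0) (nat_lit 25158646686) (nat_lit 152) (nat_lit 23682367179) (nat_lit 0) (nat_lit 4757520913) (nat_lit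 33) (nat_lit 5) (nat_lit 35) (nat_lit 4) (nat_lit 33) (nat_lit 4) (nat_lit 485) (nat_lit 394) (nat_lit 321)) (XT.lf (nat_lit 0) (nat_lit 16689664491) (nat_lit 76) (nat_lit 29693803158) (nat_lit 76) (nat_lit 9264290058) (nat_lit 32) (nat_lit 4) (nat_lit 33) (nat_lit 5) (nat_lit 33) (nat_lit 4) (nat_lit 486) (nat_lit 394) (nat_lit 320))))) (XT.nd (nat_lit 234) (nat_lit 228) (nat_lit 0) (XT.nd (nat_lit 78) (nat_lit 76) (nat_lit 0) (XT.lf (nat_lit 0) (nat_lit 1601167534) (nat_lit 76) (nat_lit 9264702506) (nat_lit 152) (nat_lit 46924200631) (nat_lit 30) (nat_lit 5) (nat_lit 31) (nat_lit 5) (nat_lit 32) (nat_lit 4) (nat_lit 487) (nat_lit 394) (nat_lit 319)) (XT.nd (nat_lit 78) (nat_lit 76) (nat_lit 0) (XT.lf (nat_lit 0) (nat_lit 32282244061) (nat_lit 152) (nat_lit 15343845726) (nat_lit 0) (nat_lit 12396519022) (nat_lit 30) (nat_lit 5) (nat_lit 32) (nat_lit 4) (nat_lit 30) (nat_lit 4) (nat_lit 488) (nat_lit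 394) (nat_lit 318)) (XT.lf (nat_lit 0) (nat_lit 27894987029) (nat_lit 76) (nat_lit 27185986999) (nat_lit 76) (nat_lit 7276454154) (nat_lit 29) (nat_lit 4) (nat_lit 30) (nat_lit 5) (nat_lit 30) (nat_lit 4) (nat_lit 489) (nat_lit 394) (nat_lit 317)))) (XT.nd (nat_lit 78) (nat_lit 76) (nat_lit 0) (XT.lf (nat_lit 0) (nat_lit 8747247297) (nat_lit 76) (nat_lit 5380562674) (nat_lit 152) (nat_lit 50671247147) (nat_lit 27) (nat_lit 5) (nat_lit 28) (nat_lit 5) (nat_lit 29) (nat_lit 4) (nat_lit 490) (nat_lit 394) (nat_lit 316)) (XT.nd (nat_lit 78) (nat_lit 76) (nat_lit 0) (XT.lf (nat_lit 0) (nat_lit 36931676138) (nat_lit 152) (nat_lit 12855480626) (nat_lit 0) (nat_lit 17559053490) (nat_lit 27) (nat_lit 5) (nat_lit 29) (nat_lit 4) (nat_lit 27) (nat_lit 4) (nat_lit 491) (nat_lit 394) (nat_lit 315)) (XT.lf (nat_lit 0) (nat_lit 32999226614) (nat_lit 76) (nat_lit 28202157532) (nat_lit 76) (nat_lit 8809567819)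 (nat_lit 26) (nat_lit 4) (nat_lit 27) (nat_lit 5) (nat_lit 27) (nat_lit 4) (nat_lit 492) (nat_lit 394) (nat_lit 314)))))) (XT.nd (nat_lit 56004) (nat_lit 0) (nat_lit 20596) (XT.nd (nat_lit 234) (nat_lit 228) (nat_lit 0) (XT.nd (nat_lit 78) (nat_lit 76) (nat_lit 0) (XT.lf (nat_lit 0) (nat_lit 8553212858) (nat_lit 76) (nat_lit 5222559961) (nat_lit 152) (nat_lit 59024030154) (nat_lit 24) (nat_lit 5) (nat_lit 25) (nat_lit 5) (nat_lit 26) (nat_lit 4) (nat_lit 493) (nat_lit 394) (nat_lit 313)) (XT.nd (nat_lit 78) (nat_lit 76) (nat_lit 0) (XT.lf (nat_lit 0) (nat_lit 37832308303) (nat_lit 152) (nat_lit 18908942459) (nat_lit 0) (nat_lit 18968505697) (nat_lit 24) (nat_lit 5) (nat_lit 26) (nat_lit 4) (nat_lit 24) (nat_lit 4) (nat_lit 494) (nat_lit 394) (nat_lit 312)) (XT.lf (nat_lit 0) (nat_lit 29127753268) (nat_lit 76) (nat_lit 34254640745) (nat_lit 76) (nat_lit 15374092215) (nat_lit 23) (nat_lit 4) (nat_lit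 24) (nat_lit 5) (nat_lit 24) (nat_lit 4) (nat_lit 495) (nat_lit 394) (nat_lit 311)))) (XT.nd (nat_lit 78) (nat_lit 152) (nat_lit 0) (XT.lf (nat_lit 0) (nat_lit 8248768620) (nat_lit 152) (nat_lit 2151496729) (nat_lit 76) (nat_lit 71548244701) (nat_lit 22) (nat_lit 5) (nat_lit 24) (nat_lit 5) (nat_lit 23) (nat_lit 4) (nat_lit 496) (nat_lit 394) (nat_lit 310)) (XT.nd (nat_lit 78) (nat_lit 76) (nat_lit 0) (XT.lf (nat_lit 0) (nat_lit 33310483139) (nat_lit 152) (nat_lit 37018192652) (nat_lit 0) (nat_lit 14949622870) (nat_lit 21) (nat_lit 5) (nat_lit 23) (nat_lit 4) (nat_lit 21) (nat_lit 4) (nat_lit 497) (nat_lit 394) (nat_lit 309)) (XT.lf (nat_lit 0) (nat_lit 12525996047) (nat_lit 76) (nat_lit 47308603071) (nat_lit 76) (nat_lit 28933698376) (nat_lit 20) (nat_lit 4) (nat_lit 21) (nat_lit 5) (nat_lit 21) (nat_lit 4) (nat_lit 498) (nat_lit 394) (nat_lit 308))))) (XT.nd (nat_lit 234) (nat_lit 5548) (nat_lit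 0) (XT.nd (nat_lit 78) (nat_lit 1748) (nat_lit 0) (XT.lf (nat_lit 0) (nat_lit 2136601961) (nat_lit 684) (nat_lit 614712110) (nat_lit 684) (nat_lit 614712110) (nat_lit 387) (nat_lit 4) (nat_lit 396) (nat_lit 5) (nat_lit 396) (nat_lit 4) (nat_lit 410) (nat_lit 395) (nat_lit 395)) (XT.nd (nat_lit 78) (nat_lit 912) (nat_lit 0) (XT.lf (nat_lit 0) (nat_lit 4238986934) (nat_lit 836) (nat_lit 1740799179) (nat_lit 0) (nat_lit 814294212) (nat_lit 376) (nat_lit 5) (nat_lit 387) (nat_lit 4) (nat_lit 376) (nat_lit 4) (nat_lit 411) (nat_lit 395) (nat_lit 394)) (XT.lf (nat_lit 0) (nat_lit 2842035061) (nat_lit 912) (nat_lit 916973663) (nat_lit 76) (nat_lit 3104824398) (nat_lit 364) (nat_lit 5) (nat_lit 376) (nat_lit 5) (nat_lit 365) (nat_lit 4) (nat_lit 412) (nat_lit 395) (nat_lit 393)))) (XT.nd (nat_lit 156) (nat_lit 2508) (nat_lit 0) (XT.nd (nat_lit 78) (nat_lit 1064) (nat_lit 0) (XT.lf (nat_lit 0) (nat_lit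 26260027) (nat_lit 988) (nat_lit 1268718322) (nat_lit 1064) (nat_lit 5646809259) (nat_lit 338) (nat_lit 5) (nat_lit 351) (nat_lit 5) (nat_lit 352) (nat_lit 5) (nat_lit 413) (nat_lit 395) (nat_lit 392)) (XT.lf (nat_lit 0) (nat_lit 1091881160) (nat_lit 1064) (nat_lit 5544312833) (nat_lit 1140) (nat_lit 391049826) (nat_lit 324) (nat_lit 5) (nat_lit 338) (nat_lit 5) (nat_lit 339) (nat_lit 4) (nat_lit 414) (nat_lit 395) (nat_lit 391))) (XT.nd (nat_lit 78) (nat_lit 1292) (nat_lit 0) (XT.lf (nat_lit 0) (nat_lit 2252550971) (nat_lit 1140) (nat_lit 2616033854) (nat_lit 1216) (nat_lit 2251723066) (nat_lit 308) (nat_lit 5) (nat_lit 323) (nat_lit 5) (nat_lit 324) (nat_lit 5) (nat_lit 415) (nat_lit 395) (nat_lit 390)) (XT.lf (nat_lit 0) (nat_lit 2947327694) (nat_lit 1292) (nat_lit 3691567468) (nat_lit 76) (nat_lit 582828834) (nat_lit 291) (nat_lit 5) (nat_lit 308) (nat_lit 5) (nat_lit 292) (nat_lit 5) (nat_lit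 416) (nat_lit 395) (nat_lit 389))))))) (XT.nd (nat_lit 1014) (nat_lit 4712) (nat_lit 0) (XT.nd (nat_lit 468) (nat_lit 4028) (nat_lit 0) (XT.nd (nat_lit 234) (nat_lit 1748) (nat_lit 0) (XT.nd (nat_lit 78) (nat_lit 1824) (nat_lit 0) (XT.lf (nat_lit 0) (nat_lit 887803040) (nat_lit 836) (nat_lit 2426603855) (nat_lit 76) (nat_lit 4016606789) (nat_lit 280) (nat_lit 5) (nat_lit 291) (nat_lit 5) (nat_lit 281) (nat_lit 5) (nat_lit 417) (nat_lit 395) (nat_lit 388)) (XT.nd (nat_lit 78) (nat_lit 1216) (nat_lit 0) (XT.lf (nat_lit 0) (nat_lit 6082647832) (nat_lit 684) (nat_lit 1061192597) (nat_lit 76) (nat_lit 304808793) (nat_lit 272) (nat_lit 5) (nat_lit 281) (nat_lit 5) (nat_lit 273) (nat_lit 5) (nat_lit 418) (nat_lit 395) (nat_lit 387)) (XT.lf (nat_lit 0) (nat_lit 386089404) (nat_lit 532) (nat_lit 3408096009) (nat_lit 608) (nat_lit 3779679131) (nat_lit 256) (nat_lit 5) (nat_lit 263) (nat_lit 5) (nat_lit 264)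 (nat_lit 5) (nat_lit 419) (nat_lit 395) (nat_lit 386)))) (XT.nd (nat_lit 78) (nat_lit 1140) (nat_lit 0) (XT.lf (nat_lit 0) (nat_lit 1345351311) (nat_lit 608) (nat_lit 5738975864) (nat_lit 76) (nat_lit 623363962) (nat_lit 248) (nat_lit 5) (nat_lit 256) (nat_lit 5) (nat_lit 249) (nat_lit 5) (nat_lit 420) (nat_lit 395) (nat_lit 385)) (XT.nd (nat_lit 78) (nat_lit 608) (nat_lit 0) (XT.lf (nat_lit 0) (nat_lit 3625993880) (nat_lit 532) (nat_lit 2945370043) (nat_lit 608) (nat_lit 1278067279) (nat_lit 241) (nat_lit 5) (nat_lit 248) (nat_lit 5) (nat_lit 249) (nat_lit 5) (nat_lit 421) (nat_lit 395) (nat_lit 384)) (XT.lf (nat_lit 0) (nat_lit 3891452137) (nat_lit 608) (nat_lit 2622182824) (nat_lit 76) (nat_lit 1486173802) (nat_lit 233) (nat_lit 5) (nat_lit 241) (nat_lit 5) (nat_lit 234) (nat_lit 5) (nat_lit 422) (nat_lit 395) (nat_lit 383))))) (XT.nd (nat_lit 234) (nat_lit 2052) (nat_lit 0) (XT.nd (nat_lit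 78) (nat_lit 1444) (nat_lit 0) (XT.lf (nat_lit 0) (nat_lit 1047979707) (nat_lit 532) (nat_lit 935045854) (nat_lit 76) (nat_lit 6175966173) (nat_lit 226) (nat_lit 5) (nat_lit 233) (nat_lit 5) (nat_lit 227) (nat_lit 5) (nat_lit 423) (nat_lit 395) (nat_lit 382)) (XT.nd (nat_lit 78) (nat_lit 532) (nat_lit 0) (XT.lf (nat_lit 0) (nat_lit 839348231) (nat_lit 456) (nat_lit 5487149907) (nat_lit 532) (nat_lit 1999961356) (nat_lit 214) (nat_lit 5) (nat_lit 220) (nat_lit 5) (nat_lit 221) (nat_lit 5) (nat_lit 424) (nat_lit 395) (nat_lit 381)) (XT.lf (nat_lit 0) (nat_lit 2721925298) (nat_lit 456) (nat_lit 529402078) (nat_lit 532) (nat_lit 5251514933) (nat_lit 207) (nat_lit 5) (nat_lit 213) (nat_lit 5) (nat_lit 214) (nat_lit 5) (nat_lit 425) (nat_lit 395) (nat_lit 380)))) (XT.nd (nat_lit 156) (nat_lit 1140) (nat_lit 0) (XT.nd (nat_lit 78) (nat_lit 456) (nat_lit 0) (XT.lf (nat_lit 0) (nat_lit 9779835) (nat_lit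 456) (nat_lit 4006768840) (nat_lit 76) (nat_lit 4671689568) (nat_lit 201) (nat_lit 5) (nat_lit 207) (nat_lit 5) (nat_lit 202) (nat_lit 5) (nat_lit 426) (nat_lit 395) (nat_lit 379)) (XT.lf (nat_lit 0) (nat_lit 5380889827) (nat_lit 532) (nat_lit 2169641193) (nat_lit 76) (nat_lit 1332173405) (nat_lit 195) (nat_lit 5) (nat_lit 202) (nat_lit 5) (nat_lit 196) (nat_lit 5) (nat_lit 427) (nat_lit 395) (nat_lit 378))) (XT.nd (nat_lit 78) (nat_lit 684) (nat_lit 0) (XT.lf (nat_lit 0) (nat_lit 1880223592) (nat_lit 456) (nat_lit 257242999) (nat_lit 76) (nat_lit 6949360361) (nat_lit 189) (nat_lit 5) (nat_lit 195) (nat_lit 5) (nat_lit 190) (nat_lit 5) (nat_lit 428) (nat_lit 395) (nat_lit 377)) (XT.lf (nat_lit 0) (nat_lit 1754915434) (nat_lit 304) (nat_lit 5707290186) (nat_lit 380) (nat_lit 1837830481) (nat_lit 180) (nat_lit 5) (nat_lit 184) (nat_lit 5) (nat_lit 185) (nat_lit 5) (nat_lit 429) (nat_lit 395) (nat_lit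 376)))))) (XT.nd (nat_lit 468) (nat_lit 2204) (nat_lit 0) (XT.nd (nat_lit 234) (nat_lit 1368) (nat_lit 0) (XT.nd (nat_lit 78) (nat_lit 684) (nat_lit 0) (XT.lf (nat_lit 0) (nat_lit 3708353922) (nat_lit 456) (nat_lit 5672320603) (nat_lit 76) (nat_lit 142659328) (nat_lit 174) (nat_lit 5) (nat_lit 180) (nat_lit 5) (nat_lit 175) (nat_lit 5) (nat_lit 430) (nat_lit 395) (nat_lit 375)) (XT.nd (nat_lit 78) (nat_lit 380) (nat_lit 0) (XT.lf (nat_lit 0) (nat_lit 6009962965) (nat_lit 304) (nat_lit 3506603554) (nat_lit 380) (nat_lit 240018604) (nat_lit 170) (nat_lit 5) (nat_lit 174) (nat_lit 5) (nat_lit 175) (nat_lit 5) (nat_lit 431) (nat_lit 395) (nat_lit 374)) (XT.lf (nat_lit 0) (nat_lit 5501946721) (nat_lit 380) (nat_lit 1771520128) (nat_lit 76) (nat_lit 2726494395) (nat_lit 165) (nat_lit 5) (nat_lit 170) (nat_lit 5) (nat_lit 166) (nat_lit 5) (nat_lit 432) (nat_lit 395) (nat_lit 373)))) (XT.nd (nat_lit 78)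 (nat_lit 684) (nat_lit 0) (XT.lf (nat_lit 0) (nat_lit 289332397) (nat_lit 304) (nat_lit 972865070) (nat_lit 380) (nat_lit 8992393577) (nat_lit 156) (nat_lit 5) (nat_lit 160) (nat_lit 5) (nat_lit 161) (nat_lit 5) (nat_lit 433) (nat_lit 395) (nat_lit 372)) (XT.nd (nat_lit 78) (nat_lit 380) (nat_lit 0) (XT.lf (nat_lit 0) (nat_lit 2417890043) (nat_lit 304) (nat_lit 4857621148) (nat_lit 380) (nat_lit 3243374914) (nat_lit 152) (nat_lit 5) (nat_lit 156) (nat_lit 5) (nat_lit 157) (nat_lit 5) (nat_lit 434) (nat_lit 395) (nat_lit 371)) (XT.lf (nat_lit 0) (nat_lit 2757211233) (nat_lit 380) (nat_lit 6169710987) (nat_lit 76) (nat_lit 1868121954) (nat_lit 147) (nat_lit 5) (nat_lit 152) (nat_lit 5) (nat_lit 148) (nat_lit 5) (nat_lit 435) (nat_lit 395) (nat_lit 370))))) (XT.nd (nat_lit 234) (nat_lit 1368) (nat_lit 0) (XT.nd (nat_lit 78) (nat_lit 608) (nat_lit 0) (XT.lf (nat_lit 0) (nat_lit 6885882933) (nat_lit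 228) (nat_lit 2151595945) (nat_lit 304) (nat_lit 2045177718) (nat_lit 144) (nat_lit 5) (nat_lit 147) (nat_lit 5) (nat_lit 148) (nat_lit 5) (nat_lit 436) (nat_lit 395) (nat_lit 369)) (XT.nd (nat_lit 78) (nat_lit 228) (nat_lit 0) (XT.lf (nat_lit 0) (nat_lit 4216248573) (nat_lit 380) (nat_lit 2189526374) (nat_lit 76) (nat_lit 4976100326) (nat_lit 139) (nat_lit 5) (nat_lit 144) (nat_lit 5) (nat_lit 140) (nat_lit 5) (nat_lit 437) (nat_lit 395) (nat_lit 368)) (XT.lf (nat_lit 0) (nat_lit 10787804312) (nat_lit 304) (nat_lit 108511406) (nat_lit 76) (nat_lit 797961352) (nat_lit 136) (nat_lit 5) (nat_lit 140) (nat_lit 5) (nat_lit 137) (nat_lit 5) (nat_lit 438) (nat_lit 395) (nat_lit 367)))) (XT.nd (nat_lit 156) (nat_lit 532) (nat_lit 0) (XT.nd (nat_lit 78) (nat_lit 304) (nat_lit 0) (XT.lf (nat_lit 0) (nat_lit 2017306732) (nat_lit 228) (nat_lit 3638737045) (nat_lit 304) (nat_lit 6361602029) (nat_lit 129) (nat_lit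 5) (nat_lit 132) (nat_lit 5) (nat_lit 133) (nat_lit 5) (nat_lit 439) (nat_lit 395) (nat_lit 366)) (XT.lf (nat_lit 0) (nat_lit 229619379) (nat_lit 304) (nat_lit 8133925256) (nat_lit 76) (nat_lit 3991470662) (nat_lit 125) (nat_lit 5) (nat_lit 129) (nat_lit 5) (nat_lit 126) (nat_lit 5) (nat_lit 440) (nat_lit 395) (nat_lit 365))) (XT.nd (nat_lit 78) (nat_lit 304) (nat_lit 0) (XT.lf (nat_lit 0) (nat_lit 6450014152) (nat_lit 228) (nat_lit 634346565) (nat_lit 304) (nat_lit 5621045578) (nat_lit 122) (nat_lit 5) (nat_lit 125) (nat_lit 5) (nat_lit 126) (nat_lit 5) (nat_lit 441) (nat_lit 395) (nat_lit 364)) (XT.lf (nat_lit 0) (nat_lit 1291589611) (nat_lit 304) (nat_lit 4349686969) (nat_lit 76) (nat_lit 7428500032) (nat_lit 118) (nat_lit 5) (nat_lit 122) (nat_lit 5) (nat_lit 119) (nat_lit 5) (nat_lit 442) (nat_lit 395) (nat_lit 363))))))))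
noncomputable def xc39 : XT := (XT.nd (nat_lit 1950) (nat_lit 2356) (nat_lit 0) (XT.nd (nat_lit 936) (nat_lit 1900) (nat_lit 0) (XT.nd (nat_lit 468) (nat_lit 1292) (nat_lit 0) (XT.nd (nat_lit 234) (nat_lit 608) (nat_lit 0) (XT.nd (nat_lit 78) (nat_lit 684) (nat_lit 0) (XT.lf (nat_lit 0) (nat_lit 8505296292) (nat_lit 228) (nat_lit 2420463746) (nat_lit 76) (nat_lit 2522792450) (nat_lit 116) (nat_lit 5) (nat_lit 119) (nat_lit 5) (nat_lit 117) (nat_lit 5) (nat_lit 443) (nat_lit 395) (nat_lit 362)) (XT.nd (nat_lit 78) (nat_lit 380) (nat_lit 0) (XT.lf (nat_lit 0) (nat_lit 2293395626) (nat_lit 304) (nat_lit 460327945) (nat_lit 76) (nat_lit 11088799670) (nat_lit 112) (nat_lit 5) (nat_lit 116) (nat_lit 5) (nat_lit 113) (nat_lit 5) (nat_lit 444) (nat_lit 395) (nat_lit 361)) (XT.lf (nat_lit 0) (nat_lit 1532104905) (nat_lit 228) (nat_lit 8382136017) (nat_lit 304) (nat_lit 4336751989) (nat_lit 107) (nat_lit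 5) (nat_lit 110) (nat_lit 5) (nat_lit 111) (nat_lit 5) (nat_lit 445) (nat_lit 395) (nat_lit 360)))) (XT.nd (nat_lit 78) (nat_lit 380) (nat_lit 0) (XT.lf (nat_lit 0) (nat_lit 3266176905) (nat_lit 228) (nat_lit 11096699020) (nat_lit 76) (nat_lit 313290353) (nat_lit 104) (nat_lit 5) (nat_lit 107) (nat_lit 5) (nat_lit 105) (nat_lit 5) (nat_lit 446) (nat_lit 395) (nat_lit 359)) (XT.nd (nat_lit 78) (nat_lit 228) (nat_lit 0) (XT.lf (nat_lit 0) (nat_lit 5603879679) (nat_lit 152) (nat_lit 5704443374) (nat_lit 228) (nat_lit 3808530018) (nat_lit 102) (nat_lit 5) (nat_lit 104) (nat_lit 5) (nat_lit 105) (nat_lit 5) (nat_lit 447) (nat_lit 395) (nat_lit 358)) (XT.lf (nat_lit 0) (nat_lit 4194702936) (nat_lit 228) (nat_lit 7918032738) (nat_lit 76) (nat_lit 3462546510) (nat_lit 99) (nat_lit 5) (nat_lit 102) (nat_lit 5) (nat_lit 100) (nat_lit 5) (nat_lit 448) (nat_lit 395) (nat_lit 357))))) (XT.nd (nat_lit 234) (nat_lit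 760) (nat_lit 0) (XT.nd (nat_lit 78) (nat_lit 380) (nat_lit 0) (XT.lf (nat_lit 0) (nat_lit 9715238711) (nat_lit 152) (nat_lit 2937449728) (nat_lit 228) (nat_lit 3398817411) (nat_lit 97) (nat_lit 5) (nat_lit 99) (nat_lit 5) (nat_lit 100) (nat_lit 5) (nat_lit 449) (nat_lit 395) (nat_lit 356)) (XT.nd (nat_lit 78) (nat_lit 152) (nat_lit 0) (XT.lf (nat_lit 0) (nat_lit 5031979721) (nat_lit 228) (nat_lit 4789771694) (nat_lit 76) (nat_lit 6723942315) (nat_lit 94) (nat_lit 5) (nat_lit 97) (nat_lit 5) (nat_lit 95) (nat_lit 5) (nat_lit 450) (nat_lit 395) (nat_lit 355)) (XT.lf (nat_lit 0) (nat_lit 13826320959) (nat_lit 152) (nat_lit 104762129) (nat_lit 228) (nat_lit 3128991046) (nat_lit 92) (nat_lit 5) (nat_lit 94) (nat_lit 5) (nat_lit 95) (nat_lit 5) (nat_lit 451) (nat_lit 395) (nat_lit 354)))) (XT.nd (nat_lit 78) (nat_lit 532) (nat_lit 0) (XT.lf (nat_lit 0) (nat_lit 5756302715) (nat_lit 228) (nat_lit 1761823191)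 (nat_lit 76) (nat_lit 10074653025) (nat_lit 89) (nat_lit 5) (nat_lit 92) (nat_lit 5) (nat_lit 90) (nat_lit 5) (nat_lit 452) (nat_lit 395) (nat_lit 353)) (XT.nd (nat_lit 78) (nat_lit 380) (nat_lit 0) (XT.lf (nat_lit 0) (nat_lit 15147853941) (nat_lit 228) (nat_lit 287837522) (nat_lit 76) (nat_lit 2711700869) (nat_lit 87) (nat_lit 5) (nat_lit 90) (nat_lit 5) (nat_lit 88) (nat_lit 4) (nat_lit 453) (nat_lit 395) (nat_lit 352)) (XT.lf (nat_lit 0) (nat_lit 1125991682) (nat_lit 152) (nat_lit 5224099880) (nat_lit 228) (nat_lit 12372036394) (nat_lit 82) (nat_lit 5) (nat_lit 84) (nat_lit 5) (nat_lit 85) (nat_lit 5) (nat_lit 454) (nat_lit 395) (nat_lit 351)))))) (XT.nd (nat_lit 468) (nat_lit 988) (nat_lit 0) (XT.nd (nat_lit 234) (nat_lit 532) (nat_lit 0) (XT.nd (nat_lit 78) (nat_lit 304) (nat_lit 0) (XT.lf (nat_lit 0) (nat_lit 2506976433) (nat_lit 76) (nat_lit 13765331370) (nat_lit 152) (nat_lit 3047390863)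 (nat_lit 81) (nat_lit 5) (nat_lit 82) (nat_lit 5) (nat_lit 83) (nat_lit 4) (nat_lit 455) (nat_lit 395) (nat_lit 350)) (XT.nd (nat_lit 78) (nat_lit 76) (nat_lit 0) (XT.lf (nat_lit 0) (nat_lit 3805859074) (nat_lit 152) (nat_lit 2975342711) (nat_lit 228) (nat_lit 13158925511) (nat_lit 78) (nat_lit 5) (nat_lit 80) (nat_lit 5) (nat_lit 81) (nat_lit 5) (nat_lit 456) (nat_lit 395) (nat_lit 349)) (XT.lf (nat_lit 0) (nat_lit 5018445418) (nat_lit 76) (nat_lit 12223040683) (nat_lit 152) (nat_lit 3343090530) (nat_lit 77) (nat_lit 5) (nat_lit 78) (nat_lit 5) (nat_lit 79) (nat_lit 4) (nat_lit 457) (nat_lit 395) (nat_lit 348)))) (XT.nd (nat_lit 78) (nat_lit 304) (nat_lit 0) (XT.lf (nat_lit 0) (nat_lit 6147403033) (nat_lit 152) (nat_lit 838551691) (nat_lit 228) (nat_lit 14268539322) (nat_lit 74) (nat_lit 5) (nat_lit 76) (nat_lit 5) (nat_lit 77) (nat_lit 5) (nat_lit 458) (nat_lit 395) (nat_lit 347)) (XT.nd (nat_lit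 78) (nat_lit 228) (nat_lit 0) (XT.lf (nat_lit 0) (nat_lit 7135423144) (nat_lit 76) (nat_lit 10868422369) (nat_lit 152) (nat_lit 3945825496) (nat_lit 73) (nat_lit 5) (nat_lit 74) (nat_lit 5) (nat_lit 75) (nat_lit 4) (nat_lit 459) (nat_lit 395) (nat_lit 346)) (XT.lf (nat_lit 0) (nat_lit 6917705050) (nat_lit 228) (nat_lit 14649828409) (nat_lit 76) (nat_lit 1105312377) (nat_lit 70) (nat_lit 5) (nat_lit 73) (nat_lit 5) (nat_lit 71) (nat_lit 4) (nat_lit 460) (nat_lit 395) (nat_lit 345))))) (XT.nd (nat_lit 234) (nat_lit 608) (nat_lit 0) (XT.nd (nat_lit 78) (nat_lit 304) (nat_lit 0) (XT.lf (nat_lit 0) (nat_lit 8729377811) (nat_lit 76) (nat_lit 9769478683) (nat_lit 152) (nat_lit 4924471740) (nat_lit 69) (nat_lit 5) (nat_lit 70) (nat_lit 5) (nat_lit 71) (nat_lit 4) (nat_lit 461) (nat_lit 395) (nat_lit 344)) (XT.nd (nat_lit 78) (nat_lit 76) (nat_lit 0) (XT.lf (nat_lit 0) (nat_lit 6500806553) (nat_lit 228)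 (nat_lit 14907844552) (nat_lit 76) (nat_lit 2795459614) (nat_lit 66) (nat_lit 5) (nat_lit 69) (nat_lit 5) (nat_lit 67) (nat_lit 4) (nat_lit 462) (nat_lit 395) (nat_lit 343)) (XT.lf (nat_lit 0) (nat_lit 9644201742) (nat_lit 76) (nat_lit 9007833152) (nat_lit 152) (nat_lit 6362740846) (nat_lit 65) (nat_lit 5) (nat_lit 66) (nat_lit 5) (nat_lit 67) (nat_lit 4) (nat_lit 463) (nat_lit 395) (nat_lit 342)))) (XT.nd (nat_lit 156) (nat_lit 304) (nat_lit 0) (XT.nd (nat_lit 78) (nat_lit 76) (nat_lit 0) (XT.lf (nat_lit 0) (nat_lit 5640418069) (nat_lit 228) (nat_lit 16053740305) (nat_lit 76) (nat_lit 4164105521) (nat_lit 62) (nat_lit 5) (nat_lit 65) (nat_lit 5) (nat_lit 63) (nat_lit 4) (nat_lit 464) (nat_lit 395) (nat_lit 341)) (XT.lf (nat_lit 0) (nat_lit 9690964544) (nat_lit 76) (nat_lit 8681438090) (nat_lit 152) (nat_lit 8361827961) (nat_lit 61) (nat_lit 5) (nat_lit 62) (nat_lit 5) (nat_lit 63) (nat_lit 4)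 (nat_lit 465) (nat_lit 395) (nat_lit 340))) (XT.nd (nat_lit 78) (nat_lit 76) (nat_lit 0) (XT.lf (nat_lit 0) (nat_lit 4231401604) (nat_lit 228) (nat_lit 18304833813) (nat_lit 76) (nat_lit 5109858425) (nat_lit 58) (nat_lit 5) (nat_lit 61) (nat_lit 5) (nat_lit 59) (nat_lit 4) (nat_lit 466) (nat_lit 395) (nat_lit 339)) (XT.lf (nat_lit 0) (nat_lit 8641743929) (nat_lit 76) (nat_lit 8907744653) (nat_lit 152) (nat_lit 11043535627) (nat_lit 57) (nat_lit 5) (nat_lit 58) (nat_lit 5) (nat_lit 59) (nat_lit 4) (nat_lit 467) (nat_lit 395) (nat_lit 338))))))) (XT.nd (nat_lit 1014) (nat_lit 1064) (nat_lit 0) (XT.nd (nat_lit 468) (nat_lit 684) (nat_lit 0) (XT.nd (nat_lit 234) (nat_lit 304) (nat_lit 0) (XT.nd (nat_lit 78) (nat_lit 152) (nat_lit 0) (XT.lf (nat_lit 0) (nat_lit 2146953705) (nat_lit 152) (nat_lit 21921889814) (nat_lit 76) (nat_lit 5510735275) (nat_lit 55) (nat_lit 5) (nat_lit 57) (nat_lit 5) (nat_lit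 56) (nat_lit 4) (nat_lit 468) (nat_lit 395) (nat_lit 337)) (XT.nd (nat_lit 78) (nat_lit 76) (nat_lit 0) (XT.lf (nat_lit 0) (nat_lit 6222373463) (nat_lit 76) (nat_lit 9827417640) (nat_lit 152) (nat_lit 14553954540) (nat_lit 54) (nat_lit 5) (nat_lit 55) (nat_lit 5) (nat_lit 56) (nat_lit 4) (nat_lit 469) (nat_lit 395) (nat_lit 336)) (XT.lf (nat_lit 0) (nat_lit 4447216316) (nat_lit 76) (nat_lit 26444077358) (nat_lit 76) (nat_lit 780522811) (nat_lit 53) (nat_lit 4) (nat_lit 54) (nat_lit 5) (nat_lit 54) (nat_lit 4) (nat_lit 470) (nat_lit 395) (nat_lit 335)))) (XT.nd (nat_lit 78) (nat_lit 152) (nat_lit 0) (XT.lf (nat_lit 0) (nat_lit 2103919159) (nat_lit 76) (nat_lit 11608691049) (nat_lit 152) (nat_lit 19067796243) (nat_lit 51) (nat_lit 5) (nat_lit 52) (nat_lit 5) (nat_lit 53) (nat_lit 4) (nat_lit 471) (nat_lit 395) (nat_lit 334)) (XT.nd (nat_lit 78) (nat_lit 152) (nat_lit 0) (XT.lf (nat_lit 0) (nat_lit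 29162263022) (nat_lit 152) (nat_lit 659328971) (nat_lit 0) (nat_lit 4115163106) (nat_lit 51) (nat_lit 5) (nat_lit 53) (nat_lit 4) (nat_lit 51) (nat_lit 4) (nat_lit 472) (nat_lit 395) (nat_lit 333)) (XT.lf (nat_lit 0) (nat_lit 10384623569) (nat_lit 152) (nat_lit 4027186331) (nat_lit 76) (nat_lit 20725636118) (nat_lit 49) (nat_lit 5) (nat_lit 51) (nat_lit 5) (nat_lit 50) (nat_lit 4) (nat_lit 473) (nat_lit 395) (nat_lit 332))))) (XT.nd (nat_lit 234) (nat_lit 380) (nat_lit 0) (XT.nd (nat_lit 78) (nat_lit 228) (nat_lit 0) (XT.lf (nat_lit 0) (nat_lit 26435473150) (nat_lit 152) (nat_lit 7951789452) (nat_lit 0) (nat_lit 2002516103) (nat_lit 48) (nat_lit 5) (nat_lit 50) (nat_lit 4) (nat_lit 48) (nat_lit 4) (nat_lit 474) (nat_lit 395) (nat_lit 331)) (XT.nd (nat_lit 78) (nat_lit 76) (nat_lit 0) (XT.lf (nat_lit 0) (nat_lit 5840530691) (nat_lit 152) (nat_lit 12630284533) (nat_lit 76) (nat_lit 19221342623) (nat_lit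 46) (nat_lit 5) (nat_lit 48) (nat_lit 5) (nat_lit 47) (nat_lit 4) (nat_lit 475) (nat_lit 395) (nat_lit 330)) (XT.lf (nat_lit 0) (nat_lit 21015865503) (nat_lit 76) (nat_lit 1424272192) (nat_lit 152) (nat_lit 16609935473) (nat_lit 45) (nat_lit 5) (nat_lit 46) (nat_lit 5) (nat_lit 47) (nat_lit 4) (nat_lit 476) (nat_lit 395) (nat_lit 329)))) (XT.nd (nat_lit 156) (nat_lit 152) (nat_lit 0) (XT.nd (nat_lit 78) (nat_lit 152) (nat_lit 0) (XT.lf (nat_lit 0) (nat_lit 16166293026) (nat_lit 76) (nat_lit 24084150875) (nat_lit 76) (nat_lit 214019666) (nat_lit 44) (nat_lit 4) (nat_lit 45) (nat_lit 5) (nat_lit 45) (nat_lit 4) (nat_lit 477) (nat_lit 395) (nat_lit 328)) (XT.lf (nat_lit 0) (nat_lit 10409719549) (nat_lit 76) (nat_lit 6499052804) (nat_lit 152) (nat_lit 25028733687) (nat_lit 42) (nat_lit 5) (nat_lit 43) (nat_lit 5) (nat_lit 44) (nat_lit 4) (nat_lit 478) (nat_lit 395) (nat_lit 327))) (XT.nd (nat_lit 78)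 (nat_lit 76) (nat_lit 0) (XT.lf (nat_lit 0) (nat_lit 3715741749) (nat_lit 76) (nat_lit 31509125002) (nat_lit 76) (nat_lit 8249023416) (nat_lit 41) (nat_lit 4) (nat_lit 42) (nat_lit 5) (nat_lit 42) (nat_lit 4) (nat_lit 479) (nat_lit 395) (nat_lit 326)) (XT.lf (nat_lit 0) (nat_lit 9519620768) (nat_lit 152) (nat_lit 3974861167) (nat_lit 76) (nat_lit 31579926740) (nat_lit 40) (nat_lit 5) (nat_lit 42) (nat_lit 5) (nat_lit 41) (nat_lit 4) (nat_lit 480) (nat_lit 395) (nat_lit 325)))))) (XT.nd (nat_lit 468) (nat_lit 532) (nat_lit 0) (XT.nd (nat_lit 234) (nat_lit 228) (nat_lit 0) (XT.nd (nat_lit 78) (nat_lit 228) (nat_lit 0) (XT.lf (nat_lit 0) (nat_lit 28333092020) (nat_lit 152) (nat_lit 12734175488) (nat_lit 0) (nat_lit 5675426154) (nat_lit 39) (nat_lit 5) (nat_lit 41) (nat_lit 4) (nat_lit 39) (nat_lit 4) (nat_lit 481) (nat_lit 395) (nat_lit 324)) (XT.nd (nat_lit 78) (nat_lit 152) (nat_lit 0) (XT.lf (nat_lit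 0) (nat_lit 25735381234) (nat_lit 76) (nat_lit 22720244836) (nat_lit 76) (nat_lit 27715803) (nat_lit 38) (nat_lit 4) (nat_lit 39) (nat_lit 5) (nat_lit 39) (nat_lit 4) (nat_lit 482) (nat_lit 395) (nat_lit 323)) (XT.lf (nat_lit 0) (nat_lit 16106074500) (nat_lit 76) (nat_lit 3022894243) (nat_lit 152) (nat_lit 31169542501) (nat_lit 36) (nat_lit 5) (nat_lit 37) (nat_lit 5) (nat_lit 38) (nat_lit 4) (nat_lit 483) (nat_lit 395) (nat_lit 322)))) (XT.nd (nat_lit 78) (nat_lit 152) (nat_lit 0) (XT.lf (nat_lit 0) (nat_lit 4998891251) (nat_lit 76) (nat_lit 34644029203) (nat_lit 76) (nat_lit 12549510786) (nat_lit 35) (nat_lit 4) (nat_lit 36) (nat_lit 5) (nat_lit 36) (nat_lit 4) (nat_lit 484) (nat_lit 395) (nat_lit 321)) (XT.nd (nat_lit 78) (nat_lit 76) (nat_lit 0) (XT.lf (nat_lit 0) (nat_lit 7197645088) (nat_lit 152) (nat_lit 7512537833) (nat_lit 76) (nat_lit 39458863329) (nat_lit 34) (nat_lit 5) (nat_lit 36)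 (nat_lit 5) (nat_lit 35) (nat_lit 4) (nat_lit 485) (nat_lit 395) (nat_lit 320)) (XT.lf (nat_lit 0) (nat_lit 28020806216) (nat_lit 152) (nat_lit 21695118418) (nat_lit 0) (nat_lit 6514394586) (nat_lit 33) (nat_lit 5) (nat_lit 35) (nat_lit 4) (nat_lit 33) (nat_lit 4) (nat_lit 486) (nat_lit 395) (nat_lit 319))))) (XT.nd (nat_lit 234) (nat_lit 304) (nat_lit 0) (XT.nd (nat_lit 78) (nat_lit 152) (nat_lit 0) (XT.lf (nat_lit 0) (nat_lit 20604608233) (nat_lit 76) (nat_lit 29655479493) (nat_lit 76) (nat_lit 8123319721) (nat_lit 32) (nat_lit 4) (nat_lit 33) (nat_lit 5) (nat_lit 33) (nat_lit 4) (nat_lit 487) (nat_lit 395) (nat_lit 318)) (XT.nd (nat_lit 78) (nat_lit 0) (nat_lit 0) (XT.lf (nat_lit 0) (nat_lit 4703805669) (nat_lit 76) (nat_lit 8232395060) (nat_lit 152) (nat_lit 47697548728) (nat_lit 30) (nat_lit 5) (nat_lit 31) (nat_lit 5) (nat_lit 32) (nat_lit 4) (nat_lit 488) (nat_lit 395) (nat_lit 317)) (XT.lf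 (nat_lit 0) (nat_lit 35364368890) (nat_lit 152) (nat_lit 13202439503) (nat_lit 0) (nat_lit 14412877496) (nat_lit 30) (nat_lit 5) (nat_lit 32) (nat_lit 4) (nat_lit 30) (nat_lit 4) (nat_lit 489) (nat_lit 395) (nat_lit 316)))) (XT.nd (nat_lit 156) (nat_lit 76) (nat_lit 0) (XT.nd (nat_lit 78) (nat_lit 152) (nat_lit 0) (XT.lf (nat_lit 0) (nat_lit 32114960498) (nat_lit 76) (nat_lit 27145327276) (nat_lit 76) (nat_lit 6172241501) (nat_lit 29) (nat_lit 4) (nat_lit 30) (nat_lit 5) (nat_lit 30) (nat_lit 4) (nat_lit 490) (nat_lit 395) (nat_lit 315)) (XT.lf (nat_lit 0) (nat_lit 11956686464) (nat_lit 76) (nat_lit 4275007287) (nat_lit 152) (nat_lit 51765379990) (nat_lit 27) (nat_lit 5) (nat_lit 28) (nat_lit 5) (nat_lit 29) (nat_lit 4) (nat_lit 491) (nat_lit 395) (nat_lit 314))) (XT.nd (nat_lit 78) (nat_lit 76) (nat_lit 0) (XT.lf (nat_lit 0) (nat_lit 40121790060) (nat_lit 152) (nat_lit 10830826375) (nat_lit 0)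 (nat_lit 19720587542) (nat_lit 27) (nat_lit 5) (nat_lit 29) (nat_lit 4) (nat_lit 27) (nat_lit 4) (nat_lit 492) (nat_lit 395) (nat_lit 313)) (XT.lf (nat_lit 0) (nat_lit 37240154932) (nat_lit 76) (nat_lit 28325756872) (nat_lit 76) (nat_lit 7906443637) (nat_lit 26) (nat_lit 4) (nat_lit 27) (nat_lit 5) (nat_lit 27) (nat_lit 4) (nat_lit 493) (nat_lit 395) (nat_lit 312))))))))
noncomputable def xc40 : XT := (XT.nd (nat_lit 57330) (nat_lit 0) (nat_lit 5016) (XT.nd (nat_lit 56316) (nat_lit 0) (nat_lit 13224) (XT.nd (nat_lit 55848) (nat_lit 0) (nat_lit 22952) (XT.nd (nat_lit 234) (nat_lit 152) (nat_lit 0) (XT.nd (nat_lit 78) (nat_lit 76) (nat_lit 0) (XT.lf (nat_lit 0) (nat_lit 11523047695) (nat_lit 76) (nat_lit 4220602172) (nat_lit 152) (nat_lit 60657761013) (nat_lit 24) (nat_lit 5) (nat_lit 25) (nat_lit 5) (nat_lit 26) (nat_lit 4) (nat_lit 494) (nat_lit 395) (nat_lit 311)) (XT.nd (nat_lit 78) (nat_lit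 76) (nat_lit 0) (XT.lf (nat_lit 0) (nat_lit 40953666538) (nat_lit 152) (nat_lit 17408280170) (nat_lit 0) (nat_lit 21096396157) (nat_lit 24) (nat_lit 5) (nat_lit 26) (nat_lit 4) (nat_lit 24) (nat_lit 4) (nat_lit 495) (nat_lit 395) (nat_lit 310)) (XT.lf (nat_lit 0) (nat_lit 32960133108) (nat_lit 76) (nat_lit 34785403734) (nat_lit 76) (nat_lit 14912944306) (nat_lit 23) (nat_lit 4) (nat_lit 24) (nat_lit 5) (nat_lit 24) (nat_lit 4) (nat_lit 496) (nat_lit 395) (nat_lit 309)))) (XT.nd (nat_lit 78) (nat_lit 0) (nat_lit 0) (XT.lf (nat_lit 0) (nat_lit 27172450) (nat_lit 76) (nat_lit 9782727863) (nat_lit 152) (nat_lit 76201566400) (nat_lit 21) (nat_lit 5) (nat_lit 22) (nat_lit 5) (nat_lit 23) (nat_lit 4) (nat_lit 497) (nat_lit 395) (nat_lit 308)) (XT.nd (nat_lit 55458) (nat_lit 0) (nat_lit 29184) (XT.lf (nat_lit 0) (nat_lit 36101716954) (nat_lit 152) (nat_lit 36626070739) (nat_lit 0) (nat_lit 16780646954)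 (nat_lit 21) (nat_lit 5) (nat_lit 23) (nat_lit 4) (nat_lit 21) (nat_lit 4) (nat_lit 498) (nat_lit 395) (nat_lit 307)) (XT.lf (nat_lit 0) (nat_lit 1600147504) (nat_lit 532) (nat_lit 856770887) (nat_lit 532) (nat_lit 856770887) (nat_lit 405) (nat_lit 4) (nat_lit 412) (nat_lit 5) (nat_lit 412) (nat_lit 4) (nat_lit 408) (nat_lit 396) (nat_lit 396))))) (XT.nd (nat_lit 234) (nat_lit 3952) (nat_lit 0) (XT.nd (nat_lit 78) (nat_lit 1596) (nat_lit 0) (XT.lf (nat_lit 0) (nat_lit 3612183419) (nat_lit 608) (nat_lit 46487887) (nat_lit 684) (nat_lit 3019156253) (nat_lit 396) (nat_lit 5) (nat_lit 404) (nat_lit 5) (nat_lit 405) (nat_lit 4) (nat_lit 409) (nat_lit 396) (nat_lit 395)) (XT.nd (nat_lit 78) (nat_lit 836) (nat_lit 0) (XT.lf (nat_lit 0) (nat_lit 2279651946) (nat_lit 760) (nat_lit 2603545229) (nat_lit 76) (nat_lit 1852566081) (nat_lit 386) (nat_lit 5) (nat_lit 396) (nat_lit 5) (nat_lit 387) (nat_lit 4)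 (nat_lit 410) (nat_lit 396) (nat_lit 394)) (XT.lf (nat_lit 0) (nat_lit 756920511) (nat_lit 836) (nat_lit 2024962044) (nat_lit 76) (nat_lit 4019864661) (nat_lit 375) (nat_lit 5) (nat_lit 386) (nat_lit 5) (nat_lit 376) (nat_lit 5) (nat_lit 411) (nat_lit 396) (nat_lit 393)))) (XT.nd (nat_lit 78) (nat_lit 3116) (nat_lit 0) (XT.lf (nat_lit 0) (nat_lit 5538268641) (nat_lit 836) (nat_lit 404056589) (nat_lit 912) (nat_lit 933321277) (nat_lit 364) (nat_lit 5) (nat_lit 375) (nat_lit 5) (nat_lit 376) (nat_lit 5) (nat_lit 412) (nat_lit 396) (nat_lit 392)) (XT.nd (nat_lit 78) (nat_lit 2128) (nat_lit 0) (XT.lf (nat_lit 0) (nat_lit 4182728036) (nat_lit 988) (nat_lit 561065627) (nat_lit 76) (nat_lit 2213155801) (nat_lit 351) (nat_lit 5) (nat_lit 364) (nat_lit 5) (nat_lit 352) (nat_lit 5) (nat_lit 413) (nat_lit 396) (nat_lit 391)) (XT.lf (nat_lit 0) (nat_lit 334701556) (nat_lit 1064) (nat_lit 1942624484) (nat_lit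 1140) (nat_lit 4769061076) (nat_lit 323) (nat_lit 5) (nat_lit 337) (nat_lit 5) (nat_lit 338) (nat_lit 5) (nat_lit 414) (nat_lit 396) (nat_lit 390)))))) (XT.nd (nat_lit 468) (nat_lit 4028) (nat_lit 0) (XT.nd (nat_lit 234) (nat_lit 2432) (nat_lit 0) (XT.nd (nat_lit 78) (nat_lit 2052) (nat_lit 0) (XT.lf (nat_lit 0) (nat_lit 230345937) (nat_lit 1216) (nat_lit 5792364459) (nat_lit 76) (nat_lit 1121098271) (nat_lit 307) (nat_lit 5) (nat_lit 323) (nat_lit 5) (nat_lit 308) (nat_lit 5) (nat_lit 415) (nat_lit 396) (nat_lit 389)) (XT.nd (nat_lit 78) (nat_lit 836) (nat_lit 0) (XT.lf (nat_lit 0) (nat_lit 2449791794) (nat_lit 1216) (nat_lit 2799854607) (nat_lit 1292) (nat_lit 1999023976) (nat_lit 291) (nat_lit 5) (nat_lit 307) (nat_lit 5) (nat_lit 308) (nat_lit 5) (nat_lit 416) (nat_lit 396) (nat_lit 388)) (XT.lf (nat_lit 0) (nat_lit 2963491929) (nat_lit 836) (nat_lit 3701660959) (nat_lit 76) (nat_lit 696828555)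 (nat_lit 280) (nat_lit 5) (nat_lit 291) (nat_lit 5) (nat_lit 281) (nat_lit 5) (nat_lit 417) (nat_lit 396) (nat_lit 387)))) (XT.nd (nat_lit 78) (nat_lit 1748) (nat_lit 0) (XT.lf (nat_lit 0) (nat_lit 535728398) (nat_lit 684) (nat_lit 2518682594) (nat_lit 76) (nat_lit 4428920305) (nat_lit 271) (nat_lit 5) (nat_lit 280) (nat_lit 5) (nat_lit 272) (nat_lit 5) (nat_lit 418) (nat_lit 396) (nat_lit 386)) (XT.nd (nat_lit 78) (nat_lit 1140) (nat_lit 0) (XT.lf (nat_lit 0) (nat_lit 5511856697) (nat_lit 684) (nat_lit 1248730096) (nat_lit 76) (nat_lit 852304778) (nat_lit 263) (nat_lit 5) (nat_lit 272) (nat_lit 5) (nat_lit 264) (nat_lit 5) (nat_lit 419) (nat_lit 396) (nat_lit 385)) (XT.lf (nat_lit 0) (nat_lit 102700325) (nat_lit 532) (nat_lit 2745196363) (nat_lit 608) (nat_lit 4902653191) (nat_lit 248) (nat_lit 5) (nat_lit 255) (nat_lit 5) (nat_lit 256) (nat_lit 5) (nat_lit 420) (nat_lit 396) (nat_lit 384)))))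 (XT.nd (nat_lit 234) (nat_lit 2356) (nat_lit 0) (XT.nd (nat_lit 78) (nat_lit 1064) (nat_lit 0) (XT.lf (nat_lit 0) (nat_lit 27517011) (nat_lit 608) (nat_lit 6313593092) (nat_lit 76) (nat_lit 1555658570) (nat_lit 240) (nat_lit 5) (nat_lit 248) (nat_lit 5) (nat_lit 241) (nat_lit 5) (nat_lit 421) (nat_lit 396) (nat_lit 383)) (XT.nd (nat_lit 78) (nat_lit 532) (nat_lit 0) (XT.lf (nat_lit 0) (nat_lit 3127224293) (nat_lit 532) (nat_lit 1908268418) (nat_lit 608) (nat_lit 3015396749) (nat_lit 233) (nat_lit 5) (nat_lit 240) (nat_lit 5) (nat_lit 241) (nat_lit 5) (nat_lit 422) (nat_lit 396) (nat_lit 382)) (XT.lf (nat_lit 0) (nat_lit 1979569206) (nat_lit 532) (nat_lit 3448448116) (nat_lit 76) (nat_lit 2785953848) (nat_lit 226) (nat_lit 5) (nat_lit 233) (nat_lit 5) (nat_lit 227) (nat_lit 5) (nat_lit 423) (nat_lit 396) (nat_lit 381)))) (XT.nd (nat_lit 156) (nat_lit 1368) (nat_lit 0) (XT.nd (nat_lit 78) (nat_lit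 532) (nat_lit 0) (XT.lf (nat_lit 0) (nat_lit 6495927321) (nat_lit 456) (nat_lit 606348202) (nat_lit 532) (nat_lit 1283849808) (nat_lit 220) (nat_lit 5) (nat_lit 226) (nat_lit 5) (nat_lit 227) (nat_lit 5) (nat_lit 424) (nat_lit 396) (nat_lit 380)) (XT.lf (nat_lit 0) (nat_lit 3809677331) (nat_lit 532) (nat_lit 279382513) (nat_lit 76) (nat_lit 4477566555) (nat_lit 213) (nat_lit 5) (nat_lit 220) (nat_lit 5) (nat_lit 214) (nat_lit 5) (nat_lit 425) (nat_lit 396) (nat_lit 379))) (XT.nd (nat_lit 78) (nat_lit 456) (nat_lit 0) (XT.lf (nat_lit 0) (nat_lit 335177480) (nat_lit 456) (nat_lit 7296724615) (nat_lit 76) (nat_lit 1124773434) (nat_lit 201) (nat_lit 5) (nat_lit 207) (nat_lit 5) (nat_lit 202) (nat_lit 5) (nat_lit 426) (nat_lit 396) (nat_lit 378)) (XT.lf (nat_lit 0) (nat_lit 3251459178) (nat_lit 456) (nat_lit 2320646012) (nat_lit 532) (nat_lit 3383071790) (nat_lit 195) (nat_lit 5) (nat_lit 201) (nat_lit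 5) (nat_lit 202) (nat_lit 5) (nat_lit 427) (nat_lit 396) (nat_lit 377))))))) (XT.nd (nat_lit 1014) (nat_lit 3192) (nat_lit 0) (XT.nd (nat_lit 468) (nat_lit 2356) (nat_lit 0) (XT.nd (nat_lit 234) (nat_lit 1444) (nat_lit 0) (XT.nd (nat_lit 78) (nat_lit 760) (nat_lit 0) (XT.lf (nat_lit 0) (nat_lit 1852433529) (nat_lit 456) (nat_lit 4033903447) (nat_lit 76) (nat_lit 3277263828) (nat_lit 189) (nat_lit 5) (nat_lit 195) (nat_lit 5) (nat_lit 190) (nat_lit 5) (nat_lit 428) (nat_lit 396) (nat_lit 376)) (XT.nd (nat_lit 78) (nat_lit 380) (nat_lit 0) (XT.lf (nat_lit 0) (nat_lit 7088699783) (nat_lit 380) (nat_lit 172861494) (nat_lit 456) (nat_lit 2120442935) (nat_lit 184) (nat_lit 5) (nat_lit 189) (nat_lit 5) (nat_lit 190) (nat_lit 5) (nat_lit 429) (nat_lit 396) (nat_lit 375)) (XT.lf (nat_lit 0) (nat_lit 3286326333) (nat_lit 380) (nat_lit 511863949) (nat_lit 76) (nat_lit 5811549062) (nat_lit 179) (nat_lit 5)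 (nat_lit 184) (nat_lit 5) (nat_lit 180) (nat_lit 5) (nat_lit 430) (nat_lit 396) (nat_lit 374)))) (XT.nd (nat_lit 78) (nat_lit 760) (nat_lit 0) (XT.lf (nat_lit 0) (nat_lit 1380634107) (nat_lit 304) (nat_lit 7548178972) (nat_lit 380) (nat_lit 919156914) (nat_lit 170) (nat_lit 5) (nat_lit 174) (nat_lit 5) (nat_lit 175) (nat_lit 5) (nat_lit 431) (nat_lit 396) (nat_lit 373)) (XT.nd (nat_lit 78) (nat_lit 380) (nat_lit 0) (XT.lf (nat_lit 0) (nat_lit 3331530138) (nat_lit 304) (nat_lit 1352757586) (nat_lit 380) (nat_lit 5411814459) (nat_lit 165) (nat_lit 5) (nat_lit 169) (nat_lit 5) (nat_lit 170) (nat_lit 5) (nat_lit 432) (nat_lit 396) (nat_lit 372)) (XT.lf (nat_lit 0) (nat_lit 223721960) (nat_lit 380) (nat_lit 5000670145) (nat_lit 76) (nat_lit 5130885112) (nat_lit 160) (nat_lit 5) (nat_lit 165) (nat_lit 5) (nat_lit 161) (nat_lit 5) (nat_lit 433) (nat_lit 396) (nat_lit 371))))) (XT.nd (nat_lit 234) (nat_lit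 1140) (nat_lit 0) (XT.nd (nat_lit 78) (nat_lit 912) (nat_lit 0) (XT.lf (nat_lit 0) (nat_lit 6048348389) (nat_lit 380) (nat_lit 3194750735) (nat_lit 76) (nat_lit 1382139963) (nat_lit 156) (nat_lit 5) (nat_lit 161) (nat_lit 5) (nat_lit 157) (nat_lit 5) (nat_lit 434) (nat_lit 396) (nat_lit 370)) (XT.nd (nat_lit 78) (nat_lit 532) (nat_lit 0) (XT.lf (nat_lit 0) (nat_lit 1281838271) (nat_lit 380) (nat_lit 1330108217) (nat_lit 76) (nat_lit 8294877315) (nat_lit 151) (nat_lit 5) (nat_lit 156) (nat_lit 5) (nat_lit 152) (nat_lit 5) (nat_lit 435) (nat_lit 396) (nat_lit 369)) (XT.lf (nat_lit 0) (nat_lit 582227494) (nat_lit 228) (nat_lit 6809772376) (nat_lit 304) (nat_lit 3807544988) (nat_lit 144) (nat_lit 5) (nat_lit 147) (nat_lit 5) (nat_lit 148) (nat_lit 5) (nat_lit 436) (nat_lit 396) (nat_lit 368)))) (XT.nd (nat_lit 156) (nat_lit 532) (nat_lit 0) (XT.nd (nat_lit 78) (nat_lit 228) (nat_lit 0) (XT.lf (nat_lit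 0) (nat_lit 2308873663) (nat_lit 380) (nat_lit 8908187174) (nat_lit 76) (nat_lit 287597898) (nat_lit 139) (nat_lit 5) (nat_lit 144) (nat_lit 5) (nat_lit 140) (nat_lit 5) (nat_lit 437) (nat_lit 396) (nat_lit 367)) (XT.lf (nat_lit 0) (nat_lit 4630812658) (nat_lit 228) (nat_lit 4107193452) (nat_lit 304) (nat_lit 3083331922) (nat_lit 136) (nat_lit 5) (nat_lit 139) (nat_lit 5) (nat_lit 140) (nat_lit 5) (nat_lit 438) (nat_lit 396) (nat_lit 366))) (XT.nd (nat_lit 78) (nat_lit 228) (nat_lit 0) (XT.lf (nat_lit 0) (nat_lit 3325114628) (nat_lit 304) (nat_lit 5423497784) (nat_lit 76) (nat_lit 3402623004) (nat_lit 132) (nat_lit 5) (nat_lit 136) (nat_lit 5) (nat_lit 133) (nat_lit 5) (nat_lit 439) (nat_lit 396) (nat_lit 365)) (XT.lf (nat_lit 0) (nat_lit 8881162261) (nat_lit 228) (nat_lit 1179328122) (nat_lit 304) (nat_lit 2434121863) (nat_lit 129) (nat_lit 5) (nat_lit 132) (nat_lit 5) (nat_lit 133) (nat_lit 5)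 (nat_lit 440) (nat_lit 396) (nat_lit 364)))))) (XT.nd (nat_lit 468) (nat_lit 1520) (nat_lit 0) (XT.nd (nat_lit 234) (nat_lit 684) (nat_lit 0) (XT.nd (nat_lit 78) (nat_lit 684) (nat_lit 0) (XT.lf (nat_lit 0) (nat_lit 4294711315) (nat_lit 304) (nat_lit 1794868440) (nat_lit 76) (nat_lit 6761331545) (nat_lit 125) (nat_lit 5) (nat_lit 129) (nat_lit 5) (nat_lit 126) (nat_lit 5) (nat_lit 441) (nat_lit 396) (nat_lit 363)) (XT.nd (nat_lit 78) (nat_lit 228) (nat_lit 0) (XT.lf (nat_lit 0) (nat_lit 84958015) (nat_lit 228) (nat_lit 11296872048) (nat_lit 304) (nat_lit 1840314310) (nat_lit 119) (nat_lit 5) (nat_lit 122) (nat_lit 5) (nat_lit 123) (nat_lit 5) (nat_lit 442) (nat_lit 396) (nat_lit 362)) (XT.lf (nat_lit 0) (nat_lit 2003562149) (nat_lit 152) (nat_lit 3232778253) (nat_lit 228) (nat_lit 8370302888) (nat_lit 116) (nat_lit 5) (nat_lit 118) (nat_lit 5) (nat_lit 119) (nat_lit 5) (nat_lit 443) (nat_lit 396)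 (nat_lit 361)))) (XT.nd (nat_lit 78) (nat_lit 456) (nat_lit 0) (XT.lf (nat_lit 0) (nat_lit 3967638761) (nat_lit 228) (nat_lit 8764160915) (nat_lit 304) (nat_lit 1274936601) (nat_lit 113) (nat_lit 5) (nat_lit 116) (nat_lit 5) (nat_lit 117) (nat_lit 5) (nat_lit 444) (nat_lit 396) (nat_lit 360)) (XT.nd (nat_lit 78) (nat_lit 228) (nat_lit 0) (XT.lf (nat_lit 0) (nat_lit 5953606137) (nat_lit 152) (nat_lit 191918000) (nat_lit 228) (nat_lit 8276810400) (nat_lit 110) (nat_lit 5) (nat_lit 112) (nat_lit 5) (nat_lit 113) (nat_lit 5) (nat_lit 445) (nat_lit 396) (nat_lit 359)) (XT.lf (nat_lit 0) (nat_lit 7954473053) (nat_lit 228) (nat_lit 6105234969) (nat_lit 304) (nat_lit 794159880) (nat_lit 107) (nat_lit 5) (nat_lit 110) (nat_lit 5) (nat_lit 111) (nat_lit 5) (nat_lit 446) (nat_lit 396) (nat_lit 358))))) (XT.nd (nat_lit 234) (nat_lit 912) (nat_lit 0) (XT.nd (nat_lit 78) (nat_lit 380) (nat_lit 0) (XT.lf (nat_lit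 0) (nat_lit 7025581555) (nat_lit 228) (nat_lit 5334575399) (nat_lit 76) (nat_lit 2941766476) (nat_lit 104) (nat_lit 5) (nat_lit 107) (nat_lit 5) (nat_lit 105) (nat_lit 5) (nat_lit 447) (nat_lit 396) (nat_lit 357)) (XT.nd (nat_lit 78) (nat_lit 228) (nat_lit 0) (XT.lf (nat_lit 0) (nat_lit 12019957885) (nat_lit 152) (nat_lit 3337616340) (nat_lit 228) (nat_lit 410446174) (nat_lit 102) (nat_lit 5) (nat_lit 104) (nat_lit 5) (nat_lit 105) (nat_lit 5) (nat_lit 448) (nat_lit 396) (nat_lit 356)) (XT.lf (nat_lit 0) (nat_lit 7838501340) (nat_lit 228) (nat_lit 2208528790) (nat_lit 76) (nat_lit 6203846069) (nat_lit 99) (nat_lit 5) (nat_lit 102) (nat_lit 5) (nat_lit 100) (nat_lit 5) (nat_lit 449) (nat_lit 396) (nat_lit 355)))) (XT.nd (nat_lit 156) (nat_lit 380) (nat_lit 0) (XT.nd (nat_lit 78) (nat_lit 380) (nat_lit 0) (XT.lf (nat_lit 0) (nat_lit 16131396006) (nat_lit 152) (nat_lit 481469879) (nat_lit 228) (nat_lit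 141247828) (nat_lit 97) (nat_lit 5) (nat_lit 99) (nat_lit 5) (nat_lit 100) (nat_lit 5) (nat_lit 450) (nat_lit 396) (nat_lit 354)) (XT.lf (nat_lit 0) (nat_lit 886677229) (nat_lit 152) (nat_lit 7686714428) (nat_lit 228) (nat_lit 8700761868) (nat_lit 92) (nat_lit 5) (nat_lit 94) (nat_lit 5) (nat_lit 95) (nat_lit 5) (nat_lit 451) (nat_lit 396) (nat_lit 353))) (XT.nd (nat_lit 78) (nat_lit 152) (nat_lit 0) (XT.lf (nat_lit 0) (nat_lit 37897257) (nat_lit 228) (nat_lit 15362433068) (nat_lit 76) (nat_lit 2415797485) (nat_lit 89) (nat_lit 5) (nat_lit 92) (nat_lit 5) (nat_lit 90) (nat_lit 5) (nat_lit 452) (nat_lit 396) (nat_lit 352)) (XT.lf (nat_lit 0) (nat_lit 3923496293) (nat_lit 152) (nat_lit 5295386788) (nat_lit 228) (nat_lit 9158176917) (nat_lit 87) (nat_lit 5) (nat_lit 89) (nat_lit 5) (nat_lit 90) (nat_lit 5) (nat_lit 453) (nat_lit 396) (nat_lit 351))))))))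
noncomputable def xc41 : XT := (XT.nd (nat_lit 1950) (nat_lit 1520) (nat_lit 0) (XT.nd (nat_lit 936) (nat_lit 1444) (nat_lit 0) (XT.nd (nat_lit 468) (nat_lit 912) (nat_lit 0) (XT.nd (nat_lit 234) (nat_lit 532) (nat_lit 0) (XT.nd (nat_lit 78) (nat_lit 228) (nat_lit 0) (XT.lf (nat_lit 0) (nat_lit 59677448) (nat_lit 228) (nat_lit 13557585520) (nat_lit 76) (nat_lit 5343868939) (nat_lit 84) (nat_lit 5) (nat_lit 87) (nat_lit 5) (nat_lit 85) (nat_lit 5) (nat_lit 454) (nat_lit 396) (nat_lit 350)) (XT.nd (nat_lit 78) (nat_lit 76) (nat_lit 0) (XT.lf (nat_lit 0) (nat_lit 6791951438) (nat_lit 152) (nat_lit 2930260323) (nat_lit 228) (nat_lit 9844282921) (nat_lit 82) (nat_lit 5) (nat_lit 84) (nat_lit 5) (nat_lit 85) (nat_lit 5) (nat_lit 455) (nat_lit 396) (nat_lit 349)) (XT.lf (nat_lit 0) (nat_lit 8146438991) (nat_lit 76) (nat_lit 11925038068) (nat_lit 152) (nat_lit 124543541) (nat_lit 81) (nat_lit 5) (nat_lit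 82) (nat_lit 5) (nat_lit 83) (nat_lit 4) (nat_lit 456) (nat_lit 396) (nat_lit 348)))) (XT.nd (nat_lit 78) (nat_lit 304) (nat_lit 0) (XT.lf (nat_lit 0) (nat_lit 9410584118) (nat_lit 152) (nat_lit 633351549) (nat_lit 228) (nat_lit 10805398660) (nat_lit 78) (nat_lit 5) (nat_lit 80) (nat_lit 5) (nat_lit 81) (nat_lit 5) (nat_lit 457) (nat_lit 396) (nat_lit 347)) (XT.nd (nat_lit 78) (nat_lit 228) (nat_lit 0) (XT.lf (nat_lit 0) (nat_lit 10590622373) (nat_lit 76) (nat_lit 10371342983) (nat_lit 152) (nat_lit 566003081) (nat_lit 77) (nat_lit 5) (nat_lit 78) (nat_lit 5) (nat_lit 79) (nat_lit 4) (nat_lit 458) (nat_lit 396) (nat_lit 346)) (XT.lf (nat_lit 0) (nat_lit 10149645126) (nat_lit 228) (nat_lit 10568620287) (nat_lit 76) (nat_lit 1514443075) (nat_lit 74) (nat_lit 5) (nat_lit 77) (nat_lit 5) (nat_lit 75) (nat_lit 4) (nat_lit 459) (nat_lit 396) (nat_lit 345))))) (XT.nd (nat_lit 234) (nat_lit 532) (nat_lit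 0) (XT.nd (nat_lit 78) (nat_lit 304) (nat_lit 0) (XT.lf (nat_lit 0) (nat_lit 12626052044) (nat_lit 76) (nat_lit 9015770165) (nat_lit 152) (nat_lit 1323124076) (nat_lit 73) (nat_lit 5) (nat_lit 74) (nat_lit 5) (nat_lit 75) (nat_lit 4) (nat_lit 460) (nat_lit 396) (nat_lit 344)) (XT.nd (nat_lit 78) (nat_lit 76) (nat_lit 0) (XT.lf (nat_lit 0) (nat_lit 9968010514) (nat_lit 228) (nat_lit 10284251222) (nat_lit 76) (nat_lit 3473024676) (nat_lit 70) (nat_lit 5) (nat_lit 73) (nat_lit 5) (nat_lit 71) (nat_lit 4) (nat_lit 461) (nat_lit 396) (nat_lit 343)) (XT.lf (nat_lit 0) (nat_lit 14117780196) (nat_lit 76) (nat_lit 7929258433) (nat_lit 152) (nat_lit 2468693018) (nat_lit 69) (nat_lit 5) (nat_lit 70) (nat_lit 5) (nat_lit 71) (nat_lit 4) (nat_lit 462) (nat_lit 396) (nat_lit 342)))) (XT.nd (nat_lit 78) (nat_lit 304) (nat_lit 0) (XT.lf (nat_lit 0) (nat_lit 9417723281) (nat_lit 228) (nat_lit 10736843086) (nat_lit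 76) (nat_lit 5181932737) (nat_lit 66) (nat_lit 5) (nat_lit 69) (nat_lit 5) (nat_lit 67) (nat_lit 4) (nat_lit 463) (nat_lit 396) (nat_lit 341)) (XT.nd (nat_lit 78) (nat_lit 228) (nat_lit 0) (XT.lf (nat_lit 0) (nat_lit 14901878084) (nat_lit 76) (nat_lit 7197116973) (nat_lit 152) (nat_lit 4091030757) (nat_lit 65) (nat_lit 5) (nat_lit 66) (nat_lit 5) (nat_lit 67) (nat_lit 4) (nat_lit 464) (nat_lit 396) (nat_lit 340)) (XT.lf (nat_lit 0) (nat_lit 8407271634) (nat_lit 228) (nat_lit 12116129484) (nat_lit 76) (nat_lit 6553177399) (nat_lit 62) (nat_lit 5) (nat_lit 65) (nat_lit 5) (nat_lit 63) (nat_lit 4) (nat_lit 465) (nat_lit 396) (nat_lit 339)))))) (XT.nd (nat_lit 468) (nat_lit 684) (nat_lit 0) (XT.nd (nat_lit 234) (nat_lit 380) (nat_lit 0) (XT.nd (nat_lit 78) (nat_lit 304) (nat_lit 0) (XT.lf (nat_lit 0) (nat_lit 14779930922) (nat_lit 76) (nat_lit 6921859625) (nat_lit 152) (nat_lit 6296777504) (nat_lit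 61) (nat_lit 5) (nat_lit 62) (nat_lit 5) (nat_lit 63) (nat_lit 4) (nat_lit 466) (nat_lit 396) (nat_lit 338)) (XT.nd (nat_lit 78) (nat_lit 76) (nat_lit 0) (XT.lf (nat_lit 0) (nat_lit 6825903490) (nat_lit 228) (nat_lit 14650352642) (nat_lit 76) (nat_lit 7480607252) (nat_lit 58) (nat_lit 5) (nat_lit 61) (nat_lit 5) (nat_lit 59) (nat_lit 4) (nat_lit 467) (nat_lit 396) (nat_lit 337)) (XT.lf (nat_lit 0) (nat_lit 13512563799) (nat_lit 76) (nat_lit 7226525889) (nat_lit 152) (nat_lit 9214176984) (nat_lit 57) (nat_lit 5) (nat_lit 58) (nat_lit 5) (nat_lit 59) (nat_lit 4) (nat_lit 468) (nat_lit 396) (nat_lit 336)))) (XT.nd (nat_lit 78) (nat_lit 228) (nat_lit 0) (XT.lf (nat_lit 0) (nat_lit 4540149382) (nat_lit 152) (nat_lit 18613389701) (nat_lit 76) (nat_lit 7836401650) (nat_lit 55) (nat_lit 5) (nat_lit 57) (nat_lit 5) (nat_lit 56) (nat_lit 4) (nat_lit 469) (nat_lit 396) (nat_lit 335)) (XT.nd (nat_lit 78) (nat_lit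 152) (nat_lit 0) (XT.lf (nat_lit 0) (nat_lit 10811829920) (nat_lit 76) (nat_lit 8258574826) (nat_lit 152) (nat_lit 12996944875) (nat_lit 54) (nat_lit 5) (nat_lit 55) (nat_lit 5) (nat_lit 56) (nat_lit 4) (nat_lit 470) (nat_lit 396) (nat_lit 334)) (XT.lf (nat_lit 0) (nat_lit 1389726805) (nat_lit 152) (nat_lit 24333126492) (nat_lit 76) (nat_lit 7466955252) (nat_lit 52) (nat_lit 5) (nat_lit 54) (nat_lit 5) (nat_lit 53) (nat_lit 4) (nat_lit 471) (nat_lit 396) (nat_lit 333))))) (XT.nd (nat_lit 234) (nat_lit 456) (nat_lit 0) (XT.nd (nat_lit 78) (nat_lit 152) (nat_lit 0) (XT.lf (nat_lit 0) (nat_lit 6332263722) (nat_lit 76) (nat_lit 10194452563) (nat_lit 152) (nat_lit 17828821366) (nat_lit 51) (nat_lit 5) (nat_lit 52) (nat_lit 5) (nat_lit 53) (nat_lit 4) (nat_lit 472) (nat_lit 396) (nat_lit 332)) (XT.nd (nat_lit 78) (nat_lit 76) (nat_lit 0) (XT.lf (nat_lit 0) (nat_lit 3342319276) (nat_lit 76) (nat_lit 29355565869)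 (nat_lit 76) (nat_lit 2873349242) (nat_lit 50) (nat_lit 4) (nat_lit 51) (nat_lit 5) (nat_lit 51) (nat_lit 4) (nat_lit 473) (nat_lit 396) (nat_lit 331)) (XT.lf (nat_lit 0) (nat_lit 12908583630) (nat_lit 152) (nat_lit 333004791) (nat_lit 76) (nat_lit 23592557337) (nat_lit 49) (nat_lit 5) (nat_lit 51) (nat_lit 5) (nat_lit 50) (nat_lit 4) (nat_lit 474) (nat_lit 396) (nat_lit 330)))) (XT.nd (nat_lit 156) (nat_lit 228) (nat_lit 0) (XT.nd (nat_lit 78) (nat_lit 152) (nat_lit 0) (XT.lf (nat_lit 0) (nat_lit 29720555603) (nat_lit 152) (nat_lit 4524774839) (nat_lit 0) (nat_lit 3905008702) (nat_lit 48) (nat_lit 5) (nat_lit 50) (nat_lit 4) (nat_lit 48) (nat_lit 4) (nat_lit 475) (nat_lit 396) (nat_lit 329)) (XT.lf (nat_lit 0) (nat_lit 8056979632) (nat_lit 152) (nat_lit 9508499373) (nat_lit 76) (nat_lit 21953527033) (nat_lit 46) (nat_lit 5) (nat_lit 48) (nat_lit 5) (nat_lit 47) (nat_lit 4) (nat_lit 476) (nat_lit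 396) (nat_lit 328))) (XT.nd (nat_lit 78) (nat_lit 152) (nat_lit 0) (XT.lf (nat_lit 0) (nat_lit 25432687218) (nat_lit 152) (nat_lit 15236860233) (nat_lit 0) (nat_lit 276887353) (nat_lit 45) (nat_lit 5) (nat_lit 47) (nat_lit 4) (nat_lit 45) (nat_lit 4) (nat_lit 477) (nat_lit 396) (nat_lit 327)) (XT.lf (nat_lit 0) (nat_lit 1627367279) (nat_lit 152) (nat_lit 21895060591) (nat_lit 76) (nat_lit 18909868792) (nat_lit 43) (nat_lit 5) (nat_lit 45) (nat_lit 5) (nat_lit 44) (nat_lit 4) (nat_lit 478) (nat_lit 396) (nat_lit 326))))))) (XT.nd (nat_lit 1014) (nat_lit 456) (nat_lit 0) (XT.nd (nat_lit 468) (nat_lit 532) (nat_lit 0) (XT.nd (nat_lit 234) (nat_lit 304) (nat_lit 0) (XT.nd (nat_lit 78) (nat_lit 152) (nat_lit 0) (XT.lf (nat_lit 0) (nat_lit 14442415998) (nat_lit 76) (nat_lit 5105273460) (nat_lit 152) (nat_lit 24432864859) (nat_lit 42) (nat_lit 5) (nat_lit 43) (nat_lit 5) (nat_lit 44) (nat_lit 4) (nat_lit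 479) (nat_lit 396) (nat_lit 325)) (XT.nd (nat_lit 78) (nat_lit 76) (nat_lit 0) (XT.lf (nat_lit 0) (nat_lit 7349298666) (nat_lit 76) (nat_lit 31393763011) (nat_lit 76) (nat_lit 6851792862) (nat_lit 41) (nat_lit 4) (nat_lit 42) (nat_lit 5) (nat_lit 42) (nat_lit 4) (nat_lit 480) (nat_lit 396) (nat_lit 324)) (XT.lf (nat_lit 0) (nat_lit 11685476394) (nat_lit 152) (nat_lit 856362131) (nat_lit 76) (nat_lit 34735574383) (nat_lit 40) (nat_lit 5) (nat_lit 42) (nat_lit 5) (nat_lit 41) (nat_lit 4) (nat_lit 481) (nat_lit 396) (nat_lit 323)))) (XT.nd (nat_lit 78) (nat_lit 228) (nat_lit 0) (XT.lf (nat_lit 0) (nat_lit 31405329308) (nat_lit 152) (nat_lit 10114704906) (nat_lit 0) (nat_lit 7510107639) (nat_lit 39) (nat_lit 5) (nat_lit 41) (nat_lit 4) (nat_lit 39) (nat_lit 4) (nat_lit 482) (nat_lit 396) (nat_lit 322)) (XT.nd (nat_lit 78) (nat_lit 76) (nat_lit 0) (XT.lf (nat_lit 0) (nat_lit 1594544983) (nat_lit 152)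 (nat_lit 20689917272) (nat_lit 76) (nat_lit 28574345163) (nat_lit 37) (nat_lit 5) (nat_lit 39) (nat_lit 5) (nat_lit 38) (nat_lit 4) (nat_lit 483) (nat_lit 396) (nat_lit 321)) (XT.lf (nat_lit 0) (nat_lit 20014951215) (nat_lit 76) (nat_lit 1646088646) (nat_lit 152) (nat_lit 31105111523) (nat_lit 36) (nat_lit 5) (nat_lit 37) (nat_lit 5) (nat_lit 38) (nat_lit 4) (nat_lit 484) (nat_lit 396) (nat_lit 320))))) (XT.nd (nat_lit 234) (nat_lit 304) (nat_lit 0) (XT.nd (nat_lit 78) (nat_lit 152) (nat_lit 0) (XT.lf (nat_lit 0) (nat_lit 8295108925) (nat_lit 76) (nat_lit 34873821404) (nat_lit 76) (nat_lit 11586790611) (nat_lit 35) (nat_lit 4) (nat_lit 36) (nat_lit 5) (nat_lit 36) (nat_lit 4) (nat_lit 485) (nat_lit 396) (nat_lit 319)) (XT.nd (nat_lit 78) (nat_lit 76) (nat_lit 0) (XT.lf (nat_lit 0) (nat_lit 9042446645) (nat_lit 152) (nat_lit 4957384688) (nat_lit 76) (nat_lit 42833104907) (nat_lit 34) (nat_lit 5)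 (nat_lit 36) (nat_lit 5) (nat_lit 35) (nat_lit 4) (nat_lit 486) (nat_lit 396) (nat_lit 318)) (XT.lf (nat_lit 0) (nat_lit 30876927884) (nat_lit 152) (nat_lit 19903350874) (nat_lit 0) (nat_lit 8217889942) (nat_lit 33) (nat_lit 5) (nat_lit 35) (nat_lit 4) (nat_lit 33) (nat_lit 4) (nat_lit 487) (nat_lit 396) (nat_lit 317)))) (XT.nd (nat_lit 156) (nat_lit 76) (nat_lit 0) (XT.nd (nat_lit 78) (nat_lit 152) (nat_lit 0) (XT.lf (nat_lit 0) (nat_lit 24428907143) (nat_lit 76) (nat_lit 29756835034) (nat_lit 76) (nat_lit 7074442768) (nat_lit 32) (nat_lit 4) (nat_lit 33) (nat_lit 5) (nat_lit 33) (nat_lit 4) (nat_lit 488) (nat_lit 396) (nat_lit 316)) (XT.lf (nat_lit 0) (nat_lit 7680564893) (nat_lit 76) (nat_lit 7287513614) (nat_lit 152) (nat_lit 48655794024) (nat_lit 30) (nat_lit 5) (nat_lit 31) (nat_lit 5) (nat_lit 32) (nat_lit 4) (nat_lit 489) (nat_lit 396) (nat_lit 315))) (XT.nd (nat_lit 78) (nat_lit 76) (nat_lit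 0) (XT.lf (nat_lit 0) (nat_lit 38464118060) (nat_lit 152) (nat_lit 11224376888) (nat_lit 0) (nat_lit 16400217537) (nat_lit 30) (nat_lit 5) (nat_lit 32) (nat_lit 4) (nat_lit 30) (nat_lit 4) (nat_lit 490) (nat_lit 396) (nat_lit 314)) (XT.lf (nat_lit 0) (nat_lit 36283270081) (nat_lit 76) (nat_lit 27232789492) (nat_lit 76) (nat_lit 5149302228) (nat_lit 29) (nat_lit 4) (nat_lit 30) (nat_lit 5) (nat_lit 30) (nat_lit 4) (nat_lit 491) (nat_lit 396) (nat_lit 313)))))) (XT.nd (nat_lit 55770) (nat_lit 0) (nat_lit 25840) (XT.nd (nat_lit 234) (nat_lit 228) (nat_lit 0) (XT.nd (nat_lit 78) (nat_lit 76) (nat_lit 0) (XT.lf (nat_lit 0) (nat_lit 15068876165) (nat_lit 76) (nat_lit 3241969878) (nat_lit 152) (nat_lit 53048043988) (nat_lit 27) (nat_lit 5) (nat_lit 28) (nat_lit 5) (nat_lit 29) (nat_lit 4) (nat_lit 492) (nat_lit 396) (nat_lit 312)) (XT.nd (nat_lit 78) (nat_lit 76) (nat_lit 0) (XT.lf (nat_lit 0) (nat_lit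 43346500981) (nat_lit 152) (nat_lit 8952931609) (nat_lit 0) (nat_lit 21870863065) (nat_lit 27) (nat_lit 5) (nat_lit 29) (nat_lit 4) (nat_lit 27) (nat_lit 4) (nat_lit 493) (nat_lit 396) (nat_lit 311)) (XT.lf (nat_lit 0) (nat_lit 41452246113) (nat_lit 76) (nat_lit 28575143548) (nat_lit 76) (nat_lit 7083078677) (nat_lit 26) (nat_lit 4) (nat_lit 27) (nat_lit 5) (nat_lit 27) (nat_lit 4) (nat_lit 494) (nat_lit 396) (nat_lit 310)))) (XT.nd (nat_lit 78) (nat_lit 76) (nat_lit 0) (XT.lf (nat_lit 0) (nat_lit 14405027014) (nat_lit 76) (nat_lit 3285976238) (nat_lit 152) (nat_lit 62495664349) (nat_lit 24) (nat_lit 5) (nat_lit 25) (nat_lit 5) (nat_lit 26) (nat_lit 4) (nat_lit 495) (nat_lit 396) (nat_lit 309)) (XT.nd (nat_lit 78) (nat_lit 76) (nat_lit 0) (XT.lf (nat_lit 0) (nat_lit 44116762853) (nat_lit 152) (nat_lit 16060000835) (nat_lit 0) (nat_lit 23221025648) (nat_lit 24) (nat_lit 5) (nat_lit 26) (nat_lit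 4) (nat_lit 24) (nat_lit 4) (nat_lit 496) (nat_lit 396) (nat_lit 308)) (XT.lf (nat_lit 0) (nat_lit 36763234708) (nat_lit 76) (nat_lit 35452593151) (nat_lit 76) (nat_lit 14543079032) (nat_lit 23) (nat_lit 4) (nat_lit 24) (nat_lit 5) (nat_lit 24) (nat_lit 4) (nat_lit 497) (nat_lit 396) (nat_lit 307))))) (XT.nd (nat_lit 234) (nat_lit 3116) (nat_lit 0) (XT.nd (nat_lit 78) (nat_lit 1140) (nat_lit 0) (XT.lf (nat_lit 0) (nat_lit 1439096578) (nat_lit 380) (nat_lit 916984257) (nat_lit 380) (nat_lit 916984257) (nat_lit 419) (nat_lit 4) (nat_lit 424) (nat_lit 5) (nat_lit 424) (nat_lit 4) (nat_lit 406) (nat_lit 397) (nat_lit 397)) (XT.nd (nat_lit 78) (nat_lit 608) (nat_lit 0) (XT.lf (nat_lit 0) (nat_lit 2914771155) (nat_lit 456) (nat_lit 553507866) (nat_lit 532) (nat_lit 3116587999) (nat_lit 412) (nat_lit 5) (nat_lit 418) (nat_lit 5) (nat_lit 419) (nat_lit 4) (nat_lit 407) (nat_lit 397) (nat_lit 396)) (XT.lf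 (nat_lit 0) (nat_lit 2097144991) (nat_lit 608) (nat_lit 3563380301) (nat_lit 76) (nat_lit 970733433) (nat_lit 404) (nat_lit 5) (nat_lit 412) (nat_lit 5) (nat_lit 405) (nat_lit 4) (nat_lit 408) (nat_lit 397) (nat_lit 395)))) (XT.nd (nat_lit 156) (nat_lit 1748) (nat_lit 0) (XT.nd (nat_lit 78) (nat_lit 684) (nat_lit 0) (XT.lf (nat_lit 0) (nat_lit 592845718) (nat_lit 684) (nat_lit 3346041100) (nat_lit 76) (nat_lit 2746554251) (nat_lit 395) (nat_lit 5) (nat_lit 404) (nat_lit 5) (nat_lit 396) (nat_lit 5) (nat_lit 409) (nat_lit 397) (nat_lit 394)) (XT.lf (nat_lit 0) (nat_lit 3724696372) (nat_lit 684) (nat_lit 1947095924) (nat_lit 760) (nat_lit 1075571842) (nat_lit 386) (nat_lit 5) (nat_lit 395) (nat_lit 5) (nat_lit 396) (nat_lit 5) (nat_lit 410) (nat_lit 397) (nat_lit 393))) (XT.nd (nat_lit 78) (nat_lit 912) (nat_lit 0) (XT.lf (nat_lit 0) (nat_lit 3913368557) (nat_lit 836) (nat_lit 2592460817) (nat_lit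 76) (nat_lit 311314986) (nat_lit 375) (nat_lit 5) (nat_lit 386) (nat_lit 5) (nat_lit 376) (nat_lit 5) (nat_lit 411) (nat_lit 397) (nat_lit 392)) (XT.lf (nat_lit 0) (nat_lit 2027831073) (nat_lit 912) (nat_lit 2066826516) (nat_lit 76) (nat_lit 2799879260) (nat_lit 363) (nat_lit 5) (nat_lit 375) (nat_lit 5) (nat_lit 364) (nat_lit 5) (nat_lit 412) (nat_lit 397) (nat_lit 391))))))))
noncomputable def xc42 : XT := (XT.nd (nat_lit 1950) (nat_lit 5624) (nat_lit 0) (XT.nd (nat_lit 936) (nat_lit 5852) (nat_lit 0) (XT.nd (nat_lit 468) (nat_lit 3876) (nat_lit 0) (XT.nd (nat_lit 234) (nat_lit 2736) (nat_lit 0) (XT.nd (nat_lit 78) (nat_lit 3344) (nat_lit 0) (XT.lf (nat_lit 0) (nat_lit 5554457158) (nat_lit 912) (nat_lit 1416258605) (nat_lit 988) (nat_lit 9527576) (nat_lit 351) (nat_lit 5) (nat_lit 363) (nat_lit 5) (nat_lit 364) (nat_lit 5) (nat_lit 413) (nat_lit 397) (nat_lit 390)) (XT.nd (nat_lit 78) (nat_lit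 2280) (nat_lit 0) (XT.lf (nat_lit 0) (nat_lit 4840513911) (nat_lit 1064) (nat_lit 703965501) (nat_lit 76) (nat_lit 1528853308) (nat_lit 337) (nat_lit 5) (nat_lit 351) (nat_lit 5) (nat_lit 338) (nat_lit 5) (nat_lit 414) (nat_lit 397) (nat_lit 389)) (XT.lf (nat_lit 0) (nat_lit 121503269) (nat_lit 1140) (nat_lit 2447108548) (nat_lit 1216) (nat_lit 4605886233) (nat_lit 307) (nat_lit 5) (nat_lit 322) (nat_lit 5) (nat_lit 323) (nat_lit 5) (nat_lit 415) (nat_lit 397) (nat_lit 388)))) (XT.nd (nat_lit 78) (nat_lit 1444) (nat_lit 0) (XT.lf (nat_lit 0) (nat_lit 150301686) (nat_lit 1292) (nat_lit 6212706404) (nat_lit 76) (nat_lit 920848652) (nat_lit 290) (nat_lit 5) (nat_lit 307) (nat_lit 5) (nat_lit 291) (nat_lit 5) (nat_lit 416) (nat_lit 397) (nat_lit 387)) (XT.nd (nat_lit 78) (nat_lit 684) (nat_lit 0) (XT.lf (nat_lit 0) (nat_lit 2091439888) (nat_lit 760) (nat_lit 2849698479) (nat_lit 836) (nat_lit 2459451258)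 (nat_lit 280) (nat_lit 5) (nat_lit 290) (nat_lit 5) (nat_lit 291) (nat_lit 5) (nat_lit 417) (nat_lit 397) (nat_lit 386)) (XT.lf (nat_lit 0) (nat_lit 2284948987) (nat_lit 684) (nat_lit 4304840746) (nat_lit 76) (nat_lit 936166761) (nat_lit 271) (nat_lit 5) (nat_lit 280) (nat_lit 5) (nat_lit 272) (nat_lit 5) (nat_lit 418) (nat_lit 397) (nat_lit 385))))) (XT.nd (nat_lit 234) (nat_lit 2052) (nat_lit 0) (XT.nd (nat_lit 78) (nat_lit 1216) (nat_lit 0) (XT.lf (nat_lit 0) (nat_lit 4437895423) (nat_lit 608) (nat_lit 2692730304) (nat_lit 684) (nat_lit 528820579) (nat_lit 263) (nat_lit 5) (nat_lit 271) (nat_lit 5) (nat_lit 272) (nat_lit 5) (nat_lit 419) (nat_lit 397) (nat_lit 384)) (XT.nd (nat_lit 78) (nat_lit 608) (nat_lit 0) (XT.lf (nat_lit 0) (nat_lit 4241246560) (nat_lit 608) (nat_lit 2062505883) (nat_lit 76) (nat_lit 1497359109) (nat_lit 255) (nat_lit 5) (nat_lit 263) (nat_lit 5) (nat_lit 256) (nat_lit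 5) (nat_lit 420) (nat_lit 397) (nat_lit 383)) (XT.lf (nat_lit 0) (nat_lit 1194069382) (nat_lit 608) (nat_lit 816080091) (nat_lit 76) (nat_lit 5941308311) (nat_lit 247) (nat_lit 5) (nat_lit 255) (nat_lit 5) (nat_lit 248) (nat_lit 5) (nat_lit 421) (nat_lit 397) (nat_lit 382)))) (XT.nd (nat_lit 78) (nat_lit 988) (nat_lit 0) (XT.lf (nat_lit 0) (nat_lit 512062513) (nat_lit 532) (nat_lit 5541958208) (nat_lit 608) (nat_lit 2056011600) (nat_lit 233) (nat_lit 5) (nat_lit 240) (nat_lit 5) (nat_lit 241) (nat_lit 5) (nat_lit 422) (nat_lit 397) (nat_lit 381)) (XT.nd (nat_lit 78) (nat_lit 456) (nat_lit 0) (XT.lf (nat_lit 0) (nat_lit 1942772665) (nat_lit 456) (nat_lit 829827643) (nat_lit 532) (nat_lit 5504678087) (nat_lit 226) (nat_lit 5) (nat_lit 232) (nat_lit 5) (nat_lit 233) (nat_lit 5) (nat_lit 423) (nat_lit 397) (nat_lit 380)) (XT.lf (nat_lit 0) (nat_lit 3447319604) (nat_lit 456) (nat_lit 4320988668) (nat_lit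 532) (nat_lit 684945701) (nat_lit 220) (nat_lit 5) (nat_lit 226) (nat_lit 5) (nat_lit 227) (nat_lit 5) (nat_lit 424) (nat_lit 397) (nat_lit 379)))))) (XT.nd (nat_lit 468) (nat_lit 2736) (nat_lit 0) (XT.nd (nat_lit 234) (nat_lit 1672) (nat_lit 0) (XT.nd (nat_lit 78) (nat_lit 912) (nat_lit 0) (XT.lf (nat_lit 0) (nat_lit 4241691301) (nat_lit 532) (nat_lit 3609144121) (nat_lit 76) (nat_lit 787413611) (nat_lit 213) (nat_lit 5) (nat_lit 220) (nat_lit 5) (nat_lit 214) (nat_lit 5) (nat_lit 425) (nat_lit 397) (nat_lit 378)) (XT.nd (nat_lit 78) (nat_lit 380) (nat_lit 0) (XT.lf (nat_lit 0) (nat_lit 544049361) (nat_lit 532) (nat_lit 2141852936) (nat_lit 76) (nat_lit 6146636347) (nat_lit 206) (nat_lit 5) (nat_lit 213) (nat_lit 5) (nat_lit 207) (nat_lit 5) (nat_lit 426) (nat_lit 397) (nat_lit 377)) (XT.lf (nat_lit 0) (nat_lit 5619156686) (nat_lit 456) (nat_lit 618590578) (nat_lit 76) (nat_lit 2798156779) (nat_lit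 201) (nat_lit 5) (nat_lit 207) (nat_lit 5) (nat_lit 202) (nat_lit 5) (nat_lit 427) (nat_lit 397) (nat_lit 376)))) (XT.nd (nat_lit 78) (nat_lit 760) (nat_lit 0) (XT.lf (nat_lit 0) (nat_lit 1008712662) (nat_lit 380) (nat_lit 651104149) (nat_lit 456) (nat_lit 7589317347) (nat_lit 189) (nat_lit 5) (nat_lit 194) (nat_lit 5) (nat_lit 195) (nat_lit 5) (nat_lit 428) (nat_lit 397) (nat_lit 375)) (XT.nd (nat_lit 78) (nat_lit 380) (nat_lit 0) (XT.lf (nat_lit 0) (nat_lit 2693609953) (nat_lit 380) (nat_lit 4247990819) (nat_lit 456) (nat_lit 2529765330) (nat_lit 184) (nat_lit 5) (nat_lit 189) (nat_lit 5) (nat_lit 190) (nat_lit 5) (nat_lit 429) (nat_lit 397) (nat_lit 374)) (XT.lf (nat_lit 0) (nat_lit 2723197646) (nat_lit 380) (nat_lit 5244360163) (nat_lit 76) (nat_lit 1736522877) (nat_lit 179) (nat_lit 5) (nat_lit 184) (nat_lit 5) (nat_lit 180) (nat_lit 5) (nat_lit 430) (nat_lit 397) (nat_lit 373))))) (XT.nd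 (nat_lit 234) (nat_lit 1672) (nat_lit 0) (XT.nd (nat_lit 78) (nat_lit 684) (nat_lit 0) (XT.lf (nat_lit 0) (nat_lit 6290012062) (nat_lit 380) (nat_lit 1918048690) (nat_lit 456) (nat_lit 1738986531) (nat_lit 174) (nat_lit 5) (nat_lit 179) (nat_lit 5) (nat_lit 180) (nat_lit 5) (nat_lit 431) (nat_lit 397) (nat_lit 372)) (XT.nd (nat_lit 78) (nat_lit 304) (nat_lit 0) (XT.lf (nat_lit 0) (nat_lit 3719779768) (nat_lit 380) (nat_lit 2026139037) (nat_lit 76) (nat_lit 4454324070) (nat_lit 169) (nat_lit 5) (nat_lit 174) (nat_lit 5) (nat_lit 170) (nat_lit 5) (nat_lit 432) (nat_lit 397) (nat_lit 371)) (XT.lf (nat_lit 0) (nat_lit 9433400737) (nat_lit 380) (nat_lit 315403503) (nat_lit 76) (nat_lit 716254108) (nat_lit 165) (nat_lit 5) (nat_lit 170) (nat_lit 5) (nat_lit 166) (nat_lit 5) (nat_lit 433) (nat_lit 397) (nat_lit 370)))) (XT.nd (nat_lit 156) (nat_lit 684) (nat_lit 0) (XT.nd (nat_lit 78) (nat_lit 304) (nat_lit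 0) (XT.lf (nat_lit 0) (nat_lit 1445412514) (nat_lit 304) (nat_lit 3223247253) (nat_lit 380) (nat_lit 6070997066) (nat_lit 156) (nat_lit 5) (nat_lit 160) (nat_lit 5) (nat_lit 161) (nat_lit 5) (nat_lit 434) (nat_lit 397) (nat_lit 369)) (XT.lf (nat_lit 0) (nat_lit 3293869971) (nat_lit 304) (nat_lit 7381402440) (nat_lit 380) (nat_lit 351139438) (nat_lit 152) (nat_lit 5) (nat_lit 156) (nat_lit 5) (nat_lit 157) (nat_lit 5) (nat_lit 435) (nat_lit 397) (nat_lit 368))) (XT.nd (nat_lit 78) (nat_lit 304) (nat_lit 0) (XT.lf (nat_lit 0) (nat_lit 5183632016) (nat_lit 304) (nat_lit 403443878) (nat_lit 380) (nat_lit 5737527410) (nat_lit 147) (nat_lit 5) (nat_lit 151) (nat_lit 5) (nat_lit 152) (nat_lit 5) (nat_lit 436) (nat_lit 397) (nat_lit 367)) (XT.lf (nat_lit 0) (nat_lit 257805595) (nat_lit 304) (nat_lit 4505350446) (nat_lit 76) (nat_lit 6871884903) (nat_lit 143) (nat_lit 5) (nat_lit 147) (nat_lit 5) (nat_lit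 144) (nat_lit 5) (nat_lit 437) (nat_lit 397) (nat_lit 366))))))) (XT.nd (nat_lit 1014) (nat_lit 2128) (nat_lit 0) (XT.nd (nat_lit 468) (nat_lit 1596) (nat_lit 0) (XT.nd (nat_lit 234) (nat_lit 836) (nat_lit 0) (XT.nd (nat_lit 78) (nat_lit 760) (nat_lit 0) (XT.lf (nat_lit 0) (nat_lit 6487584875) (nat_lit 380) (nat_lit 2839833184) (nat_lit 76) (nat_lit 2630287349) (nat_lit 139) (nat_lit 5) (nat_lit 144) (nat_lit 5) (nat_lit 140) (nat_lit 5) (nat_lit 438) (nat_lit 397) (nat_lit 365)) (XT.nd (nat_lit 78) (nat_lit 456) (nat_lit 0) (XT.lf (nat_lit 0) (nat_lit 795460758) (nat_lit 304) (nat_lit 1112610193) (nat_lit 76) (nat_lit 10385907568) (nat_lit 135) (nat_lit 5) (nat_lit 139) (nat_lit 5) (nat_lit 136) (nat_lit 5) (nat_lit 439) (nat_lit 397) (nat_lit 364)) (XT.lf (nat_lit 0) (nat_lit 632935214) (nat_lit 228) (nat_lit 6727980656) (nat_lit 304) (nat_lit 5281541125) (nat_lit 129) (nat_lit 5) (nat_lit 132)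 (nat_lit 5) (nat_lit 133) (nat_lit 5) (nat_lit 440) (nat_lit 397) (nat_lit 363)))) (XT.nd (nat_lit 78) (nat_lit 532) (nat_lit 0) (XT.lf (nat_lit 0) (nat_lit 1305158511) (nat_lit 304) (nat_lit 10528725283) (nat_lit 76) (nat_lit 1171628020) (nat_lit 125) (nat_lit 5) (nat_lit 129) (nat_lit 5) (nat_lit 126) (nat_lit 5) (nat_lit 441) (nat_lit 397) (nat_lit 362)) (XT.nd (nat_lit 78) (nat_lit 304) (nat_lit 0) (XT.lf (nat_lit 0) (nat_lit 4318249637) (nat_lit 228) (nat_lit 3909451541) (nat_lit 304) (nat_lit 5153984535) (nat_lit 122) (nat_lit 5) (nat_lit 125) (nat_lit 5) (nat_lit 126) (nat_lit 5) (nat_lit 442) (nat_lit 397) (nat_lit 361)) (XT.lf (nat_lit 0) (nat_lit 1782435594) (nat_lit 304) (nat_lit 7554864506) (nat_lit 76) (nat_lit 4435990287) (nat_lit 118) (nat_lit 5) (nat_lit 122) (nat_lit 5) (nat_lit 119) (nat_lit 5) (nat_lit 443) (nat_lit 397) (nat_lit 360))))) (XT.nd (nat_lit 234) (nat_lit 988) (nat_lit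 0) (XT.nd (nat_lit 78) (nat_lit 456) (nat_lit 0) (XT.lf (nat_lit 0) (nat_lit 8146034253) (nat_lit 152) (nat_lit 912166254) (nat_lit 228) (nat_lit 5121776819) (nat_lit 116) (nat_lit 5) (nat_lit 118) (nat_lit 5) (nat_lit 119) (nat_lit 5) (nat_lit 444) (nat_lit 397) (nat_lit 359)) (XT.nd (nat_lit 78) (nat_lit 152) (nat_lit 0) (XT.lf (nat_lit 0) (nat_lit 2192419129) (nat_lit 304) (nat_lit 4508399214) (nat_lit 76) (nat_lit 7901309391) (nat_lit 112) (nat_lit 5) (nat_lit 116) (nat_lit 5) (nat_lit 113) (nat_lit 5) (nat_lit 445) (nat_lit 397) (nat_lit 358)) (XT.lf (nat_lit 0) (nat_lit 9868725841) (nat_lit 228) (nat_lit 2964576116) (nat_lit 76) (nat_lit 2207498207) (nat_lit 110) (nat_lit 5) (nat_lit 113) (nat_lit 5) (nat_lit 111) (nat_lit 5) (nat_lit 446) (nat_lit 397) (nat_lit 357)))) (XT.nd (nat_lit 156) (nat_lit 380) (nat_lit 0) (XT.nd (nat_lit 78) (nat_lit 304) (nat_lit 0) (XT.lf (nat_lit 0) (nat_lit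 2525777764) (nat_lit 304) (nat_lit 1413854959) (nat_lit 76) (nat_lit 11556707554) (nat_lit 106) (nat_lit 5) (nat_lit 110) (nat_lit 5) (nat_lit 107) (nat_lit 5) (nat_lit 447) (nat_lit 397) (nat_lit 356)) (XT.lf (nat_lit 0) (nat_lit 130918153) (nat_lit 152) (nat_lit 10508965847) (nat_lit 228) (nat_lit 5329092260) (nat_lit 102) (nat_lit 5) (nat_lit 104) (nat_lit 5) (nat_lit 105) (nat_lit 5) (nat_lit 448) (nat_lit 397) (nat_lit 355))) (XT.nd (nat_lit 78) (nat_lit 152) (nat_lit 0) (XT.lf (nat_lit 0) (nat_lit 1731549385) (nat_lit 152) (nat_lit 1053906733) (nat_lit 228) (nat_lit 13674707999) (nat_lit 99) (nat_lit 5) (nat_lit 101) (nat_lit 5) (nat_lit 102) (nat_lit 5) (nat_lit 449) (nat_lit 397) (nat_lit 354)) (XT.lf (nat_lit 0) (nat_lit 3282888594) (nat_lit 152) (nat_lit 8093891552) (nat_lit 228) (nat_lit 5592114833) (nat_lit 97) (nat_lit 5) (nat_lit 99) (nat_lit 5) (nat_lit 100) (nat_lit 5) (nat_lit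 450) (nat_lit 397) (nat_lit 353)))))) (XT.nd (nat_lit 468) (nat_lit 988) (nat_lit 0) (XT.nd (nat_lit 234) (nat_lit 532) (nat_lit 0) (XT.nd (nat_lit 78) (nat_lit 380) (nat_lit 0) (XT.lf (nat_lit 0) (nat_lit 2968288234) (nat_lit 228) (nat_lit 12634781713) (nat_lit 76) (nat_lit 1895256801) (nat_lit 94) (nat_lit 5) (nat_lit 97) (nat_lit 5) (nat_lit 95) (nat_lit 5) (nat_lit 451) (nat_lit 397) (nat_lit 352)) (XT.nd (nat_lit 78) (nat_lit 228) (nat_lit 0) (XT.lf (nat_lit 0) (nat_lit 6387727325) (nat_lit 152) (nat_lit 5643013665) (nat_lit 228) (nat_lit 6016141448) (nat_lit 92) (nat_lit 5) (nat_lit 94) (nat_lit 5) (nat_lit 95) (nat_lit 5) (nat_lit 452) (nat_lit 397) (nat_lit 351)) (XT.lf (nat_lit 0) (nat_lit 3027458962) (nat_lit 228) (nat_lit 10704984151) (nat_lit 76) (nat_lit 4884751633) (nat_lit 89) (nat_lit 5) (nat_lit 92) (nat_lit 5) (nat_lit 90) (nat_lit 5) (nat_lit 453) (nat_lit 397) (nat_lit 350))))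 (XT.nd (nat_lit 78) (nat_lit 380) (nat_lit 0) (XT.lf (nat_lit 0) (nat_lit 9389718787) (nat_lit 152) (nat_lit 3186164362) (nat_lit 228) (nat_lit 6633043933) (nat_lit 87) (nat_lit 5) (nat_lit 89) (nat_lit 5) (nat_lit 90) (nat_lit 5) (nat_lit 454) (nat_lit 397) (nat_lit 349)) (XT.nd (nat_lit 78) (nat_lit 152) (nat_lit 0) (XT.lf (nat_lit 0) (nat_lit 2920463356) (nat_lit 228) (nat_lit 8997183370) (nat_lit 76) (nat_lit 7905711333) (nat_lit 84) (nat_lit 5) (nat_lit 87) (nat_lit 5) (nat_lit 85) (nat_lit 5) (nat_lit 455) (nat_lit 397) (nat_lit 348)) (XT.lf (nat_lit 0) (nat_lit 12219676151) (nat_lit 152) (nat_lit 759272613) (nat_lit 228) (nat_lit 7482660066) (nat_lit 82) (nat_lit 5) (nat_lit 84) (nat_lit 5) (nat_lit 85) (nat_lit 5) (nat_lit 456) (nat_lit 397) (nat_lit 347))))) (XT.nd (nat_lit 234) (nat_lit 532) (nat_lit 0) (XT.nd (nat_lit 78) (nat_lit 304) (nat_lit 0) (XT.lf (nat_lit 0) (nat_lit 2606663908)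 (nat_lit 152) (nat_lit 7594825529) (nat_lit 76) (nat_lit 10922238545) (nat_lit 80) (nat_lit 5) (nat_lit 82) (nat_lit 5) (nat_lit 81) (nat_lit 5) (nat_lit 457) (nat_lit 397) (nat_lit 346)) (XT.nd (nat_lit 78) (nat_lit 152) (nat_lit 0) (XT.lf (nat_lit 0) (nat_lit 13213314924) (nat_lit 228) (nat_lit 7035325778) (nat_lit 76) (nat_lit 1563064033) (nat_lit 78) (nat_lit 5) (nat_lit 81) (nat_lit 5) (nat_lit 79) (nat_lit 4) (nat_lit 458) (nat_lit 397) (nat_lit 345)) (XT.lf (nat_lit 0) (nat_lit 2035696673) (nat_lit 152) (nat_lit 6599779605) (nat_lit 76) (nat_lit 13890435136) (nat_lit 76) (nat_lit 5) (nat_lit 78) (nat_lit 5) (nat_lit 77) (nat_lit 5) (nat_lit 459) (nat_lit 397) (nat_lit 344)))) (XT.nd (nat_lit 156) (nat_lit 228) (nat_lit 0) (XT.nd (nat_lit 78) (nat_lit 152) (nat_lit 0) (XT.lf (nat_lit 0) (nat_lit 13217541325) (nat_lit 228) (nat_lit 6303072552) (nat_lit 76) (nat_lit 3746846435) (nat_lit 74)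 (nat_lit 5) (nat_lit 77) (nat_lit 5) (nat_lit 75) (nat_lit 4) (nat_lit 460) (nat_lit 397) (nat_lit 343)) (XT.lf (nat_lit 0) (nat_lit 1145733873) (nat_lit 152) (nat_lit 6135945998) (nat_lit 76) (nat_lit 16756611418) (nat_lit 72) (nat_lit 5) (nat_lit 74) (nat_lit 5) (nat_lit 73) (nat_lit 5) (nat_lit 461) (nat_lit 397) (nat_lit 342))) (XT.nd (nat_lit 78) (nat_lit 76) (nat_lit 0) (XT.lf (nat_lit 0) (nat_lit 12919399893) (nat_lit 228) (nat_lit 6174365272) (nat_lit 76) (nat_lit 5744133217) (nat_lit 70) (nat_lit 5) (nat_lit 73) (nat_lit 5) (nat_lit 71) (nat_lit 4) (nat_lit 462) (nat_lit 397) (nat_lit 341)) (XT.lf (nat_lit 0) (nat_lit 19315218861) (nat_lit 76) (nat_lit 6213527083) (nat_lit 152) (nat_lit 141331924) (nat_lit 69) (nat_lit 5) (nat_lit 70) (nat_lit 5) (nat_lit 71) (nat_lit 4) (nat_lit 463) (nat_lit 397) (nat_lit 340))))))))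
noncomputable def xc43 : XT := (XT.nd (nat_lit 1950) (nat_lit 684) (nat_lit 0) (XT.nd (nat_lit 936) (nat_lit 1140) (nat_lit 0) (XT.nd (nat_lit 468) (nat_lit 684) (nat_lit 0) (XT.nd (nat_lit 234) (nat_lit 380) (nat_lit 0) (XT.nd (nat_lit 78) (nat_lit 304) (nat_lit 0) (XT.lf (nat_lit 0) (nat_lit 12239517745) (nat_lit 228) (nat_lit 6814371233) (nat_lit 76) (nat_lit 7478852632) (nat_lit 66) (nat_lit 5) (nat_lit 69) (nat_lit 5) (nat_lit 67) (nat_lit 4) (nat_lit 464) (nat_lit 397) (nat_lit 339)) (XT.nd (nat_lit 78) (nat_lit 228) (nat_lit 0) (XT.lf (nat_lit 0) (nat_lit 19978460655) (nat_lit 76) (nat_lit 5506081359) (nat_lit 152) (nat_lit 1946514602) (nat_lit 65) (nat_lit 5) (nat_lit 66) (nat_lit 5) (nat_lit 67) (nat_lit 4) (nat_lit 465) (nat_lit 397) (nat_lit 338)) (XT.lf (nat_lit 0) (nat_lit 11081451689) (nat_lit 228) (nat_lit 8422346084) (nat_lit 76) (nat_lit 8858946565) (nat_lit 62) (nat_lit 5) (nat_lit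 65) (nat_lit 5) (nat_lit 63) (nat_lit 4) (nat_lit 466) (nat_lit 397) (nat_lit 337)))) (XT.nd (nat_lit 78) (nat_lit 304) (nat_lit 0) (XT.lf (nat_lit 0) (nat_lit 19695270461) (nat_lit 76) (nat_lit 5278247056) (nat_lit 152) (nat_lit 4359333517) (nat_lit 61) (nat_lit 5) (nat_lit 62) (nat_lit 5) (nat_lit 63) (nat_lit 4) (nat_lit 467) (nat_lit 397) (nat_lit 336)) (XT.nd (nat_lit 78) (nat_lit 76) (nat_lit 0) (XT.lf (nat_lit 0) (nat_lit 9328588059) (nat_lit 228) (nat_lit 11237996930) (nat_lit 76) (nat_lit 9773237077) (nat_lit 58) (nat_lit 5) (nat_lit 61) (nat_lit 5) (nat_lit 59) (nat_lit 4) (nat_lit 468) (nat_lit 397) (nat_lit 335)) (XT.lf (nat_lit 0) (nat_lit 18214253371) (nat_lit 76) (nat_lit 5658957856) (nat_lit 152) (nat_lit 7514762999) (nat_lit 57) (nat_lit 5) (nat_lit 58) (nat_lit 5) (nat_lit 59) (nat_lit 4) (nat_lit 469) (nat_lit 397) (nat_lit 334))))) (XT.nd (nat_lit 234) (nat_lit 304) (nat_lit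 0) (XT.nd (nat_lit 78) (nat_lit 228) (nat_lit 0) (XT.lf (nat_lit 0) (nat_lit 6840488364) (nat_lit 152) (nat_lit 15548962039) (nat_lit 76) (nat_lit 10087749726) (nat_lit 55) (nat_lit 5) (nat_lit 57) (nat_lit 5) (nat_lit 56) (nat_lit 4) (nat_lit 470) (nat_lit 397) (nat_lit 333)) (XT.nd (nat_lit 78) (nat_lit 152) (nat_lit 0) (XT.lf (nat_lit 0) (nat_lit 15232999905) (nat_lit 76) (nat_lit 6802829013) (nat_lit 152) (nat_lit 11574495164) (nat_lit 54) (nat_lit 5) (nat_lit 55) (nat_lit 5) (nat_lit 56) (nat_lit 4) (nat_lit 471) (nat_lit 397) (nat_lit 332)) (XT.lf (nat_lit 0) (nat_lit 3448585850) (nat_lit 152) (nat_lit 21699600794) (nat_lit 76) (nat_lit 9641397956) (nat_lit 52) (nat_lit 5) (nat_lit 54) (nat_lit 5) (nat_lit 53) (nat_lit 4) (nat_lit 472) (nat_lit 397) (nat_lit 331)))) (XT.nd (nat_lit 78) (nat_lit 228) (nat_lit 0) (XT.lf (nat_lit 0) (nat_lit 10388694236) (nat_lit 76) (nat_lit 8894947945) (nat_lit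 152) (nat_lit 16731723034) (nat_lit 51) (nat_lit 5) (nat_lit 52) (nat_lit 5) (nat_lit 53) (nat_lit 4) (nat_lit 473) (nat_lit 397) (nat_lit 330)) (XT.nd (nat_lit 78) (nat_lit 152) (nat_lit 0) (XT.lf (nat_lit 0) (nat_lit 7181446790) (nat_lit 76) (nat_lit 29041850694) (nat_lit 76) (nat_lit 1069752972) (nat_lit 50) (nat_lit 4) (nat_lit 51) (nat_lit 5) (nat_lit 51) (nat_lit 4) (nat_lit 474) (nat_lit 397) (nat_lit 329)) (XT.lf (nat_lit 0) (nat_lit 3247077539) (nat_lit 76) (nat_lit 12156496362) (nat_lit 152) (nat_lit 23216764472) (nat_lit 48) (nat_lit 5) (nat_lit 49) (nat_lit 5) (nat_lit 50) (nat_lit 4) (nat_lit 475) (nat_lit 397) (nat_lit 328)))))) (XT.nd (nat_lit 468) (nat_lit 608) (nat_lit 0) (XT.nd (nat_lit 234) (nat_lit 304) (nat_lit 0) (XT.nd (nat_lit 78) (nat_lit 228) (nat_lit 0) (XT.lf (nat_lit 0) (nat_lit 32987362337) (nat_lit 152) (nat_lit 1281984931) (nat_lit 0) (nat_lit 5735058949) (nat_lit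 48) (nat_lit 5) (nat_lit 50) (nat_lit 4) (nat_lit 48) (nat_lit 4) (nat_lit 476) (nat_lit 397) (nat_lit 327)) (XT.nd (nat_lit 78) (nat_lit 76) (nat_lit 0) (XT.lf (nat_lit 0) (nat_lit 10205336465) (nat_lit 152) (nat_lit 6579571156) (nat_lit 76) (nat_lit 24657658966) (nat_lit 46) (nat_lit 5) (nat_lit 48) (nat_lit 5) (nat_lit 47) (nat_lit 4) (nat_lit 477) (nat_lit 397) (nat_lit 326)) (XT.lf (nat_lit 0) (nat_lit 28413997917) (nat_lit 152) (nat_lit 12656587788) (nat_lit 0) (nat_lit 1871857200) (nat_lit 45) (nat_lit 5) (nat_lit 47) (nat_lit 4) (nat_lit 45) (nat_lit 4) (nat_lit 478) (nat_lit 397) (nat_lit 325)))) (XT.nd (nat_lit 78) (nat_lit 152) (nat_lit 0) (XT.lf (nat_lit 0) (nat_lit 3384656569) (nat_lit 152) (nat_lit 19710123531) (nat_lit 76) (nat_lit 21408832179) (nat_lit 43) (nat_lit 5) (nat_lit 45) (nat_lit 5) (nat_lit 44) (nat_lit 4) (nat_lit 479) (nat_lit 397) (nat_lit 324)) (XT.nd (nat_lit 78)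 (nat_lit 76) (nat_lit 0) (XT.lf (nat_lit 0) (nat_lit 18350215231) (nat_lit 76) (nat_lit 3801596558) (nat_lit 152) (nat_lit 23978947548) (nat_lit 42) (nat_lit 5) (nat_lit 43) (nat_lit 5) (nat_lit 44) (nat_lit 4) (nat_lit 480) (nat_lit 397) (nat_lit 323)) (XT.lf (nat_lit 0) (nat_lit 10843992469) (nat_lit 76) (nat_lit 31429829175) (nat_lit 76) (nat_lit 5552947833) (nat_lit 41) (nat_lit 4) (nat_lit 42) (nat_lit 5) (nat_lit 42) (nat_lit 4) (nat_lit 481) (nat_lit 397) (nat_lit 322))))) (XT.nd (nat_lit 234) (nat_lit 304) (nat_lit 0) (XT.nd (nat_lit 78) (nat_lit 152) (nat_lit 0) (XT.lf (nat_lit 0) (nat_lit 2151642421) (nat_lit 76) (nat_lit 11671556760) (nat_lit 152) (nat_lit 35771462795) (nat_lit 39) (nat_lit 5) (nat_lit 40) (nat_lit 5) (nat_lit 41) (nat_lit 4) (nat_lit 482) (nat_lit 397) (nat_lit 321)) (XT.nd (nat_lit 78) (nat_lit 152) (nat_lit 0) (XT.lf (nat_lit 0) (nat_lit 34477258073) (nat_lit 152)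 (nat_lit 7666989488) (nat_lit 0) (nat_lit 9292334270) (nat_lit 39) (nat_lit 5) (nat_lit 41) (nat_lit 4) (nat_lit 39) (nat_lit 4) (nat_lit 483) (nat_lit 397) (nat_lit 320)) (XT.lf (nat_lit 0) (nat_lit 3146452458) (nat_lit 152) (nat_lit 18826307325) (nat_lit 76) (nat_lit 31384806654) (nat_lit 37) (nat_lit 5) (nat_lit 39) (nat_lit 5) (nat_lit 38) (nat_lit 4) (nat_lit 484) (nat_lit 397) (nat_lit 319)))) (XT.nd (nat_lit 156) (nat_lit 152) (nat_lit 0) (XT.nd (nat_lit 78) (nat_lit 76) (nat_lit 0) (XT.lf (nat_lit 0) (nat_lit 23830730965) (nat_lit 76) (nat_lit 342497106) (nat_lit 152) (nat_lit 31188341610) (nat_lit 36) (nat_lit 5) (nat_lit 37) (nat_lit 5) (nat_lit 38) (nat_lit 4) (nat_lit 485) (nat_lit 397) (nat_lit 318)) (XT.lf (nat_lit 0) (nat_lit 11472923883) (nat_lit 76) (nat_lit 35254782988) (nat_lit 76) (nat_lit 10723775753) (nat_lit 35) (nat_lit 4) (nat_lit 36) (nat_lit 5) (nat_lit 36) (nat_lit 4)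 (nat_lit 486) (nat_lit 397) (nat_lit 317))) (XT.nd (nat_lit 78) (nat_lit 76) (nat_lit 0) (XT.lf (nat_lit 0) (nat_lit 10841434558) (nat_lit 152) (nat_lit 2546950034) (nat_lit 76) (nat_lit 46245779120) (nat_lit 34) (nat_lit 5) (nat_lit 36) (nat_lit 5) (nat_lit 35) (nat_lit 4) (nat_lit 487) (nat_lit 397) (nat_lit 316)) (XT.lf (nat_lit 0) (nat_lit 33740575962) (nat_lit 152) (nat_lit 18289426839) (nat_lit 0) (nat_lit 9878467546) (nat_lit 33) (nat_lit 5) (nat_lit 35) (nat_lit 4) (nat_lit 33) (nat_lit 4) (nat_lit 488) (nat_lit 397) (nat_lit 315))))))) (XT.nd (nat_lit 56160) (nat_lit 0) (nat_lit 17556) (XT.nd (nat_lit 468) (nat_lit 228) (nat_lit 0) (XT.nd (nat_lit 234) (nat_lit 228) (nat_lit 0) (XT.nd (nat_lit 78) (nat_lit 152) (nat_lit 0) (XT.lf (nat_lit 0) (nat_lit 28184654992) (nat_lit 76) (nat_lit 29991689545) (nat_lit 76) (nat_lit 6108398069) (nat_lit 32) (nat_lit 4) (nat_lit 33) (nat_lit 5) (nat_lit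 33) (nat_lit 4) (nat_lit 489) (nat_lit 397) (nat_lit 314)) (XT.nd (nat_lit 78) (nat_lit 0) (nat_lit 0) (XT.lf (nat_lit 0) (nat_lit 10551276985) (nat_lit 76) (nat_lit 6421502721) (nat_lit 152) (nat_lit 49794586320) (nat_lit 30) (nat_lit 5) (nat_lit 31) (nat_lit 5) (nat_lit 32) (nat_lit 4) (nat_lit 490) (nat_lit 397) (nat_lit 313)) (XT.lf (nat_lit 0) (nat_lit 41595061583) (nat_lit 152) (nat_lit 9392684540) (nat_lit 0) (nat_lit 18369159176) (nat_lit 30) (nat_lit 5) (nat_lit 32) (nat_lit 4) (nat_lit 30) (nat_lit 4) (nat_lit 491) (nat_lit 397) (nat_lit 312)))) (XT.nd (nat_lit 78) (nat_lit 152) (nat_lit 0) (XT.lf (nat_lit 0) (nat_lit 40421752458) (nat_lit 76) (nat_lit 27442679172) (nat_lit 76) (nat_lit 4199011015) (nat_lit 29) (nat_lit 4) (nat_lit 30) (nat_lit 5) (nat_lit 30) (nat_lit 4) (nat_lit 492) (nat_lit 397) (nat_lit 311)) (XT.nd (nat_lit 78) (nat_lit 0) (nat_lit 0) (XT.lf (nat_lit 0) (nat_lit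 18102914419) (nat_lit 76) (nat_lit 2273195107) (nat_lit 152) (nat_lit 54516223964) (nat_lit 27) (nat_lit 5) (nat_lit 28) (nat_lit 5) (nat_lit 29) (nat_lit 4) (nat_lit 493) (nat_lit 397) (nat_lit 310)) (XT.lf (nat_lit 0) (nat_lit 46619151580) (nat_lit 152) (nat_lit 7206078340) (nat_lit 0) (nat_lit 24020411793) (nat_lit 27) (nat_lit 5) (nat_lit 29) (nat_lit 4) (nat_lit 27) (nat_lit 4) (nat_lit 494) (nat_lit 397) (nat_lit 309))))) (XT.nd (nat_lit 55380) (nat_lit 0) (nat_lit 29412) (XT.nd (nat_lit 78) (nat_lit 152) (nat_lit 0) (XT.lf (nat_lit 0) (nat_lit 45656453371) (nat_lit 76) (nat_lit 28945486968) (nat_lit 76) (nat_lit 6331847449) (nat_lit 26) (nat_lit 4) (nat_lit 27) (nat_lit 5) (nat_lit 27) (nat_lit 4) (nat_lit 495) (nat_lit 397) (nat_lit 308)) (XT.nd (nat_lit 78) (nat_lit 0) (nat_lit 0) (XT.lf (nat_lit 0) (nat_lit 17216731366) (nat_lit 76) (nat_lit 2411131247) (nat_lit 152) (nat_lit 64536561203)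 (nat_lit 24) (nat_lit 5) (nat_lit 25) (nat_lit 5) (nat_lit 26) (nat_lit 4) (nat_lit 496) (nat_lit 397) (nat_lit 307)) (XT.lf (nat_lit 0) (nat_lit 47334313457) (nat_lit 152) (nat_lit 14850580610) (nat_lit 0) (nat_lit 25352425849) (nat_lit 24) (nat_lit 5) (nat_lit 26) (nat_lit 4) (nat_lit 24) (nat_lit 4) (nat_lit 497) (nat_lit 397) (nat_lit 306)))) (XT.nd (nat_lit 156) (nat_lit 988) (nat_lit 0) (XT.nd (nat_lit 78) (nat_lit 380) (nat_lit 0) (XT.lf (nat_lit 0) (nat_lit 1653789188) (nat_lit 228) (nat_lit 795154056) (nat_lit 228) (nat_lit 795154056) (nat_lit 429) (nat_lit 4) (nat_lit 432) (nat_lit 5) (nat_lit 432) (nat_lit 4) (nat_lit 404) (nat_lit 398) (nat_lit 398)) (XT.lf (nat_lit 0) (nat_lit 2968102896) (nat_lit 304) (nat_lit 692091058) (nat_lit 380) (nat_lit 2855067641) (nat_lit 424) (nat_lit 5) (nat_lit 428) (nat_lit 5) (nat_lit 429) (nat_lit 4) (nat_lit 405) (nat_lit 398) (nat_lit 397))) (XT.nd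 (nat_lit 78) (nat_lit 532) (nat_lit 0) (XT.lf (nat_lit 0) (nat_lit 2294959754) (nat_lit 456) (nat_lit 3799193980) (nat_lit 76) (nat_lit 455925936) (nat_lit 418) (nat_lit 5) (nat_lit 424) (nat_lit 5) (nat_lit 419) (nat_lit 4) (nat_lit 406) (nat_lit 398) (nat_lit 396)) (XT.lf (nat_lit 0) (nat_lit 803071390) (nat_lit 532) (nat_lit 3941929400) (nat_lit 76) (nat_lit 1847571993) (nat_lit 411) (nat_lit 5) (nat_lit 418) (nat_lit 5) (nat_lit 412) (nat_lit 5) (nat_lit 407) (nat_lit 398) (nat_lit 395)))))) (XT.nd (nat_lit 468) (nat_lit 7220) (nat_lit 0) (XT.nd (nat_lit 234) (nat_lit 2660) (nat_lit 0) (XT.nd (nat_lit 78) (nat_lit 1444) (nat_lit 0) (XT.lf (nat_lit 0) (nat_lit 2665774942) (nat_lit 532) (nat_lit 3134263282) (nat_lit 608) (nat_lit 842738053) (nat_lit 404) (nat_lit 5) (nat_lit 411) (nat_lit 5) (nat_lit 412) (nat_lit 5) (nat_lit 408) (nat_lit 398) (nat_lit 394)) (XT.nd (nat_lit 78) (nat_lit 760)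 (nat_lit 0) (XT.lf (nat_lit 0) (nat_lit 2795334138) (nat_lit 608) (nat_lit 1256017700) (nat_lit 684) (nat_lit 2649397014) (nat_lit 395) (nat_lit 5) (nat_lit 403) (nat_lit 5) (nat_lit 404) (nat_lit 5) (nat_lit 409) (nat_lit 398) (nat_lit 393)) (XT.lf (nat_lit 0) (nat_lit 2169371902) (nat_lit 760) (nat_lit 3727363348) (nat_lit 76) (nat_lit 869842899) (nat_lit 385) (nat_lit 5) (nat_lit 395) (nat_lit 5) (nat_lit 386) (nat_lit 5) (nat_lit 410) (nat_lit 398) (nat_lit 392)))) (XT.nd (nat_lit 78) (nat_lit 1824) (nat_lit 0) (XT.lf (nat_lit 0) (nat_lit 154882751) (nat_lit 836) (nat_lit 3448191694) (nat_lit 76) (nat_lit 3237127621) (nat_lit 374) (nat_lit 5) (nat_lit 385) (nat_lit 5) (nat_lit 375) (nat_lit 5) (nat_lit 411) (nat_lit 398) (nat_lit 391)) (XT.nd (nat_lit 78) (nat_lit 988) (nat_lit 0) (XT.lf (nat_lit 0) (nat_lit 3847087310) (nat_lit 836) (nat_lit 1024528628) (nat_lit 912) (nat_lit 2049911666) (nat_lit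 363) (nat_lit 5) (nat_lit 374) (nat_lit 5) (nat_lit 375) (nat_lit 5) (nat_lit 412) (nat_lit 398) (nat_lit 390)) (XT.lf (nat_lit 0) (nat_lit 2611436676) (nat_lit 988) (nat_lit 2605603869) (nat_lit 76) (nat_lit 1793637795) (nat_lit 350) (nat_lit 5) (nat_lit 363) (nat_lit 5) (nat_lit 351) (nat_lit 5) (nat_lit 413) (nat_lit 398) (nat_lit 389))))) (XT.nd (nat_lit 234) (nat_lit 3876) (nat_lit 0) (XT.nd (nat_lit 78) (nat_lit 2280) (nat_lit 0) (XT.lf (nat_lit 0) (nat_lit 206097966) (nat_lit 1064) (nat_lit 2033416982) (nat_lit 76) (nat_lit 4868501125) (nat_lit 336) (nat_lit 5) (nat_lit 350) (nat_lit 5) (nat_lit 337) (nat_lit 5) (nat_lit 414) (nat_lit 398) (nat_lit 388)) (XT.nd (nat_lit 78) (nat_lit 1216) (nat_lit 0) (XT.lf (nat_lit 0) (nat_lit 4815154790) (nat_lit 1140) (nat_lit 1379181449) (nat_lit 76) (nat_lit 1018685009) (nat_lit 322) (nat_lit 5) (nat_lit 337) (nat_lit 5) (nat_lit 323) (nat_lit 5) (nat_lit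 415) (nat_lit 398) (nat_lit 387)) (XT.lf (nat_lit 0) (nat_lit 2172501977) (nat_lit 1216) (nat_lit 635428483) (nat_lit 76) (nat_lit 4518112885) (nat_lit 306) (nat_lit 5) (nat_lit 322) (nat_lit 5) (nat_lit 307) (nat_lit 5) (nat_lit 416) (nat_lit 398) (nat_lit 386)))) (XT.nd (nat_lit 156) (nat_lit 1216) (nat_lit 0) (XT.nd (nat_lit 78) (nat_lit 684) (nat_lit 0) (XT.lf (nat_lit 0) (nat_lit 213465899) (nat_lit 760) (nat_lit 6593117861) (nat_lit 836) (nat_lit 640912409) (nat_lit 280) (nat_lit 5) (nat_lit 290) (nat_lit 5) (nat_lit 291) (nat_lit 5) (nat_lit 417) (nat_lit 398) (nat_lit 385)) (XT.lf (nat_lit 0) (nat_lit 1141669832) (nat_lit 608) (nat_lit 2794657003) (nat_lit 684) (nat_lit 3639978009) (nat_lit 271) (nat_lit 5) (nat_lit 279) (nat_lit 5) (nat_lit 280) (nat_lit 5) (nat_lit 418) (nat_lit 398) (nat_lit 384))) (XT.nd (nat_lit 78) (nat_lit 532) (nat_lit 0) (XT.lf (nat_lit 0) (nat_lit 902730053) (nat_lit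 684) (nat_lit 5537737638) (nat_lit 76) (nat_lit 1273489235) (nat_lit 262) (nat_lit 5) (nat_lit 271) (nat_lit 5) (nat_lit 263) (nat_lit 5) (nat_lit 419) (nat_lit 398) (nat_lit 383)) (XT.lf (nat_lit 0) (nat_lit 3279610766) (nat_lit 532) (nat_lit 2248590072) (nat_lit 608) (nat_lit 2331311232) (nat_lit 255) (nat_lit 5) (nat_lit 262) (nat_lit 5) (nat_lit 263) (nat_lit 5) (nat_lit 420) (nat_lit 398) (nat_lit 382))))))))
noncomputable def xc44 : XT := (XT.nd (nat_lit 1950) (nat_lit 4636) (nat_lit 0) (XT.nd (nat_lit 936) (nat_lit 4028) (nat_lit 0) (XT.nd (nat_lit 468) (nat_lit 2812) (nat_lit 0) (XT.nd (nat_lit 234) (nat_lit 1976) (nat_lit 0) (XT.nd (nat_lit 78) (nat_lit 1140) (nat_lit 0) (XT.lf (nat_lit 0) (nat_lit 2257832646) (nat_lit 608) (nat_lit 3540891653) (nat_lit 76) (nat_lit 2215017244) (nat_lit 247) (nat_lit 5) (nat_lit 255) (nat_lit 5) (nat_lit 248) (nat_lit 5) (nat_lit 421) (nat_lit 398) (nat_lit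 381)) (XT.nd (nat_lit 78) (nat_lit 608) (nat_lit 0) (XT.lf (nat_lit 0) (nat_lit 5753971001) (nat_lit 532) (nat_lit 1216249400) (nat_lit 608) (nat_lit 1206534988) (nat_lit 240) (nat_lit 5) (nat_lit 247) (nat_lit 5) (nat_lit 248) (nat_lit 5) (nat_lit 422) (nat_lit 398) (nat_lit 380)) (XT.lf (nat_lit 0) (nat_lit 3462655412) (nat_lit 608) (nat_lit 1248282696) (nat_lit 76) (nat_lit 3637115204) (nat_lit 232) (nat_lit 5) (nat_lit 240) (nat_lit 5) (nat_lit 233) (nat_lit 5) (nat_lit 423) (nat_lit 398) (nat_lit 379)))) (XT.nd (nat_lit 78) (nat_lit 1064) (nat_lit 0) (XT.lf (nat_lit 0) (nat_lit 25179311) (nat_lit 456) (nat_lit 8265177268) (nat_lit 532) (nat_lit 238723436) (nat_lit 220) (nat_lit 5) (nat_lit 226) (nat_lit 5) (nat_lit 227) (nat_lit 5) (nat_lit 424) (nat_lit 398) (nat_lit 378)) (XT.nd (nat_lit 78) (nat_lit 532) (nat_lit 0) (XT.lf (nat_lit 0) (nat_lit 1358636838) (nat_lit 456) (nat_lit 3194301823)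 (nat_lit 532) (nat_lit 4164805855) (nat_lit 213) (nat_lit 5) (nat_lit 219) (nat_lit 5) (nat_lit 220) (nat_lit 5) (nat_lit 425) (nat_lit 398) (nat_lit 377)) (XT.lf (nat_lit 0) (nat_lit 621208157) (nat_lit 532) (nat_lit 6125516942) (nat_lit 76) (nat_lit 2169753654) (nat_lit 206) (nat_lit 5) (nat_lit 213) (nat_lit 5) (nat_lit 207) (nat_lit 5) (nat_lit 426) (nat_lit 398) (nat_lit 376))))) (XT.nd (nat_lit 234) (nat_lit 1520) (nat_lit 0) (XT.nd (nat_lit 78) (nat_lit 912) (nat_lit 0) (XT.lf (nat_lit 0) (nat_lit 4278386462) (nat_lit 380) (nat_lit 1272117807) (nat_lit 456) (nat_lit 3573723113) (nat_lit 201) (nat_lit 5) (nat_lit 206) (nat_lit 5) (nat_lit 207) (nat_lit 5) (nat_lit 427) (nat_lit 398) (nat_lit 375)) (XT.nd (nat_lit 78) (nat_lit 380) (nat_lit 0) (XT.lf (nat_lit 0) (nat_lit 1364590241) (nat_lit 532) (nat_lit 3502657934) (nat_lit 76) (nat_lit 4474502231) (nat_lit 194) (nat_lit 5) (nat_lit 201)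 (nat_lit 5) (nat_lit 195) (nat_lit 5) (nat_lit 428) (nat_lit 398) (nat_lit 374)) (XT.lf (nat_lit 0) (nat_lit 6470191082) (nat_lit 456) (nat_lit 2096683637) (nat_lit 76) (nat_lit 1002400955) (nat_lit 189) (nat_lit 5) (nat_lit 195) (nat_lit 5) (nat_lit 190) (nat_lit 5) (nat_lit 429) (nat_lit 398) (nat_lit 373)))) (XT.nd (nat_lit 78) (nat_lit 1064) (nat_lit 0) (XT.lf (nat_lit 0) (nat_lit 2010963780) (nat_lit 456) (nat_lit 637342693) (nat_lit 76) (nat_lit 7158475926) (nat_lit 183) (nat_lit 5) (nat_lit 189) (nat_lit 5) (nat_lit 184) (nat_lit 5) (nat_lit 430) (nat_lit 398) (nat_lit 372)) (XT.nd (nat_lit 78) (nat_lit 380) (nat_lit 0) (XT.lf (nat_lit 0) (nat_lit 896368849) (nat_lit 380) (nat_lit 6444895276) (nat_lit 456) (nat_lit 2713128649) (nat_lit 174) (nat_lit 5) (nat_lit 179) (nat_lit 5) (nat_lit 180) (nat_lit 5) (nat_lit 431) (nat_lit 398) (nat_lit 371)) (XT.lf (nat_lit 0) (nat_lit 2516423074) (nat_lit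 304) (nat_lit 80536051) (nat_lit 380) (nat_lit 7715947164) (nat_lit 169) (nat_lit 5) (nat_lit 173) (nat_lit 5) (nat_lit 174) (nat_lit 5) (nat_lit 432) (nat_lit 398) (nat_lit 370)))))) (XT.nd (nat_lit 468) (nat_lit 1748) (nat_lit 0) (XT.nd (nat_lit 234) (nat_lit 1292) (nat_lit 0) (XT.nd (nat_lit 78) (nat_lit 684) (nat_lit 0) (XT.lf (nat_lit 0) (nat_lit 4171909817) (nat_lit 304) (nat_lit 4006217364) (nat_lit 380) (nat_lit 2403574240) (nat_lit 165) (nat_lit 5) (nat_lit 169) (nat_lit 5) (nat_lit 170) (nat_lit 5) (nat_lit 433) (nat_lit 398) (nat_lit 369)) (XT.nd (nat_lit 78) (nat_lit 304) (nat_lit 0) (XT.lf (nat_lit 0) (nat_lit 3144006598) (nat_lit 380) (nat_lit 4965337045) (nat_lit 76) (nat_lit 2752742737) (nat_lit 160) (nat_lit 5) (nat_lit 165) (nat_lit 5) (nat_lit 161) (nat_lit 5) (nat_lit 434) (nat_lit 398) (nat_lit 368)) (XT.lf (nat_lit 0) (nat_lit 7686041839) (nat_lit 304) (nat_lit 1284286016)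 (nat_lit 380) (nat_lit 2183927631) (nat_lit 156) (nat_lit 5) (nat_lit 160) (nat_lit 5) (nat_lit 161) (nat_lit 5) (nat_lit 435) (nat_lit 398) (nat_lit 367)))) (XT.nd (nat_lit 78) (nat_lit 912) (nat_lit 0) (XT.lf (nat_lit 0) (nat_lit 3630229106) (nat_lit 380) (nat_lit 1945058825) (nat_lit 76) (nat_lit 5882487177) (nat_lit 151) (nat_lit 5) (nat_lit 156) (nat_lit 5) (nat_lit 152) (nat_lit 5) (nat_lit 436) (nat_lit 398) (nat_lit 366)) (XT.nd (nat_lit 78) (nat_lit 608) (nat_lit 0) (XT.lf (nat_lit 0) (nat_lit 9742138519) (nat_lit 380) (nat_lit 354702423) (nat_lit 76) (nat_lit 1677424376) (nat_lit 147) (nat_lit 5) (nat_lit 152) (nat_lit 5) (nat_lit 148) (nat_lit 5) (nat_lit 437) (nat_lit 398) (nat_lit 365)) (XT.lf (nat_lit 0) (nat_lit 1284841500) (nat_lit 304) (nat_lit 2787514780) (nat_lit 380) (nat_lit 8030112386) (nat_lit 139) (nat_lit 5) (nat_lit 143) (nat_lit 5) (nat_lit 144) (nat_lit 5) (nat_lit 438)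 (nat_lit 398) (nat_lit 364))))) (XT.nd (nat_lit 234) (nat_lit 988) (nat_lit 0) (XT.nd (nat_lit 78) (nat_lit 532) (nat_lit 0) (XT.lf (nat_lit 0) (nat_lit 2984590643) (nat_lit 228) (nat_lit 7541566613) (nat_lit 304) (nat_lit 1917746186) (nat_lit 136) (nat_lit 5) (nat_lit 139) (nat_lit 5) (nat_lit 140) (nat_lit 5) (nat_lit 439) (nat_lit 398) (nat_lit 363)) (XT.nd (nat_lit 78) (nat_lit 228) (nat_lit 0) (XT.lf (nat_lit 0) (nat_lit 4483895434) (nat_lit 304) (nat_lit 8066609492) (nat_lit 76) (nat_lit 248470930) (nat_lit 132) (nat_lit 5) (nat_lit 136) (nat_lit 5) (nat_lit 133) (nat_lit 5) (nat_lit 440) (nat_lit 398) (nat_lit 362)) (XT.lf (nat_lit 0) (nat_lit 6506707181) (nat_lit 228) (nat_lit 4782685897) (nat_lit 304) (nat_lit 1878143596) (nat_lit 129) (nat_lit 5) (nat_lit 132) (nat_lit 5) (nat_lit 133) (nat_lit 5) (nat_lit 441) (nat_lit 398) (nat_lit 361)))) (XT.nd (nat_lit 156) (nat_lit 456) (nat_lit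 0) (XT.nd (nat_lit 78) (nat_lit 228) (nat_lit 0) (XT.lf (nat_lit 0) (nat_lit 4872077999) (nat_lit 304) (nat_lit 5227926407) (nat_lit 76) (nat_lit 3450520273) (nat_lit 125) (nat_lit 5) (nat_lit 129) (nat_lit 5) (nat_lit 126) (nat_lit 5) (nat_lit 442) (nat_lit 398) (nat_lit 360)) (XT.lf (nat_lit 0) (nat_lit 10194360733) (nat_lit 228) (nat_lit 1834050570) (nat_lit 304) (nat_lit 1920476203) (nat_lit 122) (nat_lit 5) (nat_lit 125) (nat_lit 5) (nat_lit 126) (nat_lit 5) (nat_lit 443) (nat_lit 398) (nat_lit 359))) (XT.nd (nat_lit 78) (nat_lit 152) (nat_lit 0) (XT.lf (nat_lit 0) (nat_lit 5206758191) (nat_lit 304) (nat_lit 2290334324) (nat_lit 76) (nat_lit 6864618904) (nat_lit 118) (nat_lit 5) (nat_lit 122) (nat_lit 5) (nat_lit 119) (nat_lit 5) (nat_lit 444) (nat_lit 398) (nat_lit 358)) (XT.lf (nat_lit 0) (nat_lit 12752610393) (nat_lit 228) (nat_lit 770486835) (nat_lit 76) (nat_lit 1268455432) (nat_lit 116)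 (nat_lit 5) (nat_lit 119) (nat_lit 5) (nat_lit 117) (nat_lit 5) (nat_lit 445) (nat_lit 398) (nat_lit 357))))))) (XT.nd (nat_lit 1014) (nat_lit 1900) (nat_lit 0) (XT.nd (nat_lit 468) (nat_lit 1292) (nat_lit 0) (XT.nd (nat_lit 234) (nat_lit 532) (nat_lit 0) (XT.nd (nat_lit 78) (nat_lit 456) (nat_lit 0) (XT.lf (nat_lit 0) (nat_lit 740758071) (nat_lit 152) (nat_lit 4747522837) (nat_lit 228) (nat_lit 9748200905) (nat_lit 110) (nat_lit 5) (nat_lit 112) (nat_lit 5) (nat_lit 113) (nat_lit 5) (nat_lit 446) (nat_lit 398) (nat_lit 356)) (XT.nd (nat_lit 78) (nat_lit 228) (nat_lit 0) (XT.lf (nat_lit 0) (nat_lit 2306952742) (nat_lit 228) (nat_lit 11177487336) (nat_lit 304) (nat_lit 2214574533) (nat_lit 107) (nat_lit 5) (nat_lit 110) (nat_lit 5) (nat_lit 111) (nat_lit 5) (nat_lit 447) (nat_lit 398) (nat_lit 355)) (XT.lf (nat_lit 0) (nat_lit 3872186276) (nat_lit 152) (nat_lit 1849640858) (nat_lit 228) (nat_lit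 10457091968) (nat_lit 104) (nat_lit 5) (nat_lit 106) (nat_lit 5) (nat_lit 107) (nat_lit 5) (nat_lit 448) (nat_lit 398) (nat_lit 354)))) (XT.nd (nat_lit 78) (nat_lit 380) (nat_lit 0) (XT.lf (nat_lit 0) (nat_lit 5437871552) (nat_lit 152) (nat_lit 8743474324) (nat_lit 228) (nat_lit 2495656715) (nat_lit 102) (nat_lit 5) (nat_lit 104) (nat_lit 5) (nat_lit 105) (nat_lit 5) (nat_lit 449) (nat_lit 398) (nat_lit 353)) (XT.nd (nat_lit 78) (nat_lit 152) (nat_lit 0) (XT.lf (nat_lit 0) (nat_lit 5880564546) (nat_lit 228) (nat_lit 10180329235) (nat_lit 76) (nat_lit 1133475457) (nat_lit 99) (nat_lit 5) (nat_lit 102) (nat_lit 5) (nat_lit 100) (nat_lit 5) (nat_lit 450) (nat_lit 398) (nat_lit 352)) (XT.lf (nat_lit 0) (nat_lit 8569931509) (nat_lit 152) (nat_lit 6250144418) (nat_lit 228) (nat_lit 2910908176) (nat_lit 97) (nat_lit 5) (nat_lit 99) (nat_lit 5) (nat_lit 100) (nat_lit 5) (nat_lit 451) (nat_lit 398) (nat_lit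 351))))) (XT.nd (nat_lit 234) (nat_lit 684) (nat_lit 0) (XT.nd (nat_lit 78) (nat_lit 380) (nat_lit 0) (XT.lf (nat_lit 0) (nat_lit 5951204031) (nat_lit 228) (nat_lit 8171057897) (nat_lit 76) (nat_lit 4165833382) (nat_lit 94) (nat_lit 5) (nat_lit 97) (nat_lit 5) (nat_lit 95) (nat_lit 5) (nat_lit 452) (nat_lit 398) (nat_lit 350)) (XT.nd (nat_lit 78) (nat_lit 228) (nat_lit 0) (XT.lf (nat_lit 0) (nat_lit 11656516172) (nat_lit 152) (nat_lit 3722863681) (nat_lit 228) (nat_lit 3487326287) (nat_lit 92) (nat_lit 5) (nat_lit 94) (nat_lit 5) (nat_lit 95) (nat_lit 5) (nat_lit 453) (nat_lit 398) (nat_lit 349)) (XT.lf (nat_lit 0) (nat_lit 5888733807) (nat_lit 228) (nat_lit 6319080914) (nat_lit 76) (nat_lit 7258843431) (nat_lit 89) (nat_lit 5) (nat_lit 92) (nat_lit 5) (nat_lit 90) (nat_lit 5) (nat_lit 454) (nat_lit 398) (nat_lit 348)))) (XT.nd (nat_lit 156) (nat_lit 304) (nat_lit 0) (XT.nd (nat_lit 78) (nat_lit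 228) (nat_lit 0) (XT.lf (nat_lit 0) (nat_lit 14639293324) (nat_lit 152) (nat_lit 1192192067) (nat_lit 228) (nat_lit 4258989255) (nat_lit 87) (nat_lit 5) (nat_lit 89) (nat_lit 5) (nat_lit 90) (nat_lit 5) (nat_lit 455) (nat_lit 398) (nat_lit 347)) (XT.lf (nat_lit 0) (nat_lit 5658597213) (nat_lit 228) (nat_lit 4695766869) (nat_lit 76) (nat_lit 10382311138) (nat_lit 84) (nat_lit 5) (nat_lit 87) (nat_lit 5) (nat_lit 85) (nat_lit 5) (nat_lit 456) (nat_lit 398) (nat_lit 346))) (XT.nd (nat_lit 78) (nat_lit 152) (nat_lit 0) (XT.lf (nat_lit 0) (nat_lit 16153478621) (nat_lit 228) (nat_lit 3976016139) (nat_lit 76) (nat_lit 1279343780) (nat_lit 82) (nat_lit 5) (nat_lit 85) (nat_lit 5) (nat_lit 83) (nat_lit 4) (nat_lit 457) (nat_lit 398) (nat_lit 345)) (XT.lf (nat_lit 0) (nat_lit 5217616440) (nat_lit 152) (nat_lit 3388645615) (nat_lit 76) (nat_lit 13499156761) (nat_lit 80) (nat_lit 5) (nat_lit 82) (nat_lit 5)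 (nat_lit 81) (nat_lit 5) (nat_lit 458) (nat_lit 398) (nat_lit 344)))))) (XT.nd (nat_lit 468) (nat_lit 988) (nat_lit 0) (XT.nd (nat_lit 234) (nat_lit 456) (nat_lit 0) (XT.nd (nat_lit 78) (nat_lit 304) (nat_lit 0) (XT.lf (nat_lit 0) (nat_lit 16298992048) (nat_lit 228) (nat_lit 2880090370) (nat_lit 76) (nat_lit 3650383893) (nat_lit 78) (nat_lit 5) (nat_lit 81) (nat_lit 5) (nat_lit 79) (nat_lit 4) (nat_lit 459) (nat_lit 398) (nat_lit 343)) (XT.nd (nat_lit 78) (nat_lit 152) (nat_lit 0) (XT.lf (nat_lit 0) (nat_lit 4512450133) (nat_lit 152) (nat_lit 2504624861) (nat_lit 76) (nat_lit 16563815137) (nat_lit 76) (nat_lit 5) (nat_lit 78) (nat_lit 5) (nat_lit 77) (nat_lit 5) (nat_lit 460) (nat_lit 398) (nat_lit 342)) (XT.lf (nat_lit 0) (nat_lit 16200789313) (nat_lit 228) (nat_lit 2269946134) (nat_lit 76) (nat_lit 5890362186) (nat_lit 74) (nat_lit 5) (nat_lit 77) (nat_lit 5) (nat_lit 75) (nat_lit 4) (nat_lit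 461) (nat_lit 398) (nat_lit 341)))) (XT.nd (nat_lit 78) (nat_lit 304) (nat_lit 0) (XT.lf (nat_lit 0) (nat_lit 3477763688) (nat_lit 152) (nat_lit 2173774279) (nat_lit 76) (nat_lit 19520365893) (nat_lit 72) (nat_lit 5) (nat_lit 74) (nat_lit 5) (nat_lit 73) (nat_lit 5) (nat_lit 462) (nat_lit 398) (nat_lit 340)) (XT.nd (nat_lit 78) (nat_lit 152) (nat_lit 0) (XT.lf (nat_lit 0) (nat_lit 15790303088) (nat_lit 228) (nat_lit 2288889875) (nat_lit 76) (nat_lit 7933795485) (nat_lit 70) (nat_lit 5) (nat_lit 73) (nat_lit 5) (nat_lit 71) (nat_lit 4) (nat_lit 463) (nat_lit 398) (nat_lit 339)) (XT.lf (nat_lit 0) (nat_lit 2034063611) (nat_lit 152) (nat_lit 2553777303) (nat_lit 76) (nat_lit 22300344081) (nat_lit 68) (nat_lit 5) (nat_lit 70) (nat_lit 5) (nat_lit 69) (nat_lit 5) (nat_lit 464) (nat_lit 398) (nat_lit 338))))) (XT.nd (nat_lit 234) (nat_lit 532) (nat_lit 0) (XT.nd (nat_lit 78) (nat_lit 304) (nat_lit 0)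 (XT.lf (nat_lit 0) (nat_lit 14983836762) (nat_lit 228) (nat_lit 3110360536) (nat_lit 76) (nat_lit 9701161030) (nat_lit 66) (nat_lit 5) (nat_lit 69) (nat_lit 5) (nat_lit 67) (nat_lit 4) (nat_lit 465) (nat_lit 398) (nat_lit 337)) (XT.nd (nat_lit 78) (nat_lit 152) (nat_lit 0) (XT.lf (nat_lit 0) (nat_lit 85138881) (nat_lit 152) (nat_lit 3835167796) (nat_lit 76) (nat_lit 24820172977) (nat_lit 64) (nat_lit 5) (nat_lit 66) (nat_lit 5) (nat_lit 65) (nat_lit 5) (nat_lit 466) (nat_lit 398) (nat_lit 336)) (XT.lf (nat_lit 0) (nat_lit 13679802253) (nat_lit 228) (nat_lit 4943608627) (nat_lit 76) (nat_lit 11096098243) (nat_lit 62) (nat_lit 5) (nat_lit 65) (nat_lit 5) (nat_lit 63) (nat_lit 4) (nat_lit 467) (nat_lit 398) (nat_lit 335)))) (XT.nd (nat_lit 156) (nat_lit 228) (nat_lit 0) (XT.nd (nat_lit 78) (nat_lit 228) (nat_lit 0) (XT.lf (nat_lit 0) (nat_lit 24468100192) (nat_lit 76) (nat_lit 3737437821) (nat_lit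 152) (nat_lit 2534413243) (nat_lit 61) (nat_lit 5) (nat_lit 62) (nat_lit 5) (nat_lit 63) (nat_lit 4) (nat_lit 468) (nat_lit 398) (nat_lit 334)) (XT.lf (nat_lit 0) (nat_lit 11755461356) (nat_lit 228) (nat_lit 8040374470) (nat_lit 76) (nat_lit 12002125199) (nat_lit 58) (nat_lit 5) (nat_lit 61) (nat_lit 5) (nat_lit 59) (nat_lit 4) (nat_lit 469) (nat_lit 398) (nat_lit 333))) (XT.nd (nat_lit 78) (nat_lit 152) (nat_lit 0) (XT.lf (nat_lit 0) (nat_lit 22776722394) (nat_lit 76) (nat_lit 4192341733) (nat_lit 152) (nat_lit 5931206061) (nat_lit 57) (nat_lit 5) (nat_lit 58) (nat_lit 5) (nat_lit 59) (nat_lit 4) (nat_lit 470) (nat_lit 398) (nat_lit 332)) (XT.lf (nat_lit 0) (nat_lit 9063085583) (nat_lit 152) (nat_lit 12702739259) (nat_lit 76) (nat_lit 12278783917) (nat_lit 55) (nat_lit 5) (nat_lit 57) (nat_lit 5) (nat_lit 56) (nat_lit 4) (nat_lit 471) (nat_lit 398) (nat_lit 331))))))))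
noncomputable def xc45 : XT := (XT.nd (nat_lit 1950) (nat_lit 152) (nat_lit 0) (XT.nd (nat_lit 936) (nat_lit 988) (nat_lit 0) (XT.nd (nat_lit 468) (nat_lit 608) (nat_lit 0) (XT.nd (nat_lit 234) (nat_lit 304) (nat_lit 0) (XT.nd (nat_lit 78) (nat_lit 228) (nat_lit 0) (XT.lf (nat_lit 0) (nat_lit 19514448984) (nat_lit 76) (nat_lit 5448027557) (nat_lit 152) (nat_lit 10273585497) (nat_lit 54) (nat_lit 5) (nat_lit 55) (nat_lit 5) (nat_lit 56) (nat_lit 4) (nat_lit 472) (nat_lit 398) (nat_lit 330)) (XT.nd (nat_lit 78) (nat_lit 76) (nat_lit 0) (XT.lf (nat_lit 0) (nat_lit 5425434829) (nat_lit 152) (nat_lit 19292352241) (nat_lit 76) (nat_lit 11757114060) (nat_lit 52) (nat_lit 5) (nat_lit 54) (nat_lit 5) (nat_lit 53) (nat_lit 4) (nat_lit 473) (nat_lit 398) (nat_lit 329)) (XT.lf (nat_lit 0) (nat_lit 14300253509) (nat_lit 76) (nat_lit 7698672897) (nat_lit 152) (nat_lit 15764645331) (nat_lit 51) (nat_lit 5) (nat_lit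 52) (nat_lit 5) (nat_lit 53) (nat_lit 4) (nat_lit 474) (nat_lit 398) (nat_lit 328)))) (XT.nd (nat_lit 78) (nat_lit 152) (nat_lit 0) (XT.lf (nat_lit 0) (nat_lit 630438032) (nat_lit 152) (nat_lit 28241271915) (nat_lit 76) (nat_lit 10234337629) (nat_lit 49) (nat_lit 5) (nat_lit 51) (nat_lit 5) (nat_lit 50) (nat_lit 4) (nat_lit 475) (nat_lit 398) (nat_lit 327)) (XT.nd (nat_lit 78) (nat_lit 76) (nat_lit 0) (XT.lf (nat_lit 0) (nat_lit 6678085738) (nat_lit 76) (nat_lit 11176382576) (nat_lit 152) (nat_lit 22646440253) (nat_lit 48) (nat_lit 5) (nat_lit 49) (nat_lit 5) (nat_lit 50) (nat_lit 4) (nat_lit 476) (nat_lit 398) (nat_lit 326)) (XT.lf (nat_lit 0) (nat_lit 1836259097) (nat_lit 76) (nat_lit 34433341608) (nat_lit 76) (nat_lit 5686015667) (nat_lit 47) (nat_lit 4) (nat_lit 48) (nat_lit 5) (nat_lit 48) (nat_lit 4) (nat_lit 477) (nat_lit 398) (nat_lit 325))))) (XT.nd (nat_lit 234) (nat_lit 304) (nat_lit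 0) (XT.nd (nat_lit 78) (nat_lit 228) (nat_lit 0) (XT.lf (nat_lit 0) (nat_lit 12298830364) (nat_lit 152) (nat_lit 3820701020) (nat_lit 76) (nat_lit 27347644483) (nat_lit 46) (nat_lit 5) (nat_lit 48) (nat_lit 5) (nat_lit 47) (nat_lit 4) (nat_lit 478) (nat_lit 398) (nat_lit 324)) (XT.nd (nat_lit 78) (nat_lit 152) (nat_lit 0) (XT.lf (nat_lit 0) (nat_lit 31385424650) (nat_lit 152) (nat_lit 10258019937) (nat_lit 0) (nat_lit 3399577480) (nat_lit 45) (nat_lit 5) (nat_lit 47) (nat_lit 4) (nat_lit 45) (nat_lit 4) (nat_lit 479) (nat_lit 398) (nat_lit 323)) (XT.lf (nat_lit 0) (nat_lit 5073999081) (nat_lit 152) (nat_lit 17720854115) (nat_lit 76) (nat_lit 23888316824) (nat_lit 43) (nat_lit 5) (nat_lit 45) (nat_lit 5) (nat_lit 44) (nat_lit 4) (nat_lit 480) (nat_lit 398) (nat_lit 322)))) (XT.nd (nat_lit 78) (nat_lit 228) (nat_lit 0) (XT.lf (nat_lit 0) (nat_lit 22157230239) (nat_lit 76) (nat_lit 2577671329) (nat_lit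 152) (nat_lit 23658112109) (nat_lit 42) (nat_lit 5) (nat_lit 43) (nat_lit 5) (nat_lit 44) (nat_lit 4) (nat_lit 481) (nat_lit 398) (nat_lit 321)) (XT.nd (nat_lit 78) (nat_lit 152) (nat_lit 0) (XT.lf (nat_lit 0) (nat_lit 14222680863) (nat_lit 76) (nat_lit 31610280282) (nat_lit 76) (nat_lit 4341765591) (nat_lit 41) (nat_lit 4) (nat_lit 42) (nat_lit 5) (nat_lit 42) (nat_lit 4) (nat_lit 482) (nat_lit 398) (nat_lit 320)) (XT.lf (nat_lit 0) (nat_lit 5042642329) (nat_lit 76) (nat_lit 10888736732) (nat_lit 152) (nat_lit 36100488995) (nat_lit 39) (nat_lit 5) (nat_lit 40) (nat_lit 5) (nat_lit 41) (nat_lit 4) (nat_lit 483) (nat_lit 398) (nat_lit 319)))))) (XT.nd (nat_lit 468) (nat_lit 532) (nat_lit 0) (XT.nd (nat_lit 234) (nat_lit 228) (nat_lit 0) (XT.nd (nat_lit 78) (nat_lit 228) (nat_lit 0) (XT.lf (nat_lit 0) (nat_lit 37563172950) (nat_lit 152) (nat_lit 5371472148) (nat_lit 0) (nat_lit 11032888625) (nat_lit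 39) (nat_lit 5) (nat_lit 41) (nat_lit 4) (nat_lit 39) (nat_lit 4) (nat_lit 484) (nat_lit 398) (nat_lit 318)) (XT.nd (nat_lit 78) (nat_lit 76) (nat_lit 0) (XT.lf (nat_lit 0) (nat_lit 4639085944) (nat_lit 152) (nat_lit 17138955289) (nat_lit 76) (nat_lit 34207329737) (nat_lit 37) (nat_lit 5) (nat_lit 39) (nat_lit 5) (nat_lit 38) (nat_lit 4) (nat_lit 485) (nat_lit 398) (nat_lit 317)) (XT.lf (nat_lit 0) (nat_lit 26686784766) (nat_lit 152) (nat_lit 30523788252) (nat_lit 0) (nat_lit 879914514) (nat_lit 36) (nat_lit 5) (nat_lit 38) (nat_lit 4) (nat_lit 36) (nat_lit 4) (nat_lit 486) (nat_lit 398) (nat_lit 316)))) (XT.nd (nat_lit 78) (nat_lit 152) (nat_lit 0) (XT.lf (nat_lit 0) (nat_lit 14552746506) (nat_lit 76) (nat_lit 35781486322) (nat_lit 76) (nat_lit 9951706591) (nat_lit 35) (nat_lit 4) (nat_lit 36) (nat_lit 5) (nat_lit 36) (nat_lit 4) (nat_lit 487) (nat_lit 398) (nat_lit 315)) (XT.nd (nat_lit 78) (nat_lit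 76) (nat_lit 0) (XT.lf (nat_lit 0) (nat_lit 12605153071) (nat_lit 152) (nat_lit 263137547) (nat_lit 76) (nat_lit 49710919747) (nat_lit 34) (nat_lit 5) (nat_lit 36) (nat_lit 5) (nat_lit 35) (nat_lit 4) (nat_lit 488) (nat_lit 398) (nat_lit 314)) (XT.lf (nat_lit 0) (nat_lit 36624703794) (nat_lit 152) (nat_lit 16837375208) (nat_lit 0) (nat_lit 11505890341) (nat_lit 33) (nat_lit 5) (nat_lit 35) (nat_lit 4) (nat_lit 33) (nat_lit 4) (nat_lit 489) (nat_lit 398) (nat_lit 313))))) (XT.nd (nat_lit 234) (nat_lit 304) (nat_lit 0) (XT.nd (nat_lit 78) (nat_lit 152) (nat_lit 0) (XT.lf (nat_lit 0) (nat_lit 31892574809) (nat_lit 76) (nat_lit 30354777658) (nat_lit 76) (nat_lit 5216750546) (nat_lit 32) (nat_lit 4) (nat_lit 33) (nat_lit 5) (nat_lit 33) (nat_lit 4) (nat_lit 490) (nat_lit 398) (nat_lit 312)) (XT.nd (nat_lit 78) (nat_lit 0) (nat_lit 0) (XT.lf (nat_lit 0) (nat_lit 13334336387) (nat_lit 76) (nat_lit 5626580964)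 (nat_lit 152) (nat_lit 51110621843) (nat_lit 30) (nat_lit 5) (nat_lit 31) (nat_lit 5) (nat_lit 32) (nat_lit 4) (nat_lit 491) (nat_lit 398) (nat_lit 311)) (XT.lf (nat_lit 0) (nat_lit 44770268285) (nat_lit 152) (nat_lit 7691877776) (nat_lit 0) (nat_lit 20329731206) (nat_lit 30) (nat_lit 5) (nat_lit 32) (nat_lit 4) (nat_lit 30) (nat_lit 4) (nat_lit 492) (nat_lit 398) (nat_lit 310)))) (XT.nd (nat_lit 156) (nat_lit 76) (nat_lit 0) (XT.nd (nat_lit 78) (nat_lit 152) (nat_lit 0) (XT.lf (nat_lit 0) (nat_lit 44551065817) (nat_lit 76) (nat_lit 27770142116) (nat_lit 76) (nat_lit 3313490976) (nat_lit 29) (nat_lit 4) (nat_lit 30) (nat_lit 5) (nat_lit 30) (nat_lit 4) (nat_lit 493) (nat_lit 398) (nat_lit 309)) (XT.lf (nat_lit 0) (nat_lit 21076626531) (nat_lit 76) (nat_lit 1361119475) (nat_lit 152) (nat_lit 56167910697) (nat_lit 27) (nat_lit 5) (nat_lit 28) (nat_lit 5) (nat_lit 29) (nat_lit 4) (nat_lit 494) (nat_lit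 398) (nat_lit 308))) (XT.nd (nat_lit 78) (nat_lit 76) (nat_lit 0) (XT.lf (nat_lit 0) (nat_lit 49952672017) (nat_lit 152) (nat_lit 5575906203) (nat_lit 0) (nat_lit 26179260569) (nat_lit 27) (nat_lit 5) (nat_lit 29) (nat_lit 4) (nat_lit 27) (nat_lit 4) (nat_lit 495) (nat_lit 398) (nat_lit 307)) (XT.lf (nat_lit 0) (nat_lit 49872695497) (nat_lit 76) (nat_lit 29432748838) (nat_lit 76) (nat_lit 5645822894) (nat_lit 26) (nat_lit 4) (nat_lit 27) (nat_lit 5) (nat_lit 27) (nat_lit 4) (nat_lit 496) (nat_lit 398) (nat_lit 306))))))) (XT.nd (nat_lit 56004) (nat_lit 0) (nat_lit 14288) (XT.nd (nat_lit 55458) (nat_lit 0) (nat_lit 24776) (XT.nd (nat_lit 55224) (nat_lit 0) (nat_lit 29944) (XT.nd (nat_lit 55068) (nat_lit 0) (nat_lit 31008) (XT.lf (nat_lit 0) (nat_lit 19974577459) (nat_lit 76) (nat_lit 1589153748) (nat_lit 152) (nat_lit 66780272381) (nat_lit 24) (nat_lit 5) (nat_lit 25) (nat_lit 5) (nat_lit 26) (nat_lit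 4) (nat_lit 497) (nat_lit 398) (nat_lit 305)) (XT.nd (nat_lit 78) (nat_lit 228) (nat_lit 0) (XT.lf (nat_lit 0) (nat_lit 2246446096) (nat_lit 76) (nat_lit 490173695) (nat_lit 76) (nat_lit 490173695) (nat_lit 435) (nat_lit 4) (nat_lit 436) (nat_lit 5) (nat_lit 436) (nat_lit 4) (nat_lit 402) (nat_lit 399) (nat_lit 399)) (XT.lf (nat_lit 0) (nat_lit 3774724434) (nat_lit 152) (nat_lit 461963088) (nat_lit 228) (nat_lit 2232274942) (nat_lit 432) (nat_lit 5) (nat_lit 434) (nat_lit 5) (nat_lit 435) (nat_lit 4) (nat_lit 403) (nat_lit 399) (nat_lit 398)))) (XT.nd (nat_lit 78) (nat_lit 760) (nat_lit 0) (XT.lf (nat_lit 0) (nat_lit 2875419503) (nat_lit 304) (nat_lit 3310184615) (nat_lit 76) (nat_lit 306509589) (nat_lit 428) (nat_lit 5) (nat_lit 432) (nat_lit 5) (nat_lit 429) (nat_lit 4) (nat_lit 404) (nat_lit 399) (nat_lit 397)) (XT.nd (nat_lit 78) (nat_lit 380) (nat_lit 0) (XT.lf (nat_lit 0) (nat_lit 1389997613)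 (nat_lit 380) (nat_lit 3813595141) (nat_lit 76) (nat_lit 1319373559) (nat_lit 423) (nat_lit 5) (nat_lit 428) (nat_lit 5) (nat_lit 424) (nat_lit 5) (nat_lit 405) (nat_lit 399) (nat_lit 396)) (XT.lf (nat_lit 0) (nat_lit 2358569871) (nat_lit 380) (nat_lit 3970811163) (nat_lit 456) (nat_lit 232262599) (nat_lit 418) (nat_lit 5) (nat_lit 423) (nat_lit 5) (nat_lit 424) (nat_lit 5) (nat_lit 406) (nat_lit 399) (nat_lit 395))))) (XT.nd (nat_lit 234) (nat_lit 3344) (nat_lit 0) (XT.nd (nat_lit 78) (nat_lit 1292) (nat_lit 0) (XT.lf (nat_lit 0) (nat_lit 2116020257) (nat_lit 456) (nat_lit 2470513612) (nat_lit 532) (nat_lit 2021301639) (nat_lit 411) (nat_lit 5) (nat_lit 417) (nat_lit 5) (nat_lit 418) (nat_lit 5) (nat_lit 407) (nat_lit 399) (nat_lit 394)) (XT.nd (nat_lit 78) (nat_lit 684) (nat_lit 0) (XT.lf (nat_lit 0) (nat_lit 1995686813) (nat_lit 532) (nat_lit 712318080) (nat_lit 608) (nat_lit 3954031205) (nat_lit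 403) (nat_lit 5) (nat_lit 410) (nat_lit 5) (nat_lit 411) (nat_lit 5) (nat_lit 408) (nat_lit 399) (nat_lit 393)) (XT.lf (nat_lit 0) (nat_lit 701492182) (nat_lit 684) (nat_lit 4739068740) (nat_lit 76) (nat_lit 1283407279) (nat_lit 394) (nat_lit 5) (nat_lit 403) (nat_lit 5) (nat_lit 395) (nat_lit 5) (nat_lit 409) (nat_lit 399) (nat_lit 392)))) (XT.nd (nat_lit 156) (nat_lit 1824) (nat_lit 0) (XT.nd (nat_lit 78) (nat_lit 836) (nat_lit 0) (XT.lf (nat_lit 0) (nat_lit 2072999535) (nat_lit 684) (nat_lit 3250287930) (nat_lit 760) (nat_lit 1470130320) (nat_lit 385) (nat_lit 5) (nat_lit 394) (nat_lit 5) (nat_lit 395) (nat_lit 5) (nat_lit 410) (nat_lit 399) (nat_lit 391)) (XT.lf (nat_lit 0) (nat_lit 2273961080) (nat_lit 760) (nat_lit 789343791) (nat_lit 836) (nat_lit 3807588167) (nat_lit 374) (nat_lit 5) (nat_lit 384) (nat_lit 5) (nat_lit 385) (nat_lit 5) (nat_lit 411) (nat_lit 399) (nat_lit 390))) (XT.nd (nat_lit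 78) (nat_lit 912) (nat_lit 0) (XT.lf (nat_lit 0) (nat_lit 672311604) (nat_lit 912) (nat_lit 4379293664) (nat_lit 76) (nat_lit 1904577509) (nat_lit 362) (nat_lit 5) (nat_lit 374) (nat_lit 5) (nat_lit 363) (nat_lit 5) (nat_lit 412) (nat_lit 399) (nat_lit 389)) (XT.lf (nat_lit 0) (nat_lit 2973226045) (nat_lit 912) (nat_lit 2174250324) (nat_lit 988) (nat_lit 1901672705) (nat_lit 350) (nat_lit 5) (nat_lit 362) (nat_lit 5) (nat_lit 363) (nat_lit 5) (nat_lit 413) (nat_lit 399) (nat_lit 388)))))) (XT.nd (nat_lit 468) (nat_lit 4408) (nat_lit 0) (XT.nd (nat_lit 234) (nat_lit 2736) (nat_lit 0) (XT.nd (nat_lit 78) (nat_lit 2280) (nat_lit 0) (XT.lf (nat_lit 0) (nat_lit 2507440873) (nat_lit 1064) (nat_lit 3676862331) (nat_lit 76) (nat_lit 965907681) (nat_lit 336) (nat_lit 5) (nat_lit 350) (nat_lit 5) (nat_lit 337) (nat_lit 5) (nat_lit 414) (nat_lit 399) (nat_lit 387)) (XT.nd (nat_lit 78) (nat_lit 1216) (nat_lit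 0) (XT.lf (nat_lit 0) (nat_lit 4068901510) (nat_lit 1064) (nat_lit 2913847724) (nat_lit 1140) (nat_lit 276497983) (nat_lit 322) (nat_lit 5) (nat_lit 336) (nat_lit 5) (nat_lit 337) (nat_lit 5) (nat_lit 415) (nat_lit 399) (nat_lit 386)) (XT.lf (nat_lit 0) (nat_lit 4102091061) (nat_lit 1216) (nat_lit 2623166574) (nat_lit 76) (nat_lit 650928733) (nat_lit 306) (nat_lit 5) (nat_lit 322) (nat_lit 5) (nat_lit 307) (nat_lit 5) (nat_lit 416) (nat_lit 399) (nat_lit 385)))) (XT.nd (nat_lit 78) (nat_lit 1444) (nat_lit 0) (XT.lf (nat_lit 0) (nat_lit 1082746568) (nat_lit 1292) (nat_lit 1972664975) (nat_lit 76) (nat_lit 4445835040) (nat_lit 289) (nat_lit 5) (nat_lit 306) (nat_lit 5) (nat_lit 290) (nat_lit 5) (nat_lit 417) (nat_lit 399) (nat_lit 384)) (XT.nd (nat_lit 78) (nat_lit 684) (nat_lit 0) (XT.lf (nat_lit 0) (nat_lit 5490063175) (nat_lit 836) (nat_lit 1237667539) (nat_lit 76) (nat_lit 906877432) (nat_lit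 279) (nat_lit 5) (nat_lit 290) (nat_lit 5) (nat_lit 280) (nat_lit 5) (nat_lit 418) (nat_lit 399) (nat_lit 383)) (XT.lf (nat_lit 0) (nat_lit 2228420699) (nat_lit 684) (nat_lit 430281093) (nat_lit 76) (nat_lit 5117358100) (nat_lit 270) (nat_lit 5) (nat_lit 279) (nat_lit 5) (nat_lit 271) (nat_lit 5) (nat_lit 419) (nat_lit 399) (nat_lit 382))))) (XT.nd (nat_lit 234) (nat_lit 2128) (nat_lit 0) (XT.nd (nat_lit 78) (nat_lit 1140) (nat_lit 0) (XT.lf (nat_lit 0) (nat_lit 473573422) (nat_lit 532) (nat_lit 6232275571) (nat_lit 608) (nat_lit 1220220728) (nat_lit 255) (nat_lit 5) (nat_lit 262) (nat_lit 5) (nat_lit 263) (nat_lit 5) (nat_lit 420) (nat_lit 399) (nat_lit 381)) (XT.nd (nat_lit 78) (nat_lit 532) (nat_lit 0) (XT.lf (nat_lit 0) (nat_lit 1454087980) (nat_lit 532) (nat_lit 1753486161) (nat_lit 608) (nat_lit 4876607068) (nat_lit 247) (nat_lit 5) (nat_lit 254) (nat_lit 5) (nat_lit 255) (nat_lit 5) (nat_lit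 421) (nat_lit 399) (nat_lit 380)) (XT.lf (nat_lit 0) (nat_lit 2520363610) (nat_lit 532) (nat_lit 5266146860) (nat_lit 608) (nat_lit 464699938) (nat_lit 240) (nat_lit 5) (nat_lit 247) (nat_lit 5) (nat_lit 248) (nat_lit 5) (nat_lit 422) (nat_lit 399) (nat_lit 379)))) (XT.nd (nat_lit 156) (nat_lit 988) (nat_lit 0) (XT.nd (nat_lit 78) (nat_lit 532) (nat_lit 0) (XT.lf (nat_lit 0) (nat_lit 3656380628) (nat_lit 532) (nat_lit 381339545) (nat_lit 608) (nat_lit 4389153982) (nat_lit 232) (nat_lit 5) (nat_lit 239) (nat_lit 5) (nat_lit 240) (nat_lit 5) (nat_lit 423) (nat_lit 399) (nat_lit 378)) (XT.lf (nat_lit 0) (nat_lit 129077179) (nat_lit 532) (nat_lit 3743409306) (nat_lit 76) (nat_lit 4739052751) (nat_lit 225) (nat_lit 5) (nat_lit 232) (nat_lit 5) (nat_lit 226) (nat_lit 5) (nat_lit 424) (nat_lit 399) (nat_lit 377))) (XT.nd (nat_lit 78) (nat_lit 532) (nat_lit 0) (XT.lf (nat_lit 0) (nat_lit 4749505524) (nat_lit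 532) (nat_lit 2658645574) (nat_lit 76) (nat_lit 1396990674) (nat_lit 219) (nat_lit 5) (nat_lit 226) (nat_lit 5) (nat_lit 220) (nat_lit 5) (nat_lit 425) (nat_lit 399) (nat_lit 376)) (XT.lf (nat_lit 0) (nat_lit 576465168) (nat_lit 532) (nat_lit 1499290833) (nat_lit 76) (nat_lit 6932650887) (nat_lit 212) (nat_lit 5) (nat_lit 219) (nat_lit 5) (nat_lit 213) (nat_lit 5) (nat_lit 426) (nat_lit 399) (nat_lit 375))))))))
noncomputable def xc46 : XT := (XT.nd (nat_lit 1950) (nat_lit 3876) (nat_lit 0) (XT.nd (nat_lit 936) (nat_lit 3344) (nat_lit 0) (XT.nd (nat_lit 468) (nat_lit 2280) (nat_lit 0) (XT.nd (nat_lit 234) (nat_lit 1216) (nat_lit 0) (XT.nd (nat_lit 78) (nat_lit 1292) (nat_lit 0) (XT.lf (nat_lit 0) (nat_lit 5355245681) (nat_lit 532) (nat_lit 294797251) (nat_lit 76) (nat_lit 3570636521) (nat_lit 206) (nat_lit 5) (nat_lit 213) (nat_lit 5) (nat_lit 207) (nat_lit 5) (nat_lit 427) (nat_lit 399) (nat_lit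 374)) (XT.nd (nat_lit 78) (nat_lit 380) (nat_lit 0) (XT.lf (nat_lit 0) (nat_lit 913405126) (nat_lit 532) (nat_lit 8423708790) (nat_lit 76) (nat_lit 106135517) (nat_lit 194) (nat_lit 5) (nat_lit 201) (nat_lit 5) (nat_lit 195) (nat_lit 5) (nat_lit 428) (nat_lit 399) (nat_lit 373)) (XT.lf (nat_lit 0) (nat_lit 2366695849) (nat_lit 380) (nat_lit 3522977577) (nat_lit 456) (nat_lit 3784988709) (nat_lit 189) (nat_lit 5) (nat_lit 194) (nat_lit 5) (nat_lit 195) (nat_lit 5) (nat_lit 429) (nat_lit 399) (nat_lit 372)))) (XT.nd (nat_lit 78) (nat_lit 760) (nat_lit 0) (XT.lf (nat_lit 0) (nat_lit 1183266086) (nat_lit 456) (nat_lit 6115780338) (nat_lit 76) (nat_lit 2617982473) (nat_lit 183) (nat_lit 5) (nat_lit 189) (nat_lit 5) (nat_lit 184) (nat_lit 5) (nat_lit 430) (nat_lit 399) (nat_lit 371)) (XT.nd (nat_lit 78) (nat_lit 456) (nat_lit 0) (XT.lf (nat_lit 0) (nat_lit 5287730414) (nat_lit 304) (nat_lit 1060900071)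 (nat_lit 380) (nat_lit 3820963433) (nat_lit 179) (nat_lit 5) (nat_lit 183) (nat_lit 5) (nat_lit 184) (nat_lit 5) (nat_lit 431) (nat_lit 399) (nat_lit 370)) (XT.lf (nat_lit 0) (nat_lit 1362114500) (nat_lit 456) (nat_lit 3598394602) (nat_lit 76) (nat_lit 5472382709) (nat_lit 173) (nat_lit 5) (nat_lit 179) (nat_lit 5) (nat_lit 174) (nat_lit 5) (nat_lit 432) (nat_lit 399) (nat_lit 369))))) (XT.nd (nat_lit 234) (nat_lit 988) (nat_lit 0) (XT.nd (nat_lit 78) (nat_lit 988) (nat_lit 0) (XT.lf (nat_lit 0) (nat_lit 6756713714) (nat_lit 380) (nat_lit 2263640393) (nat_lit 76) (nat_lit 1686935685) (nat_lit 169) (nat_lit 5) (nat_lit 174) (nat_lit 5) (nat_lit 170) (nat_lit 5) (nat_lit 433) (nat_lit 399) (nat_lit 368)) (XT.nd (nat_lit 78) (nat_lit 608) (nat_lit 0) (XT.lf (nat_lit 0) (nat_lit 1458463445) (nat_lit 380) (nat_lit 875305044) (nat_lit 76) (nat_lit 8659419596) (nat_lit 164) (nat_lit 5) (nat_lit 169) (nat_lit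 5) (nat_lit 165) (nat_lit 5) (nat_lit 434) (nat_lit 399) (nat_lit 367)) (XT.lf (nat_lit 0) (nat_lit 557262494) (nat_lit 304) (nat_lit 6567340288) (nat_lit 380) (nat_lit 4165564959) (nat_lit 156) (nat_lit 5) (nat_lit 160) (nat_lit 5) (nat_lit 161) (nat_lit 5) (nat_lit 435) (nat_lit 399) (nat_lit 366)))) (XT.nd (nat_lit 78) (nat_lit 608) (nat_lit 0) (XT.lf (nat_lit 0) (nat_lit 1504253296) (nat_lit 380) (nat_lit 9515050577) (nat_lit 76) (nat_lit 580449881) (nat_lit 151) (nat_lit 5) (nat_lit 156) (nat_lit 5) (nat_lit 152) (nat_lit 5) (nat_lit 436) (nat_lit 399) (nat_lit 365)) (XT.nd (nat_lit 78) (nat_lit 304) (nat_lit 0) (XT.lf (nat_lit 0) (nat_lit 3625316487) (nat_lit 304) (nat_lit 3841890449) (nat_lit 380) (nat_lit 4453510186) (nat_lit 147) (nat_lit 5) (nat_lit 151) (nat_lit 5) (nat_lit 152) (nat_lit 5) (nat_lit 437) (nat_lit 399) (nat_lit 364)) (XT.lf (nat_lit 0) (nat_lit 1513082581) (nat_lit 304)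 (nat_lit 7017259975) (nat_lit 76) (nat_lit 3724834542) (nat_lit 143) (nat_lit 5) (nat_lit 147) (nat_lit 5) (nat_lit 144) (nat_lit 5) (nat_lit 438) (nat_lit 399) (nat_lit 363)))))) (XT.nd (nat_lit 468) (nat_lit 1444) (nat_lit 0) (XT.nd (nat_lit 234) (nat_lit 1064) (nat_lit 0) (XT.nd (nat_lit 78) (nat_lit 532) (nat_lit 0) (XT.lf (nat_lit 0) (nat_lit 6890678172) (nat_lit 304) (nat_lit 875580741) (nat_lit 380) (nat_lit 4836375649) (nat_lit 139) (nat_lit 5) (nat_lit 143) (nat_lit 5) (nat_lit 144) (nat_lit 5) (nat_lit 439) (nat_lit 399) (nat_lit 362)) (XT.nd (nat_lit 78) (nat_lit 228) (nat_lit 0) (XT.lf (nat_lit 0) (nat_lit 1454908441) (nat_lit 304) (nat_lit 4378901530) (nat_lit 76) (nat_lit 7129761642) (nat_lit 135) (nat_lit 5) (nat_lit 139) (nat_lit 5) (nat_lit 136) (nat_lit 5) (nat_lit 440) (nat_lit 399) (nat_lit 361)) (XT.lf (nat_lit 0) (nat_lit 8045493381) (nat_lit 304) (nat_lit 3014583490) (nat_lit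 76) (nat_lit 2278506419) (nat_lit 132) (nat_lit 5) (nat_lit 136) (nat_lit 5) (nat_lit 133) (nat_lit 5) (nat_lit 441) (nat_lit 399) (nat_lit 360)))) (XT.nd (nat_lit 78) (nat_lit 760) (nat_lit 0) (XT.lf (nat_lit 0) (nat_lit 1328026454) (nat_lit 304) (nat_lit 1610819745) (nat_lit 76) (nat_lit 10789585402) (nat_lit 128) (nat_lit 5) (nat_lit 132) (nat_lit 5) (nat_lit 129) (nat_lit 5) (nat_lit 442) (nat_lit 399) (nat_lit 359)) (XT.nd (nat_lit 78) (nat_lit 532) (nat_lit 0) (XT.lf (nat_lit 0) (nat_lit 8291792159) (nat_lit 304) (nat_lit 203848679) (nat_lit 76) (nat_lit 5636933680) (nat_lit 125) (nat_lit 5) (nat_lit 129) (nat_lit 5) (nat_lit 126) (nat_lit 5) (nat_lit 443) (nat_lit 399) (nat_lit 358)) (XT.lf (nat_lit 0) (nat_lit 1141687169) (nat_lit 304) (nat_lit 13256331309) (nat_lit 76) (nat_lit 155151241) (nat_lit 118) (nat_lit 5) (nat_lit 122) (nat_lit 5) (nat_lit 119) (nat_lit 5) (nat_lit 444) (nat_lit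 399) (nat_lit 357))))) (XT.nd (nat_lit 234) (nat_lit 836) (nat_lit 0) (XT.nd (nat_lit 78) (nat_lit 456) (nat_lit 0) (XT.lf (nat_lit 0) (nat_lit 2766848443) (nat_lit 152) (nat_lit 5751969755) (nat_lit 228) (nat_lit 6469257094) (nat_lit 116) (nat_lit 5) (nat_lit 118) (nat_lit 5) (nat_lit 119) (nat_lit 5) (nat_lit 445) (nat_lit 399) (nat_lit 356)) (XT.nd (nat_lit 78) (nat_lit 152) (nat_lit 0) (XT.lf (nat_lit 0) (nat_lit 920610597) (nat_lit 304) (nat_lit 11135705696) (nat_lit 76) (nat_lit 3384682460) (nat_lit 112) (nat_lit 5) (nat_lit 116) (nat_lit 5) (nat_lit 113) (nat_lit 5) (nat_lit 446) (nat_lit 399) (nat_lit 355)) (XT.lf (nat_lit 0) (nat_lit 5828852238) (nat_lit 152) (nat_lit 2865952299) (nat_lit 228) (nat_lit 7215388345) (nat_lit 110) (nat_lit 5) (nat_lit 112) (nat_lit 5) (nat_lit 113) (nat_lit 5) (nat_lit 447) (nat_lit 399) (nat_lit 354)))) (XT.nd (nat_lit 156) (nat_lit 380) (nat_lit 0) (XT.nd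 (nat_lit 78) (nat_lit 152) (nat_lit 0) (XT.lf (nat_lit 0) (nat_lit 608203838) (nat_lit 304) (nat_lit 9009623504) (nat_lit 76) (nat_lit 6780026155) (nat_lit 106) (nat_lit 5) (nat_lit 110) (nat_lit 5) (nat_lit 107) (nat_lit 5) (nat_lit 448) (nat_lit 399) (nat_lit 353)) (XT.lf (nat_lit 0) (nat_lit 8806884778) (nat_lit 228) (nat_lit 7953898261) (nat_lit 76) (nat_lit 142981172) (nat_lit 104) (nat_lit 5) (nat_lit 107) (nat_lit 5) (nat_lit 105) (nat_lit 5) (nat_lit 449) (nat_lit 399) (nat_lit 352))) (XT.nd (nat_lit 78) (nat_lit 152) (nat_lit 0) (XT.lf (nat_lit 0) (nat_lit 187520183) (nat_lit 228) (nat_lit 6913284326) (nat_lit 76) (nat_lit 10327977203) (nat_lit 101) (nat_lit 5) (nat_lit 104) (nat_lit 5) (nat_lit 102) (nat_lit 5) (nat_lit 450) (nat_lit 399) (nat_lit 351)) (XT.lf (nat_lit 0) (nat_lit 8865271192) (nat_lit 228) (nat_lit 5905600664) (nat_lit 76) (nat_lit 3202379374) (nat_lit 99) (nat_lit 5)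 (nat_lit 102) (nat_lit 5) (nat_lit 100) (nat_lit 5) (nat_lit 451) (nat_lit 399) (nat_lit 350))))))) (XT.nd (nat_lit 1014) (nat_lit 1596) (nat_lit 0) (XT.nd (nat_lit 468) (nat_lit 1140) (nat_lit 0) (XT.nd (nat_lit 234) (nat_lit 608) (nat_lit 0) (XT.nd (nat_lit 78) (nat_lit 380) (nat_lit 0) (XT.lf (nat_lit 0) (nat_lit 13645048026) (nat_lit 152) (nat_lit 4523248727) (nat_lit 228) (nat_lit 370909459) (nat_lit 97) (nat_lit 5) (nat_lit 99) (nat_lit 5) (nat_lit 100) (nat_lit 5) (nat_lit 452) (nat_lit 399) (nat_lit 349)) (XT.nd (nat_lit 78) (nat_lit 152) (nat_lit 0) (XT.lf (nat_lit 0) (nat_lit 8819740547) (nat_lit 228) (nat_lit 3957875733) (nat_lit 76) (nat_lit 6347652254) (nat_lit 94) (nat_lit 5) (nat_lit 97) (nat_lit 5) (nat_lit 95) (nat_lit 5) (nat_lit 453) (nat_lit 399) (nat_lit 348)) (XT.lf (nat_lit 0) (nat_lit 16728595932) (nat_lit 152) (nat_lit 1911455239) (nat_lit 228) (nat_lit 1095141823) (nat_lit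 92) (nat_lit 5) (nat_lit 94) (nat_lit 5) (nat_lit 95) (nat_lit 5) (nat_lit 454) (nat_lit 399) (nat_lit 347)))) (XT.nd (nat_lit 78) (nat_lit 380) (nat_lit 0) (XT.lf (nat_lit 0) (nat_lit 8641131402) (nat_lit 228) (nat_lit 2171404624) (nat_lit 76) (nat_lit 9553626162) (nat_lit 89) (nat_lit 5) (nat_lit 92) (nat_lit 5) (nat_lit 90) (nat_lit 5) (nat_lit 455) (nat_lit 399) (nat_lit 346)) (XT.nd (nat_lit 78) (nat_lit 228) (nat_lit 0) (XT.lf (nat_lit 0) (nat_lit 19012393231) (nat_lit 228) (nat_lit 1323236795) (nat_lit 76) (nat_lit 687602589) (nat_lit 87) (nat_lit 5) (nat_lit 90) (nat_lit 5) (nat_lit 88) (nat_lit 4) (nat_lit 456) (nat_lit 399) (nat_lit 345)) (XT.lf (nat_lit 0) (nat_lit 8292647881) (nat_lit 228) (nat_lit 621008119) (nat_lit 76) (nat_lit 12789240062) (nat_lit 84) (nat_lit 5) (nat_lit 87) (nat_lit 5) (nat_lit 85) (nat_lit 5) (nat_lit 457) (nat_lit 399) (nat_lit 344))))) (XT.nd (nat_lit 234)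 (nat_lit 608) (nat_lit 0) (XT.nd (nat_lit 78) (nat_lit 304) (nat_lit 0) (XT.lf (nat_lit 0) (nat_lit 62548407) (nat_lit 76) (nat_lit 19196934142) (nat_lit 152) (nat_lit 3150772500) (nat_lit 81) (nat_lit 5) (nat_lit 82) (nat_lit 5) (nat_lit 83) (nat_lit 4) (nat_lit 458) (nat_lit 399) (nat_lit 343)) (XT.nd (nat_lit 78) (nat_lit 76) (nat_lit 0) (XT.lf (nat_lit 0) (nat_lit 613458596) (nat_lit 152) (nat_lit 7120930468) (nat_lit 228) (nat_lit 15408554111) (nat_lit 78) (nat_lit 5) (nat_lit 80) (nat_lit 5) (nat_lit 81) (nat_lit 5) (nat_lit 459) (nat_lit 399) (nat_lit 342)) (XT.lf (nat_lit 0) (nat_lit 1085061976) (nat_lit 76) (nat_lit 18238866758) (nat_lit 152) (nat_lit 4580644778) (nat_lit 77) (nat_lit 5) (nat_lit 78) (nat_lit 5) (nat_lit 79) (nat_lit 4) (nat_lit 460) (nat_lit 399) (nat_lit 341)))) (XT.nd (nat_lit 156) (nat_lit 304) (nat_lit 0) (XT.nd (nat_lit 78) (nat_lit 76) (nat_lit 0) (XT.lf (nat_lit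 0) (nat_lit 1411421619) (nat_lit 152) (nat_lit 5494385024) (nat_lit 228) (nat_lit 17789034484) (nat_lit 74) (nat_lit 5) (nat_lit 76) (nat_lit 5) (nat_lit 77) (nat_lit 5) (nat_lit 461) (nat_lit 399) (nat_lit 340)) (XT.lf (nat_lit 0) (nat_lit 1591633237) (nat_lit 76) (nat_lit 17540954181) (nat_lit 152) (nat_lit 6382853776) (nat_lit 73) (nat_lit 5) (nat_lit 74) (nat_lit 5) (nat_lit 75) (nat_lit 4) (nat_lit 462) (nat_lit 399) (nat_lit 339))) (XT.nd (nat_lit 78) (nat_lit 76) (nat_lit 0) (XT.lf (nat_lit 0) (nat_lit 1621254259) (nat_lit 152) (nat_lit 4109241168) (nat_lit 228) (nat_lit 20637584171) (nat_lit 70) (nat_lit 5) (nat_lit 72) (nat_lit 5) (nat_lit 73) (nat_lit 5) (nat_lit 463) (nat_lit 399) (nat_lit 338)) (XT.lf (nat_lit 0) (nat_lit 1428804032) (nat_lit 76) (nat_lit 17182828749) (nat_lit 152) (nat_lit 8640999082) (nat_lit 69) (nat_lit 5) (nat_lit 70) (nat_lit 5) (nat_lit 71) (nat_lit 4) (nat_lit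 464) (nat_lit 399) (nat_lit 337)))))) (XT.nd (nat_lit 468) (nat_lit 760) (nat_lit 0) (XT.nd (nat_lit 234) (nat_lit 456) (nat_lit 0) (XT.nd (nat_lit 78) (nat_lit 152) (nat_lit 0) (XT.lf (nat_lit 0) (nat_lit 1074094793) (nat_lit 152) (nat_lit 3048927777) (nat_lit 228) (nat_lit 24049906316) (nat_lit 66) (nat_lit 5) (nat_lit 68) (nat_lit 5) (nat_lit 69) (nat_lit 5) (nat_lit 465) (nat_lit 399) (nat_lit 336)) (XT.nd (nat_lit 78) (nat_lit 76) (nat_lit 0) (XT.lf (nat_lit 0) (nat_lit 410826818) (nat_lit 76) (nat_lit 17260248977) (nat_lit 152) (nat_lit 11455863620) (nat_lit 65) (nat_lit 5) (nat_lit 66) (nat_lit 5) (nat_lit 67) (nat_lit 4) (nat_lit 466) (nat_lit 399) (nat_lit 335)) (XT.lf (nat_lit 0) (nat_lit 1984267959) (nat_lit 152) (nat_lit 425646077) (nat_lit 76) (nat_lit 27710701445) (nat_lit 64) (nat_lit 5) (nat_lit 66) (nat_lit 5) (nat_lit 65) (nat_lit 5) (nat_lit 467) (nat_lit 399) (nat_lit 334))))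 (XT.nd (nat_lit 78) (nat_lit 304) (nat_lit 0) (XT.lf (nat_lit 0) (nat_lit 16218012756) (nat_lit 228) (nat_lit 1653505829) (nat_lit 76) (nat_lit 13278299391) (nat_lit 62) (nat_lit 5) (nat_lit 65) (nat_lit 5) (nat_lit 63) (nat_lit 4) (nat_lit 468) (nat_lit 399) (nat_lit 333)) (XT.nd (nat_lit 78) (nat_lit 228) (nat_lit 0) (XT.lf (nat_lit 0) (nat_lit 29127392917) (nat_lit 76) (nat_lit 2287374032) (nat_lit 152) (nat_lit 808175221) (nat_lit 61) (nat_lit 5) (nat_lit 62) (nat_lit 5) (nat_lit 63) (nat_lit 4) (nat_lit 469) (nat_lit 399) (nat_lit 332)) (XT.lf (nat_lit 0) (nat_lit 14121414827) (nat_lit 228) (nat_lit 5032395635) (nat_lit 76) (nat_lit 14180667984) (nat_lit 58) (nat_lit 5) (nat_lit 61) (nat_lit 5) (nat_lit 59) (nat_lit 4) (nat_lit 470) (nat_lit 399) (nat_lit 331))))) (XT.nd (nat_lit 234) (nat_lit 456) (nat_lit 0) (XT.nd (nat_lit 78) (nat_lit 228) (nat_lit 0) (XT.lf (nat_lit 0) (nat_lit 27227809177)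 (nat_lit 76) (nat_lit 2815052683) (nat_lit 152) (nat_lit 4450627962) (nat_lit 57) (nat_lit 5) (nat_lit 58) (nat_lit 5) (nat_lit 59) (nat_lit 4) (nat_lit 471) (nat_lit 399) (nat_lit 330)) (XT.nd (nat_lit 78) (nat_lit 76) (nat_lit 0) (XT.lf (nat_lit 0) (nat_lit 11221974828) (nat_lit 152) (nat_lit 10051099913) (nat_lit 76) (nat_lit 14422561395) (nat_lit 55) (nat_lit 5) (nat_lit 57) (nat_lit 5) (nat_lit 56) (nat_lit 4) (nat_lit 472) (nat_lit 399) (nat_lit 329)) (XT.lf (nat_lit 0) (nat_lit 23682732960) (nat_lit 76) (nat_lit 4183065755) (nat_lit 152) (nat_lit 9082380939) (nat_lit 54) (nat_lit 5) (nat_lit 55) (nat_lit 5) (nat_lit 56) (nat_lit 4) (nat_lit 473) (nat_lit 399) (nat_lit 328)))) (XT.nd (nat_lit 156) (nat_lit 228) (nat_lit 0) (XT.nd (nat_lit 78) (nat_lit 76) (nat_lit 0) (XT.lf (nat_lit 0) (nat_lit 7333368417) (nat_lit 152) (nat_lit 17089415575) (nat_lit 76) (nat_lit 13826735029) (nat_lit 52)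 (nat_lit 5) (nat_lit 54) (nat_lit 5) (nat_lit 53) (nat_lit 4) (nat_lit 474) (nat_lit 399) (nat_lit 327)) (XT.lf (nat_lit 0) (nat_lit 18092023156) (nat_lit 76) (nat_lit 6595150810) (nat_lit 152) (nat_lit 14916901311) (nat_lit 51) (nat_lit 5) (nat_lit 52) (nat_lit 5) (nat_lit 53) (nat_lit 4) (nat_lit 475) (nat_lit 399) (nat_lit 326))) (XT.nd (nat_lit 78) (nat_lit 76) (nat_lit 0) (XT.lf (nat_lit 0) (nat_lit 2232717471) (nat_lit 152) (nat_lit 26601077317) (nat_lit 76) (nat_lit 12180408391) (nat_lit 49) (nat_lit 5) (nat_lit 51) (nat_lit 5) (nat_lit 50) (nat_lit 4) (nat_lit 476) (nat_lit 399) (nat_lit 325)) (XT.lf (nat_lit 0) (nat_lit 9976755850) (nat_lit 76) (nat_lit 10294894581) (nat_lit 152) (nat_lit 22208546899) (nat_lit 48) (nat_lit 5) (nat_lit 49) (nat_lit 5) (nat_lit 50) (nat_lit 4) (nat_lit 477) (nat_lit 399) (nat_lit 324))))))))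
noncomputable def xc47 : XT := (XT.nd (nat_lit 56784) (nat_lit 0) (nat_lit 12312) (XT.nd (nat_lit 936) (nat_lit 532) (nat_lit 0) (XT.nd (nat_lit 468) (nat_lit 608) (nat_lit 0) (XT.nd (nat_lit 234) (nat_lit 304) (nat_lit 0) (XT.nd (nat_lit 78) (nat_lit 152) (nat_lit 0) (XT.lf (nat_lit 0) (nat_lit 4838850274) (nat_lit 76) (nat_lit 34737261899) (nat_lit 76) (nat_lit 4432472260) (nat_lit 47) (nat_lit 4) (nat_lit 48) (nat_lit 5) (nat_lit 48) (nat_lit 4) (nat_lit 478) (nat_lit 399) (nat_lit 323)) (XT.nd (nat_lit 78) (nat_lit 76) (nat_lit 0) (XT.lf (nat_lit 0) (nat_lit 14349805512) (nat_lit 152) (nat_lit 1210966281) (nat_lit 76) (nat_lit 30036661689) (nat_lit 46) (nat_lit 5) (nat_lit 48) (nat_lit 5) (nat_lit 47) (nat_lit 4) (nat_lit 479) (nat_lit 399) (nat_lit 322)) (XT.lf (nat_lit 0) (nat_lit 34361250837) (nat_lit 152) (nat_lit 8021354277) (nat_lit 0) (nat_lit 4870352199) (nat_lit 45) (nat_lit 5) (nat_lit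 47) (nat_lit 4) (nat_lit 45) (nat_lit 4) (nat_lit 480) (nat_lit 399) (nat_lit 321)))) (XT.nd (nat_lit 78) (nat_lit 152) (nat_lit 0) (XT.lf (nat_lit 0) (nat_lit 6706483328) (nat_lit 152) (nat_lit 15908687667) (nat_lit 76) (nat_lit 26360776235) (nat_lit 43) (nat_lit 5) (nat_lit 45) (nat_lit 5) (nat_lit 44) (nat_lit 4) (nat_lit 481) (nat_lit 399) (nat_lit 320)) (XT.nd (nat_lit 78) (nat_lit 76) (nat_lit 0) (XT.lf (nat_lit 0) (nat_lit 25885957282) (nat_lit 76) (nat_lit 1424010626) (nat_lit 152) (nat_lit 23462529899) (nat_lit 42) (nat_lit 5) (nat_lit 43) (nat_lit 5) (nat_lit 44) (nat_lit 4) (nat_lit 482) (nat_lit 399) (nat_lit 319)) (XT.lf (nat_lit 0) (nat_lit 17506593837) (nat_lit 76) (nat_lit 31929079692) (nat_lit 76) (nat_lit 3208441504) (nat_lit 41) (nat_lit 4) (nat_lit 42) (nat_lit 5) (nat_lit 42) (nat_lit 4) (nat_lit 483) (nat_lit 399) (nat_lit 318))))) (XT.nd (nat_lit 234) (nat_lit 304) (nat_lit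 0) (XT.nd (nat_lit 78) (nat_lit 152) (nat_lit 0) (XT.lf (nat_lit 0) (nat_lit 7819416429) (nat_lit 76) (nat_lit 10193810424) (nat_lit 152) (nat_lit 36581661344) (nat_lit 39) (nat_lit 5) (nat_lit 40) (nat_lit 5) (nat_lit 41) (nat_lit 4) (nat_lit 484) (nat_lit 399) (nat_lit 317)) (XT.nd (nat_lit 78) (nat_lit 152) (nat_lit 0) (XT.lf (nat_lit 0) (nat_lit 40676752889) (nat_lit 152) (nat_lit 3210234586) (nat_lit 0) (nat_lit 12741846109) (nat_lit 39) (nat_lit 5) (nat_lit 41) (nat_lit 4) (nat_lit 39) (nat_lit 4) (nat_lit 485) (nat_lit 399) (nat_lit 316)) (XT.lf (nat_lit 0) (nat_lit 6082206557) (nat_lit 152) (nat_lit 15611624230) (nat_lit 76) (nat_lit 37054460624) (nat_lit 37) (nat_lit 5) (nat_lit 39) (nat_lit 5) (nat_lit 38) (nat_lit 4) (nat_lit 486) (nat_lit 399) (nat_lit 315)))) (XT.nd (nat_lit 78) (nat_lit 228) (nat_lit 0) (XT.lf (nat_lit 0) (nat_lit 29207838016) (nat_lit 152) (nat_lit 29709718713) (nat_lit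 0) (nat_lit 2041841267) (nat_lit 36) (nat_lit 5) (nat_lit 38) (nat_lit 4) (nat_lit 36) (nat_lit 4) (nat_lit 487) (nat_lit 399) (nat_lit 314)) (XT.nd (nat_lit 78) (nat_lit 152) (nat_lit 0) (XT.lf (nat_lit 0) (nat_lit 17553559729) (nat_lit 76) (nat_lit 36449439718) (nat_lit 76) (nat_lit 9262663395) (nat_lit 35) (nat_lit 4) (nat_lit 36) (nat_lit 5) (nat_lit 36) (nat_lit 4) (nat_lit 488) (nat_lit 399) (nat_lit 313)) (XT.lf (nat_lit 0) (nat_lit 1948725414) (nat_lit 76) (nat_lit 12413487297) (nat_lit 152) (nat_lit 51312143110) (nat_lit 33) (nat_lit 5) (nat_lit 34) (nat_lit 5) (nat_lit 35) (nat_lit 4) (nat_lit 489) (nat_lit 399) (nat_lit 312)))))) (XT.nd (nat_lit 468) (nat_lit 76) (nat_lit 0) (XT.nd (nat_lit 234) (nat_lit 228) (nat_lit 0) (XT.nd (nat_lit 78) (nat_lit 228) (nat_lit 0) (XT.lf (nat_lit 0) (nat_lit 39541743095) (nat_lit 152) (nat_lit 15532737869) (nat_lit 0) (nat_lit 13109302243) (nat_lit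 33) (nat_lit 5) (nat_lit 35) (nat_lit 4) (nat_lit 33) (nat_lit 4) (nat_lit 490) (nat_lit 399) (nat_lit 311)) (XT.nd (nat_lit 78) (nat_lit 152) (nat_lit 0) (XT.lf (nat_lit 0) (nat_lit 35572180481) (nat_lit 76) (nat_lit 30841680837) (nat_lit 76) (nat_lit 4391812630) (nat_lit 32) (nat_lit 4) (nat_lit 33) (nat_lit 5) (nat_lit 33) (nat_lit 4) (nat_lit 491) (nat_lit 399) (nat_lit 310)) (XT.lf (nat_lit 0) (nat_lit 16046854161) (nat_lit 76) (nat_lit 4895667932) (nat_lit 152) (nat_lit 52601578067) (nat_lit 30) (nat_lit 5) (nat_lit 31) (nat_lit 5) (nat_lit 32) (nat_lit 4) (nat_lit 492) (nat_lit 399) (nat_lit 309)))) (XT.nd (nat_lit 78) (nat_lit 228) (nat_lit 0) (XT.lf (nat_lit 0) (nat_lit 48002390428) (nat_lit 152) (nat_lit 6107817705) (nat_lit 0) (nat_lit 22291445948) (nat_lit 30) (nat_lit 5) (nat_lit 32) (nat_lit 4) (nat_lit 30) (nat_lit 4) (nat_lit 493) (nat_lit 399) (nat_lit 308)) (XT.nd (nat_lit 78)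 (nat_lit 152) (nat_lit 0) (XT.lf (nat_lit 0) (nat_lit 48690841997) (nat_lit 76) (nat_lit 28211101816) (nat_lit 76) (nat_lit 2485541408) (nat_lit 29) (nat_lit 4) (nat_lit 30) (nat_lit 5) (nat_lit 30) (nat_lit 4) (nat_lit 494) (nat_lit 399) (nat_lit 307)) (XT.lf (nat_lit 0) (nat_lit 24006708553) (nat_lit 76) (nat_lit 498803216) (nat_lit 152) (nat_lit 58002043678) (nat_lit 27) (nat_lit 5) (nat_lit 28) (nat_lit 5) (nat_lit 29) (nat_lit 4) (nat_lit 495) (nat_lit 399) (nat_lit 306))))) (XT.nd (nat_lit 55068) (nat_lit 0) (nat_lit 30476) (XT.nd (nat_lit 78) (nat_lit 76) (nat_lit 0) (XT.lf (nat_lit 0) (nat_lit 53359659683) (nat_lit 152) (nat_lit 4049281056) (nat_lit 0) (nat_lit 28357001997) (nat_lit 27) (nat_lit 5) (nat_lit 29) (nat_lit 4) (nat_lit 27) (nat_lit 4) (nat_lit 496) (nat_lit 399) (nat_lit 305)) (XT.nd (nat_lit 54912) (nat_lit 0) (nat_lit 31236) (XT.lf (nat_lit 0) (nat_lit 54119998714) (nat_lit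 76) (nat_lit 30033626662) (nat_lit 76) (nat_lit 5018710931) (nat_lit 26) (nat_lit 4) (nat_lit 27) (nat_lit 5) (nat_lit 27) (nat_lit 4) (nat_lit 497) (nat_lit 399) (nat_lit 304)) (XT.lf (nat_lit 0) (nat_lit 1073741823) (nat_lit 0) (nat_lit 0) (nat_lit 0) (nat_lit 0) (nat_lit 437) (nat_lit 0) (nat_lit 1) (nat_lit 0) (nat_lit 1) (nat_lit 0) (nat_lit 400) (nat_lit 400) (nat_lit 400)))) (XT.nd (nat_lit 156) (nat_lit 532) (nat_lit 0) (XT.nd (nat_lit 78) (nat_lit 152) (nat_lit 0) (XT.lf (nat_lit 0) (nat_lit 5203330435) (nat_lit 76) (nat_lit 1106386697) (nat_lit 0) (nat_lit 136291637) (nat_lit 436) (nat_lit 5) (nat_lit 437) (nat_lit 0) (nat_lit 436) (nat_lit 4) (nat_lit 401) (nat_lit 400) (nat_lit 399)) (XT.lf (nat_lit 0) (nat_lit 3842786574) (nat_lit 152) (nat_lit 2091933288) (nat_lit 76) (nat_lit 522655913) (nat_lit 434) (nat_lit 5) (nat_lit 436) (nat_lit 5) (nat_lit 435) (nat_lit 4) (nat_lit 402) (nat_lit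 400) (nat_lit 398))) (XT.nd (nat_lit 78) (nat_lit 304) (nat_lit 0) (XT.lf (nat_lit 0) (nat_lit 2357918414) (nat_lit 228) (nat_lit 2958439391) (nat_lit 76) (nat_lit 1160215144) (nat_lit 431) (nat_lit 5) (nat_lit 434) (nat_lit 5) (nat_lit 432) (nat_lit 5) (nat_lit 403) (nat_lit 400) (nat_lit 397)) (XT.lf (nat_lit 0) (nat_lit 745457882) (nat_lit 304) (nat_lit 3707350295) (nat_lit 76) (nat_lit 2050827618) (nat_lit 427) (nat_lit 5) (nat_lit 431) (nat_lit 5) (nat_lit 428) (nat_lit 5) (nat_lit 404) (nat_lit 400) (nat_lit 396))))))) (XT.nd (nat_lit 1014) (nat_lit 7676) (nat_lit 0) (XT.nd (nat_lit 468) (nat_lit 7220) (nat_lit 0) (XT.nd (nat_lit 234) (nat_lit 1976) (nat_lit 0) (XT.nd (nat_lit 78) (nat_lit 988) (nat_lit 0) (XT.lf (nat_lit 0) (nat_lit 2188775288) (nat_lit 304) (nat_lit 3331442067) (nat_lit 380) (nat_lit 1018103443) (nat_lit 423) (nat_lit 5) (nat_lit 427) (nat_lit 5) (nat_lit 428) (nat_lit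 5) (nat_lit 405) (nat_lit 400) (nat_lit 395)) (XT.nd (nat_lit 78) (nat_lit 532) (nat_lit 0) (XT.lf (nat_lit 0) (nat_lit 1696112922) (nat_lit 380) (nat_lit 1950165455) (nat_lit 456) (nat_lit 2934448939) (nat_lit 417) (nat_lit 5) (nat_lit 422) (nat_lit 5) (nat_lit 423) (nat_lit 5) (nat_lit 406) (nat_lit 400) (nat_lit 394)) (XT.lf (nat_lit 0) (nat_lit 1325470729) (nat_lit 456) (nat_lit 312440620) (nat_lit 532) (nat_lit 4993241601) (nat_lit 410) (nat_lit 5) (nat_lit 416) (nat_lit 5) (nat_lit 417) (nat_lit 5) (nat_lit 407) (nat_lit 400) (nat_lit 393)))) (XT.nd (nat_lit 78) (nat_lit 1444) (nat_lit 0) (XT.lf (nat_lit 0) (nat_lit 1056154735) (nat_lit 532) (nat_lit 5128648159) (nat_lit 608) (nat_lit 504285121) (nat_lit 403) (nat_lit 5) (nat_lit 410) (nat_lit 5) (nat_lit 411) (nat_lit 5) (nat_lit 408) (nat_lit 400) (nat_lit 392)) (XT.nd (nat_lit 78) (nat_lit 760) (nat_lit 0) (XT.lf (nat_lit 0) (nat_lit 885560205)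 (nat_lit 608) (nat_lit 3048266086) (nat_lit 684) (nat_lit 2820727930) (nat_lit 394) (nat_lit 5) (nat_lit 402) (nat_lit 5) (nat_lit 403) (nat_lit 5) (nat_lit 409) (nat_lit 400) (nat_lit 391)) (XT.lf (nat_lit 0) (nat_lit 833909067) (nat_lit 684) (nat_lit 706775930) (nat_lit 760) (nat_lit 5287557845) (nat_lit 384) (nat_lit 5) (nat_lit 393) (nat_lit 5) (nat_lit 394) (nat_lit 5) (nat_lit 410) (nat_lit 400) (nat_lit 390))))) (XT.nd (nat_lit 234) (nat_lit 4560) (nat_lit 0) (XT.nd (nat_lit 78) (nat_lit 1900) (nat_lit 0) (XT.lf (nat_lit 0) (nat_lit 873419723) (nat_lit 760) (nat_lit 5034187098) (nat_lit 836) (nat_lit 1001845065) (nat_lit 374) (nat_lit 5) (nat_lit 384) (nat_lit 5) (nat_lit 385) (nat_lit 5) (nat_lit 411) (nat_lit 400) (nat_lit 389)) (XT.nd (nat_lit 78) (nat_lit 988) (nat_lit 0) (XT.lf (nat_lit 0) (nat_lit 1007438102) (nat_lit 836) (nat_lit 2267955049) (nat_lit 912) (nat_lit 3722997940) (nat_lit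 362) (nat_lit 5) (nat_lit 373) (nat_lit 5) (nat_lit 374) (nat_lit 5) (nat_lit 412) (nat_lit 400) (nat_lit 388)) (XT.lf (nat_lit 0) (nat_lit 497362619) (nat_lit 988) (nat_lit 5843276892) (nat_lit 76) (nat_lit 755016652) (nat_lit 349) (nat_lit 5) (nat_lit 362) (nat_lit 5) (nat_lit 350) (nat_lit 5) (nat_lit 413) (nat_lit 400) (nat_lit 387)))) (XT.nd (nat_lit 156) (nat_lit 2432) (nat_lit 0) (XT.nd (nat_lit 78) (nat_lit 1140) (nat_lit 0) (XT.lf (nat_lit 0) (nat_lit 1568140820) (nat_lit 988) (nat_lit 3167428918) (nat_lit 1064) (nat_lit 2464632479) (nat_lit 336) (nat_lit 5) (nat_lit 349) (nat_lit 5) (nat_lit 350) (nat_lit 5) (nat_lit 414) (nat_lit 400) (nat_lit 386)) (XT.lf (nat_lit 0) (nat_lit 1711170501) (nat_lit 1140) (nat_lit 5319098549) (nat_lit 76) (nat_lit 283039237) (nat_lit 321) (nat_lit 5) (nat_lit 336) (nat_lit 5) (nat_lit 322) (nat_lit 5) (nat_lit 415) (nat_lit 400) (nat_lit 385))) (XT.nd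 (nat_lit 78) (nat_lit 1292) (nat_lit 0) (XT.lf (nat_lit 0) (nat_lit 2492094733) (nat_lit 1140) (nat_lit 3465466784) (nat_lit 1216) (nat_lit 1476426733) (nat_lit 306) (nat_lit 5) (nat_lit 321) (nat_lit 5) (nat_lit 322) (nat_lit 5) (nat_lit 416) (nat_lit 400) (nat_lit 384)) (XT.lf (nat_lit 0) (nat_lit 2692469037) (nat_lit 1292) (nat_lit 4475657785) (nat_lit 76) (nat_lit 395004477) (nat_lit 289) (nat_lit 5) (nat_lit 306) (nat_lit 5) (nat_lit 290) (nat_lit 5) (nat_lit 417) (nat_lit 400) (nat_lit 383)))))) (XT.nd (nat_lit 468) (nat_lit 3876) (nat_lit 0) (XT.nd (nat_lit 234) (nat_lit 1748) (nat_lit 0) (XT.nd (nat_lit 78) (nat_lit 1292) (nat_lit 0) (XT.lf (nat_lit 0) (nat_lit 3760147971) (nat_lit 760) (nat_lit 3213314857) (nat_lit 836) (nat_lit 726834223) (nat_lit 279) (nat_lit 5) (nat_lit 289) (nat_lit 5) (nat_lit 290) (nat_lit 5) (nat_lit 418) (nat_lit 400) (nat_lit 382)) (XT.nd (nat_lit 78) (nat_lit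 608) (nat_lit 0) (XT.lf (nat_lit 0) (nat_lit 3470555482) (nat_lit 684) (nat_lit 3330509944) (nat_lit 76) (nat_lit 1044725285) (nat_lit 270) (nat_lit 5) (nat_lit 279) (nat_lit 5) (nat_lit 271) (nat_lit 5) (nat_lit 419) (nat_lit 400) (nat_lit 381)) (XT.lf (nat_lit 0) (nat_lit 5357369086) (nat_lit 608) (nat_lit 2454213201) (nat_lit 684) (nat_lit 188323070) (nat_lit 262) (nat_lit 5) (nat_lit 270) (nat_lit 5) (nat_lit 271) (nat_lit 5) (nat_lit 420) (nat_lit 400) (nat_lit 380)))) (XT.nd (nat_lit 78) (nat_lit 1140) (nat_lit 0) (XT.lf (nat_lit 0) (nat_lit 4071109167) (nat_lit 608) (nat_lit 1897491448) (nat_lit 76) (nat_lit 2193577262) (nat_lit 254) (nat_lit 5) (nat_lit 262) (nat_lit 5) (nat_lit 255) (nat_lit 5) (nat_lit 421) (nat_lit 400) (nat_lit 379)) (XT.nd (nat_lit 78) (nat_lit 532) (nat_lit 0) (XT.lf (nat_lit 0) (nat_lit 159845497) (nat_lit 608) (nat_lit 1062836781) (nat_lit 76) (nat_lit 7111085160)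 (nat_lit 246) (nat_lit 5) (nat_lit 254) (nat_lit 5) (nat_lit 247) (nat_lit 5) (nat_lit 422) (nat_lit 400) (nat_lit 378)) (XT.lf (nat_lit 0) (nat_lit 4516551678) (nat_lit 608) (nat_lit 187196685) (nat_lit 76) (nat_lit 3809658592) (nat_lit 239) (nat_lit 5) (nat_lit 247) (nat_lit 5) (nat_lit 240) (nat_lit 5) (nat_lit 423) (nat_lit 400) (nat_lit 377))))) (XT.nd (nat_lit 234) (nat_lit 1824) (nat_lit 0) (XT.nd (nat_lit 78) (nat_lit 988) (nat_lit 0) (XT.lf (nat_lit 0) (nat_lit 353231812) (nat_lit 532) (nat_lit 7900450524) (nat_lit 76) (nat_lit 449100852) (nat_lit 225) (nat_lit 5) (nat_lit 232) (nat_lit 5) (nat_lit 226) (nat_lit 5) (nat_lit 424) (nat_lit 400) (nat_lit 376)) (XT.nd (nat_lit 78) (nat_lit 532) (nat_lit 0) (XT.lf (nat_lit 0) (nat_lit 1828250361) (nat_lit 456) (nat_lit 3015670244) (nat_lit 532) (nat_lit 4056366465) (nat_lit 219) (nat_lit 5) (nat_lit 225) (nat_lit 5) (nat_lit 226) (nat_lit 5)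 (nat_lit 425) (nat_lit 400) (nat_lit 375)) (XT.lf (nat_lit 0) (nat_lit 429589566) (nat_lit 532) (nat_lit 6160973162) (nat_lit 76) (nat_lit 2517382926) (nat_lit 212) (nat_lit 5) (nat_lit 219) (nat_lit 5) (nat_lit 213) (nat_lit 5) (nat_lit 426) (nat_lit 400) (nat_lit 374)))) (XT.nd (nat_lit 156) (nat_lit 912) (nat_lit 0) (XT.nd (nat_lit 78) (nat_lit 456) (nat_lit 0) (XT.lf (nat_lit 0) (nat_lit 4116721434) (nat_lit 456) (nat_lit 940091759) (nat_lit 532) (nat_lit 4267959797) (nat_lit 206) (nat_lit 5) (nat_lit 212) (nat_lit 5) (nat_lit 213) (nat_lit 5) (nat_lit 427) (nat_lit 400) (nat_lit 373)) (XT.lf (nat_lit 0) (nat_lit 380991758) (nat_lit 456) (nat_lit 4193924699) (nat_lit 76) (nat_lit 4976682313) (nat_lit 200) (nat_lit 5) (nat_lit 206) (nat_lit 5) (nat_lit 201) (nat_lit 5) (nat_lit 428) (nat_lit 400) (nat_lit 372))) (XT.nd (nat_lit 78) (nat_lit 456) (nat_lit 0) (XT.lf (nat_lit 0) (nat_lit 5182031141)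 (nat_lit 532) (nat_lit 3132223829) (nat_lit 76) (nat_lit 1474020472) (nat_lit 194) (nat_lit 5) (nat_lit 201) (nat_lit 5) (nat_lit 195) (nat_lit 5) (nat_lit 429) (nat_lit 400) (nat_lit 371)) (XT.lf (nat_lit 0) (nat_lit 219282457) (nat_lit 456) (nat_lit 2003914046) (nat_lit 76) (nat_lit 7812451712) (nat_lit 188) (nat_lit 5) (nat_lit 194) (nat_lit 5) (nat_lit 189) (nat_lit 5) (nat_lit 430) (nat_lit 400) (nat_lit 370))))))))
noncomputable def xc48 : XT := (XT.nd (nat_lit 1950) (nat_lit 3344) (nat_lit 0) (XT.nd (nat_lit 936) (nat_lit 3040) (nat_lit 0) (XT.nd (nat_lit 468) (nat_lit 2052) (nat_lit 0) (XT.nd (nat_lit 234) (nat_lit 988) (nat_lit 0) (XT.nd (nat_lit 78) (nat_lit 1064) (nat_lit 0) (XT.lf (nat_lit 0) (nat_lit 5229371883) (nat_lit 456) (nat_lit 846562139) (nat_lit 76) (nat_lit 4216943716) (nat_lit 183) (nat_lit 5) (nat_lit 189) (nat_lit 5) (nat_lit 184) (nat_lit 5) (nat_lit 431) (nat_lit 400)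 (nat_lit 369)) (XT.nd (nat_lit 78) (nat_lit 380) (nat_lit 0) (XT.lf (nat_lit 0) (nat_lit 408723574) (nat_lit 380) (nat_lit 10114755637) (nat_lit 456) (nat_lit 38496335) (nat_lit 174) (nat_lit 5) (nat_lit 179) (nat_lit 5) (nat_lit 180) (nat_lit 5) (nat_lit 432) (nat_lit 400) (nat_lit 368)) (XT.lf (nat_lit 0) (nat_lit 1687861150) (nat_lit 304) (nat_lit 3527572059) (nat_lit 380) (nat_lit 5625199552) (nat_lit 169) (nat_lit 5) (nat_lit 173) (nat_lit 5) (nat_lit 174) (nat_lit 5) (nat_lit 433) (nat_lit 400) (nat_lit 367)))) (XT.nd (nat_lit 78) (nat_lit 684) (nat_lit 0) (XT.lf (nat_lit 0) (nat_lit 3054069736) (nat_lit 304) (nat_lit 7725818656) (nat_lit 380) (nat_lit 351875004) (nat_lit 165) (nat_lit 5) (nat_lit 169) (nat_lit 5) (nat_lit 170) (nat_lit 5) (nat_lit 434) (nat_lit 400) (nat_lit 366)) (XT.nd (nat_lit 78) (nat_lit 304) (nat_lit 0) (XT.lf (nat_lit 0) (nat_lit 4456524090) (nat_lit 304) (nat_lit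 685020083) (nat_lit 380) (nat_lit 6292692798) (nat_lit 160) (nat_lit 5) (nat_lit 164) (nat_lit 5) (nat_lit 165) (nat_lit 5) (nat_lit 435) (nat_lit 400) (nat_lit 365)) (XT.lf (nat_lit 0) (nat_lit 5913585784) (nat_lit 304) (nat_lit 5081541575) (nat_lit 380) (nat_lit 753828705) (nat_lit 156) (nat_lit 5) (nat_lit 160) (nat_lit 5) (nat_lit 161) (nat_lit 5) (nat_lit 436) (nat_lit 400) (nat_lit 364))))) (XT.nd (nat_lit 234) (nat_lit 1064) (nat_lit 0) (XT.nd (nat_lit 78) (nat_lit 608) (nat_lit 0) (XT.lf (nat_lit 0) (nat_lit 5027673215) (nat_lit 380) (nat_lit 4660436180) (nat_lit 76) (nat_lit 2387916545) (nat_lit 151) (nat_lit 5) (nat_lit 156) (nat_lit 5) (nat_lit 152) (nat_lit 5) (nat_lit 437) (nat_lit 400) (nat_lit 363)) (XT.nd (nat_lit 78) (nat_lit 304) (nat_lit 0) (XT.lf (nat_lit 0) (nat_lit 8984155340) (nat_lit 304) (nat_lit 2190188851) (nat_lit 380) (nat_lit 1242139019) (nat_lit 147) (nat_lit 5) (nat_lit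 151) (nat_lit 5) (nat_lit 152) (nat_lit 5) (nat_lit 438) (nat_lit 400) (nat_lit 362)) (XT.lf (nat_lit 0) (nat_lit 4862084922) (nat_lit 304) (nat_lit 2193400949) (nat_lit 76) (nat_lit 5714012502) (nat_lit 143) (nat_lit 5) (nat_lit 147) (nat_lit 5) (nat_lit 144) (nat_lit 5) (nat_lit 439) (nat_lit 400) (nat_lit 361)))) (XT.nd (nat_lit 78) (nat_lit 760) (nat_lit 0) (XT.lf (nat_lit 0) (nat_lit 11329410841) (nat_lit 380) (nat_lit 885012736) (nat_lit 76) (nat_lit 922871702) (nat_lit 139) (nat_lit 5) (nat_lit 144) (nat_lit 5) (nat_lit 140) (nat_lit 5) (nat_lit 440) (nat_lit 400) (nat_lit 360)) (XT.nd (nat_lit 78) (nat_lit 228) (nat_lit 0) (XT.lf (nat_lit 0) (nat_lit 430065364) (nat_lit 228) (nat_lit 4212152205) (nat_lit 304) (nat_lit 8875886890) (nat_lit 132) (nat_lit 5) (nat_lit 135) (nat_lit 5) (nat_lit 136) (nat_lit 5) (nat_lit 441) (nat_lit 400) (nat_lit 359)) (XT.lf (nat_lit 0) (nat_lit 1818338815)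 (nat_lit 228) (nat_lit 9674031280) (nat_lit 304) (nat_lit 2421605417) (nat_lit 129) (nat_lit 5) (nat_lit 132) (nat_lit 5) (nat_lit 133) (nat_lit 5) (nat_lit 442) (nat_lit 400) (nat_lit 358)))))) (XT.nd (nat_lit 468) (nat_lit 1596) (nat_lit 0) (XT.nd (nat_lit 234) (nat_lit 608) (nat_lit 0) (XT.nd (nat_lit 78) (nat_lit 532) (nat_lit 0) (XT.lf (nat_lit 0) (nat_lit 3237200698) (nat_lit 228) (nat_lit 1146708221) (nat_lit 304) (nat_lit 9941075934) (nat_lit 125) (nat_lit 5) (nat_lit 128) (nat_lit 5) (nat_lit 129) (nat_lit 5) (nat_lit 443) (nat_lit 400) (nat_lit 357)) (XT.nd (nat_lit 78) (nat_lit 304) (nat_lit 0) (XT.lf (nat_lit 0) (nat_lit 4671191426) (nat_lit 228) (nat_lit 6960918323) (nat_lit 304) (nat_lit 3119146518) (nat_lit 122) (nat_lit 5) (nat_lit 125) (nat_lit 5) (nat_lit 126) (nat_lit 5) (nat_lit 444) (nat_lit 400) (nat_lit 356)) (XT.lf (nat_lit 0) (nat_lit 4079843393) (nat_lit 304) (nat_lit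 9045139964) (nat_lit 76) (nat_lit 2069250755) (nat_lit 118) (nat_lit 5) (nat_lit 122) (nat_lit 5) (nat_lit 119) (nat_lit 5) (nat_lit 445) (nat_lit 400) (nat_lit 355)))) (XT.nd (nat_lit 78) (nat_lit 456) (nat_lit 0) (XT.lf (nat_lit 0) (nat_lit 7639486317) (nat_lit 152) (nat_lit 4094659701) (nat_lit 228) (nat_lit 3919497204) (nat_lit 116) (nat_lit 5) (nat_lit 118) (nat_lit 5) (nat_lit 119) (nat_lit 5) (nat_lit 446) (nat_lit 400) (nat_lit 354)) (XT.nd (nat_lit 78) (nat_lit 152) (nat_lit 0) (XT.lf (nat_lit 0) (nat_lit 3712884689) (nat_lit 304) (nat_lit 6975831969) (nat_lit 76) (nat_lit 5441802121) (nat_lit 112) (nat_lit 5) (nat_lit 116) (nat_lit 5) (nat_lit 113) (nat_lit 5) (nat_lit 447) (nat_lit 400) (nat_lit 353)) (XT.lf (nat_lit 0) (nat_lit 10701751779) (nat_lit 152) (nat_lit 1087302812) (nat_lit 228) (nat_lit 4836726828) (nat_lit 110) (nat_lit 5) (nat_lit 112) (nat_lit 5) (nat_lit 113) (nat_lit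 5) (nat_lit 448) (nat_lit 400) (nat_lit 352))))) (XT.nd (nat_lit 234) (nat_lit 912) (nat_lit 0) (XT.nd (nat_lit 78) (nat_lit 380) (nat_lit 0) (XT.lf (nat_lit 0) (nat_lit 3258234943) (nat_lit 304) (nat_lit 4898028288) (nat_lit 76) (nat_lit 8982768734) (nat_lit 106) (nat_lit 5) (nat_lit 110) (nat_lit 5) (nat_lit 107) (nat_lit 5) (nat_lit 449) (nat_lit 400) (nat_lit 351)) (XT.nd (nat_lit 78) (nat_lit 228) (nat_lit 0) (XT.lf (nat_lit 0) (nat_lit 11802907167) (nat_lit 228) (nat_lit 3862248654) (nat_lit 76) (nat_lit 2007006658) (nat_lit 104) (nat_lit 5) (nat_lit 107) (nat_lit 5) (nat_lit 105) (nat_lit 5) (nat_lit 450) (nat_lit 400) (nat_lit 350)) (XT.lf (nat_lit 0) (nat_lit 2697418206) (nat_lit 228) (nat_lit 2848414305) (nat_lit 76) (nat_lit 12679262041) (nat_lit 101) (nat_lit 5) (nat_lit 104) (nat_lit 5) (nat_lit 102) (nat_lit 5) (nat_lit 451) (nat_lit 400) (nat_lit 349)))) (XT.nd (nat_lit 156) (nat_lit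 532) (nat_lit 0) (XT.nd (nat_lit 78) (nat_lit 228) (nat_lit 0) (XT.lf (nat_lit 0) (nat_lit 11749059395) (nat_lit 228) (nat_lit 1861882936) (nat_lit 76) (nat_lit 5187650402) (nat_lit 99) (nat_lit 5) (nat_lit 102) (nat_lit 5) (nat_lit 100) (nat_lit 5) (nat_lit 452) (nat_lit 400) (nat_lit 348)) (XT.lf (nat_lit 0) (nat_lit 2006479871) (nat_lit 228) (nat_lit 872871219) (nat_lit 76) (nat_lit 16515180305) (nat_lit 96) (nat_lit 5) (nat_lit 99) (nat_lit 5) (nat_lit 97) (nat_lit 5) (nat_lit 453) (nat_lit 400) (nat_lit 347))) (XT.nd (nat_lit 78) (nat_lit 228) (nat_lit 0) (XT.lf (nat_lit 0) (nat_lit 37002471) (nat_lit 152) (nat_lit 11556032098) (nat_lit 228) (nat_lit 8418435435) (nat_lit 92) (nat_lit 5) (nat_lit 94) (nat_lit 5) (nat_lit 95) (nat_lit 5) (nat_lit 454) (nat_lit 400) (nat_lit 346)) (XT.lf (nat_lit 0) (nat_lit 990859723) (nat_lit 152) (nat_lit 173715555) (nat_lit 228) (nat_lit 19488862150) (nat_lit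 89) (nat_lit 5) (nat_lit 91) (nat_lit 5) (nat_lit 92) (nat_lit 5) (nat_lit 455) (nat_lit 400) (nat_lit 345))))))) (XT.nd (nat_lit 1014) (nat_lit 1292) (nat_lit 0) (XT.nd (nat_lit 468) (nat_lit 1140) (nat_lit 0) (XT.nd (nat_lit 234) (nat_lit 380) (nat_lit 0) (XT.nd (nat_lit 78) (nat_lit 380) (nat_lit 0) (XT.lf (nat_lit 0) (nat_lit 1803869429) (nat_lit 152) (nat_lit 9516101436) (nat_lit 228) (nat_lit 9997014272) (nat_lit 87) (nat_lit 5) (nat_lit 89) (nat_lit 5) (nat_lit 90) (nat_lit 5) (nat_lit 456) (nat_lit 400) (nat_lit 344)) (XT.nd (nat_lit 78) (nat_lit 152) (nat_lit 0) (XT.lf (nat_lit 0) (nat_lit 155225552) (nat_lit 228) (nat_lit 19367091965) (nat_lit 76) (nat_lit 2485847900) (nat_lit 84) (nat_lit 5) (nat_lit 87) (nat_lit 5) (nat_lit 85) (nat_lit 5) (nat_lit 457) (nat_lit 400) (nat_lit 343)) (XT.lf (nat_lit 0) (nat_lit 3321644984) (nat_lit 152) (nat_lit 7550100853) (nat_lit 228) (nat_lit 11851289139)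 (nat_lit 82) (nat_lit 5) (nat_lit 84) (nat_lit 5) (nat_lit 85) (nat_lit 5) (nat_lit 458) (nat_lit 400) (nat_lit 342)))) (XT.nd (nat_lit 78) (nat_lit 304) (nat_lit 0) (XT.lf (nat_lit 0) (nat_lit 3984453512) (nat_lit 76) (nat_lit 18359780558) (nat_lit 152) (nat_lit 1122811913) (nat_lit 81) (nat_lit 5) (nat_lit 82) (nat_lit 5) (nat_lit 83) (nat_lit 4) (nat_lit 459) (nat_lit 400) (nat_lit 341)) (XT.nd (nat_lit 78) (nat_lit 76) (nat_lit 0) (XT.lf (nat_lit 0) (nat_lit 4492067326) (nat_lit 152) (nat_lit 5706841571) (nat_lit 228) (nat_lit 14038784090) (nat_lit 78) (nat_lit 5) (nat_lit 80) (nat_lit 5) (nat_lit 81) (nat_lit 5) (nat_lit 460) (nat_lit 400) (nat_lit 340)) (XT.lf (nat_lit 0) (nat_lit 4921031433) (nat_lit 76) (nat_lit 17400508771) (nat_lit 152) (nat_lit 2717259213) (nat_lit 77) (nat_lit 5) (nat_lit 78) (nat_lit 5) (nat_lit 79) (nat_lit 4) (nat_lit 461) (nat_lit 400) (nat_lit 339))))) (XT.nd (nat_lit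 234) (nat_lit 608) (nat_lit 0) (XT.nd (nat_lit 78) (nat_lit 304) (nat_lit 0) (XT.lf (nat_lit 0) (nat_lit 5195024008) (nat_lit 152) (nat_lit 4045657463) (nat_lit 228) (nat_lit 16629158404) (nat_lit 74) (nat_lit 5) (nat_lit 76) (nat_lit 5) (nat_lit 77) (nat_lit 5) (nat_lit 462) (nat_lit 400) (nat_lit 338)) (XT.nd (nat_lit 78) (nat_lit 228) (nat_lit 0) (XT.lf (nat_lit 0) (nat_lit 5319751748) (nat_lit 76) (nat_lit 16715157314) (nat_lit 152) (nat_lit 4697880305) (nat_lit 73) (nat_lit 5) (nat_lit 74) (nat_lit 5) (nat_lit 75) (nat_lit 4) (nat_lit 463) (nat_lit 400) (nat_lit 337)) (XT.lf (nat_lit 0) (nat_lit 5284305853) (nat_lit 152) (nat_lit 2638583408) (nat_lit 228) (nat_lit 19706369128) (nat_lit 70) (nat_lit 5) (nat_lit 72) (nat_lit 5) (nat_lit 73) (nat_lit 5) (nat_lit 464) (nat_lit 400) (nat_lit 336)))) (XT.nd (nat_lit 156) (nat_lit 304) (nat_lit 0) (XT.nd (nat_lit 78) (nat_lit 228) (nat_lit 0) (XT.lf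 (nat_lit 0) (nat_lit 5019490916) (nat_lit 76) (nat_lit 16387010706) (nat_lit 152) (nat_lit 7152786441) (nat_lit 69) (nat_lit 5) (nat_lit 70) (nat_lit 5) (nat_lit 71) (nat_lit 4) (nat_lit 465) (nat_lit 400) (nat_lit 335)) (XT.lf (nat_lit 0) (nat_lit 4582608962) (nat_lit 152) (nat_lit 1572909102) (nat_lit 228) (nat_lit 23371223684) (nat_lit 66) (nat_lit 5) (nat_lit 68) (nat_lit 5) (nat_lit 69) (nat_lit 5) (nat_lit 466) (nat_lit 400) (nat_lit 334))) (XT.nd (nat_lit 78) (nat_lit 228) (nat_lit 0) (XT.lf (nat_lit 0) (nat_lit 3825202869) (nat_lit 76) (nat_lit 16516334300) (nat_lit 152) (nat_lit 10188100796) (nat_lit 65) (nat_lit 5) (nat_lit 66) (nat_lit 5) (nat_lit 67) (nat_lit 4) (nat_lit 467) (nat_lit 400) (nat_lit 333)) (XT.lf (nat_lit 0) (nat_lit 2875653188) (nat_lit 152) (nat_lit 954175589) (nat_lit 228) (nat_lit 27744388968) (nat_lit 62) (nat_lit 5) (nat_lit 64) (nat_lit 5) (nat_lit 65) (nat_lit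 5) (nat_lit 468) (nat_lit 400) (nat_lit 332)))))) (XT.nd (nat_lit 468) (nat_lit 684) (nat_lit 0) (XT.nd (nat_lit 234) (nat_lit 304) (nat_lit 0) (XT.nd (nat_lit 78) (nat_lit 228) (nat_lit 0) (XT.lf (nat_lit 0) (nat_lit 1501539485) (nat_lit 76) (nat_lit 17223640178) (nat_lit 152) (nat_lit 13931204950) (nat_lit 61) (nat_lit 5) (nat_lit 62) (nat_lit 5) (nat_lit 63) (nat_lit 4) (nat_lit 469) (nat_lit 400) (nat_lit 331)) (XT.nd (nat_lit 78) (nat_lit 152) (nat_lit 0) (XT.lf (nat_lit 0) (nat_lit 815866817) (nat_lit 152) (nat_lit 92888344) (nat_lit 76) (nat_lit 32876108534) (nat_lit 60) (nat_lit 5) (nat_lit 62) (nat_lit 5) (nat_lit 61) (nat_lit 5) (nat_lit 470) (nat_lit 400) (nat_lit 330)) (XT.lf (nat_lit 0) (nat_lit 16440347612) (nat_lit 228) (nat_lit 2191047111) (nat_lit 76) (nat_lit 16321389842) (nat_lit 58) (nat_lit 5) (nat_lit 61) (nat_lit 5) (nat_lit 59) (nat_lit 4) (nat_lit 471) (nat_lit 400) (nat_lit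 329)))) (XT.nd (nat_lit 78) (nat_lit 228) (nat_lit 0) (XT.lf (nat_lit 0) (nat_lit 31593508626) (nat_lit 76) (nat_lit 1516434671) (nat_lit 152) (nat_lit 3061242443) (nat_lit 57) (nat_lit 5) (nat_lit 58) (nat_lit 5) (nat_lit 59) (nat_lit 4) (nat_lit 472) (nat_lit 400) (nat_lit 328)) (XT.nd (nat_lit 78) (nat_lit 76) (nat_lit 0) (XT.lf (nat_lit 0) (nat_lit 13330225467) (nat_lit 152) (nat_lit 7572451906) (nat_lit 76) (nat_lit 16531297883) (nat_lit 55) (nat_lit 5) (nat_lit 57) (nat_lit 5) (nat_lit 56) (nat_lit 4) (nat_lit 473) (nat_lit 400) (nat_lit 327)) (XT.lf (nat_lit 0) (nat_lit 27762617024) (nat_lit 76) (nat_lit 2997785319) (nat_lit 152) (nat_lit 7990120092) (nat_lit 54) (nat_lit 5) (nat_lit 55) (nat_lit 5) (nat_lit 56) (nat_lit 4) (nat_lit 474) (nat_lit 400) (nat_lit 326))))) (XT.nd (nat_lit 234) (nat_lit 304) (nat_lit 0) (XT.nd (nat_lit 78) (nat_lit 228) (nat_lit 0) (XT.lf (nat_lit 0) (nat_lit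 9184537380) (nat_lit 152) (nat_lit 15070821248) (nat_lit 76) (nat_lit 15862076557) (nat_lit 52) (nat_lit 5) (nat_lit 54) (nat_lit 5) (nat_lit 53) (nat_lit 4) (nat_lit 475) (nat_lit 400) (nat_lit 325)) (XT.nd (nat_lit 78) (nat_lit 152) (nat_lit 0) (XT.lf (nat_lit 0) (nat_lit 21787333585) (nat_lit 76) (nat_lit 5574835123) (nat_lit 152) (nat_lit 14178867660) (nat_lit 51) (nat_lit 5) (nat_lit 52) (nat_lit 5) (nat_lit 53) (nat_lit 4) (nat_lit 476) (nat_lit 400) (nat_lit 324)) (XT.lf (nat_lit 0) (nat_lit 3769076733) (nat_lit 152) (nat_lit 25162643026) (nat_lit 76) (nat_lit 14090430064) (nat_lit 49) (nat_lit 5) (nat_lit 51) (nat_lit 5) (nat_lit 50) (nat_lit 4) (nat_lit 477) (nat_lit 400) (nat_lit 323)))) (XT.nd (nat_lit 156) (nat_lit 152) (nat_lit 0) (XT.nd (nat_lit 78) (nat_lit 76) (nat_lit 0) (XT.lf (nat_lit 0) (nat_lit 13164723643) (nat_lit 76) (nat_lit 9503238290) (nat_lit 152) (nat_lit 21894742618)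 (nat_lit 48) (nat_lit 5) (nat_lit 49) (nat_lit 5) (nat_lit 50) (nat_lit 4) (nat_lit 478) (nat_lit 400) (nat_lit 322)) (XT.lf (nat_lit 0) (nat_lit 7720954440) (nat_lit 76) (nat_lit 35188186863) (nat_lit 76) (nat_lit 3259225860) (nat_lit 47) (nat_lit 4) (nat_lit 48) (nat_lit 5) (nat_lit 48) (nat_lit 4) (nat_lit 479) (nat_lit 400) (nat_lit 321))) (XT.nd (nat_lit 78) (nat_lit 0) (nat_lit 0) (XT.lf (nat_lit 0) (nat_lit 1294119091) (nat_lit 76) (nat_lit 15088141394) (nat_lit 152) (nat_lit 31455577435) (nat_lit 45) (nat_lit 5) (nat_lit 46) (nat_lit 5) (nat_lit 47) (nat_lit 4) (nat_lit 480) (nat_lit 400) (nat_lit 320)) (XT.lf (nat_lit 0) (nat_lit 37355100185) (nat_lit 152) (nat_lit 5928483979) (nat_lit 0) (nat_lit 6293729985) (nat_lit 45) (nat_lit 5) (nat_lit 47) (nat_lit 4) (nat_lit 45) (nat_lit 4) (nat_lit 481) (nat_lit 400) (nat_lit 319))))))))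
noncomputable def xc49 : XT := (XT.nd (nat_lit 56862) (nat_lit 0) (nat_lit 10412) (XT.nd (nat_lit 936) (nat_lit 228) (nat_lit 0) (XT.nd (nat_lit 468) (nat_lit 532) (nat_lit 0) (XT.nd (nat_lit 234) (nat_lit 304) (nat_lit 0) (XT.nd (nat_lit 78) (nat_lit 152) (nat_lit 0) (XT.lf (nat_lit 0) (nat_lit 8292405493) (nat_lit 152) (nat_lit 14256766808) (nat_lit 76) (nat_lit 28838038240) (nat_lit 43) (nat_lit 5) (nat_lit 45) (nat_lit 5) (nat_lit 44) (nat_lit 4) (nat_lit 482) (nat_lit 400) (nat_lit 318)) (XT.nd (nat_lit 78) (nat_lit 76) (nat_lit 0) (XT.lf (nat_lit 0) (nat_lit 29557457441) (nat_lit 76) (nat_lit 331905698) (nat_lit 152) (nat_lit 23385327310) (nat_lit 42) (nat_lit 5) (nat_lit 43) (nat_lit 5) (nat_lit 44) (nat_lit 4) (nat_lit 483) (nat_lit 400) (nat_lit 317)) (XT.lf (nat_lit 0) (nat_lit 20715509860) (nat_lit 76) (nat_lit 32381121337) (nat_lit 76) (nat_lit 2143999755) (nat_lit 41) (nat_lit 4) (nat_lit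 42) (nat_lit 5) (nat_lit 42) (nat_lit 4) (nat_lit 484) (nat_lit 400) (nat_lit 316)))) (XT.nd (nat_lit 78) (nat_lit 152) (nat_lit 0) (XT.lf (nat_lit 0) (nat_lit 10500311951) (nat_lit 76) (nat_lit 9579362038) (nat_lit 152) (nat_lit 37209971531) (nat_lit 39) (nat_lit 5) (nat_lit 40) (nat_lit 5) (nat_lit 41) (nat_lit 4) (nat_lit 485) (nat_lit 400) (nat_lit 315)) (XT.nd (nat_lit 78) (nat_lit 152) (nat_lit 0) (XT.lf (nat_lit 0) (nat_lit 43831154062) (nat_lit 152) (nat_lit 1166835957) (nat_lit 0) (nat_lit 14428655470) (nat_lit 39) (nat_lit 5) (nat_lit 41) (nat_lit 4) (nat_lit 39) (nat_lit 4) (nat_lit 486) (nat_lit 400) (nat_lit 314)) (XT.lf (nat_lit 0) (nat_lit 7484880437) (nat_lit 152) (nat_lit 14229594265) (nat_lit 76) (nat_lit 39938262476) (nat_lit 37) (nat_lit 5) (nat_lit 39) (nat_lit 5) (nat_lit 38) (nat_lit 4) (nat_lit 487) (nat_lit 400) (nat_lit 313))))) (XT.nd (nat_lit 234) (nat_lit 228) (nat_lit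 0) (XT.nd (nat_lit 78) (nat_lit 228) (nat_lit 0) (XT.lf (nat_lit 0) (nat_lit 31744614507) (nat_lit 152) (nat_lit 29072520792) (nat_lit 0) (nat_lit 3157929726) (nat_lit 36) (nat_lit 5) (nat_lit 38) (nat_lit 4) (nat_lit 36) (nat_lit 4) (nat_lit 488) (nat_lit 400) (nat_lit 312)) (XT.nd (nat_lit 78) (nat_lit 152) (nat_lit 0) (XT.lf (nat_lit 0) (nat_lit 20493075265) (nat_lit 76) (nat_lit 37255021979) (nat_lit 76) (nat_lit 8649489513) (nat_lit 35) (nat_lit 4) (nat_lit 36) (nat_lit 5) (nat_lit 36) (nat_lit 4) (nat_lit 489) (nat_lit 400) (nat_lit 311)) (XT.lf (nat_lit 0) (nat_lit 4069307844) (nat_lit 76) (nat_lit 12035515055) (nat_lit 152) (nat_lit 52822505748) (nat_lit 33) (nat_lit 5) (nat_lit 34) (nat_lit 5) (nat_lit 35) (nat_lit 4) (nat_lit 490) (nat_lit 400) (nat_lit 310)))) (XT.nd (nat_lit 78) (nat_lit 228) (nat_lit 0) (XT.lf (nat_lit 0) (nat_lit 42503686587) (nat_lit 152) (nat_lit 14362430456) (nat_lit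 0) (nat_lit 14697300131) (nat_lit 33) (nat_lit 5) (nat_lit 35) (nat_lit 4) (nat_lit 33) (nat_lit 4) (nat_lit 491) (nat_lit 400) (nat_lit 309)) (XT.nd (nat_lit 78) (nat_lit 152) (nat_lit 0) (XT.lf (nat_lit 0) (nat_lit 39241925045) (nat_lit 76) (nat_lit 31448766508) (nat_lit 76) (nat_lit 3626572927) (nat_lit 32) (nat_lit 4) (nat_lit 33) (nat_lit 5) (nat_lit 33) (nat_lit 4) (nat_lit 492) (nat_lit 400) (nat_lit 308)) (XT.lf (nat_lit 0) (nat_lit 18704798642) (nat_lit 76) (nat_lit 4222317923) (nat_lit 152) (nat_lit 54266056183) (nat_lit 30) (nat_lit 5) (nat_lit 31) (nat_lit 5) (nat_lit 32) (nat_lit 4) (nat_lit 493) (nat_lit 400) (nat_lit 307)))))) (XT.nd (nat_lit 55380) (nat_lit 0) (nat_lit 28424) (XT.nd (nat_lit 234) (nat_lit 0) (nat_lit 0) (XT.nd (nat_lit 78) (nat_lit 228) (nat_lit 0) (XT.lf (nat_lit 0) (nat_lit 51303742357) (nat_lit 152) (nat_lit 4627581416) (nat_lit 0) (nat_lit 24263368070) (nat_lit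 30) (nat_lit 5) (nat_lit 32) (nat_lit 4) (nat_lit 30) (nat_lit 4) (nat_lit 494) (nat_lit 400) (nat_lit 306)) (XT.nd (nat_lit 78) (nat_lit 152) (nat_lit 0) (XT.lf (nat_lit 0) (nat_lit 52859826627) (nat_lit 76) (nat_lit 28762203478) (nat_lit 76) (nat_lit 1708572114) (nat_lit 29) (nat_lit 4) (nat_lit 30) (nat_lit 5) (nat_lit 30) (nat_lit 4) (nat_lit 495) (nat_lit 400) (nat_lit 305)) (XT.lf (nat_lit 0) (nat_lit 26591804307) (nat_lit 152) (nat_lit 59701406643) (nat_lit 0) (nat_lit 313884742) (nat_lit 27) (nat_lit 5) (nat_lit 29) (nat_lit 4) (nat_lit 27) (nat_lit 4) (nat_lit 496) (nat_lit 400) (nat_lit 304)))) (XT.nd (nat_lit 54990) (nat_lit 0) (nat_lit 30628) (XT.lf (nat_lit 0) (nat_lit 56852453611) (nat_lit 152) (nat_lit 2614175533) (nat_lit 0) (nat_lit 30562859716) (nat_lit 27) (nat_lit 5) (nat_lit 29) (nat_lit 4) (nat_lit 27) (nat_lit 4) (nat_lit 497) (nat_lit 400) (nat_lit 303)) (XT.nd (nat_lit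 78) (nat_lit 228) (nat_lit 0) (XT.lf (nat_lit 0) (nat_lit 1856545803) (nat_lit 228) (nat_lit 685094990) (nat_lit 228) (nat_lit 685094990) (nat_lit 433) (nat_lit 3) (nat_lit 436) (nat_lit 3) (nat_lit 436) (nat_lit 5) (nat_lit 401) (nat_lit 401) (nat_lit 398)) (XT.lf (nat_lit 0) (nat_lit 2099541512) (nat_lit 228) (nat_lit 2484006670) (nat_lit 304) (nat_lit 1885261649) (nat_lit 430) (nat_lit 5) (nat_lit 433) (nat_lit 3) (nat_lit 434) (nat_lit 5) (nat_lit 402) (nat_lit 401) (nat_lit 397))))) (XT.nd (nat_lit 234) (nat_lit 1520) (nat_lit 0) (XT.nd (nat_lit 78) (nat_lit 380) (nat_lit 0) (XT.lf (nat_lit 0) (nat_lit 359477865) (nat_lit 304) (nat_lit 3479474749) (nat_lit 380) (nat_lit 2653099320) (nat_lit 426) (nat_lit 5) (nat_lit 430) (nat_lit 5) (nat_lit 431) (nat_lit 5) (nat_lit 403) (nat_lit 401) (nat_lit 396)) (XT.nd (nat_lit 78) (nat_lit 380) (nat_lit 0) (XT.lf (nat_lit 76) (nat_lit 2150013657) (nat_lit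 0) (nat_lit 2832044083) (nat_lit 380) (nat_lit 1540738836) (nat_lit 427) (nat_lit 5) (nat_lit 426) (nat_lit 5) (nat_lit 431) (nat_lit 5) (nat_lit 404) (nat_lit 401) (nat_lit 395)) (XT.lf (nat_lit 76) (nat_lit 1406416783) (nat_lit 0) (nat_lit 1570165827) (nat_lit 456) (nat_lit 3584818060) (nat_lit 422) (nat_lit 5) (nat_lit 421) (nat_lit 5) (nat_lit 427) (nat_lit 5) (nat_lit 405) (nat_lit 401) (nat_lit 394)))) (XT.nd (nat_lit 156) (nat_lit 684) (nat_lit 0) (XT.nd (nat_lit 78) (nat_lit 380) (nat_lit 0) (XT.lf (nat_lit 76) (nat_lit 784773288) (nat_lit 0) (nat_lit 53236802) (nat_lit 532) (nat_lit 5770031187) (nat_lit 416) (nat_lit 5) (nat_lit 415) (nat_lit 5) (nat_lit 422) (nat_lit 5) (nat_lit 406) (nat_lit 401) (nat_lit 393)) (XT.lf (nat_lit 0) (nat_lit 253384608) (nat_lit 456) (nat_lit 4958369693) (nat_lit 532) (nat_lit 1450135220) (nat_lit 410) (nat_lit 5) (nat_lit 416) (nat_lit 5) (nat_lit 417)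 (nat_lit 5) (nat_lit 407) (nat_lit 401) (nat_lit 392))) (XT.nd (nat_lit 78) (nat_lit 608) (nat_lit 0) (XT.lf (nat_lit 0) (nat_lit 2827542521) (nat_lit 532) (nat_lit 165964754) (nat_lit 76) (nat_lit 3730026476) (nat_lit 409) (nat_lit 5) (nat_lit 416) (nat_lit 5) (nat_lit 410) (nat_lit 5) (nat_lit 408) (nat_lit 401) (nat_lit 391)) (XT.lf (nat_lit 0) (nat_lit 304020213) (nat_lit 608) (nat_lit 464614963) (nat_lit 76) (nat_lit 6024723616) (nat_lit 401) (nat_lit 5) (nat_lit 409) (nat_lit 5) (nat_lit 402) (nat_lit 5) (nat_lit 409) (nat_lit 401) (nat_lit 390))))))) (XT.nd (nat_lit 1014) (nat_lit 6232) (nat_lit 0) (XT.nd (nat_lit 468) (nat_lit 6764) (nat_lit 0) (XT.nd (nat_lit 234) (nat_lit 2888) (nat_lit 0) (XT.nd (nat_lit 78) (nat_lit 1520) (nat_lit 0) (XT.lf (nat_lit 0) (nat_lit 4473377905) (nat_lit 684) (nat_lit 686801985) (nat_lit 76) (nat_lit 1710187438) (nat_lit 393) (nat_lit 5) (nat_lit 402) (nat_lit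 5) (nat_lit 394) (nat_lit 5) (nat_lit 410) (nat_lit 401) (nat_lit 389)) (XT.nd (nat_lit 78) (nat_lit 760) (nat_lit 0) (XT.lf (nat_lit 0) (nat_lit 1704729195) (nat_lit 760) (nat_lit 806047632) (nat_lit 76) (nat_lit 4444690268) (nat_lit 383) (nat_lit 5) (nat_lit 393) (nat_lit 5) (nat_lit 384) (nat_lit 5) (nat_lit 411) (nat_lit 401) (nat_lit 388)) (XT.lf (nat_lit 0) (nat_lit 5812077261) (nat_lit 836) (nat_lit 826648571) (nat_lit 76) (nat_lit 409922002) (nat_lit 373) (nat_lit 5) (nat_lit 384) (nat_lit 5) (nat_lit 374) (nat_lit 5) (nat_lit 412) (nat_lit 401) (nat_lit 387)))) (XT.nd (nat_lit 78) (nat_lit 1976) (nat_lit 0) (XT.lf (nat_lit 0) (nat_lit 2802335011) (nat_lit 912) (nat_lit 776304562) (nat_lit 76) (nat_lit 3570563080) (nat_lit 361) (nat_lit 5) (nat_lit 373) (nat_lit 5) (nat_lit 362) (nat_lit 5) (nat_lit 413) (nat_lit 401) (nat_lit 386)) (XT.nd (nat_lit 78) (nat_lit 1064) (nat_lit 0) (XT.lf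 (nat_lit 0) (nat_lit 6642636407) (nat_lit 912) (nat_lit 242197006) (nat_lit 988) (nat_lit 373604368) (nat_lit 349) (nat_lit 5) (nat_lit 361) (nat_lit 5) (nat_lit 362) (nat_lit 5) (nat_lit 414) (nat_lit 401) (nat_lit 385)) (XT.lf (nat_lit 0) (nat_lit 3633131278) (nat_lit 1064) (nat_lit 401263454) (nat_lit 76) (nat_lit 3340410499) (nat_lit 335) (nat_lit 5) (nat_lit 349) (nat_lit 5) (nat_lit 336) (nat_lit 5) (nat_lit 415) (nat_lit 401) (nat_lit 384))))) (XT.nd (nat_lit 234) (nat_lit 2432) (nat_lit 0) (XT.nd (nat_lit 78) (nat_lit 3192) (nat_lit 0) (XT.lf (nat_lit 0) (nat_lit 217159474) (nat_lit 1140) (nat_lit 75216715) (nat_lit 76) (nat_lit 7207794996) (nat_lit 320) (nat_lit 5) (nat_lit 335) (nat_lit 5) (nat_lit 321) (nat_lit 5) (nat_lit 416) (nat_lit 401) (nat_lit 383)) (XT.nd (nat_lit 78) (nat_lit 836) (nat_lit 0) (XT.lf (nat_lit 0) (nat_lit 303889728) (nat_lit 1216) (nat_lit 3927951166) (nat_lit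 1292) (nat_lit 3400824193) (nat_lit 289) (nat_lit 5) (nat_lit 305) (nat_lit 5) (nat_lit 306) (nat_lit 5) (nat_lit 417) (nat_lit 401) (nat_lit 382)) (XT.lf (nat_lit 0) (nat_lit 573139874) (nat_lit 836) (nat_lit 6980029108) (nat_lit 76) (nat_lit 221121960) (nat_lit 278) (nat_lit 5) (nat_lit 289) (nat_lit 5) (nat_lit 279) (nat_lit 5) (nat_lit 418) (nat_lit 401) (nat_lit 381)))) (XT.nd (nat_lit 156) (nat_lit 1140) (nat_lit 0) (XT.nd (nat_lit 78) (nat_lit 684) (nat_lit 0) (XT.lf (nat_lit 0) (nat_lit 1330419679) (nat_lit 608) (nat_lit 3299864546) (nat_lit 684) (nat_lit 3293085413) (nat_lit 270) (nat_lit 5) (nat_lit 278) (nat_lit 5) (nat_lit 279) (nat_lit 5) (nat_lit 419) (nat_lit 401) (nat_lit 380)) (XT.lf (nat_lit 0) (nat_lit 728813866) (nat_lit 684) (nat_lit 6114557559) (nat_lit 76) (nat_lit 1238294042) (nat_lit 261) (nat_lit 5) (nat_lit 270) (nat_lit 5) (nat_lit 262) (nat_lit 5) (nat_lit 420) (nat_lit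 401) (nat_lit 379))) (XT.nd (nat_lit 78) (nat_lit 608) (nat_lit 0) (XT.lf (nat_lit 0) (nat_lit 2656877982) (nat_lit 532) (nat_lit 2191723355) (nat_lit 608) (nat_lit 3399372684) (nat_lit 254) (nat_lit 5) (nat_lit 261) (nat_lit 5) (nat_lit 262) (nat_lit 5) (nat_lit 421) (nat_lit 401) (nat_lit 378)) (XT.lf (nat_lit 0) (nat_lit 702155225) (nat_lit 608) (nat_lit 4990414435) (nat_lit 76) (nat_lit 2730881519) (nat_lit 246) (nat_lit 5) (nat_lit 254) (nat_lit 5) (nat_lit 247) (nat_lit 5) (nat_lit 422) (nat_lit 401) (nat_lit 377)))))) (XT.nd (nat_lit 468) (nat_lit 3192) (nat_lit 0) (XT.nd (nat_lit 234) (nat_lit 1444) (nat_lit 0) (XT.nd (nat_lit 78) (nat_lit 1064) (nat_lit 0) (XT.lf (nat_lit 0) (nat_lit 4273110676) (nat_lit 532) (nat_lit 634546380) (nat_lit 608) (nat_lit 3699979675) (nat_lit 239) (nat_lit 5) (nat_lit 246) (nat_lit 5) (nat_lit 247) (nat_lit 5) (nat_lit 423) (nat_lit 401) (nat_lit 376)) (XT.nd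 (nat_lit 78) (nat_lit 456) (nat_lit 0) (XT.lf (nat_lit 0) (nat_lit 511585525) (nat_lit 608) (nat_lit 3617490598) (nat_lit 76) (nat_lit 4671842251) (nat_lit 231) (nat_lit 5) (nat_lit 239) (nat_lit 5) (nat_lit 232) (nat_lit 5) (nat_lit 424) (nat_lit 401) (nat_lit 375)) (XT.lf (nat_lit 0) (nat_lit 4838336553) (nat_lit 532) (nat_lit 2844849828) (nat_lit 76) (nat_lit 1320162730) (nat_lit 225) (nat_lit 5) (nat_lit 232) (nat_lit 5) (nat_lit 226) (nat_lit 5) (nat_lit 425) (nat_lit 401) (nat_lit 374)))) (XT.nd (nat_lit 78) (nat_lit 912) (nat_lit 0) (XT.lf (nat_lit 0) (nat_lit 172671093) (nat_lit 532) (nat_lit 2003257424) (nat_lit 76) (nat_lit 7039630348) (nat_lit 218) (nat_lit 5) (nat_lit 225) (nat_lit 5) (nat_lit 219) (nat_lit 5) (nat_lit 426) (nat_lit 401) (nat_lit 373)) (XT.nd (nat_lit 78) (nat_lit 456) (nat_lit 0) (XT.lf (nat_lit 0) (nat_lit 4652928399) (nat_lit 532) (nat_lit 1125550633) (nat_lit 76)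 (nat_lit 3658323840) (nat_lit 212) (nat_lit 5) (nat_lit 219) (nat_lit 5) (nat_lit 213) (nat_lit 5) (nat_lit 427) (nat_lit 401) (nat_lit 372)) (XT.lf (nat_lit 0) (nat_lit 9362773738) (nat_lit 532) (nat_lit 157598073) (nat_lit 76) (nat_lit 148585009) (nat_lit 206) (nat_lit 5) (nat_lit 213) (nat_lit 5) (nat_lit 207) (nat_lit 5) (nat_lit 428) (nat_lit 401) (nat_lit 371))))) (XT.nd (nat_lit 234) (nat_lit 1444) (nat_lit 0) (XT.nd (nat_lit 78) (nat_lit 836) (nat_lit 0) (XT.lf (nat_lit 0) (nat_lit 841398664) (nat_lit 456) (nat_lit 3524610069) (nat_lit 532) (nat_lit 5543764488) (nat_lit 194) (nat_lit 5) (nat_lit 200) (nat_lit 5) (nat_lit 201) (nat_lit 5) (nat_lit 429) (nat_lit 401) (nat_lit 370)) (XT.nd (nat_lit 78) (nat_lit 456) (nat_lit 0) (XT.lf (nat_lit 0) (nat_lit 1930394379) (nat_lit 380) (nat_lit 7359639808) (nat_lit 456) (nat_lit 871781823) (nat_lit 189) (nat_lit 5) (nat_lit 194) (nat_lit 5) (nat_lit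 195) (nat_lit 5) (nat_lit 430) (nat_lit 401) (nat_lit 369)) (XT.lf (nat_lit 0) (nat_lit 3063375448) (nat_lit 380) (nat_lit 929623296) (nat_lit 456) (nat_lit 6431173764) (nat_lit 183) (nat_lit 5) (nat_lit 188) (nat_lit 5) (nat_lit 189) (nat_lit 5) (nat_lit 431) (nat_lit 401) (nat_lit 368)))) (XT.nd (nat_lit 156) (nat_lit 684) (nat_lit 0) (XT.nd (nat_lit 78) (nat_lit 456) (nat_lit 0) (XT.lf (nat_lit 0) (nat_lit 4250753146) (nat_lit 304) (nat_lit 4897222540) (nat_lit 380) (nat_lit 1549474214) (nat_lit 179) (nat_lit 5) (nat_lit 183) (nat_lit 5) (nat_lit 184) (nat_lit 5) (nat_lit 432) (nat_lit 401) (nat_lit 367)) (XT.lf (nat_lit 0) (nat_lit 3549880210) (nat_lit 456) (nat_lit 5486012463) (nat_lit 76) (nat_lit 1946177213) (nat_lit 173) (nat_lit 5) (nat_lit 179) (nat_lit 5) (nat_lit 174) (nat_lit 5) (nat_lit 433) (nat_lit 401) (nat_lit 366))) (XT.nd (nat_lit 78) (nat_lit 380) (nat_lit 0) (XT.lf (nat_lit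 0) (nat_lit 6798441371) (nat_lit 304) (nat_lit 2144661714) (nat_lit 380) (nat_lit 2335239401) (nat_lit 169) (nat_lit 5) (nat_lit 173) (nat_lit 5) (nat_lit 174) (nat_lit 5) (nat_lit 434) (nat_lit 401) (nat_lit 365)) (XT.lf (nat_lit 0) (nat_lit 3035187311) (nat_lit 380) (nat_lit 3441234831) (nat_lit 76) (nat_lit 5109821348) (nat_lit 164) (nat_lit 5) (nat_lit 169) (nat_lit 5) (nat_lit 165) (nat_lit 5) (nat_lit 435) (nat_lit 401) (nat_lit 364))))))))
noncomputable def xc50 : XT := (XT.nd (nat_lit 1950) (nat_lit 3116) (nat_lit 0) (XT.nd (nat_lit 936) (nat_lit 2736) (nat_lit 0) (XT.nd (nat_lit 468) (nat_lit 1444) (nat_lit 0) (XT.nd (nat_lit 234) (nat_lit 1216) (nat_lit 0) (XT.nd (nat_lit 78) (nat_lit 684) (nat_lit 0) (XT.lf (nat_lit 0) (nat_lit 8689873040) (nat_lit 380) (nat_lit 2343986627) (nat_lit 76) (nat_lit 873074238) (nat_lit 160) (nat_lit 5) (nat_lit 165) (nat_lit 5) (nat_lit 161) (nat_lit 5)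 (nat_lit 436) (nat_lit 401) (nat_lit 363)) (XT.nd (nat_lit 78) (nat_lit 304) (nat_lit 0) (XT.lf (nat_lit 0) (nat_lit 2443313005) (nat_lit 380) (nat_lit 1222131183) (nat_lit 76) (nat_lit 8574349841) (nat_lit 155) (nat_lit 5) (nat_lit 160) (nat_lit 5) (nat_lit 156) (nat_lit 5) (nat_lit 437) (nat_lit 401) (nat_lit 362)) (XT.lf (nat_lit 0) (nat_lit 8406682502) (nat_lit 380) (nat_lit 58658057) (nat_lit 76) (nat_lit 4120413660) (nat_lit 151) (nat_lit 5) (nat_lit 156) (nat_lit 5) (nat_lit 152) (nat_lit 5) (nat_lit 438) (nat_lit 401) (nat_lit 361)))) (XT.nd (nat_lit 78) (nat_lit 608) (nat_lit 0) (XT.lf (nat_lit 0) (nat_lit 1189012678) (nat_lit 228) (nat_lit 597622363) (nat_lit 304) (nat_lit 11158859689) (nat_lit 143) (nat_lit 5) (nat_lit 146) (nat_lit 5) (nat_lit 147) (nat_lit 5) (nat_lit 439) (nat_lit 401) (nat_lit 360)) (XT.nd (nat_lit 78) (nat_lit 304) (nat_lit 0) (XT.lf (nat_lit 0) (nat_lit 2438131143)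 (nat_lit 304) (nat_lit 5659518154) (nat_lit 380) (nat_lit 5220335101) (nat_lit 139) (nat_lit 5) (nat_lit 143) (nat_lit 5) (nat_lit 144) (nat_lit 5) (nat_lit 440) (nat_lit 401) (nat_lit 359)) (XT.lf (nat_lit 0) (nat_lit 1091876923) (nat_lit 304) (nat_lit 9943358182) (nat_lit 76) (nat_lit 2670680081) (nat_lit 135) (nat_lit 5) (nat_lit 139) (nat_lit 5) (nat_lit 136) (nat_lit 5) (nat_lit 441) (nat_lit 401) (nat_lit 358))))) (XT.nd (nat_lit 234) (nat_lit 684) (nat_lit 0) (XT.nd (nat_lit 78) (nat_lit 532) (nat_lit 0) (XT.lf (nat_lit 0) (nat_lit 5095031793) (nat_lit 228) (nat_lit 2645183850) (nat_lit 304) (nat_lit 6367628013) (nat_lit 132) (nat_lit 5) (nat_lit 135) (nat_lit 5) (nat_lit 136) (nat_lit 5) (nat_lit 442) (nat_lit 401) (nat_lit 357)) (XT.nd (nat_lit 78) (nat_lit 228) (nat_lit 0) (XT.lf (nat_lit 0) (nat_lit 324420019) (nat_lit 304) (nat_lit 8042270029) (nat_lit 76) (nat_lit 6159017697) (nat_lit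 128) (nat_lit 5) (nat_lit 132) (nat_lit 5) (nat_lit 129) (nat_lit 5) (nat_lit 443) (nat_lit 401) (nat_lit 356)) (XT.lf (nat_lit 0) (nat_lit 7335173822) (nat_lit 304) (nat_lit 7064808150) (nat_lit 76) (nat_lit 559123245) (nat_lit 125) (nat_lit 5) (nat_lit 129) (nat_lit 5) (nat_lit 126) (nat_lit 5) (nat_lit 444) (nat_lit 401) (nat_lit 355)))) (XT.nd (nat_lit 78) (nat_lit 456) (nat_lit 0) (XT.lf (nat_lit 0) (nat_lit 9339664719) (nat_lit 228) (nat_lit 5529675394) (nat_lit 304) (nat_lit 539651369) (nat_lit 122) (nat_lit 5) (nat_lit 125) (nat_lit 5) (nat_lit 126) (nat_lit 5) (nat_lit 445) (nat_lit 401) (nat_lit 354)) (XT.nd (nat_lit 78) (nat_lit 152) (nat_lit 0) (XT.lf (nat_lit 0) (nat_lit 6897052673) (nat_lit 304) (nat_lit 5076528109) (nat_lit 76) (nat_lit 3901821639) (nat_lit 118) (nat_lit 5) (nat_lit 122) (nat_lit 5) (nat_lit 119) (nat_lit 5) (nat_lit 446) (nat_lit 401) (nat_lit 353)) (XT.lf (nat_lit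 0) (nat_lit 12315606168) (nat_lit 152) (nat_lit 2535303307) (nat_lit 228) (nat_lit 1509374337) (nat_lit 116) (nat_lit 5) (nat_lit 118) (nat_lit 5) (nat_lit 119) (nat_lit 5) (nat_lit 447) (nat_lit 401) (nat_lit 352)))))) (XT.nd (nat_lit 468) (nat_lit 1292) (nat_lit 0) (XT.nd (nat_lit 234) (nat_lit 684) (nat_lit 0) (XT.nd (nat_lit 78) (nat_lit 456) (nat_lit 0) (XT.lf (nat_lit 0) (nat_lit 6389452790) (nat_lit 304) (nat_lit 3046474803) (nat_lit 76) (nat_lit 7426260063) (nat_lit 112) (nat_lit 5) (nat_lit 116) (nat_lit 5) (nat_lit 113) (nat_lit 5) (nat_lit 448) (nat_lit 401) (nat_lit 351)) (XT.nd (nat_lit 78) (nat_lit 304) (nat_lit 0) (XT.lf (nat_lit 0) (nat_lit 14796544028) (nat_lit 228) (nat_lit 1998006729) (nat_lit 76) (nat_lit 589855444) (nat_lit 110) (nat_lit 5) (nat_lit 113) (nat_lit 5) (nat_lit 111) (nat_lit 5) (nat_lit 449) (nat_lit 401) (nat_lit 350)) (XT.lf (nat_lit 0) (nat_lit 5797220082)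 (nat_lit 304) (nat_lit 1004991932) (nat_lit 76) (nat_lit 11122375445) (nat_lit 106) (nat_lit 5) (nat_lit 110) (nat_lit 5) (nat_lit 107) (nat_lit 5) (nat_lit 450) (nat_lit 401) (nat_lit 349)))) (XT.nd (nat_lit 78) (nat_lit 380) (nat_lit 0) (XT.lf (nat_lit 0) (nat_lit 16937238) (nat_lit 152) (nat_lit 14694353517) (nat_lit 228) (nat_lit 3774824221) (nat_lit 102) (nat_lit 5) (nat_lit 104) (nat_lit 5) (nat_lit 105) (nat_lit 5) (nat_lit 451) (nat_lit 401) (nat_lit 348)) (XT.nd (nat_lit 78) (nat_lit 152) (nat_lit 0) (XT.lf (nat_lit 0) (nat_lit 1029743555) (nat_lit 152) (nat_lit 4080491264) (nat_lit 228) (nat_lit 13957675784) (nat_lit 99) (nat_lit 5) (nat_lit 101) (nat_lit 5) (nat_lit 102) (nat_lit 5) (nat_lit 452) (nat_lit 401) (nat_lit 347)) (XT.lf (nat_lit 0) (nat_lit 2020040051) (nat_lit 152) (nat_lit 12549517969) (nat_lit 228) (nat_lit 5101877452) (nat_lit 97) (nat_lit 5) (nat_lit 99) (nat_lit 5)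 (nat_lit 100) (nat_lit 5) (nat_lit 453) (nat_lit 401) (nat_lit 346))))) (XT.nd (nat_lit 234) (nat_lit 684) (nat_lit 0) (XT.nd (nat_lit 78) (nat_lit 380) (nat_lit 0) (XT.lf (nat_lit 0) (nat_lit 3008172990) (nat_lit 152) (nat_lit 1293837646) (nat_lit 228) (nat_lit 15996302796) (nat_lit 94) (nat_lit 5) (nat_lit 96) (nat_lit 5) (nat_lit 97) (nat_lit 5) (nat_lit 454) (nat_lit 401) (nat_lit 345)) (XT.nd (nat_lit 78) (nat_lit 228) (nat_lit 0) (XT.lf (nat_lit 0) (nat_lit 3916838946) (nat_lit 152) (nat_lit 10408273504) (nat_lit 228) (nat_lit 6622274146) (nat_lit 92) (nat_lit 5) (nat_lit 94) (nat_lit 5) (nat_lit 95) (nat_lit 5) (nat_lit 455) (nat_lit 401) (nat_lit 344)) (XT.lf (nat_lit 0) (nat_lit 3344329734) (nat_lit 228) (nat_lit 16788101527) (nat_lit 76) (nat_lit 1489954483) (nat_lit 89) (nat_lit 5) (nat_lit 92) (nat_lit 5) (nat_lit 90) (nat_lit 5) (nat_lit 456) (nat_lit 401) (nat_lit 343)))) (XT.nd (nat_lit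 156) (nat_lit 304) (nat_lit 0) (XT.nd (nat_lit 78) (nat_lit 228) (nat_lit 0) (XT.lf (nat_lit 0) (nat_lit 5639387395) (nat_lit 152) (nat_lit 8304754883) (nat_lit 228) (nat_lit 8376872850) (nat_lit 87) (nat_lit 5) (nat_lit 89) (nat_lit 5) (nat_lit 90) (nat_lit 5) (nat_lit 457) (nat_lit 401) (nat_lit 342)) (XT.lf (nat_lit 0) (nat_lit 2193973381) (nat_lit 228) (nat_lit 16612697752) (nat_lit 76) (nat_lit 4240904461) (nat_lit 84) (nat_lit 5) (nat_lit 87) (nat_lit 5) (nat_lit 85) (nat_lit 5) (nat_lit 458) (nat_lit 401) (nat_lit 341))) (XT.nd (nat_lit 78) (nat_lit 152) (nat_lit 0) (XT.lf (nat_lit 0) (nat_lit 7103764197) (nat_lit 152) (nat_lit 6280601397) (nat_lit 228) (nat_lit 10415684920) (nat_lit 82) (nat_lit 5) (nat_lit 84) (nat_lit 5) (nat_lit 85) (nat_lit 5) (nat_lit 459) (nat_lit 401) (nat_lit 340)) (XT.lf (nat_lit 0) (nat_lit 787683260) (nat_lit 152) (nat_lit 16852200031) (nat_lit 76) (nat_lit 6942485750)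 (nat_lit 80) (nat_lit 5) (nat_lit 82) (nat_lit 5) (nat_lit 81) (nat_lit 5) (nat_lit 460) (nat_lit 401) (nat_lit 339))))))) (XT.nd (nat_lit 1014) (nat_lit 1368) (nat_lit 0) (XT.nd (nat_lit 468) (nat_lit 912) (nat_lit 0) (XT.nd (nat_lit 234) (nat_lit 380) (nat_lit 0) (XT.nd (nat_lit 78) (nat_lit 304) (nat_lit 0) (XT.lf (nat_lit 0) (nat_lit 8206861894) (nat_lit 152) (nat_lit 4386618643) (nat_lit 228) (nat_lit 12799500866) (nat_lit 78) (nat_lit 5) (nat_lit 80) (nat_lit 5) (nat_lit 81) (nat_lit 5) (nat_lit 461) (nat_lit 401) (nat_lit 338)) (XT.nd (nat_lit 78) (nat_lit 228) (nat_lit 0) (XT.lf (nat_lit 0) (nat_lit 8597211220) (nat_lit 76) (nat_lit 16682959312) (nat_lit 152) (nat_lit 955237545) (nat_lit 77) (nat_lit 5) (nat_lit 78) (nat_lit 5) (nat_lit 79) (nat_lit 4) (nat_lit 462) (nat_lit 401) (nat_lit 337)) (XT.lf (nat_lit 0) (nat_lit 8822604059) (nat_lit 152) (nat_lit 2684723273) (nat_lit 228) (nat_lit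 15601815595) (nat_lit 74) (nat_lit 5) (nat_lit 76) (nat_lit 5) (nat_lit 77) (nat_lit 5) (nat_lit 463) (nat_lit 401) (nat_lit 336)))) (XT.nd (nat_lit 78) (nat_lit 304) (nat_lit 0) (XT.lf (nat_lit 0) (nat_lit 8895069811) (nat_lit 76) (nat_lit 16006384952) (nat_lit 152) (nat_lit 3114981885) (nat_lit 73) (nat_lit 5) (nat_lit 74) (nat_lit 5) (nat_lit 75) (nat_lit 4) (nat_lit 464) (nat_lit 401) (nat_lit 335)) (XT.nd (nat_lit 78) (nat_lit 76) (nat_lit 0) (XT.lf (nat_lit 0) (nat_lit 8797490653) (nat_lit 152) (nat_lit 1250222495) (nat_lit 228) (nat_lit 18911103230) (nat_lit 70) (nat_lit 5) (nat_lit 72) (nat_lit 5) (nat_lit 73) (nat_lit 5) (nat_lit 465) (nat_lit 401) (nat_lit 334)) (XT.lf (nat_lit 0) (nat_lit 8462525946) (nat_lit 76) (nat_lit 15705264207) (nat_lit 152) (nat_lit 5768690984) (nat_lit 69) (nat_lit 5) (nat_lit 70) (nat_lit 5) (nat_lit 71) (nat_lit 4) (nat_lit 466) (nat_lit 401) (nat_lit 333)))))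 (XT.nd (nat_lit 234) (nat_lit 380) (nat_lit 0) (XT.nd (nat_lit 78) (nat_lit 304) (nat_lit 0) (XT.lf (nat_lit 0) (nat_lit 7945353405) (nat_lit 152) (nat_lit 174488739) (nat_lit 228) (nat_lit 22833501015) (nat_lit 66) (nat_lit 5) (nat_lit 68) (nat_lit 5) (nat_lit 69) (nat_lit 5) (nat_lit 467) (nat_lit 401) (nat_lit 332)) (XT.nd (nat_lit 78) (nat_lit 228) (nat_lit 0) (XT.lf (nat_lit 0) (nat_lit 7094771140) (nat_lit 76) (nat_lit 15884620743) (nat_lit 152) (nat_lit 9028067283) (nat_lit 65) (nat_lit 5) (nat_lit 66) (nat_lit 5) (nat_lit 67) (nat_lit 4) (nat_lit 468) (nat_lit 401) (nat_lit 331)) (XT.lf (nat_lit 0) (nat_lit 5613434780) (nat_lit 228) (nat_lit 27068223810) (nat_lit 76) (nat_lit 423472059) (nat_lit 62) (nat_lit 5) (nat_lit 65) (nat_lit 5) (nat_lit 63) (nat_lit 4) (nat_lit 469) (nat_lit 401) (nat_lit 330)))) (XT.nd (nat_lit 156) (nat_lit 76) (nat_lit 0) (XT.nd (nat_lit 78) (nat_lit 228) (nat_lit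 0) (XT.lf (nat_lit 0) (nat_lit 4544665453) (nat_lit 76) (nat_lit 16670775599) (nat_lit 152) (nat_lit 13027109817) (nat_lit 61) (nat_lit 5) (nat_lit 62) (nat_lit 5) (nat_lit 63) (nat_lit 4) (nat_lit 470) (nat_lit 401) (nat_lit 329)) (XT.lf (nat_lit 0) (nat_lit 2382581290) (nat_lit 228) (nat_lit 32618743568) (nat_lit 76) (nat_lit 426973966) (nat_lit 58) (nat_lit 5) (nat_lit 61) (nat_lit 5) (nat_lit 59) (nat_lit 4) (nat_lit 471) (nat_lit 401) (nat_lit 328))) (XT.nd (nat_lit 78) (nat_lit 0) (nat_lit 0) (XT.lf (nat_lit 0) (nat_lit 514860750) (nat_lit 76) (nat_lit 18215366817) (nat_lit 152) (nat_lit 17926131375) (nat_lit 57) (nat_lit 5) (nat_lit 58) (nat_lit 5) (nat_lit 59) (nat_lit 4) (nat_lit 472) (nat_lit 401) (nat_lit 327)) (XT.lf (nat_lit 0) (nat_lit 35898180875) (nat_lit 76) (nat_lit 286704799) (nat_lit 152) (nat_lit 1752248404) (nat_lit 57) (nat_lit 5) (nat_lit 58) (nat_lit 5) (nat_lit 59) (nat_lit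 4) (nat_lit 473) (nat_lit 401) (nat_lit 326)))))) (XT.nd (nat_lit 468) (nat_lit 684) (nat_lit 0) (XT.nd (nat_lit 234) (nat_lit 304) (nat_lit 0) (XT.nd (nat_lit 78) (nat_lit 228) (nat_lit 0) (XT.lf (nat_lit 0) (nat_lit 15400049118) (nat_lit 152) (nat_lit 5247035497) (nat_lit 76) (nat_lit 18616464517) (nat_lit 55) (nat_lit 5) (nat_lit 57) (nat_lit 5) (nat_lit 56) (nat_lit 4) (nat_lit 474) (nat_lit 401) (nat_lit 325)) (XT.nd (nat_lit 78) (nat_lit 152) (nat_lit 0) (XT.lf (nat_lit 0) (nat_lit 31777276144) (nat_lit 76) (nat_lit 1882882092) (nat_lit 152) (nat_lit 6987013949) (nat_lit 54) (nat_lit 5) (nat_lit 55) (nat_lit 5) (nat_lit 56) (nat_lit 4) (nat_lit 475) (nat_lit 401) (nat_lit 324)) (XT.lf (nat_lit 0) (nat_lit 10990250001) (nat_lit 152) (nat_lit 13218407566) (nat_lit 76) (nat_lit 17874232336) (nat_lit 52) (nat_lit 5) (nat_lit 54) (nat_lit 5) (nat_lit 53) (nat_lit 4) (nat_lit 476) (nat_lit 401)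 (nat_lit 323)))) (XT.nd (nat_lit 78) (nat_lit 228) (nat_lit 0) (XT.lf (nat_lit 0) (nat_lit 25407955838) (nat_lit 76) (nat_lit 4629020665) (nat_lit 152) (nat_lit 13541889304) (nat_lit 51) (nat_lit 5) (nat_lit 52) (nat_lit 5) (nat_lit 53) (nat_lit 4) (nat_lit 477) (nat_lit 401) (nat_lit 322)) (XT.nd (nat_lit 78) (nat_lit 76) (nat_lit 0) (XT.lf (nat_lit 0) (nat_lit 5249796683) (nat_lit 152) (nat_lit 23909674807) (nat_lit 76) (nat_lit 15974998055) (nat_lit 49) (nat_lit 5) (nat_lit 51) (nat_lit 5) (nat_lit 50) (nat_lit 4) (nat_lit 478) (nat_lit 401) (nat_lit 321)) (XT.lf (nat_lit 0) (nat_lit 16262080007) (nat_lit 76) (nat_lit 8793455970) (nat_lit 152) (nat_lit 21697659680) (nat_lit 48) (nat_lit 5) (nat_lit 49) (nat_lit 5) (nat_lit 50) (nat_lit 4) (nat_lit 479) (nat_lit 401) (nat_lit 320))))) (XT.nd (nat_lit 234) (nat_lit 456) (nat_lit 0) (XT.nd (nat_lit 78) (nat_lit 152) (nat_lit 0) (XT.lf (nat_lit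 0) (nat_lit 10501706610) (nat_lit 76) (nat_lit 35781212414) (nat_lit 76) (nat_lit 2156998932) (nat_lit 47) (nat_lit 4) (nat_lit 48) (nat_lit 5) (nat_lit 48) (nat_lit 4) (nat_lit 480) (nat_lit 401) (nat_lit 319)) (XT.nd (nat_lit 78) (nat_lit 0) (nat_lit 0) (XT.lf (nat_lit 0) (nat_lit 3708883387) (nat_lit 76) (nat_lit 14696508742) (nat_lit 152) (nat_lit 31788200535) (nat_lit 45) (nat_lit 5) (nat_lit 46) (nat_lit 5) (nat_lit 47) (nat_lit 4) (nat_lit 481) (nat_lit 401) (nat_lit 318)) (XT.lf (nat_lit 0) (nat_lit 40380031436) (nat_lit 152) (nat_lit 3962832885) (nat_lit 0) (nat_lit 7678584445) (nat_lit 45) (nat_lit 5) (nat_lit 47) (nat_lit 4) (nat_lit 45) (nat_lit 4) (nat_lit 482) (nat_lit 401) (nat_lit 317)))) (XT.nd (nat_lit 156) (nat_lit 228) (nat_lit 0) (XT.nd (nat_lit 78) (nat_lit 76) (nat_lit 0) (XT.lf (nat_lit 0) (nat_lit 9841355018) (nat_lit 152) (nat_lit 12749781800) (nat_lit 76) (nat_lit 31331389760)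 (nat_lit 43) (nat_lit 5) (nat_lit 45) (nat_lit 5) (nat_lit 44) (nat_lit 4) (nat_lit 483) (nat_lit 401) (nat_lit 316)) (XT.lf (nat_lit 0) (nat_lit 32491664275) (nat_lit 152) (nat_lit 22720649743) (nat_lit 0) (nat_lit 692862047) (nat_lit 42) (nat_lit 5) (nat_lit 44) (nat_lit 4) (nat_lit 42) (nat_lit 4) (nat_lit 484) (nat_lit 401) (nat_lit 315))) (XT.nd (nat_lit 78) (nat_lit 152) (nat_lit 0) (XT.lf (nat_lit 0) (nat_lit 23867916947) (nat_lit 76) (nat_lit 32962161676) (nat_lit 76) (nat_lit 1140212147) (nat_lit 41) (nat_lit 4) (nat_lit 42) (nat_lit 5) (nat_lit 42) (nat_lit 4) (nat_lit 485) (nat_lit 401) (nat_lit 314)) (XT.lf (nat_lit 0) (nat_lit 13102356757) (nat_lit 76) (nat_lit 9038703014) (nat_lit 152) (nat_lit 37981333708) (nat_lit 39) (nat_lit 5) (nat_lit 40) (nat_lit 5) (nat_lit 41) (nat_lit 4) (nat_lit 486) (nat_lit 401) (nat_lit 313))))))))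
noncomputable def xc51 : XT := (XT.nd (nat_lit 56940) (nat_lit 0) (nat_lit 8512) (XT.nd (nat_lit 55926) (nat_lit 0) (nat_lit 23408) (XT.nd (nat_lit 468) (nat_lit 456) (nat_lit 0) (XT.nd (nat_lit 234) (nat_lit 228) (nat_lit 0) (XT.nd (nat_lit 78) (nat_lit 152) (nat_lit 0) (XT.lf (nat_lit 0) (nat_lit 789234719) (nat_lit 76) (nat_lit 46257447806) (nat_lit 76) (nat_lit 15320564443) (nat_lit 38) (nat_lit 4) (nat_lit 39) (nat_lit 5) (nat_lit 39) (nat_lit 4) (nat_lit 487) (nat_lit 401) (nat_lit 312)) (XT.nd (nat_lit 78) (nat_lit 76) (nat_lit 0) (XT.lf (nat_lit 0) (nat_lit 8855553984) (nat_lit 152) (nat_lit 12979521890) (nat_lit 76) (nat_lit 42870394484) (nat_lit 37) (nat_lit 5) (nat_lit 39) (nat_lit 5) (nat_lit 38) (nat_lit 4) (nat_lit 488) (nat_lit 401) (nat_lit 311)) (XT.lf (nat_lit 0) (nat_lit 34308157786) (nat_lit 152) (nat_lit 28600810001) (nat_lit 0) (nat_lit 4235550834) (nat_lit 36) (nat_lit 5)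 (nat_lit 38) (nat_lit 4) (nat_lit 36) (nat_lit 4) (nat_lit 489) (nat_lit 401) (nat_lit 310)))) (XT.nd (nat_lit 78) (nat_lit 152) (nat_lit 0) (XT.lf (nat_lit 0) (nat_lit 23387876466) (nat_lit 76) (nat_lit 38195424122) (nat_lit 76) (nat_lit 8105721764) (nat_lit 35) (nat_lit 4) (nat_lit 36) (nat_lit 5) (nat_lit 36) (nat_lit 4) (nat_lit 490) (nat_lit 401) (nat_lit 309)) (XT.nd (nat_lit 78) (nat_lit 0) (nat_lit 0) (XT.lf (nat_lit 0) (nat_lit 6107826441) (nat_lit 76) (nat_lit 11731488897) (nat_lit 152) (nat_lit 54506493151) (nat_lit 33) (nat_lit 5) (nat_lit 34) (nat_lit 5) (nat_lit 35) (nat_lit 4) (nat_lit 491) (nat_lit 401) (nat_lit 308)) (XT.lf (nat_lit 0) (nat_lit 45522164646) (nat_lit 152) (nat_lit 13314616100) (nat_lit 0) (nat_lit 16277999855) (nat_lit 33) (nat_lit 5) (nat_lit 35) (nat_lit 4) (nat_lit 33) (nat_lit 4) (nat_lit 492) (nat_lit 401) (nat_lit 307))))) (XT.nd (nat_lit 234) (nat_lit 228)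 (nat_lit 0) (XT.nd (nat_lit 78) (nat_lit 152) (nat_lit 0) (XT.lf (nat_lit 0) (nat_lit 42919336979) (nat_lit 76) (nat_lit 32173133749) (nat_lit 76) (nat_lit 2914631428) (nat_lit 32) (nat_lit 4) (nat_lit 33) (nat_lit 5) (nat_lit 33) (nat_lit 4) (nat_lit 493) (nat_lit 401) (nat_lit 306)) (XT.nd (nat_lit 78) (nat_lit 0) (nat_lit 0) (XT.lf (nat_lit 0) (nat_lit 21323124083) (nat_lit 76) (nat_lit 3600659755) (nat_lit 152) (nat_lit 56103530614) (nat_lit 30) (nat_lit 5) (nat_lit 31) (nat_lit 5) (nat_lit 32) (nat_lit 4) (nat_lit 494) (nat_lit 401) (nat_lit 305)) (XT.lf (nat_lit 0) (nat_lit 54686373835) (nat_lit 152) (nat_lit 3239344002) (nat_lit 0) (nat_lit 26254178038) (nat_lit 30) (nat_lit 5) (nat_lit 32) (nat_lit 4) (nat_lit 30) (nat_lit 4) (nat_lit 495) (nat_lit 401) (nat_lit 304)))) (XT.nd (nat_lit 78) (nat_lit 152) (nat_lit 0) (XT.lf (nat_lit 0) (nat_lit 57076008462) (nat_lit 76) (nat_lit 29420764056)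 (nat_lit 76) (nat_lit 976543699) (nat_lit 29) (nat_lit 4) (nat_lit 30) (nat_lit 5) (nat_lit 30) (nat_lit 4) (nat_lit 496) (nat_lit 401) (nat_lit 303)) (XT.nd (nat_lit 55068) (nat_lit 0) (nat_lit 30248) (XT.lf (nat_lit 0) (nat_lit 28706928754) (nat_lit 152) (nat_lit 61126886903) (nat_lit 0) (nat_lit 1080062426) (nat_lit 27) (nat_lit 5) (nat_lit 29) (nat_lit 4) (nat_lit 27) (nat_lit 4) (nat_lit 497) (nat_lit 401) (nat_lit 302)) (XT.lf (nat_lit 0) (nat_lit 115470870) (nat_lit 380) (nat_lit 1564312828) (nat_lit 380) (nat_lit 1564312828) (nat_lit 425) (nat_lit 3) (nat_lit 430) (nat_lit 3) (nat_lit 430) (nat_lit 5) (nat_lit 402) (nat_lit 402) (nat_lit 396)))))) (XT.nd (nat_lit 468) (nat_lit 5548) (nat_lit 0) (XT.nd (nat_lit 234) (nat_lit 532) (nat_lit 0) (XT.nd (nat_lit 78) (nat_lit 760) (nat_lit 0) (XT.lf (nat_lit 76) (nat_lit 2243306739) (nat_lit 0) (nat_lit 2470055675) (nat_lit 380) (nat_lit 1801679345)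 (nat_lit 426) (nat_lit 5) (nat_lit 425) (nat_lit 3) (nat_lit 430) (nat_lit 5) (nat_lit 403) (nat_lit 402) (nat_lit 395)) (XT.nd (nat_lit 78) (nat_lit 380) (nat_lit 0) (XT.lf (nat_lit 76) (nat_lit 1247670006) (nat_lit 0) (nat_lit 1327860345) (nat_lit 456) (nat_lit 3974288853) (nat_lit 421) (nat_lit 5) (nat_lit 420) (nat_lit 5) (nat_lit 426) (nat_lit 5) (nat_lit 404) (nat_lit 402) (nat_lit 394)) (XT.lf (nat_lit 0) (nat_lit 306665724) (nat_lit 456) (nat_lit 6219258190) (nat_lit 532) (nat_lit 66714060) (nat_lit 415) (nat_lit 5) (nat_lit 421) (nat_lit 5) (nat_lit 422) (nat_lit 5) (nat_lit 405) (nat_lit 402) (nat_lit 393)))) (XT.nd (nat_lit 78) (nat_lit 532) (nat_lit 0) (XT.lf (nat_lit 0) (nat_lit 4521745980) (nat_lit 456) (nat_lit 408076362) (nat_lit 532) (nat_lit 1712584520) (nat_lit 415) (nat_lit 5) (nat_lit 421) (nat_lit 5) (nat_lit 422) (nat_lit 5) (nat_lit 406) (nat_lit 402) (nat_lit 392)) (XT.nd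 (nat_lit 78) (nat_lit 0) (nat_lit 0) (XT.lf (nat_lit 0) (nat_lit 2006930878) (nat_lit 532) (nat_lit 1070328807) (nat_lit 608) (nat_lit 3622868972) (nat_lit 408) (nat_lit 5) (nat_lit 415) (nat_lit 5) (nat_lit 416) (nat_lit 5) (nat_lit 407) (nat_lit 402) (nat_lit 391)) (XT.lf (nat_lit 76) (nat_lit 5141989482) (nat_lit 0) (nat_lit 963041219) (nat_lit 608) (nat_lit 660887257) (nat_lit 409) (nat_lit 5) (nat_lit 408) (nat_lit 5) (nat_lit 416) (nat_lit 5) (nat_lit 408) (nat_lit 402) (nat_lit 390))))) (XT.nd (nat_lit 234) (nat_lit 3648) (nat_lit 0) (XT.nd (nat_lit 78) (nat_lit 1368) (nat_lit 0) (XT.lf (nat_lit 0) (nat_lit 3335753566) (nat_lit 608) (nat_lit 2097013234) (nat_lit 76) (nat_lit 1406273498) (nat_lit 401) (nat_lit 5) (nat_lit 409) (nat_lit 5) (nat_lit 402) (nat_lit 5) (nat_lit 409) (nat_lit 402) (nat_lit 389)) (XT.nd (nat_lit 78) (nat_lit 684) (nat_lit 0) (XT.lf (nat_lit 0) (nat_lit 431589935)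 (nat_lit 684) (nat_lit 2467276156) (nat_lit 76) (nat_lit 4021413442) (nat_lit 392) (nat_lit 5) (nat_lit 401) (nat_lit 5) (nat_lit 393) (nat_lit 5) (nat_lit 410) (nat_lit 402) (nat_lit 388)) (XT.lf (nat_lit 0) (nat_lit 4259086352) (nat_lit 684) (nat_lit 74695505) (nat_lit 760) (nat_lit 2675509017) (nat_lit 383) (nat_lit 5) (nat_lit 392) (nat_lit 5) (nat_lit 393) (nat_lit 5) (nat_lit 411) (nat_lit 402) (nat_lit 387)))) (XT.nd (nat_lit 156) (nat_lit 1976) (nat_lit 0) (XT.nd (nat_lit 78) (nat_lit 836) (nat_lit 0) (XT.lf (nat_lit 0) (nat_lit 1183864457) (nat_lit 836) (nat_lit 2953635531) (nat_lit 76) (nat_lit 2968464441) (nat_lit 372) (nat_lit 5) (nat_lit 383) (nat_lit 5) (nat_lit 373) (nat_lit 5) (nat_lit 412) (nat_lit 402) (nat_lit 386)) (XT.lf (nat_lit 0) (nat_lit 4143879550) (nat_lit 836) (nat_lit 902377451) (nat_lit 912) (nat_lit 2164494954) (nat_lit 361) (nat_lit 5) (nat_lit 372) (nat_lit 5) (nat_lit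 373) (nat_lit 5) (nat_lit 413) (nat_lit 402) (nat_lit 385))) (XT.nd (nat_lit 78) (nat_lit 988) (nat_lit 0) (XT.lf (nat_lit 0) (nat_lit 1644924685) (nat_lit 988) (nat_lit 3104974245) (nat_lit 76) (nat_lit 2573439455) (nat_lit 348) (nat_lit 5) (nat_lit 361) (nat_lit 5) (nat_lit 349) (nat_lit 5) (nat_lit 414) (nat_lit 402) (nat_lit 384)) (XT.lf (nat_lit 0) (nat_lit 4384952748) (nat_lit 988) (nat_lit 1108894119) (nat_lit 1064) (nat_lit 1950282608) (nat_lit 335) (nat_lit 5) (nat_lit 348) (nat_lit 5) (nat_lit 349) (nat_lit 5) (nat_lit 415) (nat_lit 402) (nat_lit 383))))))) (XT.nd (nat_lit 1014) (nat_lit 5092) (nat_lit 0) (XT.nd (nat_lit 468) (nat_lit 4180) (nat_lit 0) (XT.nd (nat_lit 234) (nat_lit 2052) (nat_lit 0) (XT.nd (nat_lit 78) (nat_lit 2432) (nat_lit 0) (XT.lf (nat_lit 0) (nat_lit 1846175827) (nat_lit 1140) (nat_lit 2944764708) (nat_lit 76) (nat_lit 2781875355) (nat_lit 320) (nat_lit 5) (nat_lit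 335) (nat_lit 5) (nat_lit 321) (nat_lit 5) (nat_lit 416) (nat_lit 402) (nat_lit 382)) (XT.nd (nat_lit 78) (nat_lit 1292) (nat_lit 0) (XT.lf (nat_lit 0) (nat_lit 4961467151) (nat_lit 1140) (nat_lit 745138970) (nat_lit 1216) (nat_lit 2003345018) (nat_lit 305) (nat_lit 5) (nat_lit 320) (nat_lit 5) (nat_lit 321) (nat_lit 5) (nat_lit 417) (nat_lit 402) (nat_lit 381)) (XT.lf (nat_lit 0) (nat_lit 1814835141) (nat_lit 1292) (nat_lit 2492197670) (nat_lit 76) (nat_lit 3548009374) (nat_lit 288) (nat_lit 5) (nat_lit 305) (nat_lit 5) (nat_lit 289) (nat_lit 5) (nat_lit 418) (nat_lit 402) (nat_lit 380)))) (XT.nd (nat_lit 78) (nat_lit 1292) (nat_lit 0) (XT.lf (nat_lit 0) (nat_lit 5712062622) (nat_lit 836) (nat_lit 2153526924) (nat_lit 76) (nat_lit 143341005) (nat_lit 278) (nat_lit 5) (nat_lit 289) (nat_lit 5) (nat_lit 279) (nat_lit 5) (nat_lit 419) (nat_lit 402) (nat_lit 379)) (XT.nd (nat_lit 78) (nat_lit 608)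 (nat_lit 0) (XT.lf (nat_lit 0) (nat_lit 1574359036) (nat_lit 684) (nat_lit 1762695727) (nat_lit 76) (nat_lit 4833832553) (nat_lit 269) (nat_lit 5) (nat_lit 278) (nat_lit 5) (nat_lit 270) (nat_lit 5) (nat_lit 420) (nat_lit 402) (nat_lit 378)) (XT.lf (nat_lit 0) (nat_lit 5543294961) (nat_lit 684) (nat_lit 1298575895) (nat_lit 76) (nat_lit 1499861275) (nat_lit 261) (nat_lit 5) (nat_lit 270) (nat_lit 5) (nat_lit 262) (nat_lit 5) (nat_lit 421) (nat_lit 402) (nat_lit 377))))) (XT.nd (nat_lit 234) (nat_lit 1900) (nat_lit 0) (XT.nd (nat_lit 78) (nat_lit 1672) (nat_lit 0) (XT.lf (nat_lit 0) (nat_lit 1144804573) (nat_lit 608) (nat_lit 768384321) (nat_lit 76) (nat_lit 6608253793) (nat_lit 253) (nat_lit 5) (nat_lit 261) (nat_lit 5) (nat_lit 254) (nat_lit 5) (nat_lit 422) (nat_lit 402) (nat_lit 376)) (XT.nd (nat_lit 78) (nat_lit 1140) (nat_lit 0) (XT.lf (nat_lit 0) (nat_lit 5212256824) (nat_lit 608) (nat_lit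 186882284) (nat_lit 76) (nat_lit 3310640052) (nat_lit 246) (nat_lit 5) (nat_lit 254) (nat_lit 5) (nat_lit 247) (nat_lit 5) (nat_lit 423) (nat_lit 402) (nat_lit 375)) (XT.lf (nat_lit 0) (nat_lit 491051981) (nat_lit 532) (nat_lit 56798712) (nat_lit 608) (nat_lit 8360027693) (nat_lit 231) (nat_lit 5) (nat_lit 238) (nat_lit 5) (nat_lit 239) (nat_lit 5) (nat_lit 424) (nat_lit 402) (nat_lit 374)))) (XT.nd (nat_lit 156) (nat_lit 988) (nat_lit 0) (XT.nd (nat_lit 78) (nat_lit 456) (nat_lit 0) (XT.lf (nat_lit 0) (nat_lit 1197105911) (nat_lit 456) (nat_lit 3549604278) (nat_lit 532) (nat_lit 4367443987) (nat_lit 225) (nat_lit 5) (nat_lit 231) (nat_lit 5) (nat_lit 232) (nat_lit 5) (nat_lit 425) (nat_lit 402) (nat_lit 373)) (XT.lf (nat_lit 0) (nat_lit 1995727449) (nat_lit 456) (nat_lit 7155812714) (nat_lit 532) (nat_lit 179338986) (nat_lit 219) (nat_lit 5) (nat_lit 225) (nat_lit 5) (nat_lit 226) (nat_lit 5)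 (nat_lit 426) (nat_lit 402) (nat_lit 372))) (XT.nd (nat_lit 78) (nat_lit 456) (nat_lit 0) (XT.lf (nat_lit 0) (nat_lit 2832985474) (nat_lit 456) (nat_lit 1319990426) (nat_lit 532) (nat_lit 5403749547) (nat_lit 212) (nat_lit 5) (nat_lit 218) (nat_lit 5) (nat_lit 219) (nat_lit 5) (nat_lit 427) (nat_lit 402) (nat_lit 371)) (XT.lf (nat_lit 0) (nat_lit 3737795574) (nat_lit 456) (nat_lit 4994919521) (nat_lit 532) (nat_lit 1060074450) (nat_lit 206) (nat_lit 5) (nat_lit 212) (nat_lit 5) (nat_lit 213) (nat_lit 5) (nat_lit 428) (nat_lit 402) (nat_lit 370)))))) (XT.nd (nat_lit 468) (nat_lit 2584) (nat_lit 0) (XT.nd (nat_lit 234) (nat_lit 1140) (nat_lit 0) (XT.nd (nat_lit 78) (nat_lit 912) (nat_lit 0) (XT.lf (nat_lit 0) (nat_lit 3452551742) (nat_lit 456) (nat_lit 5338498315) (nat_lit 76) (nat_lit 1248008040) (nat_lit 200) (nat_lit 5) (nat_lit 206) (nat_lit 5) (nat_lit 201) (nat_lit 5) (nat_lit 429) (nat_lit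 402) (nat_lit 369)) (XT.nd (nat_lit 78) (nat_lit 456) (nat_lit 0) (XT.lf (nat_lit 0) (nat_lit 5720348679) (nat_lit 456) (nat_lit 2500368782) (nat_lit 532) (nat_lit 2075065354) (nat_lit 194) (nat_lit 5) (nat_lit 200) (nat_lit 5) (nat_lit 201) (nat_lit 5) (nat_lit 430) (nat_lit 402) (nat_lit 368)) (XT.lf (nat_lit 0) (nat_lit 2658019960) (nat_lit 456) (nat_lit 3769710077) (nat_lit 76) (nat_lit 4135417218) (nat_lit 188) (nat_lit 5) (nat_lit 194) (nat_lit 5) (nat_lit 189) (nat_lit 5) (nat_lit 431) (nat_lit 402) (nat_lit 367)))) (XT.nd (nat_lit 78) (nat_lit 760) (nat_lit 0) (XT.lf (nat_lit 0) (nat_lit 7627336597) (nat_lit 456) (nat_lit 2903553155) (nat_lit 76) (nat_lit 311110108) (nat_lit 183) (nat_lit 5) (nat_lit 189) (nat_lit 5) (nat_lit 184) (nat_lit 5) (nat_lit 432) (nat_lit 402) (nat_lit 366)) (XT.nd (nat_lit 78) (nat_lit 380) (nat_lit 0) (XT.lf (nat_lit 0) (nat_lit 1763072750) (nat_lit 380) (nat_lit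 2008387173) (nat_lit 76) (nat_lit 7360268490) (nat_lit 178) (nat_lit 5) (nat_lit 183) (nat_lit 5) (nat_lit 179) (nat_lit 5) (nat_lit 433) (nat_lit 402) (nat_lit 365)) (XT.lf (nat_lit 0) (nat_lit 6983167963) (nat_lit 456) (nat_lit 1066876755) (nat_lit 76) (nat_lit 3383154882) (nat_lit 173) (nat_lit 5) (nat_lit 179) (nat_lit 5) (nat_lit 174) (nat_lit 5) (nat_lit 434) (nat_lit 402) (nat_lit 364))))) (XT.nd (nat_lit 234) (nat_lit 1292) (nat_lit 0) (XT.nd (nat_lit 78) (nat_lit 912) (nat_lit 0) (XT.lf (nat_lit 0) (nat_lit 771839440) (nat_lit 380) (nat_lit 57940254) (nat_lit 76) (nat_lit 10917629855) (nat_lit 168) (nat_lit 5) (nat_lit 173) (nat_lit 5) (nat_lit 169) (nat_lit 5) (nat_lit 435) (nat_lit 402) (nat_lit 363)) (XT.nd (nat_lit 78) (nat_lit 304) (nat_lit 0) (XT.lf (nat_lit 0) (nat_lit 974232999) (nat_lit 304) (nat_lit 5303662636) (nat_lit 380) (nat_lit 5794667405) (nat_lit 160) (nat_lit 5) (nat_lit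 164) (nat_lit 5) (nat_lit 165) (nat_lit 5) (nat_lit 436) (nat_lit 402) (nat_lit 362)) (XT.lf (nat_lit 0) (nat_lit 2092755847) (nat_lit 304) (nat_lit 10043261239) (nat_lit 380) (nat_lit 275662427) (nat_lit 156) (nat_lit 5) (nat_lit 160) (nat_lit 5) (nat_lit 161) (nat_lit 5) (nat_lit 437) (nat_lit 402) (nat_lit 361)))) (XT.nd (nat_lit 156) (nat_lit 608) (nat_lit 0) (XT.nd (nat_lit 78) (nat_lit 304) (nat_lit 0) (XT.lf (nat_lit 0) (nat_lit 3221714809) (nat_lit 304) (nat_lit 2294812521) (nat_lit 380) (nat_lit 7246492323) (nat_lit 151) (nat_lit 5) (nat_lit 155) (nat_lit 5) (nat_lit 156) (nat_lit 5) (nat_lit 438) (nat_lit 402) (nat_lit 360)) (XT.lf (nat_lit 0) (nat_lit 4409765509) (nat_lit 304) (nat_lit 7296489123) (nat_lit 380) (nat_lit 1422188616) (nat_lit 147) (nat_lit 5) (nat_lit 151) (nat_lit 5) (nat_lit 152) (nat_lit 5) (nat_lit 439) (nat_lit 402) (nat_lit 359))) (XT.nd (nat_lit 78) (nat_lit 304)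 (nat_lit 0) (XT.lf (nat_lit 0) (nat_lit 4697576104) (nat_lit 304) (nat_lit 7868154760) (nat_lit 76) (nat_lit 942185476) (nat_lit 143) (nat_lit 5) (nat_lit 147) (nat_lit 5) (nat_lit 144) (nat_lit 5) (nat_lit 440) (nat_lit 402) (nat_lit 358)) (XT.lf (nat_lit 0) (nat_lit 6902022071) (nat_lit 304) (nat_lit 4335239175) (nat_lit 380) (nat_lit 2664385396) (nat_lit 139) (nat_lit 5) (nat_lit 143) (nat_lit 5) (nat_lit 144) (nat_lit 5) (nat_lit 441) (nat_lit 402) (nat_lit 357))))))))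
noncomputable def xc52 : XT := (XT.nd (nat_lit 1950) (nat_lit 2812) (nat_lit 0) (XT.nd (nat_lit 936) (nat_lit 2204) (nat_lit 0) (XT.nd (nat_lit 468) (nat_lit 1444) (nat_lit 0) (XT.nd (nat_lit 234) (nat_lit 760) (nat_lit 0) (XT.nd (nat_lit 78) (nat_lit 532) (nat_lit 0) (XT.lf (nat_lit 0) (nat_lit 3833376852) (nat_lit 304) (nat_lit 6104476120) (nat_lit 76) (nat_lit 4372570400) (nat_lit 135) (nat_lit 5) (nat_lit 139) (nat_lit 5) (nat_lit 136) (nat_lit 5) (nat_lit 442) (nat_lit 402) (nat_lit 356)) (XT.nd (nat_lit 78) (nat_lit 304) (nat_lit 0) (XT.lf (nat_lit 0) (nat_lit 9561541352) (nat_lit 228) (nat_lit 1165129243) (nat_lit 304) (nat_lit 4008410120) (nat_lit 132) (nat_lit 5) (nat_lit 135) (nat_lit 5) (nat_lit 136) (nat_lit 5) (nat_lit 443) (nat_lit 402) (nat_lit 355)) (XT.lf (nat_lit 0) (nat_lit 2896186373) (nat_lit 304) (nat_lit 4241475002) (nat_lit 76) (nat_lit 8037506544) (nat_lit 128) (nat_lit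 5) (nat_lit 132) (nat_lit 5) (nat_lit 129) (nat_lit 5) (nat_lit 444) (nat_lit 402) (nat_lit 354)))) (XT.nd (nat_lit 78) (nat_lit 532) (nat_lit 0) (XT.lf (nat_lit 0) (nat_lit 10190498010) (nat_lit 304) (nat_lit 3276741338) (nat_lit 76) (nat_lit 2165012876) (nat_lit 125) (nat_lit 5) (nat_lit 129) (nat_lit 5) (nat_lit 126) (nat_lit 5) (nat_lit 445) (nat_lit 402) (nat_lit 353)) (XT.nd (nat_lit 78) (nat_lit 228) (nat_lit 0) (XT.lf (nat_lit 0) (nat_lit 1877143261) (nat_lit 304) (nat_lit 2296193001) (nat_lit 76) (nat_lit 11933146706) (nat_lit 121) (nat_lit 5) (nat_lit 125) (nat_lit 5) (nat_lit 122) (nat_lit 5) (nat_lit 446) (nat_lit 402) (nat_lit 352)) (XT.lf (nat_lit 0) (nat_lit 9612170260) (nat_lit 304) (nat_lit 1320496145) (nat_lit 76) (nat_lit 5665264962) (nat_lit 118) (nat_lit 5) (nat_lit 122) (nat_lit 5) (nat_lit 119) (nat_lit 5) (nat_lit 447) (nat_lit 402) (nat_lit 351))))) (XT.nd (nat_lit 234)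 (nat_lit 608) (nat_lit 0) (XT.nd (nat_lit 78) (nat_lit 608) (nat_lit 0) (XT.lf (nat_lit 0) (nat_lit 763764006) (nat_lit 228) (nat_lit 290510876) (nat_lit 76) (nat_lit 16054826536) (nat_lit 115) (nat_lit 5) (nat_lit 118) (nat_lit 5) (nat_lit 116) (nat_lit 5) (nat_lit 448) (nat_lit 402) (nat_lit 350)) (XT.nd (nat_lit 78) (nat_lit 228) (nat_lit 0) (XT.lf (nat_lit 0) (nat_lit 695173843) (nat_lit 152) (nat_lit 8279775398) (nat_lit 228) (nat_lit 8662249763) (nat_lit 110) (nat_lit 5) (nat_lit 112) (nat_lit 5) (nat_lit 113) (nat_lit 5) (nat_lit 449) (nat_lit 402) (nat_lit 349)) (XT.lf (nat_lit 0) (nat_lit 1756088419) (nat_lit 228) (nat_lit 16000348093) (nat_lit 304) (nat_lit 430476306) (nat_lit 107) (nat_lit 5) (nat_lit 110) (nat_lit 5) (nat_lit 111) (nat_lit 5) (nat_lit 450) (nat_lit 402) (nat_lit 348)))) (XT.nd (nat_lit 78) (nat_lit 380) (nat_lit 0) (XT.lf (nat_lit 0) (nat_lit 2751685299) (nat_lit 152)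 (nat_lit 5517015277) (nat_lit 228) (nat_lit 10486564356) (nat_lit 104) (nat_lit 5) (nat_lit 106) (nat_lit 5) (nat_lit 107) (nat_lit 5) (nat_lit 451) (nat_lit 402) (nat_lit 347)) (XT.nd (nat_lit 78) (nat_lit 228) (nat_lit 0) (XT.lf (nat_lit 0) (nat_lit 3784684746) (nat_lit 152) (nat_lit 13800943039) (nat_lit 228) (nat_lit 1760531371) (nat_lit 102) (nat_lit 5) (nat_lit 104) (nat_lit 5) (nat_lit 105) (nat_lit 5) (nat_lit 452) (nat_lit 402) (nat_lit 346)) (XT.lf (nat_lit 0) (nat_lit 4782003573) (nat_lit 152) (nat_lit 2676502728) (nat_lit 228) (nat_lit 12499926060) (nat_lit 99) (nat_lit 5) (nat_lit 101) (nat_lit 5) (nat_lit 102) (nat_lit 5) (nat_lit 453) (nat_lit 402) (nat_lit 345)))))) (XT.nd (nat_lit 468) (nat_lit 1064) (nat_lit 0) (XT.nd (nat_lit 234) (nat_lit 608) (nat_lit 0) (XT.nd (nat_lit 78) (nat_lit 380) (nat_lit 0) (XT.lf (nat_lit 0) (nat_lit 5761790363) (nat_lit 152) (nat_lit 11579068321)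 (nat_lit 228) (nat_lit 3252777231) (nat_lit 97) (nat_lit 5) (nat_lit 99) (nat_lit 5) (nat_lit 100) (nat_lit 5) (nat_lit 454) (nat_lit 402) (nat_lit 344)) (XT.nd (nat_lit 78) (nat_lit 152) (nat_lit 0) (XT.lf (nat_lit 0) (nat_lit 6518479367) (nat_lit 228) (nat_lit 14520338094) (nat_lit 76) (nat_lit 214290479) (nat_lit 94) (nat_lit 5) (nat_lit 97) (nat_lit 5) (nat_lit 95) (nat_lit 5) (nat_lit 455) (nat_lit 402) (nat_lit 343)) (XT.lf (nat_lit 0) (nat_lit 7630128832) (nat_lit 152) (nat_lit 9363553212) (nat_lit 228) (nat_lit 4942428161) (nat_lit 92) (nat_lit 5) (nat_lit 94) (nat_lit 5) (nat_lit 95) (nat_lit 5) (nat_lit 456) (nat_lit 402) (nat_lit 342)))) (XT.nd (nat_lit 78) (nat_lit 380) (nat_lit 0) (XT.lf (nat_lit 0) (nat_lit 5437422906) (nat_lit 228) (nat_lit 14130135438) (nat_lit 76) (nat_lit 3078099835) (nat_lit 89) (nat_lit 5) (nat_lit 92) (nat_lit 5) (nat_lit 90) (nat_lit 5) (nat_lit 457) (nat_lit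 402) (nat_lit 341)) (XT.nd (nat_lit 78) (nat_lit 228) (nat_lit 0) (XT.lf (nat_lit 0) (nat_lit 9318476488) (nat_lit 152) (nat_lit 7189696368) (nat_lit 228) (nat_lit 6872821132) (nat_lit 87) (nat_lit 5) (nat_lit 89) (nat_lit 5) (nat_lit 90) (nat_lit 5) (nat_lit 458) (nat_lit 402) (nat_lit 340)) (XT.lf (nat_lit 0) (nat_lit 4145836722) (nat_lit 228) (nat_lit 14066689726) (nat_lit 76) (nat_lit 5932100855) (nat_lit 84) (nat_lit 5) (nat_lit 87) (nat_lit 5) (nat_lit 85) (nat_lit 5) (nat_lit 459) (nat_lit 402) (nat_lit 339))))) (XT.nd (nat_lit 234) (nat_lit 608) (nat_lit 0) (XT.nd (nat_lit 78) (nat_lit 304) (nat_lit 0) (XT.lf (nat_lit 0) (nat_lit 10738804529) (nat_lit 152) (nat_lit 5100749836) (nat_lit 228) (nat_lit 9096860390) (nat_lit 82) (nat_lit 5) (nat_lit 84) (nat_lit 5) (nat_lit 85) (nat_lit 5) (nat_lit 460) (nat_lit 402) (nat_lit 338)) (XT.nd (nat_lit 78) (nat_lit 152) (nat_lit 0) (XT.lf (nat_lit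 0) (nat_lit 2589997273) (nat_lit 152) (nat_lit 14435681461) (nat_lit 76) (nat_lit 8732866152) (nat_lit 80) (nat_lit 5) (nat_lit 82) (nat_lit 5) (nat_lit 81) (nat_lit 5) (nat_lit 461) (nat_lit 402) (nat_lit 337)) (XT.lf (nat_lit 0) (nat_lit 11782911294) (nat_lit 152) (nat_lit 3149654785) (nat_lit 228) (nat_lit 11678729942) (nat_lit 78) (nat_lit 5) (nat_lit 80) (nat_lit 5) (nat_lit 81) (nat_lit 5) (nat_lit 462) (nat_lit 402) (nat_lit 336)))) (XT.nd (nat_lit 156) (nat_lit 304) (nat_lit 0) (XT.nd (nat_lit 78) (nat_lit 152) (nat_lit 0) (XT.lf (nat_lit 0) (nat_lit 704418571) (nat_lit 152) (nat_lit 15365598228) (nat_lit 76) (nat_lit 11426767369) (nat_lit 76) (nat_lit 5) (nat_lit 78) (nat_lit 5) (nat_lit 77) (nat_lit 5) (nat_lit 463) (nat_lit 402) (nat_lit 335)) (XT.lf (nat_lit 0) (nat_lit 12318454308) (nat_lit 152) (nat_lit 1401075479) (nat_lit 228) (nat_lit 14695919318) (nat_lit 74) (nat_lit 5) (nat_lit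 76) (nat_lit 5) (nat_lit 77) (nat_lit 5) (nat_lit 464) (nat_lit 402) (nat_lit 334))) (XT.nd (nat_lit 78) (nat_lit 228) (nat_lit 0) (XT.lf (nat_lit 0) (nat_lit 12341483597) (nat_lit 76) (nat_lit 15405769753) (nat_lit 152) (nat_lit 1621939655) (nat_lit 73) (nat_lit 5) (nat_lit 74) (nat_lit 5) (nat_lit 75) (nat_lit 4) (nat_lit 465) (nat_lit 402) (nat_lit 333)) (XT.lf (nat_lit 0) (nat_lit 12118698493) (nat_lit 228) (nat_lit 18176038083) (nat_lit 76) (nat_lit 64922222) (nat_lit 70) (nat_lit 5) (nat_lit 73) (nat_lit 5) (nat_lit 71) (nat_lit 4) (nat_lit 466) (nat_lit 402) (nat_lit 332))))))) (XT.nd (nat_lit 1014) (nat_lit 1216) (nat_lit 0) (XT.nd (nat_lit 468) (nat_lit 684) (nat_lit 0) (XT.nd (nat_lit 234) (nat_lit 532) (nat_lit 0) (XT.nd (nat_lit 78) (nat_lit 304) (nat_lit 0) (XT.lf (nat_lit 0) (nat_lit 11780945198) (nat_lit 76) (nat_lit 15128988157) (nat_lit 152) (nat_lit 4477320744) (nat_lit 69) (nat_lit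 5) (nat_lit 70) (nat_lit 5) (nat_lit 71) (nat_lit 4) (nat_lit 467) (nat_lit 402) (nat_lit 331)) (XT.nd (nat_lit 78) (nat_lit 76) (nat_lit 0) (XT.lf (nat_lit 0) (nat_lit 10039489546) (nat_lit 228) (nat_lit 21282114516) (nat_lit 76) (nat_lit 1133961013) (nat_lit 66) (nat_lit 5) (nat_lit 69) (nat_lit 5) (nat_lit 67) (nat_lit 4) (nat_lit 468) (nat_lit 402) (nat_lit 330)) (XT.lf (nat_lit 0) (nat_lit 10241625912) (nat_lit 76) (nat_lit 15356828857) (nat_lit 152) (nat_lit 7965240668) (nat_lit 65) (nat_lit 5) (nat_lit 66) (nat_lit 5) (nat_lit 67) (nat_lit 4) (nat_lit 469) (nat_lit 402) (nat_lit 329)))) (XT.nd (nat_lit 78) (nat_lit 304) (nat_lit 0) (XT.lf (nat_lit 0) (nat_lit 7346936713) (nat_lit 228) (nat_lit 25650081032) (nat_lit 76) (nat_lit 1719753196) (nat_lit 62) (nat_lit 5) (nat_lit 65) (nat_lit 5) (nat_lit 63) (nat_lit 4) (nat_lit 470) (nat_lit 402) (nat_lit 328)) (XT.nd (nat_lit 78) (nat_lit 228)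 (nat_lit 0) (XT.lf (nat_lit 0) (nat_lit 7464006657) (nat_lit 76) (nat_lit 16221732441) (nat_lit 152) (nat_lit 12226623694) (nat_lit 61) (nat_lit 5) (nat_lit 62) (nat_lit 5) (nat_lit 63) (nat_lit 4) (nat_lit 471) (nat_lit 402) (nat_lit 327)) (XT.lf (nat_lit 0) (nat_lit 3894961229) (nat_lit 228) (nat_lit 31577858432) (nat_lit 76) (nat_lit 1685068984) (nat_lit 58) (nat_lit 5) (nat_lit 61) (nat_lit 5) (nat_lit 59) (nat_lit 4) (nat_lit 472) (nat_lit 402) (nat_lit 326))))) (XT.nd (nat_lit 234) (nat_lit 456) (nat_lit 0) (XT.nd (nat_lit 78) (nat_lit 152) (nat_lit 0) (XT.lf (nat_lit 0) (nat_lit 3135838852) (nat_lit 76) (nat_lit 17882752675) (nat_lit 152) (nat_lit 17430003505) (nat_lit 57) (nat_lit 5) (nat_lit 58) (nat_lit 5) (nat_lit 59) (nat_lit 4) (nat_lit 473) (nat_lit 402) (nat_lit 325)) (XT.nd (nat_lit 78) (nat_lit 76) (nat_lit 0) (XT.lf (nat_lit 0) (nat_lit 368094595) (nat_lit 76) (nat_lit 38925541584)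 (nat_lit 76) (nat_lit 501344387) (nat_lit 56) (nat_lit 4) (nat_lit 57) (nat_lit 5) (nat_lit 57) (nat_lit 4) (nat_lit 474) (nat_lit 402) (nat_lit 324)) (XT.lf (nat_lit 0) (nat_lit 17442897269) (nat_lit 152) (nat_lit 3056744185) (nat_lit 76) (nat_lit 20688876623) (nat_lit 55) (nat_lit 5) (nat_lit 57) (nat_lit 5) (nat_lit 56) (nat_lit 4) (nat_lit 475) (nat_lit 402) (nat_lit 323)))) (XT.nd (nat_lit 156) (nat_lit 228) (nat_lit 0) (XT.nd (nat_lit 78) (nat_lit 152) (nat_lit 0) (XT.lf (nat_lit 0) (nat_lit 35748478517) (nat_lit 76) (nat_lit 829822121) (nat_lit 152) (nat_lit 6064154081) (nat_lit 54) (nat_lit 5) (nat_lit 55) (nat_lit 5) (nat_lit 56) (nat_lit 4) (nat_lit 476) (nat_lit 402) (nat_lit 322)) (XT.lf (nat_lit 0) (nat_lit 12761064770) (nat_lit 152) (nat_lit 11515650172) (nat_lit 76) (nat_lit 19873660009) (nat_lit 52) (nat_lit 5) (nat_lit 54) (nat_lit 5) (nat_lit 53) (nat_lit 4) (nat_lit 477) (nat_lit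 402) (nat_lit 321))) (XT.nd (nat_lit 78) (nat_lit 152) (nat_lit 0) (XT.lf (nat_lit 0) (nat_lit 28974277054) (nat_lit 76) (nat_lit 3749763113) (nat_lit 152) (nat_lit 12998193076) (nat_lit 51) (nat_lit 5) (nat_lit 52) (nat_lit 5) (nat_lit 53) (nat_lit 4) (nat_lit 478) (nat_lit 402) (nat_lit 320)) (XT.lf (nat_lit 0) (nat_lit 6684409975) (nat_lit 152) (nat_lit 22827516489) (nat_lit 76) (nat_lit 17844084908) (nat_lit 49) (nat_lit 5) (nat_lit 51) (nat_lit 5) (nat_lit 50) (nat_lit 4) (nat_lit 479) (nat_lit 402) (nat_lit 319)))))) (XT.nd (nat_lit 468) (nat_lit 684) (nat_lit 0) (XT.nd (nat_lit 234) (nat_lit 228) (nat_lit 0) (XT.nd (nat_lit 78) (nat_lit 228) (nat_lit 0) (XT.lf (nat_lit 0) (nat_lit 19287537914) (nat_lit 76) (nat_lit 8158349416) (nat_lit 152) (nat_lit 21610823782) (nat_lit 48) (nat_lit 5) (nat_lit 49) (nat_lit 5) (nat_lit 50) (nat_lit 4) (nat_lit 480) (nat_lit 402) (nat_lit 318)) (XT.nd (nat_lit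 78) (nat_lit 152) (nat_lit 0) (XT.lf (nat_lit 0) (nat_lit 13198859466) (nat_lit 76) (nat_lit 36512328552) (nat_lit 76) (nat_lit 1117285866) (nat_lit 47) (nat_lit 4) (nat_lit 48) (nat_lit 5) (nat_lit 48) (nat_lit 4) (nat_lit 481) (nat_lit 402) (nat_lit 317)) (XT.lf (nat_lit 0) (nat_lit 6025899747) (nat_lit 76) (nat_lit 14391842368) (nat_lit 152) (nat_lit 32252752719) (nat_lit 45) (nat_lit 5) (nat_lit 46) (nat_lit 5) (nat_lit 47) (nat_lit 4) (nat_lit 482) (nat_lit 402) (nat_lit 316)))) (XT.nd (nat_lit 78) (nat_lit 228) (nat_lit 0) (XT.lf (nat_lit 0) (nat_lit 43448625971) (nat_lit 152) (nat_lit 2109205555) (nat_lit 0) (nat_lit 9033187555) (nat_lit 45) (nat_lit 5) (nat_lit 47) (nat_lit 4) (nat_lit 45) (nat_lit 4) (nat_lit 483) (nat_lit 402) (nat_lit 315)) (XT.nd (nat_lit 78) (nat_lit 76) (nat_lit 0) (XT.lf (nat_lit 0) (nat_lit 11362292837) (nat_lit 152) (nat_lit 11373825676) (nat_lit 76) (nat_lit 33851655037)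 (nat_lit 43) (nat_lit 5) (nat_lit 45) (nat_lit 5) (nat_lit 44) (nat_lit 4) (nat_lit 484) (nat_lit 402) (nat_lit 314)) (XT.lf (nat_lit 0) (nat_lit 35124123211) (nat_lit 152) (nat_lit 21880178909) (nat_lit 0) (nat_lit 1665883854) (nat_lit 42) (nat_lit 5) (nat_lit 44) (nat_lit 4) (nat_lit 42) (nat_lit 4) (nat_lit 485) (nat_lit 402) (nat_lit 313))))) (XT.nd (nat_lit 234) (nat_lit 380) (nat_lit 0) (XT.nd (nat_lit 78) (nat_lit 228) (nat_lit 0) (XT.lf (nat_lit 0) (nat_lit 26981160044) (nat_lit 76) (nat_lit 33668758896) (nat_lit 76) (nat_lit 189524254) (nat_lit 41) (nat_lit 4) (nat_lit 42) (nat_lit 5) (nat_lit 42) (nat_lit 4) (nat_lit 486) (nat_lit 402) (nat_lit 312)) (XT.nd (nat_lit 78) (nat_lit 76) (nat_lit 0) (XT.lf (nat_lit 0) (nat_lit 15641401313) (nat_lit 76) (nat_lit 8565806304) (nat_lit 152) (nat_lit 38892521574) (nat_lit 39) (nat_lit 5) (nat_lit 40) (nat_lit 5) (nat_lit 41) (nat_lit 4) (nat_lit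 487) (nat_lit 402) (nat_lit 311)) (XT.lf (nat_lit 0) (nat_lit 2677944450) (nat_lit 76) (nat_lit 47660738693) (nat_lit 76) (nat_lit 15118725593) (nat_lit 38) (nat_lit 4) (nat_lit 39) (nat_lit 5) (nat_lit 39) (nat_lit 4) (nat_lit 488) (nat_lit 402) (nat_lit 310)))) (XT.nd (nat_lit 156) (nat_lit 228) (nat_lit 0) (XT.nd (nat_lit 78) (nat_lit 76) (nat_lit 0) (XT.lf (nat_lit 0) (nat_lit 10202122636) (nat_lit 152) (nat_lit 11849312417) (nat_lit 76) (nat_lit 45862185306) (nat_lit 37) (nat_lit 5) (nat_lit 39) (nat_lit 5) (nat_lit 38) (nat_lit 4) (nat_lit 489) (nat_lit 402) (nat_lit 309)) (XT.lf (nat_lit 0) (nat_lit 36909109942) (nat_lit 152) (nat_lit 28284513239) (nat_lit 0) (nat_lit 5281545721) (nat_lit 36) (nat_lit 5) (nat_lit 38) (nat_lit 4) (nat_lit 36) (nat_lit 4) (nat_lit 490) (nat_lit 402) (nat_lit 308))) (XT.nd (nat_lit 78) (nat_lit 152) (nat_lit 0) (XT.lf (nat_lit 0) (nat_lit 26253549144) (nat_lit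 76) (nat_lit 39268597636) (nat_lit 76) (nat_lit 7625527377) (nat_lit 35) (nat_lit 4) (nat_lit 36) (nat_lit 5) (nat_lit 36) (nat_lit 4) (nat_lit 491) (nat_lit 402) (nat_lit 307)) (XT.lf (nat_lit 0) (nat_lit 8077665115) (nat_lit 76) (nat_lit 11496474307) (nat_lit 152) (nat_lit 56363665533) (nat_lit 33) (nat_lit 5) (nat_lit 34) (nat_lit 5) (nat_lit 35) (nat_lit 4) (nat_lit 492) (nat_lit 402) (nat_lit 306))))))))
noncomputable def xc53 : XT := (XT.nd (nat_lit 57018) (nat_lit 0) (nat_lit 6612) (XT.nd (nat_lit 56004) (nat_lit 0) (nat_lit 17024) (XT.nd (nat_lit 55536) (nat_lit 0) (nat_lit 28196) (XT.nd (nat_lit 234) (nat_lit 76) (nat_lit 0) (XT.nd (nat_lit 78) (nat_lit 228) (nat_lit 0) (XT.lf (nat_lit 0) (nat_lit 48608516625) (nat_lit 152) (nat_lit 12378591005) (nat_lit 0) (nat_lit 17859096871) (nat_lit 33) (nat_lit 5) (nat_lit 35) (nat_lit 4) (nat_lit 33) (nat_lit 4) (nat_lit 493) (nat_lit 402) (nat_lit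 305)) (XT.nd (nat_lit 78) (nat_lit 152) (nat_lit 0) (XT.lf (nat_lit 0) (nat_lit 46621145716) (nat_lit 76) (nat_lit 33012564962) (nat_lit 76) (nat_lit 2250140647) (nat_lit 32) (nat_lit 4) (nat_lit 33) (nat_lit 5) (nat_lit 33) (nat_lit 4) (nat_lit 494) (nat_lit 402) (nat_lit 304)) (XT.lf (nat_lit 0) (nat_lit 23915888458) (nat_lit 76) (nat_lit 3025342118) (nat_lit 152) (nat_lit 58114304987) (nat_lit 30) (nat_lit 5) (nat_lit 31) (nat_lit 5) (nat_lit 32) (nat_lit 4) (nat_lit 495) (nat_lit 402) (nat_lit 303)))) (XT.nd (nat_lit 78) (nat_lit 76) (nat_lit 0) (XT.lf (nat_lit 0) (nat_lit 58162138658) (nat_lit 152) (nat_lit 1932271307) (nat_lit 0) (nat_lit 28272230762) (nat_lit 30) (nat_lit 5) (nat_lit 32) (nat_lit 4) (nat_lit 30) (nat_lit 4) (nat_lit 496) (nat_lit 402) (nat_lit 302)) (XT.nd (nat_lit 55146) (nat_lit 0) (nat_lit 29716) (XT.lf (nat_lit 0) (nat_lit 61356739047) (nat_lit 76) (nat_lit 30184727795)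 (nat_lit 76) (nat_lit 283913269) (nat_lit 29) (nat_lit 4) (nat_lit 30) (nat_lit 5) (nat_lit 30) (nat_lit 4) (nat_lit 497) (nat_lit 402) (nat_lit 301)) (XT.lf (nat_lit 0) (nat_lit 610493426) (nat_lit 0) (nat_lit 610493426) (nat_lit 380) (nat_lit 2051993714) (nat_lit 420) (nat_lit 5) (nat_lit 420) (nat_lit 3) (nat_lit 425) (nat_lit 3) (nat_lit 403) (nat_lit 403) (nat_lit 394))))) (XT.nd (nat_lit 234) (nat_lit 532) (nat_lit 0) (XT.nd (nat_lit 78) (nat_lit 532) (nat_lit 0) (XT.lf (nat_lit 0) (nat_lit 40909493) (nat_lit 456) (nat_lit 6491346466) (nat_lit 532) (nat_lit 52701521) (nat_lit 414) (nat_lit 5) (nat_lit 420) (nat_lit 5) (nat_lit 421) (nat_lit 5) (nat_lit 404) (nat_lit 403) (nat_lit 393)) (XT.nd (nat_lit 78) (nat_lit 532) (nat_lit 0) (XT.lf (nat_lit 0) (nat_lit 4109981524) (nat_lit 456) (nat_lit 933503322) (nat_lit 532) (nat_lit 1587203411) (nat_lit 414) (nat_lit 5) (nat_lit 420) (nat_lit 5)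 (nat_lit 421) (nat_lit 5) (nat_lit 405) (nat_lit 403) (nat_lit 392)) (XT.lf (nat_lit 0) (nat_lit 1461148304) (nat_lit 532) (nat_lit 1844584370) (nat_lit 608) (nat_lit 3378817212) (nat_lit 407) (nat_lit 5) (nat_lit 414) (nat_lit 5) (nat_lit 415) (nat_lit 5) (nat_lit 406) (nat_lit 403) (nat_lit 391)))) (XT.nd (nat_lit 78) (nat_lit 532) (nat_lit 0) (XT.lf (nat_lit 76) (nat_lit 4092004022) (nat_lit 0) (nat_lit 1301824259) (nat_lit 608) (nat_lit 1352462591) (nat_lit 408) (nat_lit 5) (nat_lit 407) (nat_lit 5) (nat_lit 415) (nat_lit 5) (nat_lit 407) (nat_lit 403) (nat_lit 390)) (XT.nd (nat_lit 78) (nat_lit 0) (nat_lit 0) (XT.lf (nat_lit 0) (nat_lit 2483164437) (nat_lit 608) (nat_lit 3374620089) (nat_lit 684) (nat_lit 957877508) (nat_lit 400) (nat_lit 5) (nat_lit 408) (nat_lit 5) (nat_lit 409) (nat_lit 5) (nat_lit 408) (nat_lit 403) (nat_lit 389)) (XT.lf (nat_lit 76) (nat_lit 2890889492) (nat_lit 0) (nat_lit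 3433641403) (nat_lit 684) (nat_lit 568356112) (nat_lit 401) (nat_lit 5) (nat_lit 400) (nat_lit 5) (nat_lit 409) (nat_lit 5) (nat_lit 409) (nat_lit 403) (nat_lit 388)))))) (XT.nd (nat_lit 468) (nat_lit 6232) (nat_lit 0) (XT.nd (nat_lit 234) (nat_lit 2812) (nat_lit 0) (XT.nd (nat_lit 78) (nat_lit 1444) (nat_lit 0) (XT.lf (nat_lit 76) (nat_lit 2434321682) (nat_lit 0) (nat_lit 722497929) (nat_lit 760) (nat_lit 3821053385) (nat_lit 392) (nat_lit 5) (nat_lit 391) (nat_lit 5) (nat_lit 401) (nat_lit 5) (nat_lit 410) (nat_lit 403) (nat_lit 387)) (XT.nd (nat_lit 78) (nat_lit 836) (nat_lit 0) (XT.lf (nat_lit 0) (nat_lit 2073775192) (nat_lit 684) (nat_lit 4854896628) (nat_lit 760) (nat_lit 142141972) (nat_lit 383) (nat_lit 5) (nat_lit 392) (nat_lit 5) (nat_lit 393) (nat_lit 5) (nat_lit 411) (nat_lit 403) (nat_lit 386)) (XT.lf (nat_lit 0) (nat_lit 1791232360) (nat_lit 760) (nat_lit 1725289534) (nat_lit 836)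 (nat_lit 3654790934) (nat_lit 372) (nat_lit 5) (nat_lit 382) (nat_lit 5) (nat_lit 383) (nat_lit 5) (nat_lit 412) (nat_lit 403) (nat_lit 385)))) (XT.nd (nat_lit 78) (nat_lit 1976) (nat_lit 0) (XT.lf (nat_lit 0) (nat_lit 1610350198) (nat_lit 836) (nat_lit 5632708793) (nat_lit 912) (nat_lit 37133992) (nat_lit 361) (nat_lit 5) (nat_lit 372) (nat_lit 5) (nat_lit 373) (nat_lit 5) (nat_lit 413) (nat_lit 403) (nat_lit 384)) (XT.nd (nat_lit 78) (nat_lit 988) (nat_lit 0) (XT.lf (nat_lit 0) (nat_lit 1493298325) (nat_lit 912) (nat_lit 2093792211) (nat_lit 988) (nat_lit 3809401557) (nat_lit 348) (nat_lit 5) (nat_lit 360) (nat_lit 5) (nat_lit 361) (nat_lit 5) (nat_lit 414) (nat_lit 403) (nat_lit 383)) (XT.lf (nat_lit 0) (nat_lit 1475431929) (nat_lit 988) (nat_lit 5824327193) (nat_lit 1064) (nat_lit 221626608) (nat_lit 335) (nat_lit 5) (nat_lit 348) (nat_lit 5) (nat_lit 349) (nat_lit 5) (nat_lit 415) (nat_lit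 403) (nat_lit 382))))) (XT.nd (nat_lit 234) (nat_lit 2660) (nat_lit 0) (XT.nd (nat_lit 78) (nat_lit 2432) (nat_lit 0) (XT.lf (nat_lit 0) (nat_lit 1517269377) (nat_lit 1064) (nat_lit 1880874244) (nat_lit 1140) (nat_lit 4255732507) (nat_lit 320) (nat_lit 5) (nat_lit 334) (nat_lit 5) (nat_lit 335) (nat_lit 5) (nat_lit 416) (nat_lit 403) (nat_lit 381)) (XT.nd (nat_lit 78) (nat_lit 1292) (nat_lit 0) (XT.lf (nat_lit 0) (nat_lit 1648380621) (nat_lit 1140) (nat_lit 5478231160) (nat_lit 1216) (nat_lit 668371616) (nat_lit 305) (nat_lit 5) (nat_lit 320) (nat_lit 5) (nat_lit 321) (nat_lit 5) (nat_lit 417) (nat_lit 403) (nat_lit 380)) (XT.lf (nat_lit 0) (nat_lit 1844230574) (nat_lit 1216) (nat_lit 1130957783) (nat_lit 1292) (nat_lit 4968970375) (nat_lit 288) (nat_lit 5) (nat_lit 304) (nat_lit 5) (nat_lit 305) (nat_lit 5) (nat_lit 418) (nat_lit 403) (nat_lit 379)))) (XT.nd (nat_lit 156) (nat_lit 1216) (nat_lit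 0) (XT.nd (nat_lit 78) (nat_lit 684) (nat_lit 0) (XT.lf (nat_lit 0) (nat_lit 2112571531) (nat_lit 760) (nat_lit 4635099634) (nat_lit 836) (nat_lit 1354129859) (nat_lit 278) (nat_lit 5) (nat_lit 288) (nat_lit 5) (nat_lit 289) (nat_lit 5) (nat_lit 419) (nat_lit 403) (nat_lit 378)) (XT.lf (nat_lit 0) (nat_lit 2341176711) (nat_lit 684) (nat_lit 5810308481) (nat_lit 76) (nat_lit 116737169) (nat_lit 269) (nat_lit 5) (nat_lit 278) (nat_lit 5) (nat_lit 270) (nat_lit 5) (nat_lit 420) (nat_lit 403) (nat_lit 377))) (XT.nd (nat_lit 78) (nat_lit 608) (nat_lit 0) (XT.lf (nat_lit 0) (nat_lit 2854914359) (nat_lit 608) (nat_lit 3328667730) (nat_lit 684) (nat_lit 2259291204) (nat_lit 261) (nat_lit 5) (nat_lit 269) (nat_lit 5) (nat_lit 270) (nat_lit 5) (nat_lit 421) (nat_lit 403) (nat_lit 376)) (XT.lf (nat_lit 0) (nat_lit 1528807642) (nat_lit 608) (nat_lit 5294858619) (nat_lit 76) (nat_lit 1803110211) (nat_lit 253)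 (nat_lit 5) (nat_lit 261) (nat_lit 5) (nat_lit 254) (nat_lit 5) (nat_lit 422) (nat_lit 403) (nat_lit 375))))))) (XT.nd (nat_lit 1014) (nat_lit 4028) (nat_lit 0) (XT.nd (nat_lit 468) (nat_lit 3268) (nat_lit 0) (XT.nd (nat_lit 234) (nat_lit 1444) (nat_lit 0) (XT.nd (nat_lit 78) (nat_lit 1140) (nat_lit 0) (XT.lf (nat_lit 0) (nat_lit 3865409863) (nat_lit 532) (nat_lit 1586485670) (nat_lit 608) (nat_lit 3367557327) (nat_lit 246) (nat_lit 5) (nat_lit 253) (nat_lit 5) (nat_lit 254) (nat_lit 5) (nat_lit 423) (nat_lit 403) (nat_lit 374)) (XT.nd (nat_lit 78) (nat_lit 532) (nat_lit 0) (XT.lf (nat_lit 0) (nat_lit 542367226) (nat_lit 608) (nat_lit 4552634889) (nat_lit 76) (nat_lit 3926508169) (nat_lit 238) (nat_lit 5) (nat_lit 246) (nat_lit 5) (nat_lit 239) (nat_lit 5) (nat_lit 424) (nat_lit 403) (nat_lit 373)) (XT.lf (nat_lit 0) (nat_lit 4572801444) (nat_lit 608) (nat_lit 4101750451) (nat_lit 76) (nat_lit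 558294850) (nat_lit 231) (nat_lit 5) (nat_lit 239) (nat_lit 5) (nat_lit 232) (nat_lit 5) (nat_lit 425) (nat_lit 403) (nat_lit 372)))) (XT.nd (nat_lit 78) (nat_lit 988) (nat_lit 0) (XT.lf (nat_lit 0) (nat_lit 5856567513) (nat_lit 456) (nat_lit 2979436700) (nat_lit 532) (nat_lit 617823856) (nat_lit 225) (nat_lit 5) (nat_lit 231) (nat_lit 5) (nat_lit 232) (nat_lit 5) (nat_lit 426) (nat_lit 403) (nat_lit 371)) (XT.nd (nat_lit 78) (nat_lit 456) (nat_lit 0) (XT.lf (nat_lit 0) (nat_lit 3571977032) (nat_lit 532) (nat_lit 3051409631) (nat_lit 76) (nat_lit 3060953232) (nat_lit 218) (nat_lit 5) (nat_lit 225) (nat_lit 5) (nat_lit 219) (nat_lit 5) (nat_lit 427) (nat_lit 403) (nat_lit 370)) (XT.lf (nat_lit 0) (nat_lit 7490070537) (nat_lit 456) (nat_lit 491681613) (nat_lit 532) (nat_lit 1943757402) (nat_lit 212) (nat_lit 5) (nat_lit 218) (nat_lit 5) (nat_lit 219) (nat_lit 5) (nat_lit 428) (nat_lit 403) (nat_lit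 369))))) (XT.nd (nat_lit 234) (nat_lit 1824) (nat_lit 0) (XT.nd (nat_lit 78) (nat_lit 912) (nat_lit 0) (XT.lf (nat_lit 0) (nat_lit 2443664877) (nat_lit 532) (nat_lit 1792725657) (nat_lit 76) (nat_lit 5939921972) (nat_lit 205) (nat_lit 5) (nat_lit 212) (nat_lit 5) (nat_lit 206) (nat_lit 5) (nat_lit 429) (nat_lit 403) (nat_lit 368)) (XT.nd (nat_lit 78) (nat_lit 532) (nat_lit 0) (XT.lf (nat_lit 0) (nat_lit 7044144320) (nat_lit 456) (nat_lit 1088761203) (nat_lit 76) (nat_lit 2305168131) (nat_lit 200) (nat_lit 5) (nat_lit 206) (nat_lit 5) (nat_lit 201) (nat_lit 5) (nat_lit 430) (nat_lit 403) (nat_lit 367)) (XT.lf (nat_lit 0) (nat_lit 1195028229) (nat_lit 532) (nat_lit 329428247) (nat_lit 76) (nat_lit 9186463259) (nat_lit 193) (nat_lit 5) (nat_lit 200) (nat_lit 5) (nat_lit 194) (nat_lit 5) (nat_lit 431) (nat_lit 403) (nat_lit 366)))) (XT.nd (nat_lit 156) (nat_lit 760) (nat_lit 0) (XT.nd (nat_lit 78)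 (nat_lit 304) (nat_lit 0) (XT.lf (nat_lit 0) (nat_lit 463070552) (nat_lit 380) (nat_lit 5557271057) (nat_lit 456) (nat_lit 4973755973) (nat_lit 183) (nat_lit 5) (nat_lit 188) (nat_lit 5) (nat_lit 189) (nat_lit 5) (nat_lit 432) (nat_lit 403) (nat_lit 365)) (XT.lf (nat_lit 0) (nat_lit 1345692527) (nat_lit 304) (nat_lit 9799820286) (nat_lit 380) (nat_lit 144173791) (nat_lit 179) (nat_lit 5) (nat_lit 183) (nat_lit 5) (nat_lit 184) (nat_lit 5) (nat_lit 433) (nat_lit 403) (nat_lit 364))) (XT.nd (nat_lit 78) (nat_lit 304) (nat_lit 0) (XT.lf (nat_lit 0) (nat_lit 2238738919) (nat_lit 380) (nat_lit 2680060260) (nat_lit 456) (nat_lit 6677202786) (nat_lit 173) (nat_lit 5) (nat_lit 178) (nat_lit 5) (nat_lit 179) (nat_lit 5) (nat_lit 434) (nat_lit 403) (nat_lit 363)) (XT.lf (nat_lit 0) (nat_lit 3199294269) (nat_lit 304) (nat_lit 7116886566) (nat_lit 380) (nat_lit 1598891031) (nat_lit 169) (nat_lit 5) (nat_lit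 173) (nat_lit 5) (nat_lit 174) (nat_lit 5) (nat_lit 435) (nat_lit 403) (nat_lit 362)))))) (XT.nd (nat_lit 468) (nat_lit 2052) (nat_lit 0) (XT.nd (nat_lit 234) (nat_lit 912) (nat_lit 0) (XT.nd (nat_lit 78) (nat_lit 684) (nat_lit 0) (XT.lf (nat_lit 0) (nat_lit 3736295834) (nat_lit 380) (nat_lit 8037494631) (nat_lit 76) (nat_lit 472962052) (nat_lit 164) (nat_lit 5) (nat_lit 169) (nat_lit 5) (nat_lit 165) (nat_lit 5) (nat_lit 436) (nat_lit 403) (nat_lit 361)) (XT.nd (nat_lit 78) (nat_lit 380) (nat_lit 0) (XT.lf (nat_lit 0) (nat_lit 5249195224) (nat_lit 304) (nat_lit 4178308059) (nat_lit 380) (nat_lit 3163376926) (nat_lit 160) (nat_lit 5) (nat_lit 164) (nat_lit 5) (nat_lit 165) (nat_lit 5) (nat_lit 437) (nat_lit 403) (nat_lit 360)) (XT.lf (nat_lit 0) (nat_lit 2497230748) (nat_lit 380) (nat_lit 6601530101) (nat_lit 76) (nat_lit 3849933723) (nat_lit 155) (nat_lit 5) (nat_lit 160) (nat_lit 5) (nat_lit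 156) (nat_lit 5) (nat_lit 438) (nat_lit 403) (nat_lit 359)))) (XT.nd (nat_lit 78) (nat_lit 608) (nat_lit 0) (XT.lf (nat_lit 0) (nat_lit 7492089891) (nat_lit 304) (nat_lit 988363067) (nat_lit 380) (nat_lit 4839863708) (nat_lit 151) (nat_lit 5) (nat_lit 155) (nat_lit 5) (nat_lit 156) (nat_lit 5) (nat_lit 439) (nat_lit 403) (nat_lit 358)) (XT.nd (nat_lit 78) (nat_lit 228) (nat_lit 0) (XT.lf (nat_lit 0) (nat_lit 1174002429) (nat_lit 380) (nat_lit 5030793521) (nat_lit 76) (nat_lit 7501160178) (nat_lit 146) (nat_lit 5) (nat_lit 151) (nat_lit 5) (nat_lit 147) (nat_lit 5) (nat_lit 440) (nat_lit 403) (nat_lit 357)) (XT.lf (nat_lit 0) (nat_lit 7497208885) (nat_lit 304) (nat_lit 4207032387) (nat_lit 76) (nat_lit 2401942464) (nat_lit 143) (nat_lit 5) (nat_lit 147) (nat_lit 5) (nat_lit 144) (nat_lit 5) (nat_lit 441) (nat_lit 403) (nat_lit 356))))) (XT.nd (nat_lit 234) (nat_lit 1216) (nat_lit 0) (XT.nd (nat_lit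 78) (nat_lit 532) (nat_lit 0) (XT.lf (nat_lit 0) (nat_lit 11185430994) (nat_lit 304) (nat_lit 3094173573) (nat_lit 380) (nat_lit 242533046) (nat_lit 139) (nat_lit 5) (nat_lit 143) (nat_lit 5) (nat_lit 144) (nat_lit 5) (nat_lit 442) (nat_lit 403) (nat_lit 355)) (XT.nd (nat_lit 78) (nat_lit 228) (nat_lit 0) (XT.lf (nat_lit 0) (nat_lit 6462148719) (nat_lit 304) (nat_lit 2476774782) (nat_lit 76) (nat_lit 6013744331) (nat_lit 135) (nat_lit 5) (nat_lit 139) (nat_lit 5) (nat_lit 136) (nat_lit 5) (nat_lit 443) (nat_lit 403) (nat_lit 354)) (XT.lf (nat_lit 0) (nat_lit 13623074321) (nat_lit 304) (nat_lit 1543436402) (nat_lit 76) (nat_lit 234366094) (nat_lit 132) (nat_lit 5) (nat_lit 136) (nat_lit 5) (nat_lit 133) (nat_lit 5) (nat_lit 444) (nat_lit 403) (nat_lit 353)))) (XT.nd (nat_lit 156) (nat_lit 456) (nat_lit 0) (XT.nd (nat_lit 78) (nat_lit 456) (nat_lit 0) (XT.lf (nat_lit 0) (nat_lit 5358950661) (nat_lit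 304) (nat_lit 641386820) (nat_lit 76) (nat_lit 9863906100) (nat_lit 128) (nat_lit 5) (nat_lit 132) (nat_lit 5) (nat_lit 129) (nat_lit 5) (nat_lit 445) (nat_lit 403) (nat_lit 352)) (XT.lf (nat_lit 0) (nat_lit 321992557) (nat_lit 228) (nat_lit 12638327807) (nat_lit 304) (nat_lit 3385598324) (nat_lit 122) (nat_lit 5) (nat_lit 125) (nat_lit 5) (nat_lit 126) (nat_lit 5) (nat_lit 446) (nat_lit 403) (nat_lit 351))) (XT.nd (nat_lit 78) (nat_lit 152) (nat_lit 0) (XT.lf (nat_lit 0) (nat_lit 1307160788) (nat_lit 228) (nat_lit 2882953737) (nat_lit 304) (nat_lit 12654992287) (nat_lit 118) (nat_lit 5) (nat_lit 121) (nat_lit 5) (nat_lit 122) (nat_lit 5) (nat_lit 447) (nat_lit 403) (nat_lit 350)) (XT.lf (nat_lit 0) (nat_lit 2295328928) (nat_lit 152) (nat_lit 9969414135) (nat_lit 228) (nat_lit 5097805103) (nat_lit 116) (nat_lit 5) (nat_lit 118) (nat_lit 5) (nat_lit 119) (nat_lit 5) (nat_lit 448) (nat_lit 403) (nat_lit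 349))))))))
noncomputable def xc54 : XT := (XT.nd (nat_lit 1950) (nat_lit 2128) (nat_lit 0) (XT.nd (nat_lit 936) (nat_lit 1976) (nat_lit 0) (XT.nd (nat_lit 468) (nat_lit 1140) (nat_lit 0) (XT.nd (nat_lit 234) (nat_lit 532) (nat_lit 0) (XT.nd (nat_lit 78) (nat_lit 456) (nat_lit 0) (XT.lf (nat_lit 0) (nat_lit 2940044683) (nat_lit 304) (nat_lit 14569457034) (nat_lit 76) (nat_lit 390800263) (nat_lit 112) (nat_lit 5) (nat_lit 116) (nat_lit 5) (nat_lit 113) (nat_lit 5) (nat_lit 449) (nat_lit 403) (nat_lit 348)) (XT.nd (nat_lit 78) (nat_lit 304) (nat_lit 0) (XT.lf (nat_lit 0) (nat_lit 4319623919) (nat_lit 152) (nat_lit 7187868322) (nat_lit 228) (nat_lit 6948946433) (nat_lit 110) (nat_lit 5) (nat_lit 112) (nat_lit 5) (nat_lit 113) (nat_lit 5) (nat_lit 450) (nat_lit 403) (nat_lit 347)) (XT.lf (nat_lit 0) (nat_lit 1609361560) (nat_lit 304) (nat_lit 13673514492) (nat_lit 76) (nat_lit 3751838114) (nat_lit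 106) (nat_lit 5) (nat_lit 110) (nat_lit 5) (nat_lit 107) (nat_lit 5) (nat_lit 451) (nat_lit 403) (nat_lit 346)))) (XT.nd (nat_lit 78) (nat_lit 380) (nat_lit 0) (XT.lf (nat_lit 0) (nat_lit 6361313287) (nat_lit 152) (nat_lit 4308999185) (nat_lit 228) (nat_lit 8962976692) (nat_lit 104) (nat_lit 5) (nat_lit 106) (nat_lit 5) (nat_lit 107) (nat_lit 5) (nat_lit 452) (nat_lit 403) (nat_lit 345)) (XT.nd (nat_lit 78) (nat_lit 152) (nat_lit 0) (XT.lf (nat_lit 0) (nat_lit 146738511) (nat_lit 228) (nat_lit 12866009677) (nat_lit 76) (nat_lit 7242388629) (nat_lit 101) (nat_lit 5) (nat_lit 104) (nat_lit 5) (nat_lit 102) (nat_lit 5) (nat_lit 453) (nat_lit 403) (nat_lit 344)) (XT.lf (nat_lit 0) (nat_lit 8377813811) (nat_lit 152) (nat_lit 1351812582) (nat_lit 228) (nat_lit 11169699222) (nat_lit 99) (nat_lit 5) (nat_lit 101) (nat_lit 5) (nat_lit 102) (nat_lit 5) (nat_lit 454) (nat_lit 403) (nat_lit 343))))) (XT.nd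 (nat_lit 234) (nat_lit 608) (nat_lit 0) (XT.nd (nat_lit 78) (nat_lit 380) (nat_lit 0) (XT.lf (nat_lit 0) (nat_lit 9352145922) (nat_lit 152) (nat_lit 10708656163) (nat_lit 228) (nat_lit 1506850021) (nat_lit 97) (nat_lit 5) (nat_lit 99) (nat_lit 5) (nat_lit 100) (nat_lit 5) (nat_lit 455) (nat_lit 403) (nat_lit 342)) (XT.nd (nat_lit 78) (nat_lit 152) (nat_lit 0) (XT.lf (nat_lit 0) (nat_lit 8671548202) (nat_lit 228) (nat_lit 11961774180) (nat_lit 76) (nat_lit 1627553940) (nat_lit 94) (nat_lit 5) (nat_lit 97) (nat_lit 5) (nat_lit 95) (nat_lit 5) (nat_lit 456) (nat_lit 403) (nat_lit 341)) (XT.lf (nat_lit 0) (nat_lit 11202064243) (nat_lit 152) (nat_lit 8412108227) (nat_lit 228) (nat_lit 3365549847) (nat_lit 92) (nat_lit 5) (nat_lit 94) (nat_lit 5) (nat_lit 95) (nat_lit 5) (nat_lit 457) (nat_lit 403) (nat_lit 340)))) (XT.nd (nat_lit 78) (nat_lit 380) (nat_lit 0) (XT.lf (nat_lit 0) (nat_lit 7456120976)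 (nat_lit 228) (nat_lit 11664423466) (nat_lit 76) (nat_lit 4604927845) (nat_lit 89) (nat_lit 5) (nat_lit 92) (nat_lit 5) (nat_lit 90) (nat_lit 5) (nat_lit 458) (nat_lit 403) (nat_lit 339)) (XT.nd (nat_lit 78) (nat_lit 228) (nat_lit 0) (XT.lf (nat_lit 0) (nat_lit 12865688043) (nat_lit 152) (nat_lit 6161157369) (nat_lit 228) (nat_lit 5472339412) (nat_lit 87) (nat_lit 5) (nat_lit 89) (nat_lit 5) (nat_lit 90) (nat_lit 5) (nat_lit 459) (nat_lit 403) (nat_lit 338)) (XT.lf (nat_lit 0) (nat_lit 6024026221) (nat_lit 228) (nat_lit 11707309552) (nat_lit 76) (nat_lit 7570339613) (nat_lit 84) (nat_lit 5) (nat_lit 87) (nat_lit 5) (nat_lit 85) (nat_lit 5) (nat_lit 460) (nat_lit 403) (nat_lit 337)))))) (XT.nd (nat_lit 468) (nat_lit 1140) (nat_lit 0) (XT.nd (nat_lit 234) (nat_lit 380) (nat_lit 0) (XT.nd (nat_lit 78) (nat_lit 304) (nat_lit 0) (XT.lf (nat_lit 0) (nat_lit 14250667315) (nat_lit 152) (nat_lit 4000792650)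 (nat_lit 228) (nat_lit 7883124021) (nat_lit 82) (nat_lit 5) (nat_lit 84) (nat_lit 5) (nat_lit 85) (nat_lit 5) (nat_lit 461) (nat_lit 403) (nat_lit 336)) (XT.nd (nat_lit 78) (nat_lit 152) (nat_lit 0) (XT.lf (nat_lit 0) (nat_lit 4318526479) (nat_lit 152) (nat_lit 12201339845) (nat_lit 76) (nat_lit 10478585301) (nat_lit 80) (nat_lit 5) (nat_lit 82) (nat_lit 5) (nat_lit 81) (nat_lit 5) (nat_lit 462) (nat_lit 403) (nat_lit 335)) (XT.lf (nat_lit 0) (nat_lit 15243445798) (nat_lit 152) (nat_lit 1986235220) (nat_lit 228) (nat_lit 10665617944) (nat_lit 78) (nat_lit 5) (nat_lit 80) (nat_lit 5) (nat_lit 81) (nat_lit 5) (nat_lit 463) (nat_lit 403) (nat_lit 334)))) (XT.nd (nat_lit 78) (nat_lit 228) (nat_lit 0) (XT.lf (nat_lit 0) (nat_lit 2270565453) (nat_lit 152) (nat_lit 13281391039) (nat_lit 76) (nat_lit 13273695406) (nat_lit 76) (nat_lit 5) (nat_lit 78) (nat_lit 5) (nat_lit 77) (nat_lit 5) (nat_lit 464) (nat_lit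 403) (nat_lit 333)) (XT.nd (nat_lit 78) (nat_lit 76) (nat_lit 0) (XT.lf (nat_lit 0) (nat_lit 15705098153) (nat_lit 152) (nat_lit 185066706) (nat_lit 228) (nat_lit 13901475323) (nat_lit 74) (nat_lit 5) (nat_lit 76) (nat_lit 5) (nat_lit 77) (nat_lit 5) (nat_lit 465) (nat_lit 403) (nat_lit 332)) (XT.lf (nat_lit 0) (nat_lit 15681152150) (nat_lit 76) (nat_lit 14905369399) (nat_lit 152) (nat_lit 207534302) (nat_lit 73) (nat_lit 5) (nat_lit 74) (nat_lit 5) (nat_lit 75) (nat_lit 4) (nat_lit 466) (nat_lit 403) (nat_lit 331))))) (XT.nd (nat_lit 234) (nat_lit 608) (nat_lit 0) (XT.nd (nat_lit 78) (nat_lit 304) (nat_lit 0) (XT.lf (nat_lit 0) (nat_lit 14158845197) (nat_lit 228) (nat_lit 16381225358) (nat_lit 76) (nat_lit 1294508180) (nat_lit 70) (nat_lit 5) (nat_lit 73) (nat_lit 5) (nat_lit 71) (nat_lit 4) (nat_lit 467) (nat_lit 403) (nat_lit 330)) (XT.nd (nat_lit 78) (nat_lit 228) (nat_lit 0) (XT.lf (nat_lit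 0) (nat_lit 14996108518) (nat_lit 76) (nat_lit 14650481319) (nat_lit 152) (nat_lit 3268257267) (nat_lit 69) (nat_lit 5) (nat_lit 70) (nat_lit 5) (nat_lit 71) (nat_lit 4) (nat_lit 468) (nat_lit 403) (nat_lit 329)) (XT.lf (nat_lit 0) (nat_lit 11915991417) (nat_lit 228) (nat_lit 19738951697) (nat_lit 76) (nat_lit 2382132118) (nat_lit 66) (nat_lit 5) (nat_lit 69) (nat_lit 5) (nat_lit 67) (nat_lit 4) (nat_lit 469) (nat_lit 403) (nat_lit 328)))) (XT.nd (nat_lit 156) (nat_lit 304) (nat_lit 0) (XT.nd (nat_lit 78) (nat_lit 228) (nat_lit 0) (XT.lf (nat_lit 0) (nat_lit 13286238922) (nat_lit 76) (nat_lit 14925556538) (nat_lit 152) (nat_lit 6990051472) (nat_lit 65) (nat_lit 5) (nat_lit 66) (nat_lit 5) (nat_lit 67) (nat_lit 4) (nat_lit 470) (nat_lit 403) (nat_lit 327)) (XT.lf (nat_lit 0) (nat_lit 9032043362) (nat_lit 228) (nat_lit 24418703932) (nat_lit 76) (nat_lit 2962300978) (nat_lit 62) (nat_lit 5) (nat_lit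 65) (nat_lit 5) (nat_lit 63) (nat_lit 4) (nat_lit 471) (nat_lit 403) (nat_lit 326))) (XT.nd (nat_lit 78) (nat_lit 228) (nat_lit 0) (XT.lf (nat_lit 0) (nat_lit 10279028242) (nat_lit 76) (nat_lit 15869479436) (nat_lit 152) (nat_lit 11521091736) (nat_lit 61) (nat_lit 5) (nat_lit 62) (nat_lit 5) (nat_lit 63) (nat_lit 4) (nat_lit 472) (nat_lit 403) (nat_lit 325)) (XT.lf (nat_lit 0) (nat_lit 5353428905) (nat_lit 228) (nat_lit 30733329754) (nat_lit 76) (nat_lit 2891087802) (nat_lit 58) (nat_lit 5) (nat_lit 61) (nat_lit 5) (nat_lit 59) (nat_lit 4) (nat_lit 473) (nat_lit 403) (nat_lit 324))))))) (XT.nd (nat_lit 1014) (nat_lit 912) (nat_lit 0) (XT.nd (nat_lit 468) (nat_lit 684) (nat_lit 0) (XT.nd (nat_lit 234) (nat_lit 304) (nat_lit 0) (XT.nd (nat_lit 78) (nat_lit 152) (nat_lit 0) (XT.lf (nat_lit 0) (nat_lit 5646585501) (nat_lit 76) (nat_lit 17649105745) (nat_lit 152) (nat_lit 17038524597) (nat_lit 57) (nat_lit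 5) (nat_lit 58) (nat_lit 5) (nat_lit 59) (nat_lit 4) (nat_lit 474) (nat_lit 403) (nat_lit 323)) (XT.nd (nat_lit 78) (nat_lit 0) (nat_lit 0) (XT.lf (nat_lit 0) (nat_lit 696094573) (nat_lit 152) (nat_lit 39057319521) (nat_lit 76) (nat_lit 1995078246) (nat_lit 55) (nat_lit 5) (nat_lit 57) (nat_lit 5) (nat_lit 56) (nat_lit 4) (nat_lit 475) (nat_lit 403) (nat_lit 322)) (XT.lf (nat_lit 0) (nat_lit 19469550699) (nat_lit 152) (nat_lit 984961813) (nat_lit 76) (nat_lit 22758775221) (nat_lit 55) (nat_lit 5) (nat_lit 57) (nat_lit 5) (nat_lit 56) (nat_lit 4) (nat_lit 476) (nat_lit 403) (nat_lit 321)))) (XT.nd (nat_lit 78) (nat_lit 228) (nat_lit 0) (XT.lf (nat_lit 0) (nat_lit 39529145851) (nat_lit 152) (nat_lit 5045821399) (nat_lit 0) (nat_lit 165932308) (nat_lit 54) (nat_lit 5) (nat_lit 56) (nat_lit 4) (nat_lit 54) (nat_lit 4) (nat_lit 477) (nat_lit 403) (nat_lit 320)) (XT.nd (nat_lit 78) (nat_lit 76) (nat_lit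 0) (XT.lf (nat_lit 0) (nat_lit 14506875169) (nat_lit 152) (nat_lit 9947507263) (nat_lit 76) (nat_lit 21870260067) (nat_lit 52) (nat_lit 5) (nat_lit 54) (nat_lit 5) (nat_lit 53) (nat_lit 4) (nat_lit 478) (nat_lit 403) (nat_lit 319)) (XT.lf (nat_lit 0) (nat_lit 32505461132) (nat_lit 76) (nat_lit 2929805841) (nat_lit 152) (nat_lit 12540809584) (nat_lit 51) (nat_lit 5) (nat_lit 52) (nat_lit 5) (nat_lit 53) (nat_lit 4) (nat_lit 479) (nat_lit 403) (nat_lit 318))))) (XT.nd (nat_lit 234) (nat_lit 380) (nat_lit 0) (XT.nd (nat_lit 78) (nat_lit 152) (nat_lit 0) (XT.lf (nat_lit 0) (nat_lit 8081781003) (nat_lit 152) (nat_lit 21903003825) (nat_lit 76) (nat_lit 19707116319) (nat_lit 49) (nat_lit 5) (nat_lit 51) (nat_lit 5) (nat_lit 50) (nat_lit 4) (nat_lit 480) (nat_lit 403) (nat_lit 317)) (XT.nd (nat_lit 78) (nat_lit 76) (nat_lit 0) (XT.lf (nat_lit 0) (nat_lit 22258585019) (nat_lit 76) (nat_lit 7591410332) (nat_lit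 152) (nat_lit 21628581403) (nat_lit 48) (nat_lit 5) (nat_lit 49) (nat_lit 5) (nat_lit 50) (nat_lit 4) (nat_lit 481) (nat_lit 403) (nat_lit 316)) (XT.lf (nat_lit 0) (nat_lit 15828931714) (nat_lit 76) (nat_lit 37378358147) (nat_lit 76) (nat_lit 132276679) (nat_lit 47) (nat_lit 4) (nat_lit 48) (nat_lit 5) (nat_lit 48) (nat_lit 4) (nat_lit 482) (nat_lit 403) (nat_lit 315)))) (XT.nd (nat_lit 156) (nat_lit 228) (nat_lit 0) (XT.nd (nat_lit 78) (nat_lit 0) (nat_lit 0) (XT.lf (nat_lit 0) (nat_lit 8260593548) (nat_lit 76) (nat_lit 14168584771) (nat_lit 152) (nat_lit 32845111133) (nat_lit 45) (nat_lit 5) (nat_lit 46) (nat_lit 5) (nat_lit 47) (nat_lit 4) (nat_lit 483) (nat_lit 403) (nat_lit 314)) (XT.lf (nat_lit 0) (nat_lit 46573069028) (nat_lit 152) (nat_lit 353650891) (nat_lit 0) (nat_lit 10365276763) (nat_lit 45) (nat_lit 5) (nat_lit 47) (nat_lit 4) (nat_lit 45) (nat_lit 4) (nat_lit 484) (nat_lit 403) (nat_lit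 313))) (XT.nd (nat_lit 78) (nat_lit 76) (nat_lit 0) (XT.lf (nat_lit 0) (nat_lit 12863622960) (nat_lit 152) (nat_lit 10116262797) (nat_lit 76) (nat_lit 36409267984) (nat_lit 43) (nat_lit 5) (nat_lit 45) (nat_lit 5) (nat_lit 44) (nat_lit 4) (nat_lit 485) (nat_lit 403) (nat_lit 312)) (XT.lf (nat_lit 0) (nat_lit 37794502362) (nat_lit 152) (nat_lit 21181441079) (nat_lit 0) (nat_lit 2600315193) (nat_lit 42) (nat_lit 5) (nat_lit 44) (nat_lit 4) (nat_lit 42) (nat_lit 4) (nat_lit 486) (nat_lit 403) (nat_lit 311)))))) (XT.nd (nat_lit 468) (nat_lit 380) (nat_lit 0) (XT.nd (nat_lit 234) (nat_lit 228) (nat_lit 0) (XT.nd (nat_lit 78) (nat_lit 152) (nat_lit 0) (XT.lf (nat_lit 0) (nat_lit 701059321) (nat_lit 152) (nat_lit 33790080087) (nat_lit 76) (nat_lit 29363437450) (nat_lit 40) (nat_lit 5) (nat_lit 42) (nat_lit 5) (nat_lit 41) (nat_lit 4) (nat_lit 487) (nat_lit 403) (nat_lit 310)) (XT.nd (nat_lit 78) (nat_lit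 76) (nat_lit 0) (XT.lf (nat_lit 0) (nat_lit 18132248448) (nat_lit 76) (nat_lit 8155246859) (nat_lit 152) (nat_lit 39941112441) (nat_lit 39) (nat_lit 5) (nat_lit 40) (nat_lit 5) (nat_lit 41) (nat_lit 4) (nat_lit 488) (nat_lit 403) (nat_lit 309)) (XT.lf (nat_lit 0) (nat_lit 4489164117) (nat_lit 76) (nat_lit 49218758391) (nat_lit 76) (nat_lit 14996777906) (nat_lit 38) (nat_lit 4) (nat_lit 39) (nat_lit 5) (nat_lit 39) (nat_lit 4) (nat_lit 489) (nat_lit 403) (nat_lit 308)))) (XT.nd (nat_lit 78) (nat_lit 152) (nat_lit 0) (XT.lf (nat_lit 0) (nat_lit 11531993804) (nat_lit 152) (nat_lit 10828004280) (nat_lit 76) (nat_lit 48924701462) (nat_lit 37) (nat_lit 5) (nat_lit 39) (nat_lit 5) (nat_lit 38) (nat_lit 4) (nat_lit 490) (nat_lit 403) (nat_lit 307)) (XT.nd (nat_lit 78) (nat_lit 76) (nat_lit 0) (XT.lf (nat_lit 0) (nat_lit 39557780194) (nat_lit 152) (nat_lit 28114759525) (nat_lit 0) (nat_lit 6302282729) (nat_lit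 36) (nat_lit 5) (nat_lit 38) (nat_lit 4) (nat_lit 36) (nat_lit 4) (nat_lit 491) (nat_lit 403) (nat_lit 306)) (XT.lf (nat_lit 0) (nat_lit 29104801526) (nat_lit 76) (nat_lit 40473208749) (nat_lit 76) (nat_lit 7203646851) (nat_lit 35) (nat_lit 4) (nat_lit 36) (nat_lit 5) (nat_lit 36) (nat_lit 4) (nat_lit 492) (nat_lit 403) (nat_lit 305))))) (XT.nd (nat_lit 234) (nat_lit 152) (nat_lit 0) (XT.nd (nat_lit 78) (nat_lit 76) (nat_lit 0) (XT.lf (nat_lit 0) (nat_lit 9991251185) (nat_lit 76) (nat_lit 11326092549) (nat_lit 152) (nat_lit 58394409103) (nat_lit 33) (nat_lit 5) (nat_lit 34) (nat_lit 5) (nat_lit 35) (nat_lit 4) (nat_lit 493) (nat_lit 403) (nat_lit 304)) (XT.nd (nat_lit 78) (nat_lit 76) (nat_lit 0) (XT.lf (nat_lit 0) (nat_lit 51773857418) (nat_lit 152) (nat_lit 11544680737) (nat_lit 0) (nat_lit 19447922029) (nat_lit 33) (nat_lit 5) (nat_lit 35) (nat_lit 4) (nat_lit 33) (nat_lit 4) (nat_lit 494) (nat_lit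 403) (nat_lit 303)) (XT.lf (nat_lit 0) (nat_lit 50363397458) (nat_lit 76) (nat_lit 33965483030) (nat_lit 76) (nat_lit 1627752120) (nat_lit 32) (nat_lit 4) (nat_lit 33) (nat_lit 5) (nat_lit 33) (nat_lit 4) (nat_lit 495) (nat_lit 403) (nat_lit 302)))) (XT.nd (nat_lit 55302) (nat_lit 0) (nat_lit 28576) (XT.nd (nat_lit 78) (nat_lit 0) (nat_lit 0) (XT.lf (nat_lit 0) (nat_lit 26496361494) (nat_lit 76) (nat_lit 2491483940) (nat_lit 152) (nat_lit 60299474061) (nat_lit 30) (nat_lit 5) (nat_lit 31) (nat_lit 5) (nat_lit 32) (nat_lit 4) (nat_lit 496) (nat_lit 403) (nat_lit 301)) (XT.lf (nat_lit 0) (nat_lit 61742759089) (nat_lit 152) (nat_lit 696422382) (nat_lit 0) (nat_lit 30325609940) (nat_lit 30) (nat_lit 5) (nat_lit 32) (nat_lit 4) (nat_lit 30) (nat_lit 4) (nat_lit 497) (nat_lit 403) (nat_lit 300))) (XT.nd (nat_lit 78) (nat_lit 532) (nat_lit 0) (XT.lf (nat_lit 0) (nat_lit 1986428233) (nat_lit 532) (nat_lit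 663482015) (nat_lit 532) (nat_lit 663482015) (nat_lit 413) (nat_lit 3) (nat_lit 420) (nat_lit 3) (nat_lit 420) (nat_lit 5) (nat_lit 404) (nat_lit 404) (nat_lit 392)) (XT.lf (nat_lit 0) (nat_lit 1188644205) (nat_lit 532) (nat_lit 2488130835) (nat_lit 608) (nat_lit 2999992843) (nat_lit 406) (nat_lit 5) (nat_lit 413) (nat_lit 3) (nat_lit 414) (nat_lit 5) (nat_lit 405) (nat_lit 404) (nat_lit 391))))))))
noncomputable def xc55 : XT := (XT.nd (nat_lit 1950) (nat_lit 7904) (nat_lit 0) (XT.nd (nat_lit 936) (nat_lit 9044) (nat_lit 0) (XT.nd (nat_lit 468) (nat_lit 4712) (nat_lit 0) (XT.nd (nat_lit 234) (nat_lit 1368) (nat_lit 0) (XT.nd (nat_lit 78) (nat_lit 532) (nat_lit 0) (XT.lf (nat_lit 76) (nat_lit 3182129922) (nat_lit 0) (nat_lit 1785777365) (nat_lit 608) (nat_lit 1766622267) (nat_lit 407) (nat_lit 5) (nat_lit 406) (nat_lit 5) (nat_lit 414) (nat_lit 5) (nat_lit 406) (nat_lit 404) (nat_lit 390)) (XT.nd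 (nat_lit 78) (nat_lit 0) (nat_lit 0) (XT.lf (nat_lit 0) (nat_lit 1913239720) (nat_lit 608) (nat_lit 4519607013) (nat_lit 684) (nat_lit 367340364) (nat_lit 399) (nat_lit 5) (nat_lit 407) (nat_lit 5) (nat_lit 408) (nat_lit 5) (nat_lit 407) (nat_lit 404) (nat_lit 389)) (XT.lf (nat_lit 76) (nat_lit 1466884147) (nat_lit 0) (nat_lit 4116712189) (nat_lit 684) (nat_lit 1289760148) (nat_lit 400) (nat_lit 5) (nat_lit 399) (nat_lit 5) (nat_lit 408) (nat_lit 5) (nat_lit 408) (nat_lit 404) (nat_lit 388)))) (XT.nd (nat_lit 78) (nat_lit 684) (nat_lit 0) (XT.lf (nat_lit 76) (nat_lit 751235662) (nat_lit 0) (nat_lit 1522676173) (nat_lit 760) (nat_lit 4680541856) (nat_lit 391) (nat_lit 5) (nat_lit 390) (nat_lit 5) (nat_lit 400) (nat_lit 5) (nat_lit 409) (nat_lit 404) (nat_lit 387)) (XT.nd (nat_lit 78) (nat_lit 760) (nat_lit 0) (XT.lf (nat_lit 76) (nat_lit 128726313) (nat_lit 0) (nat_lit 5720439837) (nat_lit 760)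 (nat_lit 1194293814) (nat_lit 392) (nat_lit 5) (nat_lit 391) (nat_lit 5) (nat_lit 401) (nat_lit 5) (nat_lit 410) (nat_lit 404) (nat_lit 386)) (XT.lf (nat_lit 0) (nat_lit 2295460605) (nat_lit 760) (nat_lit 408394660) (nat_lit 836) (nat_lit 4436066993) (nat_lit 381) (nat_lit 5) (nat_lit 391) (nat_lit 5) (nat_lit 392) (nat_lit 5) (nat_lit 411) (nat_lit 404) (nat_lit 385))))) (XT.nd (nat_lit 234) (nat_lit 3116) (nat_lit 0) (XT.nd (nat_lit 78) (nat_lit 1672) (nat_lit 0) (XT.lf (nat_lit 0) (nat_lit 5809633490) (nat_lit 760) (nat_lit 848323330) (nat_lit 76) (nat_lit 586691967) (nat_lit 382) (nat_lit 5) (nat_lit 392) (nat_lit 5) (nat_lit 383) (nat_lit 5) (nat_lit 412) (nat_lit 404) (nat_lit 384)) (XT.nd (nat_lit 78) (nat_lit 836) (nat_lit 0) (XT.lf (nat_lit 0) (nat_lit 2008329655) (nat_lit 836) (nat_lit 1225263431) (nat_lit 76) (nat_lit 4123273737) (nat_lit 371) (nat_lit 5) (nat_lit 382) (nat_lit 5) (nat_lit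 372) (nat_lit 5) (nat_lit 413) (nat_lit 404) (nat_lit 383)) (XT.lf (nat_lit 0) (nat_lit 5486633770) (nat_lit 912) (nat_lit 1512457312) (nat_lit 76) (nat_lit 478434956) (nat_lit 360) (nat_lit 5) (nat_lit 372) (nat_lit 5) (nat_lit 361) (nat_lit 5) (nat_lit 414) (nat_lit 404) (nat_lit 382)))) (XT.nd (nat_lit 78) (nat_lit 2128) (nat_lit 0) (XT.lf (nat_lit 0) (nat_lit 1434803273) (nat_lit 988) (nat_lit 1739209308) (nat_lit 76) (nat_lit 4431887956) (nat_lit 347) (nat_lit 5) (nat_lit 360) (nat_lit 5) (nat_lit 348) (nat_lit 5) (nat_lit 415) (nat_lit 404) (nat_lit 381)) (XT.nd (nat_lit 78) (nat_lit 1140) (nat_lit 0) (XT.lf (nat_lit 0) (nat_lit 4906495459) (nat_lit 1064) (nat_lit 1888764202) (nat_lit 76) (nat_lit 947393118) (nat_lit 334) (nat_lit 5) (nat_lit 348) (nat_lit 5) (nat_lit 335) (nat_lit 5) (nat_lit 416) (nat_lit 404) (nat_lit 380)) (XT.lf (nat_lit 0) (nat_lit 600054101) (nat_lit 1140) (nat_lit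 1971092657) (nat_lit 76) (nat_lit 5316503546) (nat_lit 319) (nat_lit 5) (nat_lit 334) (nat_lit 5) (nat_lit 320) (nat_lit 5) (nat_lit 417) (nat_lit 404) (nat_lit 379)))))) (XT.nd (nat_lit 468) (nat_lit 4028) (nat_lit 0) (XT.nd (nat_lit 234) (nat_lit 1824) (nat_lit 0) (XT.nd (nat_lit 78) (nat_lit 2052) (nat_lit 0) (XT.lf (nat_lit 0) (nat_lit 4092785831) (nat_lit 1216) (nat_lit 1995824084) (nat_lit 76) (nat_lit 1952168142) (nat_lit 304) (nat_lit 5) (nat_lit 320) (nat_lit 5) (nat_lit 305) (nat_lit 5) (nat_lit 418) (nat_lit 404) (nat_lit 378)) (XT.nd (nat_lit 78) (nat_lit 836) (nat_lit 0) (XT.lf (nat_lit 0) (nat_lit 6260207477) (nat_lit 1216) (nat_lit 1458523523) (nat_lit 1292) (nat_lit 484096512) (nat_lit 288) (nat_lit 5) (nat_lit 304) (nat_lit 5) (nat_lit 305) (nat_lit 5) (nat_lit 419) (nat_lit 404) (nat_lit 377)) (XT.lf (nat_lit 0) (nat_lit 3065465231) (nat_lit 836) (nat_lit 1848702275) (nat_lit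 76) (nat_lit 3458703667) (nat_lit 277) (nat_lit 5) (nat_lit 288) (nat_lit 5) (nat_lit 278) (nat_lit 5) (nat_lit 420) (nat_lit 404) (nat_lit 376)))) (XT.nd (nat_lit 78) (nat_lit 1216) (nat_lit 0) (XT.lf (nat_lit 0) (nat_lit 6746865945) (nat_lit 684) (nat_lit 1672218942) (nat_lit 76) (nat_lit 133277075) (nat_lit 269) (nat_lit 5) (nat_lit 278) (nat_lit 5) (nat_lit 270) (nat_lit 5) (nat_lit 421) (nat_lit 404) (nat_lit 375)) (XT.nd (nat_lit 78) (nat_lit 532) (nat_lit 0) (XT.lf (nat_lit 0) (nat_lit 1841216739) (nat_lit 684) (nat_lit 1459391897) (nat_lit 76) (nat_lit 5439510551) (nat_lit 260) (nat_lit 5) (nat_lit 269) (nat_lit 5) (nat_lit 261) (nat_lit 5) (nat_lit 422) (nat_lit 404) (nat_lit 374)) (XT.lf (nat_lit 0) (nat_lit 5617337593) (nat_lit 608) (nat_lit 1181710758) (nat_lit 76) (nat_lit 2138164791) (nat_lit 253) (nat_lit 5) (nat_lit 261) (nat_lit 5) (nat_lit 254) (nat_lit 5) (nat_lit 423) (nat_lit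 404) (nat_lit 373))))) (XT.nd (nat_lit 234) (nat_lit 2356) (nat_lit 0) (XT.nd (nat_lit 78) (nat_lit 1064) (nat_lit 0) (XT.lf (nat_lit 0) (nat_lit 433718515) (nat_lit 608) (nat_lit 837226649) (nat_lit 76) (nat_lit 7872981565) (nat_lit 245) (nat_lit 5) (nat_lit 253) (nat_lit 5) (nat_lit 246) (nat_lit 5) (nat_lit 424) (nat_lit 404) (nat_lit 372)) (XT.nd (nat_lit 78) (nat_lit 532) (nat_lit 0) (XT.lf (nat_lit 0) (nat_lit 4329165220) (nat_lit 608) (nat_lit 465071854) (nat_lit 76) (nat_lit 4565083274) (nat_lit 238) (nat_lit 5) (nat_lit 246) (nat_lit 5) (nat_lit 239) (nat_lit 5) (nat_lit 425) (nat_lit 404) (nat_lit 371)) (XT.lf (nat_lit 0) (nat_lit 8427864645) (nat_lit 608) (nat_lit 11741383) (nat_lit 76) (nat_lit 1145637922) (nat_lit 231) (nat_lit 5) (nat_lit 239) (nat_lit 5) (nat_lit 232) (nat_lit 5) (nat_lit 426) (nat_lit 404) (nat_lit 370)))) (XT.nd (nat_lit 156) (nat_lit 912) (nat_lit 0) (XT.nd (nat_lit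 78) (nat_lit 456) (nat_lit 0) (XT.lf (nat_lit 0) (nat_lit 481128802) (nat_lit 456) (nat_lit 2416294703) (nat_lit 532) (nat_lit 6922860305) (nat_lit 218) (nat_lit 5) (nat_lit 224) (nat_lit 5) (nat_lit 225) (nat_lit 5) (nat_lit 427) (nat_lit 404) (nat_lit 369)) (XT.lf (nat_lit 0) (nat_lit 1032669438) (nat_lit 456) (nat_lit 6135187690) (nat_lit 532) (nat_lit 2897782902) (nat_lit 212) (nat_lit 5) (nat_lit 218) (nat_lit 5) (nat_lit 219) (nat_lit 5) (nat_lit 428) (nat_lit 404) (nat_lit 368))) (XT.nd (nat_lit 78) (nat_lit 380) (nat_lit 0) (XT.lf (nat_lit 0) (nat_lit 1335287802) (nat_lit 532) (nat_lit 8668365809) (nat_lit 76) (nat_lit 318259378) (nat_lit 205) (nat_lit 5) (nat_lit 212) (nat_lit 5) (nat_lit 206) (nat_lit 5) (nat_lit 429) (nat_lit 404) (nat_lit 367)) (XT.lf (nat_lit 0) (nat_lit 2293289463) (nat_lit 380) (nat_lit 3500973124) (nat_lit 456) (nat_lit 4793662254) (nat_lit 200) (nat_lit 5) (nat_lit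 205) (nat_lit 5) (nat_lit 206) (nat_lit 5) (nat_lit 430) (nat_lit 404) (nat_lit 366))))))) (XT.nd (nat_lit 1014) (nat_lit 2964) (nat_lit 0) (XT.nd (nat_lit 468) (nat_lit 2508) (nat_lit 0) (XT.nd (nat_lit 234) (nat_lit 1140) (nat_lit 0) (XT.nd (nat_lit 78) (nat_lit 836) (nat_lit 0) (XT.lf (nat_lit 0) (nat_lit 3012327703) (nat_lit 456) (nat_lit 7514082202) (nat_lit 532) (nat_lit 339331532) (nat_lit 194) (nat_lit 5) (nat_lit 200) (nat_lit 5) (nat_lit 201) (nat_lit 5) (nat_lit 431) (nat_lit 404) (nat_lit 365)) (XT.nd (nat_lit 78) (nat_lit 380) (nat_lit 0) (XT.lf (nat_lit 0) (nat_lit 3767373607) (nat_lit 380) (nat_lit 545235075) (nat_lit 456) (nat_lit 6841813202) (nat_lit 188) (nat_lit 5) (nat_lit 193) (nat_lit 5) (nat_lit 194) (nat_lit 5) (nat_lit 432) (nat_lit 404) (nat_lit 364)) (XT.lf (nat_lit 0) (nat_lit 4567894817) (nat_lit 380) (nat_lit 4717841643) (nat_lit 456) (nat_lit 2168840414) (nat_lit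 183) (nat_lit 5) (nat_lit 188) (nat_lit 5) (nat_lit 189) (nat_lit 5) (nat_lit 433) (nat_lit 404) (nat_lit 363)))) (XT.nd (nat_lit 78) (nat_lit 760) (nat_lit 0) (XT.lf (nat_lit 0) (nat_lit 2752574074) (nat_lit 380) (nat_lit 6340824702) (nat_lit 76) (nat_lit 2673513657) (nat_lit 178) (nat_lit 5) (nat_lit 183) (nat_lit 5) (nat_lit 179) (nat_lit 5) (nat_lit 434) (nat_lit 404) (nat_lit 362)) (XT.nd (nat_lit 78) (nat_lit 380) (nat_lit 0) (XT.lf (nat_lit 0) (nat_lit 6332095219) (nat_lit 380) (nat_lit 1633775318) (nat_lit 456) (nat_lit 4125638462) (nat_lit 173) (nat_lit 5) (nat_lit 178) (nat_lit 5) (nat_lit 179) (nat_lit 5) (nat_lit 435) (nat_lit 404) (nat_lit 361)) (XT.lf (nat_lit 0) (nat_lit 1097467086) (nat_lit 380) (nat_lit 5142437851) (nat_lit 76) (nat_lit 6188858790) (nat_lit 168) (nat_lit 5) (nat_lit 173) (nat_lit 5) (nat_lit 169) (nat_lit 5) (nat_lit 436) (nat_lit 404) (nat_lit 360))))) (XT.nd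 (nat_lit 234) (nat_lit 1520) (nat_lit 0) (XT.nd (nat_lit 78) (nat_lit 684) (nat_lit 0) (XT.lf (nat_lit 0) (nat_lit 6585098779) (nat_lit 380) (nat_lit 4492911072) (nat_lit 76) (nat_lit 1700992460) (nat_lit 164) (nat_lit 5) (nat_lit 169) (nat_lit 5) (nat_lit 165) (nat_lit 5) (nat_lit 437) (nat_lit 404) (nat_lit 359)) (XT.nd (nat_lit 78) (nat_lit 380) (nat_lit 0) (XT.lf (nat_lit 0) (nat_lit 9344988841) (nat_lit 304) (nat_lit 3125964770) (nat_lit 380) (nat_lit 672091033) (nat_lit 160) (nat_lit 5) (nat_lit 164) (nat_lit 5) (nat_lit 165) (nat_lit 5) (nat_lit 438) (nat_lit 404) (nat_lit 358)) (XT.lf (nat_lit 0) (nat_lit 5144566818) (nat_lit 380) (nat_lit 3094366314) (nat_lit 76) (nat_lit 5281320988) (nat_lit 155) (nat_lit 5) (nat_lit 160) (nat_lit 5) (nat_lit 156) (nat_lit 5) (nat_lit 439) (nat_lit 404) (nat_lit 357)))) (XT.nd (nat_lit 156) (nat_lit 836) (nat_lit 0) (XT.nd (nat_lit 78) (nat_lit 380) (nat_lit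 0) (XT.lf (nat_lit 0) (nat_lit 11345076336) (nat_lit 380) (nat_lit 2321470070) (nat_lit 76) (nat_lit 246376696) (nat_lit 151) (nat_lit 5) (nat_lit 156) (nat_lit 5) (nat_lit 152) (nat_lit 5) (nat_lit 440) (nat_lit 404) (nat_lit 356)) (XT.lf (nat_lit 0) (nat_lit 3625592214) (nat_lit 380) (nat_lit 1554928561) (nat_lit 76) (nat_lit 9138769516) (nat_lit 146) (nat_lit 5) (nat_lit 151) (nat_lit 5) (nat_lit 147) (nat_lit 5) (nat_lit 441) (nat_lit 404) (nat_lit 355))) (XT.nd (nat_lit 78) (nat_lit 608) (nat_lit 0) (XT.lf (nat_lit 0) (nat_lit 10198376791) (nat_lit 304) (nat_lit 739805675) (nat_lit 76) (nat_lit 3803352707) (nat_lit 143) (nat_lit 5) (nat_lit 147) (nat_lit 5) (nat_lit 144) (nat_lit 5) (nat_lit 442) (nat_lit 404) (nat_lit 354)) (XT.lf (nat_lit 0) (nat_lit 118763885) (nat_lit 228) (nat_lit 1904989387) (nat_lit 304) (nat_lit 13156205522) (nat_lit 135) (nat_lit 5) (nat_lit 138) (nat_lit 5) (nat_lit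 139) (nat_lit 5) (nat_lit 443) (nat_lit 404) (nat_lit 353)))))) (XT.nd (nat_lit 468) (nat_lit 1520) (nat_lit 0) (XT.nd (nat_lit 234) (nat_lit 684) (nat_lit 0) (XT.nd (nat_lit 78) (nat_lit 532) (nat_lit 0) (XT.lf (nat_lit 0) (nat_lit 985904059) (nat_lit 228) (nat_lit 8019353493) (nat_lit 304) (nat_lit 6628295222) (nat_lit 132) (nat_lit 5) (nat_lit 135) (nat_lit 5) (nat_lit 136) (nat_lit 5) (nat_lit 444) (nat_lit 404) (nat_lit 352)) (XT.nd (nat_lit 78) (nat_lit 228) (nat_lit 0) (XT.lf (nat_lit 0) (nat_lit 361263809) (nat_lit 304) (nat_lit 14175527301) (nat_lit 76) (nat_lit 1568784723) (nat_lit 128) (nat_lit 5) (nat_lit 132) (nat_lit 5) (nat_lit 129) (nat_lit 5) (nat_lit 445) (nat_lit 404) (nat_lit 351)) (XT.lf (nat_lit 0) (nat_lit 2839699858) (nat_lit 228) (nat_lit 4916948754) (nat_lit 304) (nat_lit 8836783946) (nat_lit 125) (nat_lit 5) (nat_lit 128) (nat_lit 5) (nat_lit 129) (nat_lit 5) (nat_lit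 446) (nat_lit 404) (nat_lit 350)))) (XT.nd (nat_lit 78) (nat_lit 456) (nat_lit 0) (XT.lf (nat_lit 0) (nat_lit 3812963131) (nat_lit 228) (nat_lit 11876124829) (nat_lit 304) (nat_lit 1411579649) (nat_lit 122) (nat_lit 5) (nat_lit 125) (nat_lit 5) (nat_lit 126) (nat_lit 5) (nat_lit 447) (nat_lit 404) (nat_lit 349)) (XT.nd (nat_lit 78) (nat_lit 152) (nat_lit 0) (XT.lf (nat_lit 0) (nat_lit 4788525287) (nat_lit 228) (nat_lit 1645336581) (nat_lit 304) (nat_lit 11192357951) (nat_lit 118) (nat_lit 5) (nat_lit 121) (nat_lit 5) (nat_lit 122) (nat_lit 5) (nat_lit 448) (nat_lit 404) (nat_lit 348)) (XT.lf (nat_lit 0) (nat_lit 5774670763) (nat_lit 152) (nat_lit 9085674653) (nat_lit 228) (nat_lit 3310749597) (nat_lit 116) (nat_lit 5) (nat_lit 118) (nat_lit 5) (nat_lit 119) (nat_lit 5) (nat_lit 449) (nat_lit 404) (nat_lit 347))))) (XT.nd (nat_lit 234) (nat_lit 760) (nat_lit 0) (XT.nd (nat_lit 78) (nat_lit 456)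 (nat_lit 0) (XT.lf (nat_lit 0) (nat_lit 5038750945) (nat_lit 304) (nat_lit 11945888385) (nat_lit 76) (nat_lit 1752025282) (nat_lit 112) (nat_lit 5) (nat_lit 116) (nat_lit 5) (nat_lit 113) (nat_lit 5) (nat_lit 450) (nat_lit 404) (nat_lit 346)) (XT.nd (nat_lit 78) (nat_lit 304) (nat_lit 0) (XT.lf (nat_lit 0) (nat_lit 7791561019) (nat_lit 152) (nat_lit 6181369816) (nat_lit 228) (nat_lit 5349531334) (nat_lit 110) (nat_lit 5) (nat_lit 112) (nat_lit 5) (nat_lit 113) (nat_lit 5) (nat_lit 451) (nat_lit 404) (nat_lit 345)) (XT.lf (nat_lit 0) (nat_lit 3551545313) (nat_lit 304) (nat_lit 11115007698) (nat_lit 76) (nat_lit 5263956146) (nat_lit 106) (nat_lit 5) (nat_lit 110) (nat_lit 5) (nat_lit 107) (nat_lit 5) (nat_lit 452) (nat_lit 404) (nat_lit 344)))) (XT.nd (nat_lit 156) (nat_lit 380) (nat_lit 0) (XT.nd (nat_lit 78) (nat_lit 228) (nat_lit 0) (XT.lf (nat_lit 0) (nat_lit 9828624959) (nat_lit 152) (nat_lit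 3178538164) (nat_lit 228) (nat_lit 7553605452) (nat_lit 104) (nat_lit 5) (nat_lit 106) (nat_lit 5) (nat_lit 107) (nat_lit 5) (nat_lit 453) (nat_lit 404) (nat_lit 343)) (XT.lf (nat_lit 0) (nat_lit 1931149747) (nat_lit 228) (nat_lit 10374825822) (nat_lit 76) (nat_lit 8908527268) (nat_lit 101) (nat_lit 5) (nat_lit 104) (nat_lit 5) (nat_lit 102) (nat_lit 5) (nat_lit 454) (nat_lit 404) (nat_lit 342))) (XT.nd (nat_lit 78) (nat_lit 228) (nat_lit 0) (XT.lf (nat_lit 0) (nat_lit 11841339476) (nat_lit 152) (nat_lit 96486855) (nat_lit 228) (nat_lit 9954739157) (nat_lit 99) (nat_lit 5) (nat_lit 101) (nat_lit 5) (nat_lit 102) (nat_lit 5) (nat_lit 455) (nat_lit 404) (nat_lit 341)) (XT.lf (nat_lit 0) (nat_lit 146026943) (nat_lit 228) (nat_lit 9781970141) (nat_lit 76) (nat_lit 12667504333) (nat_lit 96) (nat_lit 5) (nat_lit 99) (nat_lit 5) (nat_lit 97) (nat_lit 5) (nat_lit 456) (nat_lit 404) (nat_lit 340))))))))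
noncomputable def xc56 : XT := (XT.nd (nat_lit 1950) (nat_lit 1444) (nat_lit 0) (XT.nd (nat_lit 936) (nat_lit 1596) (nat_lit 0) (XT.nd (nat_lit 468) (nat_lit 912) (nat_lit 0) (XT.nd (nat_lit 234) (nat_lit 532) (nat_lit 0) (XT.nd (nat_lit 78) (nat_lit 380) (nat_lit 0) (XT.lf (nat_lit 0) (nat_lit 10762399867) (nat_lit 228) (nat_lit 9580651262) (nat_lit 76) (nat_lit 2981084869) (nat_lit 94) (nat_lit 5) (nat_lit 97) (nat_lit 5) (nat_lit 95) (nat_lit 5) (nat_lit 457) (nat_lit 404) (nat_lit 339)) (XT.nd (nat_lit 78) (nat_lit 228) (nat_lit 0) (XT.lf (nat_lit 0) (nat_lit 14655980579) (nat_lit 152) (nat_lit 7545074050) (nat_lit 228) (nat_lit 1879405824) (nat_lit 92) (nat_lit 5) (nat_lit 94) (nat_lit 5) (nat_lit 95) (nat_lit 5) (nat_lit 458) (nat_lit 404) (nat_lit 338)) (XT.lf (nat_lit 0) (nat_lit 9413350539) (nat_lit 228) (nat_lit 9370348726) (nat_lit 76) (nat_lit 6080455886) (nat_lit 89) (nat_lit 5) (nat_lit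 92) (nat_lit 5) (nat_lit 90) (nat_lit 5) (nat_lit 459) (nat_lit 404) (nat_lit 337)))) (XT.nd (nat_lit 78) (nat_lit 380) (nat_lit 0) (XT.lf (nat_lit 0) (nat_lit 16303791248) (nat_lit 152) (nat_lit 5210236718) (nat_lit 228) (nat_lit 4163985611) (nat_lit 87) (nat_lit 5) (nat_lit 89) (nat_lit 5) (nat_lit 90) (nat_lit 5) (nat_lit 460) (nat_lit 404) (nat_lit 336)) (XT.nd (nat_lit 78) (nat_lit 152) (nat_lit 0) (XT.lf (nat_lit 0) (nat_lit 7840780967) (nat_lit 228) (nat_lit 9514702549) (nat_lit 76) (nat_lit 9165757922) (nat_lit 84) (nat_lit 5) (nat_lit 87) (nat_lit 5) (nat_lit 85) (nat_lit 5) (nat_lit 461) (nat_lit 404) (nat_lit 335)) (XT.lf (nat_lit 0) (nat_lit 17661543138) (nat_lit 152) (nat_lit 2971812168) (nat_lit 228) (nat_lit 6763829530) (nat_lit 82) (nat_lit 5) (nat_lit 84) (nat_lit 5) (nat_lit 85) (nat_lit 5) (nat_lit 462) (nat_lit 404) (nat_lit 334))))) (XT.nd (nat_lit 234) (nat_lit 456) (nat_lit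 0) (XT.nd (nat_lit 78) (nat_lit 304) (nat_lit 0) (XT.lf (nat_lit 0) (nat_lit 5984819553) (nat_lit 152) (nat_lit 10130113696) (nat_lit 76) (nat_lit 12189884944) (nat_lit 80) (nat_lit 5) (nat_lit 82) (nat_lit 5) (nat_lit 81) (nat_lit 5) (nat_lit 463) (nat_lit 404) (nat_lit 333)) (XT.nd (nat_lit 78) (nat_lit 152) (nat_lit 0) (XT.lf (nat_lit 0) (nat_lit 18610052500) (nat_lit 152) (nat_lit 887449653) (nat_lit 228) (nat_lit 9750328776) (nat_lit 78) (nat_lit 5) (nat_lit 80) (nat_lit 5) (nat_lit 81) (nat_lit 5) (nat_lit 464) (nat_lit 404) (nat_lit 332)) (XT.lf (nat_lit 0) (nat_lit 3772688694) (nat_lit 152) (nat_lit 11358170705) (nat_lit 76) (nat_lit 15094377608) (nat_lit 76) (nat_lit 5) (nat_lit 78) (nat_lit 5) (nat_lit 77) (nat_lit 5) (nat_lit 465) (nat_lit 404) (nat_lit 331)))) (XT.nd (nat_lit 78) (nat_lit 304) (nat_lit 0) (XT.lf (nat_lit 0) (nat_lit 18040647360) (nat_lit 228) (nat_lit 12246651923) (nat_lit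 76) (nat_lit 953205932) (nat_lit 74) (nat_lit 5) (nat_lit 77) (nat_lit 5) (nat_lit 75) (nat_lit 4) (nat_lit 466) (nat_lit 404) (nat_lit 330)) (XT.nd (nat_lit 78) (nat_lit 152) (nat_lit 0) (XT.lf (nat_lit 0) (nat_lit 1116336401) (nat_lit 152) (nat_lit 13370476422) (nat_lit 76) (nat_lit 17807073900) (nat_lit 72) (nat_lit 5) (nat_lit 74) (nat_lit 5) (nat_lit 73) (nat_lit 5) (nat_lit 467) (nat_lit 404) (nat_lit 329)) (XT.lf (nat_lit 0) (nat_lit 16167659819) (nat_lit 228) (nat_lit 14748028458) (nat_lit 76) (nat_lit 2471559981) (nat_lit 70) (nat_lit 5) (nat_lit 73) (nat_lit 5) (nat_lit 71) (nat_lit 4) (nat_lit 468) (nat_lit 404) (nat_lit 328)))))) (XT.nd (nat_lit 468) (nat_lit 684) (nat_lit 0) (XT.nd (nat_lit 234) (nat_lit 532) (nat_lit 0) (XT.nd (nat_lit 78) (nat_lit 304) (nat_lit 0) (XT.lf (nat_lit 0) (nat_lit 18127878623) (nat_lit 76) (nat_lit 14262863666) (nat_lit 152) (nat_lit 2131960821) (nat_lit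 69) (nat_lit 5) (nat_lit 70) (nat_lit 5) (nat_lit 71) (nat_lit 4) (nat_lit 469) (nat_lit 404) (nat_lit 327)) (XT.nd (nat_lit 78) (nat_lit 76) (nat_lit 0) (XT.lf (nat_lit 0) (nat_lit 13758527853) (nat_lit 228) (nat_lit 18361029855) (nat_lit 76) (nat_lit 3581939906) (nat_lit 66) (nat_lit 5) (nat_lit 69) (nat_lit 5) (nat_lit 67) (nat_lit 4) (nat_lit 470) (nat_lit 404) (nat_lit 326)) (XT.lf (nat_lit 0) (nat_lit 16247631788) (nat_lit 76) (nat_lit 14584202834) (nat_lit 152) (nat_lit 6093793294) (nat_lit 65) (nat_lit 5) (nat_lit 66) (nat_lit 5) (nat_lit 67) (nat_lit 4) (nat_lit 471) (nat_lit 404) (nat_lit 325)))) (XT.nd (nat_lit 78) (nat_lit 304) (nat_lit 0) (XT.lf (nat_lit 0) (nat_lit 10678892526) (nat_lit 228) (nat_lit 23359474820) (nat_lit 76) (nat_lit 4159450151) (nat_lit 62) (nat_lit 5) (nat_lit 65) (nat_lit 5) (nat_lit 63) (nat_lit 4) (nat_lit 472) (nat_lit 404) (nat_lit 324)) (XT.nd (nat_lit 78)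 (nat_lit 228) (nat_lit 0) (XT.lf (nat_lit 0) (nat_lit 13007783511) (nat_lit 76) (nat_lit 15607770073) (nat_lit 152) (nat_lit 10902712633) (nat_lit 61) (nat_lit 5) (nat_lit 62) (nat_lit 5) (nat_lit 63) (nat_lit 4) (nat_lit 473) (nat_lit 404) (nat_lit 323)) (XT.lf (nat_lit 0) (nat_lit 6767331292) (nat_lit 228) (nat_lit 30071881411) (nat_lit 76) (nat_lit 4053116450) (nat_lit 58) (nat_lit 5) (nat_lit 61) (nat_lit 5) (nat_lit 59) (nat_lit 4) (nat_lit 474) (nat_lit 404) (nat_lit 322))))) (XT.nd (nat_lit 234) (nat_lit 380) (nat_lit 0) (XT.nd (nat_lit 78) (nat_lit 228) (nat_lit 0) (XT.lf (nat_lit 0) (nat_lit 8064021085) (nat_lit 76) (nat_lit 17508627187) (nat_lit 152) (nat_lit 16744891568) (nat_lit 57) (nat_lit 5) (nat_lit 58) (nat_lit 5) (nat_lit 59) (nat_lit 4) (nat_lit 475) (nat_lit 404) (nat_lit 321)) (XT.nd (nat_lit 78) (nat_lit 76) (nat_lit 0) (XT.lf (nat_lit 0) (nat_lit 1830431270) (nat_lit 152)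 (nat_lit 38891500182) (nat_lit 76) (nat_lit 3080979555) (nat_lit 55) (nat_lit 5) (nat_lit 57) (nat_lit 5) (nat_lit 56) (nat_lit 4) (nat_lit 476) (nat_lit 404) (nat_lit 320)) (XT.lf (nat_lit 0) (nat_lit 1003160916) (nat_lit 76) (nat_lit 20496683617) (nat_lit 152) (nat_lit 23842384059) (nat_lit 54) (nat_lit 5) (nat_lit 55) (nat_lit 5) (nat_lit 56) (nat_lit 4) (nat_lit 477) (nat_lit 404) (nat_lit 319)))) (XT.nd (nat_lit 156) (nat_lit 228) (nat_lit 0) (XT.nd (nat_lit 78) (nat_lit 152) (nat_lit 0) (XT.lf (nat_lit 0) (nat_lit 42530823802) (nat_lit 152) (nat_lit 3316726513) (nat_lit 0) (nat_lit 1099619469) (nat_lit 54) (nat_lit 5) (nat_lit 56) (nat_lit 4) (nat_lit 54) (nat_lit 4) (nat_lit 478) (nat_lit 404) (nat_lit 318)) (XT.lf (nat_lit 0) (nat_lit 16236987327) (nat_lit 152) (nat_lit 8500279073) (nat_lit 76) (nat_lit 23873448406) (nat_lit 52) (nat_lit 5) (nat_lit 54) (nat_lit 5) (nat_lit 53) (nat_lit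 4) (nat_lit 479) (nat_lit 404) (nat_lit 317))) (XT.nd (nat_lit 78) (nat_lit 152) (nat_lit 0) (XT.lf (nat_lit 0) (nat_lit 36019596072) (nat_lit 76) (nat_lit 2162513431) (nat_lit 152) (nat_lit 12163502539) (nat_lit 51) (nat_lit 5) (nat_lit 52) (nat_lit 5) (nat_lit 53) (nat_lit 4) (nat_lit 480) (nat_lit 404) (nat_lit 316)) (XT.lf (nat_lit 0) (nat_lit 9450178923) (nat_lit 152) (nat_lit 21124332258) (nat_lit 76) (nat_lit 21573040993) (nat_lit 49) (nat_lit 5) (nat_lit 51) (nat_lit 5) (nat_lit 50) (nat_lit 4) (nat_lit 481) (nat_lit 404) (nat_lit 315))))))) (XT.nd (nat_lit 1014) (nat_lit 228) (nat_lit 0) (XT.nd (nat_lit 468) (nat_lit 684) (nat_lit 0) (XT.nd (nat_lit 234) (nat_lit 228) (nat_lit 0) (XT.nd (nat_lit 78) (nat_lit 228) (nat_lit 0) (XT.lf (nat_lit 0) (nat_lit 25191623304) (nat_lit 76) (nat_lit 7086757217) (nat_lit 152) (nat_lit 21746034449) (nat_lit 48) (nat_lit 5) (nat_lit 49) (nat_lit 5) (nat_lit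 50) (nat_lit 4) (nat_lit 482) (nat_lit 404) (nat_lit 314)) (XT.nd (nat_lit 78) (nat_lit 76) (nat_lit 0) (XT.lf (nat_lit 0) (nat_lit 789499821) (nat_lit 152) (nat_lit 37579430288) (nat_lit 76) (nat_lit 17609871407) (nat_lit 46) (nat_lit 5) (nat_lit 48) (nat_lit 5) (nat_lit 47) (nat_lit 4) (nat_lit 483) (nat_lit 404) (nat_lit 313)) (XT.lf (nat_lit 0) (nat_lit 10427272942) (nat_lit 76) (nat_lit 14021821524) (nat_lit 152) (nat_lit 33561943359) (nat_lit 45) (nat_lit 5) (nat_lit 46) (nat_lit 5) (nat_lit 47) (nat_lit 4) (nat_lit 484) (nat_lit 404) (nat_lit 312)))) (XT.nd (nat_lit 78) (nat_lit 152) (nat_lit 0) (XT.lf (nat_lit 0) (nat_lit 1342866131) (nat_lit 76) (nat_lit 48435267526) (nat_lit 76) (nat_lit 10352158729) (nat_lit 44) (nat_lit 4) (nat_lit 45) (nat_lit 5) (nat_lit 45) (nat_lit 4) (nat_lit 485) (nat_lit 404) (nat_lit 311)) (XT.nd (nat_lit 78) (nat_lit 76) (nat_lit 0) (XT.lf (nat_lit 0) (nat_lit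 14353258060) (nat_lit 152) (nat_lit 8965609577) (nat_lit 76) (nat_lit 39014339269) (nat_lit 43) (nat_lit 5) (nat_lit 45) (nat_lit 5) (nat_lit 44) (nat_lit 4) (nat_lit 486) (nat_lit 404) (nat_lit 310)) (XT.lf (nat_lit 0) (nat_lit 40513409330) (nat_lit 152) (nat_lit 20614438959) (nat_lit 0) (nat_lit 3502337436) (nat_lit 42) (nat_lit 5) (nat_lit 44) (nat_lit 4) (nat_lit 42) (nat_lit 4) (nat_lit 487) (nat_lit 404) (nat_lit 309))))) (XT.nd (nat_lit 234) (nat_lit 380) (nat_lit 0) (XT.nd (nat_lit 78) (nat_lit 152) (nat_lit 0) (XT.lf (nat_lit 0) (nat_lit 1548970857) (nat_lit 152) (nat_lit 33883933925) (nat_lit 76) (nat_lit 31590005558) (nat_lit 40) (nat_lit 5) (nat_lit 42) (nat_lit 5) (nat_lit 41) (nat_lit 4) (nat_lit 488) (nat_lit 404) (nat_lit 308)) (XT.nd (nat_lit 78) (nat_lit 76) (nat_lit 0) (XT.lf (nat_lit 0) (nat_lit 20588772045) (nat_lit 76) (nat_lit 7802147741) (nat_lit 152) (nat_lit 41125437713)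 (nat_lit 39) (nat_lit 5) (nat_lit 40) (nat_lit 5) (nat_lit 41) (nat_lit 4) (nat_lit 489) (nat_lit 404) (nat_lit 307)) (XT.lf (nat_lit 0) (nat_lit 6235003224) (nat_lit 76) (nat_lit 50931381357) (nat_lit 76) (nat_lit 14950350165) (nat_lit 38) (nat_lit 4) (nat_lit 39) (nat_lit 5) (nat_lit 39) (nat_lit 4) (nat_lit 490) (nat_lit 404) (nat_lit 306)))) (XT.nd (nat_lit 156) (nat_lit 228) (nat_lit 0) (XT.nd (nat_lit 78) (nat_lit 76) (nat_lit 0) (XT.lf (nat_lit 0) (nat_lit 12852144548) (nat_lit 152) (nat_lit 9905664125) (nat_lit 76) (nat_lit 52068811267) (nat_lit 37) (nat_lit 5) (nat_lit 39) (nat_lit 5) (nat_lit 38) (nat_lit 4) (nat_lit 491) (nat_lit 404) (nat_lit 305)) (XT.lf (nat_lit 0) (nat_lit 42264208663) (nat_lit 152) (nat_lit 28083781515) (nat_lit 0) (nat_lit 7303709540) (nat_lit 36) (nat_lit 5) (nat_lit 38) (nat_lit 4) (nat_lit 36) (nat_lit 4) (nat_lit 492) (nat_lit 404) (nat_lit 304))) (XT.nd (nat_lit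 78) (nat_lit 152) (nat_lit 0) (XT.lf (nat_lit 0) (nat_lit 31955574414) (nat_lit 76) (nat_lit 41808598194) (nat_lit 76) (nat_lit 6835342215) (nat_lit 35) (nat_lit 4) (nat_lit 36) (nat_lit 5) (nat_lit 36) (nat_lit 4) (nat_lit 493) (nat_lit 404) (nat_lit 303)) (XT.lf (nat_lit 0) (nat_lit 11860158699) (nat_lit 76) (nat_lit 11216473844) (nat_lit 152) (nat_lit 60599898532) (nat_lit 33) (nat_lit 5) (nat_lit 34) (nat_lit 5) (nat_lit 35) (nat_lit 4) (nat_lit 494) (nat_lit 404) (nat_lit 302)))))) (XT.nd (nat_lit 55692) (nat_lit 0) (nat_lit 25080) (XT.nd (nat_lit 55458) (nat_lit 0) (nat_lit 27892) (XT.nd (nat_lit 78) (nat_lit 228) (nat_lit 0) (XT.lf (nat_lit 0) (nat_lit 55029139824) (nat_lit 152) (nat_lit 10804146231) (nat_lit 0) (nat_lit 21051493020) (nat_lit 33) (nat_lit 5) (nat_lit 35) (nat_lit 4) (nat_lit 33) (nat_lit 4) (nat_lit 495) (nat_lit 404) (nat_lit 301)) (XT.nd (nat_lit 78) (nat_lit 152) (nat_lit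 0) (XT.lf (nat_lit 0) (nat_lit 54161562303) (nat_lit 76) (nat_lit 35030913480) (nat_lit 76) (nat_lit 1042567791) (nat_lit 32) (nat_lit 4) (nat_lit 33) (nat_lit 5) (nat_lit 33) (nat_lit 4) (nat_lit 496) (nat_lit 404) (nat_lit 300)) (XT.lf (nat_lit 0) (nat_lit 29077123889) (nat_lit 76) (nat_lit 1994629308) (nat_lit 152) (nat_lit 62660891144) (nat_lit 30) (nat_lit 5) (nat_lit 31) (nat_lit 5) (nat_lit 32) (nat_lit 4) (nat_lit 497) (nat_lit 404) (nat_lit 299)))) (XT.nd (nat_lit 78) (nat_lit 684) (nat_lit 0) (XT.lf (nat_lit 0) (nat_lit 1206516734) (nat_lit 0) (nat_lit 1206516734) (nat_lit 532) (nat_lit 952272332) (nat_lit 406) (nat_lit 5) (nat_lit 406) (nat_lit 3) (nat_lit 413) (nat_lit 3) (nat_lit 405) (nat_lit 405) (nat_lit 390)) (XT.nd (nat_lit 78) (nat_lit 0) (nat_lit 76) (XT.lf (nat_lit 76) (nat_lit 1257336411) (nat_lit 0) (nat_lit 370632063) (nat_lit 684) (nat_lit 5164509786) (nat_lit 398) (nat_lit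 5) (nat_lit 397) (nat_lit 3) (nat_lit 406) (nat_lit 5) (nat_lit 406) (nat_lit 405) (nat_lit 389)) (XT.lf (nat_lit 76) (nat_lit 185411278) (nat_lit 0) (nat_lit 4950333104) (nat_lit 684) (nat_lit 1726032229) (nat_lit 399) (nat_lit 5) (nat_lit 398) (nat_lit 5) (nat_lit 407) (nat_lit 5) (nat_lit 407) (nat_lit 405) (nat_lit 388))))) (XT.nd (nat_lit 234) (nat_lit 1520) (nat_lit 0) (XT.nd (nat_lit 78) (nat_lit 684) (nat_lit 0) (XT.lf (nat_lit 0) (nat_lit 1690220349) (nat_lit 684) (nat_lit 774961517) (nat_lit 760) (nat_lit 4473577411) (nat_lit 389) (nat_lit 5) (nat_lit 398) (nat_lit 5) (nat_lit 399) (nat_lit 5) (nat_lit 408) (nat_lit 405) (nat_lit 387)) (XT.nd (nat_lit 78) (nat_lit 760) (nat_lit 0) (XT.lf (nat_lit 0) (nat_lit 5088369859) (nat_lit 684) (nat_lit 1638787272) (nat_lit 760) (nat_lit 296557315) (nat_lit 390) (nat_lit 5) (nat_lit 399) (nat_lit 5) (nat_lit 400) (nat_lit 5) (nat_lit 409) (nat_lit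 405) (nat_lit 386)) (XT.lf (nat_lit 0) (nat_lit 1391580321) (nat_lit 760) (nat_lit 2431802590) (nat_lit 836) (nat_lit 3292780158) (nat_lit 380) (nat_lit 5) (nat_lit 390) (nat_lit 5) (nat_lit 391) (nat_lit 5) (nat_lit 410) (nat_lit 405) (nat_lit 385)))) (XT.nd (nat_lit 156) (nat_lit 760) (nat_lit 0) (XT.nd (nat_lit 78) (nat_lit 760) (nat_lit 0) (XT.lf (nat_lit 76) (nat_lit 4080175843) (nat_lit 0) (nat_lit 628975803) (nat_lit 836) (nat_lit 2507612617) (nat_lit 381) (nat_lit 5) (nat_lit 380) (nat_lit 5) (nat_lit 391) (nat_lit 5) (nat_lit 411) (nat_lit 405) (nat_lit 384)) (XT.lf (nat_lit 0) (nat_lit 754236412) (nat_lit 836) (nat_lit 3770275645) (nat_lit 912) (nat_lit 2800634330) (nat_lit 370) (nat_lit 5) (nat_lit 381) (nat_lit 5) (nat_lit 382) (nat_lit 5) (nat_lit 412) (nat_lit 405) (nat_lit 383))) (XT.nd (nat_lit 78) (nat_lit 760) (nat_lit 0) (XT.lf (nat_lit 76) (nat_lit 3109744661) (nat_lit 0) (nat_lit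 908977867) (nat_lit 912) (nat_lit 3422768704) (nat_lit 371) (nat_lit 5) (nat_lit 370) (nat_lit 5) (nat_lit 382) (nat_lit 5) (nat_lit 413) (nat_lit 405) (nat_lit 382)) (XT.lf (nat_lit 0) (nat_lit 2746137409) (nat_lit 836) (nat_lit 4623451720) (nat_lit 912) (nat_lit 196398672) (nat_lit 360) (nat_lit 5) (nat_lit 371) (nat_lit 5) (nat_lit 372) (nat_lit 5) (nat_lit 414) (nat_lit 405) (nat_lit 381))))))))
noncomputable def xc57 : XT := (XT.nd (nat_lit 1950) (nat_lit 6156) (nat_lit 0) (XT.nd (nat_lit 936) (nat_lit 5472) (nat_lit 0) (XT.nd (nat_lit 468) (nat_lit 3496) (nat_lit 0) (XT.nd (nat_lit 234) (nat_lit 3192) (nat_lit 0) (XT.nd (nat_lit 78) (nat_lit 2128) (nat_lit 0) (XT.lf (nat_lit 0) (nat_lit 2451636184) (nat_lit 912) (nat_lit 590214542) (nat_lit 988) (nat_lit 4656580109) (nat_lit 347) (nat_lit 5) (nat_lit 359) (nat_lit 5) (nat_lit 360) (nat_lit 5) (nat_lit 415) (nat_lit 405) (nat_lit 380)) (XT.nd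 (nat_lit 78) (nat_lit 1140) (nat_lit 0) (XT.lf (nat_lit 0) (nat_lit 2226987393) (nat_lit 988) (nat_lit 4159578179) (nat_lit 1064) (nat_lit 1452439354) (nat_lit 334) (nat_lit 5) (nat_lit 347) (nat_lit 5) (nat_lit 348) (nat_lit 5) (nat_lit 416) (nat_lit 405) (nat_lit 379)) (XT.lf (nat_lit 0) (nat_lit 1804677907) (nat_lit 1140) (nat_lit 5905755267) (nat_lit 76) (nat_lit 277744613) (nat_lit 319) (nat_lit 5) (nat_lit 334) (nat_lit 5) (nat_lit 320) (nat_lit 5) (nat_lit 417) (nat_lit 405) (nat_lit 378)))) (XT.nd (nat_lit 78) (nat_lit 2052) (nat_lit 0) (XT.lf (nat_lit 0) (nat_lit 1986708108) (nat_lit 1140) (nat_lit 3180701328) (nat_lit 1216) (nat_lit 2977807145) (nat_lit 304) (nat_lit 5) (nat_lit 319) (nat_lit 5) (nat_lit 320) (nat_lit 5) (nat_lit 418) (nat_lit 405) (nat_lit 377)) (XT.nd (nat_lit 78) (nat_lit 760) (nat_lit 0) (XT.lf (nat_lit 0) (nat_lit 334711224) (nat_lit 1292) (nat_lit 6334223105) (nat_lit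 76) (nat_lit 1642458491) (nat_lit 287) (nat_lit 5) (nat_lit 304) (nat_lit 5) (nat_lit 288) (nat_lit 5) (nat_lit 419) (nat_lit 405) (nat_lit 376)) (XT.lf (nat_lit 0) (nat_lit 2010540227) (nat_lit 760) (nat_lit 1719889673) (nat_lit 836) (nat_lit 4755208591) (nat_lit 277) (nat_lit 5) (nat_lit 287) (nat_lit 5) (nat_lit 288) (nat_lit 5) (nat_lit 420) (nat_lit 405) (nat_lit 375))))) (XT.nd (nat_lit 234) (nat_lit 1672) (nat_lit 0) (XT.nd (nat_lit 78) (nat_lit 1216) (nat_lit 0) (XT.lf (nat_lit 0) (nat_lit 2114936385) (nat_lit 608) (nat_lit 5169081316) (nat_lit 684) (nat_lit 1384955220) (nat_lit 269) (nat_lit 5) (nat_lit 277) (nat_lit 5) (nat_lit 278) (nat_lit 5) (nat_lit 421) (nat_lit 405) (nat_lit 374)) (XT.nd (nat_lit 78) (nat_lit 532) (nat_lit 0) (XT.lf (nat_lit 0) (nat_lit 2092582090) (nat_lit 684) (nat_lit 6576532883) (nat_lit 76) (nat_lit 192331530) (nat_lit 260) (nat_lit 5) (nat_lit 269) (nat_lit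 5) (nat_lit 261) (nat_lit 5) (nat_lit 422) (nat_lit 405) (nat_lit 373)) (XT.lf (nat_lit 0) (nat_lit 2493771640) (nat_lit 532) (nat_lit 3243233828) (nat_lit 608) (nat_lit 3325494062) (nat_lit 253) (nat_lit 5) (nat_lit 260) (nat_lit 5) (nat_lit 261) (nat_lit 5) (nat_lit 423) (nat_lit 405) (nat_lit 372)))) (XT.nd (nat_lit 78) (nat_lit 1064) (nat_lit 0) (XT.lf (nat_lit 0) (nat_lit 284776834) (nat_lit 608) (nat_lit 6491987301) (nat_lit 76) (nat_lit 2496761123) (nat_lit 245) (nat_lit 5) (nat_lit 253) (nat_lit 5) (nat_lit 246) (nat_lit 5) (nat_lit 424) (nat_lit 405) (nat_lit 371)) (XT.nd (nat_lit 78) (nat_lit 532) (nat_lit 0) (XT.lf (nat_lit 0) (nat_lit 3109507095) (nat_lit 532) (nat_lit 913796790) (nat_lit 608) (nat_lit 5470329759) (nat_lit 238) (nat_lit 5) (nat_lit 245) (nat_lit 5) (nat_lit 246) (nat_lit 5) (nat_lit 425) (nat_lit 405) (nat_lit 370)) (XT.lf (nat_lit 0) (nat_lit 3493861239) (nat_lit 532)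 (nat_lit 4495487630) (nat_lit 608) (nat_lit 1734194842) (nat_lit 231) (nat_lit 5) (nat_lit 238) (nat_lit 5) (nat_lit 239) (nat_lit 5) (nat_lit 426) (nat_lit 405) (nat_lit 369)))))) (XT.nd (nat_lit 468) (nat_lit 2584) (nat_lit 0) (XT.nd (nat_lit 234) (nat_lit 1368) (nat_lit 0) (XT.nd (nat_lit 78) (nat_lit 988) (nat_lit 0) (XT.lf (nat_lit 0) (nat_lit 2169157710) (nat_lit 532) (nat_lit 6024802599) (nat_lit 76) (nat_lit 1769677103) (nat_lit 224) (nat_lit 5) (nat_lit 231) (nat_lit 5) (nat_lit 225) (nat_lit 5) (nat_lit 427) (nat_lit 405) (nat_lit 368)) (XT.nd (nat_lit 78) (nat_lit 532) (nat_lit 0) (XT.lf (nat_lit 0) (nat_lit 4429960390) (nat_lit 456) (nat_lit 1850837034) (nat_lit 532) (nat_lit 3932966044) (nat_lit 218) (nat_lit 5) (nat_lit 224) (nat_lit 5) (nat_lit 225) (nat_lit 5) (nat_lit 428) (nat_lit 405) (nat_lit 367)) (XT.lf (nat_lit 0) (nat_lit 176092768) (nat_lit 532) (nat_lit 5491538951) (nat_lit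 76) (nat_lit 4807035158) (nat_lit 211) (nat_lit 5) (nat_lit 218) (nat_lit 5) (nat_lit 212) (nat_lit 5) (nat_lit 429) (nat_lit 405) (nat_lit 366)))) (XT.nd (nat_lit 78) (nat_lit 912) (nat_lit 0) (XT.lf (nat_lit 0) (nat_lit 4455737874) (nat_lit 532) (nat_lit 5167592607) (nat_lit 76) (nat_lit 1122733438) (nat_lit 205) (nat_lit 5) (nat_lit 212) (nat_lit 5) (nat_lit 206) (nat_lit 5) (nat_lit 430) (nat_lit 405) (nat_lit 365)) (XT.nd (nat_lit 78) (nat_lit 532) (nat_lit 0) (XT.lf (nat_lit 0) (nat_lit 6229372619) (nat_lit 380) (nat_lit 2799608990) (nat_lit 456) (nat_lit 1999671062) (nat_lit 200) (nat_lit 5) (nat_lit 205) (nat_lit 5) (nat_lit 206) (nat_lit 5) (nat_lit 431) (nat_lit 405) (nat_lit 364)) (XT.lf (nat_lit 0) (nat_lit 2528382875) (nat_lit 532) (nat_lit 4395270667) (nat_lit 76) (nat_lit 4398851611) (nat_lit 193) (nat_lit 5) (nat_lit 200) (nat_lit 5) (nat_lit 194) (nat_lit 5) (nat_lit 432) (nat_lit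 405) (nat_lit 363))))) (XT.nd (nat_lit 234) (nat_lit 1444) (nat_lit 0) (XT.nd (nat_lit 78) (nat_lit 760) (nat_lit 0) (XT.lf (nat_lit 0) (nat_lit 7308585692) (nat_lit 456) (nat_lit 3939447368) (nat_lit 76) (nat_lit 380419278) (nat_lit 188) (nat_lit 5) (nat_lit 194) (nat_lit 5) (nat_lit 189) (nat_lit 5) (nat_lit 433) (nat_lit 405) (nat_lit 362)) (XT.nd (nat_lit 78) (nat_lit 304) (nat_lit 0) (XT.lf (nat_lit 0) (nat_lit 482816824) (nat_lit 456) (nat_lit 3452623740) (nat_lit 76) (nat_lit 8010792911) (nat_lit 182) (nat_lit 5) (nat_lit 188) (nat_lit 5) (nat_lit 183) (nat_lit 5) (nat_lit 434) (nat_lit 405) (nat_lit 361)) (XT.lf (nat_lit 0) (nat_lit 5521497596) (nat_lit 380) (nat_lit 2940030203) (nat_lit 76) (nat_lit 3814544627) (nat_lit 178) (nat_lit 5) (nat_lit 183) (nat_lit 5) (nat_lit 179) (nat_lit 5) (nat_lit 435) (nat_lit 405) (nat_lit 360)))) (XT.nd (nat_lit 156) (nat_lit 684) (nat_lit 0) (XT.nd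 (nat_lit 78) (nat_lit 380) (nat_lit 0) (XT.lf (nat_lit 0) (nat_lit 10259964699) (nat_lit 380) (nat_lit 644908115) (nat_lit 456) (nat_lit 1714755339) (nat_lit 173) (nat_lit 5) (nat_lit 178) (nat_lit 5) (nat_lit 179) (nat_lit 5) (nat_lit 436) (nat_lit 405) (nat_lit 359)) (XT.lf (nat_lit 0) (nat_lit 3640814400) (nat_lit 380) (nat_lit 1777799532) (nat_lit 76) (nat_lit 7556716440) (nat_lit 168) (nat_lit 5) (nat_lit 173) (nat_lit 5) (nat_lit 169) (nat_lit 5) (nat_lit 437) (nat_lit 405) (nat_lit 358))) (XT.nd (nat_lit 78) (nat_lit 380) (nat_lit 0) (XT.lf (nat_lit 0) (nat_lit 9328855444) (nat_lit 380) (nat_lit 1138002621) (nat_lit 76) (nat_lit 2878452336) (nat_lit 164) (nat_lit 5) (nat_lit 169) (nat_lit 5) (nat_lit 165) (nat_lit 5) (nat_lit 438) (nat_lit 405) (nat_lit 357)) (XT.lf (nat_lit 0) (nat_lit 1664314836) (nat_lit 380) (nat_lit 457143041) (nat_lit 76) (nat_lit 11608063938) (nat_lit 159) (nat_lit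 5) (nat_lit 164) (nat_lit 5) (nat_lit 160) (nat_lit 5) (nat_lit 439) (nat_lit 405) (nat_lit 356))))))) (XT.nd (nat_lit 1014) (nat_lit 2432) (nat_lit 0) (XT.nd (nat_lit 468) (nat_lit 1672) (nat_lit 0) (XT.nd (nat_lit 234) (nat_lit 836) (nat_lit 0) (XT.nd (nat_lit 78) (nat_lit 608) (nat_lit 0) (XT.lf (nat_lit 0) (nat_lit 236010851) (nat_lit 304) (nat_lit 7456011747) (nat_lit 380) (nat_lit 6435355142) (nat_lit 151) (nat_lit 5) (nat_lit 155) (nat_lit 5) (nat_lit 156) (nat_lit 5) (nat_lit 440) (nat_lit 405) (nat_lit 355)) (XT.nd (nat_lit 78) (nat_lit 304) (nat_lit 0) (XT.lf (nat_lit 0) (nat_lit 1018329754) (nat_lit 304) (nat_lit 13126534347) (nat_lit 380) (nat_lit 396555554) (nat_lit 147) (nat_lit 5) (nat_lit 151) (nat_lit 5) (nat_lit 152) (nat_lit 5) (nat_lit 441) (nat_lit 405) (nat_lit 354)) (XT.lf (nat_lit 0) (nat_lit 1782983320) (nat_lit 228) (nat_lit 4211449094) (nat_lit 304) (nat_lit 8975035071)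 (nat_lit 143) (nat_lit 5) (nat_lit 146) (nat_lit 5) (nat_lit 147) (nat_lit 5) (nat_lit 442) (nat_lit 405) (nat_lit 353)))) (XT.nd (nat_lit 78) (nat_lit 532) (nat_lit 0) (XT.lf (nat_lit 0) (nat_lit 2609802646) (nat_lit 304) (nat_lit 10233609446) (nat_lit 380) (nat_lit 2570993486) (nat_lit 139) (nat_lit 5) (nat_lit 143) (nat_lit 5) (nat_lit 144) (nat_lit 5) (nat_lit 443) (nat_lit 405) (nat_lit 352)) (XT.nd (nat_lit 78) (nat_lit 228) (nat_lit 0) (XT.lf (nat_lit 0) (nat_lit 3471220471) (nat_lit 228) (nat_lit 746934157) (nat_lit 304) (nat_lit 11657864355) (nat_lit 135) (nat_lit 5) (nat_lit 138) (nat_lit 5) (nat_lit 139) (nat_lit 5) (nat_lit 444) (nat_lit 405) (nat_lit 351)) (XT.lf (nat_lit 0) (nat_lit 4335221838) (nat_lit 228) (nat_lit 7157031116) (nat_lit 304) (nat_lit 4861740873) (nat_lit 132) (nat_lit 5) (nat_lit 135) (nat_lit 5) (nat_lit 136) (nat_lit 5) (nat_lit 445) (nat_lit 405) (nat_lit 350)))))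 (XT.nd (nat_lit 234) (nat_lit 836) (nat_lit 0) (XT.nd (nat_lit 78) (nat_lit 532) (nat_lit 0) (XT.lf (nat_lit 0) (nat_lit 2381663653) (nat_lit 304) (nat_lit 11591214858) (nat_lit 76) (nat_lit 2877781548) (nat_lit 128) (nat_lit 5) (nat_lit 132) (nat_lit 5) (nat_lit 129) (nat_lit 5) (nat_lit 446) (nat_lit 405) (nat_lit 349)) (XT.nd (nat_lit 78) (nat_lit 304) (nat_lit 0) (XT.lf (nat_lit 0) (nat_lit 6180377930) (nat_lit 228) (nat_lit 3901838198) (nat_lit 304) (nat_lit 7282637468) (nat_lit 125) (nat_lit 5) (nat_lit 128) (nat_lit 5) (nat_lit 129) (nat_lit 5) (nat_lit 447) (nat_lit 405) (nat_lit 348)) (XT.lf (nat_lit 0) (nat_lit 452863500) (nat_lit 304) (nat_lit 10747987173) (nat_lit 76) (nat_lit 6697985137) (nat_lit 121) (nat_lit 5) (nat_lit 125) (nat_lit 5) (nat_lit 122) (nat_lit 5) (nat_lit 448) (nat_lit 405) (nat_lit 347)))) (XT.nd (nat_lit 156) (nat_lit 456) (nat_lit 0) (XT.nd (nat_lit 78) (nat_lit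 152) (nat_lit 0) (XT.lf (nat_lit 0) (nat_lit 8126370108) (nat_lit 228) (nat_lit 474301965) (nat_lit 304) (nat_lit 9851400836) (nat_lit 118) (nat_lit 5) (nat_lit 121) (nat_lit 5) (nat_lit 122) (nat_lit 5) (nat_lit 449) (nat_lit 405) (nat_lit 346)) (XT.lf (nat_lit 0) (nat_lit 9115173362) (nat_lit 152) (nat_lit 8286252998) (nat_lit 228) (nat_lit 1624182077) (nat_lit 116) (nat_lit 5) (nat_lit 118) (nat_lit 5) (nat_lit 119) (nat_lit 5) (nat_lit 450) (nat_lit 405) (nat_lit 345))) (XT.nd (nat_lit 78) (nat_lit 152) (nat_lit 0) (XT.lf (nat_lit 0) (nat_lit 7060941579) (nat_lit 304) (nat_lit 9502782351) (nat_lit 76) (nat_lit 3056574397) (nat_lit 112) (nat_lit 5) (nat_lit 116) (nat_lit 5) (nat_lit 113) (nat_lit 5) (nat_lit 451) (nat_lit 405) (nat_lit 344)) (XT.lf (nat_lit 0) (nat_lit 11134387055) (nat_lit 152) (nat_lit 5251534068) (nat_lit 228) (nat_lit 3851146295) (nat_lit 110) (nat_lit 5) (nat_lit 112) (nat_lit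 5) (nat_lit 113) (nat_lit 5) (nat_lit 452) (nat_lit 405) (nat_lit 343)))))) (XT.nd (nat_lit 468) (nat_lit 1216) (nat_lit 0) (XT.nd (nat_lit 234) (nat_lit 532) (nat_lit 0) (XT.nd (nat_lit 78) (nat_lit 380) (nat_lit 0) (XT.lf (nat_lit 0) (nat_lit 5417753577) (nat_lit 304) (nat_lit 8730002965) (nat_lit 76) (nat_lit 6728538195) (nat_lit 106) (nat_lit 5) (nat_lit 110) (nat_lit 5) (nat_lit 107) (nat_lit 5) (nat_lit 453) (nat_lit 405) (nat_lit 342)) (XT.nd (nat_lit 78) (nat_lit 228) (nat_lit 0) (XT.lf (nat_lit 0) (nat_lit 13176515170) (nat_lit 152) (nat_lit 2116684138) (nat_lit 228) (nat_lit 6246460260) (nat_lit 104) (nat_lit 5) (nat_lit 106) (nat_lit 5) (nat_lit 107) (nat_lit 5) (nat_lit 454) (nat_lit 405) (nat_lit 341)) (XT.lf (nat_lit 0) (nat_lit 3639566020) (nat_lit 228) (nat_lit 8050497418) (nat_lit 76) (nat_lit 10536737493) (nat_lit 101) (nat_lit 5) (nat_lit 104) (nat_lit 5) (nat_lit 102) (nat_lit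 5) (nat_lit 455) (nat_lit 405) (nat_lit 340)))) (XT.nd (nat_lit 78) (nat_lit 380) (nat_lit 0) (XT.lf (nat_lit 0) (nat_lit 14106927728) (nat_lit 228) (nat_lit 7755856804) (nat_lit 76) (nat_lit 1077175038) (nat_lit 99) (nat_lit 5) (nat_lit 102) (nat_lit 5) (nat_lit 100) (nat_lit 5) (nat_lit 456) (nat_lit 405) (nat_lit 339)) (XT.nd (nat_lit 78) (nat_lit 152) (nat_lit 0) (XT.lf (nat_lit 0) (nat_lit 1692870414) (nat_lit 228) (nat_lit 7523583522) (nat_lit 76) (nat_lit 14462573514) (nat_lit 96) (nat_lit 5) (nat_lit 99) (nat_lit 5) (nat_lit 97) (nat_lit 5) (nat_lit 457) (nat_lit 405) (nat_lit 338)) (XT.lf (nat_lit 0) (nat_lit 12803716464) (nat_lit 228) (nat_lit 7357451057) (nat_lit 76) (nat_lit 4284019594) (nat_lit 94) (nat_lit 5) (nat_lit 97) (nat_lit 5) (nat_lit 95) (nat_lit 5) (nat_lit 458) (nat_lit 405) (nat_lit 337))))) (XT.nd (nat_lit 234) (nat_lit 684) (nat_lit 0) (XT.nd (nat_lit 78) (nat_lit 380)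 (nat_lit 0) (XT.lf (nat_lit 0) (nat_lit 18013553417) (nat_lit 152) (nat_lit 6754400688) (nat_lit 228) (nat_lit 472767030) (nat_lit 92) (nat_lit 5) (nat_lit 94) (nat_lit 5) (nat_lit 95) (nat_lit 5) (nat_lit 459) (nat_lit 405) (nat_lit 336)) (XT.nd (nat_lit 78) (nat_lit 152) (nat_lit 0) (XT.lf (nat_lit 0) (nat_lit 11321136901) (nat_lit 228) (nat_lit 7229073951) (nat_lit 76) (nat_lit 7513985845) (nat_lit 89) (nat_lit 5) (nat_lit 92) (nat_lit 5) (nat_lit 90) (nat_lit 5) (nat_lit 460) (nat_lit 405) (nat_lit 335)) (XT.lf (nat_lit 0) (nat_lit 19653963852) (nat_lit 152) (nat_lit 4328817924) (nat_lit 228) (nat_lit 2937290767) (nat_lit 87) (nat_lit 5) (nat_lit 89) (nat_lit 5) (nat_lit 90) (nat_lit 5) (nat_lit 461) (nat_lit 405) (nat_lit 334)))) (XT.nd (nat_lit 156) (nat_lit 304) (nat_lit 0) (XT.nd (nat_lit 78) (nat_lit 152) (nat_lit 0) (XT.lf (nat_lit 0) (nat_lit 9607471657) (nat_lit 228) (nat_lit 7470734746)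 (nat_lit 76) (nat_lit 10727811196) (nat_lit 84) (nat_lit 5) (nat_lit 87) (nat_lit 5) (nat_lit 85) (nat_lit 5) (nat_lit 462) (nat_lit 405) (nat_lit 333)) (XT.lf (nat_lit 0) (nat_lit 20992096447) (nat_lit 152) (nat_lit 2005645302) (nat_lit 228) (nat_lit 5729276614) (nat_lit 82) (nat_lit 5) (nat_lit 84) (nat_lit 5) (nat_lit 85) (nat_lit 5) (nat_lit 463) (nat_lit 405) (nat_lit 332))) (XT.nd (nat_lit 78) (nat_lit 152) (nat_lit 0) (XT.lf (nat_lit 0) (nat_lit 7599585928) (nat_lit 152) (nat_lit 8204607461) (nat_lit 76) (nat_lit 13876359125) (nat_lit 80) (nat_lit 5) (nat_lit 82) (nat_lit 5) (nat_lit 81) (nat_lit 5) (nat_lit 464) (nat_lit 405) (nat_lit 331)) (XT.lf (nat_lit 0) (nat_lit 21749455326) (nat_lit 228) (nat_lit 8770550880) (nat_lit 76) (nat_lit 151865046) (nat_lit 78) (nat_lit 5) (nat_lit 81) (nat_lit 5) (nat_lit 79) (nat_lit 4) (nat_lit 465) (nat_lit 405) (nat_lit 330))))))))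
noncomputable def xc58 : XT := (XT.nd (nat_lit 1950) (nat_lit 532) (nat_lit 0) (XT.nd (nat_lit 936) (nat_lit 1216) (nat_lit 0) (XT.nd (nat_lit 468) (nat_lit 836) (nat_lit 0) (XT.nd (nat_lit 234) (nat_lit 456) (nat_lit 0) (XT.nd (nat_lit 78) (nat_lit 304) (nat_lit 0) (XT.lf (nat_lit 0) (nat_lit 5220819699) (nat_lit 152) (nat_lit 9579331043) (nat_lit 76) (nat_lit 16898527265) (nat_lit 76) (nat_lit 5) (nat_lit 78) (nat_lit 5) (nat_lit 77) (nat_lit 5) (nat_lit 466) (nat_lit 405) (nat_lit 329)) (XT.nd (nat_lit 78) (nat_lit 152) (nat_lit 0) (XT.lf (nat_lit 0) (nat_lit 20174282612) (nat_lit 228) (nat_lit 10552998772) (nat_lit 76) (nat_lit 2038266764) (nat_lit 74) (nat_lit 5) (nat_lit 77) (nat_lit 5) (nat_lit 75) (nat_lit 4) (nat_lit 467) (nat_lit 405) (nat_lit 328)) (XT.lf (nat_lit 0) (nat_lit 2378498066) (nat_lit 152) (nat_lit 11775074828) (nat_lit 76) (nat_lit 19718786161) (nat_lit 72) (nat_lit 5) (nat_lit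 74) (nat_lit 5) (nat_lit 73) (nat_lit 5) (nat_lit 468) (nat_lit 405) (nat_lit 327)))) (XT.nd (nat_lit 78) (nat_lit 304) (nat_lit 0) (XT.lf (nat_lit 0) (nat_lit 18155972389) (nat_lit 228) (nat_lit 13261159434) (nat_lit 76) (nat_lit 3604050807) (nat_lit 70) (nat_lit 5) (nat_lit 73) (nat_lit 5) (nat_lit 71) (nat_lit 4) (nat_lit 469) (nat_lit 405) (nat_lit 326)) (XT.nd (nat_lit 78) (nat_lit 228) (nat_lit 0) (XT.lf (nat_lit 0) (nat_lit 21194784735) (nat_lit 76) (nat_lit 13960005290) (nat_lit 152) (nat_lit 1059684205) (nat_lit 69) (nat_lit 5) (nat_lit 70) (nat_lit 5) (nat_lit 71) (nat_lit 4) (nat_lit 470) (nat_lit 405) (nat_lit 325)) (XT.lf (nat_lit 0) (nat_lit 15577281334) (nat_lit 228) (nat_lit 17134075064) (nat_lit 76) (nat_lit 4741264731) (nat_lit 66) (nat_lit 5) (nat_lit 69) (nat_lit 5) (nat_lit 67) (nat_lit 4) (nat_lit 471) (nat_lit 405) (nat_lit 324))))) (XT.nd (nat_lit 234) (nat_lit 456) (nat_lit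 0) (XT.nd (nat_lit 78) (nat_lit 304) (nat_lit 0) (XT.lf (nat_lit 0) (nat_lit 19143533487) (nat_lit 76) (nat_lit 14326899116) (nat_lit 152) (nat_lit 5268541234) (nat_lit 65) (nat_lit 5) (nat_lit 66) (nat_lit 5) (nat_lit 67) (nat_lit 4) (nat_lit 472) (nat_lit 405) (nat_lit 323)) (XT.nd (nat_lit 78) (nat_lit 76) (nat_lit 0) (XT.lf (nat_lit 0) (nat_lit 12296961412) (nat_lit 228) (nat_lit 22459272317) (nat_lit 76) (nat_lit 5318927532) (nat_lit 62) (nat_lit 5) (nat_lit 65) (nat_lit 5) (nat_lit 63) (nat_lit 4) (nat_lit 473) (nat_lit 405) (nat_lit 322)) (XT.lf (nat_lit 0) (nat_lit 15667065074) (nat_lit 76) (nat_lit 15431076187) (nat_lit 152) (nat_lit 10364461698) (nat_lit 61) (nat_lit 5) (nat_lit 62) (nat_lit 5) (nat_lit 63) (nat_lit 4) (nat_lit 474) (nat_lit 405) (nat_lit 321)))) (XT.nd (nat_lit 78) (nat_lit 228) (nat_lit 0) (XT.lf (nat_lit 0) (nat_lit 8145363111) (nat_lit 228) (nat_lit 29581720534) (nat_lit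 76) (nat_lit 5178651418) (nat_lit 58) (nat_lit 5) (nat_lit 61) (nat_lit 5) (nat_lit 59) (nat_lit 4) (nat_lit 475) (nat_lit 405) (nat_lit 320)) (XT.nd (nat_lit 78) (nat_lit 152) (nat_lit 0) (XT.lf (nat_lit 0) (nat_lit 10403826502) (nat_lit 76) (nat_lit 17456227395) (nat_lit 152) (nat_lit 16543080129) (nat_lit 57) (nat_lit 5) (nat_lit 58) (nat_lit 5) (nat_lit 59) (nat_lit 4) (nat_lit 476) (nat_lit 405) (nat_lit 319)) (XT.lf (nat_lit 0) (nat_lit 2919260741) (nat_lit 152) (nat_lit 38914365155) (nat_lit 76) (nat_lit 4129493291) (nat_lit 55) (nat_lit 5) (nat_lit 57) (nat_lit 5) (nat_lit 56) (nat_lit 4) (nat_lit 477) (nat_lit 405) (nat_lit 318)))))) (XT.nd (nat_lit 468) (nat_lit 684) (nat_lit 0) (XT.nd (nat_lit 234) (nat_lit 304) (nat_lit 0) (XT.nd (nat_lit 78) (nat_lit 152) (nat_lit 0) (XT.lf (nat_lit 0) (nat_lit 2919943565) (nat_lit 76) (nat_lit 20622653386) (nat_lit 152) (nat_lit 24037692994) (nat_lit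 54) (nat_lit 5) (nat_lit 55) (nat_lit 5) (nat_lit 56) (nat_lit 4) (nat_lit 478) (nat_lit 405) (nat_lit 317)) (XT.nd (nat_lit 78) (nat_lit 152) (nat_lit 0) (XT.lf (nat_lit 0) (nat_lit 45587270351) (nat_lit 152) (nat_lit 1685387368) (nat_lit 0) (nat_lit 1993956947) (nat_lit 54) (nat_lit 5) (nat_lit 56) (nat_lit 4) (nat_lit 54) (nat_lit 4) (nat_lit 479) (nat_lit 405) (nat_lit 316)) (XT.lf (nat_lit 0) (nat_lit 17960191251) (nat_lit 152) (nat_lit 7161480280) (nat_lit 76) (nat_lit 25892223171) (nat_lit 52) (nat_lit 5) (nat_lit 54) (nat_lit 5) (nat_lit 53) (nat_lit 4) (nat_lit 480) (nat_lit 405) (nat_lit 315)))) (XT.nd (nat_lit 78) (nat_lit 228) (nat_lit 0) (XT.lf (nat_lit 0) (nat_lit 39533829284) (nat_lit 76) (nat_lit 1441811256) (nat_lit 152) (nat_lit 11860704855) (nat_lit 51) (nat_lit 5) (nat_lit 52) (nat_lit 5) (nat_lit 53) (nat_lit 4) (nat_lit 481) (nat_lit 405) (nat_lit 314)) (XT.nd (nat_lit 78)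 (nat_lit 76) (nat_lit 0) (XT.lf (nat_lit 0) (nat_lit 10797344441) (nat_lit 152) (nat_lit 20480937298) (nat_lit 76) (nat_lit 23450394955) (nat_lit 49) (nat_lit 5) (nat_lit 51) (nat_lit 5) (nat_lit 50) (nat_lit 4) (nat_lit 482) (nat_lit 405) (nat_lit 313)) (XT.lf (nat_lit 0) (nat_lit 28102097017) (nat_lit 76) (nat_lit 6639078177) (nat_lit 152) (nat_lit 21958981500) (nat_lit 48) (nat_lit 5) (nat_lit 49) (nat_lit 5) (nat_lit 50) (nat_lit 4) (nat_lit 483) (nat_lit 405) (nat_lit 312))))) (XT.nd (nat_lit 234) (nat_lit 380) (nat_lit 0) (XT.nd (nat_lit 78) (nat_lit 152) (nat_lit 0) (XT.lf (nat_lit 0) (nat_lit 1668593934) (nat_lit 152) (nat_lit 37820849713) (nat_lit 76) (nat_lit 19263097579) (nat_lit 46) (nat_lit 5) (nat_lit 48) (nat_lit 5) (nat_lit 47) (nat_lit 4) (nat_lit 484) (nat_lit 405) (nat_lit 311)) (XT.nd (nat_lit 78) (nat_lit 76) (nat_lit 0) (XT.lf (nat_lit 0) (nat_lit 12539248577) (nat_lit 76)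 (nat_lit 13947227806) (nat_lit 152) (nat_lit 34400654286) (nat_lit 45) (nat_lit 5) (nat_lit 46) (nat_lit 5) (nat_lit 47) (nat_lit 4) (nat_lit 485) (nat_lit 405) (nat_lit 310)) (XT.lf (nat_lit 0) (nat_lit 2971542164) (nat_lit 76) (nat_lit 50093731013) (nat_lit 76) (nat_lit 10047576147) (nat_lit 44) (nat_lit 4) (nat_lit 45) (nat_lit 5) (nat_lit 45) (nat_lit 4) (nat_lit 486) (nat_lit 405) (nat_lit 309)))) (XT.nd (nat_lit 156) (nat_lit 228) (nat_lit 0) (XT.nd (nat_lit 78) (nat_lit 76) (nat_lit 0) (XT.lf (nat_lit 0) (nat_lit 15838679649) (nat_lit 152) (nat_lit 7911426237) (nat_lit 76) (nat_lit 41676718715) (nat_lit 43) (nat_lit 5) (nat_lit 45) (nat_lit 5) (nat_lit 44) (nat_lit 4) (nat_lit 487) (nat_lit 405) (nat_lit 308)) (XT.lf (nat_lit 0) (nat_lit 43291172178) (nat_lit 152) (nat_lit 20170263697) (nat_lit 0) (nat_lit 4377686944) (nat_lit 42) (nat_lit 5) (nat_lit 44) (nat_lit 4) (nat_lit 42) (nat_lit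 4) (nat_lit 488) (nat_lit 405) (nat_lit 307))) (XT.nd (nat_lit 78) (nat_lit 76) (nat_lit 0) (XT.lf (nat_lit 0) (nat_lit 2363706085) (nat_lit 152) (nat_lit 34130828884) (nat_lit 76) (nat_lit 33857393579) (nat_lit 40) (nat_lit 5) (nat_lit 42) (nat_lit 5) (nat_lit 41) (nat_lit 4) (nat_lit 489) (nat_lit 405) (nat_lit 306)) (XT.lf (nat_lit 0) (nat_lit 23024025771) (nat_lit 76) (nat_lit 7502131355) (nat_lit 152) (nat_lit 42444539214) (nat_lit 39) (nat_lit 5) (nat_lit 40) (nat_lit 5) (nat_lit 41) (nat_lit 4) (nat_lit 490) (nat_lit 405) (nat_lit 305))))))) (XT.nd (nat_lit 56316) (nat_lit 0) (nat_lit 16720) (XT.nd (nat_lit 468) (nat_lit 76) (nat_lit 0) (XT.nd (nat_lit 234) (nat_lit 228) (nat_lit 0) (XT.nd (nat_lit 78) (nat_lit 152) (nat_lit 0) (XT.lf (nat_lit 0) (nat_lit 7926690712) (nat_lit 76) (nat_lit 52799206703) (nat_lit 76) (nat_lit 14975630362) (nat_lit 38) (nat_lit 4) (nat_lit 39) (nat_lit 5) (nat_lit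 39) (nat_lit 4) (nat_lit 491) (nat_lit 405) (nat_lit 304)) (XT.nd (nat_lit 78) (nat_lit 76) (nat_lit 0) (XT.lf (nat_lit 0) (nat_lit 14169174499) (nat_lit 152) (nat_lit 9073291667) (nat_lit 76) (nat_lit 55305244784) (nat_lit 37) (nat_lit 5) (nat_lit 39) (nat_lit 5) (nat_lit 38) (nat_lit 4) (nat_lit 492) (nat_lit 405) (nat_lit 303)) (XT.lf (nat_lit 0) (nat_lit 45038225862) (nat_lit 152) (nat_lit 28184826838) (nat_lit 0) (nat_lit 8291400843) (nat_lit 36) (nat_lit 5) (nat_lit 38) (nat_lit 4) (nat_lit 36) (nat_lit 4) (nat_lit 493) (nat_lit 405) (nat_lit 302)))) (XT.nd (nat_lit 78) (nat_lit 152) (nat_lit 0) (XT.lf (nat_lit 0) (nat_lit 34819142533) (nat_lit 76) (nat_lit 43274746025) (nat_lit 76) (nat_lit 6516350162) (nat_lit 35) (nat_lit 4) (nat_lit 36) (nat_lit 5) (nat_lit 36) (nat_lit 4) (nat_lit 494) (nat_lit 405) (nat_lit 301)) (XT.nd (nat_lit 78) (nat_lit 0) (nat_lit 0) (XT.lf (nat_lit 0) (nat_lit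 13695202875) (nat_lit 76) (nat_lit 11164215149) (nat_lit 152) (nat_lit 62982064864) (nat_lit 33) (nat_lit 5) (nat_lit 34) (nat_lit 5) (nat_lit 35) (nat_lit 4) (nat_lit 495) (nat_lit 405) (nat_lit 300)) (XT.lf (nat_lit 0) (nat_lit 58385213174) (nat_lit 152) (nat_lit 10149098629) (nat_lit 0) (nat_lit 22676561901) (nat_lit 33) (nat_lit 5) (nat_lit 35) (nat_lit 4) (nat_lit 33) (nat_lit 4) (nat_lit 496) (nat_lit 405) (nat_lit 299))))) (XT.nd (nat_lit 55536) (nat_lit 0) (nat_lit 26372) (XT.nd (nat_lit 55380) (nat_lit 0) (nat_lit 27056) (XT.lf (nat_lit 0) (nat_lit 58030633590) (nat_lit 76) (nat_lit 36208451262) (nat_lit 76) (nat_lit 490095786) (nat_lit 32) (nat_lit 4) (nat_lit 33) (nat_lit 5) (nat_lit 33) (nat_lit 4) (nat_lit 497) (nat_lit 405) (nat_lit 298)) (XT.nd (nat_lit 78) (nat_lit 684) (nat_lit 0) (XT.lf (nat_lit 0) (nat_lit 2494459894) (nat_lit 684) (nat_lit 467232424) (nat_lit 684) (nat_lit 467232424)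 (nat_lit 397) (nat_lit 3) (nat_lit 406) (nat_lit 3) (nat_lit 406) (nat_lit 5) (nat_lit 406) (nat_lit 406) (nat_lit 388)) (XT.lf (nat_lit 0) (nat_lit 1402389632) (nat_lit 684) (nat_lit 2147613718) (nat_lit 760) (nat_lit 3380808011) (nat_lit 388) (nat_lit 5) (nat_lit 397) (nat_lit 3) (nat_lit 398) (nat_lit 5) (nat_lit 407) (nat_lit 406) (nat_lit 387)))) (XT.nd (nat_lit 156) (nat_lit 0) (nat_lit 0) (XT.nd (nat_lit 78) (nat_lit 684) (nat_lit 0) (XT.lf (nat_lit 76) (nat_lit 3741333519) (nat_lit 0) (nat_lit 895259716) (nat_lit 760) (nat_lit 2375173341) (nat_lit 389) (nat_lit 5) (nat_lit 388) (nat_lit 5) (nat_lit 398) (nat_lit 5) (nat_lit 408) (nat_lit 406) (nat_lit 386)) (XT.lf (nat_lit 0) (nat_lit 785185372) (nat_lit 760) (nat_lit 4314349282) (nat_lit 836) (nat_lit 2000970344) (nat_lit 379) (nat_lit 5) (nat_lit 389) (nat_lit 5) (nat_lit 390) (nat_lit 5) (nat_lit 409) (nat_lit 406) (nat_lit 385))) (XT.nd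 (nat_lit 78) (nat_lit 0) (nat_lit 76) (XT.lf (nat_lit 76) (nat_lit 1909083899) (nat_lit 0) (nat_lit 2015315873) (nat_lit 836) (nat_lit 3272511051) (nat_lit 380) (nat_lit 5) (nat_lit 379) (nat_lit 5) (nat_lit 390) (nat_lit 5) (nat_lit 410) (nat_lit 406) (nat_lit 384)) (XT.lf (nat_lit 76) (nat_lit 1127876528) (nat_lit 0) (nat_lit 5977002950) (nat_lit 836) (nat_lit 196761444) (nat_lit 381) (nat_lit 5) (nat_lit 380) (nat_lit 5) (nat_lit 391) (nat_lit 5) (nat_lit 411) (nat_lit 406) (nat_lit 383)))))) (XT.nd (nat_lit 468) (nat_lit 6156) (nat_lit 0) (XT.nd (nat_lit 234) (nat_lit 1900) (nat_lit 0) (XT.nd (nat_lit 78) (nat_lit 836) (nat_lit 0) (XT.lf (nat_lit 76) (nat_lit 403607948) (nat_lit 0) (nat_lit 2471875322) (nat_lit 912) (nat_lit 4538223655) (nat_lit 370) (nat_lit 5) (nat_lit 369) (nat_lit 5) (nat_lit 381) (nat_lit 5) (nat_lit 412) (nat_lit 406) (nat_lit 382)) (XT.nd (nat_lit 78) (nat_lit 912) (nat_lit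 0) (XT.lf (nat_lit 0) (nat_lit 6003655531) (nat_lit 836) (nat_lit 226200275) (nat_lit 912) (nat_lit 1304299607) (nat_lit 370) (nat_lit 5) (nat_lit 381) (nat_lit 5) (nat_lit 382) (nat_lit 5) (nat_lit 413) (nat_lit 406) (nat_lit 381)) (XT.lf (nat_lit 0) (nat_lit 1524931750) (nat_lit 912) (nat_lit 786883155) (nat_lit 988) (nat_lit 5350496556) (nat_lit 358) (nat_lit 5) (nat_lit 370) (nat_lit 5) (nat_lit 371) (nat_lit 5) (nat_lit 414) (nat_lit 406) (nat_lit 380)))) (XT.nd (nat_lit 78) (nat_lit 1976) (nat_lit 0) (XT.lf (nat_lit 0) (nat_lit 4629141517) (nat_lit 912) (nat_lit 1280948495) (nat_lit 76) (nat_lit 1888526592) (nat_lit 359) (nat_lit 5) (nat_lit 371) (nat_lit 5) (nat_lit 360) (nat_lit 5) (nat_lit 415) (nat_lit 406) (nat_lit 379)) (XT.nd (nat_lit 78) (nat_lit 1064) (nat_lit 0) (XT.lf (nat_lit 0) (nat_lit 6243837019) (nat_lit 912) (nat_lit 1586653301) (nat_lit 988) (nat_lit 113013289) (nat_lit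 347) (nat_lit 5) (nat_lit 359) (nat_lit 5) (nat_lit 360) (nat_lit 5) (nat_lit 416) (nat_lit 406) (nat_lit 378)) (XT.lf (nat_lit 0) (nat_lit 2991949486) (nat_lit 1064) (nat_lit 2078659391) (nat_lit 76) (nat_lit 3025472889) (nat_lit 333) (nat_lit 5) (nat_lit 347) (nat_lit 5) (nat_lit 334) (nat_lit 5) (nat_lit 417) (nat_lit 406) (nat_lit 377))))) (XT.nd (nat_lit 234) (nat_lit 2660) (nat_lit 0) (XT.nd (nat_lit 78) (nat_lit 2432) (nat_lit 0) (XT.lf (nat_lit 0) (nat_lit 5879881605) (nat_lit 1064) (nat_lit 321218109) (nat_lit 1140) (nat_lit 2056638792) (nat_lit 319) (nat_lit 5) (nat_lit 333) (nat_lit 5) (nat_lit 334) (nat_lit 5) (nat_lit 418) (nat_lit 406) (nat_lit 376)) (XT.nd (nat_lit 78) (nat_lit 1216) (nat_lit 0) (XT.lf (nat_lit 0) (nat_lit 1109780983) (nat_lit 1216) (nat_lit 2636071113) (nat_lit 76) (nat_lit 4681650419) (nat_lit 303) (nat_lit 5) (nat_lit 319) (nat_lit 5) (nat_lit 304) (nat_lit 5)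 (nat_lit 419) (nat_lit 406) (nat_lit 375)) (XT.lf (nat_lit 0) (nat_lit 4360480983) (nat_lit 1292) (nat_lit 2835532088) (nat_lit 76) (nat_lit 1410094930) (nat_lit 287) (nat_lit 5) (nat_lit 304) (nat_lit 5) (nat_lit 288) (nat_lit 5) (nat_lit 420) (nat_lit 406) (nat_lit 374)))) (XT.nd (nat_lit 156) (nat_lit 1216) (nat_lit 0) (XT.nd (nat_lit 78) (nat_lit 684) (nat_lit 0) (XT.lf (nat_lit 0) (nat_lit 5817101674) (nat_lit 760) (nat_lit 1953602199) (nat_lit 836) (nat_lit 1023048317) (nat_lit 277) (nat_lit 5) (nat_lit 287) (nat_lit 5) (nat_lit 288) (nat_lit 5) (nat_lit 421) (nat_lit 406) (nat_lit 373)) (XT.lf (nat_lit 0) (nat_lit 2315961267) (nat_lit 684) (nat_lit 3078757745) (nat_lit 76) (nat_lit 3595354512) (nat_lit 268) (nat_lit 5) (nat_lit 277) (nat_lit 5) (nat_lit 269) (nat_lit 5) (nat_lit 422) (nat_lit 406) (nat_lit 372))) (XT.nd (nat_lit 78) (nat_lit 608) (nat_lit 0) (XT.lf (nat_lit 0) (nat_lit 5796979038)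 (nat_lit 684) (nat_lit 3117292226) (nat_lit 76) (nat_lit 281765217) (nat_lit 260) (nat_lit 5) (nat_lit 269) (nat_lit 5) (nat_lit 261) (nat_lit 5) (nat_lit 423) (nat_lit 406) (nat_lit 371)) (XT.lf (nat_lit 0) (nat_lit 74839162) (nat_lit 608) (nat_lit 3114037285) (nat_lit 76) (nat_lit 6222348444) (nat_lit 252) (nat_lit 5) (nat_lit 260) (nat_lit 5) (nat_lit 253) (nat_lit 5) (nat_lit 424) (nat_lit 406) (nat_lit 370))))))))
noncomputable def xc59 : XT := (XT.nd (nat_lit 1950) (nat_lit 4560) (nat_lit 0) (XT.nd (nat_lit 936) (nat_lit 3952) (nat_lit 0) (XT.nd (nat_lit 468) (nat_lit 2888) (nat_lit 0) (XT.nd (nat_lit 234) (nat_lit 1444) (nat_lit 0) (XT.nd (nat_lit 78) (nat_lit 1140) (nat_lit 0) (XT.lf (nat_lit 0) (nat_lit 3668548018) (nat_lit 608) (nat_lit 3075712958) (nat_lit 76) (nat_lit 2891423680) (nat_lit 245) (nat_lit 5) (nat_lit 253) (nat_lit 5) (nat_lit 246) (nat_lit 5) (nat_lit 425) (nat_lit 406)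 (nat_lit 369)) (XT.nd (nat_lit 78) (nat_lit 608) (nat_lit 0) (XT.lf (nat_lit 0) (nat_lit 6898624764) (nat_lit 532) (nat_lit 569851529) (nat_lit 608) (nat_lit 2402108441) (nat_lit 238) (nat_lit 5) (nat_lit 245) (nat_lit 5) (nat_lit 246) (nat_lit 5) (nat_lit 426) (nat_lit 406) (nat_lit 368)) (XT.lf (nat_lit 0) (nat_lit 1373883215) (nat_lit 608) (nat_lit 2839632318) (nat_lit 76) (nat_lit 5901573360) (nat_lit 230) (nat_lit 5) (nat_lit 238) (nat_lit 5) (nat_lit 231) (nat_lit 5) (nat_lit 427) (nat_lit 406) (nat_lit 367)))) (XT.nd (nat_lit 78) (nat_lit 988) (nat_lit 0) (XT.lf (nat_lit 0) (nat_lit 5325973123) (nat_lit 532) (nat_lit 2661101159) (nat_lit 76) (nat_lit 2382932893) (nat_lit 224) (nat_lit 5) (nat_lit 231) (nat_lit 5) (nat_lit 225) (nat_lit 5) (nat_lit 428) (nat_lit 406) (nat_lit 366)) (XT.nd (nat_lit 78) (nat_lit 532) (nat_lit 0) (XT.lf (nat_lit 0) (nat_lit 8211345165) (nat_lit 456) (nat_lit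 1320909585) (nat_lit 532) (nat_lit 1103730195) (nat_lit 218) (nat_lit 5) (nat_lit 224) (nat_lit 5) (nat_lit 225) (nat_lit 5) (nat_lit 429) (nat_lit 406) (nat_lit 365)) (XT.lf (nat_lit 0) (nat_lit 3050558473) (nat_lit 532) (nat_lit 2170803293) (nat_lit 76) (nat_lit 5690750386) (nat_lit 211) (nat_lit 5) (nat_lit 218) (nat_lit 5) (nat_lit 212) (nat_lit 5) (nat_lit 430) (nat_lit 406) (nat_lit 364))))) (XT.nd (nat_lit 234) (nat_lit 1520) (nat_lit 0) (XT.nd (nat_lit 78) (nat_lit 912) (nat_lit 0) (XT.lf (nat_lit 0) (nat_lit 7448307699) (nat_lit 532) (nat_lit 1857544581) (nat_lit 76) (nat_lit 1894118266) (nat_lit 205) (nat_lit 5) (nat_lit 212) (nat_lit 5) (nat_lit 206) (nat_lit 5) (nat_lit 431) (nat_lit 406) (nat_lit 363)) (XT.nd (nat_lit 78) (nat_lit 456) (nat_lit 0) (XT.lf (nat_lit 0) (nat_lit 639254979) (nat_lit 456) (nat_lit 1498947001) (nat_lit 76) (nat_lit 9361270443) (nat_lit 199) (nat_lit 5) (nat_lit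 205) (nat_lit 5) (nat_lit 200) (nat_lit 5) (nat_lit 432) (nat_lit 406) (nat_lit 362)) (XT.lf (nat_lit 0) (nat_lit 5264986442) (nat_lit 532) (nat_lit 1125339145) (nat_lit 76) (nat_lit 5419732395) (nat_lit 193) (nat_lit 5) (nat_lit 200) (nat_lit 5) (nat_lit 194) (nat_lit 5) (nat_lit 433) (nat_lit 406) (nat_lit 361)))) (XT.nd (nat_lit 78) (nat_lit 1140) (nat_lit 0) (XT.lf (nat_lit 0) (nat_lit 10200862837) (nat_lit 456) (nat_lit 679322110) (nat_lit 76) (nat_lit 1253630384) (nat_lit 188) (nat_lit 5) (nat_lit 194) (nat_lit 5) (nat_lit 189) (nat_lit 5) (nat_lit 434) (nat_lit 406) (nat_lit 360)) (XT.nd (nat_lit 78) (nat_lit 684) (nat_lit 0) (XT.lf (nat_lit 0) (nat_lit 2970142496) (nat_lit 456) (nat_lit 217997069) (nat_lit 76) (nat_lit 9281275004) (nat_lit 182) (nat_lit 5) (nat_lit 188) (nat_lit 5) (nat_lit 183) (nat_lit 5) (nat_lit 435) (nat_lit 406) (nat_lit 359)) (XT.lf (nat_lit 0) (nat_lit 290830035)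 (nat_lit 380) (nat_lit 7896200043) (nat_lit 456) (nat_lit 4630938399) (nat_lit 173) (nat_lit 5) (nat_lit 178) (nat_lit 5) (nat_lit 179) (nat_lit 5) (nat_lit 436) (nat_lit 406) (nat_lit 358)))))) (XT.nd (nat_lit 468) (nat_lit 1900) (nat_lit 0) (XT.nd (nat_lit 234) (nat_lit 1064) (nat_lit 0) (XT.nd (nat_lit 78) (nat_lit 608) (nat_lit 0) (XT.lf (nat_lit 0) (nat_lit 573575830) (nat_lit 380) (nat_lit 12304942339) (nat_lit 76) (nat_lit 302235597) (nat_lit 168) (nat_lit 5) (nat_lit 173) (nat_lit 5) (nat_lit 169) (nat_lit 5) (nat_lit 437) (nat_lit 406) (nat_lit 357)) (XT.nd (nat_lit 78) (nat_lit 304) (nat_lit 0) (XT.lf (nat_lit 0) (nat_lit 1446581787) (nat_lit 304) (nat_lit 4647298000) (nat_lit 380) (nat_lit 7461889248) (nat_lit 164) (nat_lit 5) (nat_lit 168) (nat_lit 5) (nat_lit 169) (nat_lit 5) (nat_lit 438) (nat_lit 406) (nat_lit 356)) (XT.lf (nat_lit 0) (nat_lit 2092694251) (nat_lit 304) (nat_lit 9912744464)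 (nat_lit 380) (nat_lit 1940645262) (nat_lit 160) (nat_lit 5) (nat_lit 164) (nat_lit 5) (nat_lit 165) (nat_lit 5) (nat_lit 439) (nat_lit 406) (nat_lit 355)))) (XT.nd (nat_lit 78) (nat_lit 684) (nat_lit 0) (XT.lf (nat_lit 0) (nat_lit 2770462390) (nat_lit 304) (nat_lit 1140878486) (nat_lit 380) (nat_lit 10439569138) (nat_lit 155) (nat_lit 5) (nat_lit 159) (nat_lit 5) (nat_lit 160) (nat_lit 5) (nat_lit 440) (nat_lit 406) (nat_lit 354)) (XT.nd (nat_lit 78) (nat_lit 380) (nat_lit 0) (XT.lf (nat_lit 0) (nat_lit 3467547119) (nat_lit 304) (nat_lit 6715272720) (nat_lit 380) (nat_lit 4587575588) (nat_lit 151) (nat_lit 5) (nat_lit 155) (nat_lit 5) (nat_lit 156) (nat_lit 5) (nat_lit 441) (nat_lit 406) (nat_lit 353)) (XT.lf (nat_lit 0) (nat_lit 1658809866) (nat_lit 380) (nat_lit 10975369596) (nat_lit 76) (nat_lit 2572266351) (nat_lit 146) (nat_lit 5) (nat_lit 151) (nat_lit 5) (nat_lit 147) (nat_lit 5) (nat_lit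 442) (nat_lit 406) (nat_lit 352))))) (XT.nd (nat_lit 234) (nat_lit 1064) (nat_lit 0) (XT.nd (nat_lit 78) (nat_lit 608) (nat_lit 0) (XT.lf (nat_lit 0) (nat_lit 4999707764) (nat_lit 228) (nat_lit 3293146686) (nat_lit 304) (nat_lit 7364979817) (nat_lit 143) (nat_lit 5) (nat_lit 146) (nat_lit 5) (nat_lit 147) (nat_lit 5) (nat_lit 443) (nat_lit 406) (nat_lit 351)) (XT.nd (nat_lit 78) (nat_lit 304) (nat_lit 0) (XT.lf (nat_lit 0) (nat_lit 5826060007) (nat_lit 304) (nat_lit 9603043878) (nat_lit 380) (nat_lit 697577689) (nat_lit 139) (nat_lit 5) (nat_lit 143) (nat_lit 5) (nat_lit 144) (nat_lit 5) (nat_lit 444) (nat_lit 406) (nat_lit 350)) (XT.lf (nat_lit 0) (nat_lit 6331057362) (nat_lit 304) (nat_lit 9935949690) (nat_lit 76) (nat_lit 345624831) (nat_lit 135) (nat_lit 5) (nat_lit 139) (nat_lit 5) (nat_lit 136) (nat_lit 5) (nat_lit 445) (nat_lit 406) (nat_lit 349)))) (XT.nd (nat_lit 156) (nat_lit 532) (nat_lit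 0) (XT.nd (nat_lit 78) (nat_lit 304) (nat_lit 0) (XT.lf (nat_lit 0) (nat_lit 7545200685) (nat_lit 228) (nat_lit 6369041356) (nat_lit 304) (nat_lit 3201908089) (nat_lit 132) (nat_lit 5) (nat_lit 135) (nat_lit 5) (nat_lit 136) (nat_lit 5) (nat_lit 446) (nat_lit 406) (nat_lit 348)) (XT.lf (nat_lit 0) (nat_lit 4316925207) (nat_lit 304) (nat_lit 9183846977) (nat_lit 76) (nat_lit 4137822633) (nat_lit 128) (nat_lit 5) (nat_lit 132) (nat_lit 5) (nat_lit 129) (nat_lit 5) (nat_lit 447) (nat_lit 406) (nat_lit 347))) (XT.nd (nat_lit 78) (nat_lit 304) (nat_lit 0) (XT.lf (nat_lit 0) (nat_lit 9390705741) (nat_lit 228) (nat_lit 2953204036) (nat_lit 304) (nat_lit 5836351495) (nat_lit 125) (nat_lit 5) (nat_lit 128) (nat_lit 5) (nat_lit 129) (nat_lit 5) (nat_lit 448) (nat_lit 406) (nat_lit 346)) (XT.lf (nat_lit 0) (nat_lit 2204395453) (nat_lit 304) (nat_lit 8392093912) (nat_lit 76) (nat_lit 8145322156) (nat_lit 121)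 (nat_lit 5) (nat_lit 125) (nat_lit 5) (nat_lit 122) (nat_lit 5) (nat_lit 449) (nat_lit 406) (nat_lit 345))))))) (XT.nd (nat_lit 1014) (nat_lit 1976) (nat_lit 0) (XT.nd (nat_lit 468) (nat_lit 1292) (nat_lit 0) (XT.nd (nat_lit 234) (nat_lit 608) (nat_lit 0) (XT.nd (nat_lit 78) (nat_lit 456) (nat_lit 0) (XT.lf (nat_lit 0) (nat_lit 10710421482) (nat_lit 304) (nat_lit 7987469217) (nat_lit 76) (nat_lit 626299700) (nat_lit 118) (nat_lit 5) (nat_lit 122) (nat_lit 5) (nat_lit 119) (nat_lit 5) (nat_lit 450) (nat_lit 406) (nat_lit 344)) (XT.nd (nat_lit 78) (nat_lit 304) (nat_lit 0) (XT.lf (nat_lit 0) (nat_lit 12338976529) (nat_lit 152) (nat_lit 7563417905) (nat_lit 228) (nat_lit 25477349) (nat_lit 116) (nat_lit 5) (nat_lit 118) (nat_lit 5) (nat_lit 119) (nat_lit 5) (nat_lit 451) (nat_lit 406) (nat_lit 343)) (XT.lf (nat_lit 0) (nat_lit 9019660392) (nat_lit 304) (nat_lit 7220188630) (nat_lit 76) (nat_lit 4313210692)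 (nat_lit 112) (nat_lit 5) (nat_lit 116) (nat_lit 5) (nat_lit 113) (nat_lit 5) (nat_lit 452) (nat_lit 406) (nat_lit 342)))) (XT.nd (nat_lit 78) (nat_lit 456) (nat_lit 0) (XT.lf (nat_lit 0) (nat_lit 14369789388) (nat_lit 152) (nat_lit 4390388106) (nat_lit 228) (nat_lit 2442015078) (nat_lit 110) (nat_lit 5) (nat_lit 112) (nat_lit 5) (nat_lit 113) (nat_lit 5) (nat_lit 453) (nat_lit 406) (nat_lit 341)) (XT.nd (nat_lit 78) (nat_lit 152) (nat_lit 0) (XT.lf (nat_lit 0) (nat_lit 7220279349) (nat_lit 304) (nat_lit 6499151532) (nat_lit 76) (nat_lit 8154656026) (nat_lit 106) (nat_lit 5) (nat_lit 110) (nat_lit 5) (nat_lit 107) (nat_lit 5) (nat_lit 454) (nat_lit 406) (nat_lit 340)) (XT.lf (nat_lit 0) (nat_lit 16426233412) (nat_lit 152) (nat_lit 1115234051) (nat_lit 228) (nat_lit 5030596911) (nat_lit 104) (nat_lit 5) (nat_lit 106) (nat_lit 5) (nat_lit 107) (nat_lit 5) (nat_lit 455) (nat_lit 406) (nat_lit 339)))))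 (XT.nd (nat_lit 234) (nat_lit 684) (nat_lit 0) (XT.nd (nat_lit 78) (nat_lit 380) (nat_lit 0) (XT.lf (nat_lit 0) (nat_lit 5283547754) (nat_lit 228) (nat_lit 5874274266) (nat_lit 76) (nat_lit 12136394197) (nat_lit 101) (nat_lit 5) (nat_lit 104) (nat_lit 5) (nat_lit 102) (nat_lit 5) (nat_lit 456) (nat_lit 406) (nat_lit 338)) (XT.nd (nat_lit 78) (nat_lit 228) (nat_lit 0) (XT.lf (nat_lit 0) (nat_lit 16239198328) (nat_lit 228) (nat_lit 5606727517) (nat_lit 76) (nat_lit 2198162398) (nat_lit 99) (nat_lit 5) (nat_lit 102) (nat_lit 5) (nat_lit 100) (nat_lit 5) (nat_lit 457) (nat_lit 406) (nat_lit 337)) (XT.lf (nat_lit 0) (nat_lit 3173924024) (nat_lit 228) (nat_lit 5407712698) (nat_lit 76) (nat_lit 16239392859) (nat_lit 96) (nat_lit 5) (nat_lit 99) (nat_lit 5) (nat_lit 97) (nat_lit 5) (nat_lit 458) (nat_lit 406) (nat_lit 336)))) (XT.nd (nat_lit 156) (nat_lit 304) (nat_lit 0) (XT.nd (nat_lit 78) (nat_lit 228)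 (nat_lit 0) (XT.lf (nat_lit 0) (nat_lit 14807345918) (nat_lit 228) (nat_lit 5274318831) (nat_lit 76) (nat_lit 5544824186) (nat_lit 94) (nat_lit 5) (nat_lit 97) (nat_lit 5) (nat_lit 95) (nat_lit 5) (nat_lit 459) (nat_lit 406) (nat_lit 335)) (XT.lf (nat_lit 0) (nat_lit 847818051) (nat_lit 228) (nat_lit 5176397095) (nat_lit 76) (nat_lit 20438598955) (nat_lit 91) (nat_lit 5) (nat_lit 94) (nat_lit 5) (nat_lit 92) (nat_lit 5) (nat_lit 460) (nat_lit 406) (nat_lit 334))) (XT.nd (nat_lit 78) (nat_lit 152) (nat_lit 0) (XT.lf (nat_lit 0) (nat_lit 13190702892) (nat_lit 228) (nat_lit 5223369180) (nat_lit 76) (nat_lit 8914181432) (nat_lit 89) (nat_lit 5) (nat_lit 92) (nat_lit 5) (nat_lit 90) (nat_lit 5) (nat_lit 461) (nat_lit 406) (nat_lit 333)) (XT.lf (nat_lit 0) (nat_lit 22935966391) (nat_lit 152) (nat_lit 3509494077) (nat_lit 228) (nat_lit 1782664036) (nat_lit 87) (nat_lit 5) (nat_lit 89) (nat_lit 5) (nat_lit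 90) (nat_lit 5) (nat_lit 462) (nat_lit 406) (nat_lit 332)))))) (XT.nd (nat_lit 468) (nat_lit 988) (nat_lit 0) (XT.nd (nat_lit 234) (nat_lit 456) (nat_lit 0) (XT.nd (nat_lit 78) (nat_lit 304) (nat_lit 0) (XT.lf (nat_lit 0) (nat_lit 11334694802) (nat_lit 228) (nat_lit 5558826648) (nat_lit 76) (nat_lit 12265349491) (nat_lit 84) (nat_lit 5) (nat_lit 87) (nat_lit 5) (nat_lit 85) (nat_lit 5) (nat_lit 463) (nat_lit 406) (nat_lit 331)) (XT.nd (nat_lit 78) (nat_lit 152) (nat_lit 0) (XT.lf (nat_lit 0) (nat_lit 24261634287) (nat_lit 152) (nat_lit 1094809677) (nat_lit 228) (nat_lit 4770620815) (nat_lit 82) (nat_lit 5) (nat_lit 84) (nat_lit 5) (nat_lit 85) (nat_lit 5) (nat_lit 464) (nat_lit 406) (nat_lit 330)) (XT.lf (nat_lit 0) (nat_lit 9172785539) (nat_lit 152) (nat_lit 6408931331) (nat_lit 76) (nat_lit 15547029629) (nat_lit 80) (nat_lit 5) (nat_lit 82) (nat_lit 5) (nat_lit 81) (nat_lit 5) (nat_lit 465) (nat_lit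 406) (nat_lit 329)))) (XT.nd (nat_lit 78) (nat_lit 304) (nat_lit 0) (XT.lf (nat_lit 0) (nat_lit 24003400028) (nat_lit 228) (nat_lit 7041133546) (nat_lit 76) (nat_lit 1125901814) (nat_lit 78) (nat_lit 5) (nat_lit 81) (nat_lit 5) (nat_lit 79) (nat_lit 4) (nat_lit 466) (nat_lit 406) (nat_lit 328)) (XT.nd (nat_lit 78) (nat_lit 152) (nat_lit 0) (XT.lf (nat_lit 0) (nat_lit 6624261201) (nat_lit 152) (nat_lit 7929727802) (nat_lit 76) (nat_lit 18695318279) (nat_lit 76) (nat_lit 5) (nat_lit 78) (nat_lit 5) (nat_lit 77) (nat_lit 5) (nat_lit 467) (nat_lit 406) (nat_lit 327)) (XT.lf (nat_lit 0) (nat_lit 22300096864) (nat_lit 228) (nat_lit 8989051662) (nat_lit 76) (nat_lit 3081132968) (nat_lit 74) (nat_lit 5) (nat_lit 77) (nat_lit 5) (nat_lit 75) (nat_lit 4) (nat_lit 468) (nat_lit 406) (nat_lit 326))))) (XT.nd (nat_lit 234) (nat_lit 608) (nat_lit 0) (XT.nd (nat_lit 78) (nat_lit 228) (nat_lit 0) (XT.lf (nat_lit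 0) (nat_lit 3591613304) (nat_lit 152) (nat_lit 10310381480) (nat_lit 76) (nat_lit 21631127797) (nat_lit 72) (nat_lit 5) (nat_lit 74) (nat_lit 5) (nat_lit 73) (nat_lit 5) (nat_lit 469) (nat_lit 406) (nat_lit 325)) (XT.nd (nat_lit 78) (nat_lit 76) (nat_lit 0) (XT.lf (nat_lit 0) (nat_lit 20134001920) (nat_lit 228) (nat_lit 11906738542) (nat_lit 76) (nat_lit 4699367023) (nat_lit 70) (nat_lit 5) (nat_lit 73) (nat_lit 5) (nat_lit 71) (nat_lit 4) (nat_lit 470) (nat_lit 406) (nat_lit 324)) (XT.lf (nat_lit 0) (nat_lit 24214172209) (nat_lit 76) (nat_lit 13736462190) (nat_lit 152) (nat_lit 43394350) (nat_lit 69) (nat_lit 5) (nat_lit 70) (nat_lit 5) (nat_lit 71) (nat_lit 4) (nat_lit 471) (nat_lit 406) (nat_lit 323)))) (XT.nd (nat_lit 156) (nat_lit 304) (nat_lit 0) (XT.nd (nat_lit 78) (nat_lit 76) (nat_lit 0) (XT.lf (nat_lit 0) (nat_lit 17381838905) (nat_lit 228) (nat_lit 16045194887) (nat_lit 76) (nat_lit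 5867423505) (nat_lit 66) (nat_lit 5) (nat_lit 69) (nat_lit 5) (nat_lit 67) (nat_lit 4) (nat_lit 472) (nat_lit 406) (nat_lit 322)) (XT.lf (nat_lit 0) (nat_lit 21990524319) (nat_lit 76) (nat_lit 14148446920) (nat_lit 152) (nat_lit 4507077842) (nat_lit 65) (nat_lit 5) (nat_lit 66) (nat_lit 5) (nat_lit 67) (nat_lit 4) (nat_lit 473) (nat_lit 406) (nat_lit 321))) (XT.nd (nat_lit 78) (nat_lit 76) (nat_lit 0) (XT.lf (nat_lit 0) (nat_lit 13895142145) (nat_lit 228) (nat_lit 21706339112) (nat_lit 76) (nat_lit 6447916879) (nat_lit 62) (nat_lit 5) (nat_lit 65) (nat_lit 5) (nat_lit 63) (nat_lit 4) (nat_lit 474) (nat_lit 406) (nat_lit 320)) (XT.lf (nat_lit 0) (nat_lit 18272542942) (nat_lit 76) (nat_lit 15334528055) (nat_lit 152) (nat_lit 9900021231) (nat_lit 61) (nat_lit 5) (nat_lit 62) (nat_lit 5) (nat_lit 63) (nat_lit 4) (nat_lit 475) (nat_lit 406) (nat_lit 319))))))))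
noncomputable def xc60 : XT := (XT.nd (nat_lit 57330) (nat_lit 0) (nat_lit 11324) (XT.nd (nat_lit 936) (nat_lit 836) (nat_lit 0) (XT.nd (nat_lit 468) (nat_lit 608) (nat_lit 0) (XT.nd (nat_lit 234) (nat_lit 228) (nat_lit 0) (XT.nd (nat_lit 78) (nat_lit 228) (nat_lit 0) (XT.lf (nat_lit 0) (nat_lit 9495638300) (nat_lit 228) (nat_lit 29252412050) (nat_lit 76) (nat_lit 6274662579) (nat_lit 58) (nat_lit 5) (nat_lit 61) (nat_lit 5) (nat_lit 59) (nat_lit 4) (nat_lit 476) (nat_lit 406) (nat_lit 318)) (XT.nd (nat_lit 78) (nat_lit 152) (nat_lit 0) (XT.lf (nat_lit 0) (nat_lit 12680575072) (nat_lit 76) (nat_lit 17487468559) (nat_lit 152) (nat_lit 16427779698) (nat_lit 57) (nat_lit 5) (nat_lit 58) (nat_lit 5) (nat_lit 59) (nat_lit 4) (nat_lit 477) (nat_lit 406) (nat_lit 317)) (XT.lf (nat_lit 0) (nat_lit 3969811450) (nat_lit 152) (nat_lit 39117035761) (nat_lit 76) (nat_lit 5147273860) (nat_lit 55) (nat_lit 5)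 (nat_lit 57) (nat_lit 5) (nat_lit 56) (nat_lit 4) (nat_lit 478) (nat_lit 406) (nat_lit 316)))) (XT.nd (nat_lit 78) (nat_lit 152) (nat_lit 0) (XT.lf (nat_lit 0) (nat_lit 4759024284) (nat_lit 76) (nat_lit 20838489537) (nat_lit 152) (nat_lit 24335441347) (nat_lit 54) (nat_lit 5) (nat_lit 55) (nat_lit 5) (nat_lit 56) (nat_lit 4) (nat_lit 479) (nat_lit 406) (nat_lit 315)) (XT.nd (nat_lit 78) (nat_lit 152) (nat_lit 0) (XT.lf (nat_lit 0) (nat_lit 48710085441) (nat_lit 152) (nat_lit 139565607) (nat_lit 0) (nat_lit 2854975886) (nat_lit 54) (nat_lit 5) (nat_lit 56) (nat_lit 4) (nat_lit 54) (nat_lit 4) (nat_lit 480) (nat_lit 406) (nat_lit 314)) (XT.lf (nat_lit 0) (nat_lit 19684826262) (nat_lit 152) (nat_lit 5919724139) (nat_lit 76) (nat_lit 27935226479) (nat_lit 52) (nat_lit 5) (nat_lit 54) (nat_lit 5) (nat_lit 53) (nat_lit 4) (nat_lit 481) (nat_lit 406) (nat_lit 313))))) (XT.nd (nat_lit 234) (nat_lit 304)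 (nat_lit 0) (XT.nd (nat_lit 78) (nat_lit 228) (nat_lit 0) (XT.lf (nat_lit 0) (nat_lit 43064492093) (nat_lit 76) (nat_lit 762130529) (nat_lit 152) (nat_lit 11627460904) (nat_lit 51) (nat_lit 5) (nat_lit 52) (nat_lit 5) (nat_lit 53) (nat_lit 4) (nat_lit 482) (nat_lit 406) (nat_lit 312)) (XT.nd (nat_lit 78) (nat_lit 76) (nat_lit 0) (XT.lf (nat_lit 0) (nat_lit 12130550956) (nat_lit 152) (nat_lit 19963386365) (nat_lit 76) (nat_lit 25347360881) (nat_lit 49) (nat_lit 5) (nat_lit 51) (nat_lit 5) (nat_lit 50) (nat_lit 4) (nat_lit 483) (nat_lit 406) (nat_lit 311)) (XT.lf (nat_lit 0) (nat_lit 31004610075) (nat_lit 76) (nat_lit 6243579115) (nat_lit 152) (nat_lit 22263865114) (nat_lit 48) (nat_lit 5) (nat_lit 49) (nat_lit 5) (nat_lit 50) (nat_lit 4) (nat_lit 484) (nat_lit 406) (nat_lit 310)))) (XT.nd (nat_lit 78) (nat_lit 152) (nat_lit 0) (XT.lf (nat_lit 0) (nat_lit 2513582924) (nat_lit 152) (nat_lit 38226584180)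 (nat_lit 76) (nat_lit 20927143707) (nat_lit 46) (nat_lit 5) (nat_lit 48) (nat_lit 5) (nat_lit 47) (nat_lit 4) (nat_lit 485) (nat_lit 406) (nat_lit 309)) (XT.nd (nat_lit 78) (nat_lit 76) (nat_lit 0) (XT.lf (nat_lit 0) (nat_lit 14608942968) (nat_lit 76) (nat_lit 13941020222) (nat_lit 152) (nat_lit 35359338935) (nat_lit 45) (nat_lit 5) (nat_lit 46) (nat_lit 5) (nat_lit 47) (nat_lit 4) (nat_lit 486) (nat_lit 406) (nat_lit 308)) (XT.lf (nat_lit 0) (nat_lit 4536475487) (nat_lit 76) (nat_lit 51906082063) (nat_lit 76) (nat_lit 9804203917) (nat_lit 44) (nat_lit 4) (nat_lit 45) (nat_lit 5) (nat_lit 45) (nat_lit 4) (nat_lit 487) (nat_lit 406) (nat_lit 307)))))) (XT.nd (nat_lit 468) (nat_lit 304) (nat_lit 0) (XT.nd (nat_lit 234) (nat_lit 228) (nat_lit 0) (XT.nd (nat_lit 78) (nat_lit 228) (nat_lit 0) (XT.lf (nat_lit 0) (nat_lit 17326993392) (nat_lit 152) (nat_lit 6944218574) (nat_lit 76) (nat_lit 44406053500)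 (nat_lit 43) (nat_lit 5) (nat_lit 45) (nat_lit 5) (nat_lit 44) (nat_lit 4) (nat_lit 488) (nat_lit 406) (nat_lit 306)) (XT.nd (nat_lit 78) (nat_lit 152) (nat_lit 0) (XT.lf (nat_lit 0) (nat_lit 46137900748) (nat_lit 152) (nat_lit 19841001635) (nat_lit 0) (nat_lit 5231702935) (nat_lit 42) (nat_lit 5) (nat_lit 44) (nat_lit 4) (nat_lit 42) (nat_lit 4) (nat_lit 489) (nat_lit 406) (nat_lit 305)) (XT.lf (nat_lit 0) (nat_lit 3150632147) (nat_lit 152) (nat_lit 34524624988) (nat_lit 76) (nat_lit 36174197718) (nat_lit 40) (nat_lit 5) (nat_lit 42) (nat_lit 5) (nat_lit 41) (nat_lit 4) (nat_lit 490) (nat_lit 406) (nat_lit 304)))) (XT.nd (nat_lit 78) (nat_lit 152) (nat_lit 0) (XT.lf (nat_lit 0) (nat_lit 25450342818) (nat_lit 76) (nat_lit 7251275316) (nat_lit 152) (nat_lit 43898130904) (nat_lit 39) (nat_lit 5) (nat_lit 40) (nat_lit 5) (nat_lit 41) (nat_lit 4) (nat_lit 491) (nat_lit 406) (nat_lit 303)) (XT.nd (nat_lit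 78) (nat_lit 76) (nat_lit 0) (XT.lf (nat_lit 0) (nat_lit 9574669080) (nat_lit 76) (nat_lit 54823526473) (nat_lit 76) (nat_lit 15069321347) (nat_lit 38) (nat_lit 4) (nat_lit 39) (nat_lit 5) (nat_lit 39) (nat_lit 4) (nat_lit 492) (nat_lit 406) (nat_lit 302)) (XT.lf (nat_lit 0) (nat_lit 15489354516) (nat_lit 152) (nat_lit 8322733426) (nat_lit 76) (nat_lit 58644650291) (nat_lit 37) (nat_lit 5) (nat_lit 39) (nat_lit 5) (nat_lit 38) (nat_lit 4) (nat_lit 493) (nat_lit 406) (nat_lit 301))))) (XT.nd (nat_lit 234) (nat_lit 0) (nat_lit 0) (XT.nd (nat_lit 78) (nat_lit 228) (nat_lit 0) (XT.lf (nat_lit 0) (nat_lit 47889508372) (nat_lit 152) (nat_lit 28412078382) (nat_lit 0) (nat_lit 9270602021) (nat_lit 36) (nat_lit 5) (nat_lit 38) (nat_lit 4) (nat_lit 36) (nat_lit 4) (nat_lit 494) (nat_lit 406) (nat_lit 300)) (XT.nd (nat_lit 78) (nat_lit 152) (nat_lit 0) (XT.lf (nat_lit 0) (nat_lit 37708207958) (nat_lit 76)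 (nat_lit 44872241077) (nat_lit 76) (nat_lit 6242839630) (nat_lit 35) (nat_lit 4) (nat_lit 36) (nat_lit 5) (nat_lit 36) (nat_lit 4) (nat_lit 495) (nat_lit 406) (nat_lit 299)) (XT.lf (nat_lit 0) (nat_lit 15506526503) (nat_lit 76) (nat_lit 11166342108) (nat_lit 152) (nat_lit 65543568474) (nat_lit 33) (nat_lit 5) (nat_lit 34) (nat_lit 5) (nat_lit 35) (nat_lit 4) (nat_lit 496) (nat_lit 406) (nat_lit 298)))) (XT.nd (nat_lit 55536) (nat_lit 0) (nat_lit 26220) (XT.nd (nat_lit 55458) (nat_lit 0) (nat_lit 26980) (XT.lf (nat_lit 0) (nat_lit 61852878693) (nat_lit 152) (nat_lit 9572422119) (nat_lit 0) (nat_lit 24329659140) (nat_lit 33) (nat_lit 5) (nat_lit 35) (nat_lit 4) (nat_lit 33) (nat_lit 4) (nat_lit 497) (nat_lit 406) (nat_lit 297)) (XT.lf (nat_lit 0) (nat_lit 1121777326) (nat_lit 0) (nat_lit 1121777326) (nat_lit 684) (nat_lit 1260324071) (nat_lit 388) (nat_lit 5) (nat_lit 388) (nat_lit 3) (nat_lit 397)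 (nat_lit 3) (nat_lit 407) (nat_lit 407) (nat_lit 386))) (XT.nd (nat_lit 78) (nat_lit 0) (nat_lit 0) (XT.lf (nat_lit 0) (nat_lit 474630019) (nat_lit 760) (nat_lit 6056043086) (nat_lit 836) (nat_lit 562243719) (nat_lit 378) (nat_lit 5) (nat_lit 388) (nat_lit 5) (nat_lit 389) (nat_lit 5) (nat_lit 408) (nat_lit 407) (nat_lit 385)) (XT.lf (nat_lit 0) (nat_lit 3448567988) (nat_lit 760) (nat_lit 109194176) (nat_lit 836) (nat_lit 3627427275) (nat_lit 378) (nat_lit 5) (nat_lit 388) (nat_lit 5) (nat_lit 389) (nat_lit 5) (nat_lit 409) (nat_lit 407) (nat_lit 384))))))) (XT.nd (nat_lit 1014) (nat_lit 6536) (nat_lit 0) (XT.nd (nat_lit 468) (nat_lit 6764) (nat_lit 0) (XT.nd (nat_lit 234) (nat_lit 836) (nat_lit 0) (XT.nd (nat_lit 78) (nat_lit 760) (nat_lit 0) (XT.lf (nat_lit 76) (nat_lit 6152850602) (nat_lit 0) (nat_lit 294991110) (nat_lit 836) (nat_lit 837967928) (nat_lit 379) (nat_lit 5) (nat_lit 378) (nat_lit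 5) (nat_lit 389) (nat_lit 5) (nat_lit 410) (nat_lit 407) (nat_lit 383)) (XT.nd (nat_lit 78) (nat_lit 0) (nat_lit 0) (XT.lf (nat_lit 0) (nat_lit 2069840686) (nat_lit 836) (nat_lit 2107516157) (nat_lit 912) (nat_lit 3216280724) (nat_lit 368) (nat_lit 5) (nat_lit 379) (nat_lit 5) (nat_lit 380) (nat_lit 5) (nat_lit 411) (nat_lit 407) (nat_lit 382)) (XT.lf (nat_lit 76) (nat_lit 4514217876) (nat_lit 0) (nat_lit 481382028) (nat_lit 912) (nat_lit 2514340530) (nat_lit 369) (nat_lit 5) (nat_lit 368) (nat_lit 5) (nat_lit 380) (nat_lit 5) (nat_lit 412) (nat_lit 407) (nat_lit 381)))) (XT.nd (nat_lit 78) (nat_lit 0) (nat_lit 0) (XT.lf (nat_lit 0) (nat_lit 356792560) (nat_lit 912) (nat_lit 3824533947) (nat_lit 988) (nat_lit 3452742180) (nat_lit 357) (nat_lit 5) (nat_lit 369) (nat_lit 5) (nat_lit 370) (nat_lit 5) (nat_lit 413) (nat_lit 407) (nat_lit 380)) (XT.nd (nat_lit 78) (nat_lit 0) (nat_lit 76) (XT.lf (nat_lit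 76) (nat_lit 3177564203) (nat_lit 0) (nat_lit 53223908) (nat_lit 988) (nat_lit 4535554907) (nat_lit 358) (nat_lit 5) (nat_lit 357) (nat_lit 5) (nat_lit 370) (nat_lit 5) (nat_lit 414) (nat_lit 407) (nat_lit 379)) (XT.lf (nat_lit 76) (nat_lit 2605017674) (nat_lit 0) (nat_lit 3600529412) (nat_lit 988) (nat_lit 1700996530) (nat_lit 359) (nat_lit 5) (nat_lit 358) (nat_lit 5) (nat_lit 371) (nat_lit 5) (nat_lit 415) (nat_lit 407) (nat_lit 378))))) (XT.nd (nat_lit 234) (nat_lit 3876) (nat_lit 0) (XT.nd (nat_lit 78) (nat_lit 2052) (nat_lit 0) (XT.lf (nat_lit 0) (nat_lit 1183856671) (nat_lit 988) (nat_lit 5944248871) (nat_lit 76) (nat_lit 927299983) (nat_lit 346) (nat_lit 5) (nat_lit 359) (nat_lit 5) (nat_lit 347) (nat_lit 5) (nat_lit 416) (nat_lit 407) (nat_lit 377)) (XT.nd (nat_lit 78) (nat_lit 1064) (nat_lit 0) (XT.lf (nat_lit 0) (nat_lit 1662588399) (nat_lit 988) (nat_lit 2484837439) (nat_lit 1064) (nat_lit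 4064711411) (nat_lit 333) (nat_lit 5) (nat_lit 346) (nat_lit 5) (nat_lit 347) (nat_lit 5) (nat_lit 417) (nat_lit 407) (nat_lit 376)) (XT.lf (nat_lit 0) (nat_lit 1288629817) (nat_lit 1064) (nat_lit 5935373510) (nat_lit 1140) (nat_lit 1153777852) (nat_lit 319) (nat_lit 5) (nat_lit 333) (nat_lit 5) (nat_lit 334) (nat_lit 5) (nat_lit 418) (nat_lit 407) (nat_lit 375)))) (XT.nd (nat_lit 156) (nat_lit 1444) (nat_lit 0) (XT.nd (nat_lit 78) (nat_lit 1216) (nat_lit 0) (XT.lf (nat_lit 0) (nat_lit 969370383) (nat_lit 1140) (nat_lit 870335377) (nat_lit 1216) (nat_lit 6712247859) (nat_lit 303) (nat_lit 5) (nat_lit 318) (nat_lit 5) (nat_lit 319) (nat_lit 5) (nat_lit 419) (nat_lit 407) (nat_lit 374)) (XT.lf (nat_lit 0) (nat_lit 692631593) (nat_lit 1216) (nat_lit 4266566602) (nat_lit 1292) (nat_lit 3775305950) (nat_lit 287) (nat_lit 5) (nat_lit 303) (nat_lit 5) (nat_lit 304) (nat_lit 5) (nat_lit 420) (nat_lit 407)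 (nat_lit 373))) (XT.nd (nat_lit 78) (nat_lit 684) (nat_lit 0) (XT.lf (nat_lit 0) (nat_lit 492993631) (nat_lit 760) (nat_lit 7726562554) (nat_lit 836) (nat_lit 707096489) (nat_lit 277) (nat_lit 5) (nat_lit 287) (nat_lit 5) (nat_lit 288) (nat_lit 5) (nat_lit 421) (nat_lit 407) (nat_lit 372)) (XT.lf (nat_lit 0) (nat_lit 323390399) (nat_lit 608) (nat_lit 2157048861) (nat_lit 684) (nat_lit 6646810649) (nat_lit 268) (nat_lit 5) (nat_lit 276) (nat_lit 5) (nat_lit 277) (nat_lit 5) (nat_lit 422) (nat_lit 407) (nat_lit 371)))))) (XT.nd (nat_lit 468) (nat_lit 3192) (nat_lit 0) (XT.nd (nat_lit 234) (nat_lit 1596) (nat_lit 0) (XT.nd (nat_lit 78) (nat_lit 1140) (nat_lit 0) (XT.lf (nat_lit 0) (nat_lit 208101623) (nat_lit 608) (nat_lit 5619569681) (nat_lit 684) (nat_lit 3509562525) (nat_lit 260) (nat_lit 5) (nat_lit 268) (nat_lit 5) (nat_lit 269) (nat_lit 5) (nat_lit 423) (nat_lit 407) (nat_lit 370)) (XT.nd (nat_lit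 78) (nat_lit 608) (nat_lit 0) (XT.lf (nat_lit 0) (nat_lit 165970554) (nat_lit 532) (nat_lit 9187548395) (nat_lit 608) (nat_lit 203874806) (nat_lit 253) (nat_lit 5) (nat_lit 260) (nat_lit 5) (nat_lit 261) (nat_lit 5) (nat_lit 424) (nat_lit 407) (nat_lit 369)) (XT.lf (nat_lit 0) (nat_lit 133835717) (nat_lit 532) (nat_lit 3119248188) (nat_lit 608) (nat_lit 6533056771) (nat_lit 245) (nat_lit 5) (nat_lit 252) (nat_lit 5) (nat_lit 253) (nat_lit 5) (nat_lit 425) (nat_lit 407) (nat_lit 368)))) (XT.nd (nat_lit 78) (nat_lit 1064) (nat_lit 0) (XT.lf (nat_lit 0) (nat_lit 166839766) (nat_lit 532) (nat_lit 6743004582) (nat_lit 608) (nat_lit 3115497639) (nat_lit 238) (nat_lit 5) (nat_lit 245) (nat_lit 5) (nat_lit 246) (nat_lit 5) (nat_lit 426) (nat_lit 407) (nat_lit 367)) (XT.nd (nat_lit 78) (nat_lit 456) (nat_lit 0) (XT.lf (nat_lit 0) (nat_lit 264170888) (nat_lit 532) (nat_lit 237280003) (nat_lit 608) (nat_lit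 9773795632) (nat_lit 230) (nat_lit 5) (nat_lit 237) (nat_lit 5) (nat_lit 238) (nat_lit 5) (nat_lit 427) (nat_lit 407) (nat_lit 366)) (XT.lf (nat_lit 0) (nat_lit 367073368) (nat_lit 456) (nat_lit 3944570312) (nat_lit 532) (nat_lit 6222783496) (nat_lit 224) (nat_lit 5) (nat_lit 230) (nat_lit 5) (nat_lit 231) (nat_lit 5) (nat_lit 428) (nat_lit 407) (nat_lit 365))))) (XT.nd (nat_lit 234) (nat_lit 1748) (nat_lit 0) (XT.nd (nat_lit 78) (nat_lit 988) (nat_lit 0) (XT.lf (nat_lit 0) (nat_lit 540602933) (nat_lit 456) (nat_lit 7821815590) (nat_lit 532) (nat_lit 2442656824) (nat_lit 218) (nat_lit 5) (nat_lit 224) (nat_lit 5) (nat_lit 225) (nat_lit 5) (nat_lit 429) (nat_lit 407) (nat_lit 364)) (XT.nd (nat_lit 78) (nat_lit 456) (nat_lit 0) (XT.lf (nat_lit 0) (nat_lit 762937790) (nat_lit 456) (nat_lit 799103720) (nat_lit 532) (nat_lit 9524823498) (nat_lit 211) (nat_lit 5) (nat_lit 217) (nat_lit 5) (nat_lit 218)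 (nat_lit 5) (nat_lit 430) (nat_lit 407) (nat_lit 363)) (XT.lf (nat_lit 0) (nat_lit 1001249033) (nat_lit 456) (nat_lit 4810701044) (nat_lit 532) (nat_lit 5567213123) (nat_lit 205) (nat_lit 5) (nat_lit 211) (nat_lit 5) (nat_lit 212) (nat_lit 5) (nat_lit 431) (nat_lit 407) (nat_lit 362)))) (XT.nd (nat_lit 156) (nat_lit 836) (nat_lit 0) (XT.nd (nat_lit 78) (nat_lit 532) (nat_lit 0) (XT.lf (nat_lit 0) (nat_lit 1311846109) (nat_lit 380) (nat_lit 9033762010) (nat_lit 456) (nat_lit 1338339499) (nat_lit 200) (nat_lit 5) (nat_lit 205) (nat_lit 5) (nat_lit 206) (nat_lit 5) (nat_lit 432) (nat_lit 407) (nat_lit 361)) (XT.lf (nat_lit 0) (nat_lit 1651173046) (nat_lit 456) (nat_lit 1483025856) (nat_lit 532) (nat_lit 8866103519) (nat_lit 193) (nat_lit 5) (nat_lit 199) (nat_lit 5) (nat_lit 200) (nat_lit 5) (nat_lit 433) (nat_lit 407) (nat_lit 360))) (XT.nd (nat_lit 78) (nat_lit 456) (nat_lit 0) (XT.lf (nat_lit 0)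 (nat_lit 2023128712) (nat_lit 380) (nat_lit 5892068817) (nat_lit 456) (nat_lit 4413512414) (nat_lit 188) (nat_lit 5) (nat_lit 193) (nat_lit 5) (nat_lit 194) (nat_lit 5) (nat_lit 434) (nat_lit 407) (nat_lit 359)) (XT.lf (nat_lit 0) (nat_lit 348832744) (nat_lit 456) (nat_lit 10203613460) (nat_lit 76) (nat_lit 2118256503) (nat_lit 182) (nat_lit 5) (nat_lit 188) (nat_lit 5) (nat_lit 183) (nat_lit 5) (nat_lit 435) (nat_lit 407) (nat_lit 358))))))))
noncomputable def xc61 : XT := (XT.nd (nat_lit 1950) (nat_lit 3648) (nat_lit 0) (XT.nd (nat_lit 936) (nat_lit 2888) (nat_lit 0) (XT.nd (nat_lit 468) (nat_lit 1748) (nat_lit 0) (XT.nd (nat_lit 234) (nat_lit 988) (nat_lit 0) (XT.nd (nat_lit 78) (nat_lit 760) (nat_lit 0) (XT.lf (nat_lit 0) (nat_lit 2918537574) (nat_lit 304) (nat_lit 2462348068) (nat_lit 380) (nat_lit 7643919394) (nat_lit 178) (nat_lit 5) (nat_lit 182) (nat_lit 5) (nat_lit 183) (nat_lit 5) (nat_lit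 436) (nat_lit 407) (nat_lit 357)) (XT.nd (nat_lit 78) (nat_lit 380) (nat_lit 0) (XT.lf (nat_lit 0) (nat_lit 3424917780) (nat_lit 380) (nat_lit 7366223548) (nat_lit 456) (nat_lit 2601679750) (nat_lit 173) (nat_lit 5) (nat_lit 178) (nat_lit 5) (nat_lit 179) (nat_lit 5) (nat_lit 437) (nat_lit 407) (nat_lit 356)) (XT.lf (nat_lit 0) (nat_lit 2751891991) (nat_lit 380) (nat_lit 9791576813) (nat_lit 76) (nat_lit 1231645799) (nat_lit 168) (nat_lit 5) (nat_lit 173) (nat_lit 5) (nat_lit 169) (nat_lit 5) (nat_lit 438) (nat_lit 407) (nat_lit 355)))) (XT.nd (nat_lit 78) (nat_lit 684) (nat_lit 0) (XT.lf (nat_lit 0) (nat_lit 4557842466) (nat_lit 304) (nat_lit 3917217065) (nat_lit 380) (nat_lit 5696024592) (nat_lit 164) (nat_lit 5) (nat_lit 168) (nat_lit 5) (nat_lit 169) (nat_lit 5) (nat_lit 439) (nat_lit 407) (nat_lit 354)) (XT.nd (nat_lit 78) (nat_lit 304) (nat_lit 0) (XT.lf (nat_lit 0) (nat_lit 37493397) (nat_lit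 380) (nat_lit 9382280492) (nat_lit 76) (nat_lit 5162974337) (nat_lit 159) (nat_lit 5) (nat_lit 164) (nat_lit 5) (nat_lit 160) (nat_lit 5) (nat_lit 440) (nat_lit 407) (nat_lit 353)) (XT.lf (nat_lit 0) (nat_lit 5865915694) (nat_lit 304) (nat_lit 207900328) (nat_lit 380) (nat_lit 8935474804) (nat_lit 155) (nat_lit 5) (nat_lit 159) (nat_lit 5) (nat_lit 160) (nat_lit 5) (nat_lit 441) (nat_lit 407) (nat_lit 352))))) (XT.nd (nat_lit 234) (nat_lit 836) (nat_lit 0) (XT.nd (nat_lit 78) (nat_lit 608) (nat_lit 0) (XT.lf (nat_lit 0) (nat_lit 6561319690) (nat_lit 304) (nat_lit 6041023099) (nat_lit 380) (nat_lit 2849111002) (nat_lit 151) (nat_lit 5) (nat_lit 155) (nat_lit 5) (nat_lit 156) (nat_lit 5) (nat_lit 442) (nat_lit 407) (nat_lit 351)) (XT.nd (nat_lit 78) (nat_lit 228) (nat_lit 0) (XT.lf (nat_lit 0) (nat_lit 3616642025) (nat_lit 380) (nat_lit 8603619010) (nat_lit 76) (nat_lit 3690121671) (nat_lit 146)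 (nat_lit 5) (nat_lit 151) (nat_lit 5) (nat_lit 147) (nat_lit 5) (nat_lit 443) (nat_lit 407) (nat_lit 350)) (XT.lf (nat_lit 0) (nat_lit 8086496125) (nat_lit 228) (nat_lit 2433881242) (nat_lit 304) (nat_lit 5865830162) (nat_lit 143) (nat_lit 5) (nat_lit 146) (nat_lit 5) (nat_lit 147) (nat_lit 5) (nat_lit 444) (nat_lit 407) (nat_lit 349)))) (XT.nd (nat_lit 78) (nat_lit 456) (nat_lit 0) (XT.lf (nat_lit 0) (nat_lit 1062244377) (nat_lit 380) (nat_lit 7974174278) (nat_lit 76) (nat_lit 7843273883) (nat_lit 138) (nat_lit 5) (nat_lit 143) (nat_lit 5) (nat_lit 139) (nat_lit 5) (nat_lit 445) (nat_lit 407) (nat_lit 348)) (XT.nd (nat_lit 78) (nat_lit 228) (nat_lit 0) (XT.lf (nat_lit 0) (nat_lit 8379613849) (nat_lit 304) (nat_lit 7637690702) (nat_lit 76) (nat_lit 1373882537) (nat_lit 135) (nat_lit 5) (nat_lit 139) (nat_lit 5) (nat_lit 136) (nat_lit 5) (nat_lit 446) (nat_lit 407) (nat_lit 347)) (XT.lf (nat_lit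 0) (nat_lit 10637397459) (nat_lit 228) (nat_lit 5648181573) (nat_lit 304) (nat_lit 1635999115) (nat_lit 132) (nat_lit 5) (nat_lit 135) (nat_lit 5) (nat_lit 136) (nat_lit 5) (nat_lit 447) (nat_lit 407) (nat_lit 346)))))) (XT.nd (nat_lit 468) (nat_lit 1368) (nat_lit 0) (XT.nd (nat_lit 234) (nat_lit 684) (nat_lit 0) (XT.nd (nat_lit 78) (nat_lit 532) (nat_lit 0) (XT.lf (nat_lit 0) (nat_lit 6180098788) (nat_lit 304) (nat_lit 6933807014) (nat_lit 76) (nat_lit 5357096538) (nat_lit 128) (nat_lit 5) (nat_lit 132) (nat_lit 5) (nat_lit 129) (nat_lit 5) (nat_lit 448) (nat_lit 407) (nat_lit 345)) (XT.nd (nat_lit 78) (nat_lit 304) (nat_lit 0) (XT.lf (nat_lit 0) (nat_lit 12491813740) (nat_lit 228) (nat_lit 2063470975) (nat_lit 304) (nat_lit 4486066715) (nat_lit 125) (nat_lit 5) (nat_lit 128) (nat_lit 5) (nat_lit 129) (nat_lit 5) (nat_lit 449) (nat_lit 407) (nat_lit 344)) (XT.lf (nat_lit 0) (nat_lit 3882768313)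 (nat_lit 304) (nat_lit 6187396912) (nat_lit 76) (nat_lit 9561602107) (nat_lit 121) (nat_lit 5) (nat_lit 125) (nat_lit 5) (nat_lit 122) (nat_lit 5) (nat_lit 450) (nat_lit 407) (nat_lit 343)))) (XT.nd (nat_lit 78) (nat_lit 456) (nat_lit 0) (XT.lf (nat_lit 0) (nat_lit 12773836479) (nat_lit 304) (nat_lit 5802052220) (nat_lit 76) (nat_lit 1668588523) (nat_lit 118) (nat_lit 5) (nat_lit 122) (nat_lit 5) (nat_lit 119) (nat_lit 5) (nat_lit 451) (nat_lit 407) (nat_lit 342)) (XT.nd (nat_lit 78) (nat_lit 228) (nat_lit 0) (XT.lf (nat_lit 0) (nat_lit 1467768674) (nat_lit 228) (nat_lit 5427572016) (nat_lit 76) (nat_lit 13984033054) (nat_lit 115) (nat_lit 5) (nat_lit 118) (nat_lit 5) (nat_lit 116) (nat_lit 5) (nat_lit 452) (nat_lit 407) (nat_lit 341)) (XT.lf (nat_lit 0) (nat_lit 10927035006) (nat_lit 304) (nat_lit 5079853084) (nat_lit 76) (nat_lit 5530057235) (nat_lit 112) (nat_lit 5) (nat_lit 116) (nat_lit 5)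 (nat_lit 113) (nat_lit 5) (nat_lit 453) (nat_lit 407) (nat_lit 340))))) (XT.nd (nat_lit 234) (nat_lit 760) (nat_lit 0) (XT.nd (nat_lit 78) (nat_lit 456) (nat_lit 0) (XT.lf (nat_lit 0) (nat_lit 17517923283) (nat_lit 152) (nat_lit 3590657928) (nat_lit 228) (nat_lit 1111337119) (nat_lit 110) (nat_lit 5) (nat_lit 112) (nat_lit 5) (nat_lit 113) (nat_lit 5) (nat_lit 454) (nat_lit 407) (nat_lit 339)) (XT.nd (nat_lit 78) (nat_lit 152) (nat_lit 0) (XT.lf (nat_lit 0) (nat_lit 8970534218) (nat_lit 304) (nat_lit 4404742594) (nat_lit 76) (nat_lit 9550770616) (nat_lit 106) (nat_lit 5) (nat_lit 110) (nat_lit 5) (nat_lit 107) (nat_lit 5) (nat_lit 455) (nat_lit 407) (nat_lit 338)) (XT.lf (nat_lit 0) (nat_lit 19597560941) (nat_lit 152) (nat_lit 166656258) (nat_lit 228) (nat_lit 3896016677) (nat_lit 104) (nat_lit 5) (nat_lit 106) (nat_lit 5) (nat_lit 107) (nat_lit 5) (nat_lit 456) (nat_lit 407) (nat_lit 337)))) (XT.nd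 (nat_lit 156) (nat_lit 380) (nat_lit 0) (XT.nd (nat_lit 78) (nat_lit 152) (nat_lit 0) (XT.lf (nat_lit 0) (nat_lit 6873805353) (nat_lit 228) (nat_lit 3828987506) (nat_lit 76) (nat_lit 13716293116) (nat_lit 101) (nat_lit 5) (nat_lit 104) (nat_lit 5) (nat_lit 102) (nat_lit 5) (nat_lit 457) (nat_lit 407) (nat_lit 336)) (XT.lf (nat_lit 0) (nat_lit 18345420570) (nat_lit 228) (nat_lit 3586000739) (nat_lit 76) (nat_lit 3275987623) (nat_lit 99) (nat_lit 5) (nat_lit 102) (nat_lit 5) (nat_lit 100) (nat_lit 5) (nat_lit 458) (nat_lit 407) (nat_lit 335))) (XT.nd (nat_lit 78) (nat_lit 152) (nat_lit 0) (XT.lf (nat_lit 0) (nat_lit 4599205340) (nat_lit 228) (nat_lit 3417735521) (nat_lit 76) (nat_lit 18007091001) (nat_lit 96) (nat_lit 5) (nat_lit 99) (nat_lit 5) (nat_lit 97) (nat_lit 5) (nat_lit 459) (nat_lit 407) (nat_lit 334)) (XT.lf (nat_lit 0) (nat_lit 16784396780) (nat_lit 228) (nat_lit 3314901186) (nat_lit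 76) (nat_lit 6771365723) (nat_lit 94) (nat_lit 5) (nat_lit 97) (nat_lit 5) (nat_lit 95) (nat_lit 5) (nat_lit 460) (nat_lit 407) (nat_lit 333))))))) (XT.nd (nat_lit 1014) (nat_lit 1520) (nat_lit 0) (XT.nd (nat_lit 468) (nat_lit 1064) (nat_lit 0) (XT.nd (nat_lit 234) (nat_lit 532) (nat_lit 0) (XT.nd (nat_lit 78) (nat_lit 304) (nat_lit 0) (XT.lf (nat_lit 0) (nat_lit 2100673150) (nat_lit 228) (nat_lit 3251672952) (nat_lit 76) (nat_lit 22397249299) (nat_lit 91) (nat_lit 5) (nat_lit 94) (nat_lit 5) (nat_lit 92) (nat_lit 5) (nat_lit 461) (nat_lit 407) (nat_lit 332)) (XT.nd (nat_lit 78) (nat_lit 152) (nat_lit 0) (XT.lf (nat_lit 0) (nat_lit 15032559258) (nat_lit 228) (nat_lit 3337455129) (nat_lit 76) (nat_lit 10289138844) (nat_lit 89) (nat_lit 5) (nat_lit 92) (nat_lit 5) (nat_lit 90) (nat_lit 5) (nat_lit 462) (nat_lit 407) (nat_lit 331)) (XT.lf (nat_lit 0) (nat_lit 26168301532) (nat_lit 152) (nat_lit 2745499626)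 (nat_lit 228) (nat_lit 691306291) (nat_lit 87) (nat_lit 5) (nat_lit 89) (nat_lit 5) (nat_lit 90) (nat_lit 5) (nat_lit 463) (nat_lit 407) (nat_lit 330)))) (XT.nd (nat_lit 78) (nat_lit 304) (nat_lit 0) (XT.lf (nat_lit 0) (nat_lit 13032358850) (nat_lit 228) (nat_lit 3763802143) (nat_lit 76) (nat_lit 13786687473) (nat_lit 84) (nat_lit 5) (nat_lit 87) (nat_lit 5) (nat_lit 85) (nat_lit 5) (nat_lit 464) (nat_lit 407) (nat_lit 329)) (XT.nd (nat_lit 78) (nat_lit 152) (nat_lit 0) (XT.lf (nat_lit 0) (nat_lit 27488260689) (nat_lit 152) (nat_lit 232436428) (nat_lit 228) (nat_lit 3879791647) (nat_lit 82) (nat_lit 5) (nat_lit 84) (nat_lit 5) (nat_lit 85) (nat_lit 5) (nat_lit 465) (nat_lit 407) (nat_lit 328)) (XT.lf (nat_lit 0) (nat_lit 10713710816) (nat_lit 152) (nat_lit 4728555672) (nat_lit 76) (nat_lit 17210415168) (nat_lit 80) (nat_lit 5) (nat_lit 82) (nat_lit 5) (nat_lit 81) (nat_lit 5) (nat_lit 466) (nat_lit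 407) (nat_lit 327))))) (XT.nd (nat_lit 234) (nat_lit 608) (nat_lit 0) (XT.nd (nat_lit 78) (nat_lit 304) (nat_lit 0) (XT.lf (nat_lit 0) (nat_lit 26261594460) (nat_lit 228) (nat_lit 5426800312) (nat_lit 76) (nat_lit 2058789663) (nat_lit 78) (nat_lit 5) (nat_lit 81) (nat_lit 5) (nat_lit 79) (nat_lit 4) (nat_lit 467) (nat_lit 407) (nat_lit 326)) (XT.nd (nat_lit 78) (nat_lit 152) (nat_lit 0) (XT.lf (nat_lit 0) (nat_lit 7991665206) (nat_lit 152) (nat_lit 6395538643) (nat_lit 76) (nat_lit 20493453490) (nat_lit 76) (nat_lit 5) (nat_lit 78) (nat_lit 5) (nat_lit 77) (nat_lit 5) (nat_lit 468) (nat_lit 407) (nat_lit 325)) (XT.lf (nat_lit 0) (nat_lit 24428344449) (nat_lit 228) (nat_lit 7541364065) (nat_lit 76) (nat_lit 4088661604) (nat_lit 74) (nat_lit 5) (nat_lit 77) (nat_lit 5) (nat_lit 75) (nat_lit 4) (nat_lit 469) (nat_lit 407) (nat_lit 324)))) (XT.nd (nat_lit 156) (nat_lit 304) (nat_lit 0) (XT.nd (nat_lit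 78) (nat_lit 152) (nat_lit 0) (XT.lf (nat_lit 0) (nat_lit 4763656858) (nat_lit 152) (nat_lit 8963363511) (nat_lit 76) (nat_lit 23552958406) (nat_lit 72) (nat_lit 5) (nat_lit 74) (nat_lit 5) (nat_lit 73) (nat_lit 5) (nat_lit 470) (nat_lit 407) (nat_lit 323)) (XT.lf (nat_lit 0) (nat_lit 22111433002) (nat_lit 228) (nat_lit 10672162668) (nat_lit 76) (nat_lit 5764370454) (nat_lit 70) (nat_lit 5) (nat_lit 73) (nat_lit 5) (nat_lit 71) (nat_lit 4) (nat_lit 471) (nat_lit 407) (nat_lit 322))) (XT.nd (nat_lit 78) (nat_lit 152) (nat_lit 0) (XT.lf (nat_lit 0) (nat_lit 906262626) (nat_lit 152) (nat_lit 12672004200) (nat_lit 76) (nat_lit 26286925435) (nat_lit 68) (nat_lit 5) (nat_lit 70) (nat_lit 5) (nat_lit 69) (nat_lit 5) (nat_lit 472) (nat_lit 407) (nat_lit 321)) (XT.lf (nat_lit 0) (nat_lit 19181265094) (nat_lit 228) (nat_lit 15082752653) (nat_lit 76) (nat_lit 6967230542) (nat_lit 66) (nat_lit 5) (nat_lit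 69) (nat_lit 5) (nat_lit 67) (nat_lit 4) (nat_lit 473) (nat_lit 407) (nat_lit 320)))))) (XT.nd (nat_lit 468) (nat_lit 684) (nat_lit 0) (XT.nd (nat_lit 234) (nat_lit 456) (nat_lit 0) (XT.nd (nat_lit 78) (nat_lit 304) (nat_lit 0) (XT.lf (nat_lit 0) (nat_lit 24804167685) (nat_lit 76) (nat_lit 14044261873) (nat_lit 152) (nat_lit 3802825881) (nat_lit 65) (nat_lit 5) (nat_lit 66) (nat_lit 5) (nat_lit 67) (nat_lit 4) (nat_lit 474) (nat_lit 407) (nat_lit 319)) (XT.nd (nat_lit 78) (nat_lit 76) (nat_lit 0) (XT.lf (nat_lit 0) (nat_lit 15481810963) (nat_lit 228) (nat_lit 21090162354) (nat_lit 76) (nat_lit 7553118138) (nat_lit 62) (nat_lit 5) (nat_lit 65) (nat_lit 5) (nat_lit 63) (nat_lit 4) (nat_lit 475) (nat_lit 407) (nat_lit 318)) (XT.lf (nat_lit 0) (nat_lit 20838890828) (nat_lit 76) (nat_lit 15313860407) (nat_lit 152) (nat_lit 9503717483) (nat_lit 61) (nat_lit 5) (nat_lit 62) (nat_lit 5) (nat_lit 63) (nat_lit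 4) (nat_lit 476) (nat_lit 407) (nat_lit 317)))) (XT.nd (nat_lit 78) (nat_lit 228) (nat_lit 0) (XT.lf (nat_lit 0) (nat_lit 10825755392) (nat_lit 228) (nat_lit 29074765523) (nat_lit 76) (nat_lit 7347650665) (nat_lit 58) (nat_lit 5) (nat_lit 61) (nat_lit 5) (nat_lit 59) (nat_lit 4) (nat_lit 477) (nat_lit 407) (nat_lit 316)) (XT.nd (nat_lit 78) (nat_lit 152) (nat_lit 0) (XT.lf (nat_lit 0) (nat_lit 14907853028) (nat_lit 76) (nat_lit 17598513002) (nat_lit 152) (nat_lit 16394334726) (nat_lit 57) (nat_lit 5) (nat_lit 58) (nat_lit 5) (nat_lit 59) (nat_lit 4) (nat_lit 478) (nat_lit 407) (nat_lit 315)) (XT.lf (nat_lit 0) (nat_lit 4988789706) (nat_lit 152) (nat_lit 39491891946) (nat_lit 76) (nat_lit 6140515923) (nat_lit 55) (nat_lit 5) (nat_lit 57) (nat_lit 5) (nat_lit 56) (nat_lit 4) (nat_lit 479) (nat_lit 407) (nat_lit 314))))) (XT.nd (nat_lit 234) (nat_lit 456) (nat_lit 0) (XT.nd (nat_lit 78) (nat_lit 152)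 (nat_lit 0) (XT.lf (nat_lit 0) (nat_lit 6532652180) (nat_lit 76) (nat_lit 21140916038) (nat_lit 152) (nat_lit 24732135141) (nat_lit 54) (nat_lit 5) (nat_lit 55) (nat_lit 5) (nat_lit 56) (nat_lit 4) (nat_lit 480) (nat_lit 407) (nat_lit 313)) (XT.nd (nat_lit 78) (nat_lit 76) (nat_lit 0) (XT.lf (nat_lit 0) (nat_lit 1358506167) (nat_lit 76) (nat_lit 50565177778) (nat_lit 76) (nat_lit 2342817978) (nat_lit 53) (nat_lit 4) (nat_lit 54) (nat_lit 5) (nat_lit 54) (nat_lit 4) (nat_lit 481) (nat_lit 407) (nat_lit 312)) (XT.lf (nat_lit 0) (nat_lit 21418841225) (nat_lit 152) (nat_lit 4764617234) (nat_lit 76) (nat_lit 30010801545) (nat_lit 52) (nat_lit 5) (nat_lit 54) (nat_lit 5) (nat_lit 53) (nat_lit 4) (nat_lit 482) (nat_lit 407) (nat_lit 311)))) (XT.nd (nat_lit 156) (nat_lit 228) (nat_lit 0) (XT.nd (nat_lit 78) (nat_lit 152) (nat_lit 0) (XT.lf (nat_lit 0) (nat_lit 46627214517) (nat_lit 76) (nat_lit 118358334)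 (nat_lit 152) (nat_lit 11459374363) (nat_lit 51) (nat_lit 5) (nat_lit 52) (nat_lit 5) (nat_lit 53) (nat_lit 4) (nat_lit 483) (nat_lit 407) (nat_lit 310)) (XT.lf (nat_lit 0) (nat_lit 13456660630) (nat_lit 152) (nat_lit 19563281037) (nat_lit 76) (nat_lit 27271822965) (nat_lit 49) (nat_lit 5) (nat_lit 51) (nat_lit 5) (nat_lit 50) (nat_lit 4) (nat_lit 484) (nat_lit 407) (nat_lit 309))) (XT.nd (nat_lit 78) (nat_lit 152) (nat_lit 0) (XT.lf (nat_lit 0) (nat_lit 33913033963) (nat_lit 76) (nat_lit 5895936782) (nat_lit 152) (nat_lit 22657724618) (nat_lit 48) (nat_lit 5) (nat_lit 49) (nat_lit 5) (nat_lit 50) (nat_lit 4) (nat_lit 485) (nat_lit 407) (nat_lit 308)) (XT.lf (nat_lit 0) (nat_lit 3330018800) (nat_lit 152) (nat_lit 38790695232) (nat_lit 76) (nat_lit 22609229916) (nat_lit 46) (nat_lit 5) (nat_lit 48) (nat_lit 5) (nat_lit 47) (nat_lit 4) (nat_lit 486) (nat_lit 407) (nat_lit 307))))))))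
noncomputable def xc62 : XT := (XT.nd (nat_lit 57408) (nat_lit 0) (nat_lit 7752) (XT.nd (nat_lit 56394) (nat_lit 0) (nat_lit 19304) (XT.nd (nat_lit 468) (nat_lit 456) (nat_lit 0) (XT.nd (nat_lit 234) (nat_lit 304) (nat_lit 0) (XT.nd (nat_lit 78) (nat_lit 152) (nat_lit 0) (XT.lf (nat_lit 0) (nat_lit 16647990535) (nat_lit 76) (nat_lit 13999913433) (nat_lit 152) (nat_lit 36436740744) (nat_lit 45) (nat_lit 5) (nat_lit 46) (nat_lit 5) (nat_lit 47) (nat_lit 4) (nat_lit 487) (nat_lit 407) (nat_lit 306)) (XT.nd (nat_lit 78) (nat_lit 76) (nat_lit 0) (XT.lf (nat_lit 0) (nat_lit 6047976100) (nat_lit 76) (nat_lit 53873417459) (nat_lit 76) (nat_lit 9617995938) (nat_lit 44) (nat_lit 4) (nat_lit 45) (nat_lit 5) (nat_lit 45) (nat_lit 4) (nat_lit 488) (nat_lit 407) (nat_lit 305)) (XT.lf (nat_lit 0) (nat_lit 18824980033) (nat_lit 152) (nat_lit 6055348801) (nat_lit 76) (nat_lit 47211842660) (nat_lit 43) (nat_lit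 5) (nat_lit 45) (nat_lit 5) (nat_lit 44) (nat_lit 4) (nat_lit 489) (nat_lit 407) (nat_lit 304)))) (XT.nd (nat_lit 78) (nat_lit 228) (nat_lit 0) (XT.lf (nat_lit 0) (nat_lit 49063544049) (nat_lit 152) (nat_lit 19619650133) (nat_lit 0) (nat_lit 6069371205) (nat_lit 42) (nat_lit 5) (nat_lit 44) (nat_lit 4) (nat_lit 42) (nat_lit 4) (nat_lit 490) (nat_lit 407) (nat_lit 303)) (XT.nd (nat_lit 78) (nat_lit 76) (nat_lit 0) (XT.lf (nat_lit 0) (nat_lit 3914731335) (nat_lit 152) (nat_lit 35060157516) (nat_lit 76) (nat_lit 38548834552) (nat_lit 40) (nat_lit 5) (nat_lit 42) (nat_lit 5) (nat_lit 41) (nat_lit 4) (nat_lit 491) (nat_lit 407) (nat_lit 302)) (XT.lf (nat_lit 0) (nat_lit 27879427540) (nat_lit 76) (nat_lit 7046072546) (nat_lit 152) (nat_lit 45486565548) (nat_lit 39) (nat_lit 5) (nat_lit 40) (nat_lit 5) (nat_lit 41) (nat_lit 4) (nat_lit 492) (nat_lit 407) (nat_lit 301))))) (XT.nd (nat_lit 234) (nat_lit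 228) (nat_lit 0) (XT.nd (nat_lit 78) (nat_lit 152) (nat_lit 0) (XT.lf (nat_lit 0) (nat_lit 11188680388) (nat_lit 76) (nat_lit 57006298657) (nat_lit 76) (nat_lit 15228600991) (nat_lit 38) (nat_lit 4) (nat_lit 39) (nat_lit 5) (nat_lit 39) (nat_lit 4) (nat_lit 493) (nat_lit 407) (nat_lit 300)) (XT.nd (nat_lit 78) (nat_lit 76) (nat_lit 0) (XT.lf (nat_lit 0) (nat_lit 16818671486) (nat_lit 152) (nat_lit 7646604497) (nat_lit 76) (nat_lit 62097647675) (nat_lit 37) (nat_lit 5) (nat_lit 39) (nat_lit 5) (nat_lit 38) (nat_lit 4) (nat_lit 494) (nat_lit 407) (nat_lit 299)) (XT.lf (nat_lit 0) (nat_lit 50827631152) (nat_lit 152) (nat_lit 28760582711) (nat_lit 0) (nat_lit 10246269206) (nat_lit 36) (nat_lit 5) (nat_lit 38) (nat_lit 4) (nat_lit 36) (nat_lit 4) (nat_lit 495) (nat_lit 407) (nat_lit 298)))) (XT.nd (nat_lit 78) (nat_lit 152) (nat_lit 0) (XT.lf (nat_lit 0) (nat_lit 40634986426) (nat_lit 76) (nat_lit 46602254720)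 (nat_lit 76) (nat_lit 6011373411) (nat_lit 35) (nat_lit 4) (nat_lit 36) (nat_lit 5) (nat_lit 36) (nat_lit 4) (nat_lit 496) (nat_lit 407) (nat_lit 297)) (XT.nd (nat_lit 55536) (nat_lit 0) (nat_lit 26144) (XT.lf (nat_lit 0) (nat_lit 17303679117) (nat_lit 76) (nat_lit 11220274816) (nat_lit 152) (nat_lit 68287776710) (nat_lit 33) (nat_lit 5) (nat_lit 34) (nat_lit 5) (nat_lit 35) (nat_lit 4) (nat_lit 497) (nat_lit 407) (nat_lit 296)) (XT.lf (nat_lit 0) (nat_lit 1648107919) (nat_lit 836) (nat_lit 971221398) (nat_lit 836) (nat_lit 971221398) (nat_lit 377) (nat_lit 3) (nat_lit 388) (nat_lit 3) (nat_lit 388) (nat_lit 5) (nat_lit 408) (nat_lit 408) (nat_lit 384)))))) (XT.nd (nat_lit 468) (nat_lit 5244) (nat_lit 0) (XT.nd (nat_lit 234) (nat_lit 836) (nat_lit 0) (XT.nd (nat_lit 78) (nat_lit 760) (nat_lit 0) (XT.lf (nat_lit 76) (nat_lit 4042223334) (nat_lit 0) (nat_lit 2089398380) (nat_lit 836) (nat_lit 1145924450)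 (nat_lit 378) (nat_lit 5) (nat_lit 377) (nat_lit 3) (nat_lit 388) (nat_lit 5) (nat_lit 409) (nat_lit 408) (nat_lit 383)) (XT.nd (nat_lit 78) (nat_lit 0) (nat_lit 0) (XT.lf (nat_lit 0) (nat_lit 1581377983) (nat_lit 836) (nat_lit 4461198745) (nat_lit 912) (nat_lit 1339213599) (nat_lit 367) (nat_lit 5) (nat_lit 378) (nat_lit 5) (nat_lit 379) (nat_lit 5) (nat_lit 410) (nat_lit 408) (nat_lit 382)) (XT.lf (nat_lit 76) (nat_lit 1867185242) (nat_lit 0) (nat_lit 2458928229) (nat_lit 912) (nat_lit 3167678999) (nat_lit 368) (nat_lit 5) (nat_lit 367) (nat_lit 5) (nat_lit 379) (nat_lit 5) (nat_lit 411) (nat_lit 408) (nat_lit 381)))) (XT.nd (nat_lit 78) (nat_lit 912) (nat_lit 0) (XT.lf (nat_lit 76) (nat_lit 899140457) (nat_lit 0) (nat_lit 6216101462) (nat_lit 912) (nat_lit 498965893) (nat_lit 369) (nat_lit 5) (nat_lit 368) (nat_lit 5) (nat_lit 380) (nat_lit 5) (nat_lit 412) (nat_lit 408) (nat_lit 380)) (XT.nd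 (nat_lit 78) (nat_lit 0) (nat_lit 76) (XT.lf (nat_lit 0) (nat_lit 2186303760) (nat_lit 912) (nat_lit 18527995) (nat_lit 988) (nat_lit 5537331735) (nat_lit 356) (nat_lit 5) (nat_lit 368) (nat_lit 5) (nat_lit 369) (nat_lit 5) (nat_lit 413) (nat_lit 408) (nat_lit 379)) (XT.lf (nat_lit 0) (nat_lit 4936031241) (nat_lit 912) (nat_lit 849987774) (nat_lit 988) (nat_lit 2092158779) (nat_lit 357) (nat_lit 5) (nat_lit 369) (nat_lit 5) (nat_lit 370) (nat_lit 5) (nat_lit 414) (nat_lit 408) (nat_lit 378))))) (XT.nd (nat_lit 234) (nat_lit 4408) (nat_lit 0) (XT.nd (nat_lit 78) (nat_lit 912) (nat_lit 0) (XT.lf (nat_lit 76) (nat_lit 6411469039) (nat_lit 0) (nat_lit 1354607088) (nat_lit 988) (nat_lit 256655053) (nat_lit 358) (nat_lit 5) (nat_lit 357) (nat_lit 5) (nat_lit 370) (nat_lit 5) (nat_lit 415) (nat_lit 408) (nat_lit 377)) (XT.nd (nat_lit 78) (nat_lit 0) (nat_lit 76) (XT.lf (nat_lit 0) (nat_lit 2474542531)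 (nat_lit 988) (nat_lit 2337515560) (nat_lit 1064) (nat_lit 3362893130) (nat_lit 345) (nat_lit 5) (nat_lit 358) (nat_lit 5) (nat_lit 359) (nat_lit 5) (nat_lit 416) (nat_lit 408) (nat_lit 376)) (XT.lf (nat_lit 0) (nat_lit 5288566091) (nat_lit 988) (nat_lit 2990361732) (nat_lit 76) (nat_lit 57251497) (nat_lit 346) (nat_lit 5) (nat_lit 359) (nat_lit 5) (nat_lit 347) (nat_lit 5) (nat_lit 417) (nat_lit 408) (nat_lit 375)))) (XT.nd (nat_lit 156) (nat_lit 2356) (nat_lit 0) (XT.nd (nat_lit 78) (nat_lit 1140) (nat_lit 0) (XT.lf (nat_lit 0) (nat_lit 4903625285) (nat_lit 988) (nat_lit 3334400523) (nat_lit 1064) (nat_lit 267620506) (nat_lit 333) (nat_lit 5) (nat_lit 346) (nat_lit 5) (nat_lit 347) (nat_lit 5) (nat_lit 418) (nat_lit 408) (nat_lit 374)) (XT.lf (nat_lit 0) (nat_lit 2571905963) (nat_lit 1140) (nat_lit 4168681601) (nat_lit 76) (nat_lit 1943084405) (nat_lit 318) (nat_lit 5) (nat_lit 333) (nat_lit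 5) (nat_lit 319) (nat_lit 5) (nat_lit 419) (nat_lit 408) (nat_lit 373))) (XT.nd (nat_lit 78) (nat_lit 1216) (nat_lit 0) (XT.lf (nat_lit 0) (nat_lit 4187579551) (nat_lit 1140) (nat_lit 1355278726) (nat_lit 1216) (nat_lit 3327828814) (nat_lit 303) (nat_lit 5) (nat_lit 318) (nat_lit 5) (nat_lit 319) (nat_lit 5) (nat_lit 420) (nat_lit 408) (nat_lit 372)) (XT.lf (nat_lit 0) (nat_lit 3916009110) (nat_lit 1216) (nat_lit 4756966853) (nat_lit 1292) (nat_lit 393774861) (nat_lit 287) (nat_lit 5) (nat_lit 303) (nat_lit 5) (nat_lit 304) (nat_lit 5) (nat_lit 421) (nat_lit 408) (nat_lit 371))))))) (XT.nd (nat_lit 1014) (nat_lit 4408) (nat_lit 0) (XT.nd (nat_lit 468) (nat_lit 3420) (nat_lit 0) (XT.nd (nat_lit 234) (nat_lit 1672) (nat_lit 0) (XT.nd (nat_lit 78) (nat_lit 1216) (nat_lit 0) (XT.lf (nat_lit 0) (nat_lit 2634484054) (nat_lit 836) (nat_lit 5579407903) (nat_lit 76) (nat_lit 1057968022) (nat_lit 276) (nat_lit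 5) (nat_lit 287) (nat_lit 5) (nat_lit 277) (nat_lit 5) (nat_lit 422) (nat_lit 408) (nat_lit 370)) (XT.nd (nat_lit 78) (nat_lit 608) (nat_lit 0) (XT.lf (nat_lit 0) (nat_lit 3514657700) (nat_lit 608) (nat_lit 2322655428) (nat_lit 684) (nat_lit 3648869898) (nat_lit 268) (nat_lit 5) (nat_lit 276) (nat_lit 5) (nat_lit 277) (nat_lit 5) (nat_lit 423) (nat_lit 408) (nat_lit 369)) (XT.lf (nat_lit 0) (nat_lit 3397766783) (nat_lit 608) (nat_lit 5830226923) (nat_lit 684) (nat_lit 482410962) (nat_lit 260) (nat_lit 5) (nat_lit 268) (nat_lit 5) (nat_lit 269) (nat_lit 5) (nat_lit 424) (nat_lit 408) (nat_lit 368)))) (XT.nd (nat_lit 78) (nat_lit 1064) (nat_lit 0) (XT.lf (nat_lit 0) (nat_lit 2812219439) (nat_lit 608) (nat_lit 6619923984) (nat_lit 76) (nat_lit 512127596) (nat_lit 252) (nat_lit 5) (nat_lit 260) (nat_lit 5) (nat_lit 253) (nat_lit 5) (nat_lit 425) (nat_lit 408) (nat_lit 367)) (XT.nd (nat_lit 78) (nat_lit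 532) (nat_lit 0) (XT.lf (nat_lit 0) (nat_lit 3286694475) (nat_lit 532) (nat_lit 3037487209) (nat_lit 608) (nat_lit 3863640495) (nat_lit 245) (nat_lit 5) (nat_lit 252) (nat_lit 5) (nat_lit 253) (nat_lit 5) (nat_lit 426) (nat_lit 408) (nat_lit 366)) (XT.lf (nat_lit 0) (nat_lit 3314058605) (nat_lit 532) (nat_lit 6743573362) (nat_lit 608) (nat_lit 384553760) (nat_lit 238) (nat_lit 5) (nat_lit 245) (nat_lit 5) (nat_lit 246) (nat_lit 5) (nat_lit 427) (nat_lit 408) (nat_lit 365))))) (XT.nd (nat_lit 234) (nat_lit 1824) (nat_lit 0) (XT.nd (nat_lit 78) (nat_lit 988) (nat_lit 0) (XT.lf (nat_lit 0) (nat_lit 3253212102) (nat_lit 608) (nat_lit 7326830321) (nat_lit 76) (nat_lit 126837982) (nat_lit 230) (nat_lit 5) (nat_lit 238) (nat_lit 5) (nat_lit 231) (nat_lit 5) (nat_lit 428) (nat_lit 408) (nat_lit 364)) (XT.nd (nat_lit 78) (nat_lit 532) (nat_lit 0) (XT.lf (nat_lit 0) (nat_lit 3476608231) (nat_lit 456) (nat_lit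 3679459187) (nat_lit 532) (nat_lit 3825903695) (nat_lit 224) (nat_lit 5) (nat_lit 230) (nat_lit 5) (nat_lit 231) (nat_lit 5) (nat_lit 429) (nat_lit 408) (nat_lit 363)) (XT.lf (nat_lit 0) (nat_lit 48125049) (nat_lit 532) (nat_lit 7626582966) (nat_lit 76) (nat_lit 3594186088) (nat_lit 217) (nat_lit 5) (nat_lit 224) (nat_lit 5) (nat_lit 218) (nat_lit 5) (nat_lit 430) (nat_lit 408) (nat_lit 362)))) (XT.nd (nat_lit 156) (nat_lit 912) (nat_lit 0) (XT.nd (nat_lit 78) (nat_lit 456) (nat_lit 0) (XT.lf (nat_lit 0) (nat_lit 3837924111) (nat_lit 456) (nat_lit 272236606) (nat_lit 532) (nat_lit 7456672124) (nat_lit 211) (nat_lit 5) (nat_lit 217) (nat_lit 5) (nat_lit 218) (nat_lit 5) (nat_lit 431) (nat_lit 408) (nat_lit 361)) (XT.lf (nat_lit 0) (nat_lit 4068051526) (nat_lit 456) (nat_lit 4421081256) (nat_lit 532) (nat_lit 3387129208) (nat_lit 205) (nat_lit 5) (nat_lit 211) (nat_lit 5) (nat_lit 212) (nat_lit 5)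 (nat_lit 432) (nat_lit 408) (nat_lit 360))) (XT.nd (nat_lit 78) (nat_lit 456) (nat_lit 0) (XT.lf (nat_lit 0) (nat_lit 952745225) (nat_lit 456) (nat_lit 7836391671) (nat_lit 76) (nat_lit 3409253861) (nat_lit 199) (nat_lit 5) (nat_lit 205) (nat_lit 5) (nat_lit 200) (nat_lit 5) (nat_lit 433) (nat_lit 408) (nat_lit 359)) (XT.lf (nat_lit 0) (nat_lit 4687374313) (nat_lit 456) (nat_lit 851526836) (nat_lit 532) (nat_lit 6993746069) (nat_lit 193) (nat_lit 5) (nat_lit 199) (nat_lit 5) (nat_lit 200) (nat_lit 5) (nat_lit 434) (nat_lit 408) (nat_lit 358)))))) (XT.nd (nat_lit 468) (nat_lit 2204) (nat_lit 0) (XT.nd (nat_lit 234) (nat_lit 1064) (nat_lit 0) (XT.nd (nat_lit 78) (nat_lit 760) (nat_lit 0) (XT.lf (nat_lit 0) (nat_lit 5052404053) (nat_lit 380) (nat_lit 5434105407) (nat_lit 456) (nat_lit 2393149842) (nat_lit 188) (nat_lit 5) (nat_lit 193) (nat_lit 5) (nat_lit 194) (nat_lit 5) (nat_lit 435) (nat_lit 408)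 (nat_lit 357)) (XT.nd (nat_lit 78) (nat_lit 304) (nat_lit 0) (XT.lf (nat_lit 0) (nat_lit 2494066051) (nat_lit 456) (nat_lit 7770476688) (nat_lit 76) (nat_lit 2975658324) (nat_lit 182) (nat_lit 5) (nat_lit 188) (nat_lit 5) (nat_lit 183) (nat_lit 5) (nat_lit 436) (nat_lit 408) (nat_lit 356)) (XT.lf (nat_lit 0) (nat_lit 5923412294) (nat_lit 304) (nat_lit 1780467842) (nat_lit 380) (nat_lit 5910353283) (nat_lit 178) (nat_lit 5) (nat_lit 182) (nat_lit 5) (nat_lit 183) (nat_lit 5) (nat_lit 437) (nat_lit 408) (nat_lit 355)))) (XT.nd (nat_lit 78) (nat_lit 684) (nat_lit 0) (XT.lf (nat_lit 0) (nat_lit 6425684071) (nat_lit 380) (nat_lit 6895726112) (nat_lit 456) (nat_lit 681146442) (nat_lit 173) (nat_lit 5) (nat_lit 178) (nat_lit 5) (nat_lit 179) (nat_lit 5) (nat_lit 438) (nat_lit 408) (nat_lit 354)) (XT.nd (nat_lit 78) (nat_lit 304) (nat_lit 0) (XT.lf (nat_lit 0) (nat_lit 4839271053) (nat_lit 380) (nat_lit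 7443411759) (nat_lit 76) (nat_lit 2122523710) (nat_lit 168) (nat_lit 5) (nat_lit 173) (nat_lit 5) (nat_lit 169) (nat_lit 5) (nat_lit 439) (nat_lit 408) (nat_lit 353)) (XT.lf (nat_lit 0) (nat_lit 7542135124) (nat_lit 304) (nat_lit 3240111175) (nat_lit 380) (nat_lit 4040726848) (nat_lit 164) (nat_lit 5) (nat_lit 168) (nat_lit 5) (nat_lit 169) (nat_lit 5) (nat_lit 440) (nat_lit 408) (nat_lit 352))))) (XT.nd (nat_lit 234) (nat_lit 1216) (nat_lit 0) (XT.nd (nat_lit 78) (nat_lit 608) (nat_lit 0) (XT.lf (nat_lit 0) (nat_lit 1885543572) (nat_lit 380) (nat_lit 7090223253) (nat_lit 76) (nat_lit 6280583599) (nat_lit 159) (nat_lit 5) (nat_lit 164) (nat_lit 5) (nat_lit 160) (nat_lit 5) (nat_lit 441) (nat_lit 408) (nat_lit 351)) (XT.nd (nat_lit 78) (nat_lit 304) (nat_lit 0) (XT.lf (nat_lit 0) (nat_lit 8168083992) (nat_lit 380) (nat_lit 6871390466) (nat_lit 76) (nat_lit 666420787) (nat_lit 155) (nat_lit 5) (nat_lit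 160) (nat_lit 5) (nat_lit 156) (nat_lit 5) (nat_lit 442) (nat_lit 408) (nat_lit 350)) (XT.lf (nat_lit 0) (nat_lit 9538270224) (nat_lit 304) (nat_lit 5426962457) (nat_lit 380) (nat_lit 1206674611) (nat_lit 151) (nat_lit 5) (nat_lit 155) (nat_lit 5) (nat_lit 156) (nat_lit 5) (nat_lit 443) (nat_lit 408) (nat_lit 349)))) (XT.nd (nat_lit 156) (nat_lit 608) (nat_lit 0) (XT.nd (nat_lit 78) (nat_lit 228) (nat_lit 0) (XT.lf (nat_lit 0) (nat_lit 5498056135) (nat_lit 380) (nat_lit 6384803076) (nat_lit 76) (nat_lit 4771899413) (nat_lit 146) (nat_lit 5) (nat_lit 151) (nat_lit 5) (nat_lit 147) (nat_lit 5) (nat_lit 444) (nat_lit 408) (nat_lit 348)) (XT.lf (nat_lit 0) (nat_lit 11063884852) (nat_lit 228) (nat_lit 1626847161) (nat_lit 304) (nat_lit 4465336050) (nat_lit 143) (nat_lit 5) (nat_lit 146) (nat_lit 5) (nat_lit 147) (nat_lit 5) (nat_lit 445) (nat_lit 408) (nat_lit 347))) (XT.nd (nat_lit 78) (nat_lit 228)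 (nat_lit 0) (XT.lf (nat_lit 0) (nat_lit 2730239213) (nat_lit 380) (nat_lit 5801964583) (nat_lit 76) (nat_lit 9142916147) (nat_lit 138) (nat_lit 5) (nat_lit 143) (nat_lit 5) (nat_lit 139) (nat_lit 5) (nat_lit 446) (nat_lit 408) (nat_lit 346)) (XT.lf (nat_lit 0) (nat_lit 10369572880) (nat_lit 304) (nat_lit 5484376622) (nat_lit 76) (nat_lit 2359562119) (nat_lit 135) (nat_lit 5) (nat_lit 139) (nat_lit 5) (nat_lit 136) (nat_lit 5) (nat_lit 447) (nat_lit 408) (nat_lit 345))))))))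
noncomputable def xc63 : XT := (XT.nd (nat_lit 1950) (nat_lit 2660) (nat_lit 0) (XT.nd (nat_lit 936) (nat_lit 2204) (nat_lit 0) (XT.nd (nat_lit 468) (nat_lit 1216) (nat_lit 0) (XT.nd (nat_lit 234) (nat_lit 760) (nat_lit 0) (XT.nd (nat_lit 78) (nat_lit 532) (nat_lit 0) (XT.lf (nat_lit 0) (nat_lit 13631794987) (nat_lit 228) (nat_lit 4987904165) (nat_lit 304) (nat_lit 152262219) (nat_lit 132) (nat_lit 5) (nat_lit 135) (nat_lit 5) (nat_lit 136) (nat_lit 5) (nat_lit 448) (nat_lit 408) (nat_lit 344)) (XT.nd (nat_lit 78) (nat_lit 228) (nat_lit 0) (XT.lf (nat_lit 0) (nat_lit 7983278167) (nat_lit 304) (nat_lit 4823143794) (nat_lit 76) (nat_lit 6543212384) (nat_lit 128) (nat_lit 5) (nat_lit 132) (nat_lit 5) (nat_lit 129) (nat_lit 5) (nat_lit 449) (nat_lit 408) (nat_lit 343)) (XT.lf (nat_lit 0) (nat_lit 15503318451) (nat_lit 228) (nat_lit 1225698254) (nat_lit 304) (nat_lit 3220934808) (nat_lit 125) (nat_lit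 5) (nat_lit 128) (nat_lit 5) (nat_lit 129) (nat_lit 5) (nat_lit 450) (nat_lit 408) (nat_lit 342)))) (XT.nd (nat_lit 78) (nat_lit 456) (nat_lit 0) (XT.lf (nat_lit 0) (nat_lit 5499267806) (nat_lit 304) (nat_lit 4116447759) (nat_lit 76) (nat_lit 10954887512) (nat_lit 121) (nat_lit 5) (nat_lit 125) (nat_lit 5) (nat_lit 122) (nat_lit 5) (nat_lit 451) (nat_lit 408) (nat_lit 341)) (XT.nd (nat_lit 78) (nat_lit 228) (nat_lit 0) (XT.lf (nat_lit 0) (nat_lit 14798373131) (nat_lit 304) (nat_lit 3747673690) (nat_lit 76) (nat_lit 2669001023) (nat_lit 118) (nat_lit 5) (nat_lit 122) (nat_lit 5) (nat_lit 119) (nat_lit 5) (nat_lit 452) (nat_lit 408) (nat_lit 340)) (XT.lf (nat_lit 0) (nat_lit 2896257225) (nat_lit 228) (nat_lit 3394632382) (nat_lit 76) (nat_lit 15591727795) (nat_lit 115) (nat_lit 5) (nat_lit 118) (nat_lit 5) (nat_lit 116) (nat_lit 5) (nat_lit 453) (nat_lit 408) (nat_lit 339))))) (XT.nd (nat_lit 234)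 (nat_lit 532) (nat_lit 0) (XT.nd (nat_lit 78) (nat_lit 456) (nat_lit 0) (XT.lf (nat_lit 0) (nat_lit 12794376866) (nat_lit 304) (nat_lit 3065052107) (nat_lit 76) (nat_lit 6714665320) (nat_lit 112) (nat_lit 5) (nat_lit 116) (nat_lit 5) (nat_lit 113) (nat_lit 5) (nat_lit 454) (nat_lit 408) (nat_lit 338)) (XT.nd (nat_lit 78) (nat_lit 228) (nat_lit 0) (XT.lf (nat_lit 0) (nat_lit 147866313) (nat_lit 228) (nat_lit 2696341933) (nat_lit 76) (nat_lit 20448219091) (nat_lit 109) (nat_lit 5) (nat_lit 112) (nat_lit 5) (nat_lit 110) (nat_lit 5) (nat_lit 455) (nat_lit 408) (nat_lit 337)) (XT.lf (nat_lit 0) (nat_lit 10679143379) (nat_lit 304) (nat_lit 2430542977) (nat_lit 76) (nat_lit 10924800565) (nat_lit 106) (nat_lit 5) (nat_lit 110) (nat_lit 5) (nat_lit 107) (nat_lit 5) (nat_lit 456) (nat_lit 408) (nat_lit 336)))) (XT.nd (nat_lit 78) (nat_lit 380) (nat_lit 0) (XT.lf (nat_lit 0) (nat_lit 21980070845) (nat_lit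 228) (nat_lit 2104673007) (nat_lit 76) (nat_lit 721614906) (nat_lit 104) (nat_lit 5) (nat_lit 107) (nat_lit 5) (nat_lit 105) (nat_lit 5) (nat_lit 457) (nat_lit 408) (nat_lit 335)) (XT.nd (nat_lit 78) (nat_lit 152) (nat_lit 0) (XT.lf (nat_lit 0) (nat_lit 8420289464) (nat_lit 228) (nat_lit 1898894501) (nat_lit 76) (nat_lit 15284719301) (nat_lit 101) (nat_lit 5) (nat_lit 104) (nat_lit 5) (nat_lit 102) (nat_lit 5) (nat_lit 458) (nat_lit 408) (nat_lit 334)) (XT.lf (nat_lit 0) (nat_lit 20436625680) (nat_lit 228) (nat_lit 1678168664) (nat_lit 76) (nat_lit 4317716352) (nat_lit 99) (nat_lit 5) (nat_lit 102) (nat_lit 5) (nat_lit 100) (nat_lit 5) (nat_lit 459) (nat_lit 408) (nat_lit 333)))))) (XT.nd (nat_lit 468) (nat_lit 1064) (nat_lit 0) (XT.nd (nat_lit 234) (nat_lit 532) (nat_lit 0) (XT.nd (nat_lit 78) (nat_lit 380) (nat_lit 0) (XT.lf (nat_lit 0) (nat_lit 5977995643) (nat_lit 228) (nat_lit 1538406595)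 (nat_lit 76) (nat_lit 19774319473) (nat_lit 96) (nat_lit 5) (nat_lit 99) (nat_lit 5) (nat_lit 97) (nat_lit 5) (nat_lit 460) (nat_lit 408) (nat_lit 332)) (XT.nd (nat_lit 78) (nat_lit 228) (nat_lit 0) (XT.lf (nat_lit 0) (nat_lit 18745325068) (nat_lit 228) (nat_lit 1464198549) (nat_lit 76) (nat_lit 7970977391) (nat_lit 94) (nat_lit 5) (nat_lit 97) (nat_lit 5) (nat_lit 95) (nat_lit 5) (nat_lit 461) (nat_lit 408) (nat_lit 331)) (XT.lf (nat_lit 0) (nat_lit 3303633517) (nat_lit 228) (nat_lit 1433717826) (nat_lit 76) (nat_lit 24366744777) (nat_lit 91) (nat_lit 5) (nat_lit 94) (nat_lit 5) (nat_lit 92) (nat_lit 5) (nat_lit 462) (nat_lit 408) (nat_lit 330)))) (XT.nd (nat_lit 78) (nat_lit 380) (nat_lit 0) (XT.lf (nat_lit 0) (nat_lit 16856587422) (nat_lit 228) (nat_lit 1556860755) (nat_lit 76) (nat_lit 11646451423) (nat_lit 89) (nat_lit 5) (nat_lit 92) (nat_lit 5) (nat_lit 90) (nat_lit 5) (nat_lit 463) (nat_lit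 408) (nat_lit 329)) (XT.nd (nat_lit 78) (nat_lit 152) (nat_lit 0) (XT.lf (nat_lit 0) (nat_lit 338138856) (nat_lit 228) (nat_lit 1689094994) (nat_lit 76) (nat_lit 29026806589) (nat_lit 86) (nat_lit 5) (nat_lit 89) (nat_lit 5) (nat_lit 87) (nat_lit 5) (nat_lit 464) (nat_lit 408) (nat_lit 328)) (XT.lf (nat_lit 0) (nat_lit 14709763012) (nat_lit 228) (nat_lit 2071751129) (nat_lit 76) (nat_lit 15299668566) (nat_lit 84) (nat_lit 5) (nat_lit 87) (nat_lit 5) (nat_lit 85) (nat_lit 5) (nat_lit 465) (nat_lit 408) (nat_lit 327))))) (XT.nd (nat_lit 234) (nat_lit 608) (nat_lit 0) (XT.nd (nat_lit 78) (nat_lit 304) (nat_lit 0) (XT.lf (nat_lit 0) (nat_lit 30106877376) (nat_lit 228) (nat_lit 2467277493) (nat_lit 76) (nat_lit 576321022) (nat_lit 82) (nat_lit 5) (nat_lit 85) (nat_lit 5) (nat_lit 83) (nat_lit 4) (nat_lit 466) (nat_lit 408) (nat_lit 326)) (XT.nd (nat_lit 78) (nat_lit 152) (nat_lit 0) (XT.lf (nat_lit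 0) (nat_lit 12231061662) (nat_lit 152) (nat_lit 3150178717) (nat_lit 76) (nat_lit 18874594935) (nat_lit 80) (nat_lit 5) (nat_lit 82) (nat_lit 5) (nat_lit 81) (nat_lit 5) (nat_lit 467) (nat_lit 408) (nat_lit 325)) (XT.lf (nat_lit 0) (nat_lit 28534333532) (nat_lit 228) (nat_lit 3914566712) (nat_lit 76) (nat_lit 2956824619) (nat_lit 78) (nat_lit 5) (nat_lit 81) (nat_lit 5) (nat_lit 79) (nat_lit 4) (nat_lit 468) (nat_lit 408) (nat_lit 324)))) (XT.nd (nat_lit 156) (nat_lit 304) (nat_lit 0) (XT.nd (nat_lit 78) (nat_lit 152) (nat_lit 0) (XT.lf (nat_lit 0) (nat_lit 9331104199) (nat_lit 152) (nat_lit 4964135939) (nat_lit 76) (nat_lit 22301227568) (nat_lit 76) (nat_lit 5) (nat_lit 78) (nat_lit 5) (nat_lit 77) (nat_lit 5) (nat_lit 469) (nat_lit 408) (nat_lit 323)) (XT.lf (nat_lit 0) (nat_lit 26568802706) (nat_lit 228) (nat_lit 6197670199) (nat_lit 76) (nat_lit 5067218936) (nat_lit 74) (nat_lit 5) (nat_lit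 77) (nat_lit 5) (nat_lit 75) (nat_lit 4) (nat_lit 470) (nat_lit 408) (nat_lit 322))) (XT.nd (nat_lit 78) (nat_lit 152) (nat_lit 0) (XT.lf (nat_lit 0) (nat_lit 5902032798) (nat_lit 152) (nat_lit 7722155685) (nat_lit 76) (nat_lit 25492759814) (nat_lit 72) (nat_lit 5) (nat_lit 74) (nat_lit 5) (nat_lit 73) (nat_lit 5) (nat_lit 471) (nat_lit 408) (nat_lit 321)) (XT.lf (nat_lit 0) (nat_lit 24097486272) (nat_lit 228) (nat_lit 9545985947) (nat_lit 76) (nat_lit 6805455262) (nat_lit 70) (nat_lit 5) (nat_lit 73) (nat_lit 5) (nat_lit 71) (nat_lit 4) (nat_lit 472) (nat_lit 408) (nat_lit 320))))))) (XT.nd (nat_lit 1014) (nat_lit 1064) (nat_lit 0) (XT.nd (nat_lit 468) (nat_lit 684) (nat_lit 0) (XT.nd (nat_lit 234) (nat_lit 532) (nat_lit 0) (XT.nd (nat_lit 78) (nat_lit 228) (nat_lit 0) (XT.lf (nat_lit 0) (nat_lit 1814104171) (nat_lit 152) (nat_lit 11676210145) (nat_lit 76) (nat_lit 28342240902) (nat_lit 68) (nat_lit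 5) (nat_lit 70) (nat_lit 5) (nat_lit 69) (nat_lit 5) (nat_lit 473) (nat_lit 408) (nat_lit 319)) (XT.nd (nat_lit 78) (nat_lit 76) (nat_lit 0) (XT.lf (nat_lit 0) (nat_lit 20984168933) (nat_lit 228) (nat_lit 14236253571) (nat_lit 76) (nat_lit 8047053168) (nat_lit 66) (nat_lit 5) (nat_lit 69) (nat_lit 5) (nat_lit 67) (nat_lit 4) (nat_lit 474) (nat_lit 408) (nat_lit 318)) (XT.lf (nat_lit 0) (nat_lit 27599130854) (nat_lit 76) (nat_lit 14010323135) (nat_lit 152) (nat_lit 3149787263) (nat_lit 65) (nat_lit 5) (nat_lit 66) (nat_lit 5) (nat_lit 67) (nat_lit 4) (nat_lit 475) (nat_lit 408) (nat_lit 317)))) (XT.nd (nat_lit 78) (nat_lit 304) (nat_lit 0) (XT.lf (nat_lit 0) (nat_lit 17064891726) (nat_lit 228) (nat_lit 20601365515) (nat_lit 76) (nat_lit 8640801632) (nat_lit 62) (nat_lit 5) (nat_lit 65) (nat_lit 5) (nat_lit 63) (nat_lit 4) (nat_lit 476) (nat_lit 408) (nat_lit 316)) (XT.nd (nat_lit 78) (nat_lit 228)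 (nat_lit 0) (XT.lf (nat_lit 0) (nat_lit 23379901799) (nat_lit 76) (nat_lit 15365363813) (nat_lit 152) (nat_lit 9170463621) (nat_lit 61) (nat_lit 5) (nat_lit 62) (nat_lit 5) (nat_lit 63) (nat_lit 4) (nat_lit 477) (nat_lit 408) (nat_lit 315)) (XT.lf (nat_lit 0) (nat_lit 12142857382) (nat_lit 228) (nat_lit 29040733160) (nat_lit 76) (nat_lit 8403699826) (nat_lit 58) (nat_lit 5) (nat_lit 61) (nat_lit 5) (nat_lit 59) (nat_lit 4) (nat_lit 478) (nat_lit 408) (nat_lit 314))))) (XT.nd (nat_lit 234) (nat_lit 380) (nat_lit 0) (XT.nd (nat_lit 78) (nat_lit 228) (nat_lit 0) (XT.lf (nat_lit 0) (nat_lit 17098369672) (nat_lit 76) (nat_lit 17786076761) (nat_lit 152) (nat_lit 16438691864) (nat_lit 57) (nat_lit 5) (nat_lit 58) (nat_lit 5) (nat_lit 59) (nat_lit 4) (nat_lit 479) (nat_lit 408) (nat_lit 313)) (XT.nd (nat_lit 78) (nat_lit 76) (nat_lit 0) (XT.lf (nat_lit 0) (nat_lit 5982435707) (nat_lit 152) (nat_lit 40032476927)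 (nat_lit 76) (nat_lit 7115005094) (nat_lit 55) (nat_lit 5) (nat_lit 57) (nat_lit 5) (nat_lit 56) (nat_lit 4) (nat_lit 480) (nat_lit 408) (nat_lit 312)) (XT.lf (nat_lit 0) (nat_lit 8252188808) (nat_lit 76) (nat_lit 21527215377) (nat_lit 152) (nat_lit 25224906729) (nat_lit 54) (nat_lit 5) (nat_lit 55) (nat_lit 5) (nat_lit 56) (nat_lit 4) (nat_lit 481) (nat_lit 408) (nat_lit 311)))) (XT.nd (nat_lit 156) (nat_lit 228) (nat_lit 0) (XT.nd (nat_lit 78) (nat_lit 76) (nat_lit 0) (XT.lf (nat_lit 0) (nat_lit 2794201604) (nat_lit 76) (nat_lit 52432724078) (nat_lit 76) (nat_lit 1731677338) (nat_lit 53) (nat_lit 4) (nat_lit 54) (nat_lit 5) (nat_lit 54) (nat_lit 4) (nat_lit 482) (nat_lit 408) (nat_lit 310)) (XT.lf (nat_lit 0) (nat_lit 23169850089) (nat_lit 152) (nat_lit 3686663867) (nat_lit 76) (nat_lit 32127045696) (nat_lit 52) (nat_lit 5) (nat_lit 54) (nat_lit 5) (nat_lit 53) (nat_lit 4) (nat_lit 483) (nat_lit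 408) (nat_lit 309))) (XT.nd (nat_lit 78) (nat_lit 152) (nat_lit 0) (XT.lf (nat_lit 0) (nat_lit 49747574093) (nat_lit 152) (nat_lit 10863103922) (nat_lit 0) (nat_lit 484564074) (nat_lit 51) (nat_lit 5) (nat_lit 53) (nat_lit 4) (nat_lit 51) (nat_lit 4) (nat_lit 484) (nat_lit 408) (nat_lit 308)) (XT.lf (nat_lit 0) (nat_lit 14782175862) (nat_lit 152) (nat_lit 19273168765) (nat_lit 76) (nat_lit 29231417777) (nat_lit 49) (nat_lit 5) (nat_lit 51) (nat_lit 5) (nat_lit 50) (nat_lit 4) (nat_lit 485) (nat_lit 408) (nat_lit 307)))))) (XT.nd (nat_lit 468) (nat_lit 532) (nat_lit 0) (XT.nd (nat_lit 234) (nat_lit 228) (nat_lit 0) (XT.nd (nat_lit 78) (nat_lit 228) (nat_lit 0) (XT.lf (nat_lit 0) (nat_lit 36840607098) (nat_lit 76) (nat_lit 5592256262) (nat_lit 152) (nat_lit 23138153931) (nat_lit 48) (nat_lit 5) (nat_lit 49) (nat_lit 5) (nat_lit 50) (nat_lit 4) (nat_lit 486) (nat_lit 408) (nat_lit 306)) (XT.nd (nat_lit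 78) (nat_lit 76) (nat_lit 0) (XT.lf (nat_lit 0) (nat_lit 4123056455) (nat_lit 152) (nat_lit 39508263412) (nat_lit 76) (nat_lit 24316316377) (nat_lit 46) (nat_lit 5) (nat_lit 48) (nat_lit 5) (nat_lit 47) (nat_lit 4) (nat_lit 487) (nat_lit 408) (nat_lit 305)) (XT.lf (nat_lit 0) (nat_lit 18667329218) (nat_lit 76) (nat_lit 14121081169) (nat_lit 152) (nat_lit 37632214845) (nat_lit 45) (nat_lit 5) (nat_lit 46) (nat_lit 5) (nat_lit 47) (nat_lit 4) (nat_lit 488) (nat_lit 408) (nat_lit 304)))) (XT.nd (nat_lit 78) (nat_lit 152) (nat_lit 0) (XT.lf (nat_lit 0) (nat_lit 7515614668) (nat_lit 76) (nat_lit 55997502202) (nat_lit 76) (nat_lit 9485364511) (nat_lit 44) (nat_lit 4) (nat_lit 45) (nat_lit 5) (nat_lit 45) (nat_lit 4) (nat_lit 489) (nat_lit 408) (nat_lit 303)) (XT.nd (nat_lit 78) (nat_lit 76) (nat_lit 0) (XT.lf (nat_lit 0) (nat_lit 20339142387) (nat_lit 152) (nat_lit 5236954606) (nat_lit 76) (nat_lit 50103488294)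 (nat_lit 43) (nat_lit 5) (nat_lit 45) (nat_lit 5) (nat_lit 44) (nat_lit 4) (nat_lit 490) (nat_lit 408) (nat_lit 302)) (XT.lf (nat_lit 0) (nat_lit 52077944166) (nat_lit 152) (nat_lit 19500041633) (nat_lit 0) (nat_lit 6895364141) (nat_lit 42) (nat_lit 5) (nat_lit 44) (nat_lit 4) (nat_lit 42) (nat_lit 4) (nat_lit 491) (nat_lit 408) (nat_lit 301))))) (XT.nd (nat_lit 234) (nat_lit 228) (nat_lit 0) (XT.nd (nat_lit 78) (nat_lit 152) (nat_lit 0) (XT.lf (nat_lit 0) (nat_lit 4660642577) (nat_lit 152) (nat_lit 35733166552) (nat_lit 76) (nat_lit 40989588704) (nat_lit 40) (nat_lit 5) (nat_lit 42) (nat_lit 5) (nat_lit 41) (nat_lit 4) (nat_lit 492) (nat_lit 408) (nat_lit 300)) (XT.nd (nat_lit 78) (nat_lit 76) (nat_lit 0) (XT.lf (nat_lit 0) (nat_lit 30322439808) (nat_lit 76) (nat_lit 6883395187) (nat_lit 152) (nat_lit 47210805934) (nat_lit 39) (nat_lit 5) (nat_lit 40) (nat_lit 5) (nat_lit 41) (nat_lit 4) (nat_lit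 493) (nat_lit 408) (nat_lit 299)) (XT.lf (nat_lit 0) (nat_lit 12777844886) (nat_lit 76) (nat_lit 59350124574) (nat_lit 76) (nat_lit 15451086439) (nat_lit 38) (nat_lit 4) (nat_lit 39) (nat_lit 5) (nat_lit 39) (nat_lit 4) (nat_lit 494) (nat_lit 408) (nat_lit 298)))) (XT.nd (nat_lit 156) (nat_lit 76) (nat_lit 0) (XT.nd (nat_lit 78) (nat_lit 76) (nat_lit 0) (XT.lf (nat_lit 0) (nat_lit 18162869681) (nat_lit 152) (nat_lit 7038217624) (nat_lit 76) (nat_lit 65674879147) (nat_lit 37) (nat_lit 5) (nat_lit 39) (nat_lit 5) (nat_lit 38) (nat_lit 4) (nat_lit 495) (nat_lit 408) (nat_lit 297)) (XT.lf (nat_lit 0) (nat_lit 53862116893) (nat_lit 152) (nat_lit 29226185914) (nat_lit 0) (nat_lit 11223106098) (nat_lit 36) (nat_lit 5) (nat_lit 38) (nat_lit 4) (nat_lit 36) (nat_lit 4) (nat_lit 496) (nat_lit 408) (nat_lit 296))) (XT.nd (nat_lit 55614) (nat_lit 0) (nat_lit 25156) (XT.lf (nat_lit 0) (nat_lit 43611287285)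 (nat_lit 76) (nat_lit 48466518557) (nat_lit 76) (nat_lit 5818873420) (nat_lit 35) (nat_lit 4) (nat_lit 36) (nat_lit 5) (nat_lit 36) (nat_lit 4) (nat_lit 497) (nat_lit 408) (nat_lit 295)) (XT.lf (nat_lit 0) (nat_lit 352926666) (nat_lit 0) (nat_lit 352926666) (nat_lit 836) (nat_lit 2983173549) (nat_lit 366) (nat_lit 5) (nat_lit 366) (nat_lit 3) (nat_lit 377) (nat_lit 3) (nat_lit 409) (nat_lit 409) (nat_lit 382))))))))
noncomputable def xc64 : XT := (XT.nd (nat_lit 1950) (nat_lit 7752) (nat_lit 0) (XT.nd (nat_lit 936) (nat_lit 7904) (nat_lit 0) (XT.nd (nat_lit 468) (nat_lit 3116) (nat_lit 0) (XT.nd (nat_lit 234) (nat_lit 836) (nat_lit 0) (XT.nd (nat_lit 78) (nat_lit 836) (nat_lit 0) (XT.lf (nat_lit 0) (nat_lit 3986588631) (nat_lit 836) (nat_lit 608295980) (nat_lit 912) (nat_lit 2890998866) (nat_lit 366) (nat_lit 5) (nat_lit 377) (nat_lit 3) (nat_lit 378) (nat_lit 5) (nat_lit 410) (nat_lit 409) (nat_lit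 381)) (XT.nd (nat_lit 78) (nat_lit 836) (nat_lit 0) (XT.lf (nat_lit 76) (nat_lit 5778439013) (nat_lit 0) (nat_lit 814467417) (nat_lit 912) (nat_lit 1009145270) (nat_lit 367) (nat_lit 5) (nat_lit 366) (nat_lit 5) (nat_lit 378) (nat_lit 5) (nat_lit 411) (nat_lit 409) (nat_lit 380)) (XT.lf (nat_lit 0) (nat_lit 1503247695) (nat_lit 912) (nat_lit 2994103531) (nat_lit 988) (nat_lit 3228367842) (nat_lit 355) (nat_lit 5) (nat_lit 367) (nat_lit 5) (nat_lit 368) (nat_lit 5) (nat_lit 412) (nat_lit 409) (nat_lit 379)))) (XT.nd (nat_lit 78) (nat_lit 836) (nat_lit 0) (XT.lf (nat_lit 76) (nat_lit 3763311847) (nat_lit 0) (nat_lit 273093305) (nat_lit 988) (nat_lit 3821408903) (nat_lit 356) (nat_lit 5) (nat_lit 355) (nat_lit 5) (nat_lit 368) (nat_lit 5) (nat_lit 413) (nat_lit 409) (nat_lit 378)) (XT.nd (nat_lit 78) (nat_lit 912) (nat_lit 0) (XT.lf (nat_lit 76) (nat_lit 2849392730) (nat_lit 0) (nat_lit 3804540846)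 (nat_lit 988) (nat_lit 1343872120) (nat_lit 357) (nat_lit 5) (nat_lit 356) (nat_lit 5) (nat_lit 369) (nat_lit 5) (nat_lit 414) (nat_lit 409) (nat_lit 377)) (XT.lf (nat_lit 0) (nat_lit 1169578366) (nat_lit 988) (nat_lit 6139821602) (nat_lit 1064) (nat_lit 836958563) (nat_lit 344) (nat_lit 5) (nat_lit 357) (nat_lit 5) (nat_lit 358) (nat_lit 5) (nat_lit 415) (nat_lit 409) (nat_lit 376))))) (XT.nd (nat_lit 234) (nat_lit 2128) (nat_lit 0) (XT.nd (nat_lit 78) (nat_lit 988) (nat_lit 0) (XT.lf (nat_lit 76) (nat_lit 1203773820) (nat_lit 0) (nat_lit 2550603018) (nat_lit 1064) (nat_lit 4548379453) (nat_lit 345) (nat_lit 5) (nat_lit 344) (nat_lit 5) (nat_lit 358) (nat_lit 5) (nat_lit 416) (nat_lit 409) (nat_lit 375)) (XT.nd (nat_lit 78) (nat_lit 1064) (nat_lit 0) (XT.lf (nat_lit 76) (nat_lit 468046339) (nat_lit 0) (nat_lit 5967590212) (nat_lit 1064) (nat_lit 2032340286) (nat_lit 346) (nat_lit 5) (nat_lit 345)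 (nat_lit 5) (nat_lit 359) (nat_lit 5) (nat_lit 417) (nat_lit 409) (nat_lit 374)) (XT.lf (nat_lit 0) (nat_lit 576378842) (nat_lit 1064) (nat_lit 204247236) (nat_lit 1140) (nat_lit 7861311486) (nat_lit 331) (nat_lit 5) (nat_lit 345) (nat_lit 5) (nat_lit 346) (nat_lit 5) (nat_lit 418) (nat_lit 409) (nat_lit 373)))) (XT.nd (nat_lit 78) (nat_lit 2204) (nat_lit 0) (XT.lf (nat_lit 0) (nat_lit 3282092430) (nat_lit 1064) (nat_lit 843773142) (nat_lit 76) (nat_lit 4697886583) (nat_lit 332) (nat_lit 5) (nat_lit 346) (nat_lit 5) (nat_lit 333) (nat_lit 5) (nat_lit 419) (nat_lit 409) (nat_lit 372)) (XT.nd (nat_lit 78) (nat_lit 1140) (nat_lit 0) (XT.lf (nat_lit 0) (nat_lit 6110689587) (nat_lit 1140) (nat_lit 1417222736) (nat_lit 76) (nat_lit 1487133602) (nat_lit 318) (nat_lit 5) (nat_lit 333) (nat_lit 5) (nat_lit 319) (nat_lit 5) (nat_lit 420) (nat_lit 409) (nat_lit 371)) (XT.lf (nat_lit 0) (nat_lit 7272006736)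 (nat_lit 1140) (nat_lit 1823429583) (nat_lit 1216) (nat_lit 120042081) (nat_lit 303) (nat_lit 5) (nat_lit 318) (nat_lit 5) (nat_lit 319) (nat_lit 5) (nat_lit 421) (nat_lit 409) (nat_lit 370)))))) (XT.nd (nat_lit 468) (nat_lit 3496) (nat_lit 0) (XT.nd (nat_lit 234) (nat_lit 1748) (nat_lit 0) (XT.nd (nat_lit 78) (nat_lit 1368) (nat_lit 0) (XT.lf (nat_lit 0) (nat_lit 2769776482) (nat_lit 1292) (nat_lit 2448381802) (nat_lit 76) (nat_lit 4206350336) (nat_lit 286) (nat_lit 5) (nat_lit 303) (nat_lit 5) (nat_lit 287) (nat_lit 5) (nat_lit 422) (nat_lit 409) (nat_lit 369)) (XT.nd (nat_lit 78) (nat_lit 608) (nat_lit 0) (XT.lf (nat_lit 0) (nat_lit 5816047231) (nat_lit 836) (nat_lit 2893482882) (nat_lit 76) (nat_lit 934005009) (nat_lit 276) (nat_lit 5) (nat_lit 287) (nat_lit 5) (nat_lit 277) (nat_lit 5) (nat_lit 423) (nat_lit 409) (nat_lit 368)) (XT.lf (nat_lit 0) (nat_lit 6570297869) (nat_lit 608) (nat_lit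 2491172893) (nat_lit 684) (nat_lit 810650098) (nat_lit 268) (nat_lit 5) (nat_lit 276) (nat_lit 5) (nat_lit 277) (nat_lit 5) (nat_lit 424) (nat_lit 409) (nat_lit 367)))) (XT.nd (nat_lit 78) (nat_lit 1064) (nat_lit 0) (XT.lf (nat_lit 0) (nat_lit 2351547618) (nat_lit 684) (nat_lit 3682661192) (nat_lit 76) (nat_lit 4076044096) (nat_lit 259) (nat_lit 5) (nat_lit 268) (nat_lit 5) (nat_lit 260) (nat_lit 5) (nat_lit 425) (nat_lit 409) (nat_lit 366)) (XT.nd (nat_lit 78) (nat_lit 532) (nat_lit 0) (XT.lf (nat_lit 0) (nat_lit 5693973937) (nat_lit 608) (nat_lit 4013040256) (nat_lit 76) (nat_lit 651881573) (nat_lit 252) (nat_lit 5) (nat_lit 260) (nat_lit 5) (nat_lit 253) (nat_lit 5) (nat_lit 426) (nat_lit 409) (nat_lit 365)) (XT.lf (nat_lit 0) (nat_lit 6304695388) (nat_lit 532) (nat_lit 2973739448) (nat_lit 608) (nat_lit 1339299514) (nat_lit 245) (nat_lit 5) (nat_lit 252) (nat_lit 5) (nat_lit 253) (nat_lit 5)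 (nat_lit 427) (nat_lit 409) (nat_lit 364))))) (XT.nd (nat_lit 234) (nat_lit 1900) (nat_lit 0) (XT.nd (nat_lit 78) (nat_lit 988) (nat_lit 0) (XT.lf (nat_lit 0) (nat_lit 2171343569) (nat_lit 608) (nat_lit 4582192851) (nat_lit 76) (nat_lit 4133545486) (nat_lit 237) (nat_lit 5) (nat_lit 245) (nat_lit 5) (nat_lit 238) (nat_lit 5) (nat_lit 428) (nat_lit 409) (nat_lit 363)) (XT.nd (nat_lit 78) (nat_lit 456) (nat_lit 0) (XT.lf (nat_lit 0) (nat_lit 5891231974) (nat_lit 608) (nat_lit 4806637442) (nat_lit 76) (nat_lit 469796922) (nat_lit 230) (nat_lit 5) (nat_lit 238) (nat_lit 5) (nat_lit 231) (nat_lit 5) (nat_lit 429) (nat_lit 409) (nat_lit 362)) (XT.lf (nat_lit 0) (nat_lit 6454231110) (nat_lit 456) (nat_lit 3444076464) (nat_lit 532) (nat_lit 1560945840) (nat_lit 224) (nat_lit 5) (nat_lit 230) (nat_lit 5) (nat_lit 231) (nat_lit 5) (nat_lit 430) (nat_lit 409) (nat_lit 361)))) (XT.nd (nat_lit 156) (nat_lit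 912) (nat_lit 0) (XT.nd (nat_lit 78) (nat_lit 456) (nat_lit 0) (XT.lf (nat_lit 0) (nat_lit 2375126704) (nat_lit 532) (nat_lit 5172121871) (nat_lit 76) (nat_lit 4215090557) (nat_lit 217) (nat_lit 5) (nat_lit 224) (nat_lit 5) (nat_lit 218) (nat_lit 5) (nat_lit 431) (nat_lit 409) (nat_lit 360)) (XT.lf (nat_lit 0) (nat_lit 6558241433) (nat_lit 532) (nat_lit 5295584915) (nat_lit 76) (nat_lit 223821608) (nat_lit 211) (nat_lit 5) (nat_lit 218) (nat_lit 5) (nat_lit 212) (nat_lit 5) (nat_lit 432) (nat_lit 409) (nat_lit 359))) (XT.nd (nat_lit 78) (nat_lit 456) (nat_lit 0) (XT.lf (nat_lit 0) (nat_lit 7007726249) (nat_lit 456) (nat_lit 4070566303) (nat_lit 532) (nat_lit 1326603970) (nat_lit 205) (nat_lit 5) (nat_lit 211) (nat_lit 5) (nat_lit 212) (nat_lit 5) (nat_lit 433) (nat_lit 409) (nat_lit 358)) (XT.lf (nat_lit 0) (nat_lit 3114287326) (nat_lit 456) (nat_lit 5470109914) (nat_lit 76) (nat_lit 4160276333)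 (nat_lit 199) (nat_lit 5) (nat_lit 205) (nat_lit 5) (nat_lit 200) (nat_lit 5) (nat_lit 434) (nat_lit 409) (nat_lit 357))))))) (XT.nd (nat_lit 1014) (nat_lit 3116) (nat_lit 0) (XT.nd (nat_lit 468) (nat_lit 2280) (nat_lit 0) (XT.nd (nat_lit 234) (nat_lit 1064) (nat_lit 0) (XT.nd (nat_lit 78) (nat_lit 836) (nat_lit 0) (XT.lf (nat_lit 0) (nat_lit 7600783948) (nat_lit 456) (nat_lit 254057542) (nat_lit 532) (nat_lit 5243059108) (nat_lit 193) (nat_lit 5) (nat_lit 199) (nat_lit 5) (nat_lit 200) (nat_lit 5) (nat_lit 435) (nat_lit 409) (nat_lit 356)) (XT.nd (nat_lit 78) (nat_lit 456) (nat_lit 0) (XT.lf (nat_lit 0) (nat_lit 7960914419) (nat_lit 380) (nat_lit 5023210359) (nat_lit 456) (nat_lit 480119630) (nat_lit 188) (nat_lit 5) (nat_lit 193) (nat_lit 5) (nat_lit 194) (nat_lit 5) (nat_lit 436) (nat_lit 409) (nat_lit 355)) (XT.lf (nat_lit 0) (nat_lit 4548739122) (nat_lit 456) (nat_lit 5489324835) (nat_lit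 76) (nat_lit 3806063911) (nat_lit 182) (nat_lit 5) (nat_lit 188) (nat_lit 5) (nat_lit 183) (nat_lit 5) (nat_lit 437) (nat_lit 409) (nat_lit 354)))) (XT.nd (nat_lit 78) (nat_lit 760) (nat_lit 0) (XT.lf (nat_lit 0) (nat_lit 8812732879) (nat_lit 304) (nat_lit 1139334655) (nat_lit 380) (nat_lit 4286812370) (nat_lit 178) (nat_lit 5) (nat_lit 182) (nat_lit 5) (nat_lit 183) (nat_lit 5) (nat_lit 438) (nat_lit 409) (nat_lit 353)) (XT.nd (nat_lit 78) (nat_lit 304) (nat_lit 0) (XT.lf (nat_lit 0) (nat_lit 1122428052) (nat_lit 456) (nat_lit 5345925902) (nat_lit 76) (nat_lit 8179664313) (nat_lit 172) (nat_lit 5) (nat_lit 178) (nat_lit 5) (nat_lit 173) (nat_lit 5) (nat_lit 439) (nat_lit 409) (nat_lit 352)) (XT.lf (nat_lit 0) (nat_lit 6849746589) (nat_lit 380) (nat_lit 5241664983) (nat_lit 76) (nat_lit 2980845470) (nat_lit 168) (nat_lit 5) (nat_lit 173) (nat_lit 5) (nat_lit 169) (nat_lit 5) (nat_lit 440) (nat_lit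 409) (nat_lit 351))))) (XT.nd (nat_lit 234) (nat_lit 1292) (nat_lit 0) (XT.nd (nat_lit 78) (nat_lit 684) (nat_lit 0) (XT.lf (nat_lit 0) (nat_lit 10419378420) (nat_lit 304) (nat_lit 2610310163) (nat_lit 380) (nat_lit 2483036230) (nat_lit 164) (nat_lit 5) (nat_lit 168) (nat_lit 5) (nat_lit 169) (nat_lit 5) (nat_lit 441) (nat_lit 409) (nat_lit 350)) (XT.nd (nat_lit 78) (nat_lit 304) (nat_lit 0) (XT.lf (nat_lit 0) (nat_lit 3654356356) (nat_lit 380) (nat_lit 4940270684) (nat_lit 76) (nat_lit 7374168829) (nat_lit 159) (nat_lit 5) (nat_lit 164) (nat_lit 5) (nat_lit 160) (nat_lit 5) (nat_lit 442) (nat_lit 409) (nat_lit 349)) (XT.lf (nat_lit 0) (nat_lit 10202497766) (nat_lit 380) (nat_lit 4741440684) (nat_lit 76) (nat_lit 1498341740) (nat_lit 155) (nat_lit 5) (nat_lit 160) (nat_lit 5) (nat_lit 156) (nat_lit 5) (nat_lit 443) (nat_lit 409) (nat_lit 348)))) (XT.nd (nat_lit 156) (nat_lit 608) (nat_lit 0) (XT.nd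 (nat_lit 78) (nat_lit 304) (nat_lit 0) (XT.lf (nat_lit 0) (nat_lit 345073623) (nat_lit 380) (nat_lit 4518811984) (nat_lit 76) (nat_lit 12069241916) (nat_lit 150) (nat_lit 5) (nat_lit 155) (nat_lit 5) (nat_lit 151) (nat_lit 5) (nat_lit 444) (nat_lit 409) (nat_lit 347)) (XT.lf (nat_lit 0) (nat_lit 7315436954) (nat_lit 380) (nat_lit 4301324966) (nat_lit 76) (nat_lit 5824346227) (nat_lit 146) (nat_lit 5) (nat_lit 151) (nat_lit 5) (nat_lit 147) (nat_lit 5) (nat_lit 445) (nat_lit 409) (nat_lit 346))) (XT.nd (nat_lit 78) (nat_lit 380) (nat_lit 0) (XT.lf (nat_lit 0) (nat_lit 13950923921) (nat_lit 228) (nat_lit 865805716) (nat_lit 304) (nat_lit 3152289364) (nat_lit 143) (nat_lit 5) (nat_lit 146) (nat_lit 5) (nat_lit 147) (nat_lit 5) (nat_lit 446) (nat_lit 409) (nat_lit 345)) (XT.lf (nat_lit 0) (nat_lit 4331497312) (nat_lit 380) (nat_lit 3760164028) (nat_lit 76) (nat_lit 10423171769) (nat_lit 138) (nat_lit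 5) (nat_lit 143) (nat_lit 5) (nat_lit 139) (nat_lit 5) (nat_lit 447) (nat_lit 409) (nat_lit 344)))))) (XT.nd (nat_lit 468) (nat_lit 1596) (nat_lit 0) (XT.nd (nat_lit 234) (nat_lit 760) (nat_lit 0) (XT.nd (nat_lit 78) (nat_lit 532) (nat_lit 0) (XT.lf (nat_lit 0) (nat_lit 12312975187) (nat_lit 304) (nat_lit 3459095576) (nat_lit 76) (nat_lit 3309273065) (nat_lit 135) (nat_lit 5) (nat_lit 139) (nat_lit 5) (nat_lit 136) (nat_lit 5) (nat_lit 448) (nat_lit 409) (nat_lit 343)) (XT.nd (nat_lit 78) (nat_lit 228) (nat_lit 0) (XT.lf (nat_lit 0) (nat_lit 1235523405) (nat_lit 304) (nat_lit 3134255172) (nat_lit 76) (nat_lit 15298970143) (nat_lit 131) (nat_lit 5) (nat_lit 135) (nat_lit 5) (nat_lit 132) (nat_lit 5) (nat_lit 449) (nat_lit 409) (nat_lit 342)) (XT.lf (nat_lit 0) (nat_lit 9737702339) (nat_lit 304) (nat_lit 2835408856) (nat_lit 76) (nat_lit 7703262817) (nat_lit 128) (nat_lit 5) (nat_lit 132) (nat_lit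 5) (nat_lit 129) (nat_lit 5) (nat_lit 450) (nat_lit 409) (nat_lit 341)))) (XT.nd (nat_lit 78) (nat_lit 532) (nat_lit 0) (XT.lf (nat_lit 0) (nat_lit 18443485756) (nat_lit 228) (nat_lit 433517163) (nat_lit 304) (nat_lit 2031019878) (nat_lit 125) (nat_lit 5) (nat_lit 128) (nat_lit 5) (nat_lit 129) (nat_lit 5) (nat_lit 451) (nat_lit 409) (nat_lit 340)) (XT.nd (nat_lit 78) (nat_lit 228) (nat_lit 0) (XT.lf (nat_lit 0) (nat_lit 7064354622) (nat_lit 304) (nat_lit 2163250647) (nat_lit 76) (nat_lit 12332750073) (nat_lit 121) (nat_lit 5) (nat_lit 125) (nat_lit 5) (nat_lit 122) (nat_lit 5) (nat_lit 452) (nat_lit 409) (nat_lit 339)) (XT.lf (nat_lit 0) (nat_lit 16795293899) (nat_lit 304) (nat_lit 1808543868) (nat_lit 76) (nat_lit 3634181753) (nat_lit 118) (nat_lit 5) (nat_lit 122) (nat_lit 5) (nat_lit 119) (nat_lit 5) (nat_lit 453) (nat_lit 409) (nat_lit 338))))) (XT.nd (nat_lit 234) (nat_lit 912) (nat_lit 0)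 (XT.nd (nat_lit 78) (nat_lit 456) (nat_lit 0) (XT.lf (nat_lit 0) (nat_lit 4270185839) (nat_lit 228) (nat_lit 1474279435) (nat_lit 76) (nat_lit 17195344197) (nat_lit 115) (nat_lit 5) (nat_lit 118) (nat_lit 5) (nat_lit 116) (nat_lit 5) (nat_lit 454) (nat_lit 409) (nat_lit 337)) (XT.nd (nat_lit 78) (nat_lit 228) (nat_lit 0) (XT.lf (nat_lit 0) (nat_lit 14632272679) (nat_lit 304) (nat_lit 1160442009) (nat_lit 76) (nat_lit 7874076793) (nat_lit 112) (nat_lit 5) (nat_lit 116) (nat_lit 5) (nat_lit 113) (nat_lit 5) (nat_lit 455) (nat_lit 409) (nat_lit 336)) (XT.lf (nat_lit 0) (nat_lit 1327141524) (nat_lit 228) (nat_lit 808904271) (nat_lit 76) (nat_lit 22285788923) (nat_lit 109) (nat_lit 5) (nat_lit 112) (nat_lit 5) (nat_lit 110) (nat_lit 5) (nat_lit 456) (nat_lit 409) (nat_lit 335)))) (XT.nd (nat_lit 156) (nat_lit 532) (nat_lit 0) (XT.nd (nat_lit 78) (nat_lit 152) (nat_lit 0) (XT.lf (nat_lit 0) (nat_lit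 12356032475) (nat_lit 304) (nat_lit 561651308) (nat_lit 76) (nat_lit 12284184737) (nat_lit 106) (nat_lit 5) (nat_lit 110) (nat_lit 5) (nat_lit 107) (nat_lit 5) (nat_lit 457) (nat_lit 409) (nat_lit 334)) (XT.lf (nat_lit 0) (nat_lit 24194108298) (nat_lit 228) (nat_lit 251220513) (nat_lit 76) (nat_lit 1567844686) (nat_lit 104) (nat_lit 5) (nat_lit 107) (nat_lit 5) (nat_lit 105) (nat_lit 5) (nat_lit 458) (nat_lit 409) (nat_lit 333))) (XT.nd (nat_lit 78) (nat_lit 304) (nat_lit 0) (XT.lf (nat_lit 0) (nat_lit 9932273409) (nat_lit 228) (nat_lit 69537747) (nat_lit 76) (nat_lit 16849509940) (nat_lit 101) (nat_lit 5) (nat_lit 104) (nat_lit 5) (nat_lit 102) (nat_lit 5) (nat_lit 459) (nat_lit 409) (nat_lit 332)) (XT.lf (nat_lit 0) (nat_lit 133620673) (nat_lit 152) (nat_lit 22390913552) (nat_lit 228) (nat_lit 5197573737) (nat_lit 97) (nat_lit 5) (nat_lit 99) (nat_lit 5) (nat_lit 100) (nat_lit 5) (nat_lit 460)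 (nat_lit 409) (nat_lit 331))))))))
noncomputable def xc65 : XT := (XT.nd (nat_lit 1950) (nat_lit 1140) (nat_lit 0) (XT.nd (nat_lit 936) (nat_lit 1596) (nat_lit 0) (XT.nd (nat_lit 468) (nat_lit 912) (nat_lit 0) (XT.nd (nat_lit 234) (nat_lit 380) (nat_lit 0) (XT.nd (nat_lit 78) (nat_lit 380) (nat_lit 0) (XT.lf (nat_lit 0) (nat_lit 249140788) (nat_lit 152) (nat_lit 7072172239) (nat_lit 228) (nat_lit 21302569754) (nat_lit 94) (nat_lit 5) (nat_lit 96) (nat_lit 5) (nat_lit 97) (nat_lit 5) (nat_lit 461) (nat_lit 409) (nat_lit 330)) (XT.nd (nat_lit 78) (nat_lit 228) (nat_lit 0) (XT.lf (nat_lit 0) (nat_lit 297371821) (nat_lit 152) (nat_lit 20405500650) (nat_lit 228) (nat_lit 8856004687) (nat_lit 92) (nat_lit 5) (nat_lit 94) (nat_lit 5) (nat_lit 95) (nat_lit 5) (nat_lit 462) (nat_lit 409) (nat_lit 329)) (XT.lf (nat_lit 0) (nat_lit 296794869) (nat_lit 152) (nat_lit 4170725187) (nat_lit 228) (nat_lit 26061782308)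 (nat_lit 89) (nat_lit 5) (nat_lit 91) (nat_lit 5) (nat_lit 92) (nat_lit 5) (nat_lit 463) (nat_lit 409) (nat_lit 328)))) (XT.nd (nat_lit 78) (nat_lit 228) (nat_lit 0) (XT.lf (nat_lit 0) (nat_lit 134327515) (nat_lit 152) (nat_lit 18539079111) (nat_lit 228) (nat_lit 12860232625) (nat_lit 87) (nat_lit 5) (nat_lit 89) (nat_lit 5) (nat_lit 90) (nat_lit 5) (nat_lit 464) (nat_lit 409) (nat_lit 327)) (XT.nd (nat_lit 78) (nat_lit 152) (nat_lit 0) (XT.lf (nat_lit 0) (nat_lit 1307287152) (nat_lit 228) (nat_lit 38789020) (nat_lit 76) (nat_lit 31232066099) (nat_lit 86) (nat_lit 5) (nat_lit 89) (nat_lit 5) (nat_lit 87) (nat_lit 5) (nat_lit 465) (nat_lit 409) (nat_lit 326)) (XT.lf (nat_lit 0) (nat_lit 16375669503) (nat_lit 228) (nat_lit 469904561) (nat_lit 76) (nat_lit 16811723849) (nat_lit 84) (nat_lit 5) (nat_lit 87) (nat_lit 5) (nat_lit 85) (nat_lit 5) (nat_lit 466) (nat_lit 409) (nat_lit 325))))) (XT.nd (nat_lit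 234) (nat_lit 456) (nat_lit 0) (XT.nd (nat_lit 78) (nat_lit 304) (nat_lit 0) (XT.lf (nat_lit 0) (nat_lit 32521510533) (nat_lit 228) (nat_lit 914255020) (nat_lit 76) (nat_lit 1344925569) (nat_lit 82) (nat_lit 5) (nat_lit 85) (nat_lit 5) (nat_lit 83) (nat_lit 4) (nat_lit 467) (nat_lit 409) (nat_lit 324)) (XT.nd (nat_lit 78) (nat_lit 152) (nat_lit 0) (XT.lf (nat_lit 0) (nat_lit 13733014116) (nat_lit 152) (nat_lit 1661606256) (nat_lit 76) (nat_lit 20547267093) (nat_lit 80) (nat_lit 5) (nat_lit 82) (nat_lit 5) (nat_lit 81) (nat_lit 5) (nat_lit 468) (nat_lit 409) (nat_lit 323)) (XT.lf (nat_lit 0) (nat_lit 30831489526) (nat_lit 228) (nat_lit 2492541201) (nat_lit 76) (nat_lit 3825840882) (nat_lit 78) (nat_lit 5) (nat_lit 81) (nat_lit 5) (nat_lit 79) (nat_lit 4) (nat_lit 469) (nat_lit 409) (nat_lit 322)))) (XT.nd (nat_lit 78) (nat_lit 304) (nat_lit 0) (XT.lf (nat_lit 0) (nat_lit 10650136264) (nat_lit 152)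 (nat_lit 3623971184) (nat_lit 76) (nat_lit 24126585004) (nat_lit 76) (nat_lit 5) (nat_lit 78) (nat_lit 5) (nat_lit 77) (nat_lit 5) (nat_lit 470) (nat_lit 409) (nat_lit 321)) (XT.nd (nat_lit 78) (nat_lit 152) (nat_lit 0) (XT.lf (nat_lit 0) (nat_lit 28730840152) (nat_lit 228) (nat_lit 4946771788) (nat_lit 76) (nat_lit 6022733399) (nat_lit 74) (nat_lit 5) (nat_lit 77) (nat_lit 5) (nat_lit 75) (nat_lit 4) (nat_lit 471) (nat_lit 409) (nat_lit 320)) (XT.lf (nat_lit 0) (nat_lit 7013636113) (nat_lit 152) (nat_lit 6575949635) (nat_lit 76) (nat_lit 27458693485) (nat_lit 72) (nat_lit 5) (nat_lit 74) (nat_lit 5) (nat_lit 73) (nat_lit 5) (nat_lit 472) (nat_lit 409) (nat_lit 319)))))) (XT.nd (nat_lit 468) (nat_lit 760) (nat_lit 0) (XT.nd (nat_lit 234) (nat_lit 380) (nat_lit 0) (XT.nd (nat_lit 78) (nat_lit 304) (nat_lit 0) (XT.lf (nat_lit 0) (nat_lit 26100983369) (nat_lit 228) (nat_lit 8517811455) (nat_lit 76)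 (nat_lit 7828599939) (nat_lit 70) (nat_lit 5) (nat_lit 73) (nat_lit 5) (nat_lit 71) (nat_lit 4) (nat_lit 473) (nat_lit 409) (nat_lit 318)) (XT.nd (nat_lit 78) (nat_lit 152) (nat_lit 0) (XT.lf (nat_lit 0) (nat_lit 2687148076) (nat_lit 152) (nat_lit 10782112021) (nat_lit 76) (nat_lit 30431433850) (nat_lit 68) (nat_lit 5) (nat_lit 70) (nat_lit 5) (nat_lit 69) (nat_lit 5) (nat_lit 474) (nat_lit 409) (nat_lit 317)) (XT.lf (nat_lit 0) (nat_lit 22798765665) (nat_lit 228) (nat_lit 13496241565) (nat_lit 76) (nat_lit 9112862606) (nat_lit 66) (nat_lit 5) (nat_lit 69) (nat_lit 5) (nat_lit 67) (nat_lit 4) (nat_lit 475) (nat_lit 409) (nat_lit 316)))) (XT.nd (nat_lit 78) (nat_lit 304) (nat_lit 0) (XT.lf (nat_lit 0) (nat_lit 30389295818) (nat_lit 76) (nat_lit 14043127880) (nat_lit 152) (nat_lit 2542487590) (nat_lit 65) (nat_lit 5) (nat_lit 66) (nat_lit 5) (nat_lit 67) (nat_lit 4) (nat_lit 476) (nat_lit 409) (nat_lit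 315)) (XT.nd (nat_lit 78) (nat_lit 76) (nat_lit 0) (XT.lf (nat_lit 0) (nat_lit 18651914284) (nat_lit 228) (nat_lit 20231610701) (nat_lit 76) (nat_lit 9716857665) (nat_lit 62) (nat_lit 5) (nat_lit 65) (nat_lit 5) (nat_lit 63) (nat_lit 4) (nat_lit 477) (nat_lit 409) (nat_lit 314)) (XT.lf (nat_lit 0) (nat_lit 25908594331) (nat_lit 76) (nat_lit 15485840969) (nat_lit 152) (nat_lit 8895708130) (nat_lit 61) (nat_lit 5) (nat_lit 62) (nat_lit 5) (nat_lit 63) (nat_lit 4) (nat_lit 478) (nat_lit 409) (nat_lit 313))))) (XT.nd (nat_lit 234) (nat_lit 304) (nat_lit 0) (XT.nd (nat_lit 78) (nat_lit 228) (nat_lit 0) (XT.lf (nat_lit 0) (nat_lit 13453686618) (nat_lit 228) (nat_lit 29143317991) (nat_lit 76) (nat_lit 9448525749) (nat_lit 58) (nat_lit 5) (nat_lit 61) (nat_lit 5) (nat_lit 59) (nat_lit 4) (nat_lit 479) (nat_lit 409) (nat_lit 312)) (XT.nd (nat_lit 78) (nat_lit 152) (nat_lit 0) (XT.lf (nat_lit 0) (nat_lit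 19264058216) (nat_lit 76) (nat_lit 18047387954) (nat_lit 152) (nat_lit 16557352445) (nat_lit 57) (nat_lit 5) (nat_lit 58) (nat_lit 5) (nat_lit 59) (nat_lit 4) (nat_lit 480) (nat_lit 409) (nat_lit 311)) (XT.lf (nat_lit 0) (nat_lit 6956574740) (nat_lit 152) (nat_lit 40733411778) (nat_lit 76) (nat_lit 8076164306) (nat_lit 55) (nat_lit 5) (nat_lit 57) (nat_lit 5) (nat_lit 56) (nat_lit 4) (nat_lit 481) (nat_lit 409) (nat_lit 310)))) (XT.nd (nat_lit 156) (nat_lit 152) (nat_lit 0) (XT.nd (nat_lit 78) (nat_lit 76) (nat_lit 0) (XT.lf (nat_lit 0) (nat_lit 9928203254) (nat_lit 76) (nat_lit 21995189331) (nat_lit 152) (nat_lit 25811471640) (nat_lit 54) (nat_lit 5) (nat_lit 55) (nat_lit 5) (nat_lit 56) (nat_lit 4) (nat_lit 482) (nat_lit 409) (nat_lit 309)) (XT.lf (nat_lit 0) (nat_lit 4174519511) (nat_lit 76) (nat_lit 54455074487) (nat_lit 76) (nat_lit 1157688381) (nat_lit 53) (nat_lit 4) (nat_lit 54) (nat_lit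 5) (nat_lit 54) (nat_lit 4) (nat_lit 483) (nat_lit 409) (nat_lit 308))) (XT.nd (nat_lit 78) (nat_lit 76) (nat_lit 0) (XT.lf (nat_lit 0) (nat_lit 24945183230) (nat_lit 152) (nat_lit 2677179167) (nat_lit 76) (nat_lit 34291859725) (nat_lit 52) (nat_lit 5) (nat_lit 54) (nat_lit 5) (nat_lit 53) (nat_lit 4) (nat_lit 484) (nat_lit 409) (nat_lit 307)) (XT.lf (nat_lit 0) (nat_lit 52838959345) (nat_lit 152) (nat_lit 10234086065) (nat_lit 0) (nat_lit 1058828784) (nat_lit 51) (nat_lit 5) (nat_lit 53) (nat_lit 4) (nat_lit 51) (nat_lit 4) (nat_lit 485) (nat_lit 409) (nat_lit 306))))))) (XT.nd (nat_lit 56706) (nat_lit 0) (nat_lit 18240) (XT.nd (nat_lit 468) (nat_lit 532) (nat_lit 0) (XT.nd (nat_lit 234) (nat_lit 228) (nat_lit 0) (XT.nd (nat_lit 78) (nat_lit 228) (nat_lit 0) (XT.lf (nat_lit 0) (nat_lit 16113286651) (nat_lit 152) (nat_lit 19086463191) (nat_lit 76) (nat_lit 31233581559) (nat_lit 49) (nat_lit 5)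 (nat_lit 51) (nat_lit 5) (nat_lit 50) (nat_lit 4) (nat_lit 486) (nat_lit 409) (nat_lit 305)) (XT.nd (nat_lit 78) (nat_lit 152) (nat_lit 0) (XT.lf (nat_lit 0) (nat_lit 39800026512) (nat_lit 76) (nat_lit 5329032468) (nat_lit 152) (nat_lit 23703263970) (nat_lit 48) (nat_lit 5) (nat_lit 49) (nat_lit 5) (nat_lit 50) (nat_lit 4) (nat_lit 487) (nat_lit 409) (nat_lit 304)) (XT.lf (nat_lit 0) (nat_lit 4897496549) (nat_lit 152) (nat_lit 40375316870) (nat_lit 76) (nat_lit 26055148037) (nat_lit 46) (nat_lit 5) (nat_lit 48) (nat_lit 5) (nat_lit 47) (nat_lit 4) (nat_lit 488) (nat_lit 409) (nat_lit 303)))) (XT.nd (nat_lit 78) (nat_lit 152) (nat_lit 0) (XT.lf (nat_lit 0) (nat_lit 20677284482) (nat_lit 76) (nat_lit 14302121226) (nat_lit 152) (nat_lit 38945695939) (nat_lit 45) (nat_lit 5) (nat_lit 46) (nat_lit 5) (nat_lit 47) (nat_lit 4) (nat_lit 489) (nat_lit 409) (nat_lit 302)) (XT.nd (nat_lit 78) (nat_lit 76)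 (nat_lit 0) (XT.lf (nat_lit 0) (nat_lit 8948302216) (nat_lit 76) (nat_lit 58280745902) (nat_lit 76) (nat_lit 9403141831) (nat_lit 44) (nat_lit 4) (nat_lit 45) (nat_lit 5) (nat_lit 45) (nat_lit 4) (nat_lit 490) (nat_lit 409) (nat_lit 301)) (XT.lf (nat_lit 0) (nat_lit 21875748805) (nat_lit 152) (nat_lit 4481875684) (nat_lit 76) (nat_lit 53090343889) (nat_lit 43) (nat_lit 5) (nat_lit 45) (nat_lit 5) (nat_lit 44) (nat_lit 4) (nat_lit 491) (nat_lit 409) (nat_lit 300))))) (XT.nd (nat_lit 312) (nat_lit 228) (nat_lit 0) (XT.nd (nat_lit 78) (nat_lit 228) (nat_lit 0) (XT.lf (nat_lit 0) (nat_lit 55190887102) (nat_lit 152) (nat_lit 19476775228) (nat_lit 0) (nat_lit 7714077359) (nat_lit 42) (nat_lit 5) (nat_lit 44) (nat_lit 4) (nat_lit 42) (nat_lit 4) (nat_lit 492) (nat_lit 409) (nat_lit 299)) (XT.nd (nat_lit 78) (nat_lit 76) (nat_lit 0) (XT.lf (nat_lit 0) (nat_lit 5392699356) (nat_lit 152) (nat_lit 36540234095)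 (nat_lit 76) (nat_lit 43504657640) (nat_lit 40) (nat_lit 5) (nat_lit 42) (nat_lit 5) (nat_lit 41) (nat_lit 4) (nat_lit 493) (nat_lit 409) (nat_lit 298)) (XT.lf (nat_lit 0) (nat_lit 32790072809) (nat_lit 76) (nat_lit 6760462012) (nat_lit 152) (nat_lit 49072400297) (nat_lit 39) (nat_lit 5) (nat_lit 40) (nat_lit 5) (nat_lit 41) (nat_lit 4) (nat_lit 494) (nat_lit 409) (nat_lit 297)))) (XT.nd (nat_lit 55770) (nat_lit 0) (nat_lit 24168) (XT.nd (nat_lit 78) (nat_lit 76) (nat_lit 0) (XT.lf (nat_lit 0) (nat_lit 19527489012) (nat_lit 152) (nat_lit 6491518892) (nat_lit 76) (nat_lit 69387057651) (nat_lit 37) (nat_lit 5) (nat_lit 39) (nat_lit 5) (nat_lit 38) (nat_lit 4) (nat_lit 496) (nat_lit 409) (nat_lit 295)) (XT.lf (nat_lit 0) (nat_lit 57002482768) (nat_lit 152) (nat_lit 29805476224) (nat_lit 0) (nat_lit 12205597850) (nat_lit 36) (nat_lit 5) (nat_lit 38) (nat_lit 4) (nat_lit 36) (nat_lit 4) (nat_lit 497)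 (nat_lit 409) (nat_lit 294))) (XT.nd (nat_lit 78) (nat_lit 912) (nat_lit 0) (XT.lf (nat_lit 0) (nat_lit 1606592290) (nat_lit 0) (nat_lit 1606592290) (nat_lit 836) (nat_lit 585705310) (nat_lit 366) (nat_lit 5) (nat_lit 366) (nat_lit 3) (nat_lit 377) (nat_lit 3) (nat_lit 410) (nat_lit 410) (nat_lit 380)) (XT.lf (nat_lit 0) (nat_lit 1149263137) (nat_lit 912) (nat_lit 5811759958) (nat_lit 988) (nat_lit 756869418) (nat_lit 354) (nat_lit 5) (nat_lit 366) (nat_lit 5) (nat_lit 367) (nat_lit 5) (nat_lit 411) (nat_lit 410) (nat_lit 379)))))) (XT.nd (nat_lit 468) (nat_lit 5016) (nat_lit 0) (XT.nd (nat_lit 234) (nat_lit 0) (nat_lit 76) (XT.nd (nat_lit 78) (nat_lit 912) (nat_lit 0) (XT.lf (nat_lit 76) (nat_lit 645751928) (nat_lit 0) (nat_lit 2853099615) (nat_lit 988) (nat_lit 4346722630) (nat_lit 355) (nat_lit 5) (nat_lit 354) (nat_lit 5) (nat_lit 367) (nat_lit 5) (nat_lit 412) (nat_lit 410) (nat_lit 378))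 (XT.nd (nat_lit 78) (nat_lit 988) (nat_lit 0) (XT.lf (nat_lit 0) (nat_lit 5899867837) (nat_lit 912) (nat_lit 529875005) (nat_lit 988) (nat_lit 1551901918) (nat_lit 355) (nat_lit 5) (nat_lit 367) (nat_lit 5) (nat_lit 368) (nat_lit 5) (nat_lit 413) (nat_lit 410) (nat_lit 377)) (XT.lf (nat_lit 0) (nat_lit 247559096) (nat_lit 988) (nat_lit 1637763726) (nat_lit 1064) (nat_lit 6240424300) (nat_lit 342) (nat_lit 5) (nat_lit 355) (nat_lit 5) (nat_lit 356) (nat_lit 5) (nat_lit 414) (nat_lit 410) (nat_lit 376)))) (XT.nd (nat_lit 78) (nat_lit 0) (nat_lit 0) (XT.lf (nat_lit 0) (nat_lit 2609540834) (nat_lit 988) (nat_lit 2709688554) (nat_lit 1064) (nat_lit 2958450382) (nat_lit 343) (nat_lit 5) (nat_lit 356) (nat_lit 5) (nat_lit 357) (nat_lit 5) (nat_lit 415) (nat_lit 410) (nat_lit 375)) (XT.nd (nat_lit 78) (nat_lit 0) (nat_lit 76) (XT.lf (nat_lit 76) (nat_lit 4721423386) (nat_lit 0) (nat_lit 325990910) (nat_lit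 1064) (nat_lit 3391080514) (nat_lit 344) (nat_lit 5) (nat_lit 343) (nat_lit 5) (nat_lit 357) (nat_lit 5) (nat_lit 416) (nat_lit 410) (nat_lit 374)) (XT.lf (nat_lit 76) (nat_lit 3918500082) (nat_lit 0) (nat_lit 3683611102) (nat_lit 1064) (nat_lit 1005410135) (nat_lit 345) (nat_lit 5) (nat_lit 344) (nat_lit 5) (nat_lit 358) (nat_lit 5) (nat_lit 417) (nat_lit 410) (nat_lit 373))))) (XT.nd (nat_lit 234) (nat_lit 3192) (nat_lit 0) (XT.nd (nat_lit 78) (nat_lit 988) (nat_lit 0) (XT.lf (nat_lit 0) (nat_lit 1445326287) (nat_lit 1064) (nat_lit 5613435936) (nat_lit 1140) (nat_lit 1726570380) (nat_lit 331) (nat_lit 5) (nat_lit 345) (nat_lit 5) (nat_lit 346) (nat_lit 5) (nat_lit 418) (nat_lit 410) (nat_lit 372)) (XT.nd (nat_lit 78) (nat_lit 988) (nat_lit 0) (XT.lf (nat_lit 76) (nat_lit 2467964210) (nat_lit 0) (nat_lit 1530140389) (nat_lit 1140) (nat_lit 4973638646) (nat_lit 332) (nat_lit 5) (nat_lit 331) (nat_lit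 5) (nat_lit 346) (nat_lit 5) (nat_lit 419) (nat_lit 410) (nat_lit 371)) (XT.lf (nat_lit 0) (nat_lit 1812118229) (nat_lit 1064) (nat_lit 4878355707) (nat_lit 1140) (nat_lit 2476657528) (nat_lit 318) (nat_lit 5) (nat_lit 332) (nat_lit 5) (nat_lit 333) (nat_lit 5) (nat_lit 420) (nat_lit 410) (nat_lit 370)))) (XT.nd (nat_lit 156) (nat_lit 760) (nat_lit 0) (XT.nd (nat_lit 78) (nat_lit 1216) (nat_lit 0) (XT.lf (nat_lit 0) (nat_lit 145996520) (nat_lit 1216) (nat_lit 8153184747) (nat_lit 76) (nat_lit 1072970690) (nat_lit 302) (nat_lit 5) (nat_lit 318) (nat_lit 5) (nat_lit 303) (nat_lit 5) (nat_lit 421) (nat_lit 410) (nat_lit 369)) (XT.lf (nat_lit 0) (nat_lit 640971154) (nat_lit 1216) (nat_lit 2242363742) (nat_lit 1292) (nat_lit 6702323500) (nat_lit 286) (nat_lit 5) (nat_lit 302) (nat_lit 5) (nat_lit 303) (nat_lit 5) (nat_lit 422) (nat_lit 410) (nat_lit 368))) (XT.nd (nat_lit 78) (nat_lit 0) (nat_lit 0)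 (XT.lf (nat_lit 0) (nat_lit 112503325) (nat_lit 760) (nat_lit 5676817964) (nat_lit 836) (nat_lit 4019578524) (nat_lit 276) (nat_lit 5) (nat_lit 286) (nat_lit 5) (nat_lit 287) (nat_lit 5) (nat_lit 423) (nat_lit 410) (nat_lit 367)) (XT.lf (nat_lit 0) (nat_lit 8873143446) (nat_lit 836) (nat_lit 348909483) (nat_lit 76) (nat_lit 820286743) (nat_lit 276) (nat_lit 5) (nat_lit 287) (nat_lit 5) (nat_lit 277) (nat_lit 5) (nat_lit 424) (nat_lit 410) (nat_lit 366))))))))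
noncomputable def xc66 : XT := (XT.nd (nat_lit 1950) (nat_lit 5092) (nat_lit 0) (XT.nd (nat_lit 936) (nat_lit 4408) (nat_lit 0) (XT.nd (nat_lit 468) (nat_lit 2812) (nat_lit 0) (XT.nd (nat_lit 234) (nat_lit 1672) (nat_lit 0) (XT.nd (nat_lit 78) (nat_lit 1140) (nat_lit 0) (XT.lf (nat_lit 0) (nat_lit 1851793724) (nat_lit 684) (nat_lit 792752788) (nat_lit 76) (nat_lit 7640480355) (nat_lit 267) (nat_lit 5) (nat_lit 276) (nat_lit 5) (nat_lit 268) (nat_lit 5) (nat_lit 425) (nat_lit 410) (nat_lit 365)) (XT.nd (nat_lit 78) (nat_lit 532) (nat_lit 0) (XT.lf (nat_lit 0) (nat_lit 5052521710) (nat_lit 684) (nat_lit 1199456839) (nat_lit 76) (nat_lit 4285947483) (nat_lit 259) (nat_lit 5) (nat_lit 268) (nat_lit 5) (nat_lit 260) (nat_lit 5) (nat_lit 426) (nat_lit 410) (nat_lit 364)) (XT.lf (nat_lit 0) (nat_lit 8464970617) (nat_lit 608) (nat_lit 1548948572) (nat_lit 76) (nat_lit 788010886) (nat_lit 252) (nat_lit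 5) (nat_lit 260) (nat_lit 5) (nat_lit 253) (nat_lit 5) (nat_lit 427) (nat_lit 410) (nat_lit 363)))) (XT.nd (nat_lit 78) (nat_lit 1064) (nat_lit 0) (XT.lf (nat_lit 0) (nat_lit 1037951710) (nat_lit 608) (nat_lit 1878417813) (nat_lit 76) (nat_lit 8159856524) (nat_lit 244) (nat_lit 5) (nat_lit 252) (nat_lit 5) (nat_lit 245) (nat_lit 5) (nat_lit 428) (nat_lit 410) (nat_lit 362)) (XT.nd (nat_lit 78) (nat_lit 532) (nat_lit 0) (XT.lf (nat_lit 0) (nat_lit 4608478356) (nat_lit 608) (nat_lit 2182314528) (nat_lit 76) (nat_lit 4570502939) (nat_lit 237) (nat_lit 5) (nat_lit 245) (nat_lit 5) (nat_lit 238) (nat_lit 5) (nat_lit 429) (nat_lit 410) (nat_lit 361)) (XT.lf (nat_lit 0) (nat_lit 8431017397) (nat_lit 608) (nat_lit 2428797526) (nat_lit 76) (nat_lit 798608348) (nat_lit 230) (nat_lit 5) (nat_lit 238) (nat_lit 5) (nat_lit 231) (nat_lit 5) (nat_lit 430) (nat_lit 410) (nat_lit 360))))) (XT.nd (nat_lit 234) (nat_lit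 1368) (nat_lit 0) (XT.nd (nat_lit 78) (nat_lit 912) (nat_lit 0) (XT.lf (nat_lit 0) (nat_lit 577409205) (nat_lit 532) (nat_lit 2652672416) (nat_lit 76) (nat_lit 8736825178) (nat_lit 223) (nat_lit 5) (nat_lit 230) (nat_lit 5) (nat_lit 224) (nat_lit 5) (nat_lit 431) (nat_lit 410) (nat_lit 359)) (XT.nd (nat_lit 78) (nat_lit 456) (nat_lit 0) (XT.lf (nat_lit 0) (nat_lit 4602359595) (nat_lit 532) (nat_lit 2858582619) (nat_lit 76) (nat_lit 4826022105) (nat_lit 217) (nat_lit 5) (nat_lit 224) (nat_lit 5) (nat_lit 218) (nat_lit 5) (nat_lit 432) (nat_lit 410) (nat_lit 358)) (XT.lf (nat_lit 0) (nat_lit 8922725323) (nat_lit 532) (nat_lit 3005242616) (nat_lit 76) (nat_lit 692239096) (nat_lit 211) (nat_lit 5) (nat_lit 218) (nat_lit 5) (nat_lit 212) (nat_lit 5) (nat_lit 433) (nat_lit 410) (nat_lit 357)))) (XT.nd (nat_lit 78) (nat_lit 836) (nat_lit 0) (XT.lf (nat_lit 0) (nat_lit 617347831) (nat_lit 532) (nat_lit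 3132082838) (nat_lit 76) (nat_lit 9216410226) (nat_lit 204) (nat_lit 5) (nat_lit 211) (nat_lit 5) (nat_lit 205) (nat_lit 5) (nat_lit 434) (nat_lit 410) (nat_lit 356)) (XT.nd (nat_lit 78) (nat_lit 456) (nat_lit 0) (XT.lf (nat_lit 0) (nat_lit 5187375696) (nat_lit 456) (nat_lit 3241936189) (nat_lit 76) (nat_lit 4894874984) (nat_lit 199) (nat_lit 5) (nat_lit 205) (nat_lit 5) (nat_lit 200) (nat_lit 5) (nat_lit 435) (nat_lit 410) (nat_lit 355)) (XT.lf (nat_lit 0) (nat_lit 10100028638) (nat_lit 532) (nat_lit 3289347095) (nat_lit 76) (nat_lit 307656864) (nat_lit 193) (nat_lit 5) (nat_lit 200) (nat_lit 5) (nat_lit 194) (nat_lit 5) (nat_lit 436) (nat_lit 410) (nat_lit 354)))))) (XT.nd (nat_lit 468) (nat_lit 2204) (nat_lit 0) (XT.nd (nat_lit 234) (nat_lit 1064) (nat_lit 0) (XT.nd (nat_lit 78) (nat_lit 684) (nat_lit 0) (XT.lf (nat_lit 0) (nat_lit 1313441984) (nat_lit 456) (nat_lit 3328527093) (nat_lit 76)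 (nat_lit 9441225637) (nat_lit 187) (nat_lit 5) (nat_lit 193) (nat_lit 5) (nat_lit 188) (nat_lit 5) (nat_lit 437) (nat_lit 410) (nat_lit 353)) (XT.nd (nat_lit 78) (nat_lit 304) (nat_lit 0) (XT.lf (nat_lit 0) (nat_lit 6526715550) (nat_lit 456) (nat_lit 3342316530) (nat_lit 76) (nat_lit 4614618963) (nat_lit 182) (nat_lit 5) (nat_lit 188) (nat_lit 5) (nat_lit 183) (nat_lit 5) (nat_lit 438) (nat_lit 410) (nat_lit 352)) (XT.lf (nat_lit 0) (nat_lit 11605432987) (nat_lit 304) (nat_lit 534027845) (nat_lit 380) (nat_lit 2760510289) (nat_lit 178) (nat_lit 5) (nat_lit 182) (nat_lit 5) (nat_lit 183) (nat_lit 5) (nat_lit 439) (nat_lit 410) (nat_lit 351)))) (XT.nd (nat_lit 78) (nat_lit 608) (nat_lit 0) (XT.lf (nat_lit 0) (nat_lit 2832676997) (nat_lit 456) (nat_lit 3252301287) (nat_lit 76) (nat_lit 9245669979) (nat_lit 172) (nat_lit 5) (nat_lit 178) (nat_lit 5) (nat_lit 173) (nat_lit 5) (nat_lit 440) (nat_lit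 410) (nat_lit 350)) (XT.nd (nat_lit 78) (nat_lit 304) (nat_lit 0) (XT.lf (nat_lit 0) (nat_lit 8796326421) (nat_lit 380) (nat_lit 3169129308) (nat_lit 76) (nat_lit 3812151303) (nat_lit 168) (nat_lit 5) (nat_lit 173) (nat_lit 5) (nat_lit 169) (nat_lit 5) (nat_lit 441) (nat_lit 410) (nat_lit 349)) (XT.lf (nat_lit 0) (nat_lit 13208044882) (nat_lit 304) (nat_lit 2022633771) (nat_lit 380) (nat_lit 1011063815) (nat_lit 164) (nat_lit 5) (nat_lit 168) (nat_lit 5) (nat_lit 169) (nat_lit 5) (nat_lit 442) (nat_lit 410) (nat_lit 348))))) (XT.nd (nat_lit 234) (nat_lit 1140) (nat_lit 0) (XT.nd (nat_lit 78) (nat_lit 684) (nat_lit 0) (XT.lf (nat_lit 0) (nat_lit 5355927332) (nat_lit 380) (nat_lit 2915661787) (nat_lit 76) (nat_lit 8449957588) (nat_lit 159) (nat_lit 5) (nat_lit 164) (nat_lit 5) (nat_lit 160) (nat_lit 5) (nat_lit 443) (nat_lit 410) (nat_lit 347)) (XT.nd (nat_lit 78) (nat_lit 380) (nat_lit 0) (XT.lf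 (nat_lit 0) (nat_lit 12187461270) (nat_lit 380) (nat_lit 2734957793) (nat_lit 76) (nat_lit 2297612489) (nat_lit 155) (nat_lit 5) (nat_lit 160) (nat_lit 5) (nat_lit 156) (nat_lit 5) (nat_lit 444) (nat_lit 410) (nat_lit 346)) (XT.lf (nat_lit 0) (nat_lit 1802107866) (nat_lit 380) (nat_lit 2536745618) (nat_lit 76) (nat_lit 13397628364) (nat_lit 150) (nat_lit 5) (nat_lit 155) (nat_lit 5) (nat_lit 151) (nat_lit 5) (nat_lit 445) (nat_lit 410) (nat_lit 345)))) (XT.nd (nat_lit 156) (nat_lit 608) (nat_lit 0) (XT.nd (nat_lit 78) (nat_lit 228) (nat_lit 0) (XT.lf (nat_lit 0) (nat_lit 9080281829) (nat_lit 380) (nat_lit 2337054922) (nat_lit 76) (nat_lit 6853751152) (nat_lit 146) (nat_lit 5) (nat_lit 151) (nat_lit 5) (nat_lit 147) (nat_lit 5) (nat_lit 446) (nat_lit 410) (nat_lit 344)) (XT.lf (nat_lit 0) (nat_lit 16765336173) (nat_lit 228) (nat_lit 145029060) (nat_lit 304) (nat_lit 1916422211) (nat_lit 143) (nat_lit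 5) (nat_lit 146) (nat_lit 5) (nat_lit 147) (nat_lit 5) (nat_lit 447) (nat_lit 410) (nat_lit 343))) (XT.nd (nat_lit 78) (nat_lit 228) (nat_lit 0) (XT.lf (nat_lit 0) (nat_lit 5876640103) (nat_lit 380) (nat_lit 1833071292) (nat_lit 76) (nat_lit 11690915223) (nat_lit 138) (nat_lit 5) (nat_lit 143) (nat_lit 5) (nat_lit 139) (nat_lit 5) (nat_lit 448) (nat_lit 410) (nat_lit 342)) (XT.lf (nat_lit 0) (nat_lit 14221071714) (nat_lit 304) (nat_lit 1546336181) (nat_lit 76) (nat_lit 4229142922) (nat_lit 135) (nat_lit 5) (nat_lit 139) (nat_lit 5) (nat_lit 136) (nat_lit 5) (nat_lit 449) (nat_lit 410) (nat_lit 341))))))) (XT.nd (nat_lit 1014) (nat_lit 1976) (nat_lit 0) (XT.nd (nat_lit 468) (nat_lit 1368) (nat_lit 0) (XT.nd (nat_lit 234) (nat_lit 988) (nat_lit 0) (XT.nd (nat_lit 78) (nat_lit 456) (nat_lit 0) (XT.lf (nat_lit 0) (nat_lit 2560137663) (nat_lit 304) (nat_lit 1239827149) (nat_lit 76) (nat_lit 16814255969)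 (nat_lit 131) (nat_lit 5) (nat_lit 135) (nat_lit 5) (nat_lit 132) (nat_lit 5) (nat_lit 450) (nat_lit 410) (nat_lit 340)) (XT.nd (nat_lit 78) (nat_lit 228) (nat_lit 0) (XT.lf (nat_lit 0) (nat_lit 11453848466) (nat_lit 304) (nat_lit 955508434) (nat_lit 76) (nat_lit 8843881571) (nat_lit 128) (nat_lit 5) (nat_lit 132) (nat_lit 5) (nat_lit 129) (nat_lit 5) (nat_lit 451) (nat_lit 410) (nat_lit 339)) (XT.lf (nat_lit 0) (nat_lit 21013520025) (nat_lit 304) (nat_lit 591348718) (nat_lit 76) (nat_lit 312702412) (nat_lit 125) (nat_lit 5) (nat_lit 129) (nat_lit 5) (nat_lit 126) (nat_lit 5) (nat_lit 452) (nat_lit 410) (nat_lit 338)))) (XT.nd (nat_lit 78) (nat_lit 684) (nat_lit 0) (XT.lf (nat_lit 0) (nat_lit 8587752331) (nat_lit 304) (nat_lit 313118848) (nat_lit 76) (nat_lit 13702329242) (nat_lit 121) (nat_lit 5) (nat_lit 125) (nat_lit 5) (nat_lit 122) (nat_lit 5) (nat_lit 453) (nat_lit 410) (nat_lit 337)) (XT.nd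 (nat_lit 78) (nat_lit 304) (nat_lit 0) (XT.lf (nat_lit 0) (nat_lit 30433237) (nat_lit 152) (nat_lit 18745055869) (nat_lit 228) (nat_lit 4540154390) (nat_lit 116) (nat_lit 5) (nat_lit 118) (nat_lit 5) (nat_lit 119) (nat_lit 5) (nat_lit 454) (nat_lit 410) (nat_lit 336)) (XT.lf (nat_lit 0) (nat_lit 354696308) (nat_lit 228) (nat_lit 5247252600) (nat_lit 304) (nat_lit 18451244168) (nat_lit 112) (nat_lit 5) (nat_lit 115) (nat_lit 5) (nat_lit 116) (nat_lit 5) (nat_lit 455) (nat_lit 410) (nat_lit 335))))) (XT.nd (nat_lit 234) (nat_lit 760) (nat_lit 0) (XT.nd (nat_lit 78) (nat_lit 456) (nat_lit 0) (XT.lf (nat_lit 0) (nat_lit 660976048) (nat_lit 152) (nat_lit 15796045803) (nat_lit 228) (nat_lit 8360258705) (nat_lit 110) (nat_lit 5) (nat_lit 112) (nat_lit 5) (nat_lit 113) (nat_lit 5) (nat_lit 456) (nat_lit 410) (nat_lit 334)) (XT.nd (nat_lit 78) (nat_lit 152) (nat_lit 0) (XT.lf (nat_lit 0) (nat_lit 1004496539)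 (nat_lit 228) (nat_lit 1461589320) (nat_lit 304) (nat_lit 23144610797) (nat_lit 106) (nat_lit 5) (nat_lit 109) (nat_lit 5) (nat_lit 110) (nat_lit 5) (nat_lit 457) (nat_lit 410) (nat_lit 333)) (XT.lf (nat_lit 0) (nat_lit 1239828182) (nat_lit 152) (nat_lit 12782596853) (nat_lit 228) (nat_lit 12408029486) (nat_lit 104) (nat_lit 5) (nat_lit 106) (nat_lit 5) (nat_lit 107) (nat_lit 5) (nat_lit 458) (nat_lit 410) (nat_lit 332)))) (XT.nd (nat_lit 156) (nat_lit 380) (nat_lit 0) (XT.nd (nat_lit 78) (nat_lit 228) (nat_lit 0) (XT.lf (nat_lit 0) (nat_lit 1542912308) (nat_lit 152) (nat_lit 24887101449) (nat_lit 228) (nat_lit 852985085) (nat_lit 102) (nat_lit 5) (nat_lit 104) (nat_lit 5) (nat_lit 105) (nat_lit 5) (nat_lit 459) (nat_lit 410) (nat_lit 331)) (XT.lf (nat_lit 0) (nat_lit 1705667242) (nat_lit 152) (nat_lit 9729157225) (nat_lit 228) (nat_lit 16728840799) (nat_lit 99) (nat_lit 5) (nat_lit 101) (nat_lit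 5) (nat_lit 102) (nat_lit 5) (nat_lit 460) (nat_lit 410) (nat_lit 330))) (XT.nd (nat_lit 78) (nat_lit 228) (nat_lit 0) (XT.lf (nat_lit 0) (nat_lit 1891563894) (nat_lit 152) (nat_lit 22741829721) (nat_lit 228) (nat_lit 4445299087) (nat_lit 97) (nat_lit 5) (nat_lit 99) (nat_lit 5) (nat_lit 100) (nat_lit 5) (nat_lit 461) (nat_lit 410) (nat_lit 329)) (XT.lf (nat_lit 0) (nat_lit 1981884346) (nat_lit 152) (nat_lit 6667176093) (nat_lit 228) (nat_lit 21377127490) (nat_lit 94) (nat_lit 5) (nat_lit 96) (nat_lit 5) (nat_lit 97) (nat_lit 5) (nat_lit 462) (nat_lit 410) (nat_lit 328)))))) (XT.nd (nat_lit 468) (nat_lit 988) (nat_lit 0) (XT.nd (nat_lit 234) (nat_lit 456) (nat_lit 0) (XT.nd (nat_lit 78) (nat_lit 380) (nat_lit 0) (XT.lf (nat_lit 0) (nat_lit 2004193012) (nat_lit 152) (nat_lit 20672919483) (nat_lit 228) (nat_lit 8331498926) (nat_lit 92) (nat_lit 5) (nat_lit 94) (nat_lit 5) (nat_lit 95) (nat_lit 5)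 (nat_lit 463) (nat_lit 410) (nat_lit 327)) (XT.nd (nat_lit 78) (nat_lit 152) (nat_lit 0) (XT.lf (nat_lit 0) (nat_lit 1973456902) (nat_lit 152) (nat_lit 3636680631) (nat_lit 228) (nat_lit 26418018769) (nat_lit 89) (nat_lit 5) (nat_lit 91) (nat_lit 5) (nat_lit 92) (nat_lit 5) (nat_lit 464) (nat_lit 410) (nat_lit 326)) (XT.lf (nat_lit 0) (nat_lit 1775116562) (nat_lit 152) (nat_lit 18729934401) (nat_lit 228) (nat_lit 12578298710) (nat_lit 87) (nat_lit 5) (nat_lit 89) (nat_lit 5) (nat_lit 90) (nat_lit 5) (nat_lit 465) (nat_lit 410) (nat_lit 325)))) (XT.nd (nat_lit 78) (nat_lit 228) (nat_lit 0) (XT.lf (nat_lit 0) (nat_lit 1563255385) (nat_lit 152) (nat_lit 688134070) (nat_lit 228) (nat_lit 31929267906) (nat_lit 84) (nat_lit 5) (nat_lit 86) (nat_lit 5) (nat_lit 87) (nat_lit 5) (nat_lit 466) (nat_lit 410) (nat_lit 324)) (XT.nd (nat_lit 78) (nat_lit 76) (nat_lit 0) (XT.lf (nat_lit 0) (nat_lit 1074445536)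 (nat_lit 152) (nat_lit 16974252532) (nat_lit 228) (nat_lit 17265808926) (nat_lit 82) (nat_lit 5) (nat_lit 84) (nat_lit 5) (nat_lit 85) (nat_lit 5) (nat_lit 467) (nat_lit 410) (nat_lit 323)) (XT.lf (nat_lit 0) (nat_lit 571720387) (nat_lit 76) (nat_lit 34406113587) (nat_lit 152) (nat_lit 1516957160) (nat_lit 81) (nat_lit 5) (nat_lit 82) (nat_lit 5) (nat_lit 83) (nat_lit 4) (nat_lit 468) (nat_lit 410) (nat_lit 322))))) (XT.nd (nat_lit 234) (nat_lit 608) (nat_lit 0) (XT.nd (nat_lit 78) (nat_lit 304) (nat_lit 0) (XT.lf (nat_lit 0) (nat_lit 15227283299) (nat_lit 152) (nat_lit 251642219) (nat_lit 76) (nat_lit 22235802703) (nat_lit 80) (nat_lit 5) (nat_lit 82) (nat_lit 5) (nat_lit 81) (nat_lit 5) (nat_lit 469) (nat_lit 410) (nat_lit 321)) (XT.nd (nat_lit 78) (nat_lit 152) (nat_lit 0) (XT.lf (nat_lit 0) (nat_lit 33162578123) (nat_lit 228) (nat_lit 1149817833) (nat_lit 76) (nat_lit 4671259939) (nat_lit 78)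 (nat_lit 5) (nat_lit 81) (nat_lit 5) (nat_lit 79) (nat_lit 4) (nat_lit 470) (nat_lit 410) (nat_lit 320)) (XT.lf (nat_lit 0) (nat_lit 11955864714) (nat_lit 152) (nat_lit 2364469922) (nat_lit 76) (nat_lit 25977173717) (nat_lit 76) (nat_lit 5) (nat_lit 78) (nat_lit 5) (nat_lit 77) (nat_lit 5) (nat_lit 471) (nat_lit 410) (nat_lit 319)))) (XT.nd (nat_lit 156) (nat_lit 304) (nat_lit 0) (XT.nd (nat_lit 78) (nat_lit 152) (nat_lit 0) (XT.lf (nat_lit 0) (nat_lit 30923479493) (nat_lit 228) (nat_lit 3778435165) (nat_lit 76) (nat_lit 6960744007) (nat_lit 74) (nat_lit 5) (nat_lit 77) (nat_lit 5) (nat_lit 75) (nat_lit 4) (nat_lit 472) (nat_lit 410) (nat_lit 318)) (XT.lf (nat_lit 0) (nat_lit 8104909007) (nat_lit 152) (nat_lit 5514893299) (nat_lit 76) (nat_lit 29458653720) (nat_lit 72) (nat_lit 5) (nat_lit 74) (nat_lit 5) (nat_lit 73) (nat_lit 5) (nat_lit 473) (nat_lit 410) (nat_lit 317))) (XT.nd (nat_lit 78) (nat_lit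 152) (nat_lit 0) (XT.lf (nat_lit 0) (nat_lit 28130406945) (nat_lit 228) (nat_lit 7578192920) (nat_lit 76) (nat_lit 8839414892) (nat_lit 70) (nat_lit 5) (nat_lit 73) (nat_lit 5) (nat_lit 71) (nat_lit 4) (nat_lit 474) (nat_lit 410) (nat_lit 316)) (XT.lf (nat_lit 0) (nat_lit 3531109741) (nat_lit 152) (nat_lit 9980710928) (nat_lit 76) (nat_lit 32562602733) (nat_lit 68) (nat_lit 5) (nat_lit 70) (nat_lit 5) (nat_lit 69) (nat_lit 5) (nat_lit 475) (nat_lit 410) (nat_lit 315))))))))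
noncomputable def xc67 : XT := (XT.nd (nat_lit 57798) (nat_lit 0) (nat_lit 10184) (XT.nd (nat_lit 936) (nat_lit 836) (nat_lit 0) (XT.nd (nat_lit 468) (nat_lit 608) (nat_lit 0) (XT.nd (nat_lit 234) (nat_lit 380) (nat_lit 0) (XT.nd (nat_lit 78) (nat_lit 304) (nat_lit 0) (XT.lf (nat_lit 0) (nat_lit 24632933685) (nat_lit 228) (nat_lit 12854205857) (nat_lit 76) (nat_lit 10170280592) (nat_lit 66) (nat_lit 5) (nat_lit 69) (nat_lit 5) (nat_lit 67) (nat_lit 4) (nat_lit 476) (nat_lit 410) (nat_lit 314)) (XT.nd (nat_lit 78) (nat_lit 228) (nat_lit 0) (XT.lf (nat_lit 0) (nat_lit 33187861218) (nat_lit 76) (nat_lit 14139650341) (nat_lit 152) (nat_lit 1975925768) (nat_lit 65) (nat_lit 5) (nat_lit 66) (nat_lit 5) (nat_lit 67) (nat_lit 4) (nat_lit 477) (nat_lit 410) (nat_lit 313)) (XT.lf (nat_lit 0) (nat_lit 20250068250) (nat_lit 228) (nat_lit 19973510429) (nat_lit 76) (nat_lit 10786842002) (nat_lit 62) (nat_lit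 5) (nat_lit 65) (nat_lit 5) (nat_lit 63) (nat_lit 4) (nat_lit 478) (nat_lit 410) (nat_lit 312)))) (XT.nd (nat_lit 78) (nat_lit 304) (nat_lit 0) (XT.lf (nat_lit 0) (nat_lit 28437309709) (nat_lit 76) (nat_lit 15672567453) (nat_lit 152) (nat_lit 8675388164) (nat_lit 61) (nat_lit 5) (nat_lit 62) (nat_lit 5) (nat_lit 63) (nat_lit 4) (nat_lit 479) (nat_lit 410) (nat_lit 311)) (XT.nd (nat_lit 78) (nat_lit 76) (nat_lit 0) (XT.lf (nat_lit 0) (nat_lit 14764635227) (nat_lit 228) (nat_lit 29376491304) (nat_lit 76) (nat_lit 10487519775) (nat_lit 58) (nat_lit 5) (nat_lit 61) (nat_lit 5) (nat_lit 59) (nat_lit 4) (nat_lit 480) (nat_lit 410) (nat_lit 310)) (XT.lf (nat_lit 0) (nat_lit 21416168212) (nat_lit 76) (nat_lit 18380149510) (nat_lit 152) (nat_lit 16747329807) (nat_lit 57) (nat_lit 5) (nat_lit 58) (nat_lit 5) (nat_lit 59) (nat_lit 4) (nat_lit 481) (nat_lit 410) (nat_lit 309))))) (XT.nd (nat_lit 234) (nat_lit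 304) (nat_lit 0) (XT.nd (nat_lit 78) (nat_lit 152) (nat_lit 0) (XT.lf (nat_lit 0) (nat_lit 7916664019) (nat_lit 152) (nat_lit 41590319107) (nat_lit 76) (nat_lit 9029096291) (nat_lit 55) (nat_lit 5) (nat_lit 57) (nat_lit 5) (nat_lit 56) (nat_lit 4) (nat_lit 482) (nat_lit 410) (nat_lit 308)) (XT.nd (nat_lit 78) (nat_lit 76) (nat_lit 0) (XT.lf (nat_lit 0) (nat_lit 11570559000) (nat_lit 76) (nat_lit 22543124023) (nat_lit 152) (nat_lit 26490090188) (nat_lit 54) (nat_lit 5) (nat_lit 55) (nat_lit 5) (nat_lit 56) (nat_lit 4) (nat_lit 483) (nat_lit 410) (nat_lit 307)) (XT.lf (nat_lit 0) (nat_lit 5508513356) (nat_lit 76) (nat_lit 56634258329) (nat_lit 76) (nat_lit 616413776) (nat_lit 53) (nat_lit 4) (nat_lit 54) (nat_lit 5) (nat_lit 54) (nat_lit 4) (nat_lit 484) (nat_lit 410) (nat_lit 306)))) (XT.nd (nat_lit 78) (nat_lit 228) (nat_lit 0) (XT.lf (nat_lit 0) (nat_lit 26751935033) (nat_lit 152) (nat_lit 1728210103)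 (nat_lit 76) (nat_lit 36512993977) (nat_lit 52) (nat_lit 5) (nat_lit 54) (nat_lit 5) (nat_lit 53) (nat_lit 4) (nat_lit 485) (nat_lit 410) (nat_lit 305)) (XT.nd (nat_lit 78) (nat_lit 152) (nat_lit 0) (XT.lf (nat_lit 0) (nat_lit 56028759056) (nat_lit 152) (nat_lit 9682594856) (nat_lit 0) (nat_lit 1610669549) (nat_lit 51) (nat_lit 5) (nat_lit 53) (nat_lit 4) (nat_lit 51) (nat_lit 4) (nat_lit 486) (nat_lit 410) (nat_lit 304)) (XT.lf (nat_lit 0) (nat_lit 17455914244) (nat_lit 152) (nat_lit 18997372281) (nat_lit 76) (nat_lit 33285594326) (nat_lit 49) (nat_lit 5) (nat_lit 51) (nat_lit 5) (nat_lit 50) (nat_lit 4) (nat_lit 487) (nat_lit 410) (nat_lit 303)))))) (XT.nd (nat_lit 468) (nat_lit 304) (nat_lit 0) (XT.nd (nat_lit 234) (nat_lit 228) (nat_lit 0) (XT.nd (nat_lit 78) (nat_lit 228) (nat_lit 0) (XT.lf (nat_lit 0) (nat_lit 42803532653) (nat_lit 76) (nat_lit 5103115287) (nat_lit 152) (nat_lit 24351649248)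 (nat_lit 48) (nat_lit 5) (nat_lit 49) (nat_lit 5) (nat_lit 50) (nat_lit 4) (nat_lit 488) (nat_lit 410) (nat_lit 302)) (XT.nd (nat_lit 78) (nat_lit 76) (nat_lit 0) (XT.lf (nat_lit 0) (nat_lit 5657824683) (nat_lit 152) (nat_lit 41388767782) (nat_lit 76) (nat_lit 27832296225) (nat_lit 46) (nat_lit 5) (nat_lit 48) (nat_lit 5) (nat_lit 47) (nat_lit 4) (nat_lit 489) (nat_lit 410) (nat_lit 301)) (XT.lf (nat_lit 0) (nat_lit 22687646487) (nat_lit 76) (nat_lit 14541024112) (nat_lit 152) (nat_lit 40377670397) (nat_lit 45) (nat_lit 5) (nat_lit 46) (nat_lit 5) (nat_lit 47) (nat_lit 4) (nat_lit 490) (nat_lit 410) (nat_lit 300)))) (XT.nd (nat_lit 78) (nat_lit 152) (nat_lit 0) (XT.lf (nat_lit 0) (nat_lit 10354362963) (nat_lit 76) (nat_lit 60726183278) (nat_lit 76) (nat_lit 9368545266) (nat_lit 44) (nat_lit 4) (nat_lit 45) (nat_lit 5) (nat_lit 45) (nat_lit 4) (nat_lit 491) (nat_lit 410) (nat_lit 299)) (XT.nd (nat_lit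 78) (nat_lit 76) (nat_lit 0) (XT.lf (nat_lit 0) (nat_lit 23440873478) (nat_lit 152) (nat_lit 3783587017) (nat_lit 76) (nat_lit 56181760114) (nat_lit 43) (nat_lit 5) (nat_lit 45) (nat_lit 5) (nat_lit 44) (nat_lit 4) (nat_lit 492) (nat_lit 410) (nat_lit 298)) (XT.lf (nat_lit 0) (nat_lit 58412150939) (nat_lit 152) (nat_lit 19545155045) (nat_lit 0) (nat_lit 8529663324) (nat_lit 42) (nat_lit 5) (nat_lit 44) (nat_lit 4) (nat_lit 42) (nat_lit 4) (nat_lit 493) (nat_lit 410) (nat_lit 297))))) (XT.nd (nat_lit 56082) (nat_lit 0) (nat_lit 23028) (XT.nd (nat_lit 156) (nat_lit 152) (nat_lit 0) (XT.lf (nat_lit 0) (nat_lit 6114964391) (nat_lit 152) (nat_lit 37478728081) (nat_lit 76) (nat_lit 46102193924) (nat_lit 40) (nat_lit 5) (nat_lit 42) (nat_lit 5) (nat_lit 41) (nat_lit 4) (nat_lit 494) (nat_lit 410) (nat_lit 296)) (XT.nd (nat_lit 55848) (nat_lit 0) (nat_lit 23940) (XT.lf (nat_lit 0) (nat_lit 15915431495)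 (nat_lit 76) (nat_lit 64534452085) (nat_lit 76) (nat_lit 16078151167) (nat_lit 38) (nat_lit 4) (nat_lit 39) (nat_lit 5) (nat_lit 39) (nat_lit 4) (nat_lit 496) (nat_lit 410) (nat_lit 294)) (XT.lf (nat_lit 0) (nat_lit 1661801989) (nat_lit 988) (nat_lit 1129444905) (nat_lit 988) (nat_lit 1129444905) (nat_lit 353) (nat_lit 3) (nat_lit 366) (nat_lit 3) (nat_lit 366) (nat_lit 5) (nat_lit 411) (nat_lit 411) (nat_lit 378)))) (XT.nd (nat_lit 156) (nat_lit 912) (nat_lit 0) (XT.nd (nat_lit 78) (nat_lit 0) (nat_lit 76) (XT.lf (nat_lit 76) (nat_lit 4275697862) (nat_lit 0) (nat_lit 1258910856) (nat_lit 988) (nat_lit 2438625418) (nat_lit 354) (nat_lit 5) (nat_lit 353) (nat_lit 3) (nat_lit 366) (nat_lit 5) (nat_lit 412) (nat_lit 411) (nat_lit 377)) (XT.lf (nat_lit 76) (nat_lit 3025672298) (nat_lit 0) (nat_lit 4780956327) (nat_lit 988) (nat_lit 306556812) (nat_lit 355) (nat_lit 5) (nat_lit 354) (nat_lit 5) (nat_lit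 367) (nat_lit 5) (nat_lit 413) (nat_lit 411) (nat_lit 376))) (XT.nd (nat_lit 78) (nat_lit 0) (nat_lit 76) (XT.lf (nat_lit 76) (nat_lit 1832122839) (nat_lit 0) (nat_lit 1784071) (nat_lit 1064) (nat_lit 6427505902) (nat_lit 342) (nat_lit 5) (nat_lit 341) (nat_lit 5) (nat_lit 355) (nat_lit 5) (nat_lit 414) (nat_lit 411) (nat_lit 375)) (XT.lf (nat_lit 76) (nat_lit 672512671) (nat_lit 0) (nat_lit 3386850906) (nat_lit 1064) (nat_lit 4358087168) (nat_lit 343) (nat_lit 5) (nat_lit 342) (nat_lit 5) (nat_lit 356) (nat_lit 5) (nat_lit 415) (nat_lit 411) (nat_lit 374))))))) (XT.nd (nat_lit 1014) (nat_lit 5548) (nat_lit 0) (XT.nd (nat_lit 468) (nat_lit 5472) (nat_lit 0) (XT.nd (nat_lit 234) (nat_lit 912) (nat_lit 0) (XT.nd (nat_lit 78) (nat_lit 1064) (nat_lit 0) (XT.lf (nat_lit 0) (nat_lit 6361851514) (nat_lit 988) (nat_lit 411992905) (nat_lit 1064) (nat_lit 1808492009) (nat_lit 343) (nat_lit 5) (nat_lit 356)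 (nat_lit 5) (nat_lit 357) (nat_lit 5) (nat_lit 416) (nat_lit 411) (nat_lit 373)) (XT.nd (nat_lit 78) (nat_lit 0) (nat_lit 76) (XT.lf (nat_lit 0) (nat_lit 15841904) (nat_lit 1064) (nat_lit 1434939260) (nat_lit 1140) (nat_lit 7304926137) (nat_lit 329) (nat_lit 5) (nat_lit 343) (nat_lit 5) (nat_lit 344) (nat_lit 5) (nat_lit 417) (nat_lit 411) (nat_lit 372)) (XT.lf (nat_lit 0) (nat_lit 2318039157) (nat_lit 1064) (nat_lit 2438342974) (nat_lit 1140) (nat_lit 4180722107) (nat_lit 330) (nat_lit 5) (nat_lit 344) (nat_lit 5) (nat_lit 345) (nat_lit 5) (nat_lit 418) (nat_lit 411) (nat_lit 371)))) (XT.nd (nat_lit 78) (nat_lit 1064) (nat_lit 0) (XT.lf (nat_lit 0) (nat_lit 4726338539) (nat_lit 1064) (nat_lit 3385283982) (nat_lit 1140) (nat_lit 1016234342) (nat_lit 331) (nat_lit 5) (nat_lit 345) (nat_lit 5) (nat_lit 346) (nat_lit 5) (nat_lit 419) (nat_lit 411) (nat_lit 370)) (XT.nd (nat_lit 78) (nat_lit 1064)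 (nat_lit 0) (XT.lf (nat_lit 76) (nat_lit 5028271242) (nat_lit 0) (nat_lit 2249112156) (nat_lit 1140) (nat_lit 2050108666) (nat_lit 332) (nat_lit 5) (nat_lit 331) (nat_lit 5) (nat_lit 346) (nat_lit 5) (nat_lit 420) (nat_lit 411) (nat_lit 369)) (XT.lf (nat_lit 0) (nat_lit 430427738) (nat_lit 1140) (nat_lit 5174801208) (nat_lit 76) (nat_lit 3931181132) (nat_lit 317) (nat_lit 5) (nat_lit 332) (nat_lit 5) (nat_lit 318) (nat_lit 5) (nat_lit 421) (nat_lit 411) (nat_lit 368))))) (XT.nd (nat_lit 234) (nat_lit 2356) (nat_lit 0) (XT.nd (nat_lit 78) (nat_lit 1976) (nat_lit 0) (XT.lf (nat_lit 0) (nat_lit 3011161203) (nat_lit 1216) (nat_lit 6019989572) (nat_lit 76) (nat_lit 723470275) (nat_lit 302) (nat_lit 5) (nat_lit 318) (nat_lit 5) (nat_lit 303) (nat_lit 5) (nat_lit 422) (nat_lit 411) (nat_lit 367)) (XT.nd (nat_lit 78) (nat_lit 760) (nat_lit 0) (XT.lf (nat_lit 0) (nat_lit 3141041043) (nat_lit 1216) (nat_lit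 2631960783) (nat_lit 1292) (nat_lit 4209191095) (nat_lit 286) (nat_lit 5) (nat_lit 302) (nat_lit 5) (nat_lit 303) (nat_lit 5) (nat_lit 423) (nat_lit 411) (nat_lit 366)) (XT.lf (nat_lit 0) (nat_lit 2598371754) (nat_lit 760) (nat_lit 6116479013) (nat_lit 836) (nat_lit 1505047001) (nat_lit 276) (nat_lit 5) (nat_lit 286) (nat_lit 5) (nat_lit 287) (nat_lit 5) (nat_lit 424) (nat_lit 411) (nat_lit 365)))) (XT.nd (nat_lit 156) (nat_lit 1064) (nat_lit 0) (XT.nd (nat_lit 78) (nat_lit 608) (nat_lit 0) (XT.lf (nat_lit 0) (nat_lit 1351117141) (nat_lit 684) (nat_lit 8367346135) (nat_lit 76) (nat_lit 749365277) (nat_lit 267) (nat_lit 5) (nat_lit 276) (nat_lit 5) (nat_lit 268) (nat_lit 5) (nat_lit 425) (nat_lit 411) (nat_lit 364)) (XT.lf (nat_lit 0) (nat_lit 1617290517) (nat_lit 608) (nat_lit 2779253056) (nat_lit 684) (nat_lit 6328848293) (nat_lit 259) (nat_lit 5) (nat_lit 267) (nat_lit 5) (nat_lit 268) (nat_lit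 5) (nat_lit 426) (nat_lit 411) (nat_lit 363))) (XT.nd (nat_lit 78) (nat_lit 532) (nat_lit 0) (XT.lf (nat_lit 0) (nat_lit 1183008742) (nat_lit 532) (nat_lit 6476727829) (nat_lit 608) (nat_lit 3334141871) (nat_lit 252) (nat_lit 5) (nat_lit 259) (nat_lit 5) (nat_lit 260) (nat_lit 5) (nat_lit 427) (nat_lit 411) (nat_lit 362)) (XT.lf (nat_lit 0) (nat_lit 806339677) (nat_lit 532) (nat_lit 10344776064) (nat_lit 608) (nat_lit 122732294) (nat_lit 245) (nat_lit 5) (nat_lit 252) (nat_lit 5) (nat_lit 253) (nat_lit 5) (nat_lit 428) (nat_lit 411) (nat_lit 361)))))) (XT.nd (nat_lit 468) (nat_lit 2964) (nat_lit 0) (XT.nd (nat_lit 234) (nat_lit 1444) (nat_lit 0) (XT.nd (nat_lit 78) (nat_lit 532) (nat_lit 0) (XT.lf (nat_lit 0) (nat_lit 427620426) (nat_lit 532) (nat_lit 2858425510) (nat_lit 608) (nat_lit 8277835846) (nat_lit 237) (nat_lit 5) (nat_lit 244) (nat_lit 5) (nat_lit 245) (nat_lit 5) (nat_lit 429) (nat_lit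 411) (nat_lit 360)) (XT.nd (nat_lit 78) (nat_lit 0) (nat_lit 0) (XT.lf (nat_lit 0) (nat_lit 94992984) (nat_lit 532) (nat_lit 6856901883) (nat_lit 608) (nat_lit 4913819142) (nat_lit 230) (nat_lit 5) (nat_lit 237) (nat_lit 5) (nat_lit 238) (nat_lit 5) (nat_lit 430) (nat_lit 411) (nat_lit 359)) (XT.lf (nat_lit 0) (nat_lit 10889052462) (nat_lit 608) (nat_lit 175478412) (nat_lit 76) (nat_lit 1115474439) (nat_lit 230) (nat_lit 5) (nat_lit 238) (nat_lit 5) (nat_lit 231) (nat_lit 5) (nat_lit 431) (nat_lit 411) (nat_lit 358)))) (XT.nd (nat_lit 78) (nat_lit 912) (nat_lit 0) (XT.lf (nat_lit 0) (nat_lit 2587612707) (nat_lit 532) (nat_lit 438960458) (nat_lit 76) (nat_lit 9479012817) (nat_lit 223) (nat_lit 5) (nat_lit 230) (nat_lit 5) (nat_lit 224) (nat_lit 5) (nat_lit 432) (nat_lit 411) (nat_lit 357)) (XT.nd (nat_lit 78) (nat_lit 456) (nat_lit 0) (XT.lf (nat_lit 0) (nat_lit 6744927965) (nat_lit 532) (nat_lit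 668500099) (nat_lit 76) (nat_lit 5430295564) (nat_lit 217) (nat_lit 5) (nat_lit 224) (nat_lit 5) (nat_lit 218) (nat_lit 5) (nat_lit 433) (nat_lit 411) (nat_lit 356)) (XT.lf (nat_lit 0) (nat_lit 11216092263) (nat_lit 532) (nat_lit 837934185) (nat_lit 76) (nat_lit 1141568880) (nat_lit 211) (nat_lit 5) (nat_lit 218) (nat_lit 5) (nat_lit 212) (nat_lit 5) (nat_lit 434) (nat_lit 411) (nat_lit 355))))) (XT.nd (nat_lit 234) (nat_lit 1596) (nat_lit 0) (XT.nd (nat_lit 78) (nat_lit 836) (nat_lit 0) (XT.lf (nat_lit 0) (nat_lit 2446946142) (nat_lit 532) (nat_lit 1001561161) (nat_lit 76) (nat_lit 10111474029) (nat_lit 204) (nat_lit 5) (nat_lit 211) (nat_lit 5) (nat_lit 205) (nat_lit 5) (nat_lit 435) (nat_lit 411) (nat_lit 354)) (XT.nd (nat_lit 78) (nat_lit 456) (nat_lit 0) (XT.lf (nat_lit 0) (nat_lit 7185859223) (nat_lit 456) (nat_lit 1134936199) (nat_lit 76) (nat_lit 5617246700) (nat_lit 199) (nat_lit 5) (nat_lit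 205) (nat_lit 5) (nat_lit 200) (nat_lit 5) (nat_lit 436) (nat_lit 411) (nat_lit 353)) (XT.lf (nat_lit 0) (nat_lit 12287578221) (nat_lit 532) (nat_lit 1204325902) (nat_lit 76) (nat_lit 839331614) (nat_lit 193) (nat_lit 5) (nat_lit 200) (nat_lit 5) (nat_lit 194) (nat_lit 5) (nat_lit 437) (nat_lit 411) (nat_lit 352)))) (XT.nd (nat_lit 156) (nat_lit 760) (nat_lit 0) (XT.nd (nat_lit 78) (nat_lit 380) (nat_lit 0) (XT.lf (nat_lit 0) (nat_lit 3018778746) (nat_lit 456) (nat_lit 1277154416) (nat_lit 76) (nat_lit 10442072268) (nat_lit 187) (nat_lit 5) (nat_lit 193) (nat_lit 5) (nat_lit 188) (nat_lit 5) (nat_lit 438) (nat_lit 411) (nat_lit 351)) (XT.lf (nat_lit 0) (nat_lit 8440842233) (nat_lit 456) (nat_lit 1313083562) (nat_lit 76) (nat_lit 5406122570) (nat_lit 182) (nat_lit 5) (nat_lit 188) (nat_lit 5) (nat_lit 183) (nat_lit 5) (nat_lit 439) (nat_lit 411) (nat_lit 350))) (XT.nd (nat_lit 78) (nat_lit 456)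 (nat_lit 0) (XT.lf (nat_lit 0) (nat_lit 14279507386) (nat_lit 380) (nat_lit 1280133415) (nat_lit 76) (nat_lit 39192381) (nat_lit 178) (nat_lit 5) (nat_lit 183) (nat_lit 5) (nat_lit 179) (nat_lit 5) (nat_lit 440) (nat_lit 411) (nat_lit 349)) (XT.lf (nat_lit 0) (nat_lit 4474653289) (nat_lit 456) (nat_lit 1273491490) (nat_lit 76) (nat_lit 10303892208) (nat_lit 172) (nat_lit 5) (nat_lit 178) (nat_lit 5) (nat_lit 173) (nat_lit 5) (nat_lit 441) (nat_lit 411) (nat_lit 348))))))))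
noncomputable def xc68 : XT := (XT.nd (nat_lit 1950) (nat_lit 3268) (nat_lit 0) (XT.nd (nat_lit 936) (nat_lit 2584) (nat_lit 0) (XT.nd (nat_lit 468) (nat_lit 1900) (nat_lit 0) (XT.nd (nat_lit 234) (nat_lit 988) (nat_lit 0) (XT.nd (nat_lit 78) (nat_lit 684) (nat_lit 0) (XT.lf (nat_lit 0) (nat_lit 10691101928) (nat_lit 380) (nat_lit 1210017588) (nat_lit 76) (nat_lit 4621592029) (nat_lit 168) (nat_lit 5) (nat_lit 173) (nat_lit 5) (nat_lit 169) (nat_lit 5) (nat_lit 442) (nat_lit 411) (nat_lit 347)) (XT.nd (nat_lit 78) (nat_lit 304) (nat_lit 0) (XT.lf (nat_lit 0) (nat_lit 378580229) (nat_lit 380) (nat_lit 1089941087) (nat_lit 76) (nat_lit 15542912497) (nat_lit 163) (nat_lit 5) (nat_lit 168) (nat_lit 5) (nat_lit 164) (nat_lit 5) (nat_lit 443) (nat_lit 411) (nat_lit 346)) (XT.lf (nat_lit 0) (nat_lit 7001368285) (nat_lit 380) (nat_lit 1001016367) (nat_lit 76) (nat_lit 9513798159) (nat_lit 159) (nat_lit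 5) (nat_lit 164) (nat_lit 5) (nat_lit 160) (nat_lit 5) (nat_lit 444) (nat_lit 411) (nat_lit 345)))) (XT.nd (nat_lit 78) (nat_lit 684) (nat_lit 0) (XT.lf (nat_lit 0) (nat_lit 14134556435) (nat_lit 380) (nat_lit 836735228) (nat_lit 76) (nat_lit 3069503239) (nat_lit 155) (nat_lit 5) (nat_lit 160) (nat_lit 5) (nat_lit 156) (nat_lit 5) (nat_lit 445) (nat_lit 411) (nat_lit 344)) (XT.nd (nat_lit 78) (nat_lit 304) (nat_lit 0) (XT.lf (nat_lit 0) (nat_lit 3198136671) (nat_lit 380) (nat_lit 660855494) (nat_lit 76) (nat_lit 14725037539) (nat_lit 150) (nat_lit 5) (nat_lit 155) (nat_lit 5) (nat_lit 151) (nat_lit 5) (nat_lit 446) (nat_lit 411) (nat_lit 343)) (XT.lf (nat_lit 0) (nat_lit 10803296399) (nat_lit 380) (nat_lit 477185407) (nat_lit 76) (nat_lit 7865996636) (nat_lit 146) (nat_lit 5) (nat_lit 151) (nat_lit 5) (nat_lit 147) (nat_lit 5) (nat_lit 447) (nat_lit 411) (nat_lit 342))))) (XT.nd (nat_lit 234) (nat_lit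 836) (nat_lit 0) (XT.nd (nat_lit 78) (nat_lit 836) (nat_lit 0) (XT.lf (nat_lit 0) (nat_lit 18988110196) (nat_lit 304) (nat_lit 212761713) (nat_lit 76) (nat_lit 530198732) (nat_lit 143) (nat_lit 5) (nat_lit 147) (nat_lit 5) (nat_lit 144) (nat_lit 5) (nat_lit 448) (nat_lit 411) (nat_lit 341)) (XT.nd (nat_lit 78) (nat_lit 456) (nat_lit 0) (XT.lf (nat_lit 0) (nat_lit 7375522381) (nat_lit 380) (nat_lit 6265956) (nat_lit 76) (nat_lit 12952635465) (nat_lit 138) (nat_lit 5) (nat_lit 143) (nat_lit 5) (nat_lit 139) (nat_lit 5) (nat_lit 449) (nat_lit 411) (nat_lit 340)) (XT.lf (nat_lit 0) (nat_lit 273487984) (nat_lit 228) (nat_lit 15833554472) (nat_lit 304) (nat_lit 4854009682) (nat_lit 132) (nat_lit 5) (nat_lit 135) (nat_lit 5) (nat_lit 136) (nat_lit 5) (nat_lit 450) (nat_lit 411) (nat_lit 339)))) (XT.nd (nat_lit 78) (nat_lit 532) (nat_lit 0) (XT.lf (nat_lit 0) (nat_lit 569744412) (nat_lit 228) (nat_lit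 3269308238) (nat_lit 304) (nat_lit 17771279155) (nat_lit 128) (nat_lit 5) (nat_lit 131) (nat_lit 5) (nat_lit 132) (nat_lit 5) (nat_lit 451) (nat_lit 411) (nat_lit 338)) (XT.nd (nat_lit 78) (nat_lit 304) (nat_lit 0) (XT.lf (nat_lit 0) (nat_lit 846958422) (nat_lit 228) (nat_lit 12302699922) (nat_lit 304) (nat_lit 9132479219) (nat_lit 125) (nat_lit 5) (nat_lit 128) (nat_lit 5) (nat_lit 129) (nat_lit 5) (nat_lit 452) (nat_lit 411) (nat_lit 337)) (XT.lf (nat_lit 0) (nat_lit 177579108) (nat_lit 304) (nat_lit 21772678641) (nat_lit 76) (nat_lit 1030152341) (nat_lit 121) (nat_lit 5) (nat_lit 125) (nat_lit 5) (nat_lit 122) (nat_lit 5) (nat_lit 453) (nat_lit 411) (nat_lit 336)))))) (XT.nd (nat_lit 468) (nat_lit 1292) (nat_lit 0) (XT.nd (nat_lit 234) (nat_lit 608) (nat_lit 0) (XT.nd (nat_lit 78) (nat_lit 456) (nat_lit 0) (XT.lf (nat_lit 0) (nat_lit 1476263104) (nat_lit 228) (nat_lit 8616455322) (nat_lit 304)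 (nat_lit 13608313629) (nat_lit 118) (nat_lit 5) (nat_lit 121) (nat_lit 5) (nat_lit 122) (nat_lit 5) (nat_lit 454) (nat_lit 411) (nat_lit 335)) (XT.nd (nat_lit 78) (nat_lit 304) (nat_lit 0) (XT.lf (nat_lit 0) (nat_lit 1816261063) (nat_lit 152) (nat_lit 18949293088) (nat_lit 228) (nat_lit 3684274675) (nat_lit 116) (nat_lit 5) (nat_lit 118) (nat_lit 5) (nat_lit 119) (nat_lit 5) (nat_lit 455) (nat_lit 411) (nat_lit 334)) (XT.lf (nat_lit 0) (nat_lit 2126170644) (nat_lit 228) (nat_lit 4783930299) (nat_lit 304) (nat_lit 18314856404) (nat_lit 112) (nat_lit 5) (nat_lit 115) (nat_lit 5) (nat_lit 116) (nat_lit 5) (nat_lit 456) (nat_lit 411) (nat_lit 333)))) (XT.nd (nat_lit 78) (nat_lit 456) (nat_lit 0) (XT.lf (nat_lit 0) (nat_lit 2420727783) (nat_lit 152) (nat_lit 15861486443) (nat_lit 228) (nat_lit 7745808932) (nat_lit 110) (nat_lit 5) (nat_lit 112) (nat_lit 5) (nat_lit 113) (nat_lit 5) (nat_lit 457) (nat_lit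 411) (nat_lit 332)) (XT.nd (nat_lit 78) (nat_lit 152) (nat_lit 0) (XT.lf (nat_lit 0) (nat_lit 2751546532) (nat_lit 228) (nat_lit 818264677) (nat_lit 304) (nat_lit 23291960319) (nat_lit 106) (nat_lit 5) (nat_lit 109) (nat_lit 5) (nat_lit 110) (nat_lit 5) (nat_lit 458) (nat_lit 411) (nat_lit 331)) (XT.lf (nat_lit 0) (nat_lit 2971931987) (nat_lit 152) (nat_lit 12707961367) (nat_lit 228) (nat_lit 12043348406) (nat_lit 104) (nat_lit 5) (nat_lit 106) (nat_lit 5) (nat_lit 107) (nat_lit 5) (nat_lit 459) (nat_lit 411) (nat_lit 330))))) (XT.nd (nat_lit 234) (nat_lit 760) (nat_lit 0) (XT.nd (nat_lit 78) (nat_lit 304) (nat_lit 0) (XT.lf (nat_lit 0) (nat_lit 64263160) (nat_lit 228) (nat_lit 25356197508) (nat_lit 76) (nat_lit 3198632105) (nat_lit 101) (nat_lit 5) (nat_lit 104) (nat_lit 5) (nat_lit 102) (nat_lit 5) (nat_lit 460) (nat_lit 411) (nat_lit 329)) (XT.nd (nat_lit 78) (nat_lit 152) (nat_lit 0) (XT.lf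 (nat_lit 0) (nat_lit 3405585537) (nat_lit 152) (nat_lit 9514044297) (nat_lit 228) (nat_lit 16624787078) (nat_lit 99) (nat_lit 5) (nat_lit 101) (nat_lit 5) (nat_lit 102) (nat_lit 5) (nat_lit 461) (nat_lit 411) (nat_lit 328)) (XT.lf (nat_lit 0) (nat_lit 3574588516) (nat_lit 152) (nat_lit 23181751584) (nat_lit 228) (nat_lit 3749511128) (nat_lit 97) (nat_lit 5) (nat_lit 99) (nat_lit 5) (nat_lit 100) (nat_lit 5) (nat_lit 462) (nat_lit 411) (nat_lit 327)))) (XT.nd (nat_lit 156) (nat_lit 380) (nat_lit 0) (XT.nd (nat_lit 78) (nat_lit 152) (nat_lit 0) (XT.lf (nat_lit 0) (nat_lit 3641329147) (nat_lit 152) (nat_lit 6312458020) (nat_lit 228) (nat_lit 21547506993) (nat_lit 94) (nat_lit 5) (nat_lit 96) (nat_lit 5) (nat_lit 97) (nat_lit 5) (nat_lit 463) (nat_lit 411) (nat_lit 326)) (XT.lf (nat_lit 0) (nat_lit 3639053547) (nat_lit 152) (nat_lit 21023702692) (nat_lit 228) (nat_lit 7870698820) (nat_lit 92) (nat_lit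 5) (nat_lit 94) (nat_lit 5) (nat_lit 95) (nat_lit 5) (nat_lit 464) (nat_lit 411) (nat_lit 325))) (XT.nd (nat_lit 78) (nat_lit 152) (nat_lit 0) (XT.lf (nat_lit 0) (nat_lit 3579451551) (nat_lit 152) (nat_lit 3144971972) (nat_lit 228) (nat_lit 26880096438) (nat_lit 89) (nat_lit 5) (nat_lit 91) (nat_lit 5) (nat_lit 92) (nat_lit 5) (nat_lit 465) (nat_lit 411) (nat_lit 324)) (XT.lf (nat_lit 0) (nat_lit 3346024473) (nat_lit 152) (nat_lit 18998767932) (nat_lit 228) (nat_lit 12368260769) (nat_lit 87) (nat_lit 5) (nat_lit 89) (nat_lit 5) (nat_lit 90) (nat_lit 5) (nat_lit 466) (nat_lit 411) (nat_lit 323))))))) (XT.nd (nat_lit 1014) (nat_lit 1368) (nat_lit 0) (XT.nd (nat_lit 468) (nat_lit 1064) (nat_lit 0) (XT.nd (nat_lit 234) (nat_lit 380) (nat_lit 0) (XT.nd (nat_lit 78) (nat_lit 228) (nat_lit 0) (XT.lf (nat_lit 0) (nat_lit 3097014012) (nat_lit 152) (nat_lit 64348311) (nat_lit 228) (nat_lit 32704378697) (nat_lit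 84) (nat_lit 5) (nat_lit 86) (nat_lit 5) (nat_lit 87) (nat_lit 5) (nat_lit 467) (nat_lit 411) (nat_lit 322)) (XT.nd (nat_lit 78) (nat_lit 76) (nat_lit 0) (XT.lf (nat_lit 0) (nat_lit 2559156430) (nat_lit 152) (nat_lit 17171189551) (nat_lit 228) (nat_lit 17326484157) (nat_lit 82) (nat_lit 5) (nat_lit 84) (nat_lit 5) (nat_lit 85) (nat_lit 5) (nat_lit 468) (nat_lit 411) (nat_lit 321)) (XT.lf (nat_lit 0) (nat_lit 2006921735) (nat_lit 76) (nat_lit 35481399733) (nat_lit 152) (nat_lit 808336763) (nat_lit 81) (nat_lit 5) (nat_lit 82) (nat_lit 5) (nat_lit 83) (nat_lit 4) (nat_lit 469) (nat_lit 411) (nat_lit 320)))) (XT.nd (nat_lit 78) (nat_lit 152) (nat_lit 0) (XT.lf (nat_lit 0) (nat_lit 1111704262) (nat_lit 152) (nat_lit 15620163348) (nat_lit 228) (nat_lit 22846277683) (nat_lit 78) (nat_lit 5) (nat_lit 80) (nat_lit 5) (nat_lit 81) (nat_lit 5) (nat_lit 470) (nat_lit 411) (nat_lit 319)) (XT.nd (nat_lit 78)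 (nat_lit 76) (nat_lit 0) (XT.lf (nat_lit 0) (nat_lit 126081675) (nat_lit 76) (nat_lit 35411949910) (nat_lit 152) (nat_lit 5373265718) (nat_lit 77) (nat_lit 5) (nat_lit 78) (nat_lit 5) (nat_lit 79) (nat_lit 4) (nat_lit 471) (nat_lit 411) (nat_lit 318)) (XT.lf (nat_lit 0) (nat_lit 13254992768) (nat_lit 152) (nat_lit 1175936211) (nat_lit 76) (nat_lit 27860394727) (nat_lit 76) (nat_lit 5) (nat_lit 78) (nat_lit 5) (nat_lit 77) (nat_lit 5) (nat_lit 472) (nat_lit 411) (nat_lit 317))))) (XT.nd (nat_lit 234) (nat_lit 608) (nat_lit 0) (XT.nd (nat_lit 78) (nat_lit 304) (nat_lit 0) (XT.lf (nat_lit 0) (nat_lit 33155456038) (nat_lit 228) (nat_lit 2683297774) (nat_lit 76) (nat_lit 7886444643) (nat_lit 74) (nat_lit 5) (nat_lit 77) (nat_lit 5) (nat_lit 75) (nat_lit 4) (nat_lit 473) (nat_lit 411) (nat_lit 316)) (XT.nd (nat_lit 78) (nat_lit 152) (nat_lit 0) (XT.lf (nat_lit 0) (nat_lit 9181892406) (nat_lit 152) (nat_lit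 4529999580) (nat_lit 76) (nat_lit 31500317073) (nat_lit 72) (nat_lit 5) (nat_lit 74) (nat_lit 5) (nat_lit 73) (nat_lit 5) (nat_lit 474) (nat_lit 411) (nat_lit 315)) (XT.lf (nat_lit 0) (nat_lit 30193956233) (nat_lit 228) (nat_lit 6718545554) (nat_lit 76) (nat_lit 9843186051) (nat_lit 70) (nat_lit 5) (nat_lit 73) (nat_lit 5) (nat_lit 71) (nat_lit 4) (nat_lit 475) (nat_lit 411) (nat_lit 314)))) (XT.nd (nat_lit 156) (nat_lit 304) (nat_lit 0) (XT.nd (nat_lit 78) (nat_lit 152) (nat_lit 0) (XT.lf (nat_lit 0) (nat_lit 4351297210) (nat_lit 152) (nat_lit 9263867386) (nat_lit 76) (nat_lit 34743655492) (nat_lit 68) (nat_lit 5) (nat_lit 70) (nat_lit 5) (nat_lit 69) (nat_lit 5) (nat_lit 476) (nat_lit 411) (nat_lit 313)) (XT.lf (nat_lit 0) (nat_lit 26494267206) (nat_lit 228) (nat_lit 12302496389) (nat_lit 76) (nat_lit 11224622156) (nat_lit 66) (nat_lit 5) (nat_lit 69) (nat_lit 5) (nat_lit 67) (nat_lit 4) (nat_lit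 477) (nat_lit 411) (nat_lit 312))) (XT.nd (nat_lit 78) (nat_lit 228) (nat_lit 0) (XT.lf (nat_lit 0) (nat_lit 36007436237) (nat_lit 76) (nat_lit 14297305028) (nat_lit 152) (nat_lit 1445528224) (nat_lit 65) (nat_lit 5) (nat_lit 66) (nat_lit 5) (nat_lit 67) (nat_lit 4) (nat_lit 478) (nat_lit 411) (nat_lit 311)) (XT.lf (nat_lit 0) (nat_lit 21866252616) (nat_lit 228) (nat_lit 19820548030) (nat_lit 76) (nat_lit 11856017620) (nat_lit 62) (nat_lit 5) (nat_lit 65) (nat_lit 5) (nat_lit 63) (nat_lit 4) (nat_lit 479) (nat_lit 411) (nat_lit 310)))))) (XT.nd (nat_lit 468) (nat_lit 684) (nat_lit 0) (XT.nd (nat_lit 234) (nat_lit 304) (nat_lit 0) (XT.nd (nat_lit 78) (nat_lit 304) (nat_lit 0) (XT.lf (nat_lit 0) (nat_lit 30977801645) (nat_lit 76) (nat_lit 15923256539) (nat_lit 152) (nat_lit 8505887394) (nat_lit 61) (nat_lit 5) (nat_lit 62) (nat_lit 5) (nat_lit 63) (nat_lit 4) (nat_lit 480) (nat_lit 411) (nat_lit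 309)) (XT.nd (nat_lit 78) (nat_lit 76) (nat_lit 0) (XT.lf (nat_lit 0) (nat_lit 16081791505) (nat_lit 228) (nat_lit 29735118511) (nat_lit 76) (nat_lit 11525789405) (nat_lit 58) (nat_lit 5) (nat_lit 61) (nat_lit 5) (nat_lit 59) (nat_lit 4) (nat_lit 481) (nat_lit 411) (nat_lit 308)) (XT.lf (nat_lit 0) (nat_lit 23565350396) (nat_lit 76) (nat_lit 18782505883) (nat_lit 152) (nat_lit 17006111028) (nat_lit 57) (nat_lit 5) (nat_lit 58) (nat_lit 5) (nat_lit 59) (nat_lit 4) (nat_lit 482) (nat_lit 411) (nat_lit 307)))) (XT.nd (nat_lit 78) (nat_lit 152) (nat_lit 0) (XT.lf (nat_lit 0) (nat_lit 8867835581) (nat_lit 152) (nat_lit 42599755007) (nat_lit 76) (nat_lit 9978622553) (nat_lit 55) (nat_lit 5) (nat_lit 57) (nat_lit 5) (nat_lit 56) (nat_lit 4) (nat_lit 483) (nat_lit 411) (nat_lit 306)) (XT.nd (nat_lit 78) (nat_lit 76) (nat_lit 0) (XT.lf (nat_lit 0) (nat_lit 13188493376) (nat_lit 76) (nat_lit 23169758886)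 (nat_lit 152) (nat_lit 27259533442) (nat_lit 54) (nat_lit 5) (nat_lit 55) (nat_lit 5) (nat_lit 56) (nat_lit 4) (nat_lit 484) (nat_lit 411) (nat_lit 305)) (XT.lf (nat_lit 0) (nat_lit 6804590152) (nat_lit 76) (nat_lit 58972937339) (nat_lit 76) (nat_lit 103779567) (nat_lit 53) (nat_lit 4) (nat_lit 54) (nat_lit 5) (nat_lit 54) (nat_lit 4) (nat_lit 485) (nat_lit 411) (nat_lit 304))))) (XT.nd (nat_lit 234) (nat_lit 380) (nat_lit 0) (XT.nd (nat_lit 78) (nat_lit 228) (nat_lit 0) (XT.lf (nat_lit 0) (nat_lit 28597008104) (nat_lit 152) (nat_lit 832463672) (nat_lit 76) (nat_lit 38798091535) (nat_lit 52) (nat_lit 5) (nat_lit 54) (nat_lit 5) (nat_lit 53) (nat_lit 4) (nat_lit 486) (nat_lit 411) (nat_lit 303)) (XT.nd (nat_lit 78) (nat_lit 152) (nat_lit 0) (XT.lf (nat_lit 0) (nat_lit 59327114690) (nat_lit 152) (nat_lit 9202374927) (nat_lit 0) (nat_lit 2143719421) (nat_lit 51) (nat_lit 5) (nat_lit 53) (nat_lit 4)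 (nat_lit 51) (nat_lit 4) (nat_lit 487) (nat_lit 411) (nat_lit 302)) (XT.lf (nat_lit 0) (nat_lit 18815751464) (nat_lit 152) (nat_lit 19000833575) (nat_lit 76) (nat_lit 35394621153) (nat_lit 49) (nat_lit 5) (nat_lit 51) (nat_lit 5) (nat_lit 50) (nat_lit 4) (nat_lit 488) (nat_lit 411) (nat_lit 301)))) (XT.nd (nat_lit 156) (nat_lit 152) (nat_lit 0) (XT.nd (nat_lit 78) (nat_lit 152) (nat_lit 0) (XT.lf (nat_lit 0) (nat_lit 45862988030) (nat_lit 76) (nat_lit 4911678031) (nat_lit 152) (nat_lit 25082358313) (nat_lit 48) (nat_lit 5) (nat_lit 49) (nat_lit 5) (nat_lit 50) (nat_lit 4) (nat_lit 489) (nat_lit 411) (nat_lit 300)) (XT.lf (nat_lit 0) (nat_lit 6408247261) (nat_lit 152) (nat_lit 42546355894) (nat_lit 76) (nat_lit 29654197463) (nat_lit 46) (nat_lit 5) (nat_lit 48) (nat_lit 5) (nat_lit 47) (nat_lit 4) (nat_lit 490) (nat_lit 411) (nat_lit 299))) (XT.nd (nat_lit 78) (nat_lit 76) (nat_lit 0) (XT.lf (nat_lit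 0) (nat_lit 24707741084) (nat_lit 76) (nat_lit 14836144999) (nat_lit 152) (nat_lit 41929152250) (nat_lit 45) (nat_lit 5) (nat_lit 46) (nat_lit 5) (nat_lit 47) (nat_lit 4) (nat_lit 491) (nat_lit 411) (nat_lit 298)) (XT.lf (nat_lit 0) (nat_lit 11741600963) (nat_lit 76) (nat_lit 63337458503) (nat_lit 76) (nat_lit 9379146083) (nat_lit 44) (nat_lit 4) (nat_lit 45) (nat_lit 5) (nat_lit 45) (nat_lit 4) (nat_lit 492) (nat_lit 411) (nat_lit 297))))))))
noncomputable def xc69 : XT := (XT.nd (nat_lit 57876) (nat_lit 0) (nat_lit 5092) (XT.nd (nat_lit 56862) (nat_lit 0) (nat_lit 13528) (XT.nd (nat_lit 56394) (nat_lit 0) (nat_lit 22040) (XT.nd (nat_lit 56160) (nat_lit 0) (nat_lit 22876) (XT.nd (nat_lit 78) (nat_lit 304) (nat_lit 0) (XT.lf (nat_lit 0) (nat_lit 25040433917) (nat_lit 152) (nat_lit 3136138294) (nat_lit 76) (nat_lit 59387128418) (nat_lit 43) (nat_lit 5) (nat_lit 45) (nat_lit 5) (nat_lit 44) (nat_lit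 4) (nat_lit 493) (nat_lit 411) (nat_lit 296)) (XT.nd (nat_lit 156) (nat_lit 228) (nat_lit 0) (XT.lf (nat_lit 0) (nat_lit 61751551665) (nat_lit 152) (nat_lit 19701134843) (nat_lit 0) (nat_lit 9346062224) (nat_lit 42) (nat_lit 5) (nat_lit 44) (nat_lit 4) (nat_lit 42) (nat_lit 4) (nat_lit 494) (nat_lit 411) (nat_lit 295)) (XT.lf (nat_lit 0) (nat_lit 37840066700) (nat_lit 76) (nat_lit 6624262690) (nat_lit 152) (nat_lit 53216650670) (nat_lit 39) (nat_lit 5) (nat_lit 40) (nat_lit 5) (nat_lit 41) (nat_lit 4) (nat_lit 496) (nat_lit 411) (nat_lit 293)))) (XT.nd (nat_lit 78) (nat_lit 988) (nat_lit 0) (XT.lf (nat_lit 0) (nat_lit 3799125090) (nat_lit 988) (nat_lit 127816553) (nat_lit 988) (nat_lit 127816553) (nat_lit 353) (nat_lit 3) (nat_lit 366) (nat_lit 3) (nat_lit 366) (nat_lit 5) (nat_lit 412) (nat_lit 412) (nat_lit 376)) (XT.nd (nat_lit 78) (nat_lit 0) (nat_lit 76) (XT.lf (nat_lit 0) (nat_lit 1461566579)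 (nat_lit 988) (nat_lit 1722574029) (nat_lit 1064) (nat_lit 5068697933) (nat_lit 340) (nat_lit 5) (nat_lit 353) (nat_lit 3) (nat_lit 354) (nat_lit 5) (nat_lit 413) (nat_lit 412) (nat_lit 375)) (XT.lf (nat_lit 0) (nat_lit 3470720967) (nat_lit 988) (nat_lit 3133466296) (nat_lit 1064) (nat_lit 1800559600) (nat_lit 341) (nat_lit 5) (nat_lit 354) (nat_lit 5) (nat_lit 355) (nat_lit 5) (nat_lit 414) (nat_lit 412) (nat_lit 374))))) (XT.nd (nat_lit 234) (nat_lit 0) (nat_lit 0) (XT.nd (nat_lit 78) (nat_lit 912) (nat_lit 0) (XT.lf (nat_lit 76) (nat_lit 4065842036) (nat_lit 0) (nat_lit 1486374846) (nat_lit 1064) (nat_lit 3012895812) (nat_lit 342) (nat_lit 5) (nat_lit 341) (nat_lit 5) (nat_lit 355) (nat_lit 5) (nat_lit 415) (nat_lit 412) (nat_lit 373)) (XT.nd (nat_lit 78) (nat_lit 988) (nat_lit 0) (XT.lf (nat_lit 76) (nat_lit 2906944679) (nat_lit 0) (nat_lit 4816870848) (nat_lit 1064) (nat_lit 1010118174) (nat_lit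 343) (nat_lit 5) (nat_lit 342) (nat_lit 5) (nat_lit 356) (nat_lit 5) (nat_lit 416) (nat_lit 412) (nat_lit 372)) (XT.lf (nat_lit 0) (nat_lit 1049699733) (nat_lit 1064) (nat_lit 7112463125) (nat_lit 1140) (nat_lit 749387373) (nat_lit 329) (nat_lit 5) (nat_lit 343) (nat_lit 5) (nat_lit 344) (nat_lit 5) (nat_lit 417) (nat_lit 412) (nat_lit 371)))) (XT.nd (nat_lit 78) (nat_lit 0) (nat_lit 76) (XT.lf (nat_lit 76) (nat_lit 714752084) (nat_lit 0) (nat_lit 2489700975) (nat_lit 1140) (nat_lit 5892925042) (nat_lit 330) (nat_lit 5) (nat_lit 329) (nat_lit 5) (nat_lit 344) (nat_lit 5) (nat_lit 418) (nat_lit 412) (nat_lit 370)) (XT.nd (nat_lit 78) (nat_lit 0) (nat_lit 76) (XT.lf (nat_lit 0) (nat_lit 5475319499) (nat_lit 1064) (nat_lit 315378964) (nat_lit 1140) (nat_lit 3501562500) (nat_lit 330) (nat_lit 5) (nat_lit 344) (nat_lit 5) (nat_lit 345) (nat_lit 5) (nat_lit 419) (nat_lit 412) (nat_lit 369)) (XT.lf (nat_lit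 0) (nat_lit 7873082619) (nat_lit 1064) (nat_lit 1278971083) (nat_lit 1140) (nat_lit 344447821) (nat_lit 331) (nat_lit 5) (nat_lit 345) (nat_lit 5) (nat_lit 346) (nat_lit 5) (nat_lit 420) (nat_lit 412) (nat_lit 368)))))) (XT.nd (nat_lit 468) (nat_lit 3800) (nat_lit 0) (XT.nd (nat_lit 234) (nat_lit 2660) (nat_lit 0) (XT.nd (nat_lit 78) (nat_lit 1064) (nat_lit 0) (XT.lf (nat_lit 0) (nat_lit 710534585) (nat_lit 1140) (nat_lit 2226592638) (nat_lit 1216) (nat_lit 6772323350) (nat_lit 316) (nat_lit 5) (nat_lit 331) (nat_lit 5) (nat_lit 332) (nat_lit 5) (nat_lit 421) (nat_lit 412) (nat_lit 367)) (XT.nd (nat_lit 78) (nat_lit 1140) (nat_lit 0) (XT.lf (nat_lit 0) (nat_lit 3155054077) (nat_lit 1140) (nat_lit 3145137473) (nat_lit 76) (nat_lit 3631562494) (nat_lit 317) (nat_lit 5) (nat_lit 332) (nat_lit 5) (nat_lit 318) (nat_lit 5) (nat_lit 422) (nat_lit 412) (nat_lit 366)) (XT.lf (nat_lit 0) (nat_lit 5753886933)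 (nat_lit 1216) (nat_lit 4016359198) (nat_lit 76) (nat_lit 393975808) (nat_lit 302) (nat_lit 5) (nat_lit 318) (nat_lit 5) (nat_lit 303) (nat_lit 5) (nat_lit 423) (nat_lit 412) (nat_lit 365)))) (XT.nd (nat_lit 78) (nat_lit 1444) (nat_lit 0) (XT.lf (nat_lit 0) (nat_lit 5536661195) (nat_lit 1216) (nat_lit 3015240323) (nat_lit 1292) (nat_lit 1854345815) (nat_lit 286) (nat_lit 5) (nat_lit 302) (nat_lit 5) (nat_lit 303) (nat_lit 5) (nat_lit 424) (nat_lit 412) (nat_lit 364)) (XT.nd (nat_lit 78) (nat_lit 608) (nat_lit 0) (XT.lf (nat_lit 0) (nat_lit 865523068) (nat_lit 836) (nat_lit 5689373280) (nat_lit 76) (nat_lit 4103680940) (nat_lit 275) (nat_lit 5) (nat_lit 286) (nat_lit 5) (nat_lit 276) (nat_lit 5) (nat_lit 425) (nat_lit 412) (nat_lit 363)) (XT.lf (nat_lit 0) (nat_lit 3739257548) (nat_lit 684) (nat_lit 6482740316) (nat_lit 76) (nat_lit 699298352) (nat_lit 267) (nat_lit 5) (nat_lit 276) (nat_lit 5)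 (nat_lit 268) (nat_lit 5) (nat_lit 426) (nat_lit 412) (nat_lit 362))))) (XT.nd (nat_lit 234) (nat_lit 2052) (nat_lit 0) (XT.nd (nat_lit 78) (nat_lit 1140) (nat_lit 0) (XT.lf (nat_lit 0) (nat_lit 3935113906) (nat_lit 608) (nat_lit 2912840386) (nat_lit 684) (nat_lit 4346468014) (nat_lit 259) (nat_lit 5) (nat_lit 267) (nat_lit 5) (nat_lit 268) (nat_lit 5) (nat_lit 427) (nat_lit 412) (nat_lit 361)) (XT.nd (nat_lit 78) (nat_lit 608) (nat_lit 0) (XT.lf (nat_lit 0) (nat_lit 3480257632) (nat_lit 532) (nat_lit 6709346607) (nat_lit 608) (nat_lit 1289283942) (nat_lit 252) (nat_lit 5) (nat_lit 259) (nat_lit 5) (nat_lit 260) (nat_lit 5) (nat_lit 428) (nat_lit 412) (nat_lit 360)) (XT.lf (nat_lit 0) (nat_lit 1961346826) (nat_lit 608) (nat_lit 8711916710) (nat_lit 76) (nat_lit 1101426206) (nat_lit 244) (nat_lit 5) (nat_lit 252) (nat_lit 5) (nat_lit 245) (nat_lit 5) (nat_lit 429) (nat_lit 412) (nat_lit 359))))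 (XT.nd (nat_lit 156) (nat_lit 988) (nat_lit 0) (XT.nd (nat_lit 78) (nat_lit 532) (nat_lit 0) (XT.lf (nat_lit 0) (nat_lit 2661439123) (nat_lit 532) (nat_lit 2798463118) (nat_lit 608) (nat_lit 6621642412) (nat_lit 237) (nat_lit 5) (nat_lit 244) (nat_lit 5) (nat_lit 245) (nat_lit 5) (nat_lit 430) (nat_lit 412) (nat_lit 358)) (XT.lf (nat_lit 0) (nat_lit 2305662991) (nat_lit 532) (nat_lit 6930749609) (nat_lit 608) (nat_lit 3164246470) (nat_lit 230) (nat_lit 5) (nat_lit 237) (nat_lit 5) (nat_lit 238) (nat_lit 5) (nat_lit 431) (nat_lit 412) (nat_lit 357))) (XT.nd (nat_lit 78) (nat_lit 456) (nat_lit 0) (XT.lf (nat_lit 0) (nat_lit 556109771) (nat_lit 532) (nat_lit 10729316465) (nat_lit 76) (nat_lit 1447200057) (nat_lit 223) (nat_lit 5) (nat_lit 230) (nat_lit 5) (nat_lit 224) (nat_lit 5) (nat_lit 432) (nat_lit 412) (nat_lit 356)) (XT.lf (nat_lit 0) (nat_lit 1700478586) (nat_lit 456) (nat_lit 2829988272)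 (nat_lit 532) (nat_lit 8545789080) (nat_lit 217) (nat_lit 5) (nat_lit 223) (nat_lit 5) (nat_lit 224) (nat_lit 5) (nat_lit 433) (nat_lit 412) (nat_lit 355))))))) (XT.nd (nat_lit 1014) (nat_lit 3420) (nat_lit 0) (XT.nd (nat_lit 468) (nat_lit 2356) (nat_lit 0) (XT.nd (nat_lit 234) (nat_lit 1292) (nat_lit 0) (XT.nd (nat_lit 78) (nat_lit 912) (nat_lit 0) (XT.lf (nat_lit 0) (nat_lit 1442330295) (nat_lit 456) (nat_lit 7388357509) (nat_lit 532) (nat_lit 4602571233) (nat_lit 211) (nat_lit 5) (nat_lit 217) (nat_lit 5) (nat_lit 218) (nat_lit 5) (nat_lit 434) (nat_lit 412) (nat_lit 354)) (XT.nd (nat_lit 78) (nat_lit 456) (nat_lit 0) (XT.lf (nat_lit 0) (nat_lit 1246599570) (nat_lit 456) (nat_lit 12217773058) (nat_lit 532) (nat_lit 340192127) (nat_lit 205) (nat_lit 5) (nat_lit 211) (nat_lit 5) (nat_lit 212) (nat_lit 5) (nat_lit 435) (nat_lit 412) (nat_lit 353)) (XT.lf (nat_lit 0) (nat_lit 1043208064) (nat_lit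 380) (nat_lit 3167615305) (nat_lit 456) (nat_lit 9977739087) (nat_lit 199) (nat_lit 5) (nat_lit 204) (nat_lit 5) (nat_lit 205) (nat_lit 5) (nat_lit 436) (nat_lit 412) (nat_lit 352)))) (XT.nd (nat_lit 78) (nat_lit 836) (nat_lit 0) (XT.lf (nat_lit 0) (nat_lit 883698823) (nat_lit 456) (nat_lit 8247376353) (nat_lit 532) (nat_lit 5456127512) (nat_lit 193) (nat_lit 5) (nat_lit 199) (nat_lit 5) (nat_lit 200) (nat_lit 5) (nat_lit 437) (nat_lit 412) (nat_lit 351)) (XT.nd (nat_lit 78) (nat_lit 456) (nat_lit 0) (XT.lf (nat_lit 0) (nat_lit 791250371) (nat_lit 380) (nat_lit 13644433516) (nat_lit 456) (nat_lit 565945785) (nat_lit 188) (nat_lit 5) (nat_lit 193) (nat_lit 5) (nat_lit 194) (nat_lit 5) (nat_lit 438) (nat_lit 412) (nat_lit 350)) (XT.lf (nat_lit 0) (nat_lit 683943156) (nat_lit 380) (nat_lit 3979573190) (nat_lit 456) (nat_lit 10766431106) (nat_lit 182) (nat_lit 5) (nat_lit 187) (nat_lit 5) (nat_lit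 188) (nat_lit 5) (nat_lit 439) (nat_lit 412) (nat_lit 349))))) (XT.nd (nat_lit 234) (nat_lit 1292) (nat_lit 0) (XT.nd (nat_lit 78) (nat_lit 760) (nat_lit 0) (XT.lf (nat_lit 0) (nat_lit 625623530) (nat_lit 304) (nat_lit 9683447846) (nat_lit 380) (nat_lit 5565456377) (nat_lit 178) (nat_lit 5) (nat_lit 182) (nat_lit 5) (nat_lit 183) (nat_lit 5) (nat_lit 440) (nat_lit 412) (nat_lit 348)) (XT.nd (nat_lit 78) (nat_lit 304) (nat_lit 0) (XT.lf (nat_lit 0) (nat_lit 57329197) (nat_lit 456) (nat_lit 15697162289) (nat_lit 76) (nat_lit 582088103) (nat_lit 172) (nat_lit 5) (nat_lit 178) (nat_lit 5) (nat_lit 173) (nat_lit 5) (nat_lit 441) (nat_lit 412) (nat_lit 347)) (XT.lf (nat_lit 0) (nat_lit 617213468) (nat_lit 304) (nat_lit 5447960342) (nat_lit 380) (nat_lit 10748340378) (nat_lit 168) (nat_lit 5) (nat_lit 172) (nat_lit 5) (nat_lit 173) (nat_lit 5) (nat_lit 442) (nat_lit 412) (nat_lit 346)))) (XT.nd (nat_lit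 156) (nat_lit 608) (nat_lit 0) (XT.nd (nat_lit 78) (nat_lit 380) (nat_lit 0) (XT.lf (nat_lit 0) (nat_lit 663118121) (nat_lit 304) (nat_lit 11888604071) (nat_lit 380) (nat_lit 4757227725) (nat_lit 164) (nat_lit 5) (nat_lit 168) (nat_lit 5) (nat_lit 169) (nat_lit 5) (nat_lit 443) (nat_lit 412) (nat_lit 345)) (XT.lf (nat_lit 0) (nat_lit 761798230) (nat_lit 304) (nat_lit 930545231) (nat_lit 380) (nat_lit 16130710450) (nat_lit 159) (nat_lit 5) (nat_lit 163) (nat_lit 5) (nat_lit 164) (nat_lit 5) (nat_lit 444) (nat_lit 412) (nat_lit 344))) (XT.nd (nat_lit 78) (nat_lit 304) (nat_lit 0) (XT.lf (nat_lit 0) (nat_lit 834078078) (nat_lit 304) (nat_lit 7774940541) (nat_lit 380) (nat_lit 9745144384) (nat_lit 155) (nat_lit 5) (nat_lit 159) (nat_lit 5) (nat_lit 160) (nat_lit 5) (nat_lit 445) (nat_lit 412) (nat_lit 343)) (XT.lf (nat_lit 0) (nat_lit 986455499) (nat_lit 304) (nat_lit 15077664551) (nat_lit 380) (nat_lit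 2841932866) (nat_lit 151) (nat_lit 5) (nat_lit 155) (nat_lit 5) (nat_lit 156) (nat_lit 5) (nat_lit 446) (nat_lit 412) (nat_lit 342)))))) (XT.nd (nat_lit 468) (nat_lit 1672) (nat_lit 0) (XT.nd (nat_lit 234) (nat_lit 760) (nat_lit 0) (XT.nd (nat_lit 78) (nat_lit 608) (nat_lit 0) (XT.lf (nat_lit 0) (nat_lit 1144977153) (nat_lit 304) (nat_lit 3408583602) (nat_lit 380) (nat_lit 14923715542) (nat_lit 146) (nat_lit 5) (nat_lit 150) (nat_lit 5) (nat_lit 151) (nat_lit 5) (nat_lit 447) (nat_lit 412) (nat_lit 341)) (XT.nd (nat_lit 78) (nat_lit 380) (nat_lit 0) (XT.lf (nat_lit 0) (nat_lit 1317612040) (nat_lit 228) (nat_lit 11189535713) (nat_lit 304) (nat_lit 7561658897) (nat_lit 143) (nat_lit 5) (nat_lit 146) (nat_lit 5) (nat_lit 147) (nat_lit 5) (nat_lit 448) (nat_lit 412) (nat_lit 340)) (XT.lf (nat_lit 0) (nat_lit 380569304) (nat_lit 380) (nat_lit 19110911493) (nat_lit 76) (nat_lit 1191925987) (nat_lit 138)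 (nat_lit 5) (nat_lit 143) (nat_lit 5) (nat_lit 139) (nat_lit 5) (nat_lit 449) (nat_lit 412) (nat_lit 339)))) (XT.nd (nat_lit 78) (nat_lit 532) (nat_lit 0) (XT.lf (nat_lit 0) (nat_lit 1768019959) (nat_lit 228) (nat_lit 7086289951) (nat_lit 304) (nat_lit 12463459785) (nat_lit 135) (nat_lit 5) (nat_lit 138) (nat_lit 5) (nat_lit 139) (nat_lit 5) (nat_lit 450) (nat_lit 412) (nat_lit 338)) (XT.nd (nat_lit 78) (nat_lit 304) (nat_lit 0) (XT.lf (nat_lit 0) (nat_lit 2037234813) (nat_lit 228) (nat_lit 15955282510) (nat_lit 304) (nat_lit 3984112354) (nat_lit 132) (nat_lit 5) (nat_lit 135) (nat_lit 5) (nat_lit 136) (nat_lit 5) (nat_lit 451) (nat_lit 412) (nat_lit 337)) (XT.lf (nat_lit 0) (nat_lit 2319294363) (nat_lit 228) (nat_lit 2767194848) (nat_lit 304) (nat_lit 17572628659) (nat_lit 128) (nat_lit 5) (nat_lit 131) (nat_lit 5) (nat_lit 132) (nat_lit 5) (nat_lit 452) (nat_lit 412) (nat_lit 336))))) (XT.nd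 (nat_lit 234) (nat_lit 912) (nat_lit 0) (XT.nd (nat_lit 78) (nat_lit 532) (nat_lit 0) (XT.lf (nat_lit 0) (nat_lit 2585641577) (nat_lit 228) (nat_lit 12249121971) (nat_lit 304) (nat_lit 8530589361) (nat_lit 125) (nat_lit 5) (nat_lit 128) (nat_lit 5) (nat_lit 129) (nat_lit 5) (nat_lit 453) (nat_lit 412) (nat_lit 335)) (XT.nd (nat_lit 78) (nat_lit 228) (nat_lit 0) (XT.lf (nat_lit 0) (nat_lit 1197303525) (nat_lit 304) (nat_lit 21169664301) (nat_lit 76) (nat_lit 1732079278) (nat_lit 121) (nat_lit 5) (nat_lit 125) (nat_lit 5) (nat_lit 122) (nat_lit 5) (nat_lit 454) (nat_lit 412) (nat_lit 334)) (XT.lf (nat_lit 0) (nat_lit 3193233774) (nat_lit 228) (nat_lit 8382625573) (nat_lit 304) (nat_lit 13280813803) (nat_lit 118) (nat_lit 5) (nat_lit 121) (nat_lit 5) (nat_lit 122) (nat_lit 5) (nat_lit 455) (nat_lit 412) (nat_lit 333)))) (XT.nd (nat_lit 156) (nat_lit 456) (nat_lit 0) (XT.nd (nat_lit 78) (nat_lit 304)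 (nat_lit 0) (XT.lf (nat_lit 0) (nat_lit 3525492406) (nat_lit 152) (nat_lit 19231891008) (nat_lit 228) (nat_lit 2886277584) (nat_lit 116) (nat_lit 5) (nat_lit 118) (nat_lit 5) (nat_lit 119) (nat_lit 5) (nat_lit 456) (nat_lit 412) (nat_lit 332)) (XT.lf (nat_lit 0) (nat_lit 3823172618) (nat_lit 228) (nat_lit 4364909190) (nat_lit 304) (nat_lit 18270100383) (nat_lit 112) (nat_lit 5) (nat_lit 115) (nat_lit 5) (nat_lit 116) (nat_lit 5) (nat_lit 457) (nat_lit 412) (nat_lit 331))) (XT.nd (nat_lit 78) (nat_lit 304) (nat_lit 0) (XT.lf (nat_lit 0) (nat_lit 4107934632) (nat_lit 152) (nat_lit 15997543397) (nat_lit 228) (nat_lit 7196625266) (nat_lit 110) (nat_lit 5) (nat_lit 112) (nat_lit 5) (nat_lit 113) (nat_lit 5) (nat_lit 458) (nat_lit 412) (nat_lit 330)) (XT.lf (nat_lit 0) (nat_lit 4428194303) (nat_lit 228) (nat_lit 209378266) (nat_lit 304) (nat_lit 23540566482) (nat_lit 106) (nat_lit 5) (nat_lit 109) (nat_lit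 5) (nat_lit 110) (nat_lit 5) (nat_lit 459) (nat_lit 412) (nat_lit 329))))))))
noncomputable def xc70 : XT := (XT.nd (nat_lit 1950) (nat_lit 1140) (nat_lit 0) (XT.nd (nat_lit 936) (nat_lit 1748) (nat_lit 0) (XT.nd (nat_lit 468) (nat_lit 1064) (nat_lit 0) (XT.nd (nat_lit 234) (nat_lit 532) (nat_lit 0) (XT.nd (nat_lit 78) (nat_lit 380) (nat_lit 0) (XT.lf (nat_lit 0) (nat_lit 4635369762) (nat_lit 152) (nat_lit 12695953241) (nat_lit 228) (nat_lit 11752016910) (nat_lit 104) (nat_lit 5) (nat_lit 106) (nat_lit 5) (nat_lit 107) (nat_lit 5) (nat_lit 460) (nat_lit 412) (nat_lit 328)) (XT.nd (nat_lit 78) (nat_lit 152) (nat_lit 0) (XT.lf (nat_lit 0) (nat_lit 922279447) (nat_lit 228) (nat_lit 25116266822) (nat_lit 76) (nat_lit 3985819245) (nat_lit 101) (nat_lit 5) (nat_lit 104) (nat_lit 5) (nat_lit 102) (nat_lit 5) (nat_lit 461) (nat_lit 412) (nat_lit 327)) (XT.lf (nat_lit 0) (nat_lit 5040386294) (nat_lit 152)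 (nat_lit 9353401125) (nat_lit 228) (nat_lit 16602969052) (nat_lit 99) (nat_lit 5) (nat_lit 101) (nat_lit 5) (nat_lit 102) (nat_lit 5) (nat_lit 462) (nat_lit 412) (nat_lit 326)))) (XT.nd (nat_lit 78) (nat_lit 380) (nat_lit 0) (XT.lf (nat_lit 0) (nat_lit 5194085677) (nat_lit 152) (nat_lit 23708485764) (nat_lit 228) (nat_lit 3104285629) (nat_lit 97) (nat_lit 5) (nat_lit 99) (nat_lit 5) (nat_lit 100) (nat_lit 5) (nat_lit 463) (nat_lit 412) (nat_lit 325)) (XT.nd (nat_lit 78) (nat_lit 152) (nat_lit 0) (XT.lf (nat_lit 0) (nat_lit 5238679580) (nat_lit 152) (nat_lit 6003974909) (nat_lit 228) (nat_lit 21809937335) (nat_lit 94) (nat_lit 5) (nat_lit 96) (nat_lit 5) (nat_lit 97) (nat_lit 5) (nat_lit 464) (nat_lit 412) (nat_lit 324)) (XT.lf (nat_lit 0) (nat_lit 5212979816) (nat_lit 152) (nat_lit 21455511168) (nat_lit 228) (nat_lit 7468428724) (nat_lit 92) (nat_lit 5) (nat_lit 94) (nat_lit 5) (nat_lit 95) (nat_lit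 5) (nat_lit 465) (nat_lit 412) (nat_lit 323))))) (XT.nd (nat_lit 234) (nat_lit 456) (nat_lit 0) (XT.nd (nat_lit 78) (nat_lit 380) (nat_lit 0) (XT.lf (nat_lit 0) (nat_lit 5125609438) (nat_lit 152) (nat_lit 2691297496) (nat_lit 228) (nat_lit 27445123238) (nat_lit 89) (nat_lit 5) (nat_lit 91) (nat_lit 5) (nat_lit 92) (nat_lit 5) (nat_lit 466) (nat_lit 412) (nat_lit 322)) (XT.nd (nat_lit 78) (nat_lit 228) (nat_lit 0) (XT.lf (nat_lit 0) (nat_lit 4857681327) (nat_lit 152) (nat_lit 19343116135) (nat_lit 228) (nat_lit 12225718818) (nat_lit 87) (nat_lit 5) (nat_lit 89) (nat_lit 5) (nat_lit 90) (nat_lit 5) (nat_lit 467) (nat_lit 412) (nat_lit 321)) (XT.lf (nat_lit 0) (nat_lit 4047788073) (nat_lit 228) (nat_lit 33070261615) (nat_lit 76) (nat_lit 519103069) (nat_lit 84) (nat_lit 5) (nat_lit 87) (nat_lit 5) (nat_lit 85) (nat_lit 5) (nat_lit 468) (nat_lit 412) (nat_lit 320)))) (XT.nd (nat_lit 78) (nat_lit 304)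 (nat_lit 0) (XT.lf (nat_lit 0) (nat_lit 3985063110) (nat_lit 152) (nat_lit 17438569339) (nat_lit 228) (nat_lit 17464812705) (nat_lit 82) (nat_lit 5) (nat_lit 84) (nat_lit 5) (nat_lit 85) (nat_lit 5) (nat_lit 469) (nat_lit 412) (nat_lit 319)) (XT.nd (nat_lit 78) (nat_lit 228) (nat_lit 0) (XT.lf (nat_lit 0) (nat_lit 3383109389) (nat_lit 76) (nat_lit 36670417988) (nat_lit 152) (nat_lit 137217769) (nat_lit 81) (nat_lit 5) (nat_lit 82) (nat_lit 5) (nat_lit 83) (nat_lit 4) (nat_lit 470) (nat_lit 412) (nat_lit 318)) (XT.lf (nat_lit 0) (nat_lit 2420066958) (nat_lit 152) (nat_lit 15824866215) (nat_lit 228) (nat_lit 23291804598) (nat_lit 78) (nat_lit 5) (nat_lit 80) (nat_lit 5) (nat_lit 81) (nat_lit 5) (nat_lit 471) (nat_lit 412) (nat_lit 317)))))) (XT.nd (nat_lit 468) (nat_lit 988) (nat_lit 0) (XT.nd (nat_lit 234) (nat_lit 456) (nat_lit 0) (XT.nd (nat_lit 78) (nat_lit 228) (nat_lit 0) (XT.lf (nat_lit 0)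 (nat_lit 1363604091) (nat_lit 76) (nat_lit 36612699517) (nat_lit 152) (nat_lit 4960697807) (nat_lit 77) (nat_lit 5) (nat_lit 78) (nat_lit 5) (nat_lit 79) (nat_lit 4) (nat_lit 472) (nat_lit 412) (nat_lit 316)) (XT.nd (nat_lit 78) (nat_lit 152) (nat_lit 0) (XT.lf (nat_lit 0) (nat_lit 14553873761) (nat_lit 152) (nat_lit 49465714) (nat_lit 76) (nat_lit 29783448318) (nat_lit 76) (nat_lit 5) (nat_lit 78) (nat_lit 5) (nat_lit 77) (nat_lit 5) (nat_lit 473) (nat_lit 412) (nat_lit 315)) (XT.lf (nat_lit 0) (nat_lit 35435271988) (nat_lit 228) (nat_lit 1652783162) (nat_lit 76) (nat_lit 8804724640) (nat_lit 74) (nat_lit 5) (nat_lit 77) (nat_lit 5) (nat_lit 75) (nat_lit 4) (nat_lit 474) (nat_lit 412) (nat_lit 314)))) (XT.nd (nat_lit 78) (nat_lit 304) (nat_lit 0) (XT.lf (nat_lit 0) (nat_lit 10250273147) (nat_lit 152) (nat_lit 3613063384) (nat_lit 76) (nat_lit 33591188406) (nat_lit 72) (nat_lit 5) (nat_lit 74)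 (nat_lit 5) (nat_lit 73) (nat_lit 5) (nat_lit 475) (nat_lit 412) (nat_lit 313)) (XT.nd (nat_lit 78) (nat_lit 152) (nat_lit 0) (XT.lf (nat_lit 0) (nat_lit 32299598663) (nat_lit 228) (nat_lit 5931065110) (nat_lit 76) (nat_lit 10844914890) (nat_lit 70) (nat_lit 5) (nat_lit 73) (nat_lit 5) (nat_lit 71) (nat_lit 4) (nat_lit 476) (nat_lit 412) (nat_lit 312)) (XT.lf (nat_lit 0) (nat_lit 5152655251) (nat_lit 152) (nat_lit 8624222580) (nat_lit 76) (nat_lit 36982355384) (nat_lit 68) (nat_lit 5) (nat_lit 70) (nat_lit 5) (nat_lit 69) (nat_lit 5) (nat_lit 477) (nat_lit 412) (nat_lit 311))))) (XT.nd (nat_lit 234) (nat_lit 532) (nat_lit 0) (XT.nd (nat_lit 78) (nat_lit 304) (nat_lit 0) (XT.lf (nat_lit 0) (nat_lit 28390125089) (nat_lit 228) (nat_lit 11834247276) (nat_lit 76) (nat_lit 12280934927) (nat_lit 66) (nat_lit 5) (nat_lit 69) (nat_lit 5) (nat_lit 67) (nat_lit 4) (nat_lit 478) (nat_lit 412) (nat_lit 310))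 (XT.nd (nat_lit 78) (nat_lit 228) (nat_lit 0) (XT.lf (nat_lit 0) (nat_lit 38860127285) (nat_lit 76) (nat_lit 14513913743) (nat_lit 152) (nat_lit 947107281) (nat_lit 65) (nat_lit 5) (nat_lit 66) (nat_lit 5) (nat_lit 67) (nat_lit 4) (nat_lit 479) (nat_lit 412) (nat_lit 309)) (XT.lf (nat_lit 0) (nat_lit 23507121667) (nat_lit 228) (nat_lit 19767005890) (nat_lit 76) (nat_lit 12929393120) (nat_lit 62) (nat_lit 5) (nat_lit 65) (nat_lit 5) (nat_lit 63) (nat_lit 4) (nat_lit 480) (nat_lit 412) (nat_lit 308)))) (XT.nd (nat_lit 156) (nat_lit 228) (nat_lit 0) (XT.nd (nat_lit 78) (nat_lit 228) (nat_lit 0) (XT.lf (nat_lit 0) (nat_lit 33541318893) (nat_lit 76) (nat_lit 16236027723) (nat_lit 152) (nat_lit 8383997928) (nat_lit 61) (nat_lit 5) (nat_lit 62) (nat_lit 5) (nat_lit 63) (nat_lit 4) (nat_lit 481) (nat_lit 412) (nat_lit 307)) (XT.lf (nat_lit 0) (nat_lit 17410982681) (nat_lit 228) (nat_lit 30214892706) (nat_lit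 76) (nat_lit 12568195556) (nat_lit 58) (nat_lit 5) (nat_lit 61) (nat_lit 5) (nat_lit 59) (nat_lit 4) (nat_lit 482) (nat_lit 412) (nat_lit 306))) (XT.nd (nat_lit 78) (nat_lit 152) (nat_lit 0) (XT.lf (nat_lit 0) (nat_lit 25721734717) (nat_lit 76) (nat_lit 19253013396) (nat_lit 152) (nat_lit 17331622684) (nat_lit 57) (nat_lit 5) (nat_lit 58) (nat_lit 5) (nat_lit 59) (nat_lit 4) (nat_lit 483) (nat_lit 412) (nat_lit 305)) (XT.lf (nat_lit 0) (nat_lit 9814935623) (nat_lit 152) (nat_lit 43759148603) (nat_lit 76) (nat_lit 10929319165) (nat_lit 55) (nat_lit 5) (nat_lit 57) (nat_lit 5) (nat_lit 56) (nat_lit 4) (nat_lit 484) (nat_lit 412) (nat_lit 304))))))) (XT.nd (nat_lit 57018) (nat_lit 0) (nat_lit 17252) (XT.nd (nat_lit 468) (nat_lit 608) (nat_lit 0) (XT.nd (nat_lit 234) (nat_lit 228) (nat_lit 0) (XT.nd (nat_lit 78) (nat_lit 228) (nat_lit 0) (XT.lf (nat_lit 0) (nat_lit 14790690312) (nat_lit 76) (nat_lit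 23874259222) (nat_lit 152) (nat_lit 28119053192) (nat_lit 54) (nat_lit 5) (nat_lit 55) (nat_lit 5) (nat_lit 56) (nat_lit 4) (nat_lit 485) (nat_lit 412) (nat_lit 303)) (XT.nd (nat_lit 78) (nat_lit 76) (nat_lit 0) (XT.lf (nat_lit 0) (nat_lit 376468602) (nat_lit 152) (nat_lit 61094117722) (nat_lit 76) (nat_lit 7690310124) (nat_lit 52) (nat_lit 5) (nat_lit 54) (nat_lit 5) (nat_lit 53) (nat_lit 4) (nat_lit 486) (nat_lit 412) (nat_lit 302)) (XT.lf (nat_lit 0) (nat_lit 17091962) (nat_lit 76) (nat_lit 30470226826) (nat_lit 152) (nat_lit 41137801200) (nat_lit 51) (nat_lit 5) (nat_lit 52) (nat_lit 5) (nat_lit 53) (nat_lit 4) (nat_lit 487) (nat_lit 412) (nat_lit 301)))) (XT.nd (nat_lit 78) (nat_lit 228) (nat_lit 0) (XT.lf (nat_lit 0) (nat_lit 62744189409) (nat_lit 152) (nat_lit 8787800094) (nat_lit 0) (nat_lit 2661351102) (nat_lit 51) (nat_lit 5) (nat_lit 53) (nat_lit 4) (nat_lit 51) (nat_lit 4) (nat_lit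 488) (nat_lit 412) (nat_lit 300)) (XT.nd (nat_lit 78) (nat_lit 76) (nat_lit 0) (XT.lf (nat_lit 0) (nat_lit 20198300041) (nat_lit 152) (nat_lit 19092455916) (nat_lit 76) (nat_lit 37567750950) (nat_lit 49) (nat_lit 5) (nat_lit 51) (nat_lit 5) (nat_lit 50) (nat_lit 4) (nat_lit 489) (nat_lit 412) (nat_lit 299)) (XT.lf (nat_lit 0) (nat_lit 48989950351) (nat_lit 76) (nat_lit 4752188899) (nat_lit 152) (nat_lit 25894867705) (nat_lit 48) (nat_lit 5) (nat_lit 49) (nat_lit 5) (nat_lit 50) (nat_lit 4) (nat_lit 490) (nat_lit 412) (nat_lit 298))))) (XT.nd (nat_lit 234) (nat_lit 304) (nat_lit 0) (XT.nd (nat_lit 78) (nat_lit 152) (nat_lit 0) (XT.lf (nat_lit 0) (nat_lit 7152724335) (nat_lit 152) (nat_lit 43846598606) (nat_lit 76) (nat_lit 31527189810) (nat_lit 46) (nat_lit 5) (nat_lit 48) (nat_lit 5) (nat_lit 47) (nat_lit 4) (nat_lit 491) (nat_lit 412) (nat_lit 297)) (XT.nd (nat_lit 78) (nat_lit 76) (nat_lit 0)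 (XT.lf (nat_lit 0) (nat_lit 26746495279) (nat_lit 76) (nat_lit 15186178718) (nat_lit 152) (nat_lit 43601662772) (nat_lit 45) (nat_lit 5) (nat_lit 46) (nat_lit 5) (nat_lit 47) (nat_lit 4) (nat_lit 492) (nat_lit 412) (nat_lit 296)) (XT.lf (nat_lit 0) (nat_lit 13117361149) (nat_lit 76) (nat_lit 66118813115) (nat_lit 76) (nat_lit 9432841305) (nat_lit 44) (nat_lit 4) (nat_lit 45) (nat_lit 5) (nat_lit 45) (nat_lit 4) (nat_lit 493) (nat_lit 412) (nat_lit 295)))) (XT.nd (nat_lit 56160) (nat_lit 0) (nat_lit 22800) (XT.nd (nat_lit 156) (nat_lit 228) (nat_lit 0) (XT.lf (nat_lit 0) (nat_lit 26680225921) (nat_lit 152) (nat_lit 2534098883) (nat_lit 76) (nat_lit 62715922752) (nat_lit 43) (nat_lit 5) (nat_lit 45) (nat_lit 5) (nat_lit 44) (nat_lit 4) (nat_lit 494) (nat_lit 412) (nat_lit 294)) (XT.lf (nat_lit 0) (nat_lit 7545204373) (nat_lit 152) (nat_lit 39743104633) (nat_lit 76) (nat_lit 51577292571) (nat_lit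 40) (nat_lit 5) (nat_lit 42) (nat_lit 5) (nat_lit 41) (nat_lit 4) (nat_lit 496) (nat_lit 412) (nat_lit 292))) (XT.nd (nat_lit 78) (nat_lit 0) (nat_lit 0) (XT.lf (nat_lit 0) (nat_lit 817427709) (nat_lit 0) (nat_lit 817427709) (nat_lit 988) (nat_lit 2565476651) (nat_lit 340) (nat_lit 5) (nat_lit 340) (nat_lit 3) (nat_lit 353) (nat_lit 3) (nat_lit 413) (nat_lit 413) (nat_lit 374)) (XT.lf (nat_lit 76) (nat_lit 130557313) (nat_lit 0) (nat_lit 5008206614) (nat_lit 1064) (nat_lit 3418020649) (nat_lit 341) (nat_lit 5) (nat_lit 340) (nat_lit 5) (nat_lit 354) (nat_lit 5) (nat_lit 414) (nat_lit 413) (nat_lit 373)))))) (XT.nd (nat_lit 468) (nat_lit 4560) (nat_lit 0) (XT.nd (nat_lit 234) (nat_lit 0) (nat_lit 76) (XT.nd (nat_lit 78) (nat_lit 1064) (nat_lit 0) (XT.lf (nat_lit 0) (nat_lit 7078564943) (nat_lit 988) (nat_lit 1289841788) (nat_lit 1064) (nat_lit 353003169) (nat_lit 341) (nat_lit 5) (nat_lit 354) (nat_lit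 5) (nat_lit 355) (nat_lit 5) (nat_lit 415) (nat_lit 413) (nat_lit 372)) (XT.nd (nat_lit 78) (nat_lit 0) (nat_lit 76) (XT.lf (nat_lit 0) (nat_lit 220715599) (nat_lit 1064) (nat_lit 2684235880) (nat_lit 1140) (nat_lit 5989149430) (nat_lit 327) (nat_lit 5) (nat_lit 341) (nat_lit 5) (nat_lit 342) (nat_lit 5) (nat_lit 416) (nat_lit 413) (nat_lit 371)) (XT.lf (nat_lit 0) (nat_lit 2131310898) (nat_lit 1064) (nat_lit 4048352993) (nat_lit 1140) (nat_lit 2895655212) (nat_lit 328) (nat_lit 5) (nat_lit 342) (nat_lit 5) (nat_lit 343) (nat_lit 5) (nat_lit 417) (nat_lit 413) (nat_lit 370)))) (XT.nd (nat_lit 78) (nat_lit 0) (nat_lit 76) (XT.lf (nat_lit 76) (nat_lit 3897733816) (nat_lit 0) (nat_lit 236196057) (nat_lit 1140) (nat_lit 5131788381) (nat_lit 329) (nat_lit 5) (nat_lit 328) (nat_lit 5) (nat_lit 343) (nat_lit 5) (nat_lit 418) (nat_lit 413) (nat_lit 369)) (XT.nd (nat_lit 78) (nat_lit 0) (nat_lit 76) (XT.lf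 (nat_lit 76) (nat_lit 2792597913) (nat_lit 0) (nat_lit 3476921785) (nat_lit 1140) (nat_lit 3195146621) (nat_lit 330) (nat_lit 5) (nat_lit 329) (nat_lit 5) (nat_lit 344) (nat_lit 5) (nat_lit 419) (nat_lit 413) (nat_lit 368)) (XT.lf (nat_lit 76) (nat_lit 1738958823) (nat_lit 0) (nat_lit 6785462435) (nat_lit 1140) (nat_lit 1148778043) (nat_lit 331) (nat_lit 5) (nat_lit 330) (nat_lit 5) (nat_lit 345) (nat_lit 5) (nat_lit 420) (nat_lit 413) (nat_lit 367))))) (XT.nd (nat_lit 234) (nat_lit 3648) (nat_lit 0) (XT.nd (nat_lit 78) (nat_lit 0) (nat_lit 76) (XT.lf (nat_lit 76) (nat_lit 722531370) (nat_lit 0) (nat_lit 282362743) (nat_lit 1216) (nat_lit 8886254025) (nat_lit 316) (nat_lit 5) (nat_lit 315) (nat_lit 5) (nat_lit 331) (nat_lit 5) (nat_lit 421) (nat_lit 413) (nat_lit 366)) (XT.nd (nat_lit 78) (nat_lit 0) (nat_lit 76) (XT.lf (nat_lit 0) (nat_lit 3304921569) (nat_lit 1140) (nat_lit 281779882) (nat_lit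 1216) (nat_lit 6531090710) (nat_lit 316) (nat_lit 5) (nat_lit 331) (nat_lit 5) (nat_lit 332) (nat_lit 5) (nat_lit 422) (nat_lit 413) (nat_lit 365)) (XT.lf (nat_lit 0) (nat_lit 5764602656) (nat_lit 1140) (nat_lit 1226744646) (nat_lit 76) (nat_lit 3363092823) (nat_lit 317) (nat_lit 5) (nat_lit 332) (nat_lit 5) (nat_lit 318) (nat_lit 5) (nat_lit 423) (nat_lit 413) (nat_lit 364)))) (XT.nd (nat_lit 156) (nat_lit 1368) (nat_lit 0) (XT.nd (nat_lit 78) (nat_lit 1292) (nat_lit 0) (XT.lf (nat_lit 0) (nat_lit 8392753770) (nat_lit 1216) (nat_lit 2126809945) (nat_lit 76) (nat_lit 82002960) (nat_lit 302) (nat_lit 5) (nat_lit 318) (nat_lit 5) (nat_lit 303) (nat_lit 5) (nat_lit 424) (nat_lit 413) (nat_lit 363)) (XT.lf (nat_lit 0) (nat_lit 372333826) (nat_lit 1292) (nat_lit 3018191211) (nat_lit 76) (nat_lit 7467847844) (nat_lit 285) (nat_lit 5) (nat_lit 302) (nat_lit 5) (nat_lit 286) (nat_lit 5) (nat_lit 425) (nat_lit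 413) (nat_lit 362))) (XT.nd (nat_lit 78) (nat_lit 608) (nat_lit 0) (XT.lf (nat_lit 0) (nat_lit 3099261887) (nat_lit 836) (nat_lit 3889453526) (nat_lit 76) (nat_lit 4136785214) (nat_lit 275) (nat_lit 5) (nat_lit 286) (nat_lit 5) (nat_lit 276) (nat_lit 5) (nat_lit 426) (nat_lit 413) (nat_lit 361)) (XT.lf (nat_lit 0) (nat_lit 6031059019) (nat_lit 684) (nat_lit 4718012819) (nat_lit 76) (nat_lit 654866273) (nat_lit 267) (nat_lit 5) (nat_lit 276) (nat_lit 5) (nat_lit 268) (nat_lit 5) (nat_lit 427) (nat_lit 413) (nat_lit 360))))))))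
noncomputable def xc71 : XT := (XT.nd (nat_lit 1950) (nat_lit 4864) (nat_lit 0) (XT.nd (nat_lit 936) (nat_lit 4180) (nat_lit 0) (XT.nd (nat_lit 468) (nat_lit 2736) (nat_lit 0) (XT.nd (nat_lit 234) (nat_lit 1596) (nat_lit 0) (XT.nd (nat_lit 78) (nat_lit 1140) (nat_lit 0) (XT.lf (nat_lit 0) (nat_lit 6160857233) (nat_lit 608) (nat_lit 3053606828) (nat_lit 684) (nat_lit 2478691467) (nat_lit 259) (nat_lit 5) (nat_lit 267) (nat_lit 5) (nat_lit 268) (nat_lit 5) (nat_lit 428) (nat_lit 413) (nat_lit 359)) (XT.nd (nat_lit 78) (nat_lit 532) (nat_lit 0) (XT.lf (nat_lit 0) (nat_lit 639479631) (nat_lit 608) (nat_lit 6316139752) (nat_lit 76) (nat_lit 5038354664) (nat_lit 251) (nat_lit 5) (nat_lit 259) (nat_lit 5) (nat_lit 252) (nat_lit 5) (nat_lit 429) (nat_lit 413) (nat_lit 358)) (XT.lf (nat_lit 0) (nat_lit 3953020552) (nat_lit 608) (nat_lit 7081545833) (nat_lit 76) (nat_lit 1271816703) (nat_lit 244) (nat_lit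 5) (nat_lit 252) (nat_lit 5) (nat_lit 245) (nat_lit 5) (nat_lit 430) (nat_lit 413) (nat_lit 357)))) (XT.nd (nat_lit 78) (nat_lit 1064) (nat_lit 0) (XT.lf (nat_lit 0) (nat_lit 4801257270) (nat_lit 532) (nat_lit 2754364807) (nat_lit 608) (nat_lit 5075096210) (nat_lit 237) (nat_lit 5) (nat_lit 244) (nat_lit 5) (nat_lit 245) (nat_lit 5) (nat_lit 431) (nat_lit 413) (nat_lit 356)) (XT.nd (nat_lit 78) (nat_lit 532) (nat_lit 0) (XT.lf (nat_lit 0) (nat_lit 4421780932) (nat_lit 532) (nat_lit 7033298547) (nat_lit 608) (nat_lit 1512695865) (nat_lit 230) (nat_lit 5) (nat_lit 237) (nat_lit 5) (nat_lit 238) (nat_lit 5) (nat_lit 432) (nat_lit 413) (nat_lit 355)) (XT.lf (nat_lit 0) (nat_lit 2295465236) (nat_lit 532) (nat_lit 9238920759) (nat_lit 76) (nat_lit 1783329744) (nat_lit 223) (nat_lit 5) (nat_lit 230) (nat_lit 5) (nat_lit 224) (nat_lit 5) (nat_lit 433) (nat_lit 413) (nat_lit 354))))) (XT.nd (nat_lit 234)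 (nat_lit 1292) (nat_lit 0) (XT.nd (nat_lit 78) (nat_lit 988) (nat_lit 0) (XT.lf (nat_lit 0) (nat_lit 3754264467) (nat_lit 456) (nat_lit 2651698276) (nat_lit 532) (nat_lit 7274450750) (nat_lit 217) (nat_lit 5) (nat_lit 223) (nat_lit 5) (nat_lit 224) (nat_lit 5) (nat_lit 434) (nat_lit 413) (nat_lit 353)) (XT.nd (nat_lit 78) (nat_lit 532) (nat_lit 0) (XT.lf (nat_lit 0) (nat_lit 3472020584) (nat_lit 456) (nat_lit 7392396676) (nat_lit 532) (nat_lit 3192561671) (nat_lit 211) (nat_lit 5) (nat_lit 217) (nat_lit 5) (nat_lit 218) (nat_lit 5) (nat_lit 435) (nat_lit 413) (nat_lit 352)) (XT.lf (nat_lit 0) (nat_lit 1203579955) (nat_lit 532) (nat_lit 11206724530) (nat_lit 76) (nat_lit 2037813324) (nat_lit 204) (nat_lit 5) (nat_lit 211) (nat_lit 5) (nat_lit 205) (nat_lit 5) (nat_lit 436) (nat_lit 413) (nat_lit 351)))) (XT.nd (nat_lit 78) (nat_lit 912) (nat_lit 0) (XT.lf (nat_lit 0) (nat_lit 3014440547) (nat_lit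 380) (nat_lit 2905191665) (nat_lit 456) (nat_lit 8933254288) (nat_lit 199) (nat_lit 5) (nat_lit 204) (nat_lit 5) (nat_lit 205) (nat_lit 5) (nat_lit 437) (nat_lit 413) (nat_lit 350)) (XT.nd (nat_lit 78) (nat_lit 456) (nat_lit 0) (XT.lf (nat_lit 0) (nat_lit 2831828128) (nat_lit 456) (nat_lit 8204876687) (nat_lit 532) (nat_lit 4236237112) (nat_lit 193) (nat_lit 5) (nat_lit 199) (nat_lit 5) (nat_lit 200) (nat_lit 5) (nat_lit 438) (nat_lit 413) (nat_lit 349)) (XT.lf (nat_lit 0) (nat_lit 833756731) (nat_lit 456) (nat_lit 12999367849) (nat_lit 76) (nat_lit 1876128404) (nat_lit 187) (nat_lit 5) (nat_lit 193) (nat_lit 5) (nat_lit 188) (nat_lit 5) (nat_lit 439) (nat_lit 413) (nat_lit 348)))))) (XT.nd (nat_lit 468) (nat_lit 2052) (nat_lit 0) (XT.nd (nat_lit 234) (nat_lit 988) (nat_lit 0) (XT.nd (nat_lit 78) (nat_lit 760) (nat_lit 0) (XT.lf (nat_lit 0) (nat_lit 2579041959) (nat_lit 380) (nat_lit 3684494505)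 (nat_lit 456) (nat_lit 9896772156) (nat_lit 182) (nat_lit 5) (nat_lit 187) (nat_lit 5) (nat_lit 188) (nat_lit 5) (nat_lit 440) (nat_lit 413) (nat_lit 347)) (XT.nd (nat_lit 78) (nat_lit 456) (nat_lit 0) (XT.lf (nat_lit 0) (nat_lit 2499807976) (nat_lit 304) (nat_lit 9648711589) (nat_lit 380) (nat_lit 4479890094) (nat_lit 178) (nat_lit 5) (nat_lit 182) (nat_lit 5) (nat_lit 183) (nat_lit 5) (nat_lit 441) (nat_lit 413) (nat_lit 346)) (XT.lf (nat_lit 0) (nat_lit 1356247869) (nat_lit 456) (nat_lit 14632177094) (nat_lit 76) (nat_lit 1125986789) (nat_lit 172) (nat_lit 5) (nat_lit 178) (nat_lit 5) (nat_lit 173) (nat_lit 5) (nat_lit 442) (nat_lit 413) (nat_lit 345)))) (XT.nd (nat_lit 78) (nat_lit 684) (nat_lit 0) (XT.lf (nat_lit 0) (nat_lit 2444892064) (nat_lit 304) (nat_lit 5175147989) (nat_lit 380) (nat_lit 9996491855) (nat_lit 168) (nat_lit 5) (nat_lit 172) (nat_lit 5) (nat_lit 173) (nat_lit 5) (nat_lit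 443) (nat_lit 413) (nat_lit 344)) (XT.nd (nat_lit 78) (nat_lit 380) (nat_lit 0) (XT.lf (nat_lit 0) (nat_lit 2473074389) (nat_lit 304) (nat_lit 11920312128) (nat_lit 380) (nat_lit 3744484015) (nat_lit 164) (nat_lit 5) (nat_lit 168) (nat_lit 5) (nat_lit 169) (nat_lit 5) (nat_lit 444) (nat_lit 413) (nat_lit 343)) (XT.lf (nat_lit 0) (nat_lit 2549559739) (nat_lit 304) (nat_lit 412030559) (nat_lit 380) (nat_lit 15716980762) (nat_lit 159) (nat_lit 5) (nat_lit 163) (nat_lit 5) (nat_lit 164) (nat_lit 5) (nat_lit 445) (nat_lit 413) (nat_lit 342))))) (XT.nd (nat_lit 234) (nat_lit 1064) (nat_lit 0) (XT.nd (nat_lit 78) (nat_lit 684) (nat_lit 0) (XT.lf (nat_lit 0) (nat_lit 2604637820) (nat_lit 304) (nat_lit 7584842161) (nat_lit 380) (nat_lit 9047798804) (nat_lit 155) (nat_lit 5) (nat_lit 159) (nat_lit 5) (nat_lit 160) (nat_lit 5) (nat_lit 446) (nat_lit 413) (nat_lit 341)) (XT.nd (nat_lit 78) (nat_lit 380) (nat_lit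 0) (XT.lf (nat_lit 0) (nat_lit 2743272872) (nat_lit 304) (nat_lit 15241013946) (nat_lit 380) (nat_lit 1833472249) (nat_lit 151) (nat_lit 5) (nat_lit 155) (nat_lit 5) (nat_lit 156) (nat_lit 5) (nat_lit 447) (nat_lit 413) (nat_lit 340)) (XT.lf (nat_lit 0) (nat_lit 2882666245) (nat_lit 304) (nat_lit 2989112390) (nat_lit 380) (nat_lit 14546564217) (nat_lit 146) (nat_lit 5) (nat_lit 150) (nat_lit 5) (nat_lit 151) (nat_lit 5) (nat_lit 448) (nat_lit 413) (nat_lit 339)))) (XT.nd (nat_lit 156) (nat_lit 456) (nat_lit 0) (XT.nd (nat_lit 78) (nat_lit 380) (nat_lit 0) (XT.lf (nat_lit 0) (nat_lit 3042112587) (nat_lit 228) (nat_lit 11150346057) (nat_lit 304) (nat_lit 6847912529) (nat_lit 143) (nat_lit 5) (nat_lit 146) (nat_lit 5) (nat_lit 147) (nat_lit 5) (nat_lit 449) (nat_lit 413) (nat_lit 338)) (XT.lf (nat_lit 0) (nat_lit 1440565503) (nat_lit 380) (nat_lit 18409220138) (nat_lit 76) (nat_lit 1836491063) (nat_lit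 138) (nat_lit 5) (nat_lit 143) (nat_lit 5) (nat_lit 139) (nat_lit 5) (nat_lit 450) (nat_lit 413) (nat_lit 337))) (XT.nd (nat_lit 78) (nat_lit 228) (nat_lit 0) (XT.lf (nat_lit 0) (nat_lit 3466153522) (nat_lit 228) (nat_lit 6837743458) (nat_lit 304) (nat_lit 12049487064) (nat_lit 135) (nat_lit 5) (nat_lit 138) (nat_lit 5) (nat_lit 139) (nat_lit 5) (nat_lit 451) (nat_lit 413) (nat_lit 336)) (XT.lf (nat_lit 0) (nat_lit 3726463837) (nat_lit 228) (nat_lit 16145382521) (nat_lit 304) (nat_lit 3174158958) (nat_lit 132) (nat_lit 5) (nat_lit 135) (nat_lit 5) (nat_lit 136) (nat_lit 5) (nat_lit 452) (nat_lit 413) (nat_lit 335))))))) (XT.nd (nat_lit 1014) (nat_lit 1976) (nat_lit 0) (XT.nd (nat_lit 468) (nat_lit 1368) (nat_lit 0) (XT.nd (nat_lit 234) (nat_lit 684) (nat_lit 0) (XT.nd (nat_lit 78) (nat_lit 532) (nat_lit 0) (XT.lf (nat_lit 0) (nat_lit 3996313712) (nat_lit 228) (nat_lit 2301854996) (nat_lit 304)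 (nat_lit 17465124534) (nat_lit 128) (nat_lit 5) (nat_lit 131) (nat_lit 5) (nat_lit 132) (nat_lit 5) (nat_lit 453) (nat_lit 413) (nat_lit 334)) (XT.nd (nat_lit 78) (nat_lit 304) (nat_lit 0) (XT.lf (nat_lit 0) (nat_lit 4253549718) (nat_lit 228) (nat_lit 12255035715) (nat_lit 304) (nat_lit 7997015592) (nat_lit 125) (nat_lit 5) (nat_lit 128) (nat_lit 5) (nat_lit 129) (nat_lit 5) (nat_lit 454) (nat_lit 413) (nat_lit 333)) (XT.lf (nat_lit 0) (nat_lit 2174035334) (nat_lit 304) (nat_lit 20693772666) (nat_lit 76) (nat_lit 2408632738) (nat_lit 121) (nat_lit 5) (nat_lit 125) (nat_lit 5) (nat_lit 122) (nat_lit 5) (nat_lit 455) (nat_lit 413) (nat_lit 332)))) (XT.nd (nat_lit 78) (nat_lit 456) (nat_lit 0) (XT.lf (nat_lit 0) (nat_lit 4843287765) (nat_lit 228) (nat_lit 8198897428) (nat_lit 304) (nat_lit 13030645417) (nat_lit 118) (nat_lit 5) (nat_lit 121) (nat_lit 5) (nat_lit 122) (nat_lit 5) (nat_lit 456) (nat_lit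 413) (nat_lit 331)) (XT.nd (nat_lit 78) (nat_lit 304) (nat_lit 0) (XT.lf (nat_lit 0) (nat_lit 5169720124) (nat_lit 152) (nat_lit 19590431832) (nat_lit 228) (nat_lit 2139697291) (nat_lit 116) (nat_lit 5) (nat_lit 118) (nat_lit 5) (nat_lit 119) (nat_lit 5) (nat_lit 457) (nat_lit 413) (nat_lit 330)) (XT.lf (nat_lit 0) (nat_lit 5457137092) (nat_lit 228) (nat_lit 3986131860) (nat_lit 304) (nat_lit 18312404639) (nat_lit 112) (nat_lit 5) (nat_lit 115) (nat_lit 5) (nat_lit 116) (nat_lit 5) (nat_lit 458) (nat_lit 413) (nat_lit 329))))) (XT.nd (nat_lit 234) (nat_lit 760) (nat_lit 0) (XT.nd (nat_lit 78) (nat_lit 456) (nat_lit 0) (XT.lf (nat_lit 0) (nat_lit 5733894140) (nat_lit 152) (nat_lit 16201486445) (nat_lit 228) (nat_lit 6707046905) (nat_lit 110) (nat_lit 5) (nat_lit 112) (nat_lit 5) (nat_lit 113) (nat_lit 5) (nat_lit 459) (nat_lit 413) (nat_lit 328)) (XT.nd (nat_lit 78) (nat_lit 152) (nat_lit 0) (XT.lf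 (nat_lit 0) (nat_lit 5679598275) (nat_lit 304) (nat_lit 23520775187) (nat_lit 76) (nat_lit 362329191) (nat_lit 106) (nat_lit 5) (nat_lit 110) (nat_lit 5) (nat_lit 107) (nat_lit 5) (nat_lit 460) (nat_lit 413) (nat_lit 327)) (XT.lf (nat_lit 0) (nat_lit 6241143852) (nat_lit 152) (nat_lit 12743534401) (nat_lit 228) (nat_lit 11529187900) (nat_lit 104) (nat_lit 5) (nat_lit 106) (nat_lit 5) (nat_lit 107) (nat_lit 5) (nat_lit 461) (nat_lit 413) (nat_lit 326)))) (XT.nd (nat_lit 156) (nat_lit 380) (nat_lit 0) (XT.nd (nat_lit 78) (nat_lit 152) (nat_lit 0) (XT.lf (nat_lit 0) (nat_lit 1743725054) (nat_lit 228) (nat_lit 25004515029) (nat_lit 76) (nat_lit 4754049468) (nat_lit 101) (nat_lit 5) (nat_lit 104) (nat_lit 5) (nat_lit 102) (nat_lit 5) (nat_lit 462) (nat_lit 413) (nat_lit 325)) (XT.lf (nat_lit 0) (nat_lit 6620769763) (nat_lit 152) (nat_lit 9243887158) (nat_lit 228) (nat_lit 16659369314) (nat_lit 99) (nat_lit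 5) (nat_lit 101) (nat_lit 5) (nat_lit 102) (nat_lit 5) (nat_lit 463) (nat_lit 413) (nat_lit 324))) (XT.nd (nat_lit 78) (nat_lit 228) (nat_lit 0) (XT.lf (nat_lit 0) (nat_lit 6760608769) (nat_lit 152) (nat_lit 24320346878) (nat_lit 228) (nat_lit 2504215507) (nat_lit 97) (nat_lit 5) (nat_lit 99) (nat_lit 5) (nat_lit 100) (nat_lit 5) (nat_lit 464) (nat_lit 413) (nat_lit 323)) (XT.lf (nat_lit 0) (nat_lit 6784317846) (nat_lit 152) (nat_lit 5738091104) (nat_lit 228) (nat_lit 22161255055) (nat_lit 94) (nat_lit 5) (nat_lit 96) (nat_lit 5) (nat_lit 97) (nat_lit 5) (nat_lit 465) (nat_lit 413) (nat_lit 322)))))) (XT.nd (nat_lit 468) (nat_lit 912) (nat_lit 0) (XT.nd (nat_lit 234) (nat_lit 532) (nat_lit 0) (XT.nd (nat_lit 78) (nat_lit 380) (nat_lit 0) (XT.lf (nat_lit 0) (nat_lit 6736189887) (nat_lit 152) (nat_lit 21966493840) (nat_lit 228) (nat_lit 7120031533) (nat_lit 92) (nat_lit 5) (nat_lit 94) (nat_lit 5)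 (nat_lit 95) (nat_lit 5) (nat_lit 466) (nat_lit 413) (nat_lit 321)) (XT.nd (nat_lit 78) (nat_lit 152) (nat_lit 0) (XT.lf (nat_lit 0) (nat_lit 6621967288) (nat_lit 152) (nat_lit 2271737133) (nat_lit 228) (nat_lit 28110823371) (nat_lit 89) (nat_lit 5) (nat_lit 91) (nat_lit 5) (nat_lit 92) (nat_lit 5) (nat_lit 467) (nat_lit 413) (nat_lit 320)) (XT.lf (nat_lit 0) (nat_lit 6319935580) (nat_lit 152) (nat_lit 19760983784) (nat_lit 228) (nat_lit 12146796151) (nat_lit 87) (nat_lit 5) (nat_lit 89) (nat_lit 5) (nat_lit 90) (nat_lit 5) (nat_lit 468) (nat_lit 413) (nat_lit 319)))) (XT.nd (nat_lit 78) (nat_lit 304) (nat_lit 0) (XT.lf (nat_lit 0) (nat_lit 4911408420) (nat_lit 228) (nat_lit 33511754504) (nat_lit 76) (nat_lit 1075988241) (nat_lit 84) (nat_lit 5) (nat_lit 87) (nat_lit 5) (nat_lit 85) (nat_lit 5) (nat_lit 469) (nat_lit 413) (nat_lit 318)) (XT.nd (nat_lit 78) (nat_lit 152) (nat_lit 0) (XT.lf (nat_lit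 0) (nat_lit 5361594142) (nat_lit 152) (nat_lit 17774280401) (nat_lit 228) (nat_lit 17677739816) (nat_lit 82) (nat_lit 5) (nat_lit 84) (nat_lit 5) (nat_lit 85) (nat_lit 5) (nat_lit 470) (nat_lit 413) (nat_lit 317)) (XT.lf (nat_lit 0) (nat_lit 491523044) (nat_lit 152) (nat_lit 37476793257) (nat_lit 76) (nat_lit 4213004307) (nat_lit 80) (nat_lit 5) (nat_lit 82) (nat_lit 5) (nat_lit 81) (nat_lit 5) (nat_lit 471) (nat_lit 413) (nat_lit 316))))) (XT.nd (nat_lit 234) (nat_lit 456) (nat_lit 0) (XT.nd (nat_lit 78) (nat_lit 304) (nat_lit 0) (XT.lf (nat_lit 0) (nat_lit 3677376413) (nat_lit 152) (nat_lit 16093383630) (nat_lit 228) (nat_lit 23824388507) (nat_lit 78) (nat_lit 5) (nat_lit 80) (nat_lit 5) (nat_lit 81) (nat_lit 5) (nat_lit 472) (nat_lit 413) (nat_lit 315)) (XT.nd (nat_lit 78) (nat_lit 228) (nat_lit 0) (XT.lf (nat_lit 0) (nat_lit 2548535618) (nat_lit 76) (nat_lit 37926465661) (nat_lit 152) (nat_lit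 4590835920) (nat_lit 77) (nat_lit 5) (nat_lit 78) (nat_lit 5) (nat_lit 79) (nat_lit 4) (nat_lit 473) (nat_lit 413) (nat_lit 314)) (XT.lf (nat_lit 0) (nat_lit 1043495748) (nat_lit 152) (nat_lit 14825092311) (nat_lit 228) (nat_lit 30719912036) (nat_lit 74) (nat_lit 5) (nat_lit 76) (nat_lit 5) (nat_lit 77) (nat_lit 5) (nat_lit 474) (nat_lit 413) (nat_lit 313)))) (XT.nd (nat_lit 156) (nat_lit 304) (nat_lit 0) (XT.nd (nat_lit 78) (nat_lit 152) (nat_lit 0) (XT.lf (nat_lit 0) (nat_lit 37771247059) (nat_lit 228) (nat_lit 679023680) (nat_lit 76) (nat_lit 9720206010) (nat_lit 74) (nat_lit 5) (nat_lit 77) (nat_lit 5) (nat_lit 75) (nat_lit 4) (nat_lit 475) (nat_lit 413) (nat_lit 312)) (XT.lf (nat_lit 0) (nat_lit 11315427277) (nat_lit 152) (nat_lit 2756586235) (nat_lit 76) (nat_lit 35738643954) (nat_lit 72) (nat_lit 5) (nat_lit 74) (nat_lit 5) (nat_lit 73) (nat_lit 5) (nat_lit 476) (nat_lit 413) (nat_lit 311)))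 (XT.nd (nat_lit 78) (nat_lit 152) (nat_lit 0) (XT.lf (nat_lit 0) (nat_lit 34455117932) (nat_lit 228) (nat_lit 5208654445) (nat_lit 76) (nat_lit 11849355225) (nat_lit 70) (nat_lit 5) (nat_lit 73) (nat_lit 5) (nat_lit 71) (nat_lit 4) (nat_lit 477) (nat_lit 413) (nat_lit 310)) (XT.lf (nat_lit 0) (nat_lit 5939805638) (nat_lit 152) (nat_lit 8055126974) (nat_lit 76) (nat_lit 39286363962) (nat_lit 68) (nat_lit 5) (nat_lit 70) (nat_lit 5) (nat_lit 69) (nat_lit 5) (nat_lit 478) (nat_lit 413) (nat_lit 309))))))))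
noncomputable def xc72 : XT := (XT.nd (nat_lit 58032) (nat_lit 0) (nat_lit 8588) (XT.nd (nat_lit 936) (nat_lit 532) (nat_lit 0) (XT.nd (nat_lit 468) (nat_lit 608) (nat_lit 0) (XT.nd (nat_lit 234) (nat_lit 380) (nat_lit 0) (XT.nd (nat_lit 78) (nat_lit 304) (nat_lit 0) (XT.lf (nat_lit 0) (nat_lit 30327676262) (nat_lit 228) (nat_lit 11443307546) (nat_lit 76) (nat_lit 13344035337) (nat_lit 66) (nat_lit 5) (nat_lit 69) (nat_lit 5) (nat_lit 67) (nat_lit 4) (nat_lit 479) (nat_lit 413) (nat_lit 308)) (XT.nd (nat_lit 78) (nat_lit 228) (nat_lit 0) (XT.lf (nat_lit 0) (nat_lit 41757618218) (nat_lit 76) (nat_lit 14787676065) (nat_lit 152) (nat_lit 476823322) (nat_lit 65) (nat_lit 5) (nat_lit 66) (nat_lit 5) (nat_lit 67) (nat_lit 4) (nat_lit 480) (nat_lit 413) (nat_lit 307)) (XT.lf (nat_lit 0) (nat_lit 25179127565) (nat_lit 228) (nat_lit 19807900817) (nat_lit 76) (nat_lit 14011758122) (nat_lit 62) (nat_lit 5)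 (nat_lit 65) (nat_lit 5) (nat_lit 63) (nat_lit 4) (nat_lit 481) (nat_lit 413) (nat_lit 306)))) (XT.nd (nat_lit 78) (nat_lit 304) (nat_lit 0) (XT.lf (nat_lit 0) (nat_lit 36138681587) (nat_lit 76) (nat_lit 16609378638) (nat_lit 152) (nat_lit 8306885956) (nat_lit 61) (nat_lit 5) (nat_lit 62) (nat_lit 5) (nat_lit 63) (nat_lit 4) (nat_lit 482) (nat_lit 413) (nat_lit 305)) (XT.nd (nat_lit 78) (nat_lit 76) (nat_lit 0) (XT.lf (nat_lit 0) (nat_lit 18757814447) (nat_lit 228) (nat_lit 30812275228) (nat_lit 76) (nat_lit 13619386903) (nat_lit 58) (nat_lit 5) (nat_lit 61) (nat_lit 5) (nat_lit 59) (nat_lit 4) (nat_lit 483) (nat_lit 413) (nat_lit 304)) (XT.lf (nat_lit 0) (nat_lit 27895002225) (nat_lit 76) (nat_lit 19790613925) (nat_lit 152) (nat_lit 17722200284) (nat_lit 57) (nat_lit 5) (nat_lit 58) (nat_lit 5) (nat_lit 59) (nat_lit 4) (nat_lit 484) (nat_lit 413) (nat_lit 303))))) (XT.nd (nat_lit 234) (nat_lit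 228) (nat_lit 0) (XT.nd (nat_lit 78) (nat_lit 228) (nat_lit 0) (XT.lf (nat_lit 0) (nat_lit 10762560648) (nat_lit 152) (nat_lit 45066748524) (nat_lit 76) (nat_lit 11885549736) (nat_lit 55) (nat_lit 5) (nat_lit 57) (nat_lit 5) (nat_lit 56) (nat_lit 4) (nat_lit 485) (nat_lit 413) (nat_lit 302)) (XT.nd (nat_lit 78) (nat_lit 152) (nat_lit 0) (XT.lf (nat_lit 0) (nat_lit 16385347066) (nat_lit 76) (nat_lit 24656192039) (nat_lit 152) (nat_lit 29068355583) (nat_lit 54) (nat_lit 5) (nat_lit 55) (nat_lit 5) (nat_lit 56) (nat_lit 4) (nat_lit 486) (nat_lit 413) (nat_lit 301)) (XT.lf (nat_lit 0) (nat_lit 833669156) (nat_lit 152) (nat_lit 63300399520) (nat_lit 76) (nat_lit 8471713966) (nat_lit 52) (nat_lit 5) (nat_lit 54) (nat_lit 5) (nat_lit 53) (nat_lit 4) (nat_lit 487) (nat_lit 413) (nat_lit 300)))) (XT.nd (nat_lit 78) (nat_lit 152) (nat_lit 0) (XT.lf (nat_lit 0) (nat_lit 842050743) (nat_lit 76) (nat_lit 31595057801)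 (nat_lit 152) (nat_lit 42756497762) (nat_lit 51) (nat_lit 5) (nat_lit 52) (nat_lit 5) (nat_lit 53) (nat_lit 4) (nat_lit 488) (nat_lit 413) (nat_lit 299)) (XT.nd (nat_lit 78) (nat_lit 152) (nat_lit 0) (XT.lf (nat_lit 0) (nat_lit 66290214286) (nat_lit 152) (nat_lit 8433817237) (nat_lit 0) (nat_lit 3166705015) (nat_lit 51) (nat_lit 5) (nat_lit 53) (nat_lit 4) (nat_lit 51) (nat_lit 4) (nat_lit 489) (nat_lit 413) (nat_lit 298)) (XT.lf (nat_lit 0) (nat_lit 21608905296) (nat_lit 152) (nat_lit 19268467068) (nat_lit 76) (nat_lit 39812033047) (nat_lit 49) (nat_lit 5) (nat_lit 51) (nat_lit 5) (nat_lit 50) (nat_lit 4) (nat_lit 490) (nat_lit 413) (nat_lit 297)))))) (XT.nd (nat_lit 56550) (nat_lit 0) (nat_lit 20748) (XT.nd (nat_lit 234) (nat_lit 228) (nat_lit 0) (XT.nd (nat_lit 78) (nat_lit 228) (nat_lit 0) (XT.lf (nat_lit 0) (nat_lit 52195740766) (nat_lit 76) (nat_lit 4622385161) (nat_lit 152) (nat_lit 26789059141)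 (nat_lit 48) (nat_lit 5) (nat_lit 49) (nat_lit 5) (nat_lit 50) (nat_lit 4) (nat_lit 491) (nat_lit 413) (nat_lit 296)) (XT.nd (nat_lit 78) (nat_lit 76) (nat_lit 0) (XT.lf (nat_lit 0) (nat_lit 7894999745) (nat_lit 152) (nat_lit 45288747056) (nat_lit 76) (nat_lit 33457547009) (nat_lit 46) (nat_lit 5) (nat_lit 48) (nat_lit 5) (nat_lit 47) (nat_lit 4) (nat_lit 492) (nat_lit 413) (nat_lit 295)) (XT.lf (nat_lit 0) (nat_lit 28812497722) (nat_lit 76) (nat_lit 15590137512) (nat_lit 152) (nat_lit 45397213402) (nat_lit 45) (nat_lit 5) (nat_lit 46) (nat_lit 5) (nat_lit 47) (nat_lit 4) (nat_lit 493) (nat_lit 413) (nat_lit 294)))) (XT.nd (nat_lit 156) (nat_lit 152) (nat_lit 0) (XT.lf (nat_lit 0) (nat_lit 14488585341) (nat_lit 76) (nat_lit 69075077297) (nat_lit 76) (nat_lit 9527828420) (nat_lit 44) (nat_lit 4) (nat_lit 45) (nat_lit 5) (nat_lit 45) (nat_lit 4) (nat_lit 494) (nat_lit 413) (nat_lit 293)) (XT.nd (nat_lit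 56082) (nat_lit 0) (nat_lit 22648) (XT.lf (nat_lit 0) (nat_lit 68824478544) (nat_lit 152) (nat_lit 20262664279) (nat_lit 0) (nat_lit 10996166558) (nat_lit 42) (nat_lit 5) (nat_lit 44) (nat_lit 4) (nat_lit 42) (nat_lit 4) (nat_lit 496) (nat_lit 413) (nat_lit 291)) (XT.lf (nat_lit 0) (nat_lit 1720266742) (nat_lit 0) (nat_lit 1720266742) (nat_lit 988) (nat_lit 917824596) (nat_lit 340) (nat_lit 5) (nat_lit 340) (nat_lit 3) (nat_lit 353) (nat_lit 3) (nat_lit 414) (nat_lit 414) (nat_lit 372))))) (XT.nd (nat_lit 234) (nat_lit 836) (nat_lit 0) (XT.nd (nat_lit 78) (nat_lit 1064) (nat_lit 0) (XT.lf (nat_lit 76) (nat_lit 1928701302) (nat_lit 0) (nat_lit 6752126808) (nat_lit 1064) (nat_lit 204722803) (nat_lit 341) (nat_lit 5) (nat_lit 340) (nat_lit 5) (nat_lit 354) (nat_lit 5) (nat_lit 415) (nat_lit 414) (nat_lit 371)) (XT.nd (nat_lit 78) (nat_lit 0) (nat_lit 76) (XT.lf (nat_lit 76) (nat_lit 444261031) (nat_lit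 0) (nat_lit 1025166453) (nat_lit 1140) (nat_lit 7593247748) (nat_lit 327) (nat_lit 5) (nat_lit 326) (nat_lit 5) (nat_lit 341) (nat_lit 5) (nat_lit 416) (nat_lit 414) (nat_lit 370)) (XT.lf (nat_lit 0) (nat_lit 3245378709) (nat_lit 1064) (nat_lit 995691734) (nat_lit 1140) (nat_lit 5006869556) (nat_lit 327) (nat_lit 5) (nat_lit 341) (nat_lit 5) (nat_lit 342) (nat_lit 5) (nat_lit 417) (nat_lit 414) (nat_lit 369)))) (XT.nd (nat_lit 156) (nat_lit 988) (nat_lit 0) (XT.nd (nat_lit 78) (nat_lit 0) (nat_lit 0) (XT.lf (nat_lit 0) (nat_lit 5114283142) (nat_lit 1064) (nat_lit 2382480290) (nat_lit 1140) (nat_lit 1945594058) (nat_lit 328) (nat_lit 5) (nat_lit 342) (nat_lit 5) (nat_lit 343) (nat_lit 5) (nat_lit 418) (nat_lit 414) (nat_lit 368)) (XT.lf (nat_lit 76) (nat_lit 5907356691) (nat_lit 0) (nat_lit 1190148981) (nat_lit 1140) (nat_lit 2548377479) (nat_lit 329) (nat_lit 5) (nat_lit 328) (nat_lit 5) (nat_lit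 343) (nat_lit 5) (nat_lit 419) (nat_lit 414) (nat_lit 367))) (XT.nd (nat_lit 78) (nat_lit 1064) (nat_lit 0) (XT.lf (nat_lit 76) (nat_lit 4784480167) (nat_lit 0) (nat_lit 4433294641) (nat_lit 1140) (nat_lit 640686562) (nat_lit 330) (nat_lit 5) (nat_lit 329) (nat_lit 5) (nat_lit 344) (nat_lit 5) (nat_lit 420) (nat_lit 414) (nat_lit 366)) (XT.lf (nat_lit 0) (nat_lit 1362898554) (nat_lit 1140) (nat_lit 6384704879) (nat_lit 1216) (nat_lit 2332871212) (nat_lit 315) (nat_lit 5) (nat_lit 330) (nat_lit 5) (nat_lit 331) (nat_lit 5) (nat_lit 421) (nat_lit 414) (nat_lit 365))))))) (XT.nd (nat_lit 1014) (nat_lit 5168) (nat_lit 0) (XT.nd (nat_lit 468) (nat_lit 3952) (nat_lit 0) (XT.nd (nat_lit 234) (nat_lit 2052) (nat_lit 0) (XT.nd (nat_lit 78) (nat_lit 988) (nat_lit 0) (XT.lf (nat_lit 76) (nat_lit 2637854235) (nat_lit 0) (nat_lit 859708438) (nat_lit 1216) (nat_lit 6814522411) (nat_lit 316) (nat_lit 5) (nat_lit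 315) (nat_lit 5) (nat_lit 331) (nat_lit 5) (nat_lit 422) (nat_lit 414) (nat_lit 364)) (XT.nd (nat_lit 78) (nat_lit 1064) (nat_lit 0) (XT.lf (nat_lit 76) (nat_lit 1600341303) (nat_lit 0) (nat_lit 4206171486) (nat_lit 1216) (nat_lit 4746747441) (nat_lit 317) (nat_lit 5) (nat_lit 316) (nat_lit 5) (nat_lit 332) (nat_lit 5) (nat_lit 423) (nat_lit 414) (nat_lit 363)) (XT.lf (nat_lit 0) (nat_lit 606427165) (nat_lit 1140) (nat_lit 7676086106) (nat_lit 1216) (nat_lit 2522443031) (nat_lit 302) (nat_lit 5) (nat_lit 317) (nat_lit 5) (nat_lit 318) (nat_lit 5) (nat_lit 424) (nat_lit 414) (nat_lit 362)))) (XT.nd (nat_lit 78) (nat_lit 2052) (nat_lit 0) (XT.lf (nat_lit 0) (nat_lit 10728072992) (nat_lit 1140) (nat_lit 219006448) (nat_lit 1216) (nat_lit 120224534) (nat_lit 302) (nat_lit 5) (nat_lit 317) (nat_lit 5) (nat_lit 318) (nat_lit 5) (nat_lit 425) (nat_lit 414) (nat_lit 361)) (XT.nd (nat_lit 78) (nat_lit 760)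 (nat_lit 0) (XT.lf (nat_lit 0) (nat_lit 2460250035) (nat_lit 1292) (nat_lit 1285964379) (nat_lit 76) (nat_lit 7592720367) (nat_lit 285) (nat_lit 5) (nat_lit 302) (nat_lit 5) (nat_lit 286) (nat_lit 5) (nat_lit 426) (nat_lit 414) (nat_lit 360)) (XT.lf (nat_lit 0) (nat_lit 5241039189) (nat_lit 836) (nat_lit 2193324462) (nat_lit 76) (nat_lit 4187543048) (nat_lit 275) (nat_lit 5) (nat_lit 286) (nat_lit 5) (nat_lit 276) (nat_lit 5) (nat_lit 427) (nat_lit 414) (nat_lit 359))))) (XT.nd (nat_lit 234) (nat_lit 2128) (nat_lit 0) (XT.nd (nat_lit 78) (nat_lit 1216) (nat_lit 0) (XT.lf (nat_lit 0) (nat_lit 8241762622) (nat_lit 684) (nat_lit 3059251770) (nat_lit 76) (nat_lit 615594170) (nat_lit 267) (nat_lit 5) (nat_lit 276) (nat_lit 5) (nat_lit 268) (nat_lit 5) (nat_lit 428) (nat_lit 414) (nat_lit 358)) (XT.nd (nat_lit 78) (nat_lit 608) (nat_lit 0) (XT.lf (nat_lit 0) (nat_lit 8309251687) (nat_lit 608) (nat_lit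 3201864878) (nat_lit 684) (nat_lit 711378922) (nat_lit 259) (nat_lit 5) (nat_lit 267) (nat_lit 5) (nat_lit 268) (nat_lit 5) (nat_lit 429) (nat_lit 414) (nat_lit 357)) (XT.lf (nat_lit 0) (nat_lit 2455409412) (nat_lit 608) (nat_lit 4754931529) (nat_lit 76) (nat_lit 5329591278) (nat_lit 251) (nat_lit 5) (nat_lit 259) (nat_lit 5) (nat_lit 252) (nat_lit 5) (nat_lit 430) (nat_lit 414) (nat_lit 356)))) (XT.nd (nat_lit 156) (nat_lit 1064) (nat_lit 0) (XT.nd (nat_lit 78) (nat_lit 532) (nat_lit 0) (XT.lf (nat_lit 0) (nat_lit 5868228391) (nat_lit 608) (nat_lit 5561730415) (nat_lit 76) (nat_lit 1440005439) (nat_lit 244) (nat_lit 5) (nat_lit 252) (nat_lit 5) (nat_lit 245) (nat_lit 5) (nat_lit 431) (nat_lit 414) (nat_lit 355)) (XT.lf (nat_lit 0) (nat_lit 6861498085) (nat_lit 532) (nat_lit 2725170153) (nat_lit 608) (nat_lit 3625786782) (nat_lit 237) (nat_lit 5) (nat_lit 244) (nat_lit 5) (nat_lit 245) (nat_lit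 5) (nat_lit 432) (nat_lit 414) (nat_lit 354))) (XT.nd (nat_lit 78) (nat_lit 456) (nat_lit 0) (XT.lf (nat_lit 0) (nat_lit 52139979) (nat_lit 608) (nat_lit 7110992184) (nat_lit 76) (nat_lit 6405019625) (nat_lit 229) (nat_lit 5) (nat_lit 237) (nat_lit 5) (nat_lit 230) (nat_lit 5) (nat_lit 433) (nat_lit 414) (nat_lit 353)) (XT.lf (nat_lit 0) (nat_lit 3962664781) (nat_lit 532) (nat_lit 7862443640) (nat_lit 76) (nat_lit 2111743111) (nat_lit 223) (nat_lit 5) (nat_lit 230) (nat_lit 5) (nat_lit 224) (nat_lit 5) (nat_lit 434) (nat_lit 414) (nat_lit 352)))))) (XT.nd (nat_lit 468) (nat_lit 2432) (nat_lit 0) (XT.nd (nat_lit 234) (nat_lit 1292) (nat_lit 0) (XT.nd (nat_lit 78) (nat_lit 988) (nat_lit 0) (XT.lf (nat_lit 0) (nat_lit 5727702815) (nat_lit 456) (nat_lit 2494224768) (nat_lit 532) (nat_lit 6097467815) (nat_lit 217) (nat_lit 5) (nat_lit 223) (nat_lit 5) (nat_lit 224) (nat_lit 5) (nat_lit 435) (nat_lit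 414) (nat_lit 351)) (XT.nd (nat_lit 78) (nat_lit 532) (nat_lit 0) (XT.lf (nat_lit 0) (nat_lit 5421198732) (nat_lit 456) (nat_lit 7430607251) (nat_lit 532) (nat_lit 1864536128) (nat_lit 211) (nat_lit 5) (nat_lit 217) (nat_lit 5) (nat_lit 218) (nat_lit 5) (nat_lit 436) (nat_lit 414) (nat_lit 350)) (XT.lf (nat_lit 0) (nat_lit 2673111694) (nat_lit 532) (nat_lit 9975037832) (nat_lit 76) (nat_lit 2479944973) (nat_lit 204) (nat_lit 5) (nat_lit 211) (nat_lit 5) (nat_lit 205) (nat_lit 5) (nat_lit 437) (nat_lit 414) (nat_lit 349)))) (XT.nd (nat_lit 78) (nat_lit 912) (nat_lit 0) (XT.lf (nat_lit 0) (nat_lit 4905817522) (nat_lit 380) (nat_lit 2668769247) (nat_lit 456) (nat_lit 7980033326) (nat_lit 199) (nat_lit 5) (nat_lit 204) (nat_lit 5) (nat_lit 205) (nat_lit 5) (nat_lit 438) (nat_lit 414) (nat_lit 348)) (XT.nd (nat_lit 78) (nat_lit 456) (nat_lit 0) (XT.lf (nat_lit 0) (nat_lit 4700353198) (nat_lit 456) (nat_lit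 8202541397) (nat_lit 532) (nat_lit 3094128989) (nat_lit 193) (nat_lit 5) (nat_lit 199) (nat_lit 5) (nat_lit 200) (nat_lit 5) (nat_lit 439) (nat_lit 414) (nat_lit 347)) (XT.lf (nat_lit 0) (nat_lit 2160164735) (nat_lit 456) (nat_lit 11911632668) (nat_lit 76) (nat_lit 2384251982) (nat_lit 187) (nat_lit 5) (nat_lit 193) (nat_lit 5) (nat_lit 188) (nat_lit 5) (nat_lit 440) (nat_lit 414) (nat_lit 346))))) (XT.nd (nat_lit 234) (nat_lit 1292) (nat_lit 0) (XT.nd (nat_lit 78) (nat_lit 760) (nat_lit 0) (XT.lf (nat_lit 0) (nat_lit 4395886706) (nat_lit 380) (nat_lit 3420594654) (nat_lit 456) (nat_lit 9114530941) (nat_lit 182) (nat_lit 5) (nat_lit 187) (nat_lit 5) (nat_lit 188) (nat_lit 5) (nat_lit 441) (nat_lit 414) (nat_lit 345)) (XT.nd (nat_lit 78) (nat_lit 456) (nat_lit 0) (XT.lf (nat_lit 0) (nat_lit 4296365966) (nat_lit 304) (nat_lit 9660481727) (nat_lit 380) (nat_lit 3466842329) (nat_lit 178) (nat_lit 5)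 (nat_lit 182) (nat_lit 5) (nat_lit 183) (nat_lit 5) (nat_lit 442) (nat_lit 414) (nat_lit 344)) (XT.lf (nat_lit 0) (nat_lit 2599617825) (nat_lit 456) (nat_lit 13685923535) (nat_lit 76) (nat_lit 1649219717) (nat_lit 172) (nat_lit 5) (nat_lit 178) (nat_lit 5) (nat_lit 173) (nat_lit 5) (nat_lit 443) (nat_lit 414) (nat_lit 343)))) (XT.nd (nat_lit 156) (nat_lit 684) (nat_lit 0) (XT.nd (nat_lit 78) (nat_lit 304) (nat_lit 0) (XT.lf (nat_lit 0) (nat_lit 4196903491) (nat_lit 304) (nat_lit 4939383512) (nat_lit 380) (nat_lit 9326914596) (nat_lit 168) (nat_lit 5) (nat_lit 172) (nat_lit 5) (nat_lit 173) (nat_lit 5) (nat_lit 444) (nat_lit 414) (nat_lit 342)) (XT.lf (nat_lit 0) (nat_lit 4208338414) (nat_lit 304) (nat_lit 12005922160) (nat_lit 380) (nat_lit 2797372527) (nat_lit 164) (nat_lit 5) (nat_lit 168) (nat_lit 5) (nat_lit 169) (nat_lit 5) (nat_lit 445) (nat_lit 414) (nat_lit 341))) (XT.nd (nat_lit 78) (nat_lit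 304) (nat_lit 0) (XT.lf (nat_lit 0) (nat_lit 4184931671) (nat_lit 380) (nat_lit 15316903512) (nat_lit 76) (nat_lit 78318903) (nat_lit 159) (nat_lit 5) (nat_lit 164) (nat_lit 5) (nat_lit 160) (nat_lit 5) (nat_lit 446) (nat_lit 414) (nat_lit 340)) (XT.lf (nat_lit 0) (nat_lit 4302992921) (nat_lit 304) (nat_lit 7439054421) (nat_lit 380) (nat_lit 8425719086) (nat_lit 155) (nat_lit 5) (nat_lit 159) (nat_lit 5) (nat_lit 160) (nat_lit 5) (nat_lit 447) (nat_lit 414) (nat_lit 339))))))))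
noncomputable def xc73 : XT := (XT.nd (nat_lit 1950) (nat_lit 2812) (nat_lit 0) (XT.nd (nat_lit 936) (nat_lit 2432) (nat_lit 0) (XT.nd (nat_lit 468) (nat_lit 1520) (nat_lit 0) (XT.nd (nat_lit 234) (nat_lit 836) (nat_lit 0) (XT.nd (nat_lit 78) (nat_lit 608) (nat_lit 0) (XT.lf (nat_lit 0) (nat_lit 4429184451) (nat_lit 304) (nat_lit 15467433049) (nat_lit 380) (nat_lit 881556510) (nat_lit 151) (nat_lit 5) (nat_lit 155) (nat_lit 5) (nat_lit 156) (nat_lit 5) (nat_lit 448) (nat_lit 414) (nat_lit 338)) (XT.nd (nat_lit 78) (nat_lit 228) (nat_lit 0) (XT.lf (nat_lit 0) (nat_lit 4551008387) (nat_lit 304) (nat_lit 2603510964) (nat_lit 380) (nat_lit 14254992562) (nat_lit 146) (nat_lit 5) (nat_lit 150) (nat_lit 5) (nat_lit 151) (nat_lit 5) (nat_lit 449) (nat_lit 414) (nat_lit 337)) (XT.lf (nat_lit 0) (nat_lit 4698635401) (nat_lit 228) (nat_lit 11164855249) (nat_lit 304) (nat_lit 6199986783) (nat_lit 143) (nat_lit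 5) (nat_lit 146) (nat_lit 5) (nat_lit 147) (nat_lit 5) (nat_lit 450) (nat_lit 414) (nat_lit 336)))) (XT.nd (nat_lit 78) (nat_lit 456) (nat_lit 0) (XT.lf (nat_lit 0) (nat_lit 2456782199) (nat_lit 380) (nat_lit 17826518398) (nat_lit 76) (nat_lit 2458899542) (nat_lit 138) (nat_lit 5) (nat_lit 143) (nat_lit 5) (nat_lit 139) (nat_lit 5) (nat_lit 451) (nat_lit 414) (nat_lit 335)) (XT.nd (nat_lit 78) (nat_lit 228) (nat_lit 0) (XT.lf (nat_lit 0) (nat_lit 5099536088) (nat_lit 228) (nat_lit 6632817942) (nat_lit 304) (nat_lit 11711239685) (nat_lit 135) (nat_lit 5) (nat_lit 138) (nat_lit 5) (nat_lit 139) (nat_lit 5) (nat_lit 452) (nat_lit 414) (nat_lit 334)) (XT.lf (nat_lit 0) (nat_lit 5352575947) (nat_lit 228) (nat_lit 16401482383) (nat_lit 304) (nat_lit 2417529933) (nat_lit 132) (nat_lit 5) (nat_lit 135) (nat_lit 5) (nat_lit 136) (nat_lit 5) (nat_lit 453) (nat_lit 414) (nat_lit 333))))) (XT.nd (nat_lit 234)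 (nat_lit 684) (nat_lit 0) (XT.nd (nat_lit 78) (nat_lit 532) (nat_lit 0) (XT.lf (nat_lit 0) (nat_lit 5612051965) (nat_lit 228) (nat_lit 1869374418) (nat_lit 304) (nat_lit 17443926740) (nat_lit 128) (nat_lit 5) (nat_lit 131) (nat_lit 5) (nat_lit 132) (nat_lit 5) (nat_lit 454) (nat_lit 414) (nat_lit 332)) (XT.nd (nat_lit 78) (nat_lit 304) (nat_lit 0) (XT.lf (nat_lit 0) (nat_lit 5861806399) (nat_lit 228) (nat_lit 12317635705) (nat_lit 304) (nat_lit 7526024433) (nat_lit 125) (nat_lit 5) (nat_lit 128) (nat_lit 5) (nat_lit 129) (nat_lit 5) (nat_lit 455) (nat_lit 414) (nat_lit 331)) (XT.lf (nat_lit 0) (nat_lit 3114362164) (nat_lit 304) (nat_lit 20336738079) (nat_lit 76) (nat_lit 3064165959) (nat_lit 121) (nat_lit 5) (nat_lit 125) (nat_lit 5) (nat_lit 122) (nat_lit 5) (nat_lit 456) (nat_lit 414) (nat_lit 330)))) (XT.nd (nat_lit 78) (nat_lit 456) (nat_lit 0) (XT.lf (nat_lit 0) (nat_lit 6437281907) (nat_lit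 228) (nat_lit 8062031030) (nat_lit 304) (nat_lit 12852963105) (nat_lit 118) (nat_lit 5) (nat_lit 121) (nat_lit 5) (nat_lit 122) (nat_lit 5) (nat_lit 457) (nat_lit 414) (nat_lit 329)) (XT.nd (nat_lit 78) (nat_lit 304) (nat_lit 0) (XT.lf (nat_lit 0) (nat_lit 6759682863) (nat_lit 152) (nat_lit 20022965916) (nat_lit 228) (nat_lit 1438614880) (nat_lit 116) (nat_lit 5) (nat_lit 118) (nat_lit 5) (nat_lit 119) (nat_lit 5) (nat_lit 458) (nat_lit 414) (nat_lit 328)) (XT.lf (nat_lit 0) (nat_lit 7038661378) (nat_lit 228) (nat_lit 3643921185) (nat_lit 304) (nat_lit 18437820098) (nat_lit 112) (nat_lit 5) (nat_lit 115) (nat_lit 5) (nat_lit 116) (nat_lit 5) (nat_lit 459) (nat_lit 414) (nat_lit 327)))))) (XT.nd (nat_lit 468) (nat_lit 1292) (nat_lit 0) (XT.nd (nat_lit 234) (nat_lit 532) (nat_lit 0) (XT.nd (nat_lit 78) (nat_lit 456) (nat_lit 0) (XT.lf (nat_lit 0) (nat_lit 7309081160) (nat_lit 152) (nat_lit 16471030952)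 (nat_lit 228) (nat_lit 6271959680) (nat_lit 110) (nat_lit 5) (nat_lit 112) (nat_lit 5) (nat_lit 113) (nat_lit 5) (nat_lit 460) (nat_lit 414) (nat_lit 326)) (XT.nd (nat_lit 78) (nat_lit 152) (nat_lit 0) (XT.lf (nat_lit 0) (nat_lit 6700322300) (nat_lit 304) (nat_lit 23413772229) (nat_lit 76) (nat_lit 904605616) (nat_lit 106) (nat_lit 5) (nat_lit 110) (nat_lit 5) (nat_lit 107) (nat_lit 5) (nat_lit 461) (nat_lit 414) (nat_lit 325)) (XT.lf (nat_lit 0) (nat_lit 7799464628) (nat_lit 152) (nat_lit 12848088443) (nat_lit 228) (nat_lit 11370563526) (nat_lit 104) (nat_lit 5) (nat_lit 106) (nat_lit 5) (nat_lit 107) (nat_lit 5) (nat_lit 462) (nat_lit 414) (nat_lit 324)))) (XT.nd (nat_lit 78) (nat_lit 304) (nat_lit 0) (XT.lf (nat_lit 0) (nat_lit 2534159956) (nat_lit 228) (nat_lit 25014318890) (nat_lit 76) (nat_lit 5507796622) (nat_lit 101) (nat_lit 5) (nat_lit 104) (nat_lit 5) (nat_lit 102) (nat_lit 5) (nat_lit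 463) (nat_lit 414) (nat_lit 323)) (XT.nd (nat_lit 78) (nat_lit 152) (nat_lit 0) (XT.lf (nat_lit 0) (nat_lit 8156673697) (nat_lit 152) (nat_lit 9182558591) (nat_lit 228) (nat_lit 16790525362) (nat_lit 99) (nat_lit 5) (nat_lit 101) (nat_lit 5) (nat_lit 102) (nat_lit 5) (nat_lit 464) (nat_lit 414) (nat_lit 322)) (XT.lf (nat_lit 0) (nat_lit 8283962388) (nat_lit 152) (nat_lit 25016125516) (nat_lit 228) (nat_lit 1944361064) (nat_lit 97) (nat_lit 5) (nat_lit 99) (nat_lit 5) (nat_lit 100) (nat_lit 5) (nat_lit 465) (nat_lit 414) (nat_lit 321))))) (XT.nd (nat_lit 234) (nat_lit 684) (nat_lit 0) (XT.nd (nat_lit 78) (nat_lit 380) (nat_lit 0) (XT.lf (nat_lit 0) (nat_lit 8287891368) (nat_lit 152) (nat_lit 5511542099) (nat_lit 228) (nat_lit 22598860533) (nat_lit 94) (nat_lit 5) (nat_lit 96) (nat_lit 5) (nat_lit 97) (nat_lit 5) (nat_lit 466) (nat_lit 414) (nat_lit 320)) (XT.nd (nat_lit 78) (nat_lit 228) (nat_lit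 0) (XT.lf (nat_lit 0) (nat_lit 8218179500) (nat_lit 152) (nat_lit 22555255822) (nat_lit 228) (nat_lit 6821322337) (nat_lit 92) (nat_lit 5) (nat_lit 94) (nat_lit 5) (nat_lit 95) (nat_lit 5) (nat_lit 467) (nat_lit 414) (nat_lit 319)) (XT.lf (nat_lit 0) (nat_lit 8077852390) (nat_lit 152) (nat_lit 1882716064) (nat_lit 228) (nat_lit 28875497394) (nat_lit 89) (nat_lit 5) (nat_lit 91) (nat_lit 5) (nat_lit 92) (nat_lit 5) (nat_lit 468) (nat_lit 414) (nat_lit 318)))) (XT.nd (nat_lit 156) (nat_lit 304) (nat_lit 0) (XT.nd (nat_lit 78) (nat_lit 228) (nat_lit 0) (XT.lf (nat_lit 0) (nat_lit 7741937063) (nat_lit 152) (nat_lit 20250812421) (nat_lit 228) (nat_lit 12128096405) (nat_lit 87) (nat_lit 5) (nat_lit 89) (nat_lit 5) (nat_lit 90) (nat_lit 5) (nat_lit 469) (nat_lit 414) (nat_lit 317)) (XT.lf (nat_lit 0) (nat_lit 5756734799) (nat_lit 228) (nat_lit 34088004186) (nat_lit 76) (nat_lit 1611356831) (nat_lit 84)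 (nat_lit 5) (nat_lit 87) (nat_lit 5) (nat_lit 85) (nat_lit 5) (nat_lit 470) (nat_lit 414) (nat_lit 316))) (XT.nd (nat_lit 78) (nat_lit 152) (nat_lit 0) (XT.lf (nat_lit 0) (nat_lit 6697499587) (nat_lit 152) (nat_lit 18176629427) (nat_lit 228) (nat_lit 17962702976) (nat_lit 82) (nat_lit 5) (nat_lit 84) (nat_lit 5) (nat_lit 85) (nat_lit 5) (nat_lit 471) (nat_lit 414) (nat_lit 315)) (XT.lf (nat_lit 0) (nat_lit 1090058570) (nat_lit 152) (nat_lit 38289554175) (nat_lit 76) (nat_lit 4893537300) (nat_lit 80) (nat_lit 5) (nat_lit 82) (nat_lit 5) (nat_lit 81) (nat_lit 5) (nat_lit 472) (nat_lit 414) (nat_lit 314))))))) (XT.nd (nat_lit 1014) (nat_lit 1064) (nat_lit 0) (XT.nd (nat_lit 468) (nat_lit 988) (nat_lit 0) (XT.nd (nat_lit 234) (nat_lit 304) (nat_lit 0) (XT.nd (nat_lit 78) (nat_lit 304) (nat_lit 0) (XT.lf (nat_lit 0) (nat_lit 4891908370) (nat_lit 152) (nat_lit 16423925015) (nat_lit 228) (nat_lit 24442359569)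 (nat_lit 78) (nat_lit 5) (nat_lit 80) (nat_lit 5) (nat_lit 81) (nat_lit 5) (nat_lit 473) (nat_lit 414) (nat_lit 313)) (XT.nd (nat_lit 78) (nat_lit 228) (nat_lit 0) (XT.lf (nat_lit 0) (nat_lit 3688888768) (nat_lit 76) (nat_lit 39353973676) (nat_lit 152) (nat_lit 4259927125) (nat_lit 77) (nat_lit 5) (nat_lit 78) (nat_lit 5) (nat_lit 79) (nat_lit 4) (nat_lit 474) (nat_lit 414) (nat_lit 312)) (XT.lf (nat_lit 0) (nat_lit 2090199729) (nat_lit 152) (nat_lit 15104724595) (nat_lit 228) (nat_lit 31706998630) (nat_lit 74) (nat_lit 5) (nat_lit 76) (nat_lit 5) (nat_lit 77) (nat_lit 5) (nat_lit 475) (nat_lit 414) (nat_lit 311)))) (XT.nd (nat_lit 78) (nat_lit 228) (nat_lit 0) (XT.lf (nat_lit 0) (nat_lit 250089999) (nat_lit 76) (nat_lit 39923879868) (nat_lit 152) (nat_lit 10389591679) (nat_lit 73) (nat_lit 5) (nat_lit 74) (nat_lit 5) (nat_lit 75) (nat_lit 4) (nat_lit 476) (nat_lit 414) (nat_lit 310)) (XT.nd (nat_lit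 78) (nat_lit 152) (nat_lit 0) (XT.lf (nat_lit 0) (nat_lit 12382459841) (nat_lit 152) (nat_lit 1953707775) (nat_lit 76) (nat_lit 37949971732) (nat_lit 72) (nat_lit 5) (nat_lit 74) (nat_lit 5) (nat_lit 73) (nat_lit 5) (nat_lit 477) (nat_lit 414) (nat_lit 309)) (XT.lf (nat_lit 0) (nat_lit 36668158940) (nat_lit 228) (nat_lit 4544856855) (nat_lit 76) (nat_lit 12861047105) (nat_lit 70) (nat_lit 5) (nat_lit 73) (nat_lit 5) (nat_lit 71) (nat_lit 4) (nat_lit 478) (nat_lit 414) (nat_lit 308))))) (XT.nd (nat_lit 234) (nat_lit 608) (nat_lit 0) (XT.nd (nat_lit 78) (nat_lit 228) (nat_lit 0) (XT.lf (nat_lit 0) (nat_lit 6717084015) (nat_lit 152) (nat_lit 7550575627) (nat_lit 76) (nat_lit 41663281534) (nat_lit 68) (nat_lit 5) (nat_lit 70) (nat_lit 5) (nat_lit 69) (nat_lit 5) (nat_lit 479) (nat_lit 414) (nat_lit 307)) (XT.nd (nat_lit 78) (nat_lit 76) (nat_lit 0) (XT.lf (nat_lit 0) (nat_lit 32313942087) (nat_lit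 228) (nat_lit 11124178508) (nat_lit 76) (nat_lit 14418542013) (nat_lit 66) (nat_lit 5) (nat_lit 69) (nat_lit 5) (nat_lit 67) (nat_lit 4) (nat_lit 480) (nat_lit 414) (nat_lit 306)) (XT.lf (nat_lit 0) (nat_lit 44711244769) (nat_lit 76) (nat_lit 15117142983) (nat_lit 152) (nat_lit 31150363) (nat_lit 65) (nat_lit 5) (nat_lit 66) (nat_lit 5) (nat_lit 67) (nat_lit 4) (nat_lit 481) (nat_lit 414) (nat_lit 305)))) (XT.nd (nat_lit 156) (nat_lit 304) (nat_lit 0) (XT.nd (nat_lit 78) (nat_lit 76) (nat_lit 0) (XT.lf (nat_lit 0) (nat_lit 26888559966) (nat_lit 228) (nat_lit 19938925911) (nat_lit 76) (nat_lit 15107715956) (nat_lit 62) (nat_lit 5) (nat_lit 65) (nat_lit 5) (nat_lit 63) (nat_lit 4) (nat_lit 482) (nat_lit 414) (nat_lit 304)) (XT.lf (nat_lit 0) (nat_lit 38780351946) (nat_lit 76) (nat_lit 17042160069) (nat_lit 152) (nat_lit 8272060758) (nat_lit 61) (nat_lit 5) (nat_lit 62) (nat_lit 5) (nat_lit 63) (nat_lit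 4) (nat_lit 483) (nat_lit 414) (nat_lit 303))) (XT.nd (nat_lit 78) (nat_lit 76) (nat_lit 0) (XT.lf (nat_lit 0) (nat_lit 20127707557) (nat_lit 228) (nat_lit 31524442628) (nat_lit 76) (nat_lit 14683831595) (nat_lit 58) (nat_lit 5) (nat_lit 61) (nat_lit 5) (nat_lit 59) (nat_lit 4) (nat_lit 484) (nat_lit 414) (nat_lit 302)) (XT.lf (nat_lit 0) (nat_lit 30094451449) (nat_lit 76) (nat_lit 20394611613) (nat_lit 152) (nat_lit 18176561062) (nat_lit 57) (nat_lit 5) (nat_lit 58) (nat_lit 5) (nat_lit 59) (nat_lit 4) (nat_lit 485) (nat_lit 414) (nat_lit 301)))))) (XT.nd (nat_lit 468) (nat_lit 456) (nat_lit 0) (XT.nd (nat_lit 234) (nat_lit 228) (nat_lit 0) (XT.nd (nat_lit 78) (nat_lit 228) (nat_lit 0) (XT.lf (nat_lit 0) (nat_lit 11715090715) (nat_lit 152) (nat_lit 46521575737) (nat_lit 76) (nat_lit 12851495805) (nat_lit 55) (nat_lit 5) (nat_lit 57) (nat_lit 5) (nat_lit 56) (nat_lit 4) (nat_lit 486) (nat_lit 414)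 (nat_lit 300)) (XT.nd (nat_lit 78) (nat_lit 152) (nat_lit 0) (XT.lf (nat_lit 0) (nat_lit 17980235497) (nat_lit 76) (nat_lit 25515504912) (nat_lit 152) (nat_lit 30107578107) (nat_lit 54) (nat_lit 5) (nat_lit 55) (nat_lit 5) (nat_lit 56) (nat_lit 4) (nat_lit 487) (nat_lit 414) (nat_lit 299)) (XT.lf (nat_lit 0) (nat_lit 1272973589) (nat_lit 152) (nat_lit 65695873837) (nat_lit 76) (nat_lit 9255289084) (nat_lit 52) (nat_lit 5) (nat_lit 54) (nat_lit 5) (nat_lit 53) (nat_lit 4) (nat_lit 488) (nat_lit 414) (nat_lit 298)))) (XT.nd (nat_lit 78) (nat_lit 152) (nat_lit 0) (XT.lf (nat_lit 0) (nat_lit 1631640067) (nat_lit 76) (nat_lit 32813195847) (nat_lit 152) (nat_lit 44496868231) (nat_lit 51) (nat_lit 5) (nat_lit 52) (nat_lit 5) (nat_lit 53) (nat_lit 4) (nat_lit 489) (nat_lit 414) (nat_lit 297)) (XT.nd (nat_lit 78) (nat_lit 152) (nat_lit 0) (XT.lf (nat_lit 0) (nat_lit 69975532625) (nat_lit 152) (nat_lit 8135895527)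 (nat_lit 0) (nat_lit 3662714967) (nat_lit 51) (nat_lit 5) (nat_lit 53) (nat_lit 4) (nat_lit 51) (nat_lit 4) (nat_lit 490) (nat_lit 414) (nat_lit 296)) (XT.lf (nat_lit 0) (nat_lit 23052788432) (nat_lit 152) (nat_lit 19525666708) (nat_lit 76) (nat_lit 42134511840) (nat_lit 49) (nat_lit 5) (nat_lit 51) (nat_lit 5) (nat_lit 50) (nat_lit 4) (nat_lit 491) (nat_lit 414) (nat_lit 295))))) (XT.nd (nat_lit 312) (nat_lit 152) (nat_lit 0) (XT.nd (nat_lit 78) (nat_lit 228) (nat_lit 0) (XT.lf (nat_lit 0) (nat_lit 55491507757) (nat_lit 76) (nat_lit 4520249832) (nat_lit 152) (nat_lit 27765199672) (nat_lit 48) (nat_lit 5) (nat_lit 49) (nat_lit 5) (nat_lit 50) (nat_lit 4) (nat_lit 492) (nat_lit 414) (nat_lit 294)) (XT.nd (nat_lit 78) (nat_lit 76) (nat_lit 0) (XT.lf (nat_lit 0) (nat_lit 8638628819) (nat_lit 152) (nat_lit 46872747692) (nat_lit 76) (nat_lit 35451510716) (nat_lit 46) (nat_lit 5) (nat_lit 48) (nat_lit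 5) (nat_lit 47) (nat_lit 4) (nat_lit 493) (nat_lit 414) (nat_lit 293)) (XT.lf (nat_lit 0) (nat_lit 30914054743) (nat_lit 76) (nat_lit 16047331334) (nat_lit 152) (nat_lit 47318291751) (nat_lit 45) (nat_lit 5) (nat_lit 46) (nat_lit 5) (nat_lit 47) (nat_lit 4) (nat_lit 494) (nat_lit 414) (nat_lit 292)))) (XT.nd (nat_lit 56238) (nat_lit 0) (nat_lit 21508) (XT.nd (nat_lit 56160) (nat_lit 0) (nat_lit 21432) (XT.lf (nat_lit 0) (nat_lit 30103273725) (nat_lit 152) (nat_lit 1446828482) (nat_lit 76) (nat_lit 69782337117) (nat_lit 43) (nat_lit 5) (nat_lit 45) (nat_lit 5) (nat_lit 44) (nat_lit 4) (nat_lit 496) (nat_lit 414) (nat_lit 290)) (XT.lf (nat_lit 0) (nat_lit 634474028) (nat_lit 1140) (nat_lit 1947229173) (nat_lit 1140) (nat_lit 1947229173) (nat_lit 325) (nat_lit 3) (nat_lit 340) (nat_lit 3) (nat_lit 340) (nat_lit 5) (nat_lit 415) (nat_lit 415) (nat_lit 370))) (XT.nd (nat_lit 78) (nat_lit 0) (nat_lit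 0) (XT.lf (nat_lit 0) (nat_lit 2798905491) (nat_lit 1064) (nat_lit 5617221672) (nat_lit 1140) (nat_lit 823016056) (nat_lit 326) (nat_lit 5) (nat_lit 340) (nat_lit 5) (nat_lit 341) (nat_lit 5) (nat_lit 416) (nat_lit 415) (nat_lit 369)) (XT.lf (nat_lit 76) (nat_lit 2103566416) (nat_lit 0) (nat_lit 2321421377) (nat_lit 1140) (nat_lit 5003923165) (nat_lit 327) (nat_lit 5) (nat_lit 326) (nat_lit 5) (nat_lit 341) (nat_lit 5) (nat_lit 417) (nat_lit 415) (nat_lit 368))))))))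
noncomputable def xc74 : XT := (XT.nd (nat_lit 1950) (nat_lit 6840) (nat_lit 0) (XT.nd (nat_lit 936) (nat_lit 6460) (nat_lit 0) (XT.nd (nat_lit 468) (nat_lit 3572) (nat_lit 0) (XT.nd (nat_lit 234) (nat_lit 988) (nat_lit 0) (XT.nd (nat_lit 78) (nat_lit 0) (nat_lit 76) (XT.lf (nat_lit 76) (nat_lit 619913799) (nat_lit 0) (nat_lit 5527141661) (nat_lit 1140) (nat_lit 3480684669) (nat_lit 328) (nat_lit 5) (nat_lit 327) (nat_lit 5) (nat_lit 342) (nat_lit 5) (nat_lit 418) (nat_lit 415) (nat_lit 367)) (XT.nd (nat_lit 78) (nat_lit 0) (nat_lit 0) (XT.lf (nat_lit 0) (nat_lit 7978982967) (nat_lit 1064) (nat_lit 807009881) (nat_lit 1140) (nat_lit 1049818055) (nat_lit 328) (nat_lit 5) (nat_lit 342) (nat_lit 5) (nat_lit 343) (nat_lit 5) (nat_lit 419) (nat_lit 415) (nat_lit 366)) (XT.lf (nat_lit 76) (nat_lit 7848743740) (nat_lit 0) (nat_lit 2104208014) (nat_lit 1140) (nat_lit 99832344) (nat_lit 329) (nat_lit 5)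 (nat_lit 328) (nat_lit 5) (nat_lit 343) (nat_lit 5) (nat_lit 420) (nat_lit 415) (nat_lit 365)))) (XT.nd (nat_lit 78) (nat_lit 0) (nat_lit 76) (XT.lf (nat_lit 0) (nat_lit 1754241449) (nat_lit 1140) (nat_lit 3592778371) (nat_lit 1216) (nat_lit 4931795818) (nat_lit 314) (nat_lit 5) (nat_lit 329) (nat_lit 5) (nat_lit 330) (nat_lit 5) (nat_lit 421) (nat_lit 415) (nat_lit 364)) (XT.nd (nat_lit 78) (nat_lit 0) (nat_lit 0) (XT.lf (nat_lit 0) (nat_lit 3739957644) (nat_lit 1140) (nat_lit 4949153068) (nat_lit 1216) (nat_lit 1825789055) (nat_lit 315) (nat_lit 5) (nat_lit 330) (nat_lit 5) (nat_lit 331) (nat_lit 5) (nat_lit 422) (nat_lit 415) (nat_lit 363)) (XT.lf (nat_lit 76) (nat_lit 4474233384) (nat_lit 0) (nat_lit 1413557858) (nat_lit 1216) (nat_lit 4873122168) (nat_lit 316) (nat_lit 5) (nat_lit 315) (nat_lit 5) (nat_lit 331) (nat_lit 5) (nat_lit 423) (nat_lit 415) (nat_lit 362))))) (XT.nd (nat_lit 234)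 (nat_lit 1368) (nat_lit 0) (XT.nd (nat_lit 78) (nat_lit 2356) (nat_lit 0) (XT.lf (nat_lit 76) (nat_lit 3405617825) (nat_lit 0) (nat_lit 4812985517) (nat_lit 1216) (nat_lit 2798366556) (nat_lit 317) (nat_lit 5) (nat_lit 316) (nat_lit 5) (nat_lit 332) (nat_lit 5) (nat_lit 424) (nat_lit 415) (nat_lit 361)) (XT.nd (nat_lit 78) (nat_lit 1292) (nat_lit 0) (XT.lf (nat_lit 0) (nat_lit 2378376096) (nat_lit 1140) (nat_lit 8352102962) (nat_lit 1216) (nat_lit 553423764) (nat_lit 302) (nat_lit 5) (nat_lit 317) (nat_lit 5) (nat_lit 318) (nat_lit 5) (nat_lit 425) (nat_lit 415) (nat_lit 360)) (XT.lf (nat_lit 0) (nat_lit 1369641938) (nat_lit 1216) (nat_lit 476187320) (nat_lit 1292) (nat_lit 9715523737) (nat_lit 285) (nat_lit 5) (nat_lit 301) (nat_lit 5) (nat_lit 302) (nat_lit 5) (nat_lit 426) (nat_lit 415) (nat_lit 359)))) (XT.nd (nat_lit 78) (nat_lit 608) (nat_lit 0) (XT.lf (nat_lit 0) (nat_lit 364918495) (nat_lit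 760) (nat_lit 4098767524) (nat_lit 836) (nat_lit 7385530862) (nat_lit 275) (nat_lit 5) (nat_lit 285) (nat_lit 5) (nat_lit 286) (nat_lit 5) (nat_lit 427) (nat_lit 415) (nat_lit 358)) (XT.nd (nat_lit 78) (nat_lit 608) (nat_lit 0) (XT.lf (nat_lit 0) (nat_lit 7305190204) (nat_lit 836) (nat_lit 588159175) (nat_lit 76) (nat_lit 4255349746) (nat_lit 275) (nat_lit 5) (nat_lit 286) (nat_lit 5) (nat_lit 276) (nat_lit 5) (nat_lit 428) (nat_lit 415) (nat_lit 357)) (XT.lf (nat_lit 0) (nat_lit 10385506673) (nat_lit 684) (nat_lit 1493700354) (nat_lit 76) (nat_lit 581053772) (nat_lit 267) (nat_lit 5) (nat_lit 276) (nat_lit 5) (nat_lit 268) (nat_lit 5) (nat_lit 429) (nat_lit 415) (nat_lit 356)))))) (XT.nd (nat_lit 468) (nat_lit 3116) (nat_lit 0) (XT.nd (nat_lit 234) (nat_lit 1596) (nat_lit 0) (XT.nd (nat_lit 78) (nat_lit 1064) (nat_lit 0) (XT.lf (nat_lit 0) (nat_lit 949570700) (nat_lit 684) (nat_lit 2398787471)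 (nat_lit 76) (nat_lit 9434807914) (nat_lit 258) (nat_lit 5) (nat_lit 267) (nat_lit 5) (nat_lit 259) (nat_lit 5) (nat_lit 430) (nat_lit 415) (nat_lit 355)) (XT.nd (nat_lit 78) (nat_lit 532) (nat_lit 0) (XT.lf (nat_lit 0) (nat_lit 4196280381) (nat_lit 608) (nat_lit 3290169977) (nat_lit 76) (nat_lit 5631734226) (nat_lit 251) (nat_lit 5) (nat_lit 259) (nat_lit 5) (nat_lit 252) (nat_lit 5) (nat_lit 431) (nat_lit 415) (nat_lit 354)) (XT.lf (nat_lit 0) (nat_lit 7719514470) (nat_lit 608) (nat_lit 4140141009) (nat_lit 76) (nat_lit 1606879091) (nat_lit 244) (nat_lit 5) (nat_lit 252) (nat_lit 5) (nat_lit 245) (nat_lit 5) (nat_lit 432) (nat_lit 415) (nat_lit 353)))) (XT.nd (nat_lit 78) (nat_lit 1064) (nat_lit 0) (XT.lf (nat_lit 0) (nat_lit 8855528047) (nat_lit 532) (nat_lit 2710033744) (nat_lit 608) (nat_lit 2262346654) (nat_lit 237) (nat_lit 5) (nat_lit 244) (nat_lit 5) (nat_lit 245) (nat_lit 5) (nat_lit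 433) (nat_lit 415) (nat_lit 352)) (XT.nd (nat_lit 78) (nat_lit 456) (nat_lit 0) (XT.lf (nat_lit 0) (nat_lit 1514589686) (nat_lit 608) (nat_lit 5791227559) (nat_lit 76) (nat_lit 6896778084) (nat_lit 229) (nat_lit 5) (nat_lit 237) (nat_lit 5) (nat_lit 230) (nat_lit 5) (nat_lit 434) (nat_lit 415) (nat_lit 351)) (XT.lf (nat_lit 0) (nat_lit 5568894422) (nat_lit 532) (nat_lit 6588061826) (nat_lit 76) (nat_lit 2434334238) (nat_lit 223) (nat_lit 5) (nat_lit 230) (nat_lit 5) (nat_lit 224) (nat_lit 5) (nat_lit 435) (nat_lit 415) (nat_lit 350))))) (XT.nd (nat_lit 234) (nat_lit 1672) (nat_lit 0) (XT.nd (nat_lit 78) (nat_lit 988) (nat_lit 0) (XT.lf (nat_lit 0) (nat_lit 7633793285) (nat_lit 456) (nat_lit 2355844468) (nat_lit 532) (nat_lit 5004875925) (nat_lit 217) (nat_lit 5) (nat_lit 223) (nat_lit 5) (nat_lit 224) (nat_lit 5) (nat_lit 436) (nat_lit 415) (nat_lit 349)) (XT.nd (nat_lit 78) (nat_lit 532) (nat_lit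 0) (XT.lf (nat_lit 0) (nat_lit 7302759458) (nat_lit 456) (nat_lit 7501539646) (nat_lit 532) (nat_lit 608417241) (nat_lit 211) (nat_lit 5) (nat_lit 217) (nat_lit 5) (nat_lit 218) (nat_lit 5) (nat_lit 437) (nat_lit 415) (nat_lit 348)) (XT.lf (nat_lit 0) (nat_lit 4085091761) (nat_lit 532) (nat_lit 8848372105) (nat_lit 76) (nat_lit 2912550822) (nat_lit 204) (nat_lit 5) (nat_lit 211) (nat_lit 5) (nat_lit 205) (nat_lit 5) (nat_lit 438) (nat_lit 415) (nat_lit 347)))) (XT.nd (nat_lit 156) (nat_lit 836) (nat_lit 0) (XT.nd (nat_lit 78) (nat_lit 456) (nat_lit 0) (XT.lf (nat_lit 0) (nat_lit 6729933747) (nat_lit 380) (nat_lit 2456010884) (nat_lit 456) (nat_lit 7109299232) (nat_lit 199) (nat_lit 5) (nat_lit 204) (nat_lit 5) (nat_lit 205) (nat_lit 5) (nat_lit 439) (nat_lit 415) (nat_lit 346)) (XT.lf (nat_lit 0) (nat_lit 6501750599) (nat_lit 456) (nat_lit 8238447040) (nat_lit 532) (nat_lit 2020790107) (nat_lit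 193) (nat_lit 5) (nat_lit 199) (nat_lit 5) (nat_lit 200) (nat_lit 5) (nat_lit 440) (nat_lit 415) (nat_lit 345))) (XT.nd (nat_lit 78) (nat_lit 380) (nat_lit 0) (XT.lf (nat_lit 0) (nat_lit 3433452035) (nat_lit 456) (nat_lit 10931065936) (nat_lit 76) (nat_lit 2879262457) (nat_lit 187) (nat_lit 5) (nat_lit 193) (nat_lit 5) (nat_lit 188) (nat_lit 5) (nat_lit 441) (nat_lit 415) (nat_lit 344)) (XT.lf (nat_lit 0) (nat_lit 6146649431) (nat_lit 380) (nat_lit 3185162186) (nat_lit 456) (nat_lit 8411908443) (nat_lit 182) (nat_lit 5) (nat_lit 187) (nat_lit 5) (nat_lit 188) (nat_lit 5) (nat_lit 442) (nat_lit 415) (nat_lit 343))))))) (XT.nd (nat_lit 1014) (nat_lit 2736) (nat_lit 0) (XT.nd (nat_lit 468) (nat_lit 2052) (nat_lit 0) (XT.nd (nat_lit 234) (nat_lit 988) (nat_lit 0) (XT.nd (nat_lit 78) (nat_lit 760) (nat_lit 0) (XT.lf (nat_lit 0) (nat_lit 6027345345) (nat_lit 304) (nat_lit 9716598383) (nat_lit 380) (nat_lit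 2518150641) (nat_lit 178) (nat_lit 5) (nat_lit 182) (nat_lit 5) (nat_lit 183) (nat_lit 5) (nat_lit 443) (nat_lit 415) (nat_lit 342)) (XT.nd (nat_lit 78) (nat_lit 304) (nat_lit 0) (XT.lf (nat_lit 0) (nat_lit 3795864079) (nat_lit 456) (nat_lit 12848349043) (nat_lit 76) (nat_lit 2155203232) (nat_lit 172) (nat_lit 5) (nat_lit 178) (nat_lit 5) (nat_lit 173) (nat_lit 5) (nat_lit 444) (nat_lit 415) (nat_lit 341)) (XT.lf (nat_lit 0) (nat_lit 5884995218) (nat_lit 304) (nat_lit 4737806767) (nat_lit 380) (nat_lit 8732578373) (nat_lit 168) (nat_lit 5) (nat_lit 172) (nat_lit 5) (nat_lit 173) (nat_lit 5) (nat_lit 445) (nat_lit 415) (nat_lit 340)))) (XT.nd (nat_lit 78) (nat_lit 684) (nat_lit 0) (XT.lf (nat_lit 0) (nat_lit 5880533389) (nat_lit 304) (nat_lit 12143265365) (nat_lit 380) (nat_lit 1908365245) (nat_lit 164) (nat_lit 5) (nat_lit 168) (nat_lit 5) (nat_lit 169) (nat_lit 5) (nat_lit 446) (nat_lit 415) (nat_lit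 339)) (XT.nd (nat_lit 78) (nat_lit 304) (nat_lit 0) (XT.lf (nat_lit 0) (nat_lit 5373244542) (nat_lit 380) (nat_lit 14618440614) (nat_lit 76) (nat_lit 538025125) (nat_lit 159) (nat_lit 5) (nat_lit 164) (nat_lit 5) (nat_lit 160) (nat_lit 5) (nat_lit 447) (nat_lit 415) (nat_lit 338)) (XT.lf (nat_lit 0) (nat_lit 5940476544) (nat_lit 304) (nat_lit 7334789593) (nat_lit 380) (nat_lit 7872429386) (nat_lit 155) (nat_lit 5) (nat_lit 159) (nat_lit 5) (nat_lit 160) (nat_lit 5) (nat_lit 448) (nat_lit 415) (nat_lit 337))))) (XT.nd (nat_lit 234) (nat_lit 1140) (nat_lit 0) (XT.nd (nat_lit 78) (nat_lit 532) (nat_lit 0) (XT.lf (nat_lit 0) (nat_lit 20523510) (nat_lit 380) (nat_lit 15734240297) (nat_lit 76) (nat_lit 6034672947) (nat_lit 150) (nat_lit 5) (nat_lit 155) (nat_lit 5) (nat_lit 151) (nat_lit 5) (nat_lit 449) (nat_lit 415) (nat_lit 336)) (XT.nd (nat_lit 78) (nat_lit 228) (nat_lit 0) (XT.lf (nat_lit 0) (nat_lit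 6161061146) (nat_lit 304) (nat_lit 2248374000) (nat_lit 380) (nat_lit 14043569976) (nat_lit 146) (nat_lit 5) (nat_lit 150) (nat_lit 5) (nat_lit 151) (nat_lit 5) (nat_lit 450) (nat_lit 415) (nat_lit 335)) (XT.lf (nat_lit 0) (nat_lit 6298117905) (nat_lit 228) (nat_lit 11230573648) (nat_lit 304) (nat_lit 5611735444) (nat_lit 143) (nat_lit 5) (nat_lit 146) (nat_lit 5) (nat_lit 147) (nat_lit 5) (nat_lit 451) (nat_lit 415) (nat_lit 334)))) (XT.nd (nat_lit 156) (nat_lit 532) (nat_lit 0) (XT.nd (nat_lit 78) (nat_lit 228) (nat_lit 0) (XT.lf (nat_lit 0) (nat_lit 3436028040) (nat_lit 380) (nat_lit 17354431394) (nat_lit 76) (nat_lit 3063099780) (nat_lit 138) (nat_lit 5) (nat_lit 143) (nat_lit 5) (nat_lit 139) (nat_lit 5) (nat_lit 452) (nat_lit 415) (nat_lit 333)) (XT.lf (nat_lit 0) (nat_lit 6678843858) (nat_lit 228) (nat_lit 6468483611) (nat_lit 304) (nat_lit 11443539326) (nat_lit 135) (nat_lit 5) (nat_lit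 138) (nat_lit 5) (nat_lit 139) (nat_lit 5) (nat_lit 453) (nat_lit 415) (nat_lit 332))) (XT.nd (nat_lit 78) (nat_lit 304) (nat_lit 0) (XT.lf (nat_lit 0) (nat_lit 6926135737) (nat_lit 228) (nat_lit 16721629731) (nat_lit 304) (nat_lit 1708168812) (nat_lit 132) (nat_lit 5) (nat_lit 135) (nat_lit 5) (nat_lit 136) (nat_lit 5) (nat_lit 454) (nat_lit 415) (nat_lit 331)) (XT.lf (nat_lit 0) (nat_lit 7176938071) (nat_lit 228) (nat_lit 1466177989) (nat_lit 304) (nat_lit 17504826913) (nat_lit 128) (nat_lit 5) (nat_lit 131) (nat_lit 5) (nat_lit 132) (nat_lit 5) (nat_lit 455) (nat_lit 415) (nat_lit 330)))))) (XT.nd (nat_lit 468) (nat_lit 1368) (nat_lit 0) (XT.nd (nat_lit 234) (nat_lit 608) (nat_lit 0) (XT.nd (nat_lit 78) (nat_lit 532) (nat_lit 0) (XT.lf (nat_lit 0) (nat_lit 7420728188) (nat_lit 228) (nat_lit 12434513593) (nat_lit 304) (nat_lit 7112446345) (nat_lit 125) (nat_lit 5) (nat_lit 128) (nat_lit 5) (nat_lit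 129) (nat_lit 5) (nat_lit 456) (nat_lit 415) (nat_lit 329)) (XT.nd (nat_lit 78) (nat_lit 228) (nat_lit 0) (XT.lf (nat_lit 0) (nat_lit 4024388719) (nat_lit 304) (nat_lit 20091240997) (nat_lit 76) (nat_lit 3702727168) (nat_lit 121) (nat_lit 5) (nat_lit 125) (nat_lit 5) (nat_lit 122) (nat_lit 5) (nat_lit 457) (nat_lit 415) (nat_lit 328)) (XT.lf (nat_lit 0) (nat_lit 7985295438) (nat_lit 228) (nat_lit 7969158641) (nat_lit 304) (nat_lit 12743489190) (nat_lit 118) (nat_lit 5) (nat_lit 121) (nat_lit 5) (nat_lit 122) (nat_lit 5) (nat_lit 458) (nat_lit 415) (nat_lit 327)))) (XT.nd (nat_lit 78) (nat_lit 456) (nat_lit 0) (XT.lf (nat_lit 0) (nat_lit 8305355652) (nat_lit 152) (nat_lit 20527980418) (nat_lit 228) (nat_lit 777604783) (nat_lit 116) (nat_lit 5) (nat_lit 118) (nat_lit 5) (nat_lit 119) (nat_lit 5) (nat_lit 459) (nat_lit 415) (nat_lit 326)) (XT.nd (nat_lit 78) (nat_lit 152) (nat_lit 0) (XT.lf (nat_lit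 0) (nat_lit 8577594384) (nat_lit 228) (nat_lit 3334945118) (nat_lit 304) (nat_lit 18642972079) (nat_lit 112) (nat_lit 5) (nat_lit 115) (nat_lit 5) (nat_lit 116) (nat_lit 5) (nat_lit 460) (nat_lit 415) (nat_lit 325)) (XT.lf (nat_lit 0) (nat_lit 8843235730) (nat_lit 152) (nat_lit 16804306022) (nat_lit 228) (nat_lit 5886746264) (nat_lit 110) (nat_lit 5) (nat_lit 112) (nat_lit 5) (nat_lit 113) (nat_lit 5) (nat_lit 461) (nat_lit 415) (nat_lit 324))))) (XT.nd (nat_lit 234) (nat_lit 684) (nat_lit 0) (XT.nd (nat_lit 78) (nat_lit 380) (nat_lit 0) (XT.lf (nat_lit 0) (nat_lit 7703587042) (nat_lit 304) (nat_lit 23420704181) (nat_lit 76) (nat_lit 1425264436) (nat_lit 106) (nat_lit 5) (nat_lit 110) (nat_lit 5) (nat_lit 107) (nat_lit 5) (nat_lit 462) (nat_lit 415) (nat_lit 323)) (XT.nd (nat_lit 78) (nat_lit 228) (nat_lit 0) (XT.lf (nat_lit 0) (nat_lit 9319835669) (nat_lit 152) (nat_lit 13007388395) (nat_lit 228)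 (nat_lit 11272349054) (nat_lit 104) (nat_lit 5) (nat_lit 106) (nat_lit 5) (nat_lit 107) (nat_lit 5) (nat_lit 463) (nat_lit 415) (nat_lit 322)) (XT.lf (nat_lit 0) (nat_lit 3298735209) (nat_lit 228) (nat_lit 25139935614) (nat_lit 76) (nat_lit 6251254191) (nat_lit 101) (nat_lit 5) (nat_lit 104) (nat_lit 5) (nat_lit 102) (nat_lit 5) (nat_lit 464) (nat_lit 415) (nat_lit 321)))) (XT.nd (nat_lit 156) (nat_lit 380) (nat_lit 0) (XT.nd (nat_lit 78) (nat_lit 152) (nat_lit 0) (XT.lf (nat_lit 0) (nat_lit 9657355859) (nat_lit 152) (nat_lit 9166835796) (nat_lit 228) (nat_lit 16993487079) (nat_lit 99) (nat_lit 5) (nat_lit 101) (nat_lit 5) (nat_lit 102) (nat_lit 5) (nat_lit 465) (nat_lit 415) (nat_lit 320)) (XT.lf (nat_lit 0) (nat_lit 9773283575) (nat_lit 152) (nat_lit 25795059949) (nat_lit 228) (nat_lit 1420204769) (nat_lit 97) (nat_lit 5) (nat_lit 99) (nat_lit 5) (nat_lit 100) (nat_lit 5) (nat_lit 466) (nat_lit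 415) (nat_lit 319))) (XT.nd (nat_lit 78) (nat_lit 152) (nat_lit 0) (XT.lf (nat_lit 0) (nat_lit 9758392630) (nat_lit 152) (nat_lit 5321401689) (nat_lit 228) (nat_lit 23120679047) (nat_lit 94) (nat_lit 5) (nat_lit 96) (nat_lit 5) (nat_lit 97) (nat_lit 5) (nat_lit 467) (nat_lit 415) (nat_lit 318)) (XT.lf (nat_lit 0) (nat_lit 9667800601) (nat_lit 152) (nat_lit 23220830215) (nat_lit 228) (nat_lit 6568546482) (nat_lit 92) (nat_lit 5) (nat_lit 94) (nat_lit 5) (nat_lit 95) (nat_lit 5) (nat_lit 468) (nat_lit 415) (nat_lit 317))))))))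
noncomputable def xc75 : XT := (XT.nd (nat_lit 1950) (nat_lit 304) (nat_lit 0) (XT.nd (nat_lit 936) (nat_lit 1520) (nat_lit 0) (XT.nd (nat_lit 468) (nat_lit 760) (nat_lit 0) (XT.nd (nat_lit 234) (nat_lit 456) (nat_lit 0) (XT.nd (nat_lit 78) (nat_lit 380) (nat_lit 0) (XT.lf (nat_lit 0) (nat_lit 9501959738) (nat_lit 152) (nat_lit 1520971662) (nat_lit 228) (nat_lit 29737986870) (nat_lit 89) (nat_lit 5) (nat_lit 91) (nat_lit 5) (nat_lit 92) (nat_lit 5) (nat_lit 469) (nat_lit 415) (nat_lit 316)) (XT.nd (nat_lit 78) (nat_lit 228) (nat_lit 0) (XT.lf (nat_lit 0) (nat_lit 9132212786) (nat_lit 152) (nat_lit 20811452316) (nat_lit 228) (nat_lit 12166664895) (nat_lit 87) (nat_lit 5) (nat_lit 89) (nat_lit 5) (nat_lit 90) (nat_lit 5) (nat_lit 470) (nat_lit 415) (nat_lit 315)) (XT.lf (nat_lit 0) (nat_lit 6588567873) (nat_lit 228) (nat_lit 34795272384) (nat_lit 76) (nat_lit 2128722113) (nat_lit 84) (nat_lit 5)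 (nat_lit 87) (nat_lit 5) (nat_lit 85) (nat_lit 5) (nat_lit 471) (nat_lit 415) (nat_lit 314)))) (XT.nd (nat_lit 78) (nat_lit 304) (nat_lit 0) (XT.lf (nat_lit 0) (nat_lit 8000923988) (nat_lit 152) (nat_lit 18644313512) (nat_lit 228) (nat_lit 18317596554) (nat_lit 82) (nat_lit 5) (nat_lit 84) (nat_lit 5) (nat_lit 85) (nat_lit 5) (nat_lit 472) (nat_lit 415) (nat_lit 313)) (XT.nd (nat_lit 78) (nat_lit 152) (nat_lit 0) (XT.lf (nat_lit 0) (nat_lit 1665159569) (nat_lit 152) (nat_lit 39241602183) (nat_lit 76) (nat_lit 5564411696) (nat_lit 80) (nat_lit 5) (nat_lit 82) (nat_lit 5) (nat_lit 81) (nat_lit 5) (nat_lit 473) (nat_lit 415) (nat_lit 312)) (XT.lf (nat_lit 0) (nat_lit 6071345635) (nat_lit 152) (nat_lit 16815073378) (nat_lit 228) (nat_lit 25144524384) (nat_lit 78) (nat_lit 5) (nat_lit 80) (nat_lit 5) (nat_lit 81) (nat_lit 5) (nat_lit 474) (nat_lit 415) (nat_lit 311))))) (XT.nd (nat_lit 234) (nat_lit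 380) (nat_lit 0) (XT.nd (nat_lit 78) (nat_lit 304) (nat_lit 0) (XT.lf (nat_lit 0) (nat_lit 4792087283) (nat_lit 76) (nat_lit 40896443093) (nat_lit 152) (nat_lit 3964578274) (nat_lit 77) (nat_lit 5) (nat_lit 78) (nat_lit 5) (nat_lit 79) (nat_lit 4) (nat_lit 475) (nat_lit 415) (nat_lit 310)) (XT.nd (nat_lit 78) (nat_lit 76) (nat_lit 0) (XT.lf (nat_lit 0) (nat_lit 3096777012) (nat_lit 152) (nat_lit 15441255762) (nat_lit 228) (nat_lit 32794471911) (nat_lit 74) (nat_lit 5) (nat_lit 76) (nat_lit 5) (nat_lit 77) (nat_lit 5) (nat_lit 476) (nat_lit 415) (nat_lit 309)) (XT.lf (nat_lit 0) (nat_lit 1148993104) (nat_lit 76) (nat_lit 41506374036) (nat_lit 152) (nat_lit 10422178615) (nat_lit 73) (nat_lit 5) (nat_lit 74) (nat_lit 5) (nat_lit 75) (nat_lit 4) (nat_lit 477) (nat_lit 415) (nat_lit 308)))) (XT.nd (nat_lit 78) (nat_lit 304) (nat_lit 0) (XT.lf (nat_lit 0) (nat_lit 13456241518) (nat_lit 152) (nat_lit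 1198143485) (nat_lit 76) (nat_lit 40232409620) (nat_lit 72) (nat_lit 5) (nat_lit 74) (nat_lit 5) (nat_lit 73) (nat_lit 5) (nat_lit 478) (nat_lit 415) (nat_lit 307)) (XT.nd (nat_lit 78) (nat_lit 152) (nat_lit 0) (XT.lf (nat_lit 0) (nat_lit 38946269936) (nat_lit 228) (nat_lit 3933795559) (nat_lit 76) (nat_lit 13884348094) (nat_lit 70) (nat_lit 5) (nat_lit 73) (nat_lit 5) (nat_lit 71) (nat_lit 4) (nat_lit 479) (nat_lit 415) (nat_lit 306)) (XT.lf (nat_lit 0) (nat_lit 7488573676) (nat_lit 152) (nat_lit 7105149582) (nat_lit 76) (nat_lit 44120685405) (nat_lit 68) (nat_lit 5) (nat_lit 70) (nat_lit 5) (nat_lit 69) (nat_lit 5) (nat_lit 480) (nat_lit 415) (nat_lit 305)))))) (XT.nd (nat_lit 468) (nat_lit 684) (nat_lit 0) (XT.nd (nat_lit 234) (nat_lit 380) (nat_lit 0) (XT.nd (nat_lit 78) (nat_lit 304) (nat_lit 0) (XT.lf (nat_lit 0) (nat_lit 34355836028) (nat_lit 228) (nat_lit 10871957124) (nat_lit 76) (nat_lit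 15508906674) (nat_lit 66) (nat_lit 5) (nat_lit 69) (nat_lit 5) (nat_lit 67) (nat_lit 4) (nat_lit 481) (nat_lit 415) (nat_lit 304)) (XT.nd (nat_lit 78) (nat_lit 152) (nat_lit 0) (XT.lf (nat_lit 0) (nat_lit 385483395) (nat_lit 152) (nat_lit 15111817411) (nat_lit 76) (nat_lit 47342687801) (nat_lit 64) (nat_lit 5) (nat_lit 66) (nat_lit 5) (nat_lit 65) (nat_lit 5) (nat_lit 482) (nat_lit 415) (nat_lit 303)) (XT.lf (nat_lit 0) (nat_lit 28641582996) (nat_lit 228) (nat_lit 20156398331) (nat_lit 76) (nat_lit 16221713934) (nat_lit 62) (nat_lit 5) (nat_lit 65) (nat_lit 5) (nat_lit 63) (nat_lit 4) (nat_lit 483) (nat_lit 415) (nat_lit 302)))) (XT.nd (nat_lit 78) (nat_lit 304) (nat_lit 0) (XT.lf (nat_lit 0) (nat_lit 41476499957) (nat_lit 76) (nat_lit 17533553785) (nat_lit 152) (nat_lit 8277346794) (nat_lit 61) (nat_lit 5) (nat_lit 62) (nat_lit 5) (nat_lit 63) (nat_lit 4) (nat_lit 484) (nat_lit 415) (nat_lit 301))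 (XT.nd (nat_lit 78) (nat_lit 76) (nat_lit 0) (XT.lf (nat_lit 0) (nat_lit 21525931835) (nat_lit 228) (nat_lit 32349239488) (nat_lit 76) (nat_lit 15765846619) (nat_lit 58) (nat_lit 5) (nat_lit 61) (nat_lit 5) (nat_lit 59) (nat_lit 4) (nat_lit 485) (nat_lit 415) (nat_lit 300)) (XT.lf (nat_lit 0) (nat_lit 32329059839) (nat_lit 76) (nat_lit 21064652391) (nat_lit 152) (nat_lit 18693779830) (nat_lit 57) (nat_lit 5) (nat_lit 58) (nat_lit 5) (nat_lit 59) (nat_lit 4) (nat_lit 486) (nat_lit 415) (nat_lit 299))))) (XT.nd (nat_lit 234) (nat_lit 304) (nat_lit 0) (XT.nd (nat_lit 78) (nat_lit 228) (nat_lit 0) (XT.lf (nat_lit 0) (nat_lit 12676720112) (nat_lit 152) (nat_lit 48123382222) (nat_lit 76) (nat_lit 13831184956) (nat_lit 55) (nat_lit 5) (nat_lit 57) (nat_lit 5) (nat_lit 56) (nat_lit 4) (nat_lit 487) (nat_lit 415) (nat_lit 298)) (XT.nd (nat_lit 78) (nat_lit 152) (nat_lit 0) (XT.lf (nat_lit 0) (nat_lit 19582758453)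 (nat_lit 76) (nat_lit 26452507615) (nat_lit 152) (nat_lit 31237269707) (nat_lit 54) (nat_lit 5) (nat_lit 55) (nat_lit 5) (nat_lit 56) (nat_lit 4) (nat_lit 488) (nat_lit 415) (nat_lit 297)) (XT.lf (nat_lit 0) (nat_lit 1697276214) (nat_lit 152) (nat_lit 68282666931) (nat_lit 76) (nat_lit 10044574554) (nat_lit 52) (nat_lit 5) (nat_lit 54) (nat_lit 5) (nat_lit 53) (nat_lit 4) (nat_lit 489) (nat_lit 415) (nat_lit 296)))) (XT.nd (nat_lit 156) (nat_lit 228) (nat_lit 0) (XT.nd (nat_lit 78) (nat_lit 0) (nat_lit 0) (XT.lf (nat_lit 0) (nat_lit 2391214621) (nat_lit 76) (nat_lit 34125860315) (nat_lit 152) (nat_lit 46361208767) (nat_lit 51) (nat_lit 5) (nat_lit 52) (nat_lit 5) (nat_lit 53) (nat_lit 4) (nat_lit 490) (nat_lit 415) (nat_lit 295)) (XT.lf (nat_lit 0) (nat_lit 73810642703) (nat_lit 152) (nat_lit 7889980487) (nat_lit 0) (nat_lit 4152131623) (nat_lit 51) (nat_lit 5) (nat_lit 53) (nat_lit 4) (nat_lit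 51) (nat_lit 4) (nat_lit 491) (nat_lit 415) (nat_lit 294))) (XT.nd (nat_lit 78) (nat_lit 76) (nat_lit 0) (XT.lf (nat_lit 0) (nat_lit 24535076717) (nat_lit 152) (nat_lit 19861384317) (nat_lit 76) (nat_lit 44542259783) (nat_lit 49) (nat_lit 5) (nat_lit 51) (nat_lit 5) (nat_lit 50) (nat_lit 4) (nat_lit 492) (nat_lit 415) (nat_lit 293)) (XT.lf (nat_lit 0) (nat_lit 58888287183) (nat_lit 76) (nat_lit 4443990588) (nat_lit 152) (nat_lit 28823924576) (nat_lit 48) (nat_lit 5) (nat_lit 49) (nat_lit 5) (nat_lit 50) (nat_lit 4) (nat_lit 493) (nat_lit 415) (nat_lit 292))))))) (XT.nd (nat_lit 57252) (nat_lit 0) (nat_lit 12160) (XT.nd (nat_lit 56706) (nat_lit 0) (nat_lit 19532) (XT.nd (nat_lit 56472) (nat_lit 0) (nat_lit 21356) (XT.nd (nat_lit 156) (nat_lit 152) (nat_lit 0) (XT.lf (nat_lit 0) (nat_lit 9387003877) (nat_lit 152) (nat_lit 48599208917) (nat_lit 76) (nat_lit 37515321043) (nat_lit 46) (nat_lit 5) (nat_lit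 48) (nat_lit 5) (nat_lit 47) (nat_lit 4) (nat_lit 494) (nat_lit 415) (nat_lit 291)) (XT.nd (nat_lit 56238) (nat_lit 0) (nat_lit 21356) (XT.lf (nat_lit 0) (nat_lit 17243482156) (nat_lit 76) (nat_lit 75534567806) (nat_lit 76) (nat_lit 9835836874) (nat_lit 44) (nat_lit 4) (nat_lit 45) (nat_lit 5) (nat_lit 45) (nat_lit 4) (nat_lit 496) (nat_lit 415) (nat_lit 289)) (XT.lf (nat_lit 0) (nat_lit 2098745837) (nat_lit 1140) (nat_lit 1306719514) (nat_lit 1140) (nat_lit 1306719514) (nat_lit 325) (nat_lit 3) (nat_lit 340) (nat_lit 3) (nat_lit 340) (nat_lit 5) (nat_lit 416) (nat_lit 416) (nat_lit 368)))) (XT.nd (nat_lit 78) (nat_lit 0) (nat_lit 76) (XT.lf (nat_lit 76) (nat_lit 5245184394) (nat_lit 0) (nat_lit 427636313) (nat_lit 1140) (nat_lit 3945845938) (nat_lit 326) (nat_lit 5) (nat_lit 325) (nat_lit 3) (nat_lit 340) (nat_lit 5) (nat_lit 417) (nat_lit 416) (nat_lit 367)) (XT.nd (nat_lit 78) (nat_lit 0) (nat_lit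 76) (XT.lf (nat_lit 76) (nat_lit 3693635743) (nat_lit 0) (nat_lit 3566741065) (nat_lit 1140) (nat_lit 2561160619) (nat_lit 327) (nat_lit 5) (nat_lit 326) (nat_lit 5) (nat_lit 341) (nat_lit 5) (nat_lit 418) (nat_lit 416) (nat_lit 366)) (XT.lf (nat_lit 76) (nat_lit 2180340010) (nat_lit 0) (nat_lit 6768088707) (nat_lit 1140) (nat_lit 1085501717) (nat_lit 328) (nat_lit 5) (nat_lit 327) (nat_lit 5) (nat_lit 342) (nat_lit 5) (nat_lit 419) (nat_lit 416) (nat_lit 365))))) (XT.nd (nat_lit 234) (nat_lit 912) (nat_lit 0) (XT.nd (nat_lit 78) (nat_lit 0) (nat_lit 0) (XT.lf (nat_lit 0) (nat_lit 485412386) (nat_lit 1140) (nat_lit 9557393721) (nat_lit 1216) (nat_lit 213098739) (nat_lit 313) (nat_lit 5) (nat_lit 328) (nat_lit 5) (nat_lit 329) (nat_lit 5) (nat_lit 420) (nat_lit 416) (nat_lit 364)) (XT.nd (nat_lit 78) (nat_lit 0) (nat_lit 76) (XT.lf (nat_lit 0) (nat_lit 2188103775) (nat_lit 1140) (nat_lit 774322559)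 (nat_lit 1216) (nat_lit 7523969544) (nat_lit 313) (nat_lit 5) (nat_lit 328) (nat_lit 5) (nat_lit 329) (nat_lit 5) (nat_lit 421) (nat_lit 416) (nat_lit 363)) (XT.lf (nat_lit 0) (nat_lit 4031373142) (nat_lit 1140) (nat_lit 2204675532) (nat_lit 1216) (nat_lit 4490709742) (nat_lit 314) (nat_lit 5) (nat_lit 329) (nat_lit 5) (nat_lit 330) (nat_lit 5) (nat_lit 422) (nat_lit 416) (nat_lit 362)))) (XT.nd (nat_lit 156) (nat_lit 1064) (nat_lit 0) (XT.nd (nat_lit 78) (nat_lit 0) (nat_lit 0) (XT.lf (nat_lit 0) (nat_lit 6021208734) (nat_lit 1140) (nat_lit 3604967134) (nat_lit 1216) (nat_lit 1351340895) (nat_lit 315) (nat_lit 5) (nat_lit 330) (nat_lit 5) (nat_lit 331) (nat_lit 5) (nat_lit 423) (nat_lit 416) (nat_lit 361)) (XT.lf (nat_lit 76) (nat_lit 6243964497) (nat_lit 0) (nat_lit 1947604457) (nat_lit 1216) (nat_lit 3046822391) (nat_lit 316) (nat_lit 5) (nat_lit 315) (nat_lit 5) (nat_lit 331) (nat_lit 5) (nat_lit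 424) (nat_lit 416) (nat_lit 360))) (XT.nd (nat_lit 78) (nat_lit 1140) (nat_lit 0) (XT.lf (nat_lit 76) (nat_lit 5140759902) (nat_lit 0) (nat_lit 5413276930) (nat_lit 1216) (nat_lit 955773993) (nat_lit 317) (nat_lit 5) (nat_lit 316) (nat_lit 5) (nat_lit 332) (nat_lit 5) (nat_lit 425) (nat_lit 416) (nat_lit 359)) (XT.lf (nat_lit 0) (nat_lit 1293516559) (nat_lit 1216) (nat_lit 7728174967) (nat_lit 76) (nat_lit 2770423909) (nat_lit 301) (nat_lit 5) (nat_lit 317) (nat_lit 5) (nat_lit 302) (nat_lit 5) (nat_lit 426) (nat_lit 416) (nat_lit 358)))))) (XT.nd (nat_lit 468) (nat_lit 3572) (nat_lit 0) (XT.nd (nat_lit 234) (nat_lit 1216) (nat_lit 0) (XT.nd (nat_lit 78) (nat_lit 1368) (nat_lit 0) (XT.lf (nat_lit 0) (nat_lit 3008814098) (nat_lit 1216) (nat_lit 718950062) (nat_lit 1292) (nat_lit 8357727242) (nat_lit 285) (nat_lit 5) (nat_lit 301) (nat_lit 5) (nat_lit 302) (nat_lit 5) (nat_lit 427) (nat_lit 416)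 (nat_lit 357)) (XT.nd (nat_lit 78) (nat_lit 608) (nat_lit 0) (XT.lf (nat_lit 0) (nat_lit 1963258721) (nat_lit 760) (nat_lit 4441218266) (nat_lit 836) (nat_lit 5985444025) (nat_lit 275) (nat_lit 5) (nat_lit 285) (nat_lit 5) (nat_lit 286) (nat_lit 5) (nat_lit 428) (nat_lit 416) (nat_lit 356)) (XT.lf (nat_lit 0) (nat_lit 956500363) (nat_lit 608) (nat_lit 8357700784) (nat_lit 684) (nat_lit 3392402761) (nat_lit 267) (nat_lit 5) (nat_lit 275) (nat_lit 5) (nat_lit 276) (nat_lit 5) (nat_lit 429) (nat_lit 416) (nat_lit 355)))) (XT.nd (nat_lit 78) (nat_lit 1216) (nat_lit 0) (XT.lf (nat_lit 0) (nat_lit 12475444973) (nat_lit 684) (nat_lit 9642511) (nat_lit 76) (nat_lit 550859200) (nat_lit 267) (nat_lit 5) (nat_lit 276) (nat_lit 5) (nat_lit 268) (nat_lit 5) (nat_lit 430) (nat_lit 416) (nat_lit 354)) (XT.nd (nat_lit 78) (nat_lit 532) (nat_lit 0) (XT.lf (nat_lit 0) (nat_lit 2522621050) (nat_lit 684) (nat_lit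 974111516) (nat_lit 76) (nat_lit 9879633022) (nat_lit 258) (nat_lit 5) (nat_lit 267) (nat_lit 5) (nat_lit 259) (nat_lit 5) (nat_lit 431) (nat_lit 416) (nat_lit 353)) (XT.lf (nat_lit 0) (nat_lit 5873759251) (nat_lit 608) (nat_lit 1910453417) (nat_lit 76) (nat_lit 5945668678) (nat_lit 251) (nat_lit 5) (nat_lit 259) (nat_lit 5) (nat_lit 252) (nat_lit 5) (nat_lit 432) (nat_lit 416) (nat_lit 352))))) (XT.nd (nat_lit 234) (nat_lit 1900) (nat_lit 0) (XT.nd (nat_lit 78) (nat_lit 1140) (nat_lit 0) (XT.lf (nat_lit 0) (nat_lit 9518528433) (nat_lit 608) (nat_lit 2805491890) (nat_lit 76) (nat_lit 1773275998) (nat_lit 244) (nat_lit 5) (nat_lit 252) (nat_lit 5) (nat_lit 245) (nat_lit 5) (nat_lit 433) (nat_lit 416) (nat_lit 351)) (XT.nd (nat_lit 78) (nat_lit 608) (nat_lit 0) (XT.lf (nat_lit 0) (nat_lit 10795769354) (nat_lit 532) (nat_lit 2708215779) (nat_lit 608) (nat_lit 974348823) (nat_lit 237) (nat_lit 5) (nat_lit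 244) (nat_lit 5) (nat_lit 245) (nat_lit 5) (nat_lit 434) (nat_lit 416) (nat_lit 350)) (XT.lf (nat_lit 0) (nat_lit 2914439540) (nat_lit 608) (nat_lit 4561229540) (nat_lit 76) (nat_lit 7397179326) (nat_lit 229) (nat_lit 5) (nat_lit 237) (nat_lit 5) (nat_lit 230) (nat_lit 5) (nat_lit 435) (nat_lit 416) (nat_lit 349)))) (XT.nd (nat_lit 156) (nat_lit 988) (nat_lit 0) (XT.nd (nat_lit 78) (nat_lit 456) (nat_lit 0) (XT.lf (nat_lit 0) (nat_lit 7124524088) (nat_lit 532) (nat_lit 5404989637) (nat_lit 76) (nat_lit 2752879949) (nat_lit 223) (nat_lit 5) (nat_lit 230) (nat_lit 5) (nat_lit 224) (nat_lit 5) (nat_lit 436) (nat_lit 416) (nat_lit 348)) (XT.lf (nat_lit 0) (nat_lit 9484603430) (nat_lit 456) (nat_lit 2235004910) (nat_lit 532) (nat_lit 3987577516) (nat_lit 217) (nat_lit 5) (nat_lit 223) (nat_lit 5) (nat_lit 224) (nat_lit 5) (nat_lit 437) (nat_lit 416) (nat_lit 347))) (XT.nd (nat_lit 78) (nat_lit 456)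 (nat_lit 0) (XT.lf (nat_lit 0) (nat_lit 573641624) (nat_lit 532) (nat_lit 7024531130) (nat_lit 76) (nat_lit 8549234841) (nat_lit 210) (nat_lit 5) (nat_lit 217) (nat_lit 5) (nat_lit 211) (nat_lit 5) (nat_lit 438) (nat_lit 416) (nat_lit 346)) (XT.lf (nat_lit 0) (nat_lit 5448824338) (nat_lit 532) (nat_lit 7816489015) (nat_lit 76) (nat_lit 3338095461) (nat_lit 204) (nat_lit 5) (nat_lit 211) (nat_lit 5) (nat_lit 205) (nat_lit 5) (nat_lit 439) (nat_lit 416) (nat_lit 345))))))))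
noncomputable def xc76 : XT := (XT.nd (nat_lit 1950) (nat_lit 3952) (nat_lit 0) (XT.nd (nat_lit 936) (nat_lit 3192) (nat_lit 0) (XT.nd (nat_lit 468) (nat_lit 1976) (nat_lit 0) (XT.nd (nat_lit 234) (nat_lit 1140) (nat_lit 0) (XT.nd (nat_lit 78) (nat_lit 912) (nat_lit 0) (XT.lf (nat_lit 0) (nat_lit 8498471567) (nat_lit 380) (nat_lit 2264800701) (nat_lit 456) (nat_lit 6313076429) (nat_lit 199) (nat_lit 5) (nat_lit 204) (nat_lit 5) (nat_lit 205) (nat_lit 5) (nat_lit 440) (nat_lit 416) (nat_lit 344)) (XT.nd (nat_lit 78) (nat_lit 456) (nat_lit 0) (XT.lf (nat_lit 0) (nat_lit 8247590728) (nat_lit 456) (nat_lit 8310939526) (nat_lit 532) (nat_lit 1007956296) (nat_lit 193) (nat_lit 5) (nat_lit 199) (nat_lit 5) (nat_lit 200) (nat_lit 5) (nat_lit 441) (nat_lit 416) (nat_lit 343)) (XT.lf (nat_lit 0) (nat_lit 4662067098) (nat_lit 456) (nat_lit 10048006203) (nat_lit 76) (nat_lit 3364085331) (nat_lit 187) (nat_lit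 5) (nat_lit 193) (nat_lit 5) (nat_lit 188) (nat_lit 5) (nat_lit 442) (nat_lit 416) (nat_lit 342)))) (XT.nd (nat_lit 78) (nat_lit 760) (nat_lit 0) (XT.lf (nat_lit 0) (nat_lit 7842615362) (nat_lit 380) (nat_lit 2975747097) (nat_lit 456) (nat_lit 7781847134) (nat_lit 182) (nat_lit 5) (nat_lit 187) (nat_lit 5) (nat_lit 188) (nat_lit 5) (nat_lit 443) (nat_lit 416) (nat_lit 341)) (XT.nd (nat_lit 78) (nat_lit 456) (nat_lit 0) (XT.lf (nat_lit 0) (nat_lit 7703915407) (nat_lit 304) (nat_lit 9815210679) (nat_lit 380) (nat_lit 1626340437) (nat_lit 178) (nat_lit 5) (nat_lit 182) (nat_lit 5) (nat_lit 183) (nat_lit 5) (nat_lit 444) (nat_lit 416) (nat_lit 340)) (XT.lf (nat_lit 0) (nat_lit 4952791399) (nat_lit 456) (nat_lit 12110384936) (nat_lit 76) (nat_lit 2647110813) (nat_lit 172) (nat_lit 5) (nat_lit 178) (nat_lit 5) (nat_lit 173) (nat_lit 5) (nat_lit 445) (nat_lit 416) (nat_lit 339))))) (XT.nd (nat_lit 234)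 (nat_lit 988) (nat_lit 0) (XT.nd (nat_lit 78) (nat_lit 684) (nat_lit 0) (XT.lf (nat_lit 0) (nat_lit 7520058178) (nat_lit 304) (nat_lit 4567852733) (nat_lit 380) (nat_lit 8207137494) (nat_lit 168) (nat_lit 5) (nat_lit 172) (nat_lit 5) (nat_lit 173) (nat_lit 5) (nat_lit 446) (nat_lit 416) (nat_lit 338)) (XT.nd (nat_lit 78) (nat_lit 380) (nat_lit 0) (XT.lf (nat_lit 0) (nat_lit 7500435845) (nat_lit 304) (nat_lit 12330516703) (nat_lit 380) (nat_lit 1070562729) (nat_lit 164) (nat_lit 5) (nat_lit 168) (nat_lit 5) (nat_lit 169) (nat_lit 5) (nat_lit 447) (nat_lit 416) (nat_lit 337)) (XT.lf (nat_lit 0) (nat_lit 6529948754) (nat_lit 380) (nat_lit 14021192057) (nat_lit 76) (nat_lit 978341598) (nat_lit 159) (nat_lit 5) (nat_lit 164) (nat_lit 5) (nat_lit 160) (nat_lit 5) (nat_lit 448) (nat_lit 416) (nat_lit 336)))) (XT.nd (nat_lit 78) (nat_lit 684) (nat_lit 0) (XT.lf (nat_lit 0) (nat_lit 7527599216) (nat_lit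 304) (nat_lit 7269585717) (nat_lit 380) (nat_lit 7382082007) (nat_lit 155) (nat_lit 5) (nat_lit 159) (nat_lit 5) (nat_lit 160) (nat_lit 5) (nat_lit 449) (nat_lit 416) (nat_lit 335)) (XT.nd (nat_lit 78) (nat_lit 304) (nat_lit 0) (XT.lf (nat_lit 0) (nat_lit 863359561) (nat_lit 380) (nat_lit 15229976370) (nat_lit 76) (nat_lit 6760254850) (nat_lit 150) (nat_lit 5) (nat_lit 155) (nat_lit 5) (nat_lit 151) (nat_lit 5) (nat_lit 450) (nat_lit 416) (nat_lit 334)) (XT.lf (nat_lit 0) (nat_lit 7723084580) (nat_lit 304) (nat_lit 1920599945) (nat_lit 380) (nat_lit 13907497034) (nat_lit 146) (nat_lit 5) (nat_lit 150) (nat_lit 5) (nat_lit 151) (nat_lit 5) (nat_lit 451) (nat_lit 416) (nat_lit 333)))))) (XT.nd (nat_lit 468) (nat_lit 1596) (nat_lit 0) (XT.nd (nat_lit 234) (nat_lit 760) (nat_lit 0) (XT.nd (nat_lit 78) (nat_lit 608) (nat_lit 0) (XT.lf (nat_lit 0) (nat_lit 7850711541) (nat_lit 228) (nat_lit 11345368214)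 (nat_lit 304) (nat_lit 5077582373) (nat_lit 143) (nat_lit 5) (nat_lit 146) (nat_lit 5) (nat_lit 147) (nat_lit 5) (nat_lit 452) (nat_lit 416) (nat_lit 332)) (XT.nd (nat_lit 78) (nat_lit 228) (nat_lit 0) (XT.lf (nat_lit 0) (nat_lit 4384615592) (nat_lit 380) (nat_lit 16985497251) (nat_lit 76) (nat_lit 3652767477) (nat_lit 138) (nat_lit 5) (nat_lit 143) (nat_lit 5) (nat_lit 139) (nat_lit 5) (nat_lit 453) (nat_lit 416) (nat_lit 331)) (XT.lf (nat_lit 0) (nat_lit 8213993276) (nat_lit 228) (nat_lit 6342043639) (nat_lit 304) (nat_lit 11241782195) (nat_lit 135) (nat_lit 5) (nat_lit 138) (nat_lit 5) (nat_lit 139) (nat_lit 5) (nat_lit 454) (nat_lit 416) (nat_lit 330)))) (XT.nd (nat_lit 78) (nat_lit 532) (nat_lit 0) (XT.lf (nat_lit 0) (nat_lit 8456960430) (nat_lit 228) (nat_lit 17104262899) (nat_lit 304) (nat_lit 1040527259) (nat_lit 132) (nat_lit 5) (nat_lit 135) (nat_lit 5) (nat_lit 136) (nat_lit 5) (nat_lit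 455) (nat_lit 416) (nat_lit 329)) (XT.nd (nat_lit 78) (nat_lit 228) (nat_lit 0) (XT.lf (nat_lit 0) (nat_lit 8700667975) (nat_lit 228) (nat_lit 1088996957) (nat_lit 304) (nat_lit 17644198722) (nat_lit 128) (nat_lit 5) (nat_lit 131) (nat_lit 5) (nat_lit 132) (nat_lit 5) (nat_lit 456) (nat_lit 416) (nat_lit 328)) (XT.lf (nat_lit 0) (nat_lit 8939911055) (nat_lit 228) (nat_lit 12603628029) (nat_lit 304) (nat_lit 6751624844) (nat_lit 125) (nat_lit 5) (nat_lit 128) (nat_lit 5) (nat_lit 129) (nat_lit 5) (nat_lit 457) (nat_lit 416) (nat_lit 327))))) (XT.nd (nat_lit 234) (nat_lit 912) (nat_lit 0) (XT.nd (nat_lit 78) (nat_lit 380) (nat_lit 0) (XT.lf (nat_lit 0) (nat_lit 4909788153) (nat_lit 304) (nat_lit 19950828910) (nat_lit 76) (nat_lit 4328092924) (nat_lit 121) (nat_lit 5) (nat_lit 125) (nat_lit 5) (nat_lit 122) (nat_lit 5) (nat_lit 458) (nat_lit 416) (nat_lit 326)) (XT.nd (nat_lit 78) (nat_lit 152) (nat_lit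 0) (XT.lf (nat_lit 0) (nat_lit 9496713894) (nat_lit 228) (nat_lit 7917753589) (nat_lit 304) (nat_lit 12698466761) (nat_lit 118) (nat_lit 5) (nat_lit 121) (nat_lit 5) (nat_lit 122) (nat_lit 5) (nat_lit 459) (nat_lit 416) (nat_lit 325)) (XT.lf (nat_lit 0) (nat_lit 9816032638) (nat_lit 152) (nat_lit 21104371463) (nat_lit 228) (nat_lit 151686075) (nat_lit 116) (nat_lit 5) (nat_lit 118) (nat_lit 5) (nat_lit 119) (nat_lit 5) (nat_lit 460) (nat_lit 416) (nat_lit 324)))) (XT.nd (nat_lit 156) (nat_lit 456) (nat_lit 0) (XT.nd (nat_lit 78) (nat_lit 152) (nat_lit 0) (XT.lf (nat_lit 0) (nat_lit 10083118038) (nat_lit 228) (nat_lit 3056184777) (nat_lit 304) (nat_lit 18925017260) (nat_lit 112) (nat_lit 5) (nat_lit 115) (nat_lit 5) (nat_lit 116) (nat_lit 5) (nat_lit 461) (nat_lit 416) (nat_lit 323)) (XT.lf (nat_lit 0) (nat_lit 10345443331) (nat_lit 152) (nat_lit 17199826107) (nat_lit 228) (nat_lit 5547241036) (nat_lit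 110) (nat_lit 5) (nat_lit 112) (nat_lit 5) (nat_lit 113) (nat_lit 5) (nat_lit 462) (nat_lit 416) (nat_lit 322))) (XT.nd (nat_lit 78) (nat_lit 152) (nat_lit 0) (XT.lf (nat_lit 0) (nat_lit 8694887597) (nat_lit 304) (nat_lit 23536177794) (nat_lit 76) (nat_lit 1927755359) (nat_lit 106) (nat_lit 5) (nat_lit 110) (nat_lit 5) (nat_lit 107) (nat_lit 5) (nat_lit 463) (nat_lit 416) (nat_lit 321)) (XT.lf (nat_lit 0) (nat_lit 10811131587) (nat_lit 152) (nat_lit 13219567820) (nat_lit 228) (nat_lit 11231211270) (nat_lit 104) (nat_lit 5) (nat_lit 106) (nat_lit 5) (nat_lit 107) (nat_lit 5) (nat_lit 464) (nat_lit 416) (nat_lit 320))))))) (XT.nd (nat_lit 1014) (nat_lit 1672) (nat_lit 0) (XT.nd (nat_lit 468) (nat_lit 1140) (nat_lit 0) (XT.nd (nat_lit 234) (nat_lit 608) (nat_lit 0) (XT.nd (nat_lit 78) (nat_lit 304) (nat_lit 0) (XT.lf (nat_lit 0) (nat_lit 4042236373) (nat_lit 228) (nat_lit 25376434235) (nat_lit 76)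 (nat_lit 6988368137) (nat_lit 101) (nat_lit 5) (nat_lit 104) (nat_lit 5) (nat_lit 102) (nat_lit 5) (nat_lit 465) (nat_lit 416) (nat_lit 319)) (XT.nd (nat_lit 78) (nat_lit 152) (nat_lit 0) (XT.lf (nat_lit 0) (nat_lit 11131469436) (nat_lit 152) (nat_lit 9194473980) (nat_lit 228) (nat_lit 17265778620) (nat_lit 99) (nat_lit 5) (nat_lit 101) (nat_lit 5) (nat_lit 102) (nat_lit 5) (nat_lit 466) (nat_lit 416) (nat_lit 318)) (XT.lf (nat_lit 0) (nat_lit 11237116068) (nat_lit 152) (nat_lit 26656811275) (nat_lit 228) (nat_lit 927610156) (nat_lit 97) (nat_lit 5) (nat_lit 99) (nat_lit 5) (nat_lit 100) (nat_lit 5) (nat_lit 467) (nat_lit 416) (nat_lit 317)))) (XT.nd (nat_lit 78) (nat_lit 380) (nat_lit 0) (XT.lf (nat_lit 0) (nat_lit 11204232165) (nat_lit 152) (nat_lit 5165052258) (nat_lit 228) (nat_lit 23725126140) (nat_lit 94) (nat_lit 5) (nat_lit 96) (nat_lit 5) (nat_lit 97) (nat_lit 5) (nat_lit 468) (nat_lit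 416) (nat_lit 316)) (XT.nd (nat_lit 78) (nat_lit 228) (nat_lit 0) (XT.lf (nat_lit 0) (nat_lit 11093333148) (nat_lit 152) (nat_lit 23962653223) (nat_lit 228) (nat_lit 6358341633) (nat_lit 92) (nat_lit 5) (nat_lit 94) (nat_lit 5) (nat_lit 95) (nat_lit 5) (nat_lit 469) (nat_lit 416) (nat_lit 315)) (XT.lf (nat_lit 0) (nat_lit 10902422558) (nat_lit 152) (nat_lit 1183523461) (nat_lit 228) (nat_lit 30697643226) (nat_lit 89) (nat_lit 5) (nat_lit 91) (nat_lit 5) (nat_lit 92) (nat_lit 5) (nat_lit 470) (nat_lit 416) (nat_lit 314))))) (XT.nd (nat_lit 234) (nat_lit 608) (nat_lit 0) (XT.nd (nat_lit 78) (nat_lit 380) (nat_lit 0) (XT.lf (nat_lit 0) (nat_lit 10498736233) (nat_lit 152) (nat_lit 21442137651) (nat_lit 228) (nat_lit 12259953850) (nat_lit 87) (nat_lit 5) (nat_lit 89) (nat_lit 5) (nat_lit 90) (nat_lit 5) (nat_lit 471) (nat_lit 416) (nat_lit 313)) (XT.nd (nat_lit 78) (nat_lit 152) (nat_lit 0) (XT.lf (nat_lit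 0) (nat_lit 7411416977) (nat_lit 228) (nat_lit 35630607876) (nat_lit 76) (nat_lit 2631346374) (nat_lit 84) (nat_lit 5) (nat_lit 87) (nat_lit 5) (nat_lit 85) (nat_lit 5) (nat_lit 472) (nat_lit 416) (nat_lit 312)) (XT.lf (nat_lit 0) (nat_lit 9279473065) (nat_lit 152) (nat_lit 19176395504) (nat_lit 228) (nat_lit 18740740264) (nat_lit 82) (nat_lit 5) (nat_lit 84) (nat_lit 5) (nat_lit 85) (nat_lit 5) (nat_lit 473) (nat_lit 416) (nat_lit 311)))) (XT.nd (nat_lit 156) (nat_lit 304) (nat_lit 0) (XT.nd (nat_lit 78) (nat_lit 152) (nat_lit 0) (XT.lf (nat_lit 0) (nat_lit 2220615345) (nat_lit 152) (nat_lit 40330730183) (nat_lit 76) (nat_lit 6229206005) (nat_lit 80) (nat_lit 5) (nat_lit 82) (nat_lit 5) (nat_lit 81) (nat_lit 5) (nat_lit 474) (nat_lit 416) (nat_lit 310)) (XT.lf (nat_lit 0) (nat_lit 7222842029) (nat_lit 152) (nat_lit 17265760935) (nat_lit 228) (nat_lit 25930137755) (nat_lit 78) (nat_lit 5) (nat_lit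 80) (nat_lit 5) (nat_lit 81) (nat_lit 5) (nat_lit 475) (nat_lit 416) (nat_lit 309))) (XT.nd (nat_lit 78) (nat_lit 228) (nat_lit 0) (XT.lf (nat_lit 0) (nat_lit 5865028678) (nat_lit 76) (nat_lit 42555569766) (nat_lit 152) (nat_lit 3701723099) (nat_lit 77) (nat_lit 5) (nat_lit 78) (nat_lit 5) (nat_lit 79) (nat_lit 4) (nat_lit 476) (nat_lit 416) (nat_lit 308)) (XT.lf (nat_lit 0) (nat_lit 4069817492) (nat_lit 152) (nat_lit 15833540716) (nat_lit 228) (nat_lit 33982606707) (nat_lit 74) (nat_lit 5) (nat_lit 76) (nat_lit 5) (nat_lit 77) (nat_lit 5) (nat_lit 477) (nat_lit 416) (nat_lit 307)))))) (XT.nd (nat_lit 468) (nat_lit 912) (nat_lit 0) (XT.nd (nat_lit 234) (nat_lit 456) (nat_lit 0) (XT.nd (nat_lit 78) (nat_lit 228) (nat_lit 0) (XT.lf (nat_lit 0) (nat_lit 2010432423) (nat_lit 76) (nat_lit 43206454801) (nat_lit 152) (nat_lit 10501661561) (nat_lit 73) (nat_lit 5) (nat_lit 74) (nat_lit 5) (nat_lit 75)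 (nat_lit 4) (nat_lit 478) (nat_lit 416) (nat_lit 306)) (XT.nd (nat_lit 78) (nat_lit 152) (nat_lit 0) (XT.lf (nat_lit 0) (nat_lit 14541442423) (nat_lit 152) (nat_lit 484128048) (nat_lit 76) (nat_lit 42593181395) (nat_lit 72) (nat_lit 5) (nat_lit 74) (nat_lit 5) (nat_lit 73) (nat_lit 5) (nat_lit 479) (nat_lit 416) (nat_lit 305)) (XT.lf (nat_lit 0) (nat_lit 41296942208) (nat_lit 228) (nat_lit 3370118772) (nat_lit 76) (nat_lit 14923462218) (nat_lit 70) (nat_lit 5) (nat_lit 73) (nat_lit 5) (nat_lit 71) (nat_lit 4) (nat_lit 480) (nat_lit 416) (nat_lit 304)))) (XT.nd (nat_lit 78) (nat_lit 304) (nat_lit 0) (XT.lf (nat_lit 0) (nat_lit 8258136564) (nat_lit 152) (nat_lit 6713962774) (nat_lit 76) (nat_lit 46666166201) (nat_lit 68) (nat_lit 5) (nat_lit 70) (nat_lit 5) (nat_lit 69) (nat_lit 5) (nat_lit 481) (nat_lit 416) (nat_lit 303)) (XT.nd (nat_lit 78) (nat_lit 152) (nat_lit 0) (XT.lf (nat_lit 0) (nat_lit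 36460200924) (nat_lit 228) (nat_lit 10682284859) (nat_lit 76) (nat_lit 16619442765) (nat_lit 66) (nat_lit 5) (nat_lit 69) (nat_lit 5) (nat_lit 67) (nat_lit 4) (nat_lit 482) (nat_lit 416) (nat_lit 302)) (XT.lf (nat_lit 0) (nat_lit 783490471) (nat_lit 152) (nat_lit 15147611281) (nat_lit 76) (nat_lit 50039515907) (nat_lit 64) (nat_lit 5) (nat_lit 66) (nat_lit 5) (nat_lit 65) (nat_lit 5) (nat_lit 483) (nat_lit 416) (nat_lit 301))))) (XT.nd (nat_lit 234) (nat_lit 456) (nat_lit 0) (XT.nd (nat_lit 78) (nat_lit 304) (nat_lit 0) (XT.lf (nat_lit 0) (nat_lit 30444269884) (nat_lit 228) (nat_lit 20457212466) (nat_lit 76) (nat_lit 17358071450) (nat_lit 62) (nat_lit 5) (nat_lit 65) (nat_lit 5) (nat_lit 63) (nat_lit 4) (nat_lit 484) (nat_lit 416) (nat_lit 300)) (XT.nd (nat_lit 78) (nat_lit 228) (nat_lit 0) (XT.lf (nat_lit 0) (nat_lit 44237064558) (nat_lit 76) (nat_lit 18083052983) (nat_lit 152) (nat_lit 8320858575)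 (nat_lit 61) (nat_lit 5) (nat_lit 62) (nat_lit 5) (nat_lit 63) (nat_lit 4) (nat_lit 485) (nat_lit 416) (nat_lit 299)) (XT.lf (nat_lit 0) (nat_lit 22957637860) (nat_lit 228) (nat_lit 33285136591) (nat_lit 76) (nat_lit 16869625067) (nat_lit 58) (nat_lit 5) (nat_lit 61) (nat_lit 5) (nat_lit 59) (nat_lit 4) (nat_lit 486) (nat_lit 416) (nat_lit 298)))) (XT.nd (nat_lit 156) (nat_lit 228) (nat_lit 0) (XT.nd (nat_lit 78) (nat_lit 152) (nat_lit 0) (XT.lf (nat_lit 0) (nat_lit 34607540782) (nat_lit 76) (nat_lit 21800706051) (nat_lit 152) (nat_lit 19273267656) (nat_lit 57) (nat_lit 5) (nat_lit 58) (nat_lit 5) (nat_lit 59) (nat_lit 4) (nat_lit 487) (nat_lit 416) (nat_lit 297)) (XT.lf (nat_lit 0) (nat_lit 13651485698) (nat_lit 152) (nat_lit 49872615005) (nat_lit 76) (nat_lit 14828516866) (nat_lit 55) (nat_lit 5) (nat_lit 57) (nat_lit 5) (nat_lit 56) (nat_lit 4) (nat_lit 488) (nat_lit 416) (nat_lit 296))) (XT.nd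 (nat_lit 78) (nat_lit 152) (nat_lit 0) (XT.lf (nat_lit 0) (nat_lit 21200001756) (nat_lit 76) (nat_lit 27467856312) (nat_lit 152) (nat_lit 32458373731) (nat_lit 54) (nat_lit 5) (nat_lit 55) (nat_lit 5) (nat_lit 56) (nat_lit 4) (nat_lit 489) (nat_lit 416) (nat_lit 295)) (XT.lf (nat_lit 0) (nat_lit 2109263784) (nat_lit 152) (nat_lit 71063693159) (nat_lit 76) (nat_lit 10842967469) (nat_lit 52) (nat_lit 5) (nat_lit 54) (nat_lit 5) (nat_lit 53) (nat_lit 4) (nat_lit 490) (nat_lit 416) (nat_lit 294))))))))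
noncomputable def xc77 : XT := (XT.nd (nat_lit 58266) (nat_lit 0) (nat_lit 5092) (XT.nd (nat_lit 57252) (nat_lit 0) (nat_lit 13984) (XT.nd (nat_lit 56784) (nat_lit 0) (nat_lit 20292) (XT.nd (nat_lit 234) (nat_lit 304) (nat_lit 0) (XT.nd (nat_lit 78) (nat_lit 152) (nat_lit 0) (XT.lf (nat_lit 0) (nat_lit 3125734582) (nat_lit 76) (nat_lit 35534651904) (nat_lit 152) (nat_lit 48352282470) (nat_lit 51) (nat_lit 5) (nat_lit 52) (nat_lit 5) (nat_lit 53) (nat_lit 4) (nat_lit 491) (nat_lit 416) (nat_lit 293)) (XT.nd (nat_lit 78) (nat_lit 152) (nat_lit 0) (XT.lf (nat_lit 0) (nat_lit 77806239188) (nat_lit 152) (nat_lit 7692452466) (nat_lit 0) (nat_lit 4637544017) (nat_lit 51) (nat_lit 5) (nat_lit 53) (nat_lit 4) (nat_lit 51) (nat_lit 4) (nat_lit 492) (nat_lit 416) (nat_lit 292)) (XT.lf (nat_lit 0) (nat_lit 26060831789) (nat_lit 152) (nat_lit 20273441536) (nat_lit 76) (nat_lit 47042408918) (nat_lit 49) (nat_lit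 5) (nat_lit 51) (nat_lit 5) (nat_lit 50) (nat_lit 4) (nat_lit 493) (nat_lit 416) (nat_lit 291)))) (XT.nd (nat_lit 156) (nat_lit 228) (nat_lit 0) (XT.lf (nat_lit 0) (nat_lit 62397058947) (nat_lit 76) (nat_lit 4392020744) (nat_lit 152) (nat_lit 29966222774) (nat_lit 48) (nat_lit 5) (nat_lit 49) (nat_lit 5) (nat_lit 50) (nat_lit 4) (nat_lit 494) (nat_lit 416) (nat_lit 290)) (XT.nd (nat_lit 56316) (nat_lit 0) (nat_lit 21280) (XT.lf (nat_lit 0) (nat_lit 35255955033) (nat_lit 76) (nat_lit 17120050236) (nat_lit 152) (nat_lit 51549298939) (nat_lit 45) (nat_lit 5) (nat_lit 46) (nat_lit 5) (nat_lit 47) (nat_lit 4) (nat_lit 496) (nat_lit 416) (nat_lit 288)) (XT.lf (nat_lit 0) (nat_lit 3503046490) (nat_lit 1140) (nat_lit 702784636) (nat_lit 1140) (nat_lit 702784636) (nat_lit 325) (nat_lit 3) (nat_lit 340) (nat_lit 3) (nat_lit 340) (nat_lit 5) (nat_lit 417) (nat_lit 417) (nat_lit 366))))) (XT.nd (nat_lit 234)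 (nat_lit 0) (nat_lit 0) (XT.nd (nat_lit 78) (nat_lit 988) (nat_lit 0) (XT.lf (nat_lit 76) (nat_lit 6807616293) (nat_lit 0) (nat_lit 1636321337) (nat_lit 1140) (nat_lit 1580661984) (nat_lit 326) (nat_lit 5) (nat_lit 325) (nat_lit 3) (nat_lit 340) (nat_lit 5) (nat_lit 418) (nat_lit 417) (nat_lit 365)) (XT.nd (nat_lit 78) (nat_lit 1064) (nat_lit 0) (XT.lf (nat_lit 76) (nat_lit 5225157444) (nat_lit 0) (nat_lit 4769339903) (nat_lit 1140) (nat_lit 246625722) (nat_lit 327) (nat_lit 5) (nat_lit 326) (nat_lit 5) (nat_lit 341) (nat_lit 5) (nat_lit 419) (nat_lit 417) (nat_lit 364)) (XT.lf (nat_lit 0) (nat_lit 1167346437) (nat_lit 1140) (nat_lit 6802270326) (nat_lit 1216) (nat_lit 2497461231) (nat_lit 312) (nat_lit 5) (nat_lit 327) (nat_lit 5) (nat_lit 328) (nat_lit 5) (nat_lit 420) (nat_lit 417) (nat_lit 363)))) (XT.nd (nat_lit 78) (nat_lit 0) (nat_lit 76) (XT.lf (nat_lit 76) (nat_lit 2127661642) (nat_lit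 0) (nat_lit 569286304) (nat_lit 1216) (nat_lit 8005818779) (nat_lit 313) (nat_lit 5) (nat_lit 312) (nat_lit 5) (nat_lit 328) (nat_lit 5) (nat_lit 421) (nat_lit 417) (nat_lit 362)) (XT.nd (nat_lit 78) (nat_lit 0) (nat_lit 76) (XT.lf (nat_lit 76) (nat_lit 594398892) (nat_lit 0) (nat_lit 3786721524) (nat_lit 1216) (nat_lit 6566786517) (nat_lit 314) (nat_lit 5) (nat_lit 313) (nat_lit 5) (nat_lit 329) (nat_lit 5) (nat_lit 422) (nat_lit 417) (nat_lit 361)) (XT.lf (nat_lit 0) (nat_lit 6218809936) (nat_lit 1140) (nat_lit 892921319) (nat_lit 1216) (nat_lit 4091502946) (nat_lit 314) (nat_lit 5) (nat_lit 329) (nat_lit 5) (nat_lit 330) (nat_lit 5) (nat_lit 423) (nat_lit 417) (nat_lit 360)))))) (XT.nd (nat_lit 468) (nat_lit 3496) (nat_lit 0) (XT.nd (nat_lit 234) (nat_lit 1900) (nat_lit 0) (XT.nd (nat_lit 78) (nat_lit 1140) (nat_lit 0) (XT.lf (nat_lit 0) (nat_lit 8221818566) (nat_lit 1140) (nat_lit 2341547837)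 (nat_lit 1216) (nat_lit 905767249) (nat_lit 315) (nat_lit 5) (nat_lit 330) (nat_lit 5) (nat_lit 331) (nat_lit 5) (nat_lit 424) (nat_lit 417) (nat_lit 359)) (XT.nd (nat_lit 78) (nat_lit 1140) (nat_lit 0) (XT.lf (nat_lit 76) (nat_lit 7958447931) (nat_lit 0) (nat_lit 2465273755) (nat_lit 1216) (nat_lit 1321652504) (nat_lit 316) (nat_lit 5) (nat_lit 315) (nat_lit 5) (nat_lit 331) (nat_lit 5) (nat_lit 425) (nat_lit 417) (nat_lit 358)) (XT.lf (nat_lit 0) (nat_lit 779126970) (nat_lit 1216) (nat_lit 5223152171) (nat_lit 1292) (nat_lit 6030178496) (nat_lit 300) (nat_lit 5) (nat_lit 316) (nat_lit 5) (nat_lit 317) (nat_lit 5) (nat_lit 426) (nat_lit 417) (nat_lit 357)))) (XT.nd (nat_lit 78) (nat_lit 1976) (nat_lit 0) (XT.lf (nat_lit 0) (nat_lit 3048235250) (nat_lit 1216) (nat_lit 6647878722) (nat_lit 76) (nat_lit 2634677437) (nat_lit 301) (nat_lit 5) (nat_lit 317) (nat_lit 5) (nat_lit 302) (nat_lit 5) (nat_lit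 427) (nat_lit 417) (nat_lit 356)) (XT.nd (nat_lit 78) (nat_lit 760) (nat_lit 0) (XT.lf (nat_lit 0) (nat_lit 4583916993) (nat_lit 1216) (nat_lit 953494732) (nat_lit 1292) (nat_lit 7103438837) (nat_lit 285) (nat_lit 5) (nat_lit 301) (nat_lit 5) (nat_lit 302) (nat_lit 5) (nat_lit 428) (nat_lit 417) (nat_lit 355)) (XT.lf (nat_lit 0) (nat_lit 3494613767) (nat_lit 760) (nat_lit 4788006949) (nat_lit 836) (nat_lit 4679851482) (nat_lit 275) (nat_lit 5) (nat_lit 285) (nat_lit 5) (nat_lit 286) (nat_lit 5) (nat_lit 429) (nat_lit 417) (nat_lit 354))))) (XT.nd (nat_lit 234) (nat_lit 1672) (nat_lit 0) (XT.nd (nat_lit 78) (nat_lit 1216) (nat_lit 0) (XT.lf (nat_lit 0) (nat_lit 2443199118) (nat_lit 608) (nat_lit 8833134773) (nat_lit 684) (nat_lit 2020510133) (nat_lit 267) (nat_lit 5) (nat_lit 275) (nat_lit 5) (nat_lit 276) (nat_lit 5) (nat_lit 430) (nat_lit 417) (nat_lit 353)) (XT.nd (nat_lit 78) (nat_lit 532) (nat_lit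 0) (XT.lf (nat_lit 0) (nat_lit 875782774) (nat_lit 684) (nat_lit 12221352653) (nat_lit 76) (nat_lit 547011028) (nat_lit 258) (nat_lit 5) (nat_lit 267) (nat_lit 5) (nat_lit 259) (nat_lit 5) (nat_lit 431) (nat_lit 417) (nat_lit 352)) (XT.lf (nat_lit 0) (nat_lit 385721356) (nat_lit 532) (nat_lit 3650477142) (nat_lit 608) (nat_lit 9967188145) (nat_lit 251) (nat_lit 5) (nat_lit 258) (nat_lit 5) (nat_lit 259) (nat_lit 5) (nat_lit 432) (nat_lit 417) (nat_lit 351)))) (XT.nd (nat_lit 156) (nat_lit 1140) (nat_lit 0) (XT.nd (nat_lit 78) (nat_lit 532) (nat_lit 0) (XT.lf (nat_lit 0) (nat_lit 7498662497) (nat_lit 608) (nat_lit 605318438) (nat_lit 76) (nat_lit 6272292466) (nat_lit 251) (nat_lit 5) (nat_lit 259) (nat_lit 5) (nat_lit 252) (nat_lit 5) (nat_lit 433) (nat_lit 417) (nat_lit 350)) (XT.lf (nat_lit 0) (nat_lit 11276122192) (nat_lit 608) (nat_lit 1547438893) (nat_lit 76) (nat_lit 1939992362) (nat_lit 244)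 (nat_lit 5) (nat_lit 252) (nat_lit 5) (nat_lit 245) (nat_lit 5) (nat_lit 434) (nat_lit 417) (nat_lit 349))) (XT.nd (nat_lit 78) (nat_lit 532) (nat_lit 0) (XT.lf (nat_lit 0) (nat_lit 242951284) (nat_lit 608) (nat_lit 2473668980) (nat_lit 76) (nat_lit 12448398017) (nat_lit 236) (nat_lit 5) (nat_lit 244) (nat_lit 5) (nat_lit 237) (nat_lit 5) (nat_lit 435) (nat_lit 417) (nat_lit 348)) (XT.lf (nat_lit 0) (nat_lit 4261177725) (nat_lit 608) (nat_lit 3411005851) (nat_lit 76) (nat_lit 7908137918) (nat_lit 229) (nat_lit 5) (nat_lit 237) (nat_lit 5) (nat_lit 230) (nat_lit 5) (nat_lit 436) (nat_lit 417) (nat_lit 347))))))) (XT.nd (nat_lit 1014) (nat_lit 3572) (nat_lit 0) (XT.nd (nat_lit 468) (nat_lit 2584) (nat_lit 0) (XT.nd (nat_lit 234) (nat_lit 1292) (nat_lit 0) (XT.nd (nat_lit 78) (nat_lit 988) (nat_lit 0) (XT.lf (nat_lit 0) (nat_lit 8639194686) (nat_lit 532) (nat_lit 4303379454) (nat_lit 76) (nat_lit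 3069053652) (nat_lit 223) (nat_lit 5) (nat_lit 230) (nat_lit 5) (nat_lit 224) (nat_lit 5) (nat_lit 437) (nat_lit 417) (nat_lit 346)) (XT.nd (nat_lit 78) (nat_lit 532) (nat_lit 0) (XT.lf (nat_lit 0) (nat_lit 11291369184) (nat_lit 456) (nat_lit 2130309095) (nat_lit 532) (nat_lit 3037258246) (nat_lit 217) (nat_lit 5) (nat_lit 223) (nat_lit 5) (nat_lit 224) (nat_lit 5) (nat_lit 438) (nat_lit 417) (nat_lit 345)) (XT.lf (nat_lit 0) (nat_lit 1690771501) (nat_lit 532) (nat_lit 6029016011) (nat_lit 76) (nat_lit 9202220583) (nat_lit 210) (nat_lit 5) (nat_lit 217) (nat_lit 5) (nat_lit 211) (nat_lit 5) (nat_lit 439) (nat_lit 417) (nat_lit 344)))) (XT.nd (nat_lit 78) (nat_lit 836) (nat_lit 0) (XT.lf (nat_lit 0) (nat_lit 6772946270) (nat_lit 532) (nat_lit 6870078368) (nat_lit 76) (nat_lit 3758893294) (nat_lit 204) (nat_lit 5) (nat_lit 211) (nat_lit 5) (nat_lit 205) (nat_lit 5) (nat_lit 440) (nat_lit 417) (nat_lit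 343)) (XT.nd (nat_lit 78) (nat_lit 456) (nat_lit 0) (XT.lf (nat_lit 0) (nat_lit 10222298667) (nat_lit 380) (nat_lit 2093223751) (nat_lit 456) (nat_lit 5584115497) (nat_lit 199) (nat_lit 5) (nat_lit 204) (nat_lit 5) (nat_lit 205) (nat_lit 5) (nat_lit 441) (nat_lit 417) (nat_lit 342)) (XT.lf (nat_lit 0) (nat_lit 9948634753) (nat_lit 456) (nat_lit 8418613608) (nat_lit 532) (nat_lit 48038178) (nat_lit 193) (nat_lit 5) (nat_lit 199) (nat_lit 5) (nat_lit 200) (nat_lit 5) (nat_lit 442) (nat_lit 417) (nat_lit 341))))) (XT.nd (nat_lit 234) (nat_lit 1444) (nat_lit 0) (XT.nd (nat_lit 78) (nat_lit 684) (nat_lit 0) (XT.lf (nat_lit 0) (nat_lit 5853848422) (nat_lit 456) (nat_lit 9253705352) (nat_lit 76) (nat_lit 3841459440) (nat_lit 187) (nat_lit 5) (nat_lit 193) (nat_lit 5) (nat_lit 188) (nat_lit 5) (nat_lit 443) (nat_lit 417) (nat_lit 340)) (XT.nd (nat_lit 78) (nat_lit 304) (nat_lit 0) (XT.lf (nat_lit 0) (nat_lit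 9494277613) (nat_lit 380) (nat_lit 2790136994) (nat_lit 456) (nat_lit 7217962864) (nat_lit 182) (nat_lit 5) (nat_lit 187) (nat_lit 5) (nat_lit 188) (nat_lit 5) (nat_lit 444) (nat_lit 417) (nat_lit 339)) (XT.lf (nat_lit 0) (nat_lit 9336460651) (nat_lit 304) (nat_lit 9954753414) (nat_lit 380) (nat_lit 784557471) (nat_lit 178) (nat_lit 5) (nat_lit 182) (nat_lit 5) (nat_lit 183) (nat_lit 5) (nat_lit 445) (nat_lit 417) (nat_lit 338)))) (XT.nd (nat_lit 156) (nat_lit 684) (nat_lit 0) (XT.nd (nat_lit 78) (nat_lit 304) (nat_lit 0) (XT.lf (nat_lit 0) (nat_lit 6077650121) (nat_lit 456) (nat_lit 11463857417) (nat_lit 76) (nat_lit 3127899386) (nat_lit 172) (nat_lit 5) (nat_lit 178) (nat_lit 5) (nat_lit 173) (nat_lit 5) (nat_lit 446) (nat_lit 417) (nat_lit 337)) (XT.lf (nat_lit 0) (nat_lit 9112218183) (nat_lit 304) (nat_lit 4427225531) (nat_lit 380) (nat_lit 7744868702) (nat_lit 168) (nat_lit 5) (nat_lit 172)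 (nat_lit 5) (nat_lit 173) (nat_lit 5) (nat_lit 447) (nat_lit 417) (nat_lit 336))) (XT.nd (nat_lit 78) (nat_lit 380) (nat_lit 0) (XT.lf (nat_lit 0) (nat_lit 9078066060) (nat_lit 304) (nat_lit 12566170040) (nat_lit 380) (nat_lit 277632110) (nat_lit 164) (nat_lit 5) (nat_lit 168) (nat_lit 5) (nat_lit 169) (nat_lit 5) (nat_lit 448) (nat_lit 417) (nat_lit 335)) (XT.lf (nat_lit 0) (nat_lit 7661926449) (nat_lit 380) (nat_lit 13517561783) (nat_lit 76) (nat_lit 1402238467) (nat_lit 159) (nat_lit 5) (nat_lit 164) (nat_lit 5) (nat_lit 160) (nat_lit 5) (nat_lit 449) (nat_lit 417) (nat_lit 334)))))) (XT.nd (nat_lit 468) (nat_lit 1748) (nat_lit 0) (XT.nd (nat_lit 234) (nat_lit 836) (nat_lit 0) (XT.nd (nat_lit 78) (nat_lit 684) (nat_lit 0) (XT.lf (nat_lit 0) (nat_lit 9074136860) (nat_lit 304) (nat_lit 7241279647) (nat_lit 380) (nat_lit 6949400305) (nat_lit 155) (nat_lit 5) (nat_lit 159) (nat_lit 5) (nat_lit 160)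 (nat_lit 5) (nat_lit 450) (nat_lit 417) (nat_lit 333)) (XT.nd (nat_lit 78) (nat_lit 304) (nat_lit 0) (XT.lf (nat_lit 0) (nat_lit 1670073911) (nat_lit 380) (nat_lit 14820521953) (nat_lit 76) (nat_lit 7482710454) (nat_lit 150) (nat_lit 5) (nat_lit 155) (nat_lit 5) (nat_lit 151) (nat_lit 5) (nat_lit 451) (nat_lit 417) (nat_lit 332)) (XT.lf (nat_lit 0) (nat_lit 9246626905) (nat_lit 304) (nat_lit 1617362137) (nat_lit 380) (nat_lit 13842553118) (nat_lit 146) (nat_lit 5) (nat_lit 150) (nat_lit 5) (nat_lit 151) (nat_lit 5) (nat_lit 452) (nat_lit 417) (nat_lit 331)))) (XT.nd (nat_lit 78) (nat_lit 608) (nat_lit 0) (XT.lf (nat_lit 0) (nat_lit 9365866383) (nat_lit 228) (nat_lit 11507435612) (nat_lit 304) (nat_lit 4592468436) (nat_lit 143) (nat_lit 5) (nat_lit 146) (nat_lit 5) (nat_lit 147) (nat_lit 5) (nat_lit 453) (nat_lit 417) (nat_lit 330)) (XT.nd (nat_lit 78) (nat_lit 228) (nat_lit 0) (XT.lf (nat_lit 0)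 (nat_lit 5308414308) (nat_lit 380) (nat_lit 16713088928) (nat_lit 76) (nat_lit 4231335745) (nat_lit 138) (nat_lit 5) (nat_lit 143) (nat_lit 5) (nat_lit 139) (nat_lit 5) (nat_lit 454) (nat_lit 417) (nat_lit 329)) (XT.lf (nat_lit 0) (nat_lit 9714223302) (nat_lit 228) (nat_lit 6251105773) (nat_lit 304) (nat_lit 11101890264) (nat_lit 135) (nat_lit 5) (nat_lit 138) (nat_lit 5) (nat_lit 139) (nat_lit 5) (nat_lit 455) (nat_lit 417) (nat_lit 328))))) (XT.nd (nat_lit 234) (nat_lit 988) (nat_lit 0) (XT.nd (nat_lit 78) (nat_lit 532) (nat_lit 0) (XT.lf (nat_lit 0) (nat_lit 9954201111) (nat_lit 228) (nat_lit 17548185053) (nat_lit 304) (nat_lit 409515079) (nat_lit 132) (nat_lit 5) (nat_lit 135) (nat_lit 5) (nat_lit 136) (nat_lit 5) (nat_lit 456) (nat_lit 417) (nat_lit 327)) (XT.nd (nat_lit 78) (nat_lit 228) (nat_lit 0) (XT.lf (nat_lit 0) (nat_lit 10192284594) (nat_lit 228) (nat_lit 734839157) (nat_lit 304) (nat_lit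 17858953296) (nat_lit 128) (nat_lit 5) (nat_lit 131) (nat_lit 5) (nat_lit 132) (nat_lit 5) (nat_lit 457) (nat_lit 417) (nat_lit 326)) (XT.lf (nat_lit 0) (nat_lit 10428309290) (nat_lit 228) (nat_lit 12823277689) (nat_lit 304) (nat_lit 6439370423) (nat_lit 125) (nat_lit 5) (nat_lit 128) (nat_lit 5) (nat_lit 129) (nat_lit 5) (nat_lit 458) (nat_lit 417) (nat_lit 325)))) (XT.nd (nat_lit 156) (nat_lit 456) (nat_lit 0) (XT.nd (nat_lit 78) (nat_lit 228) (nat_lit 0) (XT.lf (nat_lit 0) (nat_lit 5775848987) (nat_lit 304) (nat_lit 19909845060) (nat_lit 76) (nat_lit 4943798611) (nat_lit 121) (nat_lit 5) (nat_lit 125) (nat_lit 5) (nat_lit 122) (nat_lit 5) (nat_lit 459) (nat_lit 417) (nat_lit 324)) (XT.lf (nat_lit 0) (nat_lit 10980305764) (nat_lit 228) (nat_lit 7905602281) (nat_lit 304) (nat_lit 12714617410) (nat_lit 118) (nat_lit 5) (nat_lit 121) (nat_lit 5) (nat_lit 122) (nat_lit 5) (nat_lit 460) (nat_lit 417)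 (nat_lit 323))) (XT.nd (nat_lit 78) (nat_lit 228) (nat_lit 0) (XT.lf (nat_lit 0) (nat_lit 435063252) (nat_lit 228) (nat_lit 21311962998) (nat_lit 76) (nat_lit 10860946169) (nat_lit 115) (nat_lit 5) (nat_lit 118) (nat_lit 5) (nat_lit 116) (nat_lit 5) (nat_lit 461) (nat_lit 417) (nat_lit 322)) (XT.lf (nat_lit 0) (nat_lit 11563821726) (nat_lit 228) (nat_lit 2804905493) (nat_lit 304) (nat_lit 19281605154) (nat_lit 112) (nat_lit 5) (nat_lit 115) (nat_lit 5) (nat_lit 116) (nat_lit 5) (nat_lit 462) (nat_lit 417) (nat_lit 321))))))))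
noncomputable def xc78 : XT := (XT.nd (nat_lit 1950) (nat_lit 912) (nat_lit 0) (XT.nd (nat_lit 936) (nat_lit 1824) (nat_lit 0) (XT.nd (nat_lit 468) (nat_lit 1140) (nat_lit 0) (XT.nd (nat_lit 234) (nat_lit 532) (nat_lit 0) (XT.nd (nat_lit 78) (nat_lit 456) (nat_lit 0) (XT.lf (nat_lit 0) (nat_lit 11824208301) (nat_lit 152) (nat_lit 17656465741) (nat_lit 228) (nat_lit 5249689219) (nat_lit 110) (nat_lit 5) (nat_lit 112) (nat_lit 5) (nat_lit 113) (nat_lit 5) (nat_lit 463) (nat_lit 417) (nat_lit 320)) (XT.nd (nat_lit 78) (nat_lit 152) (nat_lit 0) (XT.lf (nat_lit 0) (nat_lit 9679401776) (nat_lit 304) (nat_lit 23755561199) (nat_lit 76) (nat_lit 2415279363) (nat_lit 106) (nat_lit 5) (nat_lit 110) (nat_lit 5) (nat_lit 107) (nat_lit 5) (nat_lit 464) (nat_lit 417) (nat_lit 319)) (XT.lf (nat_lit 0) (nat_lit 12281669241) (nat_lit 152) (nat_lit 13483094968) (nat_lit 228) (nat_lit 11244241007) (nat_lit 104) (nat_lit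 5) (nat_lit 106) (nat_lit 5) (nat_lit 107) (nat_lit 5) (nat_lit 465) (nat_lit 417) (nat_lit 318)))) (XT.nd (nat_lit 78) (nat_lit 304) (nat_lit 0) (XT.lf (nat_lit 0) (nat_lit 4769123162) (nat_lit 228) (nat_lit 25719634034) (nat_lit 76) (nat_lit 7722867030) (nat_lit 101) (nat_lit 5) (nat_lit 104) (nat_lit 5) (nat_lit 102) (nat_lit 5) (nat_lit 466) (nat_lit 417) (nat_lit 317)) (XT.nd (nat_lit 78) (nat_lit 152) (nat_lit 0) (XT.lf (nat_lit 0) (nat_lit 12587132055) (nat_lit 152) (nat_lit 9263536812) (nat_lit 228) (nat_lit 17605364319) (nat_lit 99) (nat_lit 5) (nat_lit 101) (nat_lit 5) (nat_lit 102) (nat_lit 5) (nat_lit 467) (nat_lit 417) (nat_lit 316)) (XT.lf (nat_lit 0) (nat_lit 12683478279) (nat_lit 152) (nat_lit 27601441706) (nat_lit 228) (nat_lit 462784450) (nat_lit 97) (nat_lit 5) (nat_lit 99) (nat_lit 5) (nat_lit 100) (nat_lit 5) (nat_lit 468) (nat_lit 417) (nat_lit 315))))) (XT.nd (nat_lit 234)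 (nat_lit 532) (nat_lit 0) (XT.nd (nat_lit 78) (nat_lit 380) (nat_lit 0) (XT.lf (nat_lit 0) (nat_lit 12633305363) (nat_lit 152) (nat_lit 5040157919) (nat_lit 228) (nat_lit 24411076905) (nat_lit 94) (nat_lit 5) (nat_lit 96) (nat_lit 5) (nat_lit 97) (nat_lit 5) (nat_lit 469) (nat_lit 417) (nat_lit 314)) (XT.nd (nat_lit 78) (nat_lit 228) (nat_lit 0) (XT.lf (nat_lit 0) (nat_lit 12502550842) (nat_lit 152) (nat_lit 24780542345) (nat_lit 228) (nat_lit 6187703456) (nat_lit 92) (nat_lit 5) (nat_lit 94) (nat_lit 5) (nat_lit 95) (nat_lit 5) (nat_lit 470) (nat_lit 417) (nat_lit 313)) (XT.lf (nat_lit 0) (nat_lit 12286876867) (nat_lit 152) (nat_lit 867645862) (nat_lit 228) (nat_lit 31754300455) (nat_lit 89) (nat_lit 5) (nat_lit 91) (nat_lit 5) (nat_lit 92) (nat_lit 5) (nat_lit 471) (nat_lit 417) (nat_lit 312)))) (XT.nd (nat_lit 78) (nat_lit 380) (nat_lit 0) (XT.lf (nat_lit 0) (nat_lit 11848990783) (nat_lit 152)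 (nat_lit 22142464687) (nat_lit 228) (nat_lit 12405791189) (nat_lit 87) (nat_lit 5) (nat_lit 89) (nat_lit 5) (nat_lit 90) (nat_lit 5) (nat_lit 472) (nat_lit 417) (nat_lit 311)) (XT.nd (nat_lit 78) (nat_lit 152) (nat_lit 0) (XT.lf (nat_lit 0) (nat_lit 8229534956) (nat_lit 228) (nat_lit 36591795296) (nat_lit 76) (nat_lit 3122268028) (nat_lit 84) (nat_lit 5) (nat_lit 87) (nat_lit 5) (nat_lit 85) (nat_lit 5) (nat_lit 473) (nat_lit 417) (nat_lit 310)) (XT.lf (nat_lit 0) (nat_lit 10540274725) (nat_lit 152) (nat_lit 19772282233) (nat_lit 228) (nat_lit 19230851092) (nat_lit 82) (nat_lit 5) (nat_lit 84) (nat_lit 5) (nat_lit 85) (nat_lit 5) (nat_lit 474) (nat_lit 417) (nat_lit 309)))))) (XT.nd (nat_lit 468) (nat_lit 912) (nat_lit 0) (XT.nd (nat_lit 234) (nat_lit 532) (nat_lit 0) (XT.nd (nat_lit 78) (nat_lit 228) (nat_lit 0) (XT.lf (nat_lit 0) (nat_lit 2759943433) (nat_lit 152) (nat_lit 41555473395) (nat_lit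 76) (nat_lit 6891300069) (nat_lit 80) (nat_lit 5) (nat_lit 82) (nat_lit 5) (nat_lit 81) (nat_lit 5) (nat_lit 475) (nat_lit 417) (nat_lit 308)) (XT.nd (nat_lit 78) (nat_lit 76) (nat_lit 0) (XT.lf (nat_lit 0) (nat_lit 8353080831) (nat_lit 152) (nat_lit 17775247520) (nat_lit 228) (nat_lit 26798877888) (nat_lit 78) (nat_lit 5) (nat_lit 80) (nat_lit 5) (nat_lit 81) (nat_lit 5) (nat_lit 476) (nat_lit 417) (nat_lit 307)) (XT.lf (nat_lit 0) (nat_lit 6914141364) (nat_lit 76) (nat_lit 44333511084) (nat_lit 152) (nat_lit 3468592394) (nat_lit 77) (nat_lit 5) (nat_lit 78) (nat_lit 5) (nat_lit 79) (nat_lit 4) (nat_lit 477) (nat_lit 417) (nat_lit 306)))) (XT.nd (nat_lit 78) (nat_lit 304) (nat_lit 0) (XT.lf (nat_lit 0) (nat_lit 5015441364) (nat_lit 152) (nat_lit 16280748060) (nat_lit 228) (nat_lit 35272132690) (nat_lit 74) (nat_lit 5) (nat_lit 76) (nat_lit 5) (nat_lit 77) (nat_lit 5) (nat_lit 478) (nat_lit 417)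 (nat_lit 305)) (XT.nd (nat_lit 78) (nat_lit 228) (nat_lit 0) (XT.lf (nat_lit 0) (nat_lit 2840196370) (nat_lit 76) (nat_lit 45026425671) (nat_lit 152) (nat_lit 10626176853) (nat_lit 73) (nat_lit 5) (nat_lit 74) (nat_lit 5) (nat_lit 75) (nat_lit 4) (nat_lit 479) (nat_lit 417) (nat_lit 304)) (XT.lf (nat_lit 0) (nat_lit 197489911) (nat_lit 152) (nat_lit 15446971851) (nat_lit 228) (nat_lit 44843939464) (nat_lit 70) (nat_lit 5) (nat_lit 72) (nat_lit 5) (nat_lit 73) (nat_lit 5) (nat_lit 480) (nat_lit 417) (nat_lit 303))))) (XT.nd (nat_lit 234) (nat_lit 608) (nat_lit 0) (XT.nd (nat_lit 78) (nat_lit 304) (nat_lit 0) (XT.lf (nat_lit 0) (nat_lit 43727647617) (nat_lit 228) (nat_lit 2848949821) (nat_lit 76) (nat_lit 15982466821) (nat_lit 70) (nat_lit 5) (nat_lit 73) (nat_lit 5) (nat_lit 71) (nat_lit 4) (nat_lit 481) (nat_lit 417) (nat_lit 302)) (XT.nd (nat_lit 78) (nat_lit 152) (nat_lit 0) (XT.lf (nat_lit 0)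 (nat_lit 9029441763) (nat_lit 152) (nat_lit 6372613941) (nat_lit 76) (nat_lit 49307362517) (nat_lit 68) (nat_lit 5) (nat_lit 70) (nat_lit 5) (nat_lit 69) (nat_lit 5) (nat_lit 482) (nat_lit 417) (nat_lit 301)) (XT.lf (nat_lit 0) (nat_lit 38633844162) (nat_lit 228) (nat_lit 10551301486) (nat_lit 76) (nat_lit 17754352098) (nat_lit 66) (nat_lit 5) (nat_lit 69) (nat_lit 5) (nat_lit 67) (nat_lit 4) (nat_lit 483) (nat_lit 417) (nat_lit 300)))) (XT.nd (nat_lit 156) (nat_lit 304) (nat_lit 0) (XT.nd (nat_lit 78) (nat_lit 152) (nat_lit 0) (XT.lf (nat_lit 0) (nat_lit 1166186904) (nat_lit 152) (nat_lit 15252114746) (nat_lit 76) (nat_lit 52840533621) (nat_lit 64) (nat_lit 5) (nat_lit 66) (nat_lit 5) (nat_lit 65) (nat_lit 5) (nat_lit 484) (nat_lit 417) (nat_lit 299)) (XT.lf (nat_lit 0) (nat_lit 32302635522) (nat_lit 228) (nat_lit 20838798003) (nat_lit 76) (nat_lit 18521006150) (nat_lit 62) (nat_lit 5) (nat_lit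 65) (nat_lit 5) (nat_lit 63) (nat_lit 4) (nat_lit 485) (nat_lit 417) (nat_lit 298))) (XT.nd (nat_lit 78) (nat_lit 228) (nat_lit 0) (XT.lf (nat_lit 0) (nat_lit 47071810850) (nat_lit 76) (nat_lit 18690445096) (nat_lit 152) (nat_lit 8400978095) (nat_lit 61) (nat_lit 5) (nat_lit 62) (nat_lit 5) (nat_lit 63) (nat_lit 4) (nat_lit 486) (nat_lit 417) (nat_lit 297)) (XT.lf (nat_lit 0) (nat_lit 24427886585) (nat_lit 228) (nat_lit 34331193990) (nat_lit 76) (nat_lit 17999261528) (nat_lit 58) (nat_lit 5) (nat_lit 61) (nat_lit 5) (nat_lit 59) (nat_lit 4) (nat_lit 487) (nat_lit 417) (nat_lit 296))))))) (XT.nd (nat_lit 57408) (nat_lit 0) (nat_lit 15048) (XT.nd (nat_lit 468) (nat_lit 380) (nat_lit 0) (XT.nd (nat_lit 234) (nat_lit 228) (nat_lit 0) (XT.nd (nat_lit 78) (nat_lit 228) (nat_lit 0) (XT.lf (nat_lit 0) (nat_lit 36938396689) (nat_lit 76) (nat_lit 22603050687) (nat_lit 152) (nat_lit 19914753111) (nat_lit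 57) (nat_lit 5) (nat_lit 58) (nat_lit 5) (nat_lit 59) (nat_lit 4) (nat_lit 488) (nat_lit 417) (nat_lit 295)) (XT.nd (nat_lit 78) (nat_lit 76) (nat_lit 0) (XT.lf (nat_lit 0) (nat_lit 14643293161) (nat_lit 152) (nat_lit 51770385141) (nat_lit 76) (nat_lit 15847287528) (nat_lit 55) (nat_lit 5) (nat_lit 57) (nat_lit 5) (nat_lit 56) (nat_lit 4) (nat_lit 489) (nat_lit 417) (nat_lit 294)) (XT.lf (nat_lit 0) (nat_lit 22838782234) (nat_lit 76) (nat_lit 28562540118) (nat_lit 152) (nat_lit 33772213541) (nat_lit 54) (nat_lit 5) (nat_lit 55) (nat_lit 5) (nat_lit 56) (nat_lit 4) (nat_lit 490) (nat_lit 417) (nat_lit 293)))) (XT.nd (nat_lit 78) (nat_lit 76) (nat_lit 0) (XT.lf (nat_lit 0) (nat_lit 2511437867) (nat_lit 152) (nat_lit 74042630998) (nat_lit 76) (nat_lit 11653745490) (nat_lit 52) (nat_lit 5) (nat_lit 54) (nat_lit 5) (nat_lit 53) (nat_lit 4) (nat_lit 491) (nat_lit 417) (nat_lit 292)) (XT.nd (nat_lit 78)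 (nat_lit 0) (nat_lit 0) (XT.lf (nat_lit 0) (nat_lit 3839807460) (nat_lit 76) (nat_lit 37041541935) (nat_lit 152) (nat_lit 50473309986) (nat_lit 51) (nat_lit 5) (nat_lit 52) (nat_lit 5) (nat_lit 53) (nat_lit 4) (nat_lit 492) (nat_lit 417) (nat_lit 291)) (XT.lf (nat_lit 0) (nat_lit 81973253506) (nat_lit 152) (nat_lit 7540089109) (nat_lit 0) (nat_lit 5121399279) (nat_lit 51) (nat_lit 5) (nat_lit 53) (nat_lit 4) (nat_lit 51) (nat_lit 4) (nat_lit 493) (nat_lit 417) (nat_lit 290))))) (XT.nd (nat_lit 56628) (nat_lit 0) (nat_lit 20064) (XT.nd (nat_lit 156) (nat_lit 228) (nat_lit 0) (XT.lf (nat_lit 0) (nat_lit 27635076313) (nat_lit 152) (nat_lit 20760118604) (nat_lit 76) (nat_lit 49642181197) (nat_lit 49) (nat_lit 5) (nat_lit 51) (nat_lit 5) (nat_lit 50) (nat_lit 4) (nat_lit 494) (nat_lit 417) (nat_lit 289)) (XT.nd (nat_lit 56394) (nat_lit 0) (nat_lit 21204) (XT.lf (nat_lit 0) (nat_lit 10910885594) (nat_lit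 152) (nat_lit 52485088657) (nat_lit 76) (nat_lit 41877607500) (nat_lit 46) (nat_lit 5) (nat_lit 48) (nat_lit 5) (nat_lit 47) (nat_lit 4) (nat_lit 496) (nat_lit 417) (nat_lit 287)) (XT.lf (nat_lit 0) (nat_lit 4856759688) (nat_lit 1140) (nat_lit 130875474) (nat_lit 1140) (nat_lit 130875474) (nat_lit 325) (nat_lit 3) (nat_lit 340) (nat_lit 3) (nat_lit 340) (nat_lit 5) (nat_lit 418) (nat_lit 418) (nat_lit 364)))) (XT.nd (nat_lit 156) (nat_lit 0) (nat_lit 152) (XT.nd (nat_lit 78) (nat_lit 0) (nat_lit 76) (XT.lf (nat_lit 0) (nat_lit 651578719) (nat_lit 1140) (nat_lit 2136898027) (nat_lit 1216) (nat_lit 7669133668) (nat_lit 310) (nat_lit 5) (nat_lit 325) (nat_lit 3) (nat_lit 326) (nat_lit 5) (nat_lit 419) (nat_lit 418) (nat_lit 363)) (XT.lf (nat_lit 0) (nat_lit 1918367507) (nat_lit 1140) (nat_lit 3999103274) (nat_lit 1216) (nat_lit 4770299564) (nat_lit 311) (nat_lit 5) (nat_lit 326) (nat_lit 5) (nat_lit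 327) (nat_lit 5) (nat_lit 420) (nat_lit 418) (nat_lit 362))) (XT.nd (nat_lit 78) (nat_lit 0) (nat_lit 0) (XT.lf (nat_lit 0) (nat_lit 3298169169) (nat_lit 1140) (nat_lit 5842571245) (nat_lit 1216) (nat_lit 1787217421) (nat_lit 312) (nat_lit 5) (nat_lit 327) (nat_lit 5) (nat_lit 328) (nat_lit 5) (nat_lit 421) (nat_lit 418) (nat_lit 361)) (XT.lf (nat_lit 76) (nat_lit 3496598454) (nat_lit 0) (nat_lit 1321100386) (nat_lit 1216) (nat_lit 6360343026) (nat_lit 313) (nat_lit 5) (nat_lit 312) (nat_lit 5) (nat_lit 328) (nat_lit 5) (nat_lit 422) (nat_lit 418) (nat_lit 360)))))) (XT.nd (nat_lit 468) (nat_lit 4180) (nat_lit 0) (XT.nd (nat_lit 234) (nat_lit 1064) (nat_lit 0) (XT.nd (nat_lit 78) (nat_lit 0) (nat_lit 76) (XT.lf (nat_lit 76) (nat_lit 1915382912) (nat_lit 0) (nat_lit 4581920436) (nat_lit 1216) (nat_lit 4940812657) (nat_lit 314) (nat_lit 5) (nat_lit 313) (nat_lit 5) (nat_lit 329) (nat_lit 5) (nat_lit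 423) (nat_lit 418) (nat_lit 359)) (XT.nd (nat_lit 78) (nat_lit 0) (nat_lit 76) (XT.lf (nat_lit 76) (nat_lit 359227459) (nat_lit 0) (nat_lit 7975217027) (nat_lit 1216) (nat_lit 3374551110) (nat_lit 315) (nat_lit 5) (nat_lit 314) (nat_lit 5) (nat_lit 330) (nat_lit 5) (nat_lit 424) (nat_lit 418) (nat_lit 358)) (XT.lf (nat_lit 0) (nat_lit 10355856791) (nat_lit 1140) (nat_lit 1149176111) (nat_lit 1216) (nat_lit 485621877) (nat_lit 315) (nat_lit 5) (nat_lit 330) (nat_lit 5) (nat_lit 331) (nat_lit 5) (nat_lit 425) (nat_lit 418) (nat_lit 357)))) (XT.nd (nat_lit 78) (nat_lit 0) (nat_lit 76) (XT.lf (nat_lit 0) (nat_lit 309071569) (nat_lit 1216) (nat_lit 2657559438) (nat_lit 1292) (nat_lit 9316091764) (nat_lit 299) (nat_lit 5) (nat_lit 315) (nat_lit 5) (nat_lit 316) (nat_lit 5) (nat_lit 426) (nat_lit 418) (nat_lit 356)) (XT.nd (nat_lit 78) (nat_lit 0) (nat_lit 76) (XT.lf (nat_lit 0) (nat_lit 2417272926) (nat_lit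 1216) (nat_lit 4164849970) (nat_lit 1292) (nat_lit 6003764305) (nat_lit 300) (nat_lit 5) (nat_lit 316) (nat_lit 5) (nat_lit 317) (nat_lit 5) (nat_lit 427) (nat_lit 418) (nat_lit 355)) (XT.lf (nat_lit 0) (nat_lit 4733565709) (nat_lit 1216) (nat_lit 5649927993) (nat_lit 76) (nat_lit 2517642449) (nat_lit 301) (nat_lit 5) (nat_lit 317) (nat_lit 5) (nat_lit 302) (nat_lit 5) (nat_lit 428) (nat_lit 418) (nat_lit 354))))) (XT.nd (nat_lit 234) (nat_lit 1748) (nat_lit 0) (XT.nd (nat_lit 78) (nat_lit 1368) (nat_lit 0) (XT.lf (nat_lit 0) (nat_lit 6105323445) (nat_lit 1216) (nat_lit 1181302953) (nat_lit 1292) (nat_lit 5941898971) (nat_lit 285) (nat_lit 5) (nat_lit 301) (nat_lit 5) (nat_lit 302) (nat_lit 5) (nat_lit 429) (nat_lit 418) (nat_lit 353)) (XT.nd (nat_lit 78) (nat_lit 608) (nat_lit 0) (XT.lf (nat_lit 0) (nat_lit 4969291948) (nat_lit 760) (nat_lit 5140539061) (nat_lit 836) (nat_lit 3458184425) (nat_lit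 275) (nat_lit 5) (nat_lit 285) (nat_lit 5) (nat_lit 286) (nat_lit 5) (nat_lit 430) (nat_lit 418) (nat_lit 352)) (XT.lf (nat_lit 0) (nat_lit 3870459969) (nat_lit 608) (nat_lit 9326990107) (nat_lit 684) (nat_lit 723338120) (nat_lit 267) (nat_lit 5) (nat_lit 275) (nat_lit 5) (nat_lit 276) (nat_lit 5) (nat_lit 431) (nat_lit 418) (nat_lit 351)))) (XT.nd (nat_lit 156) (nat_lit 532) (nat_lit 0) (XT.nd (nat_lit 78) (nat_lit 532) (nat_lit 0) (XT.lf (nat_lit 0) (nat_lit 2237418205) (nat_lit 684) (nat_lit 11498123490) (nat_lit 76) (nat_lit 551111141) (nat_lit 258) (nat_lit 5) (nat_lit 267) (nat_lit 5) (nat_lit 259) (nat_lit 5) (nat_lit 432) (nat_lit 418) (nat_lit 350)) (XT.lf (nat_lit 0) (nat_lit 1701056870) (nat_lit 532) (nat_lit 3804501681) (nat_lit 608) (nat_lit 9159813252) (nat_lit 251) (nat_lit 5) (nat_lit 258) (nat_lit 5) (nat_lit 259) (nat_lit 5) (nat_lit 433) (nat_lit 418) (nat_lit 349))) (XT.nd (nat_lit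 78) (nat_lit 0) (nat_lit 0) (XT.lf (nat_lit 0) (nat_lit 647488245) (nat_lit 532) (nat_lit 8439782935) (nat_lit 608) (nat_lit 5971255463) (nat_lit 244) (nat_lit 5) (nat_lit 251) (nat_lit 5) (nat_lit 252) (nat_lit 5) (nat_lit 434) (nat_lit 418) (nat_lit 348)) (XT.lf (nat_lit 0) (nat_lit 13002438358) (nat_lit 608) (nat_lit 356486492) (nat_lit 76) (nat_lit 2107787957) (nat_lit 244) (nat_lit 5) (nat_lit 252) (nat_lit 5) (nat_lit 245) (nat_lit 5) (nat_lit 435) (nat_lit 418) (nat_lit 347))))))))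
noncomputable def xc79 : XT := (XT.nd (nat_lit 1950) (nat_lit 4484) (nat_lit 0) (XT.nd (nat_lit 936) (nat_lit 3876) (nat_lit 0) (XT.nd (nat_lit 468) (nat_lit 2432) (nat_lit 0) (XT.nd (nat_lit 234) (nat_lit 1444) (nat_lit 0) (XT.nd (nat_lit 78) (nat_lit 988) (nat_lit 0) (XT.lf (nat_lit 0) (nat_lit 1385306414) (nat_lit 608) (nat_lit 1342758765) (nat_lit 76) (nat_lit 13161165555) (nat_lit 236) (nat_lit 5) (nat_lit 244) (nat_lit 5) (nat_lit 237) (nat_lit 5) (nat_lit 436) (nat_lit 418) (nat_lit 346)) (XT.nd (nat_lit 78) (nat_lit 456) (nat_lit 0) (XT.lf (nat_lit 0) (nat_lit 5563593717) (nat_lit 608) (nat_lit 2331410867) (nat_lit 76) (nat_lit 8431526335) (nat_lit 229) (nat_lit 5) (nat_lit 237) (nat_lit 5) (nat_lit 230) (nat_lit 5) (nat_lit 437) (nat_lit 418) (nat_lit 345)) (XT.lf (nat_lit 0) (nat_lit 10121897636) (nat_lit 532) (nat_lit 3274231271) (nat_lit 76) (nat_lit 3384438039) (nat_lit 223) (nat_lit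 5) (nat_lit 230) (nat_lit 5) (nat_lit 224) (nat_lit 5) (nat_lit 438) (nat_lit 418) (nat_lit 344)))) (XT.nd (nat_lit 78) (nat_lit 988) (nat_lit 0) (XT.lf (nat_lit 0) (nat_lit 13064586698) (nat_lit 456) (nat_lit 2040501593) (nat_lit 532) (nat_lit 2146311049) (nat_lit 217) (nat_lit 5) (nat_lit 223) (nat_lit 5) (nat_lit 224) (nat_lit 5) (nat_lit 439) (nat_lit 418) (nat_lit 343)) (XT.nd (nat_lit 78) (nat_lit 456) (nat_lit 0) (XT.lf (nat_lit 0) (nat_lit 2762564313) (nat_lit 532) (nat_lit 5108932411) (nat_lit 76) (nat_lit 9866888528) (nat_lit 210) (nat_lit 5) (nat_lit 217) (nat_lit 5) (nat_lit 211) (nat_lit 5) (nat_lit 440) (nat_lit 418) (nat_lit 342)) (XT.lf (nat_lit 0) (nat_lit 8065498994) (nat_lit 532) (nat_lit 6000670634) (nat_lit 76) (nat_lit 4177126448) (nat_lit 204) (nat_lit 5) (nat_lit 211) (nat_lit 5) (nat_lit 205) (nat_lit 5) (nat_lit 441) (nat_lit 418) (nat_lit 341))))) (XT.nd (nat_lit 234)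 (nat_lit 1140) (nat_lit 0) (XT.nd (nat_lit 78) (nat_lit 912) (nat_lit 0) (XT.lf (nat_lit 0) (nat_lit 11911557384) (nat_lit 380) (nat_lit 1939547536) (nat_lit 456) (nat_lit 4915824898) (nat_lit 199) (nat_lit 5) (nat_lit 204) (nat_lit 5) (nat_lit 205) (nat_lit 5) (nat_lit 442) (nat_lit 418) (nat_lit 340)) (XT.nd (nat_lit 78) (nat_lit 380) (nat_lit 0) (XT.lf (nat_lit 0) (nat_lit 849048516) (nat_lit 532) (nat_lit 7702672256) (nat_lit 76) (nat_lit 10757300928) (nat_lit 192) (nat_lit 5) (nat_lit 199) (nat_lit 5) (nat_lit 193) (nat_lit 5) (nat_lit 443) (nat_lit 418) (nat_lit 339)) (XT.lf (nat_lit 0) (nat_lit 7016090022) (nat_lit 456) (nat_lit 8540244441) (nat_lit 76) (nat_lit 4313958573) (nat_lit 187) (nat_lit 5) (nat_lit 193) (nat_lit 5) (nat_lit 188) (nat_lit 5) (nat_lit 444) (nat_lit 418) (nat_lit 338)))) (XT.nd (nat_lit 78) (nat_lit 760) (nat_lit 0) (XT.lf (nat_lit 0) (nat_lit 11111423678) (nat_lit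 380) (nat_lit 2626335491) (nat_lit 456) (nat_lit 6714483115) (nat_lit 182) (nat_lit 5) (nat_lit 187) (nat_lit 5) (nat_lit 188) (nat_lit 5) (nat_lit 445) (nat_lit 418) (nat_lit 337)) (XT.nd (nat_lit 78) (nat_lit 380) (nat_lit 0) (XT.lf (nat_lit 0) (nat_lit 13230247) (nat_lit 380) (nat_lit 10120562340) (nat_lit 76) (nat_lit 10921302579) (nat_lit 177) (nat_lit 5) (nat_lit 182) (nat_lit 5) (nat_lit 178) (nat_lit 5) (nat_lit 446) (nat_lit 418) (nat_lit 336)) (XT.lf (nat_lit 0) (nat_lit 7177196258) (nat_lit 456) (nat_lit 10901406963) (nat_lit 76) (nat_lit 3600333387) (nat_lit 172) (nat_lit 5) (nat_lit 178) (nat_lit 5) (nat_lit 173) (nat_lit 5) (nat_lit 447) (nat_lit 418) (nat_lit 335)))))) (XT.nd (nat_lit 468) (nat_lit 1900) (nat_lit 0) (XT.nd (nat_lit 234) (nat_lit 988) (nat_lit 0) (XT.nd (nat_lit 78) (nat_lit 684) (nat_lit 0) (XT.lf (nat_lit 0) (nat_lit 10670919430) (nat_lit 304) (nat_lit 4313874936)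 (nat_lit 380) (nat_lit 7340614933) (nat_lit 168) (nat_lit 5) (nat_lit 172) (nat_lit 5) (nat_lit 173) (nat_lit 5) (nat_lit 448) (nat_lit 418) (nat_lit 334)) (XT.nd (nat_lit 78) (nat_lit 304) (nat_lit 0) (XT.lf (nat_lit 0) (nat_lit 466955987) (nat_lit 380) (nat_lit 12377344630) (nat_lit 76) (nat_lit 10151099327) (nat_lit 163) (nat_lit 5) (nat_lit 168) (nat_lit 5) (nat_lit 164) (nat_lit 5) (nat_lit 449) (nat_lit 418) (nat_lit 333)) (XT.lf (nat_lit 0) (nat_lit 8775617110) (nat_lit 380) (nat_lit 13100750642) (nat_lit 76) (nat_lit 1812468113) (nat_lit 159) (nat_lit 5) (nat_lit 164) (nat_lit 5) (nat_lit 160) (nat_lit 5) (nat_lit 450) (nat_lit 418) (nat_lit 332)))) (XT.nd (nat_lit 78) (nat_lit 684) (nat_lit 0) (XT.lf (nat_lit 0) (nat_lit 10589211215) (nat_lit 304) (nat_lit 7247982762) (nat_lit 380) (nat_lit 6569626962) (nat_lit 155) (nat_lit 5) (nat_lit 159) (nat_lit 5) (nat_lit 160) (nat_lit 5) (nat_lit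 451) (nat_lit 418) (nat_lit 331)) (XT.nd (nat_lit 78) (nat_lit 304) (nat_lit 0) (XT.lf (nat_lit 0) (nat_lit 2446136674) (nat_lit 380) (nat_lit 14499458947) (nat_lit 76) (nat_lit 8205546984) (nat_lit 150) (nat_lit 5) (nat_lit 155) (nat_lit 5) (nat_lit 151) (nat_lit 5) (nat_lit 452) (nat_lit 418) (nat_lit 330)) (XT.lf (nat_lit 0) (nat_lit 10740602782) (nat_lit 304) (nat_lit 1336082574) (nat_lit 380) (nat_lit 13845049239) (nat_lit 146) (nat_lit 5) (nat_lit 150) (nat_lit 5) (nat_lit 151) (nat_lit 5) (nat_lit 453) (nat_lit 418) (nat_lit 329))))) (XT.nd (nat_lit 234) (nat_lit 1064) (nat_lit 0) (XT.nd (nat_lit 78) (nat_lit 608) (nat_lit 0) (XT.lf (nat_lit 0) (nat_lit 10852408470) (nat_lit 228) (nat_lit 11715278130) (nat_lit 304) (nat_lit 4151803372) (nat_lit 143) (nat_lit 5) (nat_lit 146) (nat_lit 5) (nat_lit 147) (nat_lit 5) (nat_lit 454) (nat_lit 418) (nat_lit 328)) (XT.nd (nat_lit 78) (nat_lit 228)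 (nat_lit 0) (XT.lf (nat_lit 0) (nat_lit 6212898912) (nat_lit 380) (nat_lit 16531343659) (nat_lit 76) (nat_lit 4802022618) (nat_lit 138) (nat_lit 5) (nat_lit 143) (nat_lit 5) (nat_lit 139) (nat_lit 5) (nat_lit 455) (nat_lit 418) (nat_lit 327)) (XT.lf (nat_lit 0) (nat_lit 11188170624) (nat_lit 228) (nat_lit 6193556710) (nat_lit 304) (nat_lit 11020267280) (nat_lit 135) (nat_lit 5) (nat_lit 138) (nat_lit 5) (nat_lit 139) (nat_lit 5) (nat_lit 456) (nat_lit 418) (nat_lit 326)))) (XT.nd (nat_lit 156) (nat_lit 532) (nat_lit 0) (XT.nd (nat_lit 78) (nat_lit 228) (nat_lit 0) (XT.lf (nat_lit 0) (nat_lit 185846548) (nat_lit 304) (nat_lit 17864818018) (nat_lit 76) (nat_lit 11238693746) (nat_lit 131) (nat_lit 5) (nat_lit 135) (nat_lit 5) (nat_lit 132) (nat_lit 5) (nat_lit 457) (nat_lit 418) (nat_lit 325)) (XT.lf (nat_lit 0) (nat_lit 11660250952) (nat_lit 228) (nat_lit 400961933) (nat_lit 304) (nat_lit 18146499272)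 (nat_lit 128) (nat_lit 5) (nat_lit 131) (nat_lit 5) (nat_lit 132) (nat_lit 5) (nat_lit 458) (nat_lit 418) (nat_lit 324))) (XT.nd (nat_lit 78) (nat_lit 304) (nat_lit 0) (XT.lf (nat_lit 0) (nat_lit 11894307686) (nat_lit 228) (nat_lit 13092077183) (nat_lit 304) (nat_lit 6171918842) (nat_lit 125) (nat_lit 5) (nat_lit 128) (nat_lit 5) (nat_lit 129) (nat_lit 5) (nat_lit 459) (nat_lit 418) (nat_lit 323)) (XT.lf (nat_lit 0) (nat_lit 6627518013) (nat_lit 304) (nat_lit 19963364257) (nat_lit 76) (nat_lit 5553166356) (nat_lit 121) (nat_lit 5) (nat_lit 125) (nat_lit 5) (nat_lit 122) (nat_lit 5) (nat_lit 460) (nat_lit 418) (nat_lit 322))))))) (XT.nd (nat_lit 1014) (nat_lit 1900) (nat_lit 0) (XT.nd (nat_lit 468) (nat_lit 1292) (nat_lit 0) (XT.nd (nat_lit 234) (nat_lit 608) (nat_lit 0) (XT.nd (nat_lit 78) (nat_lit 456) (nat_lit 0) (XT.lf (nat_lit 0) (nat_lit 12444292640) (nat_lit 228) (nat_lit 7930779005) (nat_lit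 304) (nat_lit 12789103212) (nat_lit 118) (nat_lit 5) (nat_lit 121) (nat_lit 5) (nat_lit 122) (nat_lit 5) (nat_lit 461) (nat_lit 418) (nat_lit 321)) (XT.nd (nat_lit 78) (nat_lit 228) (nat_lit 0) (XT.lf (nat_lit 0) (nat_lit 993075546) (nat_lit 228) (nat_lit 21465664174) (nat_lit 76) (nat_lit 11763515043) (nat_lit 115) (nat_lit 5) (nat_lit 118) (nat_lit 5) (nat_lit 116) (nat_lit 5) (nat_lit 462) (nat_lit 418) (nat_lit 320)) (XT.lf (nat_lit 0) (nat_lit 13027770442) (nat_lit 228) (nat_lit 2578630565) (nat_lit 304) (nat_lit 19710843717) (nat_lit 112) (nat_lit 5) (nat_lit 115) (nat_lit 5) (nat_lit 116) (nat_lit 5) (nat_lit 463) (nat_lit 418) (nat_lit 319)))) (XT.nd (nat_lit 78) (nat_lit 456) (nat_lit 0) (XT.lf (nat_lit 0) (nat_lit 13287521032) (nat_lit 152) (nat_lit 18173437173) (nat_lit 228) (nat_lit 4990709854) (nat_lit 110) (nat_lit 5) (nat_lit 112) (nat_lit 5) (nat_lit 113) (nat_lit 5) (nat_lit 464)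 (nat_lit 418) (nat_lit 318)) (XT.nd (nat_lit 78) (nat_lit 152) (nat_lit 0) (XT.lf (nat_lit 0) (nat_lit 10662029279) (nat_lit 304) (nat_lit 24074926122) (nat_lit 76) (nat_lit 2890815427) (nat_lit 106) (nat_lit 5) (nat_lit 110) (nat_lit 5) (nat_lit 107) (nat_lit 5) (nat_lit 465) (nat_lit 418) (nat_lit 317)) (XT.lf (nat_lit 0) (nat_lit 13739272952) (nat_lit 152) (nat_lit 13796749723) (nat_lit 228) (nat_lit 11308919428) (nat_lit 104) (nat_lit 5) (nat_lit 106) (nat_lit 5) (nat_lit 107) (nat_lit 5) (nat_lit 466) (nat_lit 418) (nat_lit 316))))) (XT.nd (nat_lit 234) (nat_lit 760) (nat_lit 0) (XT.nd (nat_lit 78) (nat_lit 304) (nat_lit 0) (XT.lf (nat_lit 0) (nat_lit 5483565687) (nat_lit 228) (nat_lit 26166049375) (nat_lit 76) (nat_lit 8458289734) (nat_lit 101) (nat_lit 5) (nat_lit 104) (nat_lit 5) (nat_lit 102) (nat_lit 5) (nat_lit 467) (nat_lit 418) (nat_lit 315)) (XT.nd (nat_lit 78) (nat_lit 152) (nat_lit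 0) (XT.lf (nat_lit 0) (nat_lit 14031989018) (nat_lit 152) (nat_lit 9372372731) (nat_lit 228) (nat_lit 18010618266) (nat_lit 99) (nat_lit 5) (nat_lit 101) (nat_lit 5) (nat_lit 102) (nat_lit 5) (nat_lit 468) (nat_lit 418) (nat_lit 314)) (XT.lf (nat_lit 0) (nat_lit 14119925579) (nat_lit 152) (nat_lit 28629395757) (nat_lit 228) (nat_lit 22244567) (nat_lit 97) (nat_lit 5) (nat_lit 99) (nat_lit 5) (nat_lit 100) (nat_lit 5) (nat_lit 469) (nat_lit 418) (nat_lit 313)))) (XT.nd (nat_lit 156) (nat_lit 380) (nat_lit 0) (XT.nd (nat_lit 78) (nat_lit 152) (nat_lit 0) (XT.lf (nat_lit 0) (nat_lit 14053053707) (nat_lit 152) (nat_lit 4944640234) (nat_lit 228) (nat_lit 25177838876) (nat_lit 94) (nat_lit 5) (nat_lit 96) (nat_lit 5) (nat_lit 97) (nat_lit 5) (nat_lit 470) (nat_lit 418) (nat_lit 312)) (XT.lf (nat_lit 0) (nat_lit 13902781365) (nat_lit 152) (nat_lit 25674677363) (nat_lit 228) (nat_lit 6053954607) (nat_lit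 92) (nat_lit 5) (nat_lit 94) (nat_lit 5) (nat_lit 95) (nat_lit 5) (nat_lit 471) (nat_lit 418) (nat_lit 311))) (XT.nd (nat_lit 78) (nat_lit 152) (nat_lit 0) (XT.lf (nat_lit 0) (nat_lit 13662520649) (nat_lit 152) (nat_lit 570843327) (nat_lit 228) (nat_lit 32908251368) (nat_lit 89) (nat_lit 5) (nat_lit 91) (nat_lit 5) (nat_lit 92) (nat_lit 5) (nat_lit 472) (nat_lit 418) (nat_lit 310)) (XT.lf (nat_lit 0) (nat_lit 13190027841) (nat_lit 152) (nat_lit 22912372642) (nat_lit 228) (nat_lit 12602352536) (nat_lit 87) (nat_lit 5) (nat_lit 89) (nat_lit 5) (nat_lit 90) (nat_lit 5) (nat_lit 473) (nat_lit 418) (nat_lit 309)))))) (XT.nd (nat_lit 468) (nat_lit 912) (nat_lit 0) (XT.nd (nat_lit 234) (nat_lit 456) (nat_lit 0) (XT.nd (nat_lit 78) (nat_lit 304) (nat_lit 0) (XT.lf (nat_lit 0) (nat_lit 9046950144) (nat_lit 228) (nat_lit 37677309802) (nat_lit 76) (nat_lit 3604326405) (nat_lit 84) (nat_lit 5) (nat_lit 87)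 (nat_lit 5) (nat_lit 85) (nat_lit 5) (nat_lit 474) (nat_lit 418) (nat_lit 308)) (XT.nd (nat_lit 78) (nat_lit 152) (nat_lit 0) (XT.lf (nat_lit 0) (nat_lit 11790034953) (nat_lit 152) (nat_lit 20431705373) (nat_lit 228) (nat_lit 19787018423) (nat_lit 82) (nat_lit 5) (nat_lit 84) (nat_lit 5) (nat_lit 85) (nat_lit 5) (nat_lit 475) (nat_lit 418) (nat_lit 307)) (XT.lf (nat_lit 0) (nat_lit 3286418901) (nat_lit 152) (nat_lit 42915067204) (nat_lit 76) (nat_lit 7553900232) (nat_lit 80) (nat_lit 5) (nat_lit 82) (nat_lit 5) (nat_lit 81) (nat_lit 5) (nat_lit 476) (nat_lit 418) (nat_lit 306)))) (XT.nd (nat_lit 78) (nat_lit 304) (nat_lit 0) (XT.lf (nat_lit 0) (nat_lit 9468328251) (nat_lit 152) (nat_lit 18343101541) (nat_lit 228) (nat_lit 27750824726) (nat_lit 78) (nat_lit 5) (nat_lit 80) (nat_lit 5) (nat_lit 81) (nat_lit 5) (nat_lit 477) (nat_lit 418) (nat_lit 305)) (XT.nd (nat_lit 78) (nat_lit 228) (nat_lit 0)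 (XT.lf (nat_lit 0) (nat_lit 7945436870) (nat_lit 76) (nat_lit 46232874012) (nat_lit 152) (nat_lit 3262686993) (nat_lit 77) (nat_lit 5) (nat_lit 78) (nat_lit 5) (nat_lit 79) (nat_lit 4) (nat_lit 478) (nat_lit 418) (nat_lit 304)) (XT.lf (nat_lit 0) (nat_lit 5939349938) (nat_lit 152) (nat_lit 16782341299) (nat_lit 228) (nat_lit 36664216102) (nat_lit 74) (nat_lit 5) (nat_lit 76) (nat_lit 5) (nat_lit 77) (nat_lit 5) (nat_lit 479) (nat_lit 418) (nat_lit 303))))) (XT.nd (nat_lit 234) (nat_lit 608) (nat_lit 0) (XT.nd (nat_lit 78) (nat_lit 228) (nat_lit 0) (XT.lf (nat_lit 0) (nat_lit 3643650476) (nat_lit 76) (nat_lit 46969037776) (nat_lit 152) (nat_lit 10794158905) (nat_lit 73) (nat_lit 5) (nat_lit 74) (nat_lit 5) (nat_lit 75) (nat_lit 4) (nat_lit 480) (nat_lit 418) (nat_lit 302)) (XT.nd (nat_lit 78) (nat_lit 0) (nat_lit 0) (XT.lf (nat_lit 0) (nat_lit 856744193) (nat_lit 152) (nat_lit 15915456204) (nat_lit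 228) (nat_lit 46730246520) (nat_lit 70) (nat_lit 5) (nat_lit 72) (nat_lit 5) (nat_lit 73) (nat_lit 5) (nat_lit 481) (nat_lit 418) (nat_lit 301)) (XT.lf (nat_lit 0) (nat_lit 46245874261) (nat_lit 228) (nat_lit 2365841857) (nat_lit 76) (nat_lit 17065337547) (nat_lit 70) (nat_lit 5) (nat_lit 73) (nat_lit 5) (nat_lit 71) (nat_lit 4) (nat_lit 482) (nat_lit 418) (nat_lit 300)))) (XT.nd (nat_lit 156) (nat_lit 304) (nat_lit 0) (XT.nd (nat_lit 78) (nat_lit 152) (nat_lit 0) (XT.lf (nat_lit 0) (nat_lit 9805991739) (nat_lit 152) (nat_lit 6077143076) (nat_lit 76) (nat_lit 52051994139) (nat_lit 68) (nat_lit 5) (nat_lit 70) (nat_lit 5) (nat_lit 69) (nat_lit 5) (nat_lit 483) (nat_lit 418) (nat_lit 299)) (XT.lf (nat_lit 0) (nat_lit 40883571012) (nat_lit 228) (nat_lit 10475603417) (nat_lit 76) (nat_lit 18917749698) (nat_lit 66) (nat_lit 5) (nat_lit 69) (nat_lit 5) (nat_lit 67) (nat_lit 4) (nat_lit 484) (nat_lit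 418) (nat_lit 298))) (XT.nd (nat_lit 78) (nat_lit 152) (nat_lit 0) (XT.lf (nat_lit 0) (nat_lit 1536080748) (nat_lit 152) (nat_lit 15422541709) (nat_lit 76) (nat_lit 55753800138) (nat_lit 64) (nat_lit 5) (nat_lit 66) (nat_lit 5) (nat_lit 65) (nat_lit 5) (nat_lit 485) (nat_lit 418) (nat_lit 297)) (XT.lf (nat_lit 0) (nat_lit 34222667202) (nat_lit 228) (nat_lit 21299082496) (nat_lit 76) (nat_lit 19714658388) (nat_lit 62) (nat_lit 5) (nat_lit 65) (nat_lit 5) (nat_lit 63) (nat_lit 4) (nat_lit 486) (nat_lit 418) (nat_lit 296))))))))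
noncomputable def xc80 : XT := (XT.nd (nat_lit 58422) (nat_lit 0) (nat_lit 5852) (XT.nd (nat_lit 57408) (nat_lit 0) (nat_lit 15428) (XT.nd (nat_lit 468) (nat_lit 304) (nat_lit 0) (XT.nd (nat_lit 234) (nat_lit 380) (nat_lit 0) (XT.nd (nat_lit 78) (nat_lit 304) (nat_lit 0) (XT.lf (nat_lit 0) (nat_lit 49990383764) (nat_lit 76) (nat_lit 19355796796) (nat_lit 152) (nat_lit 8516334566) (nat_lit 61) (nat_lit 5) (nat_lit 62) (nat_lit 5) (nat_lit 63) (nat_lit 4) (nat_lit 487) (nat_lit 418) (nat_lit 295)) (XT.nd (nat_lit 78) (nat_lit 76) (nat_lit 0) (XT.lf (nat_lit 0) (nat_lit 25941677135) (nat_lit 228) (nat_lit 35487028583) (nat_lit 76) (nat_lit 19158775814) (nat_lit 58) (nat_lit 5) (nat_lit 61) (nat_lit 5) (nat_lit 59) (nat_lit 4) (nat_lit 488) (nat_lit 418) (nat_lit 294)) (XT.lf (nat_lit 0) (nat_lit 39329968558) (nat_lit 76) (nat_lit 23472259306) (nat_lit 152) (nat_lit 20618265888) (nat_lit 57) (nat_lit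 5) (nat_lit 58) (nat_lit 5) (nat_lit 59) (nat_lit 4) (nat_lit 489) (nat_lit 418) (nat_lit 293)))) (XT.nd (nat_lit 78) (nat_lit 228) (nat_lit 0) (XT.lf (nat_lit 0) (nat_lit 15655941428) (nat_lit 152) (nat_lit 53818441255) (nat_lit 76) (nat_lit 16891211830) (nat_lit 55) (nat_lit 5) (nat_lit 57) (nat_lit 5) (nat_lit 56) (nat_lit 4) (nat_lit 490) (nat_lit 418) (nat_lit 292)) (XT.nd (nat_lit 78) (nat_lit 152) (nat_lit 0) (XT.lf (nat_lit 0) (nat_lit 24505692221) (nat_lit 76) (nat_lit 29737869836) (nat_lit 152) (nat_lit 35180480566) (nat_lit 54) (nat_lit 5) (nat_lit 55) (nat_lit 5) (nat_lit 56) (nat_lit 4) (nat_lit 491) (nat_lit 418) (nat_lit 291)) (XT.lf (nat_lit 0) (nat_lit 2906135287) (nat_lit 152) (nat_lit 77223903755) (nat_lit 76) (nat_lit 12480087774) (nat_lit 52) (nat_lit 5) (nat_lit 54) (nat_lit 5) (nat_lit 53) (nat_lit 4) (nat_lit 492) (nat_lit 418) (nat_lit 290))))) (XT.nd (nat_lit 56706) (nat_lit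 0) (nat_lit 19912) (XT.nd (nat_lit 78) (nat_lit 228) (nat_lit 0) (XT.lf (nat_lit 0) (nat_lit 4537726313) (nat_lit 76) (nat_lit 38648863871) (nat_lit 152) (nat_lit 52727962689) (nat_lit 51) (nat_lit 5) (nat_lit 52) (nat_lit 5) (nat_lit 53) (nat_lit 4) (nat_lit 493) (nat_lit 418) (nat_lit 289)) (XT.nd (nat_lit 156) (nat_lit 228) (nat_lit 0) (XT.lf (nat_lit 0) (nat_lit 86322893378) (nat_lit 152) (nat_lit 7430031449) (nat_lit 0) (nat_lit 5606020772) (nat_lit 51) (nat_lit 5) (nat_lit 53) (nat_lit 4) (nat_lit 51) (nat_lit 4) (nat_lit 494) (nat_lit 418) (nat_lit 288)) (XT.lf (nat_lit 0) (nat_lit 69794538965) (nat_lit 76) (nat_lit 4355529358) (nat_lit 152) (nat_lit 32507191666) (nat_lit 48) (nat_lit 5) (nat_lit 49) (nat_lit 5) (nat_lit 50) (nat_lit 4) (nat_lit 496) (nat_lit 418) (nat_lit 286)))) (XT.nd (nat_lit 78) (nat_lit 0) (nat_lit 0) (XT.lf (nat_lit 0) (nat_lit 409140642) (nat_lit 0) (nat_lit 409140642)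 (nat_lit 1140) (nat_lit 4523443731) (nat_lit 310) (nat_lit 5) (nat_lit 310) (nat_lit 3) (nat_lit 325) (nat_lit 3) (nat_lit 419) (nat_lit 419) (nat_lit 362)) (XT.nd (nat_lit 78) (nat_lit 0) (nat_lit 76) (XT.lf (nat_lit 0) (nat_lit 2751175501) (nat_lit 1140) (nat_lit 1132649544) (nat_lit 1216) (nat_lit 7034354959) (nat_lit 310) (nat_lit 5) (nat_lit 325) (nat_lit 3) (nat_lit 326) (nat_lit 5) (nat_lit 420) (nat_lit 419) (nat_lit 361)) (XT.lf (nat_lit 0) (nat_lit 3984600015) (nat_lit 1140) (nat_lit 3051510701) (nat_lit 1216) (nat_lit 4126652631) (nat_lit 311) (nat_lit 5) (nat_lit 326) (nat_lit 5) (nat_lit 327) (nat_lit 5) (nat_lit 421) (nat_lit 419) (nat_lit 360)))))) (XT.nd (nat_lit 468) (nat_lit 3648) (nat_lit 0) (XT.nd (nat_lit 234) (nat_lit 988) (nat_lit 0) (XT.nd (nat_lit 78) (nat_lit 0) (nat_lit 0) (XT.lf (nat_lit 0) (nat_lit 5342855778) (nat_lit 1140) (nat_lit 4955731466) (nat_lit 1216) (nat_lit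 1119102672) (nat_lit 312) (nat_lit 5) (nat_lit 327) (nat_lit 5) (nat_lit 328) (nat_lit 5) (nat_lit 422) (nat_lit 419) (nat_lit 359)) (XT.nd (nat_lit 78) (nat_lit 0) (nat_lit 76) (XT.lf (nat_lit 76) (nat_lit 4816601827) (nat_lit 0) (nat_lit 2043254967) (nat_lit 1216) (nat_lit 4822789481) (nat_lit 313) (nat_lit 5) (nat_lit 312) (nat_lit 5) (nat_lit 328) (nat_lit 5) (nat_lit 423) (nat_lit 419) (nat_lit 358)) (XT.lf (nat_lit 76) (nat_lit 3182366639) (nat_lit 0) (nat_lit 5360551909) (nat_lit 1216) (nat_lit 3415233619) (nat_lit 314) (nat_lit 5) (nat_lit 313) (nat_lit 5) (nat_lit 329) (nat_lit 5) (nat_lit 424) (nat_lit 419) (nat_lit 357)))) (XT.nd (nat_lit 78) (nat_lit 1140) (nat_lit 0) (XT.lf (nat_lit 76) (nat_lit 1570344637) (nat_lit 0) (nat_lit 8826070048) (nat_lit 1216) (nat_lit 1848437884) (nat_lit 315) (nat_lit 5) (nat_lit 314) (nat_lit 5) (nat_lit 330) (nat_lit 5) (nat_lit 425) (nat_lit 419) (nat_lit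 356)) (XT.nd (nat_lit 78) (nat_lit 1216) (nat_lit 0) (XT.lf (nat_lit 0) (nat_lit 12436413619) (nat_lit 1140) (nat_lit 18925965) (nat_lit 1216) (nat_lit 87740854) (nat_lit 315) (nat_lit 5) (nat_lit 330) (nat_lit 5) (nat_lit 331) (nat_lit 5) (nat_lit 426) (nat_lit 419) (nat_lit 355)) (XT.lf (nat_lit 0) (nat_lit 1839016746) (nat_lit 1216) (nat_lit 1606425278) (nat_lit 1292) (nat_lit 9405774870) (nat_lit 299) (nat_lit 5) (nat_lit 315) (nat_lit 5) (nat_lit 316) (nat_lit 5) (nat_lit 427) (nat_lit 419) (nat_lit 354))))) (XT.nd (nat_lit 234) (nat_lit 2584) (nat_lit 0) (XT.nd (nat_lit 78) (nat_lit 1140) (nat_lit 0) (XT.lf (nat_lit 0) (nat_lit 3988648687) (nat_lit 1216) (nat_lit 3176303526) (nat_lit 1292) (nat_lit 6006516587) (nat_lit 300) (nat_lit 5) (nat_lit 316) (nat_lit 5) (nat_lit 317) (nat_lit 5) (nat_lit 428) (nat_lit 419) (nat_lit 353)) (XT.nd (nat_lit 78) (nat_lit 1216) (nat_lit 0) (XT.lf (nat_lit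 0) (nat_lit 6360646441) (nat_lit 1216) (nat_lit 4725762565) (nat_lit 76) (nat_lit 2417883882) (nat_lit 301) (nat_lit 5) (nat_lit 317) (nat_lit 5) (nat_lit 302) (nat_lit 5) (nat_lit 429) (nat_lit 419) (nat_lit 352)) (XT.lf (nat_lit 0) (nat_lit 7582662726) (nat_lit 1216) (nat_lit 1403754481) (nat_lit 1292) (nat_lit 4863291600) (nat_lit 285) (nat_lit 5) (nat_lit 301) (nat_lit 5) (nat_lit 302) (nat_lit 5) (nat_lit 430) (nat_lit 419) (nat_lit 351)))) (XT.nd (nat_lit 156) (nat_lit 1140) (nat_lit 0) (XT.nd (nat_lit 78) (nat_lit 684) (nat_lit 0) (XT.lf (nat_lit 0) (nat_lit 6396847241) (nat_lit 760) (nat_lit 5500179859) (nat_lit 836) (nat_lit 2310767450) (nat_lit 275) (nat_lit 5) (nat_lit 285) (nat_lit 5) (nat_lit 286) (nat_lit 5) (nat_lit 431) (nat_lit 419) (nat_lit 350)) (XT.lf (nat_lit 0) (nat_lit 498774744) (nat_lit 684) (nat_lit 9336873884) (nat_lit 76) (nat_lit 4743936559) (nat_lit 266) (nat_lit 5)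 (nat_lit 275) (nat_lit 5) (nat_lit 267) (nat_lit 5) (nat_lit 432) (nat_lit 419) (nat_lit 349))) (XT.nd (nat_lit 78) (nat_lit 532) (nat_lit 0) (XT.lf (nat_lit 0) (nat_lit 3544614551) (nat_lit 684) (nat_lit 10862783137) (nat_lit 76) (nat_lit 557577865) (nat_lit 258) (nat_lit 5) (nat_lit 267) (nat_lit 5) (nat_lit 259) (nat_lit 5) (nat_lit 433) (nat_lit 419) (nat_lit 348)) (XT.lf (nat_lit 0) (nat_lit 2961664767) (nat_lit 532) (nat_lit 3968877042) (nat_lit 608) (nat_lit 8433464413) (nat_lit 251) (nat_lit 5) (nat_lit 258) (nat_lit 5) (nat_lit 259) (nat_lit 5) (nat_lit 434) (nat_lit 419) (nat_lit 347))))))) (XT.nd (nat_lit 1014) (nat_lit 3952) (nat_lit 0) (XT.nd (nat_lit 468) (nat_lit 3040) (nat_lit 0) (XT.nd (nat_lit 234) (nat_lit 1444) (nat_lit 0) (XT.nd (nat_lit 78) (nat_lit 608) (nat_lit 0) (XT.lf (nat_lit 0) (nat_lit 1855120690) (nat_lit 532) (nat_lit 8793005457) (nat_lit 608) (nat_lit 5129995885)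 (nat_lit 244) (nat_lit 5) (nat_lit 251) (nat_lit 5) (nat_lit 252) (nat_lit 5) (nat_lit 435) (nat_lit 419) (nat_lit 346)) (XT.nd (nat_lit 78) (nat_lit 76) (nat_lit 0) (XT.lf (nat_lit 0) (nat_lit 791542600) (nat_lit 532) (nat_lit 13923057358) (nat_lit 608) (nat_lit 1493457584) (nat_lit 237) (nat_lit 5) (nat_lit 244) (nat_lit 5) (nat_lit 245) (nat_lit 5) (nat_lit 436) (nat_lit 419) (nat_lit 345)) (XT.lf (nat_lit 0) (nat_lit 2479703314) (nat_lit 608) (nat_lit 271943267) (nat_lit 76) (nat_lit 13901171803) (nat_lit 236) (nat_lit 5) (nat_lit 244) (nat_lit 5) (nat_lit 237) (nat_lit 5) (nat_lit 437) (nat_lit 419) (nat_lit 344)))) (XT.nd (nat_lit 78) (nat_lit 912) (nat_lit 0) (XT.lf (nat_lit 0) (nat_lit 6829852410) (nat_lit 608) (nat_lit 1314062793) (nat_lit 76) (nat_lit 8969185663) (nat_lit 229) (nat_lit 5) (nat_lit 237) (nat_lit 5) (nat_lit 230) (nat_lit 5) (nat_lit 438) (nat_lit 419) (nat_lit 343)) (XT.nd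 (nat_lit 78) (nat_lit 456) (nat_lit 0) (XT.lf (nat_lit 0) (nat_lit 11581047587) (nat_lit 532) (nat_lit 2309310493) (nat_lit 76) (nat_lit 3700536771) (nat_lit 223) (nat_lit 5) (nat_lit 230) (nat_lit 5) (nat_lit 224) (nat_lit 5) (nat_lit 439) (nat_lit 419) (nat_lit 342)) (XT.lf (nat_lit 0) (nat_lit 14814096355) (nat_lit 456) (nat_lit 1964455964) (nat_lit 532) (nat_lit 1307767092) (nat_lit 217) (nat_lit 5) (nat_lit 223) (nat_lit 5) (nat_lit 224) (nat_lit 5) (nat_lit 440) (nat_lit 419) (nat_lit 341))))) (XT.nd (nat_lit 234) (nat_lit 1672) (nat_lit 0) (XT.nd (nat_lit 78) (nat_lit 836) (nat_lit 0) (XT.lf (nat_lit 0) (nat_lit 3796161224) (nat_lit 532) (nat_lit 4256411321) (nat_lit 76) (nat_lit 10545772108) (nat_lit 210) (nat_lit 5) (nat_lit 217) (nat_lit 5) (nat_lit 211) (nat_lit 5) (nat_lit 441) (nat_lit 419) (nat_lit 340)) (XT.nd (nat_lit 78) (nat_lit 380) (nat_lit 0) (XT.lf (nat_lit 0) (nat_lit 9333994270)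 (nat_lit 532) (nat_lit 5200557541) (nat_lit 76) (nat_lit 4594861218) (nat_lit 204) (nat_lit 5) (nat_lit 211) (nat_lit 5) (nat_lit 205) (nat_lit 5) (nat_lit 442) (nat_lit 419) (nat_lit 339)) (XT.lf (nat_lit 0) (nat_lit 13575746395) (nat_lit 380) (nat_lit 1802205274) (nat_lit 456) (nat_lit 4302209001) (nat_lit 199) (nat_lit 5) (nat_lit 204) (nat_lit 5) (nat_lit 205) (nat_lit 5) (nat_lit 443) (nat_lit 419) (nat_lit 338)))) (XT.nd (nat_lit 156) (nat_lit 760) (nat_lit 0) (XT.nd (nat_lit 78) (nat_lit 380) (nat_lit 0) (XT.lf (nat_lit 0) (nat_lit 1706470861) (nat_lit 532) (nat_lit 7011318559) (nat_lit 76) (nat_lit 11532153921) (nat_lit 192) (nat_lit 5) (nat_lit 199) (nat_lit 5) (nat_lit 193) (nat_lit 5) (nat_lit 444) (nat_lit 419) (nat_lit 337)) (XT.lf (nat_lit 0) (nat_lit 8155601260) (nat_lit 456) (nat_lit 7900457409) (nat_lit 76) (nat_lit 4784011296) (nat_lit 187) (nat_lit 5) (nat_lit 193) (nat_lit 5)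 (nat_lit 188) (nat_lit 5) (nat_lit 445) (nat_lit 419) (nat_lit 336))) (XT.nd (nat_lit 78) (nat_lit 380) (nat_lit 0) (XT.lf (nat_lit 0) (nat_lit 12703214530) (nat_lit 380) (nat_lit 2482542650) (nat_lit 456) (nat_lit 6266191041) (nat_lit 182) (nat_lit 5) (nat_lit 187) (nat_lit 5) (nat_lit 188) (nat_lit 5) (nat_lit 446) (nat_lit 419) (nat_lit 335)) (XT.lf (nat_lit 0) (nat_lit 758509059) (nat_lit 380) (nat_lit 9585506230) (nat_lit 76) (nat_lit 11741428732) (nat_lit 177) (nat_lit 5) (nat_lit 182) (nat_lit 5) (nat_lit 178) (nat_lit 5) (nat_lit 447) (nat_lit 419) (nat_lit 334)))))) (XT.nd (nat_lit 468) (nat_lit 1900) (nat_lit 0) (XT.nd (nat_lit 234) (nat_lit 988) (nat_lit 0) (XT.nd (nat_lit 78) (nat_lit 684) (nat_lit 0) (XT.lf (nat_lit 0) (nat_lit 8257746438) (nat_lit 456) (nat_lit 10416415338) (nat_lit 76) (nat_lit 4067006775) (nat_lit 172) (nat_lit 5) (nat_lit 178) (nat_lit 5) (nat_lit 173) (nat_lit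 5) (nat_lit 448) (nat_lit 419) (nat_lit 333)) (XT.nd (nat_lit 78) (nat_lit 380) (nat_lit 0) (XT.lf (nat_lit 0) (nat_lit 12205000854) (nat_lit 304) (nat_lit 4225975148) (nat_lit 380) (nat_lit 6989734384) (nat_lit 168) (nat_lit 5) (nat_lit 172) (nat_lit 5) (nat_lit 173) (nat_lit 5) (nat_lit 449) (nat_lit 419) (nat_lit 332)) (XT.lf (nat_lit 0) (nat_lit 1173098545) (nat_lit 380) (nat_lit 11993177468) (nat_lit 76) (nat_lit 10958353572) (nat_lit 163) (nat_lit 5) (nat_lit 168) (nat_lit 5) (nat_lit 164) (nat_lit 5) (nat_lit 450) (nat_lit 419) (nat_lit 331)))) (XT.nd (nat_lit 78) (nat_lit 684) (nat_lit 0) (XT.lf (nat_lit 0) (nat_lit 9877068567) (nat_lit 380) (nat_lit 12764686832) (nat_lit 76) (nat_lit 2211588319) (nat_lit 159) (nat_lit 5) (nat_lit 164) (nat_lit 5) (nat_lit 160) (nat_lit 5) (nat_lit 451) (nat_lit 419) (nat_lit 330)) (XT.nd (nat_lit 78) (nat_lit 380) (nat_lit 0) (XT.lf (nat_lit 0) (nat_lit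 12081363398) (nat_lit 304) (nat_lit 7288059118) (nat_lit 380) (nat_lit 6238477146) (nat_lit 155) (nat_lit 5) (nat_lit 159) (nat_lit 5) (nat_lit 160) (nat_lit 5) (nat_lit 452) (nat_lit 419) (nat_lit 329)) (XT.lf (nat_lit 0) (nat_lit 3196614998) (nat_lit 380) (nat_lit 14261085770) (nat_lit 76) (nat_lit 8932106427) (nat_lit 150) (nat_lit 5) (nat_lit 155) (nat_lit 5) (nat_lit 151) (nat_lit 5) (nat_lit 453) (nat_lit 419) (nat_lit 328))))) (XT.nd (nat_lit 234) (nat_lit 988) (nat_lit 0) (XT.nd (nat_lit 78) (nat_lit 608) (nat_lit 0) (XT.lf (nat_lit 0) (nat_lit 12213364923) (nat_lit 304) (nat_lit 1074408092) (nat_lit 380) (nat_lit 13911785569) (nat_lit 146) (nat_lit 5) (nat_lit 150) (nat_lit 5) (nat_lit 151) (nat_lit 5) (nat_lit 454) (nat_lit 419) (nat_lit 327)) (XT.nd (nat_lit 78) (nat_lit 380) (nat_lit 0) (XT.lf (nat_lit 0) (nat_lit 12318610541) (nat_lit 228) (nat_lit 11967682161) (nat_lit 304) (nat_lit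 3751422124) (nat_lit 143) (nat_lit 5) (nat_lit 146) (nat_lit 5) (nat_lit 147) (nat_lit 5) (nat_lit 455) (nat_lit 419) (nat_lit 326)) (XT.lf (nat_lit 0) (nat_lit 7103193643) (nat_lit 380) (nat_lit 16435099309) (nat_lit 76) (nat_lit 5367856252) (nat_lit 138) (nat_lit 5) (nat_lit 143) (nat_lit 5) (nat_lit 139) (nat_lit 5) (nat_lit 456) (nat_lit 419) (nat_lit 325)))) (XT.nd (nat_lit 156) (nat_lit 456) (nat_lit 0) (XT.nd (nat_lit 78) (nat_lit 304) (nat_lit 0) (XT.lf (nat_lit 0) (nat_lit 12643938481) (nat_lit 228) (nat_lit 6167538988) (nat_lit 304) (nat_lit 10993759105) (nat_lit 135) (nat_lit 5) (nat_lit 138) (nat_lit 5) (nat_lit 139) (nat_lit 5) (nat_lit 457) (nat_lit 419) (nat_lit 324)) (XT.lf (nat_lit 0) (nat_lit 746110950) (nat_lit 304) (nat_lit 17863152990) (nat_lit 76) (nat_lit 12127998120) (nat_lit 131) (nat_lit 5) (nat_lit 135) (nat_lit 5) (nat_lit 132) (nat_lit 5) (nat_lit 458) (nat_lit 419)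 (nat_lit 323))) (XT.nd (nat_lit 78) (nat_lit 228) (nat_lit 0) (XT.lf (nat_lit 0) (nat_lit 13112517129) (nat_lit 228) (nat_lit 84847506) (nat_lit 304) (nat_lit 18504707057) (nat_lit 128) (nat_lit 5) (nat_lit 131) (nat_lit 5) (nat_lit 132) (nat_lit 5) (nat_lit 459) (nat_lit 419) (nat_lit 322)) (XT.lf (nat_lit 0) (nat_lit 13345787635) (nat_lit 228) (nat_lit 13408935563) (nat_lit 304) (nat_lit 5945893377) (nat_lit 125) (nat_lit 5) (nat_lit 128) (nat_lit 5) (nat_lit 129) (nat_lit 5) (nat_lit 460) (nat_lit 419) (nat_lit 321))))))))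
noncomputable def xc81 : XT := (XT.nd (nat_lit 1950) (nat_lit 1292) (nat_lit 0) (XT.nd (nat_lit 936) (nat_lit 1976) (nat_lit 0) (XT.nd (nat_lit 468) (nat_lit 1064) (nat_lit 0) (XT.nd (nat_lit 234) (nat_lit 684) (nat_lit 0) (XT.nd (nat_lit 78) (nat_lit 456) (nat_lit 0) (XT.lf (nat_lit 0) (nat_lit 7469439562) (nat_lit 304) (nat_lit 20107135140) (nat_lit 76) (nat_lit 6159330629) (nat_lit 121) (nat_lit 5) (nat_lit 125) (nat_lit 5) (nat_lit 122) (nat_lit 5) (nat_lit 461) (nat_lit 419) (nat_lit 320)) (XT.nd (nat_lit 78) (nat_lit 228) (nat_lit 0) (XT.lf (nat_lit 0) (nat_lit 13896413474) (nat_lit 228) (nat_lit 7991623270) (nat_lit 304) (nat_lit 12919492550) (nat_lit 118) (nat_lit 5) (nat_lit 121) (nat_lit 5) (nat_lit 122) (nat_lit 5) (nat_lit 462) (nat_lit 419) (nat_lit 319)) (XT.lf (nat_lit 0) (nat_lit 1529132164) (nat_lit 228) (nat_lit 21711829947) (nat_lit 76) (nat_lit 12677787452) (nat_lit 115) (nat_lit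 5) (nat_lit 118) (nat_lit 5) (nat_lit 116) (nat_lit 5) (nat_lit 463) (nat_lit 419) (nat_lit 318)))) (XT.nd (nat_lit 78) (nat_lit 456) (nat_lit 0) (XT.lf (nat_lit 0) (nat_lit 14482567244) (nat_lit 228) (nat_lit 2375117465) (nat_lit 304) (nat_lit 20211268719) (nat_lit 112) (nat_lit 5) (nat_lit 115) (nat_lit 5) (nat_lit 116) (nat_lit 5) (nat_lit 464) (nat_lit 419) (nat_lit 317)) (XT.nd (nat_lit 78) (nat_lit 304) (nat_lit 0) (XT.lf (nat_lit 0) (nat_lit 14742919592) (nat_lit 152) (nat_lit 18750270614) (nat_lit 228) (nat_lit 4767262284) (nat_lit 110) (nat_lit 5) (nat_lit 112) (nat_lit 5) (nat_lit 113) (nat_lit 5) (nat_lit 465) (nat_lit 419) (nat_lit 316)) (XT.lf (nat_lit 0) (nat_lit 11647427717) (nat_lit 304) (nat_lit 24490996113) (nat_lit 76) (nat_lit 3357144948) (nat_lit 106) (nat_lit 5) (nat_lit 110) (nat_lit 5) (nat_lit 107) (nat_lit 5) (nat_lit 466) (nat_lit 419) (nat_lit 315))))) (XT.nd (nat_lit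 234) (nat_lit 532) (nat_lit 0) (XT.nd (nat_lit 78) (nat_lit 380) (nat_lit 0) (XT.lf (nat_lit 0) (nat_lit 15191334331) (nat_lit 152) (nat_lit 14159603088) (nat_lit 228) (nat_lit 11423087731) (nat_lit 104) (nat_lit 5) (nat_lit 106) (nat_lit 5) (nat_lit 107) (nat_lit 5) (nat_lit 467) (nat_lit 419) (nat_lit 314)) (XT.nd (nat_lit 78) (nat_lit 152) (nat_lit 0) (XT.lf (nat_lit 0) (nat_lit 6189477637) (nat_lit 228) (nat_lit 26712840405) (nat_lit 76) (nat_lit 9198010890) (nat_lit 101) (nat_lit 5) (nat_lit 104) (nat_lit 5) (nat_lit 102) (nat_lit 5) (nat_lit 468) (nat_lit 419) (nat_lit 313)) (XT.lf (nat_lit 0) (nat_lit 15473271335) (nat_lit 152) (nat_lit 9519593706) (nat_lit 228) (nat_lit 18480297234) (nat_lit 99) (nat_lit 5) (nat_lit 101) (nat_lit 5) (nat_lit 102) (nat_lit 5) (nat_lit 469) (nat_lit 419) (nat_lit 312)))) (XT.nd (nat_lit 78) (nat_lit 304) (nat_lit 0) (XT.lf (nat_lit 0) (nat_lit 389462749)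 (nat_lit 228) (nat_lit 29348088548) (nat_lit 76) (nat_lit 15160211910) (nat_lit 96) (nat_lit 5) (nat_lit 99) (nat_lit 5) (nat_lit 97) (nat_lit 5) (nat_lit 470) (nat_lit 419) (nat_lit 311)) (XT.nd (nat_lit 78) (nat_lit 152) (nat_lit 0) (XT.lf (nat_lit 0) (nat_lit 15470520973) (nat_lit 152) (nat_lit 4876656300) (nat_lit 228) (nat_lit 26025128213) (nat_lit 94) (nat_lit 5) (nat_lit 96) (nat_lit 5) (nat_lit 97) (nat_lit 5) (nat_lit 471) (nat_lit 419) (nat_lit 310)) (XT.lf (nat_lit 0) (nat_lit 15300961686) (nat_lit 152) (nat_lit 26645583930) (nat_lit 228) (nat_lit 5954716716) (nat_lit 92) (nat_lit 5) (nat_lit 94) (nat_lit 5) (nat_lit 95) (nat_lit 5) (nat_lit 472) (nat_lit 419) (nat_lit 309)))))) (XT.nd (nat_lit 468) (nat_lit 912) (nat_lit 0) (XT.nd (nat_lit 234) (nat_lit 456) (nat_lit 0) (XT.nd (nat_lit 78) (nat_lit 380) (nat_lit 0) (XT.lf (nat_lit 0) (nat_lit 15036168167) (nat_lit 152) (nat_lit 290827827)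 (nat_lit 228) (nat_lit 34160227101) (nat_lit 89) (nat_lit 5) (nat_lit 91) (nat_lit 5) (nat_lit 92) (nat_lit 5) (nat_lit 473) (nat_lit 419) (nat_lit 308)) (XT.nd (nat_lit 78) (nat_lit 228) (nat_lit 0) (XT.lf (nat_lit 0) (nat_lit 14528520179) (nat_lit 152) (nat_lit 23752127074) (nat_lit 228) (nat_lit 12848136184) (nat_lit 87) (nat_lit 5) (nat_lit 89) (nat_lit 5) (nat_lit 90) (nat_lit 5) (nat_lit 474) (nat_lit 419) (nat_lit 307)) (XT.lf (nat_lit 0) (nat_lit 9867495783) (nat_lit 228) (nat_lit 38886277097) (nat_lit 76) (nat_lit 4080184426) (nat_lit 84) (nat_lit 5) (nat_lit 87) (nat_lit 5) (nat_lit 85) (nat_lit 5) (nat_lit 475) (nat_lit 419) (nat_lit 306)))) (XT.nd (nat_lit 78) (nat_lit 304) (nat_lit 0) (XT.lf (nat_lit 0) (nat_lit 13035089074) (nat_lit 152) (nat_lit 21154704726) (nat_lit 228) (nat_lit 20408682066) (nat_lit 82) (nat_lit 5) (nat_lit 84) (nat_lit 5) (nat_lit 85) (nat_lit 5) (nat_lit 476)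 (nat_lit 419) (nat_lit 305)) (XT.nd (nat_lit 78) (nat_lit 152) (nat_lit 0) (XT.lf (nat_lit 0) (nat_lit 3803101112) (nat_lit 152) (nat_lit 44409410260) (nat_lit 76) (nat_lit 8220062508) (nat_lit 80) (nat_lit 5) (nat_lit 82) (nat_lit 5) (nat_lit 81) (nat_lit 5) (nat_lit 477) (nat_lit 419) (nat_lit 304)) (XT.lf (nat_lit 0) (nat_lit 10574482423) (nat_lit 152) (nat_lit 18969183280) (nat_lit 228) (nat_lit 28786441194) (nat_lit 78) (nat_lit 5) (nat_lit 80) (nat_lit 5) (nat_lit 81) (nat_lit 5) (nat_lit 478) (nat_lit 419) (nat_lit 303))))) (XT.nd (nat_lit 234) (nat_lit 532) (nat_lit 0) (XT.nd (nat_lit 78) (nat_lit 304) (nat_lit 0) (XT.lf (nat_lit 0) (nat_lit 8964557636) (nat_lit 76) (nat_lit 48256705806) (nat_lit 152) (nat_lit 3081753297) (nat_lit 77) (nat_lit 5) (nat_lit 78) (nat_lit 5) (nat_lit 79) (nat_lit 4) (nat_lit 479) (nat_lit 419) (nat_lit 302)) (XT.nd (nat_lit 78) (nat_lit 76) (nat_lit 0) (XT.lf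 (nat_lit 0) (nat_lit 6846872088) (nat_lit 152) (nat_lit 17338062296) (nat_lit 228) (nat_lit 38160444392) (nat_lit 74) (nat_lit 5) (nat_lit 76) (nat_lit 5) (nat_lit 77) (nat_lit 5) (nat_lit 480) (nat_lit 419) (nat_lit 301)) (XT.lf (nat_lit 0) (nat_lit 4425782466) (nat_lit 76) (nat_lit 49037481339) (nat_lit 152) (nat_lit 11004318741) (nat_lit 73) (nat_lit 5) (nat_lit 74) (nat_lit 5) (nat_lit 75) (nat_lit 4) (nat_lit 481) (nat_lit 419) (nat_lit 300)))) (XT.nd (nat_lit 156) (nat_lit 304) (nat_lit 0) (XT.nd (nat_lit 78) (nat_lit 0) (nat_lit 0) (XT.lf (nat_lit 0) (nat_lit 1488588012) (nat_lit 152) (nat_lit 16435615191) (nat_lit 228) (nat_lit 48743956200) (nat_lit 70) (nat_lit 5) (nat_lit 72) (nat_lit 5) (nat_lit 73) (nat_lit 5) (nat_lit 482) (nat_lit 419) (nat_lit 299)) (XT.lf (nat_lit 0) (nat_lit 48859160502) (nat_lit 228) (nat_lit 1916736711) (nat_lit 76) (nat_lit 18175971667) (nat_lit 70) (nat_lit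 5) (nat_lit 73) (nat_lit 5) (nat_lit 71) (nat_lit 4) (nat_lit 483) (nat_lit 419) (nat_lit 298))) (XT.nd (nat_lit 78) (nat_lit 152) (nat_lit 0) (XT.lf (nat_lit 0) (nat_lit 10591146553) (nat_lit 152) (nat_lit 5823992010) (nat_lit 76) (nat_lit 54907894070) (nat_lit 68) (nat_lit 5) (nat_lit 70) (nat_lit 5) (nat_lit 69) (nat_lit 5) (nat_lit 484) (nat_lit 419) (nat_lit 297)) (XT.lf (nat_lit 0) (nat_lit 43216216357) (nat_lit 228) (nat_lit 10452206133) (nat_lit 76) (nat_lit 20113687066) (nat_lit 66) (nat_lit 5) (nat_lit 69) (nat_lit 5) (nat_lit 67) (nat_lit 4) (nat_lit 485) (nat_lit 419) (nat_lit 296))))))) (XT.nd (nat_lit 57564) (nat_lit 0) (nat_lit 15352) (XT.nd (nat_lit 468) (nat_lit 456) (nat_lit 0) (XT.nd (nat_lit 234) (nat_lit 456) (nat_lit 0) (XT.nd (nat_lit 78) (nat_lit 228) (nat_lit 0) (XT.lf (nat_lit 0) (nat_lit 1895501111) (nat_lit 152) (nat_lit 15656545190) (nat_lit 76) (nat_lit 58787512671)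 (nat_lit 64) (nat_lit 5) (nat_lit 66) (nat_lit 5) (nat_lit 65) (nat_lit 5) (nat_lit 486) (nat_lit 419) (nat_lit 295)) (XT.nd (nat_lit 78) (nat_lit 76) (nat_lit 0) (XT.lf (nat_lit 0) (nat_lit 36210353762) (nat_lit 228) (nat_lit 21836458020) (nat_lit 76) (nat_lit 20943114146) (nat_lit 62) (nat_lit 5) (nat_lit 65) (nat_lit 5) (nat_lit 63) (nat_lit 4) (nat_lit 487) (nat_lit 419) (nat_lit 294)) (XT.lf (nat_lit 0) (nat_lit 53002358618) (nat_lit 76) (nat_lit 20079441008) (nat_lit 152) (nat_lit 8665786275) (nat_lit 61) (nat_lit 5) (nat_lit 62) (nat_lit 5) (nat_lit 63) (nat_lit 4) (nat_lit 488) (nat_lit 419) (nat_lit 293)))) (XT.nd (nat_lit 78) (nat_lit 228) (nat_lit 0) (XT.lf (nat_lit 0) (nat_lit 27503972982) (nat_lit 228) (nat_lit 36752785811) (nat_lit 76) (nat_lit 20352135202) (nat_lit 58) (nat_lit 5) (nat_lit 61) (nat_lit 5) (nat_lit 59) (nat_lit 4) (nat_lit 489) (nat_lit 419) (nat_lit 292)) (XT.nd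 (nat_lit 78) (nat_lit 152) (nat_lit 0) (XT.lf (nat_lit 0) (nat_lit 41790482436) (nat_lit 76) (nat_lit 24409188448) (nat_lit 152) (nat_lit 21384122604) (nat_lit 57) (nat_lit 5) (nat_lit 58) (nat_lit 5) (nat_lit 59) (nat_lit 4) (nat_lit 490) (nat_lit 419) (nat_lit 291)) (XT.lf (nat_lit 0) (nat_lit 16693145401) (nat_lit 152) (nat_lit 56019147315) (nat_lit 76) (nat_lit 17963944691) (nat_lit 55) (nat_lit 5) (nat_lit 57) (nat_lit 5) (nat_lit 56) (nat_lit 4) (nat_lit 491) (nat_lit 419) (nat_lit 290))))) (XT.nd (nat_lit 312) (nat_lit 152) (nat_lit 0) (XT.nd (nat_lit 78) (nat_lit 228) (nat_lit 0) (XT.lf (nat_lit 0) (nat_lit 26207140892) (nat_lit 76) (nat_lit 30995468736) (nat_lit 152) (nat_lit 36685224637) (nat_lit 54) (nat_lit 5) (nat_lit 55) (nat_lit 5) (nat_lit 56) (nat_lit 4) (nat_lit 492) (nat_lit 419) (nat_lit 289)) (XT.nd (nat_lit 156) (nat_lit 76) (nat_lit 0) (XT.lf (nat_lit 0) (nat_lit 3295546837)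 (nat_lit 152) (nat_lit 80612664664) (nat_lit 76) (nat_lit 13325094439) (nat_lit 52) (nat_lit 5) (nat_lit 54) (nat_lit 5) (nat_lit 53) (nat_lit 4) (nat_lit 493) (nat_lit 419) (nat_lit 288)) (XT.lf (nat_lit 0) (nat_lit 90866681762) (nat_lit 152) (nat_lit 7359753326) (nat_lit 0) (nat_lit 6093624785) (nat_lit 51) (nat_lit 5) (nat_lit 53) (nat_lit 4) (nat_lit 51) (nat_lit 4) (nat_lit 495) (nat_lit 419) (nat_lit 286)))) (XT.nd (nat_lit 56628) (nat_lit 0) (nat_lit 19836) (XT.nd (nat_lit 56550) (nat_lit 0) (nat_lit 19836) (XT.lf (nat_lit 0) (nat_lit 30949079471) (nat_lit 152) (nat_lit 21952570656) (nat_lit 76) (nat_lit 55170107433) (nat_lit 49) (nat_lit 5) (nat_lit 51) (nat_lit 5) (nat_lit 50) (nat_lit 4) (nat_lit 496) (nat_lit 419) (nat_lit 285)) (XT.lf (nat_lit 0) (nat_lit 924121614) (nat_lit 0) (nat_lit 924121614) (nat_lit 1140) (nat_lit 3730753557) (nat_lit 310) (nat_lit 5) (nat_lit 310) (nat_lit 3)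 (nat_lit 325) (nat_lit 3) (nat_lit 420) (nat_lit 420) (nat_lit 360))) (XT.nd (nat_lit 78) (nat_lit 0) (nat_lit 76) (XT.lf (nat_lit 0) (nat_lit 4763580394) (nat_lit 1140) (nat_lit 181487568) (nat_lit 1216) (nat_lit 6462503191) (nat_lit 310) (nat_lit 5) (nat_lit 325) (nat_lit 3) (nat_lit 326) (nat_lit 5) (nat_lit 421) (nat_lit 420) (nat_lit 359)) (XT.lf (nat_lit 0) (nat_lit 5970963015) (nat_lit 1140) (nat_lit 2163226611) (nat_lit 1216) (nat_lit 3532838404) (nat_lit 311) (nat_lit 5) (nat_lit 326) (nat_lit 5) (nat_lit 327) (nat_lit 5) (nat_lit 422) (nat_lit 420) (nat_lit 358)))))) (XT.nd (nat_lit 468) (nat_lit 3572) (nat_lit 0) (XT.nd (nat_lit 234) (nat_lit 1064) (nat_lit 0) (XT.nd (nat_lit 78) (nat_lit 0) (nat_lit 0) (XT.lf (nat_lit 0) (nat_lit 7315012762) (nat_lit 1140) (nat_lit 4134158999) (nat_lit 1216) (nat_lit 488005088) (nat_lit 312) (nat_lit 5) (nat_lit 327) (nat_lit 5) (nat_lit 328) (nat_lit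 5) (nat_lit 423) (nat_lit 420) (nat_lit 357)) (XT.nd (nat_lit 78) (nat_lit 0) (nat_lit 76) (XT.lf (nat_lit 76) (nat_lit 6096137996) (nat_lit 0) (nat_lit 2740519359) (nat_lit 1216) (nat_lit 3380871634) (nat_lit 313) (nat_lit 5) (nat_lit 312) (nat_lit 5) (nat_lit 328) (nat_lit 5) (nat_lit 424) (nat_lit 420) (nat_lit 356)) (XT.lf (nat_lit 76) (nat_lit 4403811122) (nat_lit 0) (nat_lit 6127024359) (nat_lit 1216) (nat_lit 1978177005) (nat_lit 314) (nat_lit 5) (nat_lit 313) (nat_lit 5) (nat_lit 329) (nat_lit 5) (nat_lit 425) (nat_lit 420) (nat_lit 355)))) (XT.nd (nat_lit 78) (nat_lit 1216) (nat_lit 0) (XT.lf (nat_lit 76) (nat_lit 2731089357) (nat_lit 0) (nat_lit 9677434474) (nat_lit 1216) (nat_lit 403589229) (nat_lit 315) (nat_lit 5) (nat_lit 314) (nat_lit 5) (nat_lit 330) (nat_lit 5) (nat_lit 426) (nat_lit 420) (nat_lit 354)) (XT.nd (nat_lit 78) (nat_lit 0) (nat_lit 76) (XT.lf (nat_lit 76) (nat_lit 1062305378)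 (nat_lit 0) (nat_lit 272677323) (nat_lit 1292) (nat_lit 11791742740) (nat_lit 299) (nat_lit 5) (nat_lit 298) (nat_lit 5) (nat_lit 315) (nat_lit 5) (nat_lit 427) (nat_lit 420) (nat_lit 353)) (XT.lf (nat_lit 0) (nat_lit 3304656109) (nat_lit 1216) (nat_lit 612812635) (nat_lit 1292) (nat_lit 9534910341) (nat_lit 299) (nat_lit 5) (nat_lit 315) (nat_lit 5) (nat_lit 316) (nat_lit 5) (nat_lit 428) (nat_lit 420) (nat_lit 352))))) (XT.nd (nat_lit 234) (nat_lit 2584) (nat_lit 0) (XT.nd (nat_lit 78) (nat_lit 1140) (nat_lit 0) (XT.lf (nat_lit 0) (nat_lit 5503738369) (nat_lit 1216) (nat_lit 2249595851) (nat_lit 1292) (nat_lit 6037059257) (nat_lit 300) (nat_lit 5) (nat_lit 316) (nat_lit 5) (nat_lit 317) (nat_lit 5) (nat_lit 429) (nat_lit 420) (nat_lit 351)) (XT.nd (nat_lit 78) (nat_lit 1216) (nat_lit 0) (XT.lf (nat_lit 0) (nat_lit 7939814768) (nat_lit 1216) (nat_lit 3867572844) (nat_lit 76) (nat_lit 2334115320)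 (nat_lit 301) (nat_lit 5) (nat_lit 317) (nat_lit 5) (nat_lit 302) (nat_lit 5) (nat_lit 430) (nat_lit 420) (nat_lit 350)) (XT.lf (nat_lit 0) (nat_lit 9024900723) (nat_lit 1216) (nat_lit 1622138468) (nat_lit 1292) (nat_lit 3858653623) (nat_lit 285) (nat_lit 5) (nat_lit 301) (nat_lit 5) (nat_lit 302) (nat_lit 5) (nat_lit 431) (nat_lit 420) (nat_lit 349)))) (XT.nd (nat_lit 156) (nat_lit 1140) (nat_lit 0) (XT.nd (nat_lit 78) (nat_lit 684) (nat_lit 0) (XT.lf (nat_lit 0) (nat_lit 7786159622) (nat_lit 760) (nat_lit 5868262634) (nat_lit 836) (nat_lit 1228731041) (nat_lit 275) (nat_lit 5) (nat_lit 285) (nat_lit 5) (nat_lit 286) (nat_lit 5) (nat_lit 432) (nat_lit 420) (nat_lit 348)) (XT.lf (nat_lit 0) (nat_lit 1651567534) (nat_lit 684) (nat_lit 8707418324) (nat_lit 76) (nat_lit 4915599956) (nat_lit 266) (nat_lit 5) (nat_lit 275) (nat_lit 5) (nat_lit 267) (nat_lit 5) (nat_lit 433) (nat_lit 420) (nat_lit 347)))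 (XT.nd (nat_lit 78) (nat_lit 532) (nat_lit 0) (XT.lf (nat_lit 0) (nat_lit 4806040685) (nat_lit 684) (nat_lit 10308193018) (nat_lit 76) (nat_lit 566328566) (nat_lit 258) (nat_lit 5) (nat_lit 267) (nat_lit 5) (nat_lit 259) (nat_lit 5) (nat_lit 434) (nat_lit 420) (nat_lit 346)) (XT.lf (nat_lit 0) (nat_lit 4176011092) (nat_lit 532) (nat_lit 4143874434) (nat_lit 608) (nat_lit 7780906793) (nat_lit 251) (nat_lit 5) (nat_lit 258) (nat_lit 5) (nat_lit 259) (nat_lit 5) (nat_lit 435) (nat_lit 420) (nat_lit 345))))))))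
noncomputable def xc82 : XT := (XT.nd (nat_lit 1950) (nat_lit 4712) (nat_lit 0) (XT.nd (nat_lit 936) (nat_lit 4104) (nat_lit 0) (XT.nd (nat_lit 468) (nat_lit 2660) (nat_lit 0) (XT.nd (nat_lit 234) (nat_lit 912) (nat_lit 0) (XT.nd (nat_lit 78) (nat_lit 1140) (nat_lit 0) (XT.lf (nat_lit 0) (nat_lit 3013870404) (nat_lit 532) (nat_lit 9170282375) (nat_lit 608) (nat_lit 4352643207) (nat_lit 244) (nat_lit 5) (nat_lit 251) (nat_lit 5) (nat_lit 252) (nat_lit 5) (nat_lit 436) (nat_lit 420) (nat_lit 344)) (XT.nd (nat_lit 78) (nat_lit 608) (nat_lit 0) (XT.lf (nat_lit 0) (nat_lit 1895340080) (nat_lit 532) (nat_lit 14521619713) (nat_lit 608) (nat_lit 572384075) (nat_lit 237) (nat_lit 5) (nat_lit 244) (nat_lit 5) (nat_lit 245) (nat_lit 5) (nat_lit 437) (nat_lit 420) (nat_lit 343)) (XT.lf (nat_lit 0) (nat_lit 761476020) (nat_lit 532) (nat_lit 2779356794) (nat_lit 608) (nat_lit 13916403370) (nat_lit 229) (nat_lit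 5) (nat_lit 236) (nat_lit 5) (nat_lit 237) (nat_lit 5) (nat_lit 438) (nat_lit 420) (nat_lit 342)))) (XT.nd (nat_lit 78) (nat_lit 912) (nat_lit 0) (XT.lf (nat_lit 0) (nat_lit 8067561817) (nat_lit 608) (nat_lit 351268321) (nat_lit 76) (nat_lit 9522935660) (nat_lit 229) (nat_lit 5) (nat_lit 237) (nat_lit 5) (nat_lit 230) (nat_lit 5) (nat_lit 439) (nat_lit 420) (nat_lit 341)) (XT.nd (nat_lit 78) (nat_lit 456) (nat_lit 0) (XT.lf (nat_lit 0) (nat_lit 13024549010) (nat_lit 532) (nat_lit 1401073214) (nat_lit 76) (nat_lit 4018785224) (nat_lit 223) (nat_lit 5) (nat_lit 230) (nat_lit 5) (nat_lit 224) (nat_lit 5) (nat_lit 440) (nat_lit 420) (nat_lit 340)) (XT.lf (nat_lit 0) (nat_lit 16549159741) (nat_lit 456) (nat_lit 1901163379) (nat_lit 532) (nat_lit 515232989) (nat_lit 217) (nat_lit 5) (nat_lit 223) (nat_lit 5) (nat_lit 224) (nat_lit 5) (nat_lit 441) (nat_lit 420) (nat_lit 339))))) (XT.nd (nat_lit 234)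 (nat_lit 1292) (nat_lit 0) (XT.nd (nat_lit 78) (nat_lit 836) (nat_lit 0) (XT.lf (nat_lit 0) (nat_lit 4798185789) (nat_lit 532) (nat_lit 3464272513) (nat_lit 76) (nat_lit 11241350194) (nat_lit 210) (nat_lit 5) (nat_lit 217) (nat_lit 5) (nat_lit 211) (nat_lit 5) (nat_lit 442) (nat_lit 420) (nat_lit 338)) (XT.nd (nat_lit 78) (nat_lit 380) (nat_lit 0) (XT.lf (nat_lit 0) (nat_lit 10585474326) (nat_lit 532) (nat_lit 4462720000) (nat_lit 76) (nat_lit 5014063189) (nat_lit 204) (nat_lit 5) (nat_lit 211) (nat_lit 5) (nat_lit 205) (nat_lit 5) (nat_lit 443) (nat_lit 420) (nat_lit 337)) (XT.lf (nat_lit 0) (nat_lit 15223795522) (nat_lit 380) (nat_lit 1679780718) (nat_lit 456) (nat_lit 3737811839) (nat_lit 199) (nat_lit 5) (nat_lit 204) (nat_lit 5) (nat_lit 205) (nat_lit 5) (nat_lit 444) (nat_lit 420) (nat_lit 336)))) (XT.nd (nat_lit 78) (nat_lit 760) (nat_lit 0) (XT.lf (nat_lit 0) (nat_lit 2530996145) (nat_lit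 532) (nat_lit 6385478764) (nat_lit 76) (nat_lit 12323716671) (nat_lit 192) (nat_lit 5) (nat_lit 199) (nat_lit 5) (nat_lit 193) (nat_lit 5) (nat_lit 445) (nat_lit 420) (nat_lit 335)) (XT.nd (nat_lit 78) (nat_lit 380) (nat_lit 0) (XT.lf (nat_lit 0) (nat_lit 9278761584) (nat_lit 456) (nat_lit 7327861908) (nat_lit 76) (nat_lit 5253919158) (nat_lit 187) (nat_lit 5) (nat_lit 193) (nat_lit 5) (nat_lit 188) (nat_lit 5) (nat_lit 446) (nat_lit 420) (nat_lit 334)) (XT.lf (nat_lit 0) (nat_lit 14278257041) (nat_lit 380) (nat_lit 2357137250) (nat_lit 456) (nat_lit 5868374762) (nat_lit 182) (nat_lit 5) (nat_lit 187) (nat_lit 5) (nat_lit 188) (nat_lit 5) (nat_lit 447) (nat_lit 420) (nat_lit 333)))))) (XT.nd (nat_lit 468) (nat_lit 2052) (nat_lit 0) (XT.nd (nat_lit 234) (nat_lit 988) (nat_lit 0) (XT.nd (nat_lit 78) (nat_lit 684) (nat_lit 0) (XT.lf (nat_lit 0) (nat_lit 1471824353) (nat_lit 380) (nat_lit 9120487458)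 (nat_lit 76) (nat_lit 12577081596) (nat_lit 177) (nat_lit 5) (nat_lit 182) (nat_lit 5) (nat_lit 178) (nat_lit 5) (nat_lit 448) (nat_lit 420) (nat_lit 332)) (XT.nd (nat_lit 78) (nat_lit 304) (nat_lit 0) (XT.lf (nat_lit 0) (nat_lit 9325228198) (nat_lit 456) (nat_lit 10002939531) (nat_lit 76) (nat_lit 4530363208) (nat_lit 172) (nat_lit 5) (nat_lit 178) (nat_lit 5) (nat_lit 173) (nat_lit 5) (nat_lit 449) (nat_lit 420) (nat_lit 331)) (XT.lf (nat_lit 0) (nat_lit 13722766047) (nat_lit 304) (nat_lit 4161905620) (nat_lit 380) (nat_lit 6688054395) (nat_lit 168) (nat_lit 5) (nat_lit 172) (nat_lit 5) (nat_lit 173) (nat_lit 5) (nat_lit 450) (nat_lit 420) (nat_lit 330)))) (XT.nd (nat_lit 78) (nat_lit 608) (nat_lit 0) (XT.lf (nat_lit 0) (nat_lit 1851068446) (nat_lit 380) (nat_lit 11683054578) (nat_lit 76) (nat_lit 11778107331) (nat_lit 163) (nat_lit 5) (nat_lit 168) (nat_lit 5) (nat_lit 164) (nat_lit 5) (nat_lit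 451) (nat_lit 420) (nat_lit 329)) (XT.nd (nat_lit 78) (nat_lit 304) (nat_lit 0) (XT.lf (nat_lit 0) (nat_lit 10971983765) (nat_lit 380) (nat_lit 12503963040) (nat_lit 76) (nat_lit 2601983427) (nat_lit 159) (nat_lit 5) (nat_lit 164) (nat_lit 5) (nat_lit 160) (nat_lit 5) (nat_lit 452) (nat_lit 420) (nat_lit 328)) (XT.lf (nat_lit 0) (nat_lit 13558621247) (nat_lit 304) (nat_lit 7360105809) (nat_lit 380) (nat_lit 5952096092) (nat_lit 155) (nat_lit 5) (nat_lit 159) (nat_lit 5) (nat_lit 160) (nat_lit 5) (nat_lit 453) (nat_lit 420) (nat_lit 327))))) (XT.nd (nat_lit 234) (nat_lit 1140) (nat_lit 0) (XT.nd (nat_lit 78) (nat_lit 532) (nat_lit 0) (XT.lf (nat_lit 0) (nat_lit 3926215806) (nat_lit 380) (nat_lit 14100356725) (nat_lit 76) (nat_lit 9665588931) (nat_lit 150) (nat_lit 5) (nat_lit 155) (nat_lit 5) (nat_lit 151) (nat_lit 5) (nat_lit 454) (nat_lit 420) (nat_lit 326)) (XT.nd (nat_lit 78) (nat_lit 228) (nat_lit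 0) (XT.lf (nat_lit 0) (nat_lit 13672769679) (nat_lit 304) (nat_lit 830188713) (nat_lit 380) (nat_lit 14040013277) (nat_lit 146) (nat_lit 5) (nat_lit 150) (nat_lit 5) (nat_lit 151) (nat_lit 5) (nat_lit 455) (nat_lit 420) (nat_lit 325)) (XT.lf (nat_lit 0) (nat_lit 13772256849) (nat_lit 228) (nat_lit 12263699034) (nat_lit 304) (nat_lit 3387545234) (nat_lit 143) (nat_lit 5) (nat_lit 146) (nat_lit 5) (nat_lit 147) (nat_lit 5) (nat_lit 456) (nat_lit 420) (nat_lit 324)))) (XT.nd (nat_lit 156) (nat_lit 532) (nat_lit 0) (XT.nd (nat_lit 78) (nat_lit 228) (nat_lit 0) (XT.lf (nat_lit 0) (nat_lit 7984112767) (nat_lit 380) (nat_lit 16419837011) (nat_lit 76) (nat_lit 5931698048) (nat_lit 138) (nat_lit 5) (nat_lit 143) (nat_lit 5) (nat_lit 139) (nat_lit 5) (nat_lit 457) (nat_lit 420) (nat_lit 323)) (XT.lf (nat_lit 0) (nat_lit 14089159737) (nat_lit 228) (nat_lit 6171430172) (nat_lit 304) (nat_lit 11019617999) (nat_lit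 135) (nat_lit 5) (nat_lit 138) (nat_lit 5) (nat_lit 139) (nat_lit 5) (nat_lit 458) (nat_lit 420) (nat_lit 322))) (XT.nd (nat_lit 78) (nat_lit 228) (nat_lit 0) (XT.lf (nat_lit 0) (nat_lit 1283164412) (nat_lit 304) (nat_lit 17944604581) (nat_lit 76) (nat_lit 13031331983) (nat_lit 131) (nat_lit 5) (nat_lit 135) (nat_lit 5) (nat_lit 132) (nat_lit 5) (nat_lit 459) (nat_lit 420) (nat_lit 321)) (XT.lf (nat_lit 0) (nat_lit 14342836805) (nat_lit 304) (nat_lit 18718132095) (nat_lit 76) (nat_lit 211608021) (nat_lit 128) (nat_lit 5) (nat_lit 132) (nat_lit 5) (nat_lit 129) (nat_lit 5) (nat_lit 460) (nat_lit 420) (nat_lit 320))))))) (XT.nd (nat_lit 1014) (nat_lit 1976) (nat_lit 0) (XT.nd (nat_lit 468) (nat_lit 1368) (nat_lit 0) (XT.nd (nat_lit 234) (nat_lit 608) (nat_lit 0) (XT.nd (nat_lit 78) (nat_lit 532) (nat_lit 0) (XT.lf (nat_lit 0) (nat_lit 14790187732) (nat_lit 228) (nat_lit 13773037236) (nat_lit 304)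 (nat_lit 5758270669) (nat_lit 125) (nat_lit 5) (nat_lit 128) (nat_lit 5) (nat_lit 129) (nat_lit 5) (nat_lit 461) (nat_lit 420) (nat_lit 319)) (XT.nd (nat_lit 78) (nat_lit 228) (nat_lit 0) (XT.lf (nat_lit 0) (nat_lit 8305991494) (nat_lit 304) (nat_lit 20337528333) (nat_lit 76) (nat_lit 6765261745) (nat_lit 121) (nat_lit 5) (nat_lit 125) (nat_lit 5) (nat_lit 122) (nat_lit 5) (nat_lit 462) (nat_lit 420) (nat_lit 318)) (XT.lf (nat_lit 0) (nat_lit 15343983537) (nat_lit 228) (nat_lit 8086719458) (nat_lit 304) (nat_lit 13103729471) (nat_lit 118) (nat_lit 5) (nat_lit 121) (nat_lit 5) (nat_lit 122) (nat_lit 5) (nat_lit 463) (nat_lit 420) (nat_lit 317)))) (XT.nd (nat_lit 78) (nat_lit 380) (nat_lit 0) (XT.lf (nat_lit 0) (nat_lit 2046770487) (nat_lit 228) (nat_lit 22047201548) (nat_lit 76) (nat_lit 13607456106) (nat_lit 115) (nat_lit 5) (nat_lit 118) (nat_lit 5) (nat_lit 116) (nat_lit 5) (nat_lit 464) (nat_lit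 420) (nat_lit 316)) (XT.nd (nat_lit 78) (nat_lit 152) (nat_lit 0) (XT.lf (nat_lit 0) (nat_lit 15935410600) (nat_lit 228) (nat_lit 2192336260) (nat_lit 304) (nat_lit 20781816569) (nat_lit 112) (nat_lit 5) (nat_lit 115) (nat_lit 5) (nat_lit 116) (nat_lit 5) (nat_lit 465) (nat_lit 420) (nat_lit 315)) (XT.lf (nat_lit 0) (nat_lit 16197546305) (nat_lit 152) (nat_lit 19386796918) (nat_lit 228) (nat_lit 4576615817) (nat_lit 110) (nat_lit 5) (nat_lit 112) (nat_lit 5) (nat_lit 113) (nat_lit 5) (nat_lit 466) (nat_lit 420) (nat_lit 314))))) (XT.nd (nat_lit 234) (nat_lit 684) (nat_lit 0) (XT.nd (nat_lit 78) (nat_lit 380) (nat_lit 0) (XT.lf (nat_lit 0) (nat_lit 12640045792) (nat_lit 304) (nat_lit 25001100282) (nat_lit 76) (nat_lit 3816874077) (nat_lit 106) (nat_lit 5) (nat_lit 110) (nat_lit 5) (nat_lit 107) (nat_lit 5) (nat_lit 467) (nat_lit 420) (nat_lit 313)) (XT.nd (nat_lit 78) (nat_lit 228) (nat_lit 0) (XT.lf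 (nat_lit 0) (nat_lit 16644867244) (nat_lit 152) (nat_lit 14570999006) (nat_lit 228) (nat_lit 11584919970) (nat_lit 104) (nat_lit 5) (nat_lit 106) (nat_lit 5) (nat_lit 107) (nat_lit 5) (nat_lit 468) (nat_lit 420) (nat_lit 312)) (XT.lf (nat_lit 0) (nat_lit 6890546681) (nat_lit 228) (nat_lit 27357769102) (nat_lit 76) (nat_lit 9945264422) (nat_lit 101) (nat_lit 5) (nat_lit 104) (nat_lit 5) (nat_lit 102) (nat_lit 5) (nat_lit 469) (nat_lit 420) (nat_lit 311)))) (XT.nd (nat_lit 156) (nat_lit 304) (nat_lit 0) (XT.nd (nat_lit 78) (nat_lit 228) (nat_lit 0) (XT.lf (nat_lit 0) (nat_lit 16917849066) (nat_lit 152) (nat_lit 9704056237) (nat_lit 228) (nat_lit 19013516681) (nat_lit 99) (nat_lit 5) (nat_lit 101) (nat_lit 5) (nat_lit 102) (nat_lit 5) (nat_lit 470) (nat_lit 420) (nat_lit 310)) (XT.lf (nat_lit 0) (nat_lit 782961981) (nat_lit 228) (nat_lit 30148001573) (nat_lit 76) (nat_lit 16200451780) (nat_lit 96)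 (nat_lit 5) (nat_lit 99) (nat_lit 5) (nat_lit 97) (nat_lit 5) (nat_lit 471) (nat_lit 420) (nat_lit 309))) (XT.nd (nat_lit 78) (nat_lit 152) (nat_lit 0) (XT.lf (nat_lit 0) (nat_lit 16892404918) (nat_lit 152) (nat_lit 4834578960) (nat_lit 228) (nat_lit 26953048925) (nat_lit 94) (nat_lit 5) (nat_lit 96) (nat_lit 5) (nat_lit 97) (nat_lit 5) (nat_lit 472) (nat_lit 420) (nat_lit 308)) (XT.lf (nat_lit 0) (nat_lit 16703688910) (nat_lit 152) (nat_lit 27694119543) (nat_lit 228) (nat_lit 5887885096) (nat_lit 92) (nat_lit 5) (nat_lit 94) (nat_lit 5) (nat_lit 95) (nat_lit 5) (nat_lit 473) (nat_lit 420) (nat_lit 307)))))) (XT.nd (nat_lit 468) (nat_lit 912) (nat_lit 0) (XT.nd (nat_lit 234) (nat_lit 456) (nat_lit 0) (XT.nd (nat_lit 78) (nat_lit 380) (nat_lit 0) (XT.lf (nat_lit 0) (nat_lit 16414299919) (nat_lit 152) (nat_lit 25498319) (nat_lit 228) (nat_lit 35511379649) (nat_lit 89) (nat_lit 5) (nat_lit 91) (nat_lit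 5) (nat_lit 92) (nat_lit 5) (nat_lit 474) (nat_lit 420) (nat_lit 306)) (XT.nd (nat_lit 78) (nat_lit 228) (nat_lit 0) (XT.lf (nat_lit 0) (nat_lit 15870810992) (nat_lit 152) (nat_lit 24662305583) (nat_lit 228) (nat_lit 13141940744) (nat_lit 87) (nat_lit 5) (nat_lit 89) (nat_lit 5) (nat_lit 90) (nat_lit 5) (nat_lit 475) (nat_lit 420) (nat_lit 305)) (XT.lf (nat_lit 0) (nat_lit 10694837131) (nat_lit 228) (nat_lit 40218438395) (nat_lit 76) (nat_lit 4552349385) (nat_lit 84) (nat_lit 5) (nat_lit 87) (nat_lit 5) (nat_lit 85) (nat_lit 5) (nat_lit 476) (nat_lit 420) (nat_lit 304)))) (XT.nd (nat_lit 78) (nat_lit 304) (nat_lit 0) (XT.lf (nat_lit 0) (nat_lit 14281448854) (nat_lit 152) (nat_lit 21941613735) (nat_lit 228) (nat_lit 21095612970) (nat_lit 82) (nat_lit 5) (nat_lit 84) (nat_lit 5) (nat_lit 85) (nat_lit 5) (nat_lit 477) (nat_lit 420) (nat_lit 303)) (XT.nd (nat_lit 78) (nat_lit 152) (nat_lit 0) (XT.lf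 (nat_lit 0) (nat_lit 4312858223) (nat_lit 152) (nat_lit 46039032424) (nat_lit 76) (nat_lit 8892713947) (nat_lit 80) (nat_lit 5) (nat_lit 82) (nat_lit 5) (nat_lit 81) (nat_lit 5) (nat_lit 478) (nat_lit 420) (nat_lit 302)) (XT.lf (nat_lit 0) (nat_lit 11677118344) (nat_lit 152) (nat_lit 19653630346) (nat_lit 228) (nat_lit 29906557115) (nat_lit 78) (nat_lit 5) (nat_lit 80) (nat_lit 5) (nat_lit 81) (nat_lit 5) (nat_lit 479) (nat_lit 420) (nat_lit 301))))) (XT.nd (nat_lit 234) (nat_lit 532) (nat_lit 0) (XT.nd (nat_lit 78) (nat_lit 304) (nat_lit 0) (XT.lf (nat_lit 0) (nat_lit 9976820823) (nat_lit 76) (nat_lit 50408487213) (nat_lit 152) (nat_lit 2923761101) (nat_lit 77) (nat_lit 5) (nat_lit 78) (nat_lit 5) (nat_lit 79) (nat_lit 4) (nat_lit 480) (nat_lit 420) (nat_lit 300)) (XT.nd (nat_lit 78) (nat_lit 76) (nat_lit 0) (XT.lf (nat_lit 0) (nat_lit 7743006761) (nat_lit 152) (nat_lit 17947916824) (nat_lit 228)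 (nat_lit 39762813537) (nat_lit 74) (nat_lit 5) (nat_lit 76) (nat_lit 5) (nat_lit 77) (nat_lit 5) (nat_lit 481) (nat_lit 420) (nat_lit 299)) (XT.lf (nat_lit 0) (nat_lit 5191243440) (nat_lit 76) (nat_lit 51235379600) (nat_lit 152) (nat_lit 11255624828) (nat_lit 73) (nat_lit 5) (nat_lit 74) (nat_lit 5) (nat_lit 75) (nat_lit 4) (nat_lit 482) (nat_lit 420) (nat_lit 298)))) (XT.nd (nat_lit 156) (nat_lit 304) (nat_lit 0) (XT.nd (nat_lit 78) (nat_lit 0) (nat_lit 0) (XT.lf (nat_lit 0) (nat_lit 2097263770) (nat_lit 152) (nat_lit 17007406088) (nat_lit 228) (nat_lit 50888362495) (nat_lit 70) (nat_lit 5) (nat_lit 72) (nat_lit 5) (nat_lit 73) (nat_lit 5) (nat_lit 483) (nat_lit 420) (nat_lit 297)) (XT.lf (nat_lit 0) (nat_lit 51575127623) (nat_lit 228) (nat_lit 1497927526) (nat_lit 76) (nat_lit 19318209927) (nat_lit 70) (nat_lit 5) (nat_lit 73) (nat_lit 5) (nat_lit 71) (nat_lit 4) (nat_lit 484) (nat_lit 420) (nat_lit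 296))) (XT.nd (nat_lit 78) (nat_lit 152) (nat_lit 0) (XT.lf (nat_lit 0) (nat_lit 11388146263) (nat_lit 152) (nat_lit 5609968736) (nat_lit 76) (nat_lit 57883039543) (nat_lit 68) (nat_lit 5) (nat_lit 70) (nat_lit 5) (nat_lit 69) (nat_lit 5) (nat_lit 485) (nat_lit 420) (nat_lit 295)) (XT.lf (nat_lit 0) (nat_lit 45638675062) (nat_lit 228) (nat_lit 10478510359) (nat_lit 76) (nat_lit 21346174033) (nat_lit 66) (nat_lit 5) (nat_lit 69) (nat_lit 5) (nat_lit 67) (nat_lit 4) (nat_lit 486) (nat_lit 420) (nat_lit 294))))))))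
noncomputable def xc83 : XT := (XT.nd (nat_lit 58656) (nat_lit 0) (nat_lit 5320) (XT.nd (nat_lit 57642) (nat_lit 0) (nat_lit 14668) (XT.nd (nat_lit 468) (nat_lit 304) (nat_lit 0) (XT.nd (nat_lit 234) (nat_lit 456) (nat_lit 0) (XT.nd (nat_lit 78) (nat_lit 228) (nat_lit 0) (XT.lf (nat_lit 0) (nat_lit 2246617504) (nat_lit 152) (nat_lit 15952185507) (nat_lit 76) (nat_lit 61950037989) (nat_lit 64) (nat_lit 5) (nat_lit 66) (nat_lit 5) (nat_lit 65) (nat_lit 5) (nat_lit 487) (nat_lit 420) (nat_lit 293)) (XT.nd (nat_lit 78) (nat_lit 76) (nat_lit 0) (XT.lf (nat_lit 0) (nat_lit 38271713355) (nat_lit 228) (nat_lit 22449751579) (nat_lit 76) (nat_lit 22210426624) (nat_lit 62) (nat_lit 5) (nat_lit 65) (nat_lit 5) (nat_lit 63) (nat_lit 4) (nat_lit 488) (nat_lit 420) (nat_lit 292)) (XT.lf (nat_lit 0) (nat_lit 56117288945) (nat_lit 76) (nat_lit 20861965776) (nat_lit 152) (nat_lit 8848404369) (nat_lit 61) (nat_lit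 5) (nat_lit 62) (nat_lit 5) (nat_lit 63) (nat_lit 4) (nat_lit 489) (nat_lit 420) (nat_lit 291)))) (XT.nd (nat_lit 78) (nat_lit 228) (nat_lit 0) (XT.lf (nat_lit 0) (nat_lit 29119726726) (nat_lit 228) (nat_lit 38129115168) (nat_lit 76) (nat_lit 21583275385) (nat_lit 58) (nat_lit 5) (nat_lit 61) (nat_lit 5) (nat_lit 59) (nat_lit 4) (nat_lit 490) (nat_lit 420) (nat_lit 290)) (XT.nd (nat_lit 78) (nat_lit 152) (nat_lit 0) (XT.lf (nat_lit 0) (nat_lit 44328093135) (nat_lit 76) (nat_lit 25414968666) (nat_lit 152) (nat_lit 22212914604) (nat_lit 57) (nat_lit 5) (nat_lit 58) (nat_lit 5) (nat_lit 59) (nat_lit 4) (nat_lit 491) (nat_lit 420) (nat_lit 289)) (XT.lf (nat_lit 0) (nat_lit 17758557230) (nat_lit 152) (nat_lit 58375464315) (nat_lit 76) (nat_lit 19069100899) (nat_lit 55) (nat_lit 5) (nat_lit 57) (nat_lit 5) (nat_lit 56) (nat_lit 4) (nat_lit 492) (nat_lit 420) (nat_lit 288))))) (XT.nd (nat_lit 56940) (nat_lit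 0) (nat_lit 19684) (XT.nd (nat_lit 156) (nat_lit 228) (nat_lit 0) (XT.lf (nat_lit 0) (nat_lit 27949392775) (nat_lit 76) (nat_lit 32337265219) (nat_lit 152) (nat_lit 38288846453) (nat_lit 54) (nat_lit 5) (nat_lit 55) (nat_lit 5) (nat_lit 56) (nat_lit 4) (nat_lit 493) (nat_lit 420) (nat_lit 287)) (XT.nd (nat_lit 56706) (nat_lit 0) (nat_lit 19684) (XT.lf (nat_lit 0) (nat_lit 5900908521) (nat_lit 76) (nat_lit 42175911589) (nat_lit 152) (nat_lit 57655058709) (nat_lit 51) (nat_lit 5) (nat_lit 52) (nat_lit 5) (nat_lit 53) (nat_lit 4) (nat_lit 495) (nat_lit 420) (nat_lit 285)) (XT.lf (nat_lit 0) (nat_lit 1418875485) (nat_lit 0) (nat_lit 1418875485) (nat_lit 1140) (nat_lit 2993153040) (nat_lit 310) (nat_lit 5) (nat_lit 310) (nat_lit 3) (nat_lit 325) (nat_lit 3) (nat_lit 421) (nat_lit 421) (nat_lit 358)))) (XT.nd (nat_lit 78) (nat_lit 0) (nat_lit 76) (XT.lf (nat_lit 76) (nat_lit 737937142) (nat_lit 0) (nat_lit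 5971456472) (nat_lit 1216) (nat_lit 5217079935) (nat_lit 311) (nat_lit 5) (nat_lit 310) (nat_lit 5) (nat_lit 326) (nat_lit 5) (nat_lit 422) (nat_lit 421) (nat_lit 357)) (XT.nd (nat_lit 78) (nat_lit 0) (nat_lit 0) (XT.lf (nat_lit 0) (nat_lit 7890493479) (nat_lit 1140) (nat_lit 1327297579) (nat_lit 1216) (nat_lit 2983723537) (nat_lit 311) (nat_lit 5) (nat_lit 326) (nat_lit 5) (nat_lit 327) (nat_lit 5) (nat_lit 423) (nat_lit 421) (nat_lit 356)) (XT.lf (nat_lit 76) (nat_lit 9115371234) (nat_lit 0) (nat_lit 112976299) (nat_lit 1216) (nat_lit 3259036475) (nat_lit 312) (nat_lit 5) (nat_lit 311) (nat_lit 5) (nat_lit 327) (nat_lit 5) (nat_lit 424) (nat_lit 421) (nat_lit 355)))))) (XT.nd (nat_lit 468) (nat_lit 4104) (nat_lit 0) (XT.nd (nat_lit 234) (nat_lit 0) (nat_lit 0) (XT.nd (nat_lit 78) (nat_lit 1064) (nat_lit 0) (XT.lf (nat_lit 76) (nat_lit 7343081928) (nat_lit 0) (nat_lit 3417320060) (nat_lit 1216)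 (nat_lit 2023332612) (nat_lit 313) (nat_lit 5) (nat_lit 312) (nat_lit 5) (nat_lit 328) (nat_lit 5) (nat_lit 425) (nat_lit 421) (nat_lit 354)) (XT.nd (nat_lit 78) (nat_lit 1140) (nat_lit 0) (XT.lf (nat_lit 76) (nat_lit 5587562813) (nat_lit 0) (nat_lit 6885479753) (nat_lit 1216) (nat_lit 618747266) (nat_lit 314) (nat_lit 5) (nat_lit 313) (nat_lit 5) (nat_lit 329) (nat_lit 5) (nat_lit 426) (nat_lit 421) (nat_lit 353)) (XT.lf (nat_lit 0) (nat_lit 951641483) (nat_lit 1216) (nat_lit 9571992348) (nat_lit 1292) (nat_lit 2888004862) (nat_lit 298) (nat_lit 5) (nat_lit 314) (nat_lit 5) (nat_lit 315) (nat_lit 5) (nat_lit 427) (nat_lit 421) (nat_lit 352)))) (XT.nd (nat_lit 78) (nat_lit 0) (nat_lit 76) (XT.lf (nat_lit 76) (nat_lit 2095506623) (nat_lit 0) (nat_lit 617685372) (nat_lit 1292) (nat_lit 11030346869) (nat_lit 299) (nat_lit 5) (nat_lit 298) (nat_lit 5) (nat_lit 315) (nat_lit 5) (nat_lit 428) (nat_lit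 421) (nat_lit 351)) (XT.nd (nat_lit 78) (nat_lit 0) (nat_lit 76) (XT.lf (nat_lit 76) (nat_lit 337216758) (nat_lit 0) (nat_lit 4381889677) (nat_lit 1292) (nat_lit 9368244560) (nat_lit 300) (nat_lit 5) (nat_lit 299) (nat_lit 5) (nat_lit 316) (nat_lit 5) (nat_lit 429) (nat_lit 421) (nat_lit 350)) (XT.lf (nat_lit 0) (nat_lit 6972265195) (nat_lit 1216) (nat_lit 1377474418) (nat_lit 1292) (nat_lit 6094210942) (nat_lit 300) (nat_lit 5) (nat_lit 316) (nat_lit 5) (nat_lit 317) (nat_lit 5) (nat_lit 430) (nat_lit 421) (nat_lit 349))))) (XT.nd (nat_lit 234) (nat_lit 2356) (nat_lit 0) (XT.nd (nat_lit 78) (nat_lit 1976) (nat_lit 0) (XT.lf (nat_lit 0) (nat_lit 9480693040) (nat_lit 1216) (nat_lit 3068227814) (nat_lit 76) (nat_lit 2265185932) (nat_lit 301) (nat_lit 5) (nat_lit 317) (nat_lit 5) (nat_lit 302) (nat_lit 5) (nat_lit 431) (nat_lit 421) (nat_lit 348)) (XT.nd (nat_lit 78) (nat_lit 760) (nat_lit 0) (XT.lf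 (nat_lit 0) (nat_lit 10440413207) (nat_lit 1216) (nat_lit 1837663772) (nat_lit 1292) (nat_lit 2919792601) (nat_lit 285) (nat_lit 5) (nat_lit 301) (nat_lit 5) (nat_lit 302) (nat_lit 5) (nat_lit 432) (nat_lit 421) (nat_lit 347)) (XT.lf (nat_lit 0) (nat_lit 9145508437) (nat_lit 760) (nat_lit 6246096429) (nat_lit 836) (nat_lit 203931963) (nat_lit 275) (nat_lit 5) (nat_lit 285) (nat_lit 5) (nat_lit 286) (nat_lit 5) (nat_lit 433) (nat_lit 421) (nat_lit 346)))) (XT.nd (nat_lit 156) (nat_lit 1064) (nat_lit 0) (XT.nd (nat_lit 78) (nat_lit 608) (nat_lit 0) (XT.lf (nat_lit 0) (nat_lit 2757142784) (nat_lit 684) (nat_lit 8148413500) (nat_lit 76) (nat_lit 5101939201) (nat_lit 266) (nat_lit 5) (nat_lit 275) (nat_lit 5) (nat_lit 267) (nat_lit 5) (nat_lit 434) (nat_lit 421) (nat_lit 345)) (XT.lf (nat_lit 0) (nat_lit 6029739913) (nat_lit 684) (nat_lit 9827929855) (nat_lit 76) (nat_lit 577295159) (nat_lit 258) (nat_lit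 5) (nat_lit 267) (nat_lit 5) (nat_lit 259) (nat_lit 5) (nat_lit 435) (nat_lit 421) (nat_lit 344))) (XT.nd (nat_lit 78) (nat_lit 532) (nat_lit 0) (XT.lf (nat_lit 0) (nat_lit 5351943699) (nat_lit 532) (nat_lit 4329801525) (nat_lit 608) (nat_lit 7195593094) (nat_lit 251) (nat_lit 5) (nat_lit 258) (nat_lit 5) (nat_lit 259) (nat_lit 5) (nat_lit 436) (nat_lit 421) (nat_lit 343)) (XT.lf (nat_lit 0) (nat_lit 4131451616) (nat_lit 532) (nat_lit 9572222022) (nat_lit 608) (nat_lit 3632540698) (nat_lit 244) (nat_lit 5) (nat_lit 251) (nat_lit 5) (nat_lit 252) (nat_lit 5) (nat_lit 437) (nat_lit 421) (nat_lit 342))))))) (XT.nd (nat_lit 1014) (nat_lit 3876) (nat_lit 0) (XT.nd (nat_lit 468) (nat_lit 2888) (nat_lit 0) (XT.nd (nat_lit 234) (nat_lit 988) (nat_lit 0) (XT.nd (nat_lit 78) (nat_lit 988) (nat_lit 0) (XT.lf (nat_lit 0) (nat_lit 296271660) (nat_lit 608) (nat_lit 14859919803) (nat_lit 76) (nat_lit 2656122890)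 (nat_lit 236) (nat_lit 5) (nat_lit 244) (nat_lit 5) (nat_lit 237) (nat_lit 5) (nat_lit 438) (nat_lit 421) (nat_lit 341)) (XT.nd (nat_lit 78) (nat_lit 456) (nat_lit 0) (XT.lf (nat_lit 0) (nat_lit 1754379088) (nat_lit 532) (nat_lit 2816052057) (nat_lit 608) (nat_lit 13733991473) (nat_lit 229) (nat_lit 5) (nat_lit 236) (nat_lit 5) (nat_lit 237) (nat_lit 5) (nat_lit 439) (nat_lit 421) (nat_lit 340)) (XT.lf (nat_lit 0) (nat_lit 575271535) (nat_lit 456) (nat_lit 8714093279) (nat_lit 532) (nat_lit 9524842550) (nat_lit 223) (nat_lit 5) (nat_lit 229) (nat_lit 5) (nat_lit 230) (nat_lit 5) (nat_lit 440) (nat_lit 421) (nat_lit 339)))) (XT.nd (nat_lit 78) (nat_lit 988) (nat_lit 0) (XT.lf (nat_lit 0) (nat_lit 14459857225) (nat_lit 532) (nat_lit 542598254) (nat_lit 76) (nat_lit 4340560417) (nat_lit 223) (nat_lit 5) (nat_lit 230) (nat_lit 5) (nat_lit 224) (nat_lit 5) (nat_lit 441) (nat_lit 421) (nat_lit 338))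 (XT.nd (nat_lit 78) (nat_lit 456) (nat_lit 0) (XT.lf (nat_lit 0) (nat_lit 232538351) (nat_lit 532) (nat_lit 1614835803) (nat_lit 76) (nat_lit 18043643729) (nat_lit 216) (nat_lit 5) (nat_lit 223) (nat_lit 5) (nat_lit 217) (nat_lit 5) (nat_lit 442) (nat_lit 421) (nat_lit 337)) (XT.lf (nat_lit 0) (nat_lit 5774799390) (nat_lit 532) (nat_lit 2725958362) (nat_lit 76) (nat_lit 11956061224) (nat_lit 210) (nat_lit 5) (nat_lit 217) (nat_lit 5) (nat_lit 211) (nat_lit 5) (nat_lit 443) (nat_lit 421) (nat_lit 336))))) (XT.nd (nat_lit 234) (nat_lit 1520) (nat_lit 0) (XT.nd (nat_lit 78) (nat_lit 912) (nat_lit 0) (XT.lf (nat_lit 0) (nat_lit 11826566946) (nat_lit 532) (nat_lit 3780762650) (nat_lit 76) (nat_lit 5436611165) (nat_lit 204) (nat_lit 5) (nat_lit 211) (nat_lit 5) (nat_lit 205) (nat_lit 5) (nat_lit 444) (nat_lit 421) (nat_lit 335)) (XT.nd (nat_lit 78) (nat_lit 532) (nat_lit 0) (XT.lf (nat_lit 0) (nat_lit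 16864134329) (nat_lit 380) (nat_lit 1570994407) (nat_lit 456) (nat_lit 3217666048) (nat_lit 199) (nat_lit 5) (nat_lit 204) (nat_lit 5) (nat_lit 205) (nat_lit 5) (nat_lit 445) (nat_lit 421) (nat_lit 334)) (XT.lf (nat_lit 0) (nat_lit 3328023722) (nat_lit 532) (nat_lit 5819123929) (nat_lit 76) (nat_lit 13134873074) (nat_lit 192) (nat_lit 5) (nat_lit 199) (nat_lit 5) (nat_lit 193) (nat_lit 5) (nat_lit 446) (nat_lit 421) (nat_lit 333)))) (XT.nd (nat_lit 156) (nat_lit 760) (nat_lit 0) (XT.nd (nat_lit 78) (nat_lit 380) (nat_lit 0) (XT.lf (nat_lit 0) (nat_lit 10391570649) (nat_lit 456) (nat_lit 6816596617) (nat_lit 76) (nat_lit 5725873435) (nat_lit 187) (nat_lit 5) (nat_lit 193) (nat_lit 5) (nat_lit 188) (nat_lit 5) (nat_lit 447) (nat_lit 421) (nat_lit 332)) (XT.lf (nat_lit 0) (nat_lit 15844670378) (nat_lit 380) (nat_lit 2248660750) (nat_lit 456) (nat_lit 5516781408) (nat_lit 182) (nat_lit 5) (nat_lit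 187) (nat_lit 5) (nat_lit 188) (nat_lit 5) (nat_lit 448) (nat_lit 421) (nat_lit 331))) (XT.nd (nat_lit 78) (nat_lit 380) (nat_lit 0) (XT.lf (nat_lit 0) (nat_lit 2158014067) (nat_lit 380) (nat_lit 8720009260) (nat_lit 76) (nat_lit 13431406359) (nat_lit 177) (nat_lit 5) (nat_lit 182) (nat_lit 5) (nat_lit 178) (nat_lit 5) (nat_lit 449) (nat_lit 421) (nat_lit 330)) (XT.lf (nat_lit 0) (nat_lit 10385226060) (nat_lit 456) (nat_lit 9655651973) (nat_lit 76) (nat_lit 4992714560) (nat_lit 172) (nat_lit 5) (nat_lit 178) (nat_lit 5) (nat_lit 173) (nat_lit 5) (nat_lit 450) (nat_lit 421) (nat_lit 329)))))) (XT.nd (nat_lit 468) (nat_lit 1900) (nat_lit 0) (XT.nd (nat_lit 234) (nat_lit 988) (nat_lit 0) (XT.nd (nat_lit 78) (nat_lit 684) (nat_lit 0) (XT.lf (nat_lit 0) (nat_lit 15232047343) (nat_lit 304) (nat_lit 4120233749) (nat_lit 380) (nat_lit 6431829715) (nat_lit 168) (nat_lit 5) (nat_lit 172) (nat_lit 5) (nat_lit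 173) (nat_lit 5) (nat_lit 451) (nat_lit 421) (nat_lit 328)) (XT.nd (nat_lit 78) (nat_lit 304) (nat_lit 0) (XT.lf (nat_lit 0) (nat_lit 2505358806) (nat_lit 380) (nat_lit 11442008428) (nat_lit 76) (nat_lit 12613576036) (nat_lit 163) (nat_lit 5) (nat_lit 168) (nat_lit 5) (nat_lit 164) (nat_lit 5) (nat_lit 452) (nat_lit 421) (nat_lit 327)) (XT.lf (nat_lit 0) (nat_lit 12065763697) (nat_lit 380) (nat_lit 12313779665) (nat_lit 76) (nat_lit 2985883679) (nat_lit 159) (nat_lit 5) (nat_lit 164) (nat_lit 5) (nat_lit 160) (nat_lit 5) (nat_lit 453) (nat_lit 421) (nat_lit 326)))) (XT.nd (nat_lit 78) (nat_lit 684) (nat_lit 0) (XT.lf (nat_lit 0) (nat_lit 15028561089) (nat_lit 304) (nat_lit 7462935349) (nat_lit 380) (nat_lit 5707020706) (nat_lit 155) (nat_lit 5) (nat_lit 159) (nat_lit 5) (nat_lit 160) (nat_lit 5) (nat_lit 454) (nat_lit 421) (nat_lit 325)) (XT.nd (nat_lit 78) (nat_lit 304) (nat_lit 0) (XT.lf (nat_lit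 0) (nat_lit 4639324836) (nat_lit 380) (nat_lit 14012827320) (nat_lit 76) (nat_lit 10409074439) (nat_lit 150) (nat_lit 5) (nat_lit 155) (nat_lit 5) (nat_lit 151) (nat_lit 5) (nat_lit 455) (nat_lit 421) (nat_lit 324)) (XT.lf (nat_lit 0) (nat_lit 15126237196) (nat_lit 304) (nat_lit 601457982) (nat_lit 380) (nat_lit 14227400271) (nat_lit 146) (nat_lit 5) (nat_lit 150) (nat_lit 5) (nat_lit 151) (nat_lit 5) (nat_lit 456) (nat_lit 421) (nat_lit 323))))) (XT.nd (nat_lit 234) (nat_lit 1064) (nat_lit 0) (XT.nd (nat_lit 78) (nat_lit 608) (nat_lit 0) (XT.lf (nat_lit 0) (nat_lit 15220702599) (nat_lit 228) (nat_lit 12602627991) (nat_lit 304) (nat_lit 3056742908) (nat_lit 143) (nat_lit 5) (nat_lit 146) (nat_lit 5) (nat_lit 147) (nat_lit 5) (nat_lit 457) (nat_lit 421) (nat_lit 322)) (XT.nd (nat_lit 78) (nat_lit 228) (nat_lit 0) (XT.lf (nat_lit 0) (nat_lit 8860197718) (nat_lit 380) (nat_lit 16481629529) (nat_lit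 76) (nat_lit 6496263887) (nat_lit 138) (nat_lit 5) (nat_lit 143) (nat_lit 5) (nat_lit 139) (nat_lit 5) (nat_lit 458) (nat_lit 421) (nat_lit 321)) (XT.lf (nat_lit 0) (nat_lit 15531054759) (nat_lit 228) (nat_lit 6203824115) (nat_lit 304) (nat_lit 11095470500) (nat_lit 135) (nat_lit 5) (nat_lit 138) (nat_lit 5) (nat_lit 139) (nat_lit 5) (nat_lit 459) (nat_lit 421) (nat_lit 320)))) (XT.nd (nat_lit 156) (nat_lit 532) (nat_lit 0) (XT.nd (nat_lit 78) (nat_lit 228) (nat_lit 0) (XT.lf (nat_lit 0) (nat_lit 1800608722) (nat_lit 304) (nat_lit 18105593488) (nat_lit 76) (nat_lit 13952226433) (nat_lit 131) (nat_lit 5) (nat_lit 135) (nat_lit 5) (nat_lit 132) (nat_lit 5) (nat_lit 460) (nat_lit 421) (nat_lit 319)) (XT.lf (nat_lit 0) (nat_lit 15501212499) (nat_lit 304) (nat_lit 18928375379) (nat_lit 76) (nat_lit 493353446) (nat_lit 128) (nat_lit 5) (nat_lit 132) (nat_lit 5) (nat_lit 129) (nat_lit 5) (nat_lit 461)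 (nat_lit 421) (nat_lit 318))) (XT.nd (nat_lit 78) (nat_lit 304) (nat_lit 0) (XT.lf (nat_lit 0) (nat_lit 16234559446) (nat_lit 228) (nat_lit 14183825056) (nat_lit 304) (nat_lit 5606349847) (nat_lit 125) (nat_lit 5) (nat_lit 128) (nat_lit 5) (nat_lit 129) (nat_lit 5) (nat_lit 462) (nat_lit 421) (nat_lit 317)) (XT.lf (nat_lit 0) (nat_lit 9141318237) (nat_lit 304) (nat_lit 20651489951) (nat_lit 76) (nat_lit 7373787494) (nat_lit 121) (nat_lit 5) (nat_lit 125) (nat_lit 5) (nat_lit 122) (nat_lit 5) (nat_lit 463) (nat_lit 421) (nat_lit 316))))))))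
noncomputable def xc84 : XT := (XT.nd (nat_lit 1950) (nat_lit 912) (nat_lit 0) (XT.nd (nat_lit 936) (nat_lit 1900) (nat_lit 0) (XT.nd (nat_lit 468) (nat_lit 1140) (nat_lit 0) (XT.nd (nat_lit 234) (nat_lit 608) (nat_lit 0) (XT.nd (nat_lit 78) (nat_lit 456) (nat_lit 0) (XT.lf (nat_lit 0) (nat_lit 16793948600) (nat_lit 228) (nat_lit 8214878583) (nat_lit 304) (nat_lit 13340106233) (nat_lit 118) (nat_lit 5) (nat_lit 121) (nat_lit 5) (nat_lit 122) (nat_lit 5) (nat_lit 464) (nat_lit 421) (nat_lit 315)) (XT.nd (nat_lit 78) (nat_lit 228) (nat_lit 0) (XT.lf (nat_lit 0) (nat_lit 2549273832) (nat_lit 228) (nat_lit 22469090064) (nat_lit 76) (nat_lit 14556109438) (nat_lit 115) (nat_lit 5) (nat_lit 118) (nat_lit 5) (nat_lit 116) (nat_lit 5) (nat_lit 465) (nat_lit 421) (nat_lit 314)) (XT.lf (nat_lit 0) (nat_lit 17393147111) (nat_lit 228) (nat_lit 2028450055) (nat_lit 304) (nat_lit 21421800291) (nat_lit 112) (nat_lit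 5) (nat_lit 115) (nat_lit 5) (nat_lit 116) (nat_lit 5) (nat_lit 466) (nat_lit 421) (nat_lit 313)))) (XT.nd (nat_lit 78) (nat_lit 456) (nat_lit 0) (XT.lf (nat_lit 0) (nat_lit 17658199795) (nat_lit 152) (nat_lit 20083132476) (nat_lit 228) (nat_lit 4416322272) (nat_lit 110) (nat_lit 5) (nat_lit 112) (nat_lit 5) (nat_lit 113) (nat_lit 5) (nat_lit 467) (nat_lit 421) (nat_lit 312)) (XT.nd (nat_lit 78) (nat_lit 152) (nat_lit 0) (XT.lf (nat_lit 0) (nat_lit 13644153922) (nat_lit 304) (nat_lit 25603132042) (nat_lit 76) (nat_lit 4272454182) (nat_lit 106) (nat_lit 5) (nat_lit 110) (nat_lit 5) (nat_lit 107) (nat_lit 5) (nat_lit 468) (nat_lit 421) (nat_lit 311)) (XT.lf (nat_lit 0) (nat_lit 18106558404) (nat_lit 152) (nat_lit 15030538310) (nat_lit 228) (nat_lit 11792898714) (nat_lit 104) (nat_lit 5) (nat_lit 106) (nat_lit 5) (nat_lit 107) (nat_lit 5) (nat_lit 469) (nat_lit 421) (nat_lit 310))))) (XT.nd (nat_lit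 234) (nat_lit 532) (nat_lit 0) (XT.nd (nat_lit 78) (nat_lit 380) (nat_lit 0) (XT.lf (nat_lit 0) (nat_lit 7590262371) (nat_lit 228) (nat_lit 28099160212) (nat_lit 76) (nat_lit 10703165274) (nat_lit 101) (nat_lit 5) (nat_lit 104) (nat_lit 5) (nat_lit 102) (nat_lit 5) (nat_lit 470) (nat_lit 421) (nat_lit 309)) (XT.nd (nat_lit 78) (nat_lit 228) (nat_lit 0) (XT.lf (nat_lit 0) (nat_lit 18372280443) (nat_lit 152) (nat_lit 9924844397) (nat_lit 228) (nat_lit 19609729554) (nat_lit 99) (nat_lit 5) (nat_lit 101) (nat_lit 5) (nat_lit 102) (nat_lit 5) (nat_lit 471) (nat_lit 421) (nat_lit 308)) (XT.lf (nat_lit 0) (nat_lit 1161362774) (nat_lit 228) (nat_lit 31049967272) (nat_lit 76) (nat_lit 17266464641) (nat_lit 96) (nat_lit 5) (nat_lit 99) (nat_lit 5) (nat_lit 97) (nat_lit 5) (nat_lit 472) (nat_lit 421) (nat_lit 307)))) (XT.nd (nat_lit 78) (nat_lit 380) (nat_lit 0) (XT.lf (nat_lit 0) (nat_lit 18325104888) (nat_lit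 152) (nat_lit 4816978970) (nat_lit 228) (nat_lit 27962074888) (nat_lit 94) (nat_lit 5) (nat_lit 96) (nat_lit 5) (nat_lit 97) (nat_lit 5) (nat_lit 473) (nat_lit 421) (nat_lit 306)) (XT.nd (nat_lit 78) (nat_lit 228) (nat_lit 0) (XT.lf (nat_lit 0) (nat_lit 18117267134) (nat_lit 152) (nat_lit 28821461726) (nat_lit 228) (nat_lit 5851605920) (nat_lit 92) (nat_lit 5) (nat_lit 94) (nat_lit 5) (nat_lit 95) (nat_lit 5) (nat_lit 474) (nat_lit 421) (nat_lit 305)) (XT.lf (nat_lit 0) (nat_lit 17578213541) (nat_lit 228) (nat_lit 36738372065) (nat_lit 76) (nat_lit 222646812) (nat_lit 89) (nat_lit 5) (nat_lit 92) (nat_lit 5) (nat_lit 90) (nat_lit 5) (nat_lit 475) (nat_lit 421) (nat_lit 304)))))) (XT.nd (nat_lit 468) (nat_lit 988) (nat_lit 0) (XT.nd (nat_lit 234) (nat_lit 380) (nat_lit 0) (XT.nd (nat_lit 78) (nat_lit 380) (nat_lit 0) (XT.lf (nat_lit 0) (nat_lit 17222959074) (nat_lit 152) (nat_lit 25643785628) (nat_lit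 228) (nat_lit 13482845266) (nat_lit 87) (nat_lit 5) (nat_lit 89) (nat_lit 5) (nat_lit 90) (nat_lit 5) (nat_lit 476) (nat_lit 421) (nat_lit 303)) (XT.nd (nat_lit 78) (nat_lit 152) (nat_lit 0) (XT.lf (nat_lit 0) (nat_lit 11532496502) (nat_lit 228) (nat_lit 41674119900) (nat_lit 76) (nat_lit 5023192013) (nat_lit 84) (nat_lit 5) (nat_lit 87) (nat_lit 5) (nat_lit 85) (nat_lit 5) (nat_lit 477) (nat_lit 421) (nat_lit 302)) (XT.lf (nat_lit 0) (nat_lit 15534845857) (nat_lit 152) (nat_lit 22793047050) (nat_lit 228) (nat_lit 21847896385) (nat_lit 82) (nat_lit 5) (nat_lit 84) (nat_lit 5) (nat_lit 85) (nat_lit 5) (nat_lit 478) (nat_lit 421) (nat_lit 301)))) (XT.nd (nat_lit 78) (nat_lit 228) (nat_lit 0) (XT.lf (nat_lit 0) (nat_lit 4818389620) (nat_lit 152) (nat_lit 47805067176) (nat_lit 76) (nat_lit 9574672377) (nat_lit 80) (nat_lit 5) (nat_lit 82) (nat_lit 5) (nat_lit 81) (nat_lit 5) (nat_lit 479) (nat_lit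 421) (nat_lit 300)) (XT.nd (nat_lit 78) (nat_lit 76) (nat_lit 0) (XT.lf (nat_lit 0) (nat_lit 12781529181) (nat_lit 152) (nat_lit 20396845107) (nat_lit 228) (nat_lit 31112355593) (nat_lit 78) (nat_lit 5) (nat_lit 80) (nat_lit 5) (nat_lit 81) (nat_lit 5) (nat_lit 480) (nat_lit 421) (nat_lit 299)) (XT.lf (nat_lit 0) (nat_lit 10987258512) (nat_lit 76) (nat_lit 52692128006) (nat_lit 152) (nat_lit 2786883523) (nat_lit 77) (nat_lit 5) (nat_lit 78) (nat_lit 5) (nat_lit 79) (nat_lit 4) (nat_lit 481) (nat_lit 421) (nat_lit 298))))) (XT.nd (nat_lit 234) (nat_lit 456) (nat_lit 0) (XT.nd (nat_lit 78) (nat_lit 304) (nat_lit 0) (XT.lf (nat_lit 0) (nat_lit 8632461924) (nat_lit 152) (nat_lit 18612162019) (nat_lit 228) (nat_lit 41473717866) (nat_lit 74) (nat_lit 5) (nat_lit 76) (nat_lit 5) (nat_lit 77) (nat_lit 5) (nat_lit 482) (nat_lit 421) (nat_lit 297)) (XT.nd (nat_lit 78) (nat_lit 228) (nat_lit 0) (XT.lf (nat_lit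 0) (nat_lit 5944385523) (nat_lit 76) (nat_lit 53566785038) (nat_lit 152) (nat_lit 11547286025) (nat_lit 73) (nat_lit 5) (nat_lit 74) (nat_lit 5) (nat_lit 75) (nat_lit 4) (nat_lit 483) (nat_lit 421) (nat_lit 296)) (XT.lf (nat_lit 0) (nat_lit 2686704153) (nat_lit 152) (nat_lit 17631028218) (nat_lit 228) (nat_lit 53167210084) (nat_lit 70) (nat_lit 5) (nat_lit 72) (nat_lit 5) (nat_lit 73) (nat_lit 5) (nat_lit 484) (nat_lit 421) (nat_lit 295)))) (XT.nd (nat_lit 156) (nat_lit 304) (nat_lit 0) (XT.nd (nat_lit 78) (nat_lit 152) (nat_lit 0) (XT.lf (nat_lit 0) (nat_lit 54401511302) (nat_lit 228) (nat_lit 1106024790) (nat_lit 76) (nat_lit 20495857090) (nat_lit 70) (nat_lit 5) (nat_lit 73) (nat_lit 5) (nat_lit 71) (nat_lit 4) (nat_lit 485) (nat_lit 421) (nat_lit 294)) (XT.lf (nat_lit 0) (nat_lit 12200131701) (nat_lit 152) (nat_lit 5432215132) (nat_lit 76) (nat_lit 60985582242) (nat_lit 68) (nat_lit 5) (nat_lit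 70) (nat_lit 5) (nat_lit 69) (nat_lit 5) (nat_lit 486) (nat_lit 421) (nat_lit 293))) (XT.nd (nat_lit 78) (nat_lit 152) (nat_lit 0) (XT.lf (nat_lit 0) (nat_lit 48157931161) (nat_lit 228) (nat_lit 10552271631) (nat_lit 76) (nat_lit 22619199392) (nat_lit 66) (nat_lit 5) (nat_lit 69) (nat_lit 5) (nat_lit 67) (nat_lit 4) (nat_lit 487) (nat_lit 421) (nat_lit 292)) (XT.lf (nat_lit 0) (nat_lit 2591457530) (nat_lit 152) (nat_lit 16307901863) (nat_lit 76) (nat_lit 65249943230) (nat_lit 64) (nat_lit 5) (nat_lit 66) (nat_lit 5) (nat_lit 65) (nat_lit 5) (nat_lit 488) (nat_lit 421) (nat_lit 291))))))) (XT.nd (nat_lit 57798) (nat_lit 0) (nat_lit 12996) (XT.nd (nat_lit 57252) (nat_lit 0) (nat_lit 18620) (XT.nd (nat_lit 234) (nat_lit 456) (nat_lit 0) (XT.nd (nat_lit 78) (nat_lit 304) (nat_lit 0) (XT.lf (nat_lit 0) (nat_lit 40412820026) (nat_lit 228) (nat_lit 23138198937) (nat_lit 76) (nat_lit 23520636636) (nat_lit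 62) (nat_lit 5) (nat_lit 65) (nat_lit 5) (nat_lit 63) (nat_lit 4) (nat_lit 489) (nat_lit 421) (nat_lit 290)) (XT.nd (nat_lit 78) (nat_lit 228) (nat_lit 0) (XT.lf (nat_lit 0) (nat_lit 59344751936) (nat_lit 76) (nat_lit 21704204853) (nat_lit 152) (nat_lit 9063458402) (nat_lit 61) (nat_lit 5) (nat_lit 62) (nat_lit 5) (nat_lit 63) (nat_lit 4) (nat_lit 490) (nat_lit 421) (nat_lit 289)) (XT.lf (nat_lit 0) (nat_lit 30793903623) (nat_lit 228) (nat_lit 39617149218) (nat_lit 76) (nat_lit 22856120262) (nat_lit 58) (nat_lit 5) (nat_lit 61) (nat_lit 5) (nat_lit 59) (nat_lit 4) (nat_lit 491) (nat_lit 421) (nat_lit 288)))) (XT.nd (nat_lit 78) (nat_lit 380) (nat_lit 0) (XT.lf (nat_lit 0) (nat_lit 46950925525) (nat_lit 76) (nat_lit 26490996732) (nat_lit 152) (nat_lit 23105497631) (nat_lit 57) (nat_lit 5) (nat_lit 58) (nat_lit 5) (nat_lit 59) (nat_lit 4) (nat_lit 492) (nat_lit 421) (nat_lit 287)) (XT.nd (nat_lit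 156) (nat_lit 228) (nat_lit 0) (XT.lf (nat_lit 0) (nat_lit 18855786279) (nat_lit 152) (nat_lit 60890935613) (nat_lit 76) (nat_lit 20210273834) (nat_lit 55) (nat_lit 5) (nat_lit 57) (nat_lit 5) (nat_lit 56) (nat_lit 4) (nat_lit 493) (nat_lit 421) (nat_lit 286)) (XT.lf (nat_lit 0) (nat_lit 4066646749) (nat_lit 152) (nat_lit 88036852533) (nat_lit 76) (nat_lit 15083214097) (nat_lit 52) (nat_lit 5) (nat_lit 54) (nat_lit 5) (nat_lit 53) (nat_lit 4) (nat_lit 495) (nat_lit 421) (nat_lit 284))))) (XT.nd (nat_lit 234) (nat_lit 988) (nat_lit 0) (XT.nd (nat_lit 78) (nat_lit 0) (nat_lit 0) (XT.lf (nat_lit 0) (nat_lit 1896665328) (nat_lit 0) (nat_lit 1896665328) (nat_lit 1140) (nat_lit 2304590106) (nat_lit 310) (nat_lit 5) (nat_lit 310) (nat_lit 3) (nat_lit 325) (nat_lit 3) (nat_lit 422) (nat_lit 422) (nat_lit 356)) (XT.nd (nat_lit 78) (nat_lit 0) (nat_lit 76) (XT.lf (nat_lit 76) (nat_lit 1620450004) (nat_lit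 0) (nat_lit 6974982410) (nat_lit 1216) (nat_lit 3880623578) (nat_lit 311) (nat_lit 5) (nat_lit 310) (nat_lit 5) (nat_lit 326) (nat_lit 5) (nat_lit 423) (nat_lit 422) (nat_lit 355)) (XT.lf (nat_lit 0) (nat_lit 9755296895) (nat_lit 1140) (nat_lit 537344669) (nat_lit 1216) (nat_lit 2474626913) (nat_lit 311) (nat_lit 5) (nat_lit 326) (nat_lit 5) (nat_lit 327) (nat_lit 5) (nat_lit 424) (nat_lit 422) (nat_lit 354)))) (XT.nd (nat_lit 156) (nat_lit 1064) (nat_lit 0) (XT.nd (nat_lit 78) (nat_lit 0) (nat_lit 76) (XT.lf (nat_lit 76) (nat_lit 10402911408) (nat_lit 0) (nat_lit 695114468) (nat_lit 1216) (nat_lit 1971276184) (nat_lit 312) (nat_lit 5) (nat_lit 311) (nat_lit 5) (nat_lit 327) (nat_lit 5) (nat_lit 425) (nat_lit 422) (nat_lit 353)) (XT.lf (nat_lit 76) (nat_lit 8564782086) (nat_lit 0) (nat_lit 4077777657) (nat_lit 1216) (nat_lit 739843820) (nat_lit 313) (nat_lit 5) (nat_lit 312) (nat_lit 5) (nat_lit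 328) (nat_lit 5) (nat_lit 426) (nat_lit 422) (nat_lit 352))) (XT.nd (nat_lit 78) (nat_lit 0) (nat_lit 76) (XT.lf (nat_lit 0) (nat_lit 659937412) (nat_lit 1216) (nat_lit 6973224070) (nat_lit 1292) (nat_lit 6074317820) (nat_lit 297) (nat_lit 5) (nat_lit 313) (nat_lit 5) (nat_lit 314) (nat_lit 5) (nat_lit 427) (nat_lit 422) (nat_lit 351)) (XT.lf (nat_lit 0) (nat_lit 2239260673) (nat_lit 1216) (nat_lit 9135391044) (nat_lit 1292) (nat_lit 2670197278) (nat_lit 298) (nat_lit 5) (nat_lit 314) (nat_lit 5) (nat_lit 315) (nat_lit 5) (nat_lit 428) (nat_lit 422) (nat_lit 350)))))) (XT.nd (nat_lit 468) (nat_lit 3876) (nat_lit 0) (XT.nd (nat_lit 234) (nat_lit 1824) (nat_lit 0) (XT.nd (nat_lit 78) (nat_lit 0) (nat_lit 76) (XT.lf (nat_lit 76) (nat_lit 3089248825) (nat_lit 0) (nat_lit 949135792) (nat_lit 1292) (nat_lit 10356482800) (nat_lit 299) (nat_lit 5) (nat_lit 298) (nat_lit 5) (nat_lit 315) (nat_lit 5) (nat_lit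 429) (nat_lit 422) (nat_lit 349)) (XT.nd (nat_lit 78) (nat_lit 0) (nat_lit 76) (XT.lf (nat_lit 76) (nat_lit 1255189620) (nat_lit 0) (nat_lit 4838671126) (nat_lit 1292) (nat_lit 8663539162) (nat_lit 300) (nat_lit 5) (nat_lit 299) (nat_lit 5) (nat_lit 316) (nat_lit 5) (nat_lit 430) (nat_lit 422) (nat_lit 348)) (XT.lf (nat_lit 0) (nat_lit 8403272928) (nat_lit 1216) (nat_lit 553285803) (nat_lit 1292) (nat_lit 6176970216) (nat_lit 300) (nat_lit 5) (nat_lit 316) (nat_lit 5) (nat_lit 317) (nat_lit 5) (nat_lit 431) (nat_lit 422) (nat_lit 347)))) (XT.nd (nat_lit 78) (nat_lit 2052) (nat_lit 0) (XT.lf (nat_lit 0) (nat_lit 10992267405) (nat_lit 1216) (nat_lit 2321209571) (nat_lit 76) (nat_lit 2210068673) (nat_lit 301) (nat_lit 5) (nat_lit 317) (nat_lit 5) (nat_lit 302) (nat_lit 5) (nat_lit 432) (nat_lit 422) (nat_lit 346)) (XT.nd (nat_lit 78) (nat_lit 836) (nat_lit 0) (XT.lf (nat_lit 0) (nat_lit 11837052867)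 (nat_lit 1216) (nat_lit 2051468393) (nat_lit 1292) (nat_lit 2039211979) (nat_lit 285) (nat_lit 5) (nat_lit 301) (nat_lit 5) (nat_lit 302) (nat_lit 5) (nat_lit 433) (nat_lit 422) (nat_lit 345)) (XT.lf (nat_lit 0) (nat_lit 756071861) (nat_lit 836) (nat_lit 5871266577) (nat_lit 76) (nat_lit 9718932785) (nat_lit 274) (nat_lit 5) (nat_lit 285) (nat_lit 5) (nat_lit 275) (nat_lit 5) (nat_lit 434) (nat_lit 422) (nat_lit 344))))) (XT.nd (nat_lit 234) (nat_lit 2128) (nat_lit 0) (XT.nd (nat_lit 78) (nat_lit 1140) (nat_lit 0) (XT.lf (nat_lit 0) (nat_lit 3822888244) (nat_lit 684) (nat_lit 7653906066) (nat_lit 76) (nat_lit 5303121645) (nat_lit 266) (nat_lit 5) (nat_lit 275) (nat_lit 5) (nat_lit 267) (nat_lit 5) (nat_lit 435) (nat_lit 422) (nat_lit 343)) (XT.nd (nat_lit 78) (nat_lit 532) (nat_lit 0) (XT.lf (nat_lit 0) (nat_lit 7223197152) (nat_lit 684) (nat_lit 9416221756) (nat_lit 76) (nat_lit 590423105) (nat_lit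 258) (nat_lit 5) (nat_lit 267) (nat_lit 5) (nat_lit 259) (nat_lit 5) (nat_lit 436) (nat_lit 422) (nat_lit 342)) (XT.lf (nat_lit 0) (nat_lit 6496758164) (nat_lit 532) (nat_lit 4527002141) (nat_lit 608) (nat_lit 6671600377) (nat_lit 251) (nat_lit 5) (nat_lit 258) (nat_lit 5) (nat_lit 259) (nat_lit 5) (nat_lit 437) (nat_lit 422) (nat_lit 341)))) (XT.nd (nat_lit 156) (nat_lit 988) (nat_lit 0) (XT.nd (nat_lit 78) (nat_lit 608) (nat_lit 0) (XT.lf (nat_lit 0) (nat_lit 5215019836) (nat_lit 532) (nat_lit 9999518409) (nat_lit 608) (nat_lit 2963614745) (nat_lit 244) (nat_lit 5) (nat_lit 251) (nat_lit 5) (nat_lit 252) (nat_lit 5) (nat_lit 438) (nat_lit 422) (nat_lit 340)) (XT.lf (nat_lit 0) (nat_lit 1114302659) (nat_lit 608) (nat_lit 14711299500) (nat_lit 76) (nat_lit 2853137414) (nat_lit 236) (nat_lit 5) (nat_lit 244) (nat_lit 5) (nat_lit 237) (nat_lit 5) (nat_lit 439) (nat_lit 422) (nat_lit 339))) (XT.nd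 (nat_lit 78) (nat_lit 456) (nat_lit 0) (XT.lf (nat_lit 0) (nat_lit 2708156334) (nat_lit 532) (nat_lit 2864090418) (nat_lit 608) (nat_lit 13624108674) (nat_lit 229) (nat_lit 5) (nat_lit 236) (nat_lit 5) (nat_lit 237) (nat_lit 5) (nat_lit 440) (nat_lit 422) (nat_lit 338)) (XT.lf (nat_lit 0) (nat_lit 1467022638) (nat_lit 456) (nat_lit 9032425749) (nat_lit 532) (nat_lit 9233015647) (nat_lit 223) (nat_lit 5) (nat_lit 229) (nat_lit 5) (nat_lit 230) (nat_lit 5) (nat_lit 441) (nat_lit 422) (nat_lit 337))))))))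
noncomputable def xc85 : XT := (XT.nd (nat_lit 1950) (nat_lit 4332) (nat_lit 0) (XT.nd (nat_lit 936) (nat_lit 3648) (nat_lit 0) (XT.nd (nat_lit 468) (nat_lit 2204) (nat_lit 0) (XT.nd (nat_lit 234) (nat_lit 1368) (nat_lit 0) (XT.nd (nat_lit 78) (nat_lit 532) (nat_lit 0) (XT.lf (nat_lit 0) (nat_lit 277897442) (nat_lit 456) (nat_lit 15618808331) (nat_lit 532) (nat_lit 4391964067) (nat_lit 217) (nat_lit 5) (nat_lit 223) (nat_lit 5) (nat_lit 224) (nat_lit 5) (nat_lit 442) (nat_lit 422) (nat_lit 336)) (XT.nd (nat_lit 78) (nat_lit 456) (nat_lit 0) (XT.lf (nat_lit 0) (nat_lit 936207206) (nat_lit 532) (nat_lit 863668284) (nat_lit 76) (nat_lit 19064856967) (nat_lit 216) (nat_lit 5) (nat_lit 223) (nat_lit 5) (nat_lit 217) (nat_lit 5) (nat_lit 443) (nat_lit 422) (nat_lit 335)) (XT.lf (nat_lit 0) (nat_lit 6731751887) (nat_lit 532) (nat_lit 2035473716) (nat_lit 76) (nat_lit 12692316458) (nat_lit 210) (nat_lit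 5) (nat_lit 217) (nat_lit 5) (nat_lit 211) (nat_lit 5) (nat_lit 444) (nat_lit 422) (nat_lit 334)))) (XT.nd (nat_lit 78) (nat_lit 912) (nat_lit 0) (XT.lf (nat_lit 0) (nat_lit 13063536023) (nat_lit 532) (nat_lit 3148854433) (nat_lit 76) (nat_lit 5864310038) (nat_lit 204) (nat_lit 5) (nat_lit 211) (nat_lit 5) (nat_lit 205) (nat_lit 5) (nat_lit 445) (nat_lit 422) (nat_lit 333)) (XT.nd (nat_lit 78) (nat_lit 532) (nat_lit 0) (XT.lf (nat_lit 0) (nat_lit 18504755133) (nat_lit 380) (nat_lit 1474691205) (nat_lit 456) (nat_lit 2737246508) (nat_lit 199) (nat_lit 5) (nat_lit 204) (nat_lit 5) (nat_lit 205) (nat_lit 5) (nat_lit 446) (nat_lit 422) (nat_lit 332)) (XT.lf (nat_lit 0) (nat_lit 4102568010) (nat_lit 532) (nat_lit 5306788721) (nat_lit 76) (nat_lit 13968460783) (nat_lit 192) (nat_lit 5) (nat_lit 199) (nat_lit 5) (nat_lit 193) (nat_lit 5) (nat_lit 447) (nat_lit 422) (nat_lit 331))))) (XT.nd (nat_lit 234)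 (nat_lit 1064) (nat_lit 0) (XT.nd (nat_lit 78) (nat_lit 760) (nat_lit 0) (XT.lf (nat_lit 0) (nat_lit 11499694292) (nat_lit 456) (nat_lit 6361364419) (nat_lit 76) (nat_lit 6201970570) (nat_lit 187) (nat_lit 5) (nat_lit 193) (nat_lit 5) (nat_lit 188) (nat_lit 5) (nat_lit 448) (nat_lit 422) (nat_lit 330)) (XT.nd (nat_lit 78) (nat_lit 380) (nat_lit 0) (XT.lf (nat_lit 0) (nat_lit 17410146968) (nat_lit 380) (nat_lit 2155802756) (nat_lit 456) (nat_lit 5207575497) (nat_lit 182) (nat_lit 5) (nat_lit 187) (nat_lit 5) (nat_lit 188) (nat_lit 5) (nat_lit 449) (nat_lit 422) (nat_lit 329)) (XT.lf (nat_lit 0) (nat_lit 2821559664) (nat_lit 380) (nat_lit 8379136644) (nat_lit 76) (nat_lit 14307485232) (nat_lit 177) (nat_lit 5) (nat_lit 182) (nat_lit 5) (nat_lit 178) (nat_lit 5) (nat_lit 450) (nat_lit 422) (nat_lit 328)))) (XT.nd (nat_lit 78) (nat_lit 684) (nat_lit 0) (XT.lf (nat_lit 0) (nat_lit 11443023827) (nat_lit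 456) (nat_lit 9369786468) (nat_lit 76) (nat_lit 5456257945) (nat_lit 172) (nat_lit 5) (nat_lit 178) (nat_lit 5) (nat_lit 173) (nat_lit 5) (nat_lit 451) (nat_lit 422) (nat_lit 327)) (XT.nd (nat_lit 78) (nat_lit 380) (nat_lit 0) (XT.lf (nat_lit 0) (nat_lit 16740264670) (nat_lit 304) (nat_lit 4099699267) (nat_lit 380) (nat_lit 6217704739) (nat_lit 168) (nat_lit 5) (nat_lit 172) (nat_lit 5) (nat_lit 173) (nat_lit 5) (nat_lit 452) (nat_lit 422) (nat_lit 326)) (XT.lf (nat_lit 0) (nat_lit 3140138708) (nat_lit 380) (nat_lit 11265629141) (nat_lit 76) (nat_lit 13467895055) (nat_lit 163) (nat_lit 5) (nat_lit 168) (nat_lit 5) (nat_lit 164) (nat_lit 5) (nat_lit 453) (nat_lit 422) (nat_lit 325)))))) (XT.nd (nat_lit 468) (nat_lit 1748) (nat_lit 0) (XT.nd (nat_lit 234) (nat_lit 912) (nat_lit 0) (XT.nd (nat_lit 78) (nat_lit 684) (nat_lit 0) (XT.lf (nat_lit 0) (nat_lit 13163546888) (nat_lit 380) (nat_lit 12189893566)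 (nat_lit 76) (nat_lit 3365382926) (nat_lit 159) (nat_lit 5) (nat_lit 164) (nat_lit 5) (nat_lit 160) (nat_lit 5) (nat_lit 454) (nat_lit 422) (nat_lit 324)) (XT.nd (nat_lit 78) (nat_lit 380) (nat_lit 0) (XT.lf (nat_lit 0) (nat_lit 16498364453) (nat_lit 304) (nat_lit 7595559894) (nat_lit 380) (nat_lit 5500144810) (nat_lit 155) (nat_lit 5) (nat_lit 159) (nat_lit 5) (nat_lit 160) (nat_lit 5) (nat_lit 455) (nat_lit 422) (nat_lit 323)) (XT.lf (nat_lit 0) (nat_lit 5340042315) (nat_lit 380) (nat_lit 13994604976) (nat_lit 76) (nat_lit 11165542729) (nat_lit 150) (nat_lit 5) (nat_lit 155) (nat_lit 5) (nat_lit 151) (nat_lit 5) (nat_lit 456) (nat_lit 422) (nat_lit 322)))) (XT.nd (nat_lit 78) (nat_lit 608) (nat_lit 0) (XT.lf (nat_lit 0) (nat_lit 16580806683) (nat_lit 304) (nat_lit 386415084) (nat_lit 380) (nat_lit 14472000516) (nat_lit 146) (nat_lit 5) (nat_lit 150) (nat_lit 5) (nat_lit 151) (nat_lit 5) (nat_lit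 457) (nat_lit 422) (nat_lit 321)) (XT.nd (nat_lit 78) (nat_lit 380) (nat_lit 0) (XT.lf (nat_lit 0) (nat_lit 16670928575) (nat_lit 228) (nat_lit 12984001119) (nat_lit 304) (nat_lit 2755902422) (nat_lit 143) (nat_lit 5) (nat_lit 146) (nat_lit 5) (nat_lit 147) (nat_lit 5) (nat_lit 458) (nat_lit 422) (nat_lit 320)) (XT.lf (nat_lit 0) (nat_lit 9735751199) (nat_lit 380) (nat_lit 16617094831) (nat_lit 76) (nat_lit 7064143691) (nat_lit 138) (nat_lit 5) (nat_lit 143) (nat_lit 5) (nat_lit 139) (nat_lit 5) (nat_lit 459) (nat_lit 422) (nat_lit 319))))) (XT.nd (nat_lit 234) (nat_lit 988) (nat_lit 0) (XT.nd (nat_lit 78) (nat_lit 532) (nat_lit 0) (XT.lf (nat_lit 0) (nat_lit 16976484627) (nat_lit 228) (nat_lit 6263514127) (nat_lit 304) (nat_lit 11219288560) (nat_lit 135) (nat_lit 5) (nat_lit 138) (nat_lit 5) (nat_lit 139) (nat_lit 5) (nat_lit 460) (nat_lit 422) (nat_lit 318)) (XT.nd (nat_lit 78) (nat_lit 228)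 (nat_lit 0) (XT.lf (nat_lit 0) (nat_lit 2301783003) (nat_lit 304) (nat_lit 18343080580) (nat_lit 76) (nat_lit 14894126056) (nat_lit 131) (nat_lit 5) (nat_lit 135) (nat_lit 5) (nat_lit 132) (nat_lit 5) (nat_lit 461) (nat_lit 422) (nat_lit 317)) (XT.lf (nat_lit 0) (nat_lit 16676485236) (nat_lit 304) (nat_lit 19216596125) (nat_lit 76) (nat_lit 763975789) (nat_lit 128) (nat_lit 5) (nat_lit 132) (nat_lit 5) (nat_lit 129) (nat_lit 5) (nat_lit 462) (nat_lit 422) (nat_lit 316)))) (XT.nd (nat_lit 156) (nat_lit 456) (nat_lit 0) (XT.nd (nat_lit 78) (nat_lit 304) (nat_lit 0) (XT.lf (nat_lit 0) (nat_lit 17685618327) (nat_lit 228) (nat_lit 14640985432) (nat_lit 304) (nat_lit 5487724613) (nat_lit 125) (nat_lit 5) (nat_lit 128) (nat_lit 5) (nat_lit 129) (nat_lit 5) (nat_lit 463) (nat_lit 422) (nat_lit 315)) (XT.lf (nat_lit 0) (nat_lit 9979361172) (nat_lit 304) (nat_lit 21046500006) (nat_lit 76) (nat_lit 7987613069)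 (nat_lit 121) (nat_lit 5) (nat_lit 125) (nat_lit 5) (nat_lit 122) (nat_lit 5) (nat_lit 464) (nat_lit 422) (nat_lit 314))) (XT.nd (nat_lit 78) (nat_lit 228) (nat_lit 0) (XT.lf (nat_lit 0) (nat_lit 18252934816) (nat_lit 228) (nat_lit 8375121969) (nat_lit 304) (nat_lit 13627238790) (nat_lit 118) (nat_lit 5) (nat_lit 121) (nat_lit 5) (nat_lit 122) (nat_lit 5) (nat_lit 465) (nat_lit 422) (nat_lit 313)) (XT.lf (nat_lit 0) (nat_lit 3039698812) (nat_lit 228) (nat_lit 22975336802) (nat_lit 76) (nat_lit 15527253257) (nat_lit 115) (nat_lit 5) (nat_lit 118) (nat_lit 5) (nat_lit 116) (nat_lit 5) (nat_lit 466) (nat_lit 422) (nat_lit 312))))))) (XT.nd (nat_lit 1014) (nat_lit 1824) (nat_lit 0) (XT.nd (nat_lit 468) (nat_lit 1292) (nat_lit 0) (XT.nd (nat_lit 234) (nat_lit 532) (nat_lit 0) (XT.nd (nat_lit 78) (nat_lit 456) (nat_lit 0) (XT.lf (nat_lit 0) (nat_lit 18862320095) (nat_lit 228) (nat_lit 1881797257) (nat_lit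 304) (nat_lit 22130888394) (nat_lit 112) (nat_lit 5) (nat_lit 115) (nat_lit 5) (nat_lit 116) (nat_lit 5) (nat_lit 467) (nat_lit 422) (nat_lit 311)) (XT.nd (nat_lit 78) (nat_lit 304) (nat_lit 0) (XT.lf (nat_lit 0) (nat_lit 19131382960) (nat_lit 152) (nat_lit 20839666163) (nat_lit 228) (nat_lit 4284191142) (nat_lit 110) (nat_lit 5) (nat_lit 112) (nat_lit 5) (nat_lit 113) (nat_lit 5) (nat_lit 468) (nat_lit 422) (nat_lit 310)) (XT.lf (nat_lit 0) (nat_lit 14663872584) (nat_lit 304) (nat_lit 26295512450) (nat_lit 76) (nat_lit 4726200610) (nat_lit 106) (nat_lit 5) (nat_lit 110) (nat_lit 5) (nat_lit 107) (nat_lit 5) (nat_lit 469) (nat_lit 422) (nat_lit 309)))) (XT.nd (nat_lit 78) (nat_lit 380) (nat_lit 0) (XT.lf (nat_lit 0) (nat_lit 19582814031) (nat_lit 152) (nat_lit 15538064640) (nat_lit 228) (nat_lit 12045793305) (nat_lit 104) (nat_lit 5) (nat_lit 106) (nat_lit 5) (nat_lit 107) (nat_lit 5) (nat_lit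 470) (nat_lit 422) (nat_lit 308)) (XT.nd (nat_lit 78) (nat_lit 152) (nat_lit 0) (XT.lf (nat_lit 0) (nat_lit 8291941798) (nat_lit 228) (nat_lit 28935866663) (nat_lit 76) (nat_lit 11474729552) (nat_lit 101) (nat_lit 5) (nat_lit 104) (nat_lit 5) (nat_lit 102) (nat_lit 5) (nat_lit 471) (nat_lit 422) (nat_lit 307)) (XT.lf (nat_lit 0) (nat_lit 19842857209) (nat_lit 152) (nat_lit 10181254734) (nat_lit 228) (nat_lit 20268707677) (nat_lit 99) (nat_lit 5) (nat_lit 101) (nat_lit 5) (nat_lit 102) (nat_lit 5) (nat_lit 472) (nat_lit 422) (nat_lit 306))))) (XT.nd (nat_lit 234) (nat_lit 760) (nat_lit 0) (XT.nd (nat_lit 78) (nat_lit 304) (nat_lit 0) (XT.lf (nat_lit 0) (nat_lit 1527143107) (nat_lit 228) (nat_lit 32053318806) (nat_lit 76) (nat_lit 18361978596) (nat_lit 96) (nat_lit 5) (nat_lit 99) (nat_lit 5) (nat_lit 97) (nat_lit 5) (nat_lit 473) (nat_lit 422) (nat_lit 305)) (XT.nd (nat_lit 78) (nat_lit 152) (nat_lit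 0) (XT.lf (nat_lit 0) (nat_lit 19774765779) (nat_lit 152) (nat_lit 4822608926) (nat_lit 228) (nat_lit 29053034430) (nat_lit 94) (nat_lit 5) (nat_lit 96) (nat_lit 5) (nat_lit 97) (nat_lit 5) (nat_lit 474) (nat_lit 422) (nat_lit 304)) (XT.lf (nat_lit 0) (nat_lit 19547750698) (nat_lit 152) (nat_lit 30029098264) (nat_lit 228) (nat_lit 5844255668) (nat_lit 92) (nat_lit 5) (nat_lit 94) (nat_lit 5) (nat_lit 95) (nat_lit 5) (nat_lit 475) (nat_lit 422) (nat_lit 303)))) (XT.nd (nat_lit 156) (nat_lit 380) (nat_lit 0) (XT.nd (nat_lit 78) (nat_lit 152) (nat_lit 0) (XT.lf (nat_lit 0) (nat_lit 18744364809) (nat_lit 228) (nat_lit 38053664871) (nat_lit 76) (nat_lit 459536619) (nat_lit 89) (nat_lit 5) (nat_lit 92) (nat_lit 5) (nat_lit 90) (nat_lit 5) (nat_lit 476) (nat_lit 422) (nat_lit 302)) (XT.lf (nat_lit 0) (nat_lit 18590780526) (nat_lit 152) (nat_lit 26697734334) (nat_lit 228) (nat_lit 13870191596) (nat_lit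 87) (nat_lit 5) (nat_lit 89) (nat_lit 5) (nat_lit 90) (nat_lit 5) (nat_lit 477) (nat_lit 422) (nat_lit 301))) (XT.nd (nat_lit 78) (nat_lit 152) (nat_lit 0) (XT.lf (nat_lit 0) (nat_lit 12383876442) (nat_lit 228) (nat_lit 43254206471) (nat_lit 76) (nat_lit 5494964003) (nat_lit 84) (nat_lit 5) (nat_lit 87) (nat_lit 5) (nat_lit 85) (nat_lit 5) (nat_lit 478) (nat_lit 422) (nat_lit 300)) (XT.lf (nat_lit 0) (nat_lit 16800771424) (nat_lit 152) (nat_lit 23709889995) (nat_lit 228) (nat_lit 22665917296) (nat_lit 82) (nat_lit 5) (nat_lit 84) (nat_lit 5) (nat_lit 85) (nat_lit 5) (nat_lit 479) (nat_lit 422) (nat_lit 299)))))) (XT.nd (nat_lit 468) (nat_lit 912) (nat_lit 0) (XT.nd (nat_lit 234) (nat_lit 532) (nat_lit 0) (XT.nd (nat_lit 78) (nat_lit 228) (nat_lit 0) (XT.lf (nat_lit 0) (nat_lit 5322246503) (nat_lit 152) (nat_lit 49709228136) (nat_lit 76) (nat_lit 10268664710) (nat_lit 80) (nat_lit 5) (nat_lit 82)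 (nat_lit 5) (nat_lit 81) (nat_lit 5) (nat_lit 480) (nat_lit 422) (nat_lit 298)) (XT.nd (nat_lit 78) (nat_lit 76) (nat_lit 0) (XT.lf (nat_lit 0) (nat_lit 13892764298) (nat_lit 152) (nat_lit 21199483956) (nat_lit 228) (nat_lit 32405361693) (nat_lit 78) (nat_lit 5) (nat_lit 80) (nat_lit 5) (nat_lit 81) (nat_lit 5) (nat_lit 481) (nat_lit 422) (nat_lit 297)) (XT.lf (nat_lit 0) (nat_lit 12000654678) (nat_lit 76) (nat_lit 55111964731) (nat_lit 152) (nat_lit 2669478826) (nat_lit 77) (nat_lit 5) (nat_lit 78) (nat_lit 5) (nat_lit 79) (nat_lit 4) (nat_lit 482) (nat_lit 422) (nat_lit 296)))) (XT.nd (nat_lit 78) (nat_lit 304) (nat_lit 0) (XT.lf (nat_lit 0) (nat_lit 9519690303) (nat_lit 152) (nat_lit 19331295611) (nat_lit 228) (nat_lit 43295942218) (nat_lit 74) (nat_lit 5) (nat_lit 76) (nat_lit 5) (nat_lit 77) (nat_lit 5) (nat_lit 483) (nat_lit 422) (nat_lit 295)) (XT.nd (nat_lit 78) (nat_lit 228) (nat_lit 0)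 (XT.lf (nat_lit 0) (nat_lit 6689296328) (nat_lit 76) (nat_lit 56036177766) (nat_lit 152) (nat_lit 11878736453) (nat_lit 73) (nat_lit 5) (nat_lit 74) (nat_lit 5) (nat_lit 75) (nat_lit 4) (nat_lit 484) (nat_lit 422) (nat_lit 294)) (XT.lf (nat_lit 0) (nat_lit 3260565161) (nat_lit 152) (nat_lit 18306912351) (nat_lit 228) (nat_lit 55584690284) (nat_lit 70) (nat_lit 5) (nat_lit 72) (nat_lit 5) (nat_lit 73) (nat_lit 5) (nat_lit 485) (nat_lit 422) (nat_lit 293))))) (XT.nd (nat_lit 234) (nat_lit 608) (nat_lit 0) (XT.nd (nat_lit 78) (nat_lit 304) (nat_lit 0) (XT.lf (nat_lit 0) (nat_lit 57346192126) (nat_lit 228) (nat_lit 737925474) (nat_lit 76) (nat_lit 21712701344) (nat_lit 70) (nat_lit 5) (nat_lit 73) (nat_lit 5) (nat_lit 71) (nat_lit 4) (nat_lit 486) (nat_lit 422) (nat_lit 292)) (XT.nd (nat_lit 78) (nat_lit 152) (nat_lit 0) (XT.lf (nat_lit 0) (nat_lit 13030163796) (nat_lit 152) (nat_lit 5288177779) (nat_lit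 76) (nat_lit 64223877881) (nat_lit 68) (nat_lit 5) (nat_lit 70) (nat_lit 5) (nat_lit 69) (nat_lit 5) (nat_lit 487) (nat_lit 422) (nat_lit 291)) (XT.lf (nat_lit 0) (nat_lit 50781086083) (nat_lit 228) (nat_lit 10671572971) (nat_lit 76) (nat_lit 23936750434) (nat_lit 66) (nat_lit 5) (nat_lit 69) (nat_lit 5) (nat_lit 67) (nat_lit 4) (nat_lit 488) (nat_lit 422) (nat_lit 290)))) (XT.nd (nat_lit 156) (nat_lit 304) (nat_lit 0) (XT.nd (nat_lit 78) (nat_lit 152) (nat_lit 0) (XT.lf (nat_lit 0) (nat_lit 2931923060) (nat_lit 152) (nat_lit 16722487053) (nat_lit 76) (nat_lit 68696026188) (nat_lit 64) (nat_lit 5) (nat_lit 66) (nat_lit 5) (nat_lit 65) (nat_lit 5) (nat_lit 489) (nat_lit 422) (nat_lit 289)) (XT.lf (nat_lit 0) (nat_lit 42639829283) (nat_lit 228) (nat_lit 23901421610) (nat_lit 76) (nat_lit 24877791987) (nat_lit 62) (nat_lit 5) (nat_lit 65) (nat_lit 5) (nat_lit 63) (nat_lit 4) (nat_lit 490) (nat_lit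 422) (nat_lit 288))) (XT.nd (nat_lit 78) (nat_lit 228) (nat_lit 0) (XT.lf (nat_lit 0) (nat_lit 62694391841) (nat_lit 76) (nat_lit 22607229869) (nat_lit 152) (nat_lit 9310403489) (nat_lit 61) (nat_lit 5) (nat_lit 62) (nat_lit 5) (nat_lit 63) (nat_lit 4) (nat_lit 491) (nat_lit 422) (nat_lit 287)) (XT.lf (nat_lit 0) (nat_lit 32531504075) (nat_lit 228) (nat_lit 41218485856) (nat_lit 76) (nat_lit 24174600750) (nat_lit 58) (nat_lit 5) (nat_lit 61) (nat_lit 5) (nat_lit 59) (nat_lit 4) (nat_lit 492) (nat_lit 422) (nat_lit 286))))))))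
noncomputable def xc86 : XT := (XT.nd (nat_lit 58812) (nat_lit 0) (nat_lit 3800) (XT.nd (nat_lit 57798) (nat_lit 0) (nat_lit 11856) (XT.nd (nat_lit 57330) (nat_lit 0) (nat_lit 18392) (XT.nd (nat_lit 57096) (nat_lit 0) (nat_lit 19456) (XT.nd (nat_lit 156) (nat_lit 228) (nat_lit 0) (XT.lf (nat_lit 0) (nat_lit 49667113737) (nat_lit 76) (nat_lit 27638929456) (nat_lit 152) (nat_lit 24062983213) (nat_lit 57) (nat_lit 5) (nat_lit 58) (nat_lit 5) (nat_lit 59) (nat_lit 4) (nat_lit 493) (nat_lit 422) (nat_lit 285)) (XT.nd (nat_lit 56862) (nat_lit 0) (nat_lit 19456) (XT.lf (nat_lit 0) (nat_lit 31580854904) (nat_lit 76) (nat_lit 35282658459) (nat_lit 152) (nat_lit 41804049008) (nat_lit 54) (nat_lit 5) (nat_lit 55) (nat_lit 5) (nat_lit 56) (nat_lit 4) (nat_lit 495) (nat_lit 422) (nat_lit 283)) (XT.lf (nat_lit 0) (nat_lit 2360519972) (nat_lit 0) (nat_lit 2360519972) (nat_lit 1140) (nat_lit 1659528831) (nat_lit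 310) (nat_lit 5) (nat_lit 310) (nat_lit 3) (nat_lit 325) (nat_lit 3) (nat_lit 423) (nat_lit 423) (nat_lit 354)))) (XT.nd (nat_lit 78) (nat_lit 0) (nat_lit 76) (XT.lf (nat_lit 76) (nat_lit 2468471148) (nat_lit 0) (nat_lit 7963144787) (nat_lit 1216) (nat_lit 2625847181) (nat_lit 311) (nat_lit 5) (nat_lit 310) (nat_lit 5) (nat_lit 326) (nat_lit 5) (nat_lit 424) (nat_lit 423) (nat_lit 353)) (XT.nd (nat_lit 78) (nat_lit 0) (nat_lit 0) (XT.lf (nat_lit 76) (nat_lit 216722613) (nat_lit 0) (nat_lit 11362008557) (nat_lit 1216) (nat_lit 1786637010) (nat_lit 312) (nat_lit 5) (nat_lit 311) (nat_lit 5) (nat_lit 327) (nat_lit 5) (nat_lit 425) (nat_lit 423) (nat_lit 352)) (XT.lf (nat_lit 76) (nat_lit 11677498349) (nat_lit 0) (nat_lit 1252763030) (nat_lit 1216) (nat_lit 754001340) (nat_lit 312) (nat_lit 5) (nat_lit 311) (nat_lit 5) (nat_lit 327) (nat_lit 5) (nat_lit 426) (nat_lit 423) (nat_lit 351))))) (XT.nd (nat_lit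 234) (nat_lit 0) (nat_lit 152) (XT.nd (nat_lit 78) (nat_lit 0) (nat_lit 76) (XT.lf (nat_lit 0) (nat_lit 469738556) (nat_lit 1216) (nat_lit 4251258555) (nat_lit 1292) (nat_lit 9293637663) (nat_lit 296) (nat_lit 5) (nat_lit 312) (nat_lit 5) (nat_lit 313) (nat_lit 5) (nat_lit 427) (nat_lit 423) (nat_lit 350)) (XT.nd (nat_lit 78) (nat_lit 0) (nat_lit 76) (XT.lf (nat_lit 0) (nat_lit 1869301044) (nat_lit 1216) (nat_lit 6505586738) (nat_lit 1292) (nat_lit 5982512082) (nat_lit 297) (nat_lit 5) (nat_lit 313) (nat_lit 5) (nat_lit 314) (nat_lit 5) (nat_lit 428) (nat_lit 423) (nat_lit 349)) (XT.lf (nat_lit 0) (nat_lit 3475973925) (nat_lit 1216) (nat_lit 8762046381) (nat_lit 1292) (nat_lit 2475173966) (nat_lit 298) (nat_lit 5) (nat_lit 314) (nat_lit 5) (nat_lit 315) (nat_lit 5) (nat_lit 429) (nat_lit 423) (nat_lit 348)))) (XT.nd (nat_lit 78) (nat_lit 0) (nat_lit 76) (XT.lf (nat_lit 76) (nat_lit 4050030424)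 (nat_lit 0) (nat_lit 1269214941) (nat_lit 1292) (nat_lit 9762849876) (nat_lit 299) (nat_lit 5) (nat_lit 298) (nat_lit 5) (nat_lit 315) (nat_lit 5) (nat_lit 430) (nat_lit 423) (nat_lit 347)) (XT.nd (nat_lit 78) (nat_lit 0) (nat_lit 76) (XT.lf (nat_lit 76) (nat_lit 2135284270) (nat_lit 0) (nat_lit 5296193767) (nat_lit 1292) (nat_lit 8032663852) (nat_lit 300) (nat_lit 5) (nat_lit 299) (nat_lit 5) (nat_lit 316) (nat_lit 5) (nat_lit 431) (nat_lit 423) (nat_lit 346)) (XT.lf (nat_lit 76) (nat_lit 233642986) (nat_lit 0) (nat_lit 9573803201) (nat_lit 1292) (nat_lit 6053105312) (nat_lit 301) (nat_lit 5) (nat_lit 300) (nat_lit 5) (nat_lit 317) (nat_lit 5) (nat_lit 432) (nat_lit 423) (nat_lit 345)))))) (XT.nd (nat_lit 468) (nat_lit 3116) (nat_lit 0) (XT.nd (nat_lit 234) (nat_lit 1748) (nat_lit 0) (XT.nd (nat_lit 78) (nat_lit 2052) (nat_lit 0) (XT.lf (nat_lit 0) (nat_lit 12482959880) (nat_lit 1216) (nat_lit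 1620553827) (nat_lit 76) (nat_lit 2167849606) (nat_lit 301) (nat_lit 5) (nat_lit 317) (nat_lit 5) (nat_lit 302) (nat_lit 5) (nat_lit 433) (nat_lit 423) (nat_lit 344)) (XT.nd (nat_lit 78) (nat_lit 836) (nat_lit 0) (XT.lf (nat_lit 0) (nat_lit 13222210726) (nat_lit 1216) (nat_lit 2264628146) (nat_lit 1292) (nat_lit 1210043097) (nat_lit 285) (nat_lit 5) (nat_lit 301) (nat_lit 5) (nat_lit 302) (nat_lit 5) (nat_lit 434) (nat_lit 423) (nat_lit 343)) (XT.lf (nat_lit 0) (nat_lit 1670085889) (nat_lit 836) (nat_lit 5349224553) (nat_lit 76) (nat_lit 10117875977) (nat_lit 274) (nat_lit 5) (nat_lit 285) (nat_lit 5) (nat_lit 275) (nat_lit 5) (nat_lit 435) (nat_lit 423) (nat_lit 342)))) (XT.nd (nat_lit 78) (nat_lit 1140) (nat_lit 0) (XT.lf (nat_lit 0) (nat_lit 4855654715) (nat_lit 684) (nat_lit 7218525986) (nat_lit 76) (nat_lit 5519375672) (nat_lit 266) (nat_lit 5) (nat_lit 275) (nat_lit 5) (nat_lit 267) (nat_lit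 5) (nat_lit 436) (nat_lit 423) (nat_lit 341)) (XT.nd (nat_lit 78) (nat_lit 532) (nat_lit 0) (XT.lf (nat_lit 0) (nat_lit 8393400315) (nat_lit 684) (nat_lit 9067890357) (nat_lit 76) (nat_lit 605670508) (nat_lit 258) (nat_lit 5) (nat_lit 267) (nat_lit 5) (nat_lit 259) (nat_lit 5) (nat_lit 437) (nat_lit 423) (nat_lit 340)) (XT.lf (nat_lit 0) (nat_lit 7617258005) (nat_lit 532) (nat_lit 4735856138) (nat_lit 608) (nat_lit 6203572803) (nat_lit 251) (nat_lit 5) (nat_lit 258) (nat_lit 5) (nat_lit 259) (nat_lit 5) (nat_lit 438) (nat_lit 423) (nat_lit 339))))) (XT.nd (nat_lit 234) (nat_lit 1444) (nat_lit 0) (XT.nd (nat_lit 78) (nat_lit 1140) (nat_lit 0) (XT.lf (nat_lit 0) (nat_lit 6271231725) (nat_lit 532) (nat_lit 10452950371) (nat_lit 608) (nat_lit 2340318849) (nat_lit 244) (nat_lit 5) (nat_lit 251) (nat_lit 5) (nat_lit 252) (nat_lit 5) (nat_lit 439) (nat_lit 423) (nat_lit 338)) (XT.nd (nat_lit 78) (nat_lit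 532) (nat_lit 0) (XT.lf (nat_lit 0) (nat_lit 1898559666) (nat_lit 608) (nat_lit 14638142213) (nat_lit 76) (nat_lit 3054033177) (nat_lit 236) (nat_lit 5) (nat_lit 244) (nat_lit 5) (nat_lit 237) (nat_lit 5) (nat_lit 440) (nat_lit 423) (nat_lit 337)) (XT.lf (nat_lit 0) (nat_lit 3629104551) (nat_lit 532) (nat_lit 2923155038) (nat_lit 608) (nat_lit 13582790414) (nat_lit 229) (nat_lit 5) (nat_lit 236) (nat_lit 5) (nat_lit 237) (nat_lit 5) (nat_lit 441) (nat_lit 423) (nat_lit 336)))) (XT.nd (nat_lit 156) (nat_lit 532) (nat_lit 0) (XT.nd (nat_lit 78) (nat_lit 456) (nat_lit 0) (XT.lf (nat_lit 0) (nat_lit 2323128895) (nat_lit 456) (nat_lit 9377586997) (nat_lit 532) (nat_lit 8998005176) (nat_lit 223) (nat_lit 5) (nat_lit 229) (nat_lit 5) (nat_lit 230) (nat_lit 5) (nat_lit 442) (nat_lit 423) (nat_lit 335)) (XT.lf (nat_lit 0) (nat_lit 1070898272) (nat_lit 456) (nat_lit 16273197220) (nat_lit 532) (nat_lit 3939357576)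 (nat_lit 217) (nat_lit 5) (nat_lit 223) (nat_lit 5) (nat_lit 224) (nat_lit 5) (nat_lit 443) (nat_lit 423) (nat_lit 334))) (XT.nd (nat_lit 78) (nat_lit 456) (nat_lit 0) (XT.lf (nat_lit 0) (nat_lit 1610720004) (nat_lit 532) (nat_lit 152285431) (nat_lit 76) (nat_lit 20126064487) (nat_lit 216) (nat_lit 5) (nat_lit 223) (nat_lit 5) (nat_lit 217) (nat_lit 5) (nat_lit 444) (nat_lit 423) (nat_lit 333)) (XT.lf (nat_lit 0) (nat_lit 7674427942) (nat_lit 532) (nat_lit 1387331244) (nat_lit 76) (nat_lit 13452512483) (nat_lit 210) (nat_lit 5) (nat_lit 217) (nat_lit 5) (nat_lit 211) (nat_lit 5) (nat_lit 445) (nat_lit 423) (nat_lit 332))))))) (XT.nd (nat_lit 1014) (nat_lit 3192) (nat_lit 0) (XT.nd (nat_lit 468) (nat_lit 2356) (nat_lit 0) (XT.nd (nat_lit 234) (nat_lit 1140) (nat_lit 0) (XT.nd (nat_lit 78) (nat_lit 912) (nat_lit 0) (XT.lf (nat_lit 0) (nat_lit 14302327998) (nat_lit 532) (nat_lit 2561674615) (nat_lit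 76) (nat_lit 6298902695) (nat_lit 204) (nat_lit 5) (nat_lit 211) (nat_lit 5) (nat_lit 205) (nat_lit 5) (nat_lit 446) (nat_lit 423) (nat_lit 331)) (XT.nd (nat_lit 78) (nat_lit 532) (nat_lit 0) (XT.lf (nat_lit 0) (nat_lit 20153270973) (nat_lit 380) (nat_lit 1389829011) (nat_lit 456) (nat_lit 2292428252) (nat_lit 199) (nat_lit 5) (nat_lit 204) (nat_lit 5) (nat_lit 205) (nat_lit 5) (nat_lit 447) (nat_lit 423) (nat_lit 330)) (XT.lf (nat_lit 0) (nat_lit 4859300130) (nat_lit 532) (nat_lit 4843519173) (nat_lit 76) (nat_lit 14827286593) (nat_lit 192) (nat_lit 5) (nat_lit 199) (nat_lit 5) (nat_lit 193) (nat_lit 5) (nat_lit 448) (nat_lit 423) (nat_lit 329)))) (XT.nd (nat_lit 78) (nat_lit 760) (nat_lit 0) (XT.lf (nat_lit 0) (nat_lit 12608506772) (nat_lit 456) (nat_lit 5957380913) (nat_lit 76) (nat_lit 6684226436) (nat_lit 187) (nat_lit 5) (nat_lit 193) (nat_lit 5) (nat_lit 188) (nat_lit 5) (nat_lit 449) (nat_lit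 423) (nat_lit 328)) (XT.nd (nat_lit 78) (nat_lit 380) (nat_lit 0) (XT.lf (nat_lit 0) (nat_lit 18982008575) (nat_lit 380) (nat_lit 2077387877) (nat_lit 456) (nat_lit 4937301228) (nat_lit 182) (nat_lit 5) (nat_lit 187) (nat_lit 5) (nat_lit 188) (nat_lit 5) (nat_lit 450) (nat_lit 423) (nat_lit 327)) (XT.lf (nat_lit 0) (nat_lit 3466623945) (nat_lit 380) (nat_lit 8093446692) (nat_lit 76) (nat_lit 15208354783) (nat_lit 177) (nat_lit 5) (nat_lit 182) (nat_lit 5) (nat_lit 178) (nat_lit 5) (nat_lit 451) (nat_lit 423) (nat_lit 326))))) (XT.nd (nat_lit 234) (nat_lit 1292) (nat_lit 0) (XT.nd (nat_lit 78) (nat_lit 684) (nat_lit 0) (XT.lf (nat_lit 0) (nat_lit 12503643466) (nat_lit 456) (nat_lit 9141089303) (nat_lit 76) (nat_lit 5923091393) (nat_lit 172) (nat_lit 5) (nat_lit 178) (nat_lit 5) (nat_lit 173) (nat_lit 5) (nat_lit 452) (nat_lit 423) (nat_lit 325)) (XT.nd (nat_lit 78) (nat_lit 380) (nat_lit 0) (XT.lf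 (nat_lit 0) (nat_lit 18254479682) (nat_lit 304) (nat_lit 4099200176) (nat_lit 380) (nat_lit 6042679352) (nat_lit 168) (nat_lit 5) (nat_lit 172) (nat_lit 5) (nat_lit 173) (nat_lit 5) (nat_lit 453) (nat_lit 423) (nat_lit 324)) (XT.lf (nat_lit 0) (nat_lit 3759288013) (nat_lit 380) (nat_lit 11150017439) (nat_lit 76) (nat_lit 14344138076) (nat_lit 163) (nat_lit 5) (nat_lit 168) (nat_lit 5) (nat_lit 164) (nat_lit 5) (nat_lit 454) (nat_lit 423) (nat_lit 323)))) (XT.nd (nat_lit 156) (nat_lit 684) (nat_lit 0) (XT.nd (nat_lit 78) (nat_lit 304) (nat_lit 0) (XT.lf (nat_lit 0) (nat_lit 14270245780) (nat_lit 380) (nat_lit 12128571844) (nat_lit 76) (nat_lit 3742454850) (nat_lit 159) (nat_lit 5) (nat_lit 164) (nat_lit 5) (nat_lit 160) (nat_lit 5) (nat_lit 455) (nat_lit 423) (nat_lit 322)) (XT.lf (nat_lit 0) (nat_lit 17974870259) (nat_lit 304) (nat_lit 7757177142) (nat_lit 380) (nat_lit 5328687714) (nat_lit 155)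 (nat_lit 5) (nat_lit 159) (nat_lit 5) (nat_lit 160) (nat_lit 5) (nat_lit 456) (nat_lit 423) (nat_lit 321))) (XT.nd (nat_lit 78) (nat_lit 304) (nat_lit 0) (XT.lf (nat_lit 0) (nat_lit 6032215622) (nat_lit 380) (nat_lit 14042304648) (nat_lit 76) (nat_lit 11937892036) (nat_lit 150) (nat_lit 5) (nat_lit 155) (nat_lit 5) (nat_lit 151) (nat_lit 5) (nat_lit 457) (nat_lit 423) (nat_lit 320)) (XT.lf (nat_lit 0) (nat_lit 18043187268) (nat_lit 304) (nat_lit 183408584) (nat_lit 380) (nat_lit 14772226603) (nat_lit 146) (nat_lit 5) (nat_lit 150) (nat_lit 5) (nat_lit 151) (nat_lit 5) (nat_lit 458) (nat_lit 423) (nat_lit 319)))))) (XT.nd (nat_lit 468) (nat_lit 1596) (nat_lit 0) (XT.nd (nat_lit 234) (nat_lit 760) (nat_lit 0) (XT.nd (nat_lit 78) (nat_lit 608) (nat_lit 0) (XT.lf (nat_lit 0) (nat_lit 18129591417) (nat_lit 228) (nat_lit 13407570089) (nat_lit 304) (nat_lit 2482198558) (nat_lit 143) (nat_lit 5) (nat_lit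 146) (nat_lit 5) (nat_lit 147) (nat_lit 5) (nat_lit 459) (nat_lit 423) (nat_lit 318)) (XT.nd (nat_lit 78) (nat_lit 228) (nat_lit 0) (XT.lf (nat_lit 0) (nat_lit 10614868550) (nat_lit 380) (nat_lit 16823354404) (nat_lit 76) (nat_lit 7637819456) (nat_lit 138) (nat_lit 5) (nat_lit 143) (nat_lit 5) (nat_lit 139) (nat_lit 5) (nat_lit 460) (nat_lit 423) (nat_lit 317)) (XT.lf (nat_lit 0) (nat_lit 18432000133) (nat_lit 228) (nat_lit 6349477867) (nat_lit 304) (nat_lit 11389363678) (nat_lit 135) (nat_lit 5) (nat_lit 138) (nat_lit 5) (nat_lit 139) (nat_lit 5) (nat_lit 461) (nat_lit 423) (nat_lit 316)))) (XT.nd (nat_lit 78) (nat_lit 456) (nat_lit 0) (XT.lf (nat_lit 0) (nat_lit 2789791741) (nat_lit 304) (nat_lit 18654527050) (nat_lit 76) (nat_lit 15860409049) (nat_lit 131) (nat_lit 5) (nat_lit 135) (nat_lit 5) (nat_lit 132) (nat_lit 5) (nat_lit 462) (nat_lit 423) (nat_lit 315)) (XT.nd (nat_lit 78) (nat_lit 228)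 (nat_lit 0) (XT.lf (nat_lit 0) (nat_lit 17873313682) (nat_lit 304) (nat_lit 19580420922) (nat_lit 76) (nat_lit 1025262714) (nat_lit 128) (nat_lit 5) (nat_lit 132) (nat_lit 5) (nat_lit 129) (nat_lit 5) (nat_lit 463) (nat_lit 423) (nat_lit 314)) (XT.lf (nat_lit 0) (nat_lit 19149791224) (nat_lit 228) (nat_lit 15144435269) (nat_lit 304) (nat_lit 5400258031) (nat_lit 125) (nat_lit 5) (nat_lit 128) (nat_lit 5) (nat_lit 129) (nat_lit 5) (nat_lit 464) (nat_lit 423) (nat_lit 313))))) (XT.nd (nat_lit 234) (nat_lit 836) (nat_lit 0) (XT.nd (nat_lit 78) (nat_lit 456) (nat_lit 0) (XT.lf (nat_lit 0) (nat_lit 10823886622) (nat_lit 304) (nat_lit 21520535263) (nat_lit 76) (nat_lit 8609339484) (nat_lit 121) (nat_lit 5) (nat_lit 125) (nat_lit 5) (nat_lit 122) (nat_lit 5) (nat_lit 465) (nat_lit 423) (nat_lit 312)) (XT.nd (nat_lit 78) (nat_lit 228) (nat_lit 0) (XT.lf (nat_lit 0) (nat_lit 19727294741) (nat_lit 228) (nat_lit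 8566666691) (nat_lit 304) (nat_lit 13964044943) (nat_lit 118) (nat_lit 5) (nat_lit 121) (nat_lit 5) (nat_lit 122) (nat_lit 5) (nat_lit 466) (nat_lit 423) (nat_lit 311)) (XT.lf (nat_lit 0) (nat_lit 3520900341) (nat_lit 228) (nat_lit 23564278005) (nat_lit 76) (nat_lit 16524330973) (nat_lit 115) (nat_lit 5) (nat_lit 118) (nat_lit 5) (nat_lit 116) (nat_lit 5) (nat_lit 467) (nat_lit 423) (nat_lit 310)))) (XT.nd (nat_lit 156) (nat_lit 456) (nat_lit 0) (XT.nd (nat_lit 78) (nat_lit 152) (nat_lit 0) (XT.lf (nat_lit 0) (nat_lit 20349214448) (nat_lit 228) (nat_lit 1750875510) (nat_lit 304) (nat_lit 22909086408) (nat_lit 112) (nat_lit 5) (nat_lit 115) (nat_lit 5) (nat_lit 116) (nat_lit 5) (nat_lit 468) (nat_lit 423) (nat_lit 309)) (XT.lf (nat_lit 0) (nat_lit 20623347278) (nat_lit 152) (nat_lit 21657048169) (nat_lit 228) (nat_lit 4178267144) (nat_lit 110) (nat_lit 5) (nat_lit 112) (nat_lit 5) (nat_lit 113)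 (nat_lit 5) (nat_lit 469) (nat_lit 423) (nat_lit 308))) (XT.nd (nat_lit 78) (nat_lit 152) (nat_lit 0) (XT.lf (nat_lit 0) (nat_lit 15703198608) (nat_lit 304) (nat_lit 27077157738) (nat_lit 76) (nat_lit 5180309933) (nat_lit 106) (nat_lit 5) (nat_lit 110) (nat_lit 5) (nat_lit 107) (nat_lit 5) (nat_lit 470) (nat_lit 423) (nat_lit 307)) (XT.lf (nat_lit 0) (nat_lit 21079802994) (nat_lit 152) (nat_lit 16093652148) (nat_lit 228) (nat_lit 12342640481) (nat_lit 104) (nat_lit 5) (nat_lit 106) (nat_lit 5) (nat_lit 107) (nat_lit 5) (nat_lit 471) (nat_lit 423) (nat_lit 306))))))))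
noncomputable def xc87 : XT := (XT.nd (nat_lit 58890) (nat_lit 0) (nat_lit 9652) (XT.nd (nat_lit 936) (nat_lit 1672) (nat_lit 0) (XT.nd (nat_lit 468) (nat_lit 912) (nat_lit 0) (XT.nd (nat_lit 234) (nat_lit 532) (nat_lit 0) (XT.nd (nat_lit 78) (nat_lit 380) (nat_lit 0) (XT.lf (nat_lit 0) (nat_lit 8998753227) (nat_lit 228) (nat_lit 29867239079) (nat_lit 76) (nat_lit 12262893253) (nat_lit 101) (nat_lit 5) (nat_lit 104) (nat_lit 5) (nat_lit 102) (nat_lit 5) (nat_lit 472) (nat_lit 423) (nat_lit 305)) (XT.nd (nat_lit 78) (nat_lit 228) (nat_lit 0) (XT.lf (nat_lit 0) (nat_lit 21335646549) (nat_lit 152) (nat_lit 10472782882) (nat_lit 228) (nat_lit 20990525506) (nat_lit 99) (nat_lit 5) (nat_lit 101) (nat_lit 5) (nat_lit 102) (nat_lit 5) (nat_lit 473) (nat_lit 423) (nat_lit 304)) (XT.lf (nat_lit 0) (nat_lit 1882604293) (nat_lit 228) (nat_lit 33157892384) (nat_lit 76) (nat_lit 19490681356) (nat_lit 96) (nat_lit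 5) (nat_lit 99) (nat_lit 5) (nat_lit 97) (nat_lit 5) (nat_lit 474) (nat_lit 423) (nat_lit 303)))) (XT.nd (nat_lit 78) (nat_lit 380) (nat_lit 0) (XT.lf (nat_lit 0) (nat_lit 21247318713) (nat_lit 152) (nat_lit 4850388813) (nat_lit 228) (nat_lit 30227097305) (nat_lit 94) (nat_lit 5) (nat_lit 96) (nat_lit 5) (nat_lit 97) (nat_lit 5) (nat_lit 475) (nat_lit 423) (nat_lit 302)) (XT.nd (nat_lit 78) (nat_lit 228) (nat_lit 0) (XT.lf (nat_lit 0) (nat_lit 21000984226) (nat_lit 152) (nat_lit 31318819346) (nat_lit 228) (nat_lit 5864422602) (nat_lit 92) (nat_lit 5) (nat_lit 94) (nat_lit 5) (nat_lit 95) (nat_lit 5) (nat_lit 476) (nat_lit 423) (nat_lit 301)) (XT.lf (nat_lit 0) (nat_lit 19942118733) (nat_lit 228) (nat_lit 39483218140) (nat_lit 76) (nat_lit 687282126) (nat_lit 89) (nat_lit 5) (nat_lit 92) (nat_lit 5) (nat_lit 90) (nat_lit 5) (nat_lit 477) (nat_lit 423) (nat_lit 300))))) (XT.nd (nat_lit 234) (nat_lit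 380) (nat_lit 0) (XT.nd (nat_lit 78) (nat_lit 380) (nat_lit 0) (XT.lf (nat_lit 0) (nat_lit 19979887351) (nat_lit 152) (nat_lit 27825600121) (nat_lit 228) (nat_lit 14303568811) (nat_lit 87) (nat_lit 5) (nat_lit 89) (nat_lit 5) (nat_lit 90) (nat_lit 5) (nat_lit 478) (nat_lit 423) (nat_lit 299)) (XT.nd (nat_lit 78) (nat_lit 152) (nat_lit 0) (XT.lf (nat_lit 0) (nat_lit 13252281252) (nat_lit 228) (nat_lit 44960119132) (nat_lit 76) (nat_lit 5969814144) (nat_lit 84) (nat_lit 5) (nat_lit 87) (nat_lit 5) (nat_lit 85) (nat_lit 5) (nat_lit 479) (nat_lit 423) (nat_lit 298)) (XT.lf (nat_lit 0) (nat_lit 18084513645) (nat_lit 152) (nat_lit 24693289794) (nat_lit 228) (nat_lit 23550347939) (nat_lit 82) (nat_lit 5) (nat_lit 84) (nat_lit 5) (nat_lit 85) (nat_lit 5) (nat_lit 480) (nat_lit 423) (nat_lit 297)))) (XT.nd (nat_lit 78) (nat_lit 228) (nat_lit 0) (XT.lf (nat_lit 0) (nat_lit 5826850803) (nat_lit 152) (nat_lit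 51753789408) (nat_lit 76) (nat_lit 10977343945) (nat_lit 80) (nat_lit 5) (nat_lit 82) (nat_lit 5) (nat_lit 81) (nat_lit 5) (nat_lit 481) (nat_lit 423) (nat_lit 296)) (XT.nd (nat_lit 78) (nat_lit 76) (nat_lit 0) (XT.lf (nat_lit 0) (nat_lit 15015664334) (nat_lit 152) (nat_lit 22062448262) (nat_lit 228) (nat_lit 33787433242) (nat_lit 78) (nat_lit 5) (nat_lit 80) (nat_lit 5) (nat_lit 81) (nat_lit 5) (nat_lit 482) (nat_lit 423) (nat_lit 295)) (XT.lf (nat_lit 0) (nat_lit 13021579240) (nat_lit 76) (nat_lit 57672760540) (nat_lit 152) (nat_lit 2570073971) (nat_lit 77) (nat_lit 5) (nat_lit 78) (nat_lit 5) (nat_lit 79) (nat_lit 4) (nat_lit 483) (nat_lit 423) (nat_lit 294)))))) (XT.nd (nat_lit 468) (nat_lit 836) (nat_lit 0) (XT.nd (nat_lit 234) (nat_lit 304) (nat_lit 0) (XT.nd (nat_lit 78) (nat_lit 304) (nat_lit 0) (XT.lf (nat_lit 0) (nat_lit 10408922240) (nat_lit 152) (nat_lit 20106046778) (nat_lit 228) (nat_lit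 45232656299) (nat_lit 74) (nat_lit 5) (nat_lit 76) (nat_lit 5) (nat_lit 77) (nat_lit 5) (nat_lit 484) (nat_lit 423) (nat_lit 293)) (XT.nd (nat_lit 78) (nat_lit 228) (nat_lit 0) (XT.lf (nat_lit 0) (nat_lit 7429830559) (nat_lit 76) (nat_lit 58648465997) (nat_lit 152) (nat_lit 12249622144) (nat_lit 73) (nat_lit 5) (nat_lit 74) (nat_lit 5) (nat_lit 75) (nat_lit 4) (nat_lit 485) (nat_lit 423) (nat_lit 292)) (XT.lf (nat_lit 0) (nat_lit 3822256277) (nat_lit 152) (nat_lit 19035711684) (nat_lit 228) (nat_lit 58145439261) (nat_lit 70) (nat_lit 5) (nat_lit 72) (nat_lit 5) (nat_lit 73) (nat_lit 5) (nat_lit 486) (nat_lit 423) (nat_lit 291)))) (XT.nd (nat_lit 78) (nat_lit 304) (nat_lit 0) (XT.lf (nat_lit 0) (nat_lit 60417225323) (nat_lit 228) (nat_lit 390784963) (nat_lit 76) (nat_lit 22972532692) (nat_lit 70) (nat_lit 5) (nat_lit 73) (nat_lit 5) (nat_lit 71) (nat_lit 4) (nat_lit 487) (nat_lit 423) (nat_lit 290))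 (XT.nd (nat_lit 78) (nat_lit 152) (nat_lit 0) (XT.lf (nat_lit 0) (nat_lit 13881241610) (nat_lit 152) (nat_lit 5175581580) (nat_lit 76) (nat_lit 67606515337) (nat_lit 68) (nat_lit 5) (nat_lit 70) (nat_lit 5) (nat_lit 69) (nat_lit 5) (nat_lit 488) (nat_lit 423) (nat_lit 289)) (XT.lf (nat_lit 0) (nat_lit 53515386069) (nat_lit 228) (nat_lit 10834800380) (nat_lit 76) (nat_lit 25302831558) (nat_lit 66) (nat_lit 5) (nat_lit 69) (nat_lit 5) (nat_lit 67) (nat_lit 4) (nat_lit 489) (nat_lit 423) (nat_lit 288))))) (XT.nd (nat_lit 234) (nat_lit 456) (nat_lit 0) (XT.nd (nat_lit 78) (nat_lit 228) (nat_lit 0) (XT.lf (nat_lit 0) (nat_lit 3269805066) (nat_lit 152) (nat_lit 17195065008) (nat_lit 76) (nat_lit 72297345228) (nat_lit 64) (nat_lit 5) (nat_lit 66) (nat_lit 5) (nat_lit 65) (nat_lit 5) (nat_lit 490) (nat_lit 423) (nat_lit 287)) (XT.nd (nat_lit 78) (nat_lit 76) (nat_lit 0) (XT.lf (nat_lit 0) (nat_lit 44959002839)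 (nat_lit 228) (nat_lit 24739406727) (nat_lit 76) (nat_lit 26285965958) (nat_lit 62) (nat_lit 5) (nat_lit 65) (nat_lit 5) (nat_lit 63) (nat_lit 4) (nat_lit 491) (nat_lit 423) (nat_lit 286)) (XT.lf (nat_lit 0) (nat_lit 66175961599) (nat_lit 76) (nat_lit 23572343992) (nat_lit 152) (nat_lit 9588868940) (nat_lit 61) (nat_lit 5) (nat_lit 62) (nat_lit 5) (nat_lit 63) (nat_lit 4) (nat_lit 492) (nat_lit 423) (nat_lit 285)))) (XT.nd (nat_lit 57096) (nat_lit 0) (nat_lit 19380) (XT.nd (nat_lit 156) (nat_lit 228) (nat_lit 0) (XT.lf (nat_lit 0) (nat_lit 34337585194) (nat_lit 228) (nat_lit 42935173574) (nat_lit 76) (nat_lit 25542672715) (nat_lit 58) (nat_lit 5) (nat_lit 61) (nat_lit 5) (nat_lit 59) (nat_lit 4) (nat_lit 493) (nat_lit 423) (nat_lit 284)) (XT.lf (nat_lit 0) (nat_lit 21160031442) (nat_lit 152) (nat_lit 66416361961) (nat_lit 76) (nat_lit 22615041818) (nat_lit 55) (nat_lit 5) (nat_lit 57) (nat_lit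 5) (nat_lit 56) (nat_lit 4) (nat_lit 495) (nat_lit 423) (nat_lit 282))) (XT.nd (nat_lit 78) (nat_lit 0) (nat_lit 0) (XT.lf (nat_lit 0) (nat_lit 2813259239) (nat_lit 0) (nat_lit 2813259239) (nat_lit 1140) (nat_lit 1052899122) (nat_lit 310) (nat_lit 5) (nat_lit 310) (nat_lit 3) (nat_lit 325) (nat_lit 3) (nat_lit 424) (nat_lit 424) (nat_lit 352)) (XT.lf (nat_lit 76) (nat_lit 3287585085) (nat_lit 0) (nat_lit 8941268699) (nat_lit 1216) (nat_lit 1443028359) (nat_lit 311) (nat_lit 5) (nat_lit 310) (nat_lit 5) (nat_lit 326) (nat_lit 5) (nat_lit 425) (nat_lit 424) (nat_lit 351))))))) (XT.nd (nat_lit 1014) (nat_lit 5776) (nat_lit 0) (XT.nd (nat_lit 468) (nat_lit 2812) (nat_lit 0) (XT.nd (nat_lit 234) (nat_lit 0) (nat_lit 152) (XT.nd (nat_lit 78) (nat_lit 1216) (nat_lit 0) (XT.lf (nat_lit 76) (nat_lit 946074336) (nat_lit 0) (nat_lit 12428102165) (nat_lit 1216) (nat_lit 622789192) (nat_lit 312) (nat_lit 5)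 (nat_lit 311) (nat_lit 5) (nat_lit 327) (nat_lit 5) (nat_lit 426) (nat_lit 424) (nat_lit 350)) (XT.nd (nat_lit 78) (nat_lit 0) (nat_lit 76) (XT.lf (nat_lit 0) (nat_lit 393962414) (nat_lit 1216) (nat_lit 1391739737) (nat_lit 1292) (nat_lit 12547733168) (nat_lit 295) (nat_lit 5) (nat_lit 311) (nat_lit 5) (nat_lit 312) (nat_lit 5) (nat_lit 427) (nat_lit 424) (nat_lit 349)) (XT.lf (nat_lit 0) (nat_lit 1610155823) (nat_lit 1216) (nat_lit 3738400553) (nat_lit 1292) (nat_lit 9333147560) (nat_lit 296) (nat_lit 5) (nat_lit 312) (nat_lit 5) (nat_lit 313) (nat_lit 5) (nat_lit 428) (nat_lit 424) (nat_lit 348)))) (XT.nd (nat_lit 78) (nat_lit 0) (nat_lit 76) (XT.lf (nat_lit 0) (nat_lit 3029765427) (nat_lit 1216) (nat_lit 6090459241) (nat_lit 1292) (nat_lit 5922887909) (nat_lit 297) (nat_lit 5) (nat_lit 313) (nat_lit 5) (nat_lit 314) (nat_lit 5) (nat_lit 429) (nat_lit 424) (nat_lit 347)) (XT.nd (nat_lit 78) (nat_lit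 0) (nat_lit 0) (XT.lf (nat_lit 0) (nat_lit 4669954225) (nat_lit 1216) (nat_lit 8447210637) (nat_lit 1292) (nat_lit 2300943388) (nat_lit 298) (nat_lit 5) (nat_lit 314) (nat_lit 5) (nat_lit 315) (nat_lit 5) (nat_lit 430) (nat_lit 424) (nat_lit 346)) (XT.lf (nat_lit 76) (nat_lit 4983887190) (nat_lit 0) (nat_lit 1579952205) (nat_lit 1292) (nat_lit 9242868049) (nat_lit 299) (nat_lit 5) (nat_lit 298) (nat_lit 5) (nat_lit 315) (nat_lit 5) (nat_lit 431) (nat_lit 424) (nat_lit 345))))) (XT.nd (nat_lit 234) (nat_lit 3116) (nat_lit 0) (XT.nd (nat_lit 78) (nat_lit 0) (nat_lit 76) (XT.lf (nat_lit 76) (nat_lit 2983395576) (nat_lit 0) (nat_lit 5756549110) (nat_lit 1292) (nat_lit 7469170271) (nat_lit 300) (nat_lit 5) (nat_lit 299) (nat_lit 5) (nat_lit 316) (nat_lit 5) (nat_lit 432) (nat_lit 424) (nat_lit 344)) (XT.nd (nat_lit 78) (nat_lit 0) (nat_lit 76) (XT.lf (nat_lit 76) (nat_lit 994672190) (nat_lit 0) (nat_lit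 10200838101) (nat_lit 1292) (nat_lit 5431016844) (nat_lit 301) (nat_lit 5) (nat_lit 300) (nat_lit 5) (nat_lit 317) (nat_lit 5) (nat_lit 433) (nat_lit 424) (nat_lit 343)) (XT.lf (nat_lit 0) (nat_lit 13960694363) (nat_lit 1216) (nat_lit 960795830) (nat_lit 76) (nat_lit 2137718277) (nat_lit 301) (nat_lit 5) (nat_lit 317) (nat_lit 5) (nat_lit 302) (nat_lit 5) (nat_lit 434) (nat_lit 424) (nat_lit 342)))) (XT.nd (nat_lit 156) (nat_lit 1216) (nat_lit 0) (XT.nd (nat_lit 78) (nat_lit 836) (nat_lit 0) (XT.lf (nat_lit 0) (nat_lit 14602872478) (nat_lit 1216) (nat_lit 2478164618) (nat_lit 1292) (nat_lit 425983365) (nat_lit 285) (nat_lit 5) (nat_lit 301) (nat_lit 5) (nat_lit 302) (nat_lit 5) (nat_lit 435) (nat_lit 424) (nat_lit 341)) (XT.lf (nat_lit 0) (nat_lit 2548338877) (nat_lit 836) (nat_lit 4876907683) (nat_lit 76) (nat_lit 10544855084) (nat_lit 274) (nat_lit 5) (nat_lit 285) (nat_lit 5) (nat_lit 275) (nat_lit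 5) (nat_lit 436) (nat_lit 424) (nat_lit 340))) (XT.nd (nat_lit 78) (nat_lit 608) (nat_lit 0) (XT.lf (nat_lit 0) (nat_lit 5861813468) (nat_lit 684) (nat_lit 6837433798) (nat_lit 76) (nat_lit 5750988850) (nat_lit 266) (nat_lit 5) (nat_lit 275) (nat_lit 5) (nat_lit 267) (nat_lit 5) (nat_lit 437) (nat_lit 424) (nat_lit 339)) (XT.lf (nat_lit 0) (nat_lit 9546896458) (nat_lit 684) (nat_lit 8778298491) (nat_lit 76) (nat_lit 623007320) (nat_lit 258) (nat_lit 5) (nat_lit 267) (nat_lit 5) (nat_lit 259) (nat_lit 5) (nat_lit 438) (nat_lit 424) (nat_lit 338)))))) (XT.nd (nat_lit 468) (nat_lit 2660) (nat_lit 0) (XT.nd (nat_lit 234) (nat_lit 1444) (nat_lit 0) (XT.nd (nat_lit 78) (nat_lit 1140) (nat_lit 0) (XT.lf (nat_lit 0) (nat_lit 8719809732) (nat_lit 532) (nat_lit 4956779458) (nat_lit 608) (nat_lit 5786669727) (nat_lit 251) (nat_lit 5) (nat_lit 258) (nat_lit 5) (nat_lit 259) (nat_lit 5) (nat_lit 439) (nat_lit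 424) (nat_lit 337)) (XT.nd (nat_lit 78) (nat_lit 608) (nat_lit 0) (XT.lf (nat_lit 0) (nat_lit 7306299793) (nat_lit 532) (nat_lit 10933381148) (nat_lit 608) (nat_lit 1757582744) (nat_lit 244) (nat_lit 5) (nat_lit 251) (nat_lit 5) (nat_lit 252) (nat_lit 5) (nat_lit 440) (nat_lit 424) (nat_lit 336)) (XT.lf (nat_lit 0) (nat_lit 2654296606) (nat_lit 608) (nat_lit 14636514393) (nat_lit 76) (nat_lit 3259559228) (nat_lit 236) (nat_lit 5) (nat_lit 244) (nat_lit 5) (nat_lit 237) (nat_lit 5) (nat_lit 441) (nat_lit 424) (nat_lit 335)))) (XT.nd (nat_lit 78) (nat_lit 912) (nat_lit 0) (XT.lf (nat_lit 0) (nat_lit 4523068079) (nat_lit 532) (nat_lit 2992995418) (nat_lit 608) (nat_lit 13606579645) (nat_lit 229) (nat_lit 5) (nat_lit 236) (nat_lit 5) (nat_lit 237) (nat_lit 5) (nat_lit 442) (nat_lit 424) (nat_lit 334)) (XT.nd (nat_lit 78) (nat_lit 456) (nat_lit 0) (XT.lf (nat_lit 0) (nat_lit 3149267313) (nat_lit 456)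 (nat_lit 9749903953) (nat_lit 532) (nat_lit 8816013142) (nat_lit 223) (nat_lit 5) (nat_lit 229) (nat_lit 5) (nat_lit 230) (nat_lit 5) (nat_lit 443) (nat_lit 424) (nat_lit 333)) (XT.lf (nat_lit 0) (nat_lit 1831115255) (nat_lit 456) (nat_lit 16972071114) (nat_lit 532) (nat_lit 3526615981) (nat_lit 217) (nat_lit 5) (nat_lit 223) (nat_lit 5) (nat_lit 224) (nat_lit 5) (nat_lit 444) (nat_lit 424) (nat_lit 332))))) (XT.nd (nat_lit 234) (nat_lit 1672) (nat_lit 0) (XT.nd (nat_lit 78) (nat_lit 456) (nat_lit 0) (XT.lf (nat_lit 0) (nat_lit 534953004) (nat_lit 456) (nat_lit 1730789910) (nat_lit 532) (nat_lit 20700484143) (nat_lit 210) (nat_lit 5) (nat_lit 216) (nat_lit 5) (nat_lit 217) (nat_lit 5) (nat_lit 445) (nat_lit 424) (nat_lit 331)) (XT.nd (nat_lit 78) (nat_lit 456) (nat_lit 0) (XT.lf (nat_lit 0) (nat_lit 8607889440) (nat_lit 532) (nat_lit 776501744) (nat_lit 76) (nat_lit 14239043052) (nat_lit 210) (nat_lit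 5) (nat_lit 217) (nat_lit 5) (nat_lit 211) (nat_lit 5) (nat_lit 446) (nat_lit 424) (nat_lit 330)) (XT.lf (nat_lit 0) (nat_lit 15548614624) (nat_lit 532) (nat_lit 2014363753) (nat_lit 76) (nat_lit 6742081078) (nat_lit 204) (nat_lit 5) (nat_lit 211) (nat_lit 5) (nat_lit 205) (nat_lit 5) (nat_lit 447) (nat_lit 424) (nat_lit 329)))) (XT.nd (nat_lit 156) (nat_lit 760) (nat_lit 0) (XT.nd (nat_lit 78) (nat_lit 532) (nat_lit 0) (XT.lf (nat_lit 0) (nat_lit 21816969064) (nat_lit 380) (nat_lit 1315468529) (nat_lit 456) (nat_lit 1879448230) (nat_lit 199) (nat_lit 5) (nat_lit 204) (nat_lit 5) (nat_lit 205) (nat_lit 5) (nat_lit 448) (nat_lit 424) (nat_lit 328)) (XT.lf (nat_lit 0) (nat_lit 5602585972) (nat_lit 532) (nat_lit 4424825305) (nat_lit 76) (nat_lit 15714140964) (nat_lit 192) (nat_lit 5) (nat_lit 199) (nat_lit 5) (nat_lit 193) (nat_lit 5) (nat_lit 449) (nat_lit 424) (nat_lit 327))) (XT.nd (nat_lit 78)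 (nat_lit 380) (nat_lit 0) (XT.lf (nat_lit 0) (nat_lit 13723129630) (nat_lit 456) (nat_lit 5600327758) (nat_lit 76) (nat_lit 7174589537) (nat_lit 187) (nat_lit 5) (nat_lit 193) (nat_lit 5) (nat_lit 188) (nat_lit 5) (nat_lit 450) (nat_lit 424) (nat_lit 326)) (XT.lf (nat_lit 0) (nat_lit 20567257992) (nat_lit 380) (nat_lit 2012363831) (nat_lit 456) (nat_lit 4702848335) (nat_lit 182) (nat_lit 5) (nat_lit 187) (nat_lit 5) (nat_lit 188) (nat_lit 5) (nat_lit 451) (nat_lit 424) (nat_lit 325))))))))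
noncomputable def xc88 : XT := (XT.nd (nat_lit 1950) (nat_lit 2812) (nat_lit 0) (XT.nd (nat_lit 936) (nat_lit 2812) (nat_lit 0) (XT.nd (nat_lit 468) (nat_lit 1824) (nat_lit 0) (XT.nd (nat_lit 234) (nat_lit 988) (nat_lit 0) (XT.nd (nat_lit 78) (nat_lit 684) (nat_lit 0) (XT.lf (nat_lit 0) (nat_lit 4097085572) (nat_lit 380) (nat_lit 7858983621) (nat_lit 76) (nat_lit 16137022217) (nat_lit 177) (nat_lit 5) (nat_lit 182) (nat_lit 5) (nat_lit 178) (nat_lit 5) (nat_lit 452) (nat_lit 424) (nat_lit 324)) (XT.nd (nat_lit 78) (nat_lit 304) (nat_lit 0) (XT.lf (nat_lit 0) (nat_lit 13571880921) (nat_lit 456) (nat_lit 8965775071) (nat_lit 76) (nat_lit 6395228321) (nat_lit 172) (nat_lit 5) (nat_lit 178) (nat_lit 5) (nat_lit 173) (nat_lit 5) (nat_lit 453) (nat_lit 424) (nat_lit 323)) (XT.lf (nat_lit 0) (nat_lit 19781445641) (nat_lit 304) (nat_lit 4117780090) (nat_lit 380) (nat_lit 5904078061) (nat_lit 168) (nat_lit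 5) (nat_lit 172) (nat_lit 5) (nat_lit 173) (nat_lit 5) (nat_lit 454) (nat_lit 424) (nat_lit 322)))) (XT.nd (nat_lit 78) (nat_lit 608) (nat_lit 0) (XT.lf (nat_lit 0) (nat_lit 4366429165) (nat_lit 380) (nat_lit 11091742203) (nat_lit 76) (nat_lit 15245334339) (nat_lit 163) (nat_lit 5) (nat_lit 168) (nat_lit 5) (nat_lit 164) (nat_lit 5) (nat_lit 455) (nat_lit 424) (nat_lit 321)) (XT.nd (nat_lit 78) (nat_lit 304) (nat_lit 0) (XT.lf (nat_lit 0) (nat_lit 15390580334) (nat_lit 380) (nat_lit 12126550187) (nat_lit 76) (nat_lit 4118967867) (nat_lit 159) (nat_lit 5) (nat_lit 164) (nat_lit 5) (nat_lit 160) (nat_lit 5) (nat_lit 456) (nat_lit 424) (nat_lit 320)) (XT.lf (nat_lit 0) (nat_lit 19464622917) (nat_lit 304) (nat_lit 7947157772) (nat_lit 380) (nat_lit 5190165786) (nat_lit 155) (nat_lit 5) (nat_lit 159) (nat_lit 5) (nat_lit 160) (nat_lit 5) (nat_lit 457) (nat_lit 424) (nat_lit 319))))) (XT.nd (nat_lit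 234) (nat_lit 912) (nat_lit 0) (XT.nd (nat_lit 78) (nat_lit 532) (nat_lit 0) (XT.lf (nat_lit 0) (nat_lit 6719469206) (nat_lit 380) (nat_lit 14153008927) (nat_lit 76) (nat_lit 12728956407) (nat_lit 150) (nat_lit 5) (nat_lit 155) (nat_lit 5) (nat_lit 151) (nat_lit 5) (nat_lit 458) (nat_lit 424) (nat_lit 318)) (XT.nd (nat_lit 78) (nat_lit 228) (nat_lit 0) (XT.lf (nat_lit 0) (nat_lit 19510813816) (nat_lit 380) (nat_lit 15117834196) (nat_lit 76) (nat_lit 8901207) (nat_lit 146) (nat_lit 5) (nat_lit 151) (nat_lit 5) (nat_lit 147) (nat_lit 5) (nat_lit 459) (nat_lit 424) (nat_lit 317)) (XT.lf (nat_lit 0) (nat_lit 19603070003) (nat_lit 228) (nat_lit 13873294548) (nat_lit 304) (nat_lit 2233066776) (nat_lit 143) (nat_lit 5) (nat_lit 146) (nat_lit 5) (nat_lit 147) (nat_lit 5) (nat_lit 460) (nat_lit 424) (nat_lit 316)))) (XT.nd (nat_lit 78) (nat_lit 532) (nat_lit 0) (XT.lf (nat_lit 0) (nat_lit 11501466663) (nat_lit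 380) (nat_lit 17097995893) (nat_lit 76) (nat_lit 8219681930) (nat_lit 138) (nat_lit 5) (nat_lit 143) (nat_lit 5) (nat_lit 139) (nat_lit 5) (nat_lit 461) (nat_lit 424) (nat_lit 315)) (XT.nd (nat_lit 78) (nat_lit 304) (nat_lit 0) (XT.lf (nat_lit 0) (nat_lit 19903887009) (nat_lit 228) (nat_lit 6460863809) (nat_lit 304) (nat_lit 11604283734) (nat_lit 135) (nat_lit 5) (nat_lit 138) (nat_lit 5) (nat_lit 139) (nat_lit 5) (nat_lit 462) (nat_lit 424) (nat_lit 314)) (XT.lf (nat_lit 0) (nat_lit 3267530387) (nat_lit 304) (nat_lit 19037858793) (nat_lit 76) (nat_lit 16854406091) (nat_lit 131) (nat_lit 5) (nat_lit 135) (nat_lit 5) (nat_lit 132) (nat_lit 5) (nat_lit 463) (nat_lit 424) (nat_lit 313)))))) (XT.nd (nat_lit 468) (nat_lit 1368) (nat_lit 0) (XT.nd (nat_lit 234) (nat_lit 684) (nat_lit 0) (XT.nd (nat_lit 78) (nat_lit 532) (nat_lit 0) (XT.lf (nat_lit 0) (nat_lit 19096234861) (nat_lit 304) (nat_lit 20017940825)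 (nat_lit 76) (nat_lit 1278873366) (nat_lit 128) (nat_lit 5) (nat_lit 132) (nat_lit 5) (nat_lit 129) (nat_lit 5) (nat_lit 464) (nat_lit 424) (nat_lit 312)) (XT.nd (nat_lit 78) (nat_lit 304) (nat_lit 0) (XT.lf (nat_lit 0) (nat_lit 20633259907) (nat_lit 228) (nat_lit 15694310607) (nat_lit 304) (nat_lit 5342059765) (nat_lit 125) (nat_lit 5) (nat_lit 128) (nat_lit 5) (nat_lit 129) (nat_lit 5) (nat_lit 465) (nat_lit 424) (nat_lit 311)) (XT.lf (nat_lit 0) (nat_lit 11678511693) (nat_lit 304) (nat_lit 22072036182) (nat_lit 76) (nat_lit 9241480617) (nat_lit 121) (nat_lit 5) (nat_lit 125) (nat_lit 5) (nat_lit 122) (nat_lit 5) (nat_lit 466) (nat_lit 424) (nat_lit 310)))) (XT.nd (nat_lit 78) (nat_lit 456) (nat_lit 0) (XT.lf (nat_lit 0) (nat_lit 21223149895) (nat_lit 228) (nat_lit 8788912609) (nat_lit 304) (nat_lit 14349724935) (nat_lit 118) (nat_lit 5) (nat_lit 121) (nat_lit 5) (nat_lit 122) (nat_lit 5) (nat_lit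 467) (nat_lit 424) (nat_lit 309)) (XT.nd (nat_lit 78) (nat_lit 228) (nat_lit 0) (XT.lf (nat_lit 0) (nat_lit 3995554508) (nat_lit 228) (nat_lit 24234713549) (nat_lit 76) (nat_lit 17550742582) (nat_lit 115) (nat_lit 5) (nat_lit 118) (nat_lit 5) (nat_lit 116) (nat_lit 5) (nat_lit 468) (nat_lit 424) (nat_lit 308)) (XT.lf (nat_lit 0) (nat_lit 21859898162) (nat_lit 228) (nat_lit 1634327122) (nat_lit 304) (nat_lit 23756720860) (nat_lit 112) (nat_lit 5) (nat_lit 115) (nat_lit 5) (nat_lit 116) (nat_lit 5) (nat_lit 469) (nat_lit 424) (nat_lit 307))))) (XT.nd (nat_lit 234) (nat_lit 760) (nat_lit 0) (XT.nd (nat_lit 78) (nat_lit 456) (nat_lit 0) (XT.lf (nat_lit 0) (nat_lit 22140133844) (nat_lit 152) (nat_lit 22536180575) (nat_lit 228) (nat_lit 4096809931) (nat_lit 110) (nat_lit 5) (nat_lit 112) (nat_lit 5) (nat_lit 113) (nat_lit 5) (nat_lit 470) (nat_lit 424) (nat_lit 306)) (XT.nd (nat_lit 78) (nat_lit 152)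 (nat_lit 0) (XT.lf (nat_lit 0) (nat_lit 16766029646) (nat_lit 304) (nat_lit 27947450696) (nat_lit 76) (nat_lit 5636875808) (nat_lit 106) (nat_lit 5) (nat_lit 110) (nat_lit 5) (nat_lit 107) (nat_lit 5) (nat_lit 471) (nat_lit 424) (nat_lit 305)) (XT.lf (nat_lit 0) (nat_lit 22603496781) (nat_lit 152) (nat_lit 16697594870) (nat_lit 228) (nat_lit 12682727163) (nat_lit 104) (nat_lit 5) (nat_lit 106) (nat_lit 5) (nat_lit 107) (nat_lit 5) (nat_lit 472) (nat_lit 424) (nat_lit 304)))) (XT.nd (nat_lit 156) (nat_lit 380) (nat_lit 0) (XT.nd (nat_lit 78) (nat_lit 152) (nat_lit 0) (XT.lf (nat_lit 0) (nat_lit 9713737908) (nat_lit 228) (nat_lit 30893099068) (nat_lit 76) (nat_lit 13070529729) (nat_lit 101) (nat_lit 5) (nat_lit 104) (nat_lit 5) (nat_lit 102) (nat_lit 5) (nat_lit 473) (nat_lit 424) (nat_lit 303)) (XT.lf (nat_lit 0) (nat_lit 22856529991) (nat_lit 152) (nat_lit 10799111742) (nat_lit 228) (nat_lit 21775546062)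 (nat_lit 99) (nat_lit 5) (nat_lit 101) (nat_lit 5) (nat_lit 102) (nat_lit 5) (nat_lit 474) (nat_lit 424) (nat_lit 302))) (XT.nd (nat_lit 78) (nat_lit 152) (nat_lit 0) (XT.lf (nat_lit 0) (nat_lit 2229890091) (nat_lit 228) (nat_lit 34364002547) (nat_lit 76) (nat_lit 20656239306) (nat_lit 96) (nat_lit 5) (nat_lit 99) (nat_lit 5) (nat_lit 97) (nat_lit 5) (nat_lit 475) (nat_lit 424) (nat_lit 301)) (XT.lf (nat_lit 0) (nat_lit 22748518793) (nat_lit 152) (nat_lit 4899393007) (nat_lit 228) (nat_lit 31485763875) (nat_lit 94) (nat_lit 5) (nat_lit 96) (nat_lit 5) (nat_lit 97) (nat_lit 5) (nat_lit 476) (nat_lit 424) (nat_lit 300))))))) (XT.nd (nat_lit 1014) (nat_lit 836) (nat_lit 0) (XT.nd (nat_lit 468) (nat_lit 912) (nat_lit 0) (XT.nd (nat_lit 234) (nat_lit 532) (nat_lit 0) (XT.nd (nat_lit 78) (nat_lit 380) (nat_lit 0) (XT.lf (nat_lit 0) (nat_lit 22482639779) (nat_lit 152) (nat_lit 32692711488) (nat_lit 228)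 (nat_lit 5910890127) (nat_lit 92) (nat_lit 5) (nat_lit 94) (nat_lit 5) (nat_lit 95) (nat_lit 5) (nat_lit 477) (nat_lit 424) (nat_lit 299)) (XT.nd (nat_lit 78) (nat_lit 152) (nat_lit 0) (XT.lf (nat_lit 0) (nat_lit 21175538215) (nat_lit 228) (nat_lit 41028236212) (nat_lit 76) (nat_lit 907377458) (nat_lit 89) (nat_lit 5) (nat_lit 92) (nat_lit 5) (nat_lit 90) (nat_lit 5) (nat_lit 478) (nat_lit 424) (nat_lit 298)) (XT.lf (nat_lit 0) (nat_lit 21395723260) (nat_lit 152) (nat_lit 29029106041) (nat_lit 228) (nat_lit 14782799528) (nat_lit 87) (nat_lit 5) (nat_lit 89) (nat_lit 5) (nat_lit 90) (nat_lit 5) (nat_lit 479) (nat_lit 424) (nat_lit 297)))) (XT.nd (nat_lit 78) (nat_lit 304) (nat_lit 0) (XT.lf (nat_lit 0) (nat_lit 14140937028) (nat_lit 228) (nat_lit 46793796142) (nat_lit 76) (nat_lit 6449803209) (nat_lit 84) (nat_lit 5) (nat_lit 87) (nat_lit 5) (nat_lit 85) (nat_lit 5) (nat_lit 480) (nat_lit 424) (nat_lit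 296)) (XT.nd (nat_lit 78) (nat_lit 152) (nat_lit 0) (XT.lf (nat_lit 0) (nat_lit 19391191618) (nat_lit 152) (nat_lit 25744648433) (nat_lit 228) (nat_lit 24502137242) (nat_lit 82) (nat_lit 5) (nat_lit 84) (nat_lit 5) (nat_lit 85) (nat_lit 5) (nat_lit 481) (nat_lit 424) (nat_lit 295)) (XT.lf (nat_lit 0) (nat_lit 6334512595) (nat_lit 152) (nat_lit 53941569459) (nat_lit 76) (nat_lit 11703305020) (nat_lit 80) (nat_lit 5) (nat_lit 82) (nat_lit 5) (nat_lit 81) (nat_lit 5) (nat_lit 482) (nat_lit 424) (nat_lit 294))))) (XT.nd (nat_lit 234) (nat_lit 456) (nat_lit 0) (XT.nd (nat_lit 78) (nat_lit 304) (nat_lit 0) (XT.lf (nat_lit 0) (nat_lit 16154893647) (nat_lit 152) (nat_lit 22986876895) (nat_lit 228) (nat_lit 35260753625) (nat_lit 78) (nat_lit 5) (nat_lit 80) (nat_lit 5) (nat_lit 81) (nat_lit 5) (nat_lit 483) (nat_lit 424) (nat_lit 293)) (XT.nd (nat_lit 78) (nat_lit 228) (nat_lit 0) (XT.lf (nat_lit 0) (nat_lit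 14054419498) (nat_lit 76) (nat_lit 60379707024) (nat_lit 152) (nat_lit 2487349736) (nat_lit 77) (nat_lit 5) (nat_lit 78) (nat_lit 5) (nat_lit 79) (nat_lit 4) (nat_lit 484) (nat_lit 424) (nat_lit 292)) (XT.lf (nat_lit 0) (nat_lit 11304195946) (nat_lit 152) (nat_lit 20937368515) (nat_lit 228) (nat_lit 47287411082) (nat_lit 74) (nat_lit 5) (nat_lit 76) (nat_lit 5) (nat_lit 77) (nat_lit 5) (nat_lit 485) (nat_lit 424) (nat_lit 291)))) (XT.nd (nat_lit 156) (nat_lit 152) (nat_lit 0) (XT.nd (nat_lit 78) (nat_lit 228) (nat_lit 0) (XT.lf (nat_lit 0) (nat_lit 8169639015) (nat_lit 76) (nat_lit 61408988475) (nat_lit 152) (nat_lit 12659789299) (nat_lit 73) (nat_lit 5) (nat_lit 74) (nat_lit 5) (nat_lit 75) (nat_lit 4) (nat_lit 486) (nat_lit 424) (nat_lit 290)) (XT.lf (nat_lit 0) (nat_lit 4374968055) (nat_lit 152) (nat_lit 19818294289) (nat_lit 228) (nat_lit 60854538402) (nat_lit 70) (nat_lit 5) (nat_lit 72) (nat_lit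 5) (nat_lit 73) (nat_lit 5) (nat_lit 487) (nat_lit 424) (nat_lit 289))) (XT.nd (nat_lit 78) (nat_lit 152) (nat_lit 0) (XT.lf (nat_lit 0) (nat_lit 63622869891) (nat_lit 228) (nat_lit 61991527) (nat_lit 76) (nat_lit 24279160487) (nat_lit 70) (nat_lit 5) (nat_lit 73) (nat_lit 5) (nat_lit 71) (nat_lit 4) (nat_lit 488) (nat_lit 424) (nat_lit 288)) (XT.lf (nat_lit 0) (nat_lit 14756319222) (nat_lit 152) (nat_lit 5092405930) (nat_lit 76) (nat_lit 71142345468) (nat_lit 68) (nat_lit 5) (nat_lit 70) (nat_lit 5) (nat_lit 69) (nat_lit 5) (nat_lit 489) (nat_lit 424) (nat_lit 287)))))) (XT.nd (nat_lit 57486) (nat_lit 0) (nat_lit 18088) (XT.nd (nat_lit 234) (nat_lit 380) (nat_lit 0) (XT.nd (nat_lit 78) (nat_lit 304) (nat_lit 0) (XT.lf (nat_lit 0) (nat_lit 56368248961) (nat_lit 228) (nat_lit 11040620908) (nat_lit 76) (nat_lit 26721482073) (nat_lit 66) (nat_lit 5) (nat_lit 69) (nat_lit 5) (nat_lit 67) (nat_lit 4)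 (nat_lit 490) (nat_lit 424) (nat_lit 286)) (XT.nd (nat_lit 78) (nat_lit 152) (nat_lit 0) (XT.lf (nat_lit 0) (nat_lit 3606797227) (nat_lit 152) (nat_lit 17725070958) (nat_lit 76) (nat_lit 76063248979) (nat_lit 64) (nat_lit 5) (nat_lit 66) (nat_lit 5) (nat_lit 65) (nat_lit 5) (nat_lit 491) (nat_lit 424) (nat_lit 285)) (XT.lf (nat_lit 0) (nat_lit 47376732656) (nat_lit 228) (nat_lit 25652489568) (nat_lit 76) (nat_lit 27749275024) (nat_lit 62) (nat_lit 5) (nat_lit 65) (nat_lit 5) (nat_lit 63) (nat_lit 4) (nat_lit 492) (nat_lit 424) (nat_lit 284)))) (XT.nd (nat_lit 156) (nat_lit 304) (nat_lit 0) (XT.lf (nat_lit 0) (nat_lit 69799363004) (nat_lit 76) (nat_lit 24601076954) (nat_lit 152) (nat_lit 9898648238) (nat_lit 61) (nat_lit 5) (nat_lit 62) (nat_lit 5) (nat_lit 63) (nat_lit 4) (nat_lit 493) (nat_lit 424) (nat_lit 283)) (XT.nd (nat_lit 57018) (nat_lit 0) (nat_lit 19228) (XT.lf (nat_lit 0) (nat_lit 55412363085)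 (nat_lit 76) (nat_lit 30158409615) (nat_lit 152) (nat_lit 26178346484) (nat_lit 57) (nat_lit 5) (nat_lit 58) (nat_lit 5) (nat_lit 59) (nat_lit 4) (nat_lit 495) (nat_lit 424) (nat_lit 281)) (XT.lf (nat_lit 0) (nat_lit 3257517001) (nat_lit 0) (nat_lit 3257517001) (nat_lit 1140) (nat_lit 480050972) (nat_lit 310) (nat_lit 5) (nat_lit 310) (nat_lit 3) (nat_lit 325) (nat_lit 3) (nat_lit 425) (nat_lit 425) (nat_lit 350))))) (XT.nd (nat_lit 234) (nat_lit 0) (nat_lit 76) (XT.nd (nat_lit 78) (nat_lit 1140) (nat_lit 0) (XT.lf (nat_lit 76) (nat_lit 4082976021) (nat_lit 0) (nat_lit 9914379002) (nat_lit 1216) (nat_lit 323242199) (nat_lit 311) (nat_lit 5) (nat_lit 310) (nat_lit 5) (nat_lit 326) (nat_lit 5) (nat_lit 426) (nat_lit 425) (nat_lit 349)) (XT.nd (nat_lit 78) (nat_lit 0) (nat_lit 0) (XT.lf (nat_lit 0) (nat_lit 473322210) (nat_lit 1216) (nat_lit 13023099930) (nat_lit 1292) (nat_lit 1166991038) (nat_lit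 295) (nat_lit 5) (nat_lit 311) (nat_lit 5) (nat_lit 312) (nat_lit 5) (nat_lit 427) (nat_lit 425) (nat_lit 348)) (XT.lf (nat_lit 0) (nat_lit 1475079924) (nat_lit 1216) (nat_lit 819374313) (nat_lit 1292) (nat_lit 12723662966) (nat_lit 295) (nat_lit 5) (nat_lit 311) (nat_lit 5) (nat_lit 312) (nat_lit 5) (nat_lit 428) (nat_lit 425) (nat_lit 347)))) (XT.nd (nat_lit 156) (nat_lit 0) (nat_lit 152) (XT.nd (nat_lit 78) (nat_lit 0) (nat_lit 76) (XT.lf (nat_lit 0) (nat_lit 2703752357) (nat_lit 1216) (nat_lit 3267342414) (nat_lit 1292) (nat_lit 9414161413) (nat_lit 296) (nat_lit 5) (nat_lit 312) (nat_lit 5) (nat_lit 313) (nat_lit 5) (nat_lit 429) (nat_lit 425) (nat_lit 346)) (XT.lf (nat_lit 0) (nat_lit 4149053544) (nat_lit 1216) (nat_lit 5723411378) (nat_lit 1292) (nat_lit 5893635681) (nat_lit 297) (nat_lit 5) (nat_lit 313) (nat_lit 5) (nat_lit 314) (nat_lit 5) (nat_lit 430) (nat_lit 425) (nat_lit 345))) (XT.nd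 (nat_lit 78) (nat_lit 0) (nat_lit 0) (XT.lf (nat_lit 0) (nat_lit 5828786724) (nat_lit 1216) (nat_lit 8186634150) (nat_lit 1292) (nat_lit 2145705501) (nat_lit 298) (nat_lit 5) (nat_lit 314) (nat_lit 5) (nat_lit 315) (nat_lit 5) (nat_lit 431) (nat_lit 425) (nat_lit 344)) (XT.lf (nat_lit 76) (nat_lit 5896442316) (nat_lit 0) (nat_lit 1883236905) (nat_lit 1292) (nat_lit 8790612974) (nat_lit 299) (nat_lit 5) (nat_lit 298) (nat_lit 5) (nat_lit 315) (nat_lit 5) (nat_lit 432) (nat_lit 425) (nat_lit 343))))))))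
noncomputable def xc89 : XT := (XT.nd (nat_lit 1950) (nat_lit 6004) (nat_lit 0) (XT.nd (nat_lit 936) (nat_lit 4864) (nat_lit 0) (XT.nd (nat_lit 468) (nat_lit 3268) (nat_lit 0) (XT.nd (nat_lit 234) (nat_lit 2508) (nat_lit 0) (XT.nd (nat_lit 78) (nat_lit 0) (nat_lit 76) (XT.lf (nat_lit 76) (nat_lit 3804989021) (nat_lit 0) (nat_lit 6221742239) (nat_lit 1292) (nat_lit 6967230351) (nat_lit 300) (nat_lit 5) (nat_lit 299) (nat_lit 5) (nat_lit 316) (nat_lit 5) (nat_lit 433) (nat_lit 425) (nat_lit 342)) (XT.nd (nat_lit 78) (nat_lit 0) (nat_lit 76) (XT.lf (nat_lit 76) (nat_lit 1724085667) (nat_lit 0) (nat_lit 10845433059) (nat_lit 1292) (nat_lit 4863797861) (nat_lit 301) (nat_lit 5) (nat_lit 300) (nat_lit 5) (nat_lit 317) (nat_lit 5) (nat_lit 434) (nat_lit 425) (nat_lit 341)) (XT.lf (nat_lit 0) (nat_lit 15432957189) (nat_lit 1216) (nat_lit 336921165) (nat_lit 76) (nat_lit 2118959012) (nat_lit 301) (nat_lit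 5) (nat_lit 317) (nat_lit 5) (nat_lit 302) (nat_lit 5) (nat_lit 435) (nat_lit 425) (nat_lit 340)))) (XT.nd (nat_lit 78) (nat_lit 1368) (nat_lit 0) (XT.lf (nat_lit 0) (nat_lit 312539838) (nat_lit 1292) (nat_lit 2377356621) (nat_lit 76) (nat_lit 15669974388) (nat_lit 284) (nat_lit 5) (nat_lit 301) (nat_lit 5) (nat_lit 285) (nat_lit 5) (nat_lit 436) (nat_lit 425) (nat_lit 339)) (XT.nd (nat_lit 78) (nat_lit 608) (nat_lit 0) (XT.lf (nat_lit 0) (nat_lit 3396616314) (nat_lit 836) (nat_lit 4449752524) (nat_lit 76) (nat_lit 11000519886) (nat_lit 274) (nat_lit 5) (nat_lit 285) (nat_lit 5) (nat_lit 275) (nat_lit 5) (nat_lit 437) (nat_lit 425) (nat_lit 338)) (XT.lf (nat_lit 0) (nat_lit 6847308693) (nat_lit 684) (nat_lit 6506272846) (nat_lit 76) (nat_lit 5998306450) (nat_lit 266) (nat_lit 5) (nat_lit 275) (nat_lit 5) (nat_lit 267) (nat_lit 5) (nat_lit 438) (nat_lit 425) (nat_lit 337))))) (XT.nd (nat_lit 234)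 (nat_lit 1596) (nat_lit 0) (XT.nd (nat_lit 78) (nat_lit 1064) (nat_lit 0) (XT.lf (nat_lit 0) (nat_lit 10689843211) (nat_lit 684) (nat_lit 8543302864) (nat_lit 76) (nat_lit 642414635) (nat_lit 258) (nat_lit 5) (nat_lit 267) (nat_lit 5) (nat_lit 259) (nat_lit 5) (nat_lit 439) (nat_lit 425) (nat_lit 336)) (XT.nd (nat_lit 78) (nat_lit 532) (nat_lit 0) (XT.lf (nat_lit 0) (nat_lit 9810393260) (nat_lit 532) (nat_lit 5190224338) (nat_lit 608) (nat_lit 5416518663) (nat_lit 251) (nat_lit 5) (nat_lit 258) (nat_lit 5) (nat_lit 259) (nat_lit 5) (nat_lit 440) (nat_lit 425) (nat_lit 335)) (XT.lf (nat_lit 0) (nat_lit 8326042431) (nat_lit 532) (nat_lit 11441758376) (nat_lit 608) (nat_lit 1210766146) (nat_lit 244) (nat_lit 5) (nat_lit 251) (nat_lit 5) (nat_lit 252) (nat_lit 5) (nat_lit 441) (nat_lit 425) (nat_lit 334)))) (XT.nd (nat_lit 78) (nat_lit 988) (nat_lit 0) (XT.lf (nat_lit 0) (nat_lit 3386384639) (nat_lit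 608) (nat_lit 14703002306) (nat_lit 76) (nat_lit 3470450470) (nat_lit 236) (nat_lit 5) (nat_lit 244) (nat_lit 5) (nat_lit 237) (nat_lit 5) (nat_lit 442) (nat_lit 425) (nat_lit 333)) (XT.nd (nat_lit 78) (nat_lit 456) (nat_lit 0) (XT.lf (nat_lit 0) (nat_lit 5395487514) (nat_lit 532) (nat_lit 3073423084) (nat_lit 608) (nat_lit 13692486596) (nat_lit 229) (nat_lit 5) (nat_lit 236) (nat_lit 5) (nat_lit 237) (nat_lit 5) (nat_lit 443) (nat_lit 425) (nat_lit 332)) (XT.lf (nat_lit 0) (nat_lit 3950705258) (nat_lit 456) (nat_lit 10149814212) (nat_lit 532) (nat_lit 8683668862) (nat_lit 223) (nat_lit 5) (nat_lit 229) (nat_lit 5) (nat_lit 230) (nat_lit 5) (nat_lit 444) (nat_lit 425) (nat_lit 331)))))) (XT.nd (nat_lit 468) (nat_lit 2508) (nat_lit 0) (XT.nd (nat_lit 234) (nat_lit 1368) (nat_lit 0) (XT.nd (nat_lit 78) (nat_lit 532) (nat_lit 0) (XT.lf (nat_lit 0) (nat_lit 2563643417) (nat_lit 456) (nat_lit 17716560414)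 (nat_lit 532) (nat_lit 3149922315) (nat_lit 217) (nat_lit 5) (nat_lit 223) (nat_lit 5) (nat_lit 224) (nat_lit 5) (nat_lit 445) (nat_lit 425) (nat_lit 330)) (XT.nd (nat_lit 78) (nat_lit 0) (nat_lit 0) (XT.lf (nat_lit 0) (nat_lit 1194838999) (nat_lit 456) (nat_lit 1706689523) (nat_lit 532) (nat_lit 21197278922) (nat_lit 210) (nat_lit 5) (nat_lit 216) (nat_lit 5) (nat_lit 217) (nat_lit 5) (nat_lit 446) (nat_lit 425) (nat_lit 329)) (XT.lf (nat_lit 0) (nat_lit 9536914388) (nat_lit 532) (nat_lit 198368952) (nat_lit 76) (nat_lit 15054310347) (nat_lit 210) (nat_lit 5) (nat_lit 217) (nat_lit 5) (nat_lit 211) (nat_lit 5) (nat_lit 447) (nat_lit 425) (nat_lit 328)))) (XT.nd (nat_lit 78) (nat_lit 912) (nat_lit 0) (XT.lf (nat_lit 0) (nat_lit 16807832408) (nat_lit 532) (nat_lit 1502479135) (nat_lit 76) (nat_lit 7195496468) (nat_lit 204) (nat_lit 5) (nat_lit 211) (nat_lit 5) (nat_lit 205) (nat_lit 5) (nat_lit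 448) (nat_lit 425) (nat_lit 327)) (XT.nd (nat_lit 78) (nat_lit 532) (nat_lit 0) (XT.lf (nat_lit 0) (nat_lit 23502860187) (nat_lit 380) (nat_lit 1250764013) (nat_lit 456) (nat_lit 1494870587) (nat_lit 199) (nat_lit 5) (nat_lit 204) (nat_lit 5) (nat_lit 205) (nat_lit 5) (nat_lit 449) (nat_lit 425) (nat_lit 326)) (XT.lf (nat_lit 0) (nat_lit 6336521016) (nat_lit 532) (nat_lit 4046638156) (nat_lit 76) (nat_lit 16631811768) (nat_lit 192) (nat_lit 5) (nat_lit 199) (nat_lit 5) (nat_lit 193) (nat_lit 5) (nat_lit 450) (nat_lit 425) (nat_lit 325))))) (XT.nd (nat_lit 234) (nat_lit 1368) (nat_lit 0) (XT.nd (nat_lit 78) (nat_lit 760) (nat_lit 0) (XT.lf (nat_lit 0) (nat_lit 14848467535) (nat_lit 456) (nat_lit 5286310403) (nat_lit 76) (nat_lit 7674953281) (nat_lit 187) (nat_lit 5) (nat_lit 193) (nat_lit 5) (nat_lit 188) (nat_lit 5) (nat_lit 451) (nat_lit 425) (nat_lit 324)) (XT.nd (nat_lit 78) (nat_lit 380) (nat_lit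 0) (XT.lf (nat_lit 0) (nat_lit 22172626776) (nat_lit 380) (nat_lit 1959790694) (nat_lit 456) (nat_lit 4501421179) (nat_lit 182) (nat_lit 5) (nat_lit 187) (nat_lit 5) (nat_lit 188) (nat_lit 5) (nat_lit 452) (nat_lit 425) (nat_lit 323)) (XT.lf (nat_lit 0) (nat_lit 4716570625) (nat_lit 380) (nat_lit 7672218149) (nat_lit 76) (nat_lit 17096480760) (nat_lit 177) (nat_lit 5) (nat_lit 182) (nat_lit 5) (nat_lit 178) (nat_lit 5) (nat_lit 453) (nat_lit 425) (nat_lit 322)))) (XT.nd (nat_lit 156) (nat_lit 684) (nat_lit 0) (XT.nd (nat_lit 78) (nat_lit 304) (nat_lit 0) (XT.lf (nat_lit 0) (nat_lit 14652339168) (nat_lit 456) (nat_lit 8840486775) (nat_lit 76) (nat_lit 6874610924) (nat_lit 172) (nat_lit 5) (nat_lit 178) (nat_lit 5) (nat_lit 173) (nat_lit 5) (nat_lit 454) (nat_lit 425) (nat_lit 321)) (XT.lf (nat_lit 0) (nat_lit 21327653502) (nat_lit 304) (nat_lit 4154616855) (nat_lit 380) (nat_lit 5799522091) (nat_lit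 168) (nat_lit 5) (nat_lit 172) (nat_lit 5) (nat_lit 173) (nat_lit 5) (nat_lit 455) (nat_lit 425) (nat_lit 320))) (XT.nd (nat_lit 78) (nat_lit 304) (nat_lit 0) (XT.lf (nat_lit 0) (nat_lit 4964956294) (nat_lit 380) (nat_lit 11087802230) (nat_lit 76) (nat_lit 16174484829) (nat_lit 163) (nat_lit 5) (nat_lit 168) (nat_lit 5) (nat_lit 164) (nat_lit 5) (nat_lit 456) (nat_lit 425) (nat_lit 319)) (XT.lf (nat_lit 0) (nat_lit 16529109137) (nat_lit 380) (nat_lit 12180995384) (nat_lit 76) (nat_lit 4496698822) (nat_lit 159) (nat_lit 5) (nat_lit 164) (nat_lit 5) (nat_lit 160) (nat_lit 5) (nat_lit 457) (nat_lit 425) (nat_lit 318))))))) (XT.nd (nat_lit 1014) (nat_lit 2432) (nat_lit 0) (XT.nd (nat_lit 468) (nat_lit 1748) (nat_lit 0) (XT.nd (nat_lit 234) (nat_lit 836) (nat_lit 0) (XT.nd (nat_lit 78) (nat_lit 684) (nat_lit 0) (XT.lf (nat_lit 0) (nat_lit 20973916780) (nat_lit 304) (nat_lit 8165034274) (nat_lit 380)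 (nat_lit 5082366761) (nat_lit 155) (nat_lit 5) (nat_lit 159) (nat_lit 5) (nat_lit 160) (nat_lit 5) (nat_lit 458) (nat_lit 425) (nat_lit 317)) (XT.nd (nat_lit 78) (nat_lit 304) (nat_lit 0) (XT.lf (nat_lit 0) (nat_lit 7405232057) (nat_lit 380) (nat_lit 14324232204) (nat_lit 76) (nat_lit 13541521931) (nat_lit 150) (nat_lit 5) (nat_lit 155) (nat_lit 5) (nat_lit 151) (nat_lit 5) (nat_lit 459) (nat_lit 425) (nat_lit 316)) (XT.lf (nat_lit 0) (nat_lit 20826254152) (nat_lit 380) (nat_lit 15344264172) (nat_lit 76) (nat_lit 188686233) (nat_lit 146) (nat_lit 5) (nat_lit 151) (nat_lit 5) (nat_lit 147) (nat_lit 5) (nat_lit 460) (nat_lit 425) (nat_lit 315)))) (XT.nd (nat_lit 78) (nat_lit 608) (nat_lit 0) (XT.lf (nat_lit 0) (nat_lit 21097508323) (nat_lit 228) (nat_lit 14381332022) (nat_lit 304) (nat_lit 2006178881) (nat_lit 143) (nat_lit 5) (nat_lit 146) (nat_lit 5) (nat_lit 147) (nat_lit 5) (nat_lit 461) (nat_lit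 425) (nat_lit 314)) (XT.nd (nat_lit 78) (nat_lit 228) (nat_lit 0) (XT.lf (nat_lit 0) (nat_lit 12399310686) (nat_lit 380) (nat_lit 17439039696) (nat_lit 76) (nat_lit 8812046073) (nat_lit 138) (nat_lit 5) (nat_lit 143) (nat_lit 5) (nat_lit 139) (nat_lit 5) (nat_lit 462) (nat_lit 425) (nat_lit 313)) (XT.lf (nat_lit 0) (nat_lit 21398207773) (nat_lit 228) (nat_lit 6596979152) (nat_lit 304) (nat_lit 11862912318) (nat_lit 135) (nat_lit 5) (nat_lit 138) (nat_lit 5) (nat_lit 139) (nat_lit 5) (nat_lit 463) (nat_lit 425) (nat_lit 312))))) (XT.nd (nat_lit 234) (nat_lit 988) (nat_lit 0) (XT.nd (nat_lit 78) (nat_lit 456) (nat_lit 0) (XT.lf (nat_lit 0) (nat_lit 3737708774) (nat_lit 304) (nat_lit 19491434625) (nat_lit 76) (nat_lit 17879418087) (nat_lit 131) (nat_lit 5) (nat_lit 135) (nat_lit 5) (nat_lit 132) (nat_lit 5) (nat_lit 464) (nat_lit 425) (nat_lit 311)) (XT.nd (nat_lit 78) (nat_lit 228) (nat_lit 0) (XT.lf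 (nat_lit 0) (nat_lit 20349691044) (nat_lit 304) (nat_lit 20527680368) (nat_lit 76) (nat_lit 1526352196) (nat_lit 128) (nat_lit 5) (nat_lit 132) (nat_lit 5) (nat_lit 129) (nat_lit 5) (nat_lit 465) (nat_lit 425) (nat_lit 310)) (XT.lf (nat_lit 0) (nat_lit 22142001470) (nat_lit 228) (nat_lit 16290956817) (nat_lit 304) (nat_lit 5311465549) (nat_lit 125) (nat_lit 5) (nat_lit 128) (nat_lit 5) (nat_lit 129) (nat_lit 5) (nat_lit 466) (nat_lit 425) (nat_lit 309)))) (XT.nd (nat_lit 156) (nat_lit 456) (nat_lit 0) (XT.nd (nat_lit 78) (nat_lit 228) (nat_lit 0) (XT.lf (nat_lit 0) (nat_lit 12546728198) (nat_lit 304) (nat_lit 22699877587) (nat_lit 76) (nat_lit 9886479055) (nat_lit 121) (nat_lit 5) (nat_lit 125) (nat_lit 5) (nat_lit 122) (nat_lit 5) (nat_lit 467) (nat_lit 425) (nat_lit 308)) (XT.lf (nat_lit 0) (nat_lit 22746430217) (nat_lit 228) (nat_lit 9041430878) (nat_lit 304) (nat_lit 14783744284) (nat_lit 118)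 (nat_lit 5) (nat_lit 121) (nat_lit 5) (nat_lit 122) (nat_lit 5) (nat_lit 468) (nat_lit 425) (nat_lit 307))) (XT.nd (nat_lit 78) (nat_lit 228) (nat_lit 0) (XT.lf (nat_lit 0) (nat_lit 4466179535) (nat_lit 228) (nat_lit 24985879289) (nat_lit 76) (nat_lit 18609862532) (nat_lit 115) (nat_lit 5) (nat_lit 118) (nat_lit 5) (nat_lit 116) (nat_lit 5) (nat_lit 469) (nat_lit 425) (nat_lit 306)) (XT.lf (nat_lit 0) (nat_lit 23400260863) (nat_lit 228) (nat_lit 1530925870) (nat_lit 304) (nat_lit 24674425503) (nat_lit 112) (nat_lit 5) (nat_lit 115) (nat_lit 5) (nat_lit 116) (nat_lit 5) (nat_lit 470) (nat_lit 425) (nat_lit 305)))))) (XT.nd (nat_lit 468) (nat_lit 1216) (nat_lit 0) (XT.nd (nat_lit 234) (nat_lit 608) (nat_lit 0) (XT.nd (nat_lit 78) (nat_lit 456) (nat_lit 0) (XT.lf (nat_lit 0) (nat_lit 23687611467) (nat_lit 152) (nat_lit 23478209556) (nat_lit 228) (nat_lit 4038275760) (nat_lit 110) (nat_lit 5) (nat_lit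 112) (nat_lit 5) (nat_lit 113) (nat_lit 5) (nat_lit 471) (nat_lit 425) (nat_lit 304)) (XT.nd (nat_lit 78) (nat_lit 152) (nat_lit 0) (XT.lf (nat_lit 0) (nat_lit 17856187008) (nat_lit 304) (nat_lit 28906215585) (nat_lit 76) (nat_lit 6097903614) (nat_lit 106) (nat_lit 5) (nat_lit 110) (nat_lit 5) (nat_lit 107) (nat_lit 5) (nat_lit 472) (nat_lit 425) (nat_lit 303)) (XT.lf (nat_lit 0) (nat_lit 24159706666) (nat_lit 152) (nat_lit 17350397620) (nat_lit 228) (nat_lit 13065575230) (nat_lit 104) (nat_lit 5) (nat_lit 106) (nat_lit 5) (nat_lit 107) (nat_lit 5) (nat_lit 473) (nat_lit 425) (nat_lit 302)))) (XT.nd (nat_lit 78) (nat_lit 380) (nat_lit 0) (XT.lf (nat_lit 0) (nat_lit 10439830263) (nat_lit 228) (nat_lit 32013715959) (nat_lit 76) (nat_lit 13900466023) (nat_lit 101) (nat_lit 5) (nat_lit 104) (nat_lit 5) (nat_lit 102) (nat_lit 5) (nat_lit 474) (nat_lit 425) (nat_lit 301)) (XT.nd (nat_lit 78) (nat_lit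 228) (nat_lit 0) (XT.lf (nat_lit 0) (nat_lit 24411239588) (nat_lit 152) (nat_lit 11160101085) (nat_lit 228) (nat_lit 22624408880) (nat_lit 99) (nat_lit 5) (nat_lit 101) (nat_lit 5) (nat_lit 102) (nat_lit 5) (nat_lit 475) (nat_lit 425) (nat_lit 300)) (XT.lf (nat_lit 0) (nat_lit 2571004173) (nat_lit 228) (nat_lit 35672420856) (nat_lit 76) (nat_lit 21862315564) (nat_lit 96) (nat_lit 5) (nat_lit 99) (nat_lit 5) (nat_lit 97) (nat_lit 5) (nat_lit 476) (nat_lit 425) (nat_lit 299))))) (XT.nd (nat_lit 234) (nat_lit 684) (nat_lit 0) (XT.nd (nat_lit 78) (nat_lit 380) (nat_lit 0) (XT.lf (nat_lit 0) (nat_lit 24283980238) (nat_lit 152) (nat_lit 4968838623) (nat_lit 228) (nat_lit 32830856335) (nat_lit 94) (nat_lit 5) (nat_lit 96) (nat_lit 5) (nat_lit 97) (nat_lit 5) (nat_lit 477) (nat_lit 425) (nat_lit 298)) (XT.nd (nat_lit 78) (nat_lit 228) (nat_lit 0) (XT.lf (nat_lit 0) (nat_lit 23998251444) (nat_lit 152) (nat_lit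 34153153115) (nat_lit 228) (nat_lit 5982621840) (nat_lit 92) (nat_lit 5) (nat_lit 94) (nat_lit 5) (nat_lit 95) (nat_lit 5) (nat_lit 478) (nat_lit 425) (nat_lit 297)) (XT.lf (nat_lit 0) (nat_lit 22448658477) (nat_lit 228) (nat_lit 42690402822) (nat_lit 76) (nat_lit 1121210027) (nat_lit 89) (nat_lit 5) (nat_lit 92) (nat_lit 5) (nat_lit 90) (nat_lit 5) (nat_lit 479) (nat_lit 425) (nat_lit 296)))) (XT.nd (nat_lit 156) (nat_lit 304) (nat_lit 0) (XT.nd (nat_lit 78) (nat_lit 228) (nat_lit 0) (XT.lf (nat_lit 0) (nat_lit 22843596988) (nat_lit 152) (nat_lit 30310244712) (nat_lit 228) (nat_lit 15307927964) (nat_lit 87) (nat_lit 5) (nat_lit 89) (nat_lit 5) (nat_lit 90) (nat_lit 5) (nat_lit 480) (nat_lit 425) (nat_lit 295)) (XT.lf (nat_lit 0) (nat_lit 15053010376) (nat_lit 228) (nat_lit 48757677381) (nat_lit 76) (nat_lit 6936917731) (nat_lit 84) (nat_lit 5) (nat_lit 87) (nat_lit 5) (nat_lit 85) (nat_lit 5)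 (nat_lit 481) (nat_lit 425) (nat_lit 294))) (XT.nd (nat_lit 78) (nat_lit 152) (nat_lit 0) (XT.lf (nat_lit 0) (nat_lit 20725787289) (nat_lit 152) (nat_lit 26865617045) (nat_lit 228) (nat_lit 25522502070) (nat_lit 82) (nat_lit 5) (nat_lit 84) (nat_lit 5) (nat_lit 85) (nat_lit 5) (nat_lit 482) (nat_lit 425) (nat_lit 293)) (XT.lf (nat_lit 0) (nat_lit 6847446162) (nat_lit 152) (nat_lit 56275918300) (nat_lit 76) (nat_lit 12449099638) (nat_lit 80) (nat_lit 5) (nat_lit 82) (nat_lit 5) (nat_lit 81) (nat_lit 5) (nat_lit 483) (nat_lit 425) (nat_lit 292))))))))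
noncomputable def xc90 : XT := (XT.nd (nat_lit 59046) (nat_lit 0) (nat_lit 5548) (XT.nd (nat_lit 58032) (nat_lit 0) (nat_lit 15808) (XT.nd (nat_lit 468) (nat_lit 836) (nat_lit 0) (XT.nd (nat_lit 234) (nat_lit 380) (nat_lit 0) (XT.nd (nat_lit 78) (nat_lit 304) (nat_lit 0) (XT.lf (nat_lit 0) (nat_lit 17314970389) (nat_lit 152) (nat_lit 23974140213) (nat_lit 228) (nat_lit 36827826427) (nat_lit 78) (nat_lit 5) (nat_lit 80) (nat_lit 5) (nat_lit 81) (nat_lit 5) (nat_lit 484) (nat_lit 425) (nat_lit 291)) (XT.nd (nat_lit 78) (nat_lit 228) (nat_lit 0) (XT.lf (nat_lit 0) (nat_lit 15103409221) (nat_lit 76) (nat_lit 63238427936) (nat_lit 152) (nat_lit 2420127260) (nat_lit 77) (nat_lit 5) (nat_lit 78) (nat_lit 5) (nat_lit 79) (nat_lit 4) (nat_lit 485) (nat_lit 425) (nat_lit 290)) (XT.lf (nat_lit 0) (nat_lit 12209385420) (nat_lit 152) (nat_lit 21826431406) (nat_lit 228) (nat_lit 49464137162) (nat_lit 74) (nat_lit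 5) (nat_lit 76) (nat_lit 5) (nat_lit 77) (nat_lit 5) (nat_lit 486) (nat_lit 425) (nat_lit 289)))) (XT.nd (nat_lit 78) (nat_lit 304) (nat_lit 0) (XT.lf (nat_lit 0) (nat_lit 8912195278) (nat_lit 76) (nat_lit 64323518786) (nat_lit 152) (nat_lit 13109274045) (nat_lit 73) (nat_lit 5) (nat_lit 74) (nat_lit 5) (nat_lit 75) (nat_lit 4) (nat_lit 487) (nat_lit 425) (nat_lit 288)) (XT.nd (nat_lit 78) (nat_lit 76) (nat_lit 0) (XT.lf (nat_lit 0) (nat_lit 4921697377) (nat_lit 152) (nat_lit 20655736914) (nat_lit 228) (nat_lit 63717516730) (nat_lit 70) (nat_lit 5) (nat_lit 72) (nat_lit 5) (nat_lit 73) (nat_lit 5) (nat_lit 488) (nat_lit 425) (nat_lit 287)) (XT.lf (nat_lit 0) (nat_lit 255849454) (nat_lit 76) (nat_lit 66718227215) (nat_lit 152) (nat_lit 25383040150) (nat_lit 69) (nat_lit 5) (nat_lit 70) (nat_lit 5) (nat_lit 71) (nat_lit 4) (nat_lit 489) (nat_lit 425) (nat_lit 286))))) (XT.nd (nat_lit 234) (nat_lit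 456) (nat_lit 0) (XT.nd (nat_lit 78) (nat_lit 304) (nat_lit 0) (XT.lf (nat_lit 0) (nat_lit 15658321606) (nat_lit 152) (nat_lit 5036863208) (nat_lit 76) (nat_lit 74840509784) (nat_lit 68) (nat_lit 5) (nat_lit 70) (nat_lit 5) (nat_lit 69) (nat_lit 5) (nat_lit 490) (nat_lit 425) (nat_lit 285)) (XT.nd (nat_lit 78) (nat_lit 152) (nat_lit 0) (XT.lf (nat_lit 0) (nat_lit 59347290514) (nat_lit 228) (nat_lit 11287963072) (nat_lit 76) (nat_lit 28196793308) (nat_lit 66) (nat_lit 5) (nat_lit 69) (nat_lit 5) (nat_lit 67) (nat_lit 4) (nat_lit 491) (nat_lit 425) (nat_lit 284)) (XT.lf (nat_lit 0) (nat_lit 3944508434) (nat_lit 152) (nat_lit 18312233985) (nat_lit 76) (nat_lit 80003405976) (nat_lit 64) (nat_lit 5) (nat_lit 66) (nat_lit 5) (nat_lit 65) (nat_lit 5) (nat_lit 492) (nat_lit 425) (nat_lit 283)))) (XT.nd (nat_lit 156) (nat_lit 304) (nat_lit 0) (XT.lf (nat_lit 0) (nat_lit 49899564459) (nat_lit 228) (nat_lit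 26641338541) (nat_lit 76) (nat_lit 29271895934) (nat_lit 62) (nat_lit 5) (nat_lit 65) (nat_lit 5) (nat_lit 63) (nat_lit 4) (nat_lit 493) (nat_lit 425) (nat_lit 282)) (XT.nd (nat_lit 57096) (nat_lit 0) (nat_lit 17860) (XT.lf (nat_lit 0) (nat_lit 38175825651) (nat_lit 228) (nat_lit 46724980227) (nat_lit 76) (nat_lit 28443641883) (nat_lit 58) (nat_lit 5) (nat_lit 61) (nat_lit 5) (nat_lit 59) (nat_lit 4) (nat_lit 495) (nat_lit 425) (nat_lit 280)) (XT.lf (nat_lit 0) (nat_lit 62052205) (nat_lit 1292) (nat_lit 3633083474) (nat_lit 1292) (nat_lit 3633083474) (nat_lit 293) (nat_lit 3) (nat_lit 310) (nat_lit 3) (nat_lit 310) (nat_lit 5) (nat_lit 426) (nat_lit 426) (nat_lit 348)))))) (XT.nd (nat_lit 468) (nat_lit 2128) (nat_lit 0) (XT.nd (nat_lit 234) (nat_lit 0) (nat_lit 152) (XT.nd (nat_lit 78) (nat_lit 0) (nat_lit 76) (XT.lf (nat_lit 0) (nat_lit 727244617) (nat_lit 1216) (nat_lit 10152649607) (nat_lit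 1292) (nat_lit 4124882657) (nat_lit 294) (nat_lit 5) (nat_lit 310) (nat_lit 5) (nat_lit 311) (nat_lit 5) (nat_lit 427) (nat_lit 426) (nat_lit 347)) (XT.nd (nat_lit 78) (nat_lit 0) (nat_lit 0) (XT.lf (nat_lit 0) (nat_lit 1507863929) (nat_lit 1216) (nat_lit 13062871678) (nat_lit 1292) (nat_lit 795381676) (nat_lit 295) (nat_lit 5) (nat_lit 311) (nat_lit 5) (nat_lit 312) (nat_lit 5) (nat_lit 428) (nat_lit 426) (nat_lit 346)) (XT.lf (nat_lit 0) (nat_lit 2511572595) (nat_lit 1216) (nat_lit 278073267) (nat_lit 1292) (nat_lit 12950361433) (nat_lit 295) (nat_lit 5) (nat_lit 311) (nat_lit 5) (nat_lit 312) (nat_lit 5) (nat_lit 429) (nat_lit 426) (nat_lit 345)))) (XT.nd (nat_lit 78) (nat_lit 0) (nat_lit 76) (XT.lf (nat_lit 0) (nat_lit 3757841329) (nat_lit 1216) (nat_lit 2833903941) (nat_lit 1292) (nat_lit 9535079438) (nat_lit 296) (nat_lit 5) (nat_lit 312) (nat_lit 5) (nat_lit 313) (nat_lit 5) (nat_lit 430)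 (nat_lit 426) (nat_lit 344)) (XT.nd (nat_lit 78) (nat_lit 0) (nat_lit 76) (XT.lf (nat_lit 0) (nat_lit 5234329211) (nat_lit 1216) (nat_lit 5400447413) (nat_lit 1292) (nat_lit 5893173136) (nat_lit 297) (nat_lit 5) (nat_lit 313) (nat_lit 5) (nat_lit 314) (nat_lit 5) (nat_lit 431) (nat_lit 426) (nat_lit 343)) (XT.lf (nat_lit 0) (nat_lit 6959531991) (nat_lit 1216) (nat_lit 7976521849) (nat_lit 1292) (nat_lit 2007834261) (nat_lit 298) (nat_lit 5) (nat_lit 314) (nat_lit 5) (nat_lit 315) (nat_lit 5) (nat_lit 432) (nat_lit 426) (nat_lit 342))))) (XT.nd (nat_lit 234) (nat_lit 2432) (nat_lit 0) (XT.nd (nat_lit 78) (nat_lit 0) (nat_lit 76) (XT.lf (nat_lit 76) (nat_lit 6792952201) (nat_lit 0) (nat_lit 2180833753) (nat_lit 1292) (nat_lit 8400757249) (nat_lit 299) (nat_lit 5) (nat_lit 298) (nat_lit 5) (nat_lit 315) (nat_lit 5) (nat_lit 433) (nat_lit 426) (nat_lit 341)) (XT.nd (nat_lit 78) (nat_lit 0) (nat_lit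 76) (XT.lf (nat_lit 76) (nat_lit 4605146560) (nat_lit 0) (nat_lit 6693705244) (nat_lit 1292) (nat_lit 6521579683) (nat_lit 300) (nat_lit 5) (nat_lit 299) (nat_lit 5) (nat_lit 316) (nat_lit 5) (nat_lit 434) (nat_lit 426) (nat_lit 340)) (XT.lf (nat_lit 76) (nat_lit 2426779626) (nat_lit 0) (nat_lit 11509748297) (nat_lit 1292) (nat_lit 4346198796) (nat_lit 301) (nat_lit 5) (nat_lit 300) (nat_lit 5) (nat_lit 317) (nat_lit 5) (nat_lit 435) (nat_lit 426) (nat_lit 339)))) (XT.nd (nat_lit 156) (nat_lit 1368) (nat_lit 0) (XT.nd (nat_lit 78) (nat_lit 76) (nat_lit 0) (XT.lf (nat_lit 0) (nat_lit 260767509) (nat_lit 1216) (nat_lit 16648591913) (nat_lit 1292) (nat_lit 1852682229) (nat_lit 285) (nat_lit 5) (nat_lit 301) (nat_lit 5) (nat_lit 302) (nat_lit 5) (nat_lit 436) (nat_lit 426) (nat_lit 338)) (XT.lf (nat_lit 0) (nat_lit 1009431482) (nat_lit 1292) (nat_lit 1890601588) (nat_lit 76) (nat_lit 16357305584) (nat_lit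 284) (nat_lit 5) (nat_lit 301) (nat_lit 5) (nat_lit 285) (nat_lit 5) (nat_lit 437) (nat_lit 426) (nat_lit 337))) (XT.nd (nat_lit 78) (nat_lit 608) (nat_lit 0) (XT.lf (nat_lit 0) (nat_lit 4220288847) (nat_lit 836) (nat_lit 4063622879) (nat_lit 76) (nat_lit 11485622568) (nat_lit 274) (nat_lit 5) (nat_lit 285) (nat_lit 5) (nat_lit 275) (nat_lit 5) (nat_lit 438) (nat_lit 426) (nat_lit 336)) (XT.lf (nat_lit 0) (nat_lit 7817705466) (nat_lit 684) (nat_lit 6221126042) (nat_lit 76) (nat_lit 6261730306) (nat_lit 266) (nat_lit 5) (nat_lit 275) (nat_lit 5) (nat_lit 267) (nat_lit 5) (nat_lit 439) (nat_lit 426) (nat_lit 335))))))) (XT.nd (nat_lit 1014) (nat_lit 4256) (nat_lit 0) (XT.nd (nat_lit 468) (nat_lit 2736) (nat_lit 0) (XT.nd (nat_lit 234) (nat_lit 1596) (nat_lit 0) (XT.nd (nat_lit 78) (nat_lit 1064) (nat_lit 0) (XT.lf (nat_lit 0) (nat_lit 11828055942) (nat_lit 684) (nat_lit 8359211272) (nat_lit 76) (nat_lit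 663884073) (nat_lit 258) (nat_lit 5) (nat_lit 267) (nat_lit 5) (nat_lit 259) (nat_lit 5) (nat_lit 440) (nat_lit 426) (nat_lit 334)) (XT.nd (nat_lit 78) (nat_lit 532) (nat_lit 0) (XT.lf (nat_lit 0) (nat_lit 10894648107) (nat_lit 532) (nat_lit 5436679689) (nat_lit 608) (nat_lit 5089172668) (nat_lit 251) (nat_lit 5) (nat_lit 258) (nat_lit 5) (nat_lit 259) (nat_lit 5) (nat_lit 441) (nat_lit 426) (nat_lit 333)) (XT.lf (nat_lit 0) (nat_lit 9335929721) (nat_lit 532) (nat_lit 11979114476) (nat_lit 608) (nat_lit 695616712) (nat_lit 244) (nat_lit 5) (nat_lit 251) (nat_lit 5) (nat_lit 252) (nat_lit 5) (nat_lit 442) (nat_lit 426) (nat_lit 332)))) (XT.nd (nat_lit 78) (nat_lit 988) (nat_lit 0) (XT.lf (nat_lit 0) (nat_lit 4099353035) (nat_lit 608) (nat_lit 14834671418) (nat_lit 76) (nat_lit 3687431752) (nat_lit 236) (nat_lit 5) (nat_lit 244) (nat_lit 5) (nat_lit 237) (nat_lit 5) (nat_lit 443) (nat_lit 426) (nat_lit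 331)) (XT.nd (nat_lit 78) (nat_lit 456) (nat_lit 0) (XT.lf (nat_lit 0) (nat_lit 6251444232) (nat_lit 532) (nat_lit 3164307748) (nat_lit 608) (nat_lit 13837952621) (nat_lit 229) (nat_lit 5) (nat_lit 236) (nat_lit 5) (nat_lit 237) (nat_lit 5) (nat_lit 444) (nat_lit 426) (nat_lit 330)) (XT.lf (nat_lit 0) (nat_lit 4732344447) (nat_lit 456) (nat_lit 10577862802) (nat_lit 532) (nat_lit 8597992952) (nat_lit 223) (nat_lit 5) (nat_lit 229) (nat_lit 5) (nat_lit 230) (nat_lit 5) (nat_lit 445) (nat_lit 426) (nat_lit 329))))) (XT.nd (nat_lit 234) (nat_lit 1292) (nat_lit 0) (XT.nd (nat_lit 78) (nat_lit 988) (nat_lit 0) (XT.lf (nat_lit 0) (nat_lit 3273206449) (nat_lit 456) (nat_lit 18507953735) (nat_lit 532) (nat_lit 2805808938) (nat_lit 217) (nat_lit 5) (nat_lit 223) (nat_lit 5) (nat_lit 224) (nat_lit 5) (nat_lit 446) (nat_lit 426) (nat_lit 328)) (XT.nd (nat_lit 78) (nat_lit 456) (nat_lit 0) (XT.lf (nat_lit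 0) (nat_lit 1828856091) (nat_lit 456) (nat_lit 1691670364) (nat_lit 532) (nat_lit 21768952910) (nat_lit 210) (nat_lit 5) (nat_lit 216) (nat_lit 5) (nat_lit 217) (nat_lit 5) (nat_lit 447) (nat_lit 426) (nat_lit 327)) (XT.lf (nat_lit 0) (nat_lit 358303372) (nat_lit 456) (nat_lit 10111173508) (nat_lit 532) (nat_lit 15545876604) (nat_lit 204) (nat_lit 5) (nat_lit 210) (nat_lit 5) (nat_lit 211) (nat_lit 5) (nat_lit 448) (nat_lit 426) (nat_lit 326)))) (XT.nd (nat_lit 156) (nat_lit 912) (nat_lit 0) (XT.nd (nat_lit 78) (nat_lit 380) (nat_lit 0) (XT.lf (nat_lit 0) (nat_lit 18085219088) (nat_lit 532) (nat_lit 1021954288) (nat_lit 76) (nat_lit 7660769102) (nat_lit 204) (nat_lit 5) (nat_lit 211) (nat_lit 5) (nat_lit 205) (nat_lit 5) (nat_lit 449) (nat_lit 426) (nat_lit 325)) (XT.lf (nat_lit 0) (nat_lit 25217724438) (nat_lit 380) (nat_lit 1194954873) (nat_lit 456) (nat_lit 1135555110) (nat_lit 199) (nat_lit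 5) (nat_lit 204) (nat_lit 5) (nat_lit 205) (nat_lit 5) (nat_lit 450) (nat_lit 426) (nat_lit 324))) (XT.nd (nat_lit 78) (nat_lit 380) (nat_lit 0) (XT.lf (nat_lit 0) (nat_lit 7064962256) (nat_lit 532) (nat_lit 3705270822) (nat_lit 76) (nat_lit 17583097374) (nat_lit 192) (nat_lit 5) (nat_lit 199) (nat_lit 5) (nat_lit 193) (nat_lit 5) (nat_lit 451) (nat_lit 426) (nat_lit 323)) (XT.lf (nat_lit 0) (nat_lit 15989241410) (nat_lit 456) (nat_lit 5011819808) (nat_lit 76) (nat_lit 8187167400) (nat_lit 187) (nat_lit 5) (nat_lit 193) (nat_lit 5) (nat_lit 188) (nat_lit 5) (nat_lit 452) (nat_lit 426) (nat_lit 322)))))) (XT.nd (nat_lit 468) (nat_lit 2128) (nat_lit 0) (XT.nd (nat_lit 234) (nat_lit 988) (nat_lit 0) (XT.nd (nat_lit 78) (nat_lit 760) (nat_lit 0) (XT.lf (nat_lit 0) (nat_lit 23804619461) (nat_lit 380) (nat_lit 1918831178) (nat_lit 456) (nat_lit 4330510766) (nat_lit 182) (nat_lit 5) (nat_lit 187) (nat_lit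 5) (nat_lit 188) (nat_lit 5) (nat_lit 453) (nat_lit 426) (nat_lit 321)) (XT.nd (nat_lit 78) (nat_lit 380) (nat_lit 0) (XT.lf (nat_lit 0) (nat_lit 5328481492) (nat_lit 380) (nat_lit 7530010777) (nat_lit 76) (nat_lit 18089724239) (nat_lit 177) (nat_lit 5) (nat_lit 182) (nat_lit 5) (nat_lit 178) (nat_lit 5) (nat_lit 454) (nat_lit 426) (nat_lit 320)) (XT.lf (nat_lit 0) (nat_lit 15749458804) (nat_lit 456) (nat_lit 8762259822) (nat_lit 76) (nat_lit 7363122592) (nat_lit 172) (nat_lit 5) (nat_lit 178) (nat_lit 5) (nat_lit 173) (nat_lit 5) (nat_lit 455) (nat_lit 426) (nat_lit 319)))) (XT.nd (nat_lit 78) (nat_lit 684) (nat_lit 0) (XT.lf (nat_lit 0) (nat_lit 22899374570) (nat_lit 304) (nat_lit 4209012333) (nat_lit 380) (nat_lit 5726904207) (nat_lit 168) (nat_lit 5) (nat_lit 172) (nat_lit 5) (nat_lit 173) (nat_lit 5) (nat_lit 456) (nat_lit 426) (nat_lit 318)) (XT.nd (nat_lit 78) (nat_lit 304) (nat_lit 0) (XT.lf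 (nat_lit 0) (nat_lit 5558061860) (nat_lit 380) (nat_lit 11135591814) (nat_lit 76) (nat_lit 17134577572) (nat_lit 163) (nat_lit 5) (nat_lit 168) (nat_lit 5) (nat_lit 164) (nat_lit 5) (nat_lit 457) (nat_lit 426) (nat_lit 317)) (XT.lf (nat_lit 0) (nat_lit 17690258278) (nat_lit 380) (nat_lit 12289471627) (nat_lit 76) (nat_lit 4877345610) (nat_lit 159) (nat_lit 5) (nat_lit 164) (nat_lit 5) (nat_lit 160) (nat_lit 5) (nat_lit 458) (nat_lit 426) (nat_lit 316))))) (XT.nd (nat_lit 234) (nat_lit 1140) (nat_lit 0) (XT.nd (nat_lit 78) (nat_lit 684) (nat_lit 0) (XT.lf (nat_lit 0) (nat_lit 22508837306) (nat_lit 304) (nat_lit 8410491080) (nat_lit 380) (nat_lit 5003326537) (nat_lit 155) (nat_lit 5) (nat_lit 159) (nat_lit 5) (nat_lit 160) (nat_lit 5) (nat_lit 459) (nat_lit 426) (nat_lit 315)) (XT.nd (nat_lit 78) (nat_lit 304) (nat_lit 0) (XT.lf (nat_lit 0) (nat_lit 8092762948) (nat_lit 380) (nat_lit 14553888559)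 (nat_lit 76) (nat_lit 14378341977) (nat_lit 150) (nat_lit 5) (nat_lit 155) (nat_lit 5) (nat_lit 151) (nat_lit 5) (nat_lit 460) (nat_lit 426) (nat_lit 314)) (XT.lf (nat_lit 0) (nat_lit 22175865857) (nat_lit 380) (nat_lit 15631239979) (nat_lit 76) (nat_lit 360787179) (nat_lit 146) (nat_lit 5) (nat_lit 151) (nat_lit 5) (nat_lit 147) (nat_lit 5) (nat_lit 461) (nat_lit 426) (nat_lit 313)))) (XT.nd (nat_lit 156) (nat_lit 532) (nat_lit 0) (XT.nd (nat_lit 78) (nat_lit 380) (nat_lit 0) (XT.lf (nat_lit 0) (nat_lit 22618855232) (nat_lit 228) (nat_lit 14932029233) (nat_lit 304) (nat_lit 1799420947) (nat_lit 143) (nat_lit 5) (nat_lit 146) (nat_lit 5) (nat_lit 147) (nat_lit 5) (nat_lit 462) (nat_lit 426) (nat_lit 312)) (XT.lf (nat_lit 0) (nat_lit 13312038750) (nat_lit 380) (nat_lit 17844909149) (nat_lit 76) (nat_lit 9417165425) (nat_lit 138) (nat_lit 5) (nat_lit 143) (nat_lit 5) (nat_lit 139) (nat_lit 5) (nat_lit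 463) (nat_lit 426) (nat_lit 311))) (XT.nd (nat_lit 78) (nat_lit 304) (nat_lit 0) (XT.lf (nat_lit 0) (nat_lit 22920840531) (nat_lit 228) (nat_lit 6757279042) (nat_lit 304) (nat_lit 12164370312) (nat_lit 135) (nat_lit 5) (nat_lit 138) (nat_lit 5) (nat_lit 139) (nat_lit 5) (nat_lit 464) (nat_lit 426) (nat_lit 310)) (XT.lf (nat_lit 0) (nat_lit 4202872551) (nat_lit 304) (nat_lit 20014018051) (nat_lit 76) (nat_lit 18938732929) (nat_lit 131) (nat_lit 5) (nat_lit 135) (nat_lit 5) (nat_lit 132) (nat_lit 5) (nat_lit 465) (nat_lit 426) (nat_lit 309))))))))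
noncomputable def xc91 : XT := (XT.nd (nat_lit 1950) (nat_lit 608) (nat_lit 0) (XT.nd (nat_lit 936) (nat_lit 2052) (nat_lit 0) (XT.nd (nat_lit 468) (nat_lit 1216) (nat_lit 0) (XT.nd (nat_lit 234) (nat_lit 684) (nat_lit 0) (XT.nd (nat_lit 78) (nat_lit 532) (nat_lit 0) (XT.lf (nat_lit 0) (nat_lit 21638054907) (nat_lit 304) (nat_lit 21108570056) (nat_lit 76) (nat_lit 1769141608) (nat_lit 128) (nat_lit 5) (nat_lit 132) (nat_lit 5) (nat_lit 129) (nat_lit 5) (nat_lit 466) (nat_lit 426) (nat_lit 308)) (XT.nd (nat_lit 78) (nat_lit 304) (nat_lit 0) (XT.lf (nat_lit 0) (nat_lit 23681825868) (nat_lit 228) (nat_lit 16934920240) (nat_lit 304) (nat_lit 5307018686) (nat_lit 125) (nat_lit 5) (nat_lit 128) (nat_lit 5) (nat_lit 129) (nat_lit 5) (nat_lit 467) (nat_lit 426) (nat_lit 307)) (XT.lf (nat_lit 0) (nat_lit 13431924853) (nat_lit 304) (nat_lit 23403342756) (nat_lit 76) (nat_lit 10546720838) (nat_lit 121) (nat_lit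 5) (nat_lit 125) (nat_lit 5) (nat_lit 122) (nat_lit 5) (nat_lit 468) (nat_lit 426) (nat_lit 306)))) (XT.nd (nat_lit 78) (nat_lit 456) (nat_lit 0) (XT.lf (nat_lit 0) (nat_lit 24302910754) (nat_lit 228) (nat_lit 9323953794) (nat_lit 304) (nat_lit 15265818665) (nat_lit 118) (nat_lit 5) (nat_lit 121) (nat_lit 5) (nat_lit 122) (nat_lit 5) (nat_lit 469) (nat_lit 426) (nat_lit 305)) (XT.nd (nat_lit 78) (nat_lit 228) (nat_lit 0) (XT.lf (nat_lit 0) (nat_lit 4935154999) (nat_lit 228) (nat_lit 25817422743) (nat_lit 76) (nat_lit 19705056630) (nat_lit 115) (nat_lit 5) (nat_lit 118) (nat_lit 5) (nat_lit 116) (nat_lit 5) (nat_lit 470) (nat_lit 426) (nat_lit 304)) (XT.lf (nat_lit 0) (nat_lit 24976049682) (nat_lit 228) (nat_lit 1439565035) (nat_lit 304) (nat_lit 25663129636) (nat_lit 112) (nat_lit 5) (nat_lit 115) (nat_lit 5) (nat_lit 116) (nat_lit 5) (nat_lit 471) (nat_lit 426) (nat_lit 303))))) (XT.nd (nat_lit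 234) (nat_lit 608) (nat_lit 0) (XT.nd (nat_lit 78) (nat_lit 456) (nat_lit 0) (XT.lf (nat_lit 0) (nat_lit 25271512160) (nat_lit 152) (nat_lit 24484519083) (nat_lit 228) (nat_lit 4001300961) (nat_lit 110) (nat_lit 5) (nat_lit 112) (nat_lit 5) (nat_lit 113) (nat_lit 5) (nat_lit 472) (nat_lit 426) (nat_lit 302)) (XT.nd (nat_lit 78) (nat_lit 152) (nat_lit 0) (XT.lf (nat_lit 0) (nat_lit 18977437065) (nat_lit 304) (nat_lit 29953696300) (nat_lit 76) (nat_lit 6565323980) (nat_lit 106) (nat_lit 5) (nat_lit 110) (nat_lit 5) (nat_lit 107) (nat_lit 5) (nat_lit 473) (nat_lit 426) (nat_lit 301)) (XT.lf (nat_lit 0) (nat_lit 25754118344) (nat_lit 152) (nat_lit 18052768300) (nat_lit 228) (nat_lit 13490928103) (nat_lit 104) (nat_lit 5) (nat_lit 106) (nat_lit 5) (nat_lit 107) (nat_lit 5) (nat_lit 474) (nat_lit 426) (nat_lit 300)))) (XT.nd (nat_lit 78) (nat_lit 380) (nat_lit 0) (XT.lf (nat_lit 0) (nat_lit 11179876616)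 (nat_lit 228) (nat_lit 33229786733) (nat_lit 76) (nat_lit 14755498220) (nat_lit 101) (nat_lit 5) (nat_lit 104) (nat_lit 5) (nat_lit 102) (nat_lit 5) (nat_lit 475) (nat_lit 426) (nat_lit 299)) (XT.nd (nat_lit 78) (nat_lit 228) (nat_lit 0) (XT.lf (nat_lit 0) (nat_lit 26005391679) (nat_lit 152) (nat_lit 11555778480) (nat_lit 228) (nat_lit 23538019815) (nat_lit 99) (nat_lit 5) (nat_lit 101) (nat_lit 5) (nat_lit 102) (nat_lit 5) (nat_lit 476) (nat_lit 426) (nat_lit 298)) (XT.lf (nat_lit 0) (nat_lit 2907826107) (nat_lit 228) (nat_lit 37084357709) (nat_lit 76) (nat_lit 23112587162) (nat_lit 96) (nat_lit 5) (nat_lit 99) (nat_lit 5) (nat_lit 97) (nat_lit 5) (nat_lit 477) (nat_lit 426) (nat_lit 297)))))) (XT.nd (nat_lit 468) (nat_lit 988) (nat_lit 0) (XT.nd (nat_lit 234) (nat_lit 532) (nat_lit 0) (XT.nd (nat_lit 78) (nat_lit 380) (nat_lit 0) (XT.lf (nat_lit 0) (nat_lit 25859209187) (nat_lit 152) (nat_lit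 5058075082) (nat_lit 228) (nat_lit 34264511866) (nat_lit 94) (nat_lit 5) (nat_lit 96) (nat_lit 5) (nat_lit 97) (nat_lit 5) (nat_lit 478) (nat_lit 426) (nat_lit 296)) (XT.nd (nat_lit 78) (nat_lit 228) (nat_lit 0) (XT.lf (nat_lit 0) (nat_lit 25553247623) (nat_lit 152) (nat_lit 35702811727) (nat_lit 228) (nat_lit 6078748131) (nat_lit 92) (nat_lit 5) (nat_lit 94) (nat_lit 5) (nat_lit 95) (nat_lit 5) (nat_lit 479) (nat_lit 426) (nat_lit 295)) (XT.lf (nat_lit 0) (nat_lit 23765507139) (nat_lit 228) (nat_lit 44471866091) (nat_lit 76) (nat_lit 1330072068) (nat_lit 89) (nat_lit 5) (nat_lit 92) (nat_lit 5) (nat_lit 90) (nat_lit 5) (nat_lit 480) (nat_lit 426) (nat_lit 294)))) (XT.nd (nat_lit 78) (nat_lit 380) (nat_lit 0) (XT.lf (nat_lit 0) (nat_lit 24328713405) (nat_lit 152) (nat_lit 31671274743) (nat_lit 228) (nat_lit 15879209586) (nat_lit 87) (nat_lit 5) (nat_lit 89) (nat_lit 5) (nat_lit 90) (nat_lit 5)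 (nat_lit 481) (nat_lit 426) (nat_lit 293)) (XT.nd (nat_lit 78) (nat_lit 152) (nat_lit 0) (XT.lf (nat_lit 0) (nat_lit 15991625971) (nat_lit 228) (nat_lit 50854691800) (nat_lit 76) (nat_lit 7433082767) (nat_lit 84) (nat_lit 5) (nat_lit 87) (nat_lit 5) (nat_lit 85) (nat_lit 5) (nat_lit 482) (nat_lit 426) (nat_lit 292)) (XT.lf (nat_lit 0) (nat_lit 22093175149) (nat_lit 152) (nat_lit 28058091720) (nat_lit 228) (nat_lit 26612920113) (nat_lit 82) (nat_lit 5) (nat_lit 84) (nat_lit 5) (nat_lit 85) (nat_lit 5) (nat_lit 483) (nat_lit 426) (nat_lit 291))))) (XT.nd (nat_lit 234) (nat_lit 608) (nat_lit 0) (XT.nd (nat_lit 78) (nat_lit 228) (nat_lit 0) (XT.lf (nat_lit 0) (nat_lit 7367784854) (nat_lit 152) (nat_lit 58760707746) (nat_lit 76) (nat_lit 13217250191) (nat_lit 80) (nat_lit 5) (nat_lit 82) (nat_lit 5) (nat_lit 81) (nat_lit 5) (nat_lit 484) (nat_lit 426) (nat_lit 290)) (XT.nd (nat_lit 78) (nat_lit 76)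 (nat_lit 0) (XT.lf (nat_lit 0) (nat_lit 18500294473) (nat_lit 152) (nat_lit 25025835409) (nat_lit 228) (nat_lit 38491471826) (nat_lit 78) (nat_lit 5) (nat_lit 80) (nat_lit 5) (nat_lit 81) (nat_lit 5) (nat_lit 485) (nat_lit 426) (nat_lit 289)) (XT.lf (nat_lit 0) (nat_lit 16172655645) (nat_lit 76) (nat_lit 66254984763) (nat_lit 152) (nat_lit 2367355880) (nat_lit 77) (nat_lit 5) (nat_lit 78) (nat_lit 5) (nat_lit 79) (nat_lit 4) (nat_lit 486) (nat_lit 426) (nat_lit 288)))) (XT.nd (nat_lit 156) (nat_lit 304) (nat_lit 0) (XT.nd (nat_lit 78) (nat_lit 76) (nat_lit 0) (XT.lf (nat_lit 0) (nat_lit 13128226280) (nat_lit 152) (nat_lit 22774618705) (nat_lit 228) (nat_lit 51767144952) (nat_lit 74) (nat_lit 5) (nat_lit 76) (nat_lit 5) (nat_lit 77) (nat_lit 5) (nat_lit 487) (nat_lit 426) (nat_lit 287)) (XT.lf (nat_lit 0) (nat_lit 9660820291) (nat_lit 76) (nat_lit 67398271493) (nat_lit 152) (nat_lit 13598293559)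 (nat_lit 73) (nat_lit 5) (nat_lit 74) (nat_lit 5) (nat_lit 75) (nat_lit 4) (nat_lit 488) (nat_lit 426) (nat_lit 286))) (XT.nd (nat_lit 78) (nat_lit 76) (nat_lit 0) (XT.lf (nat_lit 0) (nat_lit 5465270608) (nat_lit 152) (nat_lit 21549320050) (nat_lit 228) (nat_lit 66740355295) (nat_lit 70) (nat_lit 5) (nat_lit 72) (nat_lit 5) (nat_lit 73) (nat_lit 5) (nat_lit 489) (nat_lit 426) (nat_lit 285)) (XT.lf (nat_lit 0) (nat_lit 560919476) (nat_lit 76) (nat_lit 69916692257) (nat_lit 152) (nat_lit 26492712105) (nat_lit 69) (nat_lit 5) (nat_lit 70) (nat_lit 5) (nat_lit 71) (nat_lit 4) (nat_lit 490) (nat_lit 426) (nat_lit 284))))))) (XT.nd (nat_lit 58188) (nat_lit 0) (nat_lit 11324) (XT.nd (nat_lit 57642) (nat_lit 0) (nat_lit 17784) (XT.nd (nat_lit 312) (nat_lit 228) (nat_lit 0) (XT.nd (nat_lit 78) (nat_lit 304) (nat_lit 0) (XT.lf (nat_lit 0) (nat_lit 16590159612) (nat_lit 152) (nat_lit 5007379367) (nat_lit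 76) (nat_lit 78710469099) (nat_lit 68) (nat_lit 5) (nat_lit 70) (nat_lit 5) (nat_lit 69) (nat_lit 5) (nat_lit 491) (nat_lit 426) (nat_lit 283)) (XT.nd (nat_lit 78) (nat_lit 152) (nat_lit 0) (XT.lf (nat_lit 0) (nat_lit 62460350373) (nat_lit 228) (nat_lit 11575999429) (nat_lit 76) (nat_lit 29732925155) (nat_lit 66) (nat_lit 5) (nat_lit 69) (nat_lit 5) (nat_lit 67) (nat_lit 4) (nat_lit 492) (nat_lit 426) (nat_lit 282)) (XT.lf (nat_lit 0) (nat_lit 4284474304) (nat_lit 152) (nat_lit 18956561765) (nat_lit 76) (nat_lit 84127834369) (nat_lit 64) (nat_lit 5) (nat_lit 66) (nat_lit 5) (nat_lit 65) (nat_lit 5) (nat_lit 493) (nat_lit 426) (nat_lit 281)))) (XT.nd (nat_lit 57174) (nat_lit 0) (nat_lit 17632) (XT.lf (nat_lit 0) (nat_lit 77512244860) (nat_lit 76) (nat_lit 26856630318) (nat_lit 152) (nat_lit 10612091665) (nat_lit 61) (nat_lit 5) (nat_lit 62) (nat_lit 5) (nat_lit 63) (nat_lit 4) (nat_lit 495) (nat_lit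 426) (nat_lit 279)) (XT.nd (nat_lit 78) (nat_lit 0) (nat_lit 76) (XT.lf (nat_lit 0) (nat_lit 569707945) (nat_lit 1292) (nat_lit 3554857714) (nat_lit 1292) (nat_lit 3554857714) (nat_lit 293) (nat_lit 3) (nat_lit 310) (nat_lit 3) (nat_lit 310) (nat_lit 5) (nat_lit 427) (nat_lit 427) (nat_lit 346)) (XT.lf (nat_lit 0) (nat_lit 1725081611) (nat_lit 1216) (nat_lit 10121878375) (nat_lit 1292) (nat_lit 3879077890) (nat_lit 294) (nat_lit 5) (nat_lit 310) (nat_lit 5) (nat_lit 311) (nat_lit 5) (nat_lit 428) (nat_lit 427) (nat_lit 345))))) (XT.nd (nat_lit 234) (nat_lit 0) (nat_lit 152) (XT.nd (nat_lit 78) (nat_lit 0) (nat_lit 0) (XT.lf (nat_lit 0) (nat_lit 2500151101) (nat_lit 1216) (nat_lit 13161472632) (nat_lit 1292) (nat_lit 445165349) (nat_lit 295) (nat_lit 5) (nat_lit 311) (nat_lit 5) (nat_lit 312) (nat_lit 5) (nat_lit 429) (nat_lit 427) (nat_lit 344)) (XT.nd (nat_lit 78) (nat_lit 0) (nat_lit 76) (XT.lf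 (nat_lit 76) (nat_lit 240858931) (nat_lit 0) (nat_lit 3271839935) (nat_lit 1292) (nat_lit 12987921180) (nat_lit 296) (nat_lit 5) (nat_lit 295) (nat_lit 5) (nat_lit 312) (nat_lit 5) (nat_lit 430) (nat_lit 427) (nat_lit 343)) (XT.lf (nat_lit 0) (nat_lit 4779204012) (nat_lit 1216) (nat_lit 2434278872) (nat_lit 1292) (nat_lit 9694563527) (nat_lit 296) (nat_lit 5) (nat_lit 312) (nat_lit 5) (nat_lit 313) (nat_lit 5) (nat_lit 431) (nat_lit 427) (nat_lit 342)))) (XT.nd (nat_lit 156) (nat_lit 0) (nat_lit 76) (XT.nd (nat_lit 78) (nat_lit 0) (nat_lit 76) (XT.lf (nat_lit 0) (nat_lit 6292257000) (nat_lit 1216) (nat_lit 5117966804) (nat_lit 1292) (nat_lit 5920127186) (nat_lit 297) (nat_lit 5) (nat_lit 313) (nat_lit 5) (nat_lit 314) (nat_lit 5) (nat_lit 432) (nat_lit 427) (nat_lit 341)) (XT.lf (nat_lit 0) (nat_lit 8068783811) (nat_lit 1216) (nat_lit 7813493966) (nat_lit 1292) (nat_lit 1885861789) (nat_lit 298)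 (nat_lit 5) (nat_lit 314) (nat_lit 5) (nat_lit 315) (nat_lit 5) (nat_lit 433) (nat_lit 427) (nat_lit 340))) (XT.nd (nat_lit 78) (nat_lit 0) (nat_lit 76) (XT.lf (nat_lit 76) (nat_lit 7678348356) (nat_lit 0) (nat_lit 2474396984) (nat_lit 1292) (nat_lit 8068517221) (nat_lit 299) (nat_lit 5) (nat_lit 298) (nat_lit 5) (nat_lit 315) (nat_lit 5) (nat_lit 434) (nat_lit 427) (nat_lit 339)) (XT.lf (nat_lit 76) (nat_lit 5388608503) (nat_lit 0) (nat_lit 7174309685) (nat_lit 1292) (nat_lit 6127466209) (nat_lit 300) (nat_lit 5) (nat_lit 299) (nat_lit 5) (nat_lit 316) (nat_lit 5) (nat_lit 435) (nat_lit 427) (nat_lit 338)))))) (XT.nd (nat_lit 468) (nat_lit 3648) (nat_lit 0) (XT.nd (nat_lit 234) (nat_lit 1976) (nat_lit 0) (XT.nd (nat_lit 78) (nat_lit 1216) (nat_lit 0) (XT.lf (nat_lit 76) (nat_lit 3107292916) (nat_lit 0) (nat_lit 12195932841) (nat_lit 1292) (nat_lit 3873450724) (nat_lit 301) (nat_lit 5) (nat_lit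 300) (nat_lit 5) (nat_lit 317) (nat_lit 5) (nat_lit 436) (nat_lit 427) (nat_lit 337)) (XT.nd (nat_lit 78) (nat_lit 76) (nat_lit 0) (XT.lf (nat_lit 0) (nat_lit 837593090) (nat_lit 1216) (nat_lit 17559613152) (nat_lit 1292) (nat_lit 1283580003) (nat_lit 285) (nat_lit 5) (nat_lit 301) (nat_lit 5) (nat_lit 302) (nat_lit 5) (nat_lit 437) (nat_lit 427) (nat_lit 336)) (XT.lf (nat_lit 0) (nat_lit 1677830178) (nat_lit 1292) (nat_lit 1435813876) (nat_lit 76) (nat_lit 17087944084) (nat_lit 284) (nat_lit 5) (nat_lit 301) (nat_lit 5) (nat_lit 285) (nat_lit 5) (nat_lit 438) (nat_lit 427) (nat_lit 335)))) (XT.nd (nat_lit 78) (nat_lit 1216) (nat_lit 0) (XT.lf (nat_lit 0) (nat_lit 5024357001) (nat_lit 836) (nat_lit 3714770216) (nat_lit 76) (nat_lit 12001016339) (nat_lit 274) (nat_lit 5) (nat_lit 285) (nat_lit 5) (nat_lit 275) (nat_lit 5) (nat_lit 439) (nat_lit 427) (nat_lit 334)) (XT.nd (nat_lit 78) (nat_lit 608)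 (nat_lit 0) (XT.lf (nat_lit 0) (nat_lit 8778233677) (nat_lit 684) (nat_lit 5978476724) (nat_lit 76) (nat_lit 6541717986) (nat_lit 266) (nat_lit 5) (nat_lit 275) (nat_lit 5) (nat_lit 267) (nat_lit 5) (nat_lit 440) (nat_lit 427) (nat_lit 333)) (XT.lf (nat_lit 0) (nat_lit 12967051094) (nat_lit 684) (nat_lit 8222743957) (nat_lit 76) (nat_lit 687417239) (nat_lit 258) (nat_lit 5) (nat_lit 267) (nat_lit 5) (nat_lit 259) (nat_lit 5) (nat_lit 441) (nat_lit 427) (nat_lit 332))))) (XT.nd (nat_lit 234) (nat_lit 1976) (nat_lit 0) (XT.nd (nat_lit 78) (nat_lit 1140) (nat_lit 0) (XT.lf (nat_lit 0) (nat_lit 11977915827) (nat_lit 532) (nat_lit 5696671618) (nat_lit 608) (nat_lit 4801071730) (nat_lit 251) (nat_lit 5) (nat_lit 258) (nat_lit 5) (nat_lit 259) (nat_lit 5) (nat_lit 442) (nat_lit 427) (nat_lit 331)) (XT.nd (nat_lit 78) (nat_lit 608) (nat_lit 0) (XT.lf (nat_lit 0) (nat_lit 10341125454) (nat_lit 532) (nat_lit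 12546567417) (nat_lit 608) (nat_lit 208231795) (nat_lit 244) (nat_lit 5) (nat_lit 251) (nat_lit 5) (nat_lit 252) (nat_lit 5) (nat_lit 443) (nat_lit 427) (nat_lit 330)) (XT.lf (nat_lit 0) (nat_lit 4797426504) (nat_lit 608) (nat_lit 15029029929) (nat_lit 76) (nat_lit 3911221714) (nat_lit 236) (nat_lit 5) (nat_lit 244) (nat_lit 5) (nat_lit 237) (nat_lit 5) (nat_lit 444) (nat_lit 427) (nat_lit 329)))) (XT.nd (nat_lit 156) (nat_lit 988) (nat_lit 0) (XT.nd (nat_lit 78) (nat_lit 456) (nat_lit 0) (XT.lf (nat_lit 0) (nat_lit 7095701107) (nat_lit 532) (nat_lit 3265573938) (nat_lit 608) (nat_lit 14040817776) (nat_lit 229) (nat_lit 5) (nat_lit 236) (nat_lit 5) (nat_lit 237) (nat_lit 5) (nat_lit 445) (nat_lit 427) (nat_lit 328)) (XT.lf (nat_lit 0) (nat_lit 5498761149) (nat_lit 456) (nat_lit 11034699597) (nat_lit 532) (nat_lit 8556364842) (nat_lit 223) (nat_lit 5) (nat_lit 229) (nat_lit 5) (nat_lit 230) (nat_lit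 5) (nat_lit 446) (nat_lit 427) (nat_lit 327))) (XT.nd (nat_lit 78) (nat_lit 532) (nat_lit 0) (XT.lf (nat_lit 0) (nat_lit 3964196351) (nat_lit 456) (nat_lit 19347696366) (nat_lit 532) (nat_lit 2491124788) (nat_lit 217) (nat_lit 5) (nat_lit 223) (nat_lit 5) (nat_lit 224) (nat_lit 5) (nat_lit 447) (nat_lit 427) (nat_lit 326)) (XT.lf (nat_lit 0) (nat_lit 2441183379) (nat_lit 456) (nat_lit 1685230177) (nat_lit 532) (nat_lit 22414597872) (nat_lit 210) (nat_lit 5) (nat_lit 216) (nat_lit 5) (nat_lit 217) (nat_lit 5) (nat_lit 448) (nat_lit 427) (nat_lit 325))))))))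
noncomputable def xc92 : XT := (XT.nd (nat_lit 1950) (nat_lit 3648) (nat_lit 0) (XT.nd (nat_lit 936) (nat_lit 3420) (nat_lit 0) (XT.nd (nat_lit 468) (nat_lit 2052) (nat_lit 0) (XT.nd (nat_lit 234) (nat_lit 1292) (nat_lit 0) (XT.nd (nat_lit 78) (nat_lit 380) (nat_lit 0) (XT.lf (nat_lit 0) (nat_lit 893893008) (nat_lit 456) (nat_lit 10514258446) (nat_lit 532) (nat_lit 15895469794) (nat_lit 204) (nat_lit 5) (nat_lit 210) (nat_lit 5) (nat_lit 211) (nat_lit 5) (nat_lit 449) (nat_lit 427) (nat_lit 324)) (XT.nd (nat_lit 78) (nat_lit 380) (nat_lit 0) (XT.lf (nat_lit 0) (nat_lit 19385847443) (nat_lit 532) (nat_lit 569062158) (nat_lit 76) (nat_lit 8139497181) (nat_lit 204) (nat_lit 5) (nat_lit 211) (nat_lit 5) (nat_lit 205) (nat_lit 5) (nat_lit 450) (nat_lit 427) (nat_lit 323)) (XT.lf (nat_lit 0) (nat_lit 26968153737) (nat_lit 380) (nat_lit 1147358091) (nat_lit 456) (nat_lit 798628552) (nat_lit 199) (nat_lit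 5) (nat_lit 204) (nat_lit 5) (nat_lit 205) (nat_lit 5) (nat_lit 451) (nat_lit 427) (nat_lit 322)))) (XT.nd (nat_lit 78) (nat_lit 760) (nat_lit 0) (XT.lf (nat_lit 0) (nat_lit 7791557479) (nat_lit 532) (nat_lit 3397383123) (nat_lit 76) (nat_lit 18570819151) (nat_lit 192) (nat_lit 5) (nat_lit 199) (nat_lit 5) (nat_lit 193) (nat_lit 5) (nat_lit 452) (nat_lit 427) (nat_lit 321)) (XT.nd (nat_lit 78) (nat_lit 380) (nat_lit 0) (XT.lf (nat_lit 0) (nat_lit 17150019124) (nat_lit 456) (nat_lit 4773697768) (nat_lit 76) (nat_lit 8713048632) (nat_lit 187) (nat_lit 5) (nat_lit 193) (nat_lit 5) (nat_lit 188) (nat_lit 5) (nat_lit 453) (nat_lit 427) (nat_lit 320)) (XT.lf (nat_lit 0) (nat_lit 25469554603) (nat_lit 380) (nat_lit 1888741851) (nat_lit 456) (nat_lit 4187869436) (nat_lit 182) (nat_lit 5) (nat_lit 187) (nat_lit 5) (nat_lit 188) (nat_lit 5) (nat_lit 454) (nat_lit 427) (nat_lit 319))))) (XT.nd (nat_lit 234)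 (nat_lit 988) (nat_lit 0) (XT.nd (nat_lit 78) (nat_lit 684) (nat_lit 0) (XT.lf (nat_lit 0) (nat_lit 5936023331) (nat_lit 380) (nat_lit 7429578636) (nat_lit 76) (nat_lit 19119760964) (nat_lit 177) (nat_lit 5) (nat_lit 182) (nat_lit 5) (nat_lit 178) (nat_lit 5) (nat_lit 455) (nat_lit 427) (nat_lit 318)) (XT.nd (nat_lit 78) (nat_lit 304) (nat_lit 0) (XT.lf (nat_lit 0) (nat_lit 16867546417) (nat_lit 456) (nat_lit 8728489555) (nat_lit 76) (nat_lit 7862599467) (nat_lit 172) (nat_lit 5) (nat_lit 178) (nat_lit 5) (nat_lit 173) (nat_lit 5) (nat_lit 456) (nat_lit 427) (nat_lit 317)) (XT.lf (nat_lit 0) (nat_lit 24502700118) (nat_lit 304) (nat_lit 4280383253) (nat_lit 380) (nat_lit 5684365981) (nat_lit 168) (nat_lit 5) (nat_lit 172) (nat_lit 5) (nat_lit 173) (nat_lit 5) (nat_lit 457) (nat_lit 427) (nat_lit 316)))) (XT.nd (nat_lit 78) (nat_lit 608) (nat_lit 0) (XT.lf (nat_lit 0) (nat_lit 6148761099) (nat_lit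 380) (nat_lit 11232869792) (nat_lit 76) (nat_lit 18128602143) (nat_lit 163) (nat_lit 5) (nat_lit 168) (nat_lit 5) (nat_lit 164) (nat_lit 5) (nat_lit 458) (nat_lit 427) (nat_lit 315)) (XT.nd (nat_lit 78) (nat_lit 304) (nat_lit 0) (XT.lf (nat_lit 0) (nat_lit 18878348230) (nat_lit 380) (nat_lit 12449910263) (nat_lit 76) (nat_lit 5262538830) (nat_lit 159) (nat_lit 5) (nat_lit 164) (nat_lit 5) (nat_lit 160) (nat_lit 5) (nat_lit 459) (nat_lit 427) (nat_lit 314)) (XT.lf (nat_lit 0) (nat_lit 24075299295) (nat_lit 304) (nat_lit 8683355854) (nat_lit 380) (nat_lit 4951308228) (nat_lit 155) (nat_lit 5) (nat_lit 159) (nat_lit 5) (nat_lit 160) (nat_lit 5) (nat_lit 460) (nat_lit 427) (nat_lit 313)))))) (XT.nd (nat_lit 468) (nat_lit 1596) (nat_lit 0) (XT.nd (nat_lit 234) (nat_lit 912) (nat_lit 0) (XT.nd (nat_lit 78) (nat_lit 532) (nat_lit 0) (XT.lf (nat_lit 0) (nat_lit 8785173693) (nat_lit 380) (nat_lit 14840263027)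 (nat_lit 76) (nat_lit 15242151548) (nat_lit 150) (nat_lit 5) (nat_lit 155) (nat_lit 5) (nat_lit 151) (nat_lit 5) (nat_lit 461) (nat_lit 427) (nat_lit 312)) (XT.nd (nat_lit 78) (nat_lit 228) (nat_lit 0) (XT.lf (nat_lit 0) (nat_lit 23564295429) (nat_lit 380) (nat_lit 15977212498) (nat_lit 76) (nat_lit 526369971) (nat_lit 146) (nat_lit 5) (nat_lit 151) (nat_lit 5) (nat_lit 147) (nat_lit 5) (nat_lit 462) (nat_lit 427) (nat_lit 311)) (XT.lf (nat_lit 0) (nat_lit 24172901388) (nat_lit 228) (nat_lit 15525914695) (nat_lit 304) (nat_lit 1610873284) (nat_lit 143) (nat_lit 5) (nat_lit 146) (nat_lit 5) (nat_lit 147) (nat_lit 5) (nat_lit 463) (nat_lit 427) (nat_lit 310)))) (XT.nd (nat_lit 78) (nat_lit 532) (nat_lit 0) (XT.lf (nat_lit 0) (nat_lit 14243184933) (nat_lit 380) (nat_lit 18314404010) (nat_lit 76) (nat_lit 10037245510) (nat_lit 138) (nat_lit 5) (nat_lit 143) (nat_lit 5) (nat_lit 139) (nat_lit 5) (nat_lit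 464) (nat_lit 427) (nat_lit 309)) (XT.nd (nat_lit 78) (nat_lit 304) (nat_lit 0) (XT.lf (nat_lit 0) (nat_lit 24477515093) (nat_lit 228) (nat_lit 6941356991) (nat_lit 304) (nat_lit 12508019557) (nat_lit 135) (nat_lit 5) (nat_lit 138) (nat_lit 5) (nat_lit 139) (nat_lit 5) (nat_lit 465) (nat_lit 427) (nat_lit 308)) (XT.lf (nat_lit 0) (nat_lit 4665422834) (nat_lit 304) (nat_lit 20604752236) (nat_lit 76) (nat_lit 20035641401) (nat_lit 131) (nat_lit 5) (nat_lit 135) (nat_lit 5) (nat_lit 132) (nat_lit 5) (nat_lit 466) (nat_lit 427) (nat_lit 307))))) (XT.nd (nat_lit 234) (nat_lit 836) (nat_lit 0) (XT.nd (nat_lit 78) (nat_lit 532) (nat_lit 0) (XT.lf (nat_lit 0) (nat_lit 22965653172) (nat_lit 304) (nat_lit 21759922069) (nat_lit 76) (nat_lit 2008593521) (nat_lit 128) (nat_lit 5) (nat_lit 132) (nat_lit 5) (nat_lit 129) (nat_lit 5) (nat_lit 467) (nat_lit 427) (nat_lit 306)) (XT.nd (nat_lit 78) (nat_lit 304)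 (nat_lit 0) (XT.lf (nat_lit 0) (nat_lit 25258410880) (nat_lit 228) (nat_lit 17626941156) (nat_lit 304) (nat_lit 5327453393) (nat_lit 125) (nat_lit 5) (nat_lit 128) (nat_lit 5) (nat_lit 129) (nat_lit 5) (nat_lit 468) (nat_lit 427) (nat_lit 305)) (XT.lf (nat_lit 0) (nat_lit 14337407940) (nat_lit 304) (nat_lit 24182100633) (nat_lit 76) (nat_lit 11224549243) (nat_lit 121) (nat_lit 5) (nat_lit 125) (nat_lit 5) (nat_lit 122) (nat_lit 5) (nat_lit 469) (nat_lit 427) (nat_lit 304)))) (XT.nd (nat_lit 156) (nat_lit 380) (nat_lit 0) (XT.nd (nat_lit 78) (nat_lit 228) (nat_lit 0) (XT.lf (nat_lit 0) (nat_lit 25898245885) (nat_lit 228) (nat_lit 9636365881) (nat_lit 304) (nat_lit 15795900680) (nat_lit 118) (nat_lit 5) (nat_lit 121) (nat_lit 5) (nat_lit 122) (nat_lit 5) (nat_lit 470) (nat_lit 427) (nat_lit 303)) (XT.lf (nat_lit 0) (nat_lit 5404739495) (nat_lit 228) (nat_lit 26729381853) (nat_lit 76) (nat_lit 20839698097)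 (nat_lit 115) (nat_lit 5) (nat_lit 118) (nat_lit 5) (nat_lit 116) (nat_lit 5) (nat_lit 471) (nat_lit 427) (nat_lit 302))) (XT.nd (nat_lit 78) (nat_lit 152) (nat_lit 0) (XT.lf (nat_lit 0) (nat_lit 26592902756) (nat_lit 228) (nat_lit 1359246573) (nat_lit 304) (nat_lit 26724048346) (nat_lit 112) (nat_lit 5) (nat_lit 115) (nat_lit 5) (nat_lit 116) (nat_lit 5) (nat_lit 472) (nat_lit 427) (nat_lit 301)) (XT.lf (nat_lit 0) (nat_lit 26897464293) (nat_lit 152) (nat_lit 25556726035) (nat_lit 228) (nat_lit 3984687018) (nat_lit 110) (nat_lit 5) (nat_lit 112) (nat_lit 5) (nat_lit 113) (nat_lit 5) (nat_lit 473) (nat_lit 427) (nat_lit 300))))))) (XT.nd (nat_lit 1014) (nat_lit 1216) (nat_lit 0) (XT.nd (nat_lit 468) (nat_lit 1216) (nat_lit 0) (XT.nd (nat_lit 234) (nat_lit 532) (nat_lit 0) (XT.nd (nat_lit 78) (nat_lit 380) (nat_lit 0) (XT.lf (nat_lit 0) (nat_lit 20133511373) (nat_lit 304) (nat_lit 31090537519) (nat_lit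 76) (nat_lit 7041005313) (nat_lit 106) (nat_lit 5) (nat_lit 110) (nat_lit 5) (nat_lit 107) (nat_lit 5) (nat_lit 474) (nat_lit 427) (nat_lit 299)) (XT.nd (nat_lit 78) (nat_lit 228) (nat_lit 0) (XT.lf (nat_lit 0) (nat_lit 27392324348) (nat_lit 152) (nat_lit 18805611522) (nat_lit 228) (nat_lit 13958739009) (nat_lit 104) (nat_lit 5) (nat_lit 106) (nat_lit 5) (nat_lit 107) (nat_lit 5) (nat_lit 475) (nat_lit 427) (nat_lit 298)) (XT.lf (nat_lit 0) (nat_lit 11936652613) (nat_lit 228) (nat_lit 34542418905) (nat_lit 76) (nat_lit 15638405916) (nat_lit 101) (nat_lit 5) (nat_lit 104) (nat_lit 5) (nat_lit 102) (nat_lit 5) (nat_lit 476) (nat_lit 427) (nat_lit 297)))) (XT.nd (nat_lit 78) (nat_lit 380) (nat_lit 0) (XT.lf (nat_lit 0) (nat_lit 27644518506) (nat_lit 152) (nat_lit 11986331432) (nat_lit 228) (nat_lit 24517542565) (nat_lit 99) (nat_lit 5) (nat_lit 101) (nat_lit 5) (nat_lit 102) (nat_lit 5) (nat_lit 477)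 (nat_lit 427) (nat_lit 296)) (XT.nd (nat_lit 78) (nat_lit 152) (nat_lit 0) (XT.lf (nat_lit 0) (nat_lit 3242126006) (nat_lit 228) (nat_lit 38601447077) (nat_lit 76) (nat_lit 24410761483) (nat_lit 96) (nat_lit 5) (nat_lit 99) (nat_lit 5) (nat_lit 97) (nat_lit 5) (nat_lit 478) (nat_lit 427) (nat_lit 295)) (XT.lf (nat_lit 0) (nat_lit 27479634442) (nat_lit 152) (nat_lit 5166574779) (nat_lit 228) (nat_lit 35789177562) (nat_lit 94) (nat_lit 5) (nat_lit 96) (nat_lit 5) (nat_lit 97) (nat_lit 5) (nat_lit 479) (nat_lit 427) (nat_lit 294))))) (XT.nd (nat_lit 234) (nat_lit 684) (nat_lit 0) (XT.nd (nat_lit 78) (nat_lit 380) (nat_lit 0) (XT.lf (nat_lit 0) (nat_lit 27152981302) (nat_lit 152) (nat_lit 37344642522) (nat_lit 228) (nat_lit 6198554199) (nat_lit 92) (nat_lit 5) (nat_lit 94) (nat_lit 5) (nat_lit 95) (nat_lit 5) (nat_lit 480) (nat_lit 427) (nat_lit 293)) (XT.nd (nat_lit 78) (nat_lit 152) (nat_lit 0) (XT.lf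 (nat_lit 0) (nat_lit 25130123302) (nat_lit 228) (nat_lit 46375226406) (nat_lit 76) (nat_lit 1535171171) (nat_lit 89) (nat_lit 5) (nat_lit 92) (nat_lit 5) (nat_lit 90) (nat_lit 5) (nat_lit 481) (nat_lit 427) (nat_lit 292)) (XT.lf (nat_lit 0) (nat_lit 25856202651) (nat_lit 152) (nat_lit 33114718566) (nat_lit 228) (nat_lit 16497102241) (nat_lit 87) (nat_lit 5) (nat_lit 89) (nat_lit 5) (nat_lit 90) (nat_lit 5) (nat_lit 482) (nat_lit 427) (nat_lit 291)))) (XT.nd (nat_lit 156) (nat_lit 304) (nat_lit 0) (XT.nd (nat_lit 78) (nat_lit 152) (nat_lit 0) (XT.lf (nat_lit 0) (nat_lit 16959883076) (nat_lit 228) (nat_lit 53088247751) (nat_lit 76) (nat_lit 7940173775) (nat_lit 84) (nat_lit 5) (nat_lit 87) (nat_lit 5) (nat_lit 85) (nat_lit 5) (nat_lit 483) (nat_lit 427) (nat_lit 290)) (XT.lf (nat_lit 0) (nat_lit 23498150002) (nat_lit 152) (nat_lit 29324210658) (nat_lit 228) (nat_lit 27775124340) (nat_lit 82) (nat_lit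 5) (nat_lit 84) (nat_lit 5) (nat_lit 85) (nat_lit 5) (nat_lit 484) (nat_lit 427) (nat_lit 289))) (XT.nd (nat_lit 78) (nat_lit 152) (nat_lit 0) (XT.lf (nat_lit 0) (nat_lit 7897594853) (nat_lit 152) (nat_lit 61400324567) (nat_lit 76) (nat_lit 14010262878) (nat_lit 80) (nat_lit 5) (nat_lit 82) (nat_lit 5) (nat_lit 81) (nat_lit 5) (nat_lit 485) (nat_lit 427) (nat_lit 288)) (XT.lf (nat_lit 0) (nat_lit 19715173655) (nat_lit 152) (nat_lit 26143783129) (nat_lit 228) (nat_lit 40254824626) (nat_lit 78) (nat_lit 5) (nat_lit 80) (nat_lit 5) (nat_lit 81) (nat_lit 5) (nat_lit 486) (nat_lit 427) (nat_lit 287)))))) (XT.nd (nat_lit 468) (nat_lit 456) (nat_lit 0) (XT.nd (nat_lit 234) (nat_lit 380) (nat_lit 0) (XT.nd (nat_lit 78) (nat_lit 304) (nat_lit 0) (XT.lf (nat_lit 0) (nat_lit 17266164584) (nat_lit 76) (nat_lit 69435884050) (nat_lit 152) (nat_lit 2328102138) (nat_lit 77) (nat_lit 5) (nat_lit 78) (nat_lit 5)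 (nat_lit 79) (nat_lit 4) (nat_lit 487) (nat_lit 427) (nat_lit 286)) (XT.nd (nat_lit 78) (nat_lit 76) (nat_lit 0) (XT.lf (nat_lit 0) (nat_lit 14064339715) (nat_lit 152) (nat_lit 23783522637) (nat_lit 228) (nat_lit 54201126626) (nat_lit 74) (nat_lit 5) (nat_lit 76) (nat_lit 5) (nat_lit 77) (nat_lit 5) (nat_lit 488) (nat_lit 427) (nat_lit 285)) (XT.lf (nat_lit 0) (nat_lit 10418705068) (nat_lit 76) (nat_lit 70639910028) (nat_lit 152) (nat_lit 14127238451) (nat_lit 73) (nat_lit 5) (nat_lit 74) (nat_lit 5) (nat_lit 75) (nat_lit 4) (nat_lit 489) (nat_lit 427) (nat_lit 284)))) (XT.nd (nat_lit 78) (nat_lit 152) (nat_lit 0) (XT.lf (nat_lit 0) (nat_lit 6008364852) (nat_lit 152) (nat_lit 22500524185) (nat_lit 228) (nat_lit 69929493449) (nat_lit 70) (nat_lit 5) (nat_lit 72) (nat_lit 5) (nat_lit 73) (nat_lit 5) (nat_lit 490) (nat_lit 427) (nat_lit 283)) (XT.nd (nat_lit 78) (nat_lit 76) (nat_lit 0) (XT.lf (nat_lit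 0) (nat_lit 854069803) (nat_lit 76) (nat_lit 73287859007) (nat_lit 152) (nat_lit 27672694602) (nat_lit 69) (nat_lit 5) (nat_lit 70) (nat_lit 5) (nat_lit 71) (nat_lit 4) (nat_lit 491) (nat_lit 427) (nat_lit 282)) (XT.lf (nat_lit 0) (nat_lit 17554744170) (nat_lit 152) (nat_lit 5002576452) (nat_lit 76) (nat_lit 82762032305) (nat_lit 68) (nat_lit 5) (nat_lit 70) (nat_lit 5) (nat_lit 69) (nat_lit 5) (nat_lit 492) (nat_lit 427) (nat_lit 281))))) (XT.nd (nat_lit 57486) (nat_lit 0) (nat_lit 17632) (XT.nd (nat_lit 156) (nat_lit 304) (nat_lit 0) (XT.lf (nat_lit 0) (nat_lit 65715517855) (nat_lit 228) (nat_lit 11904131104) (nat_lit 76) (nat_lit 31334122145) (nat_lit 66) (nat_lit 5) (nat_lit 69) (nat_lit 5) (nat_lit 67) (nat_lit 4) (nat_lit 493) (nat_lit 427) (nat_lit 280)) (XT.nd (nat_lit 57252) (nat_lit 0) (nat_lit 17556) (XT.lf (nat_lit 0) (nat_lit 55287624091) (nat_lit 228) (nat_lit 28850599710) (nat_lit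 76) (nat_lit 32512180501) (nat_lit 62) (nat_lit 5) (nat_lit 65) (nat_lit 5) (nat_lit 63) (nat_lit 4) (nat_lit 495) (nat_lit 427) (nat_lit 278)) (XT.lf (nat_lit 0) (nat_lit 1055837905) (nat_lit 1292) (nat_lit 3496881839) (nat_lit 1292) (nat_lit 3496881839) (nat_lit 293) (nat_lit 3) (nat_lit 310) (nat_lit 3) (nat_lit 310) (nat_lit 5) (nat_lit 428) (nat_lit 428) (nat_lit 344)))) (XT.nd (nat_lit 156) (nat_lit 0) (nat_lit 76) (XT.nd (nat_lit 78) (nat_lit 0) (nat_lit 76) (XT.lf (nat_lit 0) (nat_lit 2683421644) (nat_lit 1216) (nat_lit 10139624255) (nat_lit 1292) (nat_lit 3663010107) (nat_lit 294) (nat_lit 5) (nat_lit 310) (nat_lit 5) (nat_lit 311) (nat_lit 5) (nat_lit 429) (nat_lit 428) (nat_lit 343)) (XT.lf (nat_lit 0) (nat_lit 3456808521) (nat_lit 1216) (nat_lit 13316559752) (nat_lit 1292) (nat_lit 113695353) (nat_lit 295) (nat_lit 5) (nat_lit 311) (nat_lit 5) (nat_lit 312) (nat_lit 5) (nat_lit 430)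 (nat_lit 428) (nat_lit 342))) (XT.nd (nat_lit 78) (nat_lit 0) (nat_lit 76) (XT.lf (nat_lit 76) (nat_lit 741470382) (nat_lit 0) (nat_lit 3743607337) (nat_lit 1292) (nat_lit 12816561094) (nat_lit 296) (nat_lit 5) (nat_lit 295) (nat_lit 5) (nat_lit 312) (nat_lit 5) (nat_lit 431) (nat_lit 428) (nat_lit 341)) (XT.lf (nat_lit 0) (nat_lit 5774146631) (nat_lit 1216) (nat_lit 2064999376) (nat_lit 1292) (nat_lit 9891518567) (nat_lit 296) (nat_lit 5) (nat_lit 312) (nat_lit 5) (nat_lit 313) (nat_lit 5) (nat_lit 432) (nat_lit 428) (nat_lit 340))))))))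
noncomputable def xc93 : XT := (XT.nd (nat_lit 1950) (nat_lit 6460) (nat_lit 0) (XT.nd (nat_lit 936) (nat_lit 5396) (nat_lit 0) (XT.nd (nat_lit 468) (nat_lit 3192) (nat_lit 0) (XT.nd (nat_lit 234) (nat_lit 912) (nat_lit 0) (XT.nd (nat_lit 78) (nat_lit 0) (nat_lit 76) (XT.lf (nat_lit 0) (nat_lit 7329056996) (nat_lit 1216) (nat_lit 4872728655) (nat_lit 1292) (nat_lit 5973317575) (nat_lit 297) (nat_lit 5) (nat_lit 313) (nat_lit 5) (nat_lit 314) (nat_lit 5) (nat_lit 433) (nat_lit 428) (nat_lit 339)) (XT.nd (nat_lit 78) (nat_lit 0) (nat_lit 0) (XT.lf (nat_lit 0) (nat_lit 9162722067) (nat_lit 1216) (nat_lit 7694550546) (nat_lit 1292) (nat_lit 1778464007) (nat_lit 298) (nat_lit 5) (nat_lit 314) (nat_lit 5) (nat_lit 315) (nat_lit 5) (nat_lit 434) (nat_lit 428) (nat_lit 338)) (XT.lf (nat_lit 76) (nat_lit 8557275791) (nat_lit 0) (nat_lit 2765483313) (nat_lit 1292) (nat_lit 7789604860) (nat_lit 299) (nat_lit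 5) (nat_lit 298) (nat_lit 5) (nat_lit 315) (nat_lit 5) (nat_lit 435) (nat_lit 428) (nat_lit 337)))) (XT.nd (nat_lit 78) (nat_lit 1064) (nat_lit 0) (XT.lf (nat_lit 76) (nat_lit 6159811821) (nat_lit 0) (nat_lit 7665378165) (nat_lit 1292) (nat_lit 5780603730) (nat_lit 300) (nat_lit 5) (nat_lit 299) (nat_lit 5) (nat_lit 316) (nat_lit 5) (nat_lit 436) (nat_lit 428) (nat_lit 336)) (XT.nd (nat_lit 78) (nat_lit 1140) (nat_lit 0) (XT.lf (nat_lit 76) (nat_lit 3769845144) (nat_lit 0) (nat_lit 12906135042) (nat_lit 1292) (nat_lit 3441220302) (nat_lit 301) (nat_lit 5) (nat_lit 300) (nat_lit 5) (nat_lit 317) (nat_lit 5) (nat_lit 437) (nat_lit 428) (nat_lit 335)) (XT.lf (nat_lit 0) (nat_lit 1390844360) (nat_lit 1216) (nat_lit 18508878746) (nat_lit 1292) (nat_lit 747544638) (nat_lit 285) (nat_lit 5) (nat_lit 301) (nat_lit 5) (nat_lit 302) (nat_lit 5) (nat_lit 438) (nat_lit 428) (nat_lit 334))))) (XT.nd (nat_lit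 234) (nat_lit 1748) (nat_lit 0) (XT.nd (nat_lit 78) (nat_lit 1368) (nat_lit 0) (XT.lf (nat_lit 0) (nat_lit 2322199802) (nat_lit 1292) (nat_lit 1009357141) (nat_lit 76) (nat_lit 17863224029) (nat_lit 284) (nat_lit 5) (nat_lit 301) (nat_lit 5) (nat_lit 285) (nat_lit 5) (nat_lit 439) (nat_lit 428) (nat_lit 333)) (XT.nd (nat_lit 78) (nat_lit 608) (nat_lit 0) (XT.lf (nat_lit 0) (nat_lit 5813492050) (nat_lit 836) (nat_lit 3399797791) (nat_lit 76) (nat_lit 12547654586) (nat_lit 274) (nat_lit 5) (nat_lit 285) (nat_lit 5) (nat_lit 275) (nat_lit 5) (nat_lit 440) (nat_lit 428) (nat_lit 332)) (XT.lf (nat_lit 0) (nat_lit 9733828298) (nat_lit 684) (nat_lit 5775173240) (nat_lit 76) (nat_lit 6838782266) (nat_lit 266) (nat_lit 5) (nat_lit 275) (nat_lit 5) (nat_lit 267) (nat_lit 5) (nat_lit 441) (nat_lit 428) (nat_lit 331)))) (XT.nd (nat_lit 78) (nat_lit 1140) (nat_lit 0) (XT.lf (nat_lit 0) (nat_lit 14112086056)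 (nat_lit 684) (nat_lit 8130998725) (nat_lit 76) (nat_lit 713025255) (nat_lit 258) (nat_lit 5) (nat_lit 267) (nat_lit 5) (nat_lit 259) (nat_lit 5) (nat_lit 442) (nat_lit 428) (nat_lit 330)) (XT.nd (nat_lit 78) (nat_lit 608) (nat_lit 0) (XT.lf (nat_lit 0) (nat_lit 13065279024) (nat_lit 532) (nat_lit 5970764105) (nat_lit 608) (nat_lit 4549007791) (nat_lit 251) (nat_lit 5) (nat_lit 258) (nat_lit 5) (nat_lit 259) (nat_lit 5) (nat_lit 443) (nat_lit 428) (nat_lit 329)) (XT.lf (nat_lit 0) (nat_lit 250000837) (nat_lit 608) (nat_lit 12892796479) (nat_lit 76) (nat_lit 11094000358) (nat_lit 243) (nat_lit 5) (nat_lit 251) (nat_lit 5) (nat_lit 244) (nat_lit 5) (nat_lit 444) (nat_lit 428) (nat_lit 328)))))) (XT.nd (nat_lit 468) (nat_lit 2432) (nat_lit 0) (XT.nd (nat_lit 234) (nat_lit 1444) (nat_lit 0) (XT.nd (nat_lit 78) (nat_lit 988) (nat_lit 0) (XT.lf (nat_lit 0) (nat_lit 5484559341) (nat_lit 608) (nat_lit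 15283996111) (nat_lit 76) (nat_lit 4142536428) (nat_lit 236) (nat_lit 5) (nat_lit 244) (nat_lit 5) (nat_lit 237) (nat_lit 5) (nat_lit 445) (nat_lit 428) (nat_lit 327)) (XT.nd (nat_lit 78) (nat_lit 456) (nat_lit 0) (XT.lf (nat_lit 0) (nat_lit 7932739825) (nat_lit 532) (nat_lit 3377198034) (nat_lit 608) (nat_lit 14299291794) (nat_lit 229) (nat_lit 5) (nat_lit 236) (nat_lit 5) (nat_lit 237) (nat_lit 5) (nat_lit 446) (nat_lit 428) (nat_lit 326)) (XT.lf (nat_lit 0) (nat_lit 6254242953) (nat_lit 456) (nat_lit 11521077347) (nat_lit 532) (nat_lit 8556493508) (nat_lit 223) (nat_lit 5) (nat_lit 229) (nat_lit 5) (nat_lit 230) (nat_lit 5) (nat_lit 447) (nat_lit 428) (nat_lit 325)))) (XT.nd (nat_lit 78) (nat_lit 988) (nat_lit 0) (XT.lf (nat_lit 0) (nat_lit 4640709641) (nat_lit 456) (nat_lit 20237389524) (nat_lit 532) (nat_lit 2203005657) (nat_lit 217) (nat_lit 5) (nat_lit 223) (nat_lit 5) (nat_lit 224) (nat_lit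 5) (nat_lit 448) (nat_lit 428) (nat_lit 324)) (XT.nd (nat_lit 78) (nat_lit 456) (nat_lit 0) (XT.lf (nat_lit 0) (nat_lit 3035700129) (nat_lit 456) (nat_lit 1686930502) (nat_lit 532) (nat_lit 23133692679) (nat_lit 210) (nat_lit 5) (nat_lit 216) (nat_lit 5) (nat_lit 217) (nat_lit 5) (nat_lit 449) (nat_lit 428) (nat_lit 323)) (XT.lf (nat_lit 0) (nat_lit 1408133660) (nat_lit 456) (nat_lit 10947024668) (nat_lit 532) (nat_lit 16302306195) (nat_lit 204) (nat_lit 5) (nat_lit 210) (nat_lit 5) (nat_lit 211) (nat_lit 5) (nat_lit 450) (nat_lit 428) (nat_lit 322))))) (XT.nd (nat_lit 234) (nat_lit 1520) (nat_lit 0) (XT.nd (nat_lit 78) (nat_lit 912) (nat_lit 0) (XT.lf (nat_lit 0) (nat_lit 20714656732) (nat_lit 532) (nat_lit 140381620) (nat_lit 76) (nat_lit 8633265349) (nat_lit 204) (nat_lit 5) (nat_lit 211) (nat_lit 5) (nat_lit 205) (nat_lit 5) (nat_lit 451) (nat_lit 428) (nat_lit 321)) (XT.nd (nat_lit 78) (nat_lit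 532) (nat_lit 0) (XT.lf (nat_lit 0) (nat_lit 28760591425) (nat_lit 380) (nat_lit 1107361346) (nat_lit 456) (nat_lit 481458561) (nat_lit 199) (nat_lit 5) (nat_lit 204) (nat_lit 5) (nat_lit 205) (nat_lit 5) (nat_lit 452) (nat_lit 428) (nat_lit 320)) (XT.lf (nat_lit 0) (nat_lit 8519772187) (nat_lit 532) (nat_lit 3119949568) (nat_lit 76) (nat_lit 19597833496) (nat_lit 192) (nat_lit 5) (nat_lit 199) (nat_lit 5) (nat_lit 193) (nat_lit 5) (nat_lit 453) (nat_lit 428) (nat_lit 319)))) (XT.nd (nat_lit 156) (nat_lit 760) (nat_lit 0) (XT.nd (nat_lit 78) (nat_lit 380) (nat_lit 0) (XT.lf (nat_lit 0) (nat_lit 18335244021) (nat_lit 456) (nat_lit 4569105532) (nat_lit 76) (nat_lit 9254390735) (nat_lit 187) (nat_lit 5) (nat_lit 193) (nat_lit 5) (nat_lit 188) (nat_lit 5) (nat_lit 454) (nat_lit 428) (nat_lit 318)) (XT.lf (nat_lit 0) (nat_lit 27173603009) (nat_lit 380) (nat_lit 1868865216) (nat_lit 456) (nat_lit 4071487971)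 (nat_lit 182) (nat_lit 5) (nat_lit 187) (nat_lit 5) (nat_lit 188) (nat_lit 5) (nat_lit 455) (nat_lit 428) (nat_lit 317))) (XT.nd (nat_lit 78) (nat_lit 380) (nat_lit 0) (XT.lf (nat_lit 0) (nat_lit 6542228366) (nat_lit 380) (nat_lit 7368465568) (nat_lit 76) (nat_lit 20189627028) (nat_lit 177) (nat_lit 5) (nat_lit 182) (nat_lit 5) (nat_lit 178) (nat_lit 5) (nat_lit 456) (nat_lit 428) (nat_lit 316)) (XT.lf (nat_lit 0) (nat_lit 18010800992) (nat_lit 456) (nat_lit 8736902007) (nat_lit 76) (nat_lit 8374841228) (nat_lit 172) (nat_lit 5) (nat_lit 178) (nat_lit 5) (nat_lit 173) (nat_lit 5) (nat_lit 457) (nat_lit 428) (nat_lit 315))))))) (XT.nd (nat_lit 1014) (nat_lit 2584) (nat_lit 0) (XT.nd (nat_lit 468) (nat_lit 1900) (nat_lit 0) (XT.nd (nat_lit 234) (nat_lit 988) (nat_lit 0) (XT.nd (nat_lit 78) (nat_lit 684) (nat_lit 0) (XT.lf (nat_lit 0) (nat_lit 26143578271) (nat_lit 304) (nat_lit 4368253031) (nat_lit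 380) (nat_lit 5670277309) (nat_lit 168) (nat_lit 5) (nat_lit 172) (nat_lit 5) (nat_lit 173) (nat_lit 5) (nat_lit 458) (nat_lit 428) (nat_lit 314)) (XT.nd (nat_lit 78) (nat_lit 304) (nat_lit 0) (XT.lf (nat_lit 0) (nat_lit 6739914479) (nat_lit 380) (nat_lit 11377731773) (nat_lit 76) (nat_lit 19159563491) (nat_lit 163) (nat_lit 5) (nat_lit 168) (nat_lit 5) (nat_lit 164) (nat_lit 5) (nat_lit 459) (nat_lit 428) (nat_lit 313)) (XT.lf (nat_lit 0) (nat_lit 20097618964) (nat_lit 380) (nat_lit 12660582698) (nat_lit 76) (nat_lit 5653852564) (nat_lit 159) (nat_lit 5) (nat_lit 164) (nat_lit 5) (nat_lit 160) (nat_lit 5) (nat_lit 460) (nat_lit 428) (nat_lit 312)))) (XT.nd (nat_lit 78) (nat_lit 684) (nat_lit 0) (XT.lf (nat_lit 0) (nat_lit 25679082513) (nat_lit 304) (nat_lit 8983591873) (nat_lit 380) (nat_lit 4924783266) (nat_lit 155) (nat_lit 5) (nat_lit 159) (nat_lit 5) (nat_lit 160) (nat_lit 5) (nat_lit 461)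 (nat_lit 428) (nat_lit 311)) (XT.nd (nat_lit 78) (nat_lit 304) (nat_lit 0) (XT.lf (nat_lit 0) (nat_lit 9485450606) (nat_lit 380) (nat_lit 15181985966) (nat_lit 76) (nat_lit 16135680868) (nat_lit 150) (nat_lit 5) (nat_lit 155) (nat_lit 5) (nat_lit 151) (nat_lit 5) (nat_lit 462) (nat_lit 428) (nat_lit 310)) (XT.lf (nat_lit 0) (nat_lit 24996148549) (nat_lit 380) (nat_lit 16380980625) (nat_lit 76) (nat_lit 686514713) (nat_lit 146) (nat_lit 5) (nat_lit 151) (nat_lit 5) (nat_lit 147) (nat_lit 5) (nat_lit 463) (nat_lit 428) (nat_lit 309))))) (XT.nd (nat_lit 234) (nat_lit 1064) (nat_lit 0) (XT.nd (nat_lit 78) (nat_lit 608) (nat_lit 0) (XT.lf (nat_lit 0) (nat_lit 25765313709) (nat_lit 228) (nat_lit 16163692516) (nat_lit 304) (nat_lit 1438792267) (nat_lit 143) (nat_lit 5) (nat_lit 146) (nat_lit 5) (nat_lit 147) (nat_lit 5) (nat_lit 464) (nat_lit 428) (nat_lit 308)) (XT.nd (nat_lit 78) (nat_lit 228) (nat_lit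 0) (XT.lf (nat_lit 0) (nat_lit 15196200638) (nat_lit 380) (nat_lit 18846676958) (nat_lit 76) (nat_lit 10674456369) (nat_lit 138) (nat_lit 5) (nat_lit 143) (nat_lit 5) (nat_lit 139) (nat_lit 5) (nat_lit 465) (nat_lit 428) (nat_lit 307)) (XT.lf (nat_lit 0) (nat_lit 26073846661) (nat_lit 228) (nat_lit 7148936403) (nat_lit 304) (nat_lit 12893448406) (nat_lit 135) (nat_lit 5) (nat_lit 138) (nat_lit 5) (nat_lit 139) (nat_lit 5) (nat_lit 466) (nat_lit 428) (nat_lit 306)))) (XT.nd (nat_lit 156) (nat_lit 532) (nat_lit 0) (XT.nd (nat_lit 78) (nat_lit 228) (nat_lit 0) (XT.lf (nat_lit 0) (nat_lit 5127634253) (nat_lit 304) (nat_lit 21263137950) (nat_lit 76) (nat_lit 21173452338) (nat_lit 131) (nat_lit 5) (nat_lit 135) (nat_lit 5) (nat_lit 132) (nat_lit 5) (nat_lit 467) (nat_lit 428) (nat_lit 305)) (XT.lf (nat_lit 0) (nat_lit 24336788910) (nat_lit 304) (nat_lit 22481408885) (nat_lit 76) (nat_lit 2245979960)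 (nat_lit 128) (nat_lit 5) (nat_lit 132) (nat_lit 5) (nat_lit 129) (nat_lit 5) (nat_lit 468) (nat_lit 428) (nat_lit 304))) (XT.nd (nat_lit 78) (nat_lit 304) (nat_lit 0) (XT.lf (nat_lit 0) (nat_lit 26877334796) (nat_lit 228) (nat_lit 18367947992) (nat_lit 304) (nat_lit 5371679825) (nat_lit 125) (nat_lit 5) (nat_lit 128) (nat_lit 5) (nat_lit 129) (nat_lit 5) (nat_lit 469) (nat_lit 428) (nat_lit 303)) (XT.lf (nat_lit 0) (nat_lit 15266420599) (nat_lit 304) (nat_lit 25036185926) (nat_lit 76) (nat_lit 11922277714) (nat_lit 121) (nat_lit 5) (nat_lit 125) (nat_lit 5) (nat_lit 122) (nat_lit 5) (nat_lit 470) (nat_lit 428) (nat_lit 302)))))) (XT.nd (nat_lit 468) (nat_lit 1292) (nat_lit 0) (XT.nd (nat_lit 234) (nat_lit 608) (nat_lit 0) (XT.nd (nat_lit 78) (nat_lit 456) (nat_lit 0) (XT.lf (nat_lit 0) (nat_lit 27538001348) (nat_lit 228) (nat_lit 9978696100) (nat_lit 304) (nat_lit 16374168350) (nat_lit 118) (nat_lit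 5) (nat_lit 121) (nat_lit 5) (nat_lit 122) (nat_lit 5) (nat_lit 471) (nat_lit 428) (nat_lit 301)) (XT.nd (nat_lit 78) (nat_lit 228) (nat_lit 0) (XT.lf (nat_lit 0) (nat_lit 5877086896) (nat_lit 228) (nat_lit 27722166567) (nat_lit 76) (nat_lit 22017182899) (nat_lit 115) (nat_lit 5) (nat_lit 118) (nat_lit 5) (nat_lit 116) (nat_lit 5) (nat_lit 472) (nat_lit 428) (nat_lit 300)) (XT.lf (nat_lit 0) (nat_lit 28256380629) (nat_lit 228) (nat_lit 1289071292) (nat_lit 304) (nat_lit 27858674554) (nat_lit 112) (nat_lit 5) (nat_lit 115) (nat_lit 5) (nat_lit 116) (nat_lit 5) (nat_lit 473) (nat_lit 428) (nat_lit 299)))) (XT.nd (nat_lit 78) (nat_lit 456) (nat_lit 0) (XT.lf (nat_lit 0) (nat_lit 28571023698) (nat_lit 152) (nat_lit 26696676620) (nat_lit 228) (nat_lit 3987387137) (nat_lit 110) (nat_lit 5) (nat_lit 112) (nat_lit 5) (nat_lit 113) (nat_lit 5) (nat_lit 474) (nat_lit 428) (nat_lit 298)) (XT.nd (nat_lit 78)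 (nat_lit 152) (nat_lit 0) (XT.lf (nat_lit 0) (nat_lit 21328125677) (nat_lit 304) (nat_lit 32317768617) (nat_lit 76) (nat_lit 7526765451) (nat_lit 106) (nat_lit 5) (nat_lit 110) (nat_lit 5) (nat_lit 107) (nat_lit 5) (nat_lit 475) (nat_lit 428) (nat_lit 297)) (XT.lf (nat_lit 0) (nat_lit 29079854476) (nat_lit 152) (nat_lit 19610023442) (nat_lit 228) (nat_lit 14469160767) (nat_lit 104) (nat_lit 5) (nat_lit 106) (nat_lit 5) (nat_lit 107) (nat_lit 5) (nat_lit 476) (nat_lit 428) (nat_lit 296))))) (XT.nd (nat_lit 234) (nat_lit 684) (nat_lit 0) (XT.nd (nat_lit 78) (nat_lit 380) (nat_lit 0) (XT.lf (nat_lit 0) (nat_lit 12712879500) (nat_lit 228) (nat_lit 35953116119) (nat_lit 76) (nat_lit 16551965927) (nat_lit 101) (nat_lit 5) (nat_lit 104) (nat_lit 5) (nat_lit 102) (nat_lit 5) (nat_lit 477) (nat_lit 428) (nat_lit 295)) (XT.nd (nat_lit 78) (nat_lit 228) (nat_lit 0) (XT.lf (nat_lit 0) (nat_lit 29334097940)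 (nat_lit 152) (nat_lit 12452100637) (nat_lit 228) (nat_lit 25564391811) (nat_lit 99) (nat_lit 5) (nat_lit 101) (nat_lit 5) (nat_lit 102) (nat_lit 5) (nat_lit 478) (nat_lit 428) (nat_lit 294)) (XT.lf (nat_lit 0) (nat_lit 3575577970) (nat_lit 228) (nat_lit 40225733928) (nat_lit 76) (nat_lit 25760592039) (nat_lit 96) (nat_lit 5) (nat_lit 99) (nat_lit 5) (nat_lit 97) (nat_lit 5) (nat_lit 479) (nat_lit 428) (nat_lit 293)))) (XT.nd (nat_lit 156) (nat_lit 380) (nat_lit 0) (XT.nd (nat_lit 78) (nat_lit 152) (nat_lit 0) (XT.lf (nat_lit 0) (nat_lit 29150636387) (nat_lit 152) (nat_lit 5293924782) (nat_lit 228) (nat_lit 37407607055) (nat_lit 94) (nat_lit 5) (nat_lit 96) (nat_lit 5) (nat_lit 97) (nat_lit 5) (nat_lit 480) (nat_lit 428) (nat_lit 292)) (XT.lf (nat_lit 0) (nat_lit 28802758529) (nat_lit 152) (nat_lit 39081888443) (nat_lit 228) (nat_lit 6341469356) (nat_lit 92) (nat_lit 5) (nat_lit 94) (nat_lit 5)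 (nat_lit 95) (nat_lit 5) (nat_lit 481) (nat_lit 428) (nat_lit 291))) (XT.nd (nat_lit 78) (nat_lit 152) (nat_lit 0) (XT.lf (nat_lit 0) (nat_lit 26546575776) (nat_lit 228) (nat_lit 48403526964) (nat_lit 76) (nat_lit 1737639934) (nat_lit 89) (nat_lit 5) (nat_lit 92) (nat_lit 5) (nat_lit 90) (nat_lit 5) (nat_lit 482) (nat_lit 428) (nat_lit 290)) (XT.lf (nat_lit 0) (nat_lit 27431147547) (nat_lit 152) (nat_lit 34643361602) (nat_lit 228) (nat_lit 17162258646) (nat_lit 87) (nat_lit 5) (nat_lit 89) (nat_lit 5) (nat_lit 90) (nat_lit 5) (nat_lit 483) (nat_lit 428) (nat_lit 289))))))))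
noncomputable def xc94 : XT := (XT.nd (nat_lit 59436) (nat_lit 0) (nat_lit 4256) (XT.nd (nat_lit 58422) (nat_lit 0) (nat_lit 13832) (XT.nd (nat_lit 468) (nat_lit 380) (nat_lit 0) (XT.nd (nat_lit 234) (nat_lit 456) (nat_lit 0) (XT.nd (nat_lit 78) (nat_lit 304) (nat_lit 0) (XT.lf (nat_lit 0) (nat_lit 17960871159) (nat_lit 228) (nat_lit 55462225999) (nat_lit 76) (nat_lit 8460027697) (nat_lit 84) (nat_lit 5) (nat_lit 87) (nat_lit 5) (nat_lit 85) (nat_lit 5) (nat_lit 484) (nat_lit 428) (nat_lit 288)) (XT.nd (nat_lit 78) (nat_lit 152) (nat_lit 0) (XT.lf (nat_lit 0) (nat_lit 24945453053) (nat_lit 152) (nat_lit 30666352575) (nat_lit 228) (nat_lit 29011098899) (nat_lit 82) (nat_lit 5) (nat_lit 84) (nat_lit 5) (nat_lit 85) (nat_lit 5) (nat_lit 485) (nat_lit 428) (nat_lit 287)) (XT.lf (nat_lit 0) (nat_lit 8438887979) (nat_lit 152) (nat_lit 64199666359) (nat_lit 76) (nat_lit 14830640129) (nat_lit 80) (nat_lit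 5) (nat_lit 82) (nat_lit 5) (nat_lit 81) (nat_lit 5) (nat_lit 486) (nat_lit 428) (nat_lit 286)))) (XT.nd (nat_lit 78) (nat_lit 304) (nat_lit 0) (XT.lf (nat_lit 0) (nat_lit 20963847945) (nat_lit 152) (nat_lit 27330025302) (nat_lit 228) (nat_lit 42121333848) (nat_lit 78) (nat_lit 5) (nat_lit 80) (nat_lit 5) (nat_lit 81) (nat_lit 5) (nat_lit 487) (nat_lit 428) (nat_lit 285)) (XT.nd (nat_lit 78) (nat_lit 228) (nat_lit 0) (XT.lf (nat_lit 0) (nat_lit 18387863885) (nat_lit 76) (nat_lit 72788086461) (nat_lit 152) (nat_lit 2301539865) (nat_lit 77) (nat_lit 5) (nat_lit 78) (nat_lit 5) (nat_lit 79) (nat_lit 4) (nat_lit 488) (nat_lit 428) (nat_lit 284)) (XT.lf (nat_lit 0) (nat_lit 15021254770) (nat_lit 152) (nat_lit 24854941849) (nat_lit 228) (nat_lit 56771159763) (nat_lit 74) (nat_lit 5) (nat_lit 76) (nat_lit 5) (nat_lit 77) (nat_lit 5) (nat_lit 489) (nat_lit 428) (nat_lit 283))))) (XT.nd (nat_lit 57720)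 (nat_lit 0) (nat_lit 17024) (XT.nd (nat_lit 78) (nat_lit 304) (nat_lit 0) (XT.lf (nat_lit 0) (nat_lit 11188931717) (nat_lit 76) (nat_lit 74055556286) (nat_lit 152) (nat_lit 14696666327) (nat_lit 73) (nat_lit 5) (nat_lit 74) (nat_lit 5) (nat_lit 75) (nat_lit 4) (nat_lit 490) (nat_lit 428) (nat_lit 282)) (XT.nd (nat_lit 78) (nat_lit 76) (nat_lit 0) (XT.lf (nat_lit 0) (nat_lit 6553527507) (nat_lit 152) (nat_lit 23511027158) (nat_lit 228) (nat_lit 73291836955) (nat_lit 70) (nat_lit 5) (nat_lit 72) (nat_lit 5) (nat_lit 73) (nat_lit 5) (nat_lit 491) (nat_lit 428) (nat_lit 281)) (XT.lf (nat_lit 0) (nat_lit 1137230756) (nat_lit 76) (nat_lit 76839174531) (nat_lit 152) (nat_lit 28925124698) (nat_lit 69) (nat_lit 5) (nat_lit 70) (nat_lit 5) (nat_lit 71) (nat_lit 4) (nat_lit 492) (nat_lit 428) (nat_lit 280)))) (XT.nd (nat_lit 78) (nat_lit 0) (nat_lit 76) (XT.lf (nat_lit 0) (nat_lit 1523726909) (nat_lit 1292)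 (nat_lit 3457922066) (nat_lit 1292) (nat_lit 3457922066) (nat_lit 293) (nat_lit 3) (nat_lit 310) (nat_lit 3) (nat_lit 310) (nat_lit 5) (nat_lit 429) (nat_lit 429) (nat_lit 342)) (XT.nd (nat_lit 78) (nat_lit 0) (nat_lit 0) (XT.lf (nat_lit 0) (nat_lit 3608600393) (nat_lit 1216) (nat_lit 10203659401) (nat_lit 1292) (nat_lit 3474258864) (nat_lit 294) (nat_lit 5) (nat_lit 310) (nat_lit 5) (nat_lit 311) (nat_lit 5) (nat_lit 430) (nat_lit 429) (nat_lit 341)) (XT.lf (nat_lit 76) (nat_lit 4180483681) (nat_lit 0) (nat_lit 205471326) (nat_lit 1292) (nat_lit 13322667936) (nat_lit 295) (nat_lit 5) (nat_lit 294) (nat_lit 5) (nat_lit 311) (nat_lit 5) (nat_lit 431) (nat_lit 429) (nat_lit 340)))))) (XT.nd (nat_lit 468) (nat_lit 3344) (nat_lit 0) (XT.nd (nat_lit 234) (nat_lit 0) (nat_lit 228) (XT.nd (nat_lit 78) (nat_lit 0) (nat_lit 76) (XT.lf (nat_lit 76) (nat_lit 1221689938) (nat_lit 0) (nat_lit 4210311880) (nat_lit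 1292) (nat_lit 12712939130) (nat_lit 296) (nat_lit 5) (nat_lit 295) (nat_lit 5) (nat_lit 312) (nat_lit 5) (nat_lit 432) (nat_lit 429) (nat_lit 339)) (XT.nd (nat_lit 78) (nat_lit 0) (nat_lit 76) (XT.lf (nat_lit 0) (nat_lit 6748552301) (nat_lit 1216) (nat_lit 1722903822) (nat_lit 1292) (nat_lit 10125075778) (nat_lit 296) (nat_lit 5) (nat_lit 312) (nat_lit 5) (nat_lit 313) (nat_lit 5) (nat_lit 433) (nat_lit 429) (nat_lit 338)) (XT.lf (nat_lit 0) (nat_lit 8350554877) (nat_lit 1216) (nat_lit 4661819519) (nat_lit 1292) (nat_lit 6051742210) (nat_lit 297) (nat_lit 5) (nat_lit 313) (nat_lit 5) (nat_lit 314) (nat_lit 5) (nat_lit 434) (nat_lit 429) (nat_lit 337)))) (XT.nd (nat_lit 78) (nat_lit 0) (nat_lit 0) (XT.lf (nat_lit 0) (nat_lit 10247161178) (nat_lit 1216) (nat_lit 7617039417) (nat_lit 1292) (nat_lit 1684447642) (nat_lit 298) (nat_lit 5) (nat_lit 314) (nat_lit 5) (nat_lit 315) (nat_lit 5) (nat_lit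 435) (nat_lit 429) (nat_lit 336)) (XT.nd (nat_lit 78) (nat_lit 0) (nat_lit 76) (XT.lf (nat_lit 76) (nat_lit 9434128258) (nat_lit 0) (nat_lit 3055563810) (nat_lit 1292) (nat_lit 7560184221) (nat_lit 299) (nat_lit 5) (nat_lit 298) (nat_lit 5) (nat_lit 315) (nat_lit 5) (nat_lit 436) (nat_lit 429) (nat_lit 335)) (XT.lf (nat_lit 76) (nat_lit 6922925217) (nat_lit 0) (nat_lit 8168695143) (nat_lit 1292) (nat_lit 5477129798) (nat_lit 300) (nat_lit 5) (nat_lit 299) (nat_lit 5) (nat_lit 316) (nat_lit 5) (nat_lit 437) (nat_lit 429) (nat_lit 334))))) (XT.nd (nat_lit 234) (nat_lit 2508) (nat_lit 0) (XT.nd (nat_lit 78) (nat_lit 1216) (nat_lit 0) (XT.lf (nat_lit 76) (nat_lit 4418371489) (nat_lit 0) (nat_lit 13642512597) (nat_lit 1292) (nat_lit 3045568883) (nat_lit 301) (nat_lit 5) (nat_lit 300) (nat_lit 5) (nat_lit 317) (nat_lit 5) (nat_lit 438) (nat_lit 429) (nat_lit 333)) (XT.nd (nat_lit 78) (nat_lit 76) (nat_lit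 0) (XT.lf (nat_lit 0) (nat_lit 1924215707) (nat_lit 1216) (nat_lit 19498980222) (nat_lit 1292) (nat_lit 240509747) (nat_lit 285) (nat_lit 5) (nat_lit 301) (nat_lit 5) (nat_lit 302) (nat_lit 5) (nat_lit 439) (nat_lit 429) (nat_lit 332)) (XT.lf (nat_lit 0) (nat_lit 2946679965) (nat_lit 1292) (nat_lit 607899892) (nat_lit 76) (nat_lit 18684623544) (nat_lit 284) (nat_lit 5) (nat_lit 301) (nat_lit 5) (nat_lit 285) (nat_lit 5) (nat_lit 440) (nat_lit 429) (nat_lit 331)))) (XT.nd (nat_lit 156) (nat_lit 1140) (nat_lit 0) (XT.nd (nat_lit 78) (nat_lit 608) (nat_lit 0) (XT.lf (nat_lit 0) (nat_lit 6592073409) (nat_lit 836) (nat_lit 3115628102) (nat_lit 76) (nat_lit 13126590540) (nat_lit 274) (nat_lit 5) (nat_lit 285) (nat_lit 5) (nat_lit 275) (nat_lit 5) (nat_lit 441) (nat_lit 429) (nat_lit 330)) (XT.lf (nat_lit 0) (nat_lit 10689166367) (nat_lit 684) (nat_lit 5608396919) (nat_lit 76) (nat_lit 7153490885) (nat_lit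 266) (nat_lit 5) (nat_lit 275) (nat_lit 5) (nat_lit 267) (nat_lit 5) (nat_lit 442) (nat_lit 429) (nat_lit 329))) (XT.nd (nat_lit 78) (nat_lit 532) (nat_lit 0) (XT.lf (nat_lit 0) (nat_lit 15268195944) (nat_lit 684) (nat_lit 8081419474) (nat_lit 76) (nat_lit 740728359) (nat_lit 258) (nat_lit 5) (nat_lit 267) (nat_lit 5) (nat_lit 259) (nat_lit 5) (nat_lit 443) (nat_lit 429) (nat_lit 328)) (XT.lf (nat_lit 0) (nat_lit 14161597312) (nat_lit 532) (nat_lit 6259559822) (nat_lit 608) (nat_lit 4330093078) (nat_lit 251) (nat_lit 5) (nat_lit 258) (nat_lit 5) (nat_lit 259) (nat_lit 5) (nat_lit 444) (nat_lit 429) (nat_lit 327))))))) (XT.nd (nat_lit 1014) (nat_lit 3952) (nat_lit 0) (XT.nd (nat_lit 468) (nat_lit 2508) (nat_lit 0) (XT.nd (nat_lit 234) (nat_lit 1444) (nat_lit 0) (XT.nd (nat_lit 78) (nat_lit 1064) (nat_lit 0) (XT.lf (nat_lit 0) (nat_lit 683705144) (nat_lit 608) (nat_lit 13086061283) (nat_lit 76) (nat_lit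 11666185165) (nat_lit 243) (nat_lit 5) (nat_lit 251) (nat_lit 5) (nat_lit 244) (nat_lit 5) (nat_lit 445) (nat_lit 429) (nat_lit 326)) (XT.nd (nat_lit 78) (nat_lit 532) (nat_lit 0) (XT.lf (nat_lit 0) (nat_lit 6164466685) (nat_lit 608) (nat_lit 15597869100) (nat_lit 76) (nat_lit 4382092844) (nat_lit 236) (nat_lit 5) (nat_lit 244) (nat_lit 5) (nat_lit 237) (nat_lit 5) (nat_lit 446) (nat_lit 429) (nat_lit 325)) (XT.lf (nat_lit 0) (nat_lit 8766795105) (nat_lit 532) (nat_lit 3499205690) (nat_lit 608) (nat_lit 14611928155) (nat_lit 229) (nat_lit 5) (nat_lit 236) (nat_lit 5) (nat_lit 237) (nat_lit 5) (nat_lit 447) (nat_lit 429) (nat_lit 324)))) (XT.nd (nat_lit 78) (nat_lit 988) (nat_lit 0) (XT.lf (nat_lit 0) (nat_lit 7002822444) (nat_lit 456) (nat_lit 12037850281) (nat_lit 532) (nat_lit 8596391130) (nat_lit 223) (nat_lit 5) (nat_lit 229) (nat_lit 5) (nat_lit 230) (nat_lit 5) (nat_lit 448) (nat_lit 429)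 (nat_lit 323)) (XT.nd (nat_lit 78) (nat_lit 532) (nat_lit 0) (XT.lf (nat_lit 0) (nat_lit 5306580473) (nat_lit 456) (nat_lit 21178790374) (nat_lit 532) (nat_lit 1938847213) (nat_lit 217) (nat_lit 5) (nat_lit 223) (nat_lit 5) (nat_lit 224) (nat_lit 5) (nat_lit 449) (nat_lit 429) (nat_lit 322)) (XT.lf (nat_lit 0) (nat_lit 3616018088) (nat_lit 456) (nat_lit 1696391599) (nat_lit 532) (nat_lit 23926082450) (nat_lit 210) (nat_lit 5) (nat_lit 216) (nat_lit 5) (nat_lit 217) (nat_lit 5) (nat_lit 450) (nat_lit 429) (nat_lit 321))))) (XT.nd (nat_lit 234) (nat_lit 1672) (nat_lit 0) (XT.nd (nat_lit 78) (nat_lit 380) (nat_lit 0) (XT.lf (nat_lit 0) (nat_lit 1904432409) (nat_lit 456) (nat_lit 11410070505) (nat_lit 532) (nat_lit 16765551130) (nat_lit 204) (nat_lit 5) (nat_lit 210) (nat_lit 5) (nat_lit 211) (nat_lit 5) (nat_lit 451) (nat_lit 429) (nat_lit 320)) (XT.nd (nat_lit 78) (nat_lit 0) (nat_lit 0) (XT.lf (nat_lit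 0) (nat_lit 272551450) (nat_lit 380) (nat_lit 21806550491) (nat_lit 456) (nat_lit 8873721188) (nat_lit 199) (nat_lit 5) (nat_lit 204) (nat_lit 5) (nat_lit 205) (nat_lit 5) (nat_lit 452) (nat_lit 429) (nat_lit 319)) (XT.lf (nat_lit 0) (nat_lit 30601369297) (nat_lit 380) (nat_lit 1074416805) (nat_lit 456) (nat_lit 181629975) (nat_lit 199) (nat_lit 5) (nat_lit 204) (nat_lit 5) (nat_lit 205) (nat_lit 5) (nat_lit 453) (nat_lit 429) (nat_lit 318)))) (XT.nd (nat_lit 156) (nat_lit 760) (nat_lit 0) (XT.nd (nat_lit 78) (nat_lit 380) (nat_lit 0) (XT.lf (nat_lit 0) (nat_lit 9252914388) (nat_lit 532) (nat_lit 2870230301) (nat_lit 76) (nat_lit 20667043435) (nat_lit 192) (nat_lit 5) (nat_lit 199) (nat_lit 5) (nat_lit 193) (nat_lit 5) (nat_lit 454) (nat_lit 429) (nat_lit 317)) (XT.lf (nat_lit 0) (nat_lit 19549261496) (nat_lit 456) (nat_lit 4395495389) (nat_lit 76) (nat_lit 9812973918) (nat_lit 187) (nat_lit 5)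 (nat_lit 193) (nat_lit 5) (nat_lit 188) (nat_lit 5) (nat_lit 455) (nat_lit 429) (nat_lit 316))) (XT.nd (nat_lit 78) (nat_lit 380) (nat_lit 0) (XT.lf (nat_lit 0) (nat_lit 28922823454) (nat_lit 380) (nat_lit 1858622556) (nat_lit 456) (nat_lit 3979574899) (nat_lit 182) (nat_lit 5) (nat_lit 187) (nat_lit 5) (nat_lit 188) (nat_lit 5) (nat_lit 456) (nat_lit 429) (nat_lit 315)) (XT.lf (nat_lit 0) (nat_lit 7149978214) (nat_lit 380) (nat_lit 7344515150) (nat_lit 76) (nat_lit 21302399097) (nat_lit 177) (nat_lit 5) (nat_lit 182) (nat_lit 5) (nat_lit 178) (nat_lit 5) (nat_lit 457) (nat_lit 429) (nat_lit 314)))))) (XT.nd (nat_lit 468) (nat_lit 1900) (nat_lit 0) (XT.nd (nat_lit 234) (nat_lit 988) (nat_lit 0) (XT.nd (nat_lit 78) (nat_lit 684) (nat_lit 0) (XT.lf (nat_lit 0) (nat_lit 19183338551) (nat_lit 456) (nat_lit 8785527584) (nat_lit 76) (nat_lit 8901621192) (nat_lit 172) (nat_lit 5) (nat_lit 178) (nat_lit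 5) (nat_lit 173) (nat_lit 5) (nat_lit 458) (nat_lit 429) (nat_lit 313)) (XT.nd (nat_lit 78) (nat_lit 380) (nat_lit 0) (XT.lf (nat_lit 0) (nat_lit 27827848474) (nat_lit 304) (nat_lit 4472244473) (nat_lit 380) (nat_lit 5683217957) (nat_lit 168) (nat_lit 5) (nat_lit 172) (nat_lit 5) (nat_lit 173) (nat_lit 5) (nat_lit 459) (nat_lit 429) (nat_lit 312)) (XT.lf (nat_lit 0) (nat_lit 7334248367) (nat_lit 380) (nat_lit 11568585247) (nat_lit 76) (nat_lit 20230495172) (nat_lit 163) (nat_lit 5) (nat_lit 168) (nat_lit 5) (nat_lit 164) (nat_lit 5) (nat_lit 460) (nat_lit 429) (nat_lit 311)))) (XT.nd (nat_lit 78) (nat_lit 684) (nat_lit 0) (XT.lf (nat_lit 0) (nat_lit 21352253492) (nat_lit 380) (nat_lit 12920076160) (nat_lit 76) (nat_lit 6052814391) (nat_lit 159) (nat_lit 5) (nat_lit 164) (nat_lit 5) (nat_lit 160) (nat_lit 5) (nat_lit 461) (nat_lit 429) (nat_lit 310)) (XT.nd (nat_lit 78) (nat_lit 380) (nat_lit 0)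 (XT.lf (nat_lit 0) (nat_lit 27325864986) (nat_lit 304) (nat_lit 9311291400) (nat_lit 380) (nat_lit 4922414381) (nat_lit 155) (nat_lit 5) (nat_lit 159) (nat_lit 5) (nat_lit 160) (nat_lit 5) (nat_lit 462) (nat_lit 429) (nat_lit 309)) (XT.lf (nat_lit 0) (nat_lit 10196474364) (nat_lit 380) (nat_lit 15578010242) (nat_lit 76) (nat_lit 17061668306) (nat_lit 150) (nat_lit 5) (nat_lit 155) (nat_lit 5) (nat_lit 151) (nat_lit 5) (nat_lit 463) (nat_lit 429) (nat_lit 308))))) (XT.nd (nat_lit 234) (nat_lit 988) (nat_lit 0) (XT.nd (nat_lit 78) (nat_lit 608) (nat_lit 0) (XT.lf (nat_lit 0) (nat_lit 26476013435) (nat_lit 380) (nat_lit 16841669113) (nat_lit 76) (nat_lit 842224796) (nat_lit 146) (nat_lit 5) (nat_lit 151) (nat_lit 5) (nat_lit 147) (nat_lit 5) (nat_lit 464) (nat_lit 429) (nat_lit 307)) (XT.nd (nat_lit 78) (nat_lit 380) (nat_lit 0) (XT.lf (nat_lit 0) (nat_lit 27401667604) (nat_lit 228) (nat_lit 16846237310)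 (nat_lit 304) (nat_lit 1281593848) (nat_lit 143) (nat_lit 5) (nat_lit 146) (nat_lit 5) (nat_lit 147) (nat_lit 5) (nat_lit 465) (nat_lit 429) (nat_lit 306)) (XT.lf (nat_lit 0) (nat_lit 16174474578) (nat_lit 380) (nat_lit 19441212845) (nat_lit 76) (nat_lit 11330944342) (nat_lit 138) (nat_lit 5) (nat_lit 143) (nat_lit 5) (nat_lit 139) (nat_lit 5) (nat_lit 466) (nat_lit 429) (nat_lit 305)))) (XT.nd (nat_lit 156) (nat_lit 456) (nat_lit 0) (XT.nd (nat_lit 78) (nat_lit 304) (nat_lit 0) (XT.lf (nat_lit 0) (nat_lit 27715367397) (nat_lit 228) (nat_lit 7379863098) (nat_lit 304) (nat_lit 13320459032) (nat_lit 135) (nat_lit 5) (nat_lit 138) (nat_lit 5) (nat_lit 139) (nat_lit 5) (nat_lit 467) (nat_lit 429) (nat_lit 304)) (XT.lf (nat_lit 0) (nat_lit 5591671546) (nat_lit 304) (nat_lit 21989014215) (nat_lit 76) (nat_lit 22355507147) (nat_lit 131) (nat_lit 5) (nat_lit 135) (nat_lit 5) (nat_lit 132) (nat_lit 5) (nat_lit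 468) (nat_lit 429) (nat_lit 303))) (XT.nd (nat_lit 78) (nat_lit 228) (nat_lit 0) (XT.lf (nat_lit 0) (nat_lit 25755762668) (nat_lit 304) (nat_lit 23273044601) (nat_lit 76) (nat_lit 2482502780) (nat_lit 128) (nat_lit 5) (nat_lit 132) (nat_lit 5) (nat_lit 129) (nat_lit 5) (nat_lit 469) (nat_lit 429) (nat_lit 302)) (XT.lf (nat_lit 0) (nat_lit 28544107090) (nat_lit 228) (nat_lit 19159052672) (nat_lit 304) (nat_lit 5438770631) (nat_lit 125) (nat_lit 5) (nat_lit 128) (nat_lit 5) (nat_lit 129) (nat_lit 5) (nat_lit 470) (nat_lit 429) (nat_lit 301))))))))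
noncomputable def xc95 : XT := (XT.nd (nat_lit 59514) (nat_lit 0) (nat_lit 8132) (XT.nd (nat_lit 936) (nat_lit 1672) (nat_lit 0) (XT.nd (nat_lit 468) (nat_lit 1064) (nat_lit 0) (XT.nd (nat_lit 234) (nat_lit 684) (nat_lit 0) (XT.nd (nat_lit 78) (nat_lit 456) (nat_lit 0) (XT.lf (nat_lit 0) (nat_lit 16222160915) (nat_lit 304) (nat_lit 25965981855) (nat_lit 76) (nat_lit 12642202040) (nat_lit 121) (nat_lit 5) (nat_lit 125) (nat_lit 5) (nat_lit 122) (nat_lit 5) (nat_lit 471) (nat_lit 429) (nat_lit 300)) (XT.nd (nat_lit 78) (nat_lit 228) (nat_lit 0) (XT.lf (nat_lit 0) (nat_lit 29227684335) (nat_lit 228) (nat_lit 10351111108) (nat_lit 304) (nat_lit 17001015213) (nat_lit 118) (nat_lit 5) (nat_lit 121) (nat_lit 5) (nat_lit 122) (nat_lit 5) (nat_lit 472) (nat_lit 429) (nat_lit 299)) (XT.lf (nat_lit 0) (nat_lit 6354261356) (nat_lit 228) (nat_lit 28796543033) (nat_lit 76) (nat_lit 23240944444) (nat_lit 115)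 (nat_lit 5) (nat_lit 118) (nat_lit 5) (nat_lit 116) (nat_lit 5) (nat_lit 473) (nat_lit 429) (nat_lit 298)))) (XT.nd (nat_lit 78) (nat_lit 456) (nat_lit 0) (XT.lf (nat_lit 0) (nat_lit 29971995792) (nat_lit 228) (nat_lit 1228229972) (nat_lit 304) (nat_lit 29068772717) (nat_lit 112) (nat_lit 5) (nat_lit 115) (nat_lit 5) (nat_lit 116) (nat_lit 5) (nat_lit 474) (nat_lit 429) (nat_lit 297)) (XT.nd (nat_lit 78) (nat_lit 304) (nat_lit 0) (XT.lf (nat_lit 0) (nat_lit 30297702947) (nat_lit 152) (nat_lit 27906444041) (nat_lit 228) (nat_lit 4008494152) (nat_lit 110) (nat_lit 5) (nat_lit 112) (nat_lit 5) (nat_lit 113) (nat_lit 5) (nat_lit 475) (nat_lit 429) (nat_lit 296)) (XT.lf (nat_lit 0) (nat_lit 22564997934) (nat_lit 304) (nat_lit 33636790129) (nat_lit 76) (nat_lit 8024382519) (nat_lit 106) (nat_lit 5) (nat_lit 110) (nat_lit 5) (nat_lit 107) (nat_lit 5) (nat_lit 476) (nat_lit 429) (nat_lit 295))))) (XT.nd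 (nat_lit 234) (nat_lit 532) (nat_lit 0) (XT.nd (nat_lit 78) (nat_lit 380) (nat_lit 0) (XT.lf (nat_lit 0) (nat_lit 30822204488) (nat_lit 152) (nat_lit 20467287737) (nat_lit 228) (nat_lit 15022536998) (nat_lit 104) (nat_lit 5) (nat_lit 106) (nat_lit 5) (nat_lit 107) (nat_lit 5) (nat_lit 477) (nat_lit 429) (nat_lit 294)) (XT.nd (nat_lit 78) (nat_lit 152) (nat_lit 0) (XT.lf (nat_lit 0) (nat_lit 13511239353) (nat_lit 228) (nat_lit 37463766273) (nat_lit 76) (nat_lit 17498965325) (nat_lit 101) (nat_lit 5) (nat_lit 104) (nat_lit 5) (nat_lit 102) (nat_lit 5) (nat_lit 478) (nat_lit 429) (nat_lit 293)) (XT.lf (nat_lit 0) (nat_lit 31079581530) (nat_lit 152) (nat_lit 12953574270) (nat_lit 228) (nat_lit 26680227835) (nat_lit 99) (nat_lit 5) (nat_lit 101) (nat_lit 5) (nat_lit 102) (nat_lit 5) (nat_lit 479) (nat_lit 429) (nat_lit 292)))) (XT.nd (nat_lit 78) (nat_lit 304) (nat_lit 0) (XT.lf (nat_lit 0) (nat_lit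 3909772437) (nat_lit 228) (nat_lit 41959664160) (nat_lit 76) (nat_lit 27165893734) (nat_lit 96) (nat_lit 5) (nat_lit 99) (nat_lit 5) (nat_lit 97) (nat_lit 5) (nat_lit 480) (nat_lit 429) (nat_lit 291)) (XT.nd (nat_lit 78) (nat_lit 152) (nat_lit 0) (XT.lf (nat_lit 0) (nat_lit 30877574304) (nat_lit 152) (nat_lit 5439819447) (nat_lit 228) (nat_lit 39122858714) (nat_lit 94) (nat_lit 5) (nat_lit 96) (nat_lit 5) (nat_lit 97) (nat_lit 5) (nat_lit 481) (nat_lit 429) (nat_lit 290)) (XT.lf (nat_lit 0) (nat_lit 30507865309) (nat_lit 152) (nat_lit 40918081546) (nat_lit 228) (nat_lit 6507057516) (nat_lit 92) (nat_lit 5) (nat_lit 94) (nat_lit 5) (nat_lit 95) (nat_lit 5) (nat_lit 482) (nat_lit 429) (nat_lit 289)))))) (XT.nd (nat_lit 468) (nat_lit 608) (nat_lit 0) (XT.nd (nat_lit 234) (nat_lit 456) (nat_lit 0) (XT.nd (nat_lit 78) (nat_lit 380) (nat_lit 0) (XT.lf (nat_lit 0) (nat_lit 28018980583) (nat_lit 228) (nat_lit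 50560246838) (nat_lit 76) (nat_lit 1938544792) (nat_lit 89) (nat_lit 5) (nat_lit 92) (nat_lit 5) (nat_lit 90) (nat_lit 5) (nat_lit 483) (nat_lit 429) (nat_lit 288)) (XT.nd (nat_lit 78) (nat_lit 228) (nat_lit 0) (XT.lf (nat_lit 0) (nat_lit 29058609471) (nat_lit 152) (nat_lit 36260252682) (nat_lit 228) (nat_lit 17875520144) (nat_lit 87) (nat_lit 5) (nat_lit 89) (nat_lit 5) (nat_lit 90) (nat_lit 5) (nat_lit 484) (nat_lit 429) (nat_lit 287)) (XT.lf (nat_lit 0) (nat_lit 18997684720) (nat_lit 228) (nat_lit 57980975268) (nat_lit 76) (nat_lit 8994453329) (nat_lit 84) (nat_lit 5) (nat_lit 87) (nat_lit 5) (nat_lit 85) (nat_lit 5) (nat_lit 485) (nat_lit 429) (nat_lit 286)))) (XT.nd (nat_lit 78) (nat_lit 304) (nat_lit 0) (XT.lf (nat_lit 0) (nat_lit 26439796501) (nat_lit 152) (nat_lit 32087136313) (nat_lit 228) (nat_lit 30323076375) (nat_lit 82) (nat_lit 5) (nat_lit 84) (nat_lit 5) (nat_lit 85) (nat_lit 5)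 (nat_lit 486) (nat_lit 429) (nat_lit 285)) (XT.nd (nat_lit 78) (nat_lit 152) (nat_lit 0) (XT.lf (nat_lit 0) (nat_lit 8993633634) (nat_lit 152) (nat_lit 67164139984) (nat_lit 76) (nat_lit 15680892414) (nat_lit 80) (nat_lit 5) (nat_lit 82) (nat_lit 5) (nat_lit 81) (nat_lit 5) (nat_lit 487) (nat_lit 429) (nat_lit 284)) (XT.lf (nat_lit 0) (nat_lit 22250512549) (nat_lit 152) (nat_lit 28586824087) (nat_lit 228) (nat_lit 44094763796) (nat_lit 78) (nat_lit 5) (nat_lit 80) (nat_lit 5) (nat_lit 81) (nat_lit 5) (nat_lit 488) (nat_lit 429) (nat_lit 283))))) (XT.nd (nat_lit 234) (nat_lit 228) (nat_lit 0) (XT.nd (nat_lit 78) (nat_lit 304) (nat_lit 0) (XT.lf (nat_lit 0) (nat_lit 19541625398) (nat_lit 76) (nat_lit 76319017504) (nat_lit 152) (nat_lit 2286941230) (nat_lit 77) (nat_lit 5) (nat_lit 78) (nat_lit 5) (nat_lit 79) (nat_lit 4) (nat_lit 489) (nat_lit 429) (nat_lit 282)) (XT.nd (nat_lit 78) (nat_lit 76)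 (nat_lit 0) (XT.lf (nat_lit 0) (nat_lit 16002429136) (nat_lit 152) (nat_lit 25990879944) (nat_lit 228) (nat_lit 59482712585) (nat_lit 74) (nat_lit 5) (nat_lit 76) (nat_lit 5) (nat_lit 77) (nat_lit 5) (nat_lit 490) (nat_lit 429) (nat_lit 281)) (XT.lf (nat_lit 0) (nat_lit 11974492947) (nat_lit 76) (nat_lit 77652801907) (nat_lit 152) (nat_lit 15307296427) (nat_lit 73) (nat_lit 5) (nat_lit 74) (nat_lit 5) (nat_lit 75) (nat_lit 4) (nat_lit 491) (nat_lit 429) (nat_lit 280)))) (XT.nd (nat_lit 57720) (nat_lit 0) (nat_lit 17024) (XT.nd (nat_lit 57642) (nat_lit 0) (nat_lit 16948) (XT.lf (nat_lit 0) (nat_lit 7103194279) (nat_lit 152) (nat_lit 24582702565) (nat_lit 228) (nat_lit 76834767880) (nat_lit 70) (nat_lit 5) (nat_lit 72) (nat_lit 5) (nat_lit 73) (nat_lit 5) (nat_lit 492) (nat_lit 429) (nat_lit 279)) (XT.lf (nat_lit 0) (nat_lit 1976418569) (nat_lit 1292) (nat_lit 3436891762) (nat_lit 1292) (nat_lit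 3436891762) (nat_lit 293) (nat_lit 3) (nat_lit 310) (nat_lit 3) (nat_lit 310) (nat_lit 5) (nat_lit 430) (nat_lit 430) (nat_lit 340))) (XT.nd (nat_lit 78) (nat_lit 0) (nat_lit 0) (XT.lf (nat_lit 0) (nat_lit 4506497684) (nat_lit 1216) (nat_lit 10312077232) (nat_lit 1292) (nat_lit 3310645958) (nat_lit 294) (nat_lit 5) (nat_lit 310) (nat_lit 5) (nat_lit 311) (nat_lit 5) (nat_lit 431) (nat_lit 430) (nat_lit 339)) (XT.lf (nat_lit 76) (nat_lit 4779756487) (nat_lit 0) (nat_lit 512549741) (nat_lit 1292) (nat_lit 13281041305) (nat_lit 295) (nat_lit 5) (nat_lit 294) (nat_lit 5) (nat_lit 311) (nat_lit 5) (nat_lit 432) (nat_lit 430) (nat_lit 338))))))) (XT.nd (nat_lit 1014) (nat_lit 5624) (nat_lit 0) (XT.nd (nat_lit 468) (nat_lit 3344) (nat_lit 0) (XT.nd (nat_lit 234) (nat_lit 0) (nat_lit 228) (XT.nd (nat_lit 78) (nat_lit 0) (nat_lit 76) (XT.lf (nat_lit 76) (nat_lit 1684720952) (nat_lit 0) (nat_lit 4674364143)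 (nat_lit 1292) (nat_lit 12673347974) (nat_lit 296) (nat_lit 5) (nat_lit 295) (nat_lit 5) (nat_lit 312) (nat_lit 5) (nat_lit 433) (nat_lit 430) (nat_lit 337)) (XT.nd (nat_lit 78) (nat_lit 0) (nat_lit 76) (XT.lf (nat_lit 0) (nat_lit 7707928522) (nat_lit 1216) (nat_lit 1405107496) (nat_lit 1292) (nat_lit 10394577896) (nat_lit 296) (nat_lit 5) (nat_lit 312) (nat_lit 5) (nat_lit 313) (nat_lit 5) (nat_lit 434) (nat_lit 430) (nat_lit 336)) (XT.lf (nat_lit 0) (nat_lit 9362227773) (nat_lit 1216) (nat_lit 4482624265) (nat_lit 1292) (nat_lit 6154564021) (nat_lit 297) (nat_lit 5) (nat_lit 313) (nat_lit 5) (nat_lit 314) (nat_lit 5) (nat_lit 435) (nat_lit 430) (nat_lit 335)))) (XT.nd (nat_lit 78) (nat_lit 0) (nat_lit 0) (XT.lf (nat_lit 0) (nat_lit 11327594528) (nat_lit 1216) (nat_lit 7578627301) (nat_lit 1292) (nat_lit 1602738445) (nat_lit 298) (nat_lit 5) (nat_lit 314) (nat_lit 5) (nat_lit 315) (nat_lit 5)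 (nat_lit 436) (nat_lit 430) (nat_lit 334)) (XT.nd (nat_lit 78) (nat_lit 0) (nat_lit 76) (XT.lf (nat_lit 76) (nat_lit 10313080638) (nat_lit 0) (nat_lit 3346034818) (nat_lit 1292) (nat_lit 7376832088) (nat_lit 299) (nat_lit 5) (nat_lit 298) (nat_lit 5) (nat_lit 315) (nat_lit 5) (nat_lit 437) (nat_lit 430) (nat_lit 333)) (XT.lf (nat_lit 76) (nat_lit 7681881279) (nat_lit 0) (nat_lit 8686017037) (nat_lit 1292) (nat_lit 5213567588) (nat_lit 300) (nat_lit 5) (nat_lit 299) (nat_lit 5) (nat_lit 316) (nat_lit 5) (nat_lit 438) (nat_lit 430) (nat_lit 332))))) (XT.nd (nat_lit 234) (nat_lit 2508) (nat_lit 0) (XT.nd (nat_lit 78) (nat_lit 1216) (nat_lit 0) (XT.lf (nat_lit 76) (nat_lit 5056554542) (nat_lit 0) (nat_lit 14407242129) (nat_lit 1292) (nat_lit 2682915415) (nat_lit 301) (nat_lit 5) (nat_lit 300) (nat_lit 5) (nat_lit 317) (nat_lit 5) (nat_lit 439) (nat_lit 430) (nat_lit 331)) (XT.nd (nat_lit 78) (nat_lit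 0) (nat_lit 0) (XT.lf (nat_lit 0) (nat_lit 236554706) (nat_lit 1292) (nat_lit 20293632082) (nat_lit 76) (nat_lit 2202189741) (nat_lit 284) (nat_lit 5) (nat_lit 301) (nat_lit 5) (nat_lit 285) (nat_lit 5) (nat_lit 440) (nat_lit 430) (nat_lit 330)) (XT.lf (nat_lit 0) (nat_lit 3555120696) (nat_lit 1292) (nat_lit 228385493) (nat_lit 76) (nat_lit 19553764756) (nat_lit 284) (nat_lit 5) (nat_lit 301) (nat_lit 5) (nat_lit 285) (nat_lit 5) (nat_lit 441) (nat_lit 430) (nat_lit 329)))) (XT.nd (nat_lit 156) (nat_lit 1140) (nat_lit 0) (XT.nd (nat_lit 78) (nat_lit 608) (nat_lit 0) (XT.lf (nat_lit 0) (nat_lit 7364222890) (nat_lit 836) (nat_lit 2859473381) (nat_lit 76) (nat_lit 13738977414) (nat_lit 274) (nat_lit 5) (nat_lit 285) (nat_lit 5) (nat_lit 275) (nat_lit 5) (nat_lit 442) (nat_lit 430) (nat_lit 328)) (XT.lf (nat_lit 0) (nat_lit 11648701016) (nat_lit 684) (nat_lit 5475633106) (nat_lit 76) (nat_lit 7486466568)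 (nat_lit 266) (nat_lit 5) (nat_lit 275) (nat_lit 5) (nat_lit 267) (nat_lit 5) (nat_lit 443) (nat_lit 430) (nat_lit 327))) (XT.nd (nat_lit 78) (nat_lit 532) (nat_lit 0) (XT.lf (nat_lit 0) (nat_lit 16440227587) (nat_lit 684) (nat_lit 8071767828) (nat_lit 76) (nat_lit 770555562) (nat_lit 258) (nat_lit 5) (nat_lit 267) (nat_lit 5) (nat_lit 259) (nat_lit 5) (nat_lit 444) (nat_lit 430) (nat_lit 326)) (XT.lf (nat_lit 0) (nat_lit 15271540521) (nat_lit 532) (nat_lit 6563701088) (nat_lit 608) (nat_lit 4141731426) (nat_lit 251) (nat_lit 5) (nat_lit 258) (nat_lit 5) (nat_lit 259) (nat_lit 5) (nat_lit 445) (nat_lit 430) (nat_lit 325)))))) (XT.nd (nat_lit 468) (nat_lit 2508) (nat_lit 0) (XT.nd (nat_lit 234) (nat_lit 1444) (nat_lit 0) (XT.nd (nat_lit 78) (nat_lit 1064) (nat_lit 0) (XT.lf (nat_lit 0) (nat_lit 1099935087) (nat_lit 608) (nat_lit 13330953898) (nat_lit 76) (nat_lit 12265353642) (nat_lit 243) (nat_lit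 5) (nat_lit 251) (nat_lit 5) (nat_lit 244) (nat_lit 5) (nat_lit 446) (nat_lit 430) (nat_lit 324)) (XT.nd (nat_lit 78) (nat_lit 532) (nat_lit 0) (XT.lf (nat_lit 0) (nat_lit 6840653172) (nat_lit 608) (nat_lit 15969302857) (nat_lit 76) (nat_lit 4630612084) (nat_lit 236) (nat_lit 5) (nat_lit 244) (nat_lit 5) (nat_lit 237) (nat_lit 5) (nat_lit 447) (nat_lit 430) (nat_lit 323)) (XT.lf (nat_lit 0) (nat_lit 9601886142) (nat_lit 532) (nat_lit 3631669607) (nat_lit 608) (nat_lit 14977601000) (nat_lit 229) (nat_lit 5) (nat_lit 236) (nat_lit 5) (nat_lit 237) (nat_lit 5) (nat_lit 448) (nat_lit 430) (nat_lit 322)))) (XT.nd (nat_lit 78) (nat_lit 988) (nat_lit 0) (XT.lf (nat_lit 0) (nat_lit 7748308095) (nat_lit 456) (nat_lit 12585973241) (nat_lit 532) (nat_lit 8674349414) (nat_lit 223) (nat_lit 5) (nat_lit 229) (nat_lit 5) (nat_lit 230) (nat_lit 5) (nat_lit 449) (nat_lit 430) (nat_lit 321)) (XT.nd (nat_lit 78)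 (nat_lit 532) (nat_lit 0) (XT.lf (nat_lit 0) (nat_lit 5965410948) (nat_lit 456) (nat_lit 22173812771) (nat_lit 532) (nat_lit 1696280525) (nat_lit 217) (nat_lit 5) (nat_lit 223) (nat_lit 5) (nat_lit 224) (nat_lit 5) (nat_lit 450) (nat_lit 430) (nat_lit 320)) (XT.lf (nat_lit 0) (nat_lit 4185511014) (nat_lit 456) (nat_lit 1713287889) (nat_lit 532) (nat_lit 24791960393) (nat_lit 210) (nat_lit 5) (nat_lit 216) (nat_lit 5) (nat_lit 217) (nat_lit 5) (nat_lit 451) (nat_lit 430) (nat_lit 319))))) (XT.nd (nat_lit 234) (nat_lit 1596) (nat_lit 0) (XT.nd (nat_lit 78) (nat_lit 456) (nat_lit 0) (XT.lf (nat_lit 0) (nat_lit 2385950687) (nat_lit 456) (nat_lit 11904106550) (nat_lit 532) (nat_lit 17284671884) (nat_lit 204) (nat_lit 5) (nat_lit 210) (nat_lit 5) (nat_lit 211) (nat_lit 5) (nat_lit 452) (nat_lit 430) (nat_lit 318)) (XT.nd (nat_lit 78) (nat_lit 76) (nat_lit 0) (XT.lf (nat_lit 0) (nat_lit 669748833) (nat_lit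 380) (nat_lit 22812770770) (nat_lit 456) (nat_lit 9008929615) (nat_lit 199) (nat_lit 5) (nat_lit 204) (nat_lit 5) (nat_lit 205) (nat_lit 5) (nat_lit 453) (nat_lit 430) (nat_lit 317)) (XT.lf (nat_lit 0) (nat_lit 101065347) (nat_lit 456) (nat_lit 945949598) (nat_lit 76) (nat_lit 32394656434) (nat_lit 198) (nat_lit 5) (nat_lit 204) (nat_lit 5) (nat_lit 199) (nat_lit 5) (nat_lit 454) (nat_lit 430) (nat_lit 316)))) (XT.nd (nat_lit 156) (nat_lit 760) (nat_lit 0) (XT.nd (nat_lit 78) (nat_lit 380) (nat_lit 0) (XT.lf (nat_lit 0) (nat_lit 9994157469) (nat_lit 532) (nat_lit 2645744768) (nat_lit 76) (nat_lit 21781409906) (nat_lit 192) (nat_lit 5) (nat_lit 199) (nat_lit 5) (nat_lit 193) (nat_lit 5) (nat_lit 455) (nat_lit 430) (nat_lit 315)) (XT.lf (nat_lit 0) (nat_lit 20796343868) (nat_lit 456) (nat_lit 4250584971) (nat_lit 76) (nat_lit 10390573768) (nat_lit 187) (nat_lit 5) (nat_lit 193) (nat_lit 5) (nat_lit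 188) (nat_lit 5) (nat_lit 456) (nat_lit 430) (nat_lit 314))) (XT.nd (nat_lit 78) (nat_lit 380) (nat_lit 0) (XT.lf (nat_lit 0) (nat_lit 30723196186) (nat_lit 380) (nat_lit 1857507496) (nat_lit 456) (nat_lit 3910537797) (nat_lit 182) (nat_lit 5) (nat_lit 187) (nat_lit 5) (nat_lit 188) (nat_lit 5) (nat_lit 457) (nat_lit 430) (nat_lit 313)) (XT.lf (nat_lit 0) (nat_lit 7762024452) (nat_lit 380) (nat_lit 7355846399) (nat_lit 76) (nat_lit 22461206778) (nat_lit 177) (nat_lit 5) (nat_lit 182) (nat_lit 5) (nat_lit 178) (nat_lit 5) (nat_lit 458) (nat_lit 430) (nat_lit 312))))))))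
noncomputable def xc96 : XT := (XT.nd (nat_lit 1950) (nat_lit 1444) (nat_lit 0) (XT.nd (nat_lit 936) (nat_lit 2736) (nat_lit 0) (XT.nd (nat_lit 468) (nat_lit 1672) (nat_lit 0) (XT.nd (nat_lit 234) (nat_lit 988) (nat_lit 0) (XT.nd (nat_lit 78) (nat_lit 684) (nat_lit 0) (XT.lf (nat_lit 0) (nat_lit 20389215238) (nat_lit 456) (nat_lit 8872677410) (nat_lit 76) (nat_lit 9444695814) (nat_lit 172) (nat_lit 5) (nat_lit 178) (nat_lit 5) (nat_lit 173) (nat_lit 5) (nat_lit 459) (nat_lit 430) (nat_lit 311)) (XT.nd (nat_lit 78) (nat_lit 380) (nat_lit 0) (XT.lf (nat_lit 0) (nat_lit 29561273813) (nat_lit 304) (nat_lit 4592073286) (nat_lit 380) (nat_lit 5721960971) (nat_lit 168) (nat_lit 5) (nat_lit 172) (nat_lit 5) (nat_lit 173) (nat_lit 5) (nat_lit 460) (nat_lit 430) (nat_lit 310)) (XT.lf (nat_lit 0) (nat_lit 7934374085) (nat_lit 380) (nat_lit 11804127331) (nat_lit 76) (nat_lit 21344472091) (nat_lit 163) (nat_lit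 5) (nat_lit 168) (nat_lit 5) (nat_lit 164) (nat_lit 5) (nat_lit 461) (nat_lit 430) (nat_lit 309)))) (XT.nd (nat_lit 78) (nat_lit 684) (nat_lit 0) (XT.lf (nat_lit 0) (nat_lit 22646400027) (nat_lit 380) (nat_lit 13227272102) (nat_lit 76) (nat_lit 6460914702) (nat_lit 159) (nat_lit 5) (nat_lit 164) (nat_lit 5) (nat_lit 160) (nat_lit 5) (nat_lit 462) (nat_lit 430) (nat_lit 308)) (XT.nd (nat_lit 78) (nat_lit 380) (nat_lit 0) (XT.lf (nat_lit 0) (nat_lit 29021254242) (nat_lit 304) (nat_lit 9666669969) (nat_lit 380) (nat_lit 4943040271) (nat_lit 155) (nat_lit 5) (nat_lit 159) (nat_lit 5) (nat_lit 160) (nat_lit 5) (nat_lit 463) (nat_lit 430) (nat_lit 307)) (XT.lf (nat_lit 0) (nat_lit 10921038425) (nat_lit 380) (nat_lit 16027591005) (nat_lit 76) (nat_lit 18022872714) (nat_lit 150) (nat_lit 5) (nat_lit 155) (nat_lit 5) (nat_lit 151) (nat_lit 5) (nat_lit 464) (nat_lit 430) (nat_lit 306))))) (XT.nd (nat_lit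 234) (nat_lit 760) (nat_lit 0) (XT.nd (nat_lit 78) (nat_lit 608) (nat_lit 0) (XT.lf (nat_lit 0) (nat_lit 28008483004) (nat_lit 380) (nat_lit 17358708993) (nat_lit 76) (nat_lit 994435218) (nat_lit 146) (nat_lit 5) (nat_lit 151) (nat_lit 5) (nat_lit 147) (nat_lit 5) (nat_lit 465) (nat_lit 430) (nat_lit 305)) (XT.nd (nat_lit 78) (nat_lit 380) (nat_lit 0) (XT.lf (nat_lit 0) (nat_lit 29087477252) (nat_lit 228) (nat_lit 17574590145) (nat_lit 304) (nat_lit 1137838591) (nat_lit 143) (nat_lit 5) (nat_lit 146) (nat_lit 5) (nat_lit 147) (nat_lit 5) (nat_lit 466) (nat_lit 430) (nat_lit 304)) (XT.lf (nat_lit 0) (nat_lit 17181351511) (nat_lit 380) (nat_lit 20097810483) (nat_lit 76) (nat_lit 12008843174) (nat_lit 138) (nat_lit 5) (nat_lit 143) (nat_lit 5) (nat_lit 139) (nat_lit 5) (nat_lit 467) (nat_lit 430) (nat_lit 303)))) (XT.nd (nat_lit 78) (nat_lit 532) (nat_lit 0) (XT.lf (nat_lit 0) (nat_lit 29407556087)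 (nat_lit 228) (nat_lit 7634098770) (nat_lit 304) (nat_lit 13789056320) (nat_lit 135) (nat_lit 5) (nat_lit 138) (nat_lit 5) (nat_lit 139) (nat_lit 5) (nat_lit 468) (nat_lit 430) (nat_lit 302)) (XT.nd (nat_lit 78) (nat_lit 228) (nat_lit 0) (XT.lf (nat_lit 0) (nat_lit 6059604856) (nat_lit 304) (nat_lit 22782541449) (nat_lit 76) (nat_lit 23585193790) (nat_lit 131) (nat_lit 5) (nat_lit 135) (nat_lit 5) (nat_lit 132) (nat_lit 5) (nat_lit 469) (nat_lit 430) (nat_lit 301)) (XT.lf (nat_lit 0) (nat_lit 27226892581) (nat_lit 304) (nat_lit 24135168733) (nat_lit 76) (nat_lit 2719302588) (nat_lit 128) (nat_lit 5) (nat_lit 132) (nat_lit 5) (nat_lit 129) (nat_lit 5) (nat_lit 470) (nat_lit 430) (nat_lit 300)))))) (XT.nd (nat_lit 468) (nat_lit 1368) (nat_lit 0) (XT.nd (nat_lit 234) (nat_lit 608) (nat_lit 0) (XT.nd (nat_lit 78) (nat_lit 532) (nat_lit 0) (XT.lf (nat_lit 0) (nat_lit 30264197300) (nat_lit 228) (nat_lit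 20001547057) (nat_lit 304) (nat_lit 5527948903) (nat_lit 125) (nat_lit 5) (nat_lit 128) (nat_lit 5) (nat_lit 129) (nat_lit 5) (nat_lit 471) (nat_lit 430) (nat_lit 299)) (XT.nd (nat_lit 78) (nat_lit 228) (nat_lit 0) (XT.lf (nat_lit 0) (nat_lit 17207798924) (nat_lit 304) (nat_lit 26972205331) (nat_lit 76) (nat_lit 13386611860) (nat_lit 121) (nat_lit 5) (nat_lit 125) (nat_lit 5) (nat_lit 122) (nat_lit 5) (nat_lit 472) (nat_lit 430) (nat_lit 298)) (XT.lf (nat_lit 0) (nat_lit 30972771880) (nat_lit 228) (nat_lit 10753909479) (nat_lit 304) (nat_lit 17677041889) (nat_lit 118) (nat_lit 5) (nat_lit 121) (nat_lit 5) (nat_lit 122) (nat_lit 5) (nat_lit 473) (nat_lit 430) (nat_lit 297)))) (XT.nd (nat_lit 78) (nat_lit 380) (nat_lit 0) (XT.lf (nat_lit 0) (nat_lit 6838251172) (nat_lit 228) (nat_lit 29953620196) (nat_lit 76) (nat_lit 24514467767) (nat_lit 115) (nat_lit 5) (nat_lit 118) (nat_lit 5) (nat_lit 116)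 (nat_lit 5) (nat_lit 474) (nat_lit 430) (nat_lit 296)) (XT.nd (nat_lit 78) (nat_lit 152) (nat_lit 0) (XT.lf (nat_lit 0) (nat_lit 31745240599) (nat_lit 228) (nat_lit 1175995317) (nat_lit 304) (nat_lit 30356374106) (nat_lit 112) (nat_lit 5) (nat_lit 115) (nat_lit 5) (nat_lit 116) (nat_lit 5) (nat_lit 475) (nat_lit 430) (nat_lit 295)) (XT.lf (nat_lit 0) (nat_lit 32082999037) (nat_lit 152) (nat_lit 29188327323) (nat_lit 228) (nat_lit 4047229660) (nat_lit 110) (nat_lit 5) (nat_lit 112) (nat_lit 5) (nat_lit 113) (nat_lit 5) (nat_lit 476) (nat_lit 430) (nat_lit 294))))) (XT.nd (nat_lit 234) (nat_lit 684) (nat_lit 0) (XT.nd (nat_lit 78) (nat_lit 380) (nat_lit 0) (XT.lf (nat_lit 0) (nat_lit 23847865493) (nat_lit 304) (nat_lit 35049362589) (nat_lit 76) (nat_lit 8535605087) (nat_lit 106) (nat_lit 5) (nat_lit 110) (nat_lit 5) (nat_lit 107) (nat_lit 5) (nat_lit 477) (nat_lit 430) (nat_lit 293)) (XT.nd (nat_lit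 78) (nat_lit 228) (nat_lit 0) (XT.lf (nat_lit 0) (nat_lit 32624863273) (nat_lit 152) (nat_lit 21378872645) (nat_lit 228) (nat_lit 15619394635) (nat_lit 104) (nat_lit 5) (nat_lit 106) (nat_lit 5) (nat_lit 107) (nat_lit 5) (nat_lit 478) (nat_lit 430) (nat_lit 292)) (XT.lf (nat_lit 0) (nat_lit 14334389419) (nat_lit 228) (nat_lit 39076631999) (nat_lit 76) (nat_lit 18482213910) (nat_lit 101) (nat_lit 5) (nat_lit 104) (nat_lit 5) (nat_lit 102) (nat_lit 5) (nat_lit 479) (nat_lit 430) (nat_lit 291)))) (XT.nd (nat_lit 156) (nat_lit 304) (nat_lit 0) (XT.nd (nat_lit 78) (nat_lit 228) (nat_lit 0) (XT.lf (nat_lit 0) (nat_lit 32886421099) (nat_lit 152) (nat_lit 13491383234) (nat_lit 228) (nat_lit 27866952545) (nat_lit 99) (nat_lit 5) (nat_lit 101) (nat_lit 5) (nat_lit 102) (nat_lit 5) (nat_lit 480) (nat_lit 430) (nat_lit 290)) (XT.lf (nat_lit 0) (nat_lit 4246227560) (nat_lit 228) (nat_lit 43806076878) (nat_lit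 76) (nat_lit 28630557667) (nat_lit 96) (nat_lit 5) (nat_lit 99) (nat_lit 5) (nat_lit 97) (nat_lit 5) (nat_lit 481) (nat_lit 430) (nat_lit 289))) (XT.nd (nat_lit 78) (nat_lit 152) (nat_lit 0) (XT.lf (nat_lit 0) (nat_lit 32665812292) (nat_lit 152) (nat_lit 5604053888) (nat_lit 228) (nat_lit 40938295352) (nat_lit 94) (nat_lit 5) (nat_lit 96) (nat_lit 5) (nat_lit 97) (nat_lit 5) (nat_lit 482) (nat_lit 430) (nat_lit 288)) (XT.lf (nat_lit 0) (nat_lit 32273593136) (nat_lit 152) (nat_lit 42857045651) (nat_lit 228) (nat_lit 6695008752) (nat_lit 92) (nat_lit 5) (nat_lit 94) (nat_lit 5) (nat_lit 95) (nat_lit 5) (nat_lit 483) (nat_lit 430) (nat_lit 287))))))) (XT.nd (nat_lit 58656) (nat_lit 0) (nat_lit 12920) (XT.nd (nat_lit 468) (nat_lit 380) (nat_lit 0) (XT.nd (nat_lit 234) (nat_lit 456) (nat_lit 0) (XT.nd (nat_lit 78) (nat_lit 380) (nat_lit 0) (XT.lf (nat_lit 0) (nat_lit 29551517836) (nat_lit 228) (nat_lit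 52849296393) (nat_lit 76) (nat_lit 2138894127) (nat_lit 89) (nat_lit 5) (nat_lit 92) (nat_lit 5) (nat_lit 90) (nat_lit 5) (nat_lit 484) (nat_lit 430) (nat_lit 286)) (XT.nd (nat_lit 78) (nat_lit 228) (nat_lit 0) (XT.lf (nat_lit 0) (nat_lit 30743652912) (nat_lit 152) (nat_lit 37968705679) (nat_lit 228) (nat_lit 18637911630) (nat_lit 87) (nat_lit 5) (nat_lit 89) (nat_lit 5) (nat_lit 90) (nat_lit 5) (nat_lit 485) (nat_lit 430) (nat_lit 285)) (XT.lf (nat_lit 0) (nat_lit 20073437440) (nat_lit 228) (nat_lit 60649310171) (nat_lit 76) (nat_lit 9545241073) (nat_lit 84) (nat_lit 5) (nat_lit 87) (nat_lit 5) (nat_lit 85) (nat_lit 5) (nat_lit 486) (nat_lit 430) (nat_lit 284)))) (XT.nd (nat_lit 78) (nat_lit 304) (nat_lit 0) (XT.lf (nat_lit 0) (nat_lit 27985886820) (nat_lit 152) (nat_lit 33589421572) (nat_lit 228) (nat_lit 31713536346) (nat_lit 82) (nat_lit 5) (nat_lit 84) (nat_lit 5) (nat_lit 85) (nat_lit 5)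 (nat_lit 487) (nat_lit 430) (nat_lit 283)) (XT.nd (nat_lit 78) (nat_lit 152) (nat_lit 0) (XT.lf (nat_lit 0) (nat_lit 9563769969) (nat_lit 152) (nat_lit 70299662455) (nat_lit 76) (nat_lit 16563549532) (nat_lit 80) (nat_lit 5) (nat_lit 82) (nat_lit 5) (nat_lit 81) (nat_lit 5) (nat_lit 488) (nat_lit 430) (nat_lit 282)) (XT.lf (nat_lit 0) (nat_lit 23579339498) (nat_lit 152) (nat_lit 29916661908) (nat_lit 228) (nat_lit 46179196550) (nat_lit 78) (nat_lit 5) (nat_lit 80) (nat_lit 5) (nat_lit 81) (nat_lit 5) (nat_lit 489) (nat_lit 430) (nat_lit 281))))) (XT.nd (nat_lit 57876) (nat_lit 0) (nat_lit 16720) (XT.nd (nat_lit 78) (nat_lit 304) (nat_lit 0) (XT.lf (nat_lit 0) (nat_lit 20731285642) (nat_lit 76) (nat_lit 80036579916) (nat_lit 152) (nat_lit 2283668674) (nat_lit 77) (nat_lit 5) (nat_lit 78) (nat_lit 5) (nat_lit 79) (nat_lit 4) (nat_lit 490) (nat_lit 430) (nat_lit 280)) (XT.nd (nat_lit 78) (nat_lit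 76) (nat_lit 0) (XT.lf (nat_lit 0) (nat_lit 17011268623) (nat_lit 152) (nat_lit 27193545032) (nat_lit 228) (nat_lit 62341650785) (nat_lit 74) (nat_lit 5) (nat_lit 76) (nat_lit 5) (nat_lit 77) (nat_lit 5) (nat_lit 491) (nat_lit 430) (nat_lit 279)) (XT.lf (nat_lit 0) (nat_lit 12778310242) (nat_lit 76) (nat_lit 81439721193) (nat_lit 152) (nat_lit 15960005270) (nat_lit 73) (nat_lit 5) (nat_lit 74) (nat_lit 5) (nat_lit 75) (nat_lit 4) (nat_lit 492) (nat_lit 430) (nat_lit 278)))) (XT.nd (nat_lit 156) (nat_lit 0) (nat_lit 76) (XT.nd (nat_lit 78) (nat_lit 0) (nat_lit 76) (XT.lf (nat_lit 0) (nat_lit 2416740916) (nat_lit 1292) (nat_lit 3432839381) (nat_lit 1292) (nat_lit 3432839381) (nat_lit 293) (nat_lit 3) (nat_lit 310) (nat_lit 3) (nat_lit 310) (nat_lit 5) (nat_lit 431) (nat_lit 431) (nat_lit 338)) (XT.lf (nat_lit 0) (nat_lit 5382586533) (nat_lit 1216) (nat_lit 10463268268) (nat_lit 1292) (nat_lit 3170213767)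 (nat_lit 294) (nat_lit 5) (nat_lit 310) (nat_lit 5) (nat_lit 311) (nat_lit 5) (nat_lit 432) (nat_lit 431) (nat_lit 337))) (XT.nd (nat_lit 78) (nat_lit 0) (nat_lit 76) (XT.lf (nat_lit 76) (nat_lit 5372711316) (nat_lit 0) (nat_lit 807387976) (nat_lit 1292) (nat_lit 13303134161) (nat_lit 295) (nat_lit 5) (nat_lit 294) (nat_lit 5) (nat_lit 311) (nat_lit 5) (nat_lit 433) (nat_lit 431) (nat_lit 336)) (XT.lf (nat_lit 76) (nat_lit 2133534340) (nat_lit 0) (nat_lit 5138047582) (nat_lit 1292) (nat_lit 12694554501) (nat_lit 296) (nat_lit 5) (nat_lit 295) (nat_lit 5) (nat_lit 312) (nat_lit 5) (nat_lit 434) (nat_lit 431) (nat_lit 335)))))) (XT.nd (nat_lit 468) (nat_lit 4028) (nat_lit 0) (XT.nd (nat_lit 234) (nat_lit 0) (nat_lit 152) (XT.nd (nat_lit 78) (nat_lit 0) (nat_lit 76) (XT.lf (nat_lit 0) (nat_lit 8657450669) (nat_lit 1216) (nat_lit 1108976007) (nat_lit 1292) (nat_lit 10699566046) (nat_lit 296) (nat_lit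 5) (nat_lit 312) (nat_lit 5) (nat_lit 313) (nat_lit 5) (nat_lit 435) (nat_lit 431) (nat_lit 334)) (XT.nd (nat_lit 78) (nat_lit 0) (nat_lit 76) (XT.lf (nat_lit 0) (nat_lit 10369246329) (nat_lit 1216) (nat_lit 4332799714) (nat_lit 1292) (nat_lit 6281099207) (nat_lit 297) (nat_lit 5) (nat_lit 313) (nat_lit 5) (nat_lit 314) (nat_lit 5) (nat_lit 436) (nat_lit 431) (nat_lit 333)) (XT.lf (nat_lit 0) (nat_lit 12409235289) (nat_lit 1216) (nat_lit 7577273780) (nat_lit 1292) (nat_lit 1532370534) (nat_lit 298) (nat_lit 5) (nat_lit 314) (nat_lit 5) (nat_lit 315) (nat_lit 5) (nat_lit 437) (nat_lit 431) (nat_lit 332)))) (XT.nd (nat_lit 78) (nat_lit 0) (nat_lit 76) (XT.lf (nat_lit 76) (nat_lit 11198118766) (nat_lit 0) (nat_lit 3638228003) (nat_lit 1292) (nat_lit 7236502406) (nat_lit 299) (nat_lit 5) (nat_lit 298) (nat_lit 5) (nat_lit 315) (nat_lit 5) (nat_lit 438) (nat_lit 431) (nat_lit 331)) (XT.nd (nat_lit 78)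 (nat_lit 0) (nat_lit 76) (XT.lf (nat_lit 76) (nat_lit 8440406002) (nat_lit 0) (nat_lit 9219081732) (nat_lit 1292) (nat_lit 4986791363) (nat_lit 300) (nat_lit 5) (nat_lit 299) (nat_lit 5) (nat_lit 316) (nat_lit 5) (nat_lit 439) (nat_lit 431) (nat_lit 330)) (XT.lf (nat_lit 76) (nat_lit 5687853452) (nat_lit 0) (nat_lit 15202528409) (nat_lit 1292) (nat_lit 2350002761) (nat_lit 301) (nat_lit 5) (nat_lit 300) (nat_lit 5) (nat_lit 317) (nat_lit 5) (nat_lit 440) (nat_lit 431) (nat_lit 329))))) (XT.nd (nat_lit 234) (nat_lit 2356) (nat_lit 0) (XT.nd (nat_lit 78) (nat_lit 760) (nat_lit 0) (XT.lf (nat_lit 0) (nat_lit 687531710) (nat_lit 1292) (nat_lit 20917923788) (nat_lit 76) (nat_lit 2250308785) (nat_lit 284) (nat_lit 5) (nat_lit 301) (nat_lit 5) (nat_lit 285) (nat_lit 5) (nat_lit 441) (nat_lit 431) (nat_lit 328)) (XT.nd (nat_lit 78) (nat_lit 0) (nat_lit 0) (XT.lf (nat_lit 0) (nat_lit 134622097) (nat_lit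 760) (nat_lit 4017786102) (nat_lit 836) (nat_lit 20339086450) (nat_lit 274) (nat_lit 5) (nat_lit 284) (nat_lit 5) (nat_lit 285) (nat_lit 5) (nat_lit 442) (nat_lit 431) (nat_lit 327)) (XT.lf (nat_lit 0) (nat_lit 8133836130) (nat_lit 836) (nat_lit 2628808840) (nat_lit 76) (nat_lit 14386069003) (nat_lit 274) (nat_lit 5) (nat_lit 285) (nat_lit 5) (nat_lit 275) (nat_lit 5) (nat_lit 443) (nat_lit 431) (nat_lit 326)))) (XT.nd (nat_lit 156) (nat_lit 1140) (nat_lit 0) (XT.nd (nat_lit 78) (nat_lit 608) (nat_lit 0) (XT.lf (nat_lit 0) (nat_lit 12616692829) (nat_lit 684) (nat_lit 5374645002) (nat_lit 76) (nat_lit 7838387301) (nat_lit 266) (nat_lit 5) (nat_lit 275) (nat_lit 5) (nat_lit 267) (nat_lit 5) (nat_lit 444) (nat_lit 431) (nat_lit 325)) (XT.lf (nat_lit 0) (nat_lit 17632871027) (nat_lit 684) (nat_lit 8100097608) (nat_lit 76) (nat_lit 802544370) (nat_lit 258) (nat_lit 5) (nat_lit 267) (nat_lit 5) (nat_lit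 259) (nat_lit 5) (nat_lit 445) (nat_lit 431) (nat_lit 324))) (XT.nd (nat_lit 78) (nat_lit 608) (nat_lit 0) (XT.lf (nat_lit 0) (nat_lit 16399619446) (nat_lit 532) (nat_lit 6883870973) (nat_lit 608) (nat_lit 3981592323) (nat_lit 251) (nat_lit 5) (nat_lit 258) (nat_lit 5) (nat_lit 259) (nat_lit 5) (nat_lit 446) (nat_lit 431) (nat_lit 323)) (XT.lf (nat_lit 0) (nat_lit 1501457633) (nat_lit 608) (nat_lit 13626154247) (nat_lit 76) (nat_lit 12893006104) (nat_lit 243) (nat_lit 5) (nat_lit 251) (nat_lit 5) (nat_lit 244) (nat_lit 5) (nat_lit 447) (nat_lit 431) (nat_lit 322))))))))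
noncomputable def xc97 : XT := (XT.nd (nat_lit 1950) (nat_lit 3876) (nat_lit 0) (XT.nd (nat_lit 936) (nat_lit 3952) (nat_lit 0) (XT.nd (nat_lit 468) (nat_lit 2052) (nat_lit 0) (XT.nd (nat_lit 234) (nat_lit 1444) (nat_lit 0) (XT.nd (nat_lit 78) (nat_lit 988) (nat_lit 0) (XT.lf (nat_lit 0) (nat_lit 7516439257) (nat_lit 608) (nat_lit 16397283014) (nat_lit 76) (nat_lit 4888822596) (nat_lit 236) (nat_lit 5) (nat_lit 244) (nat_lit 5) (nat_lit 237) (nat_lit 5) (nat_lit 448) (nat_lit 431) (nat_lit 321)) (XT.nd (nat_lit 78) (nat_lit 456) (nat_lit 0) (XT.lf (nat_lit 0) (nat_lit 10441845558) (nat_lit 532) (nat_lit 3774707629) (nat_lit 608) (nat_lit 15395484621) (nat_lit 229) (nat_lit 5) (nat_lit 236) (nat_lit 5) (nat_lit 237) (nat_lit 5) (nat_lit 449) (nat_lit 431) (nat_lit 320)) (XT.lf (nat_lit 0) (nat_lit 8494312642) (nat_lit 456) (nat_lit 13166501332) (nat_lit 532) (nat_lit 8788918337) (nat_lit 223) (nat_lit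 5) (nat_lit 229) (nat_lit 5) (nat_lit 230) (nat_lit 5) (nat_lit 450) (nat_lit 431) (nat_lit 319)))) (XT.nd (nat_lit 78) (nat_lit 988) (nat_lit 0) (XT.lf (nat_lit 0) (nat_lit 6620598911) (nat_lit 456) (nat_lit 23224528696) (nat_lit 532) (nat_lit 1473149836) (nat_lit 217) (nat_lit 5) (nat_lit 223) (nat_lit 5) (nat_lit 224) (nat_lit 5) (nat_lit 451) (nat_lit 431) (nat_lit 318)) (XT.nd (nat_lit 78) (nat_lit 456) (nat_lit 0) (XT.lf (nat_lit 0) (nat_lit 4747341686) (nat_lit 456) (nat_lit 1737343857) (nat_lit 532) (nat_lit 25731852127) (nat_lit 210) (nat_lit 5) (nat_lit 216) (nat_lit 5) (nat_lit 217) (nat_lit 5) (nat_lit 452) (nat_lit 431) (nat_lit 317)) (XT.lf (nat_lit 0) (nat_lit 2855630678) (nat_lit 456) (nat_lit 12429953619) (nat_lit 532) (nat_lit 17859420850) (nat_lit 204) (nat_lit 5) (nat_lit 210) (nat_lit 5) (nat_lit 211) (nat_lit 5) (nat_lit 453) (nat_lit 431) (nat_lit 316))))) (XT.nd (nat_lit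 234) (nat_lit 1140) (nat_lit 0) (XT.nd (nat_lit 78) (nat_lit 532) (nat_lit 0) (XT.lf (nat_lit 0) (nat_lit 1051145400) (nat_lit 380) (nat_lit 23877121558) (nat_lit 456) (nat_lit 9179577790) (nat_lit 199) (nat_lit 5) (nat_lit 204) (nat_lit 5) (nat_lit 205) (nat_lit 5) (nat_lit 454) (nat_lit 431) (nat_lit 315)) (XT.nd (nat_lit 78) (nat_lit 456) (nat_lit 0) (XT.lf (nat_lit 0) (nat_lit 367393312) (nat_lit 456) (nat_lit 656679017) (nat_lit 76) (nat_lit 34081818219) (nat_lit 198) (nat_lit 5) (nat_lit 204) (nat_lit 5) (nat_lit 199) (nat_lit 5) (nat_lit 455) (nat_lit 431) (nat_lit 314)) (XT.lf (nat_lit 0) (nat_lit 10746561363) (nat_lit 532) (nat_lit 2444247836) (nat_lit 76) (nat_lit 22943962759) (nat_lit 192) (nat_lit 5) (nat_lit 199) (nat_lit 5) (nat_lit 193) (nat_lit 5) (nat_lit 456) (nat_lit 431) (nat_lit 313)))) (XT.nd (nat_lit 78) (nat_lit 760) (nat_lit 0) (XT.lf (nat_lit 0) (nat_lit 22080713711) (nat_lit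 456) (nat_lit 4132334004) (nat_lit 76) (nat_lit 10988969716) (nat_lit 187) (nat_lit 5) (nat_lit 193) (nat_lit 5) (nat_lit 188) (nat_lit 5) (nat_lit 457) (nat_lit 431) (nat_lit 312)) (XT.nd (nat_lit 78) (nat_lit 380) (nat_lit 0) (XT.lf (nat_lit 0) (nat_lit 32580654463) (nat_lit 380) (nat_lit 1865080207) (nat_lit 456) (nat_lit 3862966413) (nat_lit 182) (nat_lit 5) (nat_lit 187) (nat_lit 5) (nat_lit 188) (nat_lit 5) (nat_lit 458) (nat_lit 431) (nat_lit 311)) (XT.lf (nat_lit 0) (nat_lit 8381007605) (nat_lit 380) (nat_lit 7400831908) (nat_lit 76) (nat_lit 23669244645) (nat_lit 177) (nat_lit 5) (nat_lit 182) (nat_lit 5) (nat_lit 178) (nat_lit 5) (nat_lit 459) (nat_lit 431) (nat_lit 310)))))) (XT.nd (nat_lit 468) (nat_lit 1900) (nat_lit 0) (XT.nd (nat_lit 234) (nat_lit 988) (nat_lit 0) (XT.nd (nat_lit 78) (nat_lit 684) (nat_lit 0) (XT.lf (nat_lit 0) (nat_lit 21632449024) (nat_lit 456) (nat_lit 8996922117)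 (nat_lit 76) (nat_lit 10005813654) (nat_lit 172) (nat_lit 5) (nat_lit 178) (nat_lit 5) (nat_lit 173) (nat_lit 5) (nat_lit 460) (nat_lit 431) (nat_lit 309)) (XT.nd (nat_lit 78) (nat_lit 380) (nat_lit 0) (XT.lf (nat_lit 0) (nat_lit 31349571441) (nat_lit 304) (nat_lit 4727542337) (nat_lit 380) (nat_lit 5785457764) (nat_lit 168) (nat_lit 5) (nat_lit 172) (nat_lit 5) (nat_lit 173) (nat_lit 5) (nat_lit 461) (nat_lit 431) (nat_lit 308)) (XT.lf (nat_lit 0) (nat_lit 8542805534) (nat_lit 380) (nat_lit 12083324919) (nat_lit 76) (nat_lit 22504622824) (nat_lit 163) (nat_lit 5) (nat_lit 168) (nat_lit 5) (nat_lit 164) (nat_lit 5) (nat_lit 462) (nat_lit 431) (nat_lit 307)))) (XT.nd (nat_lit 78) (nat_lit 684) (nat_lit 0) (XT.lf (nat_lit 0) (nat_lit 23984192916) (nat_lit 380) (nat_lit 13581326985) (nat_lit 76) (nat_lit 6879615396) (nat_lit 159) (nat_lit 5) (nat_lit 164) (nat_lit 5) (nat_lit 160) (nat_lit 5) (nat_lit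 463) (nat_lit 431) (nat_lit 306)) (XT.nd (nat_lit 78) (nat_lit 380) (nat_lit 0) (XT.lf (nat_lit 0) (nat_lit 30770816733) (nat_lit 304) (nat_lit 10050061516) (nat_lit 380) (nat_lit 4985661828) (nat_lit 155) (nat_lit 5) (nat_lit 159) (nat_lit 5) (nat_lit 160) (nat_lit 5) (nat_lit 464) (nat_lit 431) (nat_lit 305)) (XT.lf (nat_lit 0) (nat_lit 11661866168) (nat_lit 380) (nat_lit 16530267836) (nat_lit 76) (nat_lit 19022085278) (nat_lit 150) (nat_lit 5) (nat_lit 155) (nat_lit 5) (nat_lit 151) (nat_lit 5) (nat_lit 465) (nat_lit 431) (nat_lit 304))))) (XT.nd (nat_lit 234) (nat_lit 988) (nat_lit 0) (XT.nd (nat_lit 78) (nat_lit 608) (nat_lit 0) (XT.lf (nat_lit 0) (nat_lit 29598175995) (nat_lit 380) (nat_lit 17931820337) (nat_lit 76) (nat_lit 1144020182) (nat_lit 146) (nat_lit 5) (nat_lit 151) (nat_lit 5) (nat_lit 147) (nat_lit 5) (nat_lit 466) (nat_lit 431) (nat_lit 303)) (XT.nd (nat_lit 78) (nat_lit 380)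 (nat_lit 0) (XT.lf (nat_lit 0) (nat_lit 30828224146) (nat_lit 228) (nat_lit 18349955453) (nat_lit 304) (nat_lit 1006218094) (nat_lit 143) (nat_lit 5) (nat_lit 146) (nat_lit 5) (nat_lit 147) (nat_lit 5) (nat_lit 467) (nat_lit 431) (nat_lit 302)) (XT.lf (nat_lit 0) (nat_lit 18220149884) (nat_lit 380) (nat_lit 20816566764) (nat_lit 76) (nat_lit 12710284529) (nat_lit 138) (nat_lit 5) (nat_lit 143) (nat_lit 5) (nat_lit 139) (nat_lit 5) (nat_lit 468) (nat_lit 431) (nat_lit 301)))) (XT.nd (nat_lit 156) (nat_lit 456) (nat_lit 0) (XT.nd (nat_lit 78) (nat_lit 304) (nat_lit 0) (XT.lf (nat_lit 0) (nat_lit 31155866155) (nat_lit 228) (nat_lit 7911715289) (nat_lit 304) (nat_lit 14299438239) (nat_lit 135) (nat_lit 5) (nat_lit 138) (nat_lit 5) (nat_lit 139) (nat_lit 5) (nat_lit 469) (nat_lit 431) (nat_lit 300)) (XT.lf (nat_lit 0) (nat_lit 6533423859) (nat_lit 304) (nat_lit 23644186911) (nat_lit 76) (nat_lit 24865960314)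 (nat_lit 131) (nat_lit 5) (nat_lit 135) (nat_lit 5) (nat_lit 132) (nat_lit 5) (nat_lit 470) (nat_lit 431) (nat_lit 299))) (XT.nd (nat_lit 78) (nat_lit 228) (nat_lit 0) (XT.lf (nat_lit 0) (nat_lit 28754533609) (nat_lit 304) (nat_lit 25068432296) (nat_lit 76) (nat_lit 2957466963) (nat_lit 128) (nat_lit 5) (nat_lit 132) (nat_lit 5) (nat_lit 129) (nat_lit 5) (nat_lit 471) (nat_lit 431) (nat_lit 298)) (XT.lf (nat_lit 0) (nat_lit 32043062363) (nat_lit 228) (nat_lit 20896900375) (nat_lit 304) (nat_lit 5638577405) (nat_lit 125) (nat_lit 5) (nat_lit 128) (nat_lit 5) (nat_lit 129) (nat_lit 5) (nat_lit 472) (nat_lit 431) (nat_lit 297))))))) (XT.nd (nat_lit 1014) (nat_lit 1140) (nat_lit 0) (XT.nd (nat_lit 468) (nat_lit 1292) (nat_lit 0) (XT.nd (nat_lit 234) (nat_lit 684) (nat_lit 0) (XT.nd (nat_lit 78) (nat_lit 456) (nat_lit 0) (XT.lf (nat_lit 0) (nat_lit 18226492693) (nat_lit 304) (nat_lit 28055894402) (nat_lit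 76) (nat_lit 14157801608) (nat_lit 121) (nat_lit 5) (nat_lit 125) (nat_lit 5) (nat_lit 122) (nat_lit 5) (nat_lit 473) (nat_lit 431) (nat_lit 296)) (XT.nd (nat_lit 78) (nat_lit 228) (nat_lit 0) (XT.lf (nat_lit 0) (nat_lit 32778737755) (nat_lit 228) (nat_lit 11187516803) (nat_lit 304) (nat_lit 18403049007) (nat_lit 118) (nat_lit 5) (nat_lit 121) (nat_lit 5) (nat_lit 122) (nat_lit 5) (nat_lit 474) (nat_lit 431) (nat_lit 295)) (XT.lf (nat_lit 0) (nat_lit 7330981643) (nat_lit 228) (nat_lit 31194838630) (nat_lit 76) (nat_lit 25841303264) (nat_lit 115) (nat_lit 5) (nat_lit 118) (nat_lit 5) (nat_lit 116) (nat_lit 5) (nat_lit 475) (nat_lit 431) (nat_lit 294)))) (XT.nd (nat_lit 78) (nat_lit 456) (nat_lit 0) (XT.lf (nat_lit 0) (nat_lit 33581613755) (nat_lit 228) (nat_lit 1131714672) (nat_lit 304) (nat_lit 31723773540) (nat_lit 112) (nat_lit 5) (nat_lit 115) (nat_lit 5) (nat_lit 116) (nat_lit 5) (nat_lit 476)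 (nat_lit 431) (nat_lit 293)) (XT.nd (nat_lit 78) (nat_lit 304) (nat_lit 0) (XT.lf (nat_lit 0) (nat_lit 33932419685) (nat_lit 152) (nat_lit 30544851244) (nat_lit 228) (nat_lit 4102934274) (nat_lit 110) (nat_lit 5) (nat_lit 112) (nat_lit 5) (nat_lit 113) (nat_lit 5) (nat_lit 477) (nat_lit 431) (nat_lit 292)) (XT.lf (nat_lit 0) (nat_lit 25180501545) (nat_lit 304) (nat_lit 36557597569) (nat_lit 76) (nat_lit 9062161707) (nat_lit 106) (nat_lit 5) (nat_lit 110) (nat_lit 5) (nat_lit 107) (nat_lit 5) (nat_lit 478) (nat_lit 431) (nat_lit 291))))) (XT.nd (nat_lit 234) (nat_lit 760) (nat_lit 0) (XT.nd (nat_lit 78) (nat_lit 380) (nat_lit 0) (XT.lf (nat_lit 0) (nat_lit 34493338692) (nat_lit 152) (nat_lit 22346428994) (nat_lit 228) (nat_lit 16260437643) (nat_lit 104) (nat_lit 5) (nat_lit 106) (nat_lit 5) (nat_lit 107) (nat_lit 5) (nat_lit 479) (nat_lit 431) (nat_lit 290)) (XT.nd (nat_lit 78) (nat_lit 152) (nat_lit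 0) (XT.lf (nat_lit 0) (nat_lit 15184975645) (nat_lit 228) (nat_lit 40794343339) (nat_lit 76) (nat_lit 19504556187) (nat_lit 101) (nat_lit 5) (nat_lit 104) (nat_lit 5) (nat_lit 102) (nat_lit 5) (nat_lit 480) (nat_lit 431) (nat_lit 289)) (XT.lf (nat_lit 0) (nat_lit 34760094075) (nat_lit 152) (nat_lit 14066297294) (nat_lit 228) (nat_lit 29126706811) (nat_lit 99) (nat_lit 5) (nat_lit 101) (nat_lit 5) (nat_lit 102) (nat_lit 5) (nat_lit 481) (nat_lit 431) (nat_lit 288)))) (XT.nd (nat_lit 156) (nat_lit 380) (nat_lit 0) (XT.nd (nat_lit 78) (nat_lit 152) (nat_lit 0) (XT.lf (nat_lit 0) (nat_lit 4586399711) (nat_lit 228) (nat_lit 45768198872) (nat_lit 76) (nat_lit 30158565591) (nat_lit 96) (nat_lit 5) (nat_lit 99) (nat_lit 5) (nat_lit 97) (nat_lit 5) (nat_lit 482) (nat_lit 431) (nat_lit 287)) (XT.lf (nat_lit 0) (nat_lit 34520743970) (nat_lit 152) (nat_lit 5786518233) (nat_lit 228) (nat_lit 42857585359) (nat_lit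 94) (nat_lit 5) (nat_lit 96) (nat_lit 5) (nat_lit 97) (nat_lit 5) (nat_lit 483) (nat_lit 431) (nat_lit 286))) (XT.nd (nat_lit 78) (nat_lit 228) (nat_lit 0) (XT.lf (nat_lit 0) (nat_lit 34105263325) (nat_lit 152) (nat_lit 44902900226) (nat_lit 228) (nat_lit 6905131851) (nat_lit 92) (nat_lit 5) (nat_lit 94) (nat_lit 5) (nat_lit 95) (nat_lit 5) (nat_lit 484) (nat_lit 431) (nat_lit 285)) (XT.lf (nat_lit 0) (nat_lit 31148448126) (nat_lit 228) (nat_lit 55275014919) (nat_lit 76) (nat_lit 2339645724) (nat_lit 89) (nat_lit 5) (nat_lit 92) (nat_lit 5) (nat_lit 90) (nat_lit 5) (nat_lit 485) (nat_lit 431) (nat_lit 284)))))) (XT.nd (nat_lit 468) (nat_lit 228) (nat_lit 0) (XT.nd (nat_lit 234) (nat_lit 380) (nat_lit 0) (XT.nd (nat_lit 78) (nat_lit 380) (nat_lit 0) (XT.lf (nat_lit 0) (nat_lit 32491368861) (nat_lit 152) (nat_lit 39772302290) (nat_lit 228) (nat_lit 19450637578) (nat_lit 87) (nat_lit 5) (nat_lit 89)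 (nat_lit 5) (nat_lit 90) (nat_lit 5) (nat_lit 486) (nat_lit 431) (nat_lit 283)) (XT.nd (nat_lit 78) (nat_lit 152) (nat_lit 0) (XT.lf (nat_lit 0) (nat_lit 21191275737) (nat_lit 228) (nat_lit 63472511406) (nat_lit 76) (nat_lit 10114172131) (nat_lit 84) (nat_lit 5) (nat_lit 87) (nat_lit 5) (nat_lit 85) (nat_lit 5) (nat_lit 487) (nat_lit 431) (nat_lit 282)) (XT.lf (nat_lit 0) (nat_lit 29588446916) (nat_lit 152) (nat_lit 35176310740) (nat_lit 228) (nat_lit 33185205137) (nat_lit 82) (nat_lit 5) (nat_lit 84) (nat_lit 5) (nat_lit 85) (nat_lit 5) (nat_lit 488) (nat_lit 431) (nat_lit 281)))) (XT.nd (nat_lit 78) (nat_lit 228) (nat_lit 0) (XT.lf (nat_lit 0) (nat_lit 10151214389) (nat_lit 152) (nat_lit 73612664146) (nat_lit 76) (nat_lit 17481171451) (nat_lit 80) (nat_lit 5) (nat_lit 82) (nat_lit 5) (nat_lit 81) (nat_lit 5) (nat_lit 489) (nat_lit 431) (nat_lit 280)) (XT.nd (nat_lit 78) (nat_lit 76) (nat_lit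 0) (XT.lf (nat_lit 0) (nat_lit 24954498148) (nat_lit 152) (nat_lit 31322242502) (nat_lit 228) (nat_lit 48379035800) (nat_lit 78) (nat_lit 5) (nat_lit 80) (nat_lit 5) (nat_lit 81) (nat_lit 5) (nat_lit 490) (nat_lit 431) (nat_lit 279)) (XT.lf (nat_lit 0) (nat_lit 21960665320) (nat_lit 76) (nat_lit 83949167676) (nat_lit 152) (nat_lit 2291167648) (nat_lit 77) (nat_lit 5) (nat_lit 78) (nat_lit 5) (nat_lit 79) (nat_lit 4) (nat_lit 491) (nat_lit 431) (nat_lit 278))))) (XT.nd (nat_lit 57954) (nat_lit 0) (nat_lit 16720) (XT.nd (nat_lit 57798) (nat_lit 0) (nat_lit 16644) (XT.lf (nat_lit 0) (nat_lit 18051145460) (nat_lit 152) (nat_lit 28465350257) (nat_lit 228) (nat_lit 65354245860) (nat_lit 74) (nat_lit 5) (nat_lit 76) (nat_lit 5) (nat_lit 77) (nat_lit 5) (nat_lit 492) (nat_lit 431) (nat_lit 277)) (XT.nd (nat_lit 78) (nat_lit 0) (nat_lit 76) (XT.lf (nat_lit 0) (nat_lit 2847329816) (nat_lit 1292) (nat_lit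 3444937615) (nat_lit 1292) (nat_lit 3444937615) (nat_lit 293) (nat_lit 3) (nat_lit 310) (nat_lit 3) (nat_lit 310) (nat_lit 5) (nat_lit 432) (nat_lit 432) (nat_lit 336)) (XT.lf (nat_lit 0) (nat_lit 6241977960) (nat_lit 1216) (nat_lit 10655898507) (nat_lit 1292) (nat_lit 3051205644) (nat_lit 294) (nat_lit 5) (nat_lit 310) (nat_lit 5) (nat_lit 311) (nat_lit 5) (nat_lit 433) (nat_lit 432) (nat_lit 335)))) (XT.nd (nat_lit 156) (nat_lit 0) (nat_lit 152) (XT.nd (nat_lit 78) (nat_lit 0) (nat_lit 76) (XT.lf (nat_lit 76) (nat_lit 5962405390) (nat_lit 0) (nat_lit 1091939459) (nat_lit 1292) (nat_lit 13386014943) (nat_lit 295) (nat_lit 5) (nat_lit 294) (nat_lit 5) (nat_lit 311) (nat_lit 5) (nat_lit 434) (nat_lit 432) (nat_lit 334)) (XT.lf (nat_lit 76) (nat_lit 2570893452) (nat_lit 0) (nat_lit 5603535206) (nat_lit 1292) (nat_lit 12773762160) (nat_lit 296) (nat_lit 5) (nat_lit 295) (nat_lit 5) (nat_lit 312) (nat_lit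 5) (nat_lit 435) (nat_lit 432) (nat_lit 333))) (XT.nd (nat_lit 78) (nat_lit 0) (nat_lit 76) (XT.lf (nat_lit 0) (nat_lit 9602001860) (nat_lit 1216) (nat_lit 832101122) (nat_lit 1292) (nat_lit 11039768162) (nat_lit 296) (nat_lit 5) (nat_lit 312) (nat_lit 5) (nat_lit 313) (nat_lit 5) (nat_lit 436) (nat_lit 432) (nat_lit 332)) (XT.lf (nat_lit 0) (nat_lit 11376513333) (nat_lit 1216) (nat_lit 4210250798) (nat_lit 1292) (nat_lit 6430806761) (nat_lit 297) (nat_lit 5) (nat_lit 313) (nat_lit 5) (nat_lit 314) (nat_lit 5) (nat_lit 437) (nat_lit 432) (nat_lit 331))))))))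
noncomputable def xc98 : XT := (XT.nd (nat_lit 1950) (nat_lit 6384) (nat_lit 0) (XT.nd (nat_lit 936) (nat_lit 5168) (nat_lit 0) (XT.nd (nat_lit 468) (nat_lit 2888) (nat_lit 0) (XT.nd (nat_lit 234) (nat_lit 1824) (nat_lit 0) (XT.nd (nat_lit 78) (nat_lit 0) (nat_lit 0) (XT.lf (nat_lit 0) (nat_lit 13497054000) (nat_lit 1216) (nat_lit 7611207867) (nat_lit 1292) (nat_lit 1472476740) (nat_lit 298) (nat_lit 5) (nat_lit 314) (nat_lit 5) (nat_lit 315) (nat_lit 5) (nat_lit 438) (nat_lit 432) (nat_lit 330)) (XT.nd (nat_lit 78) (nat_lit 0) (nat_lit 76) (XT.lf (nat_lit 76) (nat_lit 12093066969) (nat_lit 0) (nat_lit 3933419624) (nat_lit 1292) (nat_lit 7136494159) (nat_lit 299) (nat_lit 5) (nat_lit 298) (nat_lit 5) (nat_lit 315) (nat_lit 5) (nat_lit 439) (nat_lit 432) (nat_lit 329)) (XT.lf (nat_lit 76) (nat_lit 9202045947) (nat_lit 0) (nat_lit 9769617537) (nat_lit 1292) (nat_lit 4793995236) (nat_lit 300) (nat_lit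 5) (nat_lit 299) (nat_lit 5) (nat_lit 316) (nat_lit 5) (nat_lit 440) (nat_lit 432) (nat_lit 328)))) (XT.nd (nat_lit 78) (nat_lit 1976) (nat_lit 0) (XT.lf (nat_lit 76) (nat_lit 6315530644) (nat_lit 0) (nat_lit 16030613265) (nat_lit 1292) (nat_lit 2043867140) (nat_lit 301) (nat_lit 5) (nat_lit 300) (nat_lit 5) (nat_lit 317) (nat_lit 5) (nat_lit 441) (nat_lit 432) (nat_lit 327)) (XT.nd (nat_lit 78) (nat_lit 760) (nat_lit 0) (XT.lf (nat_lit 0) (nat_lit 1120229628) (nat_lit 1292) (nat_lit 21609724831) (nat_lit 76) (nat_lit 2306597065) (nat_lit 284) (nat_lit 5) (nat_lit 301) (nat_lit 5) (nat_lit 285) (nat_lit 5) (nat_lit 442) (nat_lit 432) (nat_lit 326)) (XT.lf (nat_lit 0) (nat_lit 485298281) (nat_lit 760) (nat_lit 4257390188) (nat_lit 836) (nat_lit 20961852228) (nat_lit 274) (nat_lit 5) (nat_lit 284) (nat_lit 5) (nat_lit 285) (nat_lit 5) (nat_lit 443) (nat_lit 432) (nat_lit 325))))) (XT.nd (nat_lit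 234) (nat_lit 1672) (nat_lit 0) (XT.nd (nat_lit 78) (nat_lit 1216) (nat_lit 0) (XT.lf (nat_lit 0) (nat_lit 8904611471) (nat_lit 836) (nat_lit 2421348412) (nat_lit 76) (nat_lit 15069220723) (nat_lit 274) (nat_lit 5) (nat_lit 285) (nat_lit 5) (nat_lit 275) (nat_lit 5) (nat_lit 444) (nat_lit 432) (nat_lit 324)) (XT.nd (nat_lit 78) (nat_lit 608) (nat_lit 0) (XT.lf (nat_lit 0) (nat_lit 13597238820) (nat_lit 684) (nat_lit 5303450034) (nat_lit 76) (nat_lit 8209986853) (nat_lit 266) (nat_lit 5) (nat_lit 275) (nat_lit 5) (nat_lit 267) (nat_lit 5) (nat_lit 445) (nat_lit 432) (nat_lit 323)) (XT.lf (nat_lit 0) (nat_lit 18850688782) (nat_lit 684) (nat_lit 8164731866) (nat_lit 76) (nat_lit 836740550) (nat_lit 258) (nat_lit 5) (nat_lit 267) (nat_lit 5) (nat_lit 259) (nat_lit 5) (nat_lit 446) (nat_lit 432) (nat_lit 322)))) (XT.nd (nat_lit 78) (nat_lit 1140) (nat_lit 0) (XT.lf (nat_lit 0) (nat_lit 17550214385)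 (nat_lit 532) (nat_lit 7220794527) (nat_lit 608) (nat_lit 3847587428) (nat_lit 251) (nat_lit 5) (nat_lit 258) (nat_lit 5) (nat_lit 259) (nat_lit 5) (nat_lit 447) (nat_lit 432) (nat_lit 321)) (XT.nd (nat_lit 78) (nat_lit 532) (nat_lit 0) (XT.lf (nat_lit 0) (nat_lit 1890839623) (nat_lit 608) (nat_lit 13970638969) (nat_lit 76) (nat_lit 13550703828) (nat_lit 243) (nat_lit 5) (nat_lit 251) (nat_lit 5) (nat_lit 244) (nat_lit 5) (nat_lit 448) (nat_lit 432) (nat_lit 320)) (XT.lf (nat_lit 0) (nat_lit 8194985417) (nat_lit 608) (nat_lit 16881106361) (nat_lit 76) (nat_lit 5157463188) (nat_lit 236) (nat_lit 5) (nat_lit 244) (nat_lit 5) (nat_lit 237) (nat_lit 5) (nat_lit 449) (nat_lit 432) (nat_lit 319)))))) (XT.nd (nat_lit 468) (nat_lit 2356) (nat_lit 0) (XT.nd (nat_lit 234) (nat_lit 1368) (nat_lit 0) (XT.nd (nat_lit 78) (nat_lit 912) (nat_lit 0) (XT.lf (nat_lit 0) (nat_lit 11290346098) (nat_lit 532) (nat_lit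 3928481143) (nat_lit 608) (nat_lit 15865035333) (nat_lit 229) (nat_lit 5) (nat_lit 236) (nat_lit 5) (nat_lit 237) (nat_lit 5) (nat_lit 450) (nat_lit 432) (nat_lit 318)) (XT.nd (nat_lit 78) (nat_lit 456) (nat_lit 0) (XT.lf (nat_lit 0) (nat_lit 9244279196) (nat_lit 456) (nat_lit 13780590054) (nat_lit 532) (nat_lit 8938887114) (nat_lit 223) (nat_lit 5) (nat_lit 229) (nat_lit 5) (nat_lit 230) (nat_lit 5) (nat_lit 451) (nat_lit 432) (nat_lit 317)) (XT.lf (nat_lit 0) (nat_lit 7275363474) (nat_lit 456) (nat_lit 24333170357) (nat_lit 532) (nat_lit 1267492393) (nat_lit 217) (nat_lit 5) (nat_lit 223) (nat_lit 5) (nat_lit 224) (nat_lit 5) (nat_lit 452) (nat_lit 432) (nat_lit 316)))) (XT.nd (nat_lit 78) (nat_lit 836) (nat_lit 0) (XT.lf (nat_lit 0) (nat_lit 5304486658) (nat_lit 456) (nat_lit 1768330391) (nat_lit 532) (nat_lit 26746602298) (nat_lit 210) (nat_lit 5) (nat_lit 216) (nat_lit 5) (nat_lit 217) (nat_lit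 5) (nat_lit 453) (nat_lit 432) (nat_lit 315)) (XT.nd (nat_lit 78) (nat_lit 380) (nat_lit 0) (XT.lf (nat_lit 0) (nat_lit 3316219428) (nat_lit 456) (nat_lit 12988541315) (nat_lit 532) (nat_lit 18489820801) (nat_lit 204) (nat_lit 5) (nat_lit 210) (nat_lit 5) (nat_lit 211) (nat_lit 5) (nat_lit 454) (nat_lit 432) (nat_lit 314)) (XT.lf (nat_lit 0) (nat_lit 1419266502) (nat_lit 380) (nat_lit 25001782397) (nat_lit 456) (nat_lit 9384771369) (nat_lit 199) (nat_lit 5) (nat_lit 204) (nat_lit 5) (nat_lit 205) (nat_lit 5) (nat_lit 455) (nat_lit 432) (nat_lit 313))))) (XT.nd (nat_lit 234) (nat_lit 1444) (nat_lit 0) (XT.nd (nat_lit 78) (nat_lit 836) (nat_lit 0) (XT.lf (nat_lit 0) (nat_lit 622746831) (nat_lit 456) (nat_lit 384235815) (nat_lit 76) (nat_lit 35847069188) (nat_lit 198) (nat_lit 5) (nat_lit 204) (nat_lit 5) (nat_lit 199) (nat_lit 5) (nat_lit 456) (nat_lit 432) (nat_lit 312)) (XT.nd (nat_lit 78) (nat_lit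 380) (nat_lit 0) (XT.lf (nat_lit 0) (nat_lit 11513092170) (nat_lit 532) (nat_lit 2263708146) (nat_lit 76) (nat_lit 24157811561) (nat_lit 192) (nat_lit 5) (nat_lit 199) (nat_lit 5) (nat_lit 193) (nat_lit 5) (nat_lit 457) (nat_lit 432) (nat_lit 311)) (XT.lf (nat_lit 0) (nat_lit 23406565859) (nat_lit 456) (nat_lit 4038923298) (nat_lit 76) (nat_lit 11609953131) (nat_lit 187) (nat_lit 5) (nat_lit 193) (nat_lit 5) (nat_lit 188) (nat_lit 5) (nat_lit 458) (nat_lit 432) (nat_lit 310)))) (XT.nd (nat_lit 156) (nat_lit 684) (nat_lit 0) (XT.nd (nat_lit 78) (nat_lit 380) (nat_lit 0) (XT.lf (nat_lit 0) (nat_lit 34501114367) (nat_lit 380) (nat_lit 1880962187) (nat_lit 456) (nat_lit 3835617433) (nat_lit 182) (nat_lit 5) (nat_lit 187) (nat_lit 5) (nat_lit 188) (nat_lit 5) (nat_lit 459) (nat_lit 432) (nat_lit 309)) (XT.lf (nat_lit 0) (nat_lit 9009474702) (nat_lit 380) (nat_lit 7478078210) (nat_lit 76) (nat_lit 24929784002)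 (nat_lit 177) (nat_lit 5) (nat_lit 182) (nat_lit 5) (nat_lit 178) (nat_lit 5) (nat_lit 460) (nat_lit 432) (nat_lit 308))) (XT.nd (nat_lit 78) (nat_lit 304) (nat_lit 0) (XT.lf (nat_lit 0) (nat_lit 22917040204) (nat_lit 456) (nat_lit 9157072837) (nat_lit 76) (nat_lit 10586723883) (nat_lit 172) (nat_lit 5) (nat_lit 178) (nat_lit 5) (nat_lit 173) (nat_lit 5) (nat_lit 461) (nat_lit 432) (nat_lit 307)) (XT.lf (nat_lit 0) (nat_lit 33198441339) (nat_lit 304) (nat_lit 4878536585) (nat_lit 380) (nat_lit 5872824752) (nat_lit 168) (nat_lit 5) (nat_lit 172) (nat_lit 5) (nat_lit 173) (nat_lit 5) (nat_lit 462) (nat_lit 432) (nat_lit 306))))))) (XT.nd (nat_lit 1014) (nat_lit 2584) (nat_lit 0) (XT.nd (nat_lit 468) (nat_lit 1900) (nat_lit 0) (XT.nd (nat_lit 234) (nat_lit 912) (nat_lit 0) (XT.nd (nat_lit 78) (nat_lit 608) (nat_lit 0) (XT.lf (nat_lit 0) (nat_lit 9161975510) (nat_lit 380) (nat_lit 12405397035) (nat_lit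 76) (nat_lit 23714141611) (nat_lit 163) (nat_lit 5) (nat_lit 168) (nat_lit 5) (nat_lit 164) (nat_lit 5) (nat_lit 463) (nat_lit 432) (nat_lit 305)) (XT.nd (nat_lit 78) (nat_lit 304) (nat_lit 0) (XT.lf (nat_lit 0) (nat_lit 25369772529) (nat_lit 380) (nat_lit 13981655264) (nat_lit 76) (nat_lit 7310358032) (nat_lit 159) (nat_lit 5) (nat_lit 164) (nat_lit 5) (nat_lit 160) (nat_lit 5) (nat_lit 464) (nat_lit 432) (nat_lit 304)) (XT.lf (nat_lit 0) (nat_lit 32580105669) (nat_lit 304) (nat_lit 10461914295) (nat_lit 380) (nat_lit 5049429766) (nat_lit 155) (nat_lit 5) (nat_lit 159) (nat_lit 5) (nat_lit 160) (nat_lit 5) (nat_lit 465) (nat_lit 432) (nat_lit 303)))) (XT.nd (nat_lit 78) (nat_lit 532) (nat_lit 0) (XT.lf (nat_lit 0) (nat_lit 12421626888) (nat_lit 380) (nat_lit 17085849055) (nat_lit 76) (nat_lit 20062140950) (nat_lit 150) (nat_lit 5) (nat_lit 155) (nat_lit 5) (nat_lit 151) (nat_lit 5) (nat_lit 466)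 (nat_lit 432) (nat_lit 302)) (XT.nd (nat_lit 78) (nat_lit 228) (nat_lit 0) (XT.lf (nat_lit 0) (nat_lit 31249757212) (nat_lit 380) (nat_lit 18560997200) (nat_lit 76) (nat_lit 1291800060) (nat_lit 146) (nat_lit 5) (nat_lit 151) (nat_lit 5) (nat_lit 147) (nat_lit 5) (nat_lit 467) (nat_lit 432) (nat_lit 301)) (XT.lf (nat_lit 0) (nat_lit 32629384135) (nat_lit 228) (nat_lit 19173698849) (nat_lit 304) (nat_lit 885542671) (nat_lit 143) (nat_lit 5) (nat_lit 146) (nat_lit 5) (nat_lit 147) (nat_lit 5) (nat_lit 468) (nat_lit 432) (nat_lit 300))))) (XT.nd (nat_lit 234) (nat_lit 988) (nat_lit 0) (XT.nd (nat_lit 78) (nat_lit 532) (nat_lit 0) (XT.lf (nat_lit 0) (nat_lit 19294178510) (nat_lit 380) (nat_lit 21597862908) (nat_lit 76) (nat_lit 13437408004) (nat_lit 138) (nat_lit 5) (nat_lit 143) (nat_lit 5) (nat_lit 139) (nat_lit 5) (nat_lit 469) (nat_lit 432) (nat_lit 299)) (XT.nd (nat_lit 78) (nat_lit 304) (nat_lit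 0) (XT.lf (nat_lit 0) (nat_lit 32965752218) (nat_lit 228) (nat_lit 8212889788) (nat_lit 304) (nat_lit 14851987569) (nat_lit 135) (nat_lit 5) (nat_lit 138) (nat_lit 5) (nat_lit 139) (nat_lit 5) (nat_lit 470) (nat_lit 432) (nat_lit 298)) (XT.lf (nat_lit 0) (nat_lit 7015050843) (nat_lit 304) (nat_lit 24574712255) (nat_lit 76) (nat_lit 26201328021) (nat_lit 131) (nat_lit 5) (nat_lit 135) (nat_lit 5) (nat_lit 132) (nat_lit 5) (nat_lit 471) (nat_lit 432) (nat_lit 297)))) (XT.nd (nat_lit 156) (nat_lit 532) (nat_lit 0) (XT.nd (nat_lit 78) (nat_lit 228) (nat_lit 0) (XT.lf (nat_lit 0) (nat_lit 30343096025) (nat_lit 304) (nat_lit 26073785998) (nat_lit 76) (nat_lit 3198038040) (nat_lit 128) (nat_lit 5) (nat_lit 132) (nat_lit 5) (nat_lit 129) (nat_lit 5) (nat_lit 472) (nat_lit 432) (nat_lit 296)) (XT.lf (nat_lit 0) (nat_lit 33886172577) (nat_lit 228) (nat_lit 21846757607) (nat_lit 304) (nat_lit 5770148958)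 (nat_lit 125) (nat_lit 5) (nat_lit 128) (nat_lit 5) (nat_lit 129) (nat_lit 5) (nat_lit 473) (nat_lit 432) (nat_lit 295))) (XT.nd (nat_lit 78) (nat_lit 228) (nat_lit 0) (XT.lf (nat_lit 0) (nat_lit 19281403561) (nat_lit 304) (nat_lit 29218397790) (nat_lit 76) (nat_lit 14958080944) (nat_lit 121) (nat_lit 5) (nat_lit 125) (nat_lit 5) (nat_lit 122) (nat_lit 5) (nat_lit 474) (nat_lit 432) (nat_lit 294)) (XT.lf (nat_lit 0) (nat_lit 34651078073) (nat_lit 228) (nat_lit 11652481624) (nat_lit 304) (nat_lit 19180031412) (nat_lit 118) (nat_lit 5) (nat_lit 121) (nat_lit 5) (nat_lit 122) (nat_lit 5) (nat_lit 475) (nat_lit 432) (nat_lit 293)))))) (XT.nd (nat_lit 468) (nat_lit 1292) (nat_lit 0) (XT.nd (nat_lit 234) (nat_lit 684) (nat_lit 0) (XT.nd (nat_lit 78) (nat_lit 380) (nat_lit 0) (XT.lf (nat_lit 0) (nat_lit 7834327018) (nat_lit 228) (nat_lit 32521961446) (nat_lit 76) (nat_lit 27225080091) (nat_lit 115) (nat_lit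 5) (nat_lit 118) (nat_lit 5) (nat_lit 116) (nat_lit 5) (nat_lit 476) (nat_lit 432) (nat_lit 292)) (XT.nd (nat_lit 78) (nat_lit 152) (nat_lit 0) (XT.lf (nat_lit 0) (nat_lit 35486645578) (nat_lit 228) (nat_lit 1094803434) (nat_lit 304) (nat_lit 33173527504) (nat_lit 112) (nat_lit 5) (nat_lit 115) (nat_lit 5) (nat_lit 116) (nat_lit 5) (nat_lit 477) (nat_lit 432) (nat_lit 291)) (XT.lf (nat_lit 0) (nat_lit 35851508421) (nat_lit 152) (nat_lit 31978767326) (nat_lit 228) (nat_lit 4175058883) (nat_lit 110) (nat_lit 5) (nat_lit 112) (nat_lit 5) (nat_lit 113) (nat_lit 5) (nat_lit 478) (nat_lit 432) (nat_lit 290)))) (XT.nd (nat_lit 78) (nat_lit 380) (nat_lit 0) (XT.lf (nat_lit 0) (nat_lit 26566730956) (nat_lit 304) (nat_lit 38163950782) (nat_lit 76) (nat_lit 9605769896) (nat_lit 106) (nat_lit 5) (nat_lit 110) (nat_lit 5) (nat_lit 107) (nat_lit 5) (nat_lit 479) (nat_lit 432) (nat_lit 289)) (XT.nd (nat_lit 78)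 (nat_lit 228) (nat_lit 0) (XT.lf (nat_lit 0) (nat_lit 36433182275) (nat_lit 152) (nat_lit 23371789189) (nat_lit 228) (nat_lit 16946541862) (nat_lit 104) (nat_lit 5) (nat_lit 106) (nat_lit 5) (nat_lit 107) (nat_lit 5) (nat_lit 480) (nat_lit 432) (nat_lit 288)) (XT.lf (nat_lit 0) (nat_lit 16065645521) (nat_lit 228) (nat_lit 42619892469) (nat_lit 76) (nat_lit 20568882937) (nat_lit 101) (nat_lit 5) (nat_lit 104) (nat_lit 5) (nat_lit 102) (nat_lit 5) (nat_lit 481) (nat_lit 432) (nat_lit 287))))) (XT.nd (nat_lit 234) (nat_lit 760) (nat_lit 0) (XT.nd (nat_lit 78) (nat_lit 380) (nat_lit 0) (XT.lf (nat_lit 0) (nat_lit 36706127731) (nat_lit 152) (nat_lit 14679222045) (nat_lit 228) (nat_lit 30461869033) (nat_lit 99) (nat_lit 5) (nat_lit 101) (nat_lit 5) (nat_lit 102) (nat_lit 5) (nat_lit 482) (nat_lit 432) (nat_lit 286)) (XT.nd (nat_lit 78) (nat_lit 152) (nat_lit 0) (XT.lf (nat_lit 0) (nat_lit 4931693186)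 (nat_lit 228) (nat_lit 47849641151) (nat_lit 76) (nat_lit 31754004112) (nat_lit 96) (nat_lit 5) (nat_lit 99) (nat_lit 5) (nat_lit 97) (nat_lit 5) (nat_lit 483) (nat_lit 432) (nat_lit 285)) (XT.lf (nat_lit 0) (nat_lit 36447816146) (nat_lit 152) (nat_lit 5987192581) (nat_lit 228) (nat_lit 44884705208) (nat_lit 94) (nat_lit 5) (nat_lit 96) (nat_lit 5) (nat_lit 97) (nat_lit 5) (nat_lit 484) (nat_lit 432) (nat_lit 284)))) (XT.nd (nat_lit 156) (nat_lit 380) (nat_lit 0) (XT.nd (nat_lit 78) (nat_lit 228) (nat_lit 0) (XT.lf (nat_lit 0) (nat_lit 36008250330) (nat_lit 152) (nat_lit 47060065457) (nat_lit 228) (nat_lit 7137347774) (nat_lit 92) (nat_lit 5) (nat_lit 94) (nat_lit 5) (nat_lit 95) (nat_lit 5) (nat_lit 485) (nat_lit 432) (nat_lit 283)) (XT.lf (nat_lit 0) (nat_lit 32814128491) (nat_lit 228) (nat_lit 57842170388) (nat_lit 76) (nat_lit 2541713624) (nat_lit 89) (nat_lit 5) (nat_lit 92) (nat_lit 5) (nat_lit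 90) (nat_lit 5) (nat_lit 486) (nat_lit 432) (nat_lit 282))) (XT.nd (nat_lit 78) (nat_lit 228) (nat_lit 0) (XT.lf (nat_lit 0) (nat_lit 34306897217) (nat_lit 152) (nat_lit 41674895932) (nat_lit 228) (nat_lit 20315079086) (nat_lit 87) (nat_lit 5) (nat_lit 89) (nat_lit 5) (nat_lit 90) (nat_lit 5) (nat_lit 487) (nat_lit 432) (nat_lit 281)) (XT.lf (nat_lit 0) (nat_lit 22354391837) (nat_lit 228) (nat_lit 66456328113) (nat_lit 76) (nat_lit 10703027227) (nat_lit 84) (nat_lit 5) (nat_lit 87) (nat_lit 5) (nat_lit 85) (nat_lit 5) (nat_lit 488) (nat_lit 432) (nat_lit 280))))))))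
noncomputable def xc99 : XT := (XT.nd (nat_lit 59748) (nat_lit 0) (nat_lit 2508) (XT.nd (nat_lit 58734) (nat_lit 0) (nat_lit 10640) (XT.nd (nat_lit 58266) (nat_lit 0) (nat_lit 16492) (XT.nd (nat_lit 234) (nat_lit 76) (nat_lit 0) (XT.nd (nat_lit 78) (nat_lit 304) (nat_lit 0) (XT.lf (nat_lit 0) (nat_lit 31252237293) (nat_lit 152) (nat_lit 36851151754) (nat_lit 228) (nat_lit 34741056754) (nat_lit 82) (nat_lit 5) (nat_lit 84) (nat_lit 5) (nat_lit 85) (nat_lit 5) (nat_lit 489) (nat_lit 432) (nat_lit 279)) (XT.nd (nat_lit 78) (nat_lit 152) (nat_lit 0) (XT.lf (nat_lit 0) (nat_lit 10757873450) (nat_lit 152) (nat_lit 77110094240) (nat_lit 76) (nat_lit 18436358769) (nat_lit 80) (nat_lit 5) (nat_lit 82) (nat_lit 5) (nat_lit 81) (nat_lit 5) (nat_lit 490) (nat_lit 432) (nat_lit 278)) (XT.lf (nat_lit 0) (nat_lit 26380174688) (nat_lit 152) (nat_lit 32806492947) (nat_lit 228) (nat_lit 50699012009) (nat_lit 78)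 (nat_lit 5) (nat_lit 80) (nat_lit 5) (nat_lit 81) (nat_lit 5) (nat_lit 491) (nat_lit 432) (nat_lit 277)))) (XT.nd (nat_lit 57876) (nat_lit 0) (nat_lit 16416) (XT.lf (nat_lit 0) (nat_lit 23233587834) (nat_lit 76) (nat_lit 88065681627) (nat_lit 152) (nat_lit 2308960081) (nat_lit 77) (nat_lit 5) (nat_lit 78) (nat_lit 5) (nat_lit 79) (nat_lit 4) (nat_lit 492) (nat_lit 432) (nat_lit 276)) (XT.nd (nat_lit 78) (nat_lit 0) (nat_lit 76) (XT.lf (nat_lit 0) (nat_lit 3270650369) (nat_lit 1292) (nat_lit 3472473624) (nat_lit 1292) (nat_lit 3472473624) (nat_lit 293) (nat_lit 3) (nat_lit 310) (nat_lit 3) (nat_lit 310) (nat_lit 5) (nat_lit 433) (nat_lit 433) (nat_lit 334)) (XT.lf (nat_lit 0) (nat_lit 7089461982) (nat_lit 1216) (nat_lit 10888890099) (nat_lit 1292) (nat_lit 2952048184) (nat_lit 294) (nat_lit 5) (nat_lit 310) (nat_lit 5) (nat_lit 311) (nat_lit 5) (nat_lit 434) (nat_lit 433) (nat_lit 333))))) (XT.nd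 (nat_lit 234) (nat_lit 0) (nat_lit 228) (XT.nd (nat_lit 78) (nat_lit 0) (nat_lit 76) (XT.lf (nat_lit 76) (nat_lit 6551735190) (nat_lit 0) (nat_lit 1368016780) (nat_lit 1292) (nat_lit 13527174261) (nat_lit 295) (nat_lit 5) (nat_lit 294) (nat_lit 5) (nat_lit 311) (nat_lit 5) (nat_lit 435) (nat_lit 433) (nat_lit 332)) (XT.nd (nat_lit 78) (nat_lit 0) (nat_lit 76) (XT.lf (nat_lit 76) (nat_lit 2999376805) (nat_lit 0) (nat_lit 6072904932) (nat_lit 1292) (nat_lit 12908577192) (nat_lit 296) (nat_lit 5) (nat_lit 295) (nat_lit 5) (nat_lit 312) (nat_lit 5) (nat_lit 436) (nat_lit 433) (nat_lit 331)) (XT.lf (nat_lit 0) (nat_lit 10546209579) (nat_lit 1216) (nat_lit 572278798) (nat_lit 1292) (nat_lit 11415088828) (nat_lit 296) (nat_lit 5) (nat_lit 312) (nat_lit 5) (nat_lit 313) (nat_lit 5) (nat_lit 437) (nat_lit 433) (nat_lit 330)))) (XT.nd (nat_lit 78) (nat_lit 0) (nat_lit 76) (XT.lf (nat_lit 0) (nat_lit 12388699260)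 (nat_lit 1216) (nat_lit 4113109005) (nat_lit 1292) (nat_lit 6603279156) (nat_lit 297) (nat_lit 5) (nat_lit 313) (nat_lit 5) (nat_lit 314) (nat_lit 5) (nat_lit 438) (nat_lit 433) (nat_lit 329)) (XT.nd (nat_lit 78) (nat_lit 0) (nat_lit 0) (XT.lf (nat_lit 0) (nat_lit 14595813229) (nat_lit 1216) (nat_lit 7678906943) (nat_lit 1292) (nat_lit 1422279878) (nat_lit 298) (nat_lit 5) (nat_lit 314) (nat_lit 5) (nat_lit 315) (nat_lit 5) (nat_lit 439) (nat_lit 433) (nat_lit 328)) (XT.lf (nat_lit 76) (nat_lit 13001613527) (nat_lit 0) (nat_lit 4232839106) (nat_lit 1292) (nat_lit 7074422389) (nat_lit 299) (nat_lit 5) (nat_lit 298) (nat_lit 5) (nat_lit 315) (nat_lit 5) (nat_lit 440) (nat_lit 433) (nat_lit 327)))))) (XT.nd (nat_lit 468) (nat_lit 3724) (nat_lit 0) (XT.nd (nat_lit 234) (nat_lit 1368) (nat_lit 0) (XT.nd (nat_lit 78) (nat_lit 1140) (nat_lit 0) (XT.lf (nat_lit 76) (nat_lit 9970193273) (nat_lit 0) (nat_lit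 10339351672) (nat_lit 1292) (nat_lit 4632664889) (nat_lit 300) (nat_lit 5) (nat_lit 299) (nat_lit 5) (nat_lit 316) (nat_lit 5) (nat_lit 441) (nat_lit 433) (nat_lit 326)) (XT.nd (nat_lit 78) (nat_lit 1216) (nat_lit 0) (XT.lf (nat_lit 76) (nat_lit 6942676355) (nat_lit 0) (nat_lit 16893784232) (nat_lit 1292) (nat_lit 1761810376) (nat_lit 301) (nat_lit 5) (nat_lit 300) (nat_lit 5) (nat_lit 317) (nat_lit 5) (nat_lit 442) (nat_lit 433) (nat_lit 325)) (XT.lf (nat_lit 0) (nat_lit 1537530300) (nat_lit 1292) (nat_lit 22369036337) (nat_lit 76) (nat_lit 2370927227) (nat_lit 284) (nat_lit 5) (nat_lit 301) (nat_lit 5) (nat_lit 285) (nat_lit 5) (nat_lit 443) (nat_lit 433) (nat_lit 324)))) (XT.nd (nat_lit 78) (nat_lit 608) (nat_lit 0) (XT.lf (nat_lit 0) (nat_lit 821531521) (nat_lit 760) (nat_lit 4505375145) (nat_lit 836) (nat_lit 21652404209) (nat_lit 274) (nat_lit 5) (nat_lit 284) (nat_lit 5) (nat_lit 285) (nat_lit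 5) (nat_lit 444) (nat_lit 433) (nat_lit 323)) (XT.nd (nat_lit 78) (nat_lit 608) (nat_lit 0) (XT.lf (nat_lit 0) (nat_lit 9680076542) (nat_lit 836) (nat_lit 2235022753) (nat_lit 76) (nat_lit 15789891075) (nat_lit 274) (nat_lit 5) (nat_lit 285) (nat_lit 5) (nat_lit 275) (nat_lit 5) (nat_lit 445) (nat_lit 433) (nat_lit 322)) (XT.lf (nat_lit 0) (nat_lit 14594299264) (nat_lit 684) (nat_lit 5260298527) (nat_lit 76) (nat_lit 8602055525) (nat_lit 266) (nat_lit 5) (nat_lit 275) (nat_lit 5) (nat_lit 267) (nat_lit 5) (nat_lit 446) (nat_lit 433) (nat_lit 321))))) (XT.nd (nat_lit 234) (nat_lit 1976) (nat_lit 0) (XT.nd (nat_lit 78) (nat_lit 1140) (nat_lit 0) (XT.lf (nat_lit 0) (nat_lit 20098143134) (nat_lit 684) (nat_lit 8264242271) (nat_lit 76) (nat_lit 873197950) (nat_lit 258) (nat_lit 5) (nat_lit 267) (nat_lit 5) (nat_lit 259) (nat_lit 5) (nat_lit 447) (nat_lit 433) (nat_lit 320)) (XT.nd (nat_lit 78) (nat_lit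 608) (nat_lit 0) (XT.lf (nat_lit 0) (nat_lit 18727601719) (nat_lit 532) (nat_lit 7575240154) (nat_lit 608) (nat_lit 3737849328) (nat_lit 251) (nat_lit 5) (nat_lit 258) (nat_lit 5) (nat_lit 259) (nat_lit 5) (nat_lit 448) (nat_lit 433) (nat_lit 319)) (XT.lf (nat_lit 0) (nat_lit 2270469231) (nat_lit 608) (nat_lit 14363662537) (nat_lit 76) (nat_lit 14240073413) (nat_lit 243) (nat_lit 5) (nat_lit 251) (nat_lit 5) (nat_lit 244) (nat_lit 5) (nat_lit 449) (nat_lit 433) (nat_lit 318)))) (XT.nd (nat_lit 156) (nat_lit 912) (nat_lit 0) (XT.nd (nat_lit 78) (nat_lit 532) (nat_lit 0) (XT.lf (nat_lit 0) (nat_lit 8879314458) (nat_lit 608) (nat_lit 17420362764) (nat_lit 76) (nat_lit 5437285974) (nat_lit 236) (nat_lit 5) (nat_lit 244) (nat_lit 5) (nat_lit 237) (nat_lit 5) (nat_lit 450) (nat_lit 433) (nat_lit 317)) (XT.lf (nat_lit 0) (nat_lit 12150925318) (nat_lit 532) (nat_lit 4093193756) (nat_lit 608) (nat_lit 16385975519)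 (nat_lit 229) (nat_lit 5) (nat_lit 236) (nat_lit 5) (nat_lit 237) (nat_lit 5) (nat_lit 451) (nat_lit 433) (nat_lit 316))) (XT.nd (nat_lit 78) (nat_lit 456) (nat_lit 0) (XT.lf (nat_lit 0) (nat_lit 10001505330) (nat_lit 456) (nat_lit 14429495887) (nat_lit 532) (nat_lit 9123267171) (nat_lit 223) (nat_lit 5) (nat_lit 229) (nat_lit 5) (nat_lit 230) (nat_lit 5) (nat_lit 452) (nat_lit 433) (nat_lit 315)) (XT.lf (nat_lit 0) (nat_lit 7932768489) (nat_lit 456) (nat_lit 25502132935) (nat_lit 532) (nat_lit 1077520133) (nat_lit 217) (nat_lit 5) (nat_lit 223) (nat_lit 5) (nat_lit 224) (nat_lit 5) (nat_lit 453) (nat_lit 433) (nat_lit 314))))))) (XT.nd (nat_lit 1014) (nat_lit 3420) (nat_lit 0) (XT.nd (nat_lit 468) (nat_lit 2432) (nat_lit 0) (XT.nd (nat_lit 234) (nat_lit 912) (nat_lit 0) (XT.nd (nat_lit 78) (nat_lit 836) (nat_lit 0) (XT.lf (nat_lit 0) (nat_lit 5859758961) (nat_lit 456) (nat_lit 1806061505) (nat_lit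 532) (nat_lit 27837363310) (nat_lit 210) (nat_lit 5) (nat_lit 216) (nat_lit 5) (nat_lit 217) (nat_lit 5) (nat_lit 454) (nat_lit 433) (nat_lit 313)) (XT.nd (nat_lit 78) (nat_lit 380) (nat_lit 0) (XT.lf (nat_lit 0) (nat_lit 3770290914) (nat_lit 456) (nat_lit 13580907170) (nat_lit 532) (nat_lit 19176152121) (nat_lit 204) (nat_lit 5) (nat_lit 210) (nat_lit 5) (nat_lit 211) (nat_lit 5) (nat_lit 455) (nat_lit 433) (nat_lit 312)) (XT.lf (nat_lit 0) (nat_lit 1776455525) (nat_lit 380) (nat_lit 26189109396) (nat_lit 456) (nat_lit 9623819179) (nat_lit 199) (nat_lit 5) (nat_lit 204) (nat_lit 5) (nat_lit 205) (nat_lit 5) (nat_lit 456) (nat_lit 433) (nat_lit 311)))) (XT.nd (nat_lit 78) (nat_lit 836) (nat_lit 0) (XT.lf (nat_lit 0) (nat_lit 868835513) (nat_lit 456) (nat_lit 126552229) (nat_lit 76) (nat_lit 37694896623) (nat_lit 198) (nat_lit 5) (nat_lit 204) (nat_lit 5) (nat_lit 199) (nat_lit 5) (nat_lit 457)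 (nat_lit 433) (nat_lit 310)) (XT.nd (nat_lit 78) (nat_lit 380) (nat_lit 0) (XT.lf (nat_lit 0) (nat_lit 12296640419) (nat_lit 532) (nat_lit 2102288490) (nat_lit 76) (nat_lit 25426156256) (nat_lit 192) (nat_lit 5) (nat_lit 199) (nat_lit 5) (nat_lit 193) (nat_lit 5) (nat_lit 458) (nat_lit 433) (nat_lit 309)) (XT.lf (nat_lit 0) (nat_lit 24778088222) (nat_lit 456) (nat_lit 3968735761) (nat_lit 76) (nat_lit 12255335077) (nat_lit 187) (nat_lit 5) (nat_lit 193) (nat_lit 5) (nat_lit 188) (nat_lit 5) (nat_lit 459) (nat_lit 433) (nat_lit 308))))) (XT.nd (nat_lit 234) (nat_lit 1292) (nat_lit 0) (XT.nd (nat_lit 78) (nat_lit 760) (nat_lit 0) (XT.lf (nat_lit 0) (nat_lit 36490503129) (nat_lit 380) (nat_lit 1904831584) (nat_lit 456) (nat_lit 3827400753) (nat_lit 182) (nat_lit 5) (nat_lit 187) (nat_lit 5) (nat_lit 188) (nat_lit 5) (nat_lit 460) (nat_lit 433) (nat_lit 307)) (XT.nd (nat_lit 78) (nat_lit 380) (nat_lit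 0) (XT.lf (nat_lit 0) (nat_lit 9649895573) (nat_lit 380) (nat_lit 7586408158) (nat_lit 76) (nat_lit 26246184425) (nat_lit 177) (nat_lit 5) (nat_lit 182) (nat_lit 5) (nat_lit 178) (nat_lit 5) (nat_lit 461) (nat_lit 433) (nat_lit 306)) (XT.lf (nat_lit 0) (nat_lit 24246990835) (nat_lit 456) (nat_lit 9352164224) (nat_lit 76) (nat_lit 11189184382) (nat_lit 172) (nat_lit 5) (nat_lit 178) (nat_lit 5) (nat_lit 173) (nat_lit 5) (nat_lit 462) (nat_lit 433) (nat_lit 305)))) (XT.nd (nat_lit 156) (nat_lit 608) (nat_lit 0) (XT.nd (nat_lit 78) (nat_lit 380) (nat_lit 0) (XT.lf (nat_lit 0) (nat_lit 35113593634) (nat_lit 304) (nat_lit 5045018636) (nat_lit 380) (nat_lit 5983331386) (nat_lit 168) (nat_lit 5) (nat_lit 172) (nat_lit 5) (nat_lit 173) (nat_lit 5) (nat_lit 463) (nat_lit 433) (nat_lit 304)) (XT.lf (nat_lit 0) (nat_lit 9794250884) (nat_lit 380) (nat_lit 12769799195) (nat_lit 76) (nat_lit 24976300071) (nat_lit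 163) (nat_lit 5) (nat_lit 168) (nat_lit 5) (nat_lit 164) (nat_lit 5) (nat_lit 464) (nat_lit 433) (nat_lit 303))) (XT.nd (nat_lit 78) (nat_lit 304) (nat_lit 0) (XT.lf (nat_lit 0) (nat_lit 26807304210) (nat_lit 380) (nat_lit 14427914381) (nat_lit 76) (nat_lit 7754571505) (nat_lit 159) (nat_lit 5) (nat_lit 164) (nat_lit 5) (nat_lit 160) (nat_lit 5) (nat_lit 465) (nat_lit 433) (nat_lit 302)) (XT.lf (nat_lit 0) (nat_lit 34454687460) (nat_lit 304) (nat_lit 10902787519) (nat_lit 380) (nat_lit 5133633542) (nat_lit 155) (nat_lit 5) (nat_lit 159) (nat_lit 5) (nat_lit 160) (nat_lit 5) (nat_lit 466) (nat_lit 433) (nat_lit 301)))))) (XT.nd (nat_lit 468) (nat_lit 1596) (nat_lit 0) (XT.nd (nat_lit 234) (nat_lit 912) (nat_lit 0) (XT.nd (nat_lit 78) (nat_lit 532) (nat_lit 0) (XT.lf (nat_lit 0) (nat_lit 13202950782) (nat_lit 380) (nat_lit 17694398041) (nat_lit 76) (nat_lit 21145929547) (nat_lit 150) (nat_lit 5)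 (nat_lit 155) (nat_lit 5) (nat_lit 151) (nat_lit 5) (nat_lit 467) (nat_lit 433) (nat_lit 300)) (XT.nd (nat_lit 78) (nat_lit 228) (nat_lit 0) (XT.lf (nat_lit 0) (nat_lit 32967957017) (nat_lit 380) (nat_lit 19246494538) (nat_lit 76) (nat_lit 1438547767) (nat_lit 146) (nat_lit 5) (nat_lit 151) (nat_lit 5) (nat_lit 147) (nat_lit 5) (nat_lit 468) (nat_lit 433) (nat_lit 299)) (XT.lf (nat_lit 0) (nat_lit 34496453143) (nat_lit 228) (nat_lit 20047345808) (nat_lit 304) (nat_lit 774730164) (nat_lit 143) (nat_lit 5) (nat_lit 146) (nat_lit 5) (nat_lit 147) (nat_lit 5) (nat_lit 469) (nat_lit 433) (nat_lit 298)))) (XT.nd (nat_lit 78) (nat_lit 532) (nat_lit 0) (XT.lf (nat_lit 0) (nat_lit 20406752408) (nat_lit 380) (nat_lit 22442352703) (nat_lit 76) (nat_lit 14192370694) (nat_lit 138) (nat_lit 5) (nat_lit 143) (nat_lit 5) (nat_lit 139) (nat_lit 5) (nat_lit 470) (nat_lit 433) (nat_lit 297)) (XT.nd (nat_lit 78) (nat_lit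 304) (nat_lit 0) (XT.lf (nat_lit 0) (nat_lit 34842695389) (nat_lit 228) (nat_lit 8537900477) (nat_lit 304) (nat_lit 15447264877) (nat_lit 135) (nat_lit 5) (nat_lit 138) (nat_lit 5) (nat_lit 139) (nat_lit 5) (nat_lit 471) (nat_lit 433) (nat_lit 296)) (XT.lf (nat_lit 0) (nat_lit 7506352856) (nat_lit 304) (nat_lit 25575163059) (nat_lit 76) (nat_lit 27594904347) (nat_lit 131) (nat_lit 5) (nat_lit 135) (nat_lit 5) (nat_lit 132) (nat_lit 5) (nat_lit 472) (nat_lit 433) (nat_lit 295))))) (XT.nd (nat_lit 234) (nat_lit 836) (nat_lit 0) (XT.nd (nat_lit 78) (nat_lit 532) (nat_lit 0) (XT.lf (nat_lit 0) (nat_lit 31997063286) (nat_lit 304) (nat_lit 27152470388) (nat_lit 76) (nat_lit 3442019514) (nat_lit 128) (nat_lit 5) (nat_lit 132) (nat_lit 5) (nat_lit 129) (nat_lit 5) (nat_lit 473) (nat_lit 433) (nat_lit 294)) (XT.nd (nat_lit 78) (nat_lit 304) (nat_lit 0) (XT.lf (nat_lit 0) (nat_lit 35799036394) (nat_lit 228)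 (nat_lit 22852938765) (nat_lit 304) (nat_lit 5922277887) (nat_lit 125) (nat_lit 5) (nat_lit 128) (nat_lit 5) (nat_lit 129) (nat_lit 5) (nat_lit 474) (nat_lit 433) (nat_lit 293)) (XT.lf (nat_lit 0) (nat_lit 20375710685) (nat_lit 304) (nat_lit 30461366357) (nat_lit 76) (nat_lit 15789784770) (nat_lit 121) (nat_lit 5) (nat_lit 125) (nat_lit 5) (nat_lit 122) (nat_lit 5) (nat_lit 475) (nat_lit 433) (nat_lit 292)))) (XT.nd (nat_lit 156) (nat_lit 380) (nat_lit 0) (XT.nd (nat_lit 78) (nat_lit 228) (nat_lit 0) (XT.lf (nat_lit 0) (nat_lit 36595335769) (nat_lit 228) (nat_lit 12149472127) (nat_lit 304) (nat_lit 20009173530) (nat_lit 118) (nat_lit 5) (nat_lit 121) (nat_lit 5) (nat_lit 122) (nat_lit 5) (nat_lit 476) (nat_lit 433) (nat_lit 291)) (XT.lf (nat_lit 0) (nat_lit 8350121638) (nat_lit 228) (nat_lit 33937067124) (nat_lit 76) (nat_lit 28669519278) (nat_lit 115) (nat_lit 5) (nat_lit 118) (nat_lit 5) (nat_lit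 116) (nat_lit 5) (nat_lit 477) (nat_lit 433) (nat_lit 290))) (XT.nd (nat_lit 78) (nat_lit 152) (nat_lit 0) (XT.lf (nat_lit 0) (nat_lit 37465922198) (nat_lit 228) (nat_lit 1064739097) (nat_lit 304) (nat_lit 34708453572) (nat_lit 112) (nat_lit 5) (nat_lit 115) (nat_lit 5) (nat_lit 116) (nat_lit 5) (nat_lit 478) (nat_lit 433) (nat_lit 289)) (XT.lf (nat_lit 0) (nat_lit 37845868651) (nat_lit 152) (nat_lit 33493055823) (nat_lit 228) (nat_lit 4263156858) (nat_lit 110) (nat_lit 5) (nat_lit 112) (nat_lit 5) (nat_lit 113) (nat_lit 5) (nat_lit 479) (nat_lit 433) (nat_lit 288))))))))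
noncomputable def xc100 : XT := (XT.nd (nat_lit 59826) (nat_lit 0) (nat_lit 4560) (XT.nd (nat_lit 936) (nat_lit 152) (nat_lit 0) (XT.nd (nat_lit 468) (nat_lit 1064) (nat_lit 0) (XT.nd (nat_lit 234) (nat_lit 532) (nat_lit 0) (XT.nd (nat_lit 78) (nat_lit 380) (nat_lit 0) (XT.lf (nat_lit 0) (nat_lit 28010445584) (nat_lit 304) (nat_lit 39871217105) (nat_lit 76) (nat_lit 10168144654) (nat_lit 106) (nat_lit 5) (nat_lit 110) (nat_lit 5) (nat_lit 107) (nat_lit 5) (nat_lit 480) (nat_lit 433) (nat_lit 287)) (XT.nd (nat_lit 78) (nat_lit 228) (nat_lit 0) (XT.lf (nat_lit 0) (nat_lit 38450012951) (nat_lit 152) (nat_lit 24456967080) (nat_lit 228) (nat_lit 17678750894) (nat_lit 104) (nat_lit 5) (nat_lit 106) (nat_lit 5) (nat_lit 107) (nat_lit 5) (nat_lit 481) (nat_lit 433) (nat_lit 286)) (XT.lf (nat_lit 0) (nat_lit 16979060308) (nat_lit 228) (nat_lit 44556630370) (nat_lit 76) (nat_lit 21678142450) (nat_lit 101)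 (nat_lit 5) (nat_lit 104) (nat_lit 5) (nat_lit 102) (nat_lit 5) (nat_lit 482) (nat_lit 433) (nat_lit 285)))) (XT.nd (nat_lit 78) (nat_lit 380) (nat_lit 0) (XT.lf (nat_lit 0) (nat_lit 38730122511) (nat_lit 152) (nat_lit 15331196648) (nat_lit 228) (nat_lit 31875054896) (nat_lit 99) (nat_lit 5) (nat_lit 101) (nat_lit 5) (nat_lit 102) (nat_lit 5) (nat_lit 483) (nat_lit 433) (nat_lit 284)) (XT.nd (nat_lit 78) (nat_lit 152) (nat_lit 0) (XT.lf (nat_lit 0) (nat_lit 5283469219) (nat_lit 228) (nat_lit 50054397435) (nat_lit 76) (nat_lit 33421078686) (nat_lit 96) (nat_lit 5) (nat_lit 99) (nat_lit 5) (nat_lit 97) (nat_lit 5) (nat_lit 484) (nat_lit 433) (nat_lit 283)) (XT.lf (nat_lit 0) (nat_lit 38452551605) (nat_lit 152) (nat_lit 6206142628) (nat_lit 228) (nat_lit 47023943262) (nat_lit 94) (nat_lit 5) (nat_lit 96) (nat_lit 5) (nat_lit 97) (nat_lit 5) (nat_lit 485) (nat_lit 433) (nat_lit 282))))) (XT.nd (nat_lit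 234) (nat_lit 532) (nat_lit 0) (XT.nd (nat_lit 78) (nat_lit 380) (nat_lit 0) (XT.lf (nat_lit 0) (nat_lit 37988004196) (nat_lit 152) (nat_lit 49333268476) (nat_lit 228) (nat_lit 7391683944) (nat_lit 92) (nat_lit 5) (nat_lit 94) (nat_lit 5) (nat_lit 95) (nat_lit 5) (nat_lit 486) (nat_lit 433) (nat_lit 281)) (XT.nd (nat_lit 78) (nat_lit 152) (nat_lit 0) (XT.lf (nat_lit 0) (nat_lit 34553028074) (nat_lit 228) (nat_lit 60555961196) (nat_lit 76) (nat_lit 2745974466) (nat_lit 89) (nat_lit 5) (nat_lit 92) (nat_lit 5) (nat_lit 90) (nat_lit 5) (nat_lit 487) (nat_lit 433) (nat_lit 280)) (XT.lf (nat_lit 0) (nat_lit 36195448348) (nat_lit 152) (nat_lit 43680616717) (nat_lit 228) (nat_lit 21232791887) (nat_lit 87) (nat_lit 5) (nat_lit 89) (nat_lit 5) (nat_lit 90) (nat_lit 5) (nat_lit 488) (nat_lit 433) (nat_lit 279)))) (XT.nd (nat_lit 78) (nat_lit 304) (nat_lit 0) (XT.lf (nat_lit 0) (nat_lit 23566036430) (nat_lit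 228) (nat_lit 69606982283) (nat_lit 76) (nat_lit 11313594905) (nat_lit 84) (nat_lit 5) (nat_lit 87) (nat_lit 5) (nat_lit 85) (nat_lit 5) (nat_lit 489) (nat_lit 433) (nat_lit 278)) (XT.nd (nat_lit 78) (nat_lit 152) (nat_lit 0) (XT.lf (nat_lit 0) (nat_lit 32982076397) (nat_lit 152) (nat_lit 38617541975) (nat_lit 228) (nat_lit 36384314906) (nat_lit 82) (nat_lit 5) (nat_lit 84) (nat_lit 5) (nat_lit 85) (nat_lit 5) (nat_lit 490) (nat_lit 433) (nat_lit 277)) (XT.lf (nat_lit 0) (nat_lit 11385652239) (nat_lit 152) (nat_lit 80799428328) (nat_lit 76) (nat_lit 19431762871) (nat_lit 80) (nat_lit 5) (nat_lit 82) (nat_lit 5) (nat_lit 81) (nat_lit 5) (nat_lit 491) (nat_lit 433) (nat_lit 276)))))) (XT.nd (nat_lit 58344) (nat_lit 0) (nat_lit 14896) (XT.nd (nat_lit 58110) (nat_lit 0) (nat_lit 16416) (XT.nd (nat_lit 57954) (nat_lit 0) (nat_lit 16340) (XT.lf (nat_lit 0) (nat_lit 27860590798) (nat_lit 152) (nat_lit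 34372566638) (nat_lit 228) (nat_lit 53144188841) (nat_lit 78) (nat_lit 5) (nat_lit 80) (nat_lit 5) (nat_lit 81) (nat_lit 5) (nat_lit 492) (nat_lit 433) (nat_lit 275)) (XT.nd (nat_lit 78) (nat_lit 0) (nat_lit 76) (XT.lf (nat_lit 0) (nat_lit 3689016504) (nat_lit 1292) (nat_lit 3514840279) (nat_lit 1292) (nat_lit 3514840279) (nat_lit 293) (nat_lit 3) (nat_lit 310) (nat_lit 3) (nat_lit 310) (nat_lit 5) (nat_lit 434) (nat_lit 434) (nat_lit 332)) (XT.lf (nat_lit 0) (nat_lit 7929545172) (nat_lit 1216) (nat_lit 11161404144) (nat_lit 1292) (nat_lit 2871335181) (nat_lit 294) (nat_lit 5) (nat_lit 310) (nat_lit 5) (nat_lit 311) (nat_lit 5) (nat_lit 435) (nat_lit 434) (nat_lit 331)))) (XT.nd (nat_lit 78) (nat_lit 0) (nat_lit 76) (XT.lf (nat_lit 76) (nat_lit 7143457578) (nat_lit 0) (nat_lit 1637306824) (nat_lit 1292) (nat_lit 13724493128) (nat_lit 295) (nat_lit 5) (nat_lit 294) (nat_lit 5) (nat_lit 311) (nat_lit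 5) (nat_lit 436) (nat_lit 434) (nat_lit 330)) (XT.nd (nat_lit 78) (nat_lit 0) (nat_lit 76) (XT.lf (nat_lit 76) (nat_lit 3421398870) (nat_lit 0) (nat_lit 6548153776) (nat_lit 1292) (nat_lit 13096978319) (nat_lit 296) (nat_lit 5) (nat_lit 295) (nat_lit 5) (nat_lit 312) (nat_lit 5) (nat_lit 437) (nat_lit 434) (nat_lit 329)) (XT.lf (nat_lit 0) (nat_lit 11494479356) (nat_lit 1216) (nat_lit 327489219) (nat_lit 1292) (nat_lit 11825600419) (nat_lit 296) (nat_lit 5) (nat_lit 312) (nat_lit 5) (nat_lit 313) (nat_lit 5) (nat_lit 438) (nat_lit 434) (nat_lit 328))))) (XT.nd (nat_lit 234) (nat_lit 1748) (nat_lit 0) (XT.nd (nat_lit 78) (nat_lit 0) (nat_lit 76) (XT.lf (nat_lit 0) (nat_lit 13410275049) (nat_lit 1216) (nat_lit 4039712906) (nat_lit 1292) (nat_lit 6798234096) (nat_lit 297) (nat_lit 5) (nat_lit 313) (nat_lit 5) (nat_lit 314) (nat_lit 5) (nat_lit 439) (nat_lit 434) (nat_lit 327)) (XT.nd (nat_lit 78)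 (nat_lit 0) (nat_lit 0) (XT.lf (nat_lit 0) (nat_lit 15710099607) (nat_lit 1216) (nat_lit 7779077853) (nat_lit 1292) (nat_lit 1381084848) (nat_lit 298) (nat_lit 5) (nat_lit 314) (nat_lit 5) (nat_lit 315) (nat_lit 5) (nat_lit 440) (nat_lit 434) (nat_lit 326)) (XT.lf (nat_lit 76) (nat_lit 13927334304) (nat_lit 0) (nat_lit 4537676979) (nat_lit 1292) (nat_lit 7048192054) (nat_lit 299) (nat_lit 5) (nat_lit 298) (nat_lit 5) (nat_lit 315) (nat_lit 5) (nat_lit 441) (nat_lit 434) (nat_lit 325)))) (XT.nd (nat_lit 156) (nat_lit 1900) (nat_lit 0) (XT.nd (nat_lit 78) (nat_lit 0) (nat_lit 76) (XT.lf (nat_lit 76) (nat_lit 10748108859) (nat_lit 0) (nat_lit 10930018356) (nat_lit 1292) (nat_lit 4500552003) (nat_lit 300) (nat_lit 5) (nat_lit 299) (nat_lit 5) (nat_lit 316) (nat_lit 5) (nat_lit 442) (nat_lit 434) (nat_lit 324)) (XT.lf (nat_lit 76) (nat_lit 7572231196) (nat_lit 0) (nat_lit 17794383016) (nat_lit 1292)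 (nat_lit 1501374707) (nat_lit 301) (nat_lit 5) (nat_lit 300) (nat_lit 5) (nat_lit 317) (nat_lit 5) (nat_lit 443) (nat_lit 434) (nat_lit 323))) (XT.nd (nat_lit 78) (nat_lit 760) (nat_lit 0) (XT.lf (nat_lit 0) (nat_lit 1942106761) (nat_lit 1292) (nat_lit 23196173201) (nat_lit 76) (nat_lit 2443215366) (nat_lit 284) (nat_lit 5) (nat_lit 301) (nat_lit 5) (nat_lit 285) (nat_lit 5) (nat_lit 444) (nat_lit 434) (nat_lit 322)) (XT.lf (nat_lit 0) (nat_lit 1145572566) (nat_lit 760) (nat_lit 4762494649) (nat_lit 836) (nat_lit 22410724528) (nat_lit 274) (nat_lit 5) (nat_lit 284) (nat_lit 5) (nat_lit 285) (nat_lit 5) (nat_lit 445) (nat_lit 434) (nat_lit 321))))))) (XT.nd (nat_lit 1014) (nat_lit 4104) (nat_lit 0) (XT.nd (nat_lit 468) (nat_lit 3344) (nat_lit 0) (XT.nd (nat_lit 234) (nat_lit 1672) (nat_lit 0) (XT.nd (nat_lit 78) (nat_lit 1216) (nat_lit 0) (XT.lf (nat_lit 0) (nat_lit 10463612793) (nat_lit 836) (nat_lit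 2067959306) (nat_lit 76) (nat_lit 16549643511) (nat_lit 274) (nat_lit 5) (nat_lit 285) (nat_lit 5) (nat_lit 275) (nat_lit 5) (nat_lit 446) (nat_lit 434) (nat_lit 320)) (XT.nd (nat_lit 78) (nat_lit 608) (nat_lit 0) (XT.lf (nat_lit 0) (nat_lit 15611722619) (nat_lit 684) (nat_lit 5243654490) (nat_lit 76) (nat_lit 9015441140) (nat_lit 266) (nat_lit 5) (nat_lit 275) (nat_lit 5) (nat_lit 267) (nat_lit 5) (nat_lit 447) (nat_lit 434) (nat_lit 319)) (XT.lf (nat_lit 0) (nat_lit 21379621640) (nat_lit 684) (nat_lit 8397430630) (nat_lit 76) (nat_lit 911978367) (nat_lit 258) (nat_lit 5) (nat_lit 267) (nat_lit 5) (nat_lit 259) (nat_lit 5) (nat_lit 448) (nat_lit 434) (nat_lit 318)))) (XT.nd (nat_lit 78) (nat_lit 1140) (nat_lit 0) (XT.lf (nat_lit 0) (nat_lit 19935978734) (nat_lit 532) (nat_lit 7948021119) (nat_lit 608) (nat_lit 3650712342) (nat_lit 251) (nat_lit 5) (nat_lit 258) (nat_lit 5) (nat_lit 259) (nat_lit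 5) (nat_lit 449) (nat_lit 434) (nat_lit 317)) (XT.nd (nat_lit 78) (nat_lit 532) (nat_lit 0) (XT.lf (nat_lit 0) (nat_lit 2642575574) (nat_lit 608) (nat_lit 14804740556) (nat_lit 76) (nat_lit 14962811227) (nat_lit 243) (nat_lit 5) (nat_lit 251) (nat_lit 5) (nat_lit 244) (nat_lit 5) (nat_lit 450) (nat_lit 434) (nat_lit 316)) (XT.lf (nat_lit 0) (nat_lit 9572332127) (nat_lit 608) (nat_lit 18014919301) (nat_lit 76) (nat_lit 5729059230) (nat_lit 236) (nat_lit 5) (nat_lit 244) (nat_lit 5) (nat_lit 237) (nat_lit 5) (nat_lit 451) (nat_lit 434) (nat_lit 315))))) (XT.nd (nat_lit 234) (nat_lit 1900) (nat_lit 0) (XT.nd (nat_lit 78) (nat_lit 912) (nat_lit 0) (XT.lf (nat_lit 0) (nat_lit 13027008468) (nat_lit 532) (nat_lit 4269090230) (nat_lit 608) (nat_lit 16958279663) (nat_lit 229) (nat_lit 5) (nat_lit 236) (nat_lit 5) (nat_lit 237) (nat_lit 5) (nat_lit 452) (nat_lit 434) (nat_lit 314)) (XT.nd (nat_lit 78) (nat_lit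 456) (nat_lit 0) (XT.lf (nat_lit 0) (nat_lit 10769165336) (nat_lit 456) (nat_lit 15114577331) (nat_lit 532) (nat_lit 9341276970) (nat_lit 223) (nat_lit 5) (nat_lit 229) (nat_lit 5) (nat_lit 230) (nat_lit 5) (nat_lit 453) (nat_lit 434) (nat_lit 313)) (XT.lf (nat_lit 0) (nat_lit 8595744185) (nat_lit 456) (nat_lit 26733977958) (nat_lit 532) (nat_lit 901603051) (nat_lit 217) (nat_lit 5) (nat_lit 223) (nat_lit 5) (nat_lit 224) (nat_lit 5) (nat_lit 454) (nat_lit 434) (nat_lit 312)))) (XT.nd (nat_lit 156) (nat_lit 912) (nat_lit 0) (XT.nd (nat_lit 78) (nat_lit 456) (nat_lit 0) (XT.lf (nat_lit 0) (nat_lit 6415828969) (nat_lit 456) (nat_lit 1850391424) (nat_lit 532) (nat_lit 29005586031) (nat_lit 210) (nat_lit 5) (nat_lit 216) (nat_lit 5) (nat_lit 217) (nat_lit 5) (nat_lit 455) (nat_lit 434) (nat_lit 311)) (XT.lf (nat_lit 0) (nat_lit 4220266243) (nat_lit 456) (nat_lit 14208196328) (nat_lit 532) (nat_lit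 19918941840) (nat_lit 204) (nat_lit 5) (nat_lit 210) (nat_lit 5) (nat_lit 211) (nat_lit 5) (nat_lit 456) (nat_lit 434) (nat_lit 310))) (XT.nd (nat_lit 78) (nat_lit 532) (nat_lit 0) (XT.lf (nat_lit 0) (nat_lit 2124893447) (nat_lit 380) (nat_lit 27441637771) (nat_lit 456) (nat_lit 9896220334) (nat_lit 199) (nat_lit 5) (nat_lit 204) (nat_lit 5) (nat_lit 205) (nat_lit 5) (nat_lit 457) (nat_lit 434) (nat_lit 309)) (XT.lf (nat_lit 0) (nat_lit 120626280) (nat_lit 456) (nat_lit 987777744) (nat_lit 532) (nat_lit 39510491237) (nat_lit 192) (nat_lit 5) (nat_lit 198) (nat_lit 5) (nat_lit 199) (nat_lit 5) (nat_lit 458) (nat_lit 434) (nat_lit 308)))))) (XT.nd (nat_lit 468) (nat_lit 2280) (nat_lit 0) (XT.nd (nat_lit 234) (nat_lit 1064) (nat_lit 0) (XT.nd (nat_lit 78) (nat_lit 760) (nat_lit 0) (XT.lf (nat_lit 0) (nat_lit 13100038101) (nat_lit 532) (nat_lit 1958328027) (nat_lit 76) (nat_lit 26752297736) (nat_lit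 192) (nat_lit 5) (nat_lit 199) (nat_lit 5) (nat_lit 193) (nat_lit 5) (nat_lit 459) (nat_lit 434) (nat_lit 307)) (XT.nd (nat_lit 78) (nat_lit 380) (nat_lit 0) (XT.lf (nat_lit 0) (nat_lit 26199481586) (nat_lit 456) (nat_lit 3920339259) (nat_lit 76) (nat_lit 12926953795) (nat_lit 187) (nat_lit 5) (nat_lit 193) (nat_lit 5) (nat_lit 188) (nat_lit 5) (nat_lit 460) (nat_lit 434) (nat_lit 306)) (XT.lf (nat_lit 0) (nat_lit 38554786149) (nat_lit 380) (nat_lit 1936419002) (nat_lit 456) (nat_lit 3837367116) (nat_lit 182) (nat_lit 5) (nat_lit 187) (nat_lit 5) (nat_lit 188) (nat_lit 5) (nat_lit 461) (nat_lit 434) (nat_lit 305)))) (XT.nd (nat_lit 78) (nat_lit 684) (nat_lit 0) (XT.lf (nat_lit 0) (nat_lit 10304678002) (nat_lit 380) (nat_lit 7724845154) (nat_lit 76) (nat_lit 27621905187) (nat_lit 177) (nat_lit 5) (nat_lit 182) (nat_lit 5) (nat_lit 178) (nat_lit 5) (nat_lit 462) (nat_lit 434) (nat_lit 304)) (XT.nd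 (nat_lit 78) (nat_lit 304) (nat_lit 0) (XT.lf (nat_lit 0) (nat_lit 25626323253) (nat_lit 456) (nat_lit 9581439324) (nat_lit 76) (nat_lit 11814969502) (nat_lit 172) (nat_lit 5) (nat_lit 178) (nat_lit 5) (nat_lit 173) (nat_lit 5) (nat_lit 463) (nat_lit 434) (nat_lit 303)) (XT.lf (nat_lit 0) (nat_lit 37100774656) (nat_lit 304) (nat_lit 5227024870) (nat_lit 380) (nat_lit 6116389471) (nat_lit 168) (nat_lit 5) (nat_lit 172) (nat_lit 5) (nat_lit 173) (nat_lit 5) (nat_lit 464) (nat_lit 434) (nat_lit 302))))) (XT.nd (nat_lit 234) (nat_lit 1292) (nat_lit 0) (XT.nd (nat_lit 78) (nat_lit 608) (nat_lit 0) (XT.lf (nat_lit 0) (nat_lit 10441946737) (nat_lit 380) (nat_lit 13176209616) (nat_lit 76) (nat_lit 26294458729) (nat_lit 163) (nat_lit 5) (nat_lit 168) (nat_lit 5) (nat_lit 164) (nat_lit 5) (nat_lit 465) (nat_lit 434) (nat_lit 301)) (XT.nd (nat_lit 78) (nat_lit 304) (nat_lit 0) (XT.lf (nat_lit 0) (nat_lit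 28300996453) (nat_lit 380) (nat_lit 14919991600) (nat_lit 76) (nat_lit 8213679283) (nat_lit 159) (nat_lit 5) (nat_lit 164) (nat_lit 5) (nat_lit 160) (nat_lit 5) (nat_lit 466) (nat_lit 434) (nat_lit 300)) (XT.lf (nat_lit 0) (nat_lit 36400166964) (nat_lit 304) (nat_lit 11373348672) (nat_lit 380) (nat_lit 5237691443) (nat_lit 155) (nat_lit 5) (nat_lit 159) (nat_lit 5) (nat_lit 160) (nat_lit 5) (nat_lit 467) (nat_lit 434) (nat_lit 299)))) (XT.nd (nat_lit 156) (nat_lit 608) (nat_lit 0) (XT.nd (nat_lit 78) (nat_lit 304) (nat_lit 0) (XT.lf (nat_lit 0) (nat_lit 14008443038) (nat_lit 380) (nat_lit 18356221375) (nat_lit 76) (nat_lit 22276406568) (nat_lit 150) (nat_lit 5) (nat_lit 155) (nat_lit 5) (nat_lit 151) (nat_lit 5) (nat_lit 468) (nat_lit 434) (nat_lit 298)) (XT.lf (nat_lit 0) (nat_lit 34757590190) (nat_lit 380) (nat_lit 19988816979) (nat_lit 76) (nat_lit 1584994615) (nat_lit 146) (nat_lit 5) (nat_lit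 151) (nat_lit 5) (nat_lit 147) (nat_lit 5) (nat_lit 469) (nat_lit 434) (nat_lit 297))) (XT.nd (nat_lit 78) (nat_lit 380) (nat_lit 0) (XT.lf (nat_lit 0) (nat_lit 36434971766) (nat_lit 228) (nat_lit 20972581141) (nat_lit 304) (nat_lit 672795798) (nat_lit 143) (nat_lit 5) (nat_lit 146) (nat_lit 5) (nat_lit 147) (nat_lit 5) (nat_lit 470) (nat_lit 434) (nat_lit 296)) (XT.lf (nat_lit 0) (nat_lit 21561207917) (nat_lit 380) (nat_lit 23350952560) (nat_lit 76) (nat_lit 14977356384) (nat_lit 138) (nat_lit 5) (nat_lit 143) (nat_lit 5) (nat_lit 139) (nat_lit 5) (nat_lit 471) (nat_lit 434) (nat_lit 295))))))))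
noncomputable def xc101 : XT := (XT.nd (nat_lit 59904) (nat_lit 0) (nat_lit 6992) (XT.nd (nat_lit 936) (nat_lit 1596) (nat_lit 0) (XT.nd (nat_lit 468) (nat_lit 1292) (nat_lit 0) (XT.nd (nat_lit 234) (nat_lit 760) (nat_lit 0) (XT.nd (nat_lit 78) (nat_lit 532) (nat_lit 0) (XT.lf (nat_lit 0) (nat_lit 36792227493) (nat_lit 228) (nat_lit 8887123119) (nat_lit 304) (nat_lit 16086002661) (nat_lit 135) (nat_lit 5) (nat_lit 138) (nat_lit 5) (nat_lit 139) (nat_lit 5) (nat_lit 472) (nat_lit 434) (nat_lit 294)) (XT.nd (nat_lit 78) (nat_lit 228) (nat_lit 0) (XT.lf (nat_lit 0) (nat_lit 8009153012) (nat_lit 304) (nat_lit 26646860162) (nat_lit 76) (nat_lit 29050395527) (nat_lit 131) (nat_lit 5) (nat_lit 135) (nat_lit 5) (nat_lit 132) (nat_lit 5) (nat_lit 473) (nat_lit 434) (nat_lit 293)) (XT.lf (nat_lit 0) (nat_lit 33721009383) (nat_lit 304) (nat_lit 28306007822) (nat_lit 76) (nat_lit 3690383140) (nat_lit 128)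 (nat_lit 5) (nat_lit 132) (nat_lit 5) (nat_lit 129) (nat_lit 5) (nat_lit 474) (nat_lit 434) (nat_lit 292)))) (XT.nd (nat_lit 78) (nat_lit 532) (nat_lit 0) (XT.lf (nat_lit 0) (nat_lit 37787224213) (nat_lit 228) (nat_lit 23917439016) (nat_lit 304) (nat_lit 6094692443) (nat_lit 125) (nat_lit 5) (nat_lit 128) (nat_lit 5) (nat_lit 129) (nat_lit 5) (nat_lit 475) (nat_lit 434) (nat_lit 291)) (XT.nd (nat_lit 78) (nat_lit 228) (nat_lit 0) (XT.lf (nat_lit 0) (nat_lit 21512624969) (nat_lit 304) (nat_lit 31786746400) (nat_lit 76) (nat_lit 16655282878) (nat_lit 121) (nat_lit 5) (nat_lit 125) (nat_lit 5) (nat_lit 122) (nat_lit 5) (nat_lit 476) (nat_lit 434) (nat_lit 290)) (XT.lf (nat_lit 0) (nat_lit 38617124137) (nat_lit 228) (nat_lit 12679273553) (nat_lit 304) (nat_lit 20891845856) (nat_lit 118) (nat_lit 5) (nat_lit 121) (nat_lit 5) (nat_lit 122) (nat_lit 5) (nat_lit 477) (nat_lit 434) (nat_lit 289))))) (XT.nd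 (nat_lit 234) (nat_lit 684) (nat_lit 0) (XT.nd (nat_lit 78) (nat_lit 380) (nat_lit 0) (XT.lf (nat_lit 0) (nat_lit 8880170368) (nat_lit 228) (nat_lit 35442544158) (nat_lit 76) (nat_lit 30178446655) (nat_lit 115) (nat_lit 5) (nat_lit 118) (nat_lit 5) (nat_lit 116) (nat_lit 5) (nat_lit 478) (nat_lit 434) (nat_lit 288)) (XT.nd (nat_lit 78) (nat_lit 152) (nat_lit 0) (XT.lf (nat_lit 0) (nat_lit 39525108866) (nat_lit 228) (nat_lit 1041055862) (nat_lit 304) (nat_lit 36331631075) (nat_lit 112) (nat_lit 5) (nat_lit 115) (nat_lit 5) (nat_lit 116) (nat_lit 5) (nat_lit 479) (nat_lit 434) (nat_lit 287)) (XT.lf (nat_lit 0) (nat_lit 39921186854) (nat_lit 152) (nat_lit 35090928688) (nat_lit 228) (nat_lit 4366877086) (nat_lit 110) (nat_lit 5) (nat_lit 112) (nat_lit 5) (nat_lit 113) (nat_lit 5) (nat_lit 480) (nat_lit 434) (nat_lit 286)))) (XT.nd (nat_lit 78) (nat_lit 380) (nat_lit 0) (XT.lf (nat_lit 0) (nat_lit 29515619183)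 (nat_lit 304) (nat_lit 41682527424) (nat_lit 76) (nat_lit 10751006546) (nat_lit 106) (nat_lit 5) (nat_lit 110) (nat_lit 5) (nat_lit 107) (nat_lit 5) (nat_lit 481) (nat_lit 434) (nat_lit 285)) (XT.nd (nat_lit 78) (nat_lit 228) (nat_lit 0) (XT.lf (nat_lit 0) (nat_lit 40549539960) (nat_lit 152) (nat_lit 25604158682) (nat_lit 228) (nat_lit 18458272963) (nat_lit 104) (nat_lit 5) (nat_lit 106) (nat_lit 5) (nat_lit 107) (nat_lit 5) (nat_lit 482) (nat_lit 434) (nat_lit 284)) (XT.lf (nat_lit 0) (nat_lit 17927906758) (nat_lit 228) (nat_lit 46608265315) (nat_lit 76) (nat_lit 22835351491) (nat_lit 101) (nat_lit 5) (nat_lit 104) (nat_lit 5) (nat_lit 102) (nat_lit 5) (nat_lit 483) (nat_lit 434) (nat_lit 283)))))) (XT.nd (nat_lit 468) (nat_lit 532) (nat_lit 0) (XT.nd (nat_lit 234) (nat_lit 532) (nat_lit 0) (XT.nd (nat_lit 78) (nat_lit 380) (nat_lit 0) (XT.lf (nat_lit 0) (nat_lit 40837774571) (nat_lit 152) (nat_lit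 16023392310) (nat_lit 228) (nat_lit 33369118217) (nat_lit 99) (nat_lit 5) (nat_lit 101) (nat_lit 5) (nat_lit 102) (nat_lit 5) (nat_lit 484) (nat_lit 434) (nat_lit 282)) (XT.nd (nat_lit 78) (nat_lit 152) (nat_lit 0) (XT.lf (nat_lit 0) (nat_lit 5643054357) (nat_lit 228) (nat_lit 52386844497) (nat_lit 76) (nat_lit 35164127513) (nat_lit 96) (nat_lit 5) (nat_lit 99) (nat_lit 5) (nat_lit 97) (nat_lit 5) (nat_lit 485) (nat_lit 434) (nat_lit 281)) (XT.lf (nat_lit 0) (nat_lit 40540571159) (nat_lit 152) (nat_lit 6443515898) (nat_lit 228) (nat_lit 49279904864) (nat_lit 94) (nat_lit 5) (nat_lit 96) (nat_lit 5) (nat_lit 97) (nat_lit 5) (nat_lit 486) (nat_lit 434) (nat_lit 280)))) (XT.nd (nat_lit 78) (nat_lit 380) (nat_lit 0) (XT.lf (nat_lit 0) (nat_lit 40050072298) (nat_lit 152) (nat_lit 51727550717) (nat_lit 228) (nat_lit 7668269303) (nat_lit 92) (nat_lit 5) (nat_lit 94) (nat_lit 5) (nat_lit 95) (nat_lit 5)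 (nat_lit 487) (nat_lit 434) (nat_lit 279)) (XT.nd (nat_lit 78) (nat_lit 152) (nat_lit 0) (XT.lf (nat_lit 0) (nat_lit 36369743568) (nat_lit 228) (nat_lit 63422019835) (nat_lit 76) (nat_lit 2953273335) (nat_lit 89) (nat_lit 5) (nat_lit 92) (nat_lit 5) (nat_lit 90) (nat_lit 5) (nat_lit 488) (nat_lit 434) (nat_lit 278)) (XT.lf (nat_lit 0) (nat_lit 38162323958) (nat_lit 152) (nat_lit 45793877475) (nat_lit 228) (nat_lit 22205505266) (nat_lit 87) (nat_lit 5) (nat_lit 89) (nat_lit 5) (nat_lit 90) (nat_lit 5) (nat_lit 489) (nat_lit 434) (nat_lit 277))))) (XT.nd (nat_lit 58188) (nat_lit 0) (nat_lit 16188) (XT.nd (nat_lit 78) (nat_lit 304) (nat_lit 0) (XT.lf (nat_lit 0) (nat_lit 24829530995) (nat_lit 228) (nat_lit 72931175175) (nat_lit 76) (nat_lit 11947679473) (nat_lit 84) (nat_lit 5) (nat_lit 87) (nat_lit 5) (nat_lit 85) (nat_lit 5) (nat_lit 490) (nat_lit 434) (nat_lit 276)) (XT.nd (nat_lit 78) (nat_lit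 152) (nat_lit 0) (XT.lf (nat_lit 0) (nat_lit 34782860252) (nat_lit 152) (nat_lit 40479333026) (nat_lit 228) (nat_lit 38118456107) (nat_lit 82) (nat_lit 5) (nat_lit 84) (nat_lit 5) (nat_lit 85) (nat_lit 5) (nat_lit 491) (nat_lit 434) (nat_lit 275)) (XT.lf (nat_lit 0) (nat_lit 12036463302) (nat_lit 152) (nat_lit 84688678091) (nat_lit 76) (nat_lit 20470095834) (nat_lit 80) (nat_lit 5) (nat_lit 82) (nat_lit 5) (nat_lit 81) (nat_lit 5) (nat_lit 492) (nat_lit 434) (nat_lit 274)))) (XT.nd (nat_lit 156) (nat_lit 0) (nat_lit 76) (XT.nd (nat_lit 78) (nat_lit 0) (nat_lit 76) (XT.lf (nat_lit 0) (nat_lit 4104608932) (nat_lit 1292) (nat_lit 3571528301) (nat_lit 1292) (nat_lit 3571528301) (nat_lit 293) (nat_lit 3) (nat_lit 310) (nat_lit 3) (nat_lit 310) (nat_lit 5) (nat_lit 435) (nat_lit 435) (nat_lit 330)) (XT.lf (nat_lit 0) (nat_lit 8766485097) (nat_lit 1216) (nat_lit 11472825407) (nat_lit 1292) (nat_lit 2807813130)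 (nat_lit 294) (nat_lit 5) (nat_lit 310) (nat_lit 5) (nat_lit 311) (nat_lit 5) (nat_lit 436) (nat_lit 435) (nat_lit 329))) (XT.nd (nat_lit 78) (nat_lit 0) (nat_lit 76) (XT.lf (nat_lit 76) (nat_lit 7740209259) (nat_lit 0) (nat_lit 1901384595) (nat_lit 1292) (nat_lit 13976214523) (nat_lit 295) (nat_lit 5) (nat_lit 294) (nat_lit 5) (nat_lit 311) (nat_lit 5) (nat_lit 437) (nat_lit 435) (nat_lit 328)) (XT.lf (nat_lit 76) (nat_lit 3839229108) (nat_lit 0) (nat_lit 7031210985) (nat_lit 1292) (nat_lit 13337289609) (nat_lit 296) (nat_lit 5) (nat_lit 295) (nat_lit 5) (nat_lit 312) (nat_lit 5) (nat_lit 438) (nat_lit 435) (nat_lit 327))))))) (XT.nd (nat_lit 1014) (nat_lit 5396) (nat_lit 0) (XT.nd (nat_lit 468) (nat_lit 4028) (nat_lit 0) (XT.nd (nat_lit 234) (nat_lit 0) (nat_lit 152) (XT.nd (nat_lit 78) (nat_lit 0) (nat_lit 76) (XT.lf (nat_lit 0) (nat_lit 12451025816) (nat_lit 1216) (nat_lit 95878629) (nat_lit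 1292) (nat_lit 12271535451) (nat_lit 296) (nat_lit 5) (nat_lit 312) (nat_lit 5) (nat_lit 313) (nat_lit 5) (nat_lit 439) (nat_lit 435) (nat_lit 326)) (XT.nd (nat_lit 78) (nat_lit 0) (nat_lit 76) (XT.lf (nat_lit 0) (nat_lit 14445542385) (nat_lit 1216) (nat_lit 3988590571) (nat_lit 1292) (nat_lit 7015507236) (nat_lit 297) (nat_lit 5) (nat_lit 313) (nat_lit 5) (nat_lit 314) (nat_lit 5) (nat_lit 440) (nat_lit 435) (nat_lit 325)) (XT.lf (nat_lit 0) (nat_lit 16844353537) (nat_lit 1216) (nat_lit 7910639965) (nat_lit 1292) (nat_lit 1348271495) (nat_lit 298) (nat_lit 5) (nat_lit 314) (nat_lit 5) (nat_lit 315) (nat_lit 5) (nat_lit 441) (nat_lit 435) (nat_lit 324)))) (XT.nd (nat_lit 78) (nat_lit 0) (nat_lit 76) (XT.lf (nat_lit 76) (nat_lit 14873714715) (nat_lit 0) (nat_lit 4849092274) (nat_lit 1292) (nat_lit 7055974488) (nat_lit 299) (nat_lit 5) (nat_lit 298) (nat_lit 5) (nat_lit 315) (nat_lit 5) (nat_lit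 442) (nat_lit 435) (nat_lit 323)) (XT.nd (nat_lit 78) (nat_lit 0) (nat_lit 76) (XT.lf (nat_lit 76) (nat_lit 11538943710) (nat_lit 0) (nat_lit 11543366531) (nat_lit 1292) (nat_lit 4395651140) (nat_lit 300) (nat_lit 5) (nat_lit 299) (nat_lit 5) (nat_lit 316) (nat_lit 5) (nat_lit 443) (nat_lit 435) (nat_lit 322)) (XT.lf (nat_lit 76) (nat_lit 8207006950) (nat_lit 0) (nat_lit 18734813797) (nat_lit 1292) (nat_lit 1260319917) (nat_lit 301) (nat_lit 5) (nat_lit 300) (nat_lit 5) (nat_lit 317) (nat_lit 5) (nat_lit 444) (nat_lit 435) (nat_lit 321))))) (XT.nd (nat_lit 234) (nat_lit 2356) (nat_lit 0) (XT.nd (nat_lit 78) (nat_lit 760) (nat_lit 0) (XT.lf (nat_lit 0) (nat_lit 2336445610) (nat_lit 1292) (nat_lit 24091750612) (nat_lit 76) (nat_lit 2523418562) (nat_lit 284) (nat_lit 5) (nat_lit 301) (nat_lit 5) (nat_lit 285) (nat_lit 5) (nat_lit 445) (nat_lit 435) (nat_lit 320)) (XT.nd (nat_lit 78) (nat_lit 0) (nat_lit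 0) (XT.lf (nat_lit 0) (nat_lit 1459508308) (nat_lit 760) (nat_lit 5029508947) (nat_lit 836) (nat_lit 23237111194) (nat_lit 274) (nat_lit 5) (nat_lit 284) (nat_lit 5) (nat_lit 285) (nat_lit 5) (nat_lit 446) (nat_lit 435) (nat_lit 319)) (XT.lf (nat_lit 0) (nat_lit 11258478171) (nat_lit 836) (nat_lit 1918464224) (nat_lit 76) (nat_lit 17350148710) (nat_lit 274) (nat_lit 5) (nat_lit 285) (nat_lit 5) (nat_lit 275) (nat_lit 5) (nat_lit 447) (nat_lit 435) (nat_lit 318)))) (XT.nd (nat_lit 156) (nat_lit 1140) (nat_lit 0) (XT.nd (nat_lit 78) (nat_lit 608) (nat_lit 0) (XT.lf (nat_lit 0) (nat_lit 16653268744) (nat_lit 684) (nat_lit 5252178290) (nat_lit 76) (nat_lit 9451050239) (nat_lit 266) (nat_lit 5) (nat_lit 275) (nat_lit 5) (nat_lit 267) (nat_lit 5) (nat_lit 448) (nat_lit 435) (nat_lit 317)) (XT.lf (nat_lit 0) (nat_lit 22699461089) (nat_lit 684) (nat_lit 8563312363) (nat_lit 76) (nat_lit 953151453) (nat_lit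 258) (nat_lit 5) (nat_lit 267) (nat_lit 5) (nat_lit 259) (nat_lit 5) (nat_lit 449) (nat_lit 435) (nat_lit 316))) (XT.nd (nat_lit 78) (nat_lit 608) (nat_lit 0) (XT.lf (nat_lit 0) (nat_lit 21179486903) (nat_lit 532) (nat_lit 8339997193) (nat_lit 608) (nat_lit 3584695168) (nat_lit 251) (nat_lit 5) (nat_lit 258) (nat_lit 5) (nat_lit 259) (nat_lit 5) (nat_lit 450) (nat_lit 435) (nat_lit 315)) (XT.lf (nat_lit 0) (nat_lit 3009246648) (nat_lit 608) (nat_lit 15293635083) (nat_lit 76) (nat_lit 15720687974) (nat_lit 243) (nat_lit 5) (nat_lit 251) (nat_lit 5) (nat_lit 244) (nat_lit 5) (nat_lit 451) (nat_lit 435) (nat_lit 314)))))) (XT.nd (nat_lit 468) (nat_lit 2432) (nat_lit 0) (XT.nd (nat_lit 234) (nat_lit 1444) (nat_lit 0) (XT.nd (nat_lit 78) (nat_lit 988) (nat_lit 0) (XT.lf (nat_lit 0) (nat_lit 10276846189) (nat_lit 608) (nat_lit 18664906445) (nat_lit 76) (nat_lit 6033570204) (nat_lit 236) (nat_lit 5) (nat_lit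 244) (nat_lit 5) (nat_lit 237) (nat_lit 5) (nat_lit 452) (nat_lit 435) (nat_lit 313)) (XT.nd (nat_lit 78) (nat_lit 456) (nat_lit 0) (XT.lf (nat_lit 0) (nat_lit 13921929762) (nat_lit 532) (nat_lit 4456455658) (nat_lit 608) (nat_lit 17582162234) (nat_lit 229) (nat_lit 5) (nat_lit 236) (nat_lit 5) (nat_lit 237) (nat_lit 5) (nat_lit 453) (nat_lit 435) (nat_lit 312)) (XT.lf (nat_lit 0) (nat_lit 11550330849) (nat_lit 456) (nat_lit 15837296355) (nat_lit 532) (nat_lit 9592328519) (nat_lit 223) (nat_lit 5) (nat_lit 229) (nat_lit 5) (nat_lit 230) (nat_lit 5) (nat_lit 454) (nat_lit 435) (nat_lit 311)))) (XT.nd (nat_lit 78) (nat_lit 988) (nat_lit 0) (XT.lf (nat_lit 0) (nat_lit 9267107150) (nat_lit 456) (nat_lit 28031437288) (nat_lit 532) (nat_lit 738254099) (nat_lit 217) (nat_lit 5) (nat_lit 223) (nat_lit 5) (nat_lit 224) (nat_lit 5) (nat_lit 455) (nat_lit 435) (nat_lit 310)) (XT.nd (nat_lit 78) (nat_lit 456)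 (nat_lit 0) (XT.lf (nat_lit 0) (nat_lit 6975243601) (nat_lit 456) (nat_lit 1901211987) (nat_lit 532) (nat_lit 30253012322) (nat_lit 210) (nat_lit 5) (nat_lit 216) (nat_lit 5) (nat_lit 217) (nat_lit 5) (nat_lit 456) (nat_lit 435) (nat_lit 309)) (XT.lf (nat_lit 0) (nat_lit 4668432193) (nat_lit 456) (nat_lit 14871661745) (nat_lit 532) (nat_lit 20718954341) (nat_lit 204) (nat_lit 5) (nat_lit 210) (nat_lit 5) (nat_lit 211) (nat_lit 5) (nat_lit 457) (nat_lit 435) (nat_lit 308))))) (XT.nd (nat_lit 234) (nat_lit 1520) (nat_lit 0) (XT.nd (nat_lit 78) (nat_lit 532) (nat_lit 0) (XT.lf (nat_lit 0) (nat_lit 2466616709) (nat_lit 380) (nat_lit 28762085107) (nat_lit 456) (nat_lit 10201652845) (nat_lit 199) (nat_lit 5) (nat_lit 204) (nat_lit 5) (nat_lit 205) (nat_lit 5) (nat_lit 458) (nat_lit 435) (nat_lit 307)) (XT.nd (nat_lit 78) (nat_lit 0) (nat_lit 0) (XT.lf (nat_lit 0) (nat_lit 358993823) (nat_lit 456) (nat_lit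 983904761) (nat_lit 532) (nat_lit 41301551506) (nat_lit 192) (nat_lit 5) (nat_lit 198) (nat_lit 5) (nat_lit 199) (nat_lit 5) (nat_lit 459) (nat_lit 435) (nat_lit 306)) (XT.lf (nat_lit 0) (nat_lit 13926074619) (nat_lit 532) (nat_lit 1830326163) (nat_lit 76) (nat_lit 28139648374) (nat_lit 192) (nat_lit 5) (nat_lit 199) (nat_lit 5) (nat_lit 193) (nat_lit 5) (nat_lit 460) (nat_lit 435) (nat_lit 305)))) (XT.nd (nat_lit 156) (nat_lit 760) (nat_lit 0) (XT.nd (nat_lit 78) (nat_lit 380) (nat_lit 0) (XT.lf (nat_lit 0) (nat_lit 27674978525) (nat_lit 456) (nat_lit 3892471152) (nat_lit 76) (nat_lit 13626681950) (nat_lit 187) (nat_lit 5) (nat_lit 193) (nat_lit 5) (nat_lit 188) (nat_lit 5) (nat_lit 461) (nat_lit 435) (nat_lit 304)) (XT.lf (nat_lit 0) (nat_lit 40699992906) (nat_lit 380) (nat_lit 1975503751) (nat_lit 456) (nat_lit 3864696991) (nat_lit 182) (nat_lit 5) (nat_lit 187) (nat_lit 5) (nat_lit 188) (nat_lit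 5) (nat_lit 462) (nat_lit 435) (nat_lit 303))) (XT.nd (nat_lit 78) (nat_lit 380) (nat_lit 0) (XT.lf (nat_lit 0) (nat_lit 10976181881) (nat_lit 380) (nat_lit 7892599056) (nat_lit 76) (nat_lit 29060516583) (nat_lit 177) (nat_lit 5) (nat_lit 182) (nat_lit 5) (nat_lit 178) (nat_lit 5) (nat_lit 463) (nat_lit 435) (nat_lit 302)) (XT.lf (nat_lit 0) (nat_lit 27059097807) (nat_lit 456) (nat_lit 9844336132) (nat_lit 76) (nat_lit 12465877523) (nat_lit 172) (nat_lit 5) (nat_lit 178) (nat_lit 5) (nat_lit 173) (nat_lit 5) (nat_lit 464) (nat_lit 435) (nat_lit 301))))))))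
noncomputable def xc102 : XT := (XT.nd (nat_lit 1950) (nat_lit 380) (nat_lit 0) (XT.nd (nat_lit 936) (nat_lit 2736) (nat_lit 0) (XT.nd (nat_lit 468) (nat_lit 1596) (nat_lit 0) (XT.nd (nat_lit 234) (nat_lit 988) (nat_lit 0) (XT.nd (nat_lit 78) (nat_lit 684) (nat_lit 0) (XT.lf (nat_lit 0) (nat_lit 39165791929) (nat_lit 304) (nat_lit 5424662102) (nat_lit 380) (nat_lit 6271543653) (nat_lit 168) (nat_lit 5) (nat_lit 172) (nat_lit 5) (nat_lit 173) (nat_lit 5) (nat_lit 465) (nat_lit 435) (nat_lit 300)) (XT.nd (nat_lit 78) (nat_lit 304) (nat_lit 0) (XT.lf (nat_lit 0) (nat_lit 11107339593) (nat_lit 380) (nat_lit 13624517114) (nat_lit 76) (nat_lit 27672078404) (nat_lit 163) (nat_lit 5) (nat_lit 168) (nat_lit 5) (nat_lit 164) (nat_lit 5) (nat_lit 466) (nat_lit 435) (nat_lit 299)) (XT.lf (nat_lit 0) (nat_lit 29855118415) (nat_lit 380) (nat_lit 15457992541) (nat_lit 76) (nat_lit 8689106288) (nat_lit 159) (nat_lit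 5) (nat_lit 164) (nat_lit 5) (nat_lit 160) (nat_lit 5) (nat_lit 467) (nat_lit 435) (nat_lit 298)))) (XT.nd (nat_lit 78) (nat_lit 684) (nat_lit 0) (XT.lf (nat_lit 0) (nat_lit 38422211712) (nat_lit 304) (nat_lit 11874371459) (nat_lit 380) (nat_lit 5361141752) (nat_lit 155) (nat_lit 5) (nat_lit 159) (nat_lit 5) (nat_lit 160) (nat_lit 5) (nat_lit 468) (nat_lit 435) (nat_lit 297)) (XT.nd (nat_lit 78) (nat_lit 304) (nat_lit 0) (XT.lf (nat_lit 0) (nat_lit 14840697133) (nat_lit 380) (nat_lit 19071858685) (nat_lit 76) (nat_lit 23456603807) (nat_lit 150) (nat_lit 5) (nat_lit 155) (nat_lit 5) (nat_lit 151) (nat_lit 5) (nat_lit 469) (nat_lit 435) (nat_lit 296)) (XT.lf (nat_lit 0) (nat_lit 36623574301) (nat_lit 380) (nat_lit 20788709268) (nat_lit 76) (nat_lit 1731835692) (nat_lit 146) (nat_lit 5) (nat_lit 151) (nat_lit 5) (nat_lit 147) (nat_lit 5) (nat_lit 470) (nat_lit 435) (nat_lit 295))))) (XT.nd (nat_lit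 234) (nat_lit 760) (nat_lit 0) (XT.nd (nat_lit 78) (nat_lit 608) (nat_lit 0) (XT.lf (nat_lit 0) (nat_lit 38450548894) (nat_lit 228) (nat_lit 21951249239) (nat_lit 304) (nat_lit 578842957) (nat_lit 143) (nat_lit 5) (nat_lit 146) (nat_lit 5) (nat_lit 147) (nat_lit 5) (nat_lit 471) (nat_lit 435) (nat_lit 294)) (XT.nd (nat_lit 78) (nat_lit 228) (nat_lit 0) (XT.lf (nat_lit 0) (nat_lit 22760917191) (nat_lit 380) (nat_lit 24324833270) (nat_lit 76) (nat_lit 15794584435) (nat_lit 138) (nat_lit 5) (nat_lit 143) (nat_lit 5) (nat_lit 139) (nat_lit 5) (nat_lit 472) (nat_lit 435) (nat_lit 293)) (XT.lf (nat_lit 0) (nat_lit 38819954363) (nat_lit 228) (nat_lit 9261028135) (nat_lit 304) (nat_lit 16769100562) (nat_lit 135) (nat_lit 5) (nat_lit 138) (nat_lit 5) (nat_lit 139) (nat_lit 5) (nat_lit 473) (nat_lit 435) (nat_lit 292)))) (XT.nd (nat_lit 78) (nat_lit 456) (nat_lit 0) (XT.lf (nat_lit 0) (nat_lit 8525241060)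 (nat_lit 304) (nat_lit 27791392693) (nat_lit 76) (nat_lit 30571619125) (nat_lit 131) (nat_lit 5) (nat_lit 135) (nat_lit 5) (nat_lit 132) (nat_lit 5) (nat_lit 474) (nat_lit 435) (nat_lit 291)) (XT.nd (nat_lit 78) (nat_lit 228) (nat_lit 0) (XT.lf (nat_lit 0) (nat_lit 35519615801) (nat_lit 304) (nat_lit 29536196117) (nat_lit 76) (nat_lit 3944074770) (nat_lit 128) (nat_lit 5) (nat_lit 132) (nat_lit 5) (nat_lit 129) (nat_lit 5) (nat_lit 475) (nat_lit 435) (nat_lit 290)) (XT.lf (nat_lit 0) (nat_lit 39856391319) (nat_lit 228) (nat_lit 25042429618) (nat_lit 304) (nat_lit 6287228120) (nat_lit 125) (nat_lit 5) (nat_lit 128) (nat_lit 5) (nat_lit 129) (nat_lit 5) (nat_lit 476) (nat_lit 435) (nat_lit 289)))))) (XT.nd (nat_lit 468) (nat_lit 1292) (nat_lit 0) (XT.nd (nat_lit 234) (nat_lit 684) (nat_lit 0) (XT.nd (nat_lit 78) (nat_lit 456) (nat_lit 0) (XT.lf (nat_lit 0) (nat_lit 22695402476) (nat_lit 304) (nat_lit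 33196774628) (nat_lit 76) (nat_lit 17556989307) (nat_lit 121) (nat_lit 5) (nat_lit 125) (nat_lit 5) (nat_lit 122) (nat_lit 5) (nat_lit 477) (nat_lit 435) (nat_lit 288)) (XT.nd (nat_lit 78) (nat_lit 228) (nat_lit 0) (XT.lf (nat_lit 0) (nat_lit 40722149577) (nat_lit 228) (nat_lit 13242786274) (nat_lit 304) (nat_lit 21829602456) (nat_lit 118) (nat_lit 5) (nat_lit 121) (nat_lit 5) (nat_lit 122) (nat_lit 5) (nat_lit 478) (nat_lit 435) (nat_lit 287)) (XT.lf (nat_lit 0) (nat_lit 9426258386) (nat_lit 228) (nat_lit 37041087400) (nat_lit 76) (nat_lit 31755805643) (nat_lit 115) (nat_lit 5) (nat_lit 118) (nat_lit 5) (nat_lit 116) (nat_lit 5) (nat_lit 479) (nat_lit 435) (nat_lit 286)))) (XT.nd (nat_lit 78) (nat_lit 456) (nat_lit 0) (XT.lf (nat_lit 0) (nat_lit 41669972525) (nat_lit 228) (nat_lit 1023339775) (nat_lit 304) (nat_lit 38046402945) (nat_lit 112) (nat_lit 5) (nat_lit 115) (nat_lit 5) (nat_lit 116)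 (nat_lit 5) (nat_lit 480) (nat_lit 435) (nat_lit 285)) (XT.nd (nat_lit 78) (nat_lit 304) (nat_lit 0) (XT.lf (nat_lit 0) (nat_lit 42083255058) (nat_lit 152) (nat_lit 36775833466) (nat_lit 228) (nat_lit 4485957798) (nat_lit 110) (nat_lit 5) (nat_lit 112) (nat_lit 5) (nat_lit 113) (nat_lit 5) (nat_lit 481) (nat_lit 435) (nat_lit 284)) (XT.lf (nat_lit 0) (nat_lit 31086321974) (nat_lit 304) (nat_lit 43601347186) (nat_lit 76) (nat_lit 11356089445) (nat_lit 106) (nat_lit 5) (nat_lit 110) (nat_lit 5) (nat_lit 107) (nat_lit 5) (nat_lit 482) (nat_lit 435) (nat_lit 283))))) (XT.nd (nat_lit 234) (nat_lit 760) (nat_lit 0) (XT.nd (nat_lit 78) (nat_lit 380) (nat_lit 0) (XT.lf (nat_lit 0) (nat_lit 42737585086) (nat_lit 152) (nat_lit 26815743712) (nat_lit 228) (nat_lit 19286478697) (nat_lit 104) (nat_lit 5) (nat_lit 106) (nat_lit 5) (nat_lit 107) (nat_lit 5) (nat_lit 483) (nat_lit 435) (nat_lit 282)) (XT.nd (nat_lit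 78) (nat_lit 152) (nat_lit 0) (XT.lf (nat_lit 0) (nat_lit 18914908385) (nat_lit 228) (nat_lit 48778863094) (nat_lit 76) (nat_lit 24043606067) (nat_lit 101) (nat_lit 5) (nat_lit 104) (nat_lit 5) (nat_lit 102) (nat_lit 5) (nat_lit 484) (nat_lit 435) (nat_lit 281)) (XT.lf (nat_lit 0) (nat_lit 43034897707) (nat_lit 152) (nat_lit 16757111430) (nat_lit 228) (nat_lit 34947152881) (nat_lit 99) (nat_lit 5) (nat_lit 101) (nat_lit 5) (nat_lit 102) (nat_lit 5) (nat_lit 485) (nat_lit 435) (nat_lit 280)))) (XT.nd (nat_lit 156) (nat_lit 380) (nat_lit 0) (XT.nd (nat_lit 78) (nat_lit 152) (nat_lit 0) (XT.lf (nat_lit 0) (nat_lit 6011748278) (nat_lit 228) (nat_lit 54851744264) (nat_lit 76) (nat_lit 36987635378) (nat_lit 96) (nat_lit 5) (nat_lit 99) (nat_lit 5) (nat_lit 97) (nat_lit 5) (nat_lit 486) (nat_lit 435) (nat_lit 279)) (XT.lf (nat_lit 0) (nat_lit 42717615113) (nat_lit 152) (nat_lit 6699538530) (nat_lit 228)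 (nat_lit 51657518646) (nat_lit 94) (nat_lit 5) (nat_lit 96) (nat_lit 5) (nat_lit 97) (nat_lit 5) (nat_lit 487) (nat_lit 435) (nat_lit 278))) (XT.nd (nat_lit 78) (nat_lit 228) (nat_lit 0) (XT.lf (nat_lit 0) (nat_lit 42200120485) (nat_lit 152) (nat_lit 54248276387) (nat_lit 228) (nat_lit 7967330080) (nat_lit 92) (nat_lit 5) (nat_lit 94) (nat_lit 5) (nat_lit 95) (nat_lit 5) (nat_lit 488) (nat_lit 435) (nat_lit 277)) (XT.lf (nat_lit 0) (nat_lit 38269014501) (nat_lit 228) (nat_lit 66446418405) (nat_lit 76) (nat_lit 3164429197) (nat_lit 89) (nat_lit 5) (nat_lit 92) (nat_lit 5) (nat_lit 90) (nat_lit 5) (nat_lit 489) (nat_lit 435) (nat_lit 276))))))) (XT.nd (nat_lit 59124) (nat_lit 0) (nat_lit 8740) (XT.nd (nat_lit 58578) (nat_lit 0) (nat_lit 15200) (XT.nd (nat_lit 58344) (nat_lit 0) (nat_lit 15960) (XT.nd (nat_lit 78) (nat_lit 228) (nat_lit 0) (XT.lf (nat_lit 0) (nat_lit 40212937383) (nat_lit 152) (nat_lit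 48019380802) (nat_lit 228) (nat_lit 23235121831) (nat_lit 87) (nat_lit 5) (nat_lit 89) (nat_lit 5) (nat_lit 90) (nat_lit 5) (nat_lit 490) (nat_lit 435) (nat_lit 275)) (XT.nd (nat_lit 58188) (nat_lit 0) (nat_lit 15884) (XT.lf (nat_lit 0) (nat_lit 26148279876) (nat_lit 228) (nat_lit 76436095637) (nat_lit 76) (nat_lit 12607108637) (nat_lit 84) (nat_lit 5) (nat_lit 87) (nat_lit 5) (nat_lit 85) (nat_lit 5) (nat_lit 491) (nat_lit 435) (nat_lit 274)) (XT.lf (nat_lit 0) (nat_lit 4519491626) (nat_lit 1292) (nat_lit 3642119236) (nat_lit 1292) (nat_lit 3642119236) (nat_lit 293) (nat_lit 3) (nat_lit 310) (nat_lit 3) (nat_lit 310) (nat_lit 5) (nat_lit 436) (nat_lit 436) (nat_lit 328)))) (XT.nd (nat_lit 78) (nat_lit 0) (nat_lit 0) (XT.lf (nat_lit 0) (nat_lit 9604321975) (nat_lit 1216) (nat_lit 11822748814) (nat_lit 1292) (nat_lit 2760368132) (nat_lit 294) (nat_lit 5) (nat_lit 310) (nat_lit 5) (nat_lit 311) (nat_lit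 5) (nat_lit 437) (nat_lit 436) (nat_lit 327)) (XT.nd (nat_lit 78) (nat_lit 0) (nat_lit 76) (XT.lf (nat_lit 76) (nat_lit 8344524757) (nat_lit 0) (nat_lit 2161725871) (nat_lit 1292) (nat_lit 14280917983) (nat_lit 295) (nat_lit 5) (nat_lit 294) (nat_lit 5) (nat_lit 311) (nat_lit 5) (nat_lit 438) (nat_lit 436) (nat_lit 326)) (XT.lf (nat_lit 76) (nat_lit 4255009425) (nat_lit 0) (nat_lit 7523950239) (nat_lit 1292) (nat_lit 13628156242) (nat_lit 296) (nat_lit 5) (nat_lit 295) (nat_lit 5) (nat_lit 312) (nat_lit 5) (nat_lit 439) (nat_lit 436) (nat_lit 325))))) (XT.nd (nat_lit 234) (nat_lit 912) (nat_lit 0) (XT.nd (nat_lit 78) (nat_lit 0) (nat_lit 76) (XT.lf (nat_lit 76) (nat_lit 126730152) (nat_lit 0) (nat_lit 13294389419) (nat_lit 1292) (nat_lit 12627768090) (nat_lit 297) (nat_lit 5) (nat_lit 296) (nat_lit 5) (nat_lit 313) (nat_lit 5) (nat_lit 440) (nat_lit 436) (nat_lit 324)) (XT.nd (nat_lit 78) (nat_lit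 0) (nat_lit 76) (XT.lf (nat_lit 0) (nat_lit 15498661756) (nat_lit 1216) (nat_lit 3958443700) (nat_lit 1292) (nat_lit 7255045804) (nat_lit 297) (nat_lit 5) (nat_lit 313) (nat_lit 5) (nat_lit 314) (nat_lit 5) (nat_lit 441) (nat_lit 436) (nat_lit 323)) (XT.lf (nat_lit 0) (nat_lit 18002896792) (nat_lit 1216) (nat_lit 8072710032) (nat_lit 1292) (nat_lit 1323288158) (nat_lit 298) (nat_lit 5) (nat_lit 314) (nat_lit 5) (nat_lit 315) (nat_lit 5) (nat_lit 442) (nat_lit 436) (nat_lit 322)))) (XT.nd (nat_lit 156) (nat_lit 1064) (nat_lit 0) (XT.nd (nat_lit 78) (nat_lit 0) (nat_lit 76) (XT.lf (nat_lit 76) (nat_lit 15844170243) (nat_lit 0) (nat_lit 5168219400) (nat_lit 1292) (nat_lit 7096186211) (nat_lit 299) (nat_lit 5) (nat_lit 298) (nat_lit 5) (nat_lit 315) (nat_lit 5) (nat_lit 443) (nat_lit 436) (nat_lit 321)) (XT.lf (nat_lit 76) (nat_lit 12345758839) (nat_lit 0) (nat_lit 12181167290) (nat_lit 1292) (nat_lit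 4316178855) (nat_lit 300) (nat_lit 5) (nat_lit 299) (nat_lit 5) (nat_lit 316) (nat_lit 5) (nat_lit 444) (nat_lit 436) (nat_lit 320))) (XT.nd (nat_lit 78) (nat_lit 1216) (nat_lit 0) (XT.lf (nat_lit 76) (nat_lit 8849705773) (nat_lit 0) (nat_lit 19717551430) (nat_lit 1292) (nat_lit 1036602556) (nat_lit 301) (nat_lit 5) (nat_lit 300) (nat_lit 5) (nat_lit 317) (nat_lit 5) (nat_lit 445) (nat_lit 436) (nat_lit 319)) (XT.lf (nat_lit 0) (nat_lit 2722867447) (nat_lit 1292) (nat_lit 25056672610) (nat_lit 76) (nat_lit 2611532736) (nat_lit 284) (nat_lit 5) (nat_lit 301) (nat_lit 5) (nat_lit 285) (nat_lit 5) (nat_lit 446) (nat_lit 436) (nat_lit 318)))))) (XT.nd (nat_lit 468) (nat_lit 3344) (nat_lit 0) (XT.nd (nat_lit 234) (nat_lit 1748) (nat_lit 0) (XT.nd (nat_lit 78) (nat_lit 608) (nat_lit 0) (XT.lf (nat_lit 0) (nat_lit 1765279292) (nat_lit 760) (nat_lit 5307188082) (nat_lit 836) (nat_lit 24132164430) (nat_lit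 274) (nat_lit 5) (nat_lit 284) (nat_lit 5) (nat_lit 285) (nat_lit 5) (nat_lit 447) (nat_lit 436) (nat_lit 317)) (XT.nd (nat_lit 78) (nat_lit 608) (nat_lit 0) (XT.lf (nat_lit 0) (nat_lit 12067828147) (nat_lit 836) (nat_lit 1785005986) (nat_lit 76) (nat_lit 18193187232) (nat_lit 274) (nat_lit 5) (nat_lit 285) (nat_lit 5) (nat_lit 275) (nat_lit 5) (nat_lit 448) (nat_lit 436) (nat_lit 316)) (XT.lf (nat_lit 0) (nat_lit 17722630587) (nat_lit 684) (nat_lit 5284711082) (nat_lit 76) (nat_lit 9909849501) (nat_lit 266) (nat_lit 5) (nat_lit 275) (nat_lit 5) (nat_lit 267) (nat_lit 5) (nat_lit 449) (nat_lit 436) (nat_lit 315)))) (XT.nd (nat_lit 78) (nat_lit 1140) (nat_lit 0) (XT.lf (nat_lit 0) (nat_lit 24061970077) (nat_lit 684) (nat_lit 8761101746) (nat_lit 76) (nat_lit 996794665) (nat_lit 258) (nat_lit 5) (nat_lit 267) (nat_lit 5) (nat_lit 259) (nat_lit 5) (nat_lit 450) (nat_lit 436) (nat_lit 314)) (XT.nd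 (nat_lit 78) (nat_lit 608) (nat_lit 0) (XT.lf (nat_lit 0) (nat_lit 22462233795) (nat_lit 532) (nat_lit 8752076434) (nat_lit 608) (nat_lit 3538485218) (nat_lit 251) (nat_lit 5) (nat_lit 258) (nat_lit 5) (nat_lit 259) (nat_lit 5) (nat_lit 451) (nat_lit 436) (nat_lit 313)) (XT.lf (nat_lit 0) (nat_lit 3372445757) (nat_lit 608) (nat_lit 15830341780) (nat_lit 76) (nat_lit 16515553379) (nat_lit 243) (nat_lit 5) (nat_lit 251) (nat_lit 5) (nat_lit 244) (nat_lit 5) (nat_lit 452) (nat_lit 436) (nat_lit 312))))) (XT.nd (nat_lit 234) (nat_lit 1824) (nat_lit 0) (XT.nd (nat_lit 78) (nat_lit 988) (nat_lit 0) (XT.lf (nat_lit 0) (nat_lit 10995584151) (nat_lit 608) (nat_lit 19370706124) (nat_lit 76) (nat_lit 6351627863) (nat_lit 236) (nat_lit 5) (nat_lit 244) (nat_lit 5) (nat_lit 237) (nat_lit 5) (nat_lit 453) (nat_lit 436) (nat_lit 311)) (XT.nd (nat_lit 78) (nat_lit 456) (nat_lit 0) (XT.lf (nat_lit 0) (nat_lit 14838952210)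 (nat_lit 532) (nat_lit 4655614873) (nat_lit 608) (nat_lit 18258067251) (nat_lit 229) (nat_lit 5) (nat_lit 236) (nat_lit 5) (nat_lit 237) (nat_lit 5) (nat_lit 454) (nat_lit 436) (nat_lit 310)) (XT.lf (nat_lit 0) (nat_lit 12347990018) (nat_lit 456) (nat_lit 16599220273) (nat_lit 532) (nat_lit 9876015423) (nat_lit 223) (nat_lit 5) (nat_lit 229) (nat_lit 5) (nat_lit 230) (nat_lit 5) (nat_lit 455) (nat_lit 436) (nat_lit 309)))) (XT.nd (nat_lit 156) (nat_lit 836) (nat_lit 0) (XT.nd (nat_lit 78) (nat_lit 532) (nat_lit 0) (XT.lf (nat_lit 0) (nat_lit 9949578840) (nat_lit 456) (nat_lit 29397417707) (nat_lit 532) (nat_lit 586115462) (nat_lit 217) (nat_lit 5) (nat_lit 223) (nat_lit 5) (nat_lit 224) (nat_lit 5) (nat_lit 456) (nat_lit 436) (nat_lit 308)) (XT.lf (nat_lit 0) (nat_lit 7540444042) (nat_lit 456) (nat_lit 1958450357) (nat_lit 532) (nat_lit 31581669277) (nat_lit 210) (nat_lit 5) (nat_lit 216) (nat_lit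 5) (nat_lit 217) (nat_lit 5) (nat_lit 457) (nat_lit 436) (nat_lit 307))) (XT.nd (nat_lit 78) (nat_lit 380) (nat_lit 0) (XT.lf (nat_lit 0) (nat_lit 5116958237) (nat_lit 456) (nat_lit 15572664878) (nat_lit 532) (nat_lit 21577183608) (nat_lit 204) (nat_lit 5) (nat_lit 210) (nat_lit 5) (nat_lit 211) (nat_lit 5) (nat_lit 458) (nat_lit 436) (nat_lit 306)) (XT.lf (nat_lit 0) (nat_lit 2803533567) (nat_lit 380) (nat_lit 30153355301) (nat_lit 456) (nat_lit 10539963599) (nat_lit 199) (nat_lit 5) (nat_lit 204) (nat_lit 5) (nat_lit 205) (nat_lit 5) (nat_lit 459) (nat_lit 436) (nat_lit 305))))))))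
noncomputable def xc103 : XT := (XT.nd (nat_lit 1950) (nat_lit 1292) (nat_lit 0) (XT.nd (nat_lit 936) (nat_lit 3192) (nat_lit 0) (XT.nd (nat_lit 468) (nat_lit 1976) (nat_lit 0) (XT.nd (nat_lit 234) (nat_lit 1140) (nat_lit 0) (XT.nd (nat_lit 78) (nat_lit 380) (nat_lit 0) (XT.lf (nat_lit 0) (nat_lit 587679322) (nat_lit 456) (nat_lit 984789912) (nat_lit 532) (nat_lit 43199314529) (nat_lit 192) (nat_lit 5) (nat_lit 198) (nat_lit 5) (nat_lit 199) (nat_lit 5) (nat_lit 460) (nat_lit 436) (nat_lit 304)) (XT.nd (nat_lit 78) (nat_lit 380) (nat_lit 0) (XT.lf (nat_lit 0) (nat_lit 14777511785) (nat_lit 532) (nat_lit 1716927945) (nat_lit 76) (nat_lit 29591742586) (nat_lit 192) (nat_lit 5) (nat_lit 199) (nat_lit 5) (nat_lit 193) (nat_lit 5) (nat_lit 461) (nat_lit 436) (nat_lit 303)) (XT.lf (nat_lit 0) (nat_lit 29208861565) (nat_lit 456) (nat_lit 3884024351) (nat_lit 76) (nat_lit 14356433704) (nat_lit 187) (nat_lit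 5) (nat_lit 193) (nat_lit 5) (nat_lit 188) (nat_lit 5) (nat_lit 462) (nat_lit 436) (nat_lit 302)))) (XT.nd (nat_lit 78) (nat_lit 760) (nat_lit 0) (XT.lf (nat_lit 0) (nat_lit 42932241938) (nat_lit 380) (nat_lit 2021910503) (nat_lit 456) (nat_lit 3908690589) (nat_lit 182) (nat_lit 5) (nat_lit 187) (nat_lit 5) (nat_lit 188) (nat_lit 5) (nat_lit 463) (nat_lit 436) (nat_lit 301)) (XT.nd (nat_lit 78) (nat_lit 380) (nat_lit 0) (XT.lf (nat_lit 0) (nat_lit 11666732452) (nat_lit 380) (nat_lit 8089053629) (nat_lit 76) (nat_lit 30565711243) (nat_lit 177) (nat_lit 5) (nat_lit 182) (nat_lit 5) (nat_lit 178) (nat_lit 5) (nat_lit 464) (nat_lit 436) (nat_lit 300)) (XT.lf (nat_lit 0) (nat_lit 28549429922) (nat_lit 456) (nat_lit 10140475698) (nat_lit 76) (nat_lit 13143737882) (nat_lit 172) (nat_lit 5) (nat_lit 178) (nat_lit 5) (nat_lit 173) (nat_lit 5) (nat_lit 465) (nat_lit 436) (nat_lit 299))))) (XT.nd (nat_lit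 234) (nat_lit 988) (nat_lit 0) (XT.nd (nat_lit 78) (nat_lit 684) (nat_lit 0) (XT.lf (nat_lit 0) (nat_lit 41314538251) (nat_lit 304) (nat_lit 5638104721) (nat_lit 380) (nat_lit 6448462975) (nat_lit 168) (nat_lit 5) (nat_lit 172) (nat_lit 5) (nat_lit 173) (nat_lit 5) (nat_lit 466) (nat_lit 436) (nat_lit 298)) (XT.nd (nat_lit 78) (nat_lit 304) (nat_lit 0) (XT.lf (nat_lit 0) (nat_lit 11792679832) (nat_lit 380) (nat_lit 14114810558) (nat_lit 76) (nat_lit 29112731521) (nat_lit 163) (nat_lit 5) (nat_lit 168) (nat_lit 5) (nat_lit 164) (nat_lit 5) (nat_lit 467) (nat_lit 436) (nat_lit 297)) (XT.lf (nat_lit 0) (nat_lit 31474016865) (nat_lit 380) (nat_lit 16042231271) (nat_lit 76) (nat_lit 9182285449) (nat_lit 159) (nat_lit 5) (nat_lit 164) (nat_lit 5) (nat_lit 160) (nat_lit 5) (nat_lit 468) (nat_lit 436) (nat_lit 296)))) (XT.nd (nat_lit 78) (nat_lit 684) (nat_lit 0) (XT.lf (nat_lit 0) (nat_lit 40526575269)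 (nat_lit 304) (nat_lit 12406734344) (nat_lit 380) (nat_lit 5503634881) (nat_lit 155) (nat_lit 5) (nat_lit 159) (nat_lit 5) (nat_lit 160) (nat_lit 5) (nat_lit 469) (nat_lit 436) (nat_lit 295)) (XT.nd (nat_lit 78) (nat_lit 304) (nat_lit 0) (XT.lf (nat_lit 0) (nat_lit 15702307447) (nat_lit 380) (nat_lit 19842074061) (nat_lit 76) (nat_lit 24689639812) (nat_lit 150) (nat_lit 5) (nat_lit 155) (nat_lit 5) (nat_lit 151) (nat_lit 5) (nat_lit 470) (nat_lit 436) (nat_lit 294)) (XT.lf (nat_lit 0) (nat_lit 38570947666) (nat_lit 380) (nat_lit 21647148306) (nat_lit 76) (nat_lit 1879734821) (nat_lit 146) (nat_lit 5) (nat_lit 151) (nat_lit 5) (nat_lit 147) (nat_lit 5) (nat_lit 471) (nat_lit 436) (nat_lit 293)))))) (XT.nd (nat_lit 468) (nat_lit 1596) (nat_lit 0) (XT.nd (nat_lit 234) (nat_lit 760) (nat_lit 0) (XT.nd (nat_lit 78) (nat_lit 608) (nat_lit 0) (XT.lf (nat_lit 0) (nat_lit 40548884538) (nat_lit 228) (nat_lit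 22985355048) (nat_lit 304) (nat_lit 492054828) (nat_lit 143) (nat_lit 5) (nat_lit 146) (nat_lit 5) (nat_lit 147) (nat_lit 5) (nat_lit 472) (nat_lit 436) (nat_lit 292)) (XT.nd (nat_lit 78) (nat_lit 228) (nat_lit 0) (XT.lf (nat_lit 0) (nat_lit 24009302169) (nat_lit 380) (nat_lit 25365413329) (nat_lit 76) (nat_lit 16646318402) (nat_lit 138) (nat_lit 5) (nat_lit 143) (nat_lit 5) (nat_lit 139) (nat_lit 5) (nat_lit 473) (nat_lit 436) (nat_lit 291)) (XT.lf (nat_lit 0) (nat_lit 40931578381) (nat_lit 228) (nat_lit 9660178282) (nat_lit 304) (nat_lit 17497621594) (nat_lit 135) (nat_lit 5) (nat_lit 138) (nat_lit 5) (nat_lit 139) (nat_lit 5) (nat_lit 474) (nat_lit 436) (nat_lit 290)))) (XT.nd (nat_lit 78) (nat_lit 456) (nat_lit 0) (XT.lf (nat_lit 0) (nat_lit 9056383292) (nat_lit 304) (nat_lit 29010612689) (nat_lit 76) (nat_lit 32162516472) (nat_lit 131) (nat_lit 5) (nat_lit 135) (nat_lit 5) (nat_lit 132) (nat_lit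 5) (nat_lit 475) (nat_lit 436) (nat_lit 289)) (XT.nd (nat_lit 78) (nat_lit 228) (nat_lit 0) (XT.lf (nat_lit 0) (nat_lit 37397688154) (nat_lit 304) (nat_lit 30845103796) (nat_lit 76) (nat_lit 4204019980) (nat_lit 128) (nat_lit 5) (nat_lit 132) (nat_lit 5) (nat_lit 129) (nat_lit 5) (nat_lit 476) (nat_lit 436) (nat_lit 288)) (XT.lf (nat_lit 0) (nat_lit 42012300131) (nat_lit 228) (nat_lit 26230259626) (nat_lit 304) (nat_lit 6499821775) (nat_lit 125) (nat_lit 5) (nat_lit 128) (nat_lit 5) (nat_lit 129) (nat_lit 5) (nat_lit 477) (nat_lit 436) (nat_lit 287))))) (XT.nd (nat_lit 234) (nat_lit 836) (nat_lit 0) (XT.nd (nat_lit 78) (nat_lit 456) (nat_lit 0) (XT.lf (nat_lit 0) (nat_lit 23927357414) (nat_lit 304) (nat_lit 34693974727) (nat_lit 76) (nat_lit 18497371458) (nat_lit 121) (nat_lit 5) (nat_lit 125) (nat_lit 5) (nat_lit 122) (nat_lit 5) (nat_lit 478) (nat_lit 436) (nat_lit 286)) (XT.nd (nat_lit 78) (nat_lit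 228) (nat_lit 0) (XT.lf (nat_lit 0) (nat_lit 42916233685) (nat_lit 228) (nat_lit 13841024493) (nat_lit 304) (nat_lit 22824179456) (nat_lit 118) (nat_lit 5) (nat_lit 121) (nat_lit 5) (nat_lit 122) (nat_lit 5) (nat_lit 479) (nat_lit 436) (nat_lit 285)) (XT.lf (nat_lit 0) (nat_lit 9990160421) (nat_lit 228) (nat_lit 38735695997) (nat_lit 76) (nat_lit 33405669989) (nat_lit 115) (nat_lit 5) (nat_lit 118) (nat_lit 5) (nat_lit 116) (nat_lit 5) (nat_lit 480) (nat_lit 436) (nat_lit 284)))) (XT.nd (nat_lit 156) (nat_lit 456) (nat_lit 0) (XT.nd (nat_lit 78) (nat_lit 152) (nat_lit 0) (XT.lf (nat_lit 0) (nat_lit 43906403774) (nat_lit 228) (nat_lit 1011224333) (nat_lit 304) (nat_lit 39856378708) (nat_lit 112) (nat_lit 5) (nat_lit 115) (nat_lit 5) (nat_lit 116) (nat_lit 5) (nat_lit 481) (nat_lit 436) (nat_lit 283)) (XT.lf (nat_lit 0) (nat_lit 44337992742) (nat_lit 152) (nat_lit 38551458104) (nat_lit 228) (nat_lit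 4620221092) (nat_lit 110) (nat_lit 5) (nat_lit 112) (nat_lit 5) (nat_lit 113) (nat_lit 5) (nat_lit 482) (nat_lit 436) (nat_lit 282))) (XT.nd (nat_lit 78) (nat_lit 152) (nat_lit 0) (XT.lf (nat_lit 0) (nat_lit 32726734973) (nat_lit 304) (nat_lit 45631476579) (nat_lit 76) (nat_lit 11985147950) (nat_lit 106) (nat_lit 5) (nat_lit 110) (nat_lit 5) (nat_lit 107) (nat_lit 5) (nat_lit 483) (nat_lit 436) (nat_lit 281)) (XT.lf (nat_lit 0) (nat_lit 45020104366) (nat_lit 152) (nat_lit 28094287901) (nat_lit 228) (nat_lit 20164899761) (nat_lit 104) (nat_lit 5) (nat_lit 106) (nat_lit 5) (nat_lit 107) (nat_lit 5) (nat_lit 484) (nat_lit 436) (nat_lit 280))))))) (XT.nd (nat_lit 59202) (nat_lit 0) (nat_lit 10792) (XT.nd (nat_lit 468) (nat_lit 152) (nat_lit 0) (XT.nd (nat_lit 234) (nat_lit 532) (nat_lit 0) (XT.nd (nat_lit 78) (nat_lit 380) (nat_lit 0) (XT.lf (nat_lit 0) (nat_lit 19942836380) (nat_lit 228) (nat_lit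 51072848892) (nat_lit 76) (nat_lit 25306092040) (nat_lit 101) (nat_lit 5) (nat_lit 104) (nat_lit 5) (nat_lit 102) (nat_lit 5) (nat_lit 485) (nat_lit 436) (nat_lit 279)) (XT.nd (nat_lit 78) (nat_lit 228) (nat_lit 0) (XT.lf (nat_lit 0) (nat_lit 45327444776) (nat_lit 152) (nat_lit 17533787414) (nat_lit 228) (nat_lit 36612495790) (nat_lit 99) (nat_lit 5) (nat_lit 101) (nat_lit 5) (nat_lit 102) (nat_lit 5) (nat_lit 486) (nat_lit 436) (nat_lit 278)) (XT.lf (nat_lit 0) (nat_lit 6390831115) (nat_lit 228) (nat_lit 57454247615) (nat_lit 76) (nat_lit 38896247523) (nat_lit 96) (nat_lit 5) (nat_lit 99) (nat_lit 5) (nat_lit 97) (nat_lit 5) (nat_lit 487) (nat_lit 436) (nat_lit 277)))) (XT.nd (nat_lit 78) (nat_lit 380) (nat_lit 0) (XT.lf (nat_lit 0) (nat_lit 44989564255) (nat_lit 152) (nat_lit 6974512589) (nat_lit 228) (nat_lit 54162044046) (nat_lit 94) (nat_lit 5) (nat_lit 96) (nat_lit 5) (nat_lit 97) (nat_lit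 5) (nat_lit 488) (nat_lit 436) (nat_lit 276)) (XT.nd (nat_lit 78) (nat_lit 228) (nat_lit 0) (XT.lf (nat_lit 0) (nat_lit 44443953786) (nat_lit 152) (nat_lit 56901142028) (nat_lit 228) (nat_lit 8289186209) (nat_lit 92) (nat_lit 5) (nat_lit 94) (nat_lit 5) (nat_lit 95) (nat_lit 5) (nat_lit 489) (nat_lit 436) (nat_lit 275)) (XT.lf (nat_lit 0) (nat_lit 40255738473) (nat_lit 228) (nat_lit 69635675903) (nat_lit 76) (nat_lit 3380239950) (nat_lit 89) (nat_lit 5) (nat_lit 92) (nat_lit 5) (nat_lit 90) (nat_lit 5) (nat_lit 490) (nat_lit 436) (nat_lit 274))))) (XT.nd (nat_lit 58422) (nat_lit 0) (nat_lit 15732) (XT.nd (nat_lit 58266) (nat_lit 0) (nat_lit 15656) (XT.lf (nat_lit 0) (nat_lit 42352833438) (nat_lit 152) (nat_lit 50362127123) (nat_lit 228) (nat_lit 24323718105) (nat_lit 87) (nat_lit 5) (nat_lit 89) (nat_lit 5) (nat_lit 90) (nat_lit 5) (nat_lit 491) (nat_lit 436) (nat_lit 273)) (XT.nd (nat_lit 78)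 (nat_lit 0) (nat_lit 76) (XT.lf (nat_lit 0) (nat_lit 4935626975) (nat_lit 1292) (nat_lit 3726279184) (nat_lit 1292) (nat_lit 3726279184) (nat_lit 293) (nat_lit 3) (nat_lit 310) (nat_lit 3) (nat_lit 310) (nat_lit 5) (nat_lit 437) (nat_lit 437) (nat_lit 326)) (XT.lf (nat_lit 0) (nat_lit 10446907800) (nat_lit 1216) (nat_lit 12210967558) (nat_lit 1292) (nat_lit 2728014062) (nat_lit 294) (nat_lit 5) (nat_lit 310) (nat_lit 5) (nat_lit 311) (nat_lit 5) (nat_lit 438) (nat_lit 437) (nat_lit 325)))) (XT.nd (nat_lit 156) (nat_lit 0) (nat_lit 152) (XT.nd (nat_lit 78) (nat_lit 0) (nat_lit 76) (XT.lf (nat_lit 76) (nat_lit 8958853068) (nat_lit 0) (nat_lit 2419718782) (nat_lit 1292) (nat_lit 14637496974) (nat_lit 295) (nat_lit 5) (nat_lit 294) (nat_lit 5) (nat_lit 311) (nat_lit 5) (nat_lit 439) (nat_lit 437) (nat_lit 324)) (XT.lf (nat_lit 76) (nat_lit 4670770201) (nat_lit 0) (nat_lit 8028200997) (nat_lit 1292)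 (nat_lit 13968522923) (nat_lit 296) (nat_lit 5) (nat_lit 295) (nat_lit 5) (nat_lit 312) (nat_lit 5) (nat_lit 440) (nat_lit 437) (nat_lit 323))) (XT.nd (nat_lit 78) (nat_lit 0) (nat_lit 76) (XT.lf (nat_lit 76) (nat_lit 341144931) (nat_lit 0) (nat_lit 14067157103) (nat_lit 1292) (nat_lit 12933502716) (nat_lit 297) (nat_lit 5) (nat_lit 296) (nat_lit 5) (nat_lit 313) (nat_lit 5) (nat_lit 441) (nat_lit 437) (nat_lit 322)) (XT.lf (nat_lit 0) (nat_lit 16573678520) (nat_lit 1216) (nat_lit 3948133322) (nat_lit 1292) (nat_lit 7516903043) (nat_lit 297) (nat_lit 5) (nat_lit 313) (nat_lit 5) (nat_lit 314) (nat_lit 5) (nat_lit 442) (nat_lit 437) (nat_lit 321)))))) (XT.nd (nat_lit 468) (nat_lit 3420) (nat_lit 0) (XT.nd (nat_lit 234) (nat_lit 1824) (nat_lit 0) (XT.nd (nat_lit 78) (nat_lit 0) (nat_lit 0) (XT.lf (nat_lit 0) (nat_lit 19189958256) (nat_lit 1216) (nat_lit 8264588679) (nat_lit 1292) (nat_lit 1305645843)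 (nat_lit 298) (nat_lit 5) (nat_lit 314) (nat_lit 5) (nat_lit 315) (nat_lit 5) (nat_lit 443) (nat_lit 437) (nat_lit 320)) (XT.nd (nat_lit 78) (nat_lit 0) (nat_lit 76) (XT.lf (nat_lit 76) (nat_lit 16842065642) (nat_lit 0) (nat_lit 5496174600) (nat_lit 1292) (nat_lit 7167469896) (nat_lit 299) (nat_lit 5) (nat_lit 298) (nat_lit 5) (nat_lit 315) (nat_lit 5) (nat_lit 444) (nat_lit 437) (nat_lit 319)) (XT.lf (nat_lit 76) (nat_lit 13171543783) (nat_lit 0) (nat_lit 12845221058) (nat_lit 1292) (nat_lit 4260554834) (nat_lit 300) (nat_lit 5) (nat_lit 299) (nat_lit 5) (nat_lit 316) (nat_lit 5) (nat_lit 445) (nat_lit 437) (nat_lit 318)))) (XT.nd (nat_lit 78) (nat_lit 1976) (nat_lit 0) (XT.lf (nat_lit 76) (nat_lit 9502937978) (nat_lit 0) (nat_lit 20745149586) (nat_lit 1292) (nat_lit 828357076) (nat_lit 301) (nat_lit 5) (nat_lit 300) (nat_lit 5) (nat_lit 317) (nat_lit 5) (nat_lit 446) (nat_lit 437) (nat_lit 317))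 (XT.nd (nat_lit 78) (nat_lit 760) (nat_lit 0) (XT.lf (nat_lit 0) (nat_lit 3103545565) (nat_lit 1292) (nat_lit 26092122537) (nat_lit 76) (nat_lit 2707590774) (nat_lit 284) (nat_lit 5) (nat_lit 301) (nat_lit 5) (nat_lit 285) (nat_lit 5) (nat_lit 447) (nat_lit 437) (nat_lit 316)) (XT.lf (nat_lit 0) (nat_lit 2064695699) (nat_lit 760) (nat_lit 5596315003) (nat_lit 836) (nat_lit 25096775080) (nat_lit 274) (nat_lit 5) (nat_lit 284) (nat_lit 5) (nat_lit 285) (nat_lit 5) (nat_lit 448) (nat_lit 437) (nat_lit 315))))) (XT.nd (nat_lit 234) (nat_lit 2204) (nat_lit 0) (XT.nd (nat_lit 78) (nat_lit 1216) (nat_lit 0) (XT.lf (nat_lit 0) (nat_lit 12894735261) (nat_lit 836) (nat_lit 1666200550) (nat_lit 76) (nat_lit 19080652567) (nat_lit 274) (nat_lit 5) (nat_lit 285) (nat_lit 5) (nat_lit 275) (nat_lit 5) (nat_lit 449) (nat_lit 437) (nat_lit 314)) (XT.nd (nat_lit 78) (nat_lit 608) (nat_lit 0) (XT.lf (nat_lit 0) (nat_lit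 18823454549) (nat_lit 684) (nat_lit 5340260812) (nat_lit 76) (nat_lit 10392867373) (nat_lit 266) (nat_lit 5) (nat_lit 275) (nat_lit 5) (nat_lit 267) (nat_lit 5) (nat_lit 450) (nat_lit 437) (nat_lit 313)) (XT.lf (nat_lit 0) (nat_lit 25471450381) (nat_lit 684) (nat_lit 8990198797) (nat_lit 76) (nat_lit 1042993255) (nat_lit 258) (nat_lit 5) (nat_lit 267) (nat_lit 5) (nat_lit 259) (nat_lit 5) (nat_lit 451) (nat_lit 437) (nat_lit 312)))) (XT.nd (nat_lit 156) (nat_lit 1064) (nat_lit 0) (XT.nd (nat_lit 78) (nat_lit 608) (nat_lit 0) (XT.lf (nat_lit 0) (nat_lit 23788313781) (nat_lit 532) (nat_lit 9185217109) (nat_lit 608) (nat_lit 3510924482) (nat_lit 251) (nat_lit 5) (nat_lit 258) (nat_lit 5) (nat_lit 259) (nat_lit 5) (nat_lit 452) (nat_lit 437) (nat_lit 311)) (XT.lf (nat_lit 0) (nat_lit 3734026572) (nat_lit 608) (nat_lit 16415078771) (nat_lit 76) (nat_lit 17349341031) (nat_lit 243) (nat_lit 5) (nat_lit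 251) (nat_lit 5) (nat_lit 244) (nat_lit 5) (nat_lit 453) (nat_lit 437) (nat_lit 310))) (XT.nd (nat_lit 78) (nat_lit 532) (nat_lit 0) (XT.lf (nat_lit 0) (nat_lit 11731209755) (nat_lit 608) (nat_lit 20132941527) (nat_lit 76) (nat_lit 6684065627) (nat_lit 236) (nat_lit 5) (nat_lit 244) (nat_lit 5) (nat_lit 237) (nat_lit 5) (nat_lit 454) (nat_lit 437) (nat_lit 309)) (XT.lf (nat_lit 0) (nat_lit 15781286178) (nat_lit 532) (nat_lit 4866932063) (nat_lit 608) (nat_lit 18986659417) (nat_lit 229) (nat_lit 5) (nat_lit 236) (nat_lit 5) (nat_lit 237) (nat_lit 5) (nat_lit 455) (nat_lit 437) (nat_lit 308))))))))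
noncomputable def xc104 : XT := (XT.nd (nat_lit 1950) (nat_lit 2204) (nat_lit 0) (XT.nd (nat_lit 936) (nat_lit 3800) (nat_lit 0) (XT.nd (nat_lit 468) (nat_lit 1824) (nat_lit 0) (XT.nd (nat_lit 234) (nat_lit 1368) (nat_lit 0) (XT.nd (nat_lit 78) (nat_lit 988) (nat_lit 0) (XT.lf (nat_lit 0) (nat_lit 13165065371) (nat_lit 456) (nat_lit 17402024008) (nat_lit 532) (nat_lit 10192102341) (nat_lit 223) (nat_lit 5) (nat_lit 229) (nat_lit 5) (nat_lit 230) (nat_lit 5) (nat_lit 456) (nat_lit 437) (nat_lit 307)) (XT.nd (nat_lit 78) (nat_lit 532) (nat_lit 0) (XT.lf (nat_lit 0) (nat_lit 10645802754) (nat_lit 456) (nat_lit 30835006103) (nat_lit 532) (nat_lit 443946094) (nat_lit 217) (nat_lit 5) (nat_lit 223) (nat_lit 5) (nat_lit 224) (nat_lit 5) (nat_lit 457) (nat_lit 437) (nat_lit 306)) (XT.lf (nat_lit 0) (nat_lit 8113782128) (nat_lit 456) (nat_lit 2022066998) (nat_lit 532) (nat_lit 32993865067) (nat_lit 210)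 (nat_lit 5) (nat_lit 216) (nat_lit 5) (nat_lit 217) (nat_lit 5) (nat_lit 458) (nat_lit 437) (nat_lit 305)))) (XT.nd (nat_lit 78) (nat_lit 912) (nat_lit 0) (XT.lf (nat_lit 0) (nat_lit 5567912211) (nat_lit 456) (nat_lit 16312676848) (nat_lit 532) (nat_lit 22494846915) (nat_lit 204) (nat_lit 5) (nat_lit 210) (nat_lit 5) (nat_lit 211) (nat_lit 5) (nat_lit 459) (nat_lit 437) (nat_lit 304)) (XT.nd (nat_lit 78) (nat_lit 532) (nat_lit 0) (XT.lf (nat_lit 0) (nat_lit 3137439065) (nat_lit 380) (nat_lit 31618543192) (nat_lit 456) (nat_lit 10911159613) (nat_lit 199) (nat_lit 5) (nat_lit 204) (nat_lit 5) (nat_lit 205) (nat_lit 5) (nat_lit 460) (nat_lit 437) (nat_lit 303)) (XT.lf (nat_lit 0) (nat_lit 808206878) (nat_lit 456) (nat_lit 990210735) (nat_lit 532) (nat_lit 45207521025) (nat_lit 192) (nat_lit 5) (nat_lit 198) (nat_lit 5) (nat_lit 199) (nat_lit 5) (nat_lit 461) (nat_lit 437) (nat_lit 302))))) (XT.nd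 (nat_lit 234) (nat_lit 1064) (nat_lit 0) (XT.nd (nat_lit 78) (nat_lit 760) (nat_lit 0) (XT.lf (nat_lit 0) (nat_lit 15657097974) (nat_lit 532) (nat_lit 1616910827) (nat_lit 76) (nat_lit 31112247442) (nat_lit 192) (nat_lit 5) (nat_lit 199) (nat_lit 5) (nat_lit 193) (nat_lit 5) (nat_lit 462) (nat_lit 437) (nat_lit 301)) (XT.nd (nat_lit 78) (nat_lit 380) (nat_lit 0) (XT.lf (nat_lit 0) (nat_lit 30805480709) (nat_lit 456) (nat_lit 3894034768) (nat_lit 76) (nat_lit 15118171630) (nat_lit 187) (nat_lit 5) (nat_lit 193) (nat_lit 5) (nat_lit 188) (nat_lit 5) (nat_lit 463) (nat_lit 437) (nat_lit 300)) (XT.lf (nat_lit 0) (nat_lit 45257765044) (nat_lit 380) (nat_lit 2075506313) (nat_lit 456) (nat_lit 3968758903) (nat_lit 182) (nat_lit 5) (nat_lit 187) (nat_lit 5) (nat_lit 188) (nat_lit 5) (nat_lit 464) (nat_lit 437) (nat_lit 299)))) (XT.nd (nat_lit 78) (nat_lit 684) (nat_lit 0) (XT.lf (nat_lit 0) (nat_lit 12378632772)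 (nat_lit 380) (nat_lit 8313755399) (nat_lit 76) (nat_lit 32141315473) (nat_lit 177) (nat_lit 5) (nat_lit 182) (nat_lit 5) (nat_lit 178) (nat_lit 5) (nat_lit 465) (nat_lit 437) (nat_lit 298)) (XT.nd (nat_lit 78) (nat_lit 304) (nat_lit 0) (XT.lf (nat_lit 0) (nat_lit 30101506612) (nat_lit 456) (nat_lit 10469651646) (nat_lit 76) (nat_lit 13850418184) (nat_lit 172) (nat_lit 5) (nat_lit 178) (nat_lit 5) (nat_lit 173) (nat_lit 5) (nat_lit 466) (nat_lit 437) (nat_lit 297)) (XT.lf (nat_lit 0) (nat_lit 43553015028) (nat_lit 304) (nat_lit 5867592282) (nat_lit 380) (nat_lit 6646933416) (nat_lit 168) (nat_lit 5) (nat_lit 172) (nat_lit 5) (nat_lit 173) (nat_lit 5) (nat_lit 467) (nat_lit 437) (nat_lit 296)))))) (XT.nd (nat_lit 468) (nat_lit 1900) (nat_lit 0) (XT.nd (nat_lit 234) (nat_lit 912) (nat_lit 0) (XT.nd (nat_lit 78) (nat_lit 608) (nat_lit 0) (XT.lf (nat_lit 0) (nat_lit 12500203401) (nat_lit 380) (nat_lit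 14647369761) (nat_lit 76) (nat_lit 30620113400) (nat_lit 163) (nat_lit 5) (nat_lit 168) (nat_lit 5) (nat_lit 164) (nat_lit 5) (nat_lit 468) (nat_lit 437) (nat_lit 295)) (XT.nd (nat_lit 78) (nat_lit 304) (nat_lit 0) (XT.lf (nat_lit 0) (nat_lit 33162132701) (nat_lit 380) (nat_lit 16673221839) (nat_lit 76) (nat_lit 9694663981) (nat_lit 159) (nat_lit 5) (nat_lit 164) (nat_lit 5) (nat_lit 160) (nat_lit 5) (nat_lit 469) (nat_lit 437) (nat_lit 294)) (XT.lf (nat_lit 0) (nat_lit 42719119879) (nat_lit 304) (nat_lit 12971419643) (nat_lit 380) (nat_lit 5664926414) (nat_lit 155) (nat_lit 5) (nat_lit 159) (nat_lit 5) (nat_lit 160) (nat_lit 5) (nat_lit 470) (nat_lit 437) (nat_lit 293)))) (XT.nd (nat_lit 78) (nat_lit 532) (nat_lit 0) (XT.lf (nat_lit 0) (nat_lit 16595881285) (nat_lit 380) (nat_lit 20667848912) (nat_lit 76) (nat_lit 25978730252) (nat_lit 150) (nat_lit 5) (nat_lit 155) (nat_lit 5) (nat_lit 151) (nat_lit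 5) (nat_lit 471) (nat_lit 437) (nat_lit 292)) (XT.nd (nat_lit 78) (nat_lit 228) (nat_lit 0) (XT.lf (nat_lit 0) (nat_lit 40604887022) (nat_lit 380) (nat_lit 22565336627) (nat_lit 76) (nat_lit 2029329130) (nat_lit 146) (nat_lit 5) (nat_lit 151) (nat_lit 5) (nat_lit 147) (nat_lit 5) (nat_lit 472) (nat_lit 437) (nat_lit 291)) (XT.lf (nat_lit 0) (nat_lit 42735791985) (nat_lit 228) (nat_lit 24077065746) (nat_lit 304) (nat_lit 411686797) (nat_lit 143) (nat_lit 5) (nat_lit 146) (nat_lit 5) (nat_lit 147) (nat_lit 5) (nat_lit 473) (nat_lit 437) (nat_lit 290))))) (XT.nd (nat_lit 234) (nat_lit 988) (nat_lit 0) (XT.nd (nat_lit 78) (nat_lit 532) (nat_lit 0) (XT.lf (nat_lit 0) (nat_lit 25309848111) (nat_lit 380) (nat_lit 26474353742) (nat_lit 76) (nat_lit 17534874454) (nat_lit 138) (nat_lit 5) (nat_lit 143) (nat_lit 5) (nat_lit 139) (nat_lit 5) (nat_lit 474) (nat_lit 437) (nat_lit 289)) (XT.nd (nat_lit 78) (nat_lit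 304) (nat_lit 0) (XT.lf (nat_lit 0) (nat_lit 43132920384) (nat_lit 228) (nat_lit 10085226869) (nat_lit 304) (nat_lit 18272789297) (nat_lit 135) (nat_lit 5) (nat_lit 138) (nat_lit 5) (nat_lit 139) (nat_lit 5) (nat_lit 475) (nat_lit 437) (nat_lit 288)) (XT.lf (nat_lit 0) (nat_lit 9604331870) (nat_lit 304) (nat_lit 30306631179) (nat_lit 76) (nat_lit 33827165099) (nat_lit 131) (nat_lit 5) (nat_lit 135) (nat_lit 5) (nat_lit 132) (nat_lit 5) (nat_lit 476) (nat_lit 437) (nat_lit 287)))) (XT.nd (nat_lit 156) (nat_lit 532) (nat_lit 0) (XT.nd (nat_lit 78) (nat_lit 228) (nat_lit 0) (XT.lf (nat_lit 0) (nat_lit 39360172620) (nat_lit 304) (nat_lit 32235066806) (nat_lit 76) (nat_lit 4471129343) (nat_lit 128) (nat_lit 5) (nat_lit 132) (nat_lit 5) (nat_lit 129) (nat_lit 5) (nat_lit 477) (nat_lit 437) (nat_lit 286)) (XT.lf (nat_lit 0) (nat_lit 44260841893) (nat_lit 228) (nat_lit 27483458346) (nat_lit 304) (nat_lit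 6732506514) (nat_lit 125) (nat_lit 5) (nat_lit 128) (nat_lit 5) (nat_lit 129) (nat_lit 5) (nat_lit 478) (nat_lit 437) (nat_lit 285))) (XT.nd (nat_lit 78) (nat_lit 228) (nat_lit 0) (XT.lf (nat_lit 0) (nat_lit 25211874776) (nat_lit 304) (nat_lit 36281155429) (nat_lit 76) (nat_lit 19478959020) (nat_lit 121) (nat_lit 5) (nat_lit 125) (nat_lit 5) (nat_lit 122) (nat_lit 5) (nat_lit 479) (nat_lit 437) (nat_lit 284)) (XT.lf (nat_lit 0) (nat_lit 45205334828) (nat_lit 228) (nat_lit 14475115542) (nat_lit 304) (nat_lit 23877494440) (nat_lit 118) (nat_lit 5) (nat_lit 121) (nat_lit 5) (nat_lit 122) (nat_lit 5) (nat_lit 480) (nat_lit 437) (nat_lit 283))))))) (XT.nd (nat_lit 59280) (nat_lit 0) (nat_lit 12844) (XT.nd (nat_lit 468) (nat_lit 912) (nat_lit 0) (XT.nd (nat_lit 234) (nat_lit 684) (nat_lit 0) (XT.nd (nat_lit 78) (nat_lit 380) (nat_lit 0) (XT.lf (nat_lit 0) (nat_lit 10573649499) (nat_lit 228) (nat_lit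 40529672838) (nat_lit 76) (nat_lit 35132256494) (nat_lit 115) (nat_lit 5) (nat_lit 118) (nat_lit 5) (nat_lit 116) (nat_lit 5) (nat_lit 481) (nat_lit 437) (nat_lit 282)) (XT.nd (nat_lit 78) (nat_lit 152) (nat_lit 0) (XT.lf (nat_lit 0) (nat_lit 46240438359) (nat_lit 228) (nat_lit 1004386520) (nat_lit 304) (nat_lit 41765438564) (nat_lit 112) (nat_lit 5) (nat_lit 115) (nat_lit 5) (nat_lit 116) (nat_lit 5) (nat_lit 482) (nat_lit 437) (nat_lit 281)) (XT.lf (nat_lit 0) (nat_lit 46691468280) (nat_lit 152) (nat_lit 40421736646) (nat_lit 228) (nat_lit 4769568114) (nat_lit 110) (nat_lit 5) (nat_lit 112) (nat_lit 5) (nat_lit 113) (nat_lit 5) (nat_lit 483) (nat_lit 437) (nat_lit 280)))) (XT.nd (nat_lit 78) (nat_lit 380) (nat_lit 0) (XT.lf (nat_lit 0) (nat_lit 34441164148) (nat_lit 304) (nat_lit 47777052252) (nat_lit 76) (nat_lit 12639964561) (nat_lit 106) (nat_lit 5) (nat_lit 110) (nat_lit 5) (nat_lit 107)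 (nat_lit 5) (nat_lit 484) (nat_lit 437) (nat_lit 279)) (XT.nd (nat_lit 78) (nat_lit 228) (nat_lit 0) (XT.lf (nat_lit 0) (nat_lit 47403209380) (nat_lit 152) (nat_lit 29442546063) (nat_lit 228) (nat_lit 21095228314) (nat_lit 104) (nat_lit 5) (nat_lit 106) (nat_lit 5) (nat_lit 107) (nat_lit 5) (nat_lit 485) (nat_lit 437) (nat_lit 278)) (XT.lf (nat_lit 0) (nat_lit 21014520218) (nat_lit 228) (nat_lit 53495010740) (nat_lit 76) (nat_lit 26626095662) (nat_lit 101) (nat_lit 5) (nat_lit 104) (nat_lit 5) (nat_lit 102) (nat_lit 5) (nat_lit 486) (nat_lit 437) (nat_lit 277))))) (XT.nd (nat_lit 234) (nat_lit 380) (nat_lit 0) (XT.nd (nat_lit 78) (nat_lit 380) (nat_lit 0) (XT.lf (nat_lit 0) (nat_lit 47721528746) (nat_lit 152) (nat_lit 18354985095) (nat_lit 228) (nat_lit 38368730797) (nat_lit 99) (nat_lit 5) (nat_lit 101) (nat_lit 5) (nat_lit 102) (nat_lit 5) (nat_lit 487) (nat_lit 437) (nat_lit 276)) (XT.nd (nat_lit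 78) (nat_lit 152) (nat_lit 0) (XT.lf (nat_lit 0) (nat_lit 6781570333) (nat_lit 228) (nat_lit 60199899804) (nat_lit 76) (nat_lit 40894783596) (nat_lit 96) (nat_lit 5) (nat_lit 99) (nat_lit 5) (nat_lit 97) (nat_lit 5) (nat_lit 488) (nat_lit 437) (nat_lit 275)) (XT.lf (nat_lit 0) (nat_lit 47362460505) (nat_lit 152) (nat_lit 7268813848) (nat_lit 228) (nat_lit 56799080007) (nat_lit 94) (nat_lit 5) (nat_lit 96) (nat_lit 5) (nat_lit 97) (nat_lit 5) (nat_lit 489) (nat_lit 437) (nat_lit 274)))) (XT.nd (nat_lit 58422) (nat_lit 0) (nat_lit 15504) (XT.nd (nat_lit 78) (nat_lit 228) (nat_lit 0) (XT.lf (nat_lit 0) (nat_lit 46787536760) (nat_lit 152) (nat_lit 59692187176) (nat_lit 228) (nat_lit 8634248355) (nat_lit 92) (nat_lit 5) (nat_lit 94) (nat_lit 5) (nat_lit 95) (nat_lit 5) (nat_lit 490) (nat_lit 437) (nat_lit 273)) (XT.lf (nat_lit 0) (nat_lit 42334986392) (nat_lit 228) (nat_lit 72996767252) (nat_lit 76)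 (nat_lit 3601487134) (nat_lit 89) (nat_lit 5) (nat_lit 92) (nat_lit 5) (nat_lit 90) (nat_lit 5) (nat_lit 491) (nat_lit 437) (nat_lit 272))) (XT.nd (nat_lit 78) (nat_lit 0) (nat_lit 76) (XT.lf (nat_lit 0) (nat_lit 5354889747) (nat_lit 1292) (nat_lit 3823753221) (nat_lit 1292) (nat_lit 3823753221) (nat_lit 293) (nat_lit 3) (nat_lit 310) (nat_lit 3) (nat_lit 310) (nat_lit 5) (nat_lit 438) (nat_lit 438) (nat_lit 324)) (XT.lf (nat_lit 0) (nat_lit 11297933214) (nat_lit 1216) (nat_lit 12637462696) (nat_lit 1292) (nat_lit 2709881907) (nat_lit 294) (nat_lit 5) (nat_lit 310) (nat_lit 5) (nat_lit 311) (nat_lit 5) (nat_lit 439) (nat_lit 438) (nat_lit 323)))))) (XT.nd (nat_lit 468) (nat_lit 2736) (nat_lit 0) (XT.nd (nat_lit 234) (nat_lit 0) (nat_lit 228) (XT.nd (nat_lit 78) (nat_lit 0) (nat_lit 76) (XT.lf (nat_lit 76) (nat_lit 9585573112) (nat_lit 0) (nat_lit 2676674443) (nat_lit 1292) (nat_lit 15045138799)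 (nat_lit 295) (nat_lit 5) (nat_lit 294) (nat_lit 5) (nat_lit 311) (nat_lit 5) (nat_lit 440) (nat_lit 438) (nat_lit 322)) (XT.nd (nat_lit 78) (nat_lit 0) (nat_lit 76) (XT.lf (nat_lit 76) (nat_lit 5088445042) (nat_lit 0) (nat_lit 8545759116) (nat_lit 1292) (nat_lit 14357614710) (nat_lit 296) (nat_lit 5) (nat_lit 295) (nat_lit 5) (nat_lit 312) (nat_lit 5) (nat_lit 441) (nat_lit 438) (nat_lit 321)) (XT.lf (nat_lit 76) (nat_lit 546935304) (nat_lit 0) (nat_lit 14868517873) (nat_lit 1292) (nat_lit 13284800276) (nat_lit 297) (nat_lit 5) (nat_lit 296) (nat_lit 5) (nat_lit 313) (nat_lit 5) (nat_lit 442) (nat_lit 438) (nat_lit 320)))) (XT.nd (nat_lit 78) (nat_lit 0) (nat_lit 76) (XT.lf (nat_lit 0) (nat_lit 17674547186) (nat_lit 1216) (nat_lit 3956666916) (nat_lit 1292) (nat_lit 7801233410) (nat_lit 297) (nat_lit 5) (nat_lit 313) (nat_lit 5) (nat_lit 314) (nat_lit 5) (nat_lit 443) (nat_lit 438) (nat_lit 319))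 (XT.nd (nat_lit 78) (nat_lit 0) (nat_lit 0) (XT.lf (nat_lit 0) (nat_lit 20409698005) (nat_lit 1216) (nat_lit 8485748404) (nat_lit 1292) (nat_lit 1294912967) (nat_lit 298) (nat_lit 5) (nat_lit 314) (nat_lit 5) (nat_lit 315) (nat_lit 5) (nat_lit 444) (nat_lit 438) (nat_lit 318)) (XT.lf (nat_lit 76) (nat_lit 17870732994) (nat_lit 0) (nat_lit 5834061996) (nat_lit 1292) (nat_lit 7268677291) (nat_lit 299) (nat_lit 5) (nat_lit 298) (nat_lit 5) (nat_lit 315) (nat_lit 5) (nat_lit 445) (nat_lit 438) (nat_lit 317))))) (XT.nd (nat_lit 234) (nat_lit 1976) (nat_lit 0) (XT.nd (nat_lit 78) (nat_lit 1140) (nat_lit 0) (XT.lf (nat_lit 76) (nat_lit 14019233898) (nat_lit 0) (nat_lit 13537364563) (nat_lit 1292) (nat_lit 4227384877) (nat_lit 300) (nat_lit 5) (nat_lit 299) (nat_lit 5) (nat_lit 316) (nat_lit 5) (nat_lit 446) (nat_lit 438) (nat_lit 316)) (XT.nd (nat_lit 78) (nat_lit 1216) (nat_lit 0) (XT.lf (nat_lit 76)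 (nat_lit 10169238542) (nat_lit 0) (nat_lit 21820248864) (nat_lit 1292) (nat_lit 633878688) (nat_lit 301) (nat_lit 5) (nat_lit 300) (nat_lit 5) (nat_lit 317) (nat_lit 5) (nat_lit 447) (nat_lit 438) (nat_lit 315)) (XT.lf (nat_lit 0) (nat_lit 3480523066) (nat_lit 1292) (nat_lit 27199555237) (nat_lit 76) (nat_lit 2811660927) (nat_lit 284) (nat_lit 5) (nat_lit 301) (nat_lit 5) (nat_lit 285) (nat_lit 5) (nat_lit 448) (nat_lit 438) (nat_lit 314)))) (XT.nd (nat_lit 156) (nat_lit 1216) (nat_lit 0) (XT.nd (nat_lit 78) (nat_lit 0) (nat_lit 0) (XT.lf (nat_lit 0) (nat_lit 2359451974) (nat_lit 760) (nat_lit 5897688592) (nat_lit 836) (nat_lit 26132114903) (nat_lit 274) (nat_lit 5) (nat_lit 284) (nat_lit 5) (nat_lit 285) (nat_lit 5) (nat_lit 449) (nat_lit 438) (nat_lit 313)) (XT.lf (nat_lit 0) (nat_lit 13742207359) (nat_lit 836) (nat_lit 1560797892) (nat_lit 76) (nat_lit 20014554560) (nat_lit 274) (nat_lit 5)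 (nat_lit 285) (nat_lit 5) (nat_lit 275) (nat_lit 5) (nat_lit 450) (nat_lit 438) (nat_lit 312))) (XT.nd (nat_lit 78) (nat_lit 608) (nat_lit 0) (XT.lf (nat_lit 0) (nat_lit 19959359641) (nat_lit 684) (nat_lit 5417989657) (nat_lit 76) (nat_lit 10901195909) (nat_lit 266) (nat_lit 5) (nat_lit 275) (nat_lit 5) (nat_lit 267) (nat_lit 5) (nat_lit 451) (nat_lit 438) (nat_lit 311)) (XT.lf (nat_lit 0) (nat_lit 26932217276) (nat_lit 684) (nat_lit 9250177638) (nat_lit 76) (nat_lit 1091840293) (nat_lit 258) (nat_lit 5) (nat_lit 267) (nat_lit 5) (nat_lit 259) (nat_lit 5) (nat_lit 452) (nat_lit 438) (nat_lit 310))))))))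
noncomputable def xc105 : XT := (XT.nd (nat_lit 1950) (nat_lit 2964) (nat_lit 0) (XT.nd (nat_lit 936) (nat_lit 4256) (nat_lit 0) (XT.nd (nat_lit 468) (nat_lit 2280) (nat_lit 0) (XT.nd (nat_lit 234) (nat_lit 1444) (nat_lit 0) (XT.nd (nat_lit 78) (nat_lit 1140) (nat_lit 0) (XT.lf (nat_lit 0) (nat_lit 25161827698) (nat_lit 532) (nat_lit 9640429759) (nat_lit 608) (nat_lit 3500996787) (nat_lit 251) (nat_lit 5) (nat_lit 258) (nat_lit 5) (nat_lit 259) (nat_lit 5) (nat_lit 453) (nat_lit 438) (nat_lit 309)) (XT.nd (nat_lit 78) (nat_lit 532) (nat_lit 0) (XT.lf (nat_lit 0) (nat_lit 4095746973) (nat_lit 608) (nat_lit 17048277066) (nat_lit 76) (nat_lit 18224073374) (nat_lit 243) (nat_lit 5) (nat_lit 251) (nat_lit 5) (nat_lit 244) (nat_lit 5) (nat_lit 454) (nat_lit 438) (nat_lit 308)) (XT.lf (nat_lit 0) (nat_lit 12486338403) (nat_lit 608) (nat_lit 20952468509) (nat_lit 76) (nat_lit 7031744074) (nat_lit 236)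 (nat_lit 5) (nat_lit 244) (nat_lit 5) (nat_lit 237) (nat_lit 5) (nat_lit 455) (nat_lit 438) (nat_lit 307)))) (XT.nd (nat_lit 78) (nat_lit 912) (nat_lit 0) (XT.lf (nat_lit 0) (nat_lit 16752106821) (nat_lit 532) (nat_lit 5090810590) (nat_lit 608) (nat_lit 19768816699) (nat_lit 229) (nat_lit 5) (nat_lit 236) (nat_lit 5) (nat_lit 237) (nat_lit 5) (nat_lit 456) (nat_lit 438) (nat_lit 306)) (XT.nd (nat_lit 78) (nat_lit 456) (nat_lit 0) (XT.lf (nat_lit 0) (nat_lit 14004430523) (nat_lit 456) (nat_lit 18247492756) (nat_lit 532) (nat_lit 10540515755) (nat_lit 223) (nat_lit 5) (nat_lit 229) (nat_lit 5) (nat_lit 230) (nat_lit 5) (nat_lit 457) (nat_lit 438) (nat_lit 305)) (XT.lf (nat_lit 0) (nat_lit 11358360440) (nat_lit 456) (nat_lit 32347475239) (nat_lit 532) (nat_lit 310610392) (nat_lit 217) (nat_lit 5) (nat_lit 223) (nat_lit 5) (nat_lit 224) (nat_lit 5) (nat_lit 458) (nat_lit 438) (nat_lit 304))))) (XT.nd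 (nat_lit 234) (nat_lit 912) (nat_lit 0) (XT.nd (nat_lit 78) (nat_lit 836) (nat_lit 0) (XT.lf (nat_lit 0) (nat_lit 8697535528) (nat_lit 456) (nat_lit 2092053906) (nat_lit 532) (nat_lit 34492186280) (nat_lit 210) (nat_lit 5) (nat_lit 216) (nat_lit 5) (nat_lit 217) (nat_lit 5) (nat_lit 459) (nat_lit 438) (nat_lit 303)) (XT.nd (nat_lit 78) (nat_lit 380) (nat_lit 0) (XT.lf (nat_lit 0) (nat_lit 6023274772) (nat_lit 456) (nat_lit 17093280057) (nat_lit 532) (nat_lit 23473379852) (nat_lit 204) (nat_lit 5) (nat_lit 210) (nat_lit 5) (nat_lit 211) (nat_lit 5) (nat_lit 460) (nat_lit 438) (nat_lit 302)) (XT.lf (nat_lit 0) (nat_lit 3470028767) (nat_lit 380) (nat_lit 33160939854) (nat_lit 456) (nat_lit 11315400436) (nat_lit 199) (nat_lit 5) (nat_lit 204) (nat_lit 5) (nat_lit 205) (nat_lit 5) (nat_lit 461) (nat_lit 438) (nat_lit 301)))) (XT.nd (nat_lit 78) (nat_lit 380) (nat_lit 0) (XT.lf (nat_lit 0) (nat_lit 1021990092)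 (nat_lit 456) (nat_lit 999976444) (nat_lit 532) (nat_lit 47330246980) (nat_lit 192) (nat_lit 5) (nat_lit 198) (nat_lit 5) (nat_lit 199) (nat_lit 5) (nat_lit 462) (nat_lit 438) (nat_lit 300)) (XT.nd (nat_lit 78) (nat_lit 380) (nat_lit 0) (XT.lf (nat_lit 0) (nat_lit 16567581534) (nat_lit 532) (nat_lit 1529172681) (nat_lit 76) (nat_lit 32704973398) (nat_lit 192) (nat_lit 5) (nat_lit 199) (nat_lit 5) (nat_lit 193) (nat_lit 5) (nat_lit 463) (nat_lit 438) (nat_lit 299)) (XT.lf (nat_lit 0) (nat_lit 32469270451) (nat_lit 456) (nat_lit 3921670020) (nat_lit 76) (nat_lit 15913913537) (nat_lit 187) (nat_lit 5) (nat_lit 193) (nat_lit 5) (nat_lit 188) (nat_lit 5) (nat_lit 464) (nat_lit 438) (nat_lit 298)))))) (XT.nd (nat_lit 468) (nat_lit 2128) (nat_lit 0) (XT.nd (nat_lit 234) (nat_lit 988) (nat_lit 0) (XT.nd (nat_lit 78) (nat_lit 760) (nat_lit 0) (XT.lf (nat_lit 0) (nat_lit 47682930855) (nat_lit 380) (nat_lit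 2136197987) (nat_lit 456) (nat_lit 4044415701) (nat_lit 182) (nat_lit 5) (nat_lit 187) (nat_lit 5) (nat_lit 188) (nat_lit 5) (nat_lit 465) (nat_lit 438) (nat_lit 297)) (XT.nd (nat_lit 78) (nat_lit 380) (nat_lit 0) (XT.lf (nat_lit 0) (nat_lit 13114175475) (nat_lit 380) (nat_lit 8566403794) (nat_lit 76) (nat_lit 33791300673) (nat_lit 177) (nat_lit 5) (nat_lit 182) (nat_lit 5) (nat_lit 178) (nat_lit 5) (nat_lit 466) (nat_lit 438) (nat_lit 296)) (XT.lf (nat_lit 0) (nat_lit 31719602526) (nat_lit 456) (nat_lit 10831820998) (nat_lit 76) (nat_lit 14587831073) (nat_lit 172) (nat_lit 5) (nat_lit 178) (nat_lit 5) (nat_lit 173) (nat_lit 5) (nat_lit 467) (nat_lit 438) (nat_lit 295)))) (XT.nd (nat_lit 78) (nat_lit 684) (nat_lit 0) (XT.lf (nat_lit 0) (nat_lit 45887354999) (nat_lit 304) (nat_lit 6113427520) (nat_lit 380) (nat_lit 6866851326) (nat_lit 168) (nat_lit 5) (nat_lit 172) (nat_lit 5) (nat_lit 173) (nat_lit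 5) (nat_lit 468) (nat_lit 438) (nat_lit 294)) (XT.nd (nat_lit 78) (nat_lit 304) (nat_lit 0) (XT.lf (nat_lit 0) (nat_lit 13232142894) (nat_lit 380) (nat_lit 15222657682) (nat_lit 76) (nat_lit 32198053584) (nat_lit 163) (nat_lit 5) (nat_lit 168) (nat_lit 5) (nat_lit 164) (nat_lit 5) (nat_lit 469) (nat_lit 438) (nat_lit 293)) (XT.lf (nat_lit 0) (nat_lit 34924017108) (nat_lit 380) (nat_lit 17351671144) (nat_lit 76) (nat_lit 10227709434) (nat_lit 159) (nat_lit 5) (nat_lit 164) (nat_lit 5) (nat_lit 160) (nat_lit 5) (nat_lit 470) (nat_lit 438) (nat_lit 292))))) (XT.nd (nat_lit 234) (nat_lit 1140) (nat_lit 0) (XT.nd (nat_lit 78) (nat_lit 684) (nat_lit 0) (XT.lf (nat_lit 0) (nat_lit 45005838545) (nat_lit 304) (nat_lit 13569513148) (nat_lit 380) (nat_lit 5844870955) (nat_lit 155) (nat_lit 5) (nat_lit 159) (nat_lit 5) (nat_lit 160) (nat_lit 5) (nat_lit 471) (nat_lit 438) (nat_lit 291)) (XT.nd (nat_lit 78)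 (nat_lit 304) (nat_lit 0) (XT.lf (nat_lit 0) (nat_lit 17524050375) (nat_lit 380) (nat_lit 21550376187) (nat_lit 76) (nat_lit 27327198237) (nat_lit 150) (nat_lit 5) (nat_lit 155) (nat_lit 5) (nat_lit 151) (nat_lit 5) (nat_lit 472) (nat_lit 438) (nat_lit 290)) (XT.lf (nat_lit 0) (nat_lit 42730724999) (nat_lit 380) (nat_lit 23544697251) (nat_lit 76) (nat_lit 2181233290) (nat_lit 146) (nat_lit 5) (nat_lit 151) (nat_lit 5) (nat_lit 147) (nat_lit 5) (nat_lit 473) (nat_lit 438) (nat_lit 289)))) (XT.nd (nat_lit 156) (nat_lit 532) (nat_lit 0) (XT.nd (nat_lit 78) (nat_lit 380) (nat_lit 0) (XT.lf (nat_lit 0) (nat_lit 45017219425) (nat_lit 228) (nat_lit 25228713089) (nat_lit 304) (nat_lit 337059551) (nat_lit 143) (nat_lit 5) (nat_lit 146) (nat_lit 5) (nat_lit 147) (nat_lit 5) (nat_lit 474) (nat_lit 438) (nat_lit 288)) (XT.lf (nat_lit 0) (nat_lit 26666116783) (nat_lit 380) (nat_lit 27653554192) (nat_lit 76)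 (nat_lit 18462629635) (nat_lit 138) (nat_lit 5) (nat_lit 143) (nat_lit 5) (nat_lit 139) (nat_lit 5) (nat_lit 475) (nat_lit 438) (nat_lit 287))) (XT.nd (nat_lit 78) (nat_lit 304) (nat_lit 0) (XT.lf (nat_lit 0) (nat_lit 45429941082) (nat_lit 228) (nat_lit 10536916487) (nat_lit 304) (nat_lit 19095985791) (nat_lit 135) (nat_lit 5) (nat_lit 138) (nat_lit 5) (nat_lit 139) (nat_lit 5) (nat_lit 476) (nat_lit 438) (nat_lit 286)) (XT.lf (nat_lit 0) (nat_lit 10170833646) (nat_lit 304) (nat_lit 31681815669) (nat_lit 76) (nat_lit 35569791204) (nat_lit 131) (nat_lit 5) (nat_lit 135) (nat_lit 5) (nat_lit 132) (nat_lit 5) (nat_lit 477) (nat_lit 438) (nat_lit 285))))))) (XT.nd (nat_lit 1014) (nat_lit 152) (nat_lit 0) (XT.nd (nat_lit 468) (nat_lit 1368) (nat_lit 0) (XT.nd (nat_lit 234) (nat_lit 684) (nat_lit 0) (XT.nd (nat_lit 78) (nat_lit 532) (nat_lit 0) (XT.lf (nat_lit 0) (nat_lit 41412172232) (nat_lit 304) (nat_lit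 33708686651) (nat_lit 76) (nat_lit 4746303374) (nat_lit 128) (nat_lit 5) (nat_lit 132) (nat_lit 5) (nat_lit 129) (nat_lit 5) (nat_lit 478) (nat_lit 438) (nat_lit 284)) (XT.nd (nat_lit 78) (nat_lit 304) (nat_lit 0) (XT.lf (nat_lit 0) (nat_lit 46608057914) (nat_lit 228) (nat_lit 28804738509) (nat_lit 304) (nat_lit 6985407259) (nat_lit 125) (nat_lit 5) (nat_lit 128) (nat_lit 5) (nat_lit 129) (nat_lit 5) (nat_lit 479) (nat_lit 438) (nat_lit 283)) (XT.lf (nat_lit 0) (nat_lit 26552422703) (nat_lit 304) (nat_lit 37961409995) (nat_lit 76) (nat_lit 20504352766) (nat_lit 121) (nat_lit 5) (nat_lit 125) (nat_lit 5) (nat_lit 122) (nat_lit 5) (nat_lit 480) (nat_lit 438) (nat_lit 282)))) (XT.nd (nat_lit 78) (nat_lit 456) (nat_lit 0) (XT.lf (nat_lit 0) (nat_lit 47595569333) (nat_lit 228) (nat_lit 15146299730) (nat_lit 304) (nat_lit 24991646723) (nat_lit 118) (nat_lit 5) (nat_lit 121) (nat_lit 5) (nat_lit 122)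 (nat_lit 5) (nat_lit 481) (nat_lit 438) (nat_lit 281)) (XT.nd (nat_lit 78) (nat_lit 228) (nat_lit 0) (XT.lf (nat_lit 0) (nat_lit 11178505268) (nat_lit 228) (nat_lit 42426625453) (nat_lit 76) (nat_lit 36939937805) (nat_lit 115) (nat_lit 5) (nat_lit 118) (nat_lit 5) (nat_lit 116) (nat_lit 5) (nat_lit 482) (nat_lit 438) (nat_lit 280)) (XT.lf (nat_lit 0) (nat_lit 48678278324) (nat_lit 228) (nat_lit 1002543233) (nat_lit 304) (nat_lit 43777738539) (nat_lit 112) (nat_lit 5) (nat_lit 115) (nat_lit 5) (nat_lit 116) (nat_lit 5) (nat_lit 483) (nat_lit 438) (nat_lit 279))))) (XT.nd (nat_lit 234) (nat_lit 760) (nat_lit 0) (XT.nd (nat_lit 78) (nat_lit 456) (nat_lit 0) (XT.lf (nat_lit 0) (nat_lit 49149920063) (nat_lit 152) (nat_lit 42390855802) (nat_lit 228) (nat_lit 4933974835) (nat_lit 110) (nat_lit 5) (nat_lit 112) (nat_lit 5) (nat_lit 113) (nat_lit 5) (nat_lit 484) (nat_lit 438) (nat_lit 278)) (XT.nd (nat_lit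 78) (nat_lit 152) (nat_lit 0) (XT.lf (nat_lit 0) (nat_lit 36234054488) (nat_lit 304) (nat_lit 50042550527) (nat_lit 76) (nat_lit 13322356634) (nat_lit 106) (nat_lit 5) (nat_lit 110) (nat_lit 5) (nat_lit 107) (nat_lit 5) (nat_lit 485) (nat_lit 438) (nat_lit 277)) (XT.lf (nat_lit 0) (nat_lit 49893188259) (nat_lit 152) (nat_lit 30863465899) (nat_lit 228) (nat_lit 22079317226) (nat_lit 104) (nat_lit 5) (nat_lit 106) (nat_lit 5) (nat_lit 107) (nat_lit 5) (nat_lit 486) (nat_lit 438) (nat_lit 276)))) (XT.nd (nat_lit 156) (nat_lit 380) (nat_lit 0) (XT.nd (nat_lit 78) (nat_lit 152) (nat_lit 0) (XT.lf (nat_lit 0) (nat_lit 22132858037) (nat_lit 228) (nat_lit 56050504500) (nat_lit 76) (nat_lit 28007014070) (nat_lit 101) (nat_lit 5) (nat_lit 104) (nat_lit 5) (nat_lit 102) (nat_lit 5) (nat_lit 487) (nat_lit 438) (nat_lit 275)) (XT.lf (nat_lit 0) (nat_lit 50223443488) (nat_lit 152) (nat_lit 19222401752) (nat_lit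 228) (nat_lit 40219693611) (nat_lit 99) (nat_lit 5) (nat_lit 101) (nat_lit 5) (nat_lit 102) (nat_lit 5) (nat_lit 488) (nat_lit 438) (nat_lit 274))) (XT.nd (nat_lit 78) (nat_lit 152) (nat_lit 0) (XT.lf (nat_lit 0) (nat_lit 7185227229) (nat_lit 228) (nat_lit 63094647454) (nat_lit 76) (nat_lit 42988251753) (nat_lit 96) (nat_lit 5) (nat_lit 99) (nat_lit 5) (nat_lit 97) (nat_lit 5) (nat_lit 489) (nat_lit 438) (nat_lit 273)) (XT.lf (nat_lit 0) (nat_lit 49842527328) (nat_lit 152) (nat_lit 7582890032) (nat_lit 228) (nat_lit 59574574830) (nat_lit 94) (nat_lit 5) (nat_lit 96) (nat_lit 5) (nat_lit 97) (nat_lit 5) (nat_lit 490) (nat_lit 438) (nat_lit 272)))))) (XT.nd (nat_lit 58812) (nat_lit 0) (nat_lit 13832) (XT.nd (nat_lit 58578) (nat_lit 0) (nat_lit 15352) (XT.nd (nat_lit 58422) (nat_lit 0) (nat_lit 15276) (XT.lf (nat_lit 0) (nat_lit 49237013630) (nat_lit 152) (nat_lit 62627806101) (nat_lit 228) (nat_lit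 9003015498) (nat_lit 92) (nat_lit 5) (nat_lit 94) (nat_lit 5) (nat_lit 95) (nat_lit 5) (nat_lit 491) (nat_lit 438) (nat_lit 271)) (XT.nd (nat_lit 78) (nat_lit 0) (nat_lit 76) (XT.lf (nat_lit 0) (nat_lit 5779079969) (nat_lit 1292) (nat_lit 3934360454) (nat_lit 1292) (nat_lit 3934360454) (nat_lit 293) (nat_lit 3) (nat_lit 310) (nat_lit 3) (nat_lit 310) (nat_lit 5) (nat_lit 439) (nat_lit 439) (nat_lit 322)) (XT.lf (nat_lit 0) (nat_lit 12160952345) (nat_lit 1216) (nat_lit 13102394117) (nat_lit 1292) (nat_lit 2705210145) (nat_lit 294) (nat_lit 5) (nat_lit 310) (nat_lit 5) (nat_lit 311) (nat_lit 5) (nat_lit 440) (nat_lit 439) (nat_lit 321)))) (XT.nd (nat_lit 78) (nat_lit 0) (nat_lit 76) (XT.lf (nat_lit 76) (nat_lit 10227008131) (nat_lit 0) (nat_lit 2933836710) (nat_lit 1292) (nat_lit 15503306829) (nat_lit 295) (nat_lit 5) (nat_lit 294) (nat_lit 5) (nat_lit 311) (nat_lit 5) (nat_lit 441) (nat_lit 439)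 (nat_lit 320)) (XT.nd (nat_lit 78) (nat_lit 0) (nat_lit 76) (XT.lf (nat_lit 76) (nat_lit 5509884375) (nat_lit 0) (nat_lit 9078396794) (nat_lit 1292) (nat_lit 14794920063) (nat_lit 296) (nat_lit 5) (nat_lit 295) (nat_lit 5) (nat_lit 312) (nat_lit 5) (nat_lit 442) (nat_lit 439) (nat_lit 319)) (XT.lf (nat_lit 76) (nat_lit 745468578) (nat_lit 0) (nat_lit 15700835299) (nat_lit 1292) (nat_lit 13681124120) (nat_lit 297) (nat_lit 5) (nat_lit 296) (nat_lit 5) (nat_lit 313) (nat_lit 5) (nat_lit 443) (nat_lit 439) (nat_lit 318))))) (XT.nd (nat_lit 234) (nat_lit 1748) (nat_lit 0) (XT.nd (nat_lit 78) (nat_lit 0) (nat_lit 76) (XT.lf (nat_lit 0) (nat_lit 18805154128) (nat_lit 1216) (nat_lit 3983186818) (nat_lit 1292) (nat_lit 8108288472) (nat_lit 297) (nat_lit 5) (nat_lit 313) (nat_lit 5) (nat_lit 314) (nat_lit 5) (nat_lit 444) (nat_lit 439) (nat_lit 317)) (XT.nd (nat_lit 78) (nat_lit 0) (nat_lit 0) (XT.lf (nat_lit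 0) (nat_lit 21666229922) (nat_lit 1216) (nat_lit 8735822936) (nat_lit 1292) (nat_lit 1290710617) (nat_lit 298) (nat_lit 5) (nat_lit 314) (nat_lit 5) (nat_lit 315) (nat_lit 5) (nat_lit 445) (nat_lit 439) (nat_lit 316)) (XT.lf (nat_lit 76) (nat_lit 18933488754) (nat_lit 0) (nat_lit 6182979305) (nat_lit 1292) (nat_lit 7398853923) (nat_lit 299) (nat_lit 5) (nat_lit 298) (nat_lit 5) (nat_lit 315) (nat_lit 5) (nat_lit 446) (nat_lit 439) (nat_lit 315)))) (XT.nd (nat_lit 156) (nat_lit 1900) (nat_lit 0) (XT.nd (nat_lit 78) (nat_lit 0) (nat_lit 76) (XT.lf (nat_lit 76) (nat_lit 14891726592) (nat_lit 0) (nat_lit 14259477646) (nat_lit 1292) (nat_lit 4215445550) (nat_lit 300) (nat_lit 5) (nat_lit 299) (nat_lit 5) (nat_lit 316) (nat_lit 5) (nat_lit 447) (nat_lit 439) (nat_lit 314)) (XT.lf (nat_lit 76) (nat_lit 10851082479) (nat_lit 0) (nat_lit 22945584935) (nat_lit 1292) (nat_lit 451607777) (nat_lit 301) (nat_lit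 5) (nat_lit 300) (nat_lit 5) (nat_lit 317) (nat_lit 5) (nat_lit 448) (nat_lit 439) (nat_lit 313))) (XT.nd (nat_lit 78) (nat_lit 760) (nat_lit 0) (XT.lf (nat_lit 0) (nat_lit 3855728559) (nat_lit 1292) (nat_lit 28380690889) (nat_lit 76) (nat_lit 2923845437) (nat_lit 284) (nat_lit 5) (nat_lit 301) (nat_lit 5) (nat_lit 285) (nat_lit 5) (nat_lit 449) (nat_lit 439) (nat_lit 312)) (XT.lf (nat_lit 0) (nat_lit 2651140210) (nat_lit 760) (nat_lit 6212126616) (nat_lit 836) (nat_lit 27239628646) (nat_lit 274) (nat_lit 5) (nat_lit 284) (nat_lit 5) (nat_lit 285) (nat_lit 5) (nat_lit 450) (nat_lit 439) (nat_lit 311))))))))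
noncomputable def xc106 : XT := (XT.nd (nat_lit 1950) (nat_lit 3724) (nat_lit 0) (XT.nd (nat_lit 936) (nat_lit 4256) (nat_lit 0) (XT.nd (nat_lit 468) (nat_lit 2812) (nat_lit 0) (XT.nd (nat_lit 234) (nat_lit 1672) (nat_lit 0) (XT.nd (nat_lit 78) (nat_lit 1216) (nat_lit 0) (XT.lf (nat_lit 0) (nat_lit 14613204652) (nat_lit 836) (nat_lit 1467669817) (nat_lit 76) (nat_lit 20997023208) (nat_lit 274) (nat_lit 5) (nat_lit 285) (nat_lit 5) (nat_lit 275) (nat_lit 5) (nat_lit 451) (nat_lit 439) (nat_lit 310)) (XT.nd (nat_lit 78) (nat_lit 608) (nat_lit 0) (XT.lf (nat_lit 0) (nat_lit 21133955618) (nat_lit 684) (nat_lit 5517202796) (nat_lit 76) (nat_lit 11435992817) (nat_lit 266) (nat_lit 5) (nat_lit 275) (nat_lit 5) (nat_lit 267) (nat_lit 5) (nat_lit 452) (nat_lit 439) (nat_lit 309)) (XT.lf (nat_lit 0) (nat_lit 28448618956) (nat_lit 684) (nat_lit 9540776226) (nat_lit 76) (nat_lit 1143436731) (nat_lit 258) (nat_lit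 5) (nat_lit 267) (nat_lit 5) (nat_lit 259) (nat_lit 5) (nat_lit 453) (nat_lit 439) (nat_lit 308)))) (XT.nd (nat_lit 78) (nat_lit 1140) (nat_lit 0) (XT.lf (nat_lit 0) (nat_lit 26586901603) (nat_lit 532) (nat_lit 10118779406) (nat_lit 608) (nat_lit 3507816314) (nat_lit 251) (nat_lit 5) (nat_lit 258) (nat_lit 5) (nat_lit 259) (nat_lit 5) (nat_lit 454) (nat_lit 439) (nat_lit 307)) (XT.nd (nat_lit 78) (nat_lit 532) (nat_lit 0) (XT.lf (nat_lit 0) (nat_lit 4459281779) (nat_lit 608) (nat_lit 17730572421) (nat_lit 76) (nat_lit 19141866876) (nat_lit 243) (nat_lit 5) (nat_lit 251) (nat_lit 5) (nat_lit 244) (nat_lit 5) (nat_lit 455) (nat_lit 439) (nat_lit 306)) (XT.lf (nat_lit 0) (nat_lit 13263551613) (nat_lit 608) (nat_lit 21830368494) (nat_lit 76) (nat_lit 7395553651) (nat_lit 236) (nat_lit 5) (nat_lit 244) (nat_lit 5) (nat_lit 237) (nat_lit 5) (nat_lit 456) (nat_lit 439) (nat_lit 305))))) (XT.nd (nat_lit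 234) (nat_lit 1368) (nat_lit 0) (XT.nd (nat_lit 78) (nat_lit 912) (nat_lit 0) (XT.lf (nat_lit 0) (nat_lit 17754570515) (nat_lit 532) (nat_lit 5327693001) (nat_lit 608) (nat_lit 20605624256) (nat_lit 229) (nat_lit 5) (nat_lit 236) (nat_lit 5) (nat_lit 237) (nat_lit 5) (nat_lit 457) (nat_lit 439) (nat_lit 304)) (XT.nd (nat_lit 78) (nat_lit 456) (nat_lit 0) (XT.lf (nat_lit 0) (nat_lit 14868925867) (nat_lit 456) (nat_lit 19137525033) (nat_lit 532) (nat_lit 10921335916) (nat_lit 223) (nat_lit 5) (nat_lit 229) (nat_lit 5) (nat_lit 230) (nat_lit 5) (nat_lit 458) (nat_lit 439) (nat_lit 303)) (XT.lf (nat_lit 0) (nat_lit 12089786443) (nat_lit 456) (nat_lit 33938290116) (nat_lit 532) (nat_lit 185067889) (nat_lit 217) (nat_lit 5) (nat_lit 223) (nat_lit 5) (nat_lit 224) (nat_lit 5) (nat_lit 459) (nat_lit 439) (nat_lit 302)))) (XT.nd (nat_lit 78) (nat_lit 836) (nat_lit 0) (XT.lf (nat_lit 0) (nat_lit 9293921867)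 (nat_lit 456) (nat_lit 2168433071) (nat_lit 532) (nat_lit 36079496691) (nat_lit 210) (nat_lit 5) (nat_lit 216) (nat_lit 5) (nat_lit 217) (nat_lit 5) (nat_lit 460) (nat_lit 439) (nat_lit 301)) (XT.nd (nat_lit 78) (nat_lit 380) (nat_lit 0) (XT.lf (nat_lit 0) (nat_lit 6484952751) (nat_lit 456) (nat_lit 17916170242) (nat_lit 532) (nat_lit 24514432601) (nat_lit 204) (nat_lit 5) (nat_lit 210) (nat_lit 5) (nat_lit 211) (nat_lit 5) (nat_lit 461) (nat_lit 439) (nat_lit 300)) (XT.lf (nat_lit 0) (nat_lit 3802911385) (nat_lit 380) (nat_lit 34784038549) (nat_lit 456) (nat_lit 11752991630) (nat_lit 199) (nat_lit 5) (nat_lit 204) (nat_lit 5) (nat_lit 205) (nat_lit 5) (nat_lit 462) (nat_lit 439) (nat_lit 299)))))) (XT.nd (nat_lit 468) (nat_lit 2204) (nat_lit 0) (XT.nd (nat_lit 234) (nat_lit 1140) (nat_lit 0) (XT.nd (nat_lit 78) (nat_lit 380) (nat_lit 0) (XT.lf (nat_lit 0) (nat_lit 1230343901) (nat_lit 456) (nat_lit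 1013925536) (nat_lit 532) (nat_lit 49571906634) (nat_lit 192) (nat_lit 5) (nat_lit 198) (nat_lit 5) (nat_lit 199) (nat_lit 5) (nat_lit 463) (nat_lit 439) (nat_lit 298)) (XT.nd (nat_lit 78) (nat_lit 380) (nat_lit 0) (XT.lf (nat_lit 0) (nat_lit 17511723569) (nat_lit 532) (nat_lit 1452720940) (nat_lit 76) (nat_lit 34373885182) (nat_lit 192) (nat_lit 5) (nat_lit 199) (nat_lit 5) (nat_lit 193) (nat_lit 5) (nat_lit 464) (nat_lit 439) (nat_lit 297)) (XT.lf (nat_lit 0) (nat_lit 34204766360) (nat_lit 456) (nat_lit 3966219293) (nat_lit 76) (nat_lit 16745739214) (nat_lit 187) (nat_lit 5) (nat_lit 193) (nat_lit 5) (nat_lit 188) (nat_lit 5) (nat_lit 465) (nat_lit 439) (nat_lit 296)))) (XT.nd (nat_lit 78) (nat_lit 760) (nat_lit 0) (XT.lf (nat_lit 0) (nat_lit 50214267928) (nat_lit 380) (nat_lit 2203929753) (nat_lit 456) (nat_lit 4135270366) (nat_lit 182) (nat_lit 5) (nat_lit 187) (nat_lit 5) (nat_lit 188) (nat_lit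 5) (nat_lit 466) (nat_lit 439) (nat_lit 295)) (XT.nd (nat_lit 78) (nat_lit 380) (nat_lit 0) (XT.lf (nat_lit 0) (nat_lit 13875653921) (nat_lit 380) (nat_lit 8846842464) (nat_lit 76) (nat_lit 35519794892) (nat_lit 177) (nat_lit 5) (nat_lit 182) (nat_lit 5) (nat_lit 178) (nat_lit 5) (nat_lit 467) (nat_lit 439) (nat_lit 294)) (XT.lf (nat_lit 0) (nat_lit 33408095653) (nat_lit 456) (nat_lit 11227096192) (nat_lit 76) (nat_lit 15357940976) (nat_lit 172) (nat_lit 5) (nat_lit 178) (nat_lit 5) (nat_lit 173) (nat_lit 5) (nat_lit 468) (nat_lit 439) (nat_lit 293))))) (XT.nd (nat_lit 234) (nat_lit 1216) (nat_lit 0) (XT.nd (nat_lit 78) (nat_lit 684) (nat_lit 0) (XT.lf (nat_lit 0) (nat_lit 48323844490) (nat_lit 304) (nat_lit 6375974746) (nat_lit 380) (nat_lit 7108217693) (nat_lit 168) (nat_lit 5) (nat_lit 172) (nat_lit 5) (nat_lit 173) (nat_lit 5) (nat_lit 469) (nat_lit 439) (nat_lit 292)) (XT.nd (nat_lit 78) (nat_lit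 304) (nat_lit 0) (XT.lf (nat_lit 0) (nat_lit 13990738086) (nat_lit 380) (nat_lit 15841313861) (nat_lit 76) (nat_lit 33850527252) (nat_lit 163) (nat_lit 5) (nat_lit 168) (nat_lit 5) (nat_lit 164) (nat_lit 5) (nat_lit 470) (nat_lit 439) (nat_lit 291)) (XT.lf (nat_lit 0) (nat_lit 36764347461) (nat_lit 380) (nat_lit 18078473034) (nat_lit 76) (nat_lit 10782915545) (nat_lit 159) (nat_lit 5) (nat_lit 164) (nat_lit 5) (nat_lit 160) (nat_lit 5) (nat_lit 471) (nat_lit 439) (nat_lit 290)))) (XT.nd (nat_lit 156) (nat_lit 532) (nat_lit 0) (XT.nd (nat_lit 78) (nat_lit 380) (nat_lit 0) (XT.lf (nat_lit 0) (nat_lit 47392876661) (nat_lit 304) (nat_lit 14202204246) (nat_lit 380) (nat_lit 6043416744) (nat_lit 155) (nat_lit 5) (nat_lit 159) (nat_lit 5) (nat_lit 160) (nat_lit 5) (nat_lit 472) (nat_lit 439) (nat_lit 289)) (XT.lf (nat_lit 0) (nat_lit 18489481941) (nat_lit 380) (nat_lit 22491055839) (nat_lit 76) (nat_lit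 28738484654) (nat_lit 150) (nat_lit 5) (nat_lit 155) (nat_lit 5) (nat_lit 151) (nat_lit 5) (nat_lit 473) (nat_lit 439) (nat_lit 288))) (XT.nd (nat_lit 78) (nat_lit 228) (nat_lit 0) (XT.lf (nat_lit 0) (nat_lit 44953967486) (nat_lit 380) (nat_lit 24586869794) (nat_lit 76) (nat_lit 2336043439) (nat_lit 146) (nat_lit 5) (nat_lit 151) (nat_lit 5) (nat_lit 147) (nat_lit 5) (nat_lit 474) (nat_lit 439) (nat_lit 287)) (XT.lf (nat_lit 0) (nat_lit 47399271182) (nat_lit 228) (nat_lit 26442796412) (nat_lit 304) (nat_lit 267552814) (nat_lit 143) (nat_lit 5) (nat_lit 146) (nat_lit 5) (nat_lit 147) (nat_lit 5) (nat_lit 475) (nat_lit 439) (nat_lit 286))))))) (XT.nd (nat_lit 1014) (nat_lit 532) (nat_lit 0) (XT.nd (nat_lit 468) (nat_lit 1520) (nat_lit 0) (XT.nd (nat_lit 234) (nat_lit 760) (nat_lit 0) (XT.nd (nat_lit 78) (nat_lit 532) (nat_lit 0) (XT.lf (nat_lit 0) (nat_lit 28081759371) (nat_lit 380) (nat_lit 28905150508)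 (nat_lit 76) (nat_lit 19432030012) (nat_lit 138) (nat_lit 5) (nat_lit 143) (nat_lit 5) (nat_lit 139) (nat_lit 5) (nat_lit 476) (nat_lit 439) (nat_lit 285)) (XT.nd (nat_lit 78) (nat_lit 304) (nat_lit 0) (XT.lf (nat_lit 0) (nat_lit 47828762108) (nat_lit 228) (nat_lit 11016078207) (nat_lit 304) (nat_lit 19968750639) (nat_lit 135) (nat_lit 5) (nat_lit 138) (nat_lit 5) (nat_lit 139) (nat_lit 5) (nat_lit 477) (nat_lit 439) (nat_lit 284)) (XT.lf (nat_lit 0) (nat_lit 10757638533) (nat_lit 304) (nat_lit 33138788929) (nat_lit 76) (nat_lit 37394782214) (nat_lit 131) (nat_lit 5) (nat_lit 135) (nat_lit 5) (nat_lit 132) (nat_lit 5) (nat_lit 478) (nat_lit 439) (nat_lit 283)))) (XT.nd (nat_lit 78) (nat_lit 532) (nat_lit 0) (XT.lf (nat_lit 0) (nat_lit 43558963141) (nat_lit 304) (nat_lit 35268829830) (nat_lit 76) (nat_lit 5030437194) (nat_lit 128) (nat_lit 5) (nat_lit 132) (nat_lit 5) (nat_lit 129) (nat_lit 5) (nat_lit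 479) (nat_lit 439) (nat_lit 282)) (XT.nd (nat_lit 78) (nat_lit 304) (nat_lit 0) (XT.lf (nat_lit 0) (nat_lit 49060160517) (nat_lit 228) (nat_lit 30197000148) (nat_lit 304) (nat_lit 7258736959) (nat_lit 125) (nat_lit 5) (nat_lit 128) (nat_lit 5) (nat_lit 129) (nat_lit 5) (nat_lit 480) (nat_lit 439) (nat_lit 281)) (XT.lf (nat_lit 0) (nat_lit 27952564643) (nat_lit 304) (nat_lit 39738117043) (nat_lit 76) (nat_lit 21576233256) (nat_lit 121) (nat_lit 5) (nat_lit 125) (nat_lit 5) (nat_lit 122) (nat_lit 5) (nat_lit 481) (nat_lit 439) (nat_lit 280))))) (XT.nd (nat_lit 234) (nat_lit 836) (nat_lit 0) (XT.nd (nat_lit 78) (nat_lit 456) (nat_lit 0) (XT.lf (nat_lit 0) (nat_lit 50093232392) (nat_lit 228) (nat_lit 15855930736) (nat_lit 304) (nat_lit 26168918458) (nat_lit 118) (nat_lit 5) (nat_lit 121) (nat_lit 5) (nat_lit 122) (nat_lit 5) (nat_lit 482) (nat_lit 439) (nat_lit 279)) (XT.nd (nat_lit 78) (nat_lit 228)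 (nat_lit 0) (XT.lf (nat_lit 0) (nat_lit 11806521955) (nat_lit 228) (nat_lit 44430468265) (nat_lit 76) (nat_lit 38833255317) (nat_lit 115) (nat_lit 5) (nat_lit 118) (nat_lit 5) (nat_lit 116) (nat_lit 5) (nat_lit 483) (nat_lit 439) (nat_lit 278)) (XT.lf (nat_lit 0) (nat_lit 51226312917) (nat_lit 228) (nat_lit 1005448071) (nat_lit 304) (nat_lit 45897716665) (nat_lit 112) (nat_lit 5) (nat_lit 115) (nat_lit 5) (nat_lit 116) (nat_lit 5) (nat_lit 484) (nat_lit 439) (nat_lit 277)))) (XT.nd (nat_lit 156) (nat_lit 380) (nat_lit 0) (XT.nd (nat_lit 78) (nat_lit 304) (nat_lit 0) (XT.lf (nat_lit 0) (nat_lit 51719777398) (nat_lit 152) (nat_lit 44463262377) (nat_lit 228) (nat_lit 5113488375) (nat_lit 110) (nat_lit 5) (nat_lit 112) (nat_lit 5) (nat_lit 113) (nat_lit 5) (nat_lit 485) (nat_lit 439) (nat_lit 276)) (XT.lf (nat_lit 0) (nat_lit 38110004044) (nat_lit 304) (nat_lit 52432792034) (nat_lit 76) (nat_lit 14034183168)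 (nat_lit 106) (nat_lit 5) (nat_lit 110) (nat_lit 5) (nat_lit 107) (nat_lit 5) (nat_lit 486) (nat_lit 439) (nat_lit 275))) (XT.nd (nat_lit 78) (nat_lit 228) (nat_lit 0) (XT.lf (nat_lit 0) (nat_lit 52496526501) (nat_lit 152) (nat_lit 32360192511) (nat_lit 228) (nat_lit 23119181043) (nat_lit 104) (nat_lit 5) (nat_lit 106) (nat_lit 5) (nat_lit 107) (nat_lit 5) (nat_lit 487) (nat_lit 439) (nat_lit 274)) (XT.lf (nat_lit 0) (nat_lit 23300826842) (nat_lit 228) (nat_lit 58744860314) (nat_lit 76) (nat_lit 29452365793) (nat_lit 101) (nat_lit 5) (nat_lit 104) (nat_lit 5) (nat_lit 102) (nat_lit 5) (nat_lit 488) (nat_lit 439) (nat_lit 273)))))) (XT.nd (nat_lit 58890) (nat_lit 0) (nat_lit 15276) (XT.nd (nat_lit 58656) (nat_lit 0) (nat_lit 15124) (XT.nd (nat_lit 78) (nat_lit 380) (nat_lit 0) (XT.lf (nat_lit 0) (nat_lit 52839684420) (nat_lit 152) (nat_lit 20137868690) (nat_lit 228) (nat_lit 42169477633) (nat_lit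 99) (nat_lit 5) (nat_lit 101) (nat_lit 5) (nat_lit 102) (nat_lit 5) (nat_lit 489) (nat_lit 439) (nat_lit 272)) (XT.nd (nat_lit 78) (nat_lit 152) (nat_lit 0) (XT.lf (nat_lit 0) (nat_lit 7603063083) (nat_lit 228) (nat_lit 66144847092) (nat_lit 76) (nat_lit 45181862959) (nat_lit 96) (nat_lit 5) (nat_lit 99) (nat_lit 5) (nat_lit 97) (nat_lit 5) (nat_lit 490) (nat_lit 439) (nat_lit 271)) (XT.lf (nat_lit 0) (nat_lit 52436190020) (nat_lit 152) (nat_lit 7917259470) (nat_lit 228) (nat_lit 62494837199) (nat_lit 94) (nat_lit 5) (nat_lit 96) (nat_lit 5) (nat_lit 97) (nat_lit 5) (nat_lit 491) (nat_lit 439) (nat_lit 270)))) (XT.nd (nat_lit 78) (nat_lit 0) (nat_lit 76) (XT.lf (nat_lit 0) (nat_lit 6209934860) (nat_lit 1292) (nat_lit 4057989653) (nat_lit 1292) (nat_lit 4057989653) (nat_lit 293) (nat_lit 3) (nat_lit 310) (nat_lit 3) (nat_lit 310) (nat_lit 5) (nat_lit 440) (nat_lit 440) (nat_lit 320)) (XT.nd (nat_lit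 78) (nat_lit 0) (nat_lit 0) (XT.lf (nat_lit 0) (nat_lit 13039405832) (nat_lit 1216) (nat_lit 13606092767) (nat_lit 1292) (nat_lit 2713336087) (nat_lit 294) (nat_lit 5) (nat_lit 310) (nat_lit 5) (nat_lit 311) (nat_lit 5) (nat_lit 441) (nat_lit 440) (nat_lit 319)) (XT.lf (nat_lit 76) (nat_lit 10885439139) (nat_lit 0) (nat_lit 3192391172) (nat_lit 1292) (nat_lit 16011724860) (nat_lit 295) (nat_lit 5) (nat_lit 294) (nat_lit 5) (nat_lit 311) (nat_lit 5) (nat_lit 442) (nat_lit 440) (nat_lit 318))))) (XT.nd (nat_lit 234) (nat_lit 0) (nat_lit 228) (XT.nd (nat_lit 78) (nat_lit 0) (nat_lit 76) (XT.lf (nat_lit 76) (nat_lit 5936868009) (nat_lit 0) (nat_lit 9627871938) (nat_lit 1292) (nat_lit 15280175923) (nat_lit 296) (nat_lit 5) (nat_lit 295) (nat_lit 5) (nat_lit 312) (nat_lit 5) (nat_lit 443) (nat_lit 440) (nat_lit 317)) (XT.nd (nat_lit 78) (nat_lit 0) (nat_lit 76) (XT.lf (nat_lit 76) (nat_lit 938013217)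 (nat_lit 0) (nat_lit 16566504305) (nat_lit 1292) (nat_lit 14122172463) (nat_lit 297) (nat_lit 5) (nat_lit 296) (nat_lit 5) (nat_lit 313) (nat_lit 5) (nat_lit 444) (nat_lit 440) (nat_lit 316)) (XT.lf (nat_lit 0) (nat_lit 19969338894) (nat_lit 1216) (nat_lit 4026959815) (nat_lit 1292) (nat_lit 8438413456) (nat_lit 297) (nat_lit 5) (nat_lit 313) (nat_lit 5) (nat_lit 314) (nat_lit 5) (nat_lit 445) (nat_lit 440) (nat_lit 315)))) (XT.nd (nat_lit 156) (nat_lit 0) (nat_lit 76) (XT.nd (nat_lit 78) (nat_lit 0) (nat_lit 0) (XT.lf (nat_lit 0) (nat_lit 22963643020) (nat_lit 1216) (nat_lit 9014597858) (nat_lit 1292) (nat_lit 1292708281) (nat_lit 298) (nat_lit 5) (nat_lit 314) (nat_lit 5) (nat_lit 315) (nat_lit 5) (nat_lit 446) (nat_lit 440) (nat_lit 314)) (XT.lf (nat_lit 76) (nat_lit 20033649914) (nat_lit 0) (nat_lit 6544023245) (nat_lit 1292) (nat_lit 7557225432) (nat_lit 299) (nat_lit 5) (nat_lit 298) (nat_lit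 5) (nat_lit 315) (nat_lit 5) (nat_lit 447) (nat_lit 440) (nat_lit 313))) (XT.nd (nat_lit 78) (nat_lit 0) (nat_lit 76) (XT.lf (nat_lit 76) (nat_lit 15791896594) (nat_lit 0) (nat_lit 15013489945) (nat_lit 1292) (nat_lit 4223670372) (nat_lit 300) (nat_lit 5) (nat_lit 299) (nat_lit 5) (nat_lit 316) (nat_lit 5) (nat_lit 448) (nat_lit 440) (nat_lit 312)) (XT.lf (nat_lit 76) (nat_lit 11550899196) (nat_lit 0) (nat_lit 24123996724) (nat_lit 1292) (nat_lit 280115743) (nat_lit 301) (nat_lit 5) (nat_lit 300) (nat_lit 5) (nat_lit 317) (nat_lit 5) (nat_lit 449) (nat_lit 440) (nat_lit 311))))))))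
noncomputable def xc107 : XT := (XT.nd (nat_lit 1950) (nat_lit 4104) (nat_lit 0) (XT.nd (nat_lit 936) (nat_lit 4560) (nat_lit 0) (XT.nd (nat_lit 468) (nat_lit 3116) (nat_lit 0) (XT.nd (nat_lit 234) (nat_lit 1748) (nat_lit 0) (XT.nd (nat_lit 78) (nat_lit 760) (nat_lit 0) (XT.lf (nat_lit 0) (nat_lit 4230990579) (nat_lit 1292) (nat_lit 29637510367) (nat_lit 76) (nat_lit 3044279399) (nat_lit 284) (nat_lit 5) (nat_lit 301) (nat_lit 5) (nat_lit 285) (nat_lit 5) (nat_lit 450) (nat_lit 440) (nat_lit 310)) (XT.nd (nat_lit 78) (nat_lit 0) (nat_lit 0) (XT.lf (nat_lit 0) (nat_lit 2941262425) (nat_lit 760) (nat_lit 6540468635) (nat_lit 836) (nat_lit 28421027765) (nat_lit 274) (nat_lit 5) (nat_lit 284) (nat_lit 5) (nat_lit 285) (nat_lit 5) (nat_lit 451) (nat_lit 440) (nat_lit 309)) (XT.lf (nat_lit 0) (nat_lit 15510655746) (nat_lit 836) (nat_lit 1385798915) (nat_lit 76) (nat_lit 22030312845) (nat_lit 274) (nat_lit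 5) (nat_lit 285) (nat_lit 5) (nat_lit 275) (nat_lit 5) (nat_lit 452) (nat_lit 440) (nat_lit 308)))) (XT.nd (nat_lit 78) (nat_lit 1140) (nat_lit 0) (XT.lf (nat_lit 0) (nat_lit 22350860198) (nat_lit 684) (nat_lit 5637338360) (nat_lit 76) (nat_lit 11998483717) (nat_lit 266) (nat_lit 5) (nat_lit 275) (nat_lit 5) (nat_lit 267) (nat_lit 5) (nat_lit 453) (nat_lit 440) (nat_lit 307)) (XT.nd (nat_lit 78) (nat_lit 532) (nat_lit 0) (XT.lf (nat_lit 0) (nat_lit 30025055180) (nat_lit 684) (nat_lit 9861887333) (nat_lit 76) (nat_lit 1197891490) (nat_lit 258) (nat_lit 5) (nat_lit 267) (nat_lit 5) (nat_lit 259) (nat_lit 5) (nat_lit 454) (nat_lit 440) (nat_lit 306)) (XT.lf (nat_lit 0) (nat_lit 28067704750) (nat_lit 532) (nat_lit 10621387908) (nat_lit 608) (nat_lit 3530617277) (nat_lit 251) (nat_lit 5) (nat_lit 258) (nat_lit 5) (nat_lit 259) (nat_lit 5) (nat_lit 455) (nat_lit 440) (nat_lit 305))))) (XT.nd (nat_lit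 234) (nat_lit 1444) (nat_lit 0) (XT.nd (nat_lit 78) (nat_lit 1064) (nat_lit 0) (XT.lf (nat_lit 0) (nat_lit 4826234492) (nat_lit 608) (nat_lit 18462798550) (nat_lit 76) (nat_lit 20104937393) (nat_lit 243) (nat_lit 5) (nat_lit 251) (nat_lit 5) (nat_lit 244) (nat_lit 5) (nat_lit 456) (nat_lit 440) (nat_lit 304)) (XT.nd (nat_lit 78) (nat_lit 532) (nat_lit 0) (XT.lf (nat_lit 0) (nat_lit 14065410637) (nat_lit 608) (nat_lit 22767942755) (nat_lit 76) (nat_lit 7776417386) (nat_lit 236) (nat_lit 5) (nat_lit 244) (nat_lit 5) (nat_lit 237) (nat_lit 5) (nat_lit 457) (nat_lit 440) (nat_lit 303)) (XT.lf (nat_lit 0) (nat_lit 18791830426) (nat_lit 532) (nat_lit 5578061217) (nat_lit 608) (nat_lit 21498369616) (nat_lit 229) (nat_lit 5) (nat_lit 236) (nat_lit 5) (nat_lit 237) (nat_lit 5) (nat_lit 458) (nat_lit 440) (nat_lit 302)))) (XT.nd (nat_lit 78) (nat_lit 988) (nat_lit 0) (XT.lf (nat_lit 0) (nat_lit 15761373355)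 (nat_lit 456) (nat_lit 20074136106) (nat_lit 532) (nat_lit 11334789899) (nat_lit 223) (nat_lit 5) (nat_lit 229) (nat_lit 5) (nat_lit 230) (nat_lit 5) (nat_lit 459) (nat_lit 440) (nat_lit 301)) (XT.nd (nat_lit 78) (nat_lit 532) (nat_lit 0) (XT.lf (nat_lit 0) (nat_lit 12842582323) (nat_lit 456) (nat_lit 35611114931) (nat_lit 532) (nat_lit 66363894) (nat_lit 217) (nat_lit 5) (nat_lit 223) (nat_lit 5) (nat_lit 224) (nat_lit 5) (nat_lit 460) (nat_lit 440) (nat_lit 300)) (XT.lf (nat_lit 0) (nat_lit 9905111895) (nat_lit 456) (nat_lit 2251255151) (nat_lit 532) (nat_lit 37758937374) (nat_lit 210) (nat_lit 5) (nat_lit 216) (nat_lit 5) (nat_lit 217) (nat_lit 5) (nat_lit 461) (nat_lit 440) (nat_lit 299)))))) (XT.nd (nat_lit 468) (nat_lit 2432) (nat_lit 0) (XT.nd (nat_lit 234) (nat_lit 760) (nat_lit 0) (XT.nd (nat_lit 78) (nat_lit 912) (nat_lit 0) (XT.lf (nat_lit 0) (nat_lit 6954791536) (nat_lit 456) (nat_lit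 18783158965) (nat_lit 532) (nat_lit 25619867389) (nat_lit 204) (nat_lit 5) (nat_lit 210) (nat_lit 5) (nat_lit 211) (nat_lit 5) (nat_lit 462) (nat_lit 440) (nat_lit 298)) (XT.nd (nat_lit 78) (nat_lit 532) (nat_lit 0) (XT.lf (nat_lit 0) (nat_lit 4137620381) (nat_lit 380) (nat_lit 36491541340) (nat_lit 456) (nat_lit 12224379236) (nat_lit 199) (nat_lit 5) (nat_lit 204) (nat_lit 5) (nat_lit 205) (nat_lit 5) (nat_lit 463) (nat_lit 440) (nat_lit 297)) (XT.lf (nat_lit 0) (nat_lit 1434495386) (nat_lit 456) (nat_lit 1031923645) (nat_lit 532) (nat_lit 51937256891) (nat_lit 192) (nat_lit 5) (nat_lit 198) (nat_lit 5) (nat_lit 199) (nat_lit 5) (nat_lit 464) (nat_lit 440) (nat_lit 296)))) (XT.nd (nat_lit 78) (nat_lit 760) (nat_lit 0) (XT.lf (nat_lit 0) (nat_lit 18492310163) (nat_lit 532) (nat_lit 1386662770) (nat_lit 76) (nat_lit 36123112879) (nat_lit 192) (nat_lit 5) (nat_lit 199) (nat_lit 5) (nat_lit 193) (nat_lit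 5) (nat_lit 465) (nat_lit 440) (nat_lit 295)) (XT.nd (nat_lit 78) (nat_lit 380) (nat_lit 0) (XT.lf (nat_lit 0) (nat_lit 36016621355) (nat_lit 456) (nat_lit 4027084246) (nat_lit 76) (nat_lit 17615797150) (nat_lit 187) (nat_lit 5) (nat_lit 193) (nat_lit 5) (nat_lit 188) (nat_lit 5) (nat_lit 466) (nat_lit 440) (nat_lit 294)) (XT.lf (nat_lit 0) (nat_lit 52858487474) (nat_lit 380) (nat_lit 2278681222) (nat_lit 456) (nat_lit 4241021530) (nat_lit 182) (nat_lit 5) (nat_lit 187) (nat_lit 5) (nat_lit 188) (nat_lit 5) (nat_lit 467) (nat_lit 440) (nat_lit 293))))) (XT.nd (nat_lit 234) (nat_lit 1368) (nat_lit 0) (XT.nd (nat_lit 78) (nat_lit 684) (nat_lit 0) (XT.lf (nat_lit 0) (nat_lit 14665372828) (nat_lit 380) (nat_lit 9155051690) (nat_lit 76) (nat_lit 37331094555) (nat_lit 177) (nat_lit 5) (nat_lit 182) (nat_lit 5) (nat_lit 178) (nat_lit 5) (nat_lit 468) (nat_lit 440) (nat_lit 292)) (XT.nd (nat_lit 78) (nat_lit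 304) (nat_lit 0) (XT.lf (nat_lit 0) (nat_lit 35171482749) (nat_lit 456) (nat_lit 11655738207) (nat_lit 76) (nat_lit 16162770768) (nat_lit 172) (nat_lit 5) (nat_lit 178) (nat_lit 5) (nat_lit 173) (nat_lit 5) (nat_lit 469) (nat_lit 440) (nat_lit 291)) (XT.lf (nat_lit 0) (nat_lit 50868945324) (nat_lit 304) (nat_lit 6655658607) (nat_lit 380) (nat_lit 7371133158) (nat_lit 168) (nat_lit 5) (nat_lit 172) (nat_lit 5) (nat_lit 173) (nat_lit 5) (nat_lit 470) (nat_lit 440) (nat_lit 290)))) (XT.nd (nat_lit 156) (nat_lit 684) (nat_lit 0) (XT.nd (nat_lit 78) (nat_lit 304) (nat_lit 0) (XT.lf (nat_lit 0) (nat_lit 14778246008) (nat_lit 380) (nat_lit 16504148983) (nat_lit 76) (nat_lit 35581666756) (nat_lit 163) (nat_lit 5) (nat_lit 168) (nat_lit 5) (nat_lit 164) (nat_lit 5) (nat_lit 471) (nat_lit 440) (nat_lit 289)) (XT.lf (nat_lit 0) (nat_lit 38687943063) (nat_lit 380) (nat_lit 18854703565) (nat_lit 76) (nat_lit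 11361807933) (nat_lit 159) (nat_lit 5) (nat_lit 164) (nat_lit 5) (nat_lit 160) (nat_lit 5) (nat_lit 472) (nat_lit 440) (nat_lit 288))) (XT.nd (nat_lit 78) (nat_lit 380) (nat_lit 0) (XT.lf (nat_lit 0) (nat_lit 49886553317) (nat_lit 304) (nat_lit 14870786513) (nat_lit 380) (nat_lit 6260600952) (nat_lit 155) (nat_lit 5) (nat_lit 159) (nat_lit 5) (nat_lit 160) (nat_lit 5) (nat_lit 473) (nat_lit 440) (nat_lit 287)) (XT.lf (nat_lit 0) (nat_lit 19494889415) (nat_lit 380) (nat_lit 23491491481) (nat_lit 76) (nat_lit 30216158552) (nat_lit 150) (nat_lit 5) (nat_lit 155) (nat_lit 5) (nat_lit 151) (nat_lit 5) (nat_lit 474) (nat_lit 440) (nat_lit 286))))))) (XT.nd (nat_lit 1014) (nat_lit 760) (nat_lit 0) (XT.nd (nat_lit 468) (nat_lit 1672) (nat_lit 0) (XT.nd (nat_lit 234) (nat_lit 760) (nat_lit 0) (XT.nd (nat_lit 78) (nat_lit 608) (nat_lit 0) (XT.lf (nat_lit 0) (nat_lit 47280310973) (nat_lit 380) (nat_lit 25693707779)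 (nat_lit 76) (nat_lit 2494340834) (nat_lit 146) (nat_lit 5) (nat_lit 151) (nat_lit 5) (nat_lit 147) (nat_lit 5) (nat_lit 475) (nat_lit 440) (nat_lit 285)) (XT.nd (nat_lit 78) (nat_lit 380) (nat_lit 0) (XT.lf (nat_lit 0) (nat_lit 49888228651) (nat_lit 228) (nat_lit 27721986273) (nat_lit 304) (nat_lit 202599648) (nat_lit 143) (nat_lit 5) (nat_lit 146) (nat_lit 5) (nat_lit 147) (nat_lit 5) (nat_lit 476) (nat_lit 440) (nat_lit 284)) (XT.lf (nat_lit 0) (nat_lit 29560529198) (nat_lit 380) (nat_lit 30231513345) (nat_lit 76) (nat_lit 20445598765) (nat_lit 138) (nat_lit 5) (nat_lit 143) (nat_lit 5) (nat_lit 139) (nat_lit 5) (nat_lit 477) (nat_lit 440) (nat_lit 283)))) (XT.nd (nat_lit 78) (nat_lit 532) (nat_lit 0) (XT.lf (nat_lit 0) (nat_lit 50335686810) (nat_lit 228) (nat_lit 11523631229) (nat_lit 304) (nat_lit 20892780515) (nat_lit 135) (nat_lit 5) (nat_lit 138) (nat_lit 5) (nat_lit 139) (nat_lit 5) (nat_lit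 478) (nat_lit 440) (nat_lit 282)) (XT.nd (nat_lit 78) (nat_lit 228) (nat_lit 0) (XT.lf (nat_lit 0) (nat_lit 11366507493) (nat_lit 304) (nat_lit 34680429035) (nat_lit 76) (nat_lit 39306699512) (nat_lit 131) (nat_lit 5) (nat_lit 135) (nat_lit 5) (nat_lit 132) (nat_lit 5) (nat_lit 479) (nat_lit 440) (nat_lit 281)) (XT.lf (nat_lit 0) (nat_lit 45806010886) (nat_lit 304) (nat_lit 36918628553) (nat_lit 76) (nat_lit 5324424952) (nat_lit 128) (nat_lit 5) (nat_lit 132) (nat_lit 5) (nat_lit 129) (nat_lit 5) (nat_lit 480) (nat_lit 440) (nat_lit 280))))) (XT.nd (nat_lit 234) (nat_lit 912) (nat_lit 0) (XT.nd (nat_lit 78) (nat_lit 532) (nat_lit 0) (XT.lf (nat_lit 0) (nat_lit 51623553765) (nat_lit 228) (nat_lit 31663335156) (nat_lit 304) (nat_lit 7552793388) (nat_lit 125) (nat_lit 5) (nat_lit 128) (nat_lit 5) (nat_lit 129) (nat_lit 5) (nat_lit 481) (nat_lit 440) (nat_lit 279)) (XT.nd (nat_lit 78) (nat_lit 228)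 (nat_lit 0) (XT.lf (nat_lit 0) (nat_lit 29415971383) (nat_lit 304) (nat_lit 41614942667) (nat_lit 76) (nat_lit 22697369502) (nat_lit 121) (nat_lit 5) (nat_lit 125) (nat_lit 5) (nat_lit 122) (nat_lit 5) (nat_lit 482) (nat_lit 440) (nat_lit 278)) (XT.lf (nat_lit 0) (nat_lit 52704818813) (nat_lit 228) (nat_lit 16605476497) (nat_lit 304) (nat_lit 27411776533) (nat_lit 118) (nat_lit 5) (nat_lit 121) (nat_lit 5) (nat_lit 122) (nat_lit 5) (nat_lit 483) (nat_lit 440) (nat_lit 277)))) (XT.nd (nat_lit 156) (nat_lit 456) (nat_lit 0) (XT.nd (nat_lit 78) (nat_lit 228) (nat_lit 0) (XT.lf (nat_lit 0) (nat_lit 12459516010) (nat_lit 228) (nat_lit 46545426181) (nat_lit 76) (nat_lit 40816932253) (nat_lit 115) (nat_lit 5) (nat_lit 118) (nat_lit 5) (nat_lit 116) (nat_lit 5) (nat_lit 484) (nat_lit 440) (nat_lit 276)) (XT.lf (nat_lit 0) (nat_lit 53891139382) (nat_lit 228) (nat_lit 1012888435) (nat_lit 304) (nat_lit 48130100184)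 (nat_lit 112) (nat_lit 5) (nat_lit 115) (nat_lit 5) (nat_lit 116) (nat_lit 5) (nat_lit 485) (nat_lit 440) (nat_lit 275))) (XT.nd (nat_lit 78) (nat_lit 304) (nat_lit 0) (XT.lf (nat_lit 0) (nat_lit 54407681308) (nat_lit 152) (nat_lit 46643671560) (nat_lit 228) (nat_lit 5308223835) (nat_lit 110) (nat_lit 5) (nat_lit 112) (nat_lit 5) (nat_lit 113) (nat_lit 5) (nat_lit 486) (nat_lit 440) (nat_lit 274)) (XT.lf (nat_lit 0) (nat_lit 40073778017) (nat_lit 304) (nat_lit 54952947718) (nat_lit 76) (nat_lit 14777351467) (nat_lit 106) (nat_lit 5) (nat_lit 110) (nat_lit 5) (nat_lit 107) (nat_lit 5) (nat_lit 487) (nat_lit 440) (nat_lit 273)))))) (XT.nd (nat_lit 58968) (nat_lit 0) (nat_lit 15048) (XT.nd (nat_lit 234) (nat_lit 228) (nat_lit 0) (XT.nd (nat_lit 78) (nat_lit 380) (nat_lit 0) (XT.lf (nat_lit 0) (nat_lit 55219927728) (nat_lit 152) (nat_lit 33936073626) (nat_lit 228) (nat_lit 24216997651) (nat_lit 104)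 (nat_lit 5) (nat_lit 106) (nat_lit 5) (nat_lit 107) (nat_lit 5) (nat_lit 488) (nat_lit 440) (nat_lit 272)) (XT.nd (nat_lit 78) (nat_lit 152) (nat_lit 0) (XT.lf (nat_lit 0) (nat_lit 24521492586) (nat_lit 228) (nat_lit 61583990484) (nat_lit 76) (nat_lit 30965801333) (nat_lit 101) (nat_lit 5) (nat_lit 104) (nat_lit 5) (nat_lit 102) (nat_lit 5) (nat_lit 489) (nat_lit 440) (nat_lit 271)) (XT.lf (nat_lit 0) (nat_lit 55576969102) (nat_lit 152) (nat_lit 21103353371) (nat_lit 228) (nat_lit 44222440713) (nat_lit 99) (nat_lit 5) (nat_lit 101) (nat_lit 5) (nat_lit 102) (nat_lit 5) (nat_lit 490) (nat_lit 440) (nat_lit 270)))) (XT.nd (nat_lit 58578) (nat_lit 0) (nat_lit 14972) (XT.lf (nat_lit 0) (nat_lit 8036345029) (nat_lit 228) (nat_lit 69357275175) (nat_lit 76) (nat_lit 47481045557) (nat_lit 96) (nat_lit 5) (nat_lit 99) (nat_lit 5) (nat_lit 97) (nat_lit 5) (nat_lit 491) (nat_lit 440) (nat_lit 269)) (XT.nd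 (nat_lit 78) (nat_lit 0) (nat_lit 76) (XT.lf (nat_lit 0) (nat_lit 6649139896) (nat_lit 1292) (nat_lit 4194595419) (nat_lit 1292) (nat_lit 4194595419) (nat_lit 293) (nat_lit 3) (nat_lit 310) (nat_lit 3) (nat_lit 310) (nat_lit 5) (nat_lit 441) (nat_lit 441) (nat_lit 318)) (XT.lf (nat_lit 0) (nat_lit 13936642217) (nat_lit 1216) (nat_lit 14149054045) (nat_lit 1292) (nat_lit 2733688093) (nat_lit 294) (nat_lit 5) (nat_lit 310) (nat_lit 5) (nat_lit 311) (nat_lit 5) (nat_lit 442) (nat_lit 441) (nat_lit 317))))) (XT.nd (nat_lit 234) (nat_lit 0) (nat_lit 228) (XT.nd (nat_lit 78) (nat_lit 0) (nat_lit 76) (XT.lf (nat_lit 76) (nat_lit 11563117538) (nat_lit 0) (nat_lit 3453473430) (nat_lit 1292) (nat_lit 16570363428) (nat_lit 295) (nat_lit 5) (nat_lit 294) (nat_lit 5) (nat_lit 311) (nat_lit 5) (nat_lit 443) (nat_lit 441) (nat_lit 316)) (XT.nd (nat_lit 78) (nat_lit 0) (nat_lit 76) (XT.lf (nat_lit 76) (nat_lit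 6371116775) (nat_lit 0) (nat_lit 10195937012) (nat_lit 1292) (nat_lit 15813354658) (nat_lit 296) (nat_lit 5) (nat_lit 295) (nat_lit 5) (nat_lit 312) (nat_lit 5) (nat_lit 444) (nat_lit 441) (nat_lit 315)) (XT.lf (nat_lit 76) (nat_lit 1125749443) (nat_lit 0) (nat_lit 17467960804) (nat_lit 1292) (nat_lit 14607865791) (nat_lit 297) (nat_lit 5) (nat_lit 296) (nat_lit 5) (nat_lit 313) (nat_lit 5) (nat_lit 445) (nat_lit 441) (nat_lit 314)))) (XT.nd (nat_lit 156) (nat_lit 0) (nat_lit 76) (XT.nd (nat_lit 78) (nat_lit 0) (nat_lit 76) (XT.lf (nat_lit 0) (nat_lit 21170914282) (nat_lit 1216) (nat_lit 4087367811) (nat_lit 1292) (nat_lit 8792044387) (nat_lit 297) (nat_lit 5) (nat_lit 313) (nat_lit 5) (nat_lit 314) (nat_lit 5) (nat_lit 446) (nat_lit 441) (nat_lit 313)) (XT.lf (nat_lit 0) (nat_lit 24306021636) (nat_lit 1216) (nat_lit 9322002377) (nat_lit 1292) (nat_lit 1300620006) (nat_lit 298) (nat_lit 5) (nat_lit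 314) (nat_lit 5) (nat_lit 315) (nat_lit 5) (nat_lit 447) (nat_lit 441) (nat_lit 312))) (XT.nd (nat_lit 78) (nat_lit 0) (nat_lit 76) (XT.lf (nat_lit 76) (nat_lit 21174549390) (nat_lit 0) (nat_lit 6918294679) (nat_lit 1292) (nat_lit 7743185401) (nat_lit 299) (nat_lit 5) (nat_lit 298) (nat_lit 5) (nat_lit 315) (nat_lit 5) (nat_lit 448) (nat_lit 441) (nat_lit 311)) (XT.lf (nat_lit 76) (nat_lit 16722610401) (nat_lit 0) (nat_lit 15801387496) (nat_lit 1292) (nat_lit 4251137377) (nat_lit 300) (nat_lit 5) (nat_lit 299) (nat_lit 5) (nat_lit 316) (nat_lit 5) (nat_lit 449) (nat_lit 441) (nat_lit 310))))))))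
noncomputable def xc108 : XT := (XT.nd (nat_lit 1950) (nat_lit 4104) (nat_lit 0) (XT.nd (nat_lit 936) (nat_lit 4636) (nat_lit 0) (XT.nd (nat_lit 468) (nat_lit 3192) (nat_lit 0) (XT.nd (nat_lit 234) (nat_lit 1216) (nat_lit 0) (XT.nd (nat_lit 78) (nat_lit 1976) (nat_lit 0) (XT.lf (nat_lit 76) (nat_lit 12271085964) (nat_lit 0) (nat_lit 25358434693) (nat_lit 1292) (nat_lit 118092122) (nat_lit 301) (nat_lit 5) (nat_lit 300) (nat_lit 5) (nat_lit 317) (nat_lit 5) (nat_lit 450) (nat_lit 441) (nat_lit 309)) (XT.nd (nat_lit 78) (nat_lit 760) (nat_lit 0) (XT.lf (nat_lit 0) (nat_lit 4608050849) (nat_lit 1292) (nat_lit 30972252038) (nat_lit 76) (nat_lit 3173129823) (nat_lit 284) (nat_lit 5) (nat_lit 301) (nat_lit 5) (nat_lit 285) (nat_lit 5) (nat_lit 451) (nat_lit 441) (nat_lit 308)) (XT.lf (nat_lit 0) (nat_lit 3231241831) (nat_lit 760) (nat_lit 6883578857) (nat_lit 836) (nat_lit 29678285671) (nat_lit 274)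 (nat_lit 5) (nat_lit 284) (nat_lit 5) (nat_lit 285) (nat_lit 5) (nat_lit 452) (nat_lit 441) (nat_lit 307)))) (XT.nd (nat_lit 78) (nat_lit 1216) (nat_lit 0) (XT.lf (nat_lit 0) (nat_lit 16437472762) (nat_lit 836) (nat_lit 1314268549) (nat_lit 76) (nat_lit 23116806696) (nat_lit 274) (nat_lit 5) (nat_lit 285) (nat_lit 5) (nat_lit 275) (nat_lit 5) (nat_lit 453) (nat_lit 441) (nat_lit 306)) (XT.nd (nat_lit 78) (nat_lit 608) (nat_lit 0) (XT.lf (nat_lit 0) (nat_lit 23613715496) (nat_lit 684) (nat_lit 5777958498) (nat_lit 76) (nat_lit 12589964601) (nat_lit 266) (nat_lit 5) (nat_lit 275) (nat_lit 5) (nat_lit 267) (nat_lit 5) (nat_lit 454) (nat_lit 441) (nat_lit 305)) (XT.lf (nat_lit 0) (nat_lit 31665995265) (nat_lit 684) (nat_lit 10213550676) (nat_lit 76) (nat_lit 1255321595) (nat_lit 258) (nat_lit 5) (nat_lit 267) (nat_lit 5) (nat_lit 259) (nat_lit 5) (nat_lit 455) (nat_lit 441) (nat_lit 304))))) (XT.nd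 (nat_lit 234) (nat_lit 1520) (nat_lit 0) (XT.nd (nat_lit 78) (nat_lit 1140) (nat_lit 0) (XT.lf (nat_lit 0) (nat_lit 29608466920) (nat_lit 532) (nat_lit 11149436470) (nat_lit 608) (nat_lit 3568744646) (nat_lit 251) (nat_lit 5) (nat_lit 258) (nat_lit 5) (nat_lit 259) (nat_lit 5) (nat_lit 456) (nat_lit 441) (nat_lit 303)) (XT.nd (nat_lit 78) (nat_lit 532) (nat_lit 0) (XT.lf (nat_lit 0) (nat_lit 5198148143) (nat_lit 608) (nat_lit 19245981568) (nat_lit 76) (nat_lit 21115605734) (nat_lit 243) (nat_lit 5) (nat_lit 251) (nat_lit 5) (nat_lit 244) (nat_lit 5) (nat_lit 457) (nat_lit 441) (nat_lit 302)) (XT.lf (nat_lit 0) (nat_lit 14894469325) (nat_lit 608) (nat_lit 23766707997) (nat_lit 76) (nat_lit 8175293632) (nat_lit 236) (nat_lit 5) (nat_lit 244) (nat_lit 5) (nat_lit 237) (nat_lit 5) (nat_lit 458) (nat_lit 441) (nat_lit 301)))) (XT.nd (nat_lit 78) (nat_lit 988) (nat_lit 0) (XT.lf (nat_lit 0) (nat_lit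 19867051322) (nat_lit 532) (nat_lit 5842436900) (nat_lit 608) (nat_lit 22448539024) (nat_lit 229) (nat_lit 5) (nat_lit 236) (nat_lit 5) (nat_lit 237) (nat_lit 5) (nat_lit 459) (nat_lit 441) (nat_lit 300)) (XT.nd (nat_lit 78) (nat_lit 532) (nat_lit 0) (XT.lf (nat_lit 0) (nat_lit 16684590499) (nat_lit 456) (nat_lit 21059461796) (nat_lit 532) (nat_lit 11781245663) (nat_lit 223) (nat_lit 5) (nat_lit 229) (nat_lit 5) (nat_lit 230) (nat_lit 5) (nat_lit 460) (nat_lit 441) (nat_lit 299)) (XT.lf (nat_lit 0) (nat_lit 45474013) (nat_lit 532) (nat_lit 37323887406) (nat_lit 76) (nat_lit 13573296648) (nat_lit 216) (nat_lit 5) (nat_lit 223) (nat_lit 5) (nat_lit 217) (nat_lit 5) (nat_lit 461) (nat_lit 441) (nat_lit 298)))))) (XT.nd (nat_lit 468) (nat_lit 2432) (nat_lit 0) (XT.nd (nat_lit 234) (nat_lit 912) (nat_lit 0) (XT.nd (nat_lit 78) (nat_lit 836) (nat_lit 0) (XT.lf (nat_lit 0) (nat_lit 10533241808) (nat_lit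 456) (nat_lit 2340598340) (nat_lit 532) (nat_lit 39533928096) (nat_lit 210) (nat_lit 5) (nat_lit 216) (nat_lit 5) (nat_lit 217) (nat_lit 5) (nat_lit 462) (nat_lit 441) (nat_lit 297)) (XT.nd (nat_lit 78) (nat_lit 380) (nat_lit 0) (XT.lf (nat_lit 0) (nat_lit 7434586575) (nat_lit 456) (nat_lit 19696176515) (nat_lit 532) (nat_lit 26791757047) (nat_lit 204) (nat_lit 5) (nat_lit 210) (nat_lit 5) (nat_lit 211) (nat_lit 5) (nat_lit 463) (nat_lit 441) (nat_lit 296)) (XT.lf (nat_lit 0) (nat_lit 4475624690) (nat_lit 380) (nat_lit 38287366356) (nat_lit 456) (nat_lit 12730145160) (nat_lit 199) (nat_lit 5) (nat_lit 204) (nat_lit 5) (nat_lit 205) (nat_lit 5) (nat_lit 464) (nat_lit 441) (nat_lit 295)))) (XT.nd (nat_lit 78) (nat_lit 380) (nat_lit 0) (XT.lf (nat_lit 0) (nat_lit 1635593661) (nat_lit 456) (nat_lit 1053861624) (nat_lit 532) (nat_lit 54431403115) (nat_lit 192) (nat_lit 5) (nat_lit 198) (nat_lit 5) (nat_lit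 199) (nat_lit 5) (nat_lit 465) (nat_lit 441) (nat_lit 294)) (XT.nd (nat_lit 78) (nat_lit 380) (nat_lit 0) (XT.lf (nat_lit 0) (nat_lit 19512164144) (nat_lit 532) (nat_lit 1330196165) (nat_lit 76) (nat_lit 37956963250) (nat_lit 192) (nat_lit 5) (nat_lit 199) (nat_lit 5) (nat_lit 193) (nat_lit 5) (nat_lit 466) (nat_lit 441) (nat_lit 293)) (XT.lf (nat_lit 0) (nat_lit 37909621745) (nat_lit 456) (nat_lit 4103770874) (nat_lit 76) (nat_lit 18526311248) (nat_lit 187) (nat_lit 5) (nat_lit 193) (nat_lit 5) (nat_lit 188) (nat_lit 5) (nat_lit 467) (nat_lit 441) (nat_lit 292))))) (XT.nd (nat_lit 234) (nat_lit 1292) (nat_lit 0) (XT.nd (nat_lit 78) (nat_lit 760) (nat_lit 0) (XT.lf (nat_lit 0) (nat_lit 55622505861) (nat_lit 380) (nat_lit 2360465606) (nat_lit 456) (nat_lit 4361451424) (nat_lit 182) (nat_lit 5) (nat_lit 187) (nat_lit 5) (nat_lit 188) (nat_lit 5) (nat_lit 468) (nat_lit 441) (nat_lit 291)) (XT.nd (nat_lit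 78) (nat_lit 380) (nat_lit 0) (XT.lf (nat_lit 0) (nat_lit 15485658441) (nat_lit 380) (nat_lit 9491141783) (nat_lit 76) (nat_lit 39229676420) (nat_lit 177) (nat_lit 5) (nat_lit 182) (nat_lit 5) (nat_lit 178) (nat_lit 5) (nat_lit 469) (nat_lit 441) (nat_lit 290)) (XT.lf (nat_lit 0) (nat_lit 37014394586) (nat_lit 456) (nat_lit 12118150701) (nat_lit 76) (nat_lit 17004408393) (nat_lit 172) (nat_lit 5) (nat_lit 178) (nat_lit 5) (nat_lit 173) (nat_lit 5) (nat_lit 470) (nat_lit 441) (nat_lit 289)))) (XT.nd (nat_lit 156) (nat_lit 608) (nat_lit 0) (XT.nd (nat_lit 78) (nat_lit 380) (nat_lit 0) (XT.lf (nat_lit 0) (nat_lit 53529316498) (nat_lit 304) (nat_lit 6952963192) (nat_lit 380) (nat_lit 7655793744) (nat_lit 168) (nat_lit 5) (nat_lit 172) (nat_lit 5) (nat_lit 173) (nat_lit 5) (nat_lit 471) (nat_lit 441) (nat_lit 288)) (XT.lf (nat_lit 0) (nat_lit 15596950615) (nat_lit 380) (nat_lit 17212140494) (nat_lit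 76) (nat_lit 37395773352) (nat_lit 163) (nat_lit 5) (nat_lit 168) (nat_lit 5) (nat_lit 164) (nat_lit 5) (nat_lit 472) (nat_lit 441) (nat_lit 287))) (XT.nd (nat_lit 78) (nat_lit 304) (nat_lit 0) (XT.lf (nat_lit 0) (nat_lit 40699780787) (nat_lit 380) (nat_lit 19681617318) (nat_lit 76) (nat_lit 11965949677) (nat_lit 159) (nat_lit 5) (nat_lit 164) (nat_lit 5) (nat_lit 160) (nat_lit 5) (nat_lit 473) (nat_lit 441) (nat_lit 286)) (XT.lf (nat_lit 0) (nat_lit 52493382411) (nat_lit 304) (nat_lit 15576658768) (nat_lit 380) (nat_lit 6496545622) (nat_lit 155) (nat_lit 5) (nat_lit 159) (nat_lit 5) (nat_lit 160) (nat_lit 5) (nat_lit 474) (nat_lit 441) (nat_lit 285))))))) (XT.nd (nat_lit 1014) (nat_lit 684) (nat_lit 0) (XT.nd (nat_lit 468) (nat_lit 1596) (nat_lit 0) (XT.nd (nat_lit 234) (nat_lit 912) (nat_lit 0) (XT.nd (nat_lit 78) (nat_lit 532) (nat_lit 0) (XT.lf (nat_lit 0) (nat_lit 20543042844) (nat_lit 380)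 (nat_lit 24553488141) (nat_lit 76) (nat_lit 31763927627) (nat_lit 150) (nat_lit 5) (nat_lit 155) (nat_lit 5) (nat_lit 151) (nat_lit 5) (nat_lit 475) (nat_lit 441) (nat_lit 284)) (XT.nd (nat_lit 78) (nat_lit 228) (nat_lit 0) (XT.lf (nat_lit 0) (nat_lit 49715659957) (nat_lit 380) (nat_lit 26867277063) (nat_lit 76) (nat_lit 2656695267) (nat_lit 146) (nat_lit 5) (nat_lit 151) (nat_lit 5) (nat_lit 147) (nat_lit 5) (nat_lit 476) (nat_lit 441) (nat_lit 283)) (XT.lf (nat_lit 0) (nat_lit 52490571067) (nat_lit 228) (nat_lit 29069128707) (nat_lit 304) (nat_lit 141681280) (nat_lit 143) (nat_lit 5) (nat_lit 146) (nat_lit 5) (nat_lit 147) (nat_lit 5) (nat_lit 477) (nat_lit 441) (nat_lit 282)))) (XT.nd (nat_lit 78) (nat_lit 532) (nat_lit 0) (XT.lf (nat_lit 0) (nat_lit 31106294306) (nat_lit 380) (nat_lit 31635248025) (nat_lit 76) (nat_lit 21505944239) (nat_lit 138) (nat_lit 5) (nat_lit 143) (nat_lit 5) (nat_lit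 139) (nat_lit 5) (nat_lit 478) (nat_lit 441) (nat_lit 281)) (XT.nd (nat_lit 78) (nat_lit 304) (nat_lit 0) (XT.lf (nat_lit 0) (nat_lit 52957220897) (nat_lit 228) (nat_lit 12060582960) (nat_lit 304) (nat_lit 21869929603) (nat_lit 135) (nat_lit 5) (nat_lit 138) (nat_lit 5) (nat_lit 139) (nat_lit 5) (nat_lit 479) (nat_lit 441) (nat_lit 280)) (XT.lf (nat_lit 0) (nat_lit 11999220200) (nat_lit 304) (nat_lit 36309870586) (nat_lit 76) (nat_lit 41310291346) (nat_lit 131) (nat_lit 5) (nat_lit 135) (nat_lit 5) (nat_lit 132) (nat_lit 5) (nat_lit 480) (nat_lit 441) (nat_lit 279))))) (XT.nd (nat_lit 234) (nat_lit 836) (nat_lit 0) (XT.nd (nat_lit 78) (nat_lit 532) (nat_lit 0) (XT.lf (nat_lit 0) (nat_lit 48158986794) (nat_lit 304) (nat_lit 38661482639) (nat_lit 76) (nat_lit 5629164020) (nat_lit 128) (nat_lit 5) (nat_lit 132) (nat_lit 5) (nat_lit 129) (nat_lit 5) (nat_lit 481) (nat_lit 441) (nat_lit 278)) (XT.nd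 (nat_lit 78) (nat_lit 304) (nat_lit 0) (XT.lf (nat_lit 0) (nat_lit 54304854103) (nat_lit 228) (nat_lit 33207032526) (nat_lit 304) (nat_lit 7867956486) (nat_lit 125) (nat_lit 5) (nat_lit 128) (nat_lit 5) (nat_lit 129) (nat_lit 5) (nat_lit 482) (nat_lit 441) (nat_lit 277)) (XT.lf (nat_lit 0) (nat_lit 30946432998) (nat_lit 304) (nat_lit 43595843788) (nat_lit 76) (nat_lit 23870627621) (nat_lit 121) (nat_lit 5) (nat_lit 125) (nat_lit 5) (nat_lit 122) (nat_lit 5) (nat_lit 483) (nat_lit 441) (nat_lit 276)))) (XT.nd (nat_lit 156) (nat_lit 380) (nat_lit 0) (XT.nd (nat_lit 78) (nat_lit 228) (nat_lit 0) (XT.lf (nat_lit 0) (nat_lit 55437043699) (nat_lit 228) (nat_lit 17396520593) (nat_lit 304) (nat_lit 28722875248) (nat_lit 118) (nat_lit 5) (nat_lit 121) (nat_lit 5) (nat_lit 122) (nat_lit 5) (nat_lit 484) (nat_lit 441) (nat_lit 275)) (XT.lf (nat_lit 0) (nat_lit 13139333496) (nat_lit 228) (nat_lit 48776039443)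 (nat_lit 76) (nat_lit 42895886956) (nat_lit 115) (nat_lit 5) (nat_lit 118) (nat_lit 5) (nat_lit 116) (nat_lit 5) (nat_lit 485) (nat_lit 441) (nat_lit 274))) (XT.nd (nat_lit 78) (nat_lit 152) (nat_lit 0) (XT.lf (nat_lit 0) (nat_lit 56679583714) (nat_lit 228) (nat_lit 1024682934) (nat_lit 304) (nat_lit 50479913752) (nat_lit 112) (nat_lit 5) (nat_lit 115) (nat_lit 5) (nat_lit 116) (nat_lit 5) (nat_lit 486) (nat_lit 441) (nat_lit 273)) (XT.lf (nat_lit 0) (nat_lit 57220505319) (nat_lit 152) (nat_lit 48937076058) (nat_lit 228) (nat_lit 5518361595) (nat_lit 110) (nat_lit 5) (nat_lit 112) (nat_lit 5) (nat_lit 113) (nat_lit 5) (nat_lit 487) (nat_lit 441) (nat_lit 272)))))) (XT.nd (nat_lit 59124) (nat_lit 0) (nat_lit 13832) (XT.nd (nat_lit 58890) (nat_lit 0) (nat_lit 14592) (XT.nd (nat_lit 78) (nat_lit 380) (nat_lit 0) (XT.lf (nat_lit 0) (nat_lit 42130322946) (nat_lit 304) (nat_lit 57608546199) (nat_lit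 76) (nat_lit 15553823703) (nat_lit 106) (nat_lit 5) (nat_lit 110) (nat_lit 5) (nat_lit 107) (nat_lit 5) (nat_lit 488) (nat_lit 441) (nat_lit 271)) (XT.nd (nat_lit 78) (nat_lit 228) (nat_lit 0) (XT.lf (nat_lit 0) (nat_lit 58070334456) (nat_lit 152) (nat_lit 35594665507) (nat_lit 228) (nat_lit 25375110623) (nat_lit 104) (nat_lit 5) (nat_lit 106) (nat_lit 5) (nat_lit 107) (nat_lit 5) (nat_lit 489) (nat_lit 441) (nat_lit 270)) (XT.lf (nat_lit 0) (nat_lit 25798020188) (nat_lit 228) (nat_lit 64574198765) (nat_lit 76) (nat_lit 32551113850) (nat_lit 101) (nat_lit 5) (nat_lit 104) (nat_lit 5) (nat_lit 102) (nat_lit 5) (nat_lit 490) (nat_lit 441) (nat_lit 269)))) (XT.nd (nat_lit 78) (nat_lit 0) (nat_lit 76) (XT.lf (nat_lit 0) (nat_lit 7098339107) (nat_lit 1292) (nat_lit 4344194833) (nat_lit 1292) (nat_lit 4344194833) (nat_lit 293) (nat_lit 3) (nat_lit 310) (nat_lit 3) (nat_lit 310) (nat_lit 5) (nat_lit 442)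 (nat_lit 442) (nat_lit 316)) (XT.nd (nat_lit 78) (nat_lit 0) (nat_lit 0) (XT.lf (nat_lit 0) (nat_lit 14855937906) (nat_lit 1216) (nat_lit 14731932270) (nat_lit 1292) (nat_lit 2765778577) (nat_lit 294) (nat_lit 5) (nat_lit 310) (nat_lit 5) (nat_lit 311) (nat_lit 5) (nat_lit 443) (nat_lit 442) (nat_lit 315)) (XT.lf (nat_lit 76) (nat_lit 12262276989) (nat_lit 0) (nat_lit 3718176761) (nat_lit 1292) (nat_lit 17179427927) (nat_lit 295) (nat_lit 5) (nat_lit 294) (nat_lit 5) (nat_lit 311) (nat_lit 5) (nat_lit 444) (nat_lit 442) (nat_lit 314))))) (XT.nd (nat_lit 234) (nat_lit 912) (nat_lit 0) (XT.nd (nat_lit 78) (nat_lit 0) (nat_lit 76) (XT.lf (nat_lit 76) (nat_lit 6814303330) (nat_lit 0) (nat_lit 10784347447) (nat_lit 1292) (nat_lit 16394652721) (nat_lit 296) (nat_lit 5) (nat_lit 295) (nat_lit 5) (nat_lit 312) (nat_lit 5) (nat_lit 445) (nat_lit 442) (nat_lit 313)) (XT.nd (nat_lit 78) (nat_lit 0) (nat_lit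 76) (XT.lf (nat_lit 76) (nat_lit 1309778924) (nat_lit 0) (nat_lit 18407691074) (nat_lit 1292) (nat_lit 15138335910) (nat_lit 297) (nat_lit 5) (nat_lit 296) (nat_lit 5) (nat_lit 313) (nat_lit 5) (nat_lit 446) (nat_lit 442) (nat_lit 312)) (XT.lf (nat_lit 0) (nat_lit 22413685342) (nat_lit 1216) (nat_lit 4163899472) (nat_lit 1292) (nat_lit 9169705797) (nat_lit 297) (nat_lit 5) (nat_lit 313) (nat_lit 5) (nat_lit 314) (nat_lit 5) (nat_lit 447) (nat_lit 442) (nat_lit 311)))) (XT.nd (nat_lit 156) (nat_lit 1140) (nat_lit 0) (XT.nd (nat_lit 78) (nat_lit 0) (nat_lit 0) (XT.lf (nat_lit 0) (nat_lit 25697464636) (nat_lit 1216) (nat_lit 9658102156) (nat_lit 1292) (nat_lit 1314200948) (nat_lit 298) (nat_lit 5) (nat_lit 314) (nat_lit 5) (nat_lit 315) (nat_lit 5) (nat_lit 448) (nat_lit 442) (nat_lit 310)) (XT.lf (nat_lit 76) (nat_lit 22359550766) (nat_lit 0) (nat_lit 7306903537) (nat_lit 1292) (nat_lit 7956284532)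 (nat_lit 299) (nat_lit 5) (nat_lit 298) (nat_lit 5) (nat_lit 315) (nat_lit 5) (nat_lit 449) (nat_lit 442) (nat_lit 309))) (XT.nd (nat_lit 78) (nat_lit 1216) (nat_lit 0) (XT.lf (nat_lit 76) (nat_lit 17686739993) (nat_lit 0) (nat_lit 16625219278) (nat_lit 1292) (nat_lit 4297057952) (nat_lit 300) (nat_lit 5) (nat_lit 299) (nat_lit 5) (nat_lit 316) (nat_lit 5) (nat_lit 450) (nat_lit 442) (nat_lit 308)) (XT.lf (nat_lit 0) (nat_lit 34971139) (nat_lit 1292) (nat_lit 26616644968) (nat_lit 1368) (nat_lit 12978696309) (nat_lit 283) (nat_lit 5) (nat_lit 300) (nat_lit 5) (nat_lit 301) (nat_lit 5) (nat_lit 451) (nat_lit 442) (nat_lit 307))))))))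
noncomputable def xc109 : XT := (XT.nd (nat_lit 1950) (nat_lit 3496) (nat_lit 0) (XT.nd (nat_lit 936) (nat_lit 4560) (nat_lit 0) (XT.nd (nat_lit 468) (nat_lit 3116) (nat_lit 0) (XT.nd (nat_lit 234) (nat_lit 1748) (nat_lit 0) (XT.nd (nat_lit 78) (nat_lit 760) (nat_lit 0) (XT.lf (nat_lit 0) (nat_lit 4988576512) (nat_lit 1292) (nat_lit 32387409904) (nat_lit 76) (nat_lit 3310594889) (nat_lit 284) (nat_lit 5) (nat_lit 301) (nat_lit 5) (nat_lit 285) (nat_lit 5) (nat_lit 452) (nat_lit 442) (nat_lit 306)) (XT.nd (nat_lit 78) (nat_lit 0) (nat_lit 0) (XT.lf (nat_lit 0) (nat_lit 3522433206) (nat_lit 760) (nat_lit 7242348994) (nat_lit 836) (nat_lit 31013634438) (nat_lit 274) (nat_lit 5) (nat_lit 284) (nat_lit 5) (nat_lit 285) (nat_lit 5) (nat_lit 453) (nat_lit 442) (nat_lit 305)) (XT.lf (nat_lit 0) (nat_lit 17396565654) (nat_lit 836) (nat_lit 1252253803) (nat_lit 76) (nat_lit 24259021825) (nat_lit 274) (nat_lit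 5) (nat_lit 285) (nat_lit 5) (nat_lit 275) (nat_lit 5) (nat_lit 454) (nat_lit 442) (nat_lit 304)))) (XT.nd (nat_lit 78) (nat_lit 1140) (nat_lit 0) (XT.lf (nat_lit 0) (nat_lit 24926203801) (nat_lit 684) (nat_lit 5938741429) (nat_lit 76) (nat_lit 13211804507) (nat_lit 266) (nat_lit 5) (nat_lit 275) (nat_lit 5) (nat_lit 267) (nat_lit 5) (nat_lit 455) (nat_lit 442) (nat_lit 303)) (XT.nd (nat_lit 78) (nat_lit 532) (nat_lit 0) (XT.lf (nat_lit 0) (nat_lit 33375995550) (nat_lit 684) (nat_lit 10595946102) (nat_lit 76) (nat_lit 1315852329) (nat_lit 258) (nat_lit 5) (nat_lit 267) (nat_lit 5) (nat_lit 259) (nat_lit 5) (nat_lit 456) (nat_lit 442) (nat_lit 302)) (XT.lf (nat_lit 0) (nat_lit 31213495193) (nat_lit 532) (nat_lit 11704168309) (nat_lit 608) (nat_lit 3621645829) (nat_lit 251) (nat_lit 5) (nat_lit 258) (nat_lit 5) (nat_lit 259) (nat_lit 5) (nat_lit 457) (nat_lit 442) (nat_lit 301))))) (XT.nd (nat_lit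 234) (nat_lit 1444) (nat_lit 0) (XT.nd (nat_lit 78) (nat_lit 1064) (nat_lit 0) (XT.lf (nat_lit 0) (nat_lit 5576515348) (nat_lit 608) (nat_lit 20081335604) (nat_lit 76) (nat_lit 22176303456) (nat_lit 243) (nat_lit 5) (nat_lit 251) (nat_lit 5) (nat_lit 244) (nat_lit 5) (nat_lit 458) (nat_lit 442) (nat_lit 300)) (XT.nd (nat_lit 78) (nat_lit 532) (nat_lit 0) (XT.lf (nat_lit 0) (nat_lit 15753286357) (nat_lit 608) (nat_lit 24828393153) (nat_lit 76) (nat_lit 8593178837) (nat_lit 236) (nat_lit 5) (nat_lit 244) (nat_lit 5) (nat_lit 237) (nat_lit 5) (nat_lit 459) (nat_lit 442) (nat_lit 299)) (XT.lf (nat_lit 0) (nat_lit 20983423729) (nat_lit 532) (nat_lit 6121381985) (nat_lit 608) (nat_lit 23457814888) (nat_lit 229) (nat_lit 5) (nat_lit 236) (nat_lit 5) (nat_lit 237) (nat_lit 5) (nat_lit 460) (nat_lit 442) (nat_lit 298)))) (XT.nd (nat_lit 78) (nat_lit 988) (nat_lit 0) (XT.lf (nat_lit 0) (nat_lit 17641403676)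 (nat_lit 456) (nat_lit 22095762672) (nat_lit 532) (nat_lit 12261207056) (nat_lit 223) (nat_lit 5) (nat_lit 229) (nat_lit 5) (nat_lit 230) (nat_lit 5) (nat_lit 461) (nat_lit 442) (nat_lit 297)) (XT.nd (nat_lit 78) (nat_lit 456) (nat_lit 0) (XT.lf (nat_lit 0) (nat_lit 150964361) (nat_lit 532) (nat_lit 39066004195) (nat_lit 76) (nat_lit 14269714720) (nat_lit 216) (nat_lit 5) (nat_lit 223) (nat_lit 5) (nat_lit 217) (nat_lit 5) (nat_lit 462) (nat_lit 442) (nat_lit 296)) (XT.lf (nat_lit 0) (nat_lit 11180424821) (nat_lit 456) (nat_lit 2436567424) (nat_lit 532) (nat_lit 41408169945) (nat_lit 210) (nat_lit 5) (nat_lit 216) (nat_lit 5) (nat_lit 217) (nat_lit 5) (nat_lit 463) (nat_lit 442) (nat_lit 295)))))) (XT.nd (nat_lit 468) (nat_lit 2432) (nat_lit 0) (XT.nd (nat_lit 234) (nat_lit 760) (nat_lit 0) (XT.nd (nat_lit 78) (nat_lit 912) (nat_lit 0) (XT.lf (nat_lit 0) (nat_lit 7926094102) (nat_lit 456) (nat_lit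 20657275229) (nat_lit 532) (nat_lit 28032384616) (nat_lit 204) (nat_lit 5) (nat_lit 210) (nat_lit 5) (nat_lit 211) (nat_lit 5) (nat_lit 464) (nat_lit 442) (nat_lit 294)) (XT.nd (nat_lit 78) (nat_lit 532) (nat_lit 0) (XT.lf (nat_lit 0) (nat_lit 4818338614) (nat_lit 380) (nat_lit 40175655716) (nat_lit 456) (nat_lit 13271003403) (nat_lit 199) (nat_lit 5) (nat_lit 204) (nat_lit 5) (nat_lit 205) (nat_lit 5) (nat_lit 465) (nat_lit 442) (nat_lit 293)) (XT.lf (nat_lit 0) (nat_lit 1834718927) (nat_lit 456) (nat_lit 1079653842) (nat_lit 532) (nat_lit 57059806268) (nat_lit 192) (nat_lit 5) (nat_lit 198) (nat_lit 5) (nat_lit 199) (nat_lit 5) (nat_lit 466) (nat_lit 442) (nat_lit 292)))) (XT.nd (nat_lit 78) (nat_lit 760) (nat_lit 0) (XT.lf (nat_lit 0) (nat_lit 20574156453) (nat_lit 532) (nat_lit 1282601898) (nat_lit 76) (nat_lit 39879931347) (nat_lit 192) (nat_lit 5) (nat_lit 199) (nat_lit 5) (nat_lit 193) (nat_lit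 5) (nat_lit 467) (nat_lit 442) (nat_lit 291)) (XT.nd (nat_lit 78) (nat_lit 380) (nat_lit 0) (XT.lf (nat_lit 0) (nat_lit 39888703124) (nat_lit 456) (nat_lit 4195882243) (nat_lit 76) (nat_lit 19479587573) (nat_lit 187) (nat_lit 5) (nat_lit 193) (nat_lit 5) (nat_lit 188) (nat_lit 5) (nat_lit 468) (nat_lit 442) (nat_lit 290)) (XT.lf (nat_lit 0) (nat_lit 58513466993) (nat_lit 380) (nat_lit 2449328182) (nat_lit 456) (nat_lit 4496420882) (nat_lit 182) (nat_lit 5) (nat_lit 187) (nat_lit 5) (nat_lit 188) (nat_lit 5) (nat_lit 469) (nat_lit 442) (nat_lit 289))))) (XT.nd (nat_lit 234) (nat_lit 1368) (nat_lit 0) (XT.nd (nat_lit 78) (nat_lit 684) (nat_lit 0) (XT.lf (nat_lit 0) (nat_lit 16338868321) (nat_lit 380) (nat_lit 9855347405) (nat_lit 76) (nat_lit 41220209799) (nat_lit 177) (nat_lit 5) (nat_lit 182) (nat_lit 5) (nat_lit 178) (nat_lit 5) (nat_lit 470) (nat_lit 442) (nat_lit 288)) (XT.nd (nat_lit 78) (nat_lit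 304) (nat_lit 0) (XT.lf (nat_lit 0) (nat_lit 38941611094) (nat_lit 456) (nat_lit 12614875092) (nat_lit 76) (nat_lit 17885013471) (nat_lit 172) (nat_lit 5) (nat_lit 178) (nat_lit 5) (nat_lit 173) (nat_lit 5) (nat_lit 471) (nat_lit 442) (nat_lit 287)) (XT.lf (nat_lit 0) (nat_lit 56311835754) (nat_lit 304) (nat_lit 7268431446) (nat_lit 380) (nat_lit 7962487221) (nat_lit 168) (nat_lit 5) (nat_lit 172) (nat_lit 5) (nat_lit 173) (nat_lit 5) (nat_lit 472) (nat_lit 442) (nat_lit 286)))) (XT.nd (nat_lit 156) (nat_lit 684) (nat_lit 0) (XT.nd (nat_lit 78) (nat_lit 304) (nat_lit 0) (XT.lf (nat_lit 0) (nat_lit 16449172120) (nat_lit 380) (nat_lit 17966429208) (nat_lit 76) (nat_lit 39297329147) (nat_lit 163) (nat_lit 5) (nat_lit 168) (nat_lit 5) (nat_lit 164) (nat_lit 5) (nat_lit 473) (nat_lit 442) (nat_lit 285)) (XT.lf (nat_lit 0) (nat_lit 42805010707) (nat_lit 380) (nat_lit 20560644736) (nat_lit 76) (nat_lit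 12596946796) (nat_lit 159) (nat_lit 5) (nat_lit 164) (nat_lit 5) (nat_lit 160) (nat_lit 5) (nat_lit 474) (nat_lit 442) (nat_lit 284))) (XT.nd (nat_lit 78) (nat_lit 380) (nat_lit 0) (XT.lf (nat_lit 0) (nat_lit 55220093642) (nat_lit 304) (nat_lit 16321326564) (nat_lit 380) (nat_lit 6751454193) (nat_lit 155) (nat_lit 5) (nat_lit 159) (nat_lit 5) (nat_lit 160) (nat_lit 5) (nat_lit 475) (nat_lit 442) (nat_lit 283)) (XT.lf (nat_lit 0) (nat_lit 21636779076) (nat_lit 380) (nat_lit 25679051062) (nat_lit 76) (nat_lit 33385648859) (nat_lit 150) (nat_lit 5) (nat_lit 155) (nat_lit 5) (nat_lit 151) (nat_lit 5) (nat_lit 476) (nat_lit 442) (nat_lit 282))))))) (XT.nd (nat_lit 1014) (nat_lit 152) (nat_lit 0) (XT.nd (nat_lit 468) (nat_lit 1672) (nat_lit 0) (XT.nd (nat_lit 234) (nat_lit 760) (nat_lit 0) (XT.nd (nat_lit 78) (nat_lit 608) (nat_lit 0) (XT.lf (nat_lit 0) (nat_lit 52266144484) (nat_lit 380) (nat_lit 28109855334)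 (nat_lit 76) (nat_lit 2823668254) (nat_lit 146) (nat_lit 5) (nat_lit 151) (nat_lit 5) (nat_lit 147) (nat_lit 5) (nat_lit 477) (nat_lit 442) (nat_lit 281)) (XT.nd (nat_lit 78) (nat_lit 380) (nat_lit 0) (XT.lf (nat_lit 0) (nat_lit 55212996204) (nat_lit 228) (nat_lit 30487250103) (nat_lit 304) (nat_lit 84322395) (nat_lit 143) (nat_lit 5) (nat_lit 146) (nat_lit 5) (nat_lit 147) (nat_lit 5) (nat_lit 478) (nat_lit 442) (nat_lit 280)) (XT.lf (nat_lit 0) (nat_lit 32723049971) (nat_lit 380) (nat_lit 33119195472) (nat_lit 76) (nat_lit 22615768013) (nat_lit 138) (nat_lit 5) (nat_lit 143) (nat_lit 5) (nat_lit 139) (nat_lit 5) (nat_lit 479) (nat_lit 442) (nat_lit 279)))) (XT.nd (nat_lit 78) (nat_lit 532) (nat_lit 0) (XT.lf (nat_lit 0) (nat_lit 55700093050) (nat_lit 228) (nat_lit 12628029495) (nat_lit 304) (nat_lit 22902210720) (nat_lit 135) (nat_lit 5) (nat_lit 138) (nat_lit 5) (nat_lit 139) (nat_lit 5) (nat_lit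 480) (nat_lit 442) (nat_lit 278)) (XT.nd (nat_lit 78) (nat_lit 228) (nat_lit 0) (XT.lf (nat_lit 0) (nat_lit 12657582418) (nat_lit 304) (nat_lit 38030507062) (nat_lit 76) (nat_lit 43410506011) (nat_lit 131) (nat_lit 5) (nat_lit 135) (nat_lit 5) (nat_lit 132) (nat_lit 5) (nat_lit 481) (nat_lit 442) (nat_lit 277)) (XT.lf (nat_lit 0) (nat_lit 50623784537) (nat_lit 304) (nat_lit 40501062584) (nat_lit 76) (nat_lit 5945559020) (nat_lit 128) (nat_lit 5) (nat_lit 132) (nat_lit 5) (nat_lit 129) (nat_lit 5) (nat_lit 482) (nat_lit 442) (nat_lit 276))))) (XT.nd (nat_lit 234) (nat_lit 912) (nat_lit 0) (XT.nd (nat_lit 78) (nat_lit 532) (nat_lit 0) (XT.lf (nat_lit 0) (nat_lit 57110911004) (nat_lit 228) (nat_lit 34831584255) (nat_lit 304) (nat_lit 8204686219) (nat_lit 125) (nat_lit 5) (nat_lit 128) (nat_lit 5) (nat_lit 129) (nat_lit 5) (nat_lit 483) (nat_lit 442) (nat_lit 275)) (XT.nd (nat_lit 78) (nat_lit 228)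 (nat_lit 0) (XT.lf (nat_lit 0) (nat_lit 32547870789) (nat_lit 304) (nat_lit 45685072701) (nat_lit 76) (nat_lit 25098979541) (nat_lit 121) (nat_lit 5) (nat_lit 125) (nat_lit 5) (nat_lit 122) (nat_lit 5) (nat_lit 484) (nat_lit 442) (nat_lit 274)) (XT.lf (nat_lit 0) (nat_lit 58296863183) (nat_lit 228) (nat_lit 18230764102) (nat_lit 304) (nat_lit 30105059726) (nat_lit 118) (nat_lit 5) (nat_lit 121) (nat_lit 5) (nat_lit 122) (nat_lit 5) (nat_lit 485) (nat_lit 442) (nat_lit 273)))) (XT.nd (nat_lit 156) (nat_lit 456) (nat_lit 0) (XT.nd (nat_lit 78) (nat_lit 228) (nat_lit 0) (XT.lf (nat_lit 0) (nat_lit 13847857255) (nat_lit 228) (nat_lit 51127169717) (nat_lit 76) (nat_lit 45075246465) (nat_lit 115) (nat_lit 5) (nat_lit 118) (nat_lit 5) (nat_lit 116) (nat_lit 5) (nat_lit 486) (nat_lit 442) (nat_lit 272)) (XT.lf (nat_lit 0) (nat_lit 59598721507) (nat_lit 228) (nat_lit 1040679055) (nat_lit 304) (nat_lit 52952488631)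 (nat_lit 112) (nat_lit 5) (nat_lit 115) (nat_lit 5) (nat_lit 116) (nat_lit 5) (nat_lit 487) (nat_lit 442) (nat_lit 271))) (XT.nd (nat_lit 78) (nat_lit 304) (nat_lit 0) (XT.lf (nat_lit 0) (nat_lit 60165376341) (nat_lit 152) (nat_lit 51348756092) (nat_lit 228) (nat_lit 5744145042) (nat_lit 110) (nat_lit 5) (nat_lit 112) (nat_lit 5) (nat_lit 113) (nat_lit 5) (nat_lit 488) (nat_lit 442) (nat_lit 270)) (XT.lf (nat_lit 0) (nat_lit 44284781069) (nat_lit 304) (nat_lit 60405482438) (nat_lit 76) (nat_lit 16365623426) (nat_lit 106) (nat_lit 5) (nat_lit 110) (nat_lit 5) (nat_lit 107) (nat_lit 5) (nat_lit 489) (nat_lit 442) (nat_lit 269)))))) (XT.nd (nat_lit 59202) (nat_lit 0) (nat_lit 12920) (XT.nd (nat_lit 58968) (nat_lit 0) (nat_lit 14440) (XT.nd (nat_lit 58812) (nat_lit 0) (nat_lit 14364) (XT.lf (nat_lit 0) (nat_lit 61054948995) (nat_lit 152) (nat_lit 37339739552) (nat_lit 228) (nat_lit 26596032222) (nat_lit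 104) (nat_lit 5) (nat_lit 106) (nat_lit 5) (nat_lit 107) (nat_lit 5) (nat_lit 490) (nat_lit 442) (nat_lit 268)) (XT.nd (nat_lit 78) (nat_lit 0) (nat_lit 76) (XT.lf (nat_lit 0) (nat_lit 7559144694) (nat_lit 1292) (nat_lit 4506864570) (nat_lit 1292) (nat_lit 4506864570) (nat_lit 293) (nat_lit 3) (nat_lit 310) (nat_lit 3) (nat_lit 310) (nat_lit 5) (nat_lit 443) (nat_lit 443) (nat_lit 314)) (XT.lf (nat_lit 0) (nat_lit 15800515824) (nat_lit 1216) (nat_lit 15355536160) (nat_lit 1292) (nat_lit 2809197736) (nat_lit 294) (nat_lit 5) (nat_lit 310) (nat_lit 5) (nat_lit 311) (nat_lit 5) (nat_lit 444) (nat_lit 443) (nat_lit 313)))) (XT.nd (nat_lit 78) (nat_lit 0) (nat_lit 76) (XT.lf (nat_lit 76) (nat_lit 12985144648) (nat_lit 0) (nat_lit 3987559213) (nat_lit 1292) (nat_lit 17839348373) (nat_lit 295) (nat_lit 5) (nat_lit 294) (nat_lit 5) (nat_lit 311) (nat_lit 5) (nat_lit 445) (nat_lit 443) (nat_lit 312)) (XT.nd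 (nat_lit 78) (nat_lit 0) (nat_lit 76) (XT.lf (nat_lit 76) (nat_lit 7268062231) (nat_lit 0) (nat_lit 11394869659) (nat_lit 1292) (nat_lit 17024480894) (nat_lit 296) (nat_lit 5) (nat_lit 295) (nat_lit 5) (nat_lit 312) (nat_lit 5) (nat_lit 446) (nat_lit 443) (nat_lit 311)) (XT.lf (nat_lit 76) (nat_lit 1491133638) (nat_lit 0) (nat_lit 19388240916) (nat_lit 1292) (nat_lit 15713916496) (nat_lit 297) (nat_lit 5) (nat_lit 296) (nat_lit 5) (nat_lit 313) (nat_lit 5) (nat_lit 447) (nat_lit 443) (nat_lit 310))))) (XT.nd (nat_lit 234) (nat_lit 1748) (nat_lit 0) (XT.nd (nat_lit 78) (nat_lit 0) (nat_lit 76) (XT.lf (nat_lit 0) (nat_lit 23701467429) (nat_lit 1216) (nat_lit 4256142763) (nat_lit 1292) (nat_lit 9572008947) (nat_lit 297) (nat_lit 5) (nat_lit 313) (nat_lit 5) (nat_lit 314) (nat_lit 5) (nat_lit 448) (nat_lit 443) (nat_lit 309)) (XT.nd (nat_lit 78) (nat_lit 0) (nat_lit 0) (XT.lf (nat_lit 0) (nat_lit 27142103780)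 (nat_lit 1216) (nat_lit 10023093124) (nat_lit 1292) (nat_lit 1333244277) (nat_lit 298) (nat_lit 5) (nat_lit 314) (nat_lit 5) (nat_lit 315) (nat_lit 5) (nat_lit 449) (nat_lit 443) (nat_lit 308)) (XT.lf (nat_lit 76) (nat_lit 23592062459) (nat_lit 0) (nat_lit 7710973543) (nat_lit 1292) (nat_lit 8196221082) (nat_lit 299) (nat_lit 5) (nat_lit 298) (nat_lit 5) (nat_lit 315) (nat_lit 5) (nat_lit 450) (nat_lit 443) (nat_lit 307)))) (XT.nd (nat_lit 156) (nat_lit 684) (nat_lit 0) (XT.nd (nat_lit 78) (nat_lit 1216) (nat_lit 0) (XT.lf (nat_lit 76) (nat_lit 18687175924) (nat_lit 0) (nat_lit 17487103741) (nat_lit 1292) (nat_lit 4360766819) (nat_lit 300) (nat_lit 5) (nat_lit 299) (nat_lit 5) (nat_lit 316) (nat_lit 5) (nat_lit 451) (nat_lit 443) (nat_lit 306)) (XT.lf (nat_lit 0) (nat_lit 178713569) (nat_lit 1292) (nat_lit 27827281066) (nat_lit 1368) (nat_lit 13601555160) (nat_lit 283) (nat_lit 5) (nat_lit 300)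 (nat_lit 5) (nat_lit 301) (nat_lit 5) (nat_lit 452) (nat_lit 443) (nat_lit 305))) (XT.nd (nat_lit 78) (nat_lit 760) (nat_lit 0) (XT.lf (nat_lit 0) (nat_lit 5374171434) (nat_lit 1292) (nat_lit 33885733019) (nat_lit 76) (nat_lit 3456903387) (nat_lit 284) (nat_lit 5) (nat_lit 301) (nat_lit 5) (nat_lit 285) (nat_lit 5) (nat_lit 453) (nat_lit 443) (nat_lit 304)) (XT.lf (nat_lit 0) (nat_lit 3816132447) (nat_lit 760) (nat_lit 7617701087) (nat_lit 836) (nat_lit 32429562856) (nat_lit 274) (nat_lit 5) (nat_lit 284) (nat_lit 5) (nat_lit 285) (nat_lit 5) (nat_lit 454) (nat_lit 443) (nat_lit 303))))))))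
noncomputable def xc110 : XT := (XT.nd (nat_lit 1950) (nat_lit 2812) (nat_lit 0) (XT.nd (nat_lit 936) (nat_lit 4256) (nat_lit 0) (XT.nd (nat_lit 468) (nat_lit 2812) (nat_lit 0) (XT.nd (nat_lit 234) (nat_lit 1672) (nat_lit 0) (XT.nd (nat_lit 78) (nat_lit 1216) (nat_lit 0) (XT.lf (nat_lit 0) (nat_lit 18390855846) (nat_lit 836) (nat_lit 1199013274) (nat_lit 76) (nat_lit 25459614452) (nat_lit 274) (nat_lit 5) (nat_lit 285) (nat_lit 5) (nat_lit 275) (nat_lit 5) (nat_lit 455) (nat_lit 443) (nat_lit 302)) (XT.nd (nat_lit 78) (nat_lit 608) (nat_lit 0) (XT.lf (nat_lit 0) (nat_lit 26292062771) (nat_lit 684) (nat_lit 6119474424) (nat_lit 76) (nat_lit 13865448406) (nat_lit 266) (nat_lit 5) (nat_lit 275) (nat_lit 5) (nat_lit 267) (nat_lit 5) (nat_lit 456) (nat_lit 443) (nat_lit 301)) (XT.lf (nat_lit 0) (nat_lit 35159716436) (nat_lit 684) (nat_lit 11009387753) (nat_lit 76) (nat_lit 1379617420) (nat_lit 258)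 (nat_lit 5) (nat_lit 267) (nat_lit 5) (nat_lit 259) (nat_lit 5) (nat_lit 457) (nat_lit 443) (nat_lit 300)))) (XT.nd (nat_lit 78) (nat_lit 1140) (nat_lit 0) (XT.lf (nat_lit 0) (nat_lit 32887190295) (nat_lit 532) (nat_lit 12286891478) (nat_lit 608) (nat_lit 3688863223) (nat_lit 251) (nat_lit 5) (nat_lit 258) (nat_lit 5) (nat_lit 259) (nat_lit 5) (nat_lit 458) (nat_lit 443) (nat_lit 299)) (XT.nd (nat_lit 78) (nat_lit 532) (nat_lit 0) (XT.lf (nat_lit 0) (nat_lit 5962787643) (nat_lit 608) (nat_lit 20970259488) (nat_lit 76) (nat_lit 23289578887) (nat_lit 243) (nat_lit 5) (nat_lit 251) (nat_lit 5) (nat_lit 244) (nat_lit 5) (nat_lit 459) (nat_lit 443) (nat_lit 298)) (XT.lf (nat_lit 0) (nat_lit 16644436903) (nat_lit 608) (nat_lit 25954937305) (nat_lit 76) (nat_lit 9031110362) (nat_lit 236) (nat_lit 5) (nat_lit 244) (nat_lit 5) (nat_lit 237) (nat_lit 5) (nat_lit 460) (nat_lit 443) (nat_lit 297))))) (XT.nd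 (nat_lit 234) (nat_lit 1292) (nat_lit 0) (XT.nd (nat_lit 78) (nat_lit 988) (nat_lit 0) (XT.lf (nat_lit 0) (nat_lit 22144177538) (nat_lit 532) (nat_lit 6415499375) (nat_lit 608) (nat_lit 24528074262) (nat_lit 229) (nat_lit 5) (nat_lit 236) (nat_lit 5) (nat_lit 237) (nat_lit 5) (nat_lit 461) (nat_lit 443) (nat_lit 296)) (XT.nd (nat_lit 78) (nat_lit 532) (nat_lit 0) (XT.lf (nat_lit 0) (nat_lit 18634660846) (nat_lit 456) (nat_lit 23185428617) (nat_lit 532) (nat_lit 12775309686) (nat_lit 223) (nat_lit 5) (nat_lit 229) (nat_lit 5) (nat_lit 230) (nat_lit 5) (nat_lit 462) (nat_lit 443) (nat_lit 295)) (XT.lf (nat_lit 0) (nat_lit 252133122) (nat_lit 532) (nat_lit 40906762380) (nat_lit 76) (nat_lit 14999303167) (nat_lit 216) (nat_lit 5) (nat_lit 223) (nat_lit 5) (nat_lit 217) (nat_lit 5) (nat_lit 463) (nat_lit 443) (nat_lit 294)))) (XT.nd (nat_lit 78) (nat_lit 836) (nat_lit 0) (XT.lf (nat_lit 0) (nat_lit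 11848762091) (nat_lit 456) (nat_lit 2539293000) (nat_lit 532) (nat_lit 43385649141) (nat_lit 210) (nat_lit 5) (nat_lit 216) (nat_lit 5) (nat_lit 217) (nat_lit 5) (nat_lit 464) (nat_lit 443) (nat_lit 293)) (XT.nd (nat_lit 78) (nat_lit 380) (nat_lit 0) (XT.lf (nat_lit 0) (nat_lit 8431041163) (nat_lit 456) (nat_lit 21668633220) (nat_lit 532) (nat_lit 29344243953) (nat_lit 204) (nat_lit 5) (nat_lit 210) (nat_lit 5) (nat_lit 211) (nat_lit 5) (nat_lit 465) (nat_lit 443) (nat_lit 292)) (XT.lf (nat_lit 0) (nat_lit 5167131001) (nat_lit 380) (nat_lit 42160784119) (nat_lit 456) (nat_lit 13847797097) (nat_lit 199) (nat_lit 5) (nat_lit 204) (nat_lit 5) (nat_lit 205) (nat_lit 5) (nat_lit 466) (nat_lit 443) (nat_lit 291)))))) (XT.nd (nat_lit 468) (nat_lit 2204) (nat_lit 0) (XT.nd (nat_lit 234) (nat_lit 1140) (nat_lit 0) (XT.nd (nat_lit 78) (nat_lit 380) (nat_lit 0) (XT.lf (nat_lit 0) (nat_lit 2032890777) (nat_lit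 456) (nat_lit 1109236657) (nat_lit 532) (nat_lit 59828291363) (nat_lit 192) (nat_lit 5) (nat_lit 198) (nat_lit 5) (nat_lit 199) (nat_lit 5) (nat_lit 467) (nat_lit 443) (nat_lit 290)) (XT.nd (nat_lit 78) (nat_lit 380) (nat_lit 0) (XT.lf (nat_lit 0) (nat_lit 21681217202) (nat_lit 532) (nat_lit 1243236233) (nat_lit 76) (nat_lit 41896712436) (nat_lit 192) (nat_lit 5) (nat_lit 199) (nat_lit 5) (nat_lit 193) (nat_lit 5) (nat_lit 468) (nat_lit 443) (nat_lit 289)) (XT.lf (nat_lit 0) (nat_lit 41958966210) (nat_lit 456) (nat_lit 4303112025) (nat_lit 76) (nat_lit 20478021159) (nat_lit 187) (nat_lit 5) (nat_lit 193) (nat_lit 5) (nat_lit 188) (nat_lit 5) (nat_lit 469) (nat_lit 443) (nat_lit 288)))) (XT.nd (nat_lit 78) (nat_lit 760) (nat_lit 0) (XT.lf (nat_lit 0) (nat_lit 61538764687) (nat_lit 380) (nat_lit 2545344972) (nat_lit 456) (nat_lit 4645864952) (nat_lit 182) (nat_lit 5) (nat_lit 187) (nat_lit 5) (nat_lit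 188) (nat_lit 5) (nat_lit 470) (nat_lit 443) (nat_lit 287)) (XT.nd (nat_lit 78) (nat_lit 380) (nat_lit 0) (XT.lf (nat_lit 0) (nat_lit 17227400815) (nat_lit 380) (nat_lit 10248022742) (nat_lit 76) (nat_lit 43307569093) (nat_lit 177) (nat_lit 5) (nat_lit 182) (nat_lit 5) (nat_lit 178) (nat_lit 5) (nat_lit 471) (nat_lit 443) (nat_lit 286)) (XT.lf (nat_lit 0) (nat_lit 40958076483) (nat_lit 456) (nat_lit 13146586516) (nat_lit 76) (nat_lit 18806823926) (nat_lit 172) (nat_lit 5) (nat_lit 178) (nat_lit 5) (nat_lit 173) (nat_lit 5) (nat_lit 472) (nat_lit 443) (nat_lit 285))))) (XT.nd (nat_lit 234) (nat_lit 1216) (nat_lit 0) (XT.nd (nat_lit 78) (nat_lit 684) (nat_lit 0) (XT.lf (nat_lit 0) (nat_lit 59223621131) (nat_lit 304) (nat_lit 7602664896) (nat_lit 380) (nat_lit 8291590076) (nat_lit 168) (nat_lit 5) (nat_lit 172) (nat_lit 5) (nat_lit 173) (nat_lit 5) (nat_lit 473) (nat_lit 443) (nat_lit 284)) (XT.nd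 (nat_lit 78) (nat_lit 304) (nat_lit 0) (XT.lf (nat_lit 0) (nat_lit 17337276054) (nat_lit 380) (nat_lit 18768316826) (nat_lit 76) (nat_lit 41291009325) (nat_lit 163) (nat_lit 5) (nat_lit 168) (nat_lit 5) (nat_lit 164) (nat_lit 5) (nat_lit 474) (nat_lit 443) (nat_lit 283)) (XT.lf (nat_lit 0) (nat_lit 45008971791) (nat_lit 380) (nat_lit 21493390400) (nat_lit 76) (nat_lit 13256453669) (nat_lit 159) (nat_lit 5) (nat_lit 164) (nat_lit 5) (nat_lit 160) (nat_lit 5) (nat_lit 475) (nat_lit 443) (nat_lit 282)))) (XT.nd (nat_lit 156) (nat_lit 532) (nat_lit 0) (XT.nd (nat_lit 78) (nat_lit 380) (nat_lit 0) (XT.lf (nat_lit 0) (nat_lit 58073653527) (nat_lit 304) (nat_lit 17106404100) (nat_lit 380) (nat_lit 7025608571) (nat_lit 155) (nat_lit 5) (nat_lit 159) (nat_lit 5) (nat_lit 160) (nat_lit 5) (nat_lit 476) (nat_lit 443) (nat_lit 281)) (XT.lf (nat_lit 0) (nat_lit 22779011762) (nat_lit 380) (nat_lit 26870385487)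 (nat_lit 76) (nat_lit 35085339330) (nat_lit 150) (nat_lit 5) (nat_lit 155) (nat_lit 5) (nat_lit 151) (nat_lit 5) (nat_lit 477) (nat_lit 443) (nat_lit 280))) (XT.nd (nat_lit 78) (nat_lit 228) (nat_lit 0) (XT.lf (nat_lit 0) (nat_lit 54938137902) (nat_lit 380) (nat_lit 29423932606) (nat_lit 76) (nat_lit 2995816041) (nat_lit 146) (nat_lit 5) (nat_lit 151) (nat_lit 5) (nat_lit 147) (nat_lit 5) (nat_lit 478) (nat_lit 443) (nat_lit 279)) (XT.lf (nat_lit 0) (nat_lit 58062441102) (nat_lit 228) (nat_lit 31979562687) (nat_lit 304) (nat_lit 30086861) (nat_lit 143) (nat_lit 5) (nat_lit 146) (nat_lit 5) (nat_lit 147) (nat_lit 5) (nat_lit 479) (nat_lit 443) (nat_lit 278))))))) (XT.nd (nat_lit 59826) (nat_lit 0) (nat_lit 11552) (XT.nd (nat_lit 468) (nat_lit 1140) (nat_lit 0) (XT.nd (nat_lit 234) (nat_lit 760) (nat_lit 0) (XT.nd (nat_lit 78) (nat_lit 532) (nat_lit 0) (XT.lf (nat_lit 0) (nat_lit 34414931222) (nat_lit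 380) (nat_lit 34686434199) (nat_lit 76) (nat_lit 23777873023) (nat_lit 138) (nat_lit 5) (nat_lit 143) (nat_lit 5) (nat_lit 139) (nat_lit 5) (nat_lit 480) (nat_lit 443) (nat_lit 277)) (XT.nd (nat_lit 78) (nat_lit 304) (nat_lit 0) (XT.lf (nat_lit 0) (nat_lit 58571275579) (nat_lit 228) (nat_lit 13227156491) (nat_lit 304) (nat_lit 23991797118) (nat_lit 135) (nat_lit 5) (nat_lit 138) (nat_lit 5) (nat_lit 139) (nat_lit 5) (nat_lit 481) (nat_lit 443) (nat_lit 276)) (XT.lf (nat_lit 0) (nat_lit 13343433156) (nat_lit 304) (nat_lit 39845994272) (nat_lit 76) (nat_lit 45612505324) (nat_lit 131) (nat_lit 5) (nat_lit 135) (nat_lit 5) (nat_lit 132) (nat_lit 5) (nat_lit 482) (nat_lit 443) (nat_lit 275)))) (XT.nd (nat_lit 78) (nat_lit 532) (nat_lit 0) (XT.lf (nat_lit 0) (nat_lit 53206536940) (nat_lit 304) (nat_lit 42441313729) (nat_lit 76) (nat_lit 6274525678) (nat_lit 128) (nat_lit 5) (nat_lit 132) (nat_lit 5)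 (nat_lit 129) (nat_lit 5) (nat_lit 483) (nat_lit 443) (nat_lit 274)) (XT.nd (nat_lit 78) (nat_lit 304) (nat_lit 0) (XT.lf (nat_lit 0) (nat_lit 60048827706) (nat_lit 228) (nat_lit 36540691905) (nat_lit 304) (nat_lit 8563520900) (nat_lit 125) (nat_lit 5) (nat_lit 128) (nat_lit 5) (nat_lit 129) (nat_lit 5) (nat_lit 484) (nat_lit 443) (nat_lit 273)) (XT.lf (nat_lit 0) (nat_lit 34224349264) (nat_lit 304) (nat_lit 47887182775) (nat_lit 76) (nat_lit 26385511774) (nat_lit 121) (nat_lit 5) (nat_lit 125) (nat_lit 5) (nat_lit 122) (nat_lit 5) (nat_lit 485) (nat_lit 443) (nat_lit 272))))) (XT.nd (nat_lit 234) (nat_lit 456) (nat_lit 0) (XT.nd (nat_lit 78) (nat_lit 456) (nat_lit 0) (XT.lf (nat_lit 0) (nat_lit 61291495274) (nat_lit 228) (nat_lit 19110027912) (nat_lit 304) (nat_lit 31561370051) (nat_lit 118) (nat_lit 5) (nat_lit 121) (nat_lit 5) (nat_lit 122) (nat_lit 5) (nat_lit 486) (nat_lit 443) (nat_lit 271))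 (XT.nd (nat_lit 78) (nat_lit 228) (nat_lit 0) (XT.lf (nat_lit 0) (nat_lit 14587013912) (nat_lit 228) (nat_lit 53604007388) (nat_lit 76) (nat_lit 47360360409) (nat_lit 115) (nat_lit 5) (nat_lit 118) (nat_lit 5) (nat_lit 116) (nat_lit 5) (nat_lit 487) (nat_lit 443) (nat_lit 270)) (XT.lf (nat_lit 0) (nat_lit 62655898948) (nat_lit 228) (nat_lit 1060751080) (nat_lit 304) (nat_lit 55553472873) (nat_lit 112) (nat_lit 5) (nat_lit 115) (nat_lit 5) (nat_lit 116) (nat_lit 5) (nat_lit 488) (nat_lit 443) (nat_lit 269)))) (XT.nd (nat_lit 58968) (nat_lit 0) (nat_lit 14212) (XT.nd (nat_lit 78) (nat_lit 304) (nat_lit 0) (XT.lf (nat_lit 0) (nat_lit 63249695730) (nat_lit 152) (nat_lit 53884290251) (nat_lit 228) (nat_lit 5985878705) (nat_lit 110) (nat_lit 5) (nat_lit 112) (nat_lit 5) (nat_lit 113) (nat_lit 5) (nat_lit 489) (nat_lit 443) (nat_lit 268)) (XT.lf (nat_lit 0) (nat_lit 46542504908) (nat_lit 304) (nat_lit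 63350027698) (nat_lit 76) (nat_lit 17214842046) (nat_lit 106) (nat_lit 5) (nat_lit 110) (nat_lit 5) (nat_lit 107) (nat_lit 5) (nat_lit 490) (nat_lit 443) (nat_lit 267))) (XT.nd (nat_lit 78) (nat_lit 0) (nat_lit 76) (XT.lf (nat_lit 0) (nat_lit 8033146039) (nat_lit 1292) (nat_lit 4682738405) (nat_lit 1292) (nat_lit 4682738405) (nat_lit 293) (nat_lit 3) (nat_lit 310) (nat_lit 3) (nat_lit 310) (nat_lit 5) (nat_lit 444) (nat_lit 444) (nat_lit 312)) (XT.lf (nat_lit 0) (nat_lit 16773562951) (nat_lit 1216) (nat_lit 16020825237) (nat_lit 1292) (nat_lit 2863607945) (nat_lit 294) (nat_lit 5) (nat_lit 310) (nat_lit 5) (nat_lit 311) (nat_lit 5) (nat_lit 445) (nat_lit 444) (nat_lit 311)))))) (XT.nd (nat_lit 468) (nat_lit 2736) (nat_lit 0) (XT.nd (nat_lit 234) (nat_lit 0) (nat_lit 228) (XT.nd (nat_lit 78) (nat_lit 0) (nat_lit 76) (XT.lf (nat_lit 76) (nat_lit 13733951821) (nat_lit 0) (nat_lit 4262650202) (nat_lit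 1292) (nat_lit 18550770712) (nat_lit 295) (nat_lit 5) (nat_lit 294) (nat_lit 5) (nat_lit 311) (nat_lit 5) (nat_lit 446) (nat_lit 444) (nat_lit 310)) (XT.nd (nat_lit 78) (nat_lit 0) (nat_lit 76) (XT.lf (nat_lit 76) (nat_lit 7733999342) (nat_lit 0) (nat_lit 12029288733) (nat_lit 1292) (nat_lit 17703455992) (nat_lit 296) (nat_lit 5) (nat_lit 295) (nat_lit 5) (nat_lit 312) (nat_lit 5) (nat_lit 447) (nat_lit 444) (nat_lit 309)) (XT.lf (nat_lit 76) (nat_lit 1670783987) (nat_lit 0) (nat_lit 20412224652) (nat_lit 1292) (nat_lit 16335135034) (nat_lit 297) (nat_lit 5) (nat_lit 296) (nat_lit 5) (nat_lit 313) (nat_lit 5) (nat_lit 448) (nat_lit 444) (nat_lit 308)))) (XT.nd (nat_lit 78) (nat_lit 0) (nat_lit 76) (XT.lf (nat_lit 0) (nat_lit 25038103448) (nat_lit 1216) (nat_lit 4363778307) (nat_lit 1292) (nat_lit 9999650538) (nat_lit 297) (nat_lit 5) (nat_lit 313) (nat_lit 5) (nat_lit 314) (nat_lit 5) (nat_lit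 449) (nat_lit 444) (nat_lit 307)) (XT.nd (nat_lit 78) (nat_lit 0) (nat_lit 0) (XT.lf (nat_lit 0) (nat_lit 28644121361) (nat_lit 1216) (nat_lit 10417296179) (nat_lit 1292) (nat_lit 1357578401) (nat_lit 298) (nat_lit 5) (nat_lit 314) (nat_lit 5) (nat_lit 315) (nat_lit 5) (nat_lit 450) (nat_lit 444) (nat_lit 306)) (XT.lf (nat_lit 76) (nat_lit 24875551437) (nat_lit 0) (nat_lit 8131646782) (nat_lit 1292) (nat_lit 8462832429) (nat_lit 299) (nat_lit 5) (nat_lit 298) (nat_lit 5) (nat_lit 315) (nat_lit 5) (nat_lit 451) (nat_lit 444) (nat_lit 305))))) (XT.nd (nat_lit 234) (nat_lit 1900) (nat_lit 0) (XT.nd (nat_lit 78) (nat_lit 1216) (nat_lit 0) (XT.lf (nat_lit 76) (nat_lit 19726839874) (nat_lit 0) (nat_lit 18389235344) (nat_lit 1292) (nat_lit 4441713069) (nat_lit 300) (nat_lit 5) (nat_lit 299) (nat_lit 5) (nat_lit 316) (nat_lit 5) (nat_lit 452) (nat_lit 444) (nat_lit 304)) (XT.nd (nat_lit 78) (nat_lit 0)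 (nat_lit 76) (XT.lf (nat_lit 0) (nat_lit 316441876) (nat_lit 1292) (nat_lit 29109623668) (nat_lit 1368) (nat_lit 14257981250) (nat_lit 283) (nat_lit 5) (nat_lit 300) (nat_lit 5) (nat_lit 301) (nat_lit 5) (nat_lit 453) (nat_lit 444) (nat_lit 303)) (XT.lf (nat_lit 0) (nat_lit 5766386669) (nat_lit 1292) (nat_lit 35470226128) (nat_lit 76) (nat_lit 3612314318) (nat_lit 284) (nat_lit 5) (nat_lit 301) (nat_lit 5) (nat_lit 285) (nat_lit 5) (nat_lit 454) (nat_lit 444) (nat_lit 302)))) (XT.nd (nat_lit 156) (nat_lit 1216) (nat_lit 0) (XT.nd (nat_lit 78) (nat_lit 0) (nat_lit 0) (XT.lf (nat_lit 0) (nat_lit 4113585402) (nat_lit 760) (nat_lit 8010590352) (nat_lit 836) (nat_lit 33928815781) (nat_lit 274) (nat_lit 5) (nat_lit 284) (nat_lit 5) (nat_lit 285) (nat_lit 5) (nat_lit 455) (nat_lit 444) (nat_lit 301)) (XT.lf (nat_lit 0) (nat_lit 19423289259) (nat_lit 836) (nat_lit 1153881653) (nat_lit 76) (nat_lit 26721385683)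 (nat_lit 274) (nat_lit 5) (nat_lit 285) (nat_lit 5) (nat_lit 275) (nat_lit 5) (nat_lit 456) (nat_lit 444) (nat_lit 300))) (XT.nd (nat_lit 78) (nat_lit 608) (nat_lit 0) (XT.lf (nat_lit 0) (nat_lit 27715100176) (nat_lit 684) (nat_lit 6320047623) (nat_lit 76) (nat_lit 14552420304) (nat_lit 266) (nat_lit 5) (nat_lit 275) (nat_lit 5) (nat_lit 267) (nat_lit 5) (nat_lit 457) (nat_lit 444) (nat_lit 299)) (XT.lf (nat_lit 0) (nat_lit 37021939091) (nat_lit 684) (nat_lit 11454319133) (nat_lit 76) (nat_lit 1446759267) (nat_lit 258) (nat_lit 5) (nat_lit 267) (nat_lit 5) (nat_lit 259) (nat_lit 5) (nat_lit 458) (nat_lit 444) (nat_lit 298))))))))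
noncomputable def xc111 : XT := (XT.nd (nat_lit 1950) (nat_lit 1596) (nat_lit 0) (XT.nd (nat_lit 936) (nat_lit 4256) (nat_lit 0) (XT.nd (nat_lit 468) (nat_lit 2204) (nat_lit 0) (XT.nd (nat_lit 234) (nat_lit 1520) (nat_lit 0) (XT.nd (nat_lit 78) (nat_lit 1140) (nat_lit 0) (XT.lf (nat_lit 0) (nat_lit 34634062592) (nat_lit 532) (nat_lit 12898981859) (nat_lit 608) (nat_lit 3770027565) (nat_lit 251) (nat_lit 5) (nat_lit 258) (nat_lit 5) (nat_lit 259) (nat_lit 5) (nat_lit 459) (nat_lit 444) (nat_lit 297)) (XT.nd (nat_lit 78) (nat_lit 532) (nat_lit 0) (XT.lf (nat_lit 0) (nat_lit 6358384194) (nat_lit 608) (nat_lit 21914334462) (nat_lit 76) (nat_lit 24458103418) (nat_lit 243) (nat_lit 5) (nat_lit 251) (nat_lit 5) (nat_lit 244) (nat_lit 5) (nat_lit 460) (nat_lit 444) (nat_lit 296)) (XT.lf (nat_lit 0) (nat_lit 17570523807) (nat_lit 608) (nat_lit 27148488700) (nat_lit 76) (nat_lit 9490169357) (nat_lit 236)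 (nat_lit 5) (nat_lit 244) (nat_lit 5) (nat_lit 237) (nat_lit 5) (nat_lit 461) (nat_lit 444) (nat_lit 295)))) (XT.nd (nat_lit 78) (nat_lit 988) (nat_lit 0) (XT.lf (nat_lit 0) (nat_lit 23352595142) (nat_lit 532) (nat_lit 6725433790) (nat_lit 608) (nat_lit 25661388296) (nat_lit 229) (nat_lit 5) (nat_lit 236) (nat_lit 5) (nat_lit 237) (nat_lit 5) (nat_lit 462) (nat_lit 444) (nat_lit 294)) (XT.nd (nat_lit 78) (nat_lit 532) (nat_lit 0) (XT.lf (nat_lit 0) (nat_lit 19667243762) (nat_lit 456) (nat_lit 24330983777) (nat_lit 532) (nat_lit 13324317599) (nat_lit 223) (nat_lit 5) (nat_lit 229) (nat_lit 5) (nat_lit 230) (nat_lit 5) (nat_lit 463) (nat_lit 444) (nat_lit 293)) (XT.lf (nat_lit 0) (nat_lit 349656369) (nat_lit 532) (nat_lit 42850021566) (nat_lit 76) (nat_lit 15763873959) (nat_lit 216) (nat_lit 5) (nat_lit 223) (nat_lit 5) (nat_lit 217) (nat_lit 5) (nat_lit 464) (nat_lit 444) (nat_lit 292))))) (XT.nd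 (nat_lit 234) (nat_lit 912) (nat_lit 0) (XT.nd (nat_lit 78) (nat_lit 836) (nat_lit 0) (XT.lf (nat_lit 0) (nat_lit 12540353057) (nat_lit 456) (nat_lit 2648930850) (nat_lit 532) (nat_lit 45470641982) (nat_lit 210) (nat_lit 5) (nat_lit 216) (nat_lit 5) (nat_lit 217) (nat_lit 5) (nat_lit 465) (nat_lit 444) (nat_lit 291)) (XT.nd (nat_lit 78) (nat_lit 380) (nat_lit 0) (XT.lf (nat_lit 0) (nat_lit 8951135040) (nat_lit 456) (nat_lit 22732558514) (nat_lit 532) (nat_lit 30730041281) (nat_lit 204) (nat_lit 5) (nat_lit 210) (nat_lit 5) (nat_lit 211) (nat_lit 5) (nat_lit 466) (nat_lit 444) (nat_lit 290)) (XT.lf (nat_lit 0) (nat_lit 5523333769) (nat_lit 380) (nat_lit 44247368101) (nat_lit 456) (nat_lit 14461496271) (nat_lit 199) (nat_lit 5) (nat_lit 204) (nat_lit 5) (nat_lit 205) (nat_lit 5) (nat_lit 467) (nat_lit 444) (nat_lit 289)))) (XT.nd (nat_lit 78) (nat_lit 380) (nat_lit 0) (XT.lf (nat_lit 0) (nat_lit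 2231075817) (nat_lit 456) (nat_lit 1142567083) (nat_lit 532) (nat_lit 62743057207) (nat_lit 192) (nat_lit 5) (nat_lit 198) (nat_lit 5) (nat_lit 199) (nat_lit 5) (nat_lit 468) (nat_lit 444) (nat_lit 288)) (XT.nd (nat_lit 78) (nat_lit 380) (nat_lit 0) (XT.lf (nat_lit 0) (nat_lit 22836346476) (nat_lit 532) (nat_lit 1211524339) (nat_lit 76) (nat_lit 44012214290) (nat_lit 192) (nat_lit 5) (nat_lit 199) (nat_lit 5) (nat_lit 193) (nat_lit 5) (nat_lit 469) (nat_lit 444) (nat_lit 287)) (XT.lf (nat_lit 0) (nat_lit 44125692687) (nat_lit 456) (nat_lit 4425238756) (nat_lit 76) (nat_lit 21524102903) (nat_lit 187) (nat_lit 5) (nat_lit 193) (nat_lit 5) (nat_lit 188) (nat_lit 5) (nat_lit 470) (nat_lit 444) (nat_lit 286)))))) (XT.nd (nat_lit 468) (nat_lit 2128) (nat_lit 0) (XT.nd (nat_lit 234) (nat_lit 988) (nat_lit 0) (XT.nd (nat_lit 78) (nat_lit 760) (nat_lit 0) (XT.lf (nat_lit 0) (nat_lit 64706065138) (nat_lit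 380) (nat_lit 2648621637) (nat_lit 456) (nat_lit 4809789062) (nat_lit 182) (nat_lit 5) (nat_lit 187) (nat_lit 5) (nat_lit 188) (nat_lit 5) (nat_lit 471) (nat_lit 444) (nat_lit 285)) (XT.nd (nat_lit 78) (nat_lit 380) (nat_lit 0) (XT.lf (nat_lit 0) (nat_lit 18153704259) (nat_lit 380) (nat_lit 10669637455) (nat_lit 76) (nat_lit 45496846691) (nat_lit 177) (nat_lit 5) (nat_lit 182) (nat_lit 5) (nat_lit 178) (nat_lit 5) (nat_lit 472) (nat_lit 444) (nat_lit 284)) (XT.lf (nat_lit 0) (nat_lit 43068914397) (nat_lit 456) (nat_lit 13714090599) (nat_lit 76) (nat_lit 19772162657) (nat_lit 172) (nat_lit 5) (nat_lit 178) (nat_lit 5) (nat_lit 173) (nat_lit 5) (nat_lit 473) (nat_lit 444) (nat_lit 283)))) (XT.nd (nat_lit 78) (nat_lit 684) (nat_lit 0) (XT.lf (nat_lit 0) (nat_lit 62272052608) (nat_lit 304) (nat_lit 7956323653) (nat_lit 380) (nat_lit 8643565039) (nat_lit 168) (nat_lit 5) (nat_lit 172) (nat_lit 5) (nat_lit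 173) (nat_lit 5) (nat_lit 474) (nat_lit 444) (nat_lit 282)) (XT.nd (nat_lit 78) (nat_lit 304) (nat_lit 0) (XT.lf (nat_lit 0) (nat_lit 18263682105) (nat_lit 380) (nat_lit 19619264330) (nat_lit 76) (nat_lit 43381694685) (nat_lit 163) (nat_lit 5) (nat_lit 168) (nat_lit 5) (nat_lit 164) (nat_lit 5) (nat_lit 475) (nat_lit 444) (nat_lit 281)) (XT.lf (nat_lit 0) (nat_lit 47317207727) (nat_lit 380) (nat_lit 22481632189) (nat_lit 76) (nat_lit 13946178423) (nat_lit 159) (nat_lit 5) (nat_lit 164) (nat_lit 5) (nat_lit 160) (nat_lit 5) (nat_lit 476) (nat_lit 444) (nat_lit 280))))) (XT.nd (nat_lit 234) (nat_lit 1140) (nat_lit 0) (XT.nd (nat_lit 78) (nat_lit 684) (nat_lit 0) (XT.lf (nat_lit 0) (nat_lit 61061286501) (nat_lit 304) (nat_lit 17933616557) (nat_lit 380) (nat_lit 7319366704) (nat_lit 155) (nat_lit 5) (nat_lit 159) (nat_lit 5) (nat_lit 160) (nat_lit 5) (nat_lit 477) (nat_lit 444) (nat_lit 279)) (XT.nd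 (nat_lit 78) (nat_lit 304) (nat_lit 0) (XT.lf (nat_lit 0) (nat_lit 23972741245) (nat_lit 380) (nat_lit 28129897389) (nat_lit 76) (nat_lit 36867187274) (nat_lit 150) (nat_lit 5) (nat_lit 155) (nat_lit 5) (nat_lit 151) (nat_lit 5) (nat_lit 478) (nat_lit 444) (nat_lit 278)) (XT.lf (nat_lit 0) (nat_lit 57738274905) (nat_lit 380) (nat_lit 30812212688) (nat_lit 76) (nat_lit 3173692444) (nat_lit 146) (nat_lit 5) (nat_lit 151) (nat_lit 5) (nat_lit 147) (nat_lit 5) (nat_lit 479) (nat_lit 444) (nat_lit 277)))) (XT.nd (nat_lit 156) (nat_lit 532) (nat_lit 0) (XT.nd (nat_lit 78) (nat_lit 304) (nat_lit 0) (XT.lf (nat_lit 0) (nat_lit 21008067) (nat_lit 304) (nat_lit 33528250390) (nat_lit 76) (nat_lit 61024882711) (nat_lit 142) (nat_lit 5) (nat_lit 146) (nat_lit 5) (nat_lit 143) (nat_lit 5) (nat_lit 480) (nat_lit 444) (nat_lit 276)) (XT.lf (nat_lit 0) (nat_lit 36186225405) (nat_lit 380) (nat_lit 36340283304) (nat_lit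 76) (nat_lit 24995171763) (nat_lit 138) (nat_lit 5) (nat_lit 143) (nat_lit 5) (nat_lit 139) (nat_lit 5) (nat_lit 481) (nat_lit 444) (nat_lit 275))) (XT.nd (nat_lit 78) (nat_lit 304) (nat_lit 0) (XT.lf (nat_lit 0) (nat_lit 61578005232) (nat_lit 228) (nat_lit 13859240412) (nat_lit 304) (nat_lit 25141024943) (nat_lit 135) (nat_lit 5) (nat_lit 138) (nat_lit 5) (nat_lit 139) (nat_lit 5) (nat_lit 482) (nat_lit 444) (nat_lit 274)) (XT.lf (nat_lit 0) (nat_lit 14058651632) (nat_lit 304) (nat_lit 41760254853) (nat_lit 76) (nat_lit 47921678447) (nat_lit 131) (nat_lit 5) (nat_lit 135) (nat_lit 5) (nat_lit 132) (nat_lit 5) (nat_lit 483) (nat_lit 444) (nat_lit 273))))))) (XT.nd (nat_lit 59904) (nat_lit 0) (nat_lit 9044) (XT.nd (nat_lit 468) (nat_lit 152) (nat_lit 0) (XT.nd (nat_lit 234) (nat_lit 684) (nat_lit 0) (XT.nd (nat_lit 78) (nat_lit 532) (nat_lit 0) (XT.lf (nat_lit 0) (nat_lit 55913633109) (nat_lit 304)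 (nat_lit 44486461516) (nat_lit 76) (nat_lit 6616994553) (nat_lit 128) (nat_lit 5) (nat_lit 132) (nat_lit 5) (nat_lit 129) (nat_lit 5) (nat_lit 484) (nat_lit 444) (nat_lit 272)) (XT.nd (nat_lit 78) (nat_lit 304) (nat_lit 0) (XT.lf (nat_lit 0) (nat_lit 63125982154) (nat_lit 228) (nat_lit 38338273835) (nat_lit 304) (nat_lit 8945075966) (nat_lit 125) (nat_lit 5) (nat_lit 128) (nat_lit 5) (nat_lit 129) (nat_lit 5) (nat_lit 485) (nat_lit 444) (nat_lit 271)) (XT.lf (nat_lit 0) (nat_lit 35980088210) (nat_lit 304) (nat_lit 50207035283) (nat_lit 76) (nat_lit 27733434306) (nat_lit 121) (nat_lit 5) (nat_lit 125) (nat_lit 5) (nat_lit 122) (nat_lit 5) (nat_lit 486) (nat_lit 444) (nat_lit 270)))) (XT.nd (nat_lit 78) (nat_lit 456) (nat_lit 0) (XT.lf (nat_lit 0) (nat_lit 64428440952) (nat_lit 228) (nat_lit 20036255480) (nat_lit 304) (nat_lit 33095046116) (nat_lit 118) (nat_lit 5) (nat_lit 121) (nat_lit 5) (nat_lit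 122) (nat_lit 5) (nat_lit 487) (nat_lit 444) (nat_lit 269)) (XT.nd (nat_lit 78) (nat_lit 228) (nat_lit 0) (XT.lf (nat_lit 0) (nat_lit 15358780748) (nat_lit 228) (nat_lit 56212080034) (nat_lit 76) (nat_lit 49756815273) (nat_lit 115) (nat_lit 5) (nat_lit 118) (nat_lit 5) (nat_lit 116) (nat_lit 5) (nat_lit 488) (nat_lit 444) (nat_lit 268)) (XT.lf (nat_lit 0) (nat_lit 65858754092) (nat_lit 228) (nat_lit 1084798224) (nat_lit 304) (nat_lit 58288842491) (nat_lit 112) (nat_lit 5) (nat_lit 115) (nat_lit 5) (nat_lit 116) (nat_lit 5) (nat_lit 489) (nat_lit 444) (nat_lit 267))))) (XT.nd (nat_lit 59124) (nat_lit 0) (nat_lit 13984) (XT.nd (nat_lit 58968) (nat_lit 0) (nat_lit 13908) (XT.lf (nat_lit 0) (nat_lit 66481160628) (nat_lit 152) (nat_lit 56549567217) (nat_lit 228) (nat_lit 6243926755) (nat_lit 110) (nat_lit 5) (nat_lit 112) (nat_lit 5) (nat_lit 113) (nat_lit 5) (nat_lit 490) (nat_lit 444) (nat_lit 266))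 (XT.nd (nat_lit 78) (nat_lit 0) (nat_lit 76) (XT.lf (nat_lit 0) (nat_lit 8521918180) (nat_lit 1292) (nat_lit 4872005128) (nat_lit 1292) (nat_lit 4872005128) (nat_lit 293) (nat_lit 3) (nat_lit 310) (nat_lit 3) (nat_lit 310) (nat_lit 5) (nat_lit 445) (nat_lit 445) (nat_lit 310)) (XT.lf (nat_lit 0) (nat_lit 17778246845) (nat_lit 1216) (nat_lit 16728907106) (nat_lit 1292) (nat_lit 2928738748) (nat_lit 294) (nat_lit 5) (nat_lit 310) (nat_lit 5) (nat_lit 311) (nat_lit 5) (nat_lit 446) (nat_lit 445) (nat_lit 309)))) (XT.nd (nat_lit 156) (nat_lit 0) (nat_lit 152) (XT.nd (nat_lit 78) (nat_lit 0) (nat_lit 76) (XT.lf (nat_lit 76) (nat_lit 14510944143) (nat_lit 0) (nat_lit 4544456661) (nat_lit 1292) (nat_lit 19314549538) (nat_lit 295) (nat_lit 5) (nat_lit 294) (nat_lit 5) (nat_lit 311) (nat_lit 5) (nat_lit 447) (nat_lit 445) (nat_lit 308)) (XT.lf (nat_lit 76) (nat_lit 8213700668) (nat_lit 0) (nat_lit 12689415837)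 (nat_lit 1292) (nat_lit 18432393921) (nat_lit 296) (nat_lit 5) (nat_lit 295) (nat_lit 5) (nat_lit 312) (nat_lit 5) (nat_lit 448) (nat_lit 445) (nat_lit 307))) (XT.nd (nat_lit 78) (nat_lit 0) (nat_lit 76) (XT.lf (nat_lit 76) (nat_lit 1849646240) (nat_lit 0) (nat_lit 21482334016) (nat_lit 1292) (nat_lit 17002706038) (nat_lit 297) (nat_lit 5) (nat_lit 296) (nat_lit 5) (nat_lit 313) (nat_lit 5) (nat_lit 449) (nat_lit 445) (nat_lit 306)) (XT.lf (nat_lit 0) (nat_lit 26427480410) (nat_lit 1216) (nat_lit 4486573487) (nat_lit 1292) (nat_lit 10453411879) (nat_lit 297) (nat_lit 5) (nat_lit 313) (nat_lit 5) (nat_lit 314) (nat_lit 5) (nat_lit 450) (nat_lit 445) (nat_lit 305)))))) (XT.nd (nat_lit 468) (nat_lit 3420) (nat_lit 0) (XT.nd (nat_lit 234) (nat_lit 1824) (nat_lit 0) (XT.nd (nat_lit 78) (nat_lit 0) (nat_lit 0) (XT.lf (nat_lit 0) (nat_lit 30207767241) (nat_lit 1216) (nat_lit 10841152733) (nat_lit 1292)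 (nat_lit 1387064495) (nat_lit 298) (nat_lit 5) (nat_lit 314) (nat_lit 5) (nat_lit 315) (nat_lit 5) (nat_lit 451) (nat_lit 445) (nat_lit 304)) (XT.nd (nat_lit 78) (nat_lit 0) (nat_lit 76) (XT.lf (nat_lit 76) (nat_lit 26213556541) (nat_lit 0) (nat_lit 8570088134) (nat_lit 1292) (nat_lit 8756087694) (nat_lit 299) (nat_lit 5) (nat_lit 298) (nat_lit 5) (nat_lit 315) (nat_lit 5) (nat_lit 452) (nat_lit 445) (nat_lit 303)) (XT.lf (nat_lit 76) (nat_lit 20808696747) (nat_lit 0) (nat_lit 19333891139) (nat_lit 1292) (nat_lit 4539452155) (nat_lit 300) (nat_lit 5) (nat_lit 299) (nat_lit 5) (nat_lit 316) (nat_lit 5) (nat_lit 453) (nat_lit 445) (nat_lit 302)))) (XT.nd (nat_lit 78) (nat_lit 684) (nat_lit 0) (XT.lf (nat_lit 0) (nat_lit 449082680) (nat_lit 1292) (nat_lit 30466219181) (nat_lit 1368) (nat_lit 14949427552) (nat_lit 283) (nat_lit 5) (nat_lit 300) (nat_lit 5) (nat_lit 301) (nat_lit 5) (nat_lit 454) (nat_lit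 445) (nat_lit 301)) (XT.nd (nat_lit 78) (nat_lit 760) (nat_lit 0) (XT.lf (nat_lit 0) (nat_lit 6166730187) (nat_lit 1292) (nat_lit 37144151455) (nat_lit 76) (nat_lit 3777116667) (nat_lit 284) (nat_lit 5) (nat_lit 301) (nat_lit 5) (nat_lit 285) (nat_lit 5) (nat_lit 455) (nat_lit 445) (nat_lit 300)) (XT.lf (nat_lit 0) (nat_lit 4415996039) (nat_lit 760) (nat_lit 8422008043) (nat_lit 836) (nat_lit 35514394694) (nat_lit 274) (nat_lit 5) (nat_lit 284) (nat_lit 5) (nat_lit 285) (nat_lit 5) (nat_lit 456) (nat_lit 445) (nat_lit 299))))) (XT.nd (nat_lit 234) (nat_lit 2204) (nat_lit 0) (XT.nd (nat_lit 78) (nat_lit 1216) (nat_lit 0) (XT.lf (nat_lit 0) (nat_lit 20496848843) (nat_lit 836) (nat_lit 1116263006) (nat_lit 76) (nat_lit 28047287628) (nat_lit 274) (nat_lit 5) (nat_lit 285) (nat_lit 5) (nat_lit 275) (nat_lit 5) (nat_lit 457) (nat_lit 445) (nat_lit 298)) (XT.nd (nat_lit 78) (nat_lit 608) (nat_lit 0) (XT.lf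 (nat_lit 0) (nat_lit 29199208262) (nat_lit 684) (nat_lit 6540448624) (nat_lit 76) (nat_lit 15274326560) (nat_lit 266) (nat_lit 5) (nat_lit 275) (nat_lit 5) (nat_lit 267) (nat_lit 5) (nat_lit 458) (nat_lit 445) (nat_lit 297)) (XT.lf (nat_lit 0) (nat_lit 38967581925) (nat_lit 684) (nat_lit 11931309006) (nat_lit 76) (nat_lit 1517429180) (nat_lit 258) (nat_lit 5) (nat_lit 267) (nat_lit 5) (nat_lit 259) (nat_lit 5) (nat_lit 459) (nat_lit 445) (nat_lit 296)))) (XT.nd (nat_lit 156) (nat_lit 1064) (nat_lit 0) (XT.nd (nat_lit 78) (nat_lit 608) (nat_lit 0) (XT.lf (nat_lit 0) (nat_lit 36458747836) (nat_lit 532) (nat_lit 13541886334) (nat_lit 608) (nat_lit 3864852011) (nat_lit 251) (nat_lit 5) (nat_lit 258) (nat_lit 5) (nat_lit 259) (nat_lit 5) (nat_lit 460) (nat_lit 445) (nat_lit 295)) (XT.lf (nat_lit 0) (nat_lit 6764699928) (nat_lit 608) (nat_lit 22915322840) (nat_lit 76) (nat_lit 25684678054) (nat_lit 243)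 (nat_lit 5) (nat_lit 251) (nat_lit 5) (nat_lit 244) (nat_lit 5) (nat_lit 461) (nat_lit 445) (nat_lit 294))) (XT.nd (nat_lit 78) (nat_lit 532) (nat_lit 0) (XT.lf (nat_lit 0) (nat_lit 18534188373) (nat_lit 608) (nat_lit 28411404773) (nat_lit 76) (nat_lit 9971483700) (nat_lit 236) (nat_lit 5) (nat_lit 244) (nat_lit 5) (nat_lit 237) (nat_lit 5) (nat_lit 462) (nat_lit 445) (nat_lit 293)) (XT.lf (nat_lit 0) (nat_lit 24612024199) (nat_lit 532) (nat_lit 7051872779) (nat_lit 608) (nat_lit 26860022628) (nat_lit 229) (nat_lit 5) (nat_lit 236) (nat_lit 5) (nat_lit 237) (nat_lit 5) (nat_lit 463) (nat_lit 445) (nat_lit 292))))))))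
noncomputable def xc112 : XT := (XT.nd (nat_lit 1950) (nat_lit 456) (nat_lit 0) (XT.nd (nat_lit 936) (nat_lit 3800) (nat_lit 0) (XT.nd (nat_lit 468) (nat_lit 1824) (nat_lit 0) (XT.nd (nat_lit 234) (nat_lit 1368) (nat_lit 0) (XT.nd (nat_lit 78) (nat_lit 988) (nat_lit 0) (XT.lf (nat_lit 0) (nat_lit 20742079759) (nat_lit 456) (nat_lit 25535091903) (nat_lit 532) (nat_lit 13909120715) (nat_lit 223) (nat_lit 5) (nat_lit 229) (nat_lit 5) (nat_lit 230) (nat_lit 5) (nat_lit 464) (nat_lit 445) (nat_lit 291)) (XT.nd (nat_lit 78) (nat_lit 456) (nat_lit 0) (XT.lf (nat_lit 0) (nat_lit 444161039) (nat_lit 532) (nat_lit 44899934042) (nat_lit 76) (nat_lit 16565315398) (nat_lit 216) (nat_lit 5) (nat_lit 223) (nat_lit 5) (nat_lit 217) (nat_lit 5) (nat_lit 465) (nat_lit 445) (nat_lit 290)) (XT.lf (nat_lit 0) (nat_lit 13257305278) (nat_lit 456) (nat_lit 2765661475) (nat_lit 532) (nat_lit 47667720915) (nat_lit 210)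 (nat_lit 5) (nat_lit 216) (nat_lit 5) (nat_lit 217) (nat_lit 5) (nat_lit 466) (nat_lit 445) (nat_lit 289)))) (XT.nd (nat_lit 78) (nat_lit 912) (nat_lit 0) (XT.lf (nat_lit 0) (nat_lit 9488072128) (nat_lit 456) (nat_lit 23851493589) (nat_lit 532) (nat_lit 32192697659) (nat_lit 204) (nat_lit 5) (nat_lit 210) (nat_lit 5) (nat_lit 211) (nat_lit 5) (nat_lit 467) (nat_lit 445) (nat_lit 288)) (XT.nd (nat_lit 78) (nat_lit 532) (nat_lit 0) (XT.lf (nat_lit 0) (nat_lit 5888249861) (nat_lit 380) (nat_lit 46440275987) (nat_lit 456) (nat_lit 15113196317) (nat_lit 199) (nat_lit 5) (nat_lit 204) (nat_lit 5) (nat_lit 205) (nat_lit 5) (nat_lit 468) (nat_lit 445) (nat_lit 287)) (XT.lf (nat_lit 0) (nat_lit 2430194689) (nat_lit 456) (nat_lit 1179621598) (nat_lit 532) (nat_lit 65810687415) (nat_lit 192) (nat_lit 5) (nat_lit 198) (nat_lit 5) (nat_lit 199) (nat_lit 5) (nat_lit 469) (nat_lit 445) (nat_lit 286))))) (XT.nd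 (nat_lit 234) (nat_lit 1064) (nat_lit 0) (XT.nd (nat_lit 78) (nat_lit 760) (nat_lit 0) (XT.lf (nat_lit 0) (nat_lit 24042624947) (nat_lit 532) (nat_lit 1186954338) (nat_lit 76) (nat_lit 46231569886) (nat_lit 192) (nat_lit 5) (nat_lit 199) (nat_lit 5) (nat_lit 193) (nat_lit 5) (nat_lit 470) (nat_lit 445) (nat_lit 285)) (XT.nd (nat_lit 78) (nat_lit 380) (nat_lit 0) (XT.lf (nat_lit 0) (nat_lit 46394361146) (nat_lit 456) (nat_lit 4562120765) (nat_lit 76) (nat_lit 22620426584) (nat_lit 187) (nat_lit 5) (nat_lit 193) (nat_lit 5) (nat_lit 188) (nat_lit 5) (nat_lit 471) (nat_lit 445) (nat_lit 284)) (XT.lf (nat_lit 0) (nat_lit 68023329590) (nat_lit 380) (nat_lit 2759292552) (nat_lit 456) (nat_lit 4988265693) (nat_lit 182) (nat_lit 5) (nat_lit 187) (nat_lit 5) (nat_lit 188) (nat_lit 5) (nat_lit 472) (nat_lit 445) (nat_lit 283)))) (XT.nd (nat_lit 78) (nat_lit 684) (nat_lit 0) (XT.lf (nat_lit 0) (nat_lit 19120285983)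 (nat_lit 380) (nat_lit 11120773364) (nat_lit 76) (nat_lit 47793366252) (nat_lit 177) (nat_lit 5) (nat_lit 182) (nat_lit 5) (nat_lit 178) (nat_lit 5) (nat_lit 473) (nat_lit 445) (nat_lit 282)) (XT.nd (nat_lit 78) (nat_lit 304) (nat_lit 0) (XT.lf (nat_lit 0) (nat_lit 45279443192) (nat_lit 456) (nat_lit 14318320985) (nat_lit 76) (nat_lit 20783444290) (nat_lit 172) (nat_lit 5) (nat_lit 178) (nat_lit 5) (nat_lit 173) (nat_lit 5) (nat_lit 474) (nat_lit 445) (nat_lit 281)) (XT.lf (nat_lit 0) (nat_lit 65464793942) (nat_lit 304) (nat_lit 8330126695) (nat_lit 380) (nat_lit 9018959127) (nat_lit 168) (nat_lit 5) (nat_lit 172) (nat_lit 5) (nat_lit 173) (nat_lit 5) (nat_lit 475) (nat_lit 445) (nat_lit 280)))))) (XT.nd (nat_lit 468) (nat_lit 1824) (nat_lit 0) (XT.nd (nat_lit 234) (nat_lit 988) (nat_lit 0) (XT.nd (nat_lit 78) (nat_lit 608) (nat_lit 0) (XT.lf (nat_lit 0) (nat_lit 19230872784) (nat_lit 380) (nat_lit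 20520891186) (nat_lit 76) (nat_lit 45574484539) (nat_lit 163) (nat_lit 5) (nat_lit 168) (nat_lit 5) (nat_lit 164) (nat_lit 5) (nat_lit 476) (nat_lit 445) (nat_lit 279)) (XT.nd (nat_lit 78) (nat_lit 304) (nat_lit 0) (XT.lf (nat_lit 0) (nat_lit 49735482940) (nat_lit 380) (nat_lit 23527321299) (nat_lit 76) (nat_lit 14667888315) (nat_lit 159) (nat_lit 5) (nat_lit 164) (nat_lit 5) (nat_lit 160) (nat_lit 5) (nat_lit 477) (nat_lit 445) (nat_lit 278)) (XT.lf (nat_lit 0) (nat_lit 64190496221) (nat_lit 304) (nat_lit 18804802829) (nat_lit 380) (nat_lit 7633160621) (nat_lit 155) (nat_lit 5) (nat_lit 159) (nat_lit 5) (nat_lit 160) (nat_lit 5) (nat_lit 478) (nat_lit 445) (nat_lit 277)))) (XT.nd (nat_lit 78) (nat_lit 608) (nat_lit 0) (XT.lf (nat_lit 0) (nat_lit 25221064380) (nat_lit 380) (nat_lit 29460195095) (nat_lit 76) (nat_lit 38735563397) (nat_lit 150) (nat_lit 5) (nat_lit 155) (nat_lit 5) (nat_lit 151)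 (nat_lit 5) (nat_lit 479) (nat_lit 445) (nat_lit 276)) (XT.nd (nat_lit 78) (nat_lit 304) (nat_lit 0) (XT.lf (nat_lit 0) (nat_lit 60673469927) (nat_lit 380) (nat_lit 32277615570) (nat_lit 76) (nat_lit 3357851534) (nat_lit 146) (nat_lit 5) (nat_lit 151) (nat_lit 5) (nat_lit 147) (nat_lit 5) (nat_lit 480) (nat_lit 445) (nat_lit 275)) (XT.lf (nat_lit 0) (nat_lit 69208414) (nat_lit 304) (nat_lit 35130669294) (nat_lit 76) (nat_lit 64101552719) (nat_lit 142) (nat_lit 5) (nat_lit 146) (nat_lit 5) (nat_lit 143) (nat_lit 5) (nat_lit 481) (nat_lit 445) (nat_lit 274))))) (XT.nd (nat_lit 234) (nat_lit 988) (nat_lit 0) (XT.nd (nat_lit 78) (nat_lit 532) (nat_lit 0) (XT.lf (nat_lit 0) (nat_lit 38041384858) (nat_lit 380) (nat_lit 38084306444) (nat_lit 76) (nat_lit 26270694604) (nat_lit 138) (nat_lit 5) (nat_lit 143) (nat_lit 5) (nat_lit 139) (nat_lit 5) (nat_lit 482) (nat_lit 445) (nat_lit 273)) (XT.nd (nat_lit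 78) (nat_lit 304) (nat_lit 0) (XT.lf (nat_lit 0) (nat_lit 64727804245) (nat_lit 228) (nat_lit 14525650139) (nat_lit 304) (nat_lit 26352396344) (nat_lit 135) (nat_lit 5) (nat_lit 138) (nat_lit 5) (nat_lit 139) (nat_lit 5) (nat_lit 483) (nat_lit 445) (nat_lit 272)) (XT.lf (nat_lit 0) (nat_lit 14805164094) (nat_lit 304) (nat_lit 43777483802) (nat_lit 76) (nat_lit 50343656117) (nat_lit 131) (nat_lit 5) (nat_lit 135) (nat_lit 5) (nat_lit 132) (nat_lit 5) (nat_lit 484) (nat_lit 445) (nat_lit 271)))) (XT.nd (nat_lit 156) (nat_lit 532) (nat_lit 0) (XT.nd (nat_lit 78) (nat_lit 228) (nat_lit 0) (XT.lf (nat_lit 0) (nat_lit 58751735918) (nat_lit 304) (nat_lit 46641017790) (nat_lit 76) (nat_lit 6973914658) (nat_lit 128) (nat_lit 5) (nat_lit 132) (nat_lit 5) (nat_lit 129) (nat_lit 5) (nat_lit 485) (nat_lit 445) (nat_lit 270)) (XT.lf (nat_lit 0) (nat_lit 66350048213) (nat_lit 228) (nat_lit 40228473092) (nat_lit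 304) (nat_lit 9350043162) (nat_lit 125) (nat_lit 5) (nat_lit 128) (nat_lit 5) (nat_lit 129) (nat_lit 5) (nat_lit 486) (nat_lit 445) (nat_lit 269))) (XT.nd (nat_lit 78) (nat_lit 228) (nat_lit 0) (XT.lf (nat_lit 0) (nat_lit 37819474919) (nat_lit 304) (nat_lit 52649807336) (nat_lit 76) (nat_lit 29146089643) (nat_lit 121) (nat_lit 5) (nat_lit 125) (nat_lit 5) (nat_lit 122) (nat_lit 5) (nat_lit 487) (nat_lit 445) (nat_lit 268)) (XT.lf (nat_lit 0) (nat_lit 67715505552) (nat_lit 228) (nat_lit 21011516030) (nat_lit 304) (nat_lit 34709533173) (nat_lit 118) (nat_lit 5) (nat_lit 121) (nat_lit 5) (nat_lit 122) (nat_lit 5) (nat_lit 488) (nat_lit 445) (nat_lit 267))))))) (XT.nd (nat_lit 59982) (nat_lit 0) (nat_lit 6612) (XT.nd (nat_lit 59436) (nat_lit 0) (nat_lit 12996) (XT.nd (nat_lit 59202) (nat_lit 0) (nat_lit 13832) (XT.nd (nat_lit 78) (nat_lit 228) (nat_lit 0) (XT.lf (nat_lit 0) (nat_lit 16165192476) (nat_lit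 228) (nat_lit 58957262065) (nat_lit 76) (nat_lit 52270449093) (nat_lit 115) (nat_lit 5) (nat_lit 118) (nat_lit 5) (nat_lit 116) (nat_lit 5) (nat_lit 489) (nat_lit 445) (nat_lit 266)) (XT.nd (nat_lit 59046) (nat_lit 0) (nat_lit 13756) (XT.lf (nat_lit 0) (nat_lit 69215238460) (nat_lit 228) (nat_lit 1112742978) (nat_lit 304) (nat_lit 61164913616) (nat_lit 112) (nat_lit 5) (nat_lit 115) (nat_lit 5) (nat_lit 116) (nat_lit 5) (nat_lit 490) (nat_lit 445) (nat_lit 265)) (XT.lf (nat_lit 0) (nat_lit 9027029816) (nat_lit 1292) (nat_lit 5074906793) (nat_lit 1292) (nat_lit 5074906793) (nat_lit 293) (nat_lit 3) (nat_lit 310) (nat_lit 3) (nat_lit 310) (nat_lit 5) (nat_lit 446) (nat_lit 446) (nat_lit 308)))) (XT.nd (nat_lit 78) (nat_lit 0) (nat_lit 0) (XT.lf (nat_lit 0) (nat_lit 18817731294) (nat_lit 1216) (nat_lit 17481035552) (nat_lit 1292) (nat_lit 3004382403) (nat_lit 294) (nat_lit 5) (nat_lit 310) (nat_lit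 5) (nat_lit 311) (nat_lit 5) (nat_lit 447) (nat_lit 446) (nat_lit 307)) (XT.nd (nat_lit 78) (nat_lit 0) (nat_lit 76) (XT.lf (nat_lit 76) (nat_lit 15318391333) (nat_lit 0) (nat_lit 4833968790) (nat_lit 1292) (nat_lit 20131742132) (nat_lit 295) (nat_lit 5) (nat_lit 294) (nat_lit 5) (nat_lit 311) (nat_lit 5) (nat_lit 448) (nat_lit 446) (nat_lit 306)) (XT.lf (nat_lit 76) (nat_lit 8708740677) (nat_lit 0) (nat_lit 13377095397) (nat_lit 1292) (nat_lit 19212303982) (nat_lit 296) (nat_lit 5) (nat_lit 295) (nat_lit 5) (nat_lit 312) (nat_lit 5) (nat_lit 449) (nat_lit 446) (nat_lit 305))))) (XT.nd (nat_lit 234) (nat_lit 988) (nat_lit 0) (XT.nd (nat_lit 78) (nat_lit 0) (nat_lit 76) (XT.lf (nat_lit 76) (nat_lit 2028589372) (nat_lit 0) (nat_lit 22601346981) (nat_lit 1292) (nat_lit 17717525469) (nat_lit 297) (nat_lit 5) (nat_lit 296) (nat_lit 5) (nat_lit 313) (nat_lit 5) (nat_lit 450) (nat_lit 446) (nat_lit 304))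 (XT.nd (nat_lit 78) (nat_lit 0) (nat_lit 76) (XT.lf (nat_lit 0) (nat_lit 27873545396) (nat_lit 1216) (nat_lit 4624377230) (nat_lit 1292) (nat_lit 10934158495) (nat_lit 297) (nat_lit 5) (nat_lit 313) (nat_lit 5) (nat_lit 314) (nat_lit 5) (nat_lit 451) (nat_lit 446) (nat_lit 303)) (XT.lf (nat_lit 0) (nat_lit 31837375386) (nat_lit 1216) (nat_lit 11295221023) (nat_lit 1292) (nat_lit 1421594296) (nat_lit 298) (nat_lit 5) (nat_lit 314) (nat_lit 5) (nat_lit 315) (nat_lit 5) (nat_lit 452) (nat_lit 446) (nat_lit 302)))) (XT.nd (nat_lit 156) (nat_lit 1140) (nat_lit 0) (XT.nd (nat_lit 78) (nat_lit 0) (nat_lit 76) (XT.lf (nat_lit 76) (nat_lit 27609701518) (nat_lit 0) (nat_lit 9027489604) (nat_lit 1292) (nat_lit 9076081326) (nat_lit 299) (nat_lit 5) (nat_lit 298) (nat_lit 5) (nat_lit 315) (nat_lit 5) (nat_lit 453) (nat_lit 446) (nat_lit 301)) (XT.lf (nat_lit 76) (nat_lit 21935766394) (nat_lit 0) (nat_lit 20323437422)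 (nat_lit 1292) (nat_lit 4653638760) (nat_lit 300) (nat_lit 5) (nat_lit 299) (nat_lit 5) (nat_lit 316) (nat_lit 5) (nat_lit 454) (nat_lit 446) (nat_lit 300))) (XT.nd (nat_lit 78) (nat_lit 0) (nat_lit 76) (XT.lf (nat_lit 0) (nat_lit 577494829) (nat_lit 1292) (nat_lit 31899837921) (nat_lit 1368) (nat_lit 15677440644) (nat_lit 283) (nat_lit 5) (nat_lit 300) (nat_lit 5) (nat_lit 301) (nat_lit 5) (nat_lit 455) (nat_lit 446) (nat_lit 299)) (XT.lf (nat_lit 0) (nat_lit 6576675933) (nat_lit 1292) (nat_lit 38911031610) (nat_lit 76) (nat_lit 3951629309) (nat_lit 284) (nat_lit 5) (nat_lit 301) (nat_lit 5) (nat_lit 285) (nat_lit 5) (nat_lit 456) (nat_lit 446) (nat_lit 298)))))) (XT.nd (nat_lit 468) (nat_lit 3344) (nat_lit 0) (XT.nd (nat_lit 234) (nat_lit 1748) (nat_lit 0) (XT.nd (nat_lit 78) (nat_lit 608) (nat_lit 0) (XT.lf (nat_lit 0) (nat_lit 4724534042) (nat_lit 760) (nat_lit 8852984340) (nat_lit 836) (nat_lit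 37189559439) (nat_lit 274) (nat_lit 5) (nat_lit 284) (nat_lit 5) (nat_lit 285) (nat_lit 5) (nat_lit 457) (nat_lit 446) (nat_lit 297)) (XT.nd (nat_lit 78) (nat_lit 608) (nat_lit 0) (XT.lf (nat_lit 0) (nat_lit 21614566678) (nat_lit 836) (nat_lit 1085624701) (nat_lit 76) (nat_lit 29440429934) (nat_lit 274) (nat_lit 5) (nat_lit 285) (nat_lit 5) (nat_lit 275) (nat_lit 5) (nat_lit 458) (nat_lit 446) (nat_lit 296)) (XT.lf (nat_lit 0) (nat_lit 30748377815) (nat_lit 684) (nat_lit 6780757784) (nat_lit 76) (nat_lit 16032859433) (nat_lit 266) (nat_lit 5) (nat_lit 275) (nat_lit 5) (nat_lit 267) (nat_lit 5) (nat_lit 459) (nat_lit 446) (nat_lit 295)))) (XT.nd (nat_lit 78) (nat_lit 1140) (nat_lit 0) (XT.lf (nat_lit 0) (nat_lit 41001716922) (nat_lit 684) (nat_lit 12441048076) (nat_lit 76) (nat_lit 1591787669) (nat_lit 258) (nat_lit 5) (nat_lit 267) (nat_lit 5) (nat_lit 259) (nat_lit 5) (nat_lit 460) (nat_lit 446)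 (nat_lit 294)) (XT.nd (nat_lit 78) (nat_lit 608) (nat_lit 0) (XT.lf (nat_lit 0) (nat_lit 38366022748) (nat_lit 532) (nat_lit 14217126121) (nat_lit 608) (nat_lit 3973126872) (nat_lit 251) (nat_lit 5) (nat_lit 258) (nat_lit 5) (nat_lit 259) (nat_lit 5) (nat_lit 461) (nat_lit 446) (nat_lit 293)) (XT.lf (nat_lit 0) (nat_lit 7183113178) (nat_lit 608) (nat_lit 23975167581) (nat_lit 76) (nat_lit 26972240270) (nat_lit 243) (nat_lit 5) (nat_lit 251) (nat_lit 5) (nat_lit 244) (nat_lit 5) (nat_lit 462) (nat_lit 446) (nat_lit 292))))) (XT.nd (nat_lit 234) (nat_lit 1824) (nat_lit 0) (XT.nd (nat_lit 78) (nat_lit 988) (nat_lit 0) (XT.lf (nat_lit 0) (nat_lit 19538120808) (nat_lit 608) (nat_lit 29746253140) (nat_lit 76) (nat_lit 10476231014) (nat_lit 236) (nat_lit 5) (nat_lit 244) (nat_lit 5) (nat_lit 237) (nat_lit 5) (nat_lit 463) (nat_lit 446) (nat_lit 291)) (XT.nd (nat_lit 78) (nat_lit 456) (nat_lit 0) (XT.lf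 (nat_lit 0) (nat_lit 25925890079) (nat_lit 532) (nat_lit 7395547868) (nat_lit 608) (nat_lit 28126438650) (nat_lit 229) (nat_lit 5) (nat_lit 236) (nat_lit 5) (nat_lit 237) (nat_lit 5) (nat_lit 464) (nat_lit 446) (nat_lit 290)) (XT.lf (nat_lit 0) (nat_lit 21862153188) (nat_lit 456) (nat_lit 26800562088) (nat_lit 532) (nat_lit 14530732974) (nat_lit 223) (nat_lit 5) (nat_lit 229) (nat_lit 5) (nat_lit 230) (nat_lit 5) (nat_lit 465) (nat_lit 446) (nat_lit 289)))) (XT.nd (nat_lit 156) (nat_lit 836) (nat_lit 0) (XT.nd (nat_lit 78) (nat_lit 456) (nat_lit 0) (XT.lf (nat_lit 0) (nat_lit 536230181) (nat_lit 532) (nat_lit 47060950153) (nat_lit 76) (nat_lit 17405597259) (nat_lit 216) (nat_lit 5) (nat_lit 223) (nat_lit 5) (nat_lit 217) (nat_lit 5) (nat_lit 466) (nat_lit 446) (nat_lit 288)) (XT.lf (nat_lit 0) (nat_lit 14001743847) (nat_lit 456) (nat_lit 2889689749) (nat_lit 532) (nat_lit 49981761685) (nat_lit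 210) (nat_lit 5) (nat_lit 216) (nat_lit 5) (nat_lit 217) (nat_lit 5) (nat_lit 467) (nat_lit 446) (nat_lit 287))) (XT.nd (nat_lit 78) (nat_lit 380) (nat_lit 0) (XT.lf (nat_lit 0) (nat_lit 10043546333) (nat_lit 456) (nat_lit 25028020331) (nat_lit 532) (nat_lit 33735352327) (nat_lit 204) (nat_lit 5) (nat_lit 210) (nat_lit 5) (nat_lit 211) (nat_lit 5) (nat_lit 468) (nat_lit 446) (nat_lit 286)) (XT.lf (nat_lit 0) (nat_lit 6263160680) (nat_lit 380) (nat_lit 48744638521) (nat_lit 456) (nat_lit 15804117115) (nat_lit 199) (nat_lit 5) (nat_lit 204) (nat_lit 5) (nat_lit 205) (nat_lit 5) (nat_lit 469) (nat_lit 446) (nat_lit 285))))))))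
noncomputable def xc113 : XT := (XT.nd (nat_lit 60996) (nat_lit 0) (nat_lit 4332) (XT.nd (nat_lit 936) (nat_lit 2356) (nat_lit 0) (XT.nd (nat_lit 468) (nat_lit 1976) (nat_lit 0) (XT.nd (nat_lit 234) (nat_lit 1140) (nat_lit 0) (XT.nd (nat_lit 78) (nat_lit 380) (nat_lit 0) (XT.lf (nat_lit 0) (nat_lit 2631128533) (nat_lit 456) (nat_lit 1220395115) (nat_lit 532) (nat_lit 69038162691) (nat_lit 192) (nat_lit 5) (nat_lit 198) (nat_lit 5) (nat_lit 199) (nat_lit 5) (nat_lit 470) (nat_lit 446) (nat_lit 284)) (XT.nd (nat_lit 78) (nat_lit 380) (nat_lit 0) (XT.lf (nat_lit 0) (nat_lit 25303224355) (nat_lit 532) (nat_lit 1169071925) (nat_lit 76) (nat_lit 48560150541) (nat_lit 192) (nat_lit 5) (nat_lit 199) (nat_lit 5) (nat_lit 193) (nat_lit 5) (nat_lit 471) (nat_lit 446) (nat_lit 283)) (XT.lf (nat_lit 0) (nat_lit 48770663172) (nat_lit 456) (nat_lit 4713691721) (nat_lit 76) (nat_lit 23769696018) (nat_lit 187)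 (nat_lit 5) (nat_lit 193) (nat_lit 5) (nat_lit 188) (nat_lit 5) (nat_lit 472) (nat_lit 446) (nat_lit 282)))) (XT.nd (nat_lit 78) (nat_lit 760) (nat_lit 0) (XT.lf (nat_lit 0) (nat_lit 71498837289) (nat_lit 380) (nat_lit 2877520067) (nat_lit 456) (nat_lit 5181431519) (nat_lit 182) (nat_lit 5) (nat_lit 187) (nat_lit 5) (nat_lit 188) (nat_lit 5) (nat_lit 473) (nat_lit 446) (nat_lit 281)) (XT.nd (nat_lit 78) (nat_lit 380) (nat_lit 0) (XT.lf (nat_lit 0) (nat_lit 20129721155) (nat_lit 380) (nat_lit 11602121816) (nat_lit 76) (nat_lit 50202696449) (nat_lit 177) (nat_lit 5) (nat_lit 182) (nat_lit 5) (nat_lit 178) (nat_lit 5) (nat_lit 474) (nat_lit 446) (nat_lit 280)) (XT.lf (nat_lit 0) (nat_lit 47595191383) (nat_lit 456) (nat_lit 14960337585) (nat_lit 76) (nat_lit 21843182038) (nat_lit 172) (nat_lit 5) (nat_lit 178) (nat_lit 5) (nat_lit 173) (nat_lit 5) (nat_lit 475) (nat_lit 446) (nat_lit 279))))) (XT.nd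 (nat_lit 234) (nat_lit 988) (nat_lit 0) (XT.nd (nat_lit 78) (nat_lit 684) (nat_lit 0) (XT.lf (nat_lit 0) (nat_lit 68809814775) (nat_lit 304) (nat_lit 8724852403) (nat_lit 380) (nat_lit 9418402173) (nat_lit 168) (nat_lit 5) (nat_lit 172) (nat_lit 5) (nat_lit 173) (nat_lit 5) (nat_lit 476) (nat_lit 446) (nat_lit 278)) (XT.nd (nat_lit 78) (nat_lit 304) (nat_lit 0) (XT.lf (nat_lit 0) (nat_lit 20241401977) (nat_lit 380) (nat_lit 21474975328) (nat_lit 76) (nat_lit 47874710008) (nat_lit 163) (nat_lit 5) (nat_lit 168) (nat_lit 5) (nat_lit 164) (nat_lit 5) (nat_lit 477) (nat_lit 446) (nat_lit 277)) (XT.lf (nat_lit 0) (nat_lit 52269798880) (nat_lit 380) (nat_lit 24632583056) (nat_lit 76) (nat_lit 15423415131) (nat_lit 159) (nat_lit 5) (nat_lit 164) (nat_lit 5) (nat_lit 160) (nat_lit 5) (nat_lit 478) (nat_lit 446) (nat_lit 276)))) (XT.nd (nat_lit 78) (nat_lit 684) (nat_lit 0) (XT.lf (nat_lit 0) (nat_lit 67469087149)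 (nat_lit 304) (nat_lit 19721918657) (nat_lit 380) (nat_lit 7967494917) (nat_lit 155) (nat_lit 5) (nat_lit 159) (nat_lit 5) (nat_lit 160) (nat_lit 5) (nat_lit 479) (nat_lit 446) (nat_lit 275)) (XT.nd (nat_lit 78) (nat_lit 304) (nat_lit 0) (XT.lf (nat_lit 0) (nat_lit 26527184331) (nat_lit 380) (nat_lit 30864091777) (nat_lit 76) (nat_lit 40695032505) (nat_lit 150) (nat_lit 5) (nat_lit 155) (nat_lit 5) (nat_lit 151) (nat_lit 5) (nat_lit 480) (nat_lit 446) (nat_lit 274)) (XT.lf (nat_lit 0) (nat_lit 63750935965) (nat_lit 380) (nat_lit 33823280699) (nat_lit 76) (nat_lit 3548850203) (nat_lit 146) (nat_lit 5) (nat_lit 151) (nat_lit 5) (nat_lit 147) (nat_lit 5) (nat_lit 481) (nat_lit 446) (nat_lit 273)))))) (XT.nd (nat_lit 468) (nat_lit 760) (nat_lit 0) (XT.nd (nat_lit 234) (nat_lit 760) (nat_lit 0) (XT.nd (nat_lit 78) (nat_lit 532) (nat_lit 0) (XT.lf (nat_lit 0) (nat_lit 115435224) (nat_lit 304) (nat_lit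 36820088368) (nat_lit 76) (nat_lit 67329692370) (nat_lit 142) (nat_lit 5) (nat_lit 146) (nat_lit 5) (nat_lit 143) (nat_lit 5) (nat_lit 482) (nat_lit 446) (nat_lit 272)) (XT.nd (nat_lit 78) (nat_lit 228) (nat_lit 0) (XT.lf (nat_lit 0) (nat_lit 39985039755) (nat_lit 380) (nat_lit 39922316755) (nat_lit 76) (nat_lit 27607598270) (nat_lit 138) (nat_lit 5) (nat_lit 143) (nat_lit 5) (nat_lit 139) (nat_lit 5) (nat_lit 483) (nat_lit 446) (nat_lit 271)) (XT.lf (nat_lit 0) (nat_lit 68028501715) (nat_lit 228) (nat_lit 15227848933) (nat_lit 304) (nat_lit 27628583194) (nat_lit 135) (nat_lit 5) (nat_lit 138) (nat_lit 5) (nat_lit 139) (nat_lit 5) (nat_lit 484) (nat_lit 446) (nat_lit 270)))) (XT.nd (nat_lit 78) (nat_lit 456) (nat_lit 0) (XT.lf (nat_lit 0) (nat_lit 15584950535) (nat_lit 304) (nat_lit 45902155005) (nat_lit 76) (nat_lit 52884325316) (nat_lit 131) (nat_lit 5) (nat_lit 135) (nat_lit 5) (nat_lit 132)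 (nat_lit 5) (nat_lit 485) (nat_lit 446) (nat_lit 269)) (XT.nd (nat_lit 78) (nat_lit 228) (nat_lit 0) (XT.lf (nat_lit 0) (nat_lit 61727799950) (nat_lit 304) (nat_lit 48909788133) (nat_lit 76) (nat_lit 7346256991) (nat_lit 128) (nat_lit 5) (nat_lit 132) (nat_lit 5) (nat_lit 129) (nat_lit 5) (nat_lit 486) (nat_lit 446) (nat_lit 268)) (XT.lf (nat_lit 0) (nat_lit 69729017245) (nat_lit 228) (nat_lit 42215665967) (nat_lit 304) (nat_lit 9779190125) (nat_lit 125) (nat_lit 5) (nat_lit 128) (nat_lit 5) (nat_lit 129) (nat_lit 5) (nat_lit 487) (nat_lit 446) (nat_lit 267))))) (XT.nd (nat_lit 59280) (nat_lit 0) (nat_lit 13528) (XT.nd (nat_lit 78) (nat_lit 456) (nat_lit 0) (XT.lf (nat_lit 0) (nat_lit 39747076599) (nat_lit 304) (nat_lit 55221000912) (nat_lit 76) (nat_lit 30626962037) (nat_lit 121) (nat_lit 5) (nat_lit 125) (nat_lit 5) (nat_lit 122) (nat_lit 5) (nat_lit 488) (nat_lit 446) (nat_lit 266)) (XT.nd (nat_lit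 78) (nat_lit 228) (nat_lit 0) (XT.lf (nat_lit 0) (nat_lit 71160820559) (nat_lit 228) (nat_lit 22038008181) (nat_lit 304) (nat_lit 36408488064) (nat_lit 118) (nat_lit 5) (nat_lit 121) (nat_lit 5) (nat_lit 122) (nat_lit 5) (nat_lit 489) (nat_lit 446) (nat_lit 265)) (XT.lf (nat_lit 0) (nat_lit 17008347963) (nat_lit 228) (nat_lit 61845785512) (nat_lit 76) (nat_lit 54907366609) (nat_lit 115) (nat_lit 5) (nat_lit 118) (nat_lit 5) (nat_lit 116) (nat_lit 5) (nat_lit 490) (nat_lit 446) (nat_lit 264)))) (XT.nd (nat_lit 156) (nat_lit 0) (nat_lit 76) (XT.nd (nat_lit 78) (nat_lit 0) (nat_lit 76) (XT.lf (nat_lit 0) (nat_lit 9550050900) (nat_lit 1292) (nat_lit 5291737310) (nat_lit 1292) (nat_lit 5291737310) (nat_lit 293) (nat_lit 3) (nat_lit 310) (nat_lit 3) (nat_lit 310) (nat_lit 5) (nat_lit 447) (nat_lit 447) (nat_lit 306)) (XT.lf (nat_lit 0) (nat_lit 19895191197) (nat_lit 1216) (nat_lit 18278609407) (nat_lit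 1292) (nat_lit 3090389928) (nat_lit 294) (nat_lit 5) (nat_lit 310) (nat_lit 5) (nat_lit 311) (nat_lit 5) (nat_lit 448) (nat_lit 447) (nat_lit 305))) (XT.nd (nat_lit 78) (nat_lit 0) (nat_lit 76) (XT.lf (nat_lit 76) (nat_lit 16158596598) (nat_lit 0) (nat_lit 5132165457) (nat_lit 1292) (nat_lit 21003603720) (nat_lit 295) (nat_lit 5) (nat_lit 294) (nat_lit 5) (nat_lit 311) (nat_lit 5) (nat_lit 449) (nat_lit 447) (nat_lit 304)) (XT.lf (nat_lit 76) (nat_lit 9220690159) (nat_lit 0) (nat_lit 14094212089) (nat_lit 1292) (nat_lit 20044384366) (nat_lit 296) (nat_lit 5) (nat_lit 295) (nat_lit 5) (nat_lit 312) (nat_lit 5) (nat_lit 450) (nat_lit 447) (nat_lit 303))))))) (XT.nd (nat_lit 1014) (nat_lit 5396) (nat_lit 0) (XT.nd (nat_lit 468) (nat_lit 3040) (nat_lit 0) (XT.nd (nat_lit 234) (nat_lit 988) (nat_lit 0) (XT.nd (nat_lit 78) (nat_lit 0) (nat_lit 76) (XT.lf (nat_lit 76) (nat_lit 2208441352) (nat_lit 0)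 (nat_lit 23772136566) (nat_lit 1292) (nat_lit 18480666258) (nat_lit 297) (nat_lit 5) (nat_lit 296) (nat_lit 5) (nat_lit 313) (nat_lit 5) (nat_lit 451) (nat_lit 447) (nat_lit 302)) (XT.nd (nat_lit 78) (nat_lit 0) (nat_lit 76) (XT.lf (nat_lit 0) (nat_lit 29380321047) (nat_lit 1216) (nat_lit 4777115429) (nat_lit 1292) (nat_lit 11442840137) (nat_lit 297) (nat_lit 5) (nat_lit 313) (nat_lit 5) (nat_lit 314) (nat_lit 5) (nat_lit 452) (nat_lit 447) (nat_lit 301)) (XT.lf (nat_lit 0) (nat_lit 33537380014) (nat_lit 1216) (nat_lit 11780173143) (nat_lit 1292) (nat_lit 1461088138) (nat_lit 298) (nat_lit 5) (nat_lit 314) (nat_lit 5) (nat_lit 315) (nat_lit 5) (nat_lit 453) (nat_lit 447) (nat_lit 300)))) (XT.nd (nat_lit 78) (nat_lit 1140) (nat_lit 0) (XT.lf (nat_lit 76) (nat_lit 29067707818) (nat_lit 0) (nat_lit 9505074573) (nat_lit 1292) (nat_lit 9423027566) (nat_lit 299) (nat_lit 5) (nat_lit 298) (nat_lit 5)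 (nat_lit 315) (nat_lit 5) (nat_lit 454) (nat_lit 447) (nat_lit 299)) (XT.nd (nat_lit 78) (nat_lit 1216) (nat_lit 0) (XT.lf (nat_lit 76) (nat_lit 23111135041) (nat_lit 0) (nat_lit 21360336483) (nat_lit 1292) (nat_lit 4784020469) (nat_lit 300) (nat_lit 5) (nat_lit 299) (nat_lit 5) (nat_lit 316) (nat_lit 5) (nat_lit 455) (nat_lit 447) (nat_lit 298)) (XT.lf (nat_lit 0) (nat_lit 702476613) (nat_lit 1292) (nat_lit 33413476332) (nat_lit 1368) (nat_lit 16443663437) (nat_lit 283) (nat_lit 5) (nat_lit 300) (nat_lit 5) (nat_lit 301) (nat_lit 5) (nat_lit 456) (nat_lit 447) (nat_lit 297))))) (XT.nd (nat_lit 234) (nat_lit 2356) (nat_lit 0) (XT.nd (nat_lit 78) (nat_lit 760) (nat_lit 0) (XT.lf (nat_lit 0) (nat_lit 6997672304) (nat_lit 1292) (nat_lit 40774653559) (nat_lit 76) (nat_lit 4136201078) (nat_lit 284) (nat_lit 5) (nat_lit 301) (nat_lit 5) (nat_lit 285) (nat_lit 5) (nat_lit 457) (nat_lit 447) (nat_lit 296))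 (XT.nd (nat_lit 78) (nat_lit 0) (nat_lit 0) (XT.lf (nat_lit 0) (nat_lit 5040341879) (nat_lit 760) (nat_lit 9304591284) (nat_lit 836) (nat_lit 38957831071) (nat_lit 274) (nat_lit 5) (nat_lit 284) (nat_lit 5) (nat_lit 285) (nat_lit 5) (nat_lit 458) (nat_lit 447) (nat_lit 295)) (XT.lf (nat_lit 0) (nat_lit 22779535731) (nat_lit 836) (nat_lit 1061491917) (nat_lit 76) (nat_lit 30904086735) (nat_lit 274) (nat_lit 5) (nat_lit 285) (nat_lit 5) (nat_lit 275) (nat_lit 5) (nat_lit 459) (nat_lit 447) (nat_lit 294)))) (XT.nd (nat_lit 156) (nat_lit 1140) (nat_lit 0) (XT.nd (nat_lit 78) (nat_lit 608) (nat_lit 0) (XT.lf (nat_lit 0) (nat_lit 32366712026) (nat_lit 684) (nat_lit 7041144181) (nat_lit 76) (nat_lit 16829800858) (nat_lit 266) (nat_lit 5) (nat_lit 275) (nat_lit 5) (nat_lit 267) (nat_lit 5) (nat_lit 460) (nat_lit 447) (nat_lit 293)) (XT.lf (nat_lit 0) (nat_lit 43129585898) (nat_lit 684) (nat_lit 12984346393)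 (nat_lit 76) (nat_lit 1670004744) (nat_lit 258) (nat_lit 5) (nat_lit 267) (nat_lit 5) (nat_lit 259) (nat_lit 5) (nat_lit 461) (nat_lit 447) (nat_lit 292))) (XT.nd (nat_lit 78) (nat_lit 608) (nat_lit 0) (XT.lf (nat_lit 0) (nat_lit 40360820501) (nat_lit 532) (nat_lit 14926300314) (nat_lit 608) (nat_lit 4094714971) (nat_lit 251) (nat_lit 5) (nat_lit 258) (nat_lit 5) (nat_lit 259) (nat_lit 5) (nat_lit 462) (nat_lit 447) (nat_lit 291)) (XT.lf (nat_lit 0) (nat_lit 7614992877) (nat_lit 608) (nat_lit 25095992716) (nat_lit 76) (nat_lit 28323871162) (nat_lit 243) (nat_lit 5) (nat_lit 251) (nat_lit 5) (nat_lit 244) (nat_lit 5) (nat_lit 463) (nat_lit 447) (nat_lit 290)))))) (XT.nd (nat_lit 468) (nat_lit 2432) (nat_lit 0) (XT.nd (nat_lit 234) (nat_lit 1444) (nat_lit 0) (XT.nd (nat_lit 78) (nat_lit 988) (nat_lit 0) (XT.lf (nat_lit 0) (nat_lit 20585070400) (nat_lit 608) (nat_lit 31155813534) (nat_lit 76) (nat_lit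 11005641774) (nat_lit 236) (nat_lit 5) (nat_lit 244) (nat_lit 5) (nat_lit 237) (nat_lit 5) (nat_lit 464) (nat_lit 447) (nat_lit 289)) (XT.nd (nat_lit 78) (nat_lit 456) (nat_lit 0) (XT.lf (nat_lit 0) (nat_lit 27297708094) (nat_lit 532) (nat_lit 7757235873) (nat_lit 608) (nat_lit 29463295630) (nat_lit 229) (nat_lit 5) (nat_lit 236) (nat_lit 5) (nat_lit 237) (nat_lit 5) (nat_lit 465) (nat_lit 447) (nat_lit 288)) (XT.lf (nat_lit 0) (nat_lit 23030516576) (nat_lit 456) (nat_lit 28130354900) (nat_lit 532) (nat_lit 15190291141) (nat_lit 223) (nat_lit 5) (nat_lit 229) (nat_lit 5) (nat_lit 230) (nat_lit 5) (nat_lit 466) (nat_lit 447) (nat_lit 287)))) (XT.nd (nat_lit 78) (nat_lit 912) (nat_lit 0) (XT.lf (nat_lit 0) (nat_lit 626407758) (nat_lit 532) (nat_lit 49337824789) (nat_lit 76) (nat_lit 18286776070) (nat_lit 216) (nat_lit 5) (nat_lit 223) (nat_lit 5) (nat_lit 217) (nat_lit 5) (nat_lit 467) (nat_lit 447)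 (nat_lit 286)) (XT.nd (nat_lit 78) (nat_lit 456) (nat_lit 0) (XT.lf (nat_lit 0) (nat_lit 14775820431) (nat_lit 456) (nat_lit 3021244712) (nat_lit 532) (nat_lit 52417951560) (nat_lit 210) (nat_lit 5) (nat_lit 216) (nat_lit 5) (nat_lit 217) (nat_lit 5) (nat_lit 468) (nat_lit 447) (nat_lit 285)) (XT.lf (nat_lit 0) (nat_lit 10619257072) (nat_lit 456) (nat_lit 26264865396) (nat_lit 532) (nat_lit 35361366914) (nat_lit 204) (nat_lit 5) (nat_lit 210) (nat_lit 5) (nat_lit 211) (nat_lit 5) (nat_lit 469) (nat_lit 447) (nat_lit 284))))) (XT.nd (nat_lit 234) (nat_lit 1520) (nat_lit 0) (XT.nd (nat_lit 78) (nat_lit 532) (nat_lit 0) (XT.lf (nat_lit 0) (nat_lit 6649333068) (nat_lit 380) (nat_lit 51165860229) (nat_lit 456) (nat_lit 16535602773) (nat_lit 199) (nat_lit 5) (nat_lit 204) (nat_lit 5) (nat_lit 205) (nat_lit 5) (nat_lit 470) (nat_lit 447) (nat_lit 283)) (XT.nd (nat_lit 78) (nat_lit 0) (nat_lit 0) (XT.lf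 (nat_lit 0) (nat_lit 2834724969) (nat_lit 456) (nat_lit 1264900074) (nat_lit 532) (nat_lit 72432874367) (nat_lit 192) (nat_lit 5) (nat_lit 198) (nat_lit 5) (nat_lit 199) (nat_lit 5) (nat_lit 471) (nat_lit 447) (nat_lit 282)) (XT.lf (nat_lit 0) (nat_lit 26621417918) (nat_lit 532) (nat_lit 1157475517) (nat_lit 76) (nat_lit 51003579528) (nat_lit 192) (nat_lit 5) (nat_lit 199) (nat_lit 5) (nat_lit 193) (nat_lit 5) (nat_lit 472) (nat_lit 447) (nat_lit 281)))) (XT.nd (nat_lit 156) (nat_lit 760) (nat_lit 0) (XT.nd (nat_lit 78) (nat_lit 380) (nat_lit 0) (XT.lf (nat_lit 0) (nat_lit 51260519658) (nat_lit 456) (nat_lit 4879956732) (nat_lit 76) (nat_lit 24974732389) (nat_lit 187) (nat_lit 5) (nat_lit 193) (nat_lit 5) (nat_lit 188) (nat_lit 5) (nat_lit 473) (nat_lit 447) (nat_lit 280)) (XT.lf (nat_lit 0) (nat_lit 75141208831) (nat_lit 380) (nat_lit 3003493927) (nat_lit 456) (nat_lit 5389484992) (nat_lit 182)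 (nat_lit 5) (nat_lit 187) (nat_lit 5) (nat_lit 188) (nat_lit 5) (nat_lit 474) (nat_lit 447) (nat_lit 279))) (XT.nd (nat_lit 78) (nat_lit 380) (nat_lit 0) (XT.lf (nat_lit 0) (nat_lit 21184661518) (nat_lit 380) (nat_lit 12114481679) (nat_lit 76) (nat_lit 52730665179) (nat_lit 177) (nat_lit 5) (nat_lit 182) (nat_lit 5) (nat_lit 178) (nat_lit 5) (nat_lit 475) (nat_lit 447) (nat_lit 278)) (XT.lf (nat_lit 0) (nat_lit 50021913339) (nat_lit 456) (nat_lit 15641325485) (nat_lit 76) (nat_lit 22953994685) (nat_lit 172) (nat_lit 5) (nat_lit 178) (nat_lit 5) (nat_lit 173) (nat_lit 5) (nat_lit 476) (nat_lit 447) (nat_lit 277))))))))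
noncomputable def xc114 : XT := (XT.nd (nat_lit 61152) (nat_lit 0) (nat_lit 1292) (XT.nd (nat_lit 936) (nat_lit 304) (nat_lit 0) (XT.nd (nat_lit 468) (nat_lit 1596) (nat_lit 0) (XT.nd (nat_lit 234) (nat_lit 988) (nat_lit 0) (XT.nd (nat_lit 78) (nat_lit 684) (nat_lit 0) (XT.lf (nat_lit 0) (nat_lit 72315413121) (nat_lit 304) (nat_lit 9141339353) (nat_lit 380) (nat_lit 9842605810) (nat_lit 168) (nat_lit 5) (nat_lit 172) (nat_lit 5) (nat_lit 173) (nat_lit 5) (nat_lit 477) (nat_lit 447) (nat_lit 276)) (XT.nd (nat_lit 78) (nat_lit 304) (nat_lit 0) (XT.lf (nat_lit 0) (nat_lit 21297903418) (nat_lit 380) (nat_lit 22483453874) (nat_lit 76) (nat_lit 50287947769) (nat_lit 163) (nat_lit 5) (nat_lit 168) (nat_lit 5) (nat_lit 164) (nat_lit 5) (nat_lit 478) (nat_lit 447) (nat_lit 275)) (XT.lf (nat_lit 0) (nat_lit 54926410631) (nat_lit 380) (nat_lit 25799718505) (nat_lit 76) (nat_lit 16214660627) (nat_lit 159)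 (nat_lit 5) (nat_lit 164) (nat_lit 5) (nat_lit 160) (nat_lit 5) (nat_lit 479) (nat_lit 447) (nat_lit 274)))) (XT.nd (nat_lit 78) (nat_lit 684) (nat_lit 0) (XT.lf (nat_lit 0) (nat_lit 70905186511) (nat_lit 304) (nat_lit 20687040155) (nat_lit 380) (nat_lit 8322945640) (nat_lit 155) (nat_lit 5) (nat_lit 159) (nat_lit 5) (nat_lit 160) (nat_lit 5) (nat_lit 480) (nat_lit 447) (nat_lit 273)) (XT.nd (nat_lit 78) (nat_lit 304) (nat_lit 0) (XT.lf (nat_lit 0) (nat_lit 27894420403) (nat_lit 380) (nat_lit 32344608771) (nat_lit 76) (nat_lit 42750365480) (nat_lit 150) (nat_lit 5) (nat_lit 155) (nat_lit 5) (nat_lit 151) (nat_lit 5) (nat_lit 481) (nat_lit 447) (nat_lit 272)) (XT.lf (nat_lit 0) (nat_lit 66978203889) (nat_lit 380) (nat_lit 35452571129) (nat_lit 76) (nat_lit 3747250621) (nat_lit 146) (nat_lit 5) (nat_lit 151) (nat_lit 5) (nat_lit 147) (nat_lit 5) (nat_lit 482) (nat_lit 447) (nat_lit 271))))) (XT.nd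 (nat_lit 234) (nat_lit 760) (nat_lit 0) (XT.nd (nat_lit 78) (nat_lit 532) (nat_lit 0) (XT.lf (nat_lit 0) (nat_lit 159997361) (nat_lit 304) (nat_lit 38600218055) (nat_lit 76) (nat_lit 70717094917) (nat_lit 142) (nat_lit 5) (nat_lit 146) (nat_lit 5) (nat_lit 143) (nat_lit 5) (nat_lit 483) (nat_lit 447) (nat_lit 270)) (XT.nd (nat_lit 78) (nat_lit 228) (nat_lit 0) (XT.lf (nat_lit 0) (nat_lit 42022011156) (nat_lit 380) (nat_lit 41858382696) (nat_lit 76) (nat_lit 29009174498) (nat_lit 138) (nat_lit 5) (nat_lit 143) (nat_lit 5) (nat_lit 139) (nat_lit 5) (nat_lit 484) (nat_lit 447) (nat_lit 269)) (XT.lf (nat_lit 0) (nat_lit 71488255380) (nat_lit 228) (nat_lit 15967396742) (nat_lit 304) (nat_lit 28972431431) (nat_lit 135) (nat_lit 5) (nat_lit 138) (nat_lit 5) (nat_lit 139) (nat_lit 5) (nat_lit 485) (nat_lit 447) (nat_lit 268)))) (XT.nd (nat_lit 78) (nat_lit 456) (nat_lit 0) (XT.lf (nat_lit 0) (nat_lit 16400051338)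 (nat_lit 304) (nat_lit 48139028753) (nat_lit 76) (nat_lit 55549844432) (nat_lit 131) (nat_lit 5) (nat_lit 135) (nat_lit 5) (nat_lit 132) (nat_lit 5) (nat_lit 486) (nat_lit 447) (nat_lit 267)) (XT.nd (nat_lit 78) (nat_lit 228) (nat_lit 0) (XT.lf (nat_lit 0) (nat_lit 64849089935) (nat_lit 304) (nat_lit 51297880219) (nat_lit 76) (nat_lit 7735018005) (nat_lit 128) (nat_lit 5) (nat_lit 132) (nat_lit 5) (nat_lit 129) (nat_lit 5) (nat_lit 487) (nat_lit 447) (nat_lit 266)) (XT.lf (nat_lit 0) (nat_lit 73271220146) (nat_lit 228) (nat_lit 44304471233) (nat_lit 304) (nat_lit 10233360338) (nat_lit 125) (nat_lit 5) (nat_lit 128) (nat_lit 5) (nat_lit 129) (nat_lit 5) (nat_lit 488) (nat_lit 447) (nat_lit 265)))))) (XT.nd (nat_lit 59670) (nat_lit 0) (nat_lit 11628) (XT.nd (nat_lit 59436) (nat_lit 0) (nat_lit 13148) (XT.nd (nat_lit 59280) (nat_lit 0) (nat_lit 13072) (XT.lf (nat_lit 0) (nat_lit 41767653045) (nat_lit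 304) (nat_lit 57926452962) (nat_lit 76) (nat_lit 32179686929) (nat_lit 121) (nat_lit 5) (nat_lit 125) (nat_lit 5) (nat_lit 122) (nat_lit 5) (nat_lit 489) (nat_lit 447) (nat_lit 264)) (XT.nd (nat_lit 78) (nat_lit 0) (nat_lit 76) (XT.lf (nat_lit 0) (nat_lit 10092559879) (nat_lit 1292) (nat_lit 5522841343) (nat_lit 1292) (nat_lit 5522841343) (nat_lit 293) (nat_lit 3) (nat_lit 310) (nat_lit 3) (nat_lit 310) (nat_lit 5) (nat_lit 448) (nat_lit 448) (nat_lit 304)) (XT.lf (nat_lit 0) (nat_lit 21013826801) (nat_lit 1216) (nat_lit 19123172147) (nat_lit 1292) (nat_lit 3186667616) (nat_lit 294) (nat_lit 5) (nat_lit 310) (nat_lit 5) (nat_lit 311) (nat_lit 5) (nat_lit 449) (nat_lit 448) (nat_lit 303)))) (XT.nd (nat_lit 78) (nat_lit 0) (nat_lit 76) (XT.lf (nat_lit 76) (nat_lit 17033905746) (nat_lit 0) (nat_lit 5440019288) (nat_lit 1292) (nat_lit 21931583889) (nat_lit 295) (nat_lit 5) (nat_lit 294) (nat_lit 5)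 (nat_lit 311) (nat_lit 5) (nat_lit 450) (nat_lit 448) (nat_lit 302)) (XT.nd (nat_lit 78) (nat_lit 0) (nat_lit 76) (XT.lf (nat_lit 76) (nat_lit 9751123714) (nat_lit 0) (nat_lit 14842697679) (nat_lit 1292) (nat_lit 20930018718) (nat_lit 296) (nat_lit 5) (nat_lit 295) (nat_lit 5) (nat_lit 312) (nat_lit 5) (nat_lit 451) (nat_lit 448) (nat_lit 301)) (XT.lf (nat_lit 76) (nat_lit 2389994950) (nat_lit 0) (nat_lit 24997679662) (nat_lit 1292) (nat_lit 19293374869) (nat_lit 297) (nat_lit 5) (nat_lit 296) (nat_lit 5) (nat_lit 313) (nat_lit 5) (nat_lit 452) (nat_lit 448) (nat_lit 300))))) (XT.nd (nat_lit 234) (nat_lit 1748) (nat_lit 0) (XT.nd (nat_lit 78) (nat_lit 0) (nat_lit 76) (XT.lf (nat_lit 0) (nat_lit 30951920666) (nat_lit 1216) (nat_lit 4944786926) (nat_lit 1292) (nat_lit 11980491183) (nat_lit 297) (nat_lit 5) (nat_lit 313) (nat_lit 5) (nat_lit 314) (nat_lit 5) (nat_lit 453) (nat_lit 448) (nat_lit 299))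 (XT.nd (nat_lit 78) (nat_lit 0) (nat_lit 0) (XT.lf (nat_lit 0) (nat_lit 35312331425) (nat_lit 1216) (nat_lit 12296792747) (nat_lit 1292) (nat_lit 1505493228) (nat_lit 298) (nat_lit 5) (nat_lit 314) (nat_lit 5) (nat_lit 315) (nat_lit 5) (nat_lit 454) (nat_lit 448) (nat_lit 298)) (XT.lf (nat_lit 76) (nat_lit 30591407245) (nat_lit 0) (nat_lit 10004101987) (nat_lit 1292) (nat_lit 9797255746) (nat_lit 299) (nat_lit 5) (nat_lit 298) (nat_lit 5) (nat_lit 315) (nat_lit 5) (nat_lit 455) (nat_lit 448) (nat_lit 297)))) (XT.nd (nat_lit 156) (nat_lit 684) (nat_lit 0) (XT.nd (nat_lit 78) (nat_lit 1216) (nat_lit 0) (XT.lf (nat_lit 76) (nat_lit 24337966466) (nat_lit 0) (nat_lit 22447153478) (nat_lit 1292) (nat_lit 4930432169) (nat_lit 300) (nat_lit 5) (nat_lit 299) (nat_lit 5) (nat_lit 316) (nat_lit 5) (nat_lit 456) (nat_lit 448) (nat_lit 296)) (XT.lf (nat_lit 0) (nat_lit 824772364) (nat_lit 1292) (nat_lit 35010360138)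 (nat_lit 1368) (nat_lit 17249838229) (nat_lit 283) (nat_lit 5) (nat_lit 300) (nat_lit 5) (nat_lit 301) (nat_lit 5) (nat_lit 457) (nat_lit 448) (nat_lit 295))) (XT.nd (nat_lit 78) (nat_lit 760) (nat_lit 0) (XT.lf (nat_lit 0) (nat_lit 7431150090) (nat_lit 1292) (nat_lit 42739073646) (nat_lit 76) (nat_lit 4331210954) (nat_lit 284) (nat_lit 5) (nat_lit 301) (nat_lit 5) (nat_lit 285) (nat_lit 5) (nat_lit 458) (nat_lit 448) (nat_lit 294)) (XT.lf (nat_lit 0) (nat_lit 5364541408) (nat_lit 760) (nat_lit 9777945771) (nat_lit 836) (nat_lit 40822995786) (nat_lit 274) (nat_lit 5) (nat_lit 284) (nat_lit 5) (nat_lit 285) (nat_lit 5) (nat_lit 459) (nat_lit 448) (nat_lit 293))))))) (XT.nd (nat_lit 1014) (nat_lit 4104) (nat_lit 0) (XT.nd (nat_lit 468) (nat_lit 3344) (nat_lit 0) (XT.nd (nat_lit 234) (nat_lit 1672) (nat_lit 0) (XT.nd (nat_lit 78) (nat_lit 1216) (nat_lit 0) (XT.lf (nat_lit 0) (nat_lit 23994921333)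 (nat_lit 836) (nat_lit 1043442686) (nat_lit 76) (nat_lit 32441704047) (nat_lit 274) (nat_lit 5) (nat_lit 285) (nat_lit 5) (nat_lit 275) (nat_lit 5) (nat_lit 460) (nat_lit 448) (nat_lit 292)) (XT.nd (nat_lit 78) (nat_lit 608) (nat_lit 0) (XT.lf (nat_lit 0) (nat_lit 34058440207) (nat_lit 684) (nat_lit 7321862168) (nat_lit 76) (nat_lit 17667026459) (nat_lit 266) (nat_lit 5) (nat_lit 275) (nat_lit 5) (nat_lit 267) (nat_lit 5) (nat_lit 461) (nat_lit 448) (nat_lit 291)) (XT.lf (nat_lit 0) (nat_lit 45356616784) (nat_lit 684) (nat_lit 13562131435) (nat_lit 76) (nat_lit 1752260257) (nat_lit 258) (nat_lit 5) (nat_lit 267) (nat_lit 5) (nat_lit 259) (nat_lit 5) (nat_lit 462) (nat_lit 448) (nat_lit 290)))) (XT.nd (nat_lit 78) (nat_lit 1140) (nat_lit 0) (XT.lf (nat_lit 0) (nat_lit 42448246212) (nat_lit 532) (nat_lit 15671089604) (nat_lit 608) (nat_lit 4229547550) (nat_lit 251) (nat_lit 5) (nat_lit 258) (nat_lit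 5) (nat_lit 259) (nat_lit 5) (nat_lit 463) (nat_lit 448) (nat_lit 289)) (XT.nd (nat_lit 78) (nat_lit 532) (nat_lit 0) (XT.lf (nat_lit 0) (nat_lit 8061705368) (nat_lit 608) (nat_lit 26280104602) (nat_lit 76) (nat_lit 29742802932) (nat_lit 243) (nat_lit 5) (nat_lit 251) (nat_lit 5) (nat_lit 244) (nat_lit 5) (nat_lit 464) (nat_lit 448) (nat_lit 288)) (XT.lf (nat_lit 0) (nat_lit 21677855487) (nat_lit 608) (nat_lit 32643080615) (nat_lit 76) (nat_lit 11561002511) (nat_lit 236) (nat_lit 5) (nat_lit 244) (nat_lit 5) (nat_lit 237) (nat_lit 5) (nat_lit 465) (nat_lit 448) (nat_lit 287))))) (XT.nd (nat_lit 234) (nat_lit 1824) (nat_lit 0) (XT.nd (nat_lit 78) (nat_lit 988) (nat_lit 0) (XT.lf (nat_lit 0) (nat_lit 28731095549) (nat_lit 532) (nat_lit 8137760354) (nat_lit 608) (nat_lit 30873453653) (nat_lit 229) (nat_lit 5) (nat_lit 236) (nat_lit 5) (nat_lit 237) (nat_lit 5) (nat_lit 466) (nat_lit 448) (nat_lit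 286)) (XT.nd (nat_lit 78) (nat_lit 532) (nat_lit 0) (XT.lf (nat_lit 0) (nat_lit 24250301569) (nat_lit 456) (nat_lit 29527588933) (nat_lit 532) (nat_lit 15889054240) (nat_lit 223) (nat_lit 5) (nat_lit 229) (nat_lit 5) (nat_lit 230) (nat_lit 5) (nat_lit 467) (nat_lit 448) (nat_lit 285)) (XT.lf (nat_lit 0) (nat_lit 715203038) (nat_lit 532) (nat_lit 51735624988) (nat_lit 76) (nat_lit 19211000542) (nat_lit 216) (nat_lit 5) (nat_lit 223) (nat_lit 5) (nat_lit 217) (nat_lit 5) (nat_lit 468) (nat_lit 448) (nat_lit 284)))) (XT.nd (nat_lit 156) (nat_lit 912) (nat_lit 0) (XT.nd (nat_lit 78) (nat_lit 456) (nat_lit 0) (XT.lf (nat_lit 0) (nat_lit 15581722012) (nat_lit 456) (nat_lit 3160579488) (nat_lit 532) (nat_lit 54981798608) (nat_lit 210) (nat_lit 5) (nat_lit 216) (nat_lit 5) (nat_lit 217) (nat_lit 5) (nat_lit 469) (nat_lit 448) (nat_lit 283)) (XT.lf (nat_lit 0) (nat_lit 11216916908) (nat_lit 456) (nat_lit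 27564905989) (nat_lit 532) (nat_lit 37074330471) (nat_lit 204) (nat_lit 5) (nat_lit 210) (nat_lit 5) (nat_lit 211) (nat_lit 5) (nat_lit 470) (nat_lit 448) (nat_lit 282))) (XT.nd (nat_lit 78) (nat_lit 532) (nat_lit 0) (XT.lf (nat_lit 0) (nat_lit 7048025893) (nat_lit 380) (nat_lit 53709631501) (nat_lit 456) (nat_lit 17309121961) (nat_lit 199) (nat_lit 5) (nat_lit 204) (nat_lit 5) (nat_lit 205) (nat_lit 5) (nat_lit 471) (nat_lit 448) (nat_lit 281)) (XT.lf (nat_lit 0) (nat_lit 3041803629) (nat_lit 456) (nat_lit 1313165670) (nat_lit 532) (nat_lit 76002639212) (nat_lit 192) (nat_lit 5) (nat_lit 198) (nat_lit 5) (nat_lit 199) (nat_lit 5) (nat_lit 472) (nat_lit 448) (nat_lit 280)))))) (XT.nd (nat_lit 468) (nat_lit 2280) (nat_lit 0) (XT.nd (nat_lit 234) (nat_lit 1064) (nat_lit 0) (XT.nd (nat_lit 78) (nat_lit 760) (nat_lit 0) (XT.lf (nat_lit 0) (nat_lit 28000590714) (nat_lit 532) (nat_lit 1151811874) (nat_lit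 76) (nat_lit 53567746224) (nat_lit 192) (nat_lit 5) (nat_lit 199) (nat_lit 5) (nat_lit 193) (nat_lit 5) (nat_lit 473) (nat_lit 448) (nat_lit 279)) (XT.nd (nat_lit 78) (nat_lit 380) (nat_lit 0) (XT.lf (nat_lit 0) (nat_lit 53870097411) (nat_lit 456) (nat_lit 5060988967) (nat_lit 76) (nat_lit 26238481770) (nat_lit 187) (nat_lit 5) (nat_lit 193) (nat_lit 5) (nat_lit 188) (nat_lit 5) (nat_lit 474) (nat_lit 448) (nat_lit 278)) (XT.lf (nat_lit 0) (nat_lit 78959429978) (nat_lit 380) (nat_lit 3137430852) (nat_lit 456) (nat_lit 5612684319) (nat_lit 182) (nat_lit 5) (nat_lit 187) (nat_lit 5) (nat_lit 188) (nat_lit 5) (nat_lit 475) (nat_lit 448) (nat_lit 277)))) (XT.nd (nat_lit 78) (nat_lit 684) (nat_lit 0) (XT.lf (nat_lit 0) (nat_lit 22287844077) (nat_lit 380) (nat_lit 12658757937) (nat_lit 76) (nat_lit 55383374319) (nat_lit 177) (nat_lit 5) (nat_lit 182) (nat_lit 5) (nat_lit 178) (nat_lit 5) (nat_lit 476)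 (nat_lit 448) (nat_lit 276)) (XT.nd (nat_lit 78) (nat_lit 304) (nat_lit 0) (XT.lf (nat_lit 0) (nat_lit 52565605275) (nat_lit 456) (nat_lit 16362594499) (nat_lit 76) (nat_lit 24118613734) (nat_lit 172) (nat_lit 5) (nat_lit 178) (nat_lit 5) (nat_lit 173) (nat_lit 5) (nat_lit 477) (nat_lit 448) (nat_lit 275)) (XT.lf (nat_lit 0) (nat_lit 75990238296) (nat_lit 304) (nat_lit 9580487345) (nat_lit 380) (nat_lit 10292362883) (nat_lit 168) (nat_lit 5) (nat_lit 172) (nat_lit 5) (nat_lit 173) (nat_lit 5) (nat_lit 478) (nat_lit 448) (nat_lit 274))))) (XT.nd (nat_lit 234) (nat_lit 1292) (nat_lit 0) (XT.nd (nat_lit 78) (nat_lit 608) (nat_lit 0) (XT.lf (nat_lit 0) (nat_lit 22403099126) (nat_lit 380) (nat_lit 23548424554) (nat_lit 76) (nat_lit 52820034282) (nat_lit 163) (nat_lit 5) (nat_lit 168) (nat_lit 5) (nat_lit 164) (nat_lit 5) (nat_lit 479) (nat_lit 448) (nat_lit 273)) (XT.nd (nat_lit 78) (nat_lit 304) (nat_lit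 0) (XT.lf (nat_lit 0) (nat_lit 57711843913) (nat_lit 380) (nat_lit 27031206740) (nat_lit 76) (nat_lit 17043602039) (nat_lit 159) (nat_lit 5) (nat_lit 164) (nat_lit 5) (nat_lit 160) (nat_lit 5) (nat_lit 480) (nat_lit 448) (nat_lit 272)) (XT.lf (nat_lit 0) (nat_lit 74507266702) (nat_lit 304) (nat_lit 21702367733) (nat_lit 380) (nat_lit 8700159568) (nat_lit 155) (nat_lit 5) (nat_lit 159) (nat_lit 5) (nat_lit 160) (nat_lit 5) (nat_lit 481) (nat_lit 448) (nat_lit 271)))) (XT.nd (nat_lit 156) (nat_lit 608) (nat_lit 0) (XT.nd (nat_lit 78) (nat_lit 304) (nat_lit 0) (XT.lf (nat_lit 0) (nat_lit 29326217935) (nat_lit 380) (nat_lit 33904979713) (nat_lit 76) (nat_lit 44906551645) (nat_lit 150) (nat_lit 5) (nat_lit 155) (nat_lit 5) (nat_lit 151) (nat_lit 5) (nat_lit 482) (nat_lit 448) (nat_lit 270)) (XT.lf (nat_lit 0) (nat_lit 70363142316) (nat_lit 380) (nat_lit 37169078502) (nat_lit 76) (nat_lit 3953622592)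 (nat_lit 146) (nat_lit 5) (nat_lit 151) (nat_lit 5) (nat_lit 147) (nat_lit 5) (nat_lit 483) (nat_lit 448) (nat_lit 269))) (XT.nd (nat_lit 78) (nat_lit 304) (nat_lit 0) (XT.lf (nat_lit 0) (nat_lit 203181244) (nat_lit 304) (nat_lit 40475013783) (nat_lit 76) (nat_lit 74271922840) (nat_lit 142) (nat_lit 5) (nat_lit 146) (nat_lit 5) (nat_lit 143) (nat_lit 5) (nat_lit 484) (nat_lit 448) (nat_lit 268)) (XT.lf (nat_lit 0) (nat_lit 44157324334) (nat_lit 380) (nat_lit 43896834804) (nat_lit 76) (nat_lit 30478858905) (nat_lit 138) (nat_lit 5) (nat_lit 143) (nat_lit 5) (nat_lit 139) (nat_lit 5) (nat_lit 485) (nat_lit 448) (nat_lit 267))))))))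
noncomputable def xc115 : XT := (XT.nd (nat_lit 61230) (nat_lit 0) (nat_lit 228) (XT.nd (nat_lit 60216) (nat_lit 0) (nat_lit 6916) (XT.nd (nat_lit 59748) (nat_lit 0) (nat_lit 12844) (XT.nd (nat_lit 234) (nat_lit 228) (nat_lit 0) (XT.nd (nat_lit 78) (nat_lit 532) (nat_lit 0) (XT.lf (nat_lit 0) (nat_lit 75115573889) (nat_lit 228) (nat_lit 16745952848) (nat_lit 304) (nat_lit 30386965997) (nat_lit 135) (nat_lit 5) (nat_lit 138) (nat_lit 5) (nat_lit 139) (nat_lit 5) (nat_lit 486) (nat_lit 448) (nat_lit 266)) (XT.nd (nat_lit 78) (nat_lit 228) (nat_lit 0) (XT.lf (nat_lit 0) (nat_lit 17252573883) (nat_lit 304) (nat_lit 50493160234) (nat_lit 76) (nat_lit 58346658967) (nat_lit 131) (nat_lit 5) (nat_lit 135) (nat_lit 5) (nat_lit 132) (nat_lit 5) (nat_lit 487) (nat_lit 448) (nat_lit 265)) (XT.lf (nat_lit 0) (nat_lit 68123199750) (nat_lit 304) (nat_lit 53810713169) (nat_lit 76) (nat_lit 8141223022) (nat_lit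 128) (nat_lit 5) (nat_lit 132) (nat_lit 5) (nat_lit 129) (nat_lit 5) (nat_lit 488) (nat_lit 448) (nat_lit 264)))) (XT.nd (nat_lit 59358) (nat_lit 0) (nat_lit 12768) (XT.lf (nat_lit 0) (nat_lit 76985349895) (nat_lit 228) (nat_lit 46499760073) (nat_lit 304) (nat_lit 10713473441) (nat_lit 125) (nat_lit 5) (nat_lit 128) (nat_lit 5) (nat_lit 129) (nat_lit 5) (nat_lit 489) (nat_lit 448) (nat_lit 263)) (XT.nd (nat_lit 78) (nat_lit 0) (nat_lit 76) (XT.lf (nat_lit 0) (nat_lit 10656150625) (nat_lit 1292) (nat_lit 5768613495) (nat_lit 1292) (nat_lit 5768613495) (nat_lit 293) (nat_lit 3) (nat_lit 310) (nat_lit 3) (nat_lit 310) (nat_lit 5) (nat_lit 449) (nat_lit 449) (nat_lit 302)) (XT.lf (nat_lit 0) (nat_lit 22176877365) (nat_lit 1216) (nat_lit 20016412178) (nat_lit 1292) (nat_lit 3293173959) (nat_lit 294) (nat_lit 5) (nat_lit 310) (nat_lit 5) (nat_lit 311) (nat_lit 5) (nat_lit 450) (nat_lit 449) (nat_lit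 301))))) (XT.nd (nat_lit 234) (nat_lit 0) (nat_lit 228) (XT.nd (nat_lit 78) (nat_lit 0) (nat_lit 76) (XT.lf (nat_lit 76) (nat_lit 17946716061) (nat_lit 0) (nat_lit 5758501484) (nat_lit 1292) (nat_lit 22917324067) (nat_lit 295) (nat_lit 5) (nat_lit 294) (nat_lit 5) (nat_lit 311) (nat_lit 5) (nat_lit 451) (nat_lit 449) (nat_lit 300)) (XT.nd (nat_lit 78) (nat_lit 0) (nat_lit 76) (XT.lf (nat_lit 76) (nat_lit 10301626881) (nat_lit 0) (nat_lit 15624537766) (nat_lit 1292) (nat_lit 21870773743) (nat_lit 296) (nat_lit 5) (nat_lit 295) (nat_lit 5) (nat_lit 312) (nat_lit 5) (nat_lit 452) (nat_lit 449) (nat_lit 299)) (XT.lf (nat_lit 76) (nat_lit 2574013093) (nat_lit 0) (nat_lit 26281065929) (nat_lit 1292) (nat_lit 20157068826) (nat_lit 297) (nat_lit 5) (nat_lit 296) (nat_lit 5) (nat_lit 313) (nat_lit 5) (nat_lit 453) (nat_lit 449) (nat_lit 298)))) (XT.nd (nat_lit 78) (nat_lit 0) (nat_lit 76) (XT.lf (nat_lit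 0) (nat_lit 32592563017) (nat_lit 1216) (nat_lit 5127460037) (nat_lit 1292) (nat_lit 12548231425) (nat_lit 297) (nat_lit 5) (nat_lit 313) (nat_lit 5) (nat_lit 314) (nat_lit 5) (nat_lit 454) (nat_lit 449) (nat_lit 297)) (XT.nd (nat_lit 78) (nat_lit 0) (nat_lit 0) (XT.lf (nat_lit 0) (nat_lit 37166911635) (nat_lit 1216) (nat_lit 12845973379) (nat_lit 1292) (nat_lit 1554782114) (nat_lit 298) (nat_lit 5) (nat_lit 314) (nat_lit 5) (nat_lit 315) (nat_lit 5) (nat_lit 455) (nat_lit 449) (nat_lit 296)) (XT.lf (nat_lit 76) (nat_lit 32184754510) (nat_lit 0) (nat_lit 10525870521) (nat_lit 1292) (nat_lit 10199206335) (nat_lit 299) (nat_lit 5) (nat_lit 298) (nat_lit 5) (nat_lit 315) (nat_lit 5) (nat_lit 456) (nat_lit 449) (nat_lit 295)))))) (XT.nd (nat_lit 468) (nat_lit 3800) (nat_lit 0) (XT.nd (nat_lit 234) (nat_lit 1292) (nat_lit 0) (XT.nd (nat_lit 78) (nat_lit 1216) (nat_lit 0) (XT.lf (nat_lit 76) (nat_lit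 25619513019) (nat_lit 0) (nat_lit 23586563462) (nat_lit 1292) (nat_lit 5092791126) (nat_lit 300) (nat_lit 5) (nat_lit 299) (nat_lit 5) (nat_lit 316) (nat_lit 5) (nat_lit 457) (nat_lit 449) (nat_lit 294)) (XT.nd (nat_lit 78) (nat_lit 0) (nat_lit 76) (XT.lf (nat_lit 0) (nat_lit 945078484) (nat_lit 1292) (nat_lit 36693948431) (nat_lit 1368) (nat_lit 18097810068) (nat_lit 283) (nat_lit 5) (nat_lit 300) (nat_lit 5) (nat_lit 301) (nat_lit 5) (nat_lit 458) (nat_lit 449) (nat_lit 293)) (XT.lf (nat_lit 0) (nat_lit 7878529972) (nat_lit 1292) (nat_lit 44808623618) (nat_lit 76) (nat_lit 4537068392) (nat_lit 284) (nat_lit 5) (nat_lit 301) (nat_lit 5) (nat_lit 285) (nat_lit 5) (nat_lit 459) (nat_lit 449) (nat_lit 292)))) (XT.nd (nat_lit 78) (nat_lit 608) (nat_lit 0) (XT.lf (nat_lit 0) (nat_lit 5698240076) (nat_lit 760) (nat_lit 10274212604) (nat_lit 836) (nat_lit 42789109894) (nat_lit 274) (nat_lit 5) (nat_lit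 284) (nat_lit 5) (nat_lit 285) (nat_lit 5) (nat_lit 460) (nat_lit 449) (nat_lit 291)) (XT.nd (nat_lit 78) (nat_lit 608) (nat_lit 0) (XT.lf (nat_lit 0) (nat_lit 25263972447) (nat_lit 836) (nat_lit 1031103413) (nat_lit 76) (nat_lit 34056907594) (nat_lit 274) (nat_lit 5) (nat_lit 285) (nat_lit 5) (nat_lit 275) (nat_lit 5) (nat_lit 461) (nat_lit 449) (nat_lit 290)) (XT.lf (nat_lit 0) (nat_lit 35827931452) (nat_lit 684) (nat_lit 7623248498) (nat_lit 76) (nat_lit 18546509808) (nat_lit 266) (nat_lit 5) (nat_lit 275) (nat_lit 5) (nat_lit 267) (nat_lit 5) (nat_lit 462) (nat_lit 449) (nat_lit 289))))) (XT.nd (nat_lit 234) (nat_lit 2052) (nat_lit 0) (XT.nd (nat_lit 78) (nat_lit 1140) (nat_lit 0) (XT.lf (nat_lit 0) (nat_lit 47688439997) (nat_lit 684) (nat_lit 14175446825) (nat_lit 76) (nat_lit 1838744268) (nat_lit 258) (nat_lit 5) (nat_lit 267) (nat_lit 5) (nat_lit 259) (nat_lit 5) (nat_lit 463) (nat_lit 449)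 (nat_lit 288)) (XT.nd (nat_lit 78) (nat_lit 608) (nat_lit 0) (XT.lf (nat_lit 0) (nat_lit 44633592478) (nat_lit 532) (nat_lit 16453260206) (nat_lit 608) (nat_lit 4377620692) (nat_lit 251) (nat_lit 5) (nat_lit 258) (nat_lit 5) (nat_lit 259) (nat_lit 5) (nat_lit 464) (nat_lit 449) (nat_lit 287)) (XT.lf (nat_lit 0) (nat_lit 8524620884) (nat_lit 608) (nat_lit 27529993959) (nat_lit 76) (nat_lit 31232426718) (nat_lit 243) (nat_lit 5) (nat_lit 251) (nat_lit 5) (nat_lit 244) (nat_lit 5) (nat_lit 465) (nat_lit 449) (nat_lit 286)))) (XT.nd (nat_lit 156) (nat_lit 988) (nat_lit 0) (XT.nd (nat_lit 78) (nat_lit 532) (nat_lit 0) (XT.lf (nat_lit 0) (nat_lit 22819373265) (nat_lit 608) (nat_lit 34211267666) (nat_lit 76) (nat_lit 12143659121) (nat_lit 236) (nat_lit 5) (nat_lit 244) (nat_lit 5) (nat_lit 237) (nat_lit 5) (nat_lit 466) (nat_lit 449) (nat_lit 285)) (XT.lf (nat_lit 0) (nat_lit 30229783706) (nat_lit 532)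 (nat_lit 8537993213) (nat_lit 608) (nat_lit 32359977348) (nat_lit 229) (nat_lit 5) (nat_lit 236) (nat_lit 5) (nat_lit 237) (nat_lit 5) (nat_lit 467) (nat_lit 449) (nat_lit 284))) (XT.nd (nat_lit 78) (nat_lit 532) (nat_lit 0) (XT.lf (nat_lit 0) (nat_lit 25524729721) (nat_lit 456) (nat_lit 30995547779) (nat_lit 532) (nat_lit 16628403589) (nat_lit 223) (nat_lit 5) (nat_lit 229) (nat_lit 5) (nat_lit 230) (nat_lit 5) (nat_lit 468) (nat_lit 449) (nat_lit 283)) (XT.lf (nat_lit 0) (nat_lit 803094611) (nat_lit 532) (nat_lit 54259738628) (nat_lit 76) (nat_lit 20180517161) (nat_lit 216) (nat_lit 5) (nat_lit 223) (nat_lit 5) (nat_lit 217) (nat_lit 5) (nat_lit 469) (nat_lit 449) (nat_lit 282))))))) (XT.nd (nat_lit 1014) (nat_lit 2052) (nat_lit 0) (XT.nd (nat_lit 468) (nat_lit 2432) (nat_lit 0) (XT.nd (nat_lit 234) (nat_lit 912) (nat_lit 0) (XT.nd (nat_lit 78) (nat_lit 836) (nat_lit 0) (XT.lf (nat_lit 0) (nat_lit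 16421679368) (nat_lit 456) (nat_lit 3307971310) (nat_lit 532) (nat_lit 57679142026) (nat_lit 210) (nat_lit 5) (nat_lit 216) (nat_lit 5) (nat_lit 217) (nat_lit 5) (nat_lit 470) (nat_lit 449) (nat_lit 281)) (XT.nd (nat_lit 78) (nat_lit 380) (nat_lit 0) (XT.lf (nat_lit 0) (nat_lit 11838258883) (nat_lit 456) (nat_lit 28931176070) (nat_lit 532) (nat_lit 38878065327) (nat_lit 204) (nat_lit 5) (nat_lit 210) (nat_lit 5) (nat_lit 211) (nat_lit 5) (nat_lit 471) (nat_lit 449) (nat_lit 280)) (XT.lf (nat_lit 0) (nat_lit 7460496278) (nat_lit 380) (nat_lit 56381941430) (nat_lit 456) (nat_lit 18126268807) (nat_lit 199) (nat_lit 5) (nat_lit 204) (nat_lit 5) (nat_lit 205) (nat_lit 5) (nat_lit 472) (nat_lit 449) (nat_lit 279)))) (XT.nd (nat_lit 78) (nat_lit 380) (nat_lit 0) (XT.lf (nat_lit 0) (nat_lit 3253161304) (nat_lit 456) (nat_lit 1365237189) (nat_lit 532) (nat_lit 79755715505) (nat_lit 192) (nat_lit 5) (nat_lit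 198) (nat_lit 5) (nat_lit 199) (nat_lit 5) (nat_lit 473) (nat_lit 449) (nat_lit 278)) (XT.nd (nat_lit 78) (nat_lit 380) (nat_lit 0) (XT.lf (nat_lit 0) (nat_lit 29444250091) (nat_lit 532) (nat_lit 1151772156) (nat_lit 76) (nat_lit 56258820809) (nat_lit 192) (nat_lit 5) (nat_lit 199) (nat_lit 5) (nat_lit 193) (nat_lit 5) (nat_lit 474) (nat_lit 449) (nat_lit 277)) (XT.lf (nat_lit 0) (nat_lit 56605826110) (nat_lit 456) (nat_lit 5256926758) (nat_lit 76) (nat_lit 27564022875) (nat_lit 187) (nat_lit 5) (nat_lit 193) (nat_lit 5) (nat_lit 188) (nat_lit 5) (nat_lit 475) (nat_lit 449) (nat_lit 276))))) (XT.nd (nat_lit 234) (nat_lit 1292) (nat_lit 0) (XT.nd (nat_lit 78) (nat_lit 760) (nat_lit 0) (XT.lf (nat_lit 0) (nat_lit 82962876040) (nat_lit 380) (nat_lit 3279574257) (nat_lit 456) (nat_lit 5851345815) (nat_lit 182) (nat_lit 5) (nat_lit 187) (nat_lit 5) (nat_lit 188) (nat_lit 5) (nat_lit 476) (nat_lit 449)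 (nat_lit 275)) (XT.nd (nat_lit 78) (nat_lit 380) (nat_lit 0) (XT.lf (nat_lit 0) (nat_lit 23442099758) (nat_lit 380) (nat_lit 13235960845) (nat_lit 76) (nat_lit 58167215035) (nat_lit 177) (nat_lit 5) (nat_lit 182) (nat_lit 5) (nat_lit 178) (nat_lit 5) (nat_lit 477) (nat_lit 449) (nat_lit 274)) (XT.lf (nat_lit 0) (nat_lit 55232521610) (nat_lit 456) (nat_lit 17125579316) (nat_lit 76) (nat_lit 25339890738) (nat_lit 172) (nat_lit 5) (nat_lit 178) (nat_lit 5) (nat_lit 173) (nat_lit 5) (nat_lit 478) (nat_lit 449) (nat_lit 273)))) (XT.nd (nat_lit 156) (nat_lit 608) (nat_lit 0) (XT.nd (nat_lit 78) (nat_lit 380) (nat_lit 0) (XT.lf (nat_lit 0) (nat_lit 79843314401) (nat_lit 304) (nat_lit 10043258673) (nat_lit 380) (nat_lit 10768547270) (nat_lit 168) (nat_lit 5) (nat_lit 172) (nat_lit 5) (nat_lit 173) (nat_lit 5) (nat_lit 479) (nat_lit 449) (nat_lit 272)) (XT.lf (nat_lit 0) (nat_lit 23559807858) (nat_lit 380)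 (nat_lit 24672147810) (nat_lit 76) (nat_lit 55477080554) (nat_lit 163) (nat_lit 5) (nat_lit 168) (nat_lit 5) (nat_lit 164) (nat_lit 5) (nat_lit 480) (nat_lit 449) (nat_lit 271))) (XT.nd (nat_lit 78) (nat_lit 304) (nat_lit 0) (XT.lf (nat_lit 0) (nat_lit 60632912527) (nat_lit 380) (nat_lit 28329707948) (nat_lit 76) (nat_lit 17912297679) (nat_lit 159) (nat_lit 5) (nat_lit 164) (nat_lit 5) (nat_lit 160) (nat_lit 5) (nat_lit 481) (nat_lit 449) (nat_lit 270)) (XT.lf (nat_lit 0) (nat_lit 78284168237) (nat_lit 304) (nat_lit 22770230401) (nat_lit 380) (nat_lit 9099853846) (nat_lit 155) (nat_lit 5) (nat_lit 159) (nat_lit 5) (nat_lit 160) (nat_lit 5) (nat_lit 482) (nat_lit 449) (nat_lit 269)))))) (XT.nd (nat_lit 468) (nat_lit 228) (nat_lit 0) (XT.nd (nat_lit 234) (nat_lit 836) (nat_lit 0) (XT.nd (nat_lit 78) (nat_lit 608) (nat_lit 0) (XT.lf (nat_lit 0) (nat_lit 30826158322) (nat_lit 380) (nat_lit 35548655459)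 (nat_lit 76) (nat_lit 47168811555) (nat_lit 150) (nat_lit 5) (nat_lit 155) (nat_lit 5) (nat_lit 151) (nat_lit 5) (nat_lit 483) (nat_lit 449) (nat_lit 268)) (XT.nd (nat_lit 78) (nat_lit 304) (nat_lit 0) (XT.lf (nat_lit 0) (nat_lit 73913978101) (nat_lit 380) (nat_lit 38976628859) (nat_lit 76) (nat_lit 4168545844) (nat_lit 146) (nat_lit 5) (nat_lit 151) (nat_lit 5) (nat_lit 147) (nat_lit 5) (nat_lit 484) (nat_lit 449) (nat_lit 267)) (XT.lf (nat_lit 0) (nat_lit 245253244) (nat_lit 304) (nat_lit 42448682680) (nat_lit 76) (nat_lit 78002728213) (nat_lit 142) (nat_lit 5) (nat_lit 146) (nat_lit 5) (nat_lit 143) (nat_lit 5) (nat_lit 485) (nat_lit 449) (nat_lit 266)))) (XT.nd (nat_lit 78) (nat_lit 532) (nat_lit 0) (XT.lf (nat_lit 0) (nat_lit 46396222405) (nat_lit 380) (nat_lit 46042273345) (nat_lit 76) (nat_lit 32020240110) (nat_lit 138) (nat_lit 5) (nat_lit 143) (nat_lit 5) (nat_lit 139) (nat_lit 5) (nat_lit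 486) (nat_lit 449) (nat_lit 265)) (XT.nd (nat_lit 78) (nat_lit 304) (nat_lit 0) (XT.lf (nat_lit 0) (nat_lit 78919339650) (nat_lit 228) (nat_lit 17565278853) (nat_lit 304) (nat_lit 31875396379) (nat_lit 135) (nat_lit 5) (nat_lit 138) (nat_lit 5) (nat_lit 139) (nat_lit 5) (nat_lit 487) (nat_lit 449) (nat_lit 264)) (XT.lf (nat_lit 0) (nat_lit 18144699155) (nat_lit 304) (nat_lit 52969908988) (nat_lit 76) (nat_lit 61281517823) (nat_lit 131) (nat_lit 5) (nat_lit 135) (nat_lit 5) (nat_lit 132) (nat_lit 5) (nat_lit 488) (nat_lit 449) (nat_lit 263))))) (XT.nd (nat_lit 59592) (nat_lit 0) (nat_lit 12616) (XT.nd (nat_lit 59436) (nat_lit 0) (nat_lit 12540) (XT.lf (nat_lit 0) (nat_lit 71558072043) (nat_lit 304) (nat_lit 56454027909) (nat_lit 76) (nat_lit 8565929631) (nat_lit 128) (nat_lit 5) (nat_lit 132) (nat_lit 5) (nat_lit 129) (nat_lit 5) (nat_lit 489) (nat_lit 449) (nat_lit 262)) (XT.nd (nat_lit 78) (nat_lit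 0) (nat_lit 76) (XT.lf (nat_lit 0) (nat_lit 11242439111) (nat_lit 1292) (nat_lit 6029497761) (nat_lit 1292) (nat_lit 6029497761) (nat_lit 293) (nat_lit 3) (nat_lit 310) (nat_lit 3) (nat_lit 310) (nat_lit 5) (nat_lit 450) (nat_lit 450) (nat_lit 300)) (XT.lf (nat_lit 0) (nat_lit 23387634361) (nat_lit 1216) (nat_lit 20960163783) (nat_lit 1292) (nat_lit 3409916976) (nat_lit 294) (nat_lit 5) (nat_lit 310) (nat_lit 5) (nat_lit 311) (nat_lit 5) (nat_lit 451) (nat_lit 450) (nat_lit 299)))) (XT.nd (nat_lit 156) (nat_lit 0) (nat_lit 152) (XT.nd (nat_lit 78) (nat_lit 0) (nat_lit 76) (XT.lf (nat_lit 76) (nat_lit 18899484996) (nat_lit 0) (nat_lit 6088586405) (nat_lit 1292) (nat_lit 23962656014) (nat_lit 295) (nat_lit 5) (nat_lit 294) (nat_lit 5) (nat_lit 311) (nat_lit 5) (nat_lit 452) (nat_lit 450) (nat_lit 298)) (XT.lf (nat_lit 76) (nat_lit 10873802992) (nat_lit 0) (nat_lit 16441778443) (nat_lit 1292) (nat_lit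 22868397772) (nat_lit 296) (nat_lit 5) (nat_lit 295) (nat_lit 5) (nat_lit 312) (nat_lit 5) (nat_lit 453) (nat_lit 450) (nat_lit 297))) (XT.nd (nat_lit 78) (nat_lit 0) (nat_lit 76) (XT.lf (nat_lit 76) (nat_lit 2761233834) (nat_lit 0) (nat_lit 27625506784) (nat_lit 1292) (nat_lit 21073335159) (nat_lit 297) (nat_lit 5) (nat_lit 296) (nat_lit 5) (nat_lit 313) (nat_lit 5) (nat_lit 454) (nat_lit 450) (nat_lit 296)) (XT.lf (nat_lit 0) (nat_lit 34306586922) (nat_lit 1216) (nat_lit 5325269560) (nat_lit 1292) (nat_lit 13147267198) (nat_lit 297) (nat_lit 5) (nat_lit 313) (nat_lit 5) (nat_lit 314) (nat_lit 5) (nat_lit 455) (nat_lit 450) (nat_lit 295))))))))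
noncomputable def xc116 : XT := (XT.nd (nat_lit 1950) (nat_lit 2812) (nat_lit 0) (XT.nd (nat_lit 936) (nat_lit 5168) (nat_lit 0) (XT.nd (nat_lit 468) (nat_lit 2888) (nat_lit 0) (XT.nd (nat_lit 234) (nat_lit 1824) (nat_lit 0) (XT.nd (nat_lit 78) (nat_lit 0) (nat_lit 0) (XT.lf (nat_lit 0) (nat_lit 39105949859) (nat_lit 1216) (nat_lit 13428717395) (nat_lit 1292) (nat_lit 1608951355) (nat_lit 298) (nat_lit 5) (nat_lit 314) (nat_lit 5) (nat_lit 315) (nat_lit 5) (nat_lit 456) (nat_lit 450) (nat_lit 294)) (XT.nd (nat_lit 78) (nat_lit 0) (nat_lit 76) (XT.lf (nat_lit 76) (nat_lit 33851839767) (nat_lit 0) (nat_lit 11071722717) (nat_lit 1292) (nat_lit 10629427697) (nat_lit 299) (nat_lit 5) (nat_lit 298) (nat_lit 5) (nat_lit 315) (nat_lit 5) (nat_lit 457) (nat_lit 450) (nat_lit 293)) (XT.lf (nat_lit 76) (nat_lit 26959126520) (nat_lit 0) (nat_lit 24781358583) (nat_lit 1292) (nat_lit 5271092676) (nat_lit 300)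 (nat_lit 5) (nat_lit 299) (nat_lit 5) (nat_lit 316) (nat_lit 5) (nat_lit 458) (nat_lit 450) (nat_lit 292)))) (XT.nd (nat_lit 78) (nat_lit 684) (nat_lit 0) (XT.lf (nat_lit 0) (nat_lit 1064048963) (nat_lit 1292) (nat_lit 38467938629) (nat_lit 1368) (nat_lit 18989530438) (nat_lit 283) (nat_lit 5) (nat_lit 300) (nat_lit 5) (nat_lit 301) (nat_lit 5) (nat_lit 459) (nat_lit 450) (nat_lit 291)) (XT.nd (nat_lit 78) (nat_lit 760) (nat_lit 0) (XT.lf (nat_lit 0) (nat_lit 8341229602) (nat_lit 1292) (nat_lit 46987917646) (nat_lit 76) (nat_lit 4754213776) (nat_lit 284) (nat_lit 5) (nat_lit 301) (nat_lit 5) (nat_lit 285) (nat_lit 5) (nat_lit 460) (nat_lit 450) (nat_lit 290)) (XT.lf (nat_lit 0) (nat_lit 6042536748) (nat_lit 760) (nat_lit 10794607628) (nat_lit 836) (nat_lit 44860505814) (nat_lit 274) (nat_lit 5) (nat_lit 284) (nat_lit 5) (nat_lit 285) (nat_lit 5) (nat_lit 461) (nat_lit 450) (nat_lit 289))))) (XT.nd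 (nat_lit 234) (nat_lit 1672) (nat_lit 0) (XT.nd (nat_lit 78) (nat_lit 1216) (nat_lit 0) (XT.lf (nat_lit 0) (nat_lit 26590032791) (nat_lit 836) (nat_lit 1024144836) (nat_lit 76) (nat_lit 35753511110) (nat_lit 274) (nat_lit 5) (nat_lit 285) (nat_lit 5) (nat_lit 275) (nat_lit 5) (nat_lit 462) (nat_lit 450) (nat_lit 288)) (XT.nd (nat_lit 78) (nat_lit 608) (nat_lit 0) (XT.lf (nat_lit 0) (nat_lit 37679708282) (nat_lit 684) (nat_lit 7945719969) (nat_lit 76) (nat_lit 19470326932) (nat_lit 266) (nat_lit 5) (nat_lit 275) (nat_lit 5) (nat_lit 267) (nat_lit 5) (nat_lit 463) (nat_lit 450) (nat_lit 287)) (XT.lf (nat_lit 0) (nat_lit 50130904965) (nat_lit 684) (nat_lit 14825451655) (nat_lit 76) (nat_lit 1929657443) (nat_lit 258) (nat_lit 5) (nat_lit 267) (nat_lit 5) (nat_lit 259) (nat_lit 5) (nat_lit 464) (nat_lit 450) (nat_lit 286)))) (XT.nd (nat_lit 78) (nat_lit 1140) (nat_lit 0) (XT.lf (nat_lit 0) (nat_lit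 46922355055) (nat_lit 532) (nat_lit 17274667998) (nat_lit 608) (nat_lit 4538992216) (nat_lit 251) (nat_lit 5) (nat_lit 258) (nat_lit 5) (nat_lit 259) (nat_lit 5) (nat_lit 465) (nat_lit 450) (nat_lit 285)) (XT.nd (nat_lit 78) (nat_lit 532) (nat_lit 0) (XT.lf (nat_lit 0) (nat_lit 9005119726) (nat_lit 608) (nat_lit 28848338670) (nat_lit 76) (nat_lit 32796300787) (nat_lit 243) (nat_lit 5) (nat_lit 251) (nat_lit 5) (nat_lit 244) (nat_lit 5) (nat_lit 466) (nat_lit 450) (nat_lit 284)) (XT.lf (nat_lit 0) (nat_lit 24012609506) (nat_lit 608) (nat_lit 35863811113) (nat_lit 76) (nat_lit 12755020294) (nat_lit 236) (nat_lit 5) (nat_lit 244) (nat_lit 5) (nat_lit 237) (nat_lit 5) (nat_lit 467) (nat_lit 450) (nat_lit 283)))))) (XT.nd (nat_lit 468) (nat_lit 2356) (nat_lit 0) (XT.nd (nat_lit 234) (nat_lit 1292) (nat_lit 0) (XT.nd (nat_lit 78) (nat_lit 988) (nat_lit 0) (XT.lf (nat_lit 0) (nat_lit 31797629698) (nat_lit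 532) (nat_lit 8958856448) (nat_lit 608) (nat_lit 33926140399) (nat_lit 229) (nat_lit 5) (nat_lit 236) (nat_lit 5) (nat_lit 237) (nat_lit 5) (nat_lit 468) (nat_lit 450) (nat_lit 282)) (XT.nd (nat_lit 78) (nat_lit 532) (nat_lit 0) (XT.lf (nat_lit 0) (nat_lit 26857123191) (nat_lit 456) (nat_lit 32537687434) (nat_lit 532) (nat_lit 17409843394) (nat_lit 223) (nat_lit 5) (nat_lit 229) (nat_lit 5) (nat_lit 230) (nat_lit 5) (nat_lit 469) (nat_lit 450) (nat_lit 281)) (XT.lf (nat_lit 0) (nat_lit 890534077) (nat_lit 532) (nat_lit 56915884189) (nat_lit 76) (nat_lit 21197675983) (nat_lit 216) (nat_lit 5) (nat_lit 223) (nat_lit 5) (nat_lit 217) (nat_lit 5) (nat_lit 470) (nat_lit 450) (nat_lit 280)))) (XT.nd (nat_lit 78) (nat_lit 836) (nat_lit 0) (XT.lf (nat_lit 0) (nat_lit 17297975360) (nat_lit 456) (nat_lit 3463721666) (nat_lit 532) (nat_lit 60516163515) (nat_lit 210) (nat_lit 5) (nat_lit 216) (nat_lit 5) (nat_lit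 217) (nat_lit 5) (nat_lit 471) (nat_lit 450) (nat_lit 279)) (XT.nd (nat_lit 78) (nat_lit 380) (nat_lit 0) (XT.lf (nat_lit 0) (nat_lit 12485043599) (nat_lit 456) (nat_lit 30366872999) (nat_lit 532) (nat_lit 40776633748) (nat_lit 204) (nat_lit 5) (nat_lit 210) (nat_lit 5) (nat_lit 211) (nat_lit 5) (nat_lit 472) (nat_lit 450) (nat_lit 278)) (XT.lf (nat_lit 0) (nat_lit 7888005527) (nat_lit 380) (nat_lit 59189091431) (nat_lit 456) (nat_lit 18988764332) (nat_lit 199) (nat_lit 5) (nat_lit 204) (nat_lit 5) (nat_lit 205) (nat_lit 5) (nat_lit 473) (nat_lit 450) (nat_lit 277))))) (XT.nd (nat_lit 234) (nat_lit 1444) (nat_lit 0) (XT.nd (nat_lit 78) (nat_lit 380) (nat_lit 0) (XT.lf (nat_lit 0) (nat_lit 3469576733) (nat_lit 456) (nat_lit 1421175453) (nat_lit 532) (nat_lit 83700820403) (nat_lit 192) (nat_lit 5) (nat_lit 198) (nat_lit 5) (nat_lit 199) (nat_lit 5) (nat_lit 474) (nat_lit 450) (nat_lit 276)) (XT.nd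 (nat_lit 78) (nat_lit 380) (nat_lit 0) (XT.lf (nat_lit 0) (nat_lit 30956036148) (nat_lit 532) (nat_lit 1157088372) (nat_lit 76) (nat_lit 59083269581) (nat_lit 192) (nat_lit 5) (nat_lit 199) (nat_lit 5) (nat_lit 193) (nat_lit 5) (nat_lit 475) (nat_lit 450) (nat_lit 275)) (XT.lf (nat_lit 0) (nat_lit 59474415673) (nat_lit 456) (nat_lit 5467971140) (nat_lit 76) (nat_lit 28954575055) (nat_lit 187) (nat_lit 5) (nat_lit 193) (nat_lit 5) (nat_lit 188) (nat_lit 5) (nat_lit 476) (nat_lit 450) (nat_lit 274)))) (XT.nd (nat_lit 156) (nat_lit 684) (nat_lit 0) (XT.nd (nat_lit 78) (nat_lit 380) (nat_lit 0) (XT.lf (nat_lit 0) (nat_lit 87161336905) (nat_lit 380) (nat_lit 3430194115) (nat_lit 456) (nat_lit 6105842612) (nat_lit 182) (nat_lit 5) (nat_lit 187) (nat_lit 5) (nat_lit 188) (nat_lit 5) (nat_lit 477) (nat_lit 450) (nat_lit 273)) (XT.lf (nat_lit 0) (nat_lit 24650362095) (nat_lit 380) (nat_lit 13847205609)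 (nat_lit 76) (nat_lit 61088883724) (nat_lit 177) (nat_lit 5) (nat_lit 182) (nat_lit 5) (nat_lit 178) (nat_lit 5) (nat_lit 478) (nat_lit 450) (nat_lit 272))) (XT.nd (nat_lit 78) (nat_lit 304) (nat_lit 0) (XT.lf (nat_lit 0) (nat_lit 58029191747) (nat_lit 456) (nat_lit 17931840226) (nat_lit 76) (nat_lit 26620804838) (nat_lit 172) (nat_lit 5) (nat_lit 178) (nat_lit 5) (nat_lit 173) (nat_lit 5) (nat_lit 479) (nat_lit 450) (nat_lit 271)) (XT.lf (nat_lit 0) (nat_lit 83884064420) (nat_lit 304) (nat_lit 10530679622) (nat_lit 380) (nat_lit 11272114083) (nat_lit 168) (nat_lit 5) (nat_lit 172) (nat_lit 5) (nat_lit 173) (nat_lit 5) (nat_lit 480) (nat_lit 450) (nat_lit 270))))))) (XT.nd (nat_lit 60450) (nat_lit 0) (nat_lit 8512) (XT.nd (nat_lit 468) (nat_lit 836) (nat_lit 0) (XT.nd (nat_lit 234) (nat_lit 988) (nat_lit 0) (XT.nd (nat_lit 78) (nat_lit 608) (nat_lit 0) (XT.lf (nat_lit 0) (nat_lit 24770953602) (nat_lit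 380) (nat_lit 25857049558) (nat_lit 76) (nat_lit 58265487469) (nat_lit 163) (nat_lit 5) (nat_lit 168) (nat_lit 5) (nat_lit 164) (nat_lit 5) (nat_lit 481) (nat_lit 450) (nat_lit 269)) (XT.nd (nat_lit 78) (nat_lit 304) (nat_lit 0) (XT.lf (nat_lit 0) (nat_lit 63696736310) (nat_lit 380) (nat_lit 29698067151) (nat_lit 76) (nat_lit 18822892643) (nat_lit 159) (nat_lit 5) (nat_lit 164) (nat_lit 5) (nat_lit 160) (nat_lit 5) (nat_lit 482) (nat_lit 450) (nat_lit 268)) (XT.lf (nat_lit 0) (nat_lit 82245123316) (nat_lit 304) (nat_lit 23893090475) (nat_lit 380) (nat_lit 9522815972) (nat_lit 155) (nat_lit 5) (nat_lit 159) (nat_lit 5) (nat_lit 160) (nat_lit 5) (nat_lit 483) (nat_lit 450) (nat_lit 267)))) (XT.nd (nat_lit 78) (nat_lit 608) (nat_lit 0) (XT.lf (nat_lit 0) (nat_lit 32397969176) (nat_lit 380) (nat_lit 37279309784) (nat_lit 76) (nat_lit 49542610253) (nat_lit 150) (nat_lit 5) (nat_lit 155) (nat_lit 5)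 (nat_lit 151) (nat_lit 5) (nat_lit 484) (nat_lit 450) (nat_lit 266)) (XT.nd (nat_lit 78) (nat_lit 304) (nat_lit 0) (XT.lf (nat_lit 0) (nat_lit 77639317522) (nat_lit 380) (nat_lit 40879289266) (nat_lit 76) (nat_lit 4392612250) (nat_lit 146) (nat_lit 5) (nat_lit 151) (nat_lit 5) (nat_lit 147) (nat_lit 5) (nat_lit 485) (nat_lit 450) (nat_lit 265)) (XT.lf (nat_lit 0) (nat_lit 286461882) (nat_lit 304) (nat_lit 44525691153) (nat_lit 76) (nat_lit 81918473903) (nat_lit 142) (nat_lit 5) (nat_lit 146) (nat_lit 5) (nat_lit 143) (nat_lit 5) (nat_lit 486) (nat_lit 450) (nat_lit 264))))) (XT.nd (nat_lit 59670) (nat_lit 0) (nat_lit 12312) (XT.nd (nat_lit 78) (nat_lit 532) (nat_lit 0) (XT.lf (nat_lit 0) (nat_lit 48744180333) (nat_lit 380) (nat_lit 48299576855) (nat_lit 76) (nat_lit 33637069132) (nat_lit 138) (nat_lit 5) (nat_lit 143) (nat_lit 5) (nat_lit 139) (nat_lit 5) (nat_lit 487) (nat_lit 450) (nat_lit 263))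 (XT.nd (nat_lit 78) (nat_lit 304) (nat_lit 0) (XT.lf (nat_lit 0) (nat_lit 82908832315) (nat_lit 228) (nat_lit 18427241991) (nat_lit 304) (nat_lit 33441122735) (nat_lit 135) (nat_lit 5) (nat_lit 138) (nat_lit 5) (nat_lit 139) (nat_lit 5) (nat_lit 488) (nat_lit 450) (nat_lit 262)) (XT.lf (nat_lit 0) (nat_lit 19078688380) (nat_lit 304) (nat_lit 55574949329) (nat_lit 76) (nat_lit 64361490229) (nat_lit 131) (nat_lit 5) (nat_lit 135) (nat_lit 5) (nat_lit 132) (nat_lit 5) (nat_lit 489) (nat_lit 450) (nat_lit 261)))) (XT.nd (nat_lit 156) (nat_lit 0) (nat_lit 76) (XT.nd (nat_lit 78) (nat_lit 0) (nat_lit 76) (XT.lf (nat_lit 0) (nat_lit 11853069868) (nat_lit 1292) (nat_lit 6305987244) (nat_lit 1292) (nat_lit 6305987244) (nat_lit 293) (nat_lit 3) (nat_lit 310) (nat_lit 3) (nat_lit 310) (nat_lit 5) (nat_lit 451) (nat_lit 451) (nat_lit 298)) (XT.lf (nat_lit 0) (nat_lit 24649454291) (nat_lit 1216) (nat_lit 21956408704)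 (nat_lit 1292) (nat_lit 3536951891) (nat_lit 294) (nat_lit 5) (nat_lit 310) (nat_lit 5) (nat_lit 311) (nat_lit 5) (nat_lit 452) (nat_lit 451) (nat_lit 297))) (XT.nd (nat_lit 78) (nat_lit 0) (nat_lit 76) (XT.lf (nat_lit 76) (nat_lit 19894738730) (nat_lit 0) (nat_lit 6431255950) (nat_lit 1292) (nat_lit 25069601281) (nat_lit 295) (nat_lit 5) (nat_lit 294) (nat_lit 5) (nat_lit 311) (nat_lit 5) (nat_lit 453) (nat_lit 451) (nat_lit 296)) (XT.lf (nat_lit 76) (nat_lit 11469279779) (nat_lit 0) (nat_lit 17296532934) (nat_lit 1292) (nat_lit 23924820238) (nat_lit 296) (nat_lit 5) (nat_lit 295) (nat_lit 5) (nat_lit 312) (nat_lit 5) (nat_lit 454) (nat_lit 451) (nat_lit 295)))))) (XT.nd (nat_lit 468) (nat_lit 3040) (nat_lit 0) (XT.nd (nat_lit 234) (nat_lit 988) (nat_lit 0) (XT.nd (nat_lit 78) (nat_lit 0) (nat_lit 76) (XT.lf (nat_lit 76) (nat_lit 2952374969) (nat_lit 0) (nat_lit 29034344535) (nat_lit 1292) (nat_lit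 22043929711) (nat_lit 297) (nat_lit 5) (nat_lit 296) (nat_lit 5) (nat_lit 313) (nat_lit 5) (nat_lit 455) (nat_lit 451) (nat_lit 294)) (XT.nd (nat_lit 78) (nat_lit 0) (nat_lit 76) (XT.lf (nat_lit 0) (nat_lit 36098465704) (nat_lit 1216) (nat_lit 5538414236) (nat_lit 1292) (nat_lit 13778892872) (nat_lit 297) (nat_lit 5) (nat_lit 313) (nat_lit 5) (nat_lit 314) (nat_lit 5) (nat_lit 456) (nat_lit 451) (nat_lit 293)) (XT.lf (nat_lit 0) (nat_lit 41134437957) (nat_lit 1216) (nat_lit 14046135438) (nat_lit 1292) (nat_lit 1668020361) (nat_lit 298) (nat_lit 5) (nat_lit 314) (nat_lit 5) (nat_lit 315) (nat_lit 5) (nat_lit 457) (nat_lit 451) (nat_lit 292)))) (XT.nd (nat_lit 78) (nat_lit 1140) (nat_lit 0) (XT.lf (nat_lit 76) (nat_lit 35596901171) (nat_lit 0) (nat_lit 11643049143) (nat_lit 1292) (nat_lit 11088573499) (nat_lit 299) (nat_lit 5) (nat_lit 298) (nat_lit 5) (nat_lit 315) (nat_lit 5) (nat_lit 458) (nat_lit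 451) (nat_lit 291)) (XT.nd (nat_lit 78) (nat_lit 1216) (nat_lit 0) (XT.lf (nat_lit 76) (nat_lit 28360269104) (nat_lit 0) (nat_lit 26034455490) (nat_lit 1292) (nat_lit 5465406488) (nat_lit 300) (nat_lit 5) (nat_lit 299) (nat_lit 5) (nat_lit 316) (nat_lit 5) (nat_lit 459) (nat_lit 451) (nat_lit 290)) (XT.lf (nat_lit 0) (nat_lit 1182300440) (nat_lit 1292) (nat_lit 40336272319) (nat_lit 1368) (nat_lit 19927061260) (nat_lit 283) (nat_lit 5) (nat_lit 300) (nat_lit 5) (nat_lit 301) (nat_lit 5) (nat_lit 460) (nat_lit 451) (nat_lit 289))))) (XT.nd (nat_lit 234) (nat_lit 2356) (nat_lit 0) (XT.nd (nat_lit 78) (nat_lit 760) (nat_lit 0) (XT.lf (nat_lit 0) (nat_lit 8820670340) (nat_lit 1292) (nat_lit 49281860329) (nat_lit 76) (nat_lit 4983118990) (nat_lit 284) (nat_lit 5) (nat_lit 301) (nat_lit 5) (nat_lit 285) (nat_lit 5) (nat_lit 461) (nat_lit 451) (nat_lit 288)) (XT.nd (nat_lit 78) (nat_lit 0) (nat_lit 0)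 (XT.lf (nat_lit 0) (nat_lit 6398527230) (nat_lit 760) (nat_lit 11340400952) (nat_lit 836) (nat_lit 47041799064) (nat_lit 274) (nat_lit 5) (nat_lit 284) (nat_lit 5) (nat_lit 285) (nat_lit 5) (nat_lit 462) (nat_lit 451) (nat_lit 287)) (XT.lf (nat_lit 0) (nat_lit 27976551866) (nat_lit 836) (nat_lit 1022278383) (nat_lit 76) (nat_lit 37535525111) (nat_lit 274) (nat_lit 5) (nat_lit 285) (nat_lit 5) (nat_lit 275) (nat_lit 5) (nat_lit 463) (nat_lit 451) (nat_lit 286)))) (XT.nd (nat_lit 156) (nat_lit 1140) (nat_lit 0) (XT.nd (nat_lit 78) (nat_lit 608) (nat_lit 0) (XT.lf (nat_lit 0) (nat_lit 39618460369) (nat_lit 684) (nat_lit 8289771541) (nat_lit 76) (nat_lit 20440661087) (nat_lit 266) (nat_lit 5) (nat_lit 275) (nat_lit 5) (nat_lit 267) (nat_lit 5) (nat_lit 464) (nat_lit 451) (nat_lit 285)) (XT.lf (nat_lit 0) (nat_lit 52690096898) (nat_lit 684) (nat_lit 15513420372) (nat_lit 76) (nat_lit 2025211483) (nat_lit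 258) (nat_lit 5) (nat_lit 267) (nat_lit 5) (nat_lit 259) (nat_lit 5) (nat_lit 465) (nat_lit 451) (nat_lit 284))) (XT.nd (nat_lit 78) (nat_lit 608) (nat_lit 0) (XT.lf (nat_lit 0) (nat_lit 49320248729) (nat_lit 532) (nat_lit 18137262877) (nat_lit 608) (nat_lit 4713779005) (nat_lit 251) (nat_lit 5) (nat_lit 258) (nat_lit 5) (nat_lit 259) (nat_lit 5) (nat_lit 466) (nat_lit 451) (nat_lit 283)) (XT.lf (nat_lit 0) (nat_lit 9504598205) (nat_lit 608) (nat_lit 30238007317) (nat_lit 76) (nat_lit 34438159123) (nat_lit 243) (nat_lit 5) (nat_lit 251) (nat_lit 5) (nat_lit 244) (nat_lit 5) (nat_lit 467) (nat_lit 451) (nat_lit 282))))))))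
noncomputable def xc117 : XT := (XT.nd (nat_lit 61464) (nat_lit 0) (nat_lit 3192) (XT.nd (nat_lit 936) (nat_lit 3192) (nat_lit 0) (XT.nd (nat_lit 468) (nat_lit 2052) (nat_lit 0) (XT.nd (nat_lit 234) (nat_lit 1444) (nat_lit 0) (XT.nd (nat_lit 78) (nat_lit 988) (nat_lit 0) (XT.lf (nat_lit 0) (nat_lit 25260648214) (nat_lit 608) (nat_lit 37604375876) (nat_lit 76) (nat_lit 13396561074) (nat_lit 236) (nat_lit 5) (nat_lit 244) (nat_lit 5) (nat_lit 237) (nat_lit 5) (nat_lit 468) (nat_lit 451) (nat_lit 281)) (XT.nd (nat_lit 78) (nat_lit 456) (nat_lit 0) (XT.lf (nat_lit 0) (nat_lit 33438628468) (nat_lit 532) (nat_lit 9401324054) (nat_lit 608) (nat_lit 35575430805) (nat_lit 229) (nat_lit 5) (nat_lit 236) (nat_lit 5) (nat_lit 237) (nat_lit 5) (nat_lit 469) (nat_lit 451) (nat_lit 280)) (XT.lf (nat_lit 0) (nat_lit 28250915390) (nat_lit 456) (nat_lit 34157644157) (nat_lit 532) (nat_lit 18235001891) (nat_lit 223)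 (nat_lit 5) (nat_lit 229) (nat_lit 5) (nat_lit 230) (nat_lit 5) (nat_lit 470) (nat_lit 451) (nat_lit 279)))) (XT.nd (nat_lit 78) (nat_lit 912) (nat_lit 0) (XT.lf (nat_lit 0) (nat_lit 977949430) (nat_lit 532) (nat_lit 59710121601) (nat_lit 76) (nat_lit 22264936619) (nat_lit 216) (nat_lit 5) (nat_lit 223) (nat_lit 5) (nat_lit 217) (nat_lit 5) (nat_lit 471) (nat_lit 451) (nat_lit 278)) (XT.nd (nat_lit 78) (nat_lit 456) (nat_lit 0) (XT.lf (nat_lit 0) (nat_lit 18212953061) (nat_lit 456) (nat_lit 3628156538) (nat_lit 532) (nat_lit 63499399707) (nat_lit 210) (nat_lit 5) (nat_lit 216) (nat_lit 5) (nat_lit 217) (nat_lit 5) (nat_lit 472) (nat_lit 451) (nat_lit 277)) (XT.lf (nat_lit 0) (nat_lit 13159066094) (nat_lit 456) (nat_lit 31875364607) (nat_lit 532) (nat_lit 42774345394) (nat_lit 204) (nat_lit 5) (nat_lit 210) (nat_lit 5) (nat_lit 211) (nat_lit 5) (nat_lit 473) (nat_lit 451) (nat_lit 276))))) (XT.nd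 (nat_lit 234) (nat_lit 1140) (nat_lit 0) (XT.nd (nat_lit 78) (nat_lit 532) (nat_lit 0) (XT.lf (nat_lit 0) (nat_lit 8331824793) (nat_lit 380) (nat_lit 62137709657) (nat_lit 456) (nat_lit 19898458407) (nat_lit 199) (nat_lit 5) (nat_lit 204) (nat_lit 5) (nat_lit 205) (nat_lit 5) (nat_lit 474) (nat_lit 451) (nat_lit 275)) (XT.nd (nat_lit 78) (nat_lit 0) (nat_lit 0) (XT.lf (nat_lit 0) (nat_lit 3691815083) (nat_lit 456) (nat_lit 1481056361) (nat_lit 532) (nat_lit 87847148609) (nat_lit 192) (nat_lit 5) (nat_lit 198) (nat_lit 5) (nat_lit 199) (nat_lit 5) (nat_lit 475) (nat_lit 451) (nat_lit 274)) (XT.lf (nat_lit 0) (nat_lit 32539732334) (nat_lit 532) (nat_lit 1167530190) (nat_lit 76) (nat_lit 62047870912) (nat_lit 192) (nat_lit 5) (nat_lit 199) (nat_lit 5) (nat_lit 193) (nat_lit 5) (nat_lit 476) (nat_lit 451) (nat_lit 273)))) (XT.nd (nat_lit 78) (nat_lit 760) (nat_lit 0) (XT.lf (nat_lit 0) (nat_lit 62482874104)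 (nat_lit 456) (nat_lit 5694383795) (nat_lit 76) (nat_lit 30413506561) (nat_lit 187) (nat_lit 5) (nat_lit 193) (nat_lit 5) (nat_lit 188) (nat_lit 5) (nat_lit 477) (nat_lit 451) (nat_lit 272)) (XT.nd (nat_lit 78) (nat_lit 380) (nat_lit 0) (XT.lf (nat_lit 0) (nat_lit 91565042810) (nat_lit 380) (nat_lit 3589586946) (nat_lit 456) (nat_lit 6376603682) (nat_lit 182) (nat_lit 5) (nat_lit 187) (nat_lit 5) (nat_lit 188) (nat_lit 5) (nat_lit 478) (nat_lit 451) (nat_lit 271)) (XT.lf (nat_lit 0) (nat_lit 25915675981) (nat_lit 380) (nat_lit 14493712575) (nat_lit 76) (nat_lit 64155398601) (nat_lit 177) (nat_lit 5) (nat_lit 182) (nat_lit 5) (nat_lit 178) (nat_lit 5) (nat_lit 479) (nat_lit 451) (nat_lit 270)))))) (XT.nd (nat_lit 468) (nat_lit 1140) (nat_lit 0) (XT.nd (nat_lit 234) (nat_lit 988) (nat_lit 0) (XT.nd (nat_lit 78) (nat_lit 684) (nat_lit 0) (XT.lf (nat_lit 0) (nat_lit 60962437326) (nat_lit 456) (nat_lit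 18783064386) (nat_lit 76) (nat_lit 27964470533) (nat_lit 172) (nat_lit 5) (nat_lit 178) (nat_lit 5) (nat_lit 173) (nat_lit 5) (nat_lit 480) (nat_lit 451) (nat_lit 269)) (XT.nd (nat_lit 78) (nat_lit 380) (nat_lit 0) (XT.lf (nat_lit 0) (nat_lit 88122335032) (nat_lit 304) (nat_lit 11043842188) (nat_lit 380) (nat_lit 11804100240) (nat_lit 168) (nat_lit 5) (nat_lit 172) (nat_lit 5) (nat_lit 173) (nat_lit 5) (nat_lit 481) (nat_lit 451) (nat_lit 268)) (XT.lf (nat_lit 0) (nat_lit 26039574163) (nat_lit 380) (nat_lit 27105724582) (nat_lit 76) (nat_lit 61191961740) (nat_lit 163) (nat_lit 5) (nat_lit 168) (nat_lit 5) (nat_lit 164) (nat_lit 5) (nat_lit 482) (nat_lit 451) (nat_lit 267)))) (XT.nd (nat_lit 78) (nat_lit 684) (nat_lit 0) (XT.lf (nat_lit 0) (nat_lit 66910759662) (nat_lit 380) (nat_lit 31139318631) (nat_lit 76) (nat_lit 19777624649) (nat_lit 159) (nat_lit 5) (nat_lit 164) (nat_lit 5) (nat_lit 160)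 (nat_lit 5) (nat_lit 483) (nat_lit 451) (nat_lit 266)) (XT.nd (nat_lit 78) (nat_lit 380) (nat_lit 0) (XT.lf (nat_lit 0) (nat_lit 86399780087) (nat_lit 304) (nat_lit 25073548676) (nat_lit 380) (nat_lit 9969904102) (nat_lit 155) (nat_lit 5) (nat_lit 159) (nat_lit 5) (nat_lit 160) (nat_lit 5) (nat_lit 484) (nat_lit 451) (nat_lit 265)) (XT.lf (nat_lit 0) (nat_lit 34045534700) (nat_lit 380) (nat_lit 39100845842) (nat_lit 76) (nat_lit 52033671033) (nat_lit 150) (nat_lit 5) (nat_lit 155) (nat_lit 5) (nat_lit 151) (nat_lit 5) (nat_lit 485) (nat_lit 451) (nat_lit 264))))) (XT.nd (nat_lit 234) (nat_lit 228) (nat_lit 0) (XT.nd (nat_lit 78) (nat_lit 608) (nat_lit 0) (XT.lf (nat_lit 0) (nat_lit 81548168219) (nat_lit 380) (nat_lit 42881375238) (nat_lit 76) (nat_lit 4626427999) (nat_lit 146) (nat_lit 5) (nat_lit 151) (nat_lit 5) (nat_lit 147) (nat_lit 5) (nat_lit 486) (nat_lit 451) (nat_lit 263)) (XT.nd (nat_lit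 78) (nat_lit 304) (nat_lit 0) (XT.lf (nat_lit 0) (nat_lit 327039829) (nat_lit 304) (nat_lit 46710773296) (nat_lit 76) (nat_lit 86028555676) (nat_lit 142) (nat_lit 5) (nat_lit 146) (nat_lit 5) (nat_lit 143) (nat_lit 5) (nat_lit 487) (nat_lit 451) (nat_lit 262)) (XT.lf (nat_lit 0) (nat_lit 51206919333) (nat_lit 380) (nat_lit 50673911564) (nat_lit 76) (nat_lit 35333269088) (nat_lit 138) (nat_lit 5) (nat_lit 143) (nat_lit 5) (nat_lit 139) (nat_lit 5) (nat_lit 488) (nat_lit 451) (nat_lit 261)))) (XT.nd (nat_lit 59670) (nat_lit 0) (nat_lit 12084) (XT.nd (nat_lit 59592) (nat_lit 0) (nat_lit 12008) (XT.lf (nat_lit 0) (nat_lit 87093753009) (nat_lit 228) (nat_lit 19333818780) (nat_lit 304) (nat_lit 35087742624) (nat_lit 135) (nat_lit 5) (nat_lit 138) (nat_lit 5) (nat_lit 139) (nat_lit 5) (nat_lit 489) (nat_lit 451) (nat_lit 260)) (XT.lf (nat_lit 0) (nat_lit 12489722275) (nat_lit 1292) (nat_lit 6598624107)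 (nat_lit 1292) (nat_lit 6598624107) (nat_lit 293) (nat_lit 3) (nat_lit 310) (nat_lit 3) (nat_lit 310) (nat_lit 5) (nat_lit 452) (nat_lit 452) (nat_lit 296))) (XT.nd (nat_lit 78) (nat_lit 0) (nat_lit 0) (XT.lf (nat_lit 0) (nat_lit 25965771188) (nat_lit 1216) (nat_lit 23007278329) (nat_lit 1292) (nat_lit 3674379136) (nat_lit 294) (nat_lit 5) (nat_lit 310) (nat_lit 5) (nat_lit 311) (nat_lit 5) (nat_lit 453) (nat_lit 452) (nat_lit 295)) (XT.lf (nat_lit 76) (nat_lit 20935080642) (nat_lit 0) (nat_lit 6787503758) (nat_lit 1292) (nat_lit 26240371564) (nat_lit 295) (nat_lit 5) (nat_lit 294) (nat_lit 5) (nat_lit 311) (nat_lit 5) (nat_lit 454) (nat_lit 452) (nat_lit 294))))))) (XT.nd (nat_lit 1014) (nat_lit 5624) (nat_lit 0) (XT.nd (nat_lit 468) (nat_lit 3344) (nat_lit 0) (XT.nd (nat_lit 234) (nat_lit 0) (nat_lit 228) (XT.nd (nat_lit 78) (nat_lit 0) (nat_lit 76) (XT.lf (nat_lit 76) (nat_lit 12089715774) (nat_lit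 0) (nat_lit 18190988214) (nat_lit 1292) (nat_lit 25042152023) (nat_lit 296) (nat_lit 5) (nat_lit 295) (nat_lit 5) (nat_lit 312) (nat_lit 5) (nat_lit 455) (nat_lit 452) (nat_lit 293)) (XT.nd (nat_lit 78) (nat_lit 0) (nat_lit 76) (XT.lf (nat_lit 76) (nat_lit 3148138337) (nat_lit 0) (nat_lit 30511061682) (nat_lit 1292) (nat_lit 23070777256) (nat_lit 297) (nat_lit 5) (nat_lit 296) (nat_lit 5) (nat_lit 313) (nat_lit 5) (nat_lit 456) (nat_lit 452) (nat_lit 292)) (XT.lf (nat_lit 0) (nat_lit 37972821584) (nat_lit 1216) (nat_lit 5767154629) (nat_lit 1292) (nat_lit 14444492676) (nat_lit 297) (nat_lit 5) (nat_lit 313) (nat_lit 5) (nat_lit 314) (nat_lit 5) (nat_lit 457) (nat_lit 452) (nat_lit 291)))) (XT.nd (nat_lit 78) (nat_lit 0) (nat_lit 0) (XT.lf (nat_lit 0) (nat_lit 43257545891) (nat_lit 1216) (nat_lit 14699446449) (nat_lit 1292) (nat_lit 1732030393) (nat_lit 298) (nat_lit 5) (nat_lit 314) (nat_lit 5)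 (nat_lit 315) (nat_lit 5) (nat_lit 458) (nat_lit 452) (nat_lit 290)) (XT.nd (nat_lit 78) (nat_lit 0) (nat_lit 76) (XT.lf (nat_lit 76) (nat_lit 37424337537) (nat_lit 0) (nat_lit 12241292567) (nat_lit 1292) (nat_lit 11577400738) (nat_lit 299) (nat_lit 5) (nat_lit 298) (nat_lit 5) (nat_lit 315) (nat_lit 5) (nat_lit 459) (nat_lit 452) (nat_lit 289)) (XT.lf (nat_lit 76) (nat_lit 29826524063) (nat_lit 0) (nat_lit 27348902960) (nat_lit 1292) (nat_lit 5675873346) (nat_lit 300) (nat_lit 5) (nat_lit 299) (nat_lit 5) (nat_lit 316) (nat_lit 5) (nat_lit 460) (nat_lit 452) (nat_lit 288))))) (XT.nd (nat_lit 234) (nat_lit 1748) (nat_lit 0) (XT.nd (nat_lit 78) (nat_lit 684) (nat_lit 0) (XT.lf (nat_lit 0) (nat_lit 1300416850) (nat_lit 1292) (nat_lit 42303141951) (nat_lit 1368) (nat_lit 20912579221) (nat_lit 283) (nat_lit 5) (nat_lit 300) (nat_lit 5) (nat_lit 301) (nat_lit 5) (nat_lit 461) (nat_lit 452) (nat_lit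 287)) (XT.nd (nat_lit 78) (nat_lit 760) (nat_lit 0) (XT.lf (nat_lit 0) (nat_lit 9318283682) (nat_lit 1292) (nat_lit 51695655659) (nat_lit 76) (nat_lit 5224288114) (nat_lit 284) (nat_lit 5) (nat_lit 301) (nat_lit 5) (nat_lit 285) (nat_lit 5) (nat_lit 462) (nat_lit 452) (nat_lit 286)) (XT.lf (nat_lit 0) (nat_lit 6767309505) (nat_lit 760) (nat_lit 11912920267) (nat_lit 836) (nat_lit 49337896236) (nat_lit 274) (nat_lit 5) (nat_lit 284) (nat_lit 5) (nat_lit 285) (nat_lit 5) (nat_lit 463) (nat_lit 452) (nat_lit 285)))) (XT.nd (nat_lit 156) (nat_lit 1140) (nat_lit 0) (XT.nd (nat_lit 78) (nat_lit 608) (nat_lit 0) (XT.lf (nat_lit 0) (nat_lit 29427095953) (nat_lit 836) (nat_lit 1025252897) (nat_lit 76) (nat_lit 39407166169) (nat_lit 274) (nat_lit 5) (nat_lit 285) (nat_lit 5) (nat_lit 275) (nat_lit 5) (nat_lit 464) (nat_lit 452) (nat_lit 284)) (XT.lf (nat_lit 0) (nat_lit 41649058375) (nat_lit 684) (nat_lit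 8655974924) (nat_lit 76) (nat_lit 21459807799) (nat_lit 266) (nat_lit 5) (nat_lit 275) (nat_lit 5) (nat_lit 267) (nat_lit 5) (nat_lit 465) (nat_lit 452) (nat_lit 283))) (XT.nd (nat_lit 78) (nat_lit 532) (nat_lit 0) (XT.lf (nat_lit 0) (nat_lit 55372353837) (nat_lit 684) (nat_lit 16240743213) (nat_lit 76) (nat_lit 2125629579) (nat_lit 258) (nat_lit 5) (nat_lit 267) (nat_lit 5) (nat_lit 259) (nat_lit 5) (nat_lit 466) (nat_lit 452) (nat_lit 282)) (XT.lf (nat_lit 0) (nat_lit 51833223452) (nat_lit 532) (nat_lit 19043093350) (nat_lit 608) (nat_lit 4902154738) (nat_lit 251) (nat_lit 5) (nat_lit 258) (nat_lit 5) (nat_lit 259) (nat_lit 5) (nat_lit 467) (nat_lit 452) (nat_lit 281)))))) (XT.nd (nat_lit 468) (nat_lit 2508) (nat_lit 0) (XT.nd (nat_lit 234) (nat_lit 1444) (nat_lit 0) (XT.nd (nat_lit 78) (nat_lit 1064) (nat_lit 0) (XT.lf (nat_lit 0) (nat_lit 10024474367) (nat_lit 608) (nat_lit 31702063431) (nat_lit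 76) (nat_lit 36161920408) (nat_lit 243) (nat_lit 5) (nat_lit 251) (nat_lit 5) (nat_lit 244) (nat_lit 5) (nat_lit 468) (nat_lit 452) (nat_lit 280)) (XT.nd (nat_lit 78) (nat_lit 532) (nat_lit 0) (XT.lf (nat_lit 0) (nat_lit 26566681290) (nat_lit 608) (nat_lit 39436861524) (nat_lit 76) (nat_lit 14069826557) (nat_lit 236) (nat_lit 5) (nat_lit 244) (nat_lit 5) (nat_lit 237) (nat_lit 5) (nat_lit 469) (nat_lit 452) (nat_lit 279)) (XT.lf (nat_lit 0) (nat_lit 35156924776) (nat_lit 532) (nat_lit 9866424075) (nat_lit 608) (nat_lit 37311556891) (nat_lit 229) (nat_lit 5) (nat_lit 236) (nat_lit 5) (nat_lit 237) (nat_lit 5) (nat_lit 470) (nat_lit 452) (nat_lit 278)))) (XT.nd (nat_lit 78) (nat_lit 988) (nat_lit 0) (XT.lf (nat_lit 0) (nat_lit 29709661648) (nat_lit 456) (nat_lit 35859242783) (nat_lit 532) (nat_lit 19105633008) (nat_lit 223) (nat_lit 5) (nat_lit 229) (nat_lit 5) (nat_lit 230) (nat_lit 5) (nat_lit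 471) (nat_lit 452) (nat_lit 277)) (XT.nd (nat_lit 78) (nat_lit 456) (nat_lit 0) (XT.lf (nat_lit 0) (nat_lit 1065748170) (nat_lit 532) (nat_lit 62648864145) (nat_lit 76) (nat_lit 23384874459) (nat_lit 216) (nat_lit 5) (nat_lit 223) (nat_lit 5) (nat_lit 217) (nat_lit 5) (nat_lit 472) (nat_lit 452) (nat_lit 276)) (XT.lf (nat_lit 0) (nat_lit 19169023782) (nat_lit 456) (nat_lit 3801626759) (nat_lit 532) (nat_lit 66635755649) (nat_lit 210) (nat_lit 5) (nat_lit 216) (nat_lit 5) (nat_lit 217) (nat_lit 5) (nat_lit 473) (nat_lit 452) (nat_lit 275))))) (XT.nd (nat_lit 234) (nat_lit 1140) (nat_lit 0) (XT.nd (nat_lit 78) (nat_lit 912) (nat_lit 0) (XT.lf (nat_lit 0) (nat_lit 13862162542) (nat_lit 456) (nat_lit 33460196746) (nat_lit 532) (nat_lit 44875765574) (nat_lit 204) (nat_lit 5) (nat_lit 210) (nat_lit 5) (nat_lit 211) (nat_lit 5) (nat_lit 474) (nat_lit 452) (nat_lit 274)) (XT.nd (nat_lit 78) (nat_lit 532)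 (nat_lit 0) (XT.lf (nat_lit 0) (nat_lit 8793240512) (nat_lit 380) (nat_lit 65234766255) (nat_lit 456) (nat_lit 20857332220) (nat_lit 199) (nat_lit 5) (nat_lit 204) (nat_lit 5) (nat_lit 205) (nat_lit 5) (nat_lit 475) (nat_lit 452) (nat_lit 273)) (XT.lf (nat_lit 0) (nat_lit 3920632153) (nat_lit 456) (nat_lit 1544970526) (nat_lit 532) (nat_lit 92204392376) (nat_lit 192) (nat_lit 5) (nat_lit 198) (nat_lit 5) (nat_lit 199) (nat_lit 5) (nat_lit 476) (nat_lit 452) (nat_lit 272)))) (XT.nd (nat_lit 156) (nat_lit 760) (nat_lit 0) (XT.nd (nat_lit 78) (nat_lit 380) (nat_lit 0) (XT.lf (nat_lit 0) (nat_lit 34199276210) (nat_lit 532) (nat_lit 1182902073) (nat_lit 76) (nat_lit 65159731897) (nat_lit 192) (nat_lit 5) (nat_lit 199) (nat_lit 5) (nat_lit 193) (nat_lit 5) (nat_lit 477) (nat_lit 452) (nat_lit 271)) (XT.lf (nat_lit 0) (nat_lit 65638525880) (nat_lit 456) (nat_lit 5936485388) (nat_lit 76) (nat_lit 31944343117)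 (nat_lit 187) (nat_lit 5) (nat_lit 193) (nat_lit 5) (nat_lit 188) (nat_lit 5) (nat_lit 478) (nat_lit 452) (nat_lit 270))) (XT.nd (nat_lit 78) (nat_lit 380) (nat_lit 0) (XT.lf (nat_lit 0) (nat_lit 96184690924) (nat_lit 380) (nat_lit 3758075930) (nat_lit 456) (nat_lit 6664113177) (nat_lit 182) (nat_lit 5) (nat_lit 187) (nat_lit 5) (nat_lit 188) (nat_lit 5) (nat_lit 479) (nat_lit 452) (nat_lit 269)) (XT.lf (nat_lit 0) (nat_lit 27241206521) (nat_lit 380) (nat_lit 15176807897) (nat_lit 76) (nat_lit 67374117004) (nat_lit 177) (nat_lit 5) (nat_lit 182) (nat_lit 5) (nat_lit 178) (nat_lit 5) (nat_lit 480) (nat_lit 452) (nat_lit 268))))))))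
noncomputable def xc118 : XT := (XT.nd (nat_lit 61620) (nat_lit 0) (nat_lit 304) (XT.nd (nat_lit 60606) (nat_lit 0) (nat_lit 7676) (XT.nd (nat_lit 468) (nat_lit 608) (nat_lit 0) (XT.nd (nat_lit 234) (nat_lit 988) (nat_lit 0) (XT.nd (nat_lit 78) (nat_lit 684) (nat_lit 0) (XT.lf (nat_lit 0) (nat_lit 64039390024) (nat_lit 456) (nat_lit 19681067626) (nat_lit 76) (nat_lit 29374145718) (nat_lit 172) (nat_lit 5) (nat_lit 178) (nat_lit 5) (nat_lit 173) (nat_lit 5) (nat_lit 481) (nat_lit 452) (nat_lit 267)) (XT.nd (nat_lit 78) (nat_lit 380) (nat_lit 0) (XT.lf (nat_lit 0) (nat_lit 92568422207) (nat_lit 304) (nat_lit 11583906029) (nat_lit 380) (nat_lit 12365625390) (nat_lit 168) (nat_lit 5) (nat_lit 172) (nat_lit 5) (nat_lit 173) (nat_lit 5) (nat_lit 482) (nat_lit 452) (nat_lit 266)) (XT.lf (nat_lit 0) (nat_lit 27368829861) (nat_lit 380) (nat_lit 28420940557) (nat_lit 76) (nat_lit 64263532523) (nat_lit 163)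 (nat_lit 5) (nat_lit 168) (nat_lit 5) (nat_lit 164) (nat_lit 5) (nat_lit 483) (nat_lit 452) (nat_lit 265)))) (XT.nd (nat_lit 78) (nat_lit 684) (nat_lit 0) (XT.lf (nat_lit 0) (nat_lit 70282770694) (nat_lit 380) (nat_lit 32656691023) (nat_lit 76) (nat_lit 20778830030) (nat_lit 159) (nat_lit 5) (nat_lit 164) (nat_lit 5) (nat_lit 160) (nat_lit 5) (nat_lit 484) (nat_lit 452) (nat_lit 264)) (XT.nd (nat_lit 78) (nat_lit 380) (nat_lit 0) (XT.lf (nat_lit 0) (nat_lit 90758227690) (nat_lit 304) (nat_lit 26314349627) (nat_lit 380) (nat_lit 10442047681) (nat_lit 155) (nat_lit 5) (nat_lit 159) (nat_lit 5) (nat_lit 160) (nat_lit 5) (nat_lit 485) (nat_lit 452) (nat_lit 263)) (XT.lf (nat_lit 0) (nat_lit 35772906278) (nat_lit 380) (nat_lit 41017403389) (nat_lit 76) (nat_lit 54647989749) (nat_lit 150) (nat_lit 5) (nat_lit 155) (nat_lit 5) (nat_lit 151) (nat_lit 5) (nat_lit 486) (nat_lit 452) (nat_lit 262))))) (XT.nd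 (nat_lit 59904) (nat_lit 0) (nat_lit 11552) (XT.nd (nat_lit 78) (nat_lit 304) (nat_lit 0) (XT.lf (nat_lit 0) (nat_lit 85649961956) (nat_lit 380) (nat_lit 44987458974) (nat_lit 76) (nat_lit 4870615737) (nat_lit 146) (nat_lit 5) (nat_lit 151) (nat_lit 5) (nat_lit 147) (nat_lit 5) (nat_lit 487) (nat_lit 452) (nat_lit 261)) (XT.nd (nat_lit 59748) (nat_lit 0) (nat_lit 11476) (XT.lf (nat_lit 0) (nat_lit 367205747) (nat_lit 304) (nat_lit 49008940157) (nat_lit 76) (nat_lit 90342825253) (nat_lit 142) (nat_lit 5) (nat_lit 146) (nat_lit 5) (nat_lit 143) (nat_lit 5) (nat_lit 488) (nat_lit 452) (nat_lit 260)) (XT.lf (nat_lit 0) (nat_lit 13154116701) (nat_lit 1292) (nat_lit 6907999758) (nat_lit 1292) (nat_lit 6907999758) (nat_lit 293) (nat_lit 3) (nat_lit 310) (nat_lit 3) (nat_lit 310) (nat_lit 5) (nat_lit 453) (nat_lit 453) (nat_lit 294)))) (XT.nd (nat_lit 78) (nat_lit 0) (nat_lit 0) (XT.lf (nat_lit 0) (nat_lit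 27340108893) (nat_lit 1216) (nat_lit 24115056476) (nat_lit 1292) (nat_lit 3822342675) (nat_lit 294) (nat_lit 5) (nat_lit 310) (nat_lit 5) (nat_lit 311) (nat_lit 5) (nat_lit 454) (nat_lit 453) (nat_lit 293)) (XT.nd (nat_lit 78) (nat_lit 0) (nat_lit 76) (XT.lf (nat_lit 76) (nat_lit 22023199730) (nat_lit 0) (nat_lit 7158339273) (nat_lit 1292) (nat_lit 27477369932) (nat_lit 295) (nat_lit 5) (nat_lit 294) (nat_lit 5) (nat_lit 311) (nat_lit 5) (nat_lit 455) (nat_lit 453) (nat_lit 292)) (XT.lf (nat_lit 76) (nat_lit 12736806558) (nat_lit 0) (nat_lit 19127411668) (nat_lit 1292) (nat_lit 26222686629) (nat_lit 296) (nat_lit 5) (nat_lit 295) (nat_lit 5) (nat_lit 312) (nat_lit 5) (nat_lit 456) (nat_lit 453) (nat_lit 291)))))) (XT.nd (nat_lit 468) (nat_lit 3040) (nat_lit 0) (XT.nd (nat_lit 234) (nat_lit 988) (nat_lit 0) (XT.nd (nat_lit 78) (nat_lit 0) (nat_lit 76) (XT.lf (nat_lit 76) (nat_lit 3349213843) (nat_lit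 0) (nat_lit 32059290430) (nat_lit 1292) (nat_lit 24155972408) (nat_lit 297) (nat_lit 5) (nat_lit 296) (nat_lit 5) (nat_lit 313) (nat_lit 5) (nat_lit 457) (nat_lit 453) (nat_lit 290)) (XT.nd (nat_lit 78) (nat_lit 0) (nat_lit 76) (XT.lf (nat_lit 0) (nat_lit 39934440074) (nat_lit 1216) (nat_lit 6011811391) (nat_lit 1292) (nat_lit 15145542853) (nat_lit 297) (nat_lit 5) (nat_lit 313) (nat_lit 5) (nat_lit 314) (nat_lit 5) (nat_lit 458) (nat_lit 453) (nat_lit 289)) (XT.lf (nat_lit 0) (nat_lit 45480637278) (nat_lit 1216) (nat_lit 15389978173) (nat_lit 1292) (nat_lit 1801043717) (nat_lit 298) (nat_lit 5) (nat_lit 314) (nat_lit 5) (nat_lit 315) (nat_lit 5) (nat_lit 459) (nat_lit 453) (nat_lit 288)))) (XT.nd (nat_lit 78) (nat_lit 1140) (nat_lit 0) (XT.lf (nat_lit 76) (nat_lit 39338721132) (nat_lit 0) (nat_lit 12867952176) (nat_lit 1292) (nat_lit 12096768339) (nat_lit 299) (nat_lit 5) (nat_lit 298) (nat_lit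 5) (nat_lit 315) (nat_lit 5) (nat_lit 460) (nat_lit 453) (nat_lit 287)) (XT.nd (nat_lit 78) (nat_lit 1216) (nat_lit 0) (XT.lf (nat_lit 76) (nat_lit 31361606733) (nat_lit 0) (nat_lit 28727889783) (nat_lit 1292) (nat_lit 5902702418) (nat_lit 300) (nat_lit 5) (nat_lit 299) (nat_lit 5) (nat_lit 316) (nat_lit 5) (nat_lit 461) (nat_lit 453) (nat_lit 286)) (XT.lf (nat_lit 0) (nat_lit 1418953690) (nat_lit 1292) (nat_lit 44372998384) (nat_lit 1368) (nat_lit 21948380426) (nat_lit 283) (nat_lit 5) (nat_lit 300) (nat_lit 5) (nat_lit 301) (nat_lit 5) (nat_lit 462) (nat_lit 453) (nat_lit 285))))) (XT.nd (nat_lit 234) (nat_lit 2356) (nat_lit 0) (XT.nd (nat_lit 78) (nat_lit 760) (nat_lit 0) (XT.lf (nat_lit 0) (nat_lit 9835517436) (nat_lit 1292) (nat_lit 54234816957) (nat_lit 76) (nat_lit 5478258234) (nat_lit 284) (nat_lit 5) (nat_lit 301) (nat_lit 5) (nat_lit 285) (nat_lit 5) (nat_lit 463) (nat_lit 453) (nat_lit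 284)) (XT.nd (nat_lit 78) (nat_lit 0) (nat_lit 0) (XT.lf (nat_lit 0) (nat_lit 7149988734) (nat_lit 760) (nat_lit 12513554278) (nat_lit 836) (nat_lit 51754003945) (nat_lit 274) (nat_lit 5) (nat_lit 284) (nat_lit 5) (nat_lit 285) (nat_lit 5) (nat_lit 464) (nat_lit 453) (nat_lit 283)) (XT.lf (nat_lit 0) (nat_lit 30945359135) (nat_lit 836) (nat_lit 1032851682) (nat_lit 76) (nat_lit 41372866703) (nat_lit 274) (nat_lit 5) (nat_lit 285) (nat_lit 5) (nat_lit 275) (nat_lit 5) (nat_lit 465) (nat_lit 453) (nat_lit 282)))) (XT.nd (nat_lit 156) (nat_lit 1140) (nat_lit 0) (XT.nd (nat_lit 78) (nat_lit 608) (nat_lit 0) (XT.lf (nat_lit 0) (nat_lit 43776567971) (nat_lit 684) (nat_lit 9044977576) (nat_lit 76) (nat_lit 22530180192) (nat_lit 266) (nat_lit 5) (nat_lit 275) (nat_lit 5) (nat_lit 267) (nat_lit 5) (nat_lit 466) (nat_lit 453) (nat_lit 281)) (XT.lf (nat_lit 0) (nat_lit 58184284086) (nat_lit 684) (nat_lit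 17008927152) (nat_lit 76) (nat_lit 2231146905) (nat_lit 258) (nat_lit 5) (nat_lit 267) (nat_lit 5) (nat_lit 259) (nat_lit 5) (nat_lit 467) (nat_lit 453) (nat_lit 280))) (XT.nd (nat_lit 78) (nat_lit 608) (nat_lit 0) (XT.lf (nat_lit 0) (nat_lit 54467480803) (nat_lit 532) (nat_lit 19994311354) (nat_lit 608) (nat_lit 5104347993) (nat_lit 251) (nat_lit 5) (nat_lit 258) (nat_lit 5) (nat_lit 259) (nat_lit 5) (nat_lit 468) (nat_lit 453) (nat_lit 279)) (XT.lf (nat_lit 0) (nat_lit 10566193552) (nat_lit 608) (nat_lit 33243770456) (nat_lit 76) (nat_lit 37971697453) (nat_lit 243) (nat_lit 5) (nat_lit 251) (nat_lit 5) (nat_lit 244) (nat_lit 5) (nat_lit 469) (nat_lit 453) (nat_lit 278))))))) (XT.nd (nat_lit 1014) (nat_lit 1976) (nat_lit 0) (XT.nd (nat_lit 468) (nat_lit 2432) (nat_lit 0) (XT.nd (nat_lit 234) (nat_lit 1444) (nat_lit 0) (XT.nd (nat_lit 78) (nat_lit 988) (nat_lit 0) (XT.lf (nat_lit 0) (nat_lit 27934018225)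 (nat_lit 608) (nat_lit 41365409231) (nat_lit 76) (nat_lit 14776435734) (nat_lit 236) (nat_lit 5) (nat_lit 244) (nat_lit 5) (nat_lit 237) (nat_lit 5) (nat_lit 470) (nat_lit 453) (nat_lit 277)) (XT.nd (nat_lit 78) (nat_lit 456) (nat_lit 0) (XT.lf (nat_lit 0) (nat_lit 36956825331) (nat_lit 532) (nat_lit 10355240805) (nat_lit 608) (nat_lit 39138454051) (nat_lit 229) (nat_lit 5) (nat_lit 236) (nat_lit 5) (nat_lit 237) (nat_lit 5) (nat_lit 471) (nat_lit 453) (nat_lit 276)) (XT.lf (nat_lit 0) (nat_lit 31237049936) (nat_lit 456) (nat_lit 37646505528) (nat_lit 532) (nat_lit 20023618533) (nat_lit 223) (nat_lit 5) (nat_lit 229) (nat_lit 5) (nat_lit 230) (nat_lit 5) (nat_lit 472) (nat_lit 453) (nat_lit 275)))) (XT.nd (nat_lit 78) (nat_lit 912) (nat_lit 0) (XT.lf (nat_lit 0) (nat_lit 1154320176) (nat_lit 532) (nat_lit 65738891447) (nat_lit 76) (nat_lit 24560187125) (nat_lit 216) (nat_lit 5) (nat_lit 223) (nat_lit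 5) (nat_lit 217) (nat_lit 5) (nat_lit 473) (nat_lit 453) (nat_lit 274)) (XT.nd (nat_lit 78) (nat_lit 456) (nat_lit 0) (XT.lf (nat_lit 0) (nat_lit 20168675033) (nat_lit 456) (nat_lit 3984508454) (nat_lit 532) (nat_lit 69932519355) (nat_lit 210) (nat_lit 5) (nat_lit 216) (nat_lit 5) (nat_lit 217) (nat_lit 5) (nat_lit 474) (nat_lit 453) (nat_lit 273)) (XT.lf (nat_lit 0) (nat_lit 14596216830) (nat_lit 456) (nat_lit 35125101285) (nat_lit 532) (nat_lit 47085724293) (nat_lit 204) (nat_lit 5) (nat_lit 210) (nat_lit 5) (nat_lit 211) (nat_lit 5) (nat_lit 475) (nat_lit 453) (nat_lit 272))))) (XT.nd (nat_lit 234) (nat_lit 1520) (nat_lit 0) (XT.nd (nat_lit 78) (nat_lit 532) (nat_lit 0) (XT.lf (nat_lit 0) (nat_lit 9273559663) (nat_lit 380) (nat_lit 68487589479) (nat_lit 456) (nat_lit 21867501228) (nat_lit 199) (nat_lit 5) (nat_lit 204) (nat_lit 5) (nat_lit 205) (nat_lit 5) (nat_lit 476) (nat_lit 453) (nat_lit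 271)) (XT.nd (nat_lit 78) (nat_lit 0) (nat_lit 0) (XT.lf (nat_lit 0) (nat_lit 4156778334) (nat_lit 456) (nat_lit 1613022996) (nat_lit 532) (nat_lit 96782762867) (nat_lit 192) (nat_lit 5) (nat_lit 198) (nat_lit 5) (nat_lit 199) (nat_lit 5) (nat_lit 477) (nat_lit 453) (nat_lit 270)) (XT.lf (nat_lit 0) (nat_lit 35938770414) (nat_lit 532) (nat_lit 1203040714) (nat_lit 76) (nat_lit 68426305738) (nat_lit 192) (nat_lit 5) (nat_lit 199) (nat_lit 5) (nat_lit 193) (nat_lit 5) (nat_lit 478) (nat_lit 453) (nat_lit 269)))) (XT.nd (nat_lit 156) (nat_lit 760) (nat_lit 0) (XT.nd (nat_lit 78) (nat_lit 380) (nat_lit 0) (XT.lf (nat_lit 0) (nat_lit 68949030924) (nat_lit 456) (nat_lit 6194654240) (nat_lit 76) (nat_lit 33550776806) (nat_lit 187) (nat_lit 5) (nat_lit 193) (nat_lit 5) (nat_lit 188) (nat_lit 5) (nat_lit 479) (nat_lit 453) (nat_lit 268)) (XT.lf (nat_lit 0) (nat_lit 101031472838) (nat_lit 380) (nat_lit 3936011144)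 (nat_lit 456) (nat_lit 6968910047) (nat_lit 182) (nat_lit 5) (nat_lit 187) (nat_lit 5) (nat_lit 188) (nat_lit 5) (nat_lit 480) (nat_lit 453) (nat_lit 267))) (XT.nd (nat_lit 78) (nat_lit 380) (nat_lit 0) (XT.lf (nat_lit 0) (nat_lit 28630248017) (nat_lit 380) (nat_lit 15897924657) (nat_lit 76) (nat_lit 70752753442) (nat_lit 177) (nat_lit 5) (nat_lit 182) (nat_lit 5) (nat_lit 178) (nat_lit 5) (nat_lit 481) (nat_lit 453) (nat_lit 266)) (XT.lf (nat_lit 0) (nat_lit 67267509940) (nat_lit 456) (nat_lit 20627796764) (nat_lit 76) (nat_lit 30853239996) (nat_lit 172) (nat_lit 5) (nat_lit 178) (nat_lit 5) (nat_lit 173) (nat_lit 5) (nat_lit 482) (nat_lit 453) (nat_lit 265)))))) (XT.nd (nat_lit 60216) (nat_lit 0) (nat_lit 11172) (XT.nd (nat_lit 234) (nat_lit 988) (nat_lit 0) (XT.nd (nat_lit 78) (nat_lit 684) (nat_lit 0) (XT.lf (nat_lit 0) (nat_lit 97233097669) (nat_lit 304) (nat_lit 12152100634) (nat_lit 380)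 (nat_lit 12957893180) (nat_lit 168) (nat_lit 5) (nat_lit 172) (nat_lit 5) (nat_lit 173) (nat_lit 5) (nat_lit 483) (nat_lit 453) (nat_lit 264)) (XT.nd (nat_lit 78) (nat_lit 304) (nat_lit 0) (XT.lf (nat_lit 0) (nat_lit 28762012388) (nat_lit 380) (nat_lit 29805642684) (nat_lit 76) (nat_lit 67487568737) (nat_lit 163) (nat_lit 5) (nat_lit 168) (nat_lit 5) (nat_lit 164) (nat_lit 5) (nat_lit 484) (nat_lit 453) (nat_lit 263)) (XT.lf (nat_lit 0) (nat_lit 73820921065) (nat_lit 380) (nat_lit 34253613067) (nat_lit 76) (nat_lit 21828949897) (nat_lit 159) (nat_lit 5) (nat_lit 164) (nat_lit 5) (nat_lit 160) (nat_lit 5) (nat_lit 485) (nat_lit 453) (nat_lit 262)))) (XT.nd (nat_lit 78) (nat_lit 684) (nat_lit 0) (XT.lf (nat_lit 0) (nat_lit 95331022157) (nat_lit 304) (nat_lit 27618387758) (nat_lit 380) (nat_lit 10940248363) (nat_lit 155) (nat_lit 5) (nat_lit 159) (nat_lit 5) (nat_lit 160) (nat_lit 5) (nat_lit 486)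 (nat_lit 453) (nat_lit 261)) (XT.nd (nat_lit 78) (nat_lit 304) (nat_lit 0) (XT.lf (nat_lit 0) (nat_lit 37584313354) (nat_lit 380) (nat_lit 43033366760) (nat_lit 76) (nat_lit 57391849702) (nat_lit 150) (nat_lit 5) (nat_lit 155) (nat_lit 5) (nat_lit 151) (nat_lit 5) (nat_lit 487) (nat_lit 453) (nat_lit 260)) (XT.lf (nat_lit 0) (nat_lit 89954578263) (nat_lit 380) (nat_lit 47202378384) (nat_lit 76) (nat_lit 5125816671) (nat_lit 146) (nat_lit 5) (nat_lit 151) (nat_lit 5) (nat_lit 147) (nat_lit 5) (nat_lit 488) (nat_lit 453) (nat_lit 259))))) (XT.nd (nat_lit 234) (nat_lit 0) (nat_lit 152) (XT.nd (nat_lit 78) (nat_lit 0) (nat_lit 76) (XT.lf (nat_lit 0) (nat_lit 13848020551) (nat_lit 1292) (nat_lit 7234755252) (nat_lit 1292) (nat_lit 7234755252) (nat_lit 293) (nat_lit 3) (nat_lit 310) (nat_lit 3) (nat_lit 310) (nat_lit 5) (nat_lit 454) (nat_lit 454) (nat_lit 292)) (XT.nd (nat_lit 78) (nat_lit 0) (nat_lit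 0) (XT.lf (nat_lit 0) (nat_lit 28776093154) (nat_lit 1216) (nat_lit 25282182752) (nat_lit 1292) (nat_lit 3981028590) (nat_lit 294) (nat_lit 5) (nat_lit 310) (nat_lit 5) (nat_lit 311) (nat_lit 5) (nat_lit 455) (nat_lit 454) (nat_lit 291)) (XT.lf (nat_lit 76) (nat_lit 23161879042) (nat_lit 0) (nat_lit 7544791681) (nat_lit 1292) (nat_lit 28783192887) (nat_lit 295) (nat_lit 5) (nat_lit 294) (nat_lit 5) (nat_lit 311) (nat_lit 5) (nat_lit 456) (nat_lit 454) (nat_lit 290)))) (XT.nd (nat_lit 156) (nat_lit 0) (nat_lit 152) (XT.nd (nat_lit 78) (nat_lit 0) (nat_lit 76) (XT.lf (nat_lit 76) (nat_lit 13412290871) (nat_lit 0) (nat_lit 20108157802) (nat_lit 1292) (nat_lit 27468902144) (nat_lit 296) (nat_lit 5) (nat_lit 295) (nat_lit 5) (nat_lit 312) (nat_lit 5) (nat_lit 457) (nat_lit 454) (nat_lit 289)) (XT.lf (nat_lit 76) (nat_lit 3556283233) (nat_lit 0) (nat_lit 33682822448) (nat_lit 1292) (nat_lit 25301781269)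 (nat_lit 297) (nat_lit 5) (nat_lit 296) (nat_lit 5) (nat_lit 313) (nat_lit 5) (nat_lit 458) (nat_lit 454) (nat_lit 288))) (XT.nd (nat_lit 78) (nat_lit 0) (nat_lit 76) (XT.lf (nat_lit 0) (nat_lit 41988284446) (nat_lit 1216) (nat_lit 6272763893) (nat_lit 1292) (nat_lit 15883614138) (nat_lit 297) (nat_lit 5) (nat_lit 313) (nat_lit 5) (nat_lit 314) (nat_lit 5) (nat_lit 459) (nat_lit 454) (nat_lit 287)) (XT.lf (nat_lit 0) (nat_lit 47809285098) (nat_lit 1216) (nat_lit 16119168148) (nat_lit 1292) (nat_lit 1875142891) (nat_lit 298) (nat_lit 5) (nat_lit 314) (nat_lit 5) (nat_lit 315) (nat_lit 5) (nat_lit 460) (nat_lit 454) (nat_lit 286))))))))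
noncomputable def xc119 : XT := (XT.nd (nat_lit 1950) (nat_lit 988) (nat_lit 0) (XT.nd (nat_lit 936) (nat_lit 5016) (nat_lit 0) (XT.nd (nat_lit 468) (nat_lit 3420) (nat_lit 0) (XT.nd (nat_lit 234) (nat_lit 684) (nat_lit 0) (XT.nd (nat_lit 78) (nat_lit 1140) (nat_lit 0) (XT.lf (nat_lit 76) (nat_lit 41344810675) (nat_lit 0) (nat_lit 13524587862) (nat_lit 1292) (nat_lit 12647636293) (nat_lit 299) (nat_lit 5) (nat_lit 298) (nat_lit 5) (nat_lit 315) (nat_lit 5) (nat_lit 461) (nat_lit 454) (nat_lit 285)) (XT.nd (nat_lit 78) (nat_lit 1216) (nat_lit 0) (XT.lf (nat_lit 76) (nat_lit 32969375474) (nat_lit 0) (nat_lit 30174752911) (nat_lit 1292) (nat_lit 6146168971) (nat_lit 300) (nat_lit 5) (nat_lit 299) (nat_lit 5) (nat_lit 316) (nat_lit 5) (nat_lit 462) (nat_lit 454) (nat_lit 284)) (XT.lf (nat_lit 0) (nat_lit 1538441961) (nat_lit 1292) (nat_lit 46550559265) (nat_lit 1368) (nat_lit 23036885382) (nat_lit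 283) (nat_lit 5) (nat_lit 300) (nat_lit 5) (nat_lit 301) (nat_lit 5) (nat_lit 463) (nat_lit 454) (nat_lit 283)))) (XT.nd (nat_lit 78) (nat_lit 760) (nat_lit 0) (XT.lf (nat_lit 0) (nat_lit 10373841670) (nat_lit 1292) (nat_lit 56905177774) (nat_lit 76) (nat_lit 5745600365) (nat_lit 284) (nat_lit 5) (nat_lit 301) (nat_lit 5) (nat_lit 285) (nat_lit 5) (nat_lit 464) (nat_lit 454) (nat_lit 282)) (XT.nd (nat_lit 78) (nat_lit 0) (nat_lit 0) (XT.lf (nat_lit 0) (nat_lit 7547682051) (nat_lit 760) (nat_lit 13143756253) (nat_lit 836) (nat_lit 54295638743) (nat_lit 274) (nat_lit 5) (nat_lit 284) (nat_lit 5) (nat_lit 285) (nat_lit 5) (nat_lit 465) (nat_lit 454) (nat_lit 281)) (XT.lf (nat_lit 0) (nat_lit 32535174379) (nat_lit 836) (nat_lit 1044889859) (nat_lit 76) (nat_lit 43437285298) (nat_lit 274) (nat_lit 5) (nat_lit 285) (nat_lit 5) (nat_lit 275) (nat_lit 5) (nat_lit 466) (nat_lit 454) (nat_lit 280))))) (XT.nd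 (nat_lit 234) (nat_lit 1672) (nat_lit 0) (XT.nd (nat_lit 78) (nat_lit 1140) (nat_lit 0) (XT.lf (nat_lit 0) (nat_lit 46006264105) (nat_lit 684) (nat_lit 9457502107) (nat_lit 76) (nat_lit 23654314601) (nat_lit 266) (nat_lit 5) (nat_lit 275) (nat_lit 5) (nat_lit 267) (nat_lit 5) (nat_lit 467) (nat_lit 454) (nat_lit 279)) (XT.nd (nat_lit 78) (nat_lit 532) (nat_lit 0) (XT.lf (nat_lit 0) (nat_lit 61132784056) (nat_lit 684) (nat_lit 17819597345) (nat_lit 76) (nat_lit 2342011141) (nat_lit 258) (nat_lit 5) (nat_lit 267) (nat_lit 5) (nat_lit 259) (nat_lit 5) (nat_lit 468) (nat_lit 454) (nat_lit 278)) (XT.lf (nat_lit 0) (nat_lit 57229490832) (nat_lit 532) (nat_lit 20993177340) (nat_lit 608) (nat_lit 5320640692) (nat_lit 251) (nat_lit 5) (nat_lit 258) (nat_lit 5) (nat_lit 259) (nat_lit 5) (nat_lit 469) (nat_lit 454) (nat_lit 277)))) (XT.nd (nat_lit 78) (nat_lit 1064) (nat_lit 0) (XT.lf (nat_lit 0) (nat_lit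 11131233811) (nat_lit 608) (nat_lit 34866597395) (nat_lit 76) (nat_lit 39871807065) (nat_lit 243) (nat_lit 5) (nat_lit 251) (nat_lit 5) (nat_lit 244) (nat_lit 5) (nat_lit 470) (nat_lit 454) (nat_lit 276)) (XT.nd (nat_lit 78) (nat_lit 532) (nat_lit 0) (XT.lf (nat_lit 0) (nat_lit 29366095890) (nat_lit 608) (nat_lit 43394409516) (nat_lit 76) (nat_lit 15518085503) (nat_lit 236) (nat_lit 5) (nat_lit 244) (nat_lit 5) (nat_lit 237) (nat_lit 5) (nat_lit 471) (nat_lit 454) (nat_lit 275)) (XT.lf (nat_lit 0) (nat_lit 38842811103) (nat_lit 532) (nat_lit 10868917155) (nat_lit 608) (nat_lit 41060292233) (nat_lit 229) (nat_lit 5) (nat_lit 236) (nat_lit 5) (nat_lit 237) (nat_lit 5) (nat_lit 472) (nat_lit 454) (nat_lit 274)))))) (XT.nd (nat_lit 468) (nat_lit 2204) (nat_lit 0) (XT.nd (nat_lit 234) (nat_lit 1368) (nat_lit 0) (XT.nd (nat_lit 78) (nat_lit 988) (nat_lit 0) (XT.lf (nat_lit 0) (nat_lit 32836911690) (nat_lit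 456) (nat_lit 39523661287) (nat_lit 532) (nat_lit 20990970775) (nat_lit 223) (nat_lit 5) (nat_lit 229) (nat_lit 5) (nat_lit 230) (nat_lit 5) (nat_lit 473) (nat_lit 454) (nat_lit 273)) (XT.nd (nat_lit 78) (nat_lit 456) (nat_lit 0) (XT.lf (nat_lit 0) (nat_lit 1244040355) (nat_lit 532) (nat_lit 68987363543) (nat_lit 76) (nat_lit 25793701191) (nat_lit 216) (nat_lit 5) (nat_lit 223) (nat_lit 5) (nat_lit 217) (nat_lit 5) (nat_lit 474) (nat_lit 454) (nat_lit 272)) (XT.lf (nat_lit 0) (nat_lit 21214478456) (nat_lit 456) (nat_lit 4177203588) (nat_lit 532) (nat_lit 73397377453) (nat_lit 210) (nat_lit 5) (nat_lit 216) (nat_lit 5) (nat_lit 217) (nat_lit 5) (nat_lit 475) (nat_lit 454) (nat_lit 271)))) (XT.nd (nat_lit 78) (nat_lit 912) (nat_lit 0) (XT.lf (nat_lit 0) (nat_lit 15363167047) (nat_lit 456) (nat_lit 36874004604) (nat_lit 532) (nat_lit 49409326099) (nat_lit 204) (nat_lit 5) (nat_lit 210) (nat_lit 5)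 (nat_lit 211) (nat_lit 5) (nat_lit 476) (nat_lit 454) (nat_lit 270)) (XT.nd (nat_lit 78) (nat_lit 532) (nat_lit 0) (XT.lf (nat_lit 0) (nat_lit 9774114856) (nat_lit 380) (nat_lit 71903882705) (nat_lit 456) (nat_lit 22931218599) (nat_lit 199) (nat_lit 5) (nat_lit 204) (nat_lit 5) (nat_lit 205) (nat_lit 5) (nat_lit 477) (nat_lit 454) (nat_lit 269)) (XT.lf (nat_lit 0) (nat_lit 4401002350) (nat_lit 456) (nat_lit 1685333051) (nat_lit 532) (nat_lit 101593012912) (nat_lit 192) (nat_lit 5) (nat_lit 198) (nat_lit 5) (nat_lit 199) (nat_lit 5) (nat_lit 478) (nat_lit 454) (nat_lit 268))))) (XT.nd (nat_lit 234) (nat_lit 1444) (nat_lit 0) (XT.nd (nat_lit 78) (nat_lit 760) (nat_lit 0) (XT.lf (nat_lit 0) (nat_lit 37762493873) (nat_lit 532) (nat_lit 1227812737) (nat_lit 76) (nat_lit 71855409910) (nat_lit 192) (nat_lit 5) (nat_lit 199) (nat_lit 5) (nat_lit 193) (nat_lit 5) (nat_lit 479) (nat_lit 454) (nat_lit 267))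 (XT.nd (nat_lit 78) (nat_lit 380) (nat_lit 0) (XT.lf (nat_lit 0) (nat_lit 72422404238) (nat_lit 456) (nat_lit 6469325349) (nat_lit 76) (nat_lit 35236675314) (nat_lit 187) (nat_lit 5) (nat_lit 193) (nat_lit 5) (nat_lit 188) (nat_lit 5) (nat_lit 480) (nat_lit 454) (nat_lit 266)) (XT.lf (nat_lit 0) (nat_lit 106117103049) (nat_lit 380) (nat_lit 4123769902) (nat_lit 456) (nat_lit 7291587941) (nat_lit 182) (nat_lit 5) (nat_lit 187) (nat_lit 5) (nat_lit 188) (nat_lit 5) (nat_lit 481) (nat_lit 454) (nat_lit 265)))) (XT.nd (nat_lit 156) (nat_lit 684) (nat_lit 0) (XT.nd (nat_lit 78) (nat_lit 380) (nat_lit 0) (XT.lf (nat_lit 0) (nat_lit 30086233135) (nat_lit 380) (nat_lit 16658604441) (nat_lit 76) (nat_lit 74299398449) (nat_lit 177) (nat_lit 5) (nat_lit 182) (nat_lit 5) (nat_lit 178) (nat_lit 5) (nat_lit 482) (nat_lit 454) (nat_lit 264)) (XT.lf (nat_lit 0) (nat_lit 70654604633) (nat_lit 456) (nat_lit 21625332412)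 (nat_lit 76) (nat_lit 32405323304) (nat_lit 172) (nat_lit 5) (nat_lit 178) (nat_lit 5) (nat_lit 173) (nat_lit 5) (nat_lit 483) (nat_lit 454) (nat_lit 263))) (XT.nd (nat_lit 78) (nat_lit 380) (nat_lit 0) (XT.lf (nat_lit 0) (nat_lit 102127636318) (nat_lit 304) (nat_lit 12749727710) (nat_lit 380) (nat_lit 13582192846) (nat_lit 168) (nat_lit 5) (nat_lit 172) (nat_lit 5) (nat_lit 173) (nat_lit 5) (nat_lit 484) (nat_lit 454) (nat_lit 262)) (XT.lf (nat_lit 0) (nat_lit 30222553854) (nat_lit 380) (nat_lit 31262958922) (nat_lit 76) (nat_lit 70871797141) (nat_lit 163) (nat_lit 5) (nat_lit 168) (nat_lit 5) (nat_lit 164) (nat_lit 5) (nat_lit 485) (nat_lit 454) (nat_lit 261))))))) (XT.nd (nat_lit 60840) (nat_lit 0) (nat_lit 4104) (XT.nd (nat_lit 60294) (nat_lit 0) (nat_lit 10108) (XT.nd (nat_lit 60060) (nat_lit 0) (nat_lit 10868) (XT.nd (nat_lit 78) (nat_lit 684) (nat_lit 0) (XT.lf (nat_lit 0) (nat_lit 77533746561)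 (nat_lit 380) (nat_lit 35933720018) (nat_lit 76) (nat_lit 22930536500) (nat_lit 159) (nat_lit 5) (nat_lit 164) (nat_lit 5) (nat_lit 160) (nat_lit 5) (nat_lit 486) (nat_lit 454) (nat_lit 260)) (XT.nd (nat_lit 78) (nat_lit 380) (nat_lit 0) (XT.lf (nat_lit 0) (nat_lit 100129213249) (nat_lit 304) (nat_lit 28988713632) (nat_lit 380) (nat_lit 11465581233) (nat_lit 155) (nat_lit 5) (nat_lit 159) (nat_lit 5) (nat_lit 160) (nat_lit 5) (nat_lit 487) (nat_lit 454) (nat_lit 259)) (XT.lf (nat_lit 0) (nat_lit 39484174611) (nat_lit 380) (nat_lit 45153373602) (nat_lit 76) (nat_lit 60271837167) (nat_lit 150) (nat_lit 5) (nat_lit 155) (nat_lit 5) (nat_lit 151) (nat_lit 5) (nat_lit 488) (nat_lit 454) (nat_lit 258)))) (XT.nd (nat_lit 78) (nat_lit 0) (nat_lit 76) (XT.lf (nat_lit 0) (nat_lit 14573254245) (nat_lit 1292) (nat_lit 7579581909) (nat_lit 1292) (nat_lit 7579581909) (nat_lit 293) (nat_lit 3) (nat_lit 310) (nat_lit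 3) (nat_lit 310) (nat_lit 5) (nat_lit 455) (nat_lit 455) (nat_lit 290)) (XT.nd (nat_lit 78) (nat_lit 0) (nat_lit 0) (XT.lf (nat_lit 0) (nat_lit 30277463632) (nat_lit 1216) (nat_lit 26511256473) (nat_lit 1292) (nat_lit 4150663948) (nat_lit 294) (nat_lit 5) (nat_lit 310) (nat_lit 5) (nat_lit 311) (nat_lit 5) (nat_lit 456) (nat_lit 455) (nat_lit 289)) (XT.lf (nat_lit 76) (nat_lit 24354004129) (nat_lit 0) (nat_lit 7947913754) (nat_lit 1292) (nat_lit 30160633219) (nat_lit 295) (nat_lit 5) (nat_lit 294) (nat_lit 5) (nat_lit 311) (nat_lit 5) (nat_lit 457) (nat_lit 455) (nat_lit 288))))) (XT.nd (nat_lit 234) (nat_lit 912) (nat_lit 0) (XT.nd (nat_lit 78) (nat_lit 0) (nat_lit 76) (XT.lf (nat_lit 76) (nat_lit 14117956649) (nat_lit 0) (nat_lit 21135675034) (nat_lit 1292) (nat_lit 28783463972) (nat_lit 296) (nat_lit 5) (nat_lit 295) (nat_lit 5) (nat_lit 312) (nat_lit 5) (nat_lit 458) (nat_lit 455) (nat_lit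 287)) (XT.nd (nat_lit 78) (nat_lit 0) (nat_lit 76) (XT.lf (nat_lit 76) (nat_lit 3770023651) (nat_lit 0) (nat_lit 35385618895) (nat_lit 1292) (nat_lit 26510643793) (nat_lit 297) (nat_lit 5) (nat_lit 296) (nat_lit 5) (nat_lit 313) (nat_lit 5) (nat_lit 459) (nat_lit 455) (nat_lit 286)) (XT.lf (nat_lit 0) (nat_lit 44139510340) (nat_lit 1216) (nat_lit 6550449192) (nat_lit 1292) (nat_lit 16660374566) (nat_lit 297) (nat_lit 5) (nat_lit 313) (nat_lit 5) (nat_lit 314) (nat_lit 5) (nat_lit 460) (nat_lit 455) (nat_lit 285)))) (XT.nd (nat_lit 156) (nat_lit 1140) (nat_lit 0) (XT.nd (nat_lit 78) (nat_lit 0) (nat_lit 0) (XT.lf (nat_lit 0) (nat_lit 50249287636) (nat_lit 1216) (nat_lit 16888565164) (nat_lit 1292) (nat_lit 1954430184) (nat_lit 298) (nat_lit 5) (nat_lit 314) (nat_lit 5) (nat_lit 315) (nat_lit 5) (nat_lit 461) (nat_lit 455) (nat_lit 284)) (XT.lf (nat_lit 76) (nat_lit 43447564575) (nat_lit 0) (nat_lit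 14212824582) (nat_lit 1292) (nat_lit 13231065306) (nat_lit 299) (nat_lit 5) (nat_lit 298) (nat_lit 5) (nat_lit 315) (nat_lit 5) (nat_lit 462) (nat_lit 455) (nat_lit 283))) (XT.nd (nat_lit 78) (nat_lit 1216) (nat_lit 0) (XT.lf (nat_lit 76) (nat_lit 34653842801) (nat_lit 0) (nat_lit 31692985921) (nat_lit 1292) (nat_lit 6406612506) (nat_lit 300) (nat_lit 5) (nat_lit 299) (nat_lit 5) (nat_lit 316) (nat_lit 5) (nat_lit 463) (nat_lit 455) (nat_lit 282)) (XT.lf (nat_lit 0) (nat_lit 1659391803) (nat_lit 1292) (nat_lit 48840818259) (nat_lit 1368) (nat_lit 24180644331) (nat_lit 283) (nat_lit 5) (nat_lit 300) (nat_lit 5) (nat_lit 301) (nat_lit 5) (nat_lit 464) (nat_lit 455) (nat_lit 281)))))) (XT.nd (nat_lit 468) (nat_lit 3572) (nat_lit 0) (XT.nd (nat_lit 234) (nat_lit 1748) (nat_lit 0) (XT.nd (nat_lit 78) (nat_lit 760) (nat_lit 0) (XT.lf (nat_lit 0) (nat_lit 10934754491) (nat_lit 1292) (nat_lit 59712903754)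 (nat_lit 76) (nat_lit 6026920491) (nat_lit 284) (nat_lit 5) (nat_lit 301) (nat_lit 5) (nat_lit 285) (nat_lit 5) (nat_lit 465) (nat_lit 455) (nat_lit 280)) (XT.nd (nat_lit 78) (nat_lit 0) (nat_lit 0) (XT.lf (nat_lit 0) (nat_lit 7961523189) (nat_lit 760) (nat_lit 13805047703) (nat_lit 836) (nat_lit 56968638005) (nat_lit 274) (nat_lit 5) (nat_lit 284) (nat_lit 5) (nat_lit 285) (nat_lit 5) (nat_lit 466) (nat_lit 455) (nat_lit 279)) (XT.lf (nat_lit 0) (nat_lit 34200524742) (nat_lit 836) (nat_lit 1061211986) (nat_lit 76) (nat_lit 45605317600) (nat_lit 274) (nat_lit 5) (nat_lit 285) (nat_lit 5) (nat_lit 275) (nat_lit 5) (nat_lit 467) (nat_lit 455) (nat_lit 278)))) (XT.nd (nat_lit 78) (nat_lit 1140) (nat_lit 0) (XT.lf (nat_lit 0) (nat_lit 48343645550) (nat_lit 684) (nat_lit 9894346057) (nat_lit 76) (nat_lit 24834876499) (nat_lit 266) (nat_lit 5) (nat_lit 275) (nat_lit 5) (nat_lit 267) (nat_lit 5) (nat_lit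 468) (nat_lit 455) (nat_lit 277)) (XT.nd (nat_lit 78) (nat_lit 532) (nat_lit 0) (XT.lf (nat_lit 0) (nat_lit 64225056607) (nat_lit 684) (nat_lit 18674499057) (nat_lit 76) (nat_lit 2458483028) (nat_lit 258) (nat_lit 5) (nat_lit 267) (nat_lit 5) (nat_lit 259) (nat_lit 5) (nat_lit 469) (nat_lit 455) (nat_lit 276)) (XT.lf (nat_lit 0) (nat_lit 60126009355) (nat_lit 532) (nat_lit 22042065612) (nat_lit 608) (nat_lit 5551366876) (nat_lit 251) (nat_lit 5) (nat_lit 258) (nat_lit 5) (nat_lit 259) (nat_lit 5) (nat_lit 470) (nat_lit 455) (nat_lit 275))))) (XT.nd (nat_lit 234) (nat_lit 1900) (nat_lit 0) (XT.nd (nat_lit 78) (nat_lit 1064) (nat_lit 0) (XT.lf (nat_lit 0) (nat_lit 11721111222) (nat_lit 608) (nat_lit 36574225148) (nat_lit 76) (nat_lit 41866780401) (nat_lit 243) (nat_lit 5) (nat_lit 251) (nat_lit 5) (nat_lit 244) (nat_lit 5) (nat_lit 471) (nat_lit 455) (nat_lit 274)) (XT.nd (nat_lit 78) (nat_lit 532)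 (nat_lit 0) (XT.lf (nat_lit 0) (nat_lit 30866488443) (nat_lit 608) (nat_lit 45528510783) (nat_lit 76) (nat_lit 16296554840) (nat_lit 236) (nat_lit 5) (nat_lit 244) (nat_lit 5) (nat_lit 237) (nat_lit 5) (nat_lit 472) (nat_lit 455) (nat_lit 273)) (XT.lf (nat_lit 0) (nat_lit 40819549848) (nat_lit 532) (nat_lit 11408657171) (nat_lit 608) (nat_lit 43081484150) (nat_lit 229) (nat_lit 5) (nat_lit 236) (nat_lit 5) (nat_lit 237) (nat_lit 5) (nat_lit 473) (nat_lit 455) (nat_lit 272)))) (XT.nd (nat_lit 156) (nat_lit 912) (nat_lit 0) (XT.nd (nat_lit 78) (nat_lit 532) (nat_lit 0) (XT.lf (nat_lit 0) (nat_lit 34513232791) (nat_lit 456) (nat_lit 41495155445) (nat_lit 532) (nat_lit 22009835699) (nat_lit 223) (nat_lit 5) (nat_lit 229) (nat_lit 5) (nat_lit 230) (nat_lit 5) (nat_lit 474) (nat_lit 455) (nat_lit 271)) (XT.lf (nat_lit 0) (nat_lit 1335271099) (nat_lit 532) (nat_lit 72401836050) (nat_lit 76) (nat_lit 27088379185)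 (nat_lit 216) (nat_lit 5) (nat_lit 223) (nat_lit 5) (nat_lit 217) (nat_lit 5) (nat_lit 475) (nat_lit 455) (nat_lit 270))) (XT.nd (nat_lit 78) (nat_lit 456) (nat_lit 0) (XT.lf (nat_lit 0) (nat_lit 22309097771) (nat_lit 456) (nat_lit 4380140603) (nat_lit 532) (nat_lit 77038431931) (nat_lit 210) (nat_lit 5) (nat_lit 216) (nat_lit 5) (nat_lit 217) (nat_lit 5) (nat_lit 476) (nat_lit 455) (nat_lit 269)) (XT.lf (nat_lit 0) (nat_lit 16165011908) (nat_lit 456) (nat_lit 38711036585) (nat_lit 532) (nat_lit 51851960741) (nat_lit 204) (nat_lit 5) (nat_lit 210) (nat_lit 5) (nat_lit 211) (nat_lit 5) (nat_lit 477) (nat_lit 455) (nat_lit 268))))))))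
noncomputable def xc120 : XT := (XT.nd (nat_lit 61854) (nat_lit 0) (nat_lit 608) (XT.nd (nat_lit 60840) (nat_lit 0) (nat_lit 8436) (XT.nd (nat_lit 468) (nat_lit 1672) (nat_lit 0) (XT.nd (nat_lit 234) (nat_lit 1140) (nat_lit 0) (XT.nd (nat_lit 78) (nat_lit 532) (nat_lit 0) (XT.lf (nat_lit 0) (nat_lit 10296269316) (nat_lit 380) (nat_lit 75491742375) (nat_lit 456) (nat_lit 24050879130) (nat_lit 199) (nat_lit 5) (nat_lit 204) (nat_lit 5) (nat_lit 205) (nat_lit 5) (nat_lit 478) (nat_lit 455) (nat_lit 267)) (XT.nd (nat_lit 78) (nat_lit 0) (nat_lit 0) (XT.lf (nat_lit 0) (nat_lit 4654054826) (nat_lit 456) (nat_lit 1762034085) (nat_lit 532) (nat_lit 106646461201) (nat_lit 192) (nat_lit 5) (nat_lit 198) (nat_lit 5) (nat_lit 199) (nat_lit 5) (nat_lit 479) (nat_lit 455) (nat_lit 266)) (XT.lf (nat_lit 0) (nat_lit 39674913295) (nat_lit 532) (nat_lit 1257112660) (nat_lit 76) (nat_lit 75455245155) (nat_lit 192)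 (nat_lit 5) (nat_lit 199) (nat_lit 5) (nat_lit 193) (nat_lit 5) (nat_lit 480) (nat_lit 455) (nat_lit 265)))) (XT.nd (nat_lit 78) (nat_lit 760) (nat_lit 0) (XT.lf (nat_lit 0) (nat_lit 76067036257) (nat_lit 456) (nat_lit 6760989708) (nat_lit 76) (nat_lit 37006091545) (nat_lit 187) (nat_lit 5) (nat_lit 193) (nat_lit 5) (nat_lit 188) (nat_lit 5) (nat_lit 481) (nat_lit 455) (nat_lit 264)) (XT.nd (nat_lit 78) (nat_lit 380) (nat_lit 0) (XT.lf (nat_lit 0) (nat_lit 111453848513) (nat_lit 380) (nat_lit 4321757219) (nat_lit 456) (nat_lit 7632795357) (nat_lit 182) (nat_lit 5) (nat_lit 187) (nat_lit 5) (nat_lit 188) (nat_lit 5) (nat_lit 482) (nat_lit 455) (nat_lit 263)) (XT.lf (nat_lit 0) (nat_lit 31612742268) (nat_lit 380) (nat_lit 17460499336) (nat_lit 76) (nat_lit 78022538291) (nat_lit 177) (nat_lit 5) (nat_lit 182) (nat_lit 5) (nat_lit 178) (nat_lit 5) (nat_lit 483) (nat_lit 455) (nat_lit 262))))) (XT.nd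 (nat_lit 234) (nat_lit 608) (nat_lit 0) (XT.nd (nat_lit 78) (nat_lit 684) (nat_lit 0) (XT.lf (nat_lit 0) (nat_lit 74208848875) (nat_lit 456) (nat_lit 22675892285) (nat_lit 76) (nat_lit 34034134873) (nat_lit 172) (nat_lit 5) (nat_lit 178) (nat_lit 5) (nat_lit 173) (nat_lit 5) (nat_lit 484) (nat_lit 455) (nat_lit 261)) (XT.nd (nat_lit 78) (nat_lit 380) (nat_lit 0) (XT.lf (nat_lit 0) (nat_lit 107263844679) (nat_lit 304) (nat_lit 13378163795) (nat_lit 380) (nat_lit 14239901134) (nat_lit 168) (nat_lit 5) (nat_lit 172) (nat_lit 5) (nat_lit 173) (nat_lit 5) (nat_lit 485) (nat_lit 455) (nat_lit 260)) (XT.lf (nat_lit 0) (nat_lit 31754036057) (nat_lit 380) (nat_lit 32796205828) (nat_lit 76) (nat_lit 74424321208) (nat_lit 163) (nat_lit 5) (nat_lit 168) (nat_lit 5) (nat_lit 164) (nat_lit 5) (nat_lit 486) (nat_lit 455) (nat_lit 259)))) (XT.nd (nat_lit 78) (nat_lit 304) (nat_lit 0) (XT.lf (nat_lit 0) (nat_lit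 81430188486) (nat_lit 380) (nat_lit 37700860710) (nat_lit 76) (nat_lit 24086259794) (nat_lit 159) (nat_lit 5) (nat_lit 164) (nat_lit 5) (nat_lit 160) (nat_lit 5) (nat_lit 487) (nat_lit 455) (nat_lit 258)) (XT.nd (nat_lit 59982) (nat_lit 0) (nat_lit 10488) (XT.lf (nat_lit 0) (nat_lit 105164372309) (nat_lit 304) (nat_lit 30428540683) (nat_lit 380) (nat_lit 12019196305) (nat_lit 155) (nat_lit 5) (nat_lit 159) (nat_lit 5) (nat_lit 160) (nat_lit 5) (nat_lit 488) (nat_lit 455) (nat_lit 257)) (XT.lf (nat_lit 0) (nat_lit 15331697154) (nat_lit 1292) (nat_lit 7943222134) (nat_lit 1292) (nat_lit 7943222134) (nat_lit 293) (nat_lit 3) (nat_lit 310) (nat_lit 3) (nat_lit 310) (nat_lit 5) (nat_lit 456) (nat_lit 456) (nat_lit 288)))))) (XT.nd (nat_lit 468) (nat_lit 2128) (nat_lit 0) (XT.nd (nat_lit 234) (nat_lit 0) (nat_lit 152) (XT.nd (nat_lit 78) (nat_lit 0) (nat_lit 0) (XT.lf (nat_lit 0) (nat_lit 31848085856)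 (nat_lit 1216) (nat_lit 27805041140) (nat_lit 1292) (nat_lit 4331515902) (nat_lit 294) (nat_lit 5) (nat_lit 310) (nat_lit 5) (nat_lit 311) (nat_lit 5) (nat_lit 457) (nat_lit 456) (nat_lit 287)) (XT.nd (nat_lit 78) (nat_lit 0) (nat_lit 76) (XT.lf (nat_lit 76) (nat_lit 25602571577) (nat_lit 0) (nat_lit 8368785622) (nat_lit 1292) (nat_lit 31612683645) (nat_lit 295) (nat_lit 5) (nat_lit 294) (nat_lit 5) (nat_lit 311) (nat_lit 5) (nat_lit 458) (nat_lit 456) (nat_lit 286)) (XT.lf (nat_lit 76) (nat_lit 14855646985) (nat_lit 0) (nat_lit 22212512611) (nat_lit 1292) (nat_lit 30169228300) (nat_lit 296) (nat_lit 5) (nat_lit 295) (nat_lit 5) (nat_lit 312) (nat_lit 5) (nat_lit 459) (nat_lit 456) (nat_lit 285)))) (XT.nd (nat_lit 78) (nat_lit 0) (nat_lit 76) (XT.lf (nat_lit 76) (nat_lit 3991111007) (nat_lit 0) (nat_lit 37171820770) (nat_lit 1292) (nat_lit 27785176854) (nat_lit 297) (nat_lit 5) (nat_lit 296) (nat_lit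 5) (nat_lit 313) (nat_lit 5) (nat_lit 460) (nat_lit 456) (nat_lit 284)) (XT.nd (nat_lit 78) (nat_lit 0) (nat_lit 76) (XT.lf (nat_lit 0) (nat_lit 46393480571) (nat_lit 1216) (nat_lit 6845361315) (nat_lit 1292) (nat_lit 17477592588) (nat_lit 297) (nat_lit 5) (nat_lit 313) (nat_lit 5) (nat_lit 314) (nat_lit 5) (nat_lit 461) (nat_lit 456) (nat_lit 283)) (XT.lf (nat_lit 0) (nat_lit 52806684700) (nat_lit 1216) (nat_lit 17699831163) (nat_lit 1292) (nat_lit 2039027111) (nat_lit 298) (nat_lit 5) (nat_lit 314) (nat_lit 5) (nat_lit 315) (nat_lit 5) (nat_lit 462) (nat_lit 456) (nat_lit 282))))) (XT.nd (nat_lit 234) (nat_lit 1292) (nat_lit 0) (XT.nd (nat_lit 78) (nat_lit 1140) (nat_lit 0) (XT.lf (nat_lit 76) (nat_lit 45652154473) (nat_lit 0) (nat_lit 14934356811) (nat_lit 1292) (nat_lit 13848216937) (nat_lit 299) (nat_lit 5) (nat_lit 298) (nat_lit 5) (nat_lit 315) (nat_lit 5) (nat_lit 463) (nat_lit 456) (nat_lit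 281)) (XT.nd (nat_lit 78) (nat_lit 1216) (nat_lit 0) (XT.lf (nat_lit 76) (nat_lit 36419186690) (nat_lit 0) (nat_lit 33286247792) (nat_lit 1292) (nat_lit 6684435273) (nat_lit 300) (nat_lit 5) (nat_lit 299) (nat_lit 5) (nat_lit 316) (nat_lit 5) (nat_lit 464) (nat_lit 456) (nat_lit 280)) (XT.lf (nat_lit 0) (nat_lit 1782295854) (nat_lit 1292) (nat_lit 51249055118) (nat_lit 1368) (nat_lit 25382342925) (nat_lit 283) (nat_lit 5) (nat_lit 300) (nat_lit 5) (nat_lit 301) (nat_lit 5) (nat_lit 465) (nat_lit 456) (nat_lit 279)))) (XT.nd (nat_lit 156) (nat_lit 608) (nat_lit 0) (XT.nd (nat_lit 78) (nat_lit 760) (nat_lit 0) (XT.lf (nat_lit 0) (nat_lit 11519787668) (nat_lit 1292) (nat_lit 62664505488) (nat_lit 76) (nat_lit 6322860718) (nat_lit 284) (nat_lit 5) (nat_lit 301) (nat_lit 5) (nat_lit 285) (nat_lit 5) (nat_lit 466) (nat_lit 456) (nat_lit 278)) (XT.lf (nat_lit 0) (nat_lit 8392666954) (nat_lit 760) (nat_lit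 14499022209) (nat_lit 836) (nat_lit 59779171788) (nat_lit 274) (nat_lit 5) (nat_lit 284) (nat_lit 5) (nat_lit 285) (nat_lit 5) (nat_lit 467) (nat_lit 456) (nat_lit 277))) (XT.nd (nat_lit 78) (nat_lit 608) (nat_lit 0) (XT.lf (nat_lit 0) (nat_lit 35945554738) (nat_lit 836) (nat_lit 1081689941) (nat_lit 76) (nat_lit 47882107777) (nat_lit 274) (nat_lit 5) (nat_lit 285) (nat_lit 5) (nat_lit 275) (nat_lit 5) (nat_lit 468) (nat_lit 456) (nat_lit 276)) (XT.lf (nat_lit 0) (nat_lit 50794449815) (nat_lit 684) (nat_lit 10356382041) (nat_lit 76) (nat_lit 26074666734) (nat_lit 266) (nat_lit 5) (nat_lit 275) (nat_lit 5) (nat_lit 267) (nat_lit 5) (nat_lit 469) (nat_lit 456) (nat_lit 275))))))) (XT.nd (nat_lit 1014) (nat_lit 1824) (nat_lit 0) (XT.nd (nat_lit 468) (nat_lit 2736) (nat_lit 0) (XT.nd (nat_lit 234) (nat_lit 1520) (nat_lit 0) (XT.nd (nat_lit 78) (nat_lit 1140) (nat_lit 0) (XT.lf (nat_lit 0) (nat_lit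 67468629934) (nat_lit 684) (nat_lit 19575500061) (nat_lit 76) (nat_lit 2580836957) (nat_lit 258) (nat_lit 5) (nat_lit 267) (nat_lit 5) (nat_lit 259) (nat_lit 5) (nat_lit 470) (nat_lit 456) (nat_lit 274)) (XT.nd (nat_lit 78) (nat_lit 608) (nat_lit 0) (XT.lf (nat_lit 0) (nat_lit 63164095747) (nat_lit 532) (nat_lit 23143469940) (nat_lit 608) (nat_lit 5796911772) (nat_lit 251) (nat_lit 5) (nat_lit 258) (nat_lit 5) (nat_lit 259) (nat_lit 5) (nat_lit 471) (nat_lit 456) (nat_lit 273)) (XT.lf (nat_lit 0) (nat_lit 12337385124) (nat_lit 608) (nat_lit 38370553533) (nat_lit 76) (nat_lit 43961373827) (nat_lit 243) (nat_lit 5) (nat_lit 251) (nat_lit 5) (nat_lit 244) (nat_lit 5) (nat_lit 472) (nat_lit 456) (nat_lit 272)))) (XT.nd (nat_lit 78) (nat_lit 988) (nat_lit 0) (XT.lf (nat_lit 0) (nat_lit 32438917408) (nat_lit 608) (nat_lit 47772628651) (nat_lit 76) (nat_lit 17113709170) (nat_lit 236) (nat_lit 5) (nat_lit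 244) (nat_lit 5) (nat_lit 237) (nat_lit 5) (nat_lit 473) (nat_lit 456) (nat_lit 271)) (XT.nd (nat_lit 78) (nat_lit 456) (nat_lit 0) (XT.lf (nat_lit 0) (nat_lit 42891908919) (nat_lit 532) (nat_lit 11975728722) (nat_lit 608) (nat_lit 45206694235) (nat_lit 229) (nat_lit 5) (nat_lit 236) (nat_lit 5) (nat_lit 237) (nat_lit 5) (nat_lit 474) (nat_lit 456) (nat_lit 270)) (XT.lf (nat_lit 0) (nat_lit 36270164740) (nat_lit 456) (nat_lit 43565660242) (nat_lit 532) (nat_lit 23082496541) (nat_lit 223) (nat_lit 5) (nat_lit 229) (nat_lit 5) (nat_lit 230) (nat_lit 5) (nat_lit 475) (nat_lit 456) (nat_lit 269))))) (XT.nd (nat_lit 234) (nat_lit 1292) (nat_lit 0) (XT.nd (nat_lit 78) (nat_lit 912) (nat_lit 0) (XT.lf (nat_lit 0) (nat_lit 1428364564) (nat_lit 532) (nat_lit 75990276451) (nat_lit 76) (nat_lit 28447326882) (nat_lit 216) (nat_lit 5) (nat_lit 223) (nat_lit 5) (nat_lit 217) (nat_lit 5) (nat_lit 476) (nat_lit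 456) (nat_lit 268)) (XT.nd (nat_lit 78) (nat_lit 456) (nat_lit 0) (XT.lf (nat_lit 0) (nat_lit 23455296780) (nat_lit 456) (nat_lit 4593775149) (nat_lit 532) (nat_lit 80864218022) (nat_lit 210) (nat_lit 5) (nat_lit 216) (nat_lit 5) (nat_lit 217) (nat_lit 5) (nat_lit 477) (nat_lit 456) (nat_lit 267)) (XT.lf (nat_lit 0) (nat_lit 17003817160) (nat_lit 456) (nat_lit 40640540116) (nat_lit 532) (nat_lit 54419314640) (nat_lit 204) (nat_lit 5) (nat_lit 210) (nat_lit 5) (nat_lit 211) (nat_lit 5) (nat_lit 478) (nat_lit 456) (nat_lit 266)))) (XT.nd (nat_lit 156) (nat_lit 380) (nat_lit 0) (XT.nd (nat_lit 78) (nat_lit 532) (nat_lit 0) (XT.lf (nat_lit 0) (nat_lit 10841421754) (nat_lit 380) (nat_lit 79259676918) (nat_lit 456) (nat_lit 25229023631) (nat_lit 199) (nat_lit 5) (nat_lit 204) (nat_lit 5) (nat_lit 205) (nat_lit 5) (nat_lit 479) (nat_lit 456) (nat_lit 265)) (XT.lf (nat_lit 0) (nat_lit 4916691679) (nat_lit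 456) (nat_lit 1843273550) (nat_lit 532) (nat_lit 111955017952) (nat_lit 192) (nat_lit 5) (nat_lit 198) (nat_lit 5) (nat_lit 199) (nat_lit 5) (nat_lit 480) (nat_lit 456) (nat_lit 264))) (XT.nd (nat_lit 78) (nat_lit 380) (nat_lit 0) (XT.lf (nat_lit 0) (nat_lit 41680694995) (nat_lit 532) (nat_lit 1290861069) (nat_lit 76) (nat_lit 79234415348) (nat_lit 192) (nat_lit 5) (nat_lit 199) (nat_lit 5) (nat_lit 193) (nat_lit 5) (nat_lit 481) (nat_lit 456) (nat_lit 263)) (XT.lf (nat_lit 0) (nat_lit 79891713972) (nat_lit 456) (nat_lit 7070193926) (nat_lit 76) (nat_lit 38863273641) (nat_lit 187) (nat_lit 5) (nat_lit 193) (nat_lit 5) (nat_lit 188) (nat_lit 5) (nat_lit 482) (nat_lit 456) (nat_lit 262)))))) (XT.nd (nat_lit 60528) (nat_lit 0) (nat_lit 9956) (XT.nd (nat_lit 234) (nat_lit 684) (nat_lit 0) (XT.nd (nat_lit 78) (nat_lit 760) (nat_lit 0) (XT.lf (nat_lit 0) (nat_lit 117054559363) (nat_lit 380) (nat_lit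 4530406370) (nat_lit 456) (nat_lit 7993236050) (nat_lit 182) (nat_lit 5) (nat_lit 187) (nat_lit 5) (nat_lit 188) (nat_lit 5) (nat_lit 483) (nat_lit 456) (nat_lit 261)) (XT.nd (nat_lit 78) (nat_lit 380) (nat_lit 0) (XT.lf (nat_lit 0) (nat_lit 33213513146) (nat_lit 380) (nat_lit 18305374346) (nat_lit 76) (nat_lit 81931075562) (nat_lit 177) (nat_lit 5) (nat_lit 182) (nat_lit 5) (nat_lit 178) (nat_lit 5) (nat_lit 484) (nat_lit 456) (nat_lit 260)) (XT.lf (nat_lit 0) (nat_lit 77938805161) (nat_lit 456) (nat_lit 23781834974) (nat_lit 76) (nat_lit 35743592550) (nat_lit 172) (nat_lit 5) (nat_lit 178) (nat_lit 5) (nat_lit 173) (nat_lit 5) (nat_lit 485) (nat_lit 456) (nat_lit 259)))) (XT.nd (nat_lit 78) (nat_lit 380) (nat_lit 0) (XT.lf (nat_lit 0) (nat_lit 112654090469) (nat_lit 304) (nat_lit 14038863096) (nat_lit 380) (nat_lit 14932484532) (nat_lit 168) (nat_lit 5) (nat_lit 172) (nat_lit 5) (nat_lit 173)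 (nat_lit 5) (nat_lit 486) (nat_lit 456) (nat_lit 258)) (XT.nd (nat_lit 60138) (nat_lit 0) (nat_lit 9880) (XT.lf (nat_lit 0) (nat_lit 33360200000) (nat_lit 380) (nat_lit 34408894995) (nat_lit 76) (nat_lit 78153640861) (nat_lit 163) (nat_lit 5) (nat_lit 168) (nat_lit 5) (nat_lit 164) (nat_lit 5) (nat_lit 487) (nat_lit 456) (nat_lit 257)) (XT.lf (nat_lit 0) (nat_lit 16125293527) (nat_lit 1292) (nat_lit 8326470432) (nat_lit 1292) (nat_lit 8326470432) (nat_lit 293) (nat_lit 3) (nat_lit 310) (nat_lit 3) (nat_lit 310) (nat_lit 5) (nat_lit 457) (nat_lit 457) (nat_lit 286))))) (XT.nd (nat_lit 234) (nat_lit 0) (nat_lit 152) (XT.nd (nat_lit 78) (nat_lit 0) (nat_lit 0) (XT.lf (nat_lit 0) (nat_lit 33491963204) (nat_lit 1216) (nat_lit 29166469472) (nat_lit 1292) (nat_lit 4523891023) (nat_lit 294) (nat_lit 5) (nat_lit 310) (nat_lit 5) (nat_lit 311) (nat_lit 5) (nat_lit 458) (nat_lit 457) (nat_lit 285)) (XT.nd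 (nat_lit 78) (nat_lit 0) (nat_lit 76) (XT.lf (nat_lit 76) (nat_lit 26910697655) (nat_lit 0) (nat_lit 8808518491) (nat_lit 1292) (nat_lit 33142541196) (nat_lit 295) (nat_lit 5) (nat_lit 294) (nat_lit 5) (nat_lit 311) (nat_lit 5) (nat_lit 459) (nat_lit 457) (nat_lit 284)) (XT.lf (nat_lit 76) (nat_lit 15627266071) (nat_lit 0) (nat_lit 23341327653) (nat_lit 1292) (nat_lit 31629246295) (nat_lit 296) (nat_lit 5) (nat_lit 295) (nat_lit 5) (nat_lit 312) (nat_lit 5) (nat_lit 460) (nat_lit 457) (nat_lit 283)))) (XT.nd (nat_lit 156) (nat_lit 0) (nat_lit 152) (XT.nd (nat_lit 78) (nat_lit 0) (nat_lit 76) (XT.lf (nat_lit 76) (nat_lit 4220223177) (nat_lit 0) (nat_lit 39045759591) (nat_lit 1292) (nat_lit 29128177984) (nat_lit 297) (nat_lit 5) (nat_lit 296) (nat_lit 5) (nat_lit 313) (nat_lit 5) (nat_lit 461) (nat_lit 457) (nat_lit 282)) (XT.lf (nat_lit 0) (nat_lit 48755780190) (nat_lit 1216) (nat_lit 7158050845)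 (nat_lit 1292) (nat_lit 18337140511) (nat_lit 297) (nat_lit 5) (nat_lit 313) (nat_lit 5) (nat_lit 314) (nat_lit 5) (nat_lit 462) (nat_lit 457) (nat_lit 281))) (XT.nd (nat_lit 78) (nat_lit 0) (nat_lit 0) (XT.lf (nat_lit 0) (nat_lit 55487774203) (nat_lit 1216) (nat_lit 18554743574) (nat_lit 1292) (nat_lit 2129074083) (nat_lit 298) (nat_lit 5) (nat_lit 314) (nat_lit 5) (nat_lit 315) (nat_lit 5) (nat_lit 463) (nat_lit 457) (nat_lit 280)) (XT.lf (nat_lit 76) (nat_lit 47963979131) (nat_lit 0) (nat_lit 15690953109) (nat_lit 1292) (nat_lit 14500354193) (nat_lit 299) (nat_lit 5) (nat_lit 298) (nat_lit 5) (nat_lit 315) (nat_lit 5) (nat_lit 464) (nat_lit 457) (nat_lit 279))))))))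
noncomputable def xc121 : XT := (XT.nd (nat_lit 62088) (nat_lit 0) (nat_lit 1064) (XT.nd (nat_lit 936) (nat_lit 4180) (nat_lit 0) (XT.nd (nat_lit 468) (nat_lit 3268) (nat_lit 0) (XT.nd (nat_lit 234) (nat_lit 1292) (nat_lit 0) (XT.nd (nat_lit 78) (nat_lit 1216) (nat_lit 0) (XT.lf (nat_lit 76) (nat_lit 38269762124) (nat_lit 0) (nat_lit 34958372042) (nat_lit 1292) (nat_lit 6980101156) (nat_lit 300) (nat_lit 5) (nat_lit 299) (nat_lit 5) (nat_lit 316) (nat_lit 5) (nat_lit 465) (nat_lit 457) (nat_lit 278)) (XT.nd (nat_lit 78) (nat_lit 0) (nat_lit 76) (XT.lf (nat_lit 0) (nat_lit 1907632381) (nat_lit 1292) (nat_lit 53780846600) (nat_lit 1368) (nat_lit 26644808258) (nat_lit 283) (nat_lit 5) (nat_lit 300) (nat_lit 5) (nat_lit 301) (nat_lit 5) (nat_lit 466) (nat_lit 457) (nat_lit 277)) (XT.lf (nat_lit 0) (nat_lit 12130512156) (nat_lit 1292) (nat_lit 65766852346) (nat_lit 76) (nat_lit 6634100536) (nat_lit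 284) (nat_lit 5) (nat_lit 301) (nat_lit 5) (nat_lit 285) (nat_lit 5) (nat_lit 467) (nat_lit 457) (nat_lit 276)))) (XT.nd (nat_lit 78) (nat_lit 608) (nat_lit 0) (XT.lf (nat_lit 0) (nat_lit 8842293594) (nat_lit 760) (nat_lit 15227349393) (nat_lit 836) (nat_lit 62733755667) (nat_lit 274) (nat_lit 5) (nat_lit 284) (nat_lit 5) (nat_lit 285) (nat_lit 5) (nat_lit 468) (nat_lit 457) (nat_lit 275)) (XT.nd (nat_lit 78) (nat_lit 608) (nat_lit 0) (XT.lf (nat_lit 0) (nat_lit 37774581916) (nat_lit 836) (nat_lit 1106221019) (nat_lit 76) (nat_lit 50273060600) (nat_lit 274) (nat_lit 5) (nat_lit 285) (nat_lit 5) (nat_lit 275) (nat_lit 5) (nat_lit 469) (nat_lit 457) (nat_lit 274)) (XT.lf (nat_lit 0) (nat_lit 53364668438) (nat_lit 684) (nat_lit 10844558222) (nat_lit 76) (nat_lit 27376628107) (nat_lit 266) (nat_lit 5) (nat_lit 275) (nat_lit 5) (nat_lit 267) (nat_lit 5) (nat_lit 470) (nat_lit 457) (nat_lit 273)))))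 (XT.nd (nat_lit 234) (nat_lit 1520) (nat_lit 0) (XT.nd (nat_lit 78) (nat_lit 1140) (nat_lit 0) (XT.lf (nat_lit 0) (nat_lit 70871377074) (nat_lit 684) (nat_lit 20524593477) (nat_lit 76) (nat_lit 2709361596) (nat_lit 258) (nat_lit 5) (nat_lit 267) (nat_lit 5) (nat_lit 259) (nat_lit 5) (nat_lit 471) (nat_lit 457) (nat_lit 272)) (XT.nd (nat_lit 78) (nat_lit 608) (nat_lit 0) (XT.lf (nat_lit 0) (nat_lit 66351131304) (nat_lit 532) (nat_lit 24300009466) (nat_lit 608) (nat_lit 6057711150) (nat_lit 251) (nat_lit 5) (nat_lit 258) (nat_lit 5) (nat_lit 259) (nat_lit 5) (nat_lit 472) (nat_lit 457) (nat_lit 271)) (XT.lf (nat_lit 0) (nat_lit 12981663306) (nat_lit 608) (nat_lit 40259708989) (nat_lit 76) (nat_lit 46160580302) (nat_lit 243) (nat_lit 5) (nat_lit 251) (nat_lit 5) (nat_lit 244) (nat_lit 5) (nat_lit 473) (nat_lit 457) (nat_lit 270)))) (XT.nd (nat_lit 78) (nat_lit 988) (nat_lit 0) (XT.lf (nat_lit 0) (nat_lit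 34087261957) (nat_lit 608) (nat_lit 50131956073) (nat_lit 76) (nat_lit 17971504912) (nat_lit 236) (nat_lit 5) (nat_lit 244) (nat_lit 5) (nat_lit 237) (nat_lit 5) (nat_lit 474) (nat_lit 457) (nat_lit 269)) (XT.nd (nat_lit 78) (nat_lit 456) (nat_lit 0) (XT.lf (nat_lit 0) (nat_lit 45064968382) (nat_lit 532) (nat_lit 12571466353) (nat_lit 608) (nat_lit 47440848337) (nat_lit 229) (nat_lit 5) (nat_lit 236) (nat_lit 5) (nat_lit 237) (nat_lit 5) (nat_lit 475) (nat_lit 457) (nat_lit 268)) (XT.lf (nat_lit 0) (nat_lit 38112036070) (nat_lit 456) (nat_lit 45740085680) (nat_lit 532) (nat_lit 24211377883) (nat_lit 223) (nat_lit 5) (nat_lit 229) (nat_lit 5) (nat_lit 230) (nat_lit 5) (nat_lit 476) (nat_lit 457) (nat_lit 267)))))) (XT.nd (nat_lit 468) (nat_lit 1824) (nat_lit 0) (XT.nd (nat_lit 234) (nat_lit 912) (nat_lit 0) (XT.nd (nat_lit 78) (nat_lit 912) (nat_lit 0) (XT.lf (nat_lit 0) (nat_lit 1523664797) (nat_lit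 532) (nat_lit 79761081519) (nat_lit 76) (nat_lit 29873800926) (nat_lit 216) (nat_lit 5) (nat_lit 223) (nat_lit 5) (nat_lit 217) (nat_lit 5) (nat_lit 477) (nat_lit 457) (nat_lit 266)) (XT.nd (nat_lit 78) (nat_lit 456) (nat_lit 0) (XT.lf (nat_lit 0) (nat_lit 24655947443) (nat_lit 456) (nat_lit 4818590905) (nat_lit 532) (nat_lit 84883723250) (nat_lit 210) (nat_lit 5) (nat_lit 216) (nat_lit 5) (nat_lit 217) (nat_lit 5) (nat_lit 478) (nat_lit 457) (nat_lit 265)) (XT.lf (nat_lit 0) (nat_lit 17881721991) (nat_lit 456) (nat_lit 42667081136) (nat_lit 532) (nat_lit 57117383194) (nat_lit 204) (nat_lit 5) (nat_lit 210) (nat_lit 5) (nat_lit 211) (nat_lit 5) (nat_lit 479) (nat_lit 457) (nat_lit 264)))) (XT.nd (nat_lit 78) (nat_lit 532) (nat_lit 0) (XT.lf (nat_lit 0) (nat_lit 11411011184) (nat_lit 380) (nat_lit 83216626681) (nat_lit 456) (nat_lit 26468343788) (nat_lit 199) (nat_lit 5) (nat_lit 204) (nat_lit 5)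 (nat_lit 205) (nat_lit 5) (nat_lit 480) (nat_lit 457) (nat_lit 263)) (XT.nd (nat_lit 78) (nat_lit 0) (nat_lit 0) (XT.lf (nat_lit 0) (nat_lit 5189677384) (nat_lit 456) (nat_lit 1929212974) (nat_lit 532) (nat_lit 117531212106) (nat_lit 192) (nat_lit 5) (nat_lit 198) (nat_lit 5) (nat_lit 199) (nat_lit 5) (nat_lit 481) (nat_lit 457) (nat_lit 262)) (XT.lf (nat_lit 0) (nat_lit 43784717077) (nat_lit 532) (nat_lit 1329003013) (nat_lit 76) (nat_lit 83201948301) (nat_lit 192) (nat_lit 5) (nat_lit 199) (nat_lit 5) (nat_lit 193) (nat_lit 5) (nat_lit 482) (nat_lit 457) (nat_lit 261))))) (XT.nd (nat_lit 234) (nat_lit 684) (nat_lit 0) (XT.nd (nat_lit 78) (nat_lit 760) (nat_lit 0) (XT.lf (nat_lit 0) (nat_lit 83905642893) (nat_lit 456) (nat_lit 7397540115) (nat_lit 76) (nat_lit 40812675435) (nat_lit 187) (nat_lit 5) (nat_lit 193) (nat_lit 5) (nat_lit 188) (nat_lit 5) (nat_lit 483) (nat_lit 457) (nat_lit 260)) (XT.nd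 (nat_lit 78) (nat_lit 380) (nat_lit 0) (XT.lf (nat_lit 0) (nat_lit 122932700867) (nat_lit 380) (nat_lit 4750179559) (nat_lit 456) (nat_lit 8373669666) (nat_lit 182) (nat_lit 5) (nat_lit 187) (nat_lit 5) (nat_lit 188) (nat_lit 5) (nat_lit 484) (nat_lit 457) (nat_lit 259)) (XT.lf (nat_lit 0) (nat_lit 34892450721) (nat_lit 380) (nat_lit 19195110222) (nat_lit 76) (nat_lit 86034350753) (nat_lit 177) (nat_lit 5) (nat_lit 182) (nat_lit 5) (nat_lit 178) (nat_lit 5) (nat_lit 485) (nat_lit 457) (nat_lit 258)))) (XT.nd (nat_lit 60294) (nat_lit 0) (nat_lit 9500) (XT.nd (nat_lit 78) (nat_lit 304) (nat_lit 0) (XT.lf (nat_lit 0) (nat_lit 81853445049) (nat_lit 456) (nat_lit 24945664205) (nat_lit 76) (nat_lit 37537802502) (nat_lit 172) (nat_lit 5) (nat_lit 178) (nat_lit 5) (nat_lit 173) (nat_lit 5) (nat_lit 486) (nat_lit 457) (nat_lit 257)) (XT.lf (nat_lit 0) (nat_lit 118311333364) (nat_lit 304) (nat_lit 14733360546)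 (nat_lit 380) (nat_lit 15661501812) (nat_lit 168) (nat_lit 5) (nat_lit 172) (nat_lit 5) (nat_lit 173) (nat_lit 5) (nat_lit 487) (nat_lit 457) (nat_lit 256))) (XT.nd (nat_lit 78) (nat_lit 0) (nat_lit 76) (XT.lf (nat_lit 0) (nat_lit 16956058445) (nat_lit 1292) (nat_lit 8730174626) (nat_lit 1292) (nat_lit 8730174626) (nat_lit 293) (nat_lit 3) (nat_lit 310) (nat_lit 3) (nat_lit 310) (nat_lit 5) (nat_lit 458) (nat_lit 458) (nat_lit 284)) (XT.lf (nat_lit 0) (nat_lit 35213248943) (nat_lit 1216) (nat_lit 30598648978) (nat_lit 1292) (nat_lit 4728134848) (nat_lit 294) (nat_lit 5) (nat_lit 310) (nat_lit 5) (nat_lit 311) (nat_lit 5) (nat_lit 459) (nat_lit 458) (nat_lit 283))))))) (XT.nd (nat_lit 1014) (nat_lit 5776) (nat_lit 0) (XT.nd (nat_lit 468) (nat_lit 2736) (nat_lit 0) (XT.nd (nat_lit 234) (nat_lit 0) (nat_lit 228) (XT.nd (nat_lit 78) (nat_lit 0) (nat_lit 76) (XT.lf (nat_lit 76) (nat_lit 28281627094)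 (nat_lit 0) (nat_lit 9268258328) (nat_lit 1292) (nat_lit 34753612355) (nat_lit 295) (nat_lit 5) (nat_lit 294) (nat_lit 5) (nat_lit 311) (nat_lit 5) (nat_lit 460) (nat_lit 458) (nat_lit 282)) (XT.nd (nat_lit 78) (nat_lit 0) (nat_lit 76) (XT.lf (nat_lit 76) (nat_lit 16434785146) (nat_lit 0) (nat_lit 24524892367) (nat_lit 1292) (nat_lit 33166768999) (nat_lit 296) (nat_lit 5) (nat_lit 295) (nat_lit 5) (nat_lit 312) (nat_lit 5) (nat_lit 461) (nat_lit 458) (nat_lit 281)) (XT.lf (nat_lit 76) (nat_lit 4458043062) (nat_lit 0) (nat_lit 41011968461) (nat_lit 1292) (nat_lit 30542629774) (nat_lit 297) (nat_lit 5) (nat_lit 296) (nat_lit 5) (nat_lit 313) (nat_lit 5) (nat_lit 462) (nat_lit 458) (nat_lit 280)))) (XT.nd (nat_lit 78) (nat_lit 0) (nat_lit 76) (XT.lf (nat_lit 0) (nat_lit 51232231866) (nat_lit 1216) (nat_lit 7489124782) (nat_lit 1292) (nat_lit 19240998257) (nat_lit 297) (nat_lit 5) (nat_lit 313) (nat_lit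 5) (nat_lit 314) (nat_lit 5) (nat_lit 463) (nat_lit 458) (nat_lit 279)) (XT.nd (nat_lit 78) (nat_lit 0) (nat_lit 0) (XT.lf (nat_lit 0) (nat_lit 58299129142) (nat_lit 1216) (nat_lit 19455198080) (nat_lit 1292) (nat_lit 2224730161) (nat_lit 298) (nat_lit 5) (nat_lit 314) (nat_lit 5) (nat_lit 315) (nat_lit 5) (nat_lit 464) (nat_lit 458) (nat_lit 278)) (XT.lf (nat_lit 76) (nat_lit 50388678708) (nat_lit 0) (nat_lit 16484460817) (nat_lit 1292) (nat_lit 15188842569) (nat_lit 299) (nat_lit 5) (nat_lit 298) (nat_lit 5) (nat_lit 315) (nat_lit 5) (nat_lit 465) (nat_lit 458) (nat_lit 277))))) (XT.nd (nat_lit 234) (nat_lit 1900) (nat_lit 0) (XT.nd (nat_lit 78) (nat_lit 1216) (nat_lit 0) (XT.lf (nat_lit 76) (nat_lit 40210112904) (nat_lit 0) (nat_lit 36713376231) (nat_lit 1292) (nat_lit 7294134894) (nat_lit 300) (nat_lit 5) (nat_lit 299) (nat_lit 5) (nat_lit 316) (nat_lit 5) (nat_lit 466) (nat_lit 458) (nat_lit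 276)) (XT.nd (nat_lit 78) (nat_lit 0) (nat_lit 76) (XT.lf (nat_lit 0) (nat_lit 2035868180) (nat_lit 1292) (nat_lit 56442078252) (nat_lit 1368) (nat_lit 27971015281) (nat_lit 283) (nat_lit 5) (nat_lit 300) (nat_lit 5) (nat_lit 301) (nat_lit 5) (nat_lit 467) (nat_lit 458) (nat_lit 275)) (XT.lf (nat_lit 0) (nat_lit 12768543528) (nat_lit 1292) (nat_lit 69027187330) (nat_lit 76) (nat_lit 6961358200) (nat_lit 284) (nat_lit 5) (nat_lit 301) (nat_lit 5) (nat_lit 285) (nat_lit 5) (nat_lit 468) (nat_lit 458) (nat_lit 274)))) (XT.nd (nat_lit 156) (nat_lit 1216) (nat_lit 0) (XT.nd (nat_lit 78) (nat_lit 0) (nat_lit 0) (XT.lf (nat_lit 0) (nat_lit 9311613075) (nat_lit 760) (nat_lit 15991779060) (nat_lit 836) (nat_lit 65839264575) (nat_lit 274) (nat_lit 5) (nat_lit 284) (nat_lit 5) (nat_lit 285) (nat_lit 5) (nat_lit 469) (nat_lit 458) (nat_lit 273)) (XT.lf (nat_lit 0) (nat_lit 39692108691) (nat_lit 836) (nat_lit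 1134726248) (nat_lit 76) (nat_lit 52783854160) (nat_lit 274) (nat_lit 5) (nat_lit 285) (nat_lit 5) (nat_lit 275) (nat_lit 5) (nat_lit 470) (nat_lit 458) (nat_lit 272))) (XT.nd (nat_lit 78) (nat_lit 608) (nat_lit 0) (XT.lf (nat_lit 0) (nat_lit 56060562752) (nat_lit 684) (nat_lit 11359899131) (nat_lit 76) (nat_lit 28743852289) (nat_lit 266) (nat_lit 5) (nat_lit 275) (nat_lit 5) (nat_lit 267) (nat_lit 5) (nat_lit 471) (nat_lit 458) (nat_lit 271)) (XT.lf (nat_lit 0) (nat_lit 74441536081) (nat_lit 684) (nat_lit 21523901077) (nat_lit 76) (nat_lit 2844360552) (nat_lit 258) (nat_lit 5) (nat_lit 267) (nat_lit 5) (nat_lit 259) (nat_lit 5) (nat_lit 472) (nat_lit 458) (nat_lit 270)))))) (XT.nd (nat_lit 468) (nat_lit 2584) (nat_lit 0) (XT.nd (nat_lit 234) (nat_lit 1520) (nat_lit 0) (XT.nd (nat_lit 78) (nat_lit 1140) (nat_lit 0) (XT.lf (nat_lit 0) (nat_lit 69694838228) (nat_lit 532) (nat_lit 25514434910) (nat_lit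 608) (nat_lit 6334250938) (nat_lit 251) (nat_lit 5) (nat_lit 258) (nat_lit 5) (nat_lit 259) (nat_lit 5) (nat_lit 473) (nat_lit 458) (nat_lit 269)) (XT.nd (nat_lit 78) (nat_lit 532) (nat_lit 0) (XT.lf (nat_lit 0) (nat_lit 13655607175) (nat_lit 608) (nat_lit 42246052969) (nat_lit 76) (nat_lit 48469641321) (nat_lit 243) (nat_lit 5) (nat_lit 251) (nat_lit 5) (nat_lit 244) (nat_lit 5) (nat_lit 474) (nat_lit 458) (nat_lit 268)) (XT.lf (nat_lit 0) (nat_lit 35815569434) (nat_lit 608) (nat_lit 52611974275) (nat_lit 76) (nat_lit 18871994246) (nat_lit 236) (nat_lit 5) (nat_lit 244) (nat_lit 5) (nat_lit 237) (nat_lit 5) (nat_lit 475) (nat_lit 458) (nat_lit 267)))) (XT.nd (nat_lit 78) (nat_lit 988) (nat_lit 0) (XT.lf (nat_lit 0) (nat_lit 47344034504) (nat_lit 532) (nat_lit 13197274314) (nat_lit 608) (nat_lit 49789144169) (nat_lit 229) (nat_lit 5) (nat_lit 236) (nat_lit 5) (nat_lit 237) (nat_lit 5) (nat_lit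 476) (nat_lit 458) (nat_lit 266)) (XT.nd (nat_lit 78) (nat_lit 532) (nat_lit 0) (XT.lf (nat_lit 0) (nat_lit 40043364034) (nat_lit 456) (nat_lit 48023591031) (nat_lit 532) (nat_lit 25399050192) (nat_lit 223) (nat_lit 5) (nat_lit 229) (nat_lit 5) (nat_lit 230) (nat_lit 5) (nat_lit 477) (nat_lit 458) (nat_lit 265)) (XT.lf (nat_lit 0) (nat_lit 1621509719) (nat_lit 532) (nat_lit 83723095909) (nat_lit 76) (nat_lit 31371216776) (nat_lit 216) (nat_lit 5) (nat_lit 223) (nat_lit 5) (nat_lit 217) (nat_lit 5) (nat_lit 478) (nat_lit 458) (nat_lit 264))))) (XT.nd (nat_lit 234) (nat_lit 1292) (nat_lit 0) (XT.nd (nat_lit 78) (nat_lit 836) (nat_lit 0) (XT.lf (nat_lit 0) (nat_lit 25914038079) (nat_lit 456) (nat_lit 5055100494) (nat_lit 532) (nat_lit 89106407668) (nat_lit 210) (nat_lit 5) (nat_lit 216) (nat_lit 5) (nat_lit 217) (nat_lit 5) (nat_lit 479) (nat_lit 458) (nat_lit 263)) (XT.nd (nat_lit 78) (nat_lit 380)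 (nat_lit 0) (XT.lf (nat_lit 0) (nat_lit 18800945482) (nat_lit 456) (nat_lit 44795459243) (nat_lit 532) (nat_lit 59952483939) (nat_lit 204) (nat_lit 5) (nat_lit 210) (nat_lit 5) (nat_lit 211) (nat_lit 5) (nat_lit 480) (nat_lit 458) (nat_lit 262)) (XT.lf (nat_lit 0) (nat_lit 12006521691) (nat_lit 380) (nat_lit 87371984924) (nat_lit 456) (nat_lit 27771687485) (nat_lit 199) (nat_lit 5) (nat_lit 204) (nat_lit 5) (nat_lit 205) (nat_lit 5) (nat_lit 481) (nat_lit 458) (nat_lit 261)))) (XT.nd (nat_lit 156) (nat_lit 760) (nat_lit 0) (XT.nd (nat_lit 78) (nat_lit 0) (nat_lit 0) (XT.lf (nat_lit 0) (nat_lit 5473788121) (nat_lit 456) (nat_lit 2020028042) (nat_lit 532) (nat_lit 123388220109) (nat_lit 192) (nat_lit 5) (nat_lit 198) (nat_lit 5) (nat_lit 199) (nat_lit 5) (nat_lit 482) (nat_lit 458) (nat_lit 260)) (XT.lf (nat_lit 0) (nat_lit 45992082032) (nat_lit 532) (nat_lit 1371506578) (nat_lit 76) (nat_lit 87367317541)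 (nat_lit 192) (nat_lit 5) (nat_lit 199) (nat_lit 5) (nat_lit 193) (nat_lit 5) (nat_lit 483) (nat_lit 458) (nat_lit 259))) (XT.nd (nat_lit 78) (nat_lit 380) (nat_lit 0) (XT.lf (nat_lit 0) (nat_lit 88118469911) (nat_lit 456) (nat_lit 7743686047) (nat_lit 76) (nat_lit 42858967359) (nat_lit 187) (nat_lit 5) (nat_lit 193) (nat_lit 5) (nat_lit 188) (nat_lit 5) (nat_lit 484) (nat_lit 458) (nat_lit 258)) (XT.lf (nat_lit 0) (nat_lit 129102386737) (nat_lit 380) (nat_lit 4981568692) (nat_lit 456) (nat_lit 8774912617) (nat_lit 182) (nat_lit 5) (nat_lit 187) (nat_lit 5) (nat_lit 188) (nat_lit 5) (nat_lit 485) (nat_lit 458) (nat_lit 257))))))))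
noncomputable def xc122 : XT := (XT.nd (nat_lit 62166) (nat_lit 0) (nat_lit 760) (XT.nd (nat_lit 61152) (nat_lit 0) (nat_lit 2432) (XT.nd (nat_lit 60684) (nat_lit 0) (nat_lit 8436) (XT.nd (nat_lit 60450) (nat_lit 0) (nat_lit 9272) (XT.nd (nat_lit 78) (nat_lit 380) (nat_lit 0) (XT.lf (nat_lit 0) (nat_lit 36653637356) (nat_lit 380) (nat_lit 20131706694) (nat_lit 76) (nat_lit 90342164810) (nat_lit 177) (nat_lit 5) (nat_lit 182) (nat_lit 5) (nat_lit 178) (nat_lit 5) (nat_lit 486) (nat_lit 458) (nat_lit 256)) (XT.nd (nat_lit 60294) (nat_lit 0) (nat_lit 9196) (XT.lf (nat_lit 0) (nat_lit 85962171387) (nat_lit 456) (nat_lit 26170033568) (nat_lit 76) (nat_lit 39421069339) (nat_lit 172) (nat_lit 5) (nat_lit 178) (nat_lit 5) (nat_lit 173) (nat_lit 5) (nat_lit 487) (nat_lit 458) (nat_lit 255)) (XT.lf (nat_lit 0) (nat_lit 17826083808) (nat_lit 1292) (nat_lit 9155237256) (nat_lit 1292) (nat_lit 9155237256) (nat_lit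 293) (nat_lit 3) (nat_lit 310) (nat_lit 3) (nat_lit 310) (nat_lit 5) (nat_lit 459) (nat_lit 459) (nat_lit 282)))) (XT.nd (nat_lit 78) (nat_lit 0) (nat_lit 0) (XT.lf (nat_lit 0) (nat_lit 37016258400) (nat_lit 1216) (nat_lit 32104868077) (nat_lit 1292) (nat_lit 4944631636) (nat_lit 294) (nat_lit 5) (nat_lit 310) (nat_lit 5) (nat_lit 311) (nat_lit 5) (nat_lit 460) (nat_lit 459) (nat_lit 281)) (XT.nd (nat_lit 78) (nat_lit 0) (nat_lit 76) (XT.lf (nat_lit 76) (nat_lit 29718742060) (nat_lit 0) (nat_lit 9749189531) (nat_lit 1292) (nat_lit 36449518913) (nat_lit 295) (nat_lit 5) (nat_lit 294) (nat_lit 5) (nat_lit 311) (nat_lit 5) (nat_lit 461) (nat_lit 459) (nat_lit 280)) (XT.lf (nat_lit 76) (nat_lit 17280248458) (nat_lit 0) (nat_lit 25766101458) (nat_lit 1292) (nat_lit 34785252927) (nat_lit 296) (nat_lit 5) (nat_lit 295) (nat_lit 5) (nat_lit 312) (nat_lit 5) (nat_lit 462) (nat_lit 459) (nat_lit 279)))))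 (XT.nd (nat_lit 234) (nat_lit 988) (nat_lit 0) (XT.nd (nat_lit 78) (nat_lit 0) (nat_lit 76) (XT.lf (nat_lit 76) (nat_lit 4705261520) (nat_lit 0) (nat_lit 43075193543) (nat_lit 1292) (nat_lit 32031704927) (nat_lit 297) (nat_lit 5) (nat_lit 296) (nat_lit 5) (nat_lit 313) (nat_lit 5) (nat_lit 463) (nat_lit 459) (nat_lit 278)) (XT.nd (nat_lit 78) (nat_lit 0) (nat_lit 76) (XT.lf (nat_lit 0) (nat_lit 53828911638) (nat_lit 1216) (nat_lit 7839246687) (nat_lit 1292) (nat_lit 20191257440) (nat_lit 297) (nat_lit 5) (nat_lit 313) (nat_lit 5) (nat_lit 314) (nat_lit 5) (nat_lit 464) (nat_lit 459) (nat_lit 277)) (XT.lf (nat_lit 0) (nat_lit 61247615059) (nat_lit 1216) (nat_lit 20403211796) (nat_lit 1292) (nat_lit 2326172903) (nat_lit 298) (nat_lit 5) (nat_lit 314) (nat_lit 5) (nat_lit 315) (nat_lit 5) (nat_lit 465) (nat_lit 459) (nat_lit 276)))) (XT.nd (nat_lit 78) (nat_lit 1140) (nat_lit 0) (XT.lf (nat_lit 76)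 (nat_lit 52932149488) (nat_lit 0) (nat_lit 17316810889) (nat_lit 1292) (nat_lit 15915151514) (nat_lit 299) (nat_lit 5) (nat_lit 298) (nat_lit 5) (nat_lit 315) (nat_lit 5) (nat_lit 466) (nat_lit 459) (nat_lit 275)) (XT.nd (nat_lit 78) (nat_lit 1216) (nat_lit 0) (XT.lf (nat_lit 76) (nat_lit 42244983787) (nat_lit 0) (nat_lit 38555471879) (nat_lit 1292) (nat_lit 7627121621) (nat_lit 300) (nat_lit 5) (nat_lit 299) (nat_lit 5) (nat_lit 316) (nat_lit 5) (nat_lit 467) (nat_lit 459) (nat_lit 274)) (XT.lf (nat_lit 0) (nat_lit 2167461299) (nat_lit 1292) (nat_lit 59238957059) (nat_lit 1368) (nat_lit 29364093583) (nat_lit 283) (nat_lit 5) (nat_lit 300) (nat_lit 5) (nat_lit 301) (nat_lit 5) (nat_lit 468) (nat_lit 459) (nat_lit 273)))))) (XT.nd (nat_lit 468) (nat_lit 3572) (nat_lit 0) (XT.nd (nat_lit 234) (nat_lit 1748) (nat_lit 0) (XT.nd (nat_lit 78) (nat_lit 760) (nat_lit 0) (XT.lf (nat_lit 0) (nat_lit 13435547361)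 (nat_lit 1292) (nat_lit 72453142946) (nat_lit 76) (nat_lit 7305392220) (nat_lit 284) (nat_lit 5) (nat_lit 301) (nat_lit 5) (nat_lit 285) (nat_lit 5) (nat_lit 469) (nat_lit 459) (nat_lit 272)) (XT.nd (nat_lit 78) (nat_lit 0) (nat_lit 0) (XT.lf (nat_lit 0) (nat_lit 9801869285) (nat_lit 760) (nat_lit 16794145517) (nat_lit 836) (nat_lit 69102947644) (nat_lit 274) (nat_lit 5) (nat_lit 284) (nat_lit 5) (nat_lit 285) (nat_lit 5) (nat_lit 470) (nat_lit 459) (nat_lit 271)) (XT.lf (nat_lit 0) (nat_lit 41702834470) (nat_lit 836) (nat_lit 1167148889) (nat_lit 76) (nat_lit 55420453245) (nat_lit 274) (nat_lit 5) (nat_lit 285) (nat_lit 5) (nat_lit 275) (nat_lit 5) (nat_lit 471) (nat_lit 459) (nat_lit 270)))) (XT.nd (nat_lit 78) (nat_lit 1140) (nat_lit 0) (XT.lf (nat_lit 0) (nat_lit 58888680134) (nat_lit 684) (nat_lit 11903506783) (nat_lit 76) (nat_lit 30179587105) (nat_lit 266) (nat_lit 5) (nat_lit 275) (nat_lit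 5) (nat_lit 267) (nat_lit 5) (nat_lit 472) (nat_lit 459) (nat_lit 269)) (XT.nd (nat_lit 78) (nat_lit 532) (nat_lit 0) (XT.lf (nat_lit 0) (nat_lit 78187730937) (nat_lit 684) (nat_lit 22575677016) (nat_lit 76) (nat_lit 2986153071) (nat_lit 258) (nat_lit 5) (nat_lit 267) (nat_lit 5) (nat_lit 259) (nat_lit 5) (nat_lit 473) (nat_lit 459) (nat_lit 268)) (XT.lf (nat_lit 0) (nat_lit 73203299285) (nat_lit 532) (nat_lit 26789635086) (nat_lit 608) (nat_lit 6627067096) (nat_lit 251) (nat_lit 5) (nat_lit 258) (nat_lit 5) (nat_lit 259) (nat_lit 5) (nat_lit 474) (nat_lit 459) (nat_lit 267))))) (XT.nd (nat_lit 234) (nat_lit 1900) (nat_lit 0) (XT.nd (nat_lit 78) (nat_lit 1064) (nat_lit 0) (XT.lf (nat_lit 0) (nat_lit 14360936924) (nat_lit 608) (nat_lit 44334191020) (nat_lit 76) (nat_lit 50894059444) (nat_lit 243) (nat_lit 5) (nat_lit 251) (nat_lit 5) (nat_lit 244) (nat_lit 5) (nat_lit 475) (nat_lit 459) (nat_lit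 266)) (XT.nd (nat_lit 78) (nat_lit 532) (nat_lit 0) (XT.lf (nat_lit 0) (nat_lit 37628066163) (nat_lit 608) (nat_lit 55218464507) (nat_lit 76) (nat_lit 19817330094) (nat_lit 236) (nat_lit 5) (nat_lit 244) (nat_lit 5) (nat_lit 237) (nat_lit 5) (nat_lit 476) (nat_lit 459) (nat_lit 265)) (XT.lf (nat_lit 0) (nat_lit 49734653646) (nat_lit 532) (nat_lit 13854629770) (nat_lit 608) (nat_lit 52257062525) (nat_lit 229) (nat_lit 5) (nat_lit 236) (nat_lit 5) (nat_lit 237) (nat_lit 5) (nat_lit 477) (nat_lit 459) (nat_lit 264)))) (XT.nd (nat_lit 156) (nat_lit 912) (nat_lit 0) (XT.nd (nat_lit 78) (nat_lit 532) (nat_lit 0) (XT.lf (nat_lit 0) (nat_lit 42068866622) (nat_lit 456) (nat_lit 50421596946) (nat_lit 532) (nat_lit 26648234823) (nat_lit 223) (nat_lit 5) (nat_lit 229) (nat_lit 5) (nat_lit 230) (nat_lit 5) (nat_lit 478) (nat_lit 459) (nat_lit 263)) (XT.lf (nat_lit 0) (nat_lit 1722232989) (nat_lit 532) (nat_lit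 87885631941) (nat_lit 76) (nat_lit 32943157029) (nat_lit 216) (nat_lit 5) (nat_lit 223) (nat_lit 5) (nat_lit 217) (nat_lit 5) (nat_lit 479) (nat_lit 459) (nat_lit 262))) (XT.nd (nat_lit 78) (nat_lit 456) (nat_lit 0) (XT.lf (nat_lit 0) (nat_lit 27232681719) (nat_lit 456) (nat_lit 5303846488) (nat_lit 532) (nat_lit 93542225335) (nat_lit 210) (nat_lit 5) (nat_lit 216) (nat_lit 5) (nat_lit 217) (nat_lit 5) (nat_lit 480) (nat_lit 459) (nat_lit 261)) (XT.lf (nat_lit 0) (nat_lit 19763793111) (nat_lit 456) (nat_lit 47030718872) (nat_lit 532) (nat_lit 62931270571) (nat_lit 204) (nat_lit 5) (nat_lit 210) (nat_lit 5) (nat_lit 211) (nat_lit 5) (nat_lit 481) (nat_lit 459) (nat_lit 260))))))) (XT.nd (nat_lit 61386) (nat_lit 0) (nat_lit 2584) (XT.nd (nat_lit 60840) (nat_lit 0) (nat_lit 8512) (XT.nd (nat_lit 234) (nat_lit 760) (nat_lit 0) (XT.nd (nat_lit 78) (nat_lit 532) (nat_lit 0) (XT.lf (nat_lit 0) (nat_lit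 12629487184) (nat_lit 380) (nat_lit 91735619916) (nat_lit 456) (nat_lit 29142064611) (nat_lit 199) (nat_lit 5) (nat_lit 204) (nat_lit 5) (nat_lit 205) (nat_lit 5) (nat_lit 482) (nat_lit 459) (nat_lit 259)) (XT.nd (nat_lit 78) (nat_lit 0) (nat_lit 0) (XT.lf (nat_lit 0) (nat_lit 5769814822) (nat_lit 456) (nat_lit 2115908736) (nat_lit 532) (nat_lit 129539896329) (nat_lit 192) (nat_lit 5) (nat_lit 198) (nat_lit 5) (nat_lit 199) (nat_lit 5) (nat_lit 483) (nat_lit 459) (nat_lit 258)) (XT.lf (nat_lit 0) (nat_lit 48308129762) (nat_lit 532) (nat_lit 1418361649) (nat_lit 76) (nat_lit 91740465118) (nat_lit 192) (nat_lit 5) (nat_lit 199) (nat_lit 5) (nat_lit 193) (nat_lit 5) (nat_lit 484) (nat_lit 459) (nat_lit 257)))) (XT.nd (nat_lit 78) (nat_lit 380) (nat_lit 0) (XT.lf (nat_lit 0) (nat_lit 92540307123) (nat_lit 456) (nat_lit 8109345567) (nat_lit 76) (nat_lit 45007047837) (nat_lit 187) (nat_lit 5) (nat_lit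 193) (nat_lit 5) (nat_lit 188) (nat_lit 5) (nat_lit 485) (nat_lit 459) (nat_lit 256)) (XT.nd (nat_lit 60450) (nat_lit 0) (nat_lit 8436) (XT.lf (nat_lit 0) (nat_lit 135578413853) (nat_lit 380) (nat_lit 5225096247) (nat_lit 456) (nat_lit 9197839172) (nat_lit 182) (nat_lit 5) (nat_lit 187) (nat_lit 5) (nat_lit 188) (nat_lit 5) (nat_lit 486) (nat_lit 459) (nat_lit 255)) (XT.lf (nat_lit 0) (nat_lit 18737544408) (nat_lit 1292) (nat_lit 9602617167) (nat_lit 1292) (nat_lit 9602617167) (nat_lit 293) (nat_lit 3) (nat_lit 310) (nat_lit 3) (nat_lit 310) (nat_lit 5) (nat_lit 460) (nat_lit 460) (nat_lit 280))))) (XT.nd (nat_lit 234) (nat_lit 0) (nat_lit 152) (XT.nd (nat_lit 78) (nat_lit 0) (nat_lit 0) (XT.lf (nat_lit 0) (nat_lit 38905481306) (nat_lit 1216) (nat_lit 33688602774) (nat_lit 1292) (nat_lit 5173804302) (nat_lit 294) (nat_lit 5) (nat_lit 310) (nat_lit 5) (nat_lit 311) (nat_lit 5) (nat_lit 461) (nat_lit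 460) (nat_lit 279)) (XT.nd (nat_lit 78) (nat_lit 0) (nat_lit 76) (XT.lf (nat_lit 76) (nat_lit 31225571327) (nat_lit 0) (nat_lit 10252538611) (nat_lit 1292) (nat_lit 38234104554) (nat_lit 295) (nat_lit 5) (nat_lit 294) (nat_lit 5) (nat_lit 311) (nat_lit 5) (nat_lit 462) (nat_lit 460) (nat_lit 278)) (XT.lf (nat_lit 76) (nat_lit 18165779298) (nat_lit 0) (nat_lit 27067979750) (nat_lit 1292) (nat_lit 36488366348) (nat_lit 296) (nat_lit 5) (nat_lit 295) (nat_lit 5) (nat_lit 312) (nat_lit 5) (nat_lit 463) (nat_lit 460) (nat_lit 277)))) (XT.nd (nat_lit 156) (nat_lit 0) (nat_lit 152) (XT.nd (nat_lit 78) (nat_lit 0) (nat_lit 76) (XT.lf (nat_lit 76) (nat_lit 4962580201) (nat_lit 0) (nat_lit 45240405971) (nat_lit 1292) (nat_lit 33598771956) (nat_lit 297) (nat_lit 5) (nat_lit 296) (nat_lit 5) (nat_lit 313) (nat_lit 5) (nat_lit 464) (nat_lit 460) (nat_lit 276)) (XT.lf (nat_lit 0) (nat_lit 56552165092) (nat_lit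 1216) (nat_lit 8209137062) (nat_lit 1292) (nat_lit 21190125772) (nat_lit 297) (nat_lit 5) (nat_lit 313) (nat_lit 5) (nat_lit 314) (nat_lit 5) (nat_lit 465) (nat_lit 460) (nat_lit 275))) (XT.nd (nat_lit 78) (nat_lit 0) (nat_lit 0) (XT.lf (nat_lit 0) (nat_lit 64340408020) (nat_lit 1216) (nat_lit 21400926863) (nat_lit 1292) (nat_lit 2433598315) (nat_lit 298) (nat_lit 5) (nat_lit 314) (nat_lit 5) (nat_lit 315) (nat_lit 5) (nat_lit 466) (nat_lit 460) (nat_lit 274)) (XT.lf (nat_lit 76) (nat_lit 55600559088) (nat_lit 0) (nat_lit 18190022891) (nat_lit 1292) (nat_lit 16680856317) (nat_lit 299) (nat_lit 5) (nat_lit 298) (nat_lit 5) (nat_lit 315) (nat_lit 5) (nat_lit 467) (nat_lit 460) (nat_lit 273)))))) (XT.nd (nat_lit 468) (nat_lit 3800) (nat_lit 0) (XT.nd (nat_lit 234) (nat_lit 1292) (nat_lit 0) (XT.nd (nat_lit 78) (nat_lit 1216) (nat_lit 0) (XT.lf (nat_lit 76) (nat_lit 44379332966) (nat_lit 0) (nat_lit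 40489074802) (nat_lit 1292) (nat_lit 7979706710) (nat_lit 300) (nat_lit 5) (nat_lit 299) (nat_lit 5) (nat_lit 316) (nat_lit 5) (nat_lit 468) (nat_lit 460) (nat_lit 272)) (XT.nd (nat_lit 78) (nat_lit 0) (nat_lit 76) (XT.lf (nat_lit 0) (nat_lit 2302863579) (nat_lit 1292) (nat_lit 62178024998) (nat_lit 1368) (nat_lit 30827334577) (nat_lit 283) (nat_lit 5) (nat_lit 300) (nat_lit 5) (nat_lit 301) (nat_lit 5) (nat_lit 469) (nat_lit 460) (nat_lit 271)) (XT.lf (nat_lit 0) (nat_lit 14133244599) (nat_lit 1292) (nat_lit 76052758144) (nat_lit 76) (nat_lit 7667002975) (nat_lit 284) (nat_lit 5) (nat_lit 301) (nat_lit 5) (nat_lit 285) (nat_lit 5) (nat_lit 470) (nat_lit 460) (nat_lit 270)))) (XT.nd (nat_lit 78) (nat_lit 608) (nat_lit 0) (XT.lf (nat_lit 0) (nat_lit 10314344206) (nat_lit 760) (nat_lit 17636372071) (nat_lit 836) (nat_lit 72532444089) (nat_lit 274) (nat_lit 5) (nat_lit 284) (nat_lit 5) (nat_lit 285)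 (nat_lit 5) (nat_lit 471) (nat_lit 460) (nat_lit 269)) (XT.nd (nat_lit 78) (nat_lit 608) (nat_lit 0) (XT.lf (nat_lit 0) (nat_lit 43811668115) (nat_lit 836) (nat_lit 1203453118) (nat_lit 76) (nat_lit 58189123414) (nat_lit 274) (nat_lit 5) (nat_lit 285) (nat_lit 5) (nat_lit 275) (nat_lit 5) (nat_lit 472) (nat_lit 460) (nat_lit 268)) (XT.lf (nat_lit 0) (nat_lit 61855870824) (nat_lit 684) (nat_lit 12476562119) (nat_lit 76) (nat_lit 31687244194) (nat_lit 266) (nat_lit 5) (nat_lit 275) (nat_lit 5) (nat_lit 267) (nat_lit 5) (nat_lit 473) (nat_lit 460) (nat_lit 267))))) (XT.nd (nat_lit 234) (nat_lit 2052) (nat_lit 0) (XT.nd (nat_lit 78) (nat_lit 1140) (nat_lit 0) (XT.lf (nat_lit 0) (nat_lit 82118993269) (nat_lit 684) (nat_lit 23682312009) (nat_lit 76) (nat_lit 3135074775) (nat_lit 258) (nat_lit 5) (nat_lit 267) (nat_lit 5) (nat_lit 259) (nat_lit 5) (nat_lit 474) (nat_lit 460) (nat_lit 266)) (XT.nd (nat_lit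 78) (nat_lit 608) (nat_lit 0) (XT.lf (nat_lit 0) (nat_lit 76884978214) (nat_lit 532) (nat_lit 28128643762) (nat_lit 608) (nat_lit 6936745721) (nat_lit 251) (nat_lit 5) (nat_lit 258) (nat_lit 5) (nat_lit 259) (nat_lit 5) (nat_lit 475) (nat_lit 460) (nat_lit 265)) (XT.lf (nat_lit 0) (nat_lit 15099436733) (nat_lit 608) (nat_lit 46528982568) (nat_lit 76) (nat_lit 53439611448) (nat_lit 243) (nat_lit 5) (nat_lit 251) (nat_lit 5) (nat_lit 244) (nat_lit 5) (nat_lit 476) (nat_lit 460) (nat_lit 264)))) (XT.nd (nat_lit 156) (nat_lit 988) (nat_lit 0) (XT.nd (nat_lit 78) (nat_lit 532) (nat_lit 0) (XT.lf (nat_lit 0) (nat_lit 39529168572) (nat_lit 608) (nat_lit 57957520629) (nat_lit 76) (nat_lit 20809771325) (nat_lit 236) (nat_lit 5) (nat_lit 244) (nat_lit 5) (nat_lit 237) (nat_lit 5) (nat_lit 477) (nat_lit 460) (nat_lit 263)) (XT.lf (nat_lit 0) (nat_lit 52242626616) (nat_lit 532) (nat_lit 14545086194) (nat_lit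 608) (nat_lit 54850379278) (nat_lit 229) (nat_lit 5) (nat_lit 236) (nat_lit 5) (nat_lit 237) (nat_lit 5) (nat_lit 478) (nat_lit 460) (nat_lit 262))) (XT.nd (nat_lit 78) (nat_lit 532) (nat_lit 0) (XT.lf (nat_lit 0) (nat_lit 44193474930) (nat_lit 456) (nat_lit 52939798212) (nat_lit 532) (nat_lit 27961809487) (nat_lit 223) (nat_lit 5) (nat_lit 229) (nat_lit 5) (nat_lit 230) (nat_lit 5) (nat_lit 479) (nat_lit 460) (nat_lit 261)) (XT.lf (nat_lit 0) (nat_lit 1826165758) (nat_lit 532) (nat_lit 92258490624) (nat_lit 76) (nat_lit 34593380109) (nat_lit 216) (nat_lit 5) (nat_lit 223) (nat_lit 5) (nat_lit 217) (nat_lit 5) (nat_lit 480) (nat_lit 460) (nat_lit 260))))))))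
noncomputable def xc123 : XT := (XT.nd (nat_lit 62400) (nat_lit 0) (nat_lit 380) (XT.nd (nat_lit 61386) (nat_lit 0) (nat_lit 3192) (XT.nd (nat_lit 60918) (nat_lit 0) (nat_lit 8056) (XT.nd (nat_lit 234) (nat_lit 912) (nat_lit 0) (XT.nd (nat_lit 78) (nat_lit 836) (nat_lit 0) (XT.lf (nat_lit 0) (nat_lit 28615124636) (nat_lit 456) (nat_lit 5565402504) (nat_lit 532) (nat_lit 98201647063) (nat_lit 210) (nat_lit 5) (nat_lit 216) (nat_lit 5) (nat_lit 217) (nat_lit 5) (nat_lit 481) (nat_lit 460) (nat_lit 259)) (XT.nd (nat_lit 78) (nat_lit 380) (nat_lit 0) (XT.lf (nat_lit 0) (nat_lit 20772663360) (nat_lit 456) (nat_lit 49378161089) (nat_lit 532) (nat_lit 66060747873) (nat_lit 204) (nat_lit 5) (nat_lit 210) (nat_lit 5) (nat_lit 211) (nat_lit 5) (nat_lit 482) (nat_lit 460) (nat_lit 258)) (XT.lf (nat_lit 0) (nat_lit 13281496154) (nat_lit 380) (nat_lit 96317898186) (nat_lit 456) (nat_lit 30582653330) (nat_lit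 199) (nat_lit 5) (nat_lit 204) (nat_lit 5) (nat_lit 205) (nat_lit 5) (nat_lit 483) (nat_lit 460) (nat_lit 257)))) (XT.nd (nat_lit 78) (nat_lit 380) (nat_lit 0) (XT.lf (nat_lit 0) (nat_lit 6078566148) (nat_lit 456) (nat_lit 2217059539) (nat_lit 532) (nat_lit 136000805171) (nat_lit 192) (nat_lit 5) (nat_lit 198) (nat_lit 5) (nat_lit 199) (nat_lit 5) (nat_lit 484) (nat_lit 460) (nat_lit 256)) (XT.nd (nat_lit 78) (nat_lit 380) (nat_lit 0) (XT.lf (nat_lit 0) (nat_lit 50738451105) (nat_lit 532) (nat_lit 1469578817) (nat_lit 76) (nat_lit 96331825517) (nat_lit 192) (nat_lit 5) (nat_lit 199) (nat_lit 5) (nat_lit 193) (nat_lit 5) (nat_lit 485) (nat_lit 460) (nat_lit 255)) (XT.lf (nat_lit 0) (nat_lit 97181756690) (nat_lit 456) (nat_lit 8495289233) (nat_lit 76) (nat_lit 47262055205) (nat_lit 187) (nat_lit 5) (nat_lit 193) (nat_lit 5) (nat_lit 188) (nat_lit 5) (nat_lit 486) (nat_lit 460) (nat_lit 254))))) (XT.nd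 (nat_lit 234) (nat_lit 0) (nat_lit 152) (XT.nd (nat_lit 78) (nat_lit 0) (nat_lit 76) (XT.lf (nat_lit 0) (nat_lit 19692704086) (nat_lit 1292) (nat_lit 10073331289) (nat_lit 1292) (nat_lit 10073331289) (nat_lit 293) (nat_lit 3) (nat_lit 310) (nat_lit 3) (nat_lit 310) (nat_lit 5) (nat_lit 461) (nat_lit 461) (nat_lit 278)) (XT.nd (nat_lit 78) (nat_lit 0) (nat_lit 0) (XT.lf (nat_lit 0) (nat_lit 40885594361) (nat_lit 1216) (nat_lit 35353523881) (nat_lit 1292) (nat_lit 5416114548) (nat_lit 294) (nat_lit 5) (nat_lit 310) (nat_lit 5) (nat_lit 311) (nat_lit 5) (nat_lit 462) (nat_lit 461) (nat_lit 277)) (XT.lf (nat_lit 76) (nat_lit 32805799703) (nat_lit 0) (nat_lit 10779577880) (nat_lit 1292) (nat_lit 40111442160) (nat_lit 295) (nat_lit 5) (nat_lit 294) (nat_lit 5) (nat_lit 311) (nat_lit 5) (nat_lit 463) (nat_lit 461) (nat_lit 276)))) (XT.nd (nat_lit 78) (nat_lit 0) (nat_lit 76) (XT.lf (nat_lit 76) (nat_lit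 19093586102) (nat_lit 0) (nat_lit 28433690046) (nat_lit 1292) (nat_lit 38279996252) (nat_lit 296) (nat_lit 5) (nat_lit 295) (nat_lit 5) (nat_lit 312) (nat_lit 5) (nat_lit 464) (nat_lit 461) (nat_lit 275)) (XT.nd (nat_lit 78) (nat_lit 0) (nat_lit 76) (XT.lf (nat_lit 76) (nat_lit 5230714295) (nat_lit 0) (nat_lit 47512814253) (nat_lit 1292) (nat_lit 35247401513) (nat_lit 297) (nat_lit 5) (nat_lit 296) (nat_lit 5) (nat_lit 313) (nat_lit 5) (nat_lit 465) (nat_lit 461) (nat_lit 274)) (XT.lf (nat_lit 0) (nat_lit 59408624024) (nat_lit 1216) (nat_lit 8599573997) (nat_lit 1292) (nat_lit 22239931797) (nat_lit 297) (nat_lit 5) (nat_lit 313) (nat_lit 5) (nat_lit 314) (nat_lit 5) (nat_lit 466) (nat_lit 461) (nat_lit 273)))))) (XT.nd (nat_lit 468) (nat_lit 3420) (nat_lit 0) (XT.nd (nat_lit 234) (nat_lit 1824) (nat_lit 0) (XT.nd (nat_lit 78) (nat_lit 0) (nat_lit 0) (XT.lf (nat_lit 0) (nat_lit 67585013190) (nat_lit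 1216) (nat_lit 22450614456) (nat_lit 1292) (nat_lit 2547220875) (nat_lit 298) (nat_lit 5) (nat_lit 314) (nat_lit 5) (nat_lit 315) (nat_lit 5) (nat_lit 467) (nat_lit 461) (nat_lit 272)) (XT.nd (nat_lit 78) (nat_lit 0) (nat_lit 76) (XT.lf (nat_lit 76) (nat_lit 58400362214) (nat_lit 0) (nat_lit 19106210164) (nat_lit 1292) (nat_lit 17487640381) (nat_lit 299) (nat_lit 5) (nat_lit 298) (nat_lit 5) (nat_lit 315) (nat_lit 5) (nat_lit 468) (nat_lit 461) (nat_lit 271)) (XT.lf (nat_lit 76) (nat_lit 46618344956) (nat_lit 0) (nat_lit 42518815917) (nat_lit 1292) (nat_lit 8352595908) (nat_lit 300) (nat_lit 5) (nat_lit 299) (nat_lit 5) (nat_lit 316) (nat_lit 5) (nat_lit 469) (nat_lit 461) (nat_lit 270)))) (XT.nd (nat_lit 78) (nat_lit 684) (nat_lit 0) (XT.lf (nat_lit 0) (nat_lit 2442523053) (nat_lit 1292) (nat_lit 65266173491) (nat_lit 1368) (nat_lit 32364199097) (nat_lit 283) (nat_lit 5) (nat_lit 300) (nat_lit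 5) (nat_lit 301) (nat_lit 5) (nat_lit 470) (nat_lit 461) (nat_lit 269)) (XT.nd (nat_lit 78) (nat_lit 760) (nat_lit 0) (XT.lf (nat_lit 0) (nat_lit 14863416915) (nat_lit 1292) (nat_lit 79834496324) (nat_lit 76) (nat_lit 8047034433) (nat_lit 284) (nat_lit 5) (nat_lit 301) (nat_lit 5) (nat_lit 285) (nat_lit 5) (nat_lit 471) (nat_lit 461) (nat_lit 268)) (XT.lf (nat_lit 0) (nat_lit 10850362057) (nat_lit 760) (nat_lit 18520475734) (nat_lit 836) (nat_lit 76135800136) (nat_lit 274) (nat_lit 5) (nat_lit 284) (nat_lit 5) (nat_lit 285) (nat_lit 5) (nat_lit 472) (nat_lit 461) (nat_lit 267))))) (XT.nd (nat_lit 234) (nat_lit 2204) (nat_lit 0) (XT.nd (nat_lit 78) (nat_lit 1216) (nat_lit 0) (XT.lf (nat_lit 0) (nat_lit 46023740792) (nat_lit 836) (nat_lit 1243622856) (nat_lit 76) (nat_lit 61096445804) (nat_lit 274) (nat_lit 5) (nat_lit 285) (nat_lit 5) (nat_lit 275) (nat_lit 5) (nat_lit 473) (nat_lit 461) (nat_lit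 266)) (XT.nd (nat_lit 78) (nat_lit 608) (nat_lit 0) (XT.lf (nat_lit 0) (nat_lit 64969305349) (nat_lit 684) (nat_lit 13080326730) (nat_lit 76) (nat_lit 33270407069) (nat_lit 266) (nat_lit 5) (nat_lit 275) (nat_lit 5) (nat_lit 267) (nat_lit 5) (nat_lit 474) (nat_lit 461) (nat_lit 265)) (XT.lf (nat_lit 0) (nat_lit 86244784914) (nat_lit 684) (nat_lit 24846337943) (nat_lit 76) (nat_lit 3291478447) (nat_lit 258) (nat_lit 5) (nat_lit 267) (nat_lit 5) (nat_lit 259) (nat_lit 5) (nat_lit 475) (nat_lit 461) (nat_lit 264)))) (XT.nd (nat_lit 156) (nat_lit 1064) (nat_lit 0) (XT.nd (nat_lit 78) (nat_lit 608) (nat_lit 0) (XT.lf (nat_lit 0) (nat_lit 80748740925) (nat_lit 532) (nat_lit 29534646853) (nat_lit 608) (nat_lit 7263923388) (nat_lit 251) (nat_lit 5) (nat_lit 258) (nat_lit 5) (nat_lit 259) (nat_lit 5) (nat_lit 476) (nat_lit 461) (nat_lit 263)) (XT.lf (nat_lit 0) (nat_lit 15872960009) (nat_lit 608) (nat_lit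 48835551422) (nat_lit 76) (nat_lit 56112362117) (nat_lit 243) (nat_lit 5) (nat_lit 251) (nat_lit 5) (nat_lit 244) (nat_lit 5) (nat_lit 477) (nat_lit 461) (nat_lit 262))) (XT.nd (nat_lit 78) (nat_lit 532) (nat_lit 0) (XT.lf (nat_lit 0) (nat_lit 41523494665) (nat_lit 608) (nat_lit 60835562552) (nat_lit 76) (nat_lit 21851688214) (nat_lit 236) (nat_lit 5) (nat_lit 244) (nat_lit 5) (nat_lit 237) (nat_lit 5) (nat_lit 478) (nat_lit 461) (nat_lit 261)) (XT.lf (nat_lit 0) (nat_lit 54874023514) (nat_lit 532) (nat_lit 15270276952) (nat_lit 608) (nat_lit 57575178174) (nat_lit 229) (nat_lit 5) (nat_lit 236) (nat_lit 5) (nat_lit 237) (nat_lit 5) (nat_lit 479) (nat_lit 461) (nat_lit 260))))))) (XT.nd (nat_lit 61542) (nat_lit 0) (nat_lit 2812) (XT.nd (nat_lit 468) (nat_lit 0) (nat_lit 0) (XT.nd (nat_lit 234) (nat_lit 1368) (nat_lit 0) (XT.nd (nat_lit 78) (nat_lit 988) (nat_lit 0) (XT.lf (nat_lit 0) (nat_lit 46422345934)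 (nat_lit 456) (nat_lit 55584177165) (nat_lit 532) (nat_lit 29342814177) (nat_lit 223) (nat_lit 5) (nat_lit 229) (nat_lit 5) (nat_lit 230) (nat_lit 5) (nat_lit 480) (nat_lit 461) (nat_lit 259)) (XT.nd (nat_lit 78) (nat_lit 456) (nat_lit 0) (XT.lf (nat_lit 0) (nat_lit 1933638327) (nat_lit 532) (nat_lit 96851983940) (nat_lit 76) (nat_lit 36325829367) (nat_lit 216) (nat_lit 5) (nat_lit 223) (nat_lit 5) (nat_lit 217) (nat_lit 5) (nat_lit 481) (nat_lit 461) (nat_lit 258)) (XT.lf (nat_lit 0) (nat_lit 30064755091) (nat_lit 456) (nat_lit 5840374390) (nat_lit 532) (nat_lit 103095684483) (nat_lit 210) (nat_lit 5) (nat_lit 216) (nat_lit 5) (nat_lit 217) (nat_lit 5) (nat_lit 482) (nat_lit 461) (nat_lit 257)))) (XT.nd (nat_lit 78) (nat_lit 912) (nat_lit 0) (XT.lf (nat_lit 0) (nat_lit 21830054437) (nat_lit 456) (nat_lit 51843356012) (nat_lit 532) (nat_lit 69348287555) (nat_lit 204) (nat_lit 5) (nat_lit 210) (nat_lit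 5) (nat_lit 211) (nat_lit 5) (nat_lit 483) (nat_lit 461) (nat_lit 256)) (XT.nd (nat_lit 78) (nat_lit 532) (nat_lit 0) (XT.lf (nat_lit 0) (nat_lit 13964196459) (nat_lit 380) (nat_lit 101129708991) (nat_lit 456) (nat_lit 32096806847) (nat_lit 199) (nat_lit 5) (nat_lit 204) (nat_lit 5) (nat_lit 205) (nat_lit 5) (nat_lit 484) (nat_lit 461) (nat_lit 255)) (XT.lf (nat_lit 0) (nat_lit 6400871404) (nat_lit 456) (nat_lit 2323699696) (nat_lit 532) (nat_lit 142786254977) (nat_lit 192) (nat_lit 5) (nat_lit 198) (nat_lit 5) (nat_lit 199) (nat_lit 5) (nat_lit 485) (nat_lit 461) (nat_lit 254))))) (XT.nd (nat_lit 60762) (nat_lit 0) (nat_lit 7752) (XT.nd (nat_lit 60606) (nat_lit 0) (nat_lit 7676) (XT.lf (nat_lit 0) (nat_lit 53288901874) (nat_lit 532) (nat_lit 1525188447) (nat_lit 76) (nat_lit 101152350709) (nat_lit 192) (nat_lit 5) (nat_lit 199) (nat_lit 5) (nat_lit 193) (nat_lit 5) (nat_lit 486) (nat_lit 461)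 (nat_lit 253)) (XT.nd (nat_lit 78) (nat_lit 0) (nat_lit 76) (XT.lf (nat_lit 0) (nat_lit 20693922018) (nat_lit 1292) (nat_lit 10568456596) (nat_lit 1292) (nat_lit 10568456596) (nat_lit 293) (nat_lit 3) (nat_lit 310) (nat_lit 3) (nat_lit 310) (nat_lit 5) (nat_lit 462) (nat_lit 462) (nat_lit 276)) (XT.lf (nat_lit 0) (nat_lit 42961474070) (nat_lit 1216) (nat_lit 37103504808) (nat_lit 1292) (nat_lit 5672063160) (nat_lit 294) (nat_lit 5) (nat_lit 310) (nat_lit 5) (nat_lit 311) (nat_lit 5) (nat_lit 463) (nat_lit 462) (nat_lit 275)))) (XT.nd (nat_lit 156) (nat_lit 0) (nat_lit 152) (XT.nd (nat_lit 78) (nat_lit 0) (nat_lit 76) (XT.lf (nat_lit 76) (nat_lit 34463277723) (nat_lit 0) (nat_lit 11331629190) (nat_lit 1292) (nat_lit 42085841821) (nat_lit 295) (nat_lit 5) (nat_lit 294) (nat_lit 5) (nat_lit 311) (nat_lit 5) (nat_lit 464) (nat_lit 462) (nat_lit 274)) (XT.lf (nat_lit 76) (nat_lit 20065968663) (nat_lit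 0) (nat_lit 29866541269) (nat_lit 1292) (nat_lit 40164256007) (nat_lit 296) (nat_lit 5) (nat_lit 295) (nat_lit 5) (nat_lit 312) (nat_lit 5) (nat_lit 465) (nat_lit 462) (nat_lit 273))) (XT.nd (nat_lit 78) (nat_lit 0) (nat_lit 76) (XT.lf (nat_lit 76) (nat_lit 5510395210) (nat_lit 0) (nat_lit 49897877172) (nat_lit 1292) (nat_lit 36981373365) (nat_lit 297) (nat_lit 5) (nat_lit 296) (nat_lit 5) (nat_lit 313) (nat_lit 5) (nat_lit 466) (nat_lit 462) (nat_lit 272)) (XT.lf (nat_lit 0) (nat_lit 62405223641) (nat_lit 1216) (nat_lit 9011394041) (nat_lit 1292) (nat_lit 23343129963) (nat_lit 297) (nat_lit 5) (nat_lit 313) (nat_lit 5) (nat_lit 314) (nat_lit 5) (nat_lit 467) (nat_lit 462) (nat_lit 271)))))) (XT.nd (nat_lit 468) (nat_lit 3420) (nat_lit 0) (XT.nd (nat_lit 234) (nat_lit 1824) (nat_lit 0) (XT.nd (nat_lit 78) (nat_lit 0) (nat_lit 0) (XT.lf (nat_lit 0) (nat_lit 70989284049) (nat_lit 1216) (nat_lit 23554679191)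 (nat_lit 1292) (nat_lit 2667273660) (nat_lit 298) (nat_lit 5) (nat_lit 314) (nat_lit 5) (nat_lit 315) (nat_lit 5) (nat_lit 468) (nat_lit 462) (nat_lit 270)) (XT.nd (nat_lit 78) (nat_lit 0) (nat_lit 76) (XT.lf (nat_lit 76) (nat_lit 61338316988) (nat_lit 0) (nat_lit 20067585188) (nat_lit 1292) (nat_lit 18337297909) (nat_lit 299) (nat_lit 5) (nat_lit 298) (nat_lit 5) (nat_lit 315) (nat_lit 5) (nat_lit 469) (nat_lit 462) (nat_lit 269)) (XT.lf (nat_lit 76) (nat_lit 48967443919) (nat_lit 0) (nat_lit 44649552517) (nat_lit 1292) (nat_lit 8746555737) (nat_lit 300) (nat_lit 5) (nat_lit 299) (nat_lit 5) (nat_lit 316) (nat_lit 5) (nat_lit 470) (nat_lit 462) (nat_lit 268)))) (XT.nd (nat_lit 78) (nat_lit 684) (nat_lit 0) (XT.lf (nat_lit 0) (nat_lit 2586886208) (nat_lit 1292) (nat_lit 68510658804) (nat_lit 1368) (nat_lit 33978325416) (nat_lit 283) (nat_lit 5) (nat_lit 300) (nat_lit 5) (nat_lit 301) (nat_lit 5)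 (nat_lit 471) (nat_lit 462) (nat_lit 267)) (XT.nd (nat_lit 78) (nat_lit 760) (nat_lit 0) (XT.lf (nat_lit 0) (nat_lit 15627912102) (nat_lit 1292) (nat_lit 83807264471) (nat_lit 76) (nat_lit 8446376004) (nat_lit 284) (nat_lit 5) (nat_lit 301) (nat_lit 5) (nat_lit 285) (nat_lit 5) (nat_lit 472) (nat_lit 462) (nat_lit 266)) (XT.lf (nat_lit 0) (nat_lit 11411293440) (nat_lit 760) (nat_lit 19448572136) (nat_lit 836) (nat_lit 79921487053) (nat_lit 274) (nat_lit 5) (nat_lit 284) (nat_lit 5) (nat_lit 285) (nat_lit 5) (nat_lit 473) (nat_lit 462) (nat_lit 265))))) (XT.nd (nat_lit 234) (nat_lit 2204) (nat_lit 0) (XT.nd (nat_lit 78) (nat_lit 1216) (nat_lit 0) (XT.lf (nat_lit 0) (nat_lit 48344419234) (nat_lit 836) (nat_lit 1287660764) (nat_lit 76) (nat_lit 64149332693) (nat_lit 274) (nat_lit 5) (nat_lit 285) (nat_lit 5) (nat_lit 275) (nat_lit 5) (nat_lit 474) (nat_lit 462) (nat_lit 264)) (XT.nd (nat_lit 78) (nat_lit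 608) (nat_lit 0) (XT.lf (nat_lit 0) (nat_lit 68236492596) (nat_lit 684) (nat_lit 13716144884) (nat_lit 76) (nat_lit 34932839590) (nat_lit 266) (nat_lit 5) (nat_lit 275) (nat_lit 5) (nat_lit 267) (nat_lit 5) (nat_lit 475) (nat_lit 462) (nat_lit 263)) (XT.lf (nat_lit 0) (nat_lit 90575021421) (nat_lit 684) (nat_lit 26070432921) (nat_lit 76) (nat_lit 3455734848) (nat_lit 258) (nat_lit 5) (nat_lit 267) (nat_lit 5) (nat_lit 259) (nat_lit 5) (nat_lit 476) (nat_lit 462) (nat_lit 262)))) (XT.nd (nat_lit 156) (nat_lit 1064) (nat_lit 0) (XT.nd (nat_lit 78) (nat_lit 608) (nat_lit 0) (XT.lf (nat_lit 0) (nat_lit 84803877563) (nat_lit 532) (nat_lit 31010989993) (nat_lit 608) (nat_lit 7609287704) (nat_lit 251) (nat_lit 5) (nat_lit 258) (nat_lit 5) (nat_lit 259) (nat_lit 5) (nat_lit 477) (nat_lit 462) (nat_lit 261)) (XT.lf (nat_lit 0) (nat_lit 16683434713) (nat_lit 608) (nat_lit 51259296998) (nat_lit 76) (nat_lit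 58918678723) (nat_lit 243) (nat_lit 5) (nat_lit 251) (nat_lit 5) (nat_lit 244) (nat_lit 5) (nat_lit 478) (nat_lit 462) (nat_lit 260))) (XT.nd (nat_lit 78) (nat_lit 532) (nat_lit 0) (XT.lf (nat_lit 0) (nat_lit 43615875897) (nat_lit 608) (nat_lit 63859350560) (nat_lit 76) (nat_lit 22945568155) (nat_lit 236) (nat_lit 5) (nat_lit 244) (nat_lit 5) (nat_lit 237) (nat_lit 5) (nat_lit 479) (nat_lit 462) (nat_lit 259)) (XT.lf (nat_lit 0) (nat_lit 57635199127) (nat_lit 532) (nat_lit 16031919098) (nat_lit 608) (nat_lit 60437864460) (nat_lit 229) (nat_lit 5) (nat_lit 236) (nat_lit 5) (nat_lit 237) (nat_lit 5) (nat_lit 480) (nat_lit 462) (nat_lit 258))))))))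
noncomputable def xc124 : XT := (XT.nd (nat_lit 62556) (nat_lit 0) (nat_lit 912) (XT.nd (nat_lit 61542) (nat_lit 0) (nat_lit 2812) (XT.nd (nat_lit 61074) (nat_lit 0) (nat_lit 7676) (XT.nd (nat_lit 234) (nat_lit 1368) (nat_lit 0) (XT.nd (nat_lit 78) (nat_lit 988) (nat_lit 0) (XT.lf (nat_lit 0) (nat_lit 48760875709) (nat_lit 456) (nat_lit 58361017807) (nat_lit 532) (nat_lit 30794457575) (nat_lit 223) (nat_lit 5) (nat_lit 229) (nat_lit 5) (nat_lit 230) (nat_lit 5) (nat_lit 481) (nat_lit 462) (nat_lit 257)) (XT.nd (nat_lit 78) (nat_lit 456) (nat_lit 0) (XT.lf (nat_lit 0) (nat_lit 2044981722) (nat_lit 532) (nat_lit 101676958452) (nat_lit 76) (nat_lit 38144642606) (nat_lit 216) (nat_lit 5) (nat_lit 223) (nat_lit 5) (nat_lit 217) (nat_lit 5) (nat_lit 482) (nat_lit 462) (nat_lit 256)) (XT.lf (nat_lit 0) (nat_lit 31585112323) (nat_lit 456) (nat_lit 6129401509) (nat_lit 532) (nat_lit 108235915480) (nat_lit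 210) (nat_lit 5) (nat_lit 216) (nat_lit 5) (nat_lit 217) (nat_lit 5) (nat_lit 483) (nat_lit 462) (nat_lit 255)))) (XT.nd (nat_lit 78) (nat_lit 912) (nat_lit 0) (XT.lf (nat_lit 0) (nat_lit 22938571134) (nat_lit 456) (nat_lit 54432155894) (nat_lit 532) (nat_lit 72801645052) (nat_lit 204) (nat_lit 5) (nat_lit 210) (nat_lit 5) (nat_lit 211) (nat_lit 5) (nat_lit 484) (nat_lit 462) (nat_lit 254)) (XT.nd (nat_lit 78) (nat_lit 532) (nat_lit 0) (XT.lf (nat_lit 0) (nat_lit 14679300157) (nat_lit 380) (nat_lit 106182490037) (nat_lit 456) (nat_lit 33688060660) (nat_lit 199) (nat_lit 5) (nat_lit 204) (nat_lit 5) (nat_lit 205) (nat_lit 5) (nat_lit 485) (nat_lit 462) (nat_lit 253)) (XT.lf (nat_lit 0) (nat_lit 6737583407) (nat_lit 456) (nat_lit 2436063529) (nat_lit 532) (nat_lit 149912333756) (nat_lit 192) (nat_lit 5) (nat_lit 198) (nat_lit 5) (nat_lit 199) (nat_lit 5) (nat_lit 486) (nat_lit 462) (nat_lit 252)))))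 (XT.nd (nat_lit 234) (nat_lit 0) (nat_lit 152) (XT.nd (nat_lit 78) (nat_lit 0) (nat_lit 76) (XT.lf (nat_lit 0) (nat_lit 21743659142) (nat_lit 1292) (nat_lit 11089132253) (nat_lit 1292) (nat_lit 11089132253) (nat_lit 293) (nat_lit 3) (nat_lit 310) (nat_lit 3) (nat_lit 310) (nat_lit 5) (nat_lit 463) (nat_lit 463) (nat_lit 274)) (XT.nd (nat_lit 78) (nat_lit 0) (nat_lit 0) (XT.lf (nat_lit 0) (nat_lit 45138209896) (nat_lit 1216) (nat_lit 38942629920) (nat_lit 1292) (nat_lit 5942190477) (nat_lit 294) (nat_lit 5) (nat_lit 310) (nat_lit 5) (nat_lit 311) (nat_lit 5) (nat_lit 464) (nat_lit 463) (nat_lit 273)) (XT.lf (nat_lit 76) (nat_lit 36202031664) (nat_lit 0) (nat_lit 11910067716) (nat_lit 1292) (nat_lit 44161859584) (nat_lit 295) (nat_lit 5) (nat_lit 294) (nat_lit 5) (nat_lit 311) (nat_lit 5) (nat_lit 465) (nat_lit 463) (nat_lit 272)))) (XT.nd (nat_lit 78) (nat_lit 0) (nat_lit 76) (XT.lf (nat_lit 76)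 (nat_lit 21085324470) (nat_lit 0) (nat_lit 31369996877) (nat_lit 1292) (nat_lit 42145493698) (nat_lit 296) (nat_lit 5) (nat_lit 295) (nat_lit 5) (nat_lit 312) (nat_lit 5) (nat_lit 466) (nat_lit 463) (nat_lit 271)) (XT.nd (nat_lit 78) (nat_lit 0) (nat_lit 76) (XT.lf (nat_lit 76) (nat_lit 5802373203) (nat_lit 0) (nat_lit 52401317250) (nat_lit 1292) (nat_lit 38804684008) (nat_lit 297) (nat_lit 5) (nat_lit 296) (nat_lit 5) (nat_lit 313) (nat_lit 5) (nat_lit 467) (nat_lit 463) (nat_lit 270)) (XT.lf (nat_lit 0) (nat_lit 65549220346) (nat_lit 1216) (nat_lit 9445493308) (nat_lit 1292) (nat_lit 24502306030) (nat_lit 297) (nat_lit 5) (nat_lit 313) (nat_lit 5) (nat_lit 314) (nat_lit 5) (nat_lit 468) (nat_lit 463) (nat_lit 269)))))) (XT.nd (nat_lit 468) (nat_lit 3420) (nat_lit 0) (XT.nd (nat_lit 234) (nat_lit 1824) (nat_lit 0) (XT.nd (nat_lit 78) (nat_lit 0) (nat_lit 0) (XT.lf (nat_lit 0) (nat_lit 74561442309)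 (nat_lit 1216) (nat_lit 24715663957) (nat_lit 1292) (nat_lit 2794008537) (nat_lit 298) (nat_lit 5) (nat_lit 314) (nat_lit 5) (nat_lit 315) (nat_lit 5) (nat_lit 469) (nat_lit 463) (nat_lit 268)) (XT.nd (nat_lit 78) (nat_lit 0) (nat_lit 76) (XT.lf (nat_lit 76) (nat_lit 64421501919) (nat_lit 0) (nat_lit 21076465142) (nat_lit 1292) (nat_lit 19231736962) (nat_lit 299) (nat_lit 5) (nat_lit 298) (nat_lit 5) (nat_lit 315) (nat_lit 5) (nat_lit 470) (nat_lit 463) (nat_lit 267)) (XT.lf (nat_lit 76) (nat_lit 51432307467) (nat_lit 0) (nat_lit 46886380078) (nat_lit 1292) (nat_lit 9162414167) (nat_lit 300) (nat_lit 5) (nat_lit 299) (nat_lit 5) (nat_lit 316) (nat_lit 5) (nat_lit 471) (nat_lit 463) (nat_lit 266)))) (XT.nd (nat_lit 78) (nat_lit 684) (nat_lit 0) (XT.lf (nat_lit 0) (nat_lit 2736400135) (nat_lit 1292) (nat_lit 71919118400) (nat_lit 1368) (nat_lit 35673537709) (nat_lit 283) (nat_lit 5) (nat_lit 300)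 (nat_lit 5) (nat_lit 301) (nat_lit 5) (nat_lit 472) (nat_lit 463) (nat_lit 265)) (XT.nd (nat_lit 78) (nat_lit 760) (nat_lit 0) (XT.lf (nat_lit 0) (nat_lit 16428649513) (nat_lit 1292) (nat_lit 87980433437) (nat_lit 76) (nat_lit 8865964509) (nat_lit 284) (nat_lit 5) (nat_lit 301) (nat_lit 5) (nat_lit 285) (nat_lit 5) (nat_lit 473) (nat_lit 463) (nat_lit 264)) (XT.lf (nat_lit 0) (nat_lit 11998559500) (nat_lit 760) (nat_lit 20422880667) (nat_lit 836) (nat_lit 83898420281) (nat_lit 274) (nat_lit 5) (nat_lit 284) (nat_lit 5) (nat_lit 285) (nat_lit 5) (nat_lit 474) (nat_lit 463) (nat_lit 263))))) (XT.nd (nat_lit 234) (nat_lit 2204) (nat_lit 0) (XT.nd (nat_lit 78) (nat_lit 1216) (nat_lit 0) (XT.lf (nat_lit 0) (nat_lit 50779319473) (nat_lit 836) (nat_lit 1335587352) (nat_lit 76) (nat_lit 67355043861) (nat_lit 274) (nat_lit 5) (nat_lit 285) (nat_lit 5) (nat_lit 275) (nat_lit 5) (nat_lit 475) (nat_lit 463)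 (nat_lit 262)) (XT.nd (nat_lit 78) (nat_lit 608) (nat_lit 0) (XT.lf (nat_lit 0) (nat_lit 71665298614) (nat_lit 684) (nat_lit 14385445841) (nat_lit 76) (nat_lit 36678494874) (nat_lit 266) (nat_lit 5) (nat_lit 275) (nat_lit 5) (nat_lit 267) (nat_lit 5) (nat_lit 476) (nat_lit 463) (nat_lit 261)) (XT.lf (nat_lit 0) (nat_lit 95120096540) (nat_lit 684) (nat_lit 27357426749) (nat_lit 76) (nat_lit 3628233589) (nat_lit 258) (nat_lit 5) (nat_lit 267) (nat_lit 5) (nat_lit 259) (nat_lit 5) (nat_lit 477) (nat_lit 463) (nat_lit 260)))) (XT.nd (nat_lit 156) (nat_lit 1064) (nat_lit 0) (XT.nd (nat_lit 78) (nat_lit 608) (nat_lit 0) (XT.lf (nat_lit 0) (nat_lit 89060125493) (nat_lit 532) (nat_lit 32561186474) (nat_lit 608) (nat_lit 7973578072) (nat_lit 251) (nat_lit 5) (nat_lit 258) (nat_lit 5) (nat_lit 259) (nat_lit 5) (nat_lit 478) (nat_lit 463) (nat_lit 259)) (XT.lf (nat_lit 0) (nat_lit 17532868764) (nat_lit 608)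 (nat_lit 53805906296) (nat_lit 76) (nat_lit 61865246220) (nat_lit 243) (nat_lit 5) (nat_lit 251) (nat_lit 5) (nat_lit 244) (nat_lit 5) (nat_lit 479) (nat_lit 463) (nat_lit 258))) (XT.nd (nat_lit 78) (nat_lit 532) (nat_lit 0) (XT.lf (nat_lit 0) (nat_lit 45811369463) (nat_lit 608) (nat_lit 67036000518) (nat_lit 76) (nat_lit 24094021648) (nat_lit 236) (nat_lit 5) (nat_lit 244) (nat_lit 5) (nat_lit 237) (nat_lit 5) (nat_lit 480) (nat_lit 463) (nat_lit 257)) (XT.lf (nat_lit 0) (nat_lit 60532808913) (nat_lit 532) (nat_lit 16831817364) (nat_lit 608) (nat_lit 63445179340) (nat_lit 229) (nat_lit 5) (nat_lit 236) (nat_lit 5) (nat_lit 237) (nat_lit 5) (nat_lit 481) (nat_lit 463) (nat_lit 256))))))) (XT.nd (nat_lit 61776) (nat_lit 0) (nat_lit 456) (XT.nd (nat_lit 61230) (nat_lit 0) (nat_lit 6840) (XT.nd (nat_lit 234) (nat_lit 456) (nat_lit 0) (XT.nd (nat_lit 78) (nat_lit 988) (nat_lit 0) (XT.lf (nat_lit 0)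 (nat_lit 51214713126) (nat_lit 456) (nat_lit 61276920656) (nat_lit 532) (nat_lit 32320123937) (nat_lit 223) (nat_lit 5) (nat_lit 229) (nat_lit 5) (nat_lit 230) (nat_lit 5) (nat_lit 482) (nat_lit 463) (nat_lit 255)) (XT.nd (nat_lit 78) (nat_lit 456) (nat_lit 0) (XT.lf (nat_lit 0) (nat_lit 2160529202) (nat_lit 532) (nat_lit 106744820266) (nat_lit 76) (nat_lit 40054162057) (nat_lit 216) (nat_lit 5) (nat_lit 223) (nat_lit 5) (nat_lit 217) (nat_lit 5) (nat_lit 483) (nat_lit 463) (nat_lit 254)) (XT.lf (nat_lit 0) (nat_lit 33179895809) (nat_lit 456) (nat_lit 6433158114) (nat_lit 532) (nat_lit 113634511048) (nat_lit 210) (nat_lit 5) (nat_lit 216) (nat_lit 5) (nat_lit 217) (nat_lit 5) (nat_lit 484) (nat_lit 463) (nat_lit 253)))) (XT.nd (nat_lit 60840) (nat_lit 0) (nat_lit 6764) (XT.lf (nat_lit 0) (nat_lit 24100931869) (nat_lit 456) (nat_lit 57150708887) (nat_lit 532) (nat_lit 76428977300) (nat_lit 204)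 (nat_lit 5) (nat_lit 210) (nat_lit 5) (nat_lit 211) (nat_lit 5) (nat_lit 485) (nat_lit 463) (nat_lit 252)) (XT.nd (nat_lit 78) (nat_lit 0) (nat_lit 76) (XT.lf (nat_lit 0) (nat_lit 22844484750) (nat_lit 1292) (nat_lit 11636561952) (nat_lit 1292) (nat_lit 11636561952) (nat_lit 293) (nat_lit 3) (nat_lit 310) (nat_lit 3) (nat_lit 310) (nat_lit 5) (nat_lit 464) (nat_lit 464) (nat_lit 272)) (XT.lf (nat_lit 0) (nat_lit 47421117781) (nat_lit 1216) (nat_lit 40875203477) (nat_lit 1292) (nat_lit 6227077016) (nat_lit 294) (nat_lit 5) (nat_lit 310) (nat_lit 5) (nat_lit 311) (nat_lit 5) (nat_lit 465) (nat_lit 464) (nat_lit 271))))) (XT.nd (nat_lit 234) (nat_lit 0) (nat_lit 228) (XT.nd (nat_lit 78) (nat_lit 0) (nat_lit 76) (XT.lf (nat_lit 76) (nat_lit 38026273887) (nat_lit 0) (nat_lit 12516325810) (nat_lit 1292) (nat_lit 46344306914) (nat_lit 295) (nat_lit 5) (nat_lit 294) (nat_lit 5) (nat_lit 311) (nat_lit 5)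 (nat_lit 466) (nat_lit 464) (nat_lit 270)) (XT.nd (nat_lit 78) (nat_lit 0) (nat_lit 76) (XT.lf (nat_lit 76) (nat_lit 22154155206) (nat_lit 0) (nat_lit 32947683609) (nat_lit 1292) (nat_lit 44228301164) (nat_lit 296) (nat_lit 5) (nat_lit 295) (nat_lit 5) (nat_lit 312) (nat_lit 5) (nat_lit 467) (nat_lit 464) (nat_lit 269)) (XT.lf (nat_lit 76) (nat_lit 6107419964) (nat_lit 0) (nat_lit 55029134786) (nat_lit 1292) (nat_lit 40721554920) (nat_lit 297) (nat_lit 5) (nat_lit 296) (nat_lit 5) (nat_lit 313) (nat_lit 5) (nat_lit 468) (nat_lit 464) (nat_lit 268)))) (XT.nd (nat_lit 156) (nat_lit 0) (nat_lit 76) (XT.nd (nat_lit 78) (nat_lit 0) (nat_lit 76) (XT.lf (nat_lit 0) (nat_lit 68848210183) (nat_lit 1216) (nat_lit 9902828802) (nat_lit 1292) (nat_lit 25720182846) (nat_lit 297) (nat_lit 5) (nat_lit 313) (nat_lit 5) (nat_lit 314) (nat_lit 5) (nat_lit 469) (nat_lit 464) (nat_lit 267)) (XT.lf (nat_lit 0) (nat_lit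 78310098604) (nat_lit 1216) (nat_lit 25936255141) (nat_lit 1292) (nat_lit 2927696442) (nat_lit 298) (nat_lit 5) (nat_lit 314) (nat_lit 5) (nat_lit 315) (nat_lit 5) (nat_lit 470) (nat_lit 464) (nat_lit 266))) (XT.nd (nat_lit 78) (nat_lit 0) (nat_lit 76) (XT.lf (nat_lit 76) (nat_lit 67657333552) (nat_lit 0) (nat_lit 22135277692) (nat_lit 1292) (nat_lit 20172982910) (nat_lit 299) (nat_lit 5) (nat_lit 298) (nat_lit 5) (nat_lit 315) (nat_lit 5) (nat_lit 471) (nat_lit 464) (nat_lit 265)) (XT.lf (nat_lit 76) (nat_lit 54018880983) (nat_lit 0) (nat_lit 49234644602) (nat_lit 1292) (nat_lit 9601061536) (nat_lit 300) (nat_lit 5) (nat_lit 299) (nat_lit 5) (nat_lit 316) (nat_lit 5) (nat_lit 472) (nat_lit 464) (nat_lit 264)))))) (XT.nd (nat_lit 468) (nat_lit 3648) (nat_lit 0) (XT.nd (nat_lit 234) (nat_lit 1216) (nat_lit 0) (XT.nd (nat_lit 78) (nat_lit 684) (nat_lit 0) (XT.lf (nat_lit 0) (nat_lit 2891514578) (nat_lit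 1292) (nat_lit 75499588293) (nat_lit 1368) (nat_lit 37453854977) (nat_lit 283) (nat_lit 5) (nat_lit 300) (nat_lit 5) (nat_lit 301) (nat_lit 5) (nat_lit 473) (nat_lit 464) (nat_lit 263)) (XT.nd (nat_lit 78) (nat_lit 760) (nat_lit 0) (XT.lf (nat_lit 0) (nat_lit 17267625577) (nat_lit 1292) (nat_lit 92363859410) (nat_lit 76) (nat_lit 9306786276) (nat_lit 284) (nat_lit 5) (nat_lit 301) (nat_lit 5) (nat_lit 285) (nat_lit 5) (nat_lit 474) (nat_lit 464) (nat_lit 262)) (XT.lf (nat_lit 0) (nat_lit 12613636126) (nat_lit 760) (nat_lit 21445729847) (nat_lit 836) (nat_lit 88075979730) (nat_lit 274) (nat_lit 5) (nat_lit 284) (nat_lit 5) (nat_lit 285) (nat_lit 5) (nat_lit 475) (nat_lit 464) (nat_lit 261)))) (XT.nd (nat_lit 78) (nat_lit 1216) (nat_lit 0) (XT.lf (nat_lit 0) (nat_lit 53334321072) (nat_lit 836) (nat_lit 1387440235) (nat_lit 76) (nat_lit 70721203794) (nat_lit 274) (nat_lit 5) (nat_lit 285) (nat_lit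 5) (nat_lit 275) (nat_lit 5) (nat_lit 476) (nat_lit 464) (nat_lit 260)) (XT.nd (nat_lit 78) (nat_lit 608) (nat_lit 0) (XT.lf (nat_lit 0) (nat_lit 75263966164) (nat_lit 684) (nat_lit 15089746444) (nat_lit 76) (nat_lit 38511524656) (nat_lit 266) (nat_lit 5) (nat_lit 275) (nat_lit 5) (nat_lit 267) (nat_lit 5) (nat_lit 477) (nat_lit 464) (nat_lit 259)) (XT.lf (nat_lit 0) (nat_lit 99890907759) (nat_lit 684) (nat_lit 28710306868) (nat_lit 76) (nat_lit 3809384043) (nat_lit 258) (nat_lit 5) (nat_lit 267) (nat_lit 5) (nat_lit 259) (nat_lit 5) (nat_lit 478) (nat_lit 464) (nat_lit 258))))) (XT.nd (nat_lit 234) (nat_lit 1976) (nat_lit 0) (XT.nd (nat_lit 78) (nat_lit 1140) (nat_lit 0) (XT.lf (nat_lit 0) (nat_lit 93527693266) (nat_lit 532) (nat_lit 34188925600) (nat_lit 608) (nat_lit 8357586665) (nat_lit 251) (nat_lit 5) (nat_lit 258) (nat_lit 5) (nat_lit 259) (nat_lit 5) (nat_lit 479) (nat_lit 464) (nat_lit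 257)) (XT.nd (nat_lit 78) (nat_lit 532) (nat_lit 0) (XT.lf (nat_lit 0) (nat_lit 18423355572) (nat_lit 608) (nat_lit 56481366644) (nat_lit 76) (nat_lit 64959083189) (nat_lit 243) (nat_lit 5) (nat_lit 251) (nat_lit 5) (nat_lit 244) (nat_lit 5) (nat_lit 480) (nat_lit 464) (nat_lit 256)) (XT.lf (nat_lit 0) (nat_lit 48115271063) (nat_lit 608) (nat_lit 70373000027) (nat_lit 76) (nat_lit 25299788567) (nat_lit 236) (nat_lit 5) (nat_lit 244) (nat_lit 5) (nat_lit 237) (nat_lit 5) (nat_lit 481) (nat_lit 464) (nat_lit 255)))) (XT.nd (nat_lit 156) (nat_lit 988) (nat_lit 0) (XT.nd (nat_lit 78) (nat_lit 456) (nat_lit 0) (XT.lf (nat_lit 0) (nat_lit 63573825622) (nat_lit 532) (nat_lit 17671868378) (nat_lit 608) (nat_lit 66604215320) (nat_lit 229) (nat_lit 5) (nat_lit 236) (nat_lit 5) (nat_lit 237) (nat_lit 5) (nat_lit 482) (nat_lit 464) (nat_lit 254)) (XT.lf (nat_lit 0) (nat_lit 53789774072) (nat_lit 456) (nat_lit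 64338818352) (nat_lit 532) (nat_lit 33923380458) (nat_lit 223) (nat_lit 5) (nat_lit 229) (nat_lit 5) (nat_lit 230) (nat_lit 5) (nat_lit 483) (nat_lit 464) (nat_lit 253))) (XT.nd (nat_lit 78) (nat_lit 456) (nat_lit 0) (XT.lf (nat_lit 0) (nat_lit 2280617698) (nat_lit 532) (nat_lit 112067561408) (nat_lit 76) (nat_lit 42058944828) (nat_lit 216) (nat_lit 5) (nat_lit 223) (nat_lit 5) (nat_lit 217) (nat_lit 5) (nat_lit 484) (nat_lit 464) (nat_lit 252)) (XT.lf (nat_lit 0) (nat_lit 34852974835) (nat_lit 456) (nat_lit 6752354823) (nat_lit 532) (nat_lit 119304263625) (nat_lit 210) (nat_lit 5) (nat_lit 216) (nat_lit 5) (nat_lit 217) (nat_lit 5) (nat_lit 485) (nat_lit 464) (nat_lit 251))))))))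
noncomputable def xc125 : XT := (XT.nd (nat_lit 62868) (nat_lit 0) (nat_lit 988) (XT.nd (nat_lit 936) (nat_lit 4408) (nat_lit 0) (XT.nd (nat_lit 468) (nat_lit 1444) (nat_lit 0) (XT.nd (nat_lit 234) (nat_lit 0) (nat_lit 152) (XT.nd (nat_lit 78) (nat_lit 0) (nat_lit 76) (XT.lf (nat_lit 0) (nat_lit 23999083274) (nat_lit 1292) (nat_lit 12212016432) (nat_lit 1292) (nat_lit 12212016432) (nat_lit 293) (nat_lit 3) (nat_lit 310) (nat_lit 3) (nat_lit 310) (nat_lit 5) (nat_lit 465) (nat_lit 465) (nat_lit 270)) (XT.nd (nat_lit 78) (nat_lit 0) (nat_lit 0) (XT.lf (nat_lit 0) (nat_lit 49815754070) (nat_lit 1216) (nat_lit 42905759170) (nat_lit 1292) (nat_lit 6527344259) (nat_lit 294) (nat_lit 5) (nat_lit 310) (nat_lit 5) (nat_lit 311) (nat_lit 5) (nat_lit 466) (nat_lit 465) (nat_lit 269)) (XT.lf (nat_lit 76) (nat_lit 39940413557) (nat_lit 0) (nat_lit 13151896939) (nat_lit 1292) (nat_lit 48638260900) (nat_lit 295)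 (nat_lit 5) (nat_lit 294) (nat_lit 5) (nat_lit 311) (nat_lit 5) (nat_lit 467) (nat_lit 465) (nat_lit 268)))) (XT.nd (nat_lit 78) (nat_lit 0) (nat_lit 76) (XT.lf (nat_lit 76) (nat_lit 23275073407) (nat_lit 0) (nat_lit 34603400569) (nat_lit 1292) (nat_lit 46417523733) (nat_lit 296) (nat_lit 5) (nat_lit 295) (nat_lit 5) (nat_lit 312) (nat_lit 5) (nat_lit 468) (nat_lit 465) (nat_lit 267)) (XT.nd (nat_lit 78) (nat_lit 0) (nat_lit 76) (XT.lf (nat_lit 76) (nat_lit 6426331191) (nat_lit 0) (nat_lit 57787622521) (nat_lit 1292) (nat_lit 42736441475) (nat_lit 297) (nat_lit 5) (nat_lit 296) (nat_lit 5) (nat_lit 313) (nat_lit 5) (nat_lit 469) (nat_lit 465) (nat_lit 266)) (XT.lf (nat_lit 0) (nat_lit 72310147967) (nat_lit 1216) (nat_lit 10384419974) (nat_lit 1292) (nat_lit 26999626469) (nat_lit 297) (nat_lit 5) (nat_lit 313) (nat_lit 5) (nat_lit 314) (nat_lit 5) (nat_lit 470) (nat_lit 465) (nat_lit 265))))) (XT.nd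 (nat_lit 234) (nat_lit 1824) (nat_lit 0) (XT.nd (nat_lit 78) (nat_lit 0) (nat_lit 0) (XT.lf (nat_lit 0) (nat_lit 82244273992) (nat_lit 1216) (nat_lit 27219288295) (nat_lit 1292) (nat_lit 3068627729) (nat_lit 298) (nat_lit 5) (nat_lit 314) (nat_lit 5) (nat_lit 315) (nat_lit 5) (nat_lit 471) (nat_lit 465) (nat_lit 264)) (XT.nd (nat_lit 78) (nat_lit 0) (nat_lit 76) (XT.lf (nat_lit 76) (nat_lit 71053584844) (nat_lit 0) (nat_lit 23246567012) (nat_lit 1292) (nat_lit 21163182260) (nat_lit 299) (nat_lit 5) (nat_lit 298) (nat_lit 5) (nat_lit 315) (nat_lit 5) (nat_lit 472) (nat_lit 465) (nat_lit 263)) (XT.lf (nat_lit 76) (nat_lit 56733392508) (nat_lit 0) (nat_lit 51699955535) (nat_lit 1292) (nat_lit 10063451720) (nat_lit 300) (nat_lit 5) (nat_lit 299) (nat_lit 5) (nat_lit 316) (nat_lit 5) (nat_lit 473) (nat_lit 465) (nat_lit 262)))) (XT.nd (nat_lit 78) (nat_lit 684) (nat_lit 0) (XT.lf (nat_lit 0) (nat_lit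 3052683901) (nat_lit 1292) (nat_lit 79260521425) (nat_lit 1368) (nat_lit 39323500454) (nat_lit 283) (nat_lit 5) (nat_lit 300) (nat_lit 5) (nat_lit 301) (nat_lit 5) (nat_lit 474) (nat_lit 465) (nat_lit 261)) (XT.nd (nat_lit 78) (nat_lit 760) (nat_lit 0) (XT.lf (nat_lit 0) (nat_lit 18146919408) (nat_lit 1292) (nat_lit 96967906622) (nat_lit 76) (nat_lit 9769879369) (nat_lit 284) (nat_lit 5) (nat_lit 301) (nat_lit 5) (nat_lit 285) (nat_lit 5) (nat_lit 475) (nat_lit 465) (nat_lit 260)) (XT.lf (nat_lit 0) (nat_lit 13258058205) (nat_lit 760) (nat_lit 22519562957) (nat_lit 836) (nat_lit 92464031266) (nat_lit 274) (nat_lit 5) (nat_lit 284) (nat_lit 5) (nat_lit 285) (nat_lit 5) (nat_lit 476) (nat_lit 465) (nat_lit 259)))))) (XT.nd (nat_lit 468) (nat_lit 1520) (nat_lit 0) (XT.nd (nat_lit 234) (nat_lit 1672) (nat_lit 0) (XT.nd (nat_lit 78) (nat_lit 1216) (nat_lit 0) (XT.lf (nat_lit 0) (nat_lit 56015581910)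 (nat_lit 836) (nat_lit 1443273485) (nat_lit 76) (nat_lit 74255819757) (nat_lit 274) (nat_lit 5) (nat_lit 285) (nat_lit 5) (nat_lit 275) (nat_lit 5) (nat_lit 477) (nat_lit 465) (nat_lit 258)) (XT.nd (nat_lit 78) (nat_lit 608) (nat_lit 0) (XT.lf (nat_lit 0) (nat_lit 79041135103) (nat_lit 684) (nat_lit 15830654003) (nat_lit 76) (nat_lit 40436289132) (nat_lit 266) (nat_lit 5) (nat_lit 275) (nat_lit 5) (nat_lit 267) (nat_lit 5) (nat_lit 478) (nat_lit 465) (nat_lit 257)) (XT.lf (nat_lit 0) (nat_lit 104898882981) (nat_lit 684) (nat_lit 30132224735) (nat_lit 76) (nat_lit 3999616306) (nat_lit 258) (nat_lit 5) (nat_lit 267) (nat_lit 5) (nat_lit 259) (nat_lit 5) (nat_lit 479) (nat_lit 465) (nat_lit 256)))) (XT.nd (nat_lit 78) (nat_lit 1140) (nat_lit 0) (XT.lf (nat_lit 0) (nat_lit 98217285637) (nat_lit 532) (nat_lit 35898081450) (nat_lit 608) (nat_lit 8762159595) (nat_lit 251) (nat_lit 5) (nat_lit 258) (nat_lit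 5) (nat_lit 259) (nat_lit 5) (nat_lit 480) (nat_lit 465) (nat_lit 255)) (XT.nd (nat_lit 78) (nat_lit 532) (nat_lit 0) (XT.lf (nat_lit 0) (nat_lit 19357079695) (nat_lit 608) (nat_lit 59291979224) (nat_lit 76) (nat_lit 68207558580) (nat_lit 243) (nat_lit 5) (nat_lit 251) (nat_lit 5) (nat_lit 244) (nat_lit 5) (nat_lit 481) (nat_lit 465) (nat_lit 254)) (XT.lf (nat_lit 0) (nat_lit 50533128155) (nat_lit 608) (nat_lit 73878225524) (nat_lit 76) (nat_lit 26565744740) (nat_lit 236) (nat_lit 5) (nat_lit 244) (nat_lit 5) (nat_lit 237) (nat_lit 5) (nat_lit 482) (nat_lit 465) (nat_lit 253))))) (XT.nd (nat_lit 61152) (nat_lit 0) (nat_lit 5852) (XT.nd (nat_lit 78) (nat_lit 988) (nat_lit 0) (XT.lf (nat_lit 0) (nat_lit 66765556597) (nat_lit 532) (nat_lit 18554065105) (nat_lit 608) (nat_lit 69922432447) (nat_lit 229) (nat_lit 5) (nat_lit 236) (nat_lit 5) (nat_lit 237) (nat_lit 5) (nat_lit 483) (nat_lit 465) (nat_lit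 252)) (XT.nd (nat_lit 78) (nat_lit 532) (nat_lit 0) (XT.lf (nat_lit 0) (nat_lit 56492256235) (nat_lit 456) (nat_lit 67553992070) (nat_lit 532) (nat_lit 35607985150) (nat_lit 223) (nat_lit 5) (nat_lit 229) (nat_lit 5) (nat_lit 230) (nat_lit 5) (nat_lit 484) (nat_lit 465) (nat_lit 251)) (XT.lf (nat_lit 0) (nat_lit 2405589204) (nat_lit 532) (nat_lit 117657787667) (nat_lit 76) (nat_lit 44163773853) (nat_lit 216) (nat_lit 5) (nat_lit 223) (nat_lit 5) (nat_lit 217) (nat_lit 5) (nat_lit 485) (nat_lit 465) (nat_lit 250)))) (XT.nd (nat_lit 156) (nat_lit 0) (nat_lit 76) (XT.nd (nat_lit 78) (nat_lit 0) (nat_lit 76) (XT.lf (nat_lit 0) (nat_lit 25210261281) (nat_lit 1292) (nat_lit 12816836194) (nat_lit 1292) (nat_lit 12816836194) (nat_lit 293) (nat_lit 3) (nat_lit 310) (nat_lit 3) (nat_lit 310) (nat_lit 5) (nat_lit 466) (nat_lit 466) (nat_lit 268)) (XT.lf (nat_lit 0) (nat_lit 52327929891) (nat_lit 1216) (nat_lit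 45039070276) (nat_lit 1292) (nat_lit 6843655591) (nat_lit 294) (nat_lit 5) (nat_lit 310) (nat_lit 5) (nat_lit 311) (nat_lit 5) (nat_lit 467) (nat_lit 466) (nat_lit 267))) (XT.nd (nat_lit 78) (nat_lit 0) (nat_lit 76) (XT.lf (nat_lit 76) (nat_lit 41949067774) (nat_lit 0) (nat_lit 13818339711) (nat_lit 1292) (nat_lit 51049075207) (nat_lit 295) (nat_lit 5) (nat_lit 294) (nat_lit 5) (nat_lit 311) (nat_lit 5) (nat_lit 468) (nat_lit 466) (nat_lit 266)) (XT.lf (nat_lit 76) (nat_lit 24450809338) (nat_lit 0) (nat_lit 36341128673) (nat_lit 1292) (nat_lit 48718270678) (nat_lit 296) (nat_lit 5) (nat_lit 295) (nat_lit 5) (nat_lit 312) (nat_lit 5) (nat_lit 469) (nat_lit 466) (nat_lit 265))))))) (XT.nd (nat_lit 1014) (nat_lit 1064) (nat_lit 0) (XT.nd (nat_lit 468) (nat_lit 3040) (nat_lit 0) (XT.nd (nat_lit 234) (nat_lit 988) (nat_lit 0) (XT.nd (nat_lit 78) (nat_lit 0) (nat_lit 76) (XT.lf (nat_lit 76) (nat_lit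 6759929137) (nat_lit 0) (nat_lit 60683380968) (nat_lit 1292) (nat_lit 44854042513) (nat_lit 297) (nat_lit 5) (nat_lit 296) (nat_lit 5) (nat_lit 313) (nat_lit 5) (nat_lit 470) (nat_lit 466) (nat_lit 264)) (XT.nd (nat_lit 78) (nat_lit 0) (nat_lit 76) (XT.lf (nat_lit 0) (nat_lit 75943367178) (nat_lit 1216) (nat_lit 10891350480) (nat_lit 1292) (nat_lit 28343652672) (nat_lit 297) (nat_lit 5) (nat_lit 313) (nat_lit 5) (nat_lit 314) (nat_lit 5) (nat_lit 471) (nat_lit 466) (nat_lit 263)) (XT.lf (nat_lit 0) (nat_lit 86373422347) (nat_lit 1216) (nat_lit 28567754203) (nat_lit 1292) (nat_lit 3217112598) (nat_lit 298) (nat_lit 5) (nat_lit 314) (nat_lit 5) (nat_lit 315) (nat_lit 5) (nat_lit 472) (nat_lit 466) (nat_lit 262)))) (XT.nd (nat_lit 78) (nat_lit 1140) (nat_lit 0) (XT.lf (nat_lit 76) (nat_lit 74618404326) (nat_lit 0) (nat_lit 24413000065) (nat_lit 1292) (nat_lit 22204606864) (nat_lit 299) (nat_lit 5)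 (nat_lit 298) (nat_lit 5) (nat_lit 315) (nat_lit 5) (nat_lit 473) (nat_lit 466) (nat_lit 261)) (XT.nd (nat_lit 78) (nat_lit 1216) (nat_lit 0) (XT.lf (nat_lit 76) (nat_lit 59582368234) (nat_lit 0) (nat_lit 54288199301) (nat_lit 1292) (nat_lit 10550603541) (nat_lit 300) (nat_lit 5) (nat_lit 299) (nat_lit 5) (nat_lit 316) (nat_lit 5) (nat_lit 474) (nat_lit 466) (nat_lit 260)) (XT.lf (nat_lit 0) (nat_lit 3220368974) (nat_lit 1292) (nat_lit 83210807104) (nat_lit 1368) (nat_lit 41286911511) (nat_lit 283) (nat_lit 5) (nat_lit 300) (nat_lit 5) (nat_lit 301) (nat_lit 5) (nat_lit 475) (nat_lit 466) (nat_lit 259))))) (XT.nd (nat_lit 234) (nat_lit 2356) (nat_lit 0) (XT.nd (nat_lit 78) (nat_lit 760) (nat_lit 0) (XT.lf (nat_lit 0) (nat_lit 19068698532) (nat_lit 1292) (nat_lit 101803471333) (nat_lit 76) (nat_lit 10256335950) (nat_lit 284) (nat_lit 5) (nat_lit 301) (nat_lit 5) (nat_lit 285) (nat_lit 5) (nat_lit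 476) (nat_lit 466) (nat_lit 258)) (XT.nd (nat_lit 78) (nat_lit 0) (nat_lit 0) (XT.lf (nat_lit 0) (nat_lit 13933423948) (nat_lit 760) (nat_lit 23646943933) (nat_lit 836) (nat_lit 97072949427) (nat_lit 274) (nat_lit 5) (nat_lit 284) (nat_lit 5) (nat_lit 285) (nat_lit 5) (nat_lit 477) (nat_lit 466) (nat_lit 257)) (XT.lf (nat_lit 0) (nat_lit 58829553554) (nat_lit 836) (nat_lit 1503157103) (nat_lit 76) (nat_lit 77967300789) (nat_lit 274) (nat_lit 5) (nat_lit 285) (nat_lit 5) (nat_lit 275) (nat_lit 5) (nat_lit 478) (nat_lit 466) (nat_lit 256)))) (XT.nd (nat_lit 156) (nat_lit 1140) (nat_lit 0) (XT.nd (nat_lit 78) (nat_lit 608) (nat_lit 0) (XT.lf (nat_lit 0) (nat_lit 83005863631) (nat_lit 684) (nat_lit 16609869458) (nat_lit 76) (nat_lit 42457367301) (nat_lit 266) (nat_lit 5) (nat_lit 275) (nat_lit 5) (nat_lit 267) (nat_lit 5) (nat_lit 479) (nat_lit 466) (nat_lit 255)) (XT.lf (nat_lit 0) (nat_lit 110156008385)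 (nat_lit 684) (nat_lit 31626502659) (nat_lit 76) (nat_lit 4199382211) (nat_lit 258) (nat_lit 5) (nat_lit 267) (nat_lit 5) (nat_lit 259) (nat_lit 5) (nat_lit 480) (nat_lit 466) (nat_lit 254))) (XT.nd (nat_lit 78) (nat_lit 608) (nat_lit 0) (XT.lf (nat_lit 0) (nat_lit 103140129699) (nat_lit 532) (nat_lit 37692722095) (nat_lit 608) (nat_lit 9188198274) (nat_lit 251) (nat_lit 5) (nat_lit 258) (nat_lit 5) (nat_lit 259) (nat_lit 5) (nat_lit 481) (nat_lit 466) (nat_lit 253)) (XT.lf (nat_lit 0) (nat_lit 20336322655) (nat_lit 608) (nat_lit 62244373421) (nat_lit 76) (nat_lit 71618409282) (nat_lit 243) (nat_lit 5) (nat_lit 251) (nat_lit 5) (nat_lit 244) (nat_lit 5) (nat_lit 482) (nat_lit 466) (nat_lit 252)))))) (XT.nd (nat_lit 61542) (nat_lit 0) (nat_lit 4104) (XT.nd (nat_lit 61308) (nat_lit 0) (nat_lit 4940) (XT.nd (nat_lit 78) (nat_lit 532) (nat_lit 0) (XT.lf (nat_lit 0) (nat_lit 53070753758) (nat_lit 608)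 (nat_lit 77559960379) (nat_lit 76) (nat_lit 27894908844) (nat_lit 236) (nat_lit 5) (nat_lit 244) (nat_lit 5) (nat_lit 237) (nat_lit 5) (nat_lit 483) (nat_lit 466) (nat_lit 251)) (XT.nd (nat_lit 61152) (nat_lit 0) (nat_lit 4864) (XT.lf (nat_lit 0) (nat_lit 70115661814) (nat_lit 532) (nat_lit 19480501518) (nat_lit 608) (nat_lit 73407675485) (nat_lit 229) (nat_lit 5) (nat_lit 236) (nat_lit 5) (nat_lit 237) (nat_lit 5) (nat_lit 484) (nat_lit 466) (nat_lit 250)) (XT.lf (nat_lit 0) (nat_lit 26480954701) (nat_lit 1292) (nat_lit 13452434413) (nat_lit 1292) (nat_lit 13452434413) (nat_lit 293) (nat_lit 3) (nat_lit 310) (nat_lit 3) (nat_lit 310) (nat_lit 5) (nat_lit 467) (nat_lit 467) (nat_lit 266)))) (XT.nd (nat_lit 78) (nat_lit 0) (nat_lit 0) (XT.lf (nat_lit 0) (nat_lit 54963726039) (nat_lit 1216) (nat_lit 47280160431) (nat_lit 1292) (nat_lit 7176717391) (nat_lit 294) (nat_lit 5) (nat_lit 310) (nat_lit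 5) (nat_lit 311) (nat_lit 5) (nat_lit 468) (nat_lit 467) (nat_lit 265)) (XT.nd (nat_lit 78) (nat_lit 0) (nat_lit 76) (XT.lf (nat_lit 76) (nat_lit 44057073126) (nat_lit 0) (nat_lit 14517282026) (nat_lit 1292) (nat_lit 53582391789) (nat_lit 295) (nat_lit 5) (nat_lit 294) (nat_lit 5) (nat_lit 311) (nat_lit 5) (nat_lit 469) (nat_lit 467) (nat_lit 264)) (XT.lf (nat_lit 76) (nat_lit 25684218068) (nat_lit 0) (nat_lit 38165040504) (nat_lit 1292) (nat_lit 51135926397) (nat_lit 296) (nat_lit 5) (nat_lit 295) (nat_lit 5) (nat_lit 312) (nat_lit 5) (nat_lit 470) (nat_lit 467) (nat_lit 263))))) (XT.nd (nat_lit 234) (nat_lit 988) (nat_lit 0) (XT.nd (nat_lit 78) (nat_lit 0) (nat_lit 76) (XT.lf (nat_lit 76) (nat_lit 7109065173) (nat_lit 0) (nat_lit 63723334434) (nat_lit 1292) (nat_lit 47079310593) (nat_lit 297) (nat_lit 5) (nat_lit 296) (nat_lit 5) (nat_lit 313) (nat_lit 5) (nat_lit 471) (nat_lit 467) (nat_lit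 262)) (XT.nd (nat_lit 78) (nat_lit 0) (nat_lit 76) (XT.lf (nat_lit 0) (nat_lit 79756600674) (nat_lit 1216) (nat_lit 11424770165) (nat_lit 1292) (nat_lit 29755433837) (nat_lit 297) (nat_lit 5) (nat_lit 313) (nat_lit 5) (nat_lit 314) (nat_lit 5) (nat_lit 472) (nat_lit 467) (nat_lit 261)) (XT.lf (nat_lit 0) (nat_lit 90707453696) (nat_lit 1216) (nat_lit 29984805399) (nat_lit 1292) (nat_lit 3373481592) (nat_lit 298) (nat_lit 5) (nat_lit 314) (nat_lit 5) (nat_lit 315) (nat_lit 5) (nat_lit 473) (nat_lit 467) (nat_lit 260)))) (XT.nd (nat_lit 156) (nat_lit 1140) (nat_lit 0) (XT.nd (nat_lit 78) (nat_lit 0) (nat_lit 76) (XT.lf (nat_lit 76) (nat_lit 78360336098) (nat_lit 0) (nat_lit 25637373155) (nat_lit 1292) (nat_lit 23299658514) (nat_lit 299) (nat_lit 5) (nat_lit 298) (nat_lit 5) (nat_lit 315) (nat_lit 5) (nat_lit 474) (nat_lit 467) (nat_lit 259)) (XT.lf (nat_lit 76) (nat_lit 62572648642) (nat_lit 0) (nat_lit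 57005553474) (nat_lit 1292) (nat_lit 11063602413) (nat_lit 300) (nat_lit 5) (nat_lit 299) (nat_lit 5) (nat_lit 316) (nat_lit 5) (nat_lit 475) (nat_lit 467) (nat_lit 258))) (XT.nd (nat_lit 78) (nat_lit 0) (nat_lit 76) (XT.lf (nat_lit 0) (nat_lit 3395039013) (nat_lit 1292) (nat_lit 87359791548) (nat_lit 1368) (nat_lit 43348750089) (nat_lit 283) (nat_lit 5) (nat_lit 300) (nat_lit 5) (nat_lit 301) (nat_lit 5) (nat_lit 476) (nat_lit 467) (nat_lit 257)) (XT.lf (nat_lit 0) (nat_lit 20035224754) (nat_lit 1292) (nat_lit 106882007150) (nat_lit 76) (nat_lit 10767304776) (nat_lit 284) (nat_lit 5) (nat_lit 301) (nat_lit 5) (nat_lit 285) (nat_lit 5) (nat_lit 477) (nat_lit 467) (nat_lit 256))))))))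
noncomputable def xc126 : XT := (XT.nd (nat_lit 124410) (nat_lit 0) (nat_lit 1672) (XT.nd (nat_lit 62088) (nat_lit 0) (nat_lit 1140) (XT.nd (nat_lit 468) (nat_lit 532) (nat_lit 0) (XT.nd (nat_lit 234) (nat_lit 1748) (nat_lit 0) (XT.nd (nat_lit 78) (nat_lit 608) (nat_lit 0) (XT.lf (nat_lit 0) (nat_lit 14641399302) (nat_lit 760) (nat_lit 24830563537) (nat_lit 836) (nat_lit 101913641432) (nat_lit 274) (nat_lit 5) (nat_lit 284) (nat_lit 5) (nat_lit 285) (nat_lit 5) (nat_lit 478) (nat_lit 467) (nat_lit 255)) (XT.nd (nat_lit 78) (nat_lit 608) (nat_lit 0) (XT.lf (nat_lit 0) (nat_lit 61782997262) (nat_lit 836) (nat_lit 1567176586) (nat_lit 76) (nat_lit 81864477660) (nat_lit 274) (nat_lit 5) (nat_lit 285) (nat_lit 5) (nat_lit 275) (nat_lit 5) (nat_lit 479) (nat_lit 467) (nat_lit 254)) (XT.lf (nat_lit 0) (nat_lit 87167650484) (nat_lit 684) (nat_lit 17429190826) (nat_lit 76) (nat_lit 44579567832) (nat_lit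 266) (nat_lit 5) (nat_lit 275) (nat_lit 5) (nat_lit 267) (nat_lit 5) (nat_lit 480) (nat_lit 467) (nat_lit 253)))) (XT.nd (nat_lit 78) (nat_lit 1140) (nat_lit 0) (XT.lf (nat_lit 0) (nat_lit 115674857562) (nat_lit 684) (nat_lit 33196641114) (nat_lit 76) (nat_lit 4409156391) (nat_lit 258) (nat_lit 5) (nat_lit 267) (nat_lit 5) (nat_lit 259) (nat_lit 5) (nat_lit 481) (nat_lit 467) (nat_lit 252)) (XT.nd (nat_lit 78) (nat_lit 608) (nat_lit 0) (XT.lf (nat_lit 0) (nat_lit 108308002198) (nat_lit 532) (nat_lit 39577119263) (nat_lit 608) (nat_lit 9636660976) (nat_lit 251) (nat_lit 5) (nat_lit 258) (nat_lit 5) (nat_lit 259) (nat_lit 5) (nat_lit 482) (nat_lit 467) (nat_lit 251)) (XT.lf (nat_lit 0) (nat_lit 21363468923) (nat_lit 608) (nat_lit 65345522011) (nat_lit 76) (nat_lit 75199758565) (nat_lit 243) (nat_lit 5) (nat_lit 251) (nat_lit 5) (nat_lit 244) (nat_lit 5) (nat_lit 483) (nat_lit 467) (nat_lit 250)))))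 (XT.nd (nat_lit 61386) (nat_lit 0) (nat_lit 4408) (XT.nd (nat_lit 61230) (nat_lit 0) (nat_lit 4332) (XT.lf (nat_lit 0) (nat_lit 55734240831) (nat_lit 608) (nat_lit 81426914024) (nat_lit 76) (nat_lit 29290449630) (nat_lit 236) (nat_lit 5) (nat_lit 244) (nat_lit 5) (nat_lit 237) (nat_lit 5) (nat_lit 484) (nat_lit 467) (nat_lit 249)) (XT.nd (nat_lit 78) (nat_lit 0) (nat_lit 76) (XT.lf (nat_lit 0) (nat_lit 27814236320) (nat_lit 1292) (nat_lit 14120300042) (nat_lit 1292) (nat_lit 14120300042) (nat_lit 293) (nat_lit 3) (nat_lit 310) (nat_lit 3) (nat_lit 310) (nat_lit 5) (nat_lit 468) (nat_lit 468) (nat_lit 264)) (XT.lf (nat_lit 0) (nat_lit 57729508398) (nat_lit 1216) (nat_lit 49634315066) (nat_lit 1292) (nat_lit 7527280263) (nat_lit 294) (nat_lit 5) (nat_lit 310) (nat_lit 5) (nat_lit 311) (nat_lit 5) (nat_lit 469) (nat_lit 468) (nat_lit 263)))) (XT.nd (nat_lit 78) (nat_lit 0) (nat_lit 76) (XT.lf (nat_lit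 76) (nat_lit 46269497723) (nat_lit 0) (nat_lit 15250425338) (nat_lit 1292) (nat_lit 56244153393) (nat_lit 295) (nat_lit 5) (nat_lit 294) (nat_lit 5) (nat_lit 311) (nat_lit 5) (nat_lit 470) (nat_lit 468) (nat_lit 262)) (XT.nd (nat_lit 78) (nat_lit 0) (nat_lit 76) (XT.lf (nat_lit 76) (nat_lit 26978286806) (nat_lit 0) (nat_lit 40079510577) (nat_lit 1292) (nat_lit 53676162339) (nat_lit 296) (nat_lit 5) (nat_lit 295) (nat_lit 5) (nat_lit 312) (nat_lit 5) (nat_lit 471) (nat_lit 468) (nat_lit 261)) (XT.lf (nat_lit 76) (nat_lit 7474622358) (nat_lit 0) (nat_lit 66914747793) (nat_lit 1292) (nat_lit 49417462930) (nat_lit 297) (nat_lit 5) (nat_lit 296) (nat_lit 5) (nat_lit 313) (nat_lit 5) (nat_lit 472) (nat_lit 468) (nat_lit 260)))))) (XT.nd (nat_lit 468) (nat_lit 2432) (nat_lit 0) (XT.nd (nat_lit 234) (nat_lit 1064) (nat_lit 0) (XT.nd (nat_lit 78) (nat_lit 0) (nat_lit 76) (XT.lf (nat_lit 0) (nat_lit 83759002260)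 (nat_lit 1216) (nat_lit 11985897254) (nat_lit 1292) (nat_lit 31238306236) (nat_lit 297) (nat_lit 5) (nat_lit 313) (nat_lit 5) (nat_lit 314) (nat_lit 5) (nat_lit 473) (nat_lit 468) (nat_lit 259)) (XT.nd (nat_lit 78) (nat_lit 0) (nat_lit 0) (XT.lf (nat_lit 0) (nat_lit 95256758564) (nat_lit 1216) (nat_lit 31473763116) (nat_lit 1292) (nat_lit 3538086159) (nat_lit 298) (nat_lit 5) (nat_lit 314) (nat_lit 5) (nat_lit 315) (nat_lit 5) (nat_lit 474) (nat_lit 468) (nat_lit 258)) (XT.lf (nat_lit 76) (nat_lit 82288340708) (nat_lit 0) (nat_lit 26922618763) (nat_lit 1292) (nat_lit 24450873918) (nat_lit 299) (nat_lit 5) (nat_lit 298) (nat_lit 5) (nat_lit 315) (nat_lit 5) (nat_lit 475) (nat_lit 468) (nat_lit 257)))) (XT.nd (nat_lit 78) (nat_lit 1216) (nat_lit 0) (XT.lf (nat_lit 76) (nat_lit 65711405334) (nat_lit 0) (nat_lit 59858501631) (nat_lit 1292) (nat_lit 11603602210) (nat_lit 300) (nat_lit 5) (nat_lit 299)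 (nat_lit 5) (nat_lit 316) (nat_lit 5) (nat_lit 476) (nat_lit 468) (nat_lit 256)) (XT.nd (nat_lit 78) (nat_lit 0) (nat_lit 76) (XT.lf (nat_lit 0) (nat_lit 3577173359) (nat_lit 1292) (nat_lit 91717299573) (nat_lit 1368) (nat_lit 45513913672) (nat_lit 283) (nat_lit 5) (nat_lit 300) (nat_lit 5) (nat_lit 301) (nat_lit 5) (nat_lit 477) (nat_lit 468) (nat_lit 255)) (XT.lf (nat_lit 0) (nat_lit 21048860183) (nat_lit 1292) (nat_lit 112215551724) (nat_lit 76) (nat_lit 11303993850) (nat_lit 284) (nat_lit 5) (nat_lit 301) (nat_lit 5) (nat_lit 285) (nat_lit 5) (nat_lit 478) (nat_lit 468) (nat_lit 254))))) (XT.nd (nat_lit 234) (nat_lit 1140) (nat_lit 0) (XT.nd (nat_lit 78) (nat_lit 608) (nat_lit 0) (XT.lf (nat_lit 0) (nat_lit 15383722471) (nat_lit 760) (nat_lit 26073245824) (nat_lit 836) (nat_lit 106997572513) (nat_lit 274) (nat_lit 5) (nat_lit 284) (nat_lit 5) (nat_lit 285) (nat_lit 5) (nat_lit 479) (nat_lit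 468) (nat_lit 253)) (XT.nd (nat_lit 78) (nat_lit 608) (nat_lit 0) (XT.lf (nat_lit 0) (nat_lit 64883000668) (nat_lit 836) (nat_lit 1635432583) (nat_lit 76) (nat_lit 85956623839) (nat_lit 274) (nat_lit 5) (nat_lit 285) (nat_lit 5) (nat_lit 275) (nat_lit 5) (nat_lit 480) (nat_lit 468) (nat_lit 252)) (XT.lf (nat_lit 0) (nat_lit 91536458108) (nat_lit 684) (nat_lit 18290516939) (nat_lit 76) (nat_lit 46807940478) (nat_lit 266) (nat_lit 5) (nat_lit 275) (nat_lit 5) (nat_lit 267) (nat_lit 5) (nat_lit 481) (nat_lit 468) (nat_lit 251)))) (XT.nd (nat_lit 61464) (nat_lit 0) (nat_lit 3192) (XT.nd (nat_lit 78) (nat_lit 532) (nat_lit 0) (XT.lf (nat_lit 0) (nat_lit 121468621989) (nat_lit 684) (nat_lit 34846326523) (nat_lit 76) (nat_lit 4629437403) (nat_lit 258) (nat_lit 5) (nat_lit 267) (nat_lit 5) (nat_lit 259) (nat_lit 5) (nat_lit 482) (nat_lit 468) (nat_lit 250)) (XT.lf (nat_lit 0) (nat_lit 113733258103) (nat_lit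 532) (nat_lit 41555758503) (nat_lit 608) (nat_lit 10108564582) (nat_lit 251) (nat_lit 5) (nat_lit 258) (nat_lit 5) (nat_lit 259) (nat_lit 5) (nat_lit 483) (nat_lit 468) (nat_lit 249))) (XT.nd (nat_lit 78) (nat_lit 0) (nat_lit 76) (XT.lf (nat_lit 0) (nat_lit 29213323540) (nat_lit 1292) (nat_lit 14822001129) (nat_lit 1292) (nat_lit 14822001129) (nat_lit 293) (nat_lit 3) (nat_lit 310) (nat_lit 3) (nat_lit 310) (nat_lit 5) (nat_lit 469) (nat_lit 469) (nat_lit 262)) (XT.lf (nat_lit 0) (nat_lit 60631943961) (nat_lit 1216) (nat_lit 52107093507) (nat_lit 1292) (nat_lit 7896140424) (nat_lit 294) (nat_lit 5) (nat_lit 310) (nat_lit 5) (nat_lit 311) (nat_lit 5) (nat_lit 470) (nat_lit 469) (nat_lit 261))))))) (XT.nd (nat_lit 62400) (nat_lit 0) (nat_lit 1216) (XT.nd (nat_lit 468) (nat_lit 2736) (nat_lit 0) (XT.nd (nat_lit 234) (nat_lit 0) (nat_lit 228) (XT.nd (nat_lit 78) (nat_lit 0) (nat_lit 76) (XT.lf (nat_lit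 76) (nat_lit 48591653735) (nat_lit 0) (nat_lit 16019549063) (nat_lit 1292) (nat_lit 59040616859) (nat_lit 295) (nat_lit 5) (nat_lit 294) (nat_lit 5) (nat_lit 311) (nat_lit 5) (nat_lit 471) (nat_lit 469) (nat_lit 260)) (XT.nd (nat_lit 78) (nat_lit 0) (nat_lit 76) (XT.lf (nat_lit 76) (nat_lit 28336142493) (nat_lit 0) (nat_lit 42089126058) (nat_lit 1292) (nat_lit 56344949706) (nat_lit 296) (nat_lit 5) (nat_lit 295) (nat_lit 5) (nat_lit 312) (nat_lit 5) (nat_lit 472) (nat_lit 469) (nat_lit 259)) (XT.lf (nat_lit 76) (nat_lit 7857518036) (nat_lit 0) (nat_lit 70265244037) (nat_lit 1292) (nat_lit 51873993044) (nat_lit 297) (nat_lit 5) (nat_lit 296) (nat_lit 5) (nat_lit 313) (nat_lit 5) (nat_lit 473) (nat_lit 469) (nat_lit 258)))) (XT.nd (nat_lit 78) (nat_lit 0) (nat_lit 76) (XT.lf (nat_lit 0) (nat_lit 87960169201) (nat_lit 1216) (nat_lit 12576020762) (nat_lit 1292) (nat_lit 32795777746) (nat_lit 297) (nat_lit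 5) (nat_lit 313) (nat_lit 5) (nat_lit 314) (nat_lit 5) (nat_lit 474) (nat_lit 469) (nat_lit 257)) (XT.nd (nat_lit 78) (nat_lit 0) (nat_lit 0) (XT.lf (nat_lit 0) (nat_lit 100032233393) (nat_lit 1216) (nat_lit 33038124694) (nat_lit 1292) (nat_lit 3711299300) (nat_lit 298) (nat_lit 5) (nat_lit 314) (nat_lit 5) (nat_lit 315) (nat_lit 5) (nat_lit 475) (nat_lit 469) (nat_lit 256)) (XT.lf (nat_lit 76) (nat_lit 86411816977) (nat_lit 0) (nat_lit 28271812694) (nat_lit 1292) (nat_lit 25660930066) (nat_lit 299) (nat_lit 5) (nat_lit 298) (nat_lit 5) (nat_lit 315) (nat_lit 5) (nat_lit 476) (nat_lit 469) (nat_lit 255))))) (XT.nd (nat_lit 234) (nat_lit 1900) (nat_lit 0) (XT.nd (nat_lit 78) (nat_lit 1216) (nat_lit 0) (XT.lf (nat_lit 76) (nat_lit 69006158602) (nat_lit 0) (nat_lit 62853848919) (nat_lit 1292) (nat_lit 12171827380) (nat_lit 300) (nat_lit 5) (nat_lit 299) (nat_lit 5) (nat_lit 316) (nat_lit 5) (nat_lit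 477) (nat_lit 469) (nat_lit 254)) (XT.nd (nat_lit 78) (nat_lit 0) (nat_lit 76) (XT.lf (nat_lit 0) (nat_lit 3767263224) (nat_lit 1292) (nat_lit 96293657475) (nat_lit 1368) (nat_lit 47787546842) (nat_lit 283) (nat_lit 5) (nat_lit 300) (nat_lit 5) (nat_lit 301) (nat_lit 5) (nat_lit 478) (nat_lit 469) (nat_lit 253)) (XT.lf (nat_lit 0) (nat_lit 22112073433) (nat_lit 1292) (nat_lit 117816754905) (nat_lit 76) (nat_lit 11867673212) (nat_lit 284) (nat_lit 5) (nat_lit 301) (nat_lit 5) (nat_lit 285) (nat_lit 5) (nat_lit 479) (nat_lit 469) (nat_lit 252)))) (XT.nd (nat_lit 156) (nat_lit 1216) (nat_lit 0) (XT.nd (nat_lit 78) (nat_lit 0) (nat_lit 0) (XT.lf (nat_lit 0) (nat_lit 16162208552) (nat_lit 760) (nat_lit 27377954927) (nat_lit 836) (nat_lit 112336792644) (nat_lit 274) (nat_lit 5) (nat_lit 284) (nat_lit 5) (nat_lit 285) (nat_lit 5) (nat_lit 480) (nat_lit 469) (nat_lit 251)) (XT.lf (nat_lit 0) (nat_lit 68136995184)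 (nat_lit 836) (nat_lit 1708040645) (nat_lit 76) (nat_lit 90253477521) (nat_lit 274) (nat_lit 5) (nat_lit 285) (nat_lit 5) (nat_lit 275) (nat_lit 5) (nat_lit 481) (nat_lit 469) (nat_lit 250))) (XT.nd (nat_lit 78) (nat_lit 608) (nat_lit 0) (XT.lf (nat_lit 0) (nat_lit 96122736885) (nat_lit 684) (nat_lit 19195851467) (nat_lit 76) (nat_lit 49147788073) (nat_lit 266) (nat_lit 5) (nat_lit 275) (nat_lit 5) (nat_lit 267) (nat_lit 5) (nat_lit 482) (nat_lit 469) (nat_lit 249)) (XT.lf (nat_lit 0) (nat_lit 127551142929) (nat_lit 684) (nat_lit 36579439542) (nat_lit 76) (nat_lit 4860748903) (nat_lit 258) (nat_lit 5) (nat_lit 267) (nat_lit 5) (nat_lit 259) (nat_lit 5) (nat_lit 483) (nat_lit 469) (nat_lit 248)))))) (XT.nd (nat_lit 468) (nat_lit 1444) (nat_lit 0) (XT.nd (nat_lit 234) (nat_lit 0) (nat_lit 152) (XT.nd (nat_lit 78) (nat_lit 0) (nat_lit 76) (XT.lf (nat_lit 0) (nat_lit 30681586456) (nat_lit 1292) (nat_lit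 15559188337) (nat_lit 1292) (nat_lit 15559188337) (nat_lit 293) (nat_lit 3) (nat_lit 310) (nat_lit 3) (nat_lit 310) (nat_lit 5) (nat_lit 470) (nat_lit 470) (nat_lit 260)) (XT.nd (nat_lit 78) (nat_lit 0) (nat_lit 0) (XT.lf (nat_lit 0) (nat_lit 63678017478) (nat_lit 1216) (nat_lit 54704341777) (nat_lit 1292) (nat_lit 8284141230) (nat_lit 294) (nat_lit 5) (nat_lit 310) (nat_lit 5) (nat_lit 311) (nat_lit 5) (nat_lit 471) (nat_lit 470) (nat_lit 259)) (XT.lf (nat_lit 76) (nat_lit 51029110459) (nat_lit 0) (nat_lit 16826515140) (nat_lit 1292) (nat_lit 61978367245) (nat_lit 295) (nat_lit 5) (nat_lit 294) (nat_lit 5) (nat_lit 311) (nat_lit 5) (nat_lit 472) (nat_lit 470) (nat_lit 258)))) (XT.nd (nat_lit 78) (nat_lit 0) (nat_lit 76) (XT.lf (nat_lit 76) (nat_lit 29761059683) (nat_lit 0) (nat_lit 44198697965) (nat_lit 1292) (nat_lit 59148572929) (nat_lit 296) (nat_lit 5) (nat_lit 295) (nat_lit 5) (nat_lit 312)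 (nat_lit 5) (nat_lit 473) (nat_lit 470) (nat_lit 257)) (XT.nd (nat_lit 78) (nat_lit 0) (nat_lit 76) (XT.lf (nat_lit 76) (nat_lit 8258706463) (nat_lit 0) (nat_lit 73782822661) (nat_lit 1292) (nat_lit 54454683143) (nat_lit 297) (nat_lit 5) (nat_lit 296) (nat_lit 5) (nat_lit 313) (nat_lit 5) (nat_lit 474) (nat_lit 470) (nat_lit 256)) (XT.lf (nat_lit 0) (nat_lit 92370165714) (nat_lit 1216) (nat_lit 13196503111) (nat_lit 1292) (nat_lit 34431535974) (nat_lit 297) (nat_lit 5) (nat_lit 313) (nat_lit 5) (nat_lit 314) (nat_lit 5) (nat_lit 475) (nat_lit 470) (nat_lit 255))))) (XT.nd (nat_lit 234) (nat_lit 1824) (nat_lit 0) (XT.nd (nat_lit 78) (nat_lit 0) (nat_lit 0) (XT.lf (nat_lit 0) (nat_lit 105045307104) (nat_lit 1216) (nat_lit 34681571447) (nat_lit 1292) (nat_lit 3893516268) (nat_lit 298) (nat_lit 5) (nat_lit 314) (nat_lit 5) (nat_lit 315) (nat_lit 5) (nat_lit 476) (nat_lit 470) (nat_lit 254)) (XT.nd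 (nat_lit 78) (nat_lit 0) (nat_lit 76) (XT.lf (nat_lit 76) (nat_lit 90740624818) (nat_lit 0) (nat_lit 29688181553) (nat_lit 1292) (nat_lit 26932649995) (nat_lit 299) (nat_lit 5) (nat_lit 298) (nat_lit 5) (nat_lit 315) (nat_lit 5) (nat_lit 477) (nat_lit 470) (nat_lit 253)) (XT.lf (nat_lit 76) (nat_lit 72464795786) (nat_lit 0) (nat_lit 65998738379) (nat_lit 1292) (nat_lit 12769575265) (nat_lit 300) (nat_lit 5) (nat_lit 299) (nat_lit 5) (nat_lit 316) (nat_lit 5) (nat_lit 478) (nat_lit 470) (nat_lit 252)))) (XT.nd (nat_lit 156) (nat_lit 684) (nat_lit 0) (XT.nd (nat_lit 78) (nat_lit 0) (nat_lit 76) (XT.lf (nat_lit 0) (nat_lit 3965813412) (nat_lit 1292) (nat_lit 101099717150) (nat_lit 1368) (nat_lit 50175053424) (nat_lit 283) (nat_lit 5) (nat_lit 300) (nat_lit 5) (nat_lit 301) (nat_lit 5) (nat_lit 479) (nat_lit 470) (nat_lit 251)) (XT.lf (nat_lit 0) (nat_lit 23227446031) (nat_lit 1292) (nat_lit 123698908381)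 (nat_lit 76) (nat_lit 12459677888) (nat_lit 284) (nat_lit 5) (nat_lit 301) (nat_lit 5) (nat_lit 285) (nat_lit 5) (nat_lit 480) (nat_lit 470) (nat_lit 250))) (XT.nd (nat_lit 78) (nat_lit 0) (nat_lit 0) (XT.lf (nat_lit 0) (nat_lit 16978754315) (nat_lit 760) (nat_lit 28747802162) (nat_lit 836) (nat_lit 117943964708) (nat_lit 274) (nat_lit 5) (nat_lit 284) (nat_lit 5) (nat_lit 285) (nat_lit 5) (nat_lit 481) (nat_lit 470) (nat_lit 249)) (XT.lf (nat_lit 0) (nat_lit 71552774179) (nat_lit 836) (nat_lit 1785131052) (nat_lit 76) (nat_lit 94765264767) (nat_lit 274) (nat_lit 5) (nat_lit 285) (nat_lit 5) (nat_lit 275) (nat_lit 5) (nat_lit 482) (nat_lit 470) (nat_lit 248))))))))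
noncomputable def xc127 : XT := (XT.nd (nat_lit 186732) (nat_lit 0) (nat_lit 2052) (XT.nd (nat_lit 62400) (nat_lit 0) (nat_lit 608) (XT.nd (nat_lit 61932) (nat_lit 0) (nat_lit 1292) (XT.nd (nat_lit 61698) (nat_lit 0) (nat_lit 2128) (XT.nd (nat_lit 61542) (nat_lit 0) (nat_lit 2052) (XT.lf (nat_lit 0) (nat_lit 100937450484) (nat_lit 684) (nat_lit 20147307244) (nat_lit 76) (nat_lit 51604679128) (nat_lit 266) (nat_lit 5) (nat_lit 275) (nat_lit 5) (nat_lit 267) (nat_lit 5) (nat_lit 483) (nat_lit 470) (nat_lit 247)) (XT.nd (nat_lit 78) (nat_lit 0) (nat_lit 76) (XT.lf (nat_lit 0) (nat_lit 32222556244) (nat_lit 1292) (nat_lit 16333598685) (nat_lit 1292) (nat_lit 16333598685) (nat_lit 293) (nat_lit 3) (nat_lit 310) (nat_lit 3) (nat_lit 310) (nat_lit 5) (nat_lit 471) (nat_lit 471) (nat_lit 258)) (XT.lf (nat_lit 0) (nat_lit 66875048801) (nat_lit 1216) (nat_lit 57432206117) (nat_lit 1292) (nat_lit 8692174853)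 (nat_lit 294) (nat_lit 5) (nat_lit 310) (nat_lit 5) (nat_lit 311) (nat_lit 5) (nat_lit 472) (nat_lit 471) (nat_lit 257)))) (XT.nd (nat_lit 78) (nat_lit 0) (nat_lit 76) (XT.lf (nat_lit 76) (nat_lit 53587707966) (nat_lit 0) (nat_lit 17673272756) (nat_lit 1292) (nat_lit 65064332812) (nat_lit 295) (nat_lit 5) (nat_lit 294) (nat_lit 5) (nat_lit 311) (nat_lit 5) (nat_lit 473) (nat_lit 471) (nat_lit 256)) (XT.nd (nat_lit 78) (nat_lit 0) (nat_lit 76) (XT.lf (nat_lit 76) (nat_lit 31256468735) (nat_lit 0) (nat_lit 46413272866) (nat_lit 1292) (nat_lit 62093643967) (nat_lit 296) (nat_lit 5) (nat_lit 295) (nat_lit 5) (nat_lit 312) (nat_lit 5) (nat_lit 474) (nat_lit 471) (nat_lit 255)) (XT.lf (nat_lit 76) (nat_lit 8679181492) (nat_lit 0) (nat_lit 77475878915) (nat_lit 1292) (nat_lit 57165617252) (nat_lit 297) (nat_lit 5) (nat_lit 296) (nat_lit 5) (nat_lit 313) (nat_lit 5) (nat_lit 475) (nat_lit 471) (nat_lit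 254))))) (XT.nd (nat_lit 234) (nat_lit 1064) (nat_lit 0) (XT.nd (nat_lit 78) (nat_lit 0) (nat_lit 76) (XT.lf (nat_lit 0) (nat_lit 96999547516) (nat_lit 1216) (nat_lit 13848782970) (nat_lit 1292) (nat_lit 36149456845) (nat_lit 297) (nat_lit 5) (nat_lit 313) (nat_lit 5) (nat_lit 314) (nat_lit 5) (nat_lit 476) (nat_lit 471) (nat_lit 253)) (XT.nd (nat_lit 78) (nat_lit 0) (nat_lit 0) (XT.lf (nat_lit 0) (nat_lit 110307968869) (nat_lit 1216) (nat_lit 36407977021) (nat_lit 1292) (nat_lit 4085155349) (nat_lit 298) (nat_lit 5) (nat_lit 314) (nat_lit 5) (nat_lit 315) (nat_lit 5) (nat_lit 477) (nat_lit 471) (nat_lit 252)) (XT.lf (nat_lit 76) (nat_lit 95285109113) (nat_lit 0) (nat_lit 31175110562) (nat_lit 1292) (nat_lit 28269008958) (nat_lit 299) (nat_lit 5) (nat_lit 298) (nat_lit 5) (nat_lit 315) (nat_lit 5) (nat_lit 478) (nat_lit 471) (nat_lit 251)))) (XT.nd (nat_lit 78) (nat_lit 1216) (nat_lit 0) (XT.lf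 (nat_lit 76) (nat_lit 76095590453) (nat_lit 0) (nat_lit 69300668053) (nat_lit 1292) (nat_lit 13398218668) (nat_lit 300) (nat_lit 5) (nat_lit 299) (nat_lit 5) (nat_lit 316) (nat_lit 5) (nat_lit 479) (nat_lit 471) (nat_lit 250)) (XT.nd (nat_lit 78) (nat_lit 0) (nat_lit 76) (XT.lf (nat_lit 0) (nat_lit 4173344017) (nat_lit 1292) (nat_lit 106146881512) (nat_lit 1368) (nat_lit 52682109260) (nat_lit 283) (nat_lit 5) (nat_lit 300) (nat_lit 5) (nat_lit 301) (nat_lit 5) (nat_lit 480) (nat_lit 471) (nat_lit 249)) (XT.lf (nat_lit 0) (nat_lit 24397679037) (nat_lit 1292) (nat_lit 129875976913) (nat_lit 76) (nat_lit 13081411003) (nat_lit 284) (nat_lit 5) (nat_lit 301) (nat_lit 5) (nat_lit 285) (nat_lit 5) (nat_lit 481) (nat_lit 471) (nat_lit 248)))))) (XT.nd (nat_lit 62088) (nat_lit 0) (nat_lit 684) (XT.nd (nat_lit 61854) (nat_lit 0) (nat_lit 1520) (XT.nd (nat_lit 61698) (nat_lit 0) (nat_lit 1444) (XT.lf (nat_lit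 0) (nat_lit 17835343129) (nat_lit 760) (nat_lit 30186053485) (nat_lit 836) (nat_lit 123832394173) (nat_lit 274) (nat_lit 5) (nat_lit 284) (nat_lit 5) (nat_lit 285) (nat_lit 5) (nat_lit 482) (nat_lit 471) (nat_lit 247)) (XT.nd (nat_lit 78) (nat_lit 0) (nat_lit 76) (XT.lf (nat_lit 0) (nat_lit 33839933912) (nat_lit 1292) (nat_lit 17147059509) (nat_lit 1292) (nat_lit 17147059509) (nat_lit 293) (nat_lit 3) (nat_lit 310) (nat_lit 3) (nat_lit 310) (nat_lit 5) (nat_lit 472) (nat_lit 472) (nat_lit 256)) (XT.lf (nat_lit 0) (nat_lit 70230710945) (nat_lit 1216) (nat_lit 60297147263) (nat_lit 1292) (nat_lit 9121184105) (nat_lit 294) (nat_lit 5) (nat_lit 310) (nat_lit 5) (nat_lit 311) (nat_lit 5) (nat_lit 473) (nat_lit 472) (nat_lit 255)))) (XT.nd (nat_lit 78) (nat_lit 0) (nat_lit 76) (XT.lf (nat_lit 76) (nat_lit 56273571354) (nat_lit 0) (nat_lit 18561863250) (nat_lit 1292) (nat_lit 68305800885) (nat_lit 295)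 (nat_lit 5) (nat_lit 294) (nat_lit 5) (nat_lit 311) (nat_lit 5) (nat_lit 474) (nat_lit 472) (nat_lit 254)) (XT.nd (nat_lit 78) (nat_lit 0) (nat_lit 76) (XT.lf (nat_lit 76) (nat_lit 32825964343) (nat_lit 0) (nat_lit 48738145129) (nat_lit 1292) (nat_lit 65187117450) (nat_lit 296) (nat_lit 5) (nat_lit 295) (nat_lit 5) (nat_lit 312) (nat_lit 5) (nat_lit 475) (nat_lit 472) (nat_lit 253)) (XT.lf (nat_lit 76) (nat_lit 9119979302) (nat_lit 0) (nat_lit 81353223992) (nat_lit 1292) (nat_lit 60013195123) (nat_lit 297) (nat_lit 5) (nat_lit 296) (nat_lit 5) (nat_lit 313) (nat_lit 5) (nat_lit 476) (nat_lit 472) (nat_lit 252))))) (XT.nd (nat_lit 234) (nat_lit 1064) (nat_lit 0) (XT.nd (nat_lit 78) (nat_lit 0) (nat_lit 76) (XT.lf (nat_lit 0) (nat_lit 101859387493) (nat_lit 1216) (nat_lit 14534378312) (nat_lit 1292) (nat_lit 37953613654) (nat_lit 297) (nat_lit 5) (nat_lit 313) (nat_lit 5) (nat_lit 314) (nat_lit 5)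 (nat_lit 477) (nat_lit 472) (nat_lit 251)) (XT.nd (nat_lit 78) (nat_lit 0) (nat_lit 0) (XT.lf (nat_lit 0) (nat_lit 115832797162) (nat_lit 1216) (nat_lit 38221416235) (nat_lit 1292) (nat_lit 4286658710) (nat_lit 298) (nat_lit 5) (nat_lit 314) (nat_lit 5) (nat_lit 315) (nat_lit 5) (nat_lit 478) (nat_lit 472) (nat_lit 250)) (XT.lf (nat_lit 76) (nat_lit 100056124708) (nat_lit 0) (nat_lit 32736151743) (nat_lit 1292) (nat_lit 29673141005) (nat_lit 299) (nat_lit 5) (nat_lit 298) (nat_lit 5) (nat_lit 315) (nat_lit 5) (nat_lit 479) (nat_lit 472) (nat_lit 249)))) (XT.nd (nat_lit 156) (nat_lit 0) (nat_lit 76) (XT.nd (nat_lit 78) (nat_lit 1216) (nat_lit 0) (XT.lf (nat_lit 76) (nat_lit 79907222473) (nat_lit 0) (nat_lit 72767508944) (nat_lit 1292) (nat_lit 14059208640) (nat_lit 300) (nat_lit 5) (nat_lit 299) (nat_lit 5) (nat_lit 316) (nat_lit 5) (nat_lit 480) (nat_lit 472) (nat_lit 248)) (XT.lf (nat_lit 0) (nat_lit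 4390392110) (nat_lit 1292) (nat_lit 111447131260) (nat_lit 1368) (nat_lit 55314675643) (nat_lit 283) (nat_lit 5) (nat_lit 300) (nat_lit 5) (nat_lit 301) (nat_lit 5) (nat_lit 481) (nat_lit 472) (nat_lit 247))) (XT.nd (nat_lit 61776) (nat_lit 0) (nat_lit 684) (XT.lf (nat_lit 0) (nat_lit 25625599909) (nat_lit 1292) (nat_lit 136362631189) (nat_lit 76) (nat_lit 13734347059) (nat_lit 284) (nat_lit 5) (nat_lit 301) (nat_lit 5) (nat_lit 285) (nat_lit 5) (nat_lit 482) (nat_lit 472) (nat_lit 246)) (XT.lf (nat_lit 0) (nat_lit 35537599411) (nat_lit 1292) (nat_lit 18001492656) (nat_lit 1292) (nat_lit 18001492656) (nat_lit 293) (nat_lit 3) (nat_lit 310) (nat_lit 3) (nat_lit 310) (nat_lit 5) (nat_lit 473) (nat_lit 473) (nat_lit 254))))))) (XT.nd (nat_lit 62868) (nat_lit 0) (nat_lit 0) (XT.nd (nat_lit 468) (nat_lit 76) (nat_lit 0) (XT.nd (nat_lit 234) (nat_lit 0) (nat_lit 152) (XT.nd (nat_lit 78) (nat_lit 0) (nat_lit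 0) (XT.lf (nat_lit 0) (nat_lit 73753048945) (nat_lit 1216) (nat_lit 63305955501) (nat_lit 1292) (nat_lit 9572164408) (nat_lit 294) (nat_lit 5) (nat_lit 310) (nat_lit 5) (nat_lit 311) (nat_lit 5) (nat_lit 474) (nat_lit 473) (nat_lit 253)) (XT.nd (nat_lit 78) (nat_lit 0) (nat_lit 76) (XT.lf (nat_lit 76) (nat_lit 59093125649) (nat_lit 0) (nat_lit 19494425216) (nat_lit 1292) (nat_lit 71710434633) (nat_lit 295) (nat_lit 5) (nat_lit 294) (nat_lit 5) (nat_lit 311) (nat_lit 5) (nat_lit 475) (nat_lit 473) (nat_lit 252)) (XT.lf (nat_lit 76) (nat_lit 34473314416) (nat_lit 0) (nat_lit 51178869727) (nat_lit 1292) (nat_lit 68436306688) (nat_lit 296) (nat_lit 5) (nat_lit 295) (nat_lit 5) (nat_lit 312) (nat_lit 5) (nat_lit 476) (nat_lit 473) (nat_lit 251)))) (XT.nd (nat_lit 78) (nat_lit 0) (nat_lit 76) (XT.lf (nat_lit 76) (nat_lit 9582181201) (nat_lit 0) (nat_lit 85424106172) (nat_lit 1292) (nat_lit 63004146950)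 (nat_lit 297) (nat_lit 5) (nat_lit 296) (nat_lit 5) (nat_lit 313) (nat_lit 5) (nat_lit 477) (nat_lit 473) (nat_lit 250)) (XT.nd (nat_lit 78) (nat_lit 0) (nat_lit 76) (XT.lf (nat_lit 0) (nat_lit 106961302537) (nat_lit 1216) (nat_lit 15254889694) (nat_lit 1292) (nat_lit 39848286596) (nat_lit 297) (nat_lit 5) (nat_lit 313) (nat_lit 5) (nat_lit 314) (nat_lit 5) (nat_lit 478) (nat_lit 473) (nat_lit 249)) (XT.lf (nat_lit 0) (nat_lit 121632990172) (nat_lit 1216) (nat_lit 40126174452) (nat_lit 1292) (nat_lit 4498493319) (nat_lit 298) (nat_lit 5) (nat_lit 314) (nat_lit 5) (nat_lit 315) (nat_lit 5) (nat_lit 479) (nat_lit 473) (nat_lit 248))))) (XT.nd (nat_lit 62088) (nat_lit 0) (nat_lit 76) (XT.nd (nat_lit 78) (nat_lit 380) (nat_lit 0) (XT.lf (nat_lit 76) (nat_lit 105065062589) (nat_lit 0) (nat_lit 34375032484) (nat_lit 1292) (nat_lit 31148345991) (nat_lit 299) (nat_lit 5) (nat_lit 298) (nat_lit 5) (nat_lit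 315) (nat_lit 5) (nat_lit 480) (nat_lit 473) (nat_lit 247)) (XT.nd (nat_lit 61932) (nat_lit 456) (nat_lit 0) (XT.lf (nat_lit 76) (nat_lit 83908799014) (nat_lit 0) (nat_lit 76407523836) (nat_lit 1292) (nat_lit 14754077497) (nat_lit 300) (nat_lit 5) (nat_lit 299) (nat_lit 5) (nat_lit 316) (nat_lit 5) (nat_lit 481) (nat_lit 473) (nat_lit 246)) (XT.lf (nat_lit 0) (nat_lit 37319621153) (nat_lit 1292) (nat_lit 18898918919) (nat_lit 1292) (nat_lit 18898918919) (nat_lit 293) (nat_lit 3) (nat_lit 310) (nat_lit 3) (nat_lit 310) (nat_lit 5) (nat_lit 474) (nat_lit 474) (nat_lit 252)))) (XT.nd (nat_lit 156) (nat_lit 0) (nat_lit 76) (XT.nd (nat_lit 78) (nat_lit 0) (nat_lit 0) (XT.lf (nat_lit 0) (nat_lit 77450499536) (nat_lit 1216) (nat_lit 66465766542) (nat_lit 1292) (nat_lit 10046165914) (nat_lit 294) (nat_lit 5) (nat_lit 310) (nat_lit 5) (nat_lit 311) (nat_lit 5) (nat_lit 475) (nat_lit 474) (nat_lit 251))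 (XT.lf (nat_lit 76) (nat_lit 62053111390) (nat_lit 0) (nat_lit 20473199814) (nat_lit 1292) (nat_lit 75286290789) (nat_lit 295) (nat_lit 5) (nat_lit 294) (nat_lit 5) (nat_lit 311) (nat_lit 5) (nat_lit 476) (nat_lit 474) (nat_lit 250))) (XT.nd (nat_lit 78) (nat_lit 0) (nat_lit 76) (XT.lf (nat_lit 76) (nat_lit 36202469348) (nat_lit 0) (nat_lit 53741275655) (nat_lit 1292) (nat_lit 71848900585) (nat_lit 296) (nat_lit 5) (nat_lit 295) (nat_lit 5) (nat_lit 312) (nat_lit 5) (nat_lit 477) (nat_lit 474) (nat_lit 249)) (XT.lf (nat_lit 76) (nat_lit 10066916506) (nat_lit 0) (nat_lit 89698233004) (nat_lit 1292) (nat_lit 66145548920) (nat_lit 297) (nat_lit 5) (nat_lit 296) (nat_lit 5) (nat_lit 313) (nat_lit 5) (nat_lit 478) (nat_lit 474) (nat_lit 248)))))) (XT.nd (nat_lit 62478) (nat_lit 0) (nat_lit 0) (XT.nd (nat_lit 62244) (nat_lit 0) (nat_lit 76) (XT.nd (nat_lit 78) (nat_lit 304) (nat_lit 0) (XT.lf (nat_lit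 0) (nat_lit 112317481649) (nat_lit 1216) (nat_lit 16012003762) (nat_lit 1292) (nat_lit 41837972817) (nat_lit 297) (nat_lit 5) (nat_lit 313) (nat_lit 5) (nat_lit 314) (nat_lit 5) (nat_lit 479) (nat_lit 474) (nat_lit 247)) (XT.nd (nat_lit 62088) (nat_lit 380) (nat_lit 0) (XT.lf (nat_lit 0) (nat_lit 127722397642) (nat_lit 1216) (nat_lit 42126757465) (nat_lit 1292) (nat_lit 4721151928) (nat_lit 298) (nat_lit 5) (nat_lit 314) (nat_lit 5) (nat_lit 315) (nat_lit 5) (nat_lit 480) (nat_lit 474) (nat_lit 246)) (XT.lf (nat_lit 0) (nat_lit 39190265950) (nat_lit 1292) (nat_lit 19841462716) (nat_lit 1292) (nat_lit 19841462716) (nat_lit 293) (nat_lit 3) (nat_lit 310) (nat_lit 3) (nat_lit 310) (nat_lit 5) (nat_lit 475) (nat_lit 475) (nat_lit 250)))) (XT.nd (nat_lit 78) (nat_lit 0) (nat_lit 0) (XT.lf (nat_lit 0) (nat_lit 81331911717) (nat_lit 1216) (nat_lit 69784078240) (nat_lit 1292) (nat_lit 10544295784) (nat_lit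 294) (nat_lit 5) (nat_lit 310) (nat_lit 5) (nat_lit 311) (nat_lit 5) (nat_lit 476) (nat_lit 475) (nat_lit 249)) (XT.nd (nat_lit 78) (nat_lit 0) (nat_lit 76) (XT.lf (nat_lit 76) (nat_lit 65160600935) (nat_lit 0) (nat_lit 21500536300) (nat_lit 1292) (nat_lit 79041838367) (nat_lit 295) (nat_lit 5) (nat_lit 294) (nat_lit 5) (nat_lit 311) (nat_lit 5) (nat_lit 477) (nat_lit 475) (nat_lit 248)) (XT.lf (nat_lit 76) (nat_lit 38017571692) (nat_lit 0) (nat_lit 56431479974) (nat_lit 1292) (nat_lit 75432981498) (nat_lit 296) (nat_lit 5) (nat_lit 295) (nat_lit 5) (nat_lit 312) (nat_lit 5) (nat_lit 478) (nat_lit 475) (nat_lit 247))))) (XT.nd (nat_lit 62322) (nat_lit 0) (nat_lit 76) (XT.nd (nat_lit 78) (nat_lit 228) (nat_lit 0) (XT.lf (nat_lit 76) (nat_lit 10575365501) (nat_lit 0) (nat_lit 94185794563) (nat_lit 1292) (nat_lit 69444839629) (nat_lit 297) (nat_lit 5) (nat_lit 296) (nat_lit 5) (nat_lit 313) (nat_lit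 5) (nat_lit 479) (nat_lit 475) (nat_lit 246)) (XT.nd (nat_lit 62166) (nat_lit 304) (nat_lit 0) (XT.lf (nat_lit 0) (nat_lit 117940715356) (nat_lit 1216) (nat_lit 16807496997) (nat_lit 1292) (nat_lit 43927396983) (nat_lit 297) (nat_lit 5) (nat_lit 313) (nat_lit 5) (nat_lit 314) (nat_lit 5) (nat_lit 480) (nat_lit 475) (nat_lit 245)) (XT.lf (nat_lit 0) (nat_lit 41154009395) (nat_lit 1292) (nat_lit 20831357031) (nat_lit 1292) (nat_lit 20831357031) (nat_lit 293) (nat_lit 3) (nat_lit 310) (nat_lit 3) (nat_lit 310) (nat_lit 5) (nat_lit 476) (nat_lit 476) (nat_lit 248)))) (XT.nd (nat_lit 156) (nat_lit 0) (nat_lit 0) (XT.nd (nat_lit 78) (nat_lit 0) (nat_lit 0) (XT.lf (nat_lit 0) (nat_lit 85406568260) (nat_lit 1216) (nat_lit 73268768202) (nat_lit 1292) (nat_lit 11067720617) (nat_lit 294) (nat_lit 5) (nat_lit 310) (nat_lit 5) (nat_lit 311) (nat_lit 5) (nat_lit 477) (nat_lit 476) (nat_lit 247)) (XT.lf (nat_lit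 76) (nat_lit 68423015540) (nat_lit 0) (nat_lit 22578897805) (nat_lit 1292) (nat_lit 82985978392) (nat_lit 295) (nat_lit 5) (nat_lit 294) (nat_lit 5) (nat_lit 311) (nat_lit 5) (nat_lit 478) (nat_lit 476) (nat_lit 246))) (XT.nd (nat_lit 62400) (nat_lit 76) (nat_lit 0) (XT.lf (nat_lit 76) (nat_lit 39922966264) (nat_lit 0) (nat_lit 59255902532) (nat_lit 1292) (nat_lit 79197044074) (nat_lit 296) (nat_lit 5) (nat_lit 295) (nat_lit 5) (nat_lit 312) (nat_lit 5) (nat_lit 479) (nat_lit 476) (nat_lit 245)) (XT.lf (nat_lit 0) (nat_lit 89684208198) (nat_lit 1216) (nat_lit 76928112326) (nat_lit 1292) (nat_lit 11617669047) (nat_lit 294) (nat_lit 5) (nat_lit 310) (nat_lit 5) (nat_lit 311) (nat_lit 5) (nat_lit 478) (nat_lit 477) (nat_lit 245))))))))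

set_option maxRecDepth 10000000 in
noncomputable def Tp : PT := (PT.nd (nat_lit 12822576) (PT.nd (nat_lit 12011220) (PT.nd (nat_lit 10950420) (PT.nd (nat_lit 9888762) (PT.nd (nat_lit 9077016) pc0 pc1) (PT.nd (nat_lit 624468) pc2 pc3)) (PT.nd (nat_lit 624312) (PT.nd (nat_lit 374400) pc4 pc5) (PT.nd (nat_lit 249288) pc6 pc7))) (PT.nd (nat_lit 438204) (PT.nd (nat_lit 250146) (PT.nd (nat_lit 125190) pc8 pc9) (PT.nd (nat_lit 124566) pc10 pc11)) (PT.nd (nat_lit 187122) (PT.nd (nat_lit 124020) pc12 pc13) (PT.nd (nat_lit 123318) pc14 pc15)))) (PT.nd (nat_lit 498498) (PT.nd (nat_lit 249444) (PT.nd (nat_lit 125034) (PT.nd (nat_lit 62556) pc16 pc17) (PT.nd (nat_lit 62244) pc18 pc19)) (PT.nd (nat_lit 64428) (PT.nd (nat_lit 2496) pc20 pc21) (PT.nd (nat_lit 62712) pc22 pc23))) (PT.nd (nat_lit 503646) (PT.nd (nat_lit 187590) (PT.nd (nat_lit 65598) pc24 pc25) (PT.nd (nat_lit 128466) pc26 pc27)) (PT.nd (nat_lit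 431340) (PT.nd (nat_lit 187824) pc28 pc29) (PT.nd (nat_lit 187200) pc30 pc31)))))

set_option maxRecDepth 10000000 in
noncomputable def Tx : XT := (XT.nd (nat_lit 21968700) (nat_lit 0) (nat_lit 228) XT.nil (XT.nd (nat_lit 7870668) (nat_lit 0) (nat_lit 0) (XT.nd (nat_lit 3616782) (nat_lit 0) (nat_lit 2508) (XT.nd (nat_lit 2493738) (nat_lit 0) (nat_lit 1140) (XT.nd (nat_lit 1745874) (nat_lit 0) (nat_lit 608) (XT.nd (nat_lit 1186302) (nat_lit 0) (nat_lit 228) (XT.nd (nat_lit 811902) (nat_lit 0) (nat_lit 152) (XT.nd (nat_lit 561834) (nat_lit 0) (nat_lit 0) (XT.nd (nat_lit 374634) (nat_lit 0) (nat_lit 0) xc0 xc1) (XT.nd (nat_lit 125346) (nat_lit 0) (nat_lit 152) xc2 xc3)) (XT.nd (nat_lit 247572) (nat_lit 0) (nat_lit 76) (XT.nd (nat_lit 124098) (nat_lit 0) (nat_lit 0) xc4 xc5) (XT.nd (nat_lit 63492) (nat_lit 0) (nat_lit 0) xc6 xc7))) (XT.nd (nat_lit 310596) (nat_lit 0) (nat_lit 228) (XT.nd (nat_lit 185172)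 (nat_lit 0) (nat_lit 152) (XT.nd (nat_lit 63180) (nat_lit 0) (nat_lit 0) xc8 xc9) (XT.nd (nat_lit 62790) (nat_lit 0) (nat_lit 0) xc10 xc11)) (XT.nd (nat_lit 124800) (nat_lit 0) (nat_lit 0) (XT.nd (nat_lit 62478) (nat_lit 0) (nat_lit 0) xc12 xc13) (XT.nd (nat_lit 62166) (nat_lit 0) (nat_lit 0) xc14 xc15)))) (XT.nd (nat_lit 376740) (nat_lit 0) (nat_lit 228) (XT.nd (nat_lit 189072) (nat_lit 0) (nat_lit 76) (XT.nd (nat_lit 65832) (nat_lit 0) (nat_lit 0) (XT.nd (nat_lit 61854) (nat_lit 0) (nat_lit 76) xc16 xc17) (XT.nd (nat_lit 61698) (nat_lit 0) (nat_lit 0) xc18 xc19)) (XT.nd (nat_lit 122616) (nat_lit 0) (nat_lit 76) (XT.nd (nat_lit 61386) (nat_lit 0) (nat_lit 0) xc20 xc21) (XT.nd (nat_lit 3978) (nat_lit 152) (nat_lit 0) xc22 xc23))) (XT.nd (nat_lit 186264) (nat_lit 0) (nat_lit 76) (XT.nd (nat_lit 121680) (nat_lit 0) (nat_lit 76) (XT.nd (nat_lit 60918) (nat_lit 0) (nat_lit 0) xc24 xc25) (XT.nd (nat_lit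 3978) (nat_lit 836) (nat_lit 0) xc26 xc27)) (XT.nd (nat_lit 64428) (nat_lit 0) (nat_lit 152) (XT.nd (nat_lit 60450) (nat_lit 0) (nat_lit 836) xc28 xc29) (XT.nd (nat_lit 60294) (nat_lit 0) (nat_lit 0) xc30 xc31))))) (XT.nd (nat_lit 562380) (nat_lit 0) (nat_lit 684) (XT.nd (nat_lit 254904) (nat_lit 0) (nat_lit 228) (XT.nd (nat_lit 127764) (nat_lit 0) (nat_lit 152) (XT.nd (nat_lit 63960) (nat_lit 0) (nat_lit 0) (XT.nd (nat_lit 3978) (nat_lit 1368) (nat_lit 0) xc32 xc33) (XT.nd (nat_lit 59826) (nat_lit 0) (nat_lit 3040) xc34 xc35)) (XT.nd (nat_lit 63648) (nat_lit 0) (nat_lit 0) (XT.nd (nat_lit 59670) (nat_lit 0) (nat_lit 1444) xc36 xc37) (XT.nd (nat_lit 59514) (nat_lit 0) (nat_lit 456) xc38 xc39))) (XT.nd (nat_lit 181740) (nat_lit 0) (nat_lit 228) (XT.nd (nat_lit 118638) (nat_lit 0) (nat_lit 228) (XT.nd (nat_lit 59358) (nat_lit 0) (nat_lit 152) xc40 xc41) (XT.nd (nat_lit 3978) (nat_lit 3420) (nat_lit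 0) xc42 xc43)) (XT.nd (nat_lit 62946) (nat_lit 0) (nat_lit 152) (XT.nd (nat_lit 3978) (nat_lit 2356) (nat_lit 0) xc44 xc45) (XT.nd (nat_lit 3978) (nat_lit 1672) (nat_lit 0) xc46 xc47)))) (XT.nd (nat_lit 251940) (nat_lit 0) (nat_lit 228) (XT.nd (nat_lit 125814) (nat_lit 0) (nat_lit 152) (XT.nd (nat_lit 62868) (nat_lit 0) (nat_lit 0) (XT.nd (nat_lit 3978) (nat_lit 1368) (nat_lit 0) xc48 xc49) (XT.nd (nat_lit 3978) (nat_lit 912) (nat_lit 0) xc50 xc51)) (XT.nd (nat_lit 63024) (nat_lit 0) (nat_lit 76) (XT.nd (nat_lit 3978) (nat_lit 304) (nat_lit 0) xc52 xc53) (XT.nd (nat_lit 59124) (nat_lit 0) (nat_lit 5016) xc54 xc55))) (XT.nd (nat_lit 126438) (nat_lit 0) (nat_lit 228) (XT.nd (nat_lit 63180) (nat_lit 0) (nat_lit 152) (XT.nd (nat_lit 59202) (nat_lit 0) (nat_lit 3648) xc56 xc57) (XT.nd (nat_lit 59280) (nat_lit 0) (nat_lit 2204) xc58 xc59)) (XT.nd (nat_lit 63336) (nat_lit 0) (nat_lit 0) (XT.nd (nat_lit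 59358) (nat_lit 0) (nat_lit 988) xc60 xc61) (XT.nd (nat_lit 59436) (nat_lit 0) (nat_lit 152) xc62 xc63)))))) (XT.nd (nat_lit 1315860) (nat_lit 0) (nat_lit 2812) (XT.nd (nat_lit 568308) (nat_lit 0) (nat_lit 912) (XT.nd (nat_lit 255294) (nat_lit 0) (nat_lit 456) (XT.nd (nat_lit 127452) (nat_lit 0) (nat_lit 228) (XT.nd (nat_lit 63648) (nat_lit 0) (nat_lit 152) (XT.nd (nat_lit 3978) (nat_lit 4636) (nat_lit 0) xc64 xc65) (XT.nd (nat_lit 3978) (nat_lit 2280) (nat_lit 0) xc66 xc67)) (XT.nd (nat_lit 63882) (nat_lit 0) (nat_lit 76) (XT.nd (nat_lit 3978) (nat_lit 380) (nat_lit 0) xc68 xc69) (XT.nd (nat_lit 59982) (nat_lit 0) (nat_lit 2128) xc70 xc71))) (XT.nd (nat_lit 184392) (nat_lit 0) (nat_lit 228) (XT.nd (nat_lit 120198) (nat_lit 0) (nat_lit 152) (XT.nd (nat_lit 60060) (nat_lit 0) (nat_lit 76) xc72 xc73) (XT.nd (nat_lit 3978) (nat_lit 3648) (nat_lit 0) xc74 xc75)) (XT.nd (nat_lit 64272) (nat_lit 0) (nat_lit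 76) (XT.nd (nat_lit 3978) (nat_lit 532) (nat_lit 0) xc76 xc77) (XT.nd (nat_lit 60372) (nat_lit 0) (nat_lit 1216) xc78 xc79)))) (XT.nd (nat_lit 372138) (nat_lit 0) (nat_lit 684) (XT.nd (nat_lit 185640) (nat_lit 0) (nat_lit 304) (XT.nd (nat_lit 120978) (nat_lit 0) (nat_lit 228) (XT.nd (nat_lit 60450) (nat_lit 0) (nat_lit 76) xc80 xc81) (XT.nd (nat_lit 3978) (nat_lit 1140) (nat_lit 0) xc82 xc83)) (XT.nd (nat_lit 64740) (nat_lit 0) (nat_lit 152) (XT.nd (nat_lit 60762) (nat_lit 0) (nat_lit 456) xc84 xc85) (XT.nd (nat_lit 60840) (nat_lit 0) (nat_lit 76) xc86 xc87))) (XT.nd (nat_lit 187200) (nat_lit 0) (nat_lit 380) (XT.nd (nat_lit 64974) (nat_lit 0) (nat_lit 76) (XT.nd (nat_lit 60996) (nat_lit 0) (nat_lit 1748) xc88 xc89) (XT.nd (nat_lit 61074) (nat_lit 0) (nat_lit 228) xc90 xc91)) (XT.nd (nat_lit 65208) (nat_lit 0) (nat_lit 532) (XT.nd (nat_lit 61230) (nat_lit 0) (nat_lit 1900) xc92 xc93) (XT.nd (nat_lit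 61464) (nat_lit 0) (nat_lit 76) xc94 xc95))))) (XT.nd (nat_lit 937560) (nat_lit 0) (nat_lit 2964) (XT.nd (nat_lit 437112) (nat_lit 0) (nat_lit 1216) (XT.nd (nat_lit 189072) (nat_lit 0) (nat_lit 380) (XT.nd (nat_lit 123318) (nat_lit 0) (nat_lit 304) (XT.nd (nat_lit 61620) (nat_lit 0) (nat_lit 76) xc96 xc97) (XT.nd (nat_lit 3978) (nat_lit 532) (nat_lit 0) xc98 xc99)) (XT.nd (nat_lit 123786) (nat_lit 0) (nat_lit 456) (XT.nd (nat_lit 61854) (nat_lit 0) (nat_lit 152) xc100 xc101) (XT.nd (nat_lit 62088) (nat_lit 0) (nat_lit 228) xc102 xc103))) (XT.nd (nat_lit 249444) (nat_lit 0) (nat_lit 912) (XT.nd (nat_lit 124566) (nat_lit 0) (nat_lit 380) (XT.nd (nat_lit 62244) (nat_lit 0) (nat_lit 228) xc104 xc105) (XT.nd (nat_lit 62400) (nat_lit 0) (nat_lit 152) xc106 xc107)) (XT.nd (nat_lit 125346) (nat_lit 0) (nat_lit 380) (XT.nd (nat_lit 62634) (nat_lit 0) (nat_lit 228) xc108 xc109) (XT.nd (nat_lit 62790) (nat_lit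 0) (nat_lit 304) xc110 xc111)))) (XT.nd (nat_lit 625872) (nat_lit 0) (nat_lit 3268) (XT.nd (nat_lit 311766) (nat_lit 0) (nat_lit 1444) (XT.nd (nat_lit 125970) (nat_lit 0) (nat_lit 684) (XT.nd (nat_lit 62946) (nat_lit 0) (nat_lit 228) xc112 xc113) (XT.nd (nat_lit 63180) (nat_lit 0) (nat_lit 304) xc114 xc115)) (XT.nd (nat_lit 126906) (nat_lit 0) (nat_lit 836) (XT.nd (nat_lit 63414) (nat_lit 0) (nat_lit 304) xc116 xc117) (XT.nd (nat_lit 123396) (nat_lit 0) (nat_lit 608) xc118 xc119))) (XT.nd (nat_lit 437580) (nat_lit 0) (nat_lit 2812) (XT.nd (nat_lit 188058) (nat_lit 0) (nat_lit 1292) (XT.nd (nat_lit 123942) (nat_lit 0) (nat_lit 988) xc120 xc121) (XT.nd (nat_lit 124566) (nat_lit 0) (nat_lit 1140) xc122 xc123)) (XT.nd (nat_lit 312156) (nat_lit 0) (nat_lit 3344) (XT.nd (nat_lit 186186) (nat_lit 0) (nat_lit 1824) xc124 xc125) (XT.nd (nat_lit 187824) (nat_lit 0) (nat_lit 2280) xc126 xc127))))))) XT.nil))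

set_option maxRecDepth 10000000 in
noncomputable def Te : XT := XT.nil

set_option maxRecDepth 10000000 in
noncomputable def Tz : ZL := (ZL.cons (nat_lit 76) (nat_lit 3) (nat_lit 204111321366968585543) (ZL.cons (nat_lit 152) (nat_lit 6) (nat_lit 398592553560431014380) (ZL.cons (nat_lit 304) (nat_lit 3) (nat_lit 194482747877916734719) (ZL.cons (nat_lit 380) (nat_lit 6) (nat_lit 379803083581527033140) (ZL.cons (nat_lit 532) (nat_lit 3) (nat_lit 185322006745721170656) (ZL.cons (nat_lit 608) (nat_lit 6) (nat_lit 361927940868778163356) (ZL.cons (nat_lit 684) (nat_lit 6) (nat_lit 353634113159671013136) (ZL.cons (nat_lit 760) (nat_lit 3) (nat_lit 176607776446984229340) (ZL.cons (nat_lit 836) (nat_lit 6) (nat_lit 344925594065108505402) (ZL.cons (nat_lit 912) (nat_lit 6) (nat_lit 337038326384986732208) (ZL.cons (nat_lit 988) (nat_lit 3) (nat_lit 168319848780254054459) (ZL.cons (nat_lit 1064) (nat_lit 6)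 (nat_lit 328756695320858870354) (ZL.cons (nat_lit 1140) (nat_lit 6) (nat_lit 321257818293209243906) (ZL.cons (nat_lit 1216) (nat_lit 3) (nat_lit 160439085896852896576) (ZL.cons (nat_lit 1292) (nat_lit 6) (nat_lit 313383997414177136134) (ZL.cons (nat_lit 1368) (nat_lit 6) (nat_lit 306256328909940688210) (ZL.cons (nat_lit 1444) (nat_lit 3) (nat_lit 152947380407587748509) (ZL.cons (nat_lit 1520) (nat_lit 6) (nat_lit 298772276980492417892) (ZL.cons (nat_lit 1596) (nat_lit 6) (nat_lit 291999587615283415234) (ZL.cons (nat_lit 1672) (nat_lit 3) (nat_lit 145827618524420188001) (ZL.cons (nat_lit 1748) (nat_lit 6) (nat_lit 284888263781813962442) (ZL.cons (nat_lit 1824) (nat_lit 6) (nat_lit 278455245338301209562) (ZL.cons (nat_lit 1900) (nat_lit 3) (nat_lit 139063646208939633718) (ZL.cons (nat_lit 1976) (nat_lit 6) (nat_lit 271700575972612819038) (ZL.cons (nat_lit 2052) (nat_lit 6) (nat_lit 265592812740192554274)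 (ZL.cons (nat_lit 2128) (nat_lit 3) (nat_lit 132640238312752495173) (ZL.cons (nat_lit 2204) (nat_lit 6) (nat_lit 259179661346151276272) (ZL.cons (nat_lit 2280) (nat_lit 6) (nat_lit 253383604383886548926) (ZL.cons (nat_lit 2356) (nat_lit 3) (nat_lit 126543070708758720211) (ZL.cons (nat_lit 2432) (nat_lit 6) (nat_lit 247297744573508585214) (ZL.cons (nat_lit 2508) (nat_lit 6) (nat_lit 241800688916877070514) (ZL.cons (nat_lit 2584) (nat_lit 3) (nat_lit 120758695426834197874) (ZL.cons (nat_lit 2660) (nat_lit 6) (nat_lit 236028780477413980080) (ZL.cons (nat_lit 2736) (nat_lit 6) (nat_lit 230818845324801875310) (ZL.cons (nat_lit 2812) (nat_lit 3) (nat_lit 115274518822777759196) (ZL.cons (nat_lit 2888) (nat_lit 6) (nat_lit 225348413414559165306) (ZL.cons (nat_lit 2964) (nat_lit 6) (nat_lit 220414525345779691406) (ZL.cons (nat_lit 3040) (nat_lit 3) (nat_lit 110078782825629675741) (ZL.cons (nat_lit 3116)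 (nat_lit 6) (nat_lit 215233942873561243812) (ZL.cons (nat_lit 3192) (nat_lit 6) (nat_lit 210565822170089370610) (ZL.cons (nat_lit 3268) (nat_lit 3) (nat_lit 105160549325749285341) (ZL.cons (nat_lit 3344) (nat_lit 6) (nat_lit 205664295431443903746) (ZL.cons (nat_lit 3420) (nat_lit 6) (nat_lit 201252445586682827128) (ZL.cons (nat_lit 3496) (nat_lit 3) (nat_lit 100509687784488651695) (ZL.cons (nat_lit 3572) (nat_lit 6) (nat_lit 196620003249683696682) (ZL.cons (nat_lit 3648) (nat_lit 6) (nat_lit 192455703777564765512) (ZL.cons (nat_lit 3724) (nat_lit 3) (nat_lit 96116866166065466689) (ZL.cons (nat_lit 3800) (nat_lit 6) (nat_lit 188516562153877369568) (ZL.cons (nat_lit 3876) (nat_lit 6) (nat_lit 188083189331839887782) (ZL.cons (nat_lit 3952) (nat_lit 6) (nat_lit 184158492003571771692) (ZL.cons (nat_lit 4028) (nat_lit 3) (nat_lit 91973545313484061020) (ZL.cons (nat_lit 4104) (nat_lit 6) (nat_lit 180450295829878327688)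 (ZL.cons (nat_lit 4180) (nat_lit 6) (nat_lit 180037559808890249798) (ZL.cons (nat_lit 4256) (nat_lit 6) (nat_lit 176345288470896561830) (ZL.cons (nat_lit 4332) (nat_lit 3) (nat_lit 88071976913256066796) (ZL.cons (nat_lit 4408) (nat_lit 6) (nat_lit 172861485490753739836) (ZL.cons (nat_lit 4484) (nat_lit 6) (nat_lit 172468403566003189466) (ZL.cons (nat_lit 4560) (nat_lit 6) (nat_lit 169002157717219348504) (ZL.cons (nat_lit 4636) (nat_lit 3) (nat_lit 84405205218426613186) (ZL.cons (nat_lit 4712) (nat_lit 6) (nat_lit 165736963313853982514) (ZL.cons (nat_lit 4788) (nat_lit 6) (nat_lit 165362599575996315494) (ZL.cons (nat_lit 4864) (nat_lit 6) (nat_lit 162665046083518126338) (ZL.cons (nat_lit 4940) (nat_lit 6) (nat_lit 162116761909954226092) (ZL.cons (nat_lit 5016) (nat_lit 3) (nat_lit 80967072726231340602) (ZL.cons (nat_lit 5092) (nat_lit 6) (nat_lit 159065169253807810334) (ZL.cons (nat_lit 5168) (nat_lit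 6) (nat_lit 158708632360610032220) (ZL.cons (nat_lit 5244) (nat_lit 6) (nat_lit 156200555910756719614) (ZL.cons (nat_lit 5320) (nat_lit 6) (nat_lit 155678380507362528902) (ZL.cons (nat_lit 5396) (nat_lit 3) (nat_lit 77752230035828147838) (ZL.cons (nat_lit 5472) (nat_lit 6) (nat_lit 152836175007355296240) (ZL.cons (nat_lit 5548) (nat_lit 6) (nat_lit 152496616061452650416) (ZL.cons (nat_lit 5624) (nat_lit 6) (nat_lit 150175248704635936062) (ZL.cons (nat_lit 5700) (nat_lit 6) (nat_lit 149677938796641468720) (ZL.cons (nat_lit 5776) (nat_lit 3) (nat_lit 74756150143222528061) (ZL.cons (nat_lit 5852) (nat_lit 6) (nat_lit 147689266060388449892) (ZL.cons (nat_lit 5928) (nat_lit 6) (nat_lit 147041717140877962052) (ZL.cons (nat_lit 6004) (nat_lit 6) (nat_lit 146718327668589727936) (ZL.cons (nat_lit 6080) (nat_lit 6) (nat_lit 144581674375934122070) (ZL.cons (nat_lit 6156) (nat_lit 6) (nat_lit 144108045892129867456)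 (ZL.cons (nat_lit 6232) (nat_lit 3) (nat_lit 71975147465019022969) (ZL.cons (nat_lit 6308) (nat_lit 6) (nat_lit 142291953257131511056) (ZL.cons (nat_lit 6384) (nat_lit 6) (nat_lit 141675240000454855970) (ZL.cons (nat_lit 6460) (nat_lit 6) (nat_lit 141367250026847013954) (ZL.cons (nat_lit 6536) (nat_lit 6) (nat_lit 139414117598584514880) (ZL.cons (nat_lit 6612) (nat_lit 6) (nat_lit 138963042852104272392) (ZL.cons (nat_lit 6688) (nat_lit 3) (nat_lit 69406401920294125947) (ZL.cons (nat_lit 6764) (nat_lit 6) (nat_lit 137319295061752486226) (ZL.cons (nat_lit 6840) (nat_lit 6) (nat_lit 136731949103012814718) (ZL.cons (nat_lit 6916) (nat_lit 6) (nat_lit 136438625318624393748) (ZL.cons (nat_lit 6992) (nat_lit 6) (nat_lit 135385784717252027086) (ZL.cons (nat_lit 7068) (nat_lit 6) (nat_lit 134668656651598613652) (ZL.cons (nat_lit 7144) (nat_lit 6) (nat_lit 134239061654950763662) (ZL.cons (nat_lit 7220) (nat_lit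 3) (nat_lit 67047988441039181595) (ZL.cons (nat_lit 7296) (nat_lit 6) (nat_lit 132768252896786873480) (ZL.cons (nat_lit 7372) (nat_lit 6) (nat_lit 132208875793225281564) (ZL.cons (nat_lit 7448) (nat_lit 6) (nat_lit 131929519808093452072) (ZL.cons (nat_lit 7524) (nat_lit 6) (nat_lit 131026213067732804344) (ZL.cons (nat_lit 7600) (nat_lit 6) (nat_lit 130343233957586696308) (ZL.cons (nat_lit 7676) (nat_lit 6) (nat_lit 129934095865541124890) (ZL.cons (nat_lit 7752) (nat_lit 3) (nat_lit 64898912326640847935) (ZL.cons (nat_lit 7828) (nat_lit 6) (nat_lit 129438389450557706076) (ZL.cons (nat_lit 7904) (nat_lit 6) (nat_lit 128637694143664439834) (ZL.cons (nat_lit 7980) (nat_lit 6) (nat_lit 128104954045034352296) (ZL.cons (nat_lit 8056) (nat_lit 6) (nat_lit 127838900725861181350) (ZL.cons (nat_lit 8132) (nat_lit 6) (nat_lit 128001001512839733208) (ZL.cons (nat_lit 8208) (nat_lit 6) (nat_lit 127088195542377744862)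 (ZL.cons (nat_lit 8284) (nat_lit 6) (nat_lit 126437739247000499118) (ZL.cons (nat_lit 8360) (nat_lit 6) (nat_lit 126048083921242812052) (ZL.cons (nat_lit 8436) (nat_lit 3) (nat_lit 62959150907164535063) (ZL.cons (nat_lit 8512) (nat_lit 6) (nat_lit 125691048871342595454) (ZL.cons (nat_lit 8588) (nat_lit 6) (nat_lit 124928481912396627606) (ZL.cons (nat_lit 8664) (nat_lit 6) (nat_lit 124421110389891782334) (ZL.cons (nat_lit 8740) (nat_lit 6) (nat_lit 124167726276393524288) (ZL.cons (nat_lit 8816) (nat_lit 6) (nat_lit 124442927590866050780) (ZL.cons (nat_lit 8892) (nat_lit 6) (nat_lit 123573588571378442832) (ZL.cons (nat_lit 8968) (nat_lit 6) (nat_lit 122954106385304875456) (ZL.cons (nat_lit 9044) (nat_lit 6) (nat_lit 122583006075059459204) (ZL.cons (nat_lit 9120) (nat_lit 3) (nat_lit 61229702034237471542) (ZL.cons (nat_lit 9196) (nat_lit 6) (nat_lit 123340859983613642870) (ZL.cons (nat_lit 9272) (nat_lit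 6) (nat_lit 122369833287419711020) (ZL.cons (nat_lit 9348) (nat_lit 6) (nat_lit 121643579040804503544) (ZL.cons (nat_lit 9424) (nat_lit 6) (nat_lit 121160368066990365188) (ZL.cons (nat_lit 9500) (nat_lit 6) (nat_lit 120919049863658690862) (ZL.cons (nat_lit 9576) (nat_lit 6) (nat_lit 122382222079091913616) (ZL.cons (nat_lit 9652) (nat_lit 6) (nat_lit 121314349976511006620) (ZL.cons (nat_lit 9728) (nat_lit 6) (nat_lit 120486408053189475242) (ZL.cons (nat_lit 9804) (nat_lit 6) (nat_lit 119896425018833696786) (ZL.cons (nat_lit 9880) (nat_lit 6) (nat_lit 119542996151933300356) (ZL.cons (nat_lit 9956) (nat_lit 3) (nat_lit 59712639977593071075) (ZL.cons (nat_lit 10032) (nat_lit 6) (nat_lit 120404625583150166048) (ZL.cons (nat_lit 10108) (nat_lit 6) (nat_lit 119479838253441659524) (ZL.cons (nat_lit 10184) (nat_lit 6) (nat_lit 118788167542379557166) (ZL.cons (nat_lit 10260) (nat_lit 6) (nat_lit 118327966614937520636)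 (ZL.cons (nat_lit 10336) (nat_lit 6) (nat_lit 118098139754621640326) (ZL.cons (nat_lit 10412) (nat_lit 3) (nat_lit 58954815639000919652) (ZL.cons (nat_lit 10488) (nat_lit 6) (nat_lit 117978457500229926972) (ZL.cons (nat_lit 10564) (nat_lit 6) (nat_lit 118185100038871875900) (ZL.cons (nat_lit 10640) (nat_lit 6) (nat_lit 118530050899972071678) (ZL.cons (nat_lit 10716) (nat_lit 6) (nat_lit 119014131395104562392) (ZL.cons (nat_lit 10792) (nat_lit 6) (nat_lit 119638494096876806356) (ZL.cons (nat_lit 10868) (nat_lit 6) (nat_lit 118621473046799752072) (ZL.cons (nat_lit 10944) (nat_lit 6) (nat_lit 117832956929350674568) (ZL.cons (nat_lit 11020) (nat_lit 6) (nat_lit 117271068325202314136) (ZL.cons (nat_lit 11096) (nat_lit 6) (nat_lit 116934469404344793726) (ZL.cons (nat_lit 11172) (nat_lit 3) (nat_lit 58411179370388035811) (ZL.cons (nat_lit 11248) (nat_lit 6) (nat_lit 116493286487343670884) (ZL.cons (nat_lit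 11324) (nat_lit 6) (nat_lit 116634380242911250604) (ZL.cons (nat_lit 11400) (nat_lit 6) (nat_lit 116916903691559666186) (ZL.cons (nat_lit 11476) (nat_lit 6) (nat_lit 117341529508166651950) (ZL.cons (nat_lit 11552) (nat_lit 6) (nat_lit 117909268706581272150) (ZL.cons (nat_lit 11628) (nat_lit 6) (nat_lit 117028518868763646886) (ZL.cons (nat_lit 11704) (nat_lit 6) (nat_lit 116369784858228311308) (ZL.cons (nat_lit 11780) (nat_lit 6) (nat_lit 115931498260664466996) (ZL.cons (nat_lit 11856) (nat_lit 6) (nat_lit 115712615536554104792) (ZL.cons (nat_lit 11932) (nat_lit 3) (nat_lit 57606606454472465742) (ZL.cons (nat_lit 12008) (nat_lit 6) (nat_lit 115285480442284423536) (ZL.cons (nat_lit 12084) (nat_lit 6) (nat_lit 115502455107858469910) (ZL.cons (nat_lit 12160) (nat_lit 6) (nat_lit 115864653512013675478) (ZL.cons (nat_lit 12236) (nat_lit 6) (nat_lit 116372938031902790728) (ZL.cons (nat_lit 12312) (nat_lit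 6) (nat_lit 115621970300998907390) (ZL.cons (nat_lit 12388) (nat_lit 6) (nat_lit 115086838297048087932) (ZL.cons (nat_lit 12464) (nat_lit 6) (nat_lit 114766267896231401826) (ZL.cons (nat_lit 12540) (nat_lit 3) (nat_lit 57329747917844880863) (ZL.cons (nat_lit 12616) (nat_lit 6) (nat_lit 114135188970799426062) (ZL.cons (nat_lit 12692) (nat_lit 6) (nat_lit 114283337414145384768) (ZL.cons (nat_lit 12768) (nat_lit 6) (nat_lit 114579987035226221128) (ZL.cons (nat_lit 12844) (nat_lit 6) (nat_lit 115025844142663556182) (ZL.cons (nat_lit 12920) (nat_lit 6) (nat_lit 114398478418344188964) (ZL.cons (nat_lit 12996) (nat_lit 6) (nat_lit 113981062611140527712) (ZL.cons (nat_lit 13072) (nat_lit 6) (nat_lit 113772602873892563710) (ZL.cons (nat_lit 13148) (nat_lit 3) (nat_lit 56590383519619218380) (ZL.cons (nat_lit 13224) (nat_lit 6) (nat_lit 113256647949244903414) (ZL.cons (nat_lit 13300) (nat_lit 6) (nat_lit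 113484471348097652106) (ZL.cons (nat_lit 13376) (nat_lit 6) (nat_lit 113864779672460617952) (ZL.cons (nat_lit 13452) (nat_lit 6) (nat_lit 113355130144888408940) (ZL.cons (nat_lit 13528) (nat_lit 6) (nat_lit 113049825001253469792) (ZL.cons (nat_lit 13604) (nat_lit 3) (nat_lit 56474068662273572945) (ZL.cons (nat_lit 13680) (nat_lit 6) (nat_lit 112419942214431072318) (ZL.cons (nat_lit 13756) (nat_lit 6) (nat_lit 112575498079944328958) (ZL.cons (nat_lit 13832) (nat_lit 6) (nat_lit 112886980182079207136) (ZL.cons (nat_lit 13908) (nat_lit 6) (nat_lit 112489441318075720228) (ZL.cons (nat_lit 13984) (nat_lit 6) (nat_lit 112290908234982421180) (ZL.cons (nat_lit 14060) (nat_lit 3) (nat_lit 55885614026596214990) (ZL.cons (nat_lit 14136) (nat_lit 6) (nat_lit 111850903008699219966) (ZL.cons (nat_lit 14212) (nat_lit 6) (nat_lit 112090117577494606092) (ZL.cons (nat_lit 14288) (nat_lit 6) (nat_lit 111799350774032759284)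 (ZL.cons (nat_lit 14364) (nat_lit 3) (nat_lit 55851252683822892069) (ZL.cons (nat_lit 14440) (nat_lit 6) (nat_lit 111308960908002217728) (ZL.cons (nat_lit 14516) (nat_lit 6) (nat_lit 111472294566791137200) (ZL.cons (nat_lit 14592) (nat_lit 6) (nat_lit 111283215440035614294) (ZL.cons (nat_lit 14668) (nat_lit 3) (nat_lit 55474190719759164689) (ZL.cons (nat_lit 14744) (nat_lit 6) (nat_lit 111032040142800458864) (ZL.cons (nat_lit 14820) (nat_lit 3) (nat_lit 55469903211215955552) (ZL.cons (nat_lit 14896) (nat_lit 6) (nat_lit 110768306080703545660) (ZL.cons (nat_lit 14972) (nat_lit 1) (nat_lit 18446744073709551617) ZL.nil)))))))))))))))))))))))))))))))))))))))))))))))))))))))))))))))))))))))))))))))))))))))))))))))))))))))))))))))))))))))))))))))))))))))))))))))))))))))))))))))))))))))))))))))))))))))))))))))))))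

noncomputable def vl : XL := ⟨(nat_lit 0), (nat_lit 76), (nat_lit 92839414), (nat_lit 152), (nat_lit 99607234), (nat_lit 152), (nat_lit 99607234), (nat_lit 1), (nat_lit 4), (nat_lit 2), (nat_lit 5), (nat_lit 2), (nat_lit 4), (nat_lit 0), (nat_lit 0), (nat_lit 0)⟩

noncomputable def cp0 : Nat := (nat_lit 690108283743339661611487268518235479431676118295386810589273253635308075833403638934936404667762984975940989924679871914330522647893096381943634881522390564925910515602434480848900362210611183280585241281040753747092709164243352310558725196603926376372863195847595482693614129931630408660163473884560629970067078240729197633237333961790711489745335780811172603959656141679376940623523837021834986808304342910000017489325437537687670762129275731386703404546112233483588781924047331567798080049550856343709548428640059479574704828623314549459688811810259050588882836198838603692480763739773946055822048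7404530232940673941425675442764641082687349950642449678765318947319827532531330383456451168238606355357382525382218813260584679122008586097743164193300370512104468681860262279207320894571214491351975170641138437842433094084077701641734828561594009304915115601642903582844601075986430808546120026171127150104311300471052759218463241404055524201157336606406923958290675497131677408122996783635567777993602730521451640727933534748694783225008929036400819437410686083139828908542527279715225037915257163331909007714582306753287954000559364826986691981295213539345359157442424940139846588130197338473867817706744620811492615676896334570223456415812105718090986622806952911138442494422378591357345572148454731833653852954951398793762761027892652118790933365836162898822869408735422332270602592565772347439315282735437683488687033538877667052452800312272303614564635610187728727846008001282346852880162536332394466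5620865227846933095921381567412275772961827148350935242663612780099757884967098546779704098864823979904909209077950404957419736849643270663003245204698654501954108741150906110134532239534603081094302601563485470610598546383203938153837431546619084535080821267834305792037652187011361373404610333956414565878978876663799957114840026344135824130029216371338455418237036819457472834193814961386515896471010567161364677863246511940826634486366287397402868514594998246432540645585846561324891695968487928573772444784417283123427595699225630785519498590630449100661314199270130774710718119663434430571261476769997587605644055988545104212075102462042027120050460804058837684148365396733369169329249410190704953430404092231702839726890087939374170156300369714585345411958812412805908753812792435939095406445090221439486464670263291242705948398135238857490642803762066171334832775669156910325571201261515593491692482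6194019112758755275008278012429030022882845258578035971985299231832109888459588828587834396666422303355871897370836990323781257232060093349576488327149550464822758914516561403796841201220613211353910468296888354408782720874539506829629496465137215039403159306043445300364125960073830526470986176221486499251377501615859208582327091313027651878462103177766351604456159827021233461977999435704232998175142315626941342266623547343838549460617129392125835308821418374716691105768654251039817978424367459233347564211293623669521186795146243301982241185314506549592656807200070791693552526162190084225385636768125415216683644622183345875123070461938718155681717016089269226629918318539311224378379134357686032005487885846247171870616058481966130072319485876754772422538680904564747515001354961938012505745579195671890823761358396054384461788921094308544720298538392824783002332533026849399141386608473121056099851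50561589189627663951063626948456137020200469252987700811592268615839831670327866963396112809660497323391079904211764956959659389197187614629823700770359120983394781835297865554081390194015357711764530704841420496565761695971563190990944960771906198271841188459259787522314014671188018466226618493826315982788072149193838809852834268598305255360621237240274059980788129453686213672614752932572876699904082562415672390696864509411386312824704778902220096536742106806718902932313211882178857038212697055503456308465596217030700055514355213786700673077894973581053428462525556988762355139524623848309514265739085412517693290625475009047651229307584660588349618603780031605841555774869328058500886335930429211871245439698204961511262497076720622593489281684454152346207809241998956117644506445567439656489544815306240747599508589793185274393271203160538150488024865509296374692352876475936405097052770452686154955951340141016856313648347096362281477167878617030360882756548904220740459356763049134869084588906752068602718024970770889403519584932884460781273140199609396420829013202436516977573583309901284030493605365473328540869578023801094050003797423095535776522035401664098393667640483475135144419431284736)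

noncomputable def cp1 : Nat := (nat_lit 3829745200118950901846125492761113646135606044423866743990733520223721104846618126049481708243796750511100203500055840872444739110354205597301994673316491564558715647298020554473114841102864361778522934851466541897509047203996177199293819740339463758646085483141497238169919117120598220458542822286384213596930259328041416112483779142189772580729992996195131936733164953752445332206645361329382137497191246070821149490848145000993035259826609726599818669198329079681663766427115921346880208982795959297617031405394949104933294069177582356253567692048013878962711630682610891424360067142590073895025170054165788065395543366958776945588419122727549582784635341814222435623361363968631580744995354628151492351745740711042668090979203774166107191831554684472747041597394782926892625982587490834286393654009396632873809216815724877861722213462399706119400885135171583144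3357201772401249395847017089551553255429214934199469155243038768024887314987223811007252640222810900795359587809470507143541388981842364609816642536016495683271897638860999671637477291774598307396377854398334817719999273291711700537505786147470819614579706148867647577541825018360235335304435019047105238510428623196367878246239458212360568725999314609786195570903490223356691543941870387550695549641768051354088692246897493963934777121487966023266200941169279681780725586508281918719337697420619209288196668893493275559597185763074563178332054695790247175781690161974807332054425862613458832956019735744073837018511781608550080126065821871292439694756439313791578166686395243812785627651323230861536812087967324925388639949718501862722712822847024265112917544466243025762101983753302291024897293222503726421839332149543443699052495210489765221270561909578987670064394539862262320461762207779329856910237738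2406490199721506075532777395478067446558879994580889312308978617688701122811716115667384262628547681583763485033367703391375441612713313054020755389451258947552597753615699500981622323437469461241025361415367361007634898881532836485509336172611179244976898480268528154120762323766178877418274420048172040401603175179873497883757997396743112598583954731345137110692646284676895571545942927306474415308694017990720262605674458733317230206190751590101455224792901516197589516348818428271490269765171486918431749461037825208078456799161094801083094227145635667135795175863071668462477507557410207270417172185035449213747111614075562072826022696589475671983752705811258733175053012483789290511722294645860939459904768453732659053268078051195067918937810176891246528949500383485523310813388723612191651356504994010625755688616822620235500010827314036941035493243173929867908529456898933301000351899395381680593675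6697670610217701068622561362111280362062653271494503033646292020131464182347278563901466312338634380440913521325184127281460909220176478641208445370739111368768049289338461085786285185654389750043904974188658094823770769118348283316588786804450907070248042620740634378899480472618968223141657273707184802574413702406797979840769583514269883120057136803988586338829665820119367938945928464657057648735999449370419360023536922730908858677225358864236087336881611127821698015848944765208339387460295237591100070708085153953027704373274046145226543579630093070494372317657866094495393574202866478756134053716540756067371453514052271645754981723352344243726280488696146492763396767574026955802482365442320211545394739010096129891371255117911303612539502547138024083891282578413179556530405810397141298984652833740678112997930709438636051825095303751284649876863491946406961846857003735145797328474186972168309125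8728818738279156477004667018868810283785280165078988009286071861043625840092241899723837431349261631509432168387641239496084089668897818559332818038679211319019600149200081638960619924221141152574993809458805817865980809298858869865543901694390622663443609597612856738381525136873317977393500491730894951426930092977189677868226818331678454694362559142273300589025242132643504771222348514323021388806400812395749937978989216236158069729154632941104288112065091985145648651894940158415467903200076261805114716888715170534531146642135382705779358883036084196109186148360287568476425533419904134495090569328611889400999322160644020292912325874451307632457675220533184456013819401088015776410431295045282032148633231103969613197149377697322286694171786145402557077383861608339670531528273638188686875597010542732383579535039103091343368518357418994484980236237307461421192545902593331010607176872617481192543934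6228239193794250633402618086673520506094661223114944609455703086534381820165911699330606063511609120735367582294615768584747531546483429962020697341208427653645301425931238637981651883743431037710922740445079347261623980817128764542844946586125653772336224970407857713795232699370883017754874644108657784007140651420210539098468876766191278626264594474063775581456091330733823305299530688899377715176042598822104895719631161975292218388191518551959206596577776625335862783008903495124578859266211981002490976103335730107922104016302791061362625751482415938839380823865847043530898352283520682348264980378931012769994423335177347765476361262669673619746629492751686678379497187130049436683524284315238436070474905813666016879191160977263518567800921184854008326459036078538897715690883364407370683190155496564398045674816732186176772108740183341683682009368280176413075093971793170872241860042065717505762420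5933692455699116732957006703469155033643053368293145321795287533521240359278470269406973041095974214002899893502381873425920894577221286061160806978744494098883510114110034669504345060345783194031749903798910470637909536005429275878288444607164178834097640540131839329031282204517122459134326144860748508744355510222886561776522298171482153134409986775646527034004233708369225378211621567076489078422715672352399156181126305646380206971583094137319292259860174095294647626404437924659401389865945106701373386021864727644149234125838038203325276537992686590731809781501468847920143399773292537885204085148941470552698477105997576237500133977197703972247679693614907911657681303407467710156645902256687347985297010986671758630407601832274653326962713263563491652348109647543967954549805588076386489755046884244424200544404359214561884770919201071314838642379532269240317243704908720723201641868000839064768887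5354207475349578009767429413631227935353429248690051684917263412150268836798025148567500875213485279691353938899107552180593405941937518335520491012463382370126399291052465509266882669362944320647380579647890757751480756922061914178565482085884079487287239061276879581697991533885556351210501365227268056159057866134162868702497513557060884375726214908093371283397207395550726623972851932212507191421833724482594071990774855681148161915150952478749335440273348333368639406076834519283745567281080433096660468596788064122633624649257342277549528152418349064901183210066088410210187926594865678872763794559473963287913654051461874524427191525051975877900697463594897025970881520869336951452419940553126397275488550386668003680406795173772744673957107056902944878736524584702475868264173355215335992543845601997434122986251316807038118101921935821233736682027431009296250541083993879426117225774978025333759383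5489438673047017873085951895993631478911435544702932070041716793362675192170439494753221091637788464667438675189365859945828635142068687781730734037414186284409790910980558884764817332012306715704694646605205073024865512728959391170364209768490942670240674321734150200779999787774426017492477106986952151304647371195060450605696048536601904226315834499847386495914942687328502922406317238004009832401348753088485512903594201101365382287368517002201943226440929106229394801652096745915467759756385073727260877912230439799926293964318959628168826508979973468579866394705405445224432179650032913792480679769664572282388068592433563883204724249463027015216173458521426635943669286999314653951107378929467428018594149479620544142092917888408187451509981303309841673269748722087103380180638654525618589681047794411840775163298490263724922859935035376917549026103665082737079826714985836156606765180417796089868744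3165134294650024867566338239073693590930076193287421934928211262661401017558235069844800130804427894895321524538720512354370507883685837754723860060964459861193902995881975206839992378413804581753858023041710796293768412998249036148221193388800266087400979968619368984877833891266311683416322623626699548992244163437677348450778561441160917777152835805290382626352668249145524576989544214030100818746054520486156790273395413729478002274537255844375314237424938659757958461035308845852817842241119211074537952875133342798544721970500183948008210163961846404148211998670197367274109650759615282843381026804370181263706185322335372746454199138776557723849025184984178192842150656556252727633760646635681636876232373500683477382436296037819012524459033159866828005792033626488862076265310704452553809846659715173505983804904617099839663465425244217391142549837690038383296904175904940822319204563801508675039405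08353524530488992715447360078574468955911977209225842810949510477100645343500592131793036741575154128731191398914117732885016237588477742236793719038824830870360228933588302395331461139589627953864256109689770545788614329050037417895619586295165909872552622314877874787164072754708625379571772565891084382066958244300676380591131216383679639187385266328766377411774824382067073033575925487844192918229764109371364519148619375568206177933565003230702429916520107232233382592266944967493361885569866972441020037745232888903192088709851939445110687601234392811181127895615489535960557720214750416323515057514023530791473249812869023736891747031726992221515912464713503957405396995097360759282705997231209685029942870316487069799592375049145072710295869153101588647451965211146136923256889156023543570340045543787738936339496213958119132995777482794966857676291982306726155758686576799431238448872291491344768758675735576603165593345447357462530208893565945804053588783997301572661925055037440)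

noncomputable def rc0 : Nat := (nat_lit 3829745200118950901846125492761113646135606044423866743990733520223721104846618126049481708243796750511100203500055840872444739110354205597301994673316491564558715647298020554473114841102864361778522934851466541897509047203996177199293819740339463758646085483141497238169919117120598220458542822286384213596930259328041416112483779142189772580729992996195131936733164953752445332206645361329382137497191246070821149490848145000993035259826609726599818669198329079681663766427115921346880208982795959297617031405394949104933294069177582356253567692048013878962711630682610891424360067142590073895025170054165788065395543366958776945588419122727549582784635341814222435623361363968631580744995354628151492351745740711042668090979203774166107191831554684472747041597394782926892625982587490834286393654009396632873809216815724877861722213462399706119400885135171583144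3357201772401249395847017089551553255429214934199469155243038768024887314987223811007252640222810900795359587809470507143541388981842364609816642536016495683271897638860999671637477291774598307396377854398334817719999273291711700537505786147470819614579706148867647577541825018360235335304435019047105238510428623196367878246239458212360568725999314609786195570903490223356691543941870387550695549641768051354088692246897493963934777121487966023266200941169279681780725586508281918719337697420619209288196668893493275559597185763074563178332054695790247175781690161974807332054425862613458832956019735744073837018511781608550080126065821871292439694756439313791578166686395243812785627651323230861536812087967324925388639949718501862722712822847024265112917544466243025762101983753302291024897293222503726421839332149543443699052495210489765221270561909578987670064394539862262320461762207779329856910237738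2406490199721506075532777395478067446558879994580889312308978617688701122811716115667384262628547681583763485033367703391375441612713313054020755389451258947552597753615699500981622323437469461241025361415367361007634898881532836485509336172611179244976898480268528154120762323766178877418274420048172040401603175179873497883757997396743112598583954731345137110692646284676895571545942927306474415308694017990720262605674458733317230206190751590101455224792901516197589516348818428271490269765171486918431749461037825208078456799161094801083094227145635667135795175863071668462477507557410207270417172185035449213747111614075562072826022696589475671983752705811258733175053012483789290511722294645860939459904768453732659053268078051195067918937810176891246528949500383485523310813388723612191651356504994010625755688616822620235500010827314036941035493243173929867908529456898933301000351899395381680593675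6697670610217701068622561362111280362062653271494503033646292020131464182347278563901466312338634380440913521325184127281460909220176478641208445370739111368768049289338461085786285185654389750043904974188658094823770769118348283316588786804450907070248042620740634378899480472618968223141657273707184802574413702406797979840769583514269883120057136803988586338829665820119367938945928464657057648735999449370419360023536922730908858677225358864236087336881611127821698015848944765208339387460295237591100070708085153953027704373274046145226543579630093070494372317657866094495393574202866478756134053716540756067371453514052271645754981723352344243726280488696146492763396767574026955802482365442320211545394739010096129891371255117911303612539502547138024083891282578413179556530405810397141298984652833740678112997930709438636051825095303751284649876863491946406961846857003735145797328474186972168309125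8728818738279156477004667018868810283785280165078988009286071861043625840092241899723837431349261631509432168387641239496084089668897818559332818038679211319019600149200081638960619924221141152574993809458805817865980809298858869865543901694390622663443609597612856738381525136873317977393500491730894951426930092977189677868226818331678454694362559142273300589025242132643504771222348514323021388806400812395749937978989216236158069729154632941104288112065091985145648651894940158415467903200076261805114716888715170534531146642135382705779358883036084196109186148360287568476425533419904134495090569328611889400999322160644020292912325874451307632457675220533184456013819401088015776410431295045282032148633231103969613197149377697322286694171786145402557077383861608339670531528273638188686875597010542732383579535039103091343368518357418994484980236237307461421192545902593331010607176872617481192543934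6228239193794250633402618086673520506094661223114944609455703086534381820165911699330606063511609120735367582294615768584747531546483429962020697341208427653645301425931238637981651883743431037710922740445079347261623980817128764542844946586125653772336224970407857713795232699370883017754874644108657784007140651420210539098468876766191278626264594474063775581456091330733823305299530688899377715176042598822104895719631161975292218388191518551959206596577776625335862783008903495124578859266211981002490976103335730107922104016302791061362625751482415938839380823865847043530898352283520682348264980378931012769994423335177347765476361262669673619746629492751686678379497187130049436683524284315238436070474905813666016879191160977263518567800921184854008326459036078538897715690883364407370683190155496564398045674816732186176772108740183341683682009368280176413075093971793170872241860042065717505762420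5933692455699116732957006703469155033643053368293145321795287533521240359278470269406973041095974214002899893502381873425920894577221286061160806978744494098883510114110034669504345060345783194031749903798910470637909536005429275878288444607164178834097640540131839329031282204517122459134326144860748508744355510222886561776522298171482153134409986775646527034004233708369225378211621567076489078422715672352399156181126305646380206971583094137319292259860174095294647626404437924659401389865945106701373386021864727644149234125838038203325276537992686590731809781501468847920143399773292537885204085148941470552698477105997576237500133977197703972247679693614907911657681303407467710156645902256687347985297010986671758630407601832274653326962713263563491652348109647543967954549805588076386489755046884244424200544404359214561884770919201071314838642379532269240317243704908720723201641868000839064768887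5354207475349578009767429413631227935353429248690051684917263412150268836798025148567500875213485279691353938899107552180593405941937518335520491012463382370126399291052465509266882669362944320647380579647890757751480756922061914178565482085884079487287239061276879581697991533885556351210501365227268056159057866134162868702497513557060884375726214908093371283397207395550726623972851932212507191421833724482594071990774855681148161915150952478749335440273348333368639406076834519283745567281080433096660468596788064122633624649257342277549528152418349064901183210066088410210187926594865678872763794559473963287913654051461874524427191525051975877900697463594897025970881520869336951452419940553126397275488550386668003680406795173772744673957107056902944878736524584702475868264173355215335992543845601997434122986251316807038118101921935821233736682027431009296250541083993879426117225774978025333759383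5489438673047017873085951895993631478911435544702932070041716793362675192170439494753221091637788464667438675189365859945828635142068687781730734037414186284409790910980558884764817332012306715704694646605205073024865512728959391170364209768490942670240674321734150200779999787774426017492477106986952151304647371195060450605696048536601904226315834499847386495914942687328502922406317238004009832401348753088485512903594201101365382287368517002201943226440929106229394801652096745915467759756385073727260877912230439799926293964318959628168826508979973468579866394705405445224432179650032913792480679769664572282388068592433563883204724249463027015216173458521426635943669286999314653951107378929467428018594149479620544142092917888408187451509981303309841673269748722087103380180638654525618589681047794411840775163298490263724922859935035376917549026103665082737079826714985836156606765180417796089868744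3165134294650024867566338239073693590930076193287421934928211262661401017558235069844800130804427894895321524538720512354370507883685837754723860060964459861193902995881975206839992378413804581753858023041710796293768412998249036148221193388800266087400979968619368984877833891266311683416322623626699548992244163437677348450778561441160917777152835805290382626352668249145524576989544214030100818746054520486156790273395413729478002274537255844375314237424938659757958461035308845852817842241119211074537952875133342798544721970500183948008210163961846404148211998670197367274109650759615282843381026804370181263706185322335372746454199138776557723849025184984178192842150656556252727633760646635681636876232373500683477382436296037819012524459033159866828005792033626488862076265310704452553809846659715173505983804904617099839663465425244217391142549837690038383296904175904940822319204563801508675039405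08353524530488992715447360078574468955911977209225842810949510477100645343500592131793036741575154128731191398914117732885016237588477742236793719038824830870360228933588302395331461139589627953864256109689770545788614329050037417895619586295165909872552622314877874787164072754708625379571772565891084382066958244300676380591131216383679639187385266328766377411774824382067073033575925487844192918229764109371364519148619375568206177933565003230702429916520107232233382592266944967493361885569866972441020037745232888903192088709851939445110687601234392811181127895615489535960557720214750416323515057514023530791473249812869023736891747031726992221515912464713503957405396995097360759282705997231209685029942870316487069799592375049145072710295869153101588647451965211146136923256889156023543570340045543787738936339496213958119132995777482794966857676291982306726155758686576799431238448872291491344768758675735576603165593345447357462530208893565945804053588783997301572661925055037440)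

end Vale.Agent.Lib.P154.PChain.BD.S5
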