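import Vale.Agent.Lib.P154.PChain.BD.R5_0

set_option linter.all false

namespace Vale.Agent.Lib.P154.PChain.BD.S6

open Vale.Agent.Lib.P154.Chain

noncomputable def pc0 : PT := (PT.nd (nat_lit 6017622) (PT.nd (nat_lit 5830188) (PT.nd (nat_lit 5580510) (PT.nd (nat_lit 5330754) (PT.nd (nat_lit 5330676) (PT.nd (nat_lit 5268276) PT.nil (PT.lf (nat_lit 76) (nat_lit 3) (nat_lit 1) (nat_lit 1) (nat_lit 258) (nat_lit 84) (nat_lit 258))) (PT.lf (nat_lit 152) (nat_lit 6) (nat_lit 2) (nat_lit 3) (nat_lit 257) (nat_lit 85) (nat_lit 258))) (PT.nd (nat_lit 249678) (PT.lf (nat_lit 152) (nat_lit 6) (nat_lit 2) (nat_lit 1) (nat_lit 258) (nat_lit 85) (nat_lit 257)) (PT.lf (nat_lit 228) (nat_lit 6) (nat_lit 3) (nat_lit 3) (nat_lit 255) (nat_lit 89) (nat_lit 256)))) (PT.nd (nat_lit 124800) (PT.nd (nat_lit 62400) (PT.lf (nat_lit 228) (nat_lit 6) (nat_lit 3) (nat_lit 1) (nat_lit 256) (nat_lit 89) (nat_lit 255)) (PT.lf (nat_lit 380) (nat_lit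 3) (nat_lit 5) (nat_lit 1) (nat_lit 255) (nat_lit 90) (nat_lit 255))) (PT.nd (nat_lit 78) (PT.lf (nat_lit 456) (nat_lit 6) (nat_lit 6) (nat_lit 3) (nat_lit 254) (nat_lit 91) (nat_lit 255)) (PT.nd (nat_lit 62400) (PT.lf (nat_lit 456) (nat_lit 6) (nat_lit 6) (nat_lit 1) (nat_lit 255) (nat_lit 91) (nat_lit 254)) (PT.lf (nat_lit 608) (nat_lit 3) (nat_lit 8) (nat_lit 1) (nat_lit 254) (nat_lit 92) (nat_lit 254)))))) (PT.nd (nat_lit 62556) (PT.nd (nat_lit 62400) (PT.nd (nat_lit 78) (PT.lf (nat_lit 684) (nat_lit 6) (nat_lit 9) (nat_lit 3) (nat_lit 253) (nat_lit 93) (nat_lit 254)) (PT.lf (nat_lit 684) (nat_lit 6) (nat_lit 9) (nat_lit 1) (nat_lit 254) (nat_lit 93) (nat_lit 253))) (PT.nd (nat_lit 78) (PT.lf (nat_lit 760) (nat_lit 6) (nat_lit 10) (nat_lit 3) (nat_lit 252) (nat_lit 94) (nat_lit 254)) (PT.lf (nat_lit 836) (nat_lit 3) (nat_lit 11) (nat_lit 1) (nat_lit 253) (nat_lit 94) (nat_lit 253)))) (PT.nd (nat_lit 62400) (PT.nd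 (nat_lit 62322) (PT.lf (nat_lit 760) (nat_lit 6) (nat_lit 10) (nat_lit 1) (nat_lit 254) (nat_lit 94) (nat_lit 252)) (PT.lf (nat_lit 912) (nat_lit 6) (nat_lit 12) (nat_lit 3) (nat_lit 252) (nat_lit 95) (nat_lit 253))) (PT.nd (nat_lit 62322) (PT.lf (nat_lit 912) (nat_lit 6) (nat_lit 12) (nat_lit 1) (nat_lit 253) (nat_lit 95) (nat_lit 252)) (PT.nd (nat_lit 78) (PT.lf (nat_lit 988) (nat_lit 6) (nat_lit 13) (nat_lit 3) (nat_lit 251) (nat_lit 96) (nat_lit 253)) (PT.lf (nat_lit 1064) (nat_lit 3) (nat_lit 14) (nat_lit 1) (nat_lit 252) (nat_lit 96) (nat_lit 252))))))) (PT.nd (nat_lit 249678) (PT.nd (nat_lit 124800) (PT.nd (nat_lit 62400) (PT.nd (nat_lit 62322) (PT.lf (nat_lit 988) (nat_lit 6) (nat_lit 13) (nat_lit 1) (nat_lit 253) (nat_lit 96) (nat_lit 251)) (PT.lf (nat_lit 1140) (nat_lit 6) (nat_lit 15) (nat_lit 3) (nat_lit 251) (nat_lit 97) (nat_lit 252))) (PT.nd (nat_lit 62322) (PT.lf (nat_lit 1140) (nat_lit 6) (nat_lit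 15) (nat_lit 1) (nat_lit 252) (nat_lit 97) (nat_lit 251)) (PT.lf (nat_lit 1216) (nat_lit 6) (nat_lit 16) (nat_lit 3) (nat_lit 250) (nat_lit 98) (nat_lit 252)))) (PT.nd (nat_lit 62400) (PT.nd (nat_lit 78) (PT.lf (nat_lit 1292) (nat_lit 3) (nat_lit 17) (nat_lit 1) (nat_lit 251) (nat_lit 98) (nat_lit 251)) (PT.lf (nat_lit 1216) (nat_lit 6) (nat_lit 16) (nat_lit 1) (nat_lit 252) (nat_lit 98) (nat_lit 250))) (PT.nd (nat_lit 78) (PT.lf (nat_lit 1368) (nat_lit 6) (nat_lit 18) (nat_lit 3) (nat_lit 250) (nat_lit 99) (nat_lit 251)) (PT.nd (nat_lit 62322) (PT.lf (nat_lit 1368) (nat_lit 6) (nat_lit 18) (nat_lit 1) (nat_lit 251) (nat_lit 99) (nat_lit 250)) (PT.lf (nat_lit 1444) (nat_lit 6) (nat_lit 19) (nat_lit 3) (nat_lit 249) (nat_lit 100) (nat_lit 251)))))) (PT.nd (nat_lit 124878) (PT.nd (nat_lit 62400) (PT.nd (nat_lit 78) (PT.lf (nat_lit 1520) (nat_lit 3) (nat_lit 20) (nat_lit 1) (nat_lit 250) (nat_lit 100) (nat_lit 250))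 (PT.lf (nat_lit 1444) (nat_lit 6) (nat_lit 19) (nat_lit 1) (nat_lit 251) (nat_lit 100) (nat_lit 249))) (PT.nd (nat_lit 78) (PT.lf (nat_lit 1596) (nat_lit 6) (nat_lit 21) (nat_lit 3) (nat_lit 249) (nat_lit 101) (nat_lit 250)) (PT.nd (nat_lit 62322) (PT.lf (nat_lit 1596) (nat_lit 6) (nat_lit 21) (nat_lit 1) (nat_lit 250) (nat_lit 101) (nat_lit 249)) (PT.lf (nat_lit 1672) (nat_lit 6) (nat_lit 22) (nat_lit 3) (nat_lit 248) (nat_lit 102) (nat_lit 250))))) (PT.nd (nat_lit 62400) (PT.nd (nat_lit 78) (PT.lf (nat_lit 1748) (nat_lit 3) (nat_lit 23) (nat_lit 1) (nat_lit 249) (nat_lit 102) (nat_lit 249)) (PT.lf (nat_lit 1672) (nat_lit 6) (nat_lit 22) (nat_lit 1) (nat_lit 250) (nat_lit 102) (nat_lit 248))) (PT.nd (nat_lit 78) (PT.lf (nat_lit 1824) (nat_lit 6) (nat_lit 24) (nat_lit 3) (nat_lit 248) (nat_lit 103) (nat_lit 249)) (PT.nd (nat_lit 62322) (PT.lf (nat_lit 1824) (nat_lit 6) (nat_lit 24) (nat_lit 1) (nat_lit 249) (nat_lit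 103) (nat_lit 248)) (PT.lf (nat_lit 1900) (nat_lit 6) (nat_lit 25) (nat_lit 3) (nat_lit 247) (nat_lit 104) (nat_lit 249))))))))
noncomputable def pc1 : PT := (PT.nd (nat_lit 499434) (PT.nd (nat_lit 249678) (PT.nd (nat_lit 124800) (PT.nd (nat_lit 62400) (PT.nd (nat_lit 78) (PT.lf (nat_lit 1976) (nat_lit 3) (nat_lit 26) (nat_lit 1) (nat_lit 248) (nat_lit 104) (nat_lit 248)) (PT.lf (nat_lit 1900) (nat_lit 6) (nat_lit 25) (nat_lit 1) (nat_lit 249) (nat_lit 104) (nat_lit 247))) (PT.nd (nat_lit 78) (PT.lf (nat_lit 2052) (nat_lit 6) (nat_lit 27) (nat_lit 3) (nat_lit 247) (nat_lit 105) (nat_lit 248)) (PT.lf (nat_lit 2052) (nat_lit 6) (nat_lit 27) (nat_lit 1) (nat_lit 248) (nat_lit 105) (nat_lit 247)))) (PT.nd (nat_lit 156) (PT.nd (nat_lit 78) (PT.lf (nat_lit 2128) (nat_lit 6) (nat_lit 28) (nat_lit 3) (nat_lit 246) (nat_lit 106) (nat_lit 248)) (PT.lf (nat_lit 2204) (nat_lit 3) (nat_lit 29) (nat_lit 1) (nat_lit 247) (nat_lit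 106) (nat_lit 247))) (PT.nd (nat_lit 62322) (PT.lf (nat_lit 2128) (nat_lit 6) (nat_lit 28) (nat_lit 1) (nat_lit 248) (nat_lit 106) (nat_lit 246)) (PT.nd (nat_lit 78) (PT.lf (nat_lit 2280) (nat_lit 6) (nat_lit 30) (nat_lit 3) (nat_lit 246) (nat_lit 107) (nat_lit 247)) (PT.lf (nat_lit 2280) (nat_lit 6) (nat_lit 30) (nat_lit 1) (nat_lit 247) (nat_lit 107) (nat_lit 246)))))) (PT.nd (nat_lit 124878) (PT.nd (nat_lit 156) (PT.nd (nat_lit 78) (PT.lf (nat_lit 2356) (nat_lit 6) (nat_lit 31) (nat_lit 3) (nat_lit 245) (nat_lit 108) (nat_lit 247)) (PT.lf (nat_lit 2432) (nat_lit 3) (nat_lit 32) (nat_lit 1) (nat_lit 246) (nat_lit 108) (nat_lit 246))) (PT.nd (nat_lit 62322) (PT.lf (nat_lit 2356) (nat_lit 6) (nat_lit 31) (nat_lit 1) (nat_lit 247) (nat_lit 108) (nat_lit 245)) (PT.nd (nat_lit 78) (PT.lf (nat_lit 2508) (nat_lit 6) (nat_lit 33) (nat_lit 3) (nat_lit 245) (nat_lit 109) (nat_lit 246)) (PT.lf (nat_lit 2508) (nat_lit 6)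 (nat_lit 33) (nat_lit 1) (nat_lit 246) (nat_lit 109) (nat_lit 245))))) (PT.nd (nat_lit 156) (PT.nd (nat_lit 78) (PT.lf (nat_lit 2584) (nat_lit 6) (nat_lit 34) (nat_lit 3) (nat_lit 244) (nat_lit 110) (nat_lit 246)) (PT.lf (nat_lit 2660) (nat_lit 3) (nat_lit 35) (nat_lit 1) (nat_lit 245) (nat_lit 110) (nat_lit 245))) (PT.nd (nat_lit 62322) (PT.lf (nat_lit 2584) (nat_lit 6) (nat_lit 34) (nat_lit 1) (nat_lit 246) (nat_lit 110) (nat_lit 244)) (PT.nd (nat_lit 78) (PT.lf (nat_lit 2736) (nat_lit 6) (nat_lit 36) (nat_lit 3) (nat_lit 244) (nat_lit 111) (nat_lit 245)) (PT.lf (nat_lit 2736) (nat_lit 6) (nat_lit 36) (nat_lit 1) (nat_lit 245) (nat_lit 111) (nat_lit 244))))))) (PT.nd (nat_lit 187434) (PT.nd (nat_lit 62556) (PT.nd (nat_lit 156) (PT.nd (nat_lit 78) (PT.lf (nat_lit 2812) (nat_lit 6) (nat_lit 37) (nat_lit 3) (nat_lit 243) (nat_lit 112) (nat_lit 245)) (PT.lf (nat_lit 2888) (nat_lit 3) (nat_lit 38) (nat_lit 1) (nat_lit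 244) (nat_lit 112) (nat_lit 244))) (PT.nd (nat_lit 62322) (PT.lf (nat_lit 2812) (nat_lit 6) (nat_lit 37) (nat_lit 1) (nat_lit 245) (nat_lit 112) (nat_lit 243)) (PT.lf (nat_lit 2964) (nat_lit 6) (nat_lit 39) (nat_lit 3) (nat_lit 243) (nat_lit 113) (nat_lit 244)))) (PT.nd (nat_lit 62400) (PT.nd (nat_lit 62322) (PT.lf (nat_lit 2964) (nat_lit 6) (nat_lit 39) (nat_lit 1) (nat_lit 244) (nat_lit 113) (nat_lit 243)) (PT.lf (nat_lit 3040) (nat_lit 6) (nat_lit 40) (nat_lit 3) (nat_lit 242) (nat_lit 114) (nat_lit 244))) (PT.nd (nat_lit 78) (PT.lf (nat_lit 3116) (nat_lit 3) (nat_lit 41) (nat_lit 1) (nat_lit 243) (nat_lit 114) (nat_lit 243)) (PT.nd (nat_lit 62322) (PT.lf (nat_lit 3040) (nat_lit 6) (nat_lit 40) (nat_lit 1) (nat_lit 244) (nat_lit 114) (nat_lit 242)) (PT.lf (nat_lit 3192) (nat_lit 6) (nat_lit 42) (nat_lit 3) (nat_lit 242) (nat_lit 115) (nat_lit 243)))))) (PT.nd (nat_lit 124878) (PT.nd (nat_lit 62400) (PT.nd (nat_lit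 62322) (PT.lf (nat_lit 3192) (nat_lit 6) (nat_lit 42) (nat_lit 1) (nat_lit 243) (nat_lit 115) (nat_lit 242)) (PT.lf (nat_lit 3268) (nat_lit 6) (nat_lit 43) (nat_lit 3) (nat_lit 241) (nat_lit 116) (nat_lit 243))) (PT.nd (nat_lit 78) (PT.lf (nat_lit 3344) (nat_lit 3) (nat_lit 44) (nat_lit 1) (nat_lit 242) (nat_lit 116) (nat_lit 242)) (PT.nd (nat_lit 62322) (PT.lf (nat_lit 3268) (nat_lit 6) (nat_lit 43) (nat_lit 1) (nat_lit 243) (nat_lit 116) (nat_lit 241)) (PT.lf (nat_lit 3420) (nat_lit 6) (nat_lit 45) (nat_lit 3) (nat_lit 241) (nat_lit 117) (nat_lit 242))))) (PT.nd (nat_lit 62400) (PT.nd (nat_lit 62322) (PT.lf (nat_lit 3420) (nat_lit 6) (nat_lit 45) (nat_lit 1) (nat_lit 242) (nat_lit 117) (nat_lit 241)) (PT.lf (nat_lit 3496) (nat_lit 6) (nat_lit 46) (nat_lit 3) (nat_lit 240) (nat_lit 118) (nat_lit 242))) (PT.nd (nat_lit 78) (PT.lf (nat_lit 3572) (nat_lit 3) (nat_lit 47) (nat_lit 1) (nat_lit 241) (nat_lit 118) (nat_lit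 241)) (PT.nd (nat_lit 62322) (PT.lf (nat_lit 3496) (nat_lit 6) (nat_lit 46) (nat_lit 1) (nat_lit 242) (nat_lit 118) (nat_lit 240)) (PT.lf (nat_lit 3648) (nat_lit 6) (nat_lit 48) (nat_lit 3) (nat_lit 240) (nat_lit 119) (nat_lit 241))))))))
noncomputable def pc2 : PT := (PT.nd (nat_lit 437112) (PT.nd (nat_lit 249678) (PT.nd (nat_lit 124800) (PT.nd (nat_lit 62400) (PT.nd (nat_lit 62322) (PT.lf (nat_lit 3648) (nat_lit 6) (nat_lit 48) (nat_lit 1) (nat_lit 241) (nat_lit 119) (nat_lit 240)) (PT.lf (nat_lit 3724) (nat_lit 6) (nat_lit 49) (nat_lit 3) (nat_lit 239) (nat_lit 120) (nat_lit 241))) (PT.nd (nat_lit 78) (PT.lf (nat_lit 3800) (nat_lit 3) (nat_lit 50) (nat_lit 1) (nat_lit 240) (nat_lit 120) (nat_lit 240)) (PT.lf (nat_lit 3724) (nat_lit 6) (nat_lit 49) (nat_lit 1) (nat_lit 241) (nat_lit 120) (nat_lit 239)))) (PT.nd (nat_lit 62400) (PT.nd (nat_lit 78) (PT.lf (nat_lit 3876) (nat_lit 6) (nat_lit 51) (nat_lit 3) (nat_lit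 239) (nat_lit 121) (nat_lit 240)) (PT.lf (nat_lit 3876) (nat_lit 6) (nat_lit 51) (nat_lit 1) (nat_lit 240) (nat_lit 121) (nat_lit 239))) (PT.nd (nat_lit 78) (PT.lf (nat_lit 3952) (nat_lit 6) (nat_lit 52) (nat_lit 3) (nat_lit 238) (nat_lit 122) (nat_lit 240)) (PT.nd (nat_lit 78) (PT.lf (nat_lit 4028) (nat_lit 3) (nat_lit 53) (nat_lit 1) (nat_lit 239) (nat_lit 122) (nat_lit 239)) (PT.lf (nat_lit 3952) (nat_lit 6) (nat_lit 52) (nat_lit 1) (nat_lit 240) (nat_lit 122) (nat_lit 238)))))) (PT.nd (nat_lit 62556) (PT.nd (nat_lit 62400) (PT.nd (nat_lit 78) (PT.lf (nat_lit 4104) (nat_lit 6) (nat_lit 54) (nat_lit 3) (nat_lit 238) (nat_lit 123) (nat_lit 239)) (PT.lf (nat_lit 4104) (nat_lit 6) (nat_lit 54) (nat_lit 1) (nat_lit 239) (nat_lit 123) (nat_lit 238))) (PT.nd (nat_lit 78) (PT.lf (nat_lit 4180) (nat_lit 6) (nat_lit 55) (nat_lit 3) (nat_lit 237) (nat_lit 124) (nat_lit 239)) (PT.lf (nat_lit 4256) (nat_lit 3) (nat_lit 56)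 (nat_lit 1) (nat_lit 238) (nat_lit 124) (nat_lit 238)))) (PT.nd (nat_lit 62400) (PT.nd (nat_lit 62322) (PT.lf (nat_lit 4180) (nat_lit 6) (nat_lit 55) (nat_lit 1) (nat_lit 239) (nat_lit 124) (nat_lit 237)) (PT.lf (nat_lit 4332) (nat_lit 6) (nat_lit 57) (nat_lit 3) (nat_lit 237) (nat_lit 125) (nat_lit 238))) (PT.nd (nat_lit 62322) (PT.lf (nat_lit 4332) (nat_lit 6) (nat_lit 57) (nat_lit 1) (nat_lit 238) (nat_lit 125) (nat_lit 237)) (PT.nd (nat_lit 78) (PT.lf (nat_lit 4408) (nat_lit 6) (nat_lit 58) (nat_lit 3) (nat_lit 236) (nat_lit 126) (nat_lit 238)) (PT.lf (nat_lit 4484) (nat_lit 3) (nat_lit 59) (nat_lit 1) (nat_lit 237) (nat_lit 126) (nat_lit 237))))))) (PT.nd (nat_lit 187200) (PT.nd (nat_lit 62478) (PT.nd (nat_lit 62322) (PT.nd (nat_lit 62244) (PT.lf (nat_lit 4408) (nat_lit 6) (nat_lit 58) (nat_lit 1) (nat_lit 238) (nat_lit 126) (nat_lit 236)) (PT.lf (nat_lit 4560) (nat_lit 6) (nat_lit 60) (nat_lit 3) (nat_lit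 235) (nat_lit 127) (nat_lit 238))) (PT.nd (nat_lit 78) (PT.lf (nat_lit 4636) (nat_lit 6) (nat_lit 61) (nat_lit 3) (nat_lit 236) (nat_lit 127) (nat_lit 237)) (PT.lf (nat_lit 4636) (nat_lit 6) (nat_lit 61) (nat_lit 1) (nat_lit 237) (nat_lit 127) (nat_lit 236)))) (PT.nd (nat_lit 62322) (PT.nd (nat_lit 62244) (PT.lf (nat_lit 4560) (nat_lit 6) (nat_lit 60) (nat_lit 1) (nat_lit 238) (nat_lit 127) (nat_lit 235)) (PT.lf (nat_lit 4712) (nat_lit 6) (nat_lit 62) (nat_lit 3) (nat_lit 235) (nat_lit 128) (nat_lit 237))) (PT.nd (nat_lit 78) (PT.lf (nat_lit 4788) (nat_lit 3) (nat_lit 63) (nat_lit 1) (nat_lit 236) (nat_lit 128) (nat_lit 236)) (PT.nd (nat_lit 62244) (PT.lf (nat_lit 4712) (nat_lit 6) (nat_lit 62) (nat_lit 1) (nat_lit 237) (nat_lit 128) (nat_lit 235)) (PT.lf (nat_lit 4864) (nat_lit 6) (nat_lit 64) (nat_lit 3) (nat_lit 234) (nat_lit 129) (nat_lit 237)))))) (PT.nd (nat_lit 62556) (PT.nd (nat_lit 156) (PT.nd (nat_lit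 78) (PT.lf (nat_lit 4940) (nat_lit 6) (nat_lit 65) (nat_lit 3) (nat_lit 235) (nat_lit 129) (nat_lit 236)) (PT.lf (nat_lit 4940) (nat_lit 6) (nat_lit 65) (nat_lit 1) (nat_lit 236) (nat_lit 129) (nat_lit 235))) (PT.nd (nat_lit 62244) (PT.lf (nat_lit 4864) (nat_lit 6) (nat_lit 64) (nat_lit 1) (nat_lit 237) (nat_lit 129) (nat_lit 234)) (PT.nd (nat_lit 78) (PT.lf (nat_lit 5016) (nat_lit 6) (nat_lit 66) (nat_lit 3) (nat_lit 234) (nat_lit 130) (nat_lit 236)) (PT.lf (nat_lit 5092) (nat_lit 3) (nat_lit 67) (nat_lit 1) (nat_lit 235) (nat_lit 130) (nat_lit 235))))) (PT.nd (nat_lit 62322) (PT.nd (nat_lit 62244) (PT.lf (nat_lit 5016) (nat_lit 6) (nat_lit 66) (nat_lit 1) (nat_lit 236) (nat_lit 130) (nat_lit 234)) (PT.lf (nat_lit 5168) (nat_lit 6) (nat_lit 68) (nat_lit 3) (nat_lit 233) (nat_lit 131) (nat_lit 236))) (PT.nd (nat_lit 78) (PT.lf (nat_lit 5244) (nat_lit 6) (nat_lit 69) (nat_lit 3) (nat_lit 234) (nat_lit 131) (nat_lit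 235)) (PT.nd (nat_lit 78) (PT.lf (nat_lit 5244) (nat_lit 6) (nat_lit 69) (nat_lit 1) (nat_lit 235) (nat_lit 131) (nat_lit 234)) (PT.lf (nat_lit 5168) (nat_lit 6) (nat_lit 68) (nat_lit 1) (nat_lit 236) (nat_lit 131) (nat_lit 233))))))))
noncomputable def pc3 : PT := (PT.nd (nat_lit 312312) (PT.nd (nat_lit 125034) (PT.nd (nat_lit 62478) (PT.nd (nat_lit 156) (PT.nd (nat_lit 78) (PT.lf (nat_lit 5320) (nat_lit 6) (nat_lit 70) (nat_lit 3) (nat_lit 233) (nat_lit 132) (nat_lit 235)) (PT.lf (nat_lit 5396) (nat_lit 3) (nat_lit 71) (nat_lit 1) (nat_lit 234) (nat_lit 132) (nat_lit 234))) (PT.nd (nat_lit 62244) (PT.lf (nat_lit 5320) (nat_lit 6) (nat_lit 70) (nat_lit 1) (nat_lit 235) (nat_lit 132) (nat_lit 233)) (PT.lf (nat_lit 5472) (nat_lit 6) (nat_lit 72) (nat_lit 3) (nat_lit 232) (nat_lit 133) (nat_lit 235)))) (PT.nd (nat_lit 156) (PT.nd (nat_lit 78) (PT.lf (nat_lit 5548) (nat_lit 6) (nat_lit 73) (nat_lit 3) (nat_lit 233)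 (nat_lit 133) (nat_lit 234)) (PT.lf (nat_lit 5548) (nat_lit 6) (nat_lit 73) (nat_lit 1) (nat_lit 234) (nat_lit 133) (nat_lit 233))) (PT.nd (nat_lit 62244) (PT.lf (nat_lit 5472) (nat_lit 6) (nat_lit 72) (nat_lit 1) (nat_lit 235) (nat_lit 133) (nat_lit 232)) (PT.nd (nat_lit 78) (PT.lf (nat_lit 5624) (nat_lit 6) (nat_lit 74) (nat_lit 3) (nat_lit 232) (nat_lit 134) (nat_lit 234)) (PT.lf (nat_lit 5700) (nat_lit 3) (nat_lit 75) (nat_lit 1) (nat_lit 233) (nat_lit 134) (nat_lit 233)))))) (PT.nd (nat_lit 124722) (PT.nd (nat_lit 62322) (PT.nd (nat_lit 62244) (PT.lf (nat_lit 5624) (nat_lit 6) (nat_lit 74) (nat_lit 1) (nat_lit 234) (nat_lit 134) (nat_lit 232)) (PT.lf (nat_lit 5776) (nat_lit 6) (nat_lit 76) (nat_lit 3) (nat_lit 231) (nat_lit 135) (nat_lit 234))) (PT.nd (nat_lit 78) (PT.lf (nat_lit 5852) (nat_lit 6) (nat_lit 77) (nat_lit 3) (nat_lit 232) (nat_lit 135) (nat_lit 233)) (PT.nd (nat_lit 78) (PT.lf (nat_lit 5852) (nat_lit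 6) (nat_lit 77) (nat_lit 1) (nat_lit 233) (nat_lit 135) (nat_lit 232)) (PT.lf (nat_lit 5776) (nat_lit 6) (nat_lit 76) (nat_lit 1) (nat_lit 234) (nat_lit 135) (nat_lit 231))))) (PT.nd (nat_lit 156) (PT.nd (nat_lit 78) (PT.lf (nat_lit 5928) (nat_lit 6) (nat_lit 78) (nat_lit 3) (nat_lit 231) (nat_lit 136) (nat_lit 233)) (PT.lf (nat_lit 6004) (nat_lit 3) (nat_lit 79) (nat_lit 1) (nat_lit 232) (nat_lit 136) (nat_lit 232))) (PT.nd (nat_lit 62244) (PT.lf (nat_lit 5928) (nat_lit 6) (nat_lit 78) (nat_lit 1) (nat_lit 233) (nat_lit 136) (nat_lit 231)) (PT.nd (nat_lit 78) (PT.lf (nat_lit 6080) (nat_lit 6) (nat_lit 80) (nat_lit 3) (nat_lit 230) (nat_lit 137) (nat_lit 233)) (PT.lf (nat_lit 6156) (nat_lit 6) (nat_lit 81) (nat_lit 3) (nat_lit 231) (nat_lit 137) (nat_lit 232))))))) (PT.nd (nat_lit 187122) (PT.nd (nat_lit 62478) (PT.nd (nat_lit 62322) (PT.nd (nat_lit 78) (PT.lf (nat_lit 6156) (nat_lit 6) (nat_lit 81) (nat_lit 1)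 (nat_lit 232) (nat_lit 137) (nat_lit 231)) (PT.lf (nat_lit 6080) (nat_lit 6) (nat_lit 80) (nat_lit 1) (nat_lit 233) (nat_lit 137) (nat_lit 230))) (PT.nd (nat_lit 78) (PT.lf (nat_lit 6232) (nat_lit 6) (nat_lit 82) (nat_lit 3) (nat_lit 230) (nat_lit 138) (nat_lit 232)) (PT.lf (nat_lit 6308) (nat_lit 3) (nat_lit 83) (nat_lit 1) (nat_lit 231) (nat_lit 138) (nat_lit 231)))) (PT.nd (nat_lit 62322) (PT.nd (nat_lit 62244) (PT.lf (nat_lit 6232) (nat_lit 6) (nat_lit 82) (nat_lit 1) (nat_lit 232) (nat_lit 138) (nat_lit 230)) (PT.lf (nat_lit 6384) (nat_lit 6) (nat_lit 84) (nat_lit 3) (nat_lit 229) (nat_lit 139) (nat_lit 232))) (PT.nd (nat_lit 78) (PT.lf (nat_lit 6460) (nat_lit 6) (nat_lit 85) (nat_lit 3) (nat_lit 230) (nat_lit 139) (nat_lit 231)) (PT.nd (nat_lit 78) (PT.lf (nat_lit 6460) (nat_lit 6) (nat_lit 85) (nat_lit 1) (nat_lit 231) (nat_lit 139) (nat_lit 230)) (PT.lf (nat_lit 6384) (nat_lit 6) (nat_lit 84) (nat_lit 1)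 (nat_lit 232) (nat_lit 139) (nat_lit 229)))))) (PT.nd (nat_lit 62478) (PT.nd (nat_lit 156) (PT.nd (nat_lit 78) (PT.lf (nat_lit 6536) (nat_lit 6) (nat_lit 86) (nat_lit 3) (nat_lit 228) (nat_lit 140) (nat_lit 232)) (PT.lf (nat_lit 6612) (nat_lit 6) (nat_lit 87) (nat_lit 3) (nat_lit 229) (nat_lit 140) (nat_lit 231))) (PT.nd (nat_lit 78) (PT.lf (nat_lit 6688) (nat_lit 3) (nat_lit 88) (nat_lit 1) (nat_lit 230) (nat_lit 140) (nat_lit 230)) (PT.nd (nat_lit 78) (PT.lf (nat_lit 6612) (nat_lit 6) (nat_lit 87) (nat_lit 1) (nat_lit 231) (nat_lit 140) (nat_lit 229)) (PT.lf (nat_lit 6536) (nat_lit 6) (nat_lit 86) (nat_lit 1) (nat_lit 232) (nat_lit 140) (nat_lit 228))))) (PT.nd (nat_lit 156) (PT.nd (nat_lit 78) (PT.lf (nat_lit 6764) (nat_lit 6) (nat_lit 89) (nat_lit 3) (nat_lit 228) (nat_lit 141) (nat_lit 231)) (PT.lf (nat_lit 6840) (nat_lit 6) (nat_lit 90) (nat_lit 3) (nat_lit 229) (nat_lit 141) (nat_lit 230))) (PT.nd (nat_lit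 78) (PT.lf (nat_lit 6840) (nat_lit 6) (nat_lit 90) (nat_lit 1) (nat_lit 230) (nat_lit 141) (nat_lit 229)) (PT.nd (nat_lit 62166) (PT.lf (nat_lit 6764) (nat_lit 6) (nat_lit 89) (nat_lit 1) (nat_lit 231) (nat_lit 141) (nat_lit 228)) (PT.lf (nat_lit 6916) (nat_lit 6) (nat_lit 91) (nat_lit 3) (nat_lit 227) (nat_lit 142) (nat_lit 231))))))))
noncomputable def pc4 : PT := (PT.nd (nat_lit 249756) (PT.nd (nat_lit 124878) (PT.nd (nat_lit 62400) (PT.nd (nat_lit 156) (PT.nd (nat_lit 78) (PT.lf (nat_lit 6992) (nat_lit 6) (nat_lit 92) (nat_lit 3) (nat_lit 228) (nat_lit 142) (nat_lit 230)) (PT.lf (nat_lit 7068) (nat_lit 3) (nat_lit 93) (nat_lit 1) (nat_lit 229) (nat_lit 142) (nat_lit 229))) (PT.nd (nat_lit 78) (PT.lf (nat_lit 6992) (nat_lit 6) (nat_lit 92) (nat_lit 1) (nat_lit 230) (nat_lit 142) (nat_lit 228)) (PT.lf (nat_lit 6916) (nat_lit 6) (nat_lit 91) (nat_lit 1) (nat_lit 231) (nat_lit 142) (nat_lit 227)))) (PT.nd (nat_lit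 156) (PT.nd (nat_lit 78) (PT.lf (nat_lit 7144) (nat_lit 6) (nat_lit 94) (nat_lit 3) (nat_lit 227) (nat_lit 143) (nat_lit 230)) (PT.lf (nat_lit 7220) (nat_lit 6) (nat_lit 95) (nat_lit 3) (nat_lit 228) (nat_lit 143) (nat_lit 229))) (PT.nd (nat_lit 78) (PT.lf (nat_lit 7220) (nat_lit 6) (nat_lit 95) (nat_lit 1) (nat_lit 229) (nat_lit 143) (nat_lit 228)) (PT.nd (nat_lit 62166) (PT.lf (nat_lit 7144) (nat_lit 6) (nat_lit 94) (nat_lit 1) (nat_lit 230) (nat_lit 143) (nat_lit 227)) (PT.lf (nat_lit 7296) (nat_lit 6) (nat_lit 96) (nat_lit 3) (nat_lit 226) (nat_lit 144) (nat_lit 230)))))) (PT.nd (nat_lit 62400) (PT.nd (nat_lit 156) (PT.nd (nat_lit 78) (PT.lf (nat_lit 7372) (nat_lit 6) (nat_lit 97) (nat_lit 3) (nat_lit 227) (nat_lit 144) (nat_lit 229)) (PT.lf (nat_lit 7448) (nat_lit 3) (nat_lit 98) (nat_lit 1) (nat_lit 228) (nat_lit 144) (nat_lit 228))) (PT.nd (nat_lit 78) (PT.lf (nat_lit 7372) (nat_lit 6) (nat_lit 97) (nat_lit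 1) (nat_lit 229) (nat_lit 144) (nat_lit 227)) (PT.lf (nat_lit 7296) (nat_lit 6) (nat_lit 96) (nat_lit 1) (nat_lit 230) (nat_lit 144) (nat_lit 226)))) (PT.nd (nat_lit 156) (PT.nd (nat_lit 78) (PT.lf (nat_lit 7524) (nat_lit 6) (nat_lit 99) (nat_lit 3) (nat_lit 226) (nat_lit 145) (nat_lit 229)) (PT.lf (nat_lit 7600) (nat_lit 6) (nat_lit 100) (nat_lit 3) (nat_lit 227) (nat_lit 145) (nat_lit 228))) (PT.nd (nat_lit 78) (PT.lf (nat_lit 7600) (nat_lit 6) (nat_lit 100) (nat_lit 1) (nat_lit 228) (nat_lit 145) (nat_lit 227)) (PT.nd (nat_lit 62166) (PT.lf (nat_lit 7524) (nat_lit 6) (nat_lit 99) (nat_lit 1) (nat_lit 229) (nat_lit 145) (nat_lit 226)) (PT.lf (nat_lit 7676) (nat_lit 6) (nat_lit 101) (nat_lit 3) (nat_lit 225) (nat_lit 146) (nat_lit 229))))))) (PT.nd (nat_lit 124878) (PT.nd (nat_lit 62400) (PT.nd (nat_lit 156) (PT.nd (nat_lit 78) (PT.lf (nat_lit 7752) (nat_lit 6) (nat_lit 102) (nat_lit 3) (nat_lit 226) (nat_lit 146)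 (nat_lit 228)) (PT.lf (nat_lit 7828) (nat_lit 3) (nat_lit 103) (nat_lit 1) (nat_lit 227) (nat_lit 146) (nat_lit 227))) (PT.nd (nat_lit 78) (PT.lf (nat_lit 7752) (nat_lit 6) (nat_lit 102) (nat_lit 1) (nat_lit 228) (nat_lit 146) (nat_lit 226)) (PT.lf (nat_lit 7676) (nat_lit 6) (nat_lit 101) (nat_lit 1) (nat_lit 229) (nat_lit 146) (nat_lit 225)))) (PT.nd (nat_lit 156) (PT.nd (nat_lit 78) (PT.lf (nat_lit 7904) (nat_lit 6) (nat_lit 104) (nat_lit 3) (nat_lit 225) (nat_lit 147) (nat_lit 228)) (PT.lf (nat_lit 7980) (nat_lit 6) (nat_lit 105) (nat_lit 3) (nat_lit 226) (nat_lit 147) (nat_lit 227))) (PT.nd (nat_lit 78) (PT.lf (nat_lit 7980) (nat_lit 6) (nat_lit 105) (nat_lit 1) (nat_lit 227) (nat_lit 147) (nat_lit 226)) (PT.nd (nat_lit 62166) (PT.lf (nat_lit 7904) (nat_lit 6) (nat_lit 104) (nat_lit 1) (nat_lit 228) (nat_lit 147) (nat_lit 225)) (PT.lf (nat_lit 8056) (nat_lit 6) (nat_lit 106) (nat_lit 3) (nat_lit 224) (nat_lit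 148) (nat_lit 228)))))) (PT.nd (nat_lit 62400) (PT.nd (nat_lit 156) (PT.nd (nat_lit 78) (PT.lf (nat_lit 8132) (nat_lit 6) (nat_lit 107) (nat_lit 3) (nat_lit 225) (nat_lit 148) (nat_lit 227)) (PT.lf (nat_lit 8208) (nat_lit 3) (nat_lit 108) (nat_lit 1) (nat_lit 226) (nat_lit 148) (nat_lit 226))) (PT.nd (nat_lit 78) (PT.lf (nat_lit 8132) (nat_lit 6) (nat_lit 107) (nat_lit 1) (nat_lit 227) (nat_lit 148) (nat_lit 225)) (PT.nd (nat_lit 62088) (PT.lf (nat_lit 8056) (nat_lit 6) (nat_lit 106) (nat_lit 1) (nat_lit 228) (nat_lit 148) (nat_lit 224)) (PT.lf (nat_lit 8284) (nat_lit 6) (nat_lit 109) (nat_lit 3) (nat_lit 223) (nat_lit 149) (nat_lit 228))))) (PT.nd (nat_lit 156) (PT.nd (nat_lit 78) (PT.lf (nat_lit 8360) (nat_lit 6) (nat_lit 110) (nat_lit 3) (nat_lit 224) (nat_lit 149) (nat_lit 227)) (PT.lf (nat_lit 8436) (nat_lit 6) (nat_lit 111) (nat_lit 3) (nat_lit 225) (nat_lit 149) (nat_lit 226))) (PT.nd (nat_lit 78) (PT.lf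 (nat_lit 8436) (nat_lit 6) (nat_lit 111) (nat_lit 1) (nat_lit 226) (nat_lit 149) (nat_lit 225)) (PT.nd (nat_lit 78) (PT.lf (nat_lit 8360) (nat_lit 6) (nat_lit 110) (nat_lit 1) (nat_lit 227) (nat_lit 149) (nat_lit 224)) (PT.lf (nat_lit 8284) (nat_lit 6) (nat_lit 109) (nat_lit 1) (nat_lit 228) (nat_lit 149) (nat_lit 223))))))))
noncomputable def pc5 : PT := (PT.nd (nat_lit 187512) (PT.nd (nat_lit 62712) (PT.nd (nat_lit 312) (PT.nd (nat_lit 156) (PT.nd (nat_lit 78) (PT.lf (nat_lit 8512) (nat_lit 6) (nat_lit 112) (nat_lit 3) (nat_lit 223) (nat_lit 150) (nat_lit 227)) (PT.lf (nat_lit 8588) (nat_lit 6) (nat_lit 113) (nat_lit 3) (nat_lit 224) (nat_lit 150) (nat_lit 226))) (PT.nd (nat_lit 78) (PT.lf (nat_lit 8664) (nat_lit 3) (nat_lit 114) (nat_lit 1) (nat_lit 225) (nat_lit 150) (nat_lit 225)) (PT.lf (nat_lit 8588) (nat_lit 6) (nat_lit 113) (nat_lit 1) (nat_lit 226) (nat_lit 150) (nat_lit 224)))) (PT.nd (nat_lit 62166)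 (PT.nd (nat_lit 62088) (PT.lf (nat_lit 8512) (nat_lit 6) (nat_lit 112) (nat_lit 1) (nat_lit 227) (nat_lit 150) (nat_lit 223)) (PT.lf (nat_lit 8740) (nat_lit 6) (nat_lit 115) (nat_lit 3) (nat_lit 222) (nat_lit 151) (nat_lit 227))) (PT.nd (nat_lit 78) (PT.lf (nat_lit 8816) (nat_lit 6) (nat_lit 116) (nat_lit 3) (nat_lit 223) (nat_lit 151) (nat_lit 226)) (PT.nd (nat_lit 78) (PT.lf (nat_lit 8892) (nat_lit 6) (nat_lit 117) (nat_lit 3) (nat_lit 224) (nat_lit 151) (nat_lit 225)) (PT.lf (nat_lit 8892) (nat_lit 6) (nat_lit 117) (nat_lit 1) (nat_lit 225) (nat_lit 151) (nat_lit 224)))))) (PT.nd (nat_lit 62400) (PT.nd (nat_lit 62166) (PT.nd (nat_lit 78) (PT.lf (nat_lit 8816) (nat_lit 6) (nat_lit 116) (nat_lit 1) (nat_lit 226) (nat_lit 151) (nat_lit 223)) (PT.lf (nat_lit 8740) (nat_lit 6) (nat_lit 115) (nat_lit 1) (nat_lit 227) (nat_lit 151) (nat_lit 222))) (PT.nd (nat_lit 78) (PT.lf (nat_lit 8968) (nat_lit 6) (nat_lit 118) (nat_lit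 3) (nat_lit 222) (nat_lit 152) (nat_lit 226)) (PT.nd (nat_lit 78) (PT.lf (nat_lit 9044) (nat_lit 6) (nat_lit 119) (nat_lit 3) (nat_lit 223) (nat_lit 152) (nat_lit 225)) (PT.lf (nat_lit 9120) (nat_lit 3) (nat_lit 120) (nat_lit 1) (nat_lit 224) (nat_lit 152) (nat_lit 224))))) (PT.nd (nat_lit 62166) (PT.nd (nat_lit 78) (PT.lf (nat_lit 9044) (nat_lit 6) (nat_lit 119) (nat_lit 1) (nat_lit 225) (nat_lit 152) (nat_lit 223)) (PT.lf (nat_lit 8968) (nat_lit 6) (nat_lit 118) (nat_lit 1) (nat_lit 226) (nat_lit 152) (nat_lit 222))) (PT.nd (nat_lit 78) (PT.lf (nat_lit 9196) (nat_lit 6) (nat_lit 121) (nat_lit 3) (nat_lit 221) (nat_lit 153) (nat_lit 226)) (PT.nd (nat_lit 78) (PT.lf (nat_lit 9272) (nat_lit 6) (nat_lit 122) (nat_lit 3) (nat_lit 222) (nat_lit 153) (nat_lit 225)) (PT.lf (nat_lit 9348) (nat_lit 6) (nat_lit 123) (nat_lit 3) (nat_lit 223) (nat_lit 153) (nat_lit 224))))))) (PT.nd (nat_lit 62634) (PT.nd (nat_lit 62244)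 (PT.nd (nat_lit 156) (PT.nd (nat_lit 78) (PT.lf (nat_lit 9348) (nat_lit 6) (nat_lit 123) (nat_lit 1) (nat_lit 224) (nat_lit 153) (nat_lit 223)) (PT.lf (nat_lit 9272) (nat_lit 6) (nat_lit 122) (nat_lit 1) (nat_lit 225) (nat_lit 153) (nat_lit 222))) (PT.nd (nat_lit 62010) (PT.lf (nat_lit 9196) (nat_lit 6) (nat_lit 121) (nat_lit 1) (nat_lit 226) (nat_lit 153) (nat_lit 221)) (PT.lf (nat_lit 9424) (nat_lit 6) (nat_lit 124) (nat_lit 3) (nat_lit 220) (nat_lit 154) (nat_lit 226)))) (PT.nd (nat_lit 156) (PT.nd (nat_lit 78) (PT.lf (nat_lit 9500) (nat_lit 6) (nat_lit 125) (nat_lit 3) (nat_lit 221) (nat_lit 154) (nat_lit 225)) (PT.lf (nat_lit 9576) (nat_lit 6) (nat_lit 126) (nat_lit 3) (nat_lit 222) (nat_lit 154) (nat_lit 224))) (PT.nd (nat_lit 78) (PT.lf (nat_lit 9652) (nat_lit 3) (nat_lit 127) (nat_lit 1) (nat_lit 223) (nat_lit 154) (nat_lit 223)) (PT.nd (nat_lit 78) (PT.lf (nat_lit 9576) (nat_lit 6) (nat_lit 126) (nat_lit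 1) (nat_lit 224) (nat_lit 154) (nat_lit 222)) (PT.lf (nat_lit 9500) (nat_lit 6) (nat_lit 125) (nat_lit 1) (nat_lit 225) (nat_lit 154) (nat_lit 221)))))) (PT.nd (nat_lit 62322) (PT.nd (nat_lit 62088) (PT.nd (nat_lit 62010) (PT.lf (nat_lit 9424) (nat_lit 6) (nat_lit 124) (nat_lit 1) (nat_lit 226) (nat_lit 154) (nat_lit 220)) (PT.lf (nat_lit 9728) (nat_lit 6) (nat_lit 128) (nat_lit 3) (nat_lit 220) (nat_lit 155) (nat_lit 225))) (PT.nd (nat_lit 78) (PT.lf (nat_lit 9804) (nat_lit 6) (nat_lit 129) (nat_lit 3) (nat_lit 221) (nat_lit 155) (nat_lit 224)) (PT.nd (nat_lit 78) (PT.lf (nat_lit 9880) (nat_lit 6) (nat_lit 130) (nat_lit 3) (nat_lit 222) (nat_lit 155) (nat_lit 223)) (PT.lf (nat_lit 9880) (nat_lit 6) (nat_lit 130) (nat_lit 1) (nat_lit 223) (nat_lit 155) (nat_lit 222))))) (PT.nd (nat_lit 62088) (PT.nd (nat_lit 78) (PT.lf (nat_lit 9804) (nat_lit 6) (nat_lit 129) (nat_lit 1) (nat_lit 224) (nat_lit 155) (nat_lit 221))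 (PT.lf (nat_lit 9728) (nat_lit 6) (nat_lit 128) (nat_lit 1) (nat_lit 225) (nat_lit 155) (nat_lit 220))) (PT.nd (nat_lit 78) (PT.lf (nat_lit 9956) (nat_lit 6) (nat_lit 131) (nat_lit 3) (nat_lit 219) (nat_lit 156) (nat_lit 225)) (PT.nd (nat_lit 78) (PT.lf (nat_lit 10032) (nat_lit 6) (nat_lit 132) (nat_lit 3) (nat_lit 220) (nat_lit 156) (nat_lit 224)) (PT.lf (nat_lit 10108) (nat_lit 6) (nat_lit 133) (nat_lit 3) (nat_lit 221) (nat_lit 156) (nat_lit 223))))))))
noncomputable def pc6 : PT := (PT.nd (nat_lit 187200) (PT.nd (nat_lit 62634) (PT.nd (nat_lit 62244) (PT.nd (nat_lit 156) (PT.nd (nat_lit 78) (PT.lf (nat_lit 10184) (nat_lit 3) (nat_lit 134) (nat_lit 1) (nat_lit 222) (nat_lit 156) (nat_lit 222)) (PT.lf (nat_lit 10108) (nat_lit 6) (nat_lit 133) (nat_lit 1) (nat_lit 223) (nat_lit 156) (nat_lit 221))) (PT.nd (nat_lit 78) (PT.lf (nat_lit 10032) (nat_lit 6) (nat_lit 132) (nat_lit 1) (nat_lit 224) (nat_lit 156) (nat_lit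 220)) (PT.lf (nat_lit 9956) (nat_lit 6) (nat_lit 131) (nat_lit 1) (nat_lit 225) (nat_lit 156) (nat_lit 219)))) (PT.nd (nat_lit 156) (PT.nd (nat_lit 78) (PT.lf (nat_lit 10260) (nat_lit 6) (nat_lit 135) (nat_lit 3) (nat_lit 219) (nat_lit 157) (nat_lit 224)) (PT.lf (nat_lit 10336) (nat_lit 6) (nat_lit 136) (nat_lit 3) (nat_lit 220) (nat_lit 157) (nat_lit 223))) (PT.nd (nat_lit 78) (PT.lf (nat_lit 10412) (nat_lit 6) (nat_lit 137) (nat_lit 3) (nat_lit 221) (nat_lit 157) (nat_lit 222)) (PT.nd (nat_lit 78) (PT.lf (nat_lit 10412) (nat_lit 6) (nat_lit 137) (nat_lit 1) (nat_lit 222) (nat_lit 157) (nat_lit 221)) (PT.lf (nat_lit 10336) (nat_lit 6) (nat_lit 136) (nat_lit 1) (nat_lit 223) (nat_lit 157) (nat_lit 220)))))) (PT.nd (nat_lit 62322) (PT.nd (nat_lit 62088) (PT.nd (nat_lit 62010) (PT.lf (nat_lit 10260) (nat_lit 6) (nat_lit 135) (nat_lit 1) (nat_lit 224) (nat_lit 157) (nat_lit 219)) (PT.lf (nat_lit 10488) (nat_lit 6)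 (nat_lit 138) (nat_lit 3) (nat_lit 218) (nat_lit 158) (nat_lit 224))) (PT.nd (nat_lit 78) (PT.lf (nat_lit 10564) (nat_lit 6) (nat_lit 139) (nat_lit 3) (nat_lit 219) (nat_lit 158) (nat_lit 223)) (PT.nd (nat_lit 78) (PT.lf (nat_lit 10640) (nat_lit 6) (nat_lit 140) (nat_lit 3) (nat_lit 220) (nat_lit 158) (nat_lit 222)) (PT.lf (nat_lit 10716) (nat_lit 3) (nat_lit 141) (nat_lit 1) (nat_lit 221) (nat_lit 158) (nat_lit 221))))) (PT.nd (nat_lit 156) (PT.nd (nat_lit 78) (PT.lf (nat_lit 10640) (nat_lit 6) (nat_lit 140) (nat_lit 1) (nat_lit 222) (nat_lit 158) (nat_lit 220)) (PT.lf (nat_lit 10564) (nat_lit 6) (nat_lit 139) (nat_lit 1) (nat_lit 223) (nat_lit 158) (nat_lit 219))) (PT.nd (nat_lit 61932) (PT.lf (nat_lit 10488) (nat_lit 6) (nat_lit 138) (nat_lit 1) (nat_lit 224) (nat_lit 158) (nat_lit 218)) (PT.nd (nat_lit 78) (PT.lf (nat_lit 10792) (nat_lit 6) (nat_lit 142) (nat_lit 3) (nat_lit 217) (nat_lit 159) (nat_lit 224))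 (PT.lf (nat_lit 10868) (nat_lit 6) (nat_lit 143) (nat_lit 3) (nat_lit 218) (nat_lit 159) (nat_lit 223))))))) (PT.nd (nat_lit 62556) (PT.nd (nat_lit 312) (PT.nd (nat_lit 156) (PT.nd (nat_lit 78) (PT.lf (nat_lit 10944) (nat_lit 6) (nat_lit 144) (nat_lit 3) (nat_lit 219) (nat_lit 159) (nat_lit 222)) (PT.lf (nat_lit 11020) (nat_lit 6) (nat_lit 145) (nat_lit 3) (nat_lit 220) (nat_lit 159) (nat_lit 221))) (PT.nd (nat_lit 78) (PT.lf (nat_lit 11020) (nat_lit 6) (nat_lit 145) (nat_lit 1) (nat_lit 221) (nat_lit 159) (nat_lit 220)) (PT.lf (nat_lit 10944) (nat_lit 6) (nat_lit 144) (nat_lit 1) (nat_lit 222) (nat_lit 159) (nat_lit 219)))) (PT.nd (nat_lit 62010) (PT.nd (nat_lit 78) (PT.lf (nat_lit 10868) (nat_lit 6) (nat_lit 143) (nat_lit 1) (nat_lit 223) (nat_lit 159) (nat_lit 218)) (PT.lf (nat_lit 10792) (nat_lit 6) (nat_lit 142) (nat_lit 1) (nat_lit 224) (nat_lit 159) (nat_lit 217))) (PT.nd (nat_lit 78) (PT.lf (nat_lit 11096)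 (nat_lit 6) (nat_lit 146) (nat_lit 3) (nat_lit 217) (nat_lit 160) (nat_lit 223)) (PT.nd (nat_lit 78) (PT.lf (nat_lit 11172) (nat_lit 6) (nat_lit 147) (nat_lit 3) (nat_lit 218) (nat_lit 160) (nat_lit 222)) (PT.lf (nat_lit 11248) (nat_lit 6) (nat_lit 148) (nat_lit 3) (nat_lit 219) (nat_lit 160) (nat_lit 221)))))) (PT.nd (nat_lit 62244) (PT.nd (nat_lit 156) (PT.nd (nat_lit 78) (PT.lf (nat_lit 11324) (nat_lit 3) (nat_lit 149) (nat_lit 1) (nat_lit 220) (nat_lit 160) (nat_lit 220)) (PT.lf (nat_lit 11248) (nat_lit 6) (nat_lit 148) (nat_lit 1) (nat_lit 221) (nat_lit 160) (nat_lit 219))) (PT.nd (nat_lit 78) (PT.lf (nat_lit 11172) (nat_lit 6) (nat_lit 147) (nat_lit 1) (nat_lit 222) (nat_lit 160) (nat_lit 218)) (PT.nd (nat_lit 61932) (PT.lf (nat_lit 11096) (nat_lit 6) (nat_lit 146) (nat_lit 1) (nat_lit 223) (nat_lit 160) (nat_lit 217)) (PT.lf (nat_lit 11400) (nat_lit 6) (nat_lit 150) (nat_lit 3) (nat_lit 216) (nat_lit 161)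 (nat_lit 223))))) (PT.nd (nat_lit 156) (PT.nd (nat_lit 78) (PT.lf (nat_lit 11476) (nat_lit 6) (nat_lit 151) (nat_lit 3) (nat_lit 217) (nat_lit 161) (nat_lit 222)) (PT.lf (nat_lit 11552) (nat_lit 6) (nat_lit 152) (nat_lit 3) (nat_lit 218) (nat_lit 161) (nat_lit 221))) (PT.nd (nat_lit 78) (PT.lf (nat_lit 11628) (nat_lit 6) (nat_lit 153) (nat_lit 3) (nat_lit 219) (nat_lit 161) (nat_lit 220)) (PT.nd (nat_lit 78) (PT.lf (nat_lit 11628) (nat_lit 6) (nat_lit 153) (nat_lit 1) (nat_lit 220) (nat_lit 161) (nat_lit 219)) (PT.lf (nat_lit 11552) (nat_lit 6) (nat_lit 152) (nat_lit 1) (nat_lit 221) (nat_lit 161) (nat_lit 218))))))))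
noncomputable def pc7 : PT := (PT.nd (nat_lit 186810) (PT.nd (nat_lit 62478) (PT.nd (nat_lit 62088) (PT.nd (nat_lit 61932) (PT.nd (nat_lit 78) (PT.lf (nat_lit 11476) (nat_lit 6) (nat_lit 151) (nat_lit 1) (nat_lit 222) (nat_lit 161) (nat_lit 217)) (PT.lf (nat_lit 11400) (nat_lit 6) (nat_lit 150) (nat_lit 1) (nat_lit 223) (nat_lit 161) (nat_lit 216))) (PT.nd (nat_lit 78) (PT.lf (nat_lit 11704) (nat_lit 6) (nat_lit 154) (nat_lit 3) (nat_lit 215) (nat_lit 162) (nat_lit 223)) (PT.lf (nat_lit 11780) (nat_lit 6) (nat_lit 155) (nat_lit 3) (nat_lit 216) (nat_lit 162) (nat_lit 222)))) (PT.nd (nat_lit 156) (PT.nd (nat_lit 78) (PT.lf (nat_lit 11856) (nat_lit 6) (nat_lit 156) (nat_lit 3) (nat_lit 217) (nat_lit 162) (nat_lit 221)) (PT.lf (nat_lit 11932) (nat_lit 6) (nat_lit 157) (nat_lit 3) (nat_lit 218) (nat_lit 162) (nat_lit 220))) (PT.nd (nat_lit 78) (PT.lf (nat_lit 12008) (nat_lit 3) (nat_lit 158) (nat_lit 1) (nat_lit 219)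 (nat_lit 162) (nat_lit 219)) (PT.nd (nat_lit 78) (PT.lf (nat_lit 11932) (nat_lit 6) (nat_lit 157) (nat_lit 1) (nat_lit 220) (nat_lit 162) (nat_lit 218)) (PT.lf (nat_lit 11856) (nat_lit 6) (nat_lit 156) (nat_lit 1) (nat_lit 221) (nat_lit 162) (nat_lit 217)))))) (PT.nd (nat_lit 62166) (PT.nd (nat_lit 61932) (PT.nd (nat_lit 78) (PT.lf (nat_lit 11780) (nat_lit 6) (nat_lit 155) (nat_lit 1) (nat_lit 222) (nat_lit 162) (nat_lit 216)) (PT.lf (nat_lit 11704) (nat_lit 6) (nat_lit 154) (nat_lit 1) (nat_lit 223) (nat_lit 162) (nat_lit 215))) (PT.nd (nat_lit 78) (PT.lf (nat_lit 12084) (nat_lit 6) (nat_lit 159) (nat_lit 3) (nat_lit 215) (nat_lit 163) (nat_lit 222)) (PT.nd (nat_lit 78) (PT.lf (nat_lit 12160) (nat_lit 6) (nat_lit 160) (nat_lit 3) (nat_lit 216) (nat_lit 163) (nat_lit 221)) (PT.lf (nat_lit 12236) (nat_lit 6) (nat_lit 161) (nat_lit 3) (nat_lit 217) (nat_lit 163) (nat_lit 220))))) (PT.nd (nat_lit 156) (PT.nd (nat_lit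 78) (PT.lf (nat_lit 12312) (nat_lit 6) (nat_lit 162) (nat_lit 3) (nat_lit 218) (nat_lit 163) (nat_lit 219)) (PT.lf (nat_lit 12312) (nat_lit 6) (nat_lit 162) (nat_lit 1) (nat_lit 219) (nat_lit 163) (nat_lit 218))) (PT.nd (nat_lit 78) (PT.lf (nat_lit 12236) (nat_lit 6) (nat_lit 161) (nat_lit 1) (nat_lit 220) (nat_lit 163) (nat_lit 217)) (PT.nd (nat_lit 78) (PT.lf (nat_lit 12160) (nat_lit 6) (nat_lit 160) (nat_lit 1) (nat_lit 221) (nat_lit 163) (nat_lit 216)) (PT.lf (nat_lit 12084) (nat_lit 6) (nat_lit 159) (nat_lit 1) (nat_lit 222) (nat_lit 163) (nat_lit 215))))))) (PT.nd (nat_lit 62478) (PT.nd (nat_lit 312) (PT.nd (nat_lit 156) (PT.nd (nat_lit 78) (PT.lf (nat_lit 12388) (nat_lit 6) (nat_lit 163) (nat_lit 3) (nat_lit 214) (nat_lit 164) (nat_lit 222)) (PT.lf (nat_lit 12464) (nat_lit 6) (nat_lit 164) (nat_lit 3) (nat_lit 215) (nat_lit 164) (nat_lit 221))) (PT.nd (nat_lit 78) (PT.lf (nat_lit 12540) (nat_lit 6) (nat_lit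 165) (nat_lit 3) (nat_lit 216) (nat_lit 164) (nat_lit 220)) (PT.lf (nat_lit 12616) (nat_lit 6) (nat_lit 166) (nat_lit 3) (nat_lit 217) (nat_lit 164) (nat_lit 219)))) (PT.nd (nat_lit 156) (PT.nd (nat_lit 78) (PT.lf (nat_lit 12692) (nat_lit 3) (nat_lit 167) (nat_lit 1) (nat_lit 218) (nat_lit 164) (nat_lit 218)) (PT.lf (nat_lit 12616) (nat_lit 6) (nat_lit 166) (nat_lit 1) (nat_lit 219) (nat_lit 164) (nat_lit 217))) (PT.nd (nat_lit 78) (PT.lf (nat_lit 12540) (nat_lit 6) (nat_lit 165) (nat_lit 1) (nat_lit 220) (nat_lit 164) (nat_lit 216)) (PT.nd (nat_lit 78) (PT.lf (nat_lit 12464) (nat_lit 6) (nat_lit 164) (nat_lit 1) (nat_lit 221) (nat_lit 164) (nat_lit 215)) (PT.lf (nat_lit 12388) (nat_lit 6) (nat_lit 163) (nat_lit 1) (nat_lit 222) (nat_lit 164) (nat_lit 214)))))) (PT.nd (nat_lit 390) (PT.nd (nat_lit 156) (PT.nd (nat_lit 78) (PT.lf (nat_lit 12768) (nat_lit 6) (nat_lit 168) (nat_lit 3) (nat_lit 214) (nat_lit 165) (nat_lit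 221)) (PT.lf (nat_lit 12844) (nat_lit 6) (nat_lit 169) (nat_lit 3) (nat_lit 215) (nat_lit 165) (nat_lit 220))) (PT.nd (nat_lit 78) (PT.lf (nat_lit 12920) (nat_lit 6) (nat_lit 170) (nat_lit 3) (nat_lit 216) (nat_lit 165) (nat_lit 219)) (PT.nd (nat_lit 78) (PT.lf (nat_lit 12996) (nat_lit 6) (nat_lit 171) (nat_lit 3) (nat_lit 217) (nat_lit 165) (nat_lit 218)) (PT.lf (nat_lit 12996) (nat_lit 6) (nat_lit 171) (nat_lit 1) (nat_lit 218) (nat_lit 165) (nat_lit 217))))) (PT.nd (nat_lit 156) (PT.nd (nat_lit 78) (PT.lf (nat_lit 12920) (nat_lit 6) (nat_lit 170) (nat_lit 1) (nat_lit 219) (nat_lit 165) (nat_lit 216)) (PT.lf (nat_lit 12844) (nat_lit 6) (nat_lit 169) (nat_lit 1) (nat_lit 220) (nat_lit 165) (nat_lit 215))) (PT.nd (nat_lit 61854) (PT.lf (nat_lit 12768) (nat_lit 6) (nat_lit 168) (nat_lit 1) (nat_lit 221) (nat_lit 165) (nat_lit 214)) (PT.nd (nat_lit 78) (PT.lf (nat_lit 13072) (nat_lit 6) (nat_lit 172) (nat_lit 3) (nat_lit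 213) (nat_lit 166) (nat_lit 221)) (PT.lf (nat_lit 13148) (nat_lit 6) (nat_lit 173) (nat_lit 3) (nat_lit 214) (nat_lit 166) (nat_lit 220))))))))
noncomputable def pc8 : PT := (PT.nd (nat_lit 124800) (PT.nd (nat_lit 62400) (PT.nd (nat_lit 312) (PT.nd (nat_lit 156) (PT.nd (nat_lit 78) (PT.lf (nat_lit 13224) (nat_lit 6) (nat_lit 174) (nat_lit 3) (nat_lit 215) (nat_lit 166) (nat_lit 219)) (PT.lf (nat_lit 13300) (nat_lit 6) (nat_lit 175) (nat_lit 3) (nat_lit 216) (nat_lit 166) (nat_lit 218))) (PT.nd (nat_lit 78) (PT.lf (nat_lit 13376) (nat_lit 3) (nat_lit 176) (nat_lit 1) (nat_lit 217) (nat_lit 166) (nat_lit 217)) (PT.lf (nat_lit 13300) (nat_lit 6) (nat_lit 175) (nat_lit 1) (nat_lit 218) (nat_lit 166) (nat_lit 216)))) (PT.nd (nat_lit 156) (PT.nd (nat_lit 78) (PT.lf (nat_lit 13224) (nat_lit 6) (nat_lit 174) (nat_lit 1) (nat_lit 219) (nat_lit 166) (nat_lit 215)) (PT.lf (nat_lit 13148) (nat_lit 6) (nat_lit 173) (nat_lit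 1) (nat_lit 220) (nat_lit 166) (nat_lit 214))) (PT.nd (nat_lit 61776) (PT.lf (nat_lit 13072) (nat_lit 6) (nat_lit 172) (nat_lit 1) (nat_lit 221) (nat_lit 166) (nat_lit 213)) (PT.nd (nat_lit 78) (PT.lf (nat_lit 13452) (nat_lit 6) (nat_lit 177) (nat_lit 3) (nat_lit 212) (nat_lit 167) (nat_lit 221)) (PT.lf (nat_lit 13528) (nat_lit 6) (nat_lit 178) (nat_lit 3) (nat_lit 213) (nat_lit 167) (nat_lit 220)))))) (PT.nd (nat_lit 312) (PT.nd (nat_lit 156) (PT.nd (nat_lit 78) (PT.lf (nat_lit 13604) (nat_lit 6) (nat_lit 179) (nat_lit 3) (nat_lit 214) (nat_lit 167) (nat_lit 219)) (PT.lf (nat_lit 13680) (nat_lit 6) (nat_lit 180) (nat_lit 3) (nat_lit 215) (nat_lit 167) (nat_lit 218))) (PT.nd (nat_lit 78) (PT.lf (nat_lit 13756) (nat_lit 6) (nat_lit 181) (nat_lit 3) (nat_lit 216) (nat_lit 167) (nat_lit 217)) (PT.lf (nat_lit 13756) (nat_lit 6) (nat_lit 181) (nat_lit 1) (nat_lit 217) (nat_lit 167) (nat_lit 216)))) (PT.nd (nat_lit 156)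 (PT.nd (nat_lit 78) (PT.lf (nat_lit 13680) (nat_lit 6) (nat_lit 180) (nat_lit 1) (nat_lit 218) (nat_lit 167) (nat_lit 215)) (PT.lf (nat_lit 13604) (nat_lit 6) (nat_lit 179) (nat_lit 1) (nat_lit 219) (nat_lit 167) (nat_lit 214))) (PT.nd (nat_lit 78) (PT.lf (nat_lit 13528) (nat_lit 6) (nat_lit 178) (nat_lit 1) (nat_lit 220) (nat_lit 167) (nat_lit 213)) (PT.nd (nat_lit 61776) (PT.lf (nat_lit 13452) (nat_lit 6) (nat_lit 177) (nat_lit 1) (nat_lit 221) (nat_lit 167) (nat_lit 212)) (PT.lf (nat_lit 13832) (nat_lit 6) (nat_lit 182) (nat_lit 3) (nat_lit 212) (nat_lit 168) (nat_lit 220))))))) (PT.nd (nat_lit 62400) (PT.nd (nat_lit 312) (PT.nd (nat_lit 156) (PT.nd (nat_lit 78) (PT.lf (nat_lit 13908) (nat_lit 6) (nat_lit 183) (nat_lit 3) (nat_lit 213) (nat_lit 168) (nat_lit 219)) (PT.lf (nat_lit 13984) (nat_lit 6) (nat_lit 184) (nat_lit 3) (nat_lit 214) (nat_lit 168) (nat_lit 218))) (PT.nd (nat_lit 78) (PT.lf (nat_lit 14060)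 (nat_lit 6) (nat_lit 185) (nat_lit 3) (nat_lit 215) (nat_lit 168) (nat_lit 217)) (PT.lf (nat_lit 14136) (nat_lit 3) (nat_lit 186) (nat_lit 1) (nat_lit 216) (nat_lit 168) (nat_lit 216)))) (PT.nd (nat_lit 156) (PT.nd (nat_lit 78) (PT.lf (nat_lit 14060) (nat_lit 6) (nat_lit 185) (nat_lit 1) (nat_lit 217) (nat_lit 168) (nat_lit 215)) (PT.lf (nat_lit 13984) (nat_lit 6) (nat_lit 184) (nat_lit 1) (nat_lit 218) (nat_lit 168) (nat_lit 214))) (PT.nd (nat_lit 78) (PT.lf (nat_lit 13908) (nat_lit 6) (nat_lit 183) (nat_lit 1) (nat_lit 219) (nat_lit 168) (nat_lit 213)) (PT.nd (nat_lit 61776) (PT.lf (nat_lit 13832) (nat_lit 6) (nat_lit 182) (nat_lit 1) (nat_lit 220) (nat_lit 168) (nat_lit 212)) (PT.lf (nat_lit 14212) (nat_lit 6) (nat_lit 187) (nat_lit 3) (nat_lit 211) (nat_lit 169) (nat_lit 220)))))) (PT.nd (nat_lit 390) (PT.nd (nat_lit 156) (PT.nd (nat_lit 78) (PT.lf (nat_lit 14288) (nat_lit 6) (nat_lit 188) (nat_lit 3) (nat_lit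 212) (nat_lit 169) (nat_lit 219)) (PT.lf (nat_lit 14364) (nat_lit 6) (nat_lit 189) (nat_lit 3) (nat_lit 213) (nat_lit 169) (nat_lit 218))) (PT.nd (nat_lit 78) (PT.lf (nat_lit 14440) (nat_lit 6) (nat_lit 190) (nat_lit 3) (nat_lit 214) (nat_lit 169) (nat_lit 217)) (PT.nd (nat_lit 78) (PT.lf (nat_lit 14516) (nat_lit 6) (nat_lit 191) (nat_lit 3) (nat_lit 215) (nat_lit 169) (nat_lit 216)) (PT.lf (nat_lit 14516) (nat_lit 6) (nat_lit 191) (nat_lit 1) (nat_lit 216) (nat_lit 169) (nat_lit 215))))) (PT.nd (nat_lit 156) (PT.nd (nat_lit 78) (PT.lf (nat_lit 14440) (nat_lit 6) (nat_lit 190) (nat_lit 1) (nat_lit 217) (nat_lit 169) (nat_lit 214)) (PT.lf (nat_lit 14364) (nat_lit 6) (nat_lit 189) (nat_lit 1) (nat_lit 218) (nat_lit 169) (nat_lit 213))) (PT.nd (nat_lit 78) (PT.lf (nat_lit 14288) (nat_lit 6) (nat_lit 188) (nat_lit 1) (nat_lit 219) (nat_lit 169) (nat_lit 212)) (PT.nd (nat_lit 61698) (PT.lf (nat_lit 14212) (nat_lit 6)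 (nat_lit 187) (nat_lit 1) (nat_lit 220) (nat_lit 169) (nat_lit 211)) (PT.lf (nat_lit 14592) (nat_lit 6) (nat_lit 192) (nat_lit 3) (nat_lit 210) (nat_lit 170) (nat_lit 220))))))))
noncomputable def pc9 : PT := (PT.nd (nat_lit 63024) (PT.nd (nat_lit 702) (PT.nd (nat_lit 312) (PT.nd (nat_lit 156) (PT.nd (nat_lit 78) (PT.lf (nat_lit 14668) (nat_lit 6) (nat_lit 193) (nat_lit 3) (nat_lit 211) (nat_lit 170) (nat_lit 219)) (PT.lf (nat_lit 14744) (nat_lit 6) (nat_lit 194) (nat_lit 3) (nat_lit 212) (nat_lit 170) (nat_lit 218))) (PT.nd (nat_lit 78) (PT.lf (nat_lit 14820) (nat_lit 6) (nat_lit 195) (nat_lit 3) (nat_lit 213) (nat_lit 170) (nat_lit 217)) (PT.lf (nat_lit 14896) (nat_lit 6) (nat_lit 196) (nat_lit 3) (nat_lit 214) (nat_lit 170) (nat_lit 216)))) (PT.nd (nat_lit 156) (PT.nd (nat_lit 78) (PT.lf (nat_lit 14972) (nat_lit 3) (nat_lit 197) (nat_lit 1) (nat_lit 215) (nat_lit 170) (nat_lit 215)) (PT.lf (nat_lit 14896) (nat_lit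 6) (nat_lit 196) (nat_lit 1) (nat_lit 216) (nat_lit 170) (nat_lit 214))) (PT.nd (nat_lit 78) (PT.lf (nat_lit 14820) (nat_lit 6) (nat_lit 195) (nat_lit 1) (nat_lit 217) (nat_lit 170) (nat_lit 213)) (PT.nd (nat_lit 78) (PT.lf (nat_lit 14744) (nat_lit 6) (nat_lit 194) (nat_lit 1) (nat_lit 218) (nat_lit 170) (nat_lit 212)) (PT.lf (nat_lit 14668) (nat_lit 6) (nat_lit 193) (nat_lit 1) (nat_lit 219) (nat_lit 170) (nat_lit 211)))))) (PT.nd (nat_lit 61932) (PT.nd (nat_lit 61698) (PT.nd (nat_lit 61620) (PT.lf (nat_lit 14592) (nat_lit 6) (nat_lit 192) (nat_lit 1) (nat_lit 220) (nat_lit 170) (nat_lit 210)) (PT.lf (nat_lit 15048) (nat_lit 6) (nat_lit 198) (nat_lit 3) (nat_lit 209) (nat_lit 171) (nat_lit 220))) (PT.nd (nat_lit 78) (PT.lf (nat_lit 15124) (nat_lit 6) (nat_lit 199) (nat_lit 3) (nat_lit 210) (nat_lit 171) (nat_lit 219)) (PT.nd (nat_lit 78) (PT.lf (nat_lit 15200) (nat_lit 6) (nat_lit 200) (nat_lit 3) (nat_lit 211)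 (nat_lit 171) (nat_lit 218)) (PT.lf (nat_lit 15276) (nat_lit 6) (nat_lit 201) (nat_lit 3) (nat_lit 212) (nat_lit 171) (nat_lit 217))))) (PT.nd (nat_lit 156) (PT.nd (nat_lit 78) (PT.lf (nat_lit 15352) (nat_lit 6) (nat_lit 202) (nat_lit 3) (nat_lit 213) (nat_lit 171) (nat_lit 216)) (PT.lf (nat_lit 15428) (nat_lit 6) (nat_lit 203) (nat_lit 3) (nat_lit 214) (nat_lit 171) (nat_lit 215))) (PT.nd (nat_lit 78) (PT.lf (nat_lit 15428) (nat_lit 6) (nat_lit 203) (nat_lit 1) (nat_lit 215) (nat_lit 171) (nat_lit 214)) (PT.nd (nat_lit 78) (PT.lf (nat_lit 15352) (nat_lit 6) (nat_lit 202) (nat_lit 1) (nat_lit 216) (nat_lit 171) (nat_lit 213)) (PT.lf (nat_lit 15276) (nat_lit 6) (nat_lit 201) (nat_lit 1) (nat_lit 217) (nat_lit 171) (nat_lit 212))))))) (PT.nd (nat_lit 62244) (PT.nd (nat_lit 61854) (PT.nd (nat_lit 156) (PT.nd (nat_lit 78) (PT.lf (nat_lit 15200) (nat_lit 6) (nat_lit 200) (nat_lit 1) (nat_lit 218) (nat_lit 171) (nat_lit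 211)) (PT.lf (nat_lit 15124) (nat_lit 6) (nat_lit 199) (nat_lit 1) (nat_lit 219) (nat_lit 171) (nat_lit 210))) (PT.nd (nat_lit 61620) (PT.lf (nat_lit 15048) (nat_lit 6) (nat_lit 198) (nat_lit 1) (nat_lit 220) (nat_lit 171) (nat_lit 209)) (PT.lf (nat_lit 15504) (nat_lit 6) (nat_lit 204) (nat_lit 3) (nat_lit 209) (nat_lit 172) (nat_lit 219)))) (PT.nd (nat_lit 156) (PT.nd (nat_lit 78) (PT.lf (nat_lit 15580) (nat_lit 6) (nat_lit 205) (nat_lit 3) (nat_lit 210) (nat_lit 172) (nat_lit 218)) (PT.lf (nat_lit 15656) (nat_lit 6) (nat_lit 206) (nat_lit 3) (nat_lit 211) (nat_lit 172) (nat_lit 217))) (PT.nd (nat_lit 78) (PT.lf (nat_lit 15732) (nat_lit 6) (nat_lit 207) (nat_lit 3) (nat_lit 212) (nat_lit 172) (nat_lit 216)) (PT.nd (nat_lit 78) (PT.lf (nat_lit 15808) (nat_lit 6) (nat_lit 208) (nat_lit 3) (nat_lit 213) (nat_lit 172) (nat_lit 215)) (PT.lf (nat_lit 15884) (nat_lit 3) (nat_lit 209) (nat_lit 1) (nat_lit 214) (nat_lit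 172) (nat_lit 214)))))) (PT.nd (nat_lit 61932) (PT.nd (nat_lit 156) (PT.nd (nat_lit 78) (PT.lf (nat_lit 15808) (nat_lit 6) (nat_lit 208) (nat_lit 1) (nat_lit 215) (nat_lit 172) (nat_lit 213)) (PT.lf (nat_lit 15732) (nat_lit 6) (nat_lit 207) (nat_lit 1) (nat_lit 216) (nat_lit 172) (nat_lit 212))) (PT.nd (nat_lit 78) (PT.lf (nat_lit 15656) (nat_lit 6) (nat_lit 206) (nat_lit 1) (nat_lit 217) (nat_lit 172) (nat_lit 211)) (PT.nd (nat_lit 78) (PT.lf (nat_lit 15580) (nat_lit 6) (nat_lit 205) (nat_lit 1) (nat_lit 218) (nat_lit 172) (nat_lit 210)) (PT.lf (nat_lit 15504) (nat_lit 6) (nat_lit 204) (nat_lit 1) (nat_lit 219) (nat_lit 172) (nat_lit 209))))) (PT.nd (nat_lit 156) (PT.nd (nat_lit 78) (PT.lf (nat_lit 15960) (nat_lit 6) (nat_lit 210) (nat_lit 3) (nat_lit 208) (nat_lit 173) (nat_lit 219)) (PT.lf (nat_lit 16036) (nat_lit 6) (nat_lit 211) (nat_lit 3) (nat_lit 209) (nat_lit 173) (nat_lit 218))) (PT.nd (nat_lit 78) (PT.lf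 (nat_lit 16112) (nat_lit 6) (nat_lit 212) (nat_lit 3) (nat_lit 210) (nat_lit 173) (nat_lit 217)) (PT.nd (nat_lit 78) (PT.lf (nat_lit 16188) (nat_lit 6) (nat_lit 213) (nat_lit 3) (nat_lit 211) (nat_lit 173) (nat_lit 216)) (PT.lf (nat_lit 16264) (nat_lit 6) (nat_lit 214) (nat_lit 3) (nat_lit 212) (nat_lit 173) (nat_lit 215))))))))
noncomputable def pc10 : PT := (PT.nd (nat_lit 62946) (PT.nd (nat_lit 62166) (PT.nd (nat_lit 312) (PT.nd (nat_lit 156) (PT.nd (nat_lit 78) (PT.lf (nat_lit 16340) (nat_lit 6) (nat_lit 215) (nat_lit 3) (nat_lit 213) (nat_lit 173) (nat_lit 214)) (PT.lf (nat_lit 16340) (nat_lit 6) (nat_lit 215) (nat_lit 1) (nat_lit 214) (nat_lit 173) (nat_lit 213))) (PT.nd (nat_lit 78) (PT.lf (nat_lit 16264) (nat_lit 6) (nat_lit 214) (nat_lit 1) (nat_lit 215) (nat_lit 173) (nat_lit 212)) (PT.lf (nat_lit 16188) (nat_lit 6) (nat_lit 213) (nat_lit 1) (nat_lit 216) (nat_lit 173) (nat_lit 211)))) (PT.nd (nat_lit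 156) (PT.nd (nat_lit 78) (PT.lf (nat_lit 16112) (nat_lit 6) (nat_lit 212) (nat_lit 1) (nat_lit 217) (nat_lit 173) (nat_lit 210)) (PT.lf (nat_lit 16036) (nat_lit 6) (nat_lit 211) (nat_lit 1) (nat_lit 218) (nat_lit 173) (nat_lit 209))) (PT.nd (nat_lit 61542) (PT.lf (nat_lit 15960) (nat_lit 6) (nat_lit 210) (nat_lit 1) (nat_lit 219) (nat_lit 173) (nat_lit 208)) (PT.nd (nat_lit 78) (PT.lf (nat_lit 16416) (nat_lit 6) (nat_lit 216) (nat_lit 3) (nat_lit 207) (nat_lit 174) (nat_lit 219)) (PT.lf (nat_lit 16492) (nat_lit 6) (nat_lit 217) (nat_lit 3) (nat_lit 208) (nat_lit 174) (nat_lit 218)))))) (PT.nd (nat_lit 390) (PT.nd (nat_lit 156) (PT.nd (nat_lit 78) (PT.lf (nat_lit 16568) (nat_lit 6) (nat_lit 218) (nat_lit 3) (nat_lit 209) (nat_lit 174) (nat_lit 217)) (PT.lf (nat_lit 16644) (nat_lit 6) (nat_lit 219) (nat_lit 3) (nat_lit 210) (nat_lit 174) (nat_lit 216))) (PT.nd (nat_lit 78) (PT.lf (nat_lit 16720) (nat_lit 6) (nat_lit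 220) (nat_lit 3) (nat_lit 211) (nat_lit 174) (nat_lit 215)) (PT.nd (nat_lit 78) (PT.lf (nat_lit 16796) (nat_lit 6) (nat_lit 221) (nat_lit 3) (nat_lit 212) (nat_lit 174) (nat_lit 214)) (PT.lf (nat_lit 16872) (nat_lit 3) (nat_lit 222) (nat_lit 1) (nat_lit 213) (nat_lit 174) (nat_lit 213))))) (PT.nd (nat_lit 156) (PT.nd (nat_lit 78) (PT.lf (nat_lit 16796) (nat_lit 6) (nat_lit 221) (nat_lit 1) (nat_lit 214) (nat_lit 174) (nat_lit 212)) (PT.lf (nat_lit 16720) (nat_lit 6) (nat_lit 220) (nat_lit 1) (nat_lit 215) (nat_lit 174) (nat_lit 211))) (PT.nd (nat_lit 78) (PT.lf (nat_lit 16644) (nat_lit 6) (nat_lit 219) (nat_lit 1) (nat_lit 216) (nat_lit 174) (nat_lit 210)) (PT.nd (nat_lit 78) (PT.lf (nat_lit 16568) (nat_lit 6) (nat_lit 218) (nat_lit 1) (nat_lit 217) (nat_lit 174) (nat_lit 209)) (PT.lf (nat_lit 16492) (nat_lit 6) (nat_lit 217) (nat_lit 1) (nat_lit 218) (nat_lit 174) (nat_lit 208))))))) (PT.nd (nat_lit 62166) (PT.nd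 (nat_lit 61776) (PT.nd (nat_lit 61620) (PT.nd (nat_lit 61542) (PT.lf (nat_lit 16416) (nat_lit 6) (nat_lit 216) (nat_lit 1) (nat_lit 219) (nat_lit 174) (nat_lit 207)) (PT.lf (nat_lit 16948) (nat_lit 6) (nat_lit 223) (nat_lit 3) (nat_lit 207) (nat_lit 175) (nat_lit 218))) (PT.nd (nat_lit 78) (PT.lf (nat_lit 17024) (nat_lit 6) (nat_lit 224) (nat_lit 3) (nat_lit 208) (nat_lit 175) (nat_lit 217)) (PT.lf (nat_lit 17100) (nat_lit 6) (nat_lit 225) (nat_lit 3) (nat_lit 209) (nat_lit 175) (nat_lit 216)))) (PT.nd (nat_lit 156) (PT.nd (nat_lit 78) (PT.lf (nat_lit 17176) (nat_lit 6) (nat_lit 226) (nat_lit 3) (nat_lit 210) (nat_lit 175) (nat_lit 215)) (PT.lf (nat_lit 17252) (nat_lit 6) (nat_lit 227) (nat_lit 3) (nat_lit 211) (nat_lit 175) (nat_lit 214))) (PT.nd (nat_lit 78) (PT.lf (nat_lit 17328) (nat_lit 6) (nat_lit 228) (nat_lit 3) (nat_lit 212) (nat_lit 175) (nat_lit 213)) (PT.nd (nat_lit 78) (PT.lf (nat_lit 17328) (nat_lit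 6) (nat_lit 228) (nat_lit 1) (nat_lit 213) (nat_lit 175) (nat_lit 212)) (PT.lf (nat_lit 17252) (nat_lit 6) (nat_lit 227) (nat_lit 1) (nat_lit 214) (nat_lit 175) (nat_lit 211)))))) (PT.nd (nat_lit 61854) (PT.nd (nat_lit 156) (PT.nd (nat_lit 78) (PT.lf (nat_lit 17176) (nat_lit 6) (nat_lit 226) (nat_lit 1) (nat_lit 215) (nat_lit 175) (nat_lit 210)) (PT.lf (nat_lit 17100) (nat_lit 6) (nat_lit 225) (nat_lit 1) (nat_lit 216) (nat_lit 175) (nat_lit 209))) (PT.nd (nat_lit 78) (PT.lf (nat_lit 17024) (nat_lit 6) (nat_lit 224) (nat_lit 1) (nat_lit 217) (nat_lit 175) (nat_lit 208)) (PT.nd (nat_lit 61542) (PT.lf (nat_lit 16948) (nat_lit 6) (nat_lit 223) (nat_lit 1) (nat_lit 218) (nat_lit 175) (nat_lit 207)) (PT.lf (nat_lit 17404) (nat_lit 6) (nat_lit 229) (nat_lit 3) (nat_lit 206) (nat_lit 176) (nat_lit 218))))) (PT.nd (nat_lit 156) (PT.nd (nat_lit 78) (PT.lf (nat_lit 17480) (nat_lit 6) (nat_lit 230) (nat_lit 3) (nat_lit 207)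 (nat_lit 176) (nat_lit 217)) (PT.lf (nat_lit 17556) (nat_lit 6) (nat_lit 231) (nat_lit 3) (nat_lit 208) (nat_lit 176) (nat_lit 216))) (PT.nd (nat_lit 78) (PT.lf (nat_lit 17632) (nat_lit 6) (nat_lit 232) (nat_lit 3) (nat_lit 209) (nat_lit 176) (nat_lit 215)) (PT.nd (nat_lit 78) (PT.lf (nat_lit 17708) (nat_lit 6) (nat_lit 233) (nat_lit 3) (nat_lit 210) (nat_lit 176) (nat_lit 214)) (PT.lf (nat_lit 17784) (nat_lit 6) (nat_lit 234) (nat_lit 3) (nat_lit 211) (nat_lit 176) (nat_lit 213))))))))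
noncomputable def pc11 : PT := (PT.nd (nat_lit 62868) (PT.nd (nat_lit 62088) (PT.nd (nat_lit 312) (PT.nd (nat_lit 156) (PT.nd (nat_lit 78) (PT.lf (nat_lit 17860) (nat_lit 3) (nat_lit 235) (nat_lit 1) (nat_lit 212) (nat_lit 176) (nat_lit 212)) (PT.lf (nat_lit 17784) (nat_lit 6) (nat_lit 234) (nat_lit 1) (nat_lit 213) (nat_lit 176) (nat_lit 211))) (PT.nd (nat_lit 78) (PT.lf (nat_lit 17708) (nat_lit 6) (nat_lit 233) (nat_lit 1) (nat_lit 214) (nat_lit 176) (nat_lit 210)) (PT.lf (nat_lit 17632) (nat_lit 6) (nat_lit 232) (nat_lit 1) (nat_lit 215) (nat_lit 176) (nat_lit 209)))) (PT.nd (nat_lit 156) (PT.nd (nat_lit 78) (PT.lf (nat_lit 17556) (nat_lit 6) (nat_lit 231) (nat_lit 1) (nat_lit 216) (nat_lit 176) (nat_lit 208)) (PT.lf (nat_lit 17480) (nat_lit 6) (nat_lit 230) (nat_lit 1) (nat_lit 217) (nat_lit 176) (nat_lit 207))) (PT.nd (nat_lit 61464) (PT.lf (nat_lit 17404) (nat_lit 6) (nat_lit 229) (nat_lit 1) (nat_lit 218)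 (nat_lit 176) (nat_lit 206)) (PT.nd (nat_lit 78) (PT.lf (nat_lit 17936) (nat_lit 6) (nat_lit 236) (nat_lit 3) (nat_lit 205) (nat_lit 177) (nat_lit 218)) (PT.lf (nat_lit 18012) (nat_lit 6) (nat_lit 237) (nat_lit 3) (nat_lit 206) (nat_lit 177) (nat_lit 217)))))) (PT.nd (nat_lit 390) (PT.nd (nat_lit 156) (PT.nd (nat_lit 78) (PT.lf (nat_lit 18088) (nat_lit 6) (nat_lit 238) (nat_lit 3) (nat_lit 207) (nat_lit 177) (nat_lit 216)) (PT.lf (nat_lit 18164) (nat_lit 6) (nat_lit 239) (nat_lit 3) (nat_lit 208) (nat_lit 177) (nat_lit 215))) (PT.nd (nat_lit 78) (PT.lf (nat_lit 18240) (nat_lit 6) (nat_lit 240) (nat_lit 3) (nat_lit 209) (nat_lit 177) (nat_lit 214)) (PT.nd (nat_lit 78) (PT.lf (nat_lit 18316) (nat_lit 6) (nat_lit 241) (nat_lit 3) (nat_lit 210) (nat_lit 177) (nat_lit 213)) (PT.lf (nat_lit 18392) (nat_lit 6) (nat_lit 242) (nat_lit 3) (nat_lit 211) (nat_lit 177) (nat_lit 212))))) (PT.nd (nat_lit 156) (PT.nd (nat_lit 78)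 (PT.lf (nat_lit 18392) (nat_lit 6) (nat_lit 242) (nat_lit 1) (nat_lit 212) (nat_lit 177) (nat_lit 211)) (PT.lf (nat_lit 18316) (nat_lit 6) (nat_lit 241) (nat_lit 1) (nat_lit 213) (nat_lit 177) (nat_lit 210))) (PT.nd (nat_lit 78) (PT.lf (nat_lit 18240) (nat_lit 6) (nat_lit 240) (nat_lit 1) (nat_lit 214) (nat_lit 177) (nat_lit 209)) (PT.nd (nat_lit 78) (PT.lf (nat_lit 18164) (nat_lit 6) (nat_lit 239) (nat_lit 1) (nat_lit 215) (nat_lit 177) (nat_lit 208)) (PT.lf (nat_lit 18088) (nat_lit 6) (nat_lit 238) (nat_lit 1) (nat_lit 216) (nat_lit 177) (nat_lit 207))))))) (PT.nd (nat_lit 62010) (PT.nd (nat_lit 61620) (PT.nd (nat_lit 61464) (PT.nd (nat_lit 78) (PT.lf (nat_lit 18012) (nat_lit 6) (nat_lit 237) (nat_lit 1) (nat_lit 217) (nat_lit 177) (nat_lit 206)) (PT.lf (nat_lit 17936) (nat_lit 6) (nat_lit 236) (nat_lit 1) (nat_lit 218) (nat_lit 177) (nat_lit 205))) (PT.nd (nat_lit 78) (PT.lf (nat_lit 18468) (nat_lit 6) (nat_lit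 243) (nat_lit 3) (nat_lit 204) (nat_lit 178) (nat_lit 218)) (PT.lf (nat_lit 18544) (nat_lit 6) (nat_lit 244) (nat_lit 3) (nat_lit 205) (nat_lit 178) (nat_lit 217)))) (PT.nd (nat_lit 156) (PT.nd (nat_lit 78) (PT.lf (nat_lit 18620) (nat_lit 6) (nat_lit 245) (nat_lit 3) (nat_lit 206) (nat_lit 178) (nat_lit 216)) (PT.lf (nat_lit 18696) (nat_lit 6) (nat_lit 246) (nat_lit 3) (nat_lit 207) (nat_lit 178) (nat_lit 215))) (PT.nd (nat_lit 78) (PT.lf (nat_lit 18772) (nat_lit 6) (nat_lit 247) (nat_lit 3) (nat_lit 208) (nat_lit 178) (nat_lit 214)) (PT.nd (nat_lit 78) (PT.lf (nat_lit 18848) (nat_lit 6) (nat_lit 248) (nat_lit 3) (nat_lit 209) (nat_lit 178) (nat_lit 213)) (PT.lf (nat_lit 18924) (nat_lit 6) (nat_lit 249) (nat_lit 3) (nat_lit 210) (nat_lit 178) (nat_lit 212)))))) (PT.nd (nat_lit 390) (PT.nd (nat_lit 156) (PT.nd (nat_lit 78) (PT.lf (nat_lit 19000) (nat_lit 3) (nat_lit 250) (nat_lit 1) (nat_lit 211) (nat_lit 178) (nat_lit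 211)) (PT.lf (nat_lit 18924) (nat_lit 6) (nat_lit 249) (nat_lit 1) (nat_lit 212) (nat_lit 178) (nat_lit 210))) (PT.nd (nat_lit 78) (PT.lf (nat_lit 18848) (nat_lit 6) (nat_lit 248) (nat_lit 1) (nat_lit 213) (nat_lit 178) (nat_lit 209)) (PT.nd (nat_lit 78) (PT.lf (nat_lit 18772) (nat_lit 6) (nat_lit 247) (nat_lit 1) (nat_lit 214) (nat_lit 178) (nat_lit 208)) (PT.lf (nat_lit 18696) (nat_lit 6) (nat_lit 246) (nat_lit 1) (nat_lit 215) (nat_lit 178) (nat_lit 207))))) (PT.nd (nat_lit 156) (PT.nd (nat_lit 78) (PT.lf (nat_lit 18620) (nat_lit 6) (nat_lit 245) (nat_lit 1) (nat_lit 216) (nat_lit 178) (nat_lit 206)) (PT.lf (nat_lit 18544) (nat_lit 6) (nat_lit 244) (nat_lit 1) (nat_lit 217) (nat_lit 178) (nat_lit 205))) (PT.nd (nat_lit 61386) (PT.lf (nat_lit 18468) (nat_lit 6) (nat_lit 243) (nat_lit 1) (nat_lit 218) (nat_lit 178) (nat_lit 204)) (PT.nd (nat_lit 78) (PT.lf (nat_lit 19076) (nat_lit 6) (nat_lit 251) (nat_lit 3) (nat_lit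 204) (nat_lit 179) (nat_lit 217)) (PT.lf (nat_lit 19152) (nat_lit 6) (nat_lit 252) (nat_lit 3) (nat_lit 205) (nat_lit 179) (nat_lit 216))))))))
noncomputable def pc12 : PT := (PT.nd (nat_lit 62712) (PT.nd (nat_lit 702) (PT.nd (nat_lit 312) (PT.nd (nat_lit 156) (PT.nd (nat_lit 78) (PT.lf (nat_lit 19228) (nat_lit 6) (nat_lit 253) (nat_lit 3) (nat_lit 206) (nat_lit 179) (nat_lit 215)) (PT.lf (nat_lit 19304) (nat_lit 6) (nat_lit 254) (nat_lit 3) (nat_lit 207) (nat_lit 179) (nat_lit 214))) (PT.nd (nat_lit 78) (PT.lf (nat_lit 19380) (nat_lit 6) (nat_lit 255) (nat_lit 3) (nat_lit 208) (nat_lit 179) (nat_lit 213)) (PT.lf (nat_lit 19456) (nat_lit 6) (nat_lit 256) (nat_lit 3) (nat_lit 209) (nat_lit 179) (nat_lit 212)))) (PT.nd (nat_lit 156) (PT.nd (nat_lit 78) (PT.lf (nat_lit 19532) (nat_lit 6) (nat_lit 257) (nat_lit 3) (nat_lit 210) (nat_lit 179) (nat_lit 211)) (PT.lf (nat_lit 19532) (nat_lit 6) (nat_lit 257) (nat_lit 1)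 (nat_lit 211) (nat_lit 179) (nat_lit 210))) (PT.nd (nat_lit 78) (PT.lf (nat_lit 19456) (nat_lit 6) (nat_lit 256) (nat_lit 1) (nat_lit 212) (nat_lit 179) (nat_lit 209)) (PT.nd (nat_lit 78) (PT.lf (nat_lit 19380) (nat_lit 6) (nat_lit 255) (nat_lit 1) (nat_lit 213) (nat_lit 179) (nat_lit 208)) (PT.lf (nat_lit 19304) (nat_lit 6) (nat_lit 254) (nat_lit 1) (nat_lit 214) (nat_lit 179) (nat_lit 207)))))) (PT.nd (nat_lit 61620) (PT.nd (nat_lit 156) (PT.nd (nat_lit 78) (PT.lf (nat_lit 19228) (nat_lit 6) (nat_lit 253) (nat_lit 1) (nat_lit 215) (nat_lit 179) (nat_lit 206)) (PT.lf (nat_lit 19152) (nat_lit 6) (nat_lit 252) (nat_lit 1) (nat_lit 216) (nat_lit 179) (nat_lit 205))) (PT.nd (nat_lit 61386) (PT.lf (nat_lit 19076) (nat_lit 6) (nat_lit 251) (nat_lit 1) (nat_lit 217) (nat_lit 179) (nat_lit 204)) (PT.lf (nat_lit 19608) (nat_lit 6) (nat_lit 258) (nat_lit 3) (nat_lit 203) (nat_lit 180) (nat_lit 217)))) (PT.nd (nat_lit 156)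 (PT.nd (nat_lit 78) (PT.lf (nat_lit 19684) (nat_lit 6) (nat_lit 259) (nat_lit 3) (nat_lit 204) (nat_lit 180) (nat_lit 216)) (PT.lf (nat_lit 19760) (nat_lit 6) (nat_lit 260) (nat_lit 3) (nat_lit 205) (nat_lit 180) (nat_lit 215))) (PT.nd (nat_lit 78) (PT.lf (nat_lit 19836) (nat_lit 6) (nat_lit 261) (nat_lit 3) (nat_lit 206) (nat_lit 180) (nat_lit 214)) (PT.nd (nat_lit 78) (PT.lf (nat_lit 19912) (nat_lit 6) (nat_lit 262) (nat_lit 3) (nat_lit 207) (nat_lit 180) (nat_lit 213)) (PT.lf (nat_lit 19988) (nat_lit 6) (nat_lit 263) (nat_lit 3) (nat_lit 208) (nat_lit 180) (nat_lit 212))))))) (PT.nd (nat_lit 61932) (PT.nd (nat_lit 312) (PT.nd (nat_lit 156) (PT.nd (nat_lit 78) (PT.lf (nat_lit 20064) (nat_lit 6) (nat_lit 264) (nat_lit 3) (nat_lit 209) (nat_lit 180) (nat_lit 211)) (PT.lf (nat_lit 20140) (nat_lit 3) (nat_lit 265) (nat_lit 1) (nat_lit 210) (nat_lit 180) (nat_lit 210))) (PT.nd (nat_lit 78) (PT.lf (nat_lit 20064) (nat_lit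 6) (nat_lit 264) (nat_lit 1) (nat_lit 211) (nat_lit 180) (nat_lit 209)) (PT.lf (nat_lit 19988) (nat_lit 6) (nat_lit 263) (nat_lit 1) (nat_lit 212) (nat_lit 180) (nat_lit 208)))) (PT.nd (nat_lit 156) (PT.nd (nat_lit 78) (PT.lf (nat_lit 19912) (nat_lit 6) (nat_lit 262) (nat_lit 1) (nat_lit 213) (nat_lit 180) (nat_lit 207)) (PT.lf (nat_lit 19836) (nat_lit 6) (nat_lit 261) (nat_lit 1) (nat_lit 214) (nat_lit 180) (nat_lit 206))) (PT.nd (nat_lit 78) (PT.lf (nat_lit 19760) (nat_lit 6) (nat_lit 260) (nat_lit 1) (nat_lit 215) (nat_lit 180) (nat_lit 205)) (PT.nd (nat_lit 78) (PT.lf (nat_lit 19684) (nat_lit 6) (nat_lit 259) (nat_lit 1) (nat_lit 216) (nat_lit 180) (nat_lit 204)) (PT.lf (nat_lit 19608) (nat_lit 6) (nat_lit 258) (nat_lit 1) (nat_lit 217) (nat_lit 180) (nat_lit 203)))))) (PT.nd (nat_lit 390) (PT.nd (nat_lit 156) (PT.nd (nat_lit 78) (PT.lf (nat_lit 20216) (nat_lit 6) (nat_lit 266) (nat_lit 3) (nat_lit 202) (nat_lit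 181) (nat_lit 217)) (PT.lf (nat_lit 20292) (nat_lit 6) (nat_lit 267) (nat_lit 3) (nat_lit 203) (nat_lit 181) (nat_lit 216))) (PT.nd (nat_lit 78) (PT.lf (nat_lit 20368) (nat_lit 6) (nat_lit 268) (nat_lit 3) (nat_lit 204) (nat_lit 181) (nat_lit 215)) (PT.nd (nat_lit 78) (PT.lf (nat_lit 20444) (nat_lit 6) (nat_lit 269) (nat_lit 3) (nat_lit 205) (nat_lit 181) (nat_lit 214)) (PT.lf (nat_lit 20520) (nat_lit 6) (nat_lit 270) (nat_lit 3) (nat_lit 206) (nat_lit 181) (nat_lit 213))))) (PT.nd (nat_lit 156) (PT.nd (nat_lit 78) (PT.lf (nat_lit 20596) (nat_lit 6) (nat_lit 271) (nat_lit 3) (nat_lit 207) (nat_lit 181) (nat_lit 212)) (PT.lf (nat_lit 20672) (nat_lit 6) (nat_lit 272) (nat_lit 3) (nat_lit 208) (nat_lit 181) (nat_lit 211))) (PT.nd (nat_lit 78) (PT.lf (nat_lit 20748) (nat_lit 6) (nat_lit 273) (nat_lit 3) (nat_lit 209) (nat_lit 181) (nat_lit 210)) (PT.nd (nat_lit 78) (PT.lf (nat_lit 20748) (nat_lit 6) (nat_lit 273) (nat_lit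 1) (nat_lit 210) (nat_lit 181) (nat_lit 209)) (PT.lf (nat_lit 20672) (nat_lit 6) (nat_lit 272) (nat_lit 1) (nat_lit 211) (nat_lit 181) (nat_lit 208))))))))
noncomputable def pc13 : PT := (PT.nd (nat_lit 62634) (PT.nd (nat_lit 61854) (PT.nd (nat_lit 312) (PT.nd (nat_lit 156) (PT.nd (nat_lit 78) (PT.lf (nat_lit 20596) (nat_lit 6) (nat_lit 271) (nat_lit 1) (nat_lit 212) (nat_lit 181) (nat_lit 207)) (PT.lf (nat_lit 20520) (nat_lit 6) (nat_lit 270) (nat_lit 1) (nat_lit 213) (nat_lit 181) (nat_lit 206))) (PT.nd (nat_lit 78) (PT.lf (nat_lit 20444) (nat_lit 6) (nat_lit 269) (nat_lit 1) (nat_lit 214) (nat_lit 181) (nat_lit 205)) (PT.lf (nat_lit 20368) (nat_lit 6) (nat_lit 268) (nat_lit 1) (nat_lit 215) (nat_lit 181) (nat_lit 204)))) (PT.nd (nat_lit 61308) (PT.nd (nat_lit 78) (PT.lf (nat_lit 20292) (nat_lit 6) (nat_lit 267) (nat_lit 1) (nat_lit 216) (nat_lit 181) (nat_lit 203)) (PT.lf (nat_lit 20216) (nat_lit 6) (nat_lit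 266) (nat_lit 1) (nat_lit 217) (nat_lit 181) (nat_lit 202))) (PT.nd (nat_lit 78) (PT.lf (nat_lit 20824) (nat_lit 6) (nat_lit 274) (nat_lit 3) (nat_lit 201) (nat_lit 182) (nat_lit 217)) (PT.nd (nat_lit 78) (PT.lf (nat_lit 20900) (nat_lit 6) (nat_lit 275) (nat_lit 3) (nat_lit 202) (nat_lit 182) (nat_lit 216)) (PT.lf (nat_lit 20976) (nat_lit 6) (nat_lit 276) (nat_lit 3) (nat_lit 203) (nat_lit 182) (nat_lit 215)))))) (PT.nd (nat_lit 390) (PT.nd (nat_lit 156) (PT.nd (nat_lit 78) (PT.lf (nat_lit 21052) (nat_lit 6) (nat_lit 277) (nat_lit 3) (nat_lit 204) (nat_lit 182) (nat_lit 214)) (PT.lf (nat_lit 21128) (nat_lit 6) (nat_lit 278) (nat_lit 3) (nat_lit 205) (nat_lit 182) (nat_lit 213))) (PT.nd (nat_lit 78) (PT.lf (nat_lit 21204) (nat_lit 6) (nat_lit 279) (nat_lit 3) (nat_lit 206) (nat_lit 182) (nat_lit 212)) (PT.nd (nat_lit 78) (PT.lf (nat_lit 21280) (nat_lit 6) (nat_lit 280) (nat_lit 3) (nat_lit 207) (nat_lit 182) (nat_lit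 211)) (PT.lf (nat_lit 21356) (nat_lit 6) (nat_lit 281) (nat_lit 3) (nat_lit 208) (nat_lit 182) (nat_lit 210))))) (PT.nd (nat_lit 156) (PT.nd (nat_lit 78) (PT.lf (nat_lit 21432) (nat_lit 3) (nat_lit 282) (nat_lit 1) (nat_lit 209) (nat_lit 182) (nat_lit 209)) (PT.lf (nat_lit 21356) (nat_lit 6) (nat_lit 281) (nat_lit 1) (nat_lit 210) (nat_lit 182) (nat_lit 208))) (PT.nd (nat_lit 78) (PT.lf (nat_lit 21280) (nat_lit 6) (nat_lit 280) (nat_lit 1) (nat_lit 211) (nat_lit 182) (nat_lit 207)) (PT.nd (nat_lit 78) (PT.lf (nat_lit 21204) (nat_lit 6) (nat_lit 279) (nat_lit 1) (nat_lit 212) (nat_lit 182) (nat_lit 206)) (PT.lf (nat_lit 21128) (nat_lit 6) (nat_lit 278) (nat_lit 1) (nat_lit 213) (nat_lit 182) (nat_lit 205))))))) (PT.nd (nat_lit 61776) (PT.nd (nat_lit 61386) (PT.nd (nat_lit 156) (PT.nd (nat_lit 78) (PT.lf (nat_lit 21052) (nat_lit 6) (nat_lit 277) (nat_lit 1) (nat_lit 214) (nat_lit 182) (nat_lit 204)) (PT.lf (nat_lit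 20976) (nat_lit 6) (nat_lit 276) (nat_lit 1) (nat_lit 215) (nat_lit 182) (nat_lit 203))) (PT.nd (nat_lit 78) (PT.lf (nat_lit 20900) (nat_lit 6) (nat_lit 275) (nat_lit 1) (nat_lit 216) (nat_lit 182) (nat_lit 202)) (PT.lf (nat_lit 20824) (nat_lit 6) (nat_lit 274) (nat_lit 1) (nat_lit 217) (nat_lit 182) (nat_lit 201)))) (PT.nd (nat_lit 156) (PT.nd (nat_lit 78) (PT.lf (nat_lit 21584) (nat_lit 6) (nat_lit 284) (nat_lit 3) (nat_lit 200) (nat_lit 183) (nat_lit 217)) (PT.lf (nat_lit 21660) (nat_lit 6) (nat_lit 285) (nat_lit 3) (nat_lit 201) (nat_lit 183) (nat_lit 216))) (PT.nd (nat_lit 78) (PT.lf (nat_lit 21736) (nat_lit 6) (nat_lit 286) (nat_lit 3) (nat_lit 202) (nat_lit 183) (nat_lit 215)) (PT.nd (nat_lit 78) (PT.lf (nat_lit 21812) (nat_lit 6) (nat_lit 287) (nat_lit 3) (nat_lit 203) (nat_lit 183) (nat_lit 214)) (PT.lf (nat_lit 21888) (nat_lit 6) (nat_lit 288) (nat_lit 3) (nat_lit 204) (nat_lit 183) (nat_lit 213))))))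 (PT.nd (nat_lit 390) (PT.nd (nat_lit 156) (PT.nd (nat_lit 78) (PT.lf (nat_lit 21964) (nat_lit 6) (nat_lit 289) (nat_lit 3) (nat_lit 205) (nat_lit 183) (nat_lit 212)) (PT.lf (nat_lit 22040) (nat_lit 6) (nat_lit 290) (nat_lit 3) (nat_lit 206) (nat_lit 183) (nat_lit 211))) (PT.nd (nat_lit 78) (PT.lf (nat_lit 22116) (nat_lit 6) (nat_lit 291) (nat_lit 3) (nat_lit 207) (nat_lit 183) (nat_lit 210)) (PT.nd (nat_lit 78) (PT.lf (nat_lit 22192) (nat_lit 6) (nat_lit 292) (nat_lit 3) (nat_lit 208) (nat_lit 183) (nat_lit 209)) (PT.lf (nat_lit 22192) (nat_lit 6) (nat_lit 292) (nat_lit 1) (nat_lit 209) (nat_lit 183) (nat_lit 208))))) (PT.nd (nat_lit 156) (PT.nd (nat_lit 78) (PT.lf (nat_lit 22116) (nat_lit 6) (nat_lit 291) (nat_lit 1) (nat_lit 210) (nat_lit 183) (nat_lit 207)) (PT.lf (nat_lit 22040) (nat_lit 6) (nat_lit 290) (nat_lit 1) (nat_lit 211) (nat_lit 183) (nat_lit 206))) (PT.nd (nat_lit 78) (PT.lf (nat_lit 21964) (nat_lit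 6) (nat_lit 289) (nat_lit 1) (nat_lit 212) (nat_lit 183) (nat_lit 205)) (PT.nd (nat_lit 78) (PT.lf (nat_lit 21888) (nat_lit 6) (nat_lit 288) (nat_lit 1) (nat_lit 213) (nat_lit 183) (nat_lit 204)) (PT.lf (nat_lit 21812) (nat_lit 6) (nat_lit 287) (nat_lit 1) (nat_lit 214) (nat_lit 183) (nat_lit 203))))))))
noncomputable def pc14 : PT := (PT.nd (nat_lit 62478) (PT.nd (nat_lit 61698) (PT.nd (nat_lit 61308) (PT.nd (nat_lit 156) (PT.nd (nat_lit 78) (PT.lf (nat_lit 21736) (nat_lit 6) (nat_lit 286) (nat_lit 1) (nat_lit 215) (nat_lit 183) (nat_lit 202)) (PT.lf (nat_lit 21660) (nat_lit 6) (nat_lit 285) (nat_lit 1) (nat_lit 216) (nat_lit 183) (nat_lit 201))) (PT.nd (nat_lit 61074) (PT.lf (nat_lit 21584) (nat_lit 6) (nat_lit 284) (nat_lit 1) (nat_lit 217) (nat_lit 183) (nat_lit 200)) (PT.lf (nat_lit 21508) (nat_lit 6) (nat_lit 283) (nat_lit 3) (nat_lit 199) (nat_lit 184) (nat_lit 217)))) (PT.nd (nat_lit 156) (PT.nd (nat_lit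 78) (PT.lf (nat_lit 22876) (nat_lit 6) (nat_lit 301) (nat_lit 3) (nat_lit 200) (nat_lit 184) (nat_lit 216)) (PT.lf (nat_lit 22952) (nat_lit 6) (nat_lit 302) (nat_lit 3) (nat_lit 201) (nat_lit 184) (nat_lit 215))) (PT.nd (nat_lit 78) (PT.lf (nat_lit 23028) (nat_lit 6) (nat_lit 303) (nat_lit 3) (nat_lit 202) (nat_lit 184) (nat_lit 214)) (PT.nd (nat_lit 78) (PT.lf (nat_lit 23104) (nat_lit 6) (nat_lit 304) (nat_lit 3) (nat_lit 203) (nat_lit 184) (nat_lit 213)) (PT.lf (nat_lit 23180) (nat_lit 6) (nat_lit 305) (nat_lit 3) (nat_lit 204) (nat_lit 184) (nat_lit 212)))))) (PT.nd (nat_lit 390) (PT.nd (nat_lit 156) (PT.nd (nat_lit 78) (PT.lf (nat_lit 23256) (nat_lit 6) (nat_lit 306) (nat_lit 3) (nat_lit 205) (nat_lit 184) (nat_lit 211)) (PT.lf (nat_lit 23332) (nat_lit 6) (nat_lit 307) (nat_lit 3) (nat_lit 206) (nat_lit 184) (nat_lit 210))) (PT.nd (nat_lit 78) (PT.lf (nat_lit 23408) (nat_lit 6) (nat_lit 308) (nat_lit 3) (nat_lit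 207) (nat_lit 184) (nat_lit 209)) (PT.nd (nat_lit 78) (PT.lf (nat_lit 23484) (nat_lit 3) (nat_lit 309) (nat_lit 1) (nat_lit 208) (nat_lit 184) (nat_lit 208)) (PT.lf (nat_lit 23408) (nat_lit 6) (nat_lit 308) (nat_lit 1) (nat_lit 209) (nat_lit 184) (nat_lit 207))))) (PT.nd (nat_lit 156) (PT.nd (nat_lit 78) (PT.lf (nat_lit 23332) (nat_lit 6) (nat_lit 307) (nat_lit 1) (nat_lit 210) (nat_lit 184) (nat_lit 206)) (PT.lf (nat_lit 23256) (nat_lit 6) (nat_lit 306) (nat_lit 1) (nat_lit 211) (nat_lit 184) (nat_lit 205))) (PT.nd (nat_lit 78) (PT.lf (nat_lit 23180) (nat_lit 6) (nat_lit 305) (nat_lit 1) (nat_lit 212) (nat_lit 184) (nat_lit 204)) (PT.nd (nat_lit 78) (PT.lf (nat_lit 23104) (nat_lit 6) (nat_lit 304) (nat_lit 1) (nat_lit 213) (nat_lit 184) (nat_lit 203)) (PT.lf (nat_lit 23028) (nat_lit 6) (nat_lit 303) (nat_lit 1) (nat_lit 214) (nat_lit 184) (nat_lit 202))))))) (PT.nd (nat_lit 61698) (PT.nd (nat_lit 61308) (PT.nd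 (nat_lit 156) (PT.nd (nat_lit 78) (PT.lf (nat_lit 22952) (nat_lit 6) (nat_lit 302) (nat_lit 1) (nat_lit 215) (nat_lit 184) (nat_lit 201)) (PT.lf (nat_lit 22876) (nat_lit 6) (nat_lit 301) (nat_lit 1) (nat_lit 216) (nat_lit 184) (nat_lit 200))) (PT.nd (nat_lit 61074) (PT.lf (nat_lit 21508) (nat_lit 6) (nat_lit 283) (nat_lit 1) (nat_lit 217) (nat_lit 184) (nat_lit 199)) (PT.lf (nat_lit 22800) (nat_lit 6) (nat_lit 300) (nat_lit 3) (nat_lit 199) (nat_lit 185) (nat_lit 216)))) (PT.nd (nat_lit 156) (PT.nd (nat_lit 78) (PT.lf (nat_lit 24092) (nat_lit 6) (nat_lit 317) (nat_lit 3) (nat_lit 200) (nat_lit 185) (nat_lit 215)) (PT.lf (nat_lit 24168) (nat_lit 6) (nat_lit 318) (nat_lit 3) (nat_lit 201) (nat_lit 185) (nat_lit 214))) (PT.nd (nat_lit 78) (PT.lf (nat_lit 24244) (nat_lit 6) (nat_lit 319) (nat_lit 3) (nat_lit 202) (nat_lit 185) (nat_lit 213)) (PT.nd (nat_lit 78) (PT.lf (nat_lit 24320) (nat_lit 6) (nat_lit 320) (nat_lit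 3) (nat_lit 203) (nat_lit 185) (nat_lit 212)) (PT.lf (nat_lit 24396) (nat_lit 6) (nat_lit 321) (nat_lit 3) (nat_lit 204) (nat_lit 185) (nat_lit 211)))))) (PT.nd (nat_lit 390) (PT.nd (nat_lit 156) (PT.nd (nat_lit 78) (PT.lf (nat_lit 24472) (nat_lit 6) (nat_lit 322) (nat_lit 3) (nat_lit 205) (nat_lit 185) (nat_lit 210)) (PT.lf (nat_lit 24548) (nat_lit 6) (nat_lit 323) (nat_lit 3) (nat_lit 206) (nat_lit 185) (nat_lit 209))) (PT.nd (nat_lit 78) (PT.lf (nat_lit 24624) (nat_lit 6) (nat_lit 324) (nat_lit 3) (nat_lit 207) (nat_lit 185) (nat_lit 208)) (PT.nd (nat_lit 78) (PT.lf (nat_lit 24624) (nat_lit 6) (nat_lit 324) (nat_lit 1) (nat_lit 208) (nat_lit 185) (nat_lit 207)) (PT.lf (nat_lit 24548) (nat_lit 6) (nat_lit 323) (nat_lit 1) (nat_lit 209) (nat_lit 185) (nat_lit 206))))) (PT.nd (nat_lit 156) (PT.nd (nat_lit 78) (PT.lf (nat_lit 24472) (nat_lit 6) (nat_lit 322) (nat_lit 1) (nat_lit 210) (nat_lit 185) (nat_lit 205))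 (PT.lf (nat_lit 24396) (nat_lit 6) (nat_lit 321) (nat_lit 1) (nat_lit 211) (nat_lit 185) (nat_lit 204))) (PT.nd (nat_lit 78) (PT.lf (nat_lit 24320) (nat_lit 6) (nat_lit 320) (nat_lit 1) (nat_lit 212) (nat_lit 185) (nat_lit 203)) (PT.nd (nat_lit 78) (PT.lf (nat_lit 24244) (nat_lit 6) (nat_lit 319) (nat_lit 1) (nat_lit 213) (nat_lit 185) (nat_lit 202)) (PT.lf (nat_lit 24168) (nat_lit 6) (nat_lit 318) (nat_lit 1) (nat_lit 214) (nat_lit 185) (nat_lit 201))))))))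
noncomputable def pc15 : PT := (PT.nd (nat_lit 62478) (PT.nd (nat_lit 61698) (PT.nd (nat_lit 61308) (PT.nd (nat_lit 61152) (PT.nd (nat_lit 78) (PT.lf (nat_lit 24092) (nat_lit 6) (nat_lit 317) (nat_lit 1) (nat_lit 215) (nat_lit 185) (nat_lit 200)) (PT.lf (nat_lit 22800) (nat_lit 6) (nat_lit 300) (nat_lit 1) (nat_lit 216) (nat_lit 185) (nat_lit 199))) (PT.nd (nat_lit 78) (PT.lf (nat_lit 22724) (nat_lit 6) (nat_lit 299) (nat_lit 3) (nat_lit 198) (nat_lit 186) (nat_lit 216)) (PT.lf (nat_lit 24016) (nat_lit 6) (nat_lit 316) (nat_lit 3) (nat_lit 199) (nat_lit 186) (nat_lit 215)))) (PT.nd (nat_lit 156) (PT.nd (nat_lit 78) (PT.lf (nat_lit 25232) (nat_lit 6) (nat_lit 332) (nat_lit 3) (nat_lit 200) (nat_lit 186) (nat_lit 214)) (PT.lf (nat_lit 25308) (nat_lit 6) (nat_lit 333) (nat_lit 3) (nat_lit 201) (nat_lit 186) (nat_lit 213))) (PT.nd (nat_lit 78) (PT.lf (nat_lit 25384) (nat_lit 6) (nat_lit 334) (nat_lit 3) (nat_lit 202)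 (nat_lit 186) (nat_lit 212)) (PT.nd (nat_lit 78) (PT.lf (nat_lit 25460) (nat_lit 6) (nat_lit 335) (nat_lit 3) (nat_lit 203) (nat_lit 186) (nat_lit 211)) (PT.lf (nat_lit 25536) (nat_lit 6) (nat_lit 336) (nat_lit 3) (nat_lit 204) (nat_lit 186) (nat_lit 210)))))) (PT.nd (nat_lit 390) (PT.nd (nat_lit 156) (PT.nd (nat_lit 78) (PT.lf (nat_lit 25612) (nat_lit 6) (nat_lit 337) (nat_lit 3) (nat_lit 205) (nat_lit 186) (nat_lit 209)) (PT.lf (nat_lit 25688) (nat_lit 6) (nat_lit 338) (nat_lit 3) (nat_lit 206) (nat_lit 186) (nat_lit 208))) (PT.nd (nat_lit 78) (PT.lf (nat_lit 25764) (nat_lit 3) (nat_lit 339) (nat_lit 1) (nat_lit 207) (nat_lit 186) (nat_lit 207)) (PT.nd (nat_lit 78) (PT.lf (nat_lit 25688) (nat_lit 6) (nat_lit 338) (nat_lit 1) (nat_lit 208) (nat_lit 186) (nat_lit 206)) (PT.lf (nat_lit 25612) (nat_lit 6) (nat_lit 337) (nat_lit 1) (nat_lit 209) (nat_lit 186) (nat_lit 205))))) (PT.nd (nat_lit 156) (PT.nd (nat_lit 78)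 (PT.lf (nat_lit 25536) (nat_lit 6) (nat_lit 336) (nat_lit 1) (nat_lit 210) (nat_lit 186) (nat_lit 204)) (PT.lf (nat_lit 25460) (nat_lit 6) (nat_lit 335) (nat_lit 1) (nat_lit 211) (nat_lit 186) (nat_lit 203))) (PT.nd (nat_lit 78) (PT.lf (nat_lit 25384) (nat_lit 6) (nat_lit 334) (nat_lit 1) (nat_lit 212) (nat_lit 186) (nat_lit 202)) (PT.nd (nat_lit 78) (PT.lf (nat_lit 25308) (nat_lit 6) (nat_lit 333) (nat_lit 1) (nat_lit 213) (nat_lit 186) (nat_lit 201)) (PT.lf (nat_lit 25232) (nat_lit 6) (nat_lit 332) (nat_lit 1) (nat_lit 214) (nat_lit 186) (nat_lit 200))))))) (PT.nd (nat_lit 61620) (PT.nd (nat_lit 61230) (PT.nd (nat_lit 61074) (PT.nd (nat_lit 78) (PT.lf (nat_lit 24016) (nat_lit 6) (nat_lit 316) (nat_lit 1) (nat_lit 215) (nat_lit 186) (nat_lit 199)) (PT.lf (nat_lit 22724) (nat_lit 6) (nat_lit 299) (nat_lit 1) (nat_lit 216) (nat_lit 186) (nat_lit 198))) (PT.nd (nat_lit 78) (PT.lf (nat_lit 22648) (nat_lit 6) (nat_lit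 298) (nat_lit 3) (nat_lit 197) (nat_lit 187) (nat_lit 216)) (PT.lf (nat_lit 23940) (nat_lit 6) (nat_lit 315) (nat_lit 3) (nat_lit 198) (nat_lit 187) (nat_lit 215)))) (PT.nd (nat_lit 156) (PT.nd (nat_lit 78) (PT.lf (nat_lit 25156) (nat_lit 6) (nat_lit 331) (nat_lit 3) (nat_lit 199) (nat_lit 187) (nat_lit 214)) (PT.lf (nat_lit 26296) (nat_lit 6) (nat_lit 346) (nat_lit 3) (nat_lit 200) (nat_lit 187) (nat_lit 213))) (PT.nd (nat_lit 78) (PT.lf (nat_lit 26372) (nat_lit 6) (nat_lit 347) (nat_lit 3) (nat_lit 201) (nat_lit 187) (nat_lit 212)) (PT.nd (nat_lit 78) (PT.lf (nat_lit 26448) (nat_lit 6) (nat_lit 348) (nat_lit 3) (nat_lit 202) (nat_lit 187) (nat_lit 211)) (PT.lf (nat_lit 26524) (nat_lit 6) (nat_lit 349) (nat_lit 3) (nat_lit 203) (nat_lit 187) (nat_lit 210)))))) (PT.nd (nat_lit 390) (PT.nd (nat_lit 156) (PT.nd (nat_lit 78) (PT.lf (nat_lit 26600) (nat_lit 6) (nat_lit 350) (nat_lit 3) (nat_lit 204) (nat_lit 187) (nat_lit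 209)) (PT.lf (nat_lit 26676) (nat_lit 6) (nat_lit 351) (nat_lit 3) (nat_lit 205) (nat_lit 187) (nat_lit 208))) (PT.nd (nat_lit 78) (PT.lf (nat_lit 26752) (nat_lit 6) (nat_lit 352) (nat_lit 3) (nat_lit 206) (nat_lit 187) (nat_lit 207)) (PT.nd (nat_lit 78) (PT.lf (nat_lit 26752) (nat_lit 6) (nat_lit 352) (nat_lit 1) (nat_lit 207) (nat_lit 187) (nat_lit 206)) (PT.lf (nat_lit 26676) (nat_lit 6) (nat_lit 351) (nat_lit 1) (nat_lit 208) (nat_lit 187) (nat_lit 205))))) (PT.nd (nat_lit 156) (PT.nd (nat_lit 78) (PT.lf (nat_lit 26600) (nat_lit 6) (nat_lit 350) (nat_lit 1) (nat_lit 209) (nat_lit 187) (nat_lit 204)) (PT.lf (nat_lit 26524) (nat_lit 6) (nat_lit 349) (nat_lit 1) (nat_lit 210) (nat_lit 187) (nat_lit 203))) (PT.nd (nat_lit 78) (PT.lf (nat_lit 26448) (nat_lit 6) (nat_lit 348) (nat_lit 1) (nat_lit 211) (nat_lit 187) (nat_lit 202)) (PT.nd (nat_lit 78) (PT.lf (nat_lit 26372) (nat_lit 6) (nat_lit 347) (nat_lit 1) (nat_lit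 212) (nat_lit 187) (nat_lit 201)) (PT.lf (nat_lit 26296) (nat_lit 6) (nat_lit 346) (nat_lit 1) (nat_lit 213) (nat_lit 187) (nat_lit 200))))))))
noncomputable def pc16 : PT := (PT.nd (nat_lit 62244) (PT.nd (nat_lit 61542) (PT.nd (nat_lit 61152) (PT.nd (nat_lit 156) (PT.nd (nat_lit 78) (PT.lf (nat_lit 25156) (nat_lit 6) (nat_lit 331) (nat_lit 1) (nat_lit 214) (nat_lit 187) (nat_lit 199)) (PT.lf (nat_lit 23940) (nat_lit 6) (nat_lit 315) (nat_lit 1) (nat_lit 215) (nat_lit 187) (nat_lit 198))) (PT.nd (nat_lit 60918) (PT.lf (nat_lit 22648) (nat_lit 6) (nat_lit 298) (nat_lit 1) (nat_lit 216) (nat_lit 187) (nat_lit 197)) (PT.lf (nat_lit 22572) (nat_lit 6) (nat_lit 297) (nat_lit 3) (nat_lit 196) (nat_lit 188) (nat_lit 216)))) (PT.nd (nat_lit 156) (PT.nd (nat_lit 78) (PT.lf (nat_lit 23864) (nat_lit 6) (nat_lit 314) (nat_lit 3) (nat_lit 197) (nat_lit 188) (nat_lit 215)) (PT.lf (nat_lit 25080) (nat_lit 6) (nat_lit 330) (nat_lit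 3) (nat_lit 198) (nat_lit 188) (nat_lit 214))) (PT.nd (nat_lit 78) (PT.lf (nat_lit 26220) (nat_lit 6) (nat_lit 345) (nat_lit 3) (nat_lit 199) (nat_lit 188) (nat_lit 213)) (PT.nd (nat_lit 78) (PT.lf (nat_lit 27284) (nat_lit 6) (nat_lit 359) (nat_lit 3) (nat_lit 200) (nat_lit 188) (nat_lit 212)) (PT.lf (nat_lit 27360) (nat_lit 6) (nat_lit 360) (nat_lit 3) (nat_lit 201) (nat_lit 188) (nat_lit 211)))))) (PT.nd (nat_lit 312) (PT.nd (nat_lit 156) (PT.nd (nat_lit 78) (PT.lf (nat_lit 27436) (nat_lit 6) (nat_lit 361) (nat_lit 3) (nat_lit 202) (nat_lit 188) (nat_lit 210)) (PT.lf (nat_lit 27512) (nat_lit 6) (nat_lit 362) (nat_lit 3) (nat_lit 203) (nat_lit 188) (nat_lit 209))) (PT.nd (nat_lit 78) (PT.lf (nat_lit 27588) (nat_lit 6) (nat_lit 363) (nat_lit 3) (nat_lit 204) (nat_lit 188) (nat_lit 208)) (PT.lf (nat_lit 27664) (nat_lit 6) (nat_lit 364) (nat_lit 3) (nat_lit 205) (nat_lit 188) (nat_lit 207)))) (PT.nd (nat_lit 156)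 (PT.nd (nat_lit 78) (PT.lf (nat_lit 27740) (nat_lit 3) (nat_lit 365) (nat_lit 1) (nat_lit 206) (nat_lit 188) (nat_lit 206)) (PT.lf (nat_lit 27664) (nat_lit 6) (nat_lit 364) (nat_lit 1) (nat_lit 207) (nat_lit 188) (nat_lit 205))) (PT.nd (nat_lit 78) (PT.lf (nat_lit 27588) (nat_lit 6) (nat_lit 363) (nat_lit 1) (nat_lit 208) (nat_lit 188) (nat_lit 204)) (PT.nd (nat_lit 78) (PT.lf (nat_lit 27512) (nat_lit 6) (nat_lit 362) (nat_lit 1) (nat_lit 209) (nat_lit 188) (nat_lit 203)) (PT.lf (nat_lit 27436) (nat_lit 6) (nat_lit 361) (nat_lit 1) (nat_lit 210) (nat_lit 188) (nat_lit 202))))))) (PT.nd (nat_lit 61464) (PT.nd (nat_lit 312) (PT.nd (nat_lit 156) (PT.nd (nat_lit 78) (PT.lf (nat_lit 27360) (nat_lit 6) (nat_lit 360) (nat_lit 1) (nat_lit 211) (nat_lit 188) (nat_lit 201)) (PT.lf (nat_lit 27284) (nat_lit 6) (nat_lit 359) (nat_lit 1) (nat_lit 212) (nat_lit 188) (nat_lit 200))) (PT.nd (nat_lit 78) (PT.lf (nat_lit 26220) (nat_lit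 6) (nat_lit 345) (nat_lit 1) (nat_lit 213) (nat_lit 188) (nat_lit 199)) (PT.lf (nat_lit 25080) (nat_lit 6) (nat_lit 330) (nat_lit 1) (nat_lit 214) (nat_lit 188) (nat_lit 198)))) (PT.nd (nat_lit 60918) (PT.nd (nat_lit 78) (PT.lf (nat_lit 23864) (nat_lit 6) (nat_lit 314) (nat_lit 1) (nat_lit 215) (nat_lit 188) (nat_lit 197)) (PT.lf (nat_lit 22572) (nat_lit 6) (nat_lit 297) (nat_lit 1) (nat_lit 216) (nat_lit 188) (nat_lit 196))) (PT.nd (nat_lit 78) (PT.lf (nat_lit 22496) (nat_lit 6) (nat_lit 296) (nat_lit 3) (nat_lit 195) (nat_lit 189) (nat_lit 216)) (PT.nd (nat_lit 78) (PT.lf (nat_lit 23788) (nat_lit 6) (nat_lit 313) (nat_lit 3) (nat_lit 196) (nat_lit 189) (nat_lit 215)) (PT.lf (nat_lit 25004) (nat_lit 6) (nat_lit 329) (nat_lit 3) (nat_lit 197) (nat_lit 189) (nat_lit 214)))))) (PT.nd (nat_lit 390) (PT.nd (nat_lit 156) (PT.nd (nat_lit 78) (PT.lf (nat_lit 26144) (nat_lit 6) (nat_lit 344) (nat_lit 3) (nat_lit 198) (nat_lit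 189) (nat_lit 213)) (PT.lf (nat_lit 27208) (nat_lit 6) (nat_lit 358) (nat_lit 3) (nat_lit 199) (nat_lit 189) (nat_lit 212))) (PT.nd (nat_lit 78) (PT.lf (nat_lit 28196) (nat_lit 6) (nat_lit 371) (nat_lit 3) (nat_lit 200) (nat_lit 189) (nat_lit 211)) (PT.nd (nat_lit 78) (PT.lf (nat_lit 28272) (nat_lit 6) (nat_lit 372) (nat_lit 3) (nat_lit 201) (nat_lit 189) (nat_lit 210)) (PT.lf (nat_lit 28348) (nat_lit 6) (nat_lit 373) (nat_lit 3) (nat_lit 202) (nat_lit 189) (nat_lit 209))))) (PT.nd (nat_lit 156) (PT.nd (nat_lit 78) (PT.lf (nat_lit 28424) (nat_lit 6) (nat_lit 374) (nat_lit 3) (nat_lit 203) (nat_lit 189) (nat_lit 208)) (PT.lf (nat_lit 28500) (nat_lit 6) (nat_lit 375) (nat_lit 3) (nat_lit 204) (nat_lit 189) (nat_lit 207))) (PT.nd (nat_lit 78) (PT.lf (nat_lit 28576) (nat_lit 6) (nat_lit 376) (nat_lit 3) (nat_lit 205) (nat_lit 189) (nat_lit 206)) (PT.nd (nat_lit 78) (PT.lf (nat_lit 28576) (nat_lit 6) (nat_lit 376) (nat_lit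 1) (nat_lit 206) (nat_lit 189) (nat_lit 205)) (PT.lf (nat_lit 28500) (nat_lit 6) (nat_lit 375) (nat_lit 1) (nat_lit 207) (nat_lit 189) (nat_lit 204))))))))
noncomputable def pc17 : PT := (PT.nd (nat_lit 62166) (PT.nd (nat_lit 61386) (PT.nd (nat_lit 312) (PT.nd (nat_lit 156) (PT.nd (nat_lit 78) (PT.lf (nat_lit 28424) (nat_lit 6) (nat_lit 374) (nat_lit 1) (nat_lit 208) (nat_lit 189) (nat_lit 203)) (PT.lf (nat_lit 28348) (nat_lit 6) (nat_lit 373) (nat_lit 1) (nat_lit 209) (nat_lit 189) (nat_lit 202))) (PT.nd (nat_lit 78) (PT.lf (nat_lit 28272) (nat_lit 6) (nat_lit 372) (nat_lit 1) (nat_lit 210) (nat_lit 189) (nat_lit 201)) (PT.lf (nat_lit 28196) (nat_lit 6) (nat_lit 371) (nat_lit 1) (nat_lit 211) (nat_lit 189) (nat_lit 200)))) (PT.nd (nat_lit 156) (PT.nd (nat_lit 78) (PT.lf (nat_lit 27208) (nat_lit 6) (nat_lit 358) (nat_lit 1) (nat_lit 212) (nat_lit 189) (nat_lit 199)) (PT.lf (nat_lit 26144) (nat_lit 6) (nat_lit 344)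 (nat_lit 1) (nat_lit 213) (nat_lit 189) (nat_lit 198))) (PT.nd (nat_lit 78) (PT.lf (nat_lit 25004) (nat_lit 6) (nat_lit 329) (nat_lit 1) (nat_lit 214) (nat_lit 189) (nat_lit 197)) (PT.nd (nat_lit 78) (PT.lf (nat_lit 23788) (nat_lit 6) (nat_lit 313) (nat_lit 1) (nat_lit 215) (nat_lit 189) (nat_lit 196)) (PT.lf (nat_lit 22496) (nat_lit 6) (nat_lit 296) (nat_lit 1) (nat_lit 216) (nat_lit 189) (nat_lit 195)))))) (PT.nd (nat_lit 390) (PT.nd (nat_lit 156) (PT.nd (nat_lit 78) (PT.lf (nat_lit 22420) (nat_lit 6) (nat_lit 295) (nat_lit 3) (nat_lit 194) (nat_lit 190) (nat_lit 216)) (PT.lf (nat_lit 23712) (nat_lit 6) (nat_lit 312) (nat_lit 3) (nat_lit 195) (nat_lit 190) (nat_lit 215))) (PT.nd (nat_lit 78) (PT.lf (nat_lit 24928) (nat_lit 6) (nat_lit 328) (nat_lit 3) (nat_lit 196) (nat_lit 190) (nat_lit 214)) (PT.nd (nat_lit 78) (PT.lf (nat_lit 26068) (nat_lit 6) (nat_lit 343) (nat_lit 3) (nat_lit 197) (nat_lit 190) (nat_lit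 213)) (PT.lf (nat_lit 27132) (nat_lit 6) (nat_lit 357) (nat_lit 3) (nat_lit 198) (nat_lit 190) (nat_lit 212))))) (PT.nd (nat_lit 156) (PT.nd (nat_lit 78) (PT.lf (nat_lit 28120) (nat_lit 6) (nat_lit 370) (nat_lit 3) (nat_lit 199) (nat_lit 190) (nat_lit 211)) (PT.lf (nat_lit 29032) (nat_lit 6) (nat_lit 382) (nat_lit 3) (nat_lit 200) (nat_lit 190) (nat_lit 210))) (PT.nd (nat_lit 78) (PT.lf (nat_lit 29108) (nat_lit 6) (nat_lit 383) (nat_lit 3) (nat_lit 201) (nat_lit 190) (nat_lit 209)) (PT.nd (nat_lit 78) (PT.lf (nat_lit 29184) (nat_lit 6) (nat_lit 384) (nat_lit 3) (nat_lit 202) (nat_lit 190) (nat_lit 208)) (PT.lf (nat_lit 29260) (nat_lit 6) (nat_lit 385) (nat_lit 3) (nat_lit 203) (nat_lit 190) (nat_lit 207))))))) (PT.nd (nat_lit 702) (PT.nd (nat_lit 312) (PT.nd (nat_lit 156) (PT.nd (nat_lit 78) (PT.lf (nat_lit 29336) (nat_lit 6) (nat_lit 386) (nat_lit 3) (nat_lit 204) (nat_lit 190) (nat_lit 206)) (PT.lf (nat_lit 29412)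 (nat_lit 3) (nat_lit 387) (nat_lit 1) (nat_lit 205) (nat_lit 190) (nat_lit 205))) (PT.nd (nat_lit 78) (PT.lf (nat_lit 29336) (nat_lit 6) (nat_lit 386) (nat_lit 1) (nat_lit 206) (nat_lit 190) (nat_lit 204)) (PT.lf (nat_lit 29260) (nat_lit 6) (nat_lit 385) (nat_lit 1) (nat_lit 207) (nat_lit 190) (nat_lit 203)))) (PT.nd (nat_lit 156) (PT.nd (nat_lit 78) (PT.lf (nat_lit 29184) (nat_lit 6) (nat_lit 384) (nat_lit 1) (nat_lit 208) (nat_lit 190) (nat_lit 202)) (PT.lf (nat_lit 29108) (nat_lit 6) (nat_lit 383) (nat_lit 1) (nat_lit 209) (nat_lit 190) (nat_lit 201))) (PT.nd (nat_lit 78) (PT.lf (nat_lit 29032) (nat_lit 6) (nat_lit 382) (nat_lit 1) (nat_lit 210) (nat_lit 190) (nat_lit 200)) (PT.nd (nat_lit 78) (PT.lf (nat_lit 28120) (nat_lit 6) (nat_lit 370) (nat_lit 1) (nat_lit 211) (nat_lit 190) (nat_lit 199)) (PT.lf (nat_lit 27132) (nat_lit 6) (nat_lit 357) (nat_lit 1) (nat_lit 212) (nat_lit 190) (nat_lit 198)))))) (PT.nd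 (nat_lit 60996) (PT.nd (nat_lit 156) (PT.nd (nat_lit 78) (PT.lf (nat_lit 26068) (nat_lit 6) (nat_lit 343) (nat_lit 1) (nat_lit 213) (nat_lit 190) (nat_lit 197)) (PT.lf (nat_lit 24928) (nat_lit 6) (nat_lit 328) (nat_lit 1) (nat_lit 214) (nat_lit 190) (nat_lit 196))) (PT.nd (nat_lit 78) (PT.lf (nat_lit 23712) (nat_lit 6) (nat_lit 312) (nat_lit 1) (nat_lit 215) (nat_lit 190) (nat_lit 195)) (PT.nd (nat_lit 60684) (PT.lf (nat_lit 22420) (nat_lit 6) (nat_lit 295) (nat_lit 1) (nat_lit 216) (nat_lit 190) (nat_lit 194)) (PT.lf (nat_lit 22344) (nat_lit 6) (nat_lit 294) (nat_lit 3) (nat_lit 193) (nat_lit 191) (nat_lit 216))))) (PT.nd (nat_lit 156) (PT.nd (nat_lit 78) (PT.lf (nat_lit 23636) (nat_lit 6) (nat_lit 311) (nat_lit 3) (nat_lit 194) (nat_lit 191) (nat_lit 215)) (PT.lf (nat_lit 24852) (nat_lit 6) (nat_lit 327) (nat_lit 3) (nat_lit 195) (nat_lit 191) (nat_lit 214))) (PT.nd (nat_lit 78) (PT.lf (nat_lit 25992) (nat_lit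 6) (nat_lit 342) (nat_lit 3) (nat_lit 196) (nat_lit 191) (nat_lit 213)) (PT.nd (nat_lit 78) (PT.lf (nat_lit 27056) (nat_lit 6) (nat_lit 356) (nat_lit 3) (nat_lit 197) (nat_lit 191) (nat_lit 212)) (PT.lf (nat_lit 28044) (nat_lit 6) (nat_lit 369) (nat_lit 3) (nat_lit 198) (nat_lit 191) (nat_lit 211))))))))
noncomputable def pc18 : PT := (PT.nd (nat_lit 61932) (PT.nd (nat_lit 702) (PT.nd (nat_lit 312) (PT.nd (nat_lit 156) (PT.nd (nat_lit 78) (PT.lf (nat_lit 28956) (nat_lit 6) (nat_lit 381) (nat_lit 3) (nat_lit 199) (nat_lit 191) (nat_lit 210)) (PT.lf (nat_lit 29792) (nat_lit 6) (nat_lit 392) (nat_lit 3) (nat_lit 200) (nat_lit 191) (nat_lit 209))) (PT.nd (nat_lit 78) (PT.lf (nat_lit 29868) (nat_lit 6) (nat_lit 393) (nat_lit 3) (nat_lit 201) (nat_lit 191) (nat_lit 208)) (PT.lf (nat_lit 29944) (nat_lit 6) (nat_lit 394) (nat_lit 3) (nat_lit 202) (nat_lit 191) (nat_lit 207)))) (PT.nd (nat_lit 156) (PT.nd (nat_lit 78) (PT.lf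 (nat_lit 30020) (nat_lit 6) (nat_lit 395) (nat_lit 3) (nat_lit 203) (nat_lit 191) (nat_lit 206)) (PT.lf (nat_lit 30096) (nat_lit 6) (nat_lit 396) (nat_lit 3) (nat_lit 204) (nat_lit 191) (nat_lit 205))) (PT.nd (nat_lit 78) (PT.lf (nat_lit 30096) (nat_lit 6) (nat_lit 396) (nat_lit 1) (nat_lit 205) (nat_lit 191) (nat_lit 204)) (PT.nd (nat_lit 78) (PT.lf (nat_lit 30020) (nat_lit 6) (nat_lit 395) (nat_lit 1) (nat_lit 206) (nat_lit 191) (nat_lit 203)) (PT.lf (nat_lit 29944) (nat_lit 6) (nat_lit 394) (nat_lit 1) (nat_lit 207) (nat_lit 191) (nat_lit 202)))))) (PT.nd (nat_lit 312) (PT.nd (nat_lit 156) (PT.nd (nat_lit 78) (PT.lf (nat_lit 29868) (nat_lit 6) (nat_lit 393) (nat_lit 1) (nat_lit 208) (nat_lit 191) (nat_lit 201)) (PT.lf (nat_lit 29792) (nat_lit 6) (nat_lit 392) (nat_lit 1) (nat_lit 209) (nat_lit 191) (nat_lit 200))) (PT.nd (nat_lit 78) (PT.lf (nat_lit 28956) (nat_lit 6) (nat_lit 381) (nat_lit 1) (nat_lit 210) (nat_lit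 191) (nat_lit 199)) (PT.lf (nat_lit 28044) (nat_lit 6) (nat_lit 369) (nat_lit 1) (nat_lit 211) (nat_lit 191) (nat_lit 198)))) (PT.nd (nat_lit 156) (PT.nd (nat_lit 78) (PT.lf (nat_lit 27056) (nat_lit 6) (nat_lit 356) (nat_lit 1) (nat_lit 212) (nat_lit 191) (nat_lit 197)) (PT.lf (nat_lit 25992) (nat_lit 6) (nat_lit 342) (nat_lit 1) (nat_lit 213) (nat_lit 191) (nat_lit 196))) (PT.nd (nat_lit 78) (PT.lf (nat_lit 24852) (nat_lit 6) (nat_lit 327) (nat_lit 1) (nat_lit 214) (nat_lit 191) (nat_lit 195)) (PT.nd (nat_lit 78) (PT.lf (nat_lit 23636) (nat_lit 6) (nat_lit 311) (nat_lit 1) (nat_lit 215) (nat_lit 191) (nat_lit 194)) (PT.lf (nat_lit 22344) (nat_lit 6) (nat_lit 294) (nat_lit 1) (nat_lit 216) (nat_lit 191) (nat_lit 193))))))) (PT.nd (nat_lit 702) (PT.nd (nat_lit 312) (PT.nd (nat_lit 156) (PT.nd (nat_lit 78) (PT.lf (nat_lit 22268) (nat_lit 3) (nat_lit 293) (nat_lit 3) (nat_lit 192) (nat_lit 192) (nat_lit 216)) (PT.lf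 (nat_lit 23560) (nat_lit 6) (nat_lit 310) (nat_lit 3) (nat_lit 193) (nat_lit 192) (nat_lit 215))) (PT.nd (nat_lit 78) (PT.lf (nat_lit 24776) (nat_lit 6) (nat_lit 326) (nat_lit 3) (nat_lit 194) (nat_lit 192) (nat_lit 214)) (PT.lf (nat_lit 25916) (nat_lit 6) (nat_lit 341) (nat_lit 3) (nat_lit 195) (nat_lit 192) (nat_lit 213)))) (PT.nd (nat_lit 156) (PT.nd (nat_lit 78) (PT.lf (nat_lit 26980) (nat_lit 6) (nat_lit 355) (nat_lit 3) (nat_lit 196) (nat_lit 192) (nat_lit 212)) (PT.lf (nat_lit 27968) (nat_lit 6) (nat_lit 368) (nat_lit 3) (nat_lit 197) (nat_lit 192) (nat_lit 211))) (PT.nd (nat_lit 78) (PT.lf (nat_lit 28880) (nat_lit 6) (nat_lit 380) (nat_lit 3) (nat_lit 198) (nat_lit 192) (nat_lit 210)) (PT.nd (nat_lit 78) (PT.lf (nat_lit 29716) (nat_lit 6) (nat_lit 391) (nat_lit 3) (nat_lit 199) (nat_lit 192) (nat_lit 209)) (PT.lf (nat_lit 30476) (nat_lit 6) (nat_lit 401) (nat_lit 3) (nat_lit 200) (nat_lit 192) (nat_lit 208))))))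 (PT.nd (nat_lit 390) (PT.nd (nat_lit 156) (PT.nd (nat_lit 78) (PT.lf (nat_lit 30552) (nat_lit 6) (nat_lit 402) (nat_lit 3) (nat_lit 201) (nat_lit 192) (nat_lit 207)) (PT.lf (nat_lit 30628) (nat_lit 6) (nat_lit 403) (nat_lit 3) (nat_lit 202) (nat_lit 192) (nat_lit 206))) (PT.nd (nat_lit 78) (PT.lf (nat_lit 30704) (nat_lit 6) (nat_lit 404) (nat_lit 3) (nat_lit 203) (nat_lit 192) (nat_lit 205)) (PT.nd (nat_lit 78) (PT.lf (nat_lit 30780) (nat_lit 3) (nat_lit 405) (nat_lit 1) (nat_lit 204) (nat_lit 192) (nat_lit 204)) (PT.lf (nat_lit 30704) (nat_lit 6) (nat_lit 404) (nat_lit 1) (nat_lit 205) (nat_lit 192) (nat_lit 203))))) (PT.nd (nat_lit 156) (PT.nd (nat_lit 78) (PT.lf (nat_lit 30628) (nat_lit 6) (nat_lit 403) (nat_lit 1) (nat_lit 206) (nat_lit 192) (nat_lit 202)) (PT.lf (nat_lit 30552) (nat_lit 6) (nat_lit 402) (nat_lit 1) (nat_lit 207) (nat_lit 192) (nat_lit 201))) (PT.nd (nat_lit 78) (PT.lf (nat_lit 30476) (nat_lit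 6) (nat_lit 401) (nat_lit 1) (nat_lit 208) (nat_lit 192) (nat_lit 200)) (PT.nd (nat_lit 78) (PT.lf (nat_lit 29716) (nat_lit 6) (nat_lit 391) (nat_lit 1) (nat_lit 209) (nat_lit 192) (nat_lit 199)) (PT.lf (nat_lit 28880) (nat_lit 6) (nat_lit 380) (nat_lit 1) (nat_lit 210) (nat_lit 192) (nat_lit 198))))))))
noncomputable def pc19 : PT := (PT.nd (nat_lit 61932) (PT.nd (nat_lit 61152) (PT.nd (nat_lit 312) (PT.nd (nat_lit 156) (PT.nd (nat_lit 78) (PT.lf (nat_lit 27968) (nat_lit 6) (nat_lit 368) (nat_lit 1) (nat_lit 211) (nat_lit 192) (nat_lit 197)) (PT.lf (nat_lit 26980) (nat_lit 6) (nat_lit 355) (nat_lit 1) (nat_lit 212) (nat_lit 192) (nat_lit 196))) (PT.nd (nat_lit 78) (PT.lf (nat_lit 25916) (nat_lit 6) (nat_lit 341) (nat_lit 1) (nat_lit 213) (nat_lit 192) (nat_lit 195)) (PT.lf (nat_lit 24776) (nat_lit 6) (nat_lit 326) (nat_lit 1) (nat_lit 214) (nat_lit 192) (nat_lit 194)))) (PT.nd (nat_lit 60606) (PT.nd (nat_lit 78)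 (PT.lf (nat_lit 23560) (nat_lit 6) (nat_lit 310) (nat_lit 1) (nat_lit 215) (nat_lit 192) (nat_lit 193)) (PT.lf (nat_lit 22268) (nat_lit 3) (nat_lit 293) (nat_lit 0) (nat_lit 216) (nat_lit 192) (nat_lit 192))) (PT.nd (nat_lit 78) (PT.lf (nat_lit 22344) (nat_lit 6) (nat_lit 294) (nat_lit 5) (nat_lit 191) (nat_lit 193) (nat_lit 216)) (PT.nd (nat_lit 78) (PT.lf (nat_lit 23560) (nat_lit 6) (nat_lit 310) (nat_lit 5) (nat_lit 192) (nat_lit 193) (nat_lit 215)) (PT.lf (nat_lit 24700) (nat_lit 3) (nat_lit 325) (nat_lit 3) (nat_lit 193) (nat_lit 193) (nat_lit 214)))))) (PT.nd (nat_lit 390) (PT.nd (nat_lit 156) (PT.nd (nat_lit 78) (PT.lf (nat_lit 25840) (nat_lit 6) (nat_lit 340) (nat_lit 3) (nat_lit 194) (nat_lit 193) (nat_lit 213)) (PT.lf (nat_lit 26904) (nat_lit 6) (nat_lit 354) (nat_lit 3) (nat_lit 195) (nat_lit 193) (nat_lit 212))) (PT.nd (nat_lit 78) (PT.lf (nat_lit 27892) (nat_lit 6) (nat_lit 367) (nat_lit 3) (nat_lit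 196) (nat_lit 193) (nat_lit 211)) (PT.nd (nat_lit 78) (PT.lf (nat_lit 28804) (nat_lit 6) (nat_lit 379) (nat_lit 3) (nat_lit 197) (nat_lit 193) (nat_lit 210)) (PT.lf (nat_lit 29640) (nat_lit 6) (nat_lit 390) (nat_lit 3) (nat_lit 198) (nat_lit 193) (nat_lit 209))))) (PT.nd (nat_lit 156) (PT.nd (nat_lit 78) (PT.lf (nat_lit 30400) (nat_lit 6) (nat_lit 400) (nat_lit 3) (nat_lit 199) (nat_lit 193) (nat_lit 208)) (PT.lf (nat_lit 31084) (nat_lit 6) (nat_lit 409) (nat_lit 3) (nat_lit 200) (nat_lit 193) (nat_lit 207))) (PT.nd (nat_lit 78) (PT.lf (nat_lit 31160) (nat_lit 6) (nat_lit 410) (nat_lit 3) (nat_lit 201) (nat_lit 193) (nat_lit 206)) (PT.nd (nat_lit 78) (PT.lf (nat_lit 31236) (nat_lit 6) (nat_lit 411) (nat_lit 3) (nat_lit 202) (nat_lit 193) (nat_lit 205)) (PT.lf (nat_lit 31312) (nat_lit 6) (nat_lit 412) (nat_lit 3) (nat_lit 203) (nat_lit 193) (nat_lit 204))))))) (PT.nd (nat_lit 702) (PT.nd (nat_lit 312) (PT.nd (nat_lit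 156) (PT.nd (nat_lit 78) (PT.lf (nat_lit 31312) (nat_lit 6) (nat_lit 412) (nat_lit 1) (nat_lit 204) (nat_lit 193) (nat_lit 203)) (PT.lf (nat_lit 31236) (nat_lit 6) (nat_lit 411) (nat_lit 1) (nat_lit 205) (nat_lit 193) (nat_lit 202))) (PT.nd (nat_lit 78) (PT.lf (nat_lit 31160) (nat_lit 6) (nat_lit 410) (nat_lit 1) (nat_lit 206) (nat_lit 193) (nat_lit 201)) (PT.lf (nat_lit 31084) (nat_lit 6) (nat_lit 409) (nat_lit 1) (nat_lit 207) (nat_lit 193) (nat_lit 200)))) (PT.nd (nat_lit 156) (PT.nd (nat_lit 78) (PT.lf (nat_lit 30400) (nat_lit 6) (nat_lit 400) (nat_lit 1) (nat_lit 208) (nat_lit 193) (nat_lit 199)) (PT.lf (nat_lit 29640) (nat_lit 6) (nat_lit 390) (nat_lit 1) (nat_lit 209) (nat_lit 193) (nat_lit 198))) (PT.nd (nat_lit 78) (PT.lf (nat_lit 28804) (nat_lit 6) (nat_lit 379) (nat_lit 1) (nat_lit 210) (nat_lit 193) (nat_lit 197)) (PT.nd (nat_lit 78) (PT.lf (nat_lit 27892) (nat_lit 6) (nat_lit 367) (nat_lit 1) (nat_lit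 211) (nat_lit 193) (nat_lit 196)) (PT.lf (nat_lit 26904) (nat_lit 6) (nat_lit 354) (nat_lit 1) (nat_lit 212) (nat_lit 193) (nat_lit 195)))))) (PT.nd (nat_lit 60762) (PT.nd (nat_lit 156) (PT.nd (nat_lit 78) (PT.lf (nat_lit 25840) (nat_lit 6) (nat_lit 340) (nat_lit 1) (nat_lit 213) (nat_lit 193) (nat_lit 194)) (PT.lf (nat_lit 24700) (nat_lit 3) (nat_lit 325) (nat_lit 0) (nat_lit 214) (nat_lit 193) (nat_lit 193))) (PT.nd (nat_lit 78) (PT.lf (nat_lit 23560) (nat_lit 6) (nat_lit 310) (nat_lit 0) (nat_lit 215) (nat_lit 193) (nat_lit 192)) (PT.nd (nat_lit 60450) (PT.lf (nat_lit 22344) (nat_lit 6) (nat_lit 294) (nat_lit 0) (nat_lit 216) (nat_lit 193) (nat_lit 191)) (PT.lf (nat_lit 22420) (nat_lit 6) (nat_lit 295) (nat_lit 5) (nat_lit 190) (nat_lit 194) (nat_lit 216))))) (PT.nd (nat_lit 156) (PT.nd (nat_lit 78) (PT.lf (nat_lit 23636) (nat_lit 6) (nat_lit 311) (nat_lit 5) (nat_lit 191) (nat_lit 194) (nat_lit 215)) (PT.lf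 (nat_lit 24776) (nat_lit 6) (nat_lit 326) (nat_lit 5) (nat_lit 192) (nat_lit 194) (nat_lit 214))) (PT.nd (nat_lit 78) (PT.lf (nat_lit 25840) (nat_lit 6) (nat_lit 340) (nat_lit 5) (nat_lit 193) (nat_lit 194) (nat_lit 213)) (PT.nd (nat_lit 78) (PT.lf (nat_lit 26828) (nat_lit 3) (nat_lit 353) (nat_lit 3) (nat_lit 194) (nat_lit 194) (nat_lit 212)) (PT.lf (nat_lit 27816) (nat_lit 6) (nat_lit 366) (nat_lit 3) (nat_lit 195) (nat_lit 194) (nat_lit 211))))))))
noncomputable def pc20 : PT := (PT.nd (nat_lit 1404) (PT.nd (nat_lit 702) (PT.nd (nat_lit 312) (PT.nd (nat_lit 156) (PT.nd (nat_lit 78) (PT.lf (nat_lit 28728) (nat_lit 6) (nat_lit 378) (nat_lit 3) (nat_lit 196) (nat_lit 194) (nat_lit 210)) (PT.lf (nat_lit 29564) (nat_lit 6) (nat_lit 389) (nat_lit 3) (nat_lit 197) (nat_lit 194) (nat_lit 209))) (PT.nd (nat_lit 78) (PT.lf (nat_lit 30324) (nat_lit 6) (nat_lit 399) (nat_lit 3) (nat_lit 198) (nat_lit 194) (nat_lit 208))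 (PT.lf (nat_lit 31008) (nat_lit 6) (nat_lit 408) (nat_lit 3) (nat_lit 199) (nat_lit 194) (nat_lit 207)))) (PT.nd (nat_lit 156) (PT.nd (nat_lit 78) (PT.lf (nat_lit 31616) (nat_lit 6) (nat_lit 416) (nat_lit 3) (nat_lit 200) (nat_lit 194) (nat_lit 206)) (PT.lf (nat_lit 31692) (nat_lit 6) (nat_lit 417) (nat_lit 3) (nat_lit 201) (nat_lit 194) (nat_lit 205))) (PT.nd (nat_lit 78) (PT.lf (nat_lit 31768) (nat_lit 6) (nat_lit 418) (nat_lit 3) (nat_lit 202) (nat_lit 194) (nat_lit 204)) (PT.nd (nat_lit 78) (PT.lf (nat_lit 31844) (nat_lit 3) (nat_lit 419) (nat_lit 1) (nat_lit 203) (nat_lit 194) (nat_lit 203)) (PT.lf (nat_lit 31768) (nat_lit 6) (nat_lit 418) (nat_lit 1) (nat_lit 204) (nat_lit 194) (nat_lit 202)))))) (PT.nd (nat_lit 312) (PT.nd (nat_lit 156) (PT.nd (nat_lit 78) (PT.lf (nat_lit 31692) (nat_lit 6) (nat_lit 417) (nat_lit 1) (nat_lit 205) (nat_lit 194) (nat_lit 201)) (PT.lf (nat_lit 31616) (nat_lit 6) (nat_lit 416)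 (nat_lit 1) (nat_lit 206) (nat_lit 194) (nat_lit 200))) (PT.nd (nat_lit 78) (PT.lf (nat_lit 31008) (nat_lit 6) (nat_lit 408) (nat_lit 1) (nat_lit 207) (nat_lit 194) (nat_lit 199)) (PT.lf (nat_lit 30324) (nat_lit 6) (nat_lit 399) (nat_lit 1) (nat_lit 208) (nat_lit 194) (nat_lit 198)))) (PT.nd (nat_lit 156) (PT.nd (nat_lit 78) (PT.lf (nat_lit 29564) (nat_lit 6) (nat_lit 389) (nat_lit 1) (nat_lit 209) (nat_lit 194) (nat_lit 197)) (PT.lf (nat_lit 28728) (nat_lit 6) (nat_lit 378) (nat_lit 1) (nat_lit 210) (nat_lit 194) (nat_lit 196))) (PT.nd (nat_lit 78) (PT.lf (nat_lit 27816) (nat_lit 6) (nat_lit 366) (nat_lit 1) (nat_lit 211) (nat_lit 194) (nat_lit 195)) (PT.nd (nat_lit 78) (PT.lf (nat_lit 26828) (nat_lit 3) (nat_lit 353) (nat_lit 0) (nat_lit 212) (nat_lit 194) (nat_lit 194)) (PT.lf (nat_lit 25840) (nat_lit 6) (nat_lit 340) (nat_lit 0) (nat_lit 213) (nat_lit 194) (nat_lit 193))))))) (PT.nd (nat_lit 60996) (PT.nd (nat_lit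 60606) (PT.nd (nat_lit 156) (PT.nd (nat_lit 78) (PT.lf (nat_lit 24776) (nat_lit 6) (nat_lit 326) (nat_lit 0) (nat_lit 214) (nat_lit 194) (nat_lit 192)) (PT.lf (nat_lit 23636) (nat_lit 6) (nat_lit 311) (nat_lit 0) (nat_lit 215) (nat_lit 194) (nat_lit 191))) (PT.nd (nat_lit 60372) (PT.lf (nat_lit 22420) (nat_lit 6) (nat_lit 295) (nat_lit 0) (nat_lit 216) (nat_lit 194) (nat_lit 190)) (PT.lf (nat_lit 22496) (nat_lit 6) (nat_lit 296) (nat_lit 5) (nat_lit 189) (nat_lit 195) (nat_lit 216)))) (PT.nd (nat_lit 156) (PT.nd (nat_lit 78) (PT.lf (nat_lit 23712) (nat_lit 6) (nat_lit 312) (nat_lit 5) (nat_lit 190) (nat_lit 195) (nat_lit 215)) (PT.lf (nat_lit 24852) (nat_lit 6) (nat_lit 327) (nat_lit 5) (nat_lit 191) (nat_lit 195) (nat_lit 214))) (PT.nd (nat_lit 78) (PT.lf (nat_lit 25916) (nat_lit 6) (nat_lit 341) (nat_lit 5) (nat_lit 192) (nat_lit 195) (nat_lit 213)) (PT.nd (nat_lit 78) (PT.lf (nat_lit 26904) (nat_lit 6) (nat_lit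 354) (nat_lit 5) (nat_lit 193) (nat_lit 195) (nat_lit 212)) (PT.lf (nat_lit 27816) (nat_lit 6) (nat_lit 366) (nat_lit 5) (nat_lit 194) (nat_lit 195) (nat_lit 211)))))) (PT.nd (nat_lit 390) (PT.nd (nat_lit 156) (PT.nd (nat_lit 78) (PT.lf (nat_lit 28652) (nat_lit 3) (nat_lit 377) (nat_lit 3) (nat_lit 195) (nat_lit 195) (nat_lit 210)) (PT.lf (nat_lit 29488) (nat_lit 6) (nat_lit 388) (nat_lit 3) (nat_lit 196) (nat_lit 195) (nat_lit 209))) (PT.nd (nat_lit 78) (PT.lf (nat_lit 30248) (nat_lit 6) (nat_lit 398) (nat_lit 3) (nat_lit 197) (nat_lit 195) (nat_lit 208)) (PT.nd (nat_lit 78) (PT.lf (nat_lit 30932) (nat_lit 6) (nat_lit 407) (nat_lit 3) (nat_lit 198) (nat_lit 195) (nat_lit 207)) (PT.lf (nat_lit 31540) (nat_lit 6) (nat_lit 415) (nat_lit 3) (nat_lit 199) (nat_lit 195) (nat_lit 206))))) (PT.nd (nat_lit 156) (PT.nd (nat_lit 78) (PT.lf (nat_lit 32072) (nat_lit 6) (nat_lit 422) (nat_lit 3) (nat_lit 200) (nat_lit 195) (nat_lit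 205)) (PT.lf (nat_lit 32148) (nat_lit 6) (nat_lit 423) (nat_lit 3) (nat_lit 201) (nat_lit 195) (nat_lit 204))) (PT.nd (nat_lit 78) (PT.lf (nat_lit 32224) (nat_lit 6) (nat_lit 424) (nat_lit 3) (nat_lit 202) (nat_lit 195) (nat_lit 203)) (PT.nd (nat_lit 78) (PT.lf (nat_lit 32224) (nat_lit 6) (nat_lit 424) (nat_lit 1) (nat_lit 203) (nat_lit 195) (nat_lit 202)) (PT.lf (nat_lit 32148) (nat_lit 6) (nat_lit 423) (nat_lit 1) (nat_lit 204) (nat_lit 195) (nat_lit 201))))))))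
noncomputable def pc21 : PT := (PT.nd (nat_lit 61698) (PT.nd (nat_lit 702) (PT.nd (nat_lit 312) (PT.nd (nat_lit 156) (PT.nd (nat_lit 78) (PT.lf (nat_lit 32072) (nat_lit 6) (nat_lit 422) (nat_lit 1) (nat_lit 205) (nat_lit 195) (nat_lit 200)) (PT.lf (nat_lit 31540) (nat_lit 6) (nat_lit 415) (nat_lit 1) (nat_lit 206) (nat_lit 195) (nat_lit 199))) (PT.nd (nat_lit 78) (PT.lf (nat_lit 30932) (nat_lit 6) (nat_lit 407) (nat_lit 1) (nat_lit 207) (nat_lit 195) (nat_lit 198)) (PT.lf (nat_lit 30248) (nat_lit 6) (nat_lit 398) (nat_lit 1) (nat_lit 208) (nat_lit 195) (nat_lit 197)))) (PT.nd (nat_lit 156) (PT.nd (nat_lit 78) (PT.lf (nat_lit 29488) (nat_lit 6) (nat_lit 388) (nat_lit 1) (nat_lit 209) (nat_lit 195) (nat_lit 196)) (PT.lf (nat_lit 28652) (nat_lit 3) (nat_lit 377) (nat_lit 0) (nat_lit 210) (nat_lit 195) (nat_lit 195))) (PT.nd (nat_lit 78) (PT.lf (nat_lit 27816) (nat_lit 6) (nat_lit 366) (nat_lit 0) (nat_lit 211) (nat_lit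 195) (nat_lit 194)) (PT.nd (nat_lit 78) (PT.lf (nat_lit 26904) (nat_lit 6) (nat_lit 354) (nat_lit 0) (nat_lit 212) (nat_lit 195) (nat_lit 193)) (PT.lf (nat_lit 25916) (nat_lit 6) (nat_lit 341) (nat_lit 0) (nat_lit 213) (nat_lit 195) (nat_lit 192)))))) (PT.nd (nat_lit 60606) (PT.nd (nat_lit 156) (PT.nd (nat_lit 78) (PT.lf (nat_lit 24852) (nat_lit 6) (nat_lit 327) (nat_lit 0) (nat_lit 214) (nat_lit 195) (nat_lit 191)) (PT.lf (nat_lit 23712) (nat_lit 6) (nat_lit 312) (nat_lit 0) (nat_lit 215) (nat_lit 195) (nat_lit 190))) (PT.nd (nat_lit 60294) (PT.lf (nat_lit 22496) (nat_lit 6) (nat_lit 296) (nat_lit 0) (nat_lit 216) (nat_lit 195) (nat_lit 189)) (PT.nd (nat_lit 78) (PT.lf (nat_lit 22572) (nat_lit 6) (nat_lit 297) (nat_lit 5) (nat_lit 188) (nat_lit 196) (nat_lit 216)) (PT.lf (nat_lit 23788) (nat_lit 6) (nat_lit 313) (nat_lit 5) (nat_lit 189) (nat_lit 196) (nat_lit 215))))) (PT.nd (nat_lit 156) (PT.nd (nat_lit 78) (PT.lf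 (nat_lit 24928) (nat_lit 6) (nat_lit 328) (nat_lit 5) (nat_lit 190) (nat_lit 196) (nat_lit 214)) (PT.lf (nat_lit 25992) (nat_lit 6) (nat_lit 342) (nat_lit 5) (nat_lit 191) (nat_lit 196) (nat_lit 213))) (PT.nd (nat_lit 78) (PT.lf (nat_lit 26980) (nat_lit 6) (nat_lit 355) (nat_lit 5) (nat_lit 192) (nat_lit 196) (nat_lit 212)) (PT.nd (nat_lit 78) (PT.lf (nat_lit 27892) (nat_lit 6) (nat_lit 367) (nat_lit 5) (nat_lit 193) (nat_lit 196) (nat_lit 211)) (PT.lf (nat_lit 28728) (nat_lit 6) (nat_lit 378) (nat_lit 5) (nat_lit 194) (nat_lit 196) (nat_lit 210))))))) (PT.nd (nat_lit 702) (PT.nd (nat_lit 312) (PT.nd (nat_lit 156) (PT.nd (nat_lit 78) (PT.lf (nat_lit 29488) (nat_lit 6) (nat_lit 388) (nat_lit 5) (nat_lit 195) (nat_lit 196) (nat_lit 209)) (PT.lf (nat_lit 30172) (nat_lit 3) (nat_lit 397) (nat_lit 3) (nat_lit 196) (nat_lit 196) (nat_lit 208))) (PT.nd (nat_lit 78) (PT.lf (nat_lit 30856) (nat_lit 6) (nat_lit 406) (nat_lit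 3) (nat_lit 197) (nat_lit 196) (nat_lit 207)) (PT.lf (nat_lit 31464) (nat_lit 6) (nat_lit 414) (nat_lit 3) (nat_lit 198) (nat_lit 196) (nat_lit 206)))) (PT.nd (nat_lit 156) (PT.nd (nat_lit 78) (PT.lf (nat_lit 31996) (nat_lit 6) (nat_lit 421) (nat_lit 3) (nat_lit 199) (nat_lit 196) (nat_lit 205)) (PT.lf (nat_lit 32452) (nat_lit 6) (nat_lit 427) (nat_lit 3) (nat_lit 200) (nat_lit 196) (nat_lit 204))) (PT.nd (nat_lit 78) (PT.lf (nat_lit 32528) (nat_lit 6) (nat_lit 428) (nat_lit 3) (nat_lit 201) (nat_lit 196) (nat_lit 203)) (PT.nd (nat_lit 78) (PT.lf (nat_lit 32604) (nat_lit 3) (nat_lit 429) (nat_lit 1) (nat_lit 202) (nat_lit 196) (nat_lit 202)) (PT.lf (nat_lit 32528) (nat_lit 6) (nat_lit 428) (nat_lit 1) (nat_lit 203) (nat_lit 196) (nat_lit 201)))))) (PT.nd (nat_lit 390) (PT.nd (nat_lit 156) (PT.nd (nat_lit 78) (PT.lf (nat_lit 32452) (nat_lit 6) (nat_lit 427) (nat_lit 1) (nat_lit 204) (nat_lit 196) (nat_lit 200)) (PT.lf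 (nat_lit 31996) (nat_lit 6) (nat_lit 421) (nat_lit 1) (nat_lit 205) (nat_lit 196) (nat_lit 199))) (PT.nd (nat_lit 78) (PT.lf (nat_lit 31464) (nat_lit 6) (nat_lit 414) (nat_lit 1) (nat_lit 206) (nat_lit 196) (nat_lit 198)) (PT.nd (nat_lit 78) (PT.lf (nat_lit 30856) (nat_lit 6) (nat_lit 406) (nat_lit 1) (nat_lit 207) (nat_lit 196) (nat_lit 197)) (PT.lf (nat_lit 30172) (nat_lit 3) (nat_lit 397) (nat_lit 0) (nat_lit 208) (nat_lit 196) (nat_lit 196))))) (PT.nd (nat_lit 156) (PT.nd (nat_lit 78) (PT.lf (nat_lit 29488) (nat_lit 6) (nat_lit 388) (nat_lit 0) (nat_lit 209) (nat_lit 196) (nat_lit 195)) (PT.lf (nat_lit 28728) (nat_lit 6) (nat_lit 378) (nat_lit 0) (nat_lit 210) (nat_lit 196) (nat_lit 194))) (PT.nd (nat_lit 78) (PT.lf (nat_lit 27892) (nat_lit 6) (nat_lit 367) (nat_lit 0) (nat_lit 211) (nat_lit 196) (nat_lit 193)) (PT.nd (nat_lit 78) (PT.lf (nat_lit 26980) (nat_lit 6) (nat_lit 355) (nat_lit 0) (nat_lit 212) (nat_lit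 196) (nat_lit 192)) (PT.lf (nat_lit 25992) (nat_lit 6) (nat_lit 342) (nat_lit 0) (nat_lit 213) (nat_lit 196) (nat_lit 191))))))))
noncomputable def pc22 : PT := (PT.nd (nat_lit 61620) (PT.nd (nat_lit 60840) (PT.nd (nat_lit 60450) (PT.nd (nat_lit 156) (PT.nd (nat_lit 78) (PT.lf (nat_lit 24928) (nat_lit 6) (nat_lit 328) (nat_lit 0) (nat_lit 214) (nat_lit 196) (nat_lit 190)) (PT.lf (nat_lit 23788) (nat_lit 6) (nat_lit 313) (nat_lit 0) (nat_lit 215) (nat_lit 196) (nat_lit 189))) (PT.nd (nat_lit 60216) (PT.lf (nat_lit 22572) (nat_lit 6) (nat_lit 297) (nat_lit 0) (nat_lit 216) (nat_lit 196) (nat_lit 188)) (PT.lf (nat_lit 22648) (nat_lit 6) (nat_lit 298) (nat_lit 5) (nat_lit 187) (nat_lit 197) (nat_lit 216)))) (PT.nd (nat_lit 156) (PT.nd (nat_lit 78) (PT.lf (nat_lit 23864) (nat_lit 6) (nat_lit 314) (nat_lit 5) (nat_lit 188) (nat_lit 197) (nat_lit 215)) (PT.lf (nat_lit 25004) (nat_lit 6) (nat_lit 329) (nat_lit 5) (nat_lit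 189) (nat_lit 197) (nat_lit 214))) (PT.nd (nat_lit 78) (PT.lf (nat_lit 26068) (nat_lit 6) (nat_lit 343) (nat_lit 5) (nat_lit 190) (nat_lit 197) (nat_lit 213)) (PT.nd (nat_lit 78) (PT.lf (nat_lit 27056) (nat_lit 6) (nat_lit 356) (nat_lit 5) (nat_lit 191) (nat_lit 197) (nat_lit 212)) (PT.lf (nat_lit 27968) (nat_lit 6) (nat_lit 368) (nat_lit 5) (nat_lit 192) (nat_lit 197) (nat_lit 211)))))) (PT.nd (nat_lit 390) (PT.nd (nat_lit 156) (PT.nd (nat_lit 78) (PT.lf (nat_lit 28804) (nat_lit 6) (nat_lit 379) (nat_lit 5) (nat_lit 193) (nat_lit 197) (nat_lit 210)) (PT.lf (nat_lit 29564) (nat_lit 6) (nat_lit 389) (nat_lit 5) (nat_lit 194) (nat_lit 197) (nat_lit 209))) (PT.nd (nat_lit 78) (PT.lf (nat_lit 30248) (nat_lit 6) (nat_lit 398) (nat_lit 5) (nat_lit 195) (nat_lit 197) (nat_lit 208)) (PT.nd (nat_lit 78) (PT.lf (nat_lit 30856) (nat_lit 6) (nat_lit 406) (nat_lit 5) (nat_lit 196) (nat_lit 197) (nat_lit 207)) (PT.lf (nat_lit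 31388) (nat_lit 3) (nat_lit 413) (nat_lit 3) (nat_lit 197) (nat_lit 197) (nat_lit 206))))) (PT.nd (nat_lit 156) (PT.nd (nat_lit 78) (PT.lf (nat_lit 31920) (nat_lit 6) (nat_lit 420) (nat_lit 3) (nat_lit 198) (nat_lit 197) (nat_lit 205)) (PT.lf (nat_lit 32376) (nat_lit 6) (nat_lit 426) (nat_lit 3) (nat_lit 199) (nat_lit 197) (nat_lit 204))) (PT.nd (nat_lit 78) (PT.lf (nat_lit 32756) (nat_lit 6) (nat_lit 431) (nat_lit 3) (nat_lit 200) (nat_lit 197) (nat_lit 203)) (PT.nd (nat_lit 78) (PT.lf (nat_lit 32832) (nat_lit 6) (nat_lit 432) (nat_lit 3) (nat_lit 201) (nat_lit 197) (nat_lit 202)) (PT.lf (nat_lit 32832) (nat_lit 6) (nat_lit 432) (nat_lit 1) (nat_lit 202) (nat_lit 197) (nat_lit 201))))))) (PT.nd (nat_lit 702) (PT.nd (nat_lit 312) (PT.nd (nat_lit 156) (PT.nd (nat_lit 78) (PT.lf (nat_lit 32756) (nat_lit 6) (nat_lit 431) (nat_lit 1) (nat_lit 203) (nat_lit 197) (nat_lit 200)) (PT.lf (nat_lit 32376) (nat_lit 6) (nat_lit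 426) (nat_lit 1) (nat_lit 204) (nat_lit 197) (nat_lit 199))) (PT.nd (nat_lit 78) (PT.lf (nat_lit 31920) (nat_lit 6) (nat_lit 420) (nat_lit 1) (nat_lit 205) (nat_lit 197) (nat_lit 198)) (PT.lf (nat_lit 31388) (nat_lit 3) (nat_lit 413) (nat_lit 0) (nat_lit 206) (nat_lit 197) (nat_lit 197)))) (PT.nd (nat_lit 156) (PT.nd (nat_lit 78) (PT.lf (nat_lit 30856) (nat_lit 6) (nat_lit 406) (nat_lit 0) (nat_lit 207) (nat_lit 197) (nat_lit 196)) (PT.lf (nat_lit 30248) (nat_lit 6) (nat_lit 398) (nat_lit 0) (nat_lit 208) (nat_lit 197) (nat_lit 195))) (PT.nd (nat_lit 78) (PT.lf (nat_lit 29564) (nat_lit 6) (nat_lit 389) (nat_lit 0) (nat_lit 209) (nat_lit 197) (nat_lit 194)) (PT.nd (nat_lit 78) (PT.lf (nat_lit 28804) (nat_lit 6) (nat_lit 379) (nat_lit 0) (nat_lit 210) (nat_lit 197) (nat_lit 193)) (PT.lf (nat_lit 27968) (nat_lit 6) (nat_lit 368) (nat_lit 0) (nat_lit 211) (nat_lit 197) (nat_lit 192)))))) (PT.nd (nat_lit 60450) (PT.nd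 (nat_lit 156) (PT.nd (nat_lit 78) (PT.lf (nat_lit 27056) (nat_lit 6) (nat_lit 356) (nat_lit 0) (nat_lit 212) (nat_lit 197) (nat_lit 191)) (PT.lf (nat_lit 26068) (nat_lit 6) (nat_lit 343) (nat_lit 0) (nat_lit 213) (nat_lit 197) (nat_lit 190))) (PT.nd (nat_lit 78) (PT.lf (nat_lit 25004) (nat_lit 6) (nat_lit 329) (nat_lit 0) (nat_lit 214) (nat_lit 197) (nat_lit 189)) (PT.nd (nat_lit 78) (PT.lf (nat_lit 23864) (nat_lit 6) (nat_lit 314) (nat_lit 0) (nat_lit 215) (nat_lit 197) (nat_lit 188)) (PT.lf (nat_lit 22648) (nat_lit 6) (nat_lit 298) (nat_lit 0) (nat_lit 216) (nat_lit 197) (nat_lit 187))))) (PT.nd (nat_lit 156) (PT.nd (nat_lit 78) (PT.lf (nat_lit 22724) (nat_lit 6) (nat_lit 299) (nat_lit 5) (nat_lit 186) (nat_lit 198) (nat_lit 216)) (PT.lf (nat_lit 23940) (nat_lit 6) (nat_lit 315) (nat_lit 5) (nat_lit 187) (nat_lit 198) (nat_lit 215))) (PT.nd (nat_lit 78) (PT.lf (nat_lit 25080) (nat_lit 6) (nat_lit 330) (nat_lit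 5) (nat_lit 188) (nat_lit 198) (nat_lit 214)) (PT.nd (nat_lit 78) (PT.lf (nat_lit 26144) (nat_lit 6) (nat_lit 344) (nat_lit 5) (nat_lit 189) (nat_lit 198) (nat_lit 213)) (PT.lf (nat_lit 27132) (nat_lit 6) (nat_lit 357) (nat_lit 5) (nat_lit 190) (nat_lit 198) (nat_lit 212))))))))
noncomputable def pc23 : PT := (PT.nd (nat_lit 1482) (PT.nd (nat_lit 702) (PT.nd (nat_lit 312) (PT.nd (nat_lit 156) (PT.nd (nat_lit 78) (PT.lf (nat_lit 28044) (nat_lit 6) (nat_lit 369) (nat_lit 5) (nat_lit 191) (nat_lit 198) (nat_lit 211)) (PT.lf (nat_lit 28880) (nat_lit 6) (nat_lit 380) (nat_lit 5) (nat_lit 192) (nat_lit 198) (nat_lit 210))) (PT.nd (nat_lit 78) (PT.lf (nat_lit 29640) (nat_lit 6) (nat_lit 390) (nat_lit 5) (nat_lit 193) (nat_lit 198) (nat_lit 209)) (PT.lf (nat_lit 30324) (nat_lit 6) (nat_lit 399) (nat_lit 5) (nat_lit 194) (nat_lit 198) (nat_lit 208)))) (PT.nd (nat_lit 156) (PT.nd (nat_lit 78) (PT.lf (nat_lit 30932) (nat_lit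 6) (nat_lit 407) (nat_lit 5) (nat_lit 195) (nat_lit 198) (nat_lit 207)) (PT.lf (nat_lit 31464) (nat_lit 6) (nat_lit 414) (nat_lit 5) (nat_lit 196) (nat_lit 198) (nat_lit 206))) (PT.nd (nat_lit 78) (PT.lf (nat_lit 31920) (nat_lit 6) (nat_lit 420) (nat_lit 5) (nat_lit 197) (nat_lit 198) (nat_lit 205)) (PT.nd (nat_lit 78) (PT.lf (nat_lit 32300) (nat_lit 3) (nat_lit 425) (nat_lit 3) (nat_lit 198) (nat_lit 198) (nat_lit 204)) (PT.lf (nat_lit 32680) (nat_lit 6) (nat_lit 430) (nat_lit 3) (nat_lit 199) (nat_lit 198) (nat_lit 203)))))) (PT.nd (nat_lit 390) (PT.nd (nat_lit 156) (PT.nd (nat_lit 78) (PT.lf (nat_lit 32984) (nat_lit 6) (nat_lit 434) (nat_lit 3) (nat_lit 200) (nat_lit 198) (nat_lit 202)) (PT.lf (nat_lit 33060) (nat_lit 3) (nat_lit 435) (nat_lit 1) (nat_lit 201) (nat_lit 198) (nat_lit 201))) (PT.nd (nat_lit 78) (PT.lf (nat_lit 32984) (nat_lit 6) (nat_lit 434) (nat_lit 1) (nat_lit 202) (nat_lit 198) (nat_lit 200))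 (PT.nd (nat_lit 78) (PT.lf (nat_lit 32680) (nat_lit 6) (nat_lit 430) (nat_lit 1) (nat_lit 203) (nat_lit 198) (nat_lit 199)) (PT.lf (nat_lit 32300) (nat_lit 3) (nat_lit 425) (nat_lit 0) (nat_lit 204) (nat_lit 198) (nat_lit 198))))) (PT.nd (nat_lit 156) (PT.nd (nat_lit 78) (PT.lf (nat_lit 31920) (nat_lit 6) (nat_lit 420) (nat_lit 0) (nat_lit 205) (nat_lit 198) (nat_lit 197)) (PT.lf (nat_lit 31464) (nat_lit 6) (nat_lit 414) (nat_lit 0) (nat_lit 206) (nat_lit 198) (nat_lit 196))) (PT.nd (nat_lit 78) (PT.lf (nat_lit 30932) (nat_lit 6) (nat_lit 407) (nat_lit 0) (nat_lit 207) (nat_lit 198) (nat_lit 195)) (PT.nd (nat_lit 78) (PT.lf (nat_lit 30324) (nat_lit 6) (nat_lit 399) (nat_lit 0) (nat_lit 208) (nat_lit 198) (nat_lit 194)) (PT.lf (nat_lit 29640) (nat_lit 6) (nat_lit 390) (nat_lit 0) (nat_lit 209) (nat_lit 198) (nat_lit 193))))))) (PT.nd (nat_lit 60606) (PT.nd (nat_lit 312) (PT.nd (nat_lit 156) (PT.nd (nat_lit 78) (PT.lf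 (nat_lit 28880) (nat_lit 6) (nat_lit 380) (nat_lit 0) (nat_lit 210) (nat_lit 198) (nat_lit 192)) (PT.lf (nat_lit 28044) (nat_lit 6) (nat_lit 369) (nat_lit 0) (nat_lit 211) (nat_lit 198) (nat_lit 191))) (PT.nd (nat_lit 78) (PT.lf (nat_lit 27132) (nat_lit 6) (nat_lit 357) (nat_lit 0) (nat_lit 212) (nat_lit 198) (nat_lit 190)) (PT.lf (nat_lit 26144) (nat_lit 6) (nat_lit 344) (nat_lit 0) (nat_lit 213) (nat_lit 198) (nat_lit 189)))) (PT.nd (nat_lit 156) (PT.nd (nat_lit 78) (PT.lf (nat_lit 25080) (nat_lit 6) (nat_lit 330) (nat_lit 0) (nat_lit 214) (nat_lit 198) (nat_lit 188)) (PT.lf (nat_lit 23940) (nat_lit 6) (nat_lit 315) (nat_lit 0) (nat_lit 215) (nat_lit 198) (nat_lit 187))) (PT.nd (nat_lit 59982) (PT.lf (nat_lit 22724) (nat_lit 6) (nat_lit 299) (nat_lit 0) (nat_lit 216) (nat_lit 198) (nat_lit 186)) (PT.nd (nat_lit 78) (PT.lf (nat_lit 21508) (nat_lit 6) (nat_lit 283) (nat_lit 5) (nat_lit 184) (nat_lit 199) (nat_lit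 217)) (PT.lf (nat_lit 22800) (nat_lit 6) (nat_lit 300) (nat_lit 5) (nat_lit 185) (nat_lit 199) (nat_lit 216)))))) (PT.nd (nat_lit 390) (PT.nd (nat_lit 156) (PT.nd (nat_lit 78) (PT.lf (nat_lit 24016) (nat_lit 6) (nat_lit 316) (nat_lit 5) (nat_lit 186) (nat_lit 199) (nat_lit 215)) (PT.lf (nat_lit 25156) (nat_lit 6) (nat_lit 331) (nat_lit 5) (nat_lit 187) (nat_lit 199) (nat_lit 214))) (PT.nd (nat_lit 78) (PT.lf (nat_lit 26220) (nat_lit 6) (nat_lit 345) (nat_lit 5) (nat_lit 188) (nat_lit 199) (nat_lit 213)) (PT.nd (nat_lit 78) (PT.lf (nat_lit 27208) (nat_lit 6) (nat_lit 358) (nat_lit 5) (nat_lit 189) (nat_lit 199) (nat_lit 212)) (PT.lf (nat_lit 28120) (nat_lit 6) (nat_lit 370) (nat_lit 5) (nat_lit 190) (nat_lit 199) (nat_lit 211))))) (PT.nd (nat_lit 156) (PT.nd (nat_lit 78) (PT.lf (nat_lit 28956) (nat_lit 6) (nat_lit 381) (nat_lit 5) (nat_lit 191) (nat_lit 199) (nat_lit 210)) (PT.lf (nat_lit 29716) (nat_lit 6) (nat_lit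 391) (nat_lit 5) (nat_lit 192) (nat_lit 199) (nat_lit 209))) (PT.nd (nat_lit 78) (PT.lf (nat_lit 30400) (nat_lit 6) (nat_lit 400) (nat_lit 5) (nat_lit 193) (nat_lit 199) (nat_lit 208)) (PT.nd (nat_lit 78) (PT.lf (nat_lit 31008) (nat_lit 6) (nat_lit 408) (nat_lit 5) (nat_lit 194) (nat_lit 199) (nat_lit 207)) (PT.lf (nat_lit 31540) (nat_lit 6) (nat_lit 415) (nat_lit 5) (nat_lit 195) (nat_lit 199) (nat_lit 206))))))))
noncomputable def pc24 : PT := (PT.nd (nat_lit 1404) (PT.nd (nat_lit 702) (PT.nd (nat_lit 312) (PT.nd (nat_lit 156) (PT.nd (nat_lit 78) (PT.lf (nat_lit 31996) (nat_lit 6) (nat_lit 421) (nat_lit 5) (nat_lit 196) (nat_lit 199) (nat_lit 205)) (PT.lf (nat_lit 32376) (nat_lit 6) (nat_lit 426) (nat_lit 5) (nat_lit 197) (nat_lit 199) (nat_lit 204))) (PT.nd (nat_lit 78) (PT.lf (nat_lit 32680) (nat_lit 6) (nat_lit 430) (nat_lit 5) (nat_lit 198) (nat_lit 199) (nat_lit 203)) (PT.lf (nat_lit 32908) (nat_lit 3) (nat_lit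 433) (nat_lit 3) (nat_lit 199) (nat_lit 199) (nat_lit 202)))) (PT.nd (nat_lit 156) (PT.nd (nat_lit 78) (PT.lf (nat_lit 33136) (nat_lit 6) (nat_lit 436) (nat_lit 3) (nat_lit 200) (nat_lit 199) (nat_lit 201)) (PT.lf (nat_lit 33136) (nat_lit 6) (nat_lit 436) (nat_lit 1) (nat_lit 201) (nat_lit 199) (nat_lit 200))) (PT.nd (nat_lit 78) (PT.lf (nat_lit 32908) (nat_lit 3) (nat_lit 433) (nat_lit 0) (nat_lit 202) (nat_lit 199) (nat_lit 199)) (PT.nd (nat_lit 78) (PT.lf (nat_lit 32680) (nat_lit 6) (nat_lit 430) (nat_lit 0) (nat_lit 203) (nat_lit 199) (nat_lit 198)) (PT.lf (nat_lit 32376) (nat_lit 6) (nat_lit 426) (nat_lit 0) (nat_lit 204) (nat_lit 199) (nat_lit 197)))))) (PT.nd (nat_lit 312) (PT.nd (nat_lit 156) (PT.nd (nat_lit 78) (PT.lf (nat_lit 31996) (nat_lit 6) (nat_lit 421) (nat_lit 0) (nat_lit 205) (nat_lit 199) (nat_lit 196)) (PT.lf (nat_lit 31540) (nat_lit 6) (nat_lit 415) (nat_lit 0) (nat_lit 206) (nat_lit 199) (nat_lit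 195))) (PT.nd (nat_lit 78) (PT.lf (nat_lit 31008) (nat_lit 6) (nat_lit 408) (nat_lit 0) (nat_lit 207) (nat_lit 199) (nat_lit 194)) (PT.lf (nat_lit 30400) (nat_lit 6) (nat_lit 400) (nat_lit 0) (nat_lit 208) (nat_lit 199) (nat_lit 193)))) (PT.nd (nat_lit 156) (PT.nd (nat_lit 78) (PT.lf (nat_lit 29716) (nat_lit 6) (nat_lit 391) (nat_lit 0) (nat_lit 209) (nat_lit 199) (nat_lit 192)) (PT.lf (nat_lit 28956) (nat_lit 6) (nat_lit 381) (nat_lit 0) (nat_lit 210) (nat_lit 199) (nat_lit 191))) (PT.nd (nat_lit 78) (PT.lf (nat_lit 28120) (nat_lit 6) (nat_lit 370) (nat_lit 0) (nat_lit 211) (nat_lit 199) (nat_lit 190)) (PT.nd (nat_lit 78) (PT.lf (nat_lit 27208) (nat_lit 6) (nat_lit 358) (nat_lit 0) (nat_lit 212) (nat_lit 199) (nat_lit 189)) (PT.lf (nat_lit 26220) (nat_lit 6) (nat_lit 345) (nat_lit 0) (nat_lit 213) (nat_lit 199) (nat_lit 188))))))) (PT.nd (nat_lit 60450) (PT.nd (nat_lit 60060) (PT.nd (nat_lit 156) (PT.nd (nat_lit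 78) (PT.lf (nat_lit 25156) (nat_lit 6) (nat_lit 331) (nat_lit 0) (nat_lit 214) (nat_lit 199) (nat_lit 187)) (PT.lf (nat_lit 24016) (nat_lit 6) (nat_lit 316) (nat_lit 0) (nat_lit 215) (nat_lit 199) (nat_lit 186))) (PT.nd (nat_lit 78) (PT.lf (nat_lit 22800) (nat_lit 6) (nat_lit 300) (nat_lit 0) (nat_lit 216) (nat_lit 199) (nat_lit 185)) (PT.lf (nat_lit 21508) (nat_lit 6) (nat_lit 283) (nat_lit 0) (nat_lit 217) (nat_lit 199) (nat_lit 184)))) (PT.nd (nat_lit 156) (PT.nd (nat_lit 78) (PT.lf (nat_lit 21584) (nat_lit 6) (nat_lit 284) (nat_lit 5) (nat_lit 183) (nat_lit 200) (nat_lit 217)) (PT.lf (nat_lit 22876) (nat_lit 6) (nat_lit 301) (nat_lit 5) (nat_lit 184) (nat_lit 200) (nat_lit 216))) (PT.nd (nat_lit 78) (PT.lf (nat_lit 24092) (nat_lit 6) (nat_lit 317) (nat_lit 5) (nat_lit 185) (nat_lit 200) (nat_lit 215)) (PT.nd (nat_lit 78) (PT.lf (nat_lit 25232) (nat_lit 6) (nat_lit 332) (nat_lit 5) (nat_lit 186) (nat_lit 200)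 (nat_lit 214)) (PT.lf (nat_lit 26296) (nat_lit 6) (nat_lit 346) (nat_lit 5) (nat_lit 187) (nat_lit 200) (nat_lit 213)))))) (PT.nd (nat_lit 390) (PT.nd (nat_lit 156) (PT.nd (nat_lit 78) (PT.lf (nat_lit 27284) (nat_lit 6) (nat_lit 359) (nat_lit 5) (nat_lit 188) (nat_lit 200) (nat_lit 212)) (PT.lf (nat_lit 28196) (nat_lit 6) (nat_lit 371) (nat_lit 5) (nat_lit 189) (nat_lit 200) (nat_lit 211))) (PT.nd (nat_lit 78) (PT.lf (nat_lit 29032) (nat_lit 6) (nat_lit 382) (nat_lit 5) (nat_lit 190) (nat_lit 200) (nat_lit 210)) (PT.nd (nat_lit 78) (PT.lf (nat_lit 29792) (nat_lit 6) (nat_lit 392) (nat_lit 5) (nat_lit 191) (nat_lit 200) (nat_lit 209)) (PT.lf (nat_lit 30476) (nat_lit 6) (nat_lit 401) (nat_lit 5) (nat_lit 192) (nat_lit 200) (nat_lit 208))))) (PT.nd (nat_lit 156) (PT.nd (nat_lit 78) (PT.lf (nat_lit 31084) (nat_lit 6) (nat_lit 409) (nat_lit 5) (nat_lit 193) (nat_lit 200) (nat_lit 207)) (PT.lf (nat_lit 31616) (nat_lit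 6) (nat_lit 416) (nat_lit 5) (nat_lit 194) (nat_lit 200) (nat_lit 206))) (PT.nd (nat_lit 78) (PT.lf (nat_lit 32072) (nat_lit 6) (nat_lit 422) (nat_lit 5) (nat_lit 195) (nat_lit 200) (nat_lit 205)) (PT.nd (nat_lit 78) (PT.lf (nat_lit 32452) (nat_lit 6) (nat_lit 427) (nat_lit 5) (nat_lit 196) (nat_lit 200) (nat_lit 204)) (PT.lf (nat_lit 32756) (nat_lit 6) (nat_lit 431) (nat_lit 5) (nat_lit 197) (nat_lit 200) (nat_lit 203))))))))
noncomputable def pc25 : PT := (PT.nd (nat_lit 1482) (PT.nd (nat_lit 702) (PT.nd (nat_lit 312) (PT.nd (nat_lit 156) (PT.nd (nat_lit 78) (PT.lf (nat_lit 32984) (nat_lit 6) (nat_lit 434) (nat_lit 5) (nat_lit 198) (nat_lit 200) (nat_lit 202)) (PT.lf (nat_lit 33136) (nat_lit 6) (nat_lit 436) (nat_lit 5) (nat_lit 199) (nat_lit 200) (nat_lit 201))) (PT.nd (nat_lit 78) (PT.lf (nat_lit 33212) (nat_lit 1) (nat_lit 437) (nat_lit 0) (nat_lit 200) (nat_lit 200) (nat_lit 200)) (PT.lf (nat_lit 33136) (nat_lit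 6) (nat_lit 436) (nat_lit 0) (nat_lit 201) (nat_lit 200) (nat_lit 199)))) (PT.nd (nat_lit 156) (PT.nd (nat_lit 78) (PT.lf (nat_lit 32984) (nat_lit 6) (nat_lit 434) (nat_lit 0) (nat_lit 202) (nat_lit 200) (nat_lit 198)) (PT.lf (nat_lit 32756) (nat_lit 6) (nat_lit 431) (nat_lit 0) (nat_lit 203) (nat_lit 200) (nat_lit 197))) (PT.nd (nat_lit 78) (PT.lf (nat_lit 32452) (nat_lit 6) (nat_lit 427) (nat_lit 0) (nat_lit 204) (nat_lit 200) (nat_lit 196)) (PT.nd (nat_lit 78) (PT.lf (nat_lit 32072) (nat_lit 6) (nat_lit 422) (nat_lit 0) (nat_lit 205) (nat_lit 200) (nat_lit 195)) (PT.lf (nat_lit 31616) (nat_lit 6) (nat_lit 416) (nat_lit 0) (nat_lit 206) (nat_lit 200) (nat_lit 194)))))) (PT.nd (nat_lit 390) (PT.nd (nat_lit 156) (PT.nd (nat_lit 78) (PT.lf (nat_lit 31084) (nat_lit 6) (nat_lit 409) (nat_lit 0) (nat_lit 207) (nat_lit 200) (nat_lit 193)) (PT.lf (nat_lit 30476) (nat_lit 6) (nat_lit 401) (nat_lit 0) (nat_lit 208) (nat_lit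 200) (nat_lit 192))) (PT.nd (nat_lit 78) (PT.lf (nat_lit 29792) (nat_lit 6) (nat_lit 392) (nat_lit 0) (nat_lit 209) (nat_lit 200) (nat_lit 191)) (PT.nd (nat_lit 78) (PT.lf (nat_lit 29032) (nat_lit 6) (nat_lit 382) (nat_lit 0) (nat_lit 210) (nat_lit 200) (nat_lit 190)) (PT.lf (nat_lit 28196) (nat_lit 6) (nat_lit 371) (nat_lit 0) (nat_lit 211) (nat_lit 200) (nat_lit 189))))) (PT.nd (nat_lit 156) (PT.nd (nat_lit 78) (PT.lf (nat_lit 27284) (nat_lit 6) (nat_lit 359) (nat_lit 0) (nat_lit 212) (nat_lit 200) (nat_lit 188)) (PT.lf (nat_lit 26296) (nat_lit 6) (nat_lit 346) (nat_lit 0) (nat_lit 213) (nat_lit 200) (nat_lit 187))) (PT.nd (nat_lit 78) (PT.lf (nat_lit 25232) (nat_lit 6) (nat_lit 332) (nat_lit 0) (nat_lit 214) (nat_lit 200) (nat_lit 186)) (PT.nd (nat_lit 78) (PT.lf (nat_lit 24092) (nat_lit 6) (nat_lit 317) (nat_lit 0) (nat_lit 215) (nat_lit 200) (nat_lit 185)) (PT.lf (nat_lit 22876) (nat_lit 6) (nat_lit 301) (nat_lit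 0) (nat_lit 216) (nat_lit 200) (nat_lit 184))))))) (PT.nd (nat_lit 60372) (PT.nd (nat_lit 59982) (PT.nd (nat_lit 59826) (PT.nd (nat_lit 59748) (PT.lf (nat_lit 21584) (nat_lit 6) (nat_lit 284) (nat_lit 0) (nat_lit 217) (nat_lit 200) (nat_lit 183)) (PT.lf (nat_lit 20824) (nat_lit 6) (nat_lit 274) (nat_lit 5) (nat_lit 182) (nat_lit 201) (nat_lit 217))) (PT.nd (nat_lit 78) (PT.lf (nat_lit 21660) (nat_lit 6) (nat_lit 285) (nat_lit 5) (nat_lit 183) (nat_lit 201) (nat_lit 216)) (PT.lf (nat_lit 22952) (nat_lit 6) (nat_lit 302) (nat_lit 5) (nat_lit 184) (nat_lit 201) (nat_lit 215)))) (PT.nd (nat_lit 156) (PT.nd (nat_lit 78) (PT.lf (nat_lit 24168) (nat_lit 6) (nat_lit 318) (nat_lit 5) (nat_lit 185) (nat_lit 201) (nat_lit 214)) (PT.lf (nat_lit 25308) (nat_lit 6) (nat_lit 333) (nat_lit 5) (nat_lit 186) (nat_lit 201) (nat_lit 213))) (PT.nd (nat_lit 78) (PT.lf (nat_lit 26372) (nat_lit 6) (nat_lit 347) (nat_lit 5) (nat_lit 187)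 (nat_lit 201) (nat_lit 212)) (PT.nd (nat_lit 78) (PT.lf (nat_lit 27360) (nat_lit 6) (nat_lit 360) (nat_lit 5) (nat_lit 188) (nat_lit 201) (nat_lit 211)) (PT.lf (nat_lit 28272) (nat_lit 6) (nat_lit 372) (nat_lit 5) (nat_lit 189) (nat_lit 201) (nat_lit 210)))))) (PT.nd (nat_lit 390) (PT.nd (nat_lit 156) (PT.nd (nat_lit 78) (PT.lf (nat_lit 29108) (nat_lit 6) (nat_lit 383) (nat_lit 5) (nat_lit 190) (nat_lit 201) (nat_lit 209)) (PT.lf (nat_lit 29868) (nat_lit 6) (nat_lit 393) (nat_lit 5) (nat_lit 191) (nat_lit 201) (nat_lit 208))) (PT.nd (nat_lit 78) (PT.lf (nat_lit 30552) (nat_lit 6) (nat_lit 402) (nat_lit 5) (nat_lit 192) (nat_lit 201) (nat_lit 207)) (PT.nd (nat_lit 78) (PT.lf (nat_lit 31160) (nat_lit 6) (nat_lit 410) (nat_lit 5) (nat_lit 193) (nat_lit 201) (nat_lit 206)) (PT.lf (nat_lit 31692) (nat_lit 6) (nat_lit 417) (nat_lit 5) (nat_lit 194) (nat_lit 201) (nat_lit 205))))) (PT.nd (nat_lit 156) (PT.nd (nat_lit 78)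 (PT.lf (nat_lit 32148) (nat_lit 6) (nat_lit 423) (nat_lit 5) (nat_lit 195) (nat_lit 201) (nat_lit 204)) (PT.lf (nat_lit 32528) (nat_lit 6) (nat_lit 428) (nat_lit 5) (nat_lit 196) (nat_lit 201) (nat_lit 203))) (PT.nd (nat_lit 78) (PT.lf (nat_lit 32832) (nat_lit 6) (nat_lit 432) (nat_lit 5) (nat_lit 197) (nat_lit 201) (nat_lit 202)) (PT.nd (nat_lit 78) (PT.lf (nat_lit 33060) (nat_lit 3) (nat_lit 435) (nat_lit 4) (nat_lit 198) (nat_lit 201) (nat_lit 201)) (PT.lf (nat_lit 33136) (nat_lit 6) (nat_lit 436) (nat_lit 4) (nat_lit 199) (nat_lit 201) (nat_lit 200))))))))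
noncomputable def pc26 : PT := (PT.nd (nat_lit 61074) (PT.nd (nat_lit 702) (PT.nd (nat_lit 312) (PT.nd (nat_lit 156) (PT.nd (nat_lit 78) (PT.lf (nat_lit 33136) (nat_lit 6) (nat_lit 436) (nat_lit 2) (nat_lit 200) (nat_lit 201) (nat_lit 199)) (PT.lf (nat_lit 33060) (nat_lit 3) (nat_lit 435) (nat_lit 0) (nat_lit 201) (nat_lit 201) (nat_lit 198))) (PT.nd (nat_lit 78) (PT.lf (nat_lit 32832) (nat_lit 6) (nat_lit 432) (nat_lit 0) (nat_lit 202) (nat_lit 201) (nat_lit 197)) (PT.lf (nat_lit 32528) (nat_lit 6) (nat_lit 428) (nat_lit 0) (nat_lit 203) (nat_lit 201) (nat_lit 196)))) (PT.nd (nat_lit 156) (PT.nd (nat_lit 78) (PT.lf (nat_lit 32148) (nat_lit 6) (nat_lit 423) (nat_lit 0) (nat_lit 204) (nat_lit 201) (nat_lit 195)) (PT.lf (nat_lit 31692) (nat_lit 6) (nat_lit 417) (nat_lit 0) (nat_lit 205) (nat_lit 201) (nat_lit 194))) (PT.nd (nat_lit 78) (PT.lf (nat_lit 31160) (nat_lit 6) (nat_lit 410) (nat_lit 0) (nat_lit 206) (nat_lit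 201) (nat_lit 193)) (PT.nd (nat_lit 78) (PT.lf (nat_lit 30552) (nat_lit 6) (nat_lit 402) (nat_lit 0) (nat_lit 207) (nat_lit 201) (nat_lit 192)) (PT.lf (nat_lit 29868) (nat_lit 6) (nat_lit 393) (nat_lit 0) (nat_lit 208) (nat_lit 201) (nat_lit 191)))))) (PT.nd (nat_lit 390) (PT.nd (nat_lit 156) (PT.nd (nat_lit 78) (PT.lf (nat_lit 29108) (nat_lit 6) (nat_lit 383) (nat_lit 0) (nat_lit 209) (nat_lit 201) (nat_lit 190)) (PT.lf (nat_lit 28272) (nat_lit 6) (nat_lit 372) (nat_lit 0) (nat_lit 210) (nat_lit 201) (nat_lit 189))) (PT.nd (nat_lit 78) (PT.lf (nat_lit 27360) (nat_lit 6) (nat_lit 360) (nat_lit 0) (nat_lit 211) (nat_lit 201) (nat_lit 188)) (PT.nd (nat_lit 78) (PT.lf (nat_lit 26372) (nat_lit 6) (nat_lit 347) (nat_lit 0) (nat_lit 212) (nat_lit 201) (nat_lit 187)) (PT.lf (nat_lit 25308) (nat_lit 6) (nat_lit 333) (nat_lit 0) (nat_lit 213) (nat_lit 201) (nat_lit 186))))) (PT.nd (nat_lit 156) (PT.nd (nat_lit 78) (PT.lf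 (nat_lit 24168) (nat_lit 6) (nat_lit 318) (nat_lit 0) (nat_lit 214) (nat_lit 201) (nat_lit 185)) (PT.lf (nat_lit 22952) (nat_lit 6) (nat_lit 302) (nat_lit 0) (nat_lit 215) (nat_lit 201) (nat_lit 184))) (PT.nd (nat_lit 78) (PT.lf (nat_lit 21660) (nat_lit 6) (nat_lit 285) (nat_lit 0) (nat_lit 216) (nat_lit 201) (nat_lit 183)) (PT.nd (nat_lit 59670) (PT.lf (nat_lit 20824) (nat_lit 6) (nat_lit 274) (nat_lit 0) (nat_lit 217) (nat_lit 201) (nat_lit 182)) (PT.lf (nat_lit 20216) (nat_lit 6) (nat_lit 266) (nat_lit 5) (nat_lit 181) (nat_lit 202) (nat_lit 217))))))) (PT.nd (nat_lit 702) (PT.nd (nat_lit 312) (PT.nd (nat_lit 156) (PT.nd (nat_lit 78) (PT.lf (nat_lit 20900) (nat_lit 6) (nat_lit 275) (nat_lit 5) (nat_lit 182) (nat_lit 202) (nat_lit 216)) (PT.lf (nat_lit 21736) (nat_lit 6) (nat_lit 286) (nat_lit 5) (nat_lit 183) (nat_lit 202) (nat_lit 215))) (PT.nd (nat_lit 78) (PT.lf (nat_lit 23028) (nat_lit 6) (nat_lit 303) (nat_lit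 5) (nat_lit 184) (nat_lit 202) (nat_lit 214)) (PT.lf (nat_lit 24244) (nat_lit 6) (nat_lit 319) (nat_lit 5) (nat_lit 185) (nat_lit 202) (nat_lit 213)))) (PT.nd (nat_lit 156) (PT.nd (nat_lit 78) (PT.lf (nat_lit 25384) (nat_lit 6) (nat_lit 334) (nat_lit 5) (nat_lit 186) (nat_lit 202) (nat_lit 212)) (PT.lf (nat_lit 26448) (nat_lit 6) (nat_lit 348) (nat_lit 5) (nat_lit 187) (nat_lit 202) (nat_lit 211))) (PT.nd (nat_lit 78) (PT.lf (nat_lit 27436) (nat_lit 6) (nat_lit 361) (nat_lit 5) (nat_lit 188) (nat_lit 202) (nat_lit 210)) (PT.nd (nat_lit 78) (PT.lf (nat_lit 28348) (nat_lit 6) (nat_lit 373) (nat_lit 5) (nat_lit 189) (nat_lit 202) (nat_lit 209)) (PT.lf (nat_lit 29184) (nat_lit 6) (nat_lit 384) (nat_lit 5) (nat_lit 190) (nat_lit 202) (nat_lit 208)))))) (PT.nd (nat_lit 390) (PT.nd (nat_lit 156) (PT.nd (nat_lit 78) (PT.lf (nat_lit 29944) (nat_lit 6) (nat_lit 394) (nat_lit 5) (nat_lit 191) (nat_lit 202) (nat_lit 207)) (PT.lf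 (nat_lit 30628) (nat_lit 6) (nat_lit 403) (nat_lit 5) (nat_lit 192) (nat_lit 202) (nat_lit 206))) (PT.nd (nat_lit 78) (PT.lf (nat_lit 31236) (nat_lit 6) (nat_lit 411) (nat_lit 5) (nat_lit 193) (nat_lit 202) (nat_lit 205)) (PT.nd (nat_lit 78) (PT.lf (nat_lit 31768) (nat_lit 6) (nat_lit 418) (nat_lit 5) (nat_lit 194) (nat_lit 202) (nat_lit 204)) (PT.lf (nat_lit 32224) (nat_lit 6) (nat_lit 424) (nat_lit 5) (nat_lit 195) (nat_lit 202) (nat_lit 203))))) (PT.nd (nat_lit 156) (PT.nd (nat_lit 78) (PT.lf (nat_lit 32604) (nat_lit 3) (nat_lit 429) (nat_lit 4) (nat_lit 196) (nat_lit 202) (nat_lit 202)) (PT.lf (nat_lit 32832) (nat_lit 6) (nat_lit 432) (nat_lit 4) (nat_lit 197) (nat_lit 202) (nat_lit 201))) (PT.nd (nat_lit 78) (PT.lf (nat_lit 32984) (nat_lit 6) (nat_lit 434) (nat_lit 4) (nat_lit 198) (nat_lit 202) (nat_lit 200)) (PT.nd (nat_lit 78) (PT.lf (nat_lit 32908) (nat_lit 3) (nat_lit 433) (nat_lit 2) (nat_lit 199) (nat_lit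 202) (nat_lit 199)) (PT.lf (nat_lit 32984) (nat_lit 6) (nat_lit 434) (nat_lit 2) (nat_lit 200) (nat_lit 202) (nat_lit 198))))))))
noncomputable def pc27 : PT := (PT.nd (nat_lit 60996) (PT.nd (nat_lit 702) (PT.nd (nat_lit 312) (PT.nd (nat_lit 156) (PT.nd (nat_lit 78) (PT.lf (nat_lit 32832) (nat_lit 6) (nat_lit 432) (nat_lit 2) (nat_lit 201) (nat_lit 202) (nat_lit 197)) (PT.lf (nat_lit 32604) (nat_lit 3) (nat_lit 429) (nat_lit 0) (nat_lit 202) (nat_lit 202) (nat_lit 196))) (PT.nd (nat_lit 78) (PT.lf (nat_lit 32224) (nat_lit 6) (nat_lit 424) (nat_lit 0) (nat_lit 203) (nat_lit 202) (nat_lit 195)) (PT.lf (nat_lit 31768) (nat_lit 6) (nat_lit 418) (nat_lit 0) (nat_lit 204) (nat_lit 202) (nat_lit 194)))) (PT.nd (nat_lit 156) (PT.nd (nat_lit 78) (PT.lf (nat_lit 31236) (nat_lit 6) (nat_lit 411) (nat_lit 0) (nat_lit 205) (nat_lit 202) (nat_lit 193)) (PT.lf (nat_lit 30628) (nat_lit 6) (nat_lit 403) (nat_lit 0) (nat_lit 206)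 (nat_lit 202) (nat_lit 192))) (PT.nd (nat_lit 78) (PT.lf (nat_lit 29944) (nat_lit 6) (nat_lit 394) (nat_lit 0) (nat_lit 207) (nat_lit 202) (nat_lit 191)) (PT.nd (nat_lit 78) (PT.lf (nat_lit 29184) (nat_lit 6) (nat_lit 384) (nat_lit 0) (nat_lit 208) (nat_lit 202) (nat_lit 190)) (PT.lf (nat_lit 28348) (nat_lit 6) (nat_lit 373) (nat_lit 0) (nat_lit 209) (nat_lit 202) (nat_lit 189)))))) (PT.nd (nat_lit 390) (PT.nd (nat_lit 156) (PT.nd (nat_lit 78) (PT.lf (nat_lit 27436) (nat_lit 6) (nat_lit 361) (nat_lit 0) (nat_lit 210) (nat_lit 202) (nat_lit 188)) (PT.lf (nat_lit 26448) (nat_lit 6) (nat_lit 348) (nat_lit 0) (nat_lit 211) (nat_lit 202) (nat_lit 187))) (PT.nd (nat_lit 78) (PT.lf (nat_lit 25384) (nat_lit 6) (nat_lit 334) (nat_lit 0) (nat_lit 212) (nat_lit 202) (nat_lit 186)) (PT.nd (nat_lit 78) (PT.lf (nat_lit 24244) (nat_lit 6) (nat_lit 319) (nat_lit 0) (nat_lit 213) (nat_lit 202) (nat_lit 185)) (PT.lf (nat_lit 23028)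 (nat_lit 6) (nat_lit 303) (nat_lit 0) (nat_lit 214) (nat_lit 202) (nat_lit 184))))) (PT.nd (nat_lit 156) (PT.nd (nat_lit 78) (PT.lf (nat_lit 21736) (nat_lit 6) (nat_lit 286) (nat_lit 0) (nat_lit 215) (nat_lit 202) (nat_lit 183)) (PT.lf (nat_lit 20900) (nat_lit 6) (nat_lit 275) (nat_lit 0) (nat_lit 216) (nat_lit 202) (nat_lit 182))) (PT.nd (nat_lit 59592) (PT.lf (nat_lit 20216) (nat_lit 6) (nat_lit 266) (nat_lit 0) (nat_lit 217) (nat_lit 202) (nat_lit 181)) (PT.nd (nat_lit 78) (PT.lf (nat_lit 19608) (nat_lit 6) (nat_lit 258) (nat_lit 5) (nat_lit 180) (nat_lit 203) (nat_lit 217)) (PT.lf (nat_lit 20292) (nat_lit 6) (nat_lit 267) (nat_lit 5) (nat_lit 181) (nat_lit 203) (nat_lit 216))))))) (PT.nd (nat_lit 702) (PT.nd (nat_lit 312) (PT.nd (nat_lit 156) (PT.nd (nat_lit 78) (PT.lf (nat_lit 20976) (nat_lit 6) (nat_lit 276) (nat_lit 5) (nat_lit 182) (nat_lit 203) (nat_lit 215)) (PT.lf (nat_lit 21812) (nat_lit 6) (nat_lit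 287) (nat_lit 5) (nat_lit 183) (nat_lit 203) (nat_lit 214))) (PT.nd (nat_lit 78) (PT.lf (nat_lit 23104) (nat_lit 6) (nat_lit 304) (nat_lit 5) (nat_lit 184) (nat_lit 203) (nat_lit 213)) (PT.lf (nat_lit 24320) (nat_lit 6) (nat_lit 320) (nat_lit 5) (nat_lit 185) (nat_lit 203) (nat_lit 212)))) (PT.nd (nat_lit 156) (PT.nd (nat_lit 78) (PT.lf (nat_lit 25460) (nat_lit 6) (nat_lit 335) (nat_lit 5) (nat_lit 186) (nat_lit 203) (nat_lit 211)) (PT.lf (nat_lit 26524) (nat_lit 6) (nat_lit 349) (nat_lit 5) (nat_lit 187) (nat_lit 203) (nat_lit 210))) (PT.nd (nat_lit 78) (PT.lf (nat_lit 27512) (nat_lit 6) (nat_lit 362) (nat_lit 5) (nat_lit 188) (nat_lit 203) (nat_lit 209)) (PT.nd (nat_lit 78) (PT.lf (nat_lit 28424) (nat_lit 6) (nat_lit 374) (nat_lit 5) (nat_lit 189) (nat_lit 203) (nat_lit 208)) (PT.lf (nat_lit 29260) (nat_lit 6) (nat_lit 385) (nat_lit 5) (nat_lit 190) (nat_lit 203) (nat_lit 207)))))) (PT.nd (nat_lit 390) (PT.nd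 (nat_lit 156) (PT.nd (nat_lit 78) (PT.lf (nat_lit 30020) (nat_lit 6) (nat_lit 395) (nat_lit 5) (nat_lit 191) (nat_lit 203) (nat_lit 206)) (PT.lf (nat_lit 30704) (nat_lit 6) (nat_lit 404) (nat_lit 5) (nat_lit 192) (nat_lit 203) (nat_lit 205))) (PT.nd (nat_lit 78) (PT.lf (nat_lit 31312) (nat_lit 6) (nat_lit 412) (nat_lit 5) (nat_lit 193) (nat_lit 203) (nat_lit 204)) (PT.nd (nat_lit 78) (PT.lf (nat_lit 31844) (nat_lit 3) (nat_lit 419) (nat_lit 4) (nat_lit 194) (nat_lit 203) (nat_lit 203)) (PT.lf (nat_lit 32224) (nat_lit 6) (nat_lit 424) (nat_lit 4) (nat_lit 195) (nat_lit 203) (nat_lit 202))))) (PT.nd (nat_lit 156) (PT.nd (nat_lit 78) (PT.lf (nat_lit 32528) (nat_lit 6) (nat_lit 428) (nat_lit 4) (nat_lit 196) (nat_lit 203) (nat_lit 201)) (PT.lf (nat_lit 32756) (nat_lit 6) (nat_lit 431) (nat_lit 4) (nat_lit 197) (nat_lit 203) (nat_lit 200))) (PT.nd (nat_lit 78) (PT.lf (nat_lit 32680) (nat_lit 6) (nat_lit 430) (nat_lit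 4) (nat_lit 198) (nat_lit 203) (nat_lit 199)) (PT.nd (nat_lit 78) (PT.lf (nat_lit 32680) (nat_lit 6) (nat_lit 430) (nat_lit 2) (nat_lit 199) (nat_lit 203) (nat_lit 198)) (PT.lf (nat_lit 32756) (nat_lit 6) (nat_lit 431) (nat_lit 2) (nat_lit 200) (nat_lit 203) (nat_lit 197))))))))
noncomputable def pc28 : PT := (PT.nd (nat_lit 60762) (PT.nd (nat_lit 702) (PT.nd (nat_lit 312) (PT.nd (nat_lit 156) (PT.nd (nat_lit 78) (PT.lf (nat_lit 32528) (nat_lit 6) (nat_lit 428) (nat_lit 2) (nat_lit 201) (nat_lit 203) (nat_lit 196)) (PT.lf (nat_lit 32224) (nat_lit 6) (nat_lit 424) (nat_lit 2) (nat_lit 202) (nat_lit 203) (nat_lit 195))) (PT.nd (nat_lit 78) (PT.lf (nat_lit 31844) (nat_lit 3) (nat_lit 419) (nat_lit 0) (nat_lit 203) (nat_lit 203) (nat_lit 194)) (PT.lf (nat_lit 31312) (nat_lit 6) (nat_lit 412) (nat_lit 0) (nat_lit 204) (nat_lit 203) (nat_lit 193)))) (PT.nd (nat_lit 156) (PT.nd (nat_lit 78) (PT.lf (nat_lit 30704) (nat_lit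 6) (nat_lit 404) (nat_lit 0) (nat_lit 205) (nat_lit 203) (nat_lit 192)) (PT.lf (nat_lit 30020) (nat_lit 6) (nat_lit 395) (nat_lit 0) (nat_lit 206) (nat_lit 203) (nat_lit 191))) (PT.nd (nat_lit 78) (PT.lf (nat_lit 29260) (nat_lit 6) (nat_lit 385) (nat_lit 0) (nat_lit 207) (nat_lit 203) (nat_lit 190)) (PT.nd (nat_lit 78) (PT.lf (nat_lit 28424) (nat_lit 6) (nat_lit 374) (nat_lit 0) (nat_lit 208) (nat_lit 203) (nat_lit 189)) (PT.lf (nat_lit 27512) (nat_lit 6) (nat_lit 362) (nat_lit 0) (nat_lit 209) (nat_lit 203) (nat_lit 188)))))) (PT.nd (nat_lit 312) (PT.nd (nat_lit 156) (PT.nd (nat_lit 78) (PT.lf (nat_lit 26524) (nat_lit 6) (nat_lit 349) (nat_lit 0) (nat_lit 210) (nat_lit 203) (nat_lit 187)) (PT.lf (nat_lit 25460) (nat_lit 6) (nat_lit 335) (nat_lit 0) (nat_lit 211) (nat_lit 203) (nat_lit 186))) (PT.nd (nat_lit 78) (PT.lf (nat_lit 24320) (nat_lit 6) (nat_lit 320) (nat_lit 0) (nat_lit 212) (nat_lit 203) (nat_lit 185))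 (PT.lf (nat_lit 23104) (nat_lit 6) (nat_lit 304) (nat_lit 0) (nat_lit 213) (nat_lit 203) (nat_lit 184)))) (PT.nd (nat_lit 156) (PT.nd (nat_lit 78) (PT.lf (nat_lit 21812) (nat_lit 6) (nat_lit 287) (nat_lit 0) (nat_lit 214) (nat_lit 203) (nat_lit 183)) (PT.lf (nat_lit 20976) (nat_lit 6) (nat_lit 276) (nat_lit 0) (nat_lit 215) (nat_lit 203) (nat_lit 182))) (PT.nd (nat_lit 78) (PT.lf (nat_lit 20292) (nat_lit 6) (nat_lit 267) (nat_lit 0) (nat_lit 216) (nat_lit 203) (nat_lit 181)) (PT.nd (nat_lit 59436) (PT.lf (nat_lit 19608) (nat_lit 6) (nat_lit 258) (nat_lit 0) (nat_lit 217) (nat_lit 203) (nat_lit 180)) (PT.lf (nat_lit 18468) (nat_lit 6) (nat_lit 243) (nat_lit 5) (nat_lit 178) (nat_lit 204) (nat_lit 218))))))) (PT.nd (nat_lit 702) (PT.nd (nat_lit 312) (PT.nd (nat_lit 156) (PT.nd (nat_lit 78) (PT.lf (nat_lit 19076) (nat_lit 6) (nat_lit 251) (nat_lit 5) (nat_lit 179) (nat_lit 204) (nat_lit 217)) (PT.lf (nat_lit 19684)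 (nat_lit 6) (nat_lit 259) (nat_lit 5) (nat_lit 180) (nat_lit 204) (nat_lit 216))) (PT.nd (nat_lit 78) (PT.lf (nat_lit 20368) (nat_lit 6) (nat_lit 268) (nat_lit 5) (nat_lit 181) (nat_lit 204) (nat_lit 215)) (PT.lf (nat_lit 21052) (nat_lit 6) (nat_lit 277) (nat_lit 5) (nat_lit 182) (nat_lit 204) (nat_lit 214)))) (PT.nd (nat_lit 156) (PT.nd (nat_lit 78) (PT.lf (nat_lit 21888) (nat_lit 6) (nat_lit 288) (nat_lit 5) (nat_lit 183) (nat_lit 204) (nat_lit 213)) (PT.lf (nat_lit 23180) (nat_lit 6) (nat_lit 305) (nat_lit 5) (nat_lit 184) (nat_lit 204) (nat_lit 212))) (PT.nd (nat_lit 78) (PT.lf (nat_lit 24396) (nat_lit 6) (nat_lit 321) (nat_lit 5) (nat_lit 185) (nat_lit 204) (nat_lit 211)) (PT.nd (nat_lit 78) (PT.lf (nat_lit 25536) (nat_lit 6) (nat_lit 336) (nat_lit 5) (nat_lit 186) (nat_lit 204) (nat_lit 210)) (PT.lf (nat_lit 26600) (nat_lit 6) (nat_lit 350) (nat_lit 5) (nat_lit 187) (nat_lit 204) (nat_lit 209)))))) (PT.nd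 (nat_lit 390) (PT.nd (nat_lit 156) (PT.nd (nat_lit 78) (PT.lf (nat_lit 27588) (nat_lit 6) (nat_lit 363) (nat_lit 5) (nat_lit 188) (nat_lit 204) (nat_lit 208)) (PT.lf (nat_lit 28500) (nat_lit 6) (nat_lit 375) (nat_lit 5) (nat_lit 189) (nat_lit 204) (nat_lit 207))) (PT.nd (nat_lit 78) (PT.lf (nat_lit 29336) (nat_lit 6) (nat_lit 386) (nat_lit 5) (nat_lit 190) (nat_lit 204) (nat_lit 206)) (PT.nd (nat_lit 78) (PT.lf (nat_lit 30096) (nat_lit 6) (nat_lit 396) (nat_lit 5) (nat_lit 191) (nat_lit 204) (nat_lit 205)) (PT.lf (nat_lit 30780) (nat_lit 3) (nat_lit 405) (nat_lit 4) (nat_lit 192) (nat_lit 204) (nat_lit 204))))) (PT.nd (nat_lit 156) (PT.nd (nat_lit 78) (PT.lf (nat_lit 31312) (nat_lit 6) (nat_lit 412) (nat_lit 4) (nat_lit 193) (nat_lit 204) (nat_lit 203)) (PT.lf (nat_lit 31768) (nat_lit 6) (nat_lit 418) (nat_lit 4) (nat_lit 194) (nat_lit 204) (nat_lit 202))) (PT.nd (nat_lit 78) (PT.lf (nat_lit 32148) (nat_lit 6) (nat_lit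 423) (nat_lit 4) (nat_lit 195) (nat_lit 204) (nat_lit 201)) (PT.nd (nat_lit 78) (PT.lf (nat_lit 32452) (nat_lit 6) (nat_lit 427) (nat_lit 4) (nat_lit 196) (nat_lit 204) (nat_lit 200)) (PT.lf (nat_lit 32376) (nat_lit 6) (nat_lit 426) (nat_lit 4) (nat_lit 197) (nat_lit 204) (nat_lit 199))))))))
noncomputable def pc29 : PT := (PT.nd (nat_lit 1482) (PT.nd (nat_lit 702) (PT.nd (nat_lit 312) (PT.nd (nat_lit 156) (PT.nd (nat_lit 78) (PT.lf (nat_lit 32300) (nat_lit 3) (nat_lit 425) (nat_lit 2) (nat_lit 198) (nat_lit 204) (nat_lit 198)) (PT.lf (nat_lit 32376) (nat_lit 6) (nat_lit 426) (nat_lit 2) (nat_lit 199) (nat_lit 204) (nat_lit 197))) (PT.nd (nat_lit 78) (PT.lf (nat_lit 32452) (nat_lit 6) (nat_lit 427) (nat_lit 2) (nat_lit 200) (nat_lit 204) (nat_lit 196)) (PT.lf (nat_lit 32148) (nat_lit 6) (nat_lit 423) (nat_lit 2) (nat_lit 201) (nat_lit 204) (nat_lit 195)))) (PT.nd (nat_lit 156) (PT.nd (nat_lit 78) (PT.lf (nat_lit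 31768) (nat_lit 6) (nat_lit 418) (nat_lit 2) (nat_lit 202) (nat_lit 204) (nat_lit 194)) (PT.lf (nat_lit 31312) (nat_lit 6) (nat_lit 412) (nat_lit 2) (nat_lit 203) (nat_lit 204) (nat_lit 193))) (PT.nd (nat_lit 78) (PT.lf (nat_lit 30780) (nat_lit 3) (nat_lit 405) (nat_lit 0) (nat_lit 204) (nat_lit 204) (nat_lit 192)) (PT.nd (nat_lit 78) (PT.lf (nat_lit 30096) (nat_lit 6) (nat_lit 396) (nat_lit 0) (nat_lit 205) (nat_lit 204) (nat_lit 191)) (PT.lf (nat_lit 29336) (nat_lit 6) (nat_lit 386) (nat_lit 0) (nat_lit 206) (nat_lit 204) (nat_lit 190)))))) (PT.nd (nat_lit 390) (PT.nd (nat_lit 156) (PT.nd (nat_lit 78) (PT.lf (nat_lit 28500) (nat_lit 6) (nat_lit 375) (nat_lit 0) (nat_lit 207) (nat_lit 204) (nat_lit 189)) (PT.lf (nat_lit 27588) (nat_lit 6) (nat_lit 363) (nat_lit 0) (nat_lit 208) (nat_lit 204) (nat_lit 188))) (PT.nd (nat_lit 78) (PT.lf (nat_lit 26600) (nat_lit 6) (nat_lit 350) (nat_lit 0) (nat_lit 209) (nat_lit 204)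 (nat_lit 187)) (PT.nd (nat_lit 78) (PT.lf (nat_lit 25536) (nat_lit 6) (nat_lit 336) (nat_lit 0) (nat_lit 210) (nat_lit 204) (nat_lit 186)) (PT.lf (nat_lit 24396) (nat_lit 6) (nat_lit 321) (nat_lit 0) (nat_lit 211) (nat_lit 204) (nat_lit 185))))) (PT.nd (nat_lit 156) (PT.nd (nat_lit 78) (PT.lf (nat_lit 23180) (nat_lit 6) (nat_lit 305) (nat_lit 0) (nat_lit 212) (nat_lit 204) (nat_lit 184)) (PT.lf (nat_lit 21888) (nat_lit 6) (nat_lit 288) (nat_lit 0) (nat_lit 213) (nat_lit 204) (nat_lit 183))) (PT.nd (nat_lit 78) (PT.lf (nat_lit 21052) (nat_lit 6) (nat_lit 277) (nat_lit 0) (nat_lit 214) (nat_lit 204) (nat_lit 182)) (PT.nd (nat_lit 78) (PT.lf (nat_lit 20368) (nat_lit 6) (nat_lit 268) (nat_lit 0) (nat_lit 215) (nat_lit 204) (nat_lit 181)) (PT.lf (nat_lit 19684) (nat_lit 6) (nat_lit 259) (nat_lit 0) (nat_lit 216) (nat_lit 204) (nat_lit 180))))))) (PT.nd (nat_lit 59904) (PT.nd (nat_lit 59514) (PT.nd (nat_lit 59358) (PT.nd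 (nat_lit 78) (PT.lf (nat_lit 19076) (nat_lit 6) (nat_lit 251) (nat_lit 0) (nat_lit 217) (nat_lit 204) (nat_lit 179)) (PT.lf (nat_lit 18468) (nat_lit 6) (nat_lit 243) (nat_lit 0) (nat_lit 218) (nat_lit 204) (nat_lit 178))) (PT.nd (nat_lit 78) (PT.lf (nat_lit 17936) (nat_lit 6) (nat_lit 236) (nat_lit 5) (nat_lit 177) (nat_lit 205) (nat_lit 218)) (PT.lf (nat_lit 18544) (nat_lit 6) (nat_lit 244) (nat_lit 5) (nat_lit 178) (nat_lit 205) (nat_lit 217)))) (PT.nd (nat_lit 156) (PT.nd (nat_lit 78) (PT.lf (nat_lit 19152) (nat_lit 6) (nat_lit 252) (nat_lit 5) (nat_lit 179) (nat_lit 205) (nat_lit 216)) (PT.lf (nat_lit 19760) (nat_lit 6) (nat_lit 260) (nat_lit 5) (nat_lit 180) (nat_lit 205) (nat_lit 215))) (PT.nd (nat_lit 78) (PT.lf (nat_lit 20444) (nat_lit 6) (nat_lit 269) (nat_lit 5) (nat_lit 181) (nat_lit 205) (nat_lit 214)) (PT.nd (nat_lit 78) (PT.lf (nat_lit 21128) (nat_lit 6) (nat_lit 278) (nat_lit 5) (nat_lit 182) (nat_lit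 205) (nat_lit 213)) (PT.lf (nat_lit 21964) (nat_lit 6) (nat_lit 289) (nat_lit 5) (nat_lit 183) (nat_lit 205) (nat_lit 212)))))) (PT.nd (nat_lit 390) (PT.nd (nat_lit 156) (PT.nd (nat_lit 78) (PT.lf (nat_lit 23256) (nat_lit 6) (nat_lit 306) (nat_lit 5) (nat_lit 184) (nat_lit 205) (nat_lit 211)) (PT.lf (nat_lit 24472) (nat_lit 6) (nat_lit 322) (nat_lit 5) (nat_lit 185) (nat_lit 205) (nat_lit 210))) (PT.nd (nat_lit 78) (PT.lf (nat_lit 25612) (nat_lit 6) (nat_lit 337) (nat_lit 5) (nat_lit 186) (nat_lit 205) (nat_lit 209)) (PT.nd (nat_lit 78) (PT.lf (nat_lit 26676) (nat_lit 6) (nat_lit 351) (nat_lit 5) (nat_lit 187) (nat_lit 205) (nat_lit 208)) (PT.lf (nat_lit 27664) (nat_lit 6) (nat_lit 364) (nat_lit 5) (nat_lit 188) (nat_lit 205) (nat_lit 207))))) (PT.nd (nat_lit 156) (PT.nd (nat_lit 78) (PT.lf (nat_lit 28576) (nat_lit 6) (nat_lit 376) (nat_lit 5) (nat_lit 189) (nat_lit 205) (nat_lit 206)) (PT.lf (nat_lit 29412) (nat_lit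 3) (nat_lit 387) (nat_lit 4) (nat_lit 190) (nat_lit 205) (nat_lit 205))) (PT.nd (nat_lit 78) (PT.lf (nat_lit 30096) (nat_lit 6) (nat_lit 396) (nat_lit 4) (nat_lit 191) (nat_lit 205) (nat_lit 204)) (PT.nd (nat_lit 78) (PT.lf (nat_lit 30704) (nat_lit 6) (nat_lit 404) (nat_lit 4) (nat_lit 192) (nat_lit 205) (nat_lit 203)) (PT.lf (nat_lit 31236) (nat_lit 6) (nat_lit 411) (nat_lit 4) (nat_lit 193) (nat_lit 205) (nat_lit 202))))))))
noncomputable def pc30 : PT := (PT.nd (nat_lit 1482) (PT.nd (nat_lit 702) (PT.nd (nat_lit 312) (PT.nd (nat_lit 156) (PT.nd (nat_lit 78) (PT.lf (nat_lit 31692) (nat_lit 6) (nat_lit 417) (nat_lit 4) (nat_lit 194) (nat_lit 205) (nat_lit 201)) (PT.lf (nat_lit 32072) (nat_lit 6) (nat_lit 422) (nat_lit 4) (nat_lit 195) (nat_lit 205) (nat_lit 200))) (PT.nd (nat_lit 78) (PT.lf (nat_lit 31996) (nat_lit 6) (nat_lit 421) (nat_lit 4) (nat_lit 196) (nat_lit 205) (nat_lit 199)) (PT.lf (nat_lit 31920) (nat_lit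 6) (nat_lit 420) (nat_lit 4) (nat_lit 197) (nat_lit 205) (nat_lit 198)))) (PT.nd (nat_lit 156) (PT.nd (nat_lit 78) (PT.lf (nat_lit 31920) (nat_lit 6) (nat_lit 420) (nat_lit 2) (nat_lit 198) (nat_lit 205) (nat_lit 197)) (PT.lf (nat_lit 31996) (nat_lit 6) (nat_lit 421) (nat_lit 2) (nat_lit 199) (nat_lit 205) (nat_lit 196))) (PT.nd (nat_lit 78) (PT.lf (nat_lit 32072) (nat_lit 6) (nat_lit 422) (nat_lit 2) (nat_lit 200) (nat_lit 205) (nat_lit 195)) (PT.nd (nat_lit 78) (PT.lf (nat_lit 31692) (nat_lit 6) (nat_lit 417) (nat_lit 2) (nat_lit 201) (nat_lit 205) (nat_lit 194)) (PT.lf (nat_lit 31236) (nat_lit 6) (nat_lit 411) (nat_lit 2) (nat_lit 202) (nat_lit 205) (nat_lit 193)))))) (PT.nd (nat_lit 390) (PT.nd (nat_lit 156) (PT.nd (nat_lit 78) (PT.lf (nat_lit 30704) (nat_lit 6) (nat_lit 404) (nat_lit 2) (nat_lit 203) (nat_lit 205) (nat_lit 192)) (PT.lf (nat_lit 30096) (nat_lit 6) (nat_lit 396) (nat_lit 2) (nat_lit 204) (nat_lit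 205) (nat_lit 191))) (PT.nd (nat_lit 78) (PT.lf (nat_lit 29412) (nat_lit 3) (nat_lit 387) (nat_lit 0) (nat_lit 205) (nat_lit 205) (nat_lit 190)) (PT.nd (nat_lit 78) (PT.lf (nat_lit 28576) (nat_lit 6) (nat_lit 376) (nat_lit 0) (nat_lit 206) (nat_lit 205) (nat_lit 189)) (PT.lf (nat_lit 27664) (nat_lit 6) (nat_lit 364) (nat_lit 0) (nat_lit 207) (nat_lit 205) (nat_lit 188))))) (PT.nd (nat_lit 156) (PT.nd (nat_lit 78) (PT.lf (nat_lit 26676) (nat_lit 6) (nat_lit 351) (nat_lit 0) (nat_lit 208) (nat_lit 205) (nat_lit 187)) (PT.lf (nat_lit 25612) (nat_lit 6) (nat_lit 337) (nat_lit 0) (nat_lit 209) (nat_lit 205) (nat_lit 186))) (PT.nd (nat_lit 78) (PT.lf (nat_lit 24472) (nat_lit 6) (nat_lit 322) (nat_lit 0) (nat_lit 210) (nat_lit 205) (nat_lit 185)) (PT.nd (nat_lit 78) (PT.lf (nat_lit 23256) (nat_lit 6) (nat_lit 306) (nat_lit 0) (nat_lit 211) (nat_lit 205) (nat_lit 184)) (PT.lf (nat_lit 21964) (nat_lit 6) (nat_lit 289) (nat_lit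 0) (nat_lit 212) (nat_lit 205) (nat_lit 183))))))) (PT.nd (nat_lit 59826) (PT.nd (nat_lit 312) (PT.nd (nat_lit 156) (PT.nd (nat_lit 78) (PT.lf (nat_lit 21128) (nat_lit 6) (nat_lit 278) (nat_lit 0) (nat_lit 213) (nat_lit 205) (nat_lit 182)) (PT.lf (nat_lit 20444) (nat_lit 6) (nat_lit 269) (nat_lit 0) (nat_lit 214) (nat_lit 205) (nat_lit 181))) (PT.nd (nat_lit 78) (PT.lf (nat_lit 19760) (nat_lit 6) (nat_lit 260) (nat_lit 0) (nat_lit 215) (nat_lit 205) (nat_lit 180)) (PT.lf (nat_lit 19152) (nat_lit 6) (nat_lit 252) (nat_lit 0) (nat_lit 216) (nat_lit 205) (nat_lit 179)))) (PT.nd (nat_lit 59280) (PT.nd (nat_lit 78) (PT.lf (nat_lit 18544) (nat_lit 6) (nat_lit 244) (nat_lit 0) (nat_lit 217) (nat_lit 205) (nat_lit 178)) (PT.lf (nat_lit 17936) (nat_lit 6) (nat_lit 236) (nat_lit 0) (nat_lit 218) (nat_lit 205) (nat_lit 177))) (PT.nd (nat_lit 78) (PT.lf (nat_lit 17404) (nat_lit 6) (nat_lit 229) (nat_lit 5) (nat_lit 176) (nat_lit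 206) (nat_lit 218)) (PT.nd (nat_lit 78) (PT.lf (nat_lit 18012) (nat_lit 6) (nat_lit 237) (nat_lit 5) (nat_lit 177) (nat_lit 206) (nat_lit 217)) (PT.lf (nat_lit 18620) (nat_lit 6) (nat_lit 245) (nat_lit 5) (nat_lit 178) (nat_lit 206) (nat_lit 216)))))) (PT.nd (nat_lit 390) (PT.nd (nat_lit 156) (PT.nd (nat_lit 78) (PT.lf (nat_lit 19228) (nat_lit 6) (nat_lit 253) (nat_lit 5) (nat_lit 179) (nat_lit 206) (nat_lit 215)) (PT.lf (nat_lit 19836) (nat_lit 6) (nat_lit 261) (nat_lit 5) (nat_lit 180) (nat_lit 206) (nat_lit 214))) (PT.nd (nat_lit 78) (PT.lf (nat_lit 20520) (nat_lit 6) (nat_lit 270) (nat_lit 5) (nat_lit 181) (nat_lit 206) (nat_lit 213)) (PT.nd (nat_lit 78) (PT.lf (nat_lit 21204) (nat_lit 6) (nat_lit 279) (nat_lit 5) (nat_lit 182) (nat_lit 206) (nat_lit 212)) (PT.lf (nat_lit 22040) (nat_lit 6) (nat_lit 290) (nat_lit 5) (nat_lit 183) (nat_lit 206) (nat_lit 211))))) (PT.nd (nat_lit 156) (PT.nd (nat_lit 78) (PT.lf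 (nat_lit 23332) (nat_lit 6) (nat_lit 307) (nat_lit 5) (nat_lit 184) (nat_lit 206) (nat_lit 210)) (PT.lf (nat_lit 24548) (nat_lit 6) (nat_lit 323) (nat_lit 5) (nat_lit 185) (nat_lit 206) (nat_lit 209))) (PT.nd (nat_lit 78) (PT.lf (nat_lit 25688) (nat_lit 6) (nat_lit 338) (nat_lit 5) (nat_lit 186) (nat_lit 206) (nat_lit 208)) (PT.nd (nat_lit 78) (PT.lf (nat_lit 26752) (nat_lit 6) (nat_lit 352) (nat_lit 5) (nat_lit 187) (nat_lit 206) (nat_lit 207)) (PT.lf (nat_lit 27740) (nat_lit 3) (nat_lit 365) (nat_lit 4) (nat_lit 188) (nat_lit 206) (nat_lit 206))))))))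
noncomputable def pc31 : PT := (PT.nd (nat_lit 1482) (PT.nd (nat_lit 702) (PT.nd (nat_lit 312) (PT.nd (nat_lit 156) (PT.nd (nat_lit 78) (PT.lf (nat_lit 28576) (nat_lit 6) (nat_lit 376) (nat_lit 4) (nat_lit 189) (nat_lit 206) (nat_lit 205)) (PT.lf (nat_lit 29336) (nat_lit 6) (nat_lit 386) (nat_lit 4) (nat_lit 190) (nat_lit 206) (nat_lit 204))) (PT.nd (nat_lit 78) (PT.lf (nat_lit 30020) (nat_lit 6) (nat_lit 395) (nat_lit 4) (nat_lit 191) (nat_lit 206) (nat_lit 203)) (PT.lf (nat_lit 30628) (nat_lit 6) (nat_lit 403) (nat_lit 4) (nat_lit 192) (nat_lit 206) (nat_lit 202)))) (PT.nd (nat_lit 156) (PT.nd (nat_lit 78) (PT.lf (nat_lit 31160) (nat_lit 6) (nat_lit 410) (nat_lit 4) (nat_lit 193) (nat_lit 206) (nat_lit 201)) (PT.lf (nat_lit 31616) (nat_lit 6) (nat_lit 416) (nat_lit 4) (nat_lit 194) (nat_lit 206) (nat_lit 200))) (PT.nd (nat_lit 78) (PT.lf (nat_lit 31540) (nat_lit 6) (nat_lit 415) (nat_lit 4) (nat_lit 195) (nat_lit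 206) (nat_lit 199)) (PT.nd (nat_lit 78) (PT.lf (nat_lit 31464) (nat_lit 6) (nat_lit 414) (nat_lit 4) (nat_lit 196) (nat_lit 206) (nat_lit 198)) (PT.lf (nat_lit 31388) (nat_lit 3) (nat_lit 413) (nat_lit 2) (nat_lit 197) (nat_lit 206) (nat_lit 197)))))) (PT.nd (nat_lit 390) (PT.nd (nat_lit 156) (PT.nd (nat_lit 78) (PT.lf (nat_lit 31464) (nat_lit 6) (nat_lit 414) (nat_lit 2) (nat_lit 198) (nat_lit 206) (nat_lit 196)) (PT.lf (nat_lit 31540) (nat_lit 6) (nat_lit 415) (nat_lit 2) (nat_lit 199) (nat_lit 206) (nat_lit 195))) (PT.nd (nat_lit 78) (PT.lf (nat_lit 31616) (nat_lit 6) (nat_lit 416) (nat_lit 2) (nat_lit 200) (nat_lit 206) (nat_lit 194)) (PT.nd (nat_lit 78) (PT.lf (nat_lit 31160) (nat_lit 6) (nat_lit 410) (nat_lit 2) (nat_lit 201) (nat_lit 206) (nat_lit 193)) (PT.lf (nat_lit 30628) (nat_lit 6) (nat_lit 403) (nat_lit 2) (nat_lit 202) (nat_lit 206) (nat_lit 192))))) (PT.nd (nat_lit 156) (PT.nd (nat_lit 78) (PT.lf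 (nat_lit 30020) (nat_lit 6) (nat_lit 395) (nat_lit 2) (nat_lit 203) (nat_lit 206) (nat_lit 191)) (PT.lf (nat_lit 29336) (nat_lit 6) (nat_lit 386) (nat_lit 2) (nat_lit 204) (nat_lit 206) (nat_lit 190))) (PT.nd (nat_lit 78) (PT.lf (nat_lit 28576) (nat_lit 6) (nat_lit 376) (nat_lit 2) (nat_lit 205) (nat_lit 206) (nat_lit 189)) (PT.nd (nat_lit 78) (PT.lf (nat_lit 27740) (nat_lit 3) (nat_lit 365) (nat_lit 0) (nat_lit 206) (nat_lit 206) (nat_lit 188)) (PT.lf (nat_lit 26752) (nat_lit 6) (nat_lit 352) (nat_lit 0) (nat_lit 207) (nat_lit 206) (nat_lit 187))))))) (PT.nd (nat_lit 702) (PT.nd (nat_lit 312) (PT.nd (nat_lit 156) (PT.nd (nat_lit 78) (PT.lf (nat_lit 25688) (nat_lit 6) (nat_lit 338) (nat_lit 0) (nat_lit 208) (nat_lit 206) (nat_lit 186)) (PT.lf (nat_lit 24548) (nat_lit 6) (nat_lit 323) (nat_lit 0) (nat_lit 209) (nat_lit 206) (nat_lit 185))) (PT.nd (nat_lit 78) (PT.lf (nat_lit 23332) (nat_lit 6) (nat_lit 307) (nat_lit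 0) (nat_lit 210) (nat_lit 206) (nat_lit 184)) (PT.lf (nat_lit 22040) (nat_lit 6) (nat_lit 290) (nat_lit 0) (nat_lit 211) (nat_lit 206) (nat_lit 183)))) (PT.nd (nat_lit 156) (PT.nd (nat_lit 78) (PT.lf (nat_lit 21204) (nat_lit 6) (nat_lit 279) (nat_lit 0) (nat_lit 212) (nat_lit 206) (nat_lit 182)) (PT.lf (nat_lit 20520) (nat_lit 6) (nat_lit 270) (nat_lit 0) (nat_lit 213) (nat_lit 206) (nat_lit 181))) (PT.nd (nat_lit 78) (PT.lf (nat_lit 19836) (nat_lit 6) (nat_lit 261) (nat_lit 0) (nat_lit 214) (nat_lit 206) (nat_lit 180)) (PT.nd (nat_lit 78) (PT.lf (nat_lit 19228) (nat_lit 6) (nat_lit 253) (nat_lit 0) (nat_lit 215) (nat_lit 206) (nat_lit 179)) (PT.lf (nat_lit 18620) (nat_lit 6) (nat_lit 245) (nat_lit 0) (nat_lit 216) (nat_lit 206) (nat_lit 178)))))) (PT.nd (nat_lit 59358) (PT.nd (nat_lit 59124) (PT.nd (nat_lit 78) (PT.lf (nat_lit 18012) (nat_lit 6) (nat_lit 237) (nat_lit 0) (nat_lit 217) (nat_lit 206) (nat_lit 177))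 (PT.lf (nat_lit 17404) (nat_lit 6) (nat_lit 229) (nat_lit 0) (nat_lit 218) (nat_lit 206) (nat_lit 176))) (PT.nd (nat_lit 78) (PT.lf (nat_lit 16416) (nat_lit 6) (nat_lit 216) (nat_lit 5) (nat_lit 174) (nat_lit 207) (nat_lit 219)) (PT.nd (nat_lit 78) (PT.lf (nat_lit 16948) (nat_lit 6) (nat_lit 223) (nat_lit 5) (nat_lit 175) (nat_lit 207) (nat_lit 218)) (PT.lf (nat_lit 17480) (nat_lit 6) (nat_lit 230) (nat_lit 5) (nat_lit 176) (nat_lit 207) (nat_lit 217))))) (PT.nd (nat_lit 156) (PT.nd (nat_lit 78) (PT.lf (nat_lit 18088) (nat_lit 6) (nat_lit 238) (nat_lit 5) (nat_lit 177) (nat_lit 207) (nat_lit 216)) (PT.lf (nat_lit 18696) (nat_lit 6) (nat_lit 246) (nat_lit 5) (nat_lit 178) (nat_lit 207) (nat_lit 215))) (PT.nd (nat_lit 78) (PT.lf (nat_lit 19304) (nat_lit 6) (nat_lit 254) (nat_lit 5) (nat_lit 179) (nat_lit 207) (nat_lit 214)) (PT.nd (nat_lit 78) (PT.lf (nat_lit 19912) (nat_lit 6) (nat_lit 262) (nat_lit 5) (nat_lit 180)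 (nat_lit 207) (nat_lit 213)) (PT.lf (nat_lit 20596) (nat_lit 6) (nat_lit 271) (nat_lit 5) (nat_lit 181) (nat_lit 207) (nat_lit 212))))))))
noncomputable def pc32 : PT := (PT.nd (nat_lit 1404) (PT.nd (nat_lit 702) (PT.nd (nat_lit 312) (PT.nd (nat_lit 156) (PT.nd (nat_lit 78) (PT.lf (nat_lit 21280) (nat_lit 6) (nat_lit 280) (nat_lit 5) (nat_lit 182) (nat_lit 207) (nat_lit 211)) (PT.lf (nat_lit 22116) (nat_lit 6) (nat_lit 291) (nat_lit 5) (nat_lit 183) (nat_lit 207) (nat_lit 210))) (PT.nd (nat_lit 78) (PT.lf (nat_lit 23408) (nat_lit 6) (nat_lit 308) (nat_lit 5) (nat_lit 184) (nat_lit 207) (nat_lit 209)) (PT.lf (nat_lit 24624) (nat_lit 6) (nat_lit 324) (nat_lit 5) (nat_lit 185) (nat_lit 207) (nat_lit 208)))) (PT.nd (nat_lit 156) (PT.nd (nat_lit 78) (PT.lf (nat_lit 25764) (nat_lit 3) (nat_lit 339) (nat_lit 4) (nat_lit 186) (nat_lit 207) (nat_lit 207)) (PT.lf (nat_lit 26752) (nat_lit 6) (nat_lit 352) (nat_lit 4) (nat_lit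 187) (nat_lit 207) (nat_lit 206))) (PT.nd (nat_lit 78) (PT.lf (nat_lit 27664) (nat_lit 6) (nat_lit 364) (nat_lit 4) (nat_lit 188) (nat_lit 207) (nat_lit 205)) (PT.nd (nat_lit 78) (PT.lf (nat_lit 28500) (nat_lit 6) (nat_lit 375) (nat_lit 4) (nat_lit 189) (nat_lit 207) (nat_lit 204)) (PT.lf (nat_lit 29260) (nat_lit 6) (nat_lit 385) (nat_lit 4) (nat_lit 190) (nat_lit 207) (nat_lit 203)))))) (PT.nd (nat_lit 312) (PT.nd (nat_lit 156) (PT.nd (nat_lit 78) (PT.lf (nat_lit 29944) (nat_lit 6) (nat_lit 394) (nat_lit 4) (nat_lit 191) (nat_lit 207) (nat_lit 202)) (PT.lf (nat_lit 30552) (nat_lit 6) (nat_lit 402) (nat_lit 4) (nat_lit 192) (nat_lit 207) (nat_lit 201))) (PT.nd (nat_lit 78) (PT.lf (nat_lit 31084) (nat_lit 6) (nat_lit 409) (nat_lit 4) (nat_lit 193) (nat_lit 207) (nat_lit 200)) (PT.lf (nat_lit 31008) (nat_lit 6) (nat_lit 408) (nat_lit 4) (nat_lit 194) (nat_lit 207) (nat_lit 199)))) (PT.nd (nat_lit 156) (PT.nd (nat_lit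 78) (PT.lf (nat_lit 30932) (nat_lit 6) (nat_lit 407) (nat_lit 4) (nat_lit 195) (nat_lit 207) (nat_lit 198)) (PT.lf (nat_lit 30856) (nat_lit 6) (nat_lit 406) (nat_lit 4) (nat_lit 196) (nat_lit 207) (nat_lit 197))) (PT.nd (nat_lit 78) (PT.lf (nat_lit 30856) (nat_lit 6) (nat_lit 406) (nat_lit 2) (nat_lit 197) (nat_lit 207) (nat_lit 196)) (PT.nd (nat_lit 78) (PT.lf (nat_lit 30932) (nat_lit 6) (nat_lit 407) (nat_lit 2) (nat_lit 198) (nat_lit 207) (nat_lit 195)) (PT.lf (nat_lit 31008) (nat_lit 6) (nat_lit 408) (nat_lit 2) (nat_lit 199) (nat_lit 207) (nat_lit 194))))))) (PT.nd (nat_lit 702) (PT.nd (nat_lit 312) (PT.nd (nat_lit 156) (PT.nd (nat_lit 78) (PT.lf (nat_lit 31084) (nat_lit 6) (nat_lit 409) (nat_lit 2) (nat_lit 200) (nat_lit 207) (nat_lit 193)) (PT.lf (nat_lit 30552) (nat_lit 6) (nat_lit 402) (nat_lit 2) (nat_lit 201) (nat_lit 207) (nat_lit 192))) (PT.nd (nat_lit 78) (PT.lf (nat_lit 29944) (nat_lit 6) (nat_lit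 394) (nat_lit 2) (nat_lit 202) (nat_lit 207) (nat_lit 191)) (PT.lf (nat_lit 29260) (nat_lit 6) (nat_lit 385) (nat_lit 2) (nat_lit 203) (nat_lit 207) (nat_lit 190)))) (PT.nd (nat_lit 156) (PT.nd (nat_lit 78) (PT.lf (nat_lit 28500) (nat_lit 6) (nat_lit 375) (nat_lit 2) (nat_lit 204) (nat_lit 207) (nat_lit 189)) (PT.lf (nat_lit 27664) (nat_lit 6) (nat_lit 364) (nat_lit 2) (nat_lit 205) (nat_lit 207) (nat_lit 188))) (PT.nd (nat_lit 78) (PT.lf (nat_lit 26752) (nat_lit 6) (nat_lit 352) (nat_lit 2) (nat_lit 206) (nat_lit 207) (nat_lit 187)) (PT.nd (nat_lit 78) (PT.lf (nat_lit 25764) (nat_lit 3) (nat_lit 339) (nat_lit 0) (nat_lit 207) (nat_lit 207) (nat_lit 186)) (PT.lf (nat_lit 24624) (nat_lit 6) (nat_lit 324) (nat_lit 0) (nat_lit 208) (nat_lit 207) (nat_lit 185)))))) (PT.nd (nat_lit 390) (PT.nd (nat_lit 156) (PT.nd (nat_lit 78) (PT.lf (nat_lit 23408) (nat_lit 6) (nat_lit 308) (nat_lit 0) (nat_lit 209) (nat_lit 207) (nat_lit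 184)) (PT.lf (nat_lit 22116) (nat_lit 6) (nat_lit 291) (nat_lit 0) (nat_lit 210) (nat_lit 207) (nat_lit 183))) (PT.nd (nat_lit 78) (PT.lf (nat_lit 21280) (nat_lit 6) (nat_lit 280) (nat_lit 0) (nat_lit 211) (nat_lit 207) (nat_lit 182)) (PT.nd (nat_lit 78) (PT.lf (nat_lit 20596) (nat_lit 6) (nat_lit 271) (nat_lit 0) (nat_lit 212) (nat_lit 207) (nat_lit 181)) (PT.lf (nat_lit 19912) (nat_lit 6) (nat_lit 262) (nat_lit 0) (nat_lit 213) (nat_lit 207) (nat_lit 180))))) (PT.nd (nat_lit 156) (PT.nd (nat_lit 78) (PT.lf (nat_lit 19304) (nat_lit 6) (nat_lit 254) (nat_lit 0) (nat_lit 214) (nat_lit 207) (nat_lit 179)) (PT.lf (nat_lit 18696) (nat_lit 6) (nat_lit 246) (nat_lit 0) (nat_lit 215) (nat_lit 207) (nat_lit 178))) (PT.nd (nat_lit 78) (PT.lf (nat_lit 18088) (nat_lit 6) (nat_lit 238) (nat_lit 0) (nat_lit 216) (nat_lit 207) (nat_lit 177)) (PT.nd (nat_lit 78) (PT.lf (nat_lit 17480) (nat_lit 6) (nat_lit 230) (nat_lit 0) (nat_lit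 217) (nat_lit 207) (nat_lit 176)) (PT.lf (nat_lit 16948) (nat_lit 6) (nat_lit 223) (nat_lit 0) (nat_lit 218) (nat_lit 207) (nat_lit 175))))))))
noncomputable def pc33 : PT := (PT.nd (nat_lit 60294) (PT.nd (nat_lit 59514) (PT.nd (nat_lit 59124) (PT.nd (nat_lit 58968) (PT.nd (nat_lit 58890) (PT.lf (nat_lit 16416) (nat_lit 6) (nat_lit 216) (nat_lit 0) (nat_lit 219) (nat_lit 207) (nat_lit 174)) (PT.lf (nat_lit 15960) (nat_lit 6) (nat_lit 210) (nat_lit 5) (nat_lit 173) (nat_lit 208) (nat_lit 219))) (PT.nd (nat_lit 78) (PT.lf (nat_lit 16492) (nat_lit 6) (nat_lit 217) (nat_lit 5) (nat_lit 174) (nat_lit 208) (nat_lit 218)) (PT.lf (nat_lit 17024) (nat_lit 6) (nat_lit 224) (nat_lit 5) (nat_lit 175) (nat_lit 208) (nat_lit 217)))) (PT.nd (nat_lit 156) (PT.nd (nat_lit 78) (PT.lf (nat_lit 17556) (nat_lit 6) (nat_lit 231) (nat_lit 5) (nat_lit 176) (nat_lit 208) (nat_lit 216)) (PT.lf (nat_lit 18164) (nat_lit 6) (nat_lit 239) (nat_lit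 5) (nat_lit 177) (nat_lit 208) (nat_lit 215))) (PT.nd (nat_lit 78) (PT.lf (nat_lit 18772) (nat_lit 6) (nat_lit 247) (nat_lit 5) (nat_lit 178) (nat_lit 208) (nat_lit 214)) (PT.nd (nat_lit 78) (PT.lf (nat_lit 19380) (nat_lit 6) (nat_lit 255) (nat_lit 5) (nat_lit 179) (nat_lit 208) (nat_lit 213)) (PT.lf (nat_lit 19988) (nat_lit 6) (nat_lit 263) (nat_lit 5) (nat_lit 180) (nat_lit 208) (nat_lit 212)))))) (PT.nd (nat_lit 390) (PT.nd (nat_lit 156) (PT.nd (nat_lit 78) (PT.lf (nat_lit 20672) (nat_lit 6) (nat_lit 272) (nat_lit 5) (nat_lit 181) (nat_lit 208) (nat_lit 211)) (PT.lf (nat_lit 21356) (nat_lit 6) (nat_lit 281) (nat_lit 5) (nat_lit 182) (nat_lit 208) (nat_lit 210))) (PT.nd (nat_lit 78) (PT.lf (nat_lit 22192) (nat_lit 6) (nat_lit 292) (nat_lit 5) (nat_lit 183) (nat_lit 208) (nat_lit 209)) (PT.nd (nat_lit 78) (PT.lf (nat_lit 23484) (nat_lit 3) (nat_lit 309) (nat_lit 4) (nat_lit 184) (nat_lit 208) (nat_lit 208)) (PT.lf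 (nat_lit 24624) (nat_lit 6) (nat_lit 324) (nat_lit 4) (nat_lit 185) (nat_lit 208) (nat_lit 207))))) (PT.nd (nat_lit 156) (PT.nd (nat_lit 78) (PT.lf (nat_lit 25688) (nat_lit 6) (nat_lit 338) (nat_lit 4) (nat_lit 186) (nat_lit 208) (nat_lit 206)) (PT.lf (nat_lit 26676) (nat_lit 6) (nat_lit 351) (nat_lit 4) (nat_lit 187) (nat_lit 208) (nat_lit 205))) (PT.nd (nat_lit 78) (PT.lf (nat_lit 27588) (nat_lit 6) (nat_lit 363) (nat_lit 4) (nat_lit 188) (nat_lit 208) (nat_lit 204)) (PT.nd (nat_lit 78) (PT.lf (nat_lit 28424) (nat_lit 6) (nat_lit 374) (nat_lit 4) (nat_lit 189) (nat_lit 208) (nat_lit 203)) (PT.lf (nat_lit 29184) (nat_lit 6) (nat_lit 384) (nat_lit 4) (nat_lit 190) (nat_lit 208) (nat_lit 202))))))) (PT.nd (nat_lit 702) (PT.nd (nat_lit 312) (PT.nd (nat_lit 156) (PT.nd (nat_lit 78) (PT.lf (nat_lit 29868) (nat_lit 6) (nat_lit 393) (nat_lit 4) (nat_lit 191) (nat_lit 208) (nat_lit 201)) (PT.lf (nat_lit 30476) (nat_lit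 6) (nat_lit 401) (nat_lit 4) (nat_lit 192) (nat_lit 208) (nat_lit 200))) (PT.nd (nat_lit 78) (PT.lf (nat_lit 30400) (nat_lit 6) (nat_lit 400) (nat_lit 4) (nat_lit 193) (nat_lit 208) (nat_lit 199)) (PT.lf (nat_lit 30324) (nat_lit 6) (nat_lit 399) (nat_lit 4) (nat_lit 194) (nat_lit 208) (nat_lit 198)))) (PT.nd (nat_lit 156) (PT.nd (nat_lit 78) (PT.lf (nat_lit 30248) (nat_lit 6) (nat_lit 398) (nat_lit 4) (nat_lit 195) (nat_lit 208) (nat_lit 197)) (PT.lf (nat_lit 30172) (nat_lit 3) (nat_lit 397) (nat_lit 2) (nat_lit 196) (nat_lit 208) (nat_lit 196))) (PT.nd (nat_lit 78) (PT.lf (nat_lit 30248) (nat_lit 6) (nat_lit 398) (nat_lit 2) (nat_lit 197) (nat_lit 208) (nat_lit 195)) (PT.nd (nat_lit 78) (PT.lf (nat_lit 30324) (nat_lit 6) (nat_lit 399) (nat_lit 2) (nat_lit 198) (nat_lit 208) (nat_lit 194)) (PT.lf (nat_lit 30400) (nat_lit 6) (nat_lit 400) (nat_lit 2) (nat_lit 199) (nat_lit 208) (nat_lit 193)))))) (PT.nd (nat_lit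 390) (PT.nd (nat_lit 156) (PT.nd (nat_lit 78) (PT.lf (nat_lit 30476) (nat_lit 6) (nat_lit 401) (nat_lit 2) (nat_lit 200) (nat_lit 208) (nat_lit 192)) (PT.lf (nat_lit 29868) (nat_lit 6) (nat_lit 393) (nat_lit 2) (nat_lit 201) (nat_lit 208) (nat_lit 191))) (PT.nd (nat_lit 78) (PT.lf (nat_lit 29184) (nat_lit 6) (nat_lit 384) (nat_lit 2) (nat_lit 202) (nat_lit 208) (nat_lit 190)) (PT.nd (nat_lit 78) (PT.lf (nat_lit 28424) (nat_lit 6) (nat_lit 374) (nat_lit 2) (nat_lit 203) (nat_lit 208) (nat_lit 189)) (PT.lf (nat_lit 27588) (nat_lit 6) (nat_lit 363) (nat_lit 2) (nat_lit 204) (nat_lit 208) (nat_lit 188))))) (PT.nd (nat_lit 156) (PT.nd (nat_lit 78) (PT.lf (nat_lit 26676) (nat_lit 6) (nat_lit 351) (nat_lit 2) (nat_lit 205) (nat_lit 208) (nat_lit 187)) (PT.lf (nat_lit 25688) (nat_lit 6) (nat_lit 338) (nat_lit 2) (nat_lit 206) (nat_lit 208) (nat_lit 186))) (PT.nd (nat_lit 78) (PT.lf (nat_lit 24624) (nat_lit 6) (nat_lit 324)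 (nat_lit 2) (nat_lit 207) (nat_lit 208) (nat_lit 185)) (PT.nd (nat_lit 78) (PT.lf (nat_lit 23484) (nat_lit 3) (nat_lit 309) (nat_lit 0) (nat_lit 208) (nat_lit 208) (nat_lit 184)) (PT.lf (nat_lit 22192) (nat_lit 6) (nat_lit 292) (nat_lit 0) (nat_lit 209) (nat_lit 208) (nat_lit 183))))))))
noncomputable def pc34 : PT := (PT.nd (nat_lit 60060) (PT.nd (nat_lit 702) (PT.nd (nat_lit 312) (PT.nd (nat_lit 156) (PT.nd (nat_lit 78) (PT.lf (nat_lit 21356) (nat_lit 6) (nat_lit 281) (nat_lit 0) (nat_lit 210) (nat_lit 208) (nat_lit 182)) (PT.lf (nat_lit 20672) (nat_lit 6) (nat_lit 272) (nat_lit 0) (nat_lit 211) (nat_lit 208) (nat_lit 181))) (PT.nd (nat_lit 78) (PT.lf (nat_lit 19988) (nat_lit 6) (nat_lit 263) (nat_lit 0) (nat_lit 212) (nat_lit 208) (nat_lit 180)) (PT.lf (nat_lit 19380) (nat_lit 6) (nat_lit 255) (nat_lit 0) (nat_lit 213) (nat_lit 208) (nat_lit 179)))) (PT.nd (nat_lit 156) (PT.nd (nat_lit 78) (PT.lf (nat_lit 18772)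 (nat_lit 6) (nat_lit 247) (nat_lit 0) (nat_lit 214) (nat_lit 208) (nat_lit 178)) (PT.lf (nat_lit 18164) (nat_lit 6) (nat_lit 239) (nat_lit 0) (nat_lit 215) (nat_lit 208) (nat_lit 177))) (PT.nd (nat_lit 78) (PT.lf (nat_lit 17556) (nat_lit 6) (nat_lit 231) (nat_lit 0) (nat_lit 216) (nat_lit 208) (nat_lit 176)) (PT.nd (nat_lit 78) (PT.lf (nat_lit 17024) (nat_lit 6) (nat_lit 224) (nat_lit 0) (nat_lit 217) (nat_lit 208) (nat_lit 175)) (PT.lf (nat_lit 16492) (nat_lit 6) (nat_lit 217) (nat_lit 0) (nat_lit 218) (nat_lit 208) (nat_lit 174)))))) (PT.nd (nat_lit 58968) (PT.nd (nat_lit 58812) (PT.nd (nat_lit 58734) (PT.lf (nat_lit 15960) (nat_lit 6) (nat_lit 210) (nat_lit 0) (nat_lit 219) (nat_lit 208) (nat_lit 173)) (PT.lf (nat_lit 15048) (nat_lit 6) (nat_lit 198) (nat_lit 5) (nat_lit 171) (nat_lit 209) (nat_lit 220))) (PT.nd (nat_lit 78) (PT.lf (nat_lit 15504) (nat_lit 6) (nat_lit 204) (nat_lit 5) (nat_lit 172) (nat_lit 209)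 (nat_lit 219)) (PT.lf (nat_lit 16036) (nat_lit 6) (nat_lit 211) (nat_lit 5) (nat_lit 173) (nat_lit 209) (nat_lit 218)))) (PT.nd (nat_lit 156) (PT.nd (nat_lit 78) (PT.lf (nat_lit 16568) (nat_lit 6) (nat_lit 218) (nat_lit 5) (nat_lit 174) (nat_lit 209) (nat_lit 217)) (PT.lf (nat_lit 17100) (nat_lit 6) (nat_lit 225) (nat_lit 5) (nat_lit 175) (nat_lit 209) (nat_lit 216))) (PT.nd (nat_lit 78) (PT.lf (nat_lit 17632) (nat_lit 6) (nat_lit 232) (nat_lit 5) (nat_lit 176) (nat_lit 209) (nat_lit 215)) (PT.nd (nat_lit 78) (PT.lf (nat_lit 18240) (nat_lit 6) (nat_lit 240) (nat_lit 5) (nat_lit 177) (nat_lit 209) (nat_lit 214)) (PT.lf (nat_lit 18848) (nat_lit 6) (nat_lit 248) (nat_lit 5) (nat_lit 178) (nat_lit 209) (nat_lit 213))))))) (PT.nd (nat_lit 702) (PT.nd (nat_lit 312) (PT.nd (nat_lit 156) (PT.nd (nat_lit 78) (PT.lf (nat_lit 19456) (nat_lit 6) (nat_lit 256) (nat_lit 5) (nat_lit 179) (nat_lit 209) (nat_lit 212)) (PT.lf (nat_lit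 20064) (nat_lit 6) (nat_lit 264) (nat_lit 5) (nat_lit 180) (nat_lit 209) (nat_lit 211))) (PT.nd (nat_lit 78) (PT.lf (nat_lit 20748) (nat_lit 6) (nat_lit 273) (nat_lit 5) (nat_lit 181) (nat_lit 209) (nat_lit 210)) (PT.lf (nat_lit 21432) (nat_lit 3) (nat_lit 282) (nat_lit 4) (nat_lit 182) (nat_lit 209) (nat_lit 209)))) (PT.nd (nat_lit 156) (PT.nd (nat_lit 78) (PT.lf (nat_lit 22192) (nat_lit 6) (nat_lit 292) (nat_lit 4) (nat_lit 183) (nat_lit 209) (nat_lit 208)) (PT.lf (nat_lit 23408) (nat_lit 6) (nat_lit 308) (nat_lit 4) (nat_lit 184) (nat_lit 209) (nat_lit 207))) (PT.nd (nat_lit 78) (PT.lf (nat_lit 24548) (nat_lit 6) (nat_lit 323) (nat_lit 4) (nat_lit 185) (nat_lit 209) (nat_lit 206)) (PT.nd (nat_lit 78) (PT.lf (nat_lit 25612) (nat_lit 6) (nat_lit 337) (nat_lit 4) (nat_lit 186) (nat_lit 209) (nat_lit 205)) (PT.lf (nat_lit 26600) (nat_lit 6) (nat_lit 350) (nat_lit 4) (nat_lit 187) (nat_lit 209) (nat_lit 204))))))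 (PT.nd (nat_lit 390) (PT.nd (nat_lit 156) (PT.nd (nat_lit 78) (PT.lf (nat_lit 27512) (nat_lit 6) (nat_lit 362) (nat_lit 4) (nat_lit 188) (nat_lit 209) (nat_lit 203)) (PT.lf (nat_lit 28348) (nat_lit 6) (nat_lit 373) (nat_lit 4) (nat_lit 189) (nat_lit 209) (nat_lit 202))) (PT.nd (nat_lit 78) (PT.lf (nat_lit 29108) (nat_lit 6) (nat_lit 383) (nat_lit 4) (nat_lit 190) (nat_lit 209) (nat_lit 201)) (PT.nd (nat_lit 78) (PT.lf (nat_lit 29792) (nat_lit 6) (nat_lit 392) (nat_lit 4) (nat_lit 191) (nat_lit 209) (nat_lit 200)) (PT.lf (nat_lit 29716) (nat_lit 6) (nat_lit 391) (nat_lit 4) (nat_lit 192) (nat_lit 209) (nat_lit 199))))) (PT.nd (nat_lit 156) (PT.nd (nat_lit 78) (PT.lf (nat_lit 29640) (nat_lit 6) (nat_lit 390) (nat_lit 4) (nat_lit 193) (nat_lit 209) (nat_lit 198)) (PT.lf (nat_lit 29564) (nat_lit 6) (nat_lit 389) (nat_lit 4) (nat_lit 194) (nat_lit 209) (nat_lit 197))) (PT.nd (nat_lit 78) (PT.lf (nat_lit 29488) (nat_lit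 6) (nat_lit 388) (nat_lit 4) (nat_lit 195) (nat_lit 209) (nat_lit 196)) (PT.nd (nat_lit 78) (PT.lf (nat_lit 29488) (nat_lit 6) (nat_lit 388) (nat_lit 2) (nat_lit 196) (nat_lit 209) (nat_lit 195)) (PT.lf (nat_lit 29564) (nat_lit 6) (nat_lit 389) (nat_lit 2) (nat_lit 197) (nat_lit 209) (nat_lit 194))))))))
noncomputable def pc35 : PT := (PT.nd (nat_lit 1482) (PT.nd (nat_lit 702) (PT.nd (nat_lit 312) (PT.nd (nat_lit 156) (PT.nd (nat_lit 78) (PT.lf (nat_lit 29640) (nat_lit 6) (nat_lit 390) (nat_lit 2) (nat_lit 198) (nat_lit 209) (nat_lit 193)) (PT.lf (nat_lit 29716) (nat_lit 6) (nat_lit 391) (nat_lit 2) (nat_lit 199) (nat_lit 209) (nat_lit 192))) (PT.nd (nat_lit 78) (PT.lf (nat_lit 29792) (nat_lit 6) (nat_lit 392) (nat_lit 2) (nat_lit 200) (nat_lit 209) (nat_lit 191)) (PT.lf (nat_lit 29108) (nat_lit 6) (nat_lit 383) (nat_lit 2) (nat_lit 201) (nat_lit 209) (nat_lit 190)))) (PT.nd (nat_lit 156) (PT.nd (nat_lit 78) (PT.lf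 (nat_lit 28348) (nat_lit 6) (nat_lit 373) (nat_lit 2) (nat_lit 202) (nat_lit 209) (nat_lit 189)) (PT.lf (nat_lit 27512) (nat_lit 6) (nat_lit 362) (nat_lit 2) (nat_lit 203) (nat_lit 209) (nat_lit 188))) (PT.nd (nat_lit 78) (PT.lf (nat_lit 26600) (nat_lit 6) (nat_lit 350) (nat_lit 2) (nat_lit 204) (nat_lit 209) (nat_lit 187)) (PT.nd (nat_lit 78) (PT.lf (nat_lit 25612) (nat_lit 6) (nat_lit 337) (nat_lit 2) (nat_lit 205) (nat_lit 209) (nat_lit 186)) (PT.lf (nat_lit 24548) (nat_lit 6) (nat_lit 323) (nat_lit 2) (nat_lit 206) (nat_lit 209) (nat_lit 185)))))) (PT.nd (nat_lit 390) (PT.nd (nat_lit 156) (PT.nd (nat_lit 78) (PT.lf (nat_lit 23408) (nat_lit 6) (nat_lit 308) (nat_lit 2) (nat_lit 207) (nat_lit 209) (nat_lit 184)) (PT.lf (nat_lit 22192) (nat_lit 6) (nat_lit 292) (nat_lit 2) (nat_lit 208) (nat_lit 209) (nat_lit 183))) (PT.nd (nat_lit 78) (PT.lf (nat_lit 21432) (nat_lit 3) (nat_lit 282) (nat_lit 0) (nat_lit 209) (nat_lit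 209) (nat_lit 182)) (PT.nd (nat_lit 78) (PT.lf (nat_lit 20748) (nat_lit 6) (nat_lit 273) (nat_lit 0) (nat_lit 210) (nat_lit 209) (nat_lit 181)) (PT.lf (nat_lit 20064) (nat_lit 6) (nat_lit 264) (nat_lit 0) (nat_lit 211) (nat_lit 209) (nat_lit 180))))) (PT.nd (nat_lit 156) (PT.nd (nat_lit 78) (PT.lf (nat_lit 19456) (nat_lit 6) (nat_lit 256) (nat_lit 0) (nat_lit 212) (nat_lit 209) (nat_lit 179)) (PT.lf (nat_lit 18848) (nat_lit 6) (nat_lit 248) (nat_lit 0) (nat_lit 213) (nat_lit 209) (nat_lit 178))) (PT.nd (nat_lit 78) (PT.lf (nat_lit 18240) (nat_lit 6) (nat_lit 240) (nat_lit 0) (nat_lit 214) (nat_lit 209) (nat_lit 177)) (PT.nd (nat_lit 78) (PT.lf (nat_lit 17632) (nat_lit 6) (nat_lit 232) (nat_lit 0) (nat_lit 215) (nat_lit 209) (nat_lit 176)) (PT.lf (nat_lit 17100) (nat_lit 6) (nat_lit 225) (nat_lit 0) (nat_lit 216) (nat_lit 209) (nat_lit 175))))))) (PT.nd (nat_lit 59202) (PT.nd (nat_lit 58812) (PT.nd (nat_lit 156)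 (PT.nd (nat_lit 78) (PT.lf (nat_lit 16568) (nat_lit 6) (nat_lit 218) (nat_lit 0) (nat_lit 217) (nat_lit 209) (nat_lit 174)) (PT.lf (nat_lit 16036) (nat_lit 6) (nat_lit 211) (nat_lit 0) (nat_lit 218) (nat_lit 209) (nat_lit 173))) (PT.nd (nat_lit 78) (PT.lf (nat_lit 15504) (nat_lit 6) (nat_lit 204) (nat_lit 0) (nat_lit 219) (nat_lit 209) (nat_lit 172)) (PT.lf (nat_lit 15048) (nat_lit 6) (nat_lit 198) (nat_lit 0) (nat_lit 220) (nat_lit 209) (nat_lit 171)))) (PT.nd (nat_lit 156) (PT.nd (nat_lit 78) (PT.lf (nat_lit 14592) (nat_lit 6) (nat_lit 192) (nat_lit 5) (nat_lit 170) (nat_lit 210) (nat_lit 220)) (PT.lf (nat_lit 15124) (nat_lit 6) (nat_lit 199) (nat_lit 5) (nat_lit 171) (nat_lit 210) (nat_lit 219))) (PT.nd (nat_lit 78) (PT.lf (nat_lit 15580) (nat_lit 6) (nat_lit 205) (nat_lit 5) (nat_lit 172) (nat_lit 210) (nat_lit 218)) (PT.nd (nat_lit 78) (PT.lf (nat_lit 16112) (nat_lit 6) (nat_lit 212) (nat_lit 5) (nat_lit 173)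 (nat_lit 210) (nat_lit 217)) (PT.lf (nat_lit 16644) (nat_lit 6) (nat_lit 219) (nat_lit 5) (nat_lit 174) (nat_lit 210) (nat_lit 216)))))) (PT.nd (nat_lit 390) (PT.nd (nat_lit 156) (PT.nd (nat_lit 78) (PT.lf (nat_lit 17176) (nat_lit 6) (nat_lit 226) (nat_lit 5) (nat_lit 175) (nat_lit 210) (nat_lit 215)) (PT.lf (nat_lit 17708) (nat_lit 6) (nat_lit 233) (nat_lit 5) (nat_lit 176) (nat_lit 210) (nat_lit 214))) (PT.nd (nat_lit 78) (PT.lf (nat_lit 18316) (nat_lit 6) (nat_lit 241) (nat_lit 5) (nat_lit 177) (nat_lit 210) (nat_lit 213)) (PT.nd (nat_lit 78) (PT.lf (nat_lit 18924) (nat_lit 6) (nat_lit 249) (nat_lit 5) (nat_lit 178) (nat_lit 210) (nat_lit 212)) (PT.lf (nat_lit 19532) (nat_lit 6) (nat_lit 257) (nat_lit 5) (nat_lit 179) (nat_lit 210) (nat_lit 211))))) (PT.nd (nat_lit 156) (PT.nd (nat_lit 78) (PT.lf (nat_lit 20140) (nat_lit 3) (nat_lit 265) (nat_lit 4) (nat_lit 180) (nat_lit 210) (nat_lit 210)) (PT.lf (nat_lit 20748)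 (nat_lit 6) (nat_lit 273) (nat_lit 4) (nat_lit 181) (nat_lit 210) (nat_lit 209))) (PT.nd (nat_lit 78) (PT.lf (nat_lit 21356) (nat_lit 6) (nat_lit 281) (nat_lit 4) (nat_lit 182) (nat_lit 210) (nat_lit 208)) (PT.nd (nat_lit 78) (PT.lf (nat_lit 22116) (nat_lit 6) (nat_lit 291) (nat_lit 4) (nat_lit 183) (nat_lit 210) (nat_lit 207)) (PT.lf (nat_lit 23332) (nat_lit 6) (nat_lit 307) (nat_lit 4) (nat_lit 184) (nat_lit 210) (nat_lit 206))))))))
noncomputable def pc36 : PT := (PT.nd (nat_lit 1404) (PT.nd (nat_lit 702) (PT.nd (nat_lit 312) (PT.nd (nat_lit 156) (PT.nd (nat_lit 78) (PT.lf (nat_lit 24472) (nat_lit 6) (nat_lit 322) (nat_lit 4) (nat_lit 185) (nat_lit 210) (nat_lit 205)) (PT.lf (nat_lit 25536) (nat_lit 6) (nat_lit 336) (nat_lit 4) (nat_lit 186) (nat_lit 210) (nat_lit 204))) (PT.nd (nat_lit 78) (PT.lf (nat_lit 26524) (nat_lit 6) (nat_lit 349) (nat_lit 4) (nat_lit 187) (nat_lit 210) (nat_lit 203)) (PT.lf (nat_lit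 27436) (nat_lit 6) (nat_lit 361) (nat_lit 4) (nat_lit 188) (nat_lit 210) (nat_lit 202)))) (PT.nd (nat_lit 156) (PT.nd (nat_lit 78) (PT.lf (nat_lit 28272) (nat_lit 6) (nat_lit 372) (nat_lit 4) (nat_lit 189) (nat_lit 210) (nat_lit 201)) (PT.lf (nat_lit 29032) (nat_lit 6) (nat_lit 382) (nat_lit 4) (nat_lit 190) (nat_lit 210) (nat_lit 200))) (PT.nd (nat_lit 78) (PT.lf (nat_lit 28956) (nat_lit 6) (nat_lit 381) (nat_lit 4) (nat_lit 191) (nat_lit 210) (nat_lit 199)) (PT.nd (nat_lit 78) (PT.lf (nat_lit 28880) (nat_lit 6) (nat_lit 380) (nat_lit 4) (nat_lit 192) (nat_lit 210) (nat_lit 198)) (PT.lf (nat_lit 28804) (nat_lit 6) (nat_lit 379) (nat_lit 4) (nat_lit 193) (nat_lit 210) (nat_lit 197)))))) (PT.nd (nat_lit 312) (PT.nd (nat_lit 156) (PT.nd (nat_lit 78) (PT.lf (nat_lit 28728) (nat_lit 6) (nat_lit 378) (nat_lit 4) (nat_lit 194) (nat_lit 210) (nat_lit 196)) (PT.lf (nat_lit 28652) (nat_lit 3) (nat_lit 377) (nat_lit 2) (nat_lit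 195) (nat_lit 210) (nat_lit 195))) (PT.nd (nat_lit 78) (PT.lf (nat_lit 28728) (nat_lit 6) (nat_lit 378) (nat_lit 2) (nat_lit 196) (nat_lit 210) (nat_lit 194)) (PT.lf (nat_lit 28804) (nat_lit 6) (nat_lit 379) (nat_lit 2) (nat_lit 197) (nat_lit 210) (nat_lit 193)))) (PT.nd (nat_lit 156) (PT.nd (nat_lit 78) (PT.lf (nat_lit 28880) (nat_lit 6) (nat_lit 380) (nat_lit 2) (nat_lit 198) (nat_lit 210) (nat_lit 192)) (PT.lf (nat_lit 28956) (nat_lit 6) (nat_lit 381) (nat_lit 2) (nat_lit 199) (nat_lit 210) (nat_lit 191))) (PT.nd (nat_lit 78) (PT.lf (nat_lit 29032) (nat_lit 6) (nat_lit 382) (nat_lit 2) (nat_lit 200) (nat_lit 210) (nat_lit 190)) (PT.nd (nat_lit 78) (PT.lf (nat_lit 28272) (nat_lit 6) (nat_lit 372) (nat_lit 2) (nat_lit 201) (nat_lit 210) (nat_lit 189)) (PT.lf (nat_lit 27436) (nat_lit 6) (nat_lit 361) (nat_lit 2) (nat_lit 202) (nat_lit 210) (nat_lit 188))))))) (PT.nd (nat_lit 702) (PT.nd (nat_lit 312) (PT.nd (nat_lit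 156) (PT.nd (nat_lit 78) (PT.lf (nat_lit 26524) (nat_lit 6) (nat_lit 349) (nat_lit 2) (nat_lit 203) (nat_lit 210) (nat_lit 187)) (PT.lf (nat_lit 25536) (nat_lit 6) (nat_lit 336) (nat_lit 2) (nat_lit 204) (nat_lit 210) (nat_lit 186))) (PT.nd (nat_lit 78) (PT.lf (nat_lit 24472) (nat_lit 6) (nat_lit 322) (nat_lit 2) (nat_lit 205) (nat_lit 210) (nat_lit 185)) (PT.lf (nat_lit 23332) (nat_lit 6) (nat_lit 307) (nat_lit 2) (nat_lit 206) (nat_lit 210) (nat_lit 184)))) (PT.nd (nat_lit 156) (PT.nd (nat_lit 78) (PT.lf (nat_lit 22116) (nat_lit 6) (nat_lit 291) (nat_lit 2) (nat_lit 207) (nat_lit 210) (nat_lit 183)) (PT.lf (nat_lit 21356) (nat_lit 6) (nat_lit 281) (nat_lit 2) (nat_lit 208) (nat_lit 210) (nat_lit 182))) (PT.nd (nat_lit 78) (PT.lf (nat_lit 20748) (nat_lit 6) (nat_lit 273) (nat_lit 2) (nat_lit 209) (nat_lit 210) (nat_lit 181)) (PT.nd (nat_lit 78) (PT.lf (nat_lit 20140) (nat_lit 3) (nat_lit 265) (nat_lit 0) (nat_lit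 210) (nat_lit 210) (nat_lit 180)) (PT.lf (nat_lit 19532) (nat_lit 6) (nat_lit 257) (nat_lit 0) (nat_lit 211) (nat_lit 210) (nat_lit 179)))))) (PT.nd (nat_lit 390) (PT.nd (nat_lit 156) (PT.nd (nat_lit 78) (PT.lf (nat_lit 18924) (nat_lit 6) (nat_lit 249) (nat_lit 0) (nat_lit 212) (nat_lit 210) (nat_lit 178)) (PT.lf (nat_lit 18316) (nat_lit 6) (nat_lit 241) (nat_lit 0) (nat_lit 213) (nat_lit 210) (nat_lit 177))) (PT.nd (nat_lit 78) (PT.lf (nat_lit 17708) (nat_lit 6) (nat_lit 233) (nat_lit 0) (nat_lit 214) (nat_lit 210) (nat_lit 176)) (PT.nd (nat_lit 78) (PT.lf (nat_lit 17176) (nat_lit 6) (nat_lit 226) (nat_lit 0) (nat_lit 215) (nat_lit 210) (nat_lit 175)) (PT.lf (nat_lit 16644) (nat_lit 6) (nat_lit 219) (nat_lit 0) (nat_lit 216) (nat_lit 210) (nat_lit 174))))) (PT.nd (nat_lit 156) (PT.nd (nat_lit 78) (PT.lf (nat_lit 16112) (nat_lit 6) (nat_lit 212) (nat_lit 0) (nat_lit 217) (nat_lit 210) (nat_lit 173)) (PT.lf (nat_lit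 15580) (nat_lit 6) (nat_lit 205) (nat_lit 0) (nat_lit 218) (nat_lit 210) (nat_lit 172))) (PT.nd (nat_lit 78) (PT.lf (nat_lit 15124) (nat_lit 6) (nat_lit 199) (nat_lit 0) (nat_lit 219) (nat_lit 210) (nat_lit 171)) (PT.nd (nat_lit 58500) (PT.lf (nat_lit 14592) (nat_lit 6) (nat_lit 192) (nat_lit 0) (nat_lit 220) (nat_lit 210) (nat_lit 170)) (PT.lf (nat_lit 14212) (nat_lit 6) (nat_lit 187) (nat_lit 5) (nat_lit 169) (nat_lit 211) (nat_lit 220))))))))
noncomputable def pc37 : PT := (PT.nd (nat_lit 1482) (PT.nd (nat_lit 702) (PT.nd (nat_lit 312) (PT.nd (nat_lit 156) (PT.nd (nat_lit 78) (PT.lf (nat_lit 14668) (nat_lit 6) (nat_lit 193) (nat_lit 5) (nat_lit 170) (nat_lit 211) (nat_lit 219)) (PT.lf (nat_lit 15200) (nat_lit 6) (nat_lit 200) (nat_lit 5) (nat_lit 171) (nat_lit 211) (nat_lit 218))) (PT.nd (nat_lit 78) (PT.lf (nat_lit 15656) (nat_lit 6) (nat_lit 206) (nat_lit 5) (nat_lit 172) (nat_lit 211) (nat_lit 217)) (PT.lf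 (nat_lit 16188) (nat_lit 6) (nat_lit 213) (nat_lit 5) (nat_lit 173) (nat_lit 211) (nat_lit 216)))) (PT.nd (nat_lit 156) (PT.nd (nat_lit 78) (PT.lf (nat_lit 16720) (nat_lit 6) (nat_lit 220) (nat_lit 5) (nat_lit 174) (nat_lit 211) (nat_lit 215)) (PT.lf (nat_lit 17252) (nat_lit 6) (nat_lit 227) (nat_lit 5) (nat_lit 175) (nat_lit 211) (nat_lit 214))) (PT.nd (nat_lit 78) (PT.lf (nat_lit 17784) (nat_lit 6) (nat_lit 234) (nat_lit 5) (nat_lit 176) (nat_lit 211) (nat_lit 213)) (PT.nd (nat_lit 78) (PT.lf (nat_lit 18392) (nat_lit 6) (nat_lit 242) (nat_lit 5) (nat_lit 177) (nat_lit 211) (nat_lit 212)) (PT.lf (nat_lit 19000) (nat_lit 3) (nat_lit 250) (nat_lit 4) (nat_lit 178) (nat_lit 211) (nat_lit 211)))))) (PT.nd (nat_lit 390) (PT.nd (nat_lit 156) (PT.nd (nat_lit 78) (PT.lf (nat_lit 19532) (nat_lit 6) (nat_lit 257) (nat_lit 4) (nat_lit 179) (nat_lit 211) (nat_lit 210)) (PT.lf (nat_lit 20064) (nat_lit 6) (nat_lit 264) (nat_lit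 4) (nat_lit 180) (nat_lit 211) (nat_lit 209))) (PT.nd (nat_lit 78) (PT.lf (nat_lit 20672) (nat_lit 6) (nat_lit 272) (nat_lit 4) (nat_lit 181) (nat_lit 211) (nat_lit 208)) (PT.nd (nat_lit 78) (PT.lf (nat_lit 21280) (nat_lit 6) (nat_lit 280) (nat_lit 4) (nat_lit 182) (nat_lit 211) (nat_lit 207)) (PT.lf (nat_lit 22040) (nat_lit 6) (nat_lit 290) (nat_lit 4) (nat_lit 183) (nat_lit 211) (nat_lit 206))))) (PT.nd (nat_lit 156) (PT.nd (nat_lit 78) (PT.lf (nat_lit 23256) (nat_lit 6) (nat_lit 306) (nat_lit 4) (nat_lit 184) (nat_lit 211) (nat_lit 205)) (PT.lf (nat_lit 24396) (nat_lit 6) (nat_lit 321) (nat_lit 4) (nat_lit 185) (nat_lit 211) (nat_lit 204))) (PT.nd (nat_lit 78) (PT.lf (nat_lit 25460) (nat_lit 6) (nat_lit 335) (nat_lit 4) (nat_lit 186) (nat_lit 211) (nat_lit 203)) (PT.nd (nat_lit 78) (PT.lf (nat_lit 26448) (nat_lit 6) (nat_lit 348) (nat_lit 4) (nat_lit 187) (nat_lit 211) (nat_lit 202)) (PT.lf (nat_lit 27360) (nat_lit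 6) (nat_lit 360) (nat_lit 4) (nat_lit 188) (nat_lit 211) (nat_lit 201))))))) (PT.nd (nat_lit 702) (PT.nd (nat_lit 312) (PT.nd (nat_lit 156) (PT.nd (nat_lit 78) (PT.lf (nat_lit 28196) (nat_lit 6) (nat_lit 371) (nat_lit 4) (nat_lit 189) (nat_lit 211) (nat_lit 200)) (PT.lf (nat_lit 28120) (nat_lit 6) (nat_lit 370) (nat_lit 4) (nat_lit 190) (nat_lit 211) (nat_lit 199))) (PT.nd (nat_lit 78) (PT.lf (nat_lit 28044) (nat_lit 6) (nat_lit 369) (nat_lit 4) (nat_lit 191) (nat_lit 211) (nat_lit 198)) (PT.lf (nat_lit 27968) (nat_lit 6) (nat_lit 368) (nat_lit 4) (nat_lit 192) (nat_lit 211) (nat_lit 197)))) (PT.nd (nat_lit 156) (PT.nd (nat_lit 78) (PT.lf (nat_lit 27892) (nat_lit 6) (nat_lit 367) (nat_lit 4) (nat_lit 193) (nat_lit 211) (nat_lit 196)) (PT.lf (nat_lit 27816) (nat_lit 6) (nat_lit 366) (nat_lit 4) (nat_lit 194) (nat_lit 211) (nat_lit 195))) (PT.nd (nat_lit 78) (PT.lf (nat_lit 27816) (nat_lit 6) (nat_lit 366) (nat_lit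 2) (nat_lit 195) (nat_lit 211) (nat_lit 194)) (PT.nd (nat_lit 78) (PT.lf (nat_lit 27892) (nat_lit 6) (nat_lit 367) (nat_lit 2) (nat_lit 196) (nat_lit 211) (nat_lit 193)) (PT.lf (nat_lit 27968) (nat_lit 6) (nat_lit 368) (nat_lit 2) (nat_lit 197) (nat_lit 211) (nat_lit 192)))))) (PT.nd (nat_lit 390) (PT.nd (nat_lit 156) (PT.nd (nat_lit 78) (PT.lf (nat_lit 28044) (nat_lit 6) (nat_lit 369) (nat_lit 2) (nat_lit 198) (nat_lit 211) (nat_lit 191)) (PT.lf (nat_lit 28120) (nat_lit 6) (nat_lit 370) (nat_lit 2) (nat_lit 199) (nat_lit 211) (nat_lit 190))) (PT.nd (nat_lit 78) (PT.lf (nat_lit 28196) (nat_lit 6) (nat_lit 371) (nat_lit 2) (nat_lit 200) (nat_lit 211) (nat_lit 189)) (PT.nd (nat_lit 78) (PT.lf (nat_lit 27360) (nat_lit 6) (nat_lit 360) (nat_lit 2) (nat_lit 201) (nat_lit 211) (nat_lit 188)) (PT.lf (nat_lit 26448) (nat_lit 6) (nat_lit 348) (nat_lit 2) (nat_lit 202) (nat_lit 211) (nat_lit 187))))) (PT.nd (nat_lit 156)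 (PT.nd (nat_lit 78) (PT.lf (nat_lit 25460) (nat_lit 6) (nat_lit 335) (nat_lit 2) (nat_lit 203) (nat_lit 211) (nat_lit 186)) (PT.lf (nat_lit 24396) (nat_lit 6) (nat_lit 321) (nat_lit 2) (nat_lit 204) (nat_lit 211) (nat_lit 185))) (PT.nd (nat_lit 78) (PT.lf (nat_lit 23256) (nat_lit 6) (nat_lit 306) (nat_lit 2) (nat_lit 205) (nat_lit 211) (nat_lit 184)) (PT.nd (nat_lit 78) (PT.lf (nat_lit 22040) (nat_lit 6) (nat_lit 290) (nat_lit 2) (nat_lit 206) (nat_lit 211) (nat_lit 183)) (PT.lf (nat_lit 21280) (nat_lit 6) (nat_lit 280) (nat_lit 2) (nat_lit 207) (nat_lit 211) (nat_lit 182))))))))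
noncomputable def pc38 : PT := (PT.nd (nat_lit 59748) (PT.nd (nat_lit 702) (PT.nd (nat_lit 312) (PT.nd (nat_lit 156) (PT.nd (nat_lit 78) (PT.lf (nat_lit 20672) (nat_lit 6) (nat_lit 272) (nat_lit 2) (nat_lit 208) (nat_lit 211) (nat_lit 181)) (PT.lf (nat_lit 20064) (nat_lit 6) (nat_lit 264) (nat_lit 2) (nat_lit 209) (nat_lit 211) (nat_lit 180))) (PT.nd (nat_lit 78) (PT.lf (nat_lit 19532) (nat_lit 6) (nat_lit 257) (nat_lit 2) (nat_lit 210) (nat_lit 211) (nat_lit 179)) (PT.lf (nat_lit 19000) (nat_lit 3) (nat_lit 250) (nat_lit 0) (nat_lit 211) (nat_lit 211) (nat_lit 178)))) (PT.nd (nat_lit 156) (PT.nd (nat_lit 78) (PT.lf (nat_lit 18392) (nat_lit 6) (nat_lit 242) (nat_lit 0) (nat_lit 212) (nat_lit 211) (nat_lit 177)) (PT.lf (nat_lit 17784) (nat_lit 6) (nat_lit 234) (nat_lit 0) (nat_lit 213) (nat_lit 211) (nat_lit 176))) (PT.nd (nat_lit 78) (PT.lf (nat_lit 17252) (nat_lit 6) (nat_lit 227) (nat_lit 0) (nat_lit 214) (nat_lit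 211) (nat_lit 175)) (PT.nd (nat_lit 78) (PT.lf (nat_lit 16720) (nat_lit 6) (nat_lit 220) (nat_lit 0) (nat_lit 215) (nat_lit 211) (nat_lit 174)) (PT.lf (nat_lit 16188) (nat_lit 6) (nat_lit 213) (nat_lit 0) (nat_lit 216) (nat_lit 211) (nat_lit 173)))))) (PT.nd (nat_lit 58656) (PT.nd (nat_lit 156) (PT.nd (nat_lit 78) (PT.lf (nat_lit 15656) (nat_lit 6) (nat_lit 206) (nat_lit 0) (nat_lit 217) (nat_lit 211) (nat_lit 172)) (PT.lf (nat_lit 15200) (nat_lit 6) (nat_lit 200) (nat_lit 0) (nat_lit 218) (nat_lit 211) (nat_lit 171))) (PT.nd (nat_lit 78) (PT.lf (nat_lit 14668) (nat_lit 6) (nat_lit 193) (nat_lit 0) (nat_lit 219) (nat_lit 211) (nat_lit 170)) (PT.nd (nat_lit 58344) (PT.lf (nat_lit 14212) (nat_lit 6) (nat_lit 187) (nat_lit 0) (nat_lit 220) (nat_lit 211) (nat_lit 169)) (PT.lf (nat_lit 13452) (nat_lit 6) (nat_lit 177) (nat_lit 5) (nat_lit 167) (nat_lit 212) (nat_lit 221))))) (PT.nd (nat_lit 156) (PT.nd (nat_lit 78) (PT.lf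 (nat_lit 13832) (nat_lit 6) (nat_lit 182) (nat_lit 5) (nat_lit 168) (nat_lit 212) (nat_lit 220)) (PT.lf (nat_lit 14288) (nat_lit 6) (nat_lit 188) (nat_lit 5) (nat_lit 169) (nat_lit 212) (nat_lit 219))) (PT.nd (nat_lit 78) (PT.lf (nat_lit 14744) (nat_lit 6) (nat_lit 194) (nat_lit 5) (nat_lit 170) (nat_lit 212) (nat_lit 218)) (PT.nd (nat_lit 78) (PT.lf (nat_lit 15276) (nat_lit 6) (nat_lit 201) (nat_lit 5) (nat_lit 171) (nat_lit 212) (nat_lit 217)) (PT.lf (nat_lit 15732) (nat_lit 6) (nat_lit 207) (nat_lit 5) (nat_lit 172) (nat_lit 212) (nat_lit 216))))))) (PT.nd (nat_lit 702) (PT.nd (nat_lit 312) (PT.nd (nat_lit 156) (PT.nd (nat_lit 78) (PT.lf (nat_lit 16264) (nat_lit 6) (nat_lit 214) (nat_lit 5) (nat_lit 173) (nat_lit 212) (nat_lit 215)) (PT.lf (nat_lit 16796) (nat_lit 6) (nat_lit 221) (nat_lit 5) (nat_lit 174) (nat_lit 212) (nat_lit 214))) (PT.nd (nat_lit 78) (PT.lf (nat_lit 17328) (nat_lit 6) (nat_lit 228) (nat_lit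 5) (nat_lit 175) (nat_lit 212) (nat_lit 213)) (PT.lf (nat_lit 17860) (nat_lit 3) (nat_lit 235) (nat_lit 4) (nat_lit 176) (nat_lit 212) (nat_lit 212)))) (PT.nd (nat_lit 156) (PT.nd (nat_lit 78) (PT.lf (nat_lit 18392) (nat_lit 6) (nat_lit 242) (nat_lit 4) (nat_lit 177) (nat_lit 212) (nat_lit 211)) (PT.lf (nat_lit 18924) (nat_lit 6) (nat_lit 249) (nat_lit 4) (nat_lit 178) (nat_lit 212) (nat_lit 210))) (PT.nd (nat_lit 78) (PT.lf (nat_lit 19456) (nat_lit 6) (nat_lit 256) (nat_lit 4) (nat_lit 179) (nat_lit 212) (nat_lit 209)) (PT.nd (nat_lit 78) (PT.lf (nat_lit 19988) (nat_lit 6) (nat_lit 263) (nat_lit 4) (nat_lit 180) (nat_lit 212) (nat_lit 208)) (PT.lf (nat_lit 20596) (nat_lit 6) (nat_lit 271) (nat_lit 4) (nat_lit 181) (nat_lit 212) (nat_lit 207)))))) (PT.nd (nat_lit 390) (PT.nd (nat_lit 156) (PT.nd (nat_lit 78) (PT.lf (nat_lit 21204) (nat_lit 6) (nat_lit 279) (nat_lit 4) (nat_lit 182) (nat_lit 212) (nat_lit 206)) (PT.lf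 (nat_lit 21964) (nat_lit 6) (nat_lit 289) (nat_lit 4) (nat_lit 183) (nat_lit 212) (nat_lit 205))) (PT.nd (nat_lit 78) (PT.lf (nat_lit 23180) (nat_lit 6) (nat_lit 305) (nat_lit 4) (nat_lit 184) (nat_lit 212) (nat_lit 204)) (PT.nd (nat_lit 78) (PT.lf (nat_lit 24320) (nat_lit 6) (nat_lit 320) (nat_lit 4) (nat_lit 185) (nat_lit 212) (nat_lit 203)) (PT.lf (nat_lit 25384) (nat_lit 6) (nat_lit 334) (nat_lit 4) (nat_lit 186) (nat_lit 212) (nat_lit 202))))) (PT.nd (nat_lit 156) (PT.nd (nat_lit 78) (PT.lf (nat_lit 26372) (nat_lit 6) (nat_lit 347) (nat_lit 4) (nat_lit 187) (nat_lit 212) (nat_lit 201)) (PT.lf (nat_lit 27284) (nat_lit 6) (nat_lit 359) (nat_lit 4) (nat_lit 188) (nat_lit 212) (nat_lit 200))) (PT.nd (nat_lit 78) (PT.lf (nat_lit 27208) (nat_lit 6) (nat_lit 358) (nat_lit 4) (nat_lit 189) (nat_lit 212) (nat_lit 199)) (PT.nd (nat_lit 78) (PT.lf (nat_lit 27132) (nat_lit 6) (nat_lit 357) (nat_lit 4) (nat_lit 190) (nat_lit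 212) (nat_lit 198)) (PT.lf (nat_lit 27056) (nat_lit 6) (nat_lit 356) (nat_lit 4) (nat_lit 191) (nat_lit 212) (nat_lit 197))))))))
noncomputable def pc39 : PT := (PT.nd (nat_lit 1482) (PT.nd (nat_lit 702) (PT.nd (nat_lit 312) (PT.nd (nat_lit 156) (PT.nd (nat_lit 78) (PT.lf (nat_lit 26980) (nat_lit 6) (nat_lit 355) (nat_lit 4) (nat_lit 192) (nat_lit 212) (nat_lit 196)) (PT.lf (nat_lit 26904) (nat_lit 6) (nat_lit 354) (nat_lit 4) (nat_lit 193) (nat_lit 212) (nat_lit 195))) (PT.nd (nat_lit 78) (PT.lf (nat_lit 26828) (nat_lit 3) (nat_lit 353) (nat_lit 2) (nat_lit 194) (nat_lit 212) (nat_lit 194)) (PT.lf (nat_lit 26904) (nat_lit 6) (nat_lit 354) (nat_lit 2) (nat_lit 195) (nat_lit 212) (nat_lit 193)))) (PT.nd (nat_lit 156) (PT.nd (nat_lit 78) (PT.lf (nat_lit 26980) (nat_lit 6) (nat_lit 355) (nat_lit 2) (nat_lit 196) (nat_lit 212) (nat_lit 192)) (PT.lf (nat_lit 27056) (nat_lit 6) (nat_lit 356) (nat_lit 2) (nat_lit 197)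 (nat_lit 212) (nat_lit 191))) (PT.nd (nat_lit 78) (PT.lf (nat_lit 27132) (nat_lit 6) (nat_lit 357) (nat_lit 2) (nat_lit 198) (nat_lit 212) (nat_lit 190)) (PT.nd (nat_lit 78) (PT.lf (nat_lit 27208) (nat_lit 6) (nat_lit 358) (nat_lit 2) (nat_lit 199) (nat_lit 212) (nat_lit 189)) (PT.lf (nat_lit 27284) (nat_lit 6) (nat_lit 359) (nat_lit 2) (nat_lit 200) (nat_lit 212) (nat_lit 188)))))) (PT.nd (nat_lit 390) (PT.nd (nat_lit 156) (PT.nd (nat_lit 78) (PT.lf (nat_lit 26372) (nat_lit 6) (nat_lit 347) (nat_lit 2) (nat_lit 201) (nat_lit 212) (nat_lit 187)) (PT.lf (nat_lit 25384) (nat_lit 6) (nat_lit 334) (nat_lit 2) (nat_lit 202) (nat_lit 212) (nat_lit 186))) (PT.nd (nat_lit 78) (PT.lf (nat_lit 24320) (nat_lit 6) (nat_lit 320) (nat_lit 2) (nat_lit 203) (nat_lit 212) (nat_lit 185)) (PT.nd (nat_lit 78) (PT.lf (nat_lit 23180) (nat_lit 6) (nat_lit 305) (nat_lit 2) (nat_lit 204) (nat_lit 212) (nat_lit 184)) (PT.lf (nat_lit 21964)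 (nat_lit 6) (nat_lit 289) (nat_lit 2) (nat_lit 205) (nat_lit 212) (nat_lit 183))))) (PT.nd (nat_lit 156) (PT.nd (nat_lit 78) (PT.lf (nat_lit 21204) (nat_lit 6) (nat_lit 279) (nat_lit 2) (nat_lit 206) (nat_lit 212) (nat_lit 182)) (PT.lf (nat_lit 20596) (nat_lit 6) (nat_lit 271) (nat_lit 2) (nat_lit 207) (nat_lit 212) (nat_lit 181))) (PT.nd (nat_lit 78) (PT.lf (nat_lit 19988) (nat_lit 6) (nat_lit 263) (nat_lit 2) (nat_lit 208) (nat_lit 212) (nat_lit 180)) (PT.nd (nat_lit 78) (PT.lf (nat_lit 19456) (nat_lit 6) (nat_lit 256) (nat_lit 2) (nat_lit 209) (nat_lit 212) (nat_lit 179)) (PT.lf (nat_lit 18924) (nat_lit 6) (nat_lit 249) (nat_lit 2) (nat_lit 210) (nat_lit 212) (nat_lit 178))))))) (PT.nd (nat_lit 702) (PT.nd (nat_lit 312) (PT.nd (nat_lit 156) (PT.nd (nat_lit 78) (PT.lf (nat_lit 18392) (nat_lit 6) (nat_lit 242) (nat_lit 2) (nat_lit 211) (nat_lit 212) (nat_lit 177)) (PT.lf (nat_lit 17860) (nat_lit 3) (nat_lit 235)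 (nat_lit 0) (nat_lit 212) (nat_lit 212) (nat_lit 176))) (PT.nd (nat_lit 78) (PT.lf (nat_lit 17328) (nat_lit 6) (nat_lit 228) (nat_lit 0) (nat_lit 213) (nat_lit 212) (nat_lit 175)) (PT.lf (nat_lit 16796) (nat_lit 6) (nat_lit 221) (nat_lit 0) (nat_lit 214) (nat_lit 212) (nat_lit 174)))) (PT.nd (nat_lit 156) (PT.nd (nat_lit 78) (PT.lf (nat_lit 16264) (nat_lit 6) (nat_lit 214) (nat_lit 0) (nat_lit 215) (nat_lit 212) (nat_lit 173)) (PT.lf (nat_lit 15732) (nat_lit 6) (nat_lit 207) (nat_lit 0) (nat_lit 216) (nat_lit 212) (nat_lit 172))) (PT.nd (nat_lit 78) (PT.lf (nat_lit 15276) (nat_lit 6) (nat_lit 201) (nat_lit 0) (nat_lit 217) (nat_lit 212) (nat_lit 171)) (PT.nd (nat_lit 78) (PT.lf (nat_lit 14744) (nat_lit 6) (nat_lit 194) (nat_lit 0) (nat_lit 218) (nat_lit 212) (nat_lit 170)) (PT.lf (nat_lit 14288) (nat_lit 6) (nat_lit 188) (nat_lit 0) (nat_lit 219) (nat_lit 212) (nat_lit 169)))))) (PT.nd (nat_lit 58500) (PT.nd (nat_lit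 58266) (PT.nd (nat_lit 78) (PT.lf (nat_lit 13832) (nat_lit 6) (nat_lit 182) (nat_lit 0) (nat_lit 220) (nat_lit 212) (nat_lit 168)) (PT.lf (nat_lit 13452) (nat_lit 6) (nat_lit 177) (nat_lit 0) (nat_lit 221) (nat_lit 212) (nat_lit 167))) (PT.nd (nat_lit 78) (PT.lf (nat_lit 13072) (nat_lit 6) (nat_lit 172) (nat_lit 5) (nat_lit 166) (nat_lit 213) (nat_lit 221)) (PT.nd (nat_lit 78) (PT.lf (nat_lit 13528) (nat_lit 6) (nat_lit 178) (nat_lit 5) (nat_lit 167) (nat_lit 213) (nat_lit 220)) (PT.lf (nat_lit 13908) (nat_lit 6) (nat_lit 183) (nat_lit 5) (nat_lit 168) (nat_lit 213) (nat_lit 219))))) (PT.nd (nat_lit 156) (PT.nd (nat_lit 78) (PT.lf (nat_lit 14364) (nat_lit 6) (nat_lit 189) (nat_lit 5) (nat_lit 169) (nat_lit 213) (nat_lit 218)) (PT.lf (nat_lit 14820) (nat_lit 6) (nat_lit 195) (nat_lit 5) (nat_lit 170) (nat_lit 213) (nat_lit 217))) (PT.nd (nat_lit 78) (PT.lf (nat_lit 15352) (nat_lit 6) (nat_lit 202) (nat_lit 5) (nat_lit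 171) (nat_lit 213) (nat_lit 216)) (PT.nd (nat_lit 78) (PT.lf (nat_lit 15808) (nat_lit 6) (nat_lit 208) (nat_lit 5) (nat_lit 172) (nat_lit 213) (nat_lit 215)) (PT.lf (nat_lit 16340) (nat_lit 6) (nat_lit 215) (nat_lit 5) (nat_lit 173) (nat_lit 213) (nat_lit 214))))))))
noncomputable def pc40 : PT := (PT.nd (nat_lit 1404) (PT.nd (nat_lit 702) (PT.nd (nat_lit 312) (PT.nd (nat_lit 156) (PT.nd (nat_lit 78) (PT.lf (nat_lit 16872) (nat_lit 3) (nat_lit 222) (nat_lit 4) (nat_lit 174) (nat_lit 213) (nat_lit 213)) (PT.lf (nat_lit 17328) (nat_lit 6) (nat_lit 228) (nat_lit 4) (nat_lit 175) (nat_lit 213) (nat_lit 212))) (PT.nd (nat_lit 78) (PT.lf (nat_lit 17784) (nat_lit 6) (nat_lit 234) (nat_lit 4) (nat_lit 176) (nat_lit 213) (nat_lit 211)) (PT.lf (nat_lit 18316) (nat_lit 6) (nat_lit 241) (nat_lit 4) (nat_lit 177) (nat_lit 213) (nat_lit 210)))) (PT.nd (nat_lit 156) (PT.nd (nat_lit 78) (PT.lf (nat_lit 18848) (nat_lit 6) (nat_lit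 248) (nat_lit 4) (nat_lit 178) (nat_lit 213) (nat_lit 209)) (PT.lf (nat_lit 19380) (nat_lit 6) (nat_lit 255) (nat_lit 4) (nat_lit 179) (nat_lit 213) (nat_lit 208))) (PT.nd (nat_lit 78) (PT.lf (nat_lit 19912) (nat_lit 6) (nat_lit 262) (nat_lit 4) (nat_lit 180) (nat_lit 213) (nat_lit 207)) (PT.nd (nat_lit 78) (PT.lf (nat_lit 20520) (nat_lit 6) (nat_lit 270) (nat_lit 4) (nat_lit 181) (nat_lit 213) (nat_lit 206)) (PT.lf (nat_lit 21128) (nat_lit 6) (nat_lit 278) (nat_lit 4) (nat_lit 182) (nat_lit 213) (nat_lit 205)))))) (PT.nd (nat_lit 312) (PT.nd (nat_lit 156) (PT.nd (nat_lit 78) (PT.lf (nat_lit 21888) (nat_lit 6) (nat_lit 288) (nat_lit 4) (nat_lit 183) (nat_lit 213) (nat_lit 204)) (PT.lf (nat_lit 23104) (nat_lit 6) (nat_lit 304) (nat_lit 4) (nat_lit 184) (nat_lit 213) (nat_lit 203))) (PT.nd (nat_lit 78) (PT.lf (nat_lit 24244) (nat_lit 6) (nat_lit 319) (nat_lit 4) (nat_lit 185) (nat_lit 213) (nat_lit 202)) (PT.lf (nat_lit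 25308) (nat_lit 6) (nat_lit 333) (nat_lit 4) (nat_lit 186) (nat_lit 213) (nat_lit 201)))) (PT.nd (nat_lit 156) (PT.nd (nat_lit 78) (PT.lf (nat_lit 26296) (nat_lit 6) (nat_lit 346) (nat_lit 4) (nat_lit 187) (nat_lit 213) (nat_lit 200)) (PT.lf (nat_lit 26220) (nat_lit 6) (nat_lit 345) (nat_lit 4) (nat_lit 188) (nat_lit 213) (nat_lit 199))) (PT.nd (nat_lit 78) (PT.lf (nat_lit 26144) (nat_lit 6) (nat_lit 344) (nat_lit 4) (nat_lit 189) (nat_lit 213) (nat_lit 198)) (PT.nd (nat_lit 78) (PT.lf (nat_lit 26068) (nat_lit 6) (nat_lit 343) (nat_lit 4) (nat_lit 190) (nat_lit 213) (nat_lit 197)) (PT.lf (nat_lit 25992) (nat_lit 6) (nat_lit 342) (nat_lit 4) (nat_lit 191) (nat_lit 213) (nat_lit 196))))))) (PT.nd (nat_lit 702) (PT.nd (nat_lit 312) (PT.nd (nat_lit 156) (PT.nd (nat_lit 78) (PT.lf (nat_lit 25916) (nat_lit 6) (nat_lit 341) (nat_lit 4) (nat_lit 192) (nat_lit 213) (nat_lit 195)) (PT.lf (nat_lit 25840) (nat_lit 6) (nat_lit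 340) (nat_lit 4) (nat_lit 193) (nat_lit 213) (nat_lit 194))) (PT.nd (nat_lit 78) (PT.lf (nat_lit 25840) (nat_lit 6) (nat_lit 340) (nat_lit 2) (nat_lit 194) (nat_lit 213) (nat_lit 193)) (PT.lf (nat_lit 25916) (nat_lit 6) (nat_lit 341) (nat_lit 2) (nat_lit 195) (nat_lit 213) (nat_lit 192)))) (PT.nd (nat_lit 156) (PT.nd (nat_lit 78) (PT.lf (nat_lit 25992) (nat_lit 6) (nat_lit 342) (nat_lit 2) (nat_lit 196) (nat_lit 213) (nat_lit 191)) (PT.lf (nat_lit 26068) (nat_lit 6) (nat_lit 343) (nat_lit 2) (nat_lit 197) (nat_lit 213) (nat_lit 190))) (PT.nd (nat_lit 78) (PT.lf (nat_lit 26144) (nat_lit 6) (nat_lit 344) (nat_lit 2) (nat_lit 198) (nat_lit 213) (nat_lit 189)) (PT.nd (nat_lit 78) (PT.lf (nat_lit 26220) (nat_lit 6) (nat_lit 345) (nat_lit 2) (nat_lit 199) (nat_lit 213) (nat_lit 188)) (PT.lf (nat_lit 26296) (nat_lit 6) (nat_lit 346) (nat_lit 2) (nat_lit 200) (nat_lit 213) (nat_lit 187)))))) (PT.nd (nat_lit 390) (PT.nd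 (nat_lit 156) (PT.nd (nat_lit 78) (PT.lf (nat_lit 25308) (nat_lit 6) (nat_lit 333) (nat_lit 2) (nat_lit 201) (nat_lit 213) (nat_lit 186)) (PT.lf (nat_lit 24244) (nat_lit 6) (nat_lit 319) (nat_lit 2) (nat_lit 202) (nat_lit 213) (nat_lit 185))) (PT.nd (nat_lit 78) (PT.lf (nat_lit 23104) (nat_lit 6) (nat_lit 304) (nat_lit 2) (nat_lit 203) (nat_lit 213) (nat_lit 184)) (PT.nd (nat_lit 78) (PT.lf (nat_lit 21888) (nat_lit 6) (nat_lit 288) (nat_lit 2) (nat_lit 204) (nat_lit 213) (nat_lit 183)) (PT.lf (nat_lit 21128) (nat_lit 6) (nat_lit 278) (nat_lit 2) (nat_lit 205) (nat_lit 213) (nat_lit 182))))) (PT.nd (nat_lit 156) (PT.nd (nat_lit 78) (PT.lf (nat_lit 20520) (nat_lit 6) (nat_lit 270) (nat_lit 2) (nat_lit 206) (nat_lit 213) (nat_lit 181)) (PT.lf (nat_lit 19912) (nat_lit 6) (nat_lit 262) (nat_lit 2) (nat_lit 207) (nat_lit 213) (nat_lit 180))) (PT.nd (nat_lit 78) (PT.lf (nat_lit 19380) (nat_lit 6) (nat_lit 255) (nat_lit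 2) (nat_lit 208) (nat_lit 213) (nat_lit 179)) (PT.nd (nat_lit 78) (PT.lf (nat_lit 18848) (nat_lit 6) (nat_lit 248) (nat_lit 2) (nat_lit 209) (nat_lit 213) (nat_lit 178)) (PT.lf (nat_lit 18316) (nat_lit 6) (nat_lit 241) (nat_lit 2) (nat_lit 210) (nat_lit 213) (nat_lit 177))))))))
noncomputable def pc41 : PT := (PT.nd (nat_lit 59436) (PT.nd (nat_lit 702) (PT.nd (nat_lit 312) (PT.nd (nat_lit 156) (PT.nd (nat_lit 78) (PT.lf (nat_lit 17784) (nat_lit 6) (nat_lit 234) (nat_lit 2) (nat_lit 211) (nat_lit 213) (nat_lit 176)) (PT.lf (nat_lit 17328) (nat_lit 6) (nat_lit 228) (nat_lit 2) (nat_lit 212) (nat_lit 213) (nat_lit 175))) (PT.nd (nat_lit 78) (PT.lf (nat_lit 16872) (nat_lit 3) (nat_lit 222) (nat_lit 0) (nat_lit 213) (nat_lit 213) (nat_lit 174)) (PT.lf (nat_lit 16340) (nat_lit 6) (nat_lit 215) (nat_lit 0) (nat_lit 214) (nat_lit 213) (nat_lit 173)))) (PT.nd (nat_lit 156) (PT.nd (nat_lit 78) (PT.lf (nat_lit 15808) (nat_lit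 6) (nat_lit 208) (nat_lit 0) (nat_lit 215) (nat_lit 213) (nat_lit 172)) (PT.lf (nat_lit 15352) (nat_lit 6) (nat_lit 202) (nat_lit 0) (nat_lit 216) (nat_lit 213) (nat_lit 171))) (PT.nd (nat_lit 78) (PT.lf (nat_lit 14820) (nat_lit 6) (nat_lit 195) (nat_lit 0) (nat_lit 217) (nat_lit 213) (nat_lit 170)) (PT.nd (nat_lit 78) (PT.lf (nat_lit 14364) (nat_lit 6) (nat_lit 189) (nat_lit 0) (nat_lit 218) (nat_lit 213) (nat_lit 169)) (PT.lf (nat_lit 13908) (nat_lit 6) (nat_lit 183) (nat_lit 0) (nat_lit 219) (nat_lit 213) (nat_lit 168)))))) (PT.nd (nat_lit 58344) (PT.nd (nat_lit 58110) (PT.nd (nat_lit 78) (PT.lf (nat_lit 13528) (nat_lit 6) (nat_lit 178) (nat_lit 0) (nat_lit 220) (nat_lit 213) (nat_lit 167)) (PT.lf (nat_lit 13072) (nat_lit 6) (nat_lit 172) (nat_lit 0) (nat_lit 221) (nat_lit 213) (nat_lit 166))) (PT.nd (nat_lit 78) (PT.lf (nat_lit 12388) (nat_lit 6) (nat_lit 163) (nat_lit 5) (nat_lit 164) (nat_lit 214) (nat_lit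 222)) (PT.nd (nat_lit 78) (PT.lf (nat_lit 12768) (nat_lit 6) (nat_lit 168) (nat_lit 5) (nat_lit 165) (nat_lit 214) (nat_lit 221)) (PT.lf (nat_lit 13148) (nat_lit 6) (nat_lit 173) (nat_lit 5) (nat_lit 166) (nat_lit 214) (nat_lit 220))))) (PT.nd (nat_lit 156) (PT.nd (nat_lit 78) (PT.lf (nat_lit 13604) (nat_lit 6) (nat_lit 179) (nat_lit 5) (nat_lit 167) (nat_lit 214) (nat_lit 219)) (PT.lf (nat_lit 13984) (nat_lit 6) (nat_lit 184) (nat_lit 5) (nat_lit 168) (nat_lit 214) (nat_lit 218))) (PT.nd (nat_lit 78) (PT.lf (nat_lit 14440) (nat_lit 6) (nat_lit 190) (nat_lit 5) (nat_lit 169) (nat_lit 214) (nat_lit 217)) (PT.nd (nat_lit 78) (PT.lf (nat_lit 14896) (nat_lit 6) (nat_lit 196) (nat_lit 5) (nat_lit 170) (nat_lit 214) (nat_lit 216)) (PT.lf (nat_lit 15428) (nat_lit 6) (nat_lit 203) (nat_lit 5) (nat_lit 171) (nat_lit 214) (nat_lit 215))))))) (PT.nd (nat_lit 702) (PT.nd (nat_lit 312) (PT.nd (nat_lit 156) (PT.nd (nat_lit 78)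 (PT.lf (nat_lit 15884) (nat_lit 3) (nat_lit 209) (nat_lit 4) (nat_lit 172) (nat_lit 214) (nat_lit 214)) (PT.lf (nat_lit 16340) (nat_lit 6) (nat_lit 215) (nat_lit 4) (nat_lit 173) (nat_lit 214) (nat_lit 213))) (PT.nd (nat_lit 78) (PT.lf (nat_lit 16796) (nat_lit 6) (nat_lit 221) (nat_lit 4) (nat_lit 174) (nat_lit 214) (nat_lit 212)) (PT.lf (nat_lit 17252) (nat_lit 6) (nat_lit 227) (nat_lit 4) (nat_lit 175) (nat_lit 214) (nat_lit 211)))) (PT.nd (nat_lit 156) (PT.nd (nat_lit 78) (PT.lf (nat_lit 17708) (nat_lit 6) (nat_lit 233) (nat_lit 4) (nat_lit 176) (nat_lit 214) (nat_lit 210)) (PT.lf (nat_lit 18240) (nat_lit 6) (nat_lit 240) (nat_lit 4) (nat_lit 177) (nat_lit 214) (nat_lit 209))) (PT.nd (nat_lit 78) (PT.lf (nat_lit 18772) (nat_lit 6) (nat_lit 247) (nat_lit 4) (nat_lit 178) (nat_lit 214) (nat_lit 208)) (PT.nd (nat_lit 78) (PT.lf (nat_lit 19304) (nat_lit 6) (nat_lit 254) (nat_lit 4) (nat_lit 179) (nat_lit 214) (nat_lit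 207)) (PT.lf (nat_lit 19836) (nat_lit 6) (nat_lit 261) (nat_lit 4) (nat_lit 180) (nat_lit 214) (nat_lit 206)))))) (PT.nd (nat_lit 390) (PT.nd (nat_lit 156) (PT.nd (nat_lit 78) (PT.lf (nat_lit 20444) (nat_lit 6) (nat_lit 269) (nat_lit 4) (nat_lit 181) (nat_lit 214) (nat_lit 205)) (PT.lf (nat_lit 21052) (nat_lit 6) (nat_lit 277) (nat_lit 4) (nat_lit 182) (nat_lit 214) (nat_lit 204))) (PT.nd (nat_lit 78) (PT.lf (nat_lit 21812) (nat_lit 6) (nat_lit 287) (nat_lit 4) (nat_lit 183) (nat_lit 214) (nat_lit 203)) (PT.nd (nat_lit 78) (PT.lf (nat_lit 23028) (nat_lit 6) (nat_lit 303) (nat_lit 4) (nat_lit 184) (nat_lit 214) (nat_lit 202)) (PT.lf (nat_lit 24168) (nat_lit 6) (nat_lit 318) (nat_lit 4) (nat_lit 185) (nat_lit 214) (nat_lit 201))))) (PT.nd (nat_lit 156) (PT.nd (nat_lit 78) (PT.lf (nat_lit 25232) (nat_lit 6) (nat_lit 332) (nat_lit 4) (nat_lit 186) (nat_lit 214) (nat_lit 200)) (PT.lf (nat_lit 25156) (nat_lit 6) (nat_lit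 331) (nat_lit 4) (nat_lit 187) (nat_lit 214) (nat_lit 199))) (PT.nd (nat_lit 78) (PT.lf (nat_lit 25080) (nat_lit 6) (nat_lit 330) (nat_lit 4) (nat_lit 188) (nat_lit 214) (nat_lit 198)) (PT.nd (nat_lit 78) (PT.lf (nat_lit 25004) (nat_lit 6) (nat_lit 329) (nat_lit 4) (nat_lit 189) (nat_lit 214) (nat_lit 197)) (PT.lf (nat_lit 24928) (nat_lit 6) (nat_lit 328) (nat_lit 4) (nat_lit 190) (nat_lit 214) (nat_lit 196))))))))
noncomputable def pc42 : PT := (PT.nd (nat_lit 1482) (PT.nd (nat_lit 702) (PT.nd (nat_lit 312) (PT.nd (nat_lit 156) (PT.nd (nat_lit 78) (PT.lf (nat_lit 24852) (nat_lit 6) (nat_lit 327) (nat_lit 4) (nat_lit 191) (nat_lit 214) (nat_lit 195)) (PT.lf (nat_lit 24776) (nat_lit 6) (nat_lit 326) (nat_lit 4) (nat_lit 192) (nat_lit 214) (nat_lit 194))) (PT.nd (nat_lit 78) (PT.lf (nat_lit 24700) (nat_lit 3) (nat_lit 325) (nat_lit 2) (nat_lit 193) (nat_lit 214) (nat_lit 193)) (PT.lf (nat_lit 24776) (nat_lit 6) (nat_lit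 326) (nat_lit 2) (nat_lit 194) (nat_lit 214) (nat_lit 192)))) (PT.nd (nat_lit 156) (PT.nd (nat_lit 78) (PT.lf (nat_lit 24852) (nat_lit 6) (nat_lit 327) (nat_lit 2) (nat_lit 195) (nat_lit 214) (nat_lit 191)) (PT.lf (nat_lit 24928) (nat_lit 6) (nat_lit 328) (nat_lit 2) (nat_lit 196) (nat_lit 214) (nat_lit 190))) (PT.nd (nat_lit 78) (PT.lf (nat_lit 25004) (nat_lit 6) (nat_lit 329) (nat_lit 2) (nat_lit 197) (nat_lit 214) (nat_lit 189)) (PT.nd (nat_lit 78) (PT.lf (nat_lit 25080) (nat_lit 6) (nat_lit 330) (nat_lit 2) (nat_lit 198) (nat_lit 214) (nat_lit 188)) (PT.lf (nat_lit 25156) (nat_lit 6) (nat_lit 331) (nat_lit 2) (nat_lit 199) (nat_lit 214) (nat_lit 187)))))) (PT.nd (nat_lit 390) (PT.nd (nat_lit 156) (PT.nd (nat_lit 78) (PT.lf (nat_lit 25232) (nat_lit 6) (nat_lit 332) (nat_lit 2) (nat_lit 200) (nat_lit 214) (nat_lit 186)) (PT.lf (nat_lit 24168) (nat_lit 6) (nat_lit 318) (nat_lit 2) (nat_lit 201) (nat_lit 214) (nat_lit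 185))) (PT.nd (nat_lit 78) (PT.lf (nat_lit 23028) (nat_lit 6) (nat_lit 303) (nat_lit 2) (nat_lit 202) (nat_lit 214) (nat_lit 184)) (PT.nd (nat_lit 78) (PT.lf (nat_lit 21812) (nat_lit 6) (nat_lit 287) (nat_lit 2) (nat_lit 203) (nat_lit 214) (nat_lit 183)) (PT.lf (nat_lit 21052) (nat_lit 6) (nat_lit 277) (nat_lit 2) (nat_lit 204) (nat_lit 214) (nat_lit 182))))) (PT.nd (nat_lit 156) (PT.nd (nat_lit 78) (PT.lf (nat_lit 20444) (nat_lit 6) (nat_lit 269) (nat_lit 2) (nat_lit 205) (nat_lit 214) (nat_lit 181)) (PT.lf (nat_lit 19836) (nat_lit 6) (nat_lit 261) (nat_lit 2) (nat_lit 206) (nat_lit 214) (nat_lit 180))) (PT.nd (nat_lit 78) (PT.lf (nat_lit 19304) (nat_lit 6) (nat_lit 254) (nat_lit 2) (nat_lit 207) (nat_lit 214) (nat_lit 179)) (PT.nd (nat_lit 78) (PT.lf (nat_lit 18772) (nat_lit 6) (nat_lit 247) (nat_lit 2) (nat_lit 208) (nat_lit 214) (nat_lit 178)) (PT.lf (nat_lit 18240) (nat_lit 6) (nat_lit 240) (nat_lit 2) (nat_lit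 209) (nat_lit 214) (nat_lit 177))))))) (PT.nd (nat_lit 702) (PT.nd (nat_lit 312) (PT.nd (nat_lit 156) (PT.nd (nat_lit 78) (PT.lf (nat_lit 17708) (nat_lit 6) (nat_lit 233) (nat_lit 2) (nat_lit 210) (nat_lit 214) (nat_lit 176)) (PT.lf (nat_lit 17252) (nat_lit 6) (nat_lit 227) (nat_lit 2) (nat_lit 211) (nat_lit 214) (nat_lit 175))) (PT.nd (nat_lit 78) (PT.lf (nat_lit 16796) (nat_lit 6) (nat_lit 221) (nat_lit 2) (nat_lit 212) (nat_lit 214) (nat_lit 174)) (PT.lf (nat_lit 16340) (nat_lit 6) (nat_lit 215) (nat_lit 2) (nat_lit 213) (nat_lit 214) (nat_lit 173)))) (PT.nd (nat_lit 156) (PT.nd (nat_lit 78) (PT.lf (nat_lit 15884) (nat_lit 3) (nat_lit 209) (nat_lit 0) (nat_lit 214) (nat_lit 214) (nat_lit 172)) (PT.lf (nat_lit 15428) (nat_lit 6) (nat_lit 203) (nat_lit 0) (nat_lit 215) (nat_lit 214) (nat_lit 171))) (PT.nd (nat_lit 78) (PT.lf (nat_lit 14896) (nat_lit 6) (nat_lit 196) (nat_lit 0) (nat_lit 216) (nat_lit 214) (nat_lit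 170)) (PT.nd (nat_lit 78) (PT.lf (nat_lit 14440) (nat_lit 6) (nat_lit 190) (nat_lit 0) (nat_lit 217) (nat_lit 214) (nat_lit 169)) (PT.lf (nat_lit 13984) (nat_lit 6) (nat_lit 184) (nat_lit 0) (nat_lit 218) (nat_lit 214) (nat_lit 168)))))) (PT.nd (nat_lit 58110) (PT.nd (nat_lit 156) (PT.nd (nat_lit 78) (PT.lf (nat_lit 13604) (nat_lit 6) (nat_lit 179) (nat_lit 0) (nat_lit 219) (nat_lit 214) (nat_lit 167)) (PT.lf (nat_lit 13148) (nat_lit 6) (nat_lit 173) (nat_lit 0) (nat_lit 220) (nat_lit 214) (nat_lit 166))) (PT.nd (nat_lit 78) (PT.lf (nat_lit 12768) (nat_lit 6) (nat_lit 168) (nat_lit 0) (nat_lit 221) (nat_lit 214) (nat_lit 165)) (PT.nd (nat_lit 57798) (PT.lf (nat_lit 12388) (nat_lit 6) (nat_lit 163) (nat_lit 0) (nat_lit 222) (nat_lit 214) (nat_lit 164)) (PT.lf (nat_lit 11704) (nat_lit 6) (nat_lit 154) (nat_lit 5) (nat_lit 162) (nat_lit 215) (nat_lit 223))))) (PT.nd (nat_lit 156) (PT.nd (nat_lit 78) (PT.lf (nat_lit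 12084) (nat_lit 6) (nat_lit 159) (nat_lit 5) (nat_lit 163) (nat_lit 215) (nat_lit 222)) (PT.lf (nat_lit 12464) (nat_lit 6) (nat_lit 164) (nat_lit 5) (nat_lit 164) (nat_lit 215) (nat_lit 221))) (PT.nd (nat_lit 78) (PT.lf (nat_lit 12844) (nat_lit 6) (nat_lit 169) (nat_lit 5) (nat_lit 165) (nat_lit 215) (nat_lit 220)) (PT.nd (nat_lit 78) (PT.lf (nat_lit 13224) (nat_lit 6) (nat_lit 174) (nat_lit 5) (nat_lit 166) (nat_lit 215) (nat_lit 219)) (PT.lf (nat_lit 13680) (nat_lit 6) (nat_lit 180) (nat_lit 5) (nat_lit 167) (nat_lit 215) (nat_lit 218))))))))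
noncomputable def pc43 : PT := (PT.nd (nat_lit 1482) (PT.nd (nat_lit 702) (PT.nd (nat_lit 312) (PT.nd (nat_lit 156) (PT.nd (nat_lit 78) (PT.lf (nat_lit 14060) (nat_lit 6) (nat_lit 185) (nat_lit 5) (nat_lit 168) (nat_lit 215) (nat_lit 217)) (PT.lf (nat_lit 14516) (nat_lit 6) (nat_lit 191) (nat_lit 5) (nat_lit 169) (nat_lit 215) (nat_lit 216))) (PT.nd (nat_lit 78) (PT.lf (nat_lit 14972) (nat_lit 3) (nat_lit 197) (nat_lit 4) (nat_lit 170) (nat_lit 215) (nat_lit 215)) (PT.lf (nat_lit 15428) (nat_lit 6) (nat_lit 203) (nat_lit 4) (nat_lit 171) (nat_lit 215) (nat_lit 214)))) (PT.nd (nat_lit 156) (PT.nd (nat_lit 78) (PT.lf (nat_lit 15808) (nat_lit 6) (nat_lit 208) (nat_lit 4) (nat_lit 172) (nat_lit 215) (nat_lit 213)) (PT.lf (nat_lit 16264) (nat_lit 6) (nat_lit 214) (nat_lit 4) (nat_lit 173) (nat_lit 215) (nat_lit 212))) (PT.nd (nat_lit 78) (PT.lf (nat_lit 16720) (nat_lit 6) (nat_lit 220) (nat_lit 4) (nat_lit 174) (nat_lit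 215) (nat_lit 211)) (PT.nd (nat_lit 78) (PT.lf (nat_lit 17176) (nat_lit 6) (nat_lit 226) (nat_lit 4) (nat_lit 175) (nat_lit 215) (nat_lit 210)) (PT.lf (nat_lit 17632) (nat_lit 6) (nat_lit 232) (nat_lit 4) (nat_lit 176) (nat_lit 215) (nat_lit 209)))))) (PT.nd (nat_lit 390) (PT.nd (nat_lit 156) (PT.nd (nat_lit 78) (PT.lf (nat_lit 18164) (nat_lit 6) (nat_lit 239) (nat_lit 4) (nat_lit 177) (nat_lit 215) (nat_lit 208)) (PT.lf (nat_lit 18696) (nat_lit 6) (nat_lit 246) (nat_lit 4) (nat_lit 178) (nat_lit 215) (nat_lit 207))) (PT.nd (nat_lit 78) (PT.lf (nat_lit 19228) (nat_lit 6) (nat_lit 253) (nat_lit 4) (nat_lit 179) (nat_lit 215) (nat_lit 206)) (PT.nd (nat_lit 78) (PT.lf (nat_lit 19760) (nat_lit 6) (nat_lit 260) (nat_lit 4) (nat_lit 180) (nat_lit 215) (nat_lit 205)) (PT.lf (nat_lit 20368) (nat_lit 6) (nat_lit 268) (nat_lit 4) (nat_lit 181) (nat_lit 215) (nat_lit 204))))) (PT.nd (nat_lit 156) (PT.nd (nat_lit 78) (PT.lf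 (nat_lit 20976) (nat_lit 6) (nat_lit 276) (nat_lit 4) (nat_lit 182) (nat_lit 215) (nat_lit 203)) (PT.lf (nat_lit 21736) (nat_lit 6) (nat_lit 286) (nat_lit 4) (nat_lit 183) (nat_lit 215) (nat_lit 202))) (PT.nd (nat_lit 78) (PT.lf (nat_lit 22952) (nat_lit 6) (nat_lit 302) (nat_lit 4) (nat_lit 184) (nat_lit 215) (nat_lit 201)) (PT.nd (nat_lit 78) (PT.lf (nat_lit 24092) (nat_lit 6) (nat_lit 317) (nat_lit 4) (nat_lit 185) (nat_lit 215) (nat_lit 200)) (PT.lf (nat_lit 24016) (nat_lit 6) (nat_lit 316) (nat_lit 4) (nat_lit 186) (nat_lit 215) (nat_lit 199))))))) (PT.nd (nat_lit 702) (PT.nd (nat_lit 312) (PT.nd (nat_lit 156) (PT.nd (nat_lit 78) (PT.lf (nat_lit 23940) (nat_lit 6) (nat_lit 315) (nat_lit 4) (nat_lit 187) (nat_lit 215) (nat_lit 198)) (PT.lf (nat_lit 23864) (nat_lit 6) (nat_lit 314) (nat_lit 4) (nat_lit 188) (nat_lit 215) (nat_lit 197))) (PT.nd (nat_lit 78) (PT.lf (nat_lit 23788) (nat_lit 6) (nat_lit 313) (nat_lit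 4) (nat_lit 189) (nat_lit 215) (nat_lit 196)) (PT.lf (nat_lit 23712) (nat_lit 6) (nat_lit 312) (nat_lit 4) (nat_lit 190) (nat_lit 215) (nat_lit 195)))) (PT.nd (nat_lit 156) (PT.nd (nat_lit 78) (PT.lf (nat_lit 23636) (nat_lit 6) (nat_lit 311) (nat_lit 4) (nat_lit 191) (nat_lit 215) (nat_lit 194)) (PT.lf (nat_lit 23560) (nat_lit 6) (nat_lit 310) (nat_lit 4) (nat_lit 192) (nat_lit 215) (nat_lit 193))) (PT.nd (nat_lit 78) (PT.lf (nat_lit 23560) (nat_lit 6) (nat_lit 310) (nat_lit 2) (nat_lit 193) (nat_lit 215) (nat_lit 192)) (PT.nd (nat_lit 78) (PT.lf (nat_lit 23636) (nat_lit 6) (nat_lit 311) (nat_lit 2) (nat_lit 194) (nat_lit 215) (nat_lit 191)) (PT.lf (nat_lit 23712) (nat_lit 6) (nat_lit 312) (nat_lit 2) (nat_lit 195) (nat_lit 215) (nat_lit 190)))))) (PT.nd (nat_lit 390) (PT.nd (nat_lit 156) (PT.nd (nat_lit 78) (PT.lf (nat_lit 23788) (nat_lit 6) (nat_lit 313) (nat_lit 2) (nat_lit 196) (nat_lit 215) (nat_lit 189)) (PT.lf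 (nat_lit 23864) (nat_lit 6) (nat_lit 314) (nat_lit 2) (nat_lit 197) (nat_lit 215) (nat_lit 188))) (PT.nd (nat_lit 78) (PT.lf (nat_lit 23940) (nat_lit 6) (nat_lit 315) (nat_lit 2) (nat_lit 198) (nat_lit 215) (nat_lit 187)) (PT.nd (nat_lit 78) (PT.lf (nat_lit 24016) (nat_lit 6) (nat_lit 316) (nat_lit 2) (nat_lit 199) (nat_lit 215) (nat_lit 186)) (PT.lf (nat_lit 24092) (nat_lit 6) (nat_lit 317) (nat_lit 2) (nat_lit 200) (nat_lit 215) (nat_lit 185))))) (PT.nd (nat_lit 156) (PT.nd (nat_lit 78) (PT.lf (nat_lit 22952) (nat_lit 6) (nat_lit 302) (nat_lit 2) (nat_lit 201) (nat_lit 215) (nat_lit 184)) (PT.lf (nat_lit 21736) (nat_lit 6) (nat_lit 286) (nat_lit 2) (nat_lit 202) (nat_lit 215) (nat_lit 183))) (PT.nd (nat_lit 78) (PT.lf (nat_lit 20976) (nat_lit 6) (nat_lit 276) (nat_lit 2) (nat_lit 203) (nat_lit 215) (nat_lit 182)) (PT.nd (nat_lit 78) (PT.lf (nat_lit 20368) (nat_lit 6) (nat_lit 268) (nat_lit 2) (nat_lit 204) (nat_lit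 215) (nat_lit 181)) (PT.lf (nat_lit 19760) (nat_lit 6) (nat_lit 260) (nat_lit 2) (nat_lit 205) (nat_lit 215) (nat_lit 180))))))))
noncomputable def pc44 : PT := (PT.nd (nat_lit 58968) (PT.nd (nat_lit 702) (PT.nd (nat_lit 312) (PT.nd (nat_lit 156) (PT.nd (nat_lit 78) (PT.lf (nat_lit 19228) (nat_lit 6) (nat_lit 253) (nat_lit 2) (nat_lit 206) (nat_lit 215) (nat_lit 179)) (PT.lf (nat_lit 18696) (nat_lit 6) (nat_lit 246) (nat_lit 2) (nat_lit 207) (nat_lit 215) (nat_lit 178))) (PT.nd (nat_lit 78) (PT.lf (nat_lit 18164) (nat_lit 6) (nat_lit 239) (nat_lit 2) (nat_lit 208) (nat_lit 215) (nat_lit 177)) (PT.lf (nat_lit 17632) (nat_lit 6) (nat_lit 232) (nat_lit 2) (nat_lit 209) (nat_lit 215) (nat_lit 176)))) (PT.nd (nat_lit 156) (PT.nd (nat_lit 78) (PT.lf (nat_lit 17176) (nat_lit 6) (nat_lit 226) (nat_lit 2) (nat_lit 210) (nat_lit 215) (nat_lit 175)) (PT.lf (nat_lit 16720) (nat_lit 6) (nat_lit 220) (nat_lit 2) (nat_lit 211)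 (nat_lit 215) (nat_lit 174))) (PT.nd (nat_lit 78) (PT.lf (nat_lit 16264) (nat_lit 6) (nat_lit 214) (nat_lit 2) (nat_lit 212) (nat_lit 215) (nat_lit 173)) (PT.nd (nat_lit 78) (PT.lf (nat_lit 15808) (nat_lit 6) (nat_lit 208) (nat_lit 2) (nat_lit 213) (nat_lit 215) (nat_lit 172)) (PT.lf (nat_lit 15428) (nat_lit 6) (nat_lit 203) (nat_lit 2) (nat_lit 214) (nat_lit 215) (nat_lit 171)))))) (PT.nd (nat_lit 312) (PT.nd (nat_lit 156) (PT.nd (nat_lit 78) (PT.lf (nat_lit 14972) (nat_lit 3) (nat_lit 197) (nat_lit 0) (nat_lit 215) (nat_lit 215) (nat_lit 170)) (PT.lf (nat_lit 14516) (nat_lit 6) (nat_lit 191) (nat_lit 0) (nat_lit 216) (nat_lit 215) (nat_lit 169))) (PT.nd (nat_lit 78) (PT.lf (nat_lit 14060) (nat_lit 6) (nat_lit 185) (nat_lit 0) (nat_lit 217) (nat_lit 215) (nat_lit 168)) (PT.lf (nat_lit 13680) (nat_lit 6) (nat_lit 180) (nat_lit 0) (nat_lit 218) (nat_lit 215) (nat_lit 167)))) (PT.nd (nat_lit 156) (PT.nd (nat_lit 78)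 (PT.lf (nat_lit 13224) (nat_lit 6) (nat_lit 174) (nat_lit 0) (nat_lit 219) (nat_lit 215) (nat_lit 166)) (PT.lf (nat_lit 12844) (nat_lit 6) (nat_lit 169) (nat_lit 0) (nat_lit 220) (nat_lit 215) (nat_lit 165))) (PT.nd (nat_lit 78) (PT.lf (nat_lit 12464) (nat_lit 6) (nat_lit 164) (nat_lit 0) (nat_lit 221) (nat_lit 215) (nat_lit 164)) (PT.nd (nat_lit 78) (PT.lf (nat_lit 12084) (nat_lit 6) (nat_lit 159) (nat_lit 0) (nat_lit 222) (nat_lit 215) (nat_lit 163)) (PT.lf (nat_lit 11704) (nat_lit 6) (nat_lit 154) (nat_lit 0) (nat_lit 223) (nat_lit 215) (nat_lit 162))))))) (PT.nd (nat_lit 702) (PT.nd (nat_lit 312) (PT.nd (nat_lit 156) (PT.nd (nat_lit 78) (PT.lf (nat_lit 11400) (nat_lit 6) (nat_lit 150) (nat_lit 5) (nat_lit 161) (nat_lit 216) (nat_lit 223)) (PT.lf (nat_lit 11780) (nat_lit 6) (nat_lit 155) (nat_lit 5) (nat_lit 162) (nat_lit 216) (nat_lit 222))) (PT.nd (nat_lit 78) (PT.lf (nat_lit 12160) (nat_lit 6) (nat_lit 160)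 (nat_lit 5) (nat_lit 163) (nat_lit 216) (nat_lit 221)) (PT.lf (nat_lit 12540) (nat_lit 6) (nat_lit 165) (nat_lit 5) (nat_lit 164) (nat_lit 216) (nat_lit 220)))) (PT.nd (nat_lit 156) (PT.nd (nat_lit 78) (PT.lf (nat_lit 12920) (nat_lit 6) (nat_lit 170) (nat_lit 5) (nat_lit 165) (nat_lit 216) (nat_lit 219)) (PT.lf (nat_lit 13300) (nat_lit 6) (nat_lit 175) (nat_lit 5) (nat_lit 166) (nat_lit 216) (nat_lit 218))) (PT.nd (nat_lit 78) (PT.lf (nat_lit 13756) (nat_lit 6) (nat_lit 181) (nat_lit 5) (nat_lit 167) (nat_lit 216) (nat_lit 217)) (PT.nd (nat_lit 78) (PT.lf (nat_lit 14136) (nat_lit 3) (nat_lit 186) (nat_lit 4) (nat_lit 168) (nat_lit 216) (nat_lit 216)) (PT.lf (nat_lit 14516) (nat_lit 6) (nat_lit 191) (nat_lit 4) (nat_lit 169) (nat_lit 216) (nat_lit 215)))))) (PT.nd (nat_lit 390) (PT.nd (nat_lit 156) (PT.nd (nat_lit 78) (PT.lf (nat_lit 14896) (nat_lit 6) (nat_lit 196) (nat_lit 4) (nat_lit 170) (nat_lit 216) (nat_lit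 214)) (PT.lf (nat_lit 15352) (nat_lit 6) (nat_lit 202) (nat_lit 4) (nat_lit 171) (nat_lit 216) (nat_lit 213))) (PT.nd (nat_lit 78) (PT.lf (nat_lit 15732) (nat_lit 6) (nat_lit 207) (nat_lit 4) (nat_lit 172) (nat_lit 216) (nat_lit 212)) (PT.nd (nat_lit 78) (PT.lf (nat_lit 16188) (nat_lit 6) (nat_lit 213) (nat_lit 4) (nat_lit 173) (nat_lit 216) (nat_lit 211)) (PT.lf (nat_lit 16644) (nat_lit 6) (nat_lit 219) (nat_lit 4) (nat_lit 174) (nat_lit 216) (nat_lit 210))))) (PT.nd (nat_lit 156) (PT.nd (nat_lit 78) (PT.lf (nat_lit 17100) (nat_lit 6) (nat_lit 225) (nat_lit 4) (nat_lit 175) (nat_lit 216) (nat_lit 209)) (PT.lf (nat_lit 17556) (nat_lit 6) (nat_lit 231) (nat_lit 4) (nat_lit 176) (nat_lit 216) (nat_lit 208))) (PT.nd (nat_lit 78) (PT.lf (nat_lit 18088) (nat_lit 6) (nat_lit 238) (nat_lit 4) (nat_lit 177) (nat_lit 216) (nat_lit 207)) (PT.nd (nat_lit 78) (PT.lf (nat_lit 18620) (nat_lit 6) (nat_lit 245) (nat_lit 4) (nat_lit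 178) (nat_lit 216) (nat_lit 206)) (PT.lf (nat_lit 19152) (nat_lit 6) (nat_lit 252) (nat_lit 4) (nat_lit 179) (nat_lit 216) (nat_lit 205))))))))
noncomputable def pc45 : PT := (PT.nd (nat_lit 1482) (PT.nd (nat_lit 702) (PT.nd (nat_lit 312) (PT.nd (nat_lit 156) (PT.nd (nat_lit 78) (PT.lf (nat_lit 19684) (nat_lit 6) (nat_lit 259) (nat_lit 4) (nat_lit 180) (nat_lit 216) (nat_lit 204)) (PT.lf (nat_lit 20292) (nat_lit 6) (nat_lit 267) (nat_lit 4) (nat_lit 181) (nat_lit 216) (nat_lit 203))) (PT.nd (nat_lit 78) (PT.lf (nat_lit 20900) (nat_lit 6) (nat_lit 275) (nat_lit 4) (nat_lit 182) (nat_lit 216) (nat_lit 202)) (PT.lf (nat_lit 21660) (nat_lit 6) (nat_lit 285) (nat_lit 4) (nat_lit 183) (nat_lit 216) (nat_lit 201)))) (PT.nd (nat_lit 156) (PT.nd (nat_lit 78) (PT.lf (nat_lit 22876) (nat_lit 6) (nat_lit 301) (nat_lit 4) (nat_lit 184) (nat_lit 216) (nat_lit 200)) (PT.lf (nat_lit 22800) (nat_lit 6) (nat_lit 300) (nat_lit 4)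 (nat_lit 185) (nat_lit 216) (nat_lit 199))) (PT.nd (nat_lit 78) (PT.lf (nat_lit 22724) (nat_lit 6) (nat_lit 299) (nat_lit 4) (nat_lit 186) (nat_lit 216) (nat_lit 198)) (PT.nd (nat_lit 78) (PT.lf (nat_lit 22648) (nat_lit 6) (nat_lit 298) (nat_lit 4) (nat_lit 187) (nat_lit 216) (nat_lit 197)) (PT.lf (nat_lit 22572) (nat_lit 6) (nat_lit 297) (nat_lit 4) (nat_lit 188) (nat_lit 216) (nat_lit 196)))))) (PT.nd (nat_lit 390) (PT.nd (nat_lit 156) (PT.nd (nat_lit 78) (PT.lf (nat_lit 22496) (nat_lit 6) (nat_lit 296) (nat_lit 4) (nat_lit 189) (nat_lit 216) (nat_lit 195)) (PT.lf (nat_lit 22420) (nat_lit 6) (nat_lit 295) (nat_lit 4) (nat_lit 190) (nat_lit 216) (nat_lit 194))) (PT.nd (nat_lit 78) (PT.lf (nat_lit 22344) (nat_lit 6) (nat_lit 294) (nat_lit 4) (nat_lit 191) (nat_lit 216) (nat_lit 193)) (PT.nd (nat_lit 78) (PT.lf (nat_lit 22268) (nat_lit 3) (nat_lit 293) (nat_lit 2) (nat_lit 192) (nat_lit 216) (nat_lit 192)) (PT.lf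 (nat_lit 22344) (nat_lit 6) (nat_lit 294) (nat_lit 2) (nat_lit 193) (nat_lit 216) (nat_lit 191))))) (PT.nd (nat_lit 156) (PT.nd (nat_lit 78) (PT.lf (nat_lit 22420) (nat_lit 6) (nat_lit 295) (nat_lit 2) (nat_lit 194) (nat_lit 216) (nat_lit 190)) (PT.lf (nat_lit 22496) (nat_lit 6) (nat_lit 296) (nat_lit 2) (nat_lit 195) (nat_lit 216) (nat_lit 189))) (PT.nd (nat_lit 78) (PT.lf (nat_lit 22572) (nat_lit 6) (nat_lit 297) (nat_lit 2) (nat_lit 196) (nat_lit 216) (nat_lit 188)) (PT.nd (nat_lit 78) (PT.lf (nat_lit 22648) (nat_lit 6) (nat_lit 298) (nat_lit 2) (nat_lit 197) (nat_lit 216) (nat_lit 187)) (PT.lf (nat_lit 22724) (nat_lit 6) (nat_lit 299) (nat_lit 2) (nat_lit 198) (nat_lit 216) (nat_lit 186))))))) (PT.nd (nat_lit 702) (PT.nd (nat_lit 312) (PT.nd (nat_lit 156) (PT.nd (nat_lit 78) (PT.lf (nat_lit 22800) (nat_lit 6) (nat_lit 300) (nat_lit 2) (nat_lit 199) (nat_lit 216) (nat_lit 185)) (PT.lf (nat_lit 22876) (nat_lit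 6) (nat_lit 301) (nat_lit 2) (nat_lit 200) (nat_lit 216) (nat_lit 184))) (PT.nd (nat_lit 78) (PT.lf (nat_lit 21660) (nat_lit 6) (nat_lit 285) (nat_lit 2) (nat_lit 201) (nat_lit 216) (nat_lit 183)) (PT.lf (nat_lit 20900) (nat_lit 6) (nat_lit 275) (nat_lit 2) (nat_lit 202) (nat_lit 216) (nat_lit 182)))) (PT.nd (nat_lit 156) (PT.nd (nat_lit 78) (PT.lf (nat_lit 20292) (nat_lit 6) (nat_lit 267) (nat_lit 2) (nat_lit 203) (nat_lit 216) (nat_lit 181)) (PT.lf (nat_lit 19684) (nat_lit 6) (nat_lit 259) (nat_lit 2) (nat_lit 204) (nat_lit 216) (nat_lit 180))) (PT.nd (nat_lit 78) (PT.lf (nat_lit 19152) (nat_lit 6) (nat_lit 252) (nat_lit 2) (nat_lit 205) (nat_lit 216) (nat_lit 179)) (PT.nd (nat_lit 78) (PT.lf (nat_lit 18620) (nat_lit 6) (nat_lit 245) (nat_lit 2) (nat_lit 206) (nat_lit 216) (nat_lit 178)) (PT.lf (nat_lit 18088) (nat_lit 6) (nat_lit 238) (nat_lit 2) (nat_lit 207) (nat_lit 216) (nat_lit 177)))))) (PT.nd (nat_lit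 390) (PT.nd (nat_lit 156) (PT.nd (nat_lit 78) (PT.lf (nat_lit 17556) (nat_lit 6) (nat_lit 231) (nat_lit 2) (nat_lit 208) (nat_lit 216) (nat_lit 176)) (PT.lf (nat_lit 17100) (nat_lit 6) (nat_lit 225) (nat_lit 2) (nat_lit 209) (nat_lit 216) (nat_lit 175))) (PT.nd (nat_lit 78) (PT.lf (nat_lit 16644) (nat_lit 6) (nat_lit 219) (nat_lit 2) (nat_lit 210) (nat_lit 216) (nat_lit 174)) (PT.nd (nat_lit 78) (PT.lf (nat_lit 16188) (nat_lit 6) (nat_lit 213) (nat_lit 2) (nat_lit 211) (nat_lit 216) (nat_lit 173)) (PT.lf (nat_lit 15732) (nat_lit 6) (nat_lit 207) (nat_lit 2) (nat_lit 212) (nat_lit 216) (nat_lit 172))))) (PT.nd (nat_lit 156) (PT.nd (nat_lit 78) (PT.lf (nat_lit 15352) (nat_lit 6) (nat_lit 202) (nat_lit 2) (nat_lit 213) (nat_lit 216) (nat_lit 171)) (PT.lf (nat_lit 14896) (nat_lit 6) (nat_lit 196) (nat_lit 2) (nat_lit 214) (nat_lit 216) (nat_lit 170))) (PT.nd (nat_lit 78) (PT.lf (nat_lit 14516) (nat_lit 6) (nat_lit 191)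 (nat_lit 2) (nat_lit 215) (nat_lit 216) (nat_lit 169)) (PT.nd (nat_lit 78) (PT.lf (nat_lit 14136) (nat_lit 3) (nat_lit 186) (nat_lit 0) (nat_lit 216) (nat_lit 216) (nat_lit 168)) (PT.lf (nat_lit 13756) (nat_lit 6) (nat_lit 181) (nat_lit 0) (nat_lit 217) (nat_lit 216) (nat_lit 167))))))))
noncomputable def pc46 : PT := (PT.nd (nat_lit 58890) (PT.nd (nat_lit 58110) (PT.nd (nat_lit 312) (PT.nd (nat_lit 156) (PT.nd (nat_lit 78) (PT.lf (nat_lit 13300) (nat_lit 6) (nat_lit 175) (nat_lit 0) (nat_lit 218) (nat_lit 216) (nat_lit 166)) (PT.lf (nat_lit 12920) (nat_lit 6) (nat_lit 170) (nat_lit 0) (nat_lit 219) (nat_lit 216) (nat_lit 165))) (PT.nd (nat_lit 78) (PT.lf (nat_lit 12540) (nat_lit 6) (nat_lit 165) (nat_lit 0) (nat_lit 220) (nat_lit 216) (nat_lit 164)) (PT.lf (nat_lit 12160) (nat_lit 6) (nat_lit 160) (nat_lit 0) (nat_lit 221) (nat_lit 216) (nat_lit 163)))) (PT.nd (nat_lit 57564) (PT.nd (nat_lit 78) (PT.lf (nat_lit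 11780) (nat_lit 6) (nat_lit 155) (nat_lit 0) (nat_lit 222) (nat_lit 216) (nat_lit 162)) (PT.lf (nat_lit 11400) (nat_lit 6) (nat_lit 150) (nat_lit 0) (nat_lit 223) (nat_lit 216) (nat_lit 161))) (PT.nd (nat_lit 78) (PT.lf (nat_lit 10792) (nat_lit 6) (nat_lit 142) (nat_lit 5) (nat_lit 159) (nat_lit 217) (nat_lit 224)) (PT.nd (nat_lit 78) (PT.lf (nat_lit 11096) (nat_lit 6) (nat_lit 146) (nat_lit 5) (nat_lit 160) (nat_lit 217) (nat_lit 223)) (PT.lf (nat_lit 11476) (nat_lit 6) (nat_lit 151) (nat_lit 5) (nat_lit 161) (nat_lit 217) (nat_lit 222)))))) (PT.nd (nat_lit 390) (PT.nd (nat_lit 156) (PT.nd (nat_lit 78) (PT.lf (nat_lit 11856) (nat_lit 6) (nat_lit 156) (nat_lit 5) (nat_lit 162) (nat_lit 217) (nat_lit 221)) (PT.lf (nat_lit 12236) (nat_lit 6) (nat_lit 161) (nat_lit 5) (nat_lit 163) (nat_lit 217) (nat_lit 220))) (PT.nd (nat_lit 78) (PT.lf (nat_lit 12616) (nat_lit 6) (nat_lit 166) (nat_lit 5) (nat_lit 164) (nat_lit 217)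 (nat_lit 219)) (PT.nd (nat_lit 78) (PT.lf (nat_lit 12996) (nat_lit 6) (nat_lit 171) (nat_lit 5) (nat_lit 165) (nat_lit 217) (nat_lit 218)) (PT.lf (nat_lit 13376) (nat_lit 3) (nat_lit 176) (nat_lit 4) (nat_lit 166) (nat_lit 217) (nat_lit 217))))) (PT.nd (nat_lit 156) (PT.nd (nat_lit 78) (PT.lf (nat_lit 13756) (nat_lit 6) (nat_lit 181) (nat_lit 4) (nat_lit 167) (nat_lit 217) (nat_lit 216)) (PT.lf (nat_lit 14060) (nat_lit 6) (nat_lit 185) (nat_lit 4) (nat_lit 168) (nat_lit 217) (nat_lit 215))) (PT.nd (nat_lit 78) (PT.lf (nat_lit 14440) (nat_lit 6) (nat_lit 190) (nat_lit 4) (nat_lit 169) (nat_lit 217) (nat_lit 214)) (PT.nd (nat_lit 78) (PT.lf (nat_lit 14820) (nat_lit 6) (nat_lit 195) (nat_lit 4) (nat_lit 170) (nat_lit 217) (nat_lit 213)) (PT.lf (nat_lit 15276) (nat_lit 6) (nat_lit 201) (nat_lit 4) (nat_lit 171) (nat_lit 217) (nat_lit 212))))))) (PT.nd (nat_lit 702) (PT.nd (nat_lit 312) (PT.nd (nat_lit 156) (PT.nd (nat_lit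 78) (PT.lf (nat_lit 15656) (nat_lit 6) (nat_lit 206) (nat_lit 4) (nat_lit 172) (nat_lit 217) (nat_lit 211)) (PT.lf (nat_lit 16112) (nat_lit 6) (nat_lit 212) (nat_lit 4) (nat_lit 173) (nat_lit 217) (nat_lit 210))) (PT.nd (nat_lit 78) (PT.lf (nat_lit 16568) (nat_lit 6) (nat_lit 218) (nat_lit 4) (nat_lit 174) (nat_lit 217) (nat_lit 209)) (PT.lf (nat_lit 17024) (nat_lit 6) (nat_lit 224) (nat_lit 4) (nat_lit 175) (nat_lit 217) (nat_lit 208)))) (PT.nd (nat_lit 156) (PT.nd (nat_lit 78) (PT.lf (nat_lit 17480) (nat_lit 6) (nat_lit 230) (nat_lit 4) (nat_lit 176) (nat_lit 217) (nat_lit 207)) (PT.lf (nat_lit 18012) (nat_lit 6) (nat_lit 237) (nat_lit 4) (nat_lit 177) (nat_lit 217) (nat_lit 206))) (PT.nd (nat_lit 78) (PT.lf (nat_lit 18544) (nat_lit 6) (nat_lit 244) (nat_lit 4) (nat_lit 178) (nat_lit 217) (nat_lit 205)) (PT.nd (nat_lit 78) (PT.lf (nat_lit 19076) (nat_lit 6) (nat_lit 251) (nat_lit 4) (nat_lit 179) (nat_lit 217)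 (nat_lit 204)) (PT.lf (nat_lit 19608) (nat_lit 6) (nat_lit 258) (nat_lit 4) (nat_lit 180) (nat_lit 217) (nat_lit 203)))))) (PT.nd (nat_lit 1482) (PT.nd (nat_lit 156) (PT.nd (nat_lit 78) (PT.lf (nat_lit 20216) (nat_lit 6) (nat_lit 266) (nat_lit 4) (nat_lit 181) (nat_lit 217) (nat_lit 202)) (PT.lf (nat_lit 20824) (nat_lit 6) (nat_lit 274) (nat_lit 4) (nat_lit 182) (nat_lit 217) (nat_lit 201))) (PT.nd (nat_lit 78) (PT.lf (nat_lit 21584) (nat_lit 6) (nat_lit 284) (nat_lit 4) (nat_lit 183) (nat_lit 217) (nat_lit 200)) (PT.nd (nat_lit 1170) (PT.lf (nat_lit 21508) (nat_lit 6) (nat_lit 283) (nat_lit 4) (nat_lit 184) (nat_lit 217) (nat_lit 199)) (PT.lf (nat_lit 21508) (nat_lit 6) (nat_lit 283) (nat_lit 2) (nat_lit 199) (nat_lit 217) (nat_lit 184))))) (PT.nd (nat_lit 156) (PT.nd (nat_lit 78) (PT.lf (nat_lit 21584) (nat_lit 6) (nat_lit 284) (nat_lit 2) (nat_lit 200) (nat_lit 217) (nat_lit 183)) (PT.lf (nat_lit 20824) (nat_lit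 6) (nat_lit 274) (nat_lit 2) (nat_lit 201) (nat_lit 217) (nat_lit 182))) (PT.nd (nat_lit 78) (PT.lf (nat_lit 20216) (nat_lit 6) (nat_lit 266) (nat_lit 2) (nat_lit 202) (nat_lit 217) (nat_lit 181)) (PT.nd (nat_lit 78) (PT.lf (nat_lit 19608) (nat_lit 6) (nat_lit 258) (nat_lit 2) (nat_lit 203) (nat_lit 217) (nat_lit 180)) (PT.lf (nat_lit 19076) (nat_lit 6) (nat_lit 251) (nat_lit 2) (nat_lit 204) (nat_lit 217) (nat_lit 179))))))))
noncomputable def pc47 : PT := (PT.nd (nat_lit 1482) (PT.nd (nat_lit 702) (PT.nd (nat_lit 312) (PT.nd (nat_lit 156) (PT.nd (nat_lit 78) (PT.lf (nat_lit 18544) (nat_lit 6) (nat_lit 244) (nat_lit 2) (nat_lit 205) (nat_lit 217) (nat_lit 178)) (PT.lf (nat_lit 18012) (nat_lit 6) (nat_lit 237) (nat_lit 2) (nat_lit 206) (nat_lit 217) (nat_lit 177))) (PT.nd (nat_lit 78) (PT.lf (nat_lit 17480) (nat_lit 6) (nat_lit 230) (nat_lit 2) (nat_lit 207) (nat_lit 217) (nat_lit 176)) (PT.lf (nat_lit 17024) (nat_lit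 6) (nat_lit 224) (nat_lit 2) (nat_lit 208) (nat_lit 217) (nat_lit 175)))) (PT.nd (nat_lit 156) (PT.nd (nat_lit 78) (PT.lf (nat_lit 16568) (nat_lit 6) (nat_lit 218) (nat_lit 2) (nat_lit 209) (nat_lit 217) (nat_lit 174)) (PT.lf (nat_lit 16112) (nat_lit 6) (nat_lit 212) (nat_lit 2) (nat_lit 210) (nat_lit 217) (nat_lit 173))) (PT.nd (nat_lit 78) (PT.lf (nat_lit 15656) (nat_lit 6) (nat_lit 206) (nat_lit 2) (nat_lit 211) (nat_lit 217) (nat_lit 172)) (PT.nd (nat_lit 78) (PT.lf (nat_lit 15276) (nat_lit 6) (nat_lit 201) (nat_lit 2) (nat_lit 212) (nat_lit 217) (nat_lit 171)) (PT.lf (nat_lit 14820) (nat_lit 6) (nat_lit 195) (nat_lit 2) (nat_lit 213) (nat_lit 217) (nat_lit 170)))))) (PT.nd (nat_lit 390) (PT.nd (nat_lit 156) (PT.nd (nat_lit 78) (PT.lf (nat_lit 14440) (nat_lit 6) (nat_lit 190) (nat_lit 2) (nat_lit 214) (nat_lit 217) (nat_lit 169)) (PT.lf (nat_lit 14060) (nat_lit 6) (nat_lit 185) (nat_lit 2) (nat_lit 215) (nat_lit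 217) (nat_lit 168))) (PT.nd (nat_lit 78) (PT.lf (nat_lit 13756) (nat_lit 6) (nat_lit 181) (nat_lit 2) (nat_lit 216) (nat_lit 217) (nat_lit 167)) (PT.nd (nat_lit 78) (PT.lf (nat_lit 13376) (nat_lit 3) (nat_lit 176) (nat_lit 0) (nat_lit 217) (nat_lit 217) (nat_lit 166)) (PT.lf (nat_lit 12996) (nat_lit 6) (nat_lit 171) (nat_lit 0) (nat_lit 218) (nat_lit 217) (nat_lit 165))))) (PT.nd (nat_lit 156) (PT.nd (nat_lit 78) (PT.lf (nat_lit 12616) (nat_lit 6) (nat_lit 166) (nat_lit 0) (nat_lit 219) (nat_lit 217) (nat_lit 164)) (PT.lf (nat_lit 12236) (nat_lit 6) (nat_lit 161) (nat_lit 0) (nat_lit 220) (nat_lit 217) (nat_lit 163))) (PT.nd (nat_lit 78) (PT.lf (nat_lit 11856) (nat_lit 6) (nat_lit 156) (nat_lit 0) (nat_lit 221) (nat_lit 217) (nat_lit 162)) (PT.nd (nat_lit 78) (PT.lf (nat_lit 11476) (nat_lit 6) (nat_lit 151) (nat_lit 0) (nat_lit 222) (nat_lit 217) (nat_lit 161)) (PT.lf (nat_lit 11096) (nat_lit 6) (nat_lit 146) (nat_lit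 0) (nat_lit 223) (nat_lit 217) (nat_lit 160))))))) (PT.nd (nat_lit 57954) (PT.nd (nat_lit 57564) (PT.nd (nat_lit 57408) (PT.nd (nat_lit 57330) (PT.lf (nat_lit 10792) (nat_lit 6) (nat_lit 142) (nat_lit 0) (nat_lit 224) (nat_lit 217) (nat_lit 159)) (PT.lf (nat_lit 10488) (nat_lit 6) (nat_lit 138) (nat_lit 5) (nat_lit 158) (nat_lit 218) (nat_lit 224))) (PT.nd (nat_lit 78) (PT.lf (nat_lit 10868) (nat_lit 6) (nat_lit 143) (nat_lit 5) (nat_lit 159) (nat_lit 218) (nat_lit 223)) (PT.lf (nat_lit 11172) (nat_lit 6) (nat_lit 147) (nat_lit 5) (nat_lit 160) (nat_lit 218) (nat_lit 222)))) (PT.nd (nat_lit 156) (PT.nd (nat_lit 78) (PT.lf (nat_lit 11552) (nat_lit 6) (nat_lit 152) (nat_lit 5) (nat_lit 161) (nat_lit 218) (nat_lit 221)) (PT.lf (nat_lit 11932) (nat_lit 6) (nat_lit 157) (nat_lit 5) (nat_lit 162) (nat_lit 218) (nat_lit 220))) (PT.nd (nat_lit 78) (PT.lf (nat_lit 12312) (nat_lit 6) (nat_lit 162) (nat_lit 5) (nat_lit 163)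 (nat_lit 218) (nat_lit 219)) (PT.nd (nat_lit 78) (PT.lf (nat_lit 12692) (nat_lit 3) (nat_lit 167) (nat_lit 4) (nat_lit 164) (nat_lit 218) (nat_lit 218)) (PT.lf (nat_lit 12996) (nat_lit 6) (nat_lit 171) (nat_lit 4) (nat_lit 165) (nat_lit 218) (nat_lit 217)))))) (PT.nd (nat_lit 390) (PT.nd (nat_lit 156) (PT.nd (nat_lit 78) (PT.lf (nat_lit 13300) (nat_lit 6) (nat_lit 175) (nat_lit 4) (nat_lit 166) (nat_lit 218) (nat_lit 216)) (PT.lf (nat_lit 13680) (nat_lit 6) (nat_lit 180) (nat_lit 4) (nat_lit 167) (nat_lit 218) (nat_lit 215))) (PT.nd (nat_lit 78) (PT.lf (nat_lit 13984) (nat_lit 6) (nat_lit 184) (nat_lit 4) (nat_lit 168) (nat_lit 218) (nat_lit 214)) (PT.nd (nat_lit 78) (PT.lf (nat_lit 14364) (nat_lit 6) (nat_lit 189) (nat_lit 4) (nat_lit 169) (nat_lit 218) (nat_lit 213)) (PT.lf (nat_lit 14744) (nat_lit 6) (nat_lit 194) (nat_lit 4) (nat_lit 170) (nat_lit 218) (nat_lit 212))))) (PT.nd (nat_lit 156) (PT.nd (nat_lit 78)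 (PT.lf (nat_lit 15200) (nat_lit 6) (nat_lit 200) (nat_lit 4) (nat_lit 171) (nat_lit 218) (nat_lit 211)) (PT.lf (nat_lit 15580) (nat_lit 6) (nat_lit 205) (nat_lit 4) (nat_lit 172) (nat_lit 218) (nat_lit 210))) (PT.nd (nat_lit 78) (PT.lf (nat_lit 16036) (nat_lit 6) (nat_lit 211) (nat_lit 4) (nat_lit 173) (nat_lit 218) (nat_lit 209)) (PT.nd (nat_lit 78) (PT.lf (nat_lit 16492) (nat_lit 6) (nat_lit 217) (nat_lit 4) (nat_lit 174) (nat_lit 218) (nat_lit 208)) (PT.lf (nat_lit 16948) (nat_lit 6) (nat_lit 223) (nat_lit 4) (nat_lit 175) (nat_lit 218) (nat_lit 207))))))))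
noncomputable def pc48 : PT := (PT.nd (nat_lit 3354) (PT.nd (nat_lit 2652) (PT.nd (nat_lit 2262) (PT.nd (nat_lit 156) (PT.nd (nat_lit 78) (PT.lf (nat_lit 17404) (nat_lit 6) (nat_lit 229) (nat_lit 4) (nat_lit 176) (nat_lit 218) (nat_lit 206)) (PT.lf (nat_lit 17936) (nat_lit 6) (nat_lit 236) (nat_lit 4) (nat_lit 177) (nat_lit 218) (nat_lit 205))) (PT.nd (nat_lit 2028) (PT.lf (nat_lit 18468) (nat_lit 6) (nat_lit 243) (nat_lit 4) (nat_lit 178) (nat_lit 218) (nat_lit 204)) (PT.lf (nat_lit 18468) (nat_lit 6) (nat_lit 243) (nat_lit 2) (nat_lit 204) (nat_lit 218) (nat_lit 178)))) (PT.nd (nat_lit 156) (PT.nd (nat_lit 78) (PT.lf (nat_lit 17936) (nat_lit 6) (nat_lit 236) (nat_lit 2) (nat_lit 205) (nat_lit 218) (nat_lit 177)) (PT.lf (nat_lit 17404) (nat_lit 6) (nat_lit 229) (nat_lit 2) (nat_lit 206) (nat_lit 218) (nat_lit 176))) (PT.nd (nat_lit 78) (PT.lf (nat_lit 16948) (nat_lit 6) (nat_lit 223) (nat_lit 2) (nat_lit 207) (nat_lit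 218) (nat_lit 175)) (PT.nd (nat_lit 78) (PT.lf (nat_lit 16492) (nat_lit 6) (nat_lit 217) (nat_lit 2) (nat_lit 208) (nat_lit 218) (nat_lit 174)) (PT.lf (nat_lit 16036) (nat_lit 6) (nat_lit 211) (nat_lit 2) (nat_lit 209) (nat_lit 218) (nat_lit 173)))))) (PT.nd (nat_lit 312) (PT.nd (nat_lit 156) (PT.nd (nat_lit 78) (PT.lf (nat_lit 15580) (nat_lit 6) (nat_lit 205) (nat_lit 2) (nat_lit 210) (nat_lit 218) (nat_lit 172)) (PT.lf (nat_lit 15200) (nat_lit 6) (nat_lit 200) (nat_lit 2) (nat_lit 211) (nat_lit 218) (nat_lit 171))) (PT.nd (nat_lit 78) (PT.lf (nat_lit 14744) (nat_lit 6) (nat_lit 194) (nat_lit 2) (nat_lit 212) (nat_lit 218) (nat_lit 170)) (PT.lf (nat_lit 14364) (nat_lit 6) (nat_lit 189) (nat_lit 2) (nat_lit 213) (nat_lit 218) (nat_lit 169)))) (PT.nd (nat_lit 156) (PT.nd (nat_lit 78) (PT.lf (nat_lit 13984) (nat_lit 6) (nat_lit 184) (nat_lit 2) (nat_lit 214) (nat_lit 218) (nat_lit 168)) (PT.lf (nat_lit 13680) (nat_lit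 6) (nat_lit 180) (nat_lit 2) (nat_lit 215) (nat_lit 218) (nat_lit 167))) (PT.nd (nat_lit 78) (PT.lf (nat_lit 13300) (nat_lit 6) (nat_lit 175) (nat_lit 2) (nat_lit 216) (nat_lit 218) (nat_lit 166)) (PT.nd (nat_lit 78) (PT.lf (nat_lit 12996) (nat_lit 6) (nat_lit 171) (nat_lit 2) (nat_lit 217) (nat_lit 218) (nat_lit 165)) (PT.lf (nat_lit 12692) (nat_lit 3) (nat_lit 167) (nat_lit 0) (nat_lit 218) (nat_lit 218) (nat_lit 164))))))) (PT.nd (nat_lit 57798) (PT.nd (nat_lit 312) (PT.nd (nat_lit 156) (PT.nd (nat_lit 78) (PT.lf (nat_lit 12312) (nat_lit 6) (nat_lit 162) (nat_lit 0) (nat_lit 219) (nat_lit 218) (nat_lit 163)) (PT.lf (nat_lit 11932) (nat_lit 6) (nat_lit 157) (nat_lit 0) (nat_lit 220) (nat_lit 218) (nat_lit 162))) (PT.nd (nat_lit 78) (PT.lf (nat_lit 11552) (nat_lit 6) (nat_lit 152) (nat_lit 0) (nat_lit 221) (nat_lit 218) (nat_lit 161)) (PT.lf (nat_lit 11172) (nat_lit 6) (nat_lit 147) (nat_lit 0) (nat_lit 222) (nat_lit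 218) (nat_lit 160)))) (PT.nd (nat_lit 57252) (PT.nd (nat_lit 78) (PT.lf (nat_lit 10868) (nat_lit 6) (nat_lit 143) (nat_lit 0) (nat_lit 223) (nat_lit 218) (nat_lit 159)) (PT.lf (nat_lit 10488) (nat_lit 6) (nat_lit 138) (nat_lit 0) (nat_lit 224) (nat_lit 218) (nat_lit 158))) (PT.nd (nat_lit 78) (PT.lf (nat_lit 9956) (nat_lit 6) (nat_lit 131) (nat_lit 5) (nat_lit 156) (nat_lit 219) (nat_lit 225)) (PT.nd (nat_lit 78) (PT.lf (nat_lit 10260) (nat_lit 6) (nat_lit 135) (nat_lit 5) (nat_lit 157) (nat_lit 219) (nat_lit 224)) (PT.lf (nat_lit 10564) (nat_lit 6) (nat_lit 139) (nat_lit 5) (nat_lit 158) (nat_lit 219) (nat_lit 223)))))) (PT.nd (nat_lit 390) (PT.nd (nat_lit 156) (PT.nd (nat_lit 78) (PT.lf (nat_lit 10944) (nat_lit 6) (nat_lit 144) (nat_lit 5) (nat_lit 159) (nat_lit 219) (nat_lit 222)) (PT.lf (nat_lit 11248) (nat_lit 6) (nat_lit 148) (nat_lit 5) (nat_lit 160) (nat_lit 219) (nat_lit 221))) (PT.nd (nat_lit 78) (PT.lf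 (nat_lit 11628) (nat_lit 6) (nat_lit 153) (nat_lit 5) (nat_lit 161) (nat_lit 219) (nat_lit 220)) (PT.nd (nat_lit 78) (PT.lf (nat_lit 12008) (nat_lit 3) (nat_lit 158) (nat_lit 4) (nat_lit 162) (nat_lit 219) (nat_lit 219)) (PT.lf (nat_lit 12312) (nat_lit 6) (nat_lit 162) (nat_lit 4) (nat_lit 163) (nat_lit 219) (nat_lit 218))))) (PT.nd (nat_lit 156) (PT.nd (nat_lit 78) (PT.lf (nat_lit 12616) (nat_lit 6) (nat_lit 166) (nat_lit 4) (nat_lit 164) (nat_lit 219) (nat_lit 217)) (PT.lf (nat_lit 12920) (nat_lit 6) (nat_lit 170) (nat_lit 4) (nat_lit 165) (nat_lit 219) (nat_lit 216))) (PT.nd (nat_lit 78) (PT.lf (nat_lit 13224) (nat_lit 6) (nat_lit 174) (nat_lit 4) (nat_lit 166) (nat_lit 219) (nat_lit 215)) (PT.nd (nat_lit 78) (PT.lf (nat_lit 13604) (nat_lit 6) (nat_lit 179) (nat_lit 4) (nat_lit 167) (nat_lit 219) (nat_lit 214)) (PT.lf (nat_lit 13908) (nat_lit 6) (nat_lit 183) (nat_lit 4) (nat_lit 168) (nat_lit 219) (nat_lit 213))))))))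
noncomputable def pc49 : PT := (PT.nd (nat_lit 3978) (PT.nd (nat_lit 3198) (PT.nd (nat_lit 312) (PT.nd (nat_lit 156) (PT.nd (nat_lit 78) (PT.lf (nat_lit 14288) (nat_lit 6) (nat_lit 188) (nat_lit 4) (nat_lit 169) (nat_lit 219) (nat_lit 212)) (PT.lf (nat_lit 14668) (nat_lit 6) (nat_lit 193) (nat_lit 4) (nat_lit 170) (nat_lit 219) (nat_lit 211))) (PT.nd (nat_lit 78) (PT.lf (nat_lit 15124) (nat_lit 6) (nat_lit 199) (nat_lit 4) (nat_lit 171) (nat_lit 219) (nat_lit 210)) (PT.lf (nat_lit 15504) (nat_lit 6) (nat_lit 204) (nat_lit 4) (nat_lit 172) (nat_lit 219) (nat_lit 209)))) (PT.nd (nat_lit 2652) (PT.nd (nat_lit 78) (PT.lf (nat_lit 15960) (nat_lit 6) (nat_lit 210) (nat_lit 4) (nat_lit 173) (nat_lit 219) (nat_lit 208)) (PT.lf (nat_lit 16416) (nat_lit 6) (nat_lit 216) (nat_lit 4) (nat_lit 174) (nat_lit 219) (nat_lit 207))) (PT.nd (nat_lit 78) (PT.lf (nat_lit 16416) (nat_lit 6) (nat_lit 216) (nat_lit 2) (nat_lit 207) (nat_lit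 219) (nat_lit 174)) (PT.nd (nat_lit 78) (PT.lf (nat_lit 15960) (nat_lit 6) (nat_lit 210) (nat_lit 2) (nat_lit 208) (nat_lit 219) (nat_lit 173)) (PT.lf (nat_lit 15504) (nat_lit 6) (nat_lit 204) (nat_lit 2) (nat_lit 209) (nat_lit 219) (nat_lit 172)))))) (PT.nd (nat_lit 390) (PT.nd (nat_lit 156) (PT.nd (nat_lit 78) (PT.lf (nat_lit 15124) (nat_lit 6) (nat_lit 199) (nat_lit 2) (nat_lit 210) (nat_lit 219) (nat_lit 171)) (PT.lf (nat_lit 14668) (nat_lit 6) (nat_lit 193) (nat_lit 2) (nat_lit 211) (nat_lit 219) (nat_lit 170))) (PT.nd (nat_lit 78) (PT.lf (nat_lit 14288) (nat_lit 6) (nat_lit 188) (nat_lit 2) (nat_lit 212) (nat_lit 219) (nat_lit 169)) (PT.nd (nat_lit 78) (PT.lf (nat_lit 13908) (nat_lit 6) (nat_lit 183) (nat_lit 2) (nat_lit 213) (nat_lit 219) (nat_lit 168)) (PT.lf (nat_lit 13604) (nat_lit 6) (nat_lit 179) (nat_lit 2) (nat_lit 214) (nat_lit 219) (nat_lit 167))))) (PT.nd (nat_lit 156) (PT.nd (nat_lit 78) (PT.lf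 (nat_lit 13224) (nat_lit 6) (nat_lit 174) (nat_lit 2) (nat_lit 215) (nat_lit 219) (nat_lit 166)) (PT.lf (nat_lit 12920) (nat_lit 6) (nat_lit 170) (nat_lit 2) (nat_lit 216) (nat_lit 219) (nat_lit 165))) (PT.nd (nat_lit 78) (PT.lf (nat_lit 12616) (nat_lit 6) (nat_lit 166) (nat_lit 2) (nat_lit 217) (nat_lit 219) (nat_lit 164)) (PT.nd (nat_lit 78) (PT.lf (nat_lit 12312) (nat_lit 6) (nat_lit 162) (nat_lit 2) (nat_lit 218) (nat_lit 219) (nat_lit 163)) (PT.lf (nat_lit 12008) (nat_lit 3) (nat_lit 158) (nat_lit 0) (nat_lit 219) (nat_lit 219) (nat_lit 162))))))) (PT.nd (nat_lit 57564) (PT.nd (nat_lit 312) (PT.nd (nat_lit 156) (PT.nd (nat_lit 78) (PT.lf (nat_lit 11628) (nat_lit 6) (nat_lit 153) (nat_lit 0) (nat_lit 220) (nat_lit 219) (nat_lit 161)) (PT.lf (nat_lit 11248) (nat_lit 6) (nat_lit 148) (nat_lit 0) (nat_lit 221) (nat_lit 219) (nat_lit 160))) (PT.nd (nat_lit 78) (PT.lf (nat_lit 10944) (nat_lit 6) (nat_lit 144) (nat_lit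 0) (nat_lit 222) (nat_lit 219) (nat_lit 159)) (PT.lf (nat_lit 10564) (nat_lit 6) (nat_lit 139) (nat_lit 0) (nat_lit 223) (nat_lit 219) (nat_lit 158)))) (PT.nd (nat_lit 57018) (PT.nd (nat_lit 78) (PT.lf (nat_lit 10260) (nat_lit 6) (nat_lit 135) (nat_lit 0) (nat_lit 224) (nat_lit 219) (nat_lit 157)) (PT.lf (nat_lit 9956) (nat_lit 6) (nat_lit 131) (nat_lit 0) (nat_lit 225) (nat_lit 219) (nat_lit 156))) (PT.nd (nat_lit 78) (PT.lf (nat_lit 9424) (nat_lit 6) (nat_lit 124) (nat_lit 5) (nat_lit 154) (nat_lit 220) (nat_lit 226)) (PT.nd (nat_lit 78) (PT.lf (nat_lit 9728) (nat_lit 6) (nat_lit 128) (nat_lit 5) (nat_lit 155) (nat_lit 220) (nat_lit 225)) (PT.lf (nat_lit 10032) (nat_lit 6) (nat_lit 132) (nat_lit 5) (nat_lit 156) (nat_lit 220) (nat_lit 224)))))) (PT.nd (nat_lit 390) (PT.nd (nat_lit 156) (PT.nd (nat_lit 78) (PT.lf (nat_lit 10336) (nat_lit 6) (nat_lit 136) (nat_lit 5) (nat_lit 157) (nat_lit 220) (nat_lit 223)) (PT.lf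 (nat_lit 10640) (nat_lit 6) (nat_lit 140) (nat_lit 5) (nat_lit 158) (nat_lit 220) (nat_lit 222))) (PT.nd (nat_lit 78) (PT.lf (nat_lit 11020) (nat_lit 6) (nat_lit 145) (nat_lit 5) (nat_lit 159) (nat_lit 220) (nat_lit 221)) (PT.nd (nat_lit 78) (PT.lf (nat_lit 11324) (nat_lit 3) (nat_lit 149) (nat_lit 4) (nat_lit 160) (nat_lit 220) (nat_lit 220)) (PT.lf (nat_lit 11628) (nat_lit 6) (nat_lit 153) (nat_lit 4) (nat_lit 161) (nat_lit 220) (nat_lit 219))))) (PT.nd (nat_lit 156) (PT.nd (nat_lit 78) (PT.lf (nat_lit 11932) (nat_lit 6) (nat_lit 157) (nat_lit 4) (nat_lit 162) (nat_lit 220) (nat_lit 218)) (PT.lf (nat_lit 12236) (nat_lit 6) (nat_lit 161) (nat_lit 4) (nat_lit 163) (nat_lit 220) (nat_lit 217))) (PT.nd (nat_lit 78) (PT.lf (nat_lit 12540) (nat_lit 6) (nat_lit 165) (nat_lit 4) (nat_lit 164) (nat_lit 220) (nat_lit 216)) (PT.nd (nat_lit 78) (PT.lf (nat_lit 12844) (nat_lit 6) (nat_lit 169) (nat_lit 4) (nat_lit 165) (nat_lit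 220) (nat_lit 215)) (PT.lf (nat_lit 13148) (nat_lit 6) (nat_lit 173) (nat_lit 4) (nat_lit 166) (nat_lit 220) (nat_lit 214))))))))
noncomputable def pc50 : PT := (PT.nd (nat_lit 4368) (PT.nd (nat_lit 3588) (PT.nd (nat_lit 312) (PT.nd (nat_lit 156) (PT.nd (nat_lit 78) (PT.lf (nat_lit 13528) (nat_lit 6) (nat_lit 178) (nat_lit 4) (nat_lit 167) (nat_lit 220) (nat_lit 213)) (PT.lf (nat_lit 13832) (nat_lit 6) (nat_lit 182) (nat_lit 4) (nat_lit 168) (nat_lit 220) (nat_lit 212))) (PT.nd (nat_lit 78) (PT.lf (nat_lit 14212) (nat_lit 6) (nat_lit 187) (nat_lit 4) (nat_lit 169) (nat_lit 220) (nat_lit 211)) (PT.lf (nat_lit 14592) (nat_lit 6) (nat_lit 192) (nat_lit 4) (nat_lit 170) (nat_lit 220) (nat_lit 210)))) (PT.nd (nat_lit 3042) (PT.nd (nat_lit 2964) (PT.lf (nat_lit 15048) (nat_lit 6) (nat_lit 198) (nat_lit 4) (nat_lit 171) (nat_lit 220) (nat_lit 209)) (PT.lf (nat_lit 15048) (nat_lit 6) (nat_lit 198) (nat_lit 2) (nat_lit 209)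 (nat_lit 220) (nat_lit 171))) (PT.nd (nat_lit 78) (PT.lf (nat_lit 14592) (nat_lit 6) (nat_lit 192) (nat_lit 2) (nat_lit 210) (nat_lit 220) (nat_lit 170)) (PT.nd (nat_lit 78) (PT.lf (nat_lit 14212) (nat_lit 6) (nat_lit 187) (nat_lit 2) (nat_lit 211) (nat_lit 220) (nat_lit 169)) (PT.lf (nat_lit 13832) (nat_lit 6) (nat_lit 182) (nat_lit 2) (nat_lit 212) (nat_lit 220) (nat_lit 168)))))) (PT.nd (nat_lit 390) (PT.nd (nat_lit 156) (PT.nd (nat_lit 78) (PT.lf (nat_lit 13528) (nat_lit 6) (nat_lit 178) (nat_lit 2) (nat_lit 213) (nat_lit 220) (nat_lit 167)) (PT.lf (nat_lit 13148) (nat_lit 6) (nat_lit 173) (nat_lit 2) (nat_lit 214) (nat_lit 220) (nat_lit 166))) (PT.nd (nat_lit 78) (PT.lf (nat_lit 12844) (nat_lit 6) (nat_lit 169) (nat_lit 2) (nat_lit 215) (nat_lit 220) (nat_lit 165)) (PT.nd (nat_lit 78) (PT.lf (nat_lit 12540) (nat_lit 6) (nat_lit 165) (nat_lit 2) (nat_lit 216) (nat_lit 220) (nat_lit 164)) (PT.lf (nat_lit 12236)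 (nat_lit 6) (nat_lit 161) (nat_lit 2) (nat_lit 217) (nat_lit 220) (nat_lit 163))))) (PT.nd (nat_lit 156) (PT.nd (nat_lit 78) (PT.lf (nat_lit 11932) (nat_lit 6) (nat_lit 157) (nat_lit 2) (nat_lit 218) (nat_lit 220) (nat_lit 162)) (PT.lf (nat_lit 11628) (nat_lit 6) (nat_lit 153) (nat_lit 2) (nat_lit 219) (nat_lit 220) (nat_lit 161))) (PT.nd (nat_lit 78) (PT.lf (nat_lit 11324) (nat_lit 3) (nat_lit 149) (nat_lit 0) (nat_lit 220) (nat_lit 220) (nat_lit 160)) (PT.nd (nat_lit 78) (PT.lf (nat_lit 11020) (nat_lit 6) (nat_lit 145) (nat_lit 0) (nat_lit 221) (nat_lit 220) (nat_lit 159)) (PT.lf (nat_lit 10640) (nat_lit 6) (nat_lit 140) (nat_lit 0) (nat_lit 222) (nat_lit 220) (nat_lit 158))))))) (PT.nd (nat_lit 57408) (PT.nd (nat_lit 57018) (PT.nd (nat_lit 156) (PT.nd (nat_lit 78) (PT.lf (nat_lit 10336) (nat_lit 6) (nat_lit 136) (nat_lit 0) (nat_lit 223) (nat_lit 220) (nat_lit 157)) (PT.lf (nat_lit 10032) (nat_lit 6) (nat_lit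 132) (nat_lit 0) (nat_lit 224) (nat_lit 220) (nat_lit 156))) (PT.nd (nat_lit 78) (PT.lf (nat_lit 9728) (nat_lit 6) (nat_lit 128) (nat_lit 0) (nat_lit 225) (nat_lit 220) (nat_lit 155)) (PT.lf (nat_lit 9424) (nat_lit 6) (nat_lit 124) (nat_lit 0) (nat_lit 226) (nat_lit 220) (nat_lit 154)))) (PT.nd (nat_lit 156) (PT.nd (nat_lit 78) (PT.lf (nat_lit 9196) (nat_lit 6) (nat_lit 121) (nat_lit 5) (nat_lit 153) (nat_lit 221) (nat_lit 226)) (PT.lf (nat_lit 9500) (nat_lit 6) (nat_lit 125) (nat_lit 5) (nat_lit 154) (nat_lit 221) (nat_lit 225))) (PT.nd (nat_lit 78) (PT.lf (nat_lit 9804) (nat_lit 6) (nat_lit 129) (nat_lit 5) (nat_lit 155) (nat_lit 221) (nat_lit 224)) (PT.nd (nat_lit 78) (PT.lf (nat_lit 10108) (nat_lit 6) (nat_lit 133) (nat_lit 5) (nat_lit 156) (nat_lit 221) (nat_lit 223)) (PT.lf (nat_lit 10412) (nat_lit 6) (nat_lit 137) (nat_lit 5) (nat_lit 157) (nat_lit 221) (nat_lit 222)))))) (PT.nd (nat_lit 390) (PT.nd (nat_lit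 156) (PT.nd (nat_lit 78) (PT.lf (nat_lit 10716) (nat_lit 3) (nat_lit 141) (nat_lit 4) (nat_lit 158) (nat_lit 221) (nat_lit 221)) (PT.lf (nat_lit 11020) (nat_lit 6) (nat_lit 145) (nat_lit 4) (nat_lit 159) (nat_lit 221) (nat_lit 220))) (PT.nd (nat_lit 78) (PT.lf (nat_lit 11248) (nat_lit 6) (nat_lit 148) (nat_lit 4) (nat_lit 160) (nat_lit 221) (nat_lit 219)) (PT.nd (nat_lit 78) (PT.lf (nat_lit 11552) (nat_lit 6) (nat_lit 152) (nat_lit 4) (nat_lit 161) (nat_lit 221) (nat_lit 218)) (PT.lf (nat_lit 11856) (nat_lit 6) (nat_lit 156) (nat_lit 4) (nat_lit 162) (nat_lit 221) (nat_lit 217))))) (PT.nd (nat_lit 156) (PT.nd (nat_lit 78) (PT.lf (nat_lit 12160) (nat_lit 6) (nat_lit 160) (nat_lit 4) (nat_lit 163) (nat_lit 221) (nat_lit 216)) (PT.lf (nat_lit 12464) (nat_lit 6) (nat_lit 164) (nat_lit 4) (nat_lit 164) (nat_lit 221) (nat_lit 215))) (PT.nd (nat_lit 78) (PT.lf (nat_lit 12768) (nat_lit 6) (nat_lit 168) (nat_lit 4) (nat_lit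 165) (nat_lit 221) (nat_lit 214)) (PT.nd (nat_lit 78) (PT.lf (nat_lit 13072) (nat_lit 6) (nat_lit 172) (nat_lit 4) (nat_lit 166) (nat_lit 221) (nat_lit 213)) (PT.lf (nat_lit 13452) (nat_lit 6) (nat_lit 177) (nat_lit 4) (nat_lit 167) (nat_lit 221) (nat_lit 212))))))))
noncomputable def pc51 : PT := (PT.nd (nat_lit 58032) (PT.nd (nat_lit 702) (PT.nd (nat_lit 312) (PT.nd (nat_lit 156) (PT.nd (nat_lit 78) (PT.lf (nat_lit 13452) (nat_lit 6) (nat_lit 177) (nat_lit 2) (nat_lit 212) (nat_lit 221) (nat_lit 167)) (PT.lf (nat_lit 13072) (nat_lit 6) (nat_lit 172) (nat_lit 2) (nat_lit 213) (nat_lit 221) (nat_lit 166))) (PT.nd (nat_lit 78) (PT.lf (nat_lit 12768) (nat_lit 6) (nat_lit 168) (nat_lit 2) (nat_lit 214) (nat_lit 221) (nat_lit 165)) (PT.lf (nat_lit 12464) (nat_lit 6) (nat_lit 164) (nat_lit 2) (nat_lit 215) (nat_lit 221) (nat_lit 164)))) (PT.nd (nat_lit 156) (PT.nd (nat_lit 78) (PT.lf (nat_lit 12160) (nat_lit 6) (nat_lit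 160) (nat_lit 2) (nat_lit 216) (nat_lit 221) (nat_lit 163)) (PT.lf (nat_lit 11856) (nat_lit 6) (nat_lit 156) (nat_lit 2) (nat_lit 217) (nat_lit 221) (nat_lit 162))) (PT.nd (nat_lit 78) (PT.lf (nat_lit 11552) (nat_lit 6) (nat_lit 152) (nat_lit 2) (nat_lit 218) (nat_lit 221) (nat_lit 161)) (PT.nd (nat_lit 78) (PT.lf (nat_lit 11248) (nat_lit 6) (nat_lit 148) (nat_lit 2) (nat_lit 219) (nat_lit 221) (nat_lit 160)) (PT.lf (nat_lit 11020) (nat_lit 6) (nat_lit 145) (nat_lit 2) (nat_lit 220) (nat_lit 221) (nat_lit 159)))))) (PT.nd (nat_lit 390) (PT.nd (nat_lit 156) (PT.nd (nat_lit 78) (PT.lf (nat_lit 10716) (nat_lit 3) (nat_lit 141) (nat_lit 0) (nat_lit 221) (nat_lit 221) (nat_lit 158)) (PT.lf (nat_lit 10412) (nat_lit 6) (nat_lit 137) (nat_lit 0) (nat_lit 222) (nat_lit 221) (nat_lit 157))) (PT.nd (nat_lit 78) (PT.lf (nat_lit 10108) (nat_lit 6) (nat_lit 133) (nat_lit 0) (nat_lit 223) (nat_lit 221) (nat_lit 156)) (PT.nd (nat_lit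 78) (PT.lf (nat_lit 9804) (nat_lit 6) (nat_lit 129) (nat_lit 0) (nat_lit 224) (nat_lit 221) (nat_lit 155)) (PT.lf (nat_lit 9500) (nat_lit 6) (nat_lit 125) (nat_lit 0) (nat_lit 225) (nat_lit 221) (nat_lit 154))))) (PT.nd (nat_lit 56706) (PT.nd (nat_lit 56628) (PT.lf (nat_lit 9196) (nat_lit 6) (nat_lit 121) (nat_lit 0) (nat_lit 226) (nat_lit 221) (nat_lit 153)) (PT.lf (nat_lit 8740) (nat_lit 6) (nat_lit 115) (nat_lit 5) (nat_lit 151) (nat_lit 222) (nat_lit 227))) (PT.nd (nat_lit 78) (PT.lf (nat_lit 8968) (nat_lit 6) (nat_lit 118) (nat_lit 5) (nat_lit 152) (nat_lit 222) (nat_lit 226)) (PT.nd (nat_lit 78) (PT.lf (nat_lit 9272) (nat_lit 6) (nat_lit 122) (nat_lit 5) (nat_lit 153) (nat_lit 222) (nat_lit 225)) (PT.lf (nat_lit 9576) (nat_lit 6) (nat_lit 126) (nat_lit 5) (nat_lit 154) (nat_lit 222) (nat_lit 224))))))) (PT.nd (nat_lit 702) (PT.nd (nat_lit 312) (PT.nd (nat_lit 156) (PT.nd (nat_lit 78) (PT.lf (nat_lit 9880)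 (nat_lit 6) (nat_lit 130) (nat_lit 5) (nat_lit 155) (nat_lit 222) (nat_lit 223)) (PT.lf (nat_lit 10184) (nat_lit 3) (nat_lit 134) (nat_lit 4) (nat_lit 156) (nat_lit 222) (nat_lit 222))) (PT.nd (nat_lit 78) (PT.lf (nat_lit 10412) (nat_lit 6) (nat_lit 137) (nat_lit 4) (nat_lit 157) (nat_lit 222) (nat_lit 221)) (PT.lf (nat_lit 10640) (nat_lit 6) (nat_lit 140) (nat_lit 4) (nat_lit 158) (nat_lit 222) (nat_lit 220)))) (PT.nd (nat_lit 156) (PT.nd (nat_lit 78) (PT.lf (nat_lit 10944) (nat_lit 6) (nat_lit 144) (nat_lit 4) (nat_lit 159) (nat_lit 222) (nat_lit 219)) (PT.lf (nat_lit 11172) (nat_lit 6) (nat_lit 147) (nat_lit 4) (nat_lit 160) (nat_lit 222) (nat_lit 218))) (PT.nd (nat_lit 78) (PT.lf (nat_lit 11476) (nat_lit 6) (nat_lit 151) (nat_lit 4) (nat_lit 161) (nat_lit 222) (nat_lit 217)) (PT.nd (nat_lit 78) (PT.lf (nat_lit 11780) (nat_lit 6) (nat_lit 155) (nat_lit 4) (nat_lit 162) (nat_lit 222) (nat_lit 216)) (PT.lf (nat_lit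 12084) (nat_lit 6) (nat_lit 159) (nat_lit 4) (nat_lit 163) (nat_lit 222) (nat_lit 215)))))) (PT.nd (nat_lit 4212) (PT.nd (nat_lit 3978) (PT.nd (nat_lit 3900) (PT.lf (nat_lit 12388) (nat_lit 6) (nat_lit 163) (nat_lit 4) (nat_lit 164) (nat_lit 222) (nat_lit 214)) (PT.lf (nat_lit 12388) (nat_lit 6) (nat_lit 163) (nat_lit 2) (nat_lit 214) (nat_lit 222) (nat_lit 164))) (PT.nd (nat_lit 78) (PT.lf (nat_lit 12084) (nat_lit 6) (nat_lit 159) (nat_lit 2) (nat_lit 215) (nat_lit 222) (nat_lit 163)) (PT.nd (nat_lit 78) (PT.lf (nat_lit 11780) (nat_lit 6) (nat_lit 155) (nat_lit 2) (nat_lit 216) (nat_lit 222) (nat_lit 162)) (PT.lf (nat_lit 11476) (nat_lit 6) (nat_lit 151) (nat_lit 2) (nat_lit 217) (nat_lit 222) (nat_lit 161))))) (PT.nd (nat_lit 156) (PT.nd (nat_lit 78) (PT.lf (nat_lit 11172) (nat_lit 6) (nat_lit 147) (nat_lit 2) (nat_lit 218) (nat_lit 222) (nat_lit 160)) (PT.lf (nat_lit 10944) (nat_lit 6) (nat_lit 144) (nat_lit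 2) (nat_lit 219) (nat_lit 222) (nat_lit 159))) (PT.nd (nat_lit 78) (PT.lf (nat_lit 10640) (nat_lit 6) (nat_lit 140) (nat_lit 2) (nat_lit 220) (nat_lit 222) (nat_lit 158)) (PT.nd (nat_lit 78) (PT.lf (nat_lit 10412) (nat_lit 6) (nat_lit 137) (nat_lit 2) (nat_lit 221) (nat_lit 222) (nat_lit 157)) (PT.lf (nat_lit 10184) (nat_lit 3) (nat_lit 134) (nat_lit 0) (nat_lit 222) (nat_lit 222) (nat_lit 156))))))))
noncomputable def pc52 : PT := (PT.nd (nat_lit 57720) (PT.nd (nat_lit 57018) (PT.nd (nat_lit 312) (PT.nd (nat_lit 156) (PT.nd (nat_lit 78) (PT.lf (nat_lit 9880) (nat_lit 6) (nat_lit 130) (nat_lit 0) (nat_lit 223) (nat_lit 222) (nat_lit 155)) (PT.lf (nat_lit 9576) (nat_lit 6) (nat_lit 126) (nat_lit 0) (nat_lit 224) (nat_lit 222) (nat_lit 154))) (PT.nd (nat_lit 78) (PT.lf (nat_lit 9272) (nat_lit 6) (nat_lit 122) (nat_lit 0) (nat_lit 225) (nat_lit 222) (nat_lit 153)) (PT.lf (nat_lit 8968) (nat_lit 6) (nat_lit 118) (nat_lit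 0) (nat_lit 226) (nat_lit 222) (nat_lit 152)))) (PT.nd (nat_lit 56472) (PT.nd (nat_lit 56394) (PT.lf (nat_lit 8740) (nat_lit 6) (nat_lit 115) (nat_lit 0) (nat_lit 227) (nat_lit 222) (nat_lit 151)) (PT.lf (nat_lit 8284) (nat_lit 6) (nat_lit 109) (nat_lit 5) (nat_lit 149) (nat_lit 223) (nat_lit 228))) (PT.nd (nat_lit 78) (PT.lf (nat_lit 8512) (nat_lit 6) (nat_lit 112) (nat_lit 5) (nat_lit 150) (nat_lit 223) (nat_lit 227)) (PT.nd (nat_lit 78) (PT.lf (nat_lit 8816) (nat_lit 6) (nat_lit 116) (nat_lit 5) (nat_lit 151) (nat_lit 223) (nat_lit 226)) (PT.lf (nat_lit 9044) (nat_lit 6) (nat_lit 119) (nat_lit 5) (nat_lit 152) (nat_lit 223) (nat_lit 225)))))) (PT.nd (nat_lit 312) (PT.nd (nat_lit 156) (PT.nd (nat_lit 78) (PT.lf (nat_lit 9348) (nat_lit 6) (nat_lit 123) (nat_lit 5) (nat_lit 153) (nat_lit 223) (nat_lit 224)) (PT.lf (nat_lit 9652) (nat_lit 3) (nat_lit 127) (nat_lit 4) (nat_lit 154) (nat_lit 223) (nat_lit 223))) (PT.nd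 (nat_lit 78) (PT.lf (nat_lit 9880) (nat_lit 6) (nat_lit 130) (nat_lit 4) (nat_lit 155) (nat_lit 223) (nat_lit 222)) (PT.lf (nat_lit 10108) (nat_lit 6) (nat_lit 133) (nat_lit 4) (nat_lit 156) (nat_lit 223) (nat_lit 221)))) (PT.nd (nat_lit 156) (PT.nd (nat_lit 78) (PT.lf (nat_lit 10336) (nat_lit 6) (nat_lit 136) (nat_lit 4) (nat_lit 157) (nat_lit 223) (nat_lit 220)) (PT.lf (nat_lit 10564) (nat_lit 6) (nat_lit 139) (nat_lit 4) (nat_lit 158) (nat_lit 223) (nat_lit 219))) (PT.nd (nat_lit 78) (PT.lf (nat_lit 10868) (nat_lit 6) (nat_lit 143) (nat_lit 4) (nat_lit 159) (nat_lit 223) (nat_lit 218)) (PT.nd (nat_lit 78) (PT.lf (nat_lit 11096) (nat_lit 6) (nat_lit 146) (nat_lit 4) (nat_lit 160) (nat_lit 223) (nat_lit 217)) (PT.lf (nat_lit 11400) (nat_lit 6) (nat_lit 150) (nat_lit 4) (nat_lit 161) (nat_lit 223) (nat_lit 216))))))) (PT.nd (nat_lit 4758) (PT.nd (nat_lit 4368) (PT.nd (nat_lit 4212) (PT.nd (nat_lit 4134) (PT.lf (nat_lit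 11704) (nat_lit 6) (nat_lit 154) (nat_lit 4) (nat_lit 162) (nat_lit 223) (nat_lit 215)) (PT.lf (nat_lit 11704) (nat_lit 6) (nat_lit 154) (nat_lit 2) (nat_lit 215) (nat_lit 223) (nat_lit 162))) (PT.nd (nat_lit 78) (PT.lf (nat_lit 11400) (nat_lit 6) (nat_lit 150) (nat_lit 2) (nat_lit 216) (nat_lit 223) (nat_lit 161)) (PT.lf (nat_lit 11096) (nat_lit 6) (nat_lit 146) (nat_lit 2) (nat_lit 217) (nat_lit 223) (nat_lit 160)))) (PT.nd (nat_lit 156) (PT.nd (nat_lit 78) (PT.lf (nat_lit 10868) (nat_lit 6) (nat_lit 143) (nat_lit 2) (nat_lit 218) (nat_lit 223) (nat_lit 159)) (PT.lf (nat_lit 10564) (nat_lit 6) (nat_lit 139) (nat_lit 2) (nat_lit 219) (nat_lit 223) (nat_lit 158))) (PT.nd (nat_lit 78) (PT.lf (nat_lit 10336) (nat_lit 6) (nat_lit 136) (nat_lit 2) (nat_lit 220) (nat_lit 223) (nat_lit 157)) (PT.nd (nat_lit 78) (PT.lf (nat_lit 10108) (nat_lit 6) (nat_lit 133) (nat_lit 2) (nat_lit 221) (nat_lit 223) (nat_lit 156)) (PT.lf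 (nat_lit 9880) (nat_lit 6) (nat_lit 130) (nat_lit 2) (nat_lit 222) (nat_lit 223) (nat_lit 155)))))) (PT.nd (nat_lit 390) (PT.nd (nat_lit 156) (PT.nd (nat_lit 78) (PT.lf (nat_lit 9652) (nat_lit 3) (nat_lit 127) (nat_lit 0) (nat_lit 223) (nat_lit 223) (nat_lit 154)) (PT.lf (nat_lit 9348) (nat_lit 6) (nat_lit 123) (nat_lit 0) (nat_lit 224) (nat_lit 223) (nat_lit 153))) (PT.nd (nat_lit 78) (PT.lf (nat_lit 9044) (nat_lit 6) (nat_lit 119) (nat_lit 0) (nat_lit 225) (nat_lit 223) (nat_lit 152)) (PT.nd (nat_lit 78) (PT.lf (nat_lit 8816) (nat_lit 6) (nat_lit 116) (nat_lit 0) (nat_lit 226) (nat_lit 223) (nat_lit 151)) (PT.lf (nat_lit 8512) (nat_lit 6) (nat_lit 112) (nat_lit 0) (nat_lit 227) (nat_lit 223) (nat_lit 150))))) (PT.nd (nat_lit 56316) (PT.nd (nat_lit 56238) (PT.lf (nat_lit 8284) (nat_lit 6) (nat_lit 109) (nat_lit 0) (nat_lit 228) (nat_lit 223) (nat_lit 149)) (PT.lf (nat_lit 8056) (nat_lit 6) (nat_lit 106) (nat_lit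 5) (nat_lit 148) (nat_lit 224) (nat_lit 228))) (PT.nd (nat_lit 78) (PT.lf (nat_lit 8360) (nat_lit 6) (nat_lit 110) (nat_lit 5) (nat_lit 149) (nat_lit 224) (nat_lit 227)) (PT.nd (nat_lit 78) (PT.lf (nat_lit 8588) (nat_lit 6) (nat_lit 113) (nat_lit 5) (nat_lit 150) (nat_lit 224) (nat_lit 226)) (PT.lf (nat_lit 8892) (nat_lit 6) (nat_lit 117) (nat_lit 5) (nat_lit 151) (nat_lit 224) (nat_lit 225))))))))
noncomputable def pc53 : PT := (PT.nd (nat_lit 5928) (PT.nd (nat_lit 5148) (PT.nd (nat_lit 312) (PT.nd (nat_lit 156) (PT.nd (nat_lit 78) (PT.lf (nat_lit 9120) (nat_lit 3) (nat_lit 120) (nat_lit 4) (nat_lit 152) (nat_lit 224) (nat_lit 224)) (PT.lf (nat_lit 9348) (nat_lit 6) (nat_lit 123) (nat_lit 4) (nat_lit 153) (nat_lit 224) (nat_lit 223))) (PT.nd (nat_lit 78) (PT.lf (nat_lit 9576) (nat_lit 6) (nat_lit 126) (nat_lit 4) (nat_lit 154) (nat_lit 224) (nat_lit 222)) (PT.lf (nat_lit 9804) (nat_lit 6) (nat_lit 129) (nat_lit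 4) (nat_lit 155) (nat_lit 224) (nat_lit 221)))) (PT.nd (nat_lit 156) (PT.nd (nat_lit 78) (PT.lf (nat_lit 10032) (nat_lit 6) (nat_lit 132) (nat_lit 4) (nat_lit 156) (nat_lit 224) (nat_lit 220)) (PT.lf (nat_lit 10260) (nat_lit 6) (nat_lit 135) (nat_lit 4) (nat_lit 157) (nat_lit 224) (nat_lit 219))) (PT.nd (nat_lit 78) (PT.lf (nat_lit 10488) (nat_lit 6) (nat_lit 138) (nat_lit 4) (nat_lit 158) (nat_lit 224) (nat_lit 218)) (PT.nd (nat_lit 4524) (PT.lf (nat_lit 10792) (nat_lit 6) (nat_lit 142) (nat_lit 4) (nat_lit 159) (nat_lit 224) (nat_lit 217)) (PT.lf (nat_lit 10792) (nat_lit 6) (nat_lit 142) (nat_lit 2) (nat_lit 217) (nat_lit 224) (nat_lit 159)))))) (PT.nd (nat_lit 390) (PT.nd (nat_lit 156) (PT.nd (nat_lit 78) (PT.lf (nat_lit 10488) (nat_lit 6) (nat_lit 138) (nat_lit 2) (nat_lit 218) (nat_lit 224) (nat_lit 158)) (PT.lf (nat_lit 10260) (nat_lit 6) (nat_lit 135) (nat_lit 2) (nat_lit 219) (nat_lit 224) (nat_lit 157)))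 (PT.nd (nat_lit 78) (PT.lf (nat_lit 10032) (nat_lit 6) (nat_lit 132) (nat_lit 2) (nat_lit 220) (nat_lit 224) (nat_lit 156)) (PT.nd (nat_lit 78) (PT.lf (nat_lit 9804) (nat_lit 6) (nat_lit 129) (nat_lit 2) (nat_lit 221) (nat_lit 224) (nat_lit 155)) (PT.lf (nat_lit 9576) (nat_lit 6) (nat_lit 126) (nat_lit 2) (nat_lit 222) (nat_lit 224) (nat_lit 154))))) (PT.nd (nat_lit 156) (PT.nd (nat_lit 78) (PT.lf (nat_lit 9348) (nat_lit 6) (nat_lit 123) (nat_lit 2) (nat_lit 223) (nat_lit 224) (nat_lit 153)) (PT.lf (nat_lit 9120) (nat_lit 3) (nat_lit 120) (nat_lit 0) (nat_lit 224) (nat_lit 224) (nat_lit 152))) (PT.nd (nat_lit 78) (PT.lf (nat_lit 8892) (nat_lit 6) (nat_lit 117) (nat_lit 0) (nat_lit 225) (nat_lit 224) (nat_lit 151)) (PT.nd (nat_lit 78) (PT.lf (nat_lit 8588) (nat_lit 6) (nat_lit 113) (nat_lit 0) (nat_lit 226) (nat_lit 224) (nat_lit 150)) (PT.lf (nat_lit 8360) (nat_lit 6) (nat_lit 110) (nat_lit 0) (nat_lit 227) (nat_lit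 224) (nat_lit 149))))))) (PT.nd (nat_lit 56706) (PT.nd (nat_lit 56316) (PT.nd (nat_lit 56160) (PT.nd (nat_lit 56082) (PT.lf (nat_lit 8056) (nat_lit 6) (nat_lit 106) (nat_lit 0) (nat_lit 228) (nat_lit 224) (nat_lit 148)) (PT.lf (nat_lit 7676) (nat_lit 6) (nat_lit 101) (nat_lit 5) (nat_lit 146) (nat_lit 225) (nat_lit 229))) (PT.nd (nat_lit 78) (PT.lf (nat_lit 7904) (nat_lit 6) (nat_lit 104) (nat_lit 5) (nat_lit 147) (nat_lit 225) (nat_lit 228)) (PT.lf (nat_lit 8132) (nat_lit 6) (nat_lit 107) (nat_lit 5) (nat_lit 148) (nat_lit 225) (nat_lit 227)))) (PT.nd (nat_lit 156) (PT.nd (nat_lit 78) (PT.lf (nat_lit 8436) (nat_lit 6) (nat_lit 111) (nat_lit 5) (nat_lit 149) (nat_lit 225) (nat_lit 226)) (PT.lf (nat_lit 8664) (nat_lit 3) (nat_lit 114) (nat_lit 4) (nat_lit 150) (nat_lit 225) (nat_lit 225))) (PT.nd (nat_lit 78) (PT.lf (nat_lit 8892) (nat_lit 6) (nat_lit 117) (nat_lit 4) (nat_lit 151) (nat_lit 225) (nat_lit 224)) (PT.nd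 (nat_lit 78) (PT.lf (nat_lit 9044) (nat_lit 6) (nat_lit 119) (nat_lit 4) (nat_lit 152) (nat_lit 225) (nat_lit 223)) (PT.lf (nat_lit 9272) (nat_lit 6) (nat_lit 122) (nat_lit 4) (nat_lit 153) (nat_lit 225) (nat_lit 222)))))) (PT.nd (nat_lit 5226) (PT.nd (nat_lit 156) (PT.nd (nat_lit 78) (PT.lf (nat_lit 9500) (nat_lit 6) (nat_lit 125) (nat_lit 4) (nat_lit 154) (nat_lit 225) (nat_lit 221)) (PT.lf (nat_lit 9728) (nat_lit 6) (nat_lit 128) (nat_lit 4) (nat_lit 155) (nat_lit 225) (nat_lit 220))) (PT.nd (nat_lit 4914) (PT.lf (nat_lit 9956) (nat_lit 6) (nat_lit 131) (nat_lit 4) (nat_lit 156) (nat_lit 225) (nat_lit 219)) (PT.nd (nat_lit 78) (PT.lf (nat_lit 9956) (nat_lit 6) (nat_lit 131) (nat_lit 2) (nat_lit 219) (nat_lit 225) (nat_lit 156)) (PT.lf (nat_lit 9728) (nat_lit 6) (nat_lit 128) (nat_lit 2) (nat_lit 220) (nat_lit 225) (nat_lit 155))))) (PT.nd (nat_lit 156) (PT.nd (nat_lit 78) (PT.lf (nat_lit 9500) (nat_lit 6) (nat_lit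 125) (nat_lit 2) (nat_lit 221) (nat_lit 225) (nat_lit 154)) (PT.lf (nat_lit 9272) (nat_lit 6) (nat_lit 122) (nat_lit 2) (nat_lit 222) (nat_lit 225) (nat_lit 153))) (PT.nd (nat_lit 78) (PT.lf (nat_lit 9044) (nat_lit 6) (nat_lit 119) (nat_lit 2) (nat_lit 223) (nat_lit 225) (nat_lit 152)) (PT.nd (nat_lit 78) (PT.lf (nat_lit 8892) (nat_lit 6) (nat_lit 117) (nat_lit 2) (nat_lit 224) (nat_lit 225) (nat_lit 151)) (PT.lf (nat_lit 8664) (nat_lit 3) (nat_lit 114) (nat_lit 0) (nat_lit 225) (nat_lit 225) (nat_lit 150))))))))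
noncomputable def pc54 : PT := (PT.nd (nat_lit 62322) (PT.nd (nat_lit 56472) (PT.nd (nat_lit 56082) (PT.nd (nat_lit 156) (PT.nd (nat_lit 78) (PT.lf (nat_lit 8436) (nat_lit 6) (nat_lit 111) (nat_lit 0) (nat_lit 226) (nat_lit 225) (nat_lit 149)) (PT.lf (nat_lit 8132) (nat_lit 6) (nat_lit 107) (nat_lit 0) (nat_lit 227) (nat_lit 225) (nat_lit 148))) (PT.nd (nat_lit 78) (PT.lf (nat_lit 7904) (nat_lit 6) (nat_lit 104) (nat_lit 0) (nat_lit 228) (nat_lit 225) (nat_lit 147)) (PT.lf (nat_lit 7676) (nat_lit 6) (nat_lit 101) (nat_lit 0) (nat_lit 229) (nat_lit 225) (nat_lit 146)))) (PT.nd (nat_lit 156) (PT.nd (nat_lit 78) (PT.lf (nat_lit 7296) (nat_lit 6) (nat_lit 96) (nat_lit 5) (nat_lit 144) (nat_lit 226) (nat_lit 230)) (PT.lf (nat_lit 7524) (nat_lit 6) (nat_lit 99) (nat_lit 5) (nat_lit 145) (nat_lit 226) (nat_lit 229))) (PT.nd (nat_lit 78) (PT.lf (nat_lit 7752) (nat_lit 6) (nat_lit 102) (nat_lit 5) (nat_lit 146) (nat_lit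 226) (nat_lit 228)) (PT.nd (nat_lit 78) (PT.lf (nat_lit 7980) (nat_lit 6) (nat_lit 105) (nat_lit 5) (nat_lit 147) (nat_lit 226) (nat_lit 227)) (PT.lf (nat_lit 8208) (nat_lit 3) (nat_lit 108) (nat_lit 4) (nat_lit 148) (nat_lit 226) (nat_lit 226)))))) (PT.nd (nat_lit 390) (PT.nd (nat_lit 156) (PT.nd (nat_lit 78) (PT.lf (nat_lit 8436) (nat_lit 6) (nat_lit 111) (nat_lit 4) (nat_lit 149) (nat_lit 226) (nat_lit 225)) (PT.lf (nat_lit 8588) (nat_lit 6) (nat_lit 113) (nat_lit 4) (nat_lit 150) (nat_lit 226) (nat_lit 224))) (PT.nd (nat_lit 78) (PT.lf (nat_lit 8816) (nat_lit 6) (nat_lit 116) (nat_lit 4) (nat_lit 151) (nat_lit 226) (nat_lit 223)) (PT.nd (nat_lit 78) (PT.lf (nat_lit 8968) (nat_lit 6) (nat_lit 118) (nat_lit 4) (nat_lit 152) (nat_lit 226) (nat_lit 222)) (PT.lf (nat_lit 9196) (nat_lit 6) (nat_lit 121) (nat_lit 4) (nat_lit 153) (nat_lit 226) (nat_lit 221))))) (PT.nd (nat_lit 5226) (PT.nd (nat_lit 5148) (PT.lf (nat_lit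 9424) (nat_lit 6) (nat_lit 124) (nat_lit 4) (nat_lit 154) (nat_lit 226) (nat_lit 220)) (PT.lf (nat_lit 9424) (nat_lit 6) (nat_lit 124) (nat_lit 2) (nat_lit 220) (nat_lit 226) (nat_lit 154))) (PT.nd (nat_lit 78) (PT.lf (nat_lit 9196) (nat_lit 6) (nat_lit 121) (nat_lit 2) (nat_lit 221) (nat_lit 226) (nat_lit 153)) (PT.nd (nat_lit 78) (PT.lf (nat_lit 8968) (nat_lit 6) (nat_lit 118) (nat_lit 2) (nat_lit 222) (nat_lit 226) (nat_lit 152)) (PT.lf (nat_lit 8816) (nat_lit 6) (nat_lit 116) (nat_lit 2) (nat_lit 223) (nat_lit 226) (nat_lit 151))))))) (PT.nd (nat_lit 56238) (PT.nd (nat_lit 312) (PT.nd (nat_lit 156) (PT.nd (nat_lit 78) (PT.lf (nat_lit 8588) (nat_lit 6) (nat_lit 113) (nat_lit 2) (nat_lit 224) (nat_lit 226) (nat_lit 150)) (PT.lf (nat_lit 8436) (nat_lit 6) (nat_lit 111) (nat_lit 2) (nat_lit 225) (nat_lit 226) (nat_lit 149))) (PT.nd (nat_lit 78) (PT.lf (nat_lit 8208) (nat_lit 3) (nat_lit 108) (nat_lit 0) (nat_lit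 226) (nat_lit 226) (nat_lit 148)) (PT.lf (nat_lit 7980) (nat_lit 6) (nat_lit 105) (nat_lit 0) (nat_lit 227) (nat_lit 226) (nat_lit 147)))) (PT.nd (nat_lit 156) (PT.nd (nat_lit 78) (PT.lf (nat_lit 7752) (nat_lit 6) (nat_lit 102) (nat_lit 0) (nat_lit 228) (nat_lit 226) (nat_lit 146)) (PT.lf (nat_lit 7524) (nat_lit 6) (nat_lit 99) (nat_lit 0) (nat_lit 229) (nat_lit 226) (nat_lit 145))) (PT.nd (nat_lit 55614) (PT.lf (nat_lit 7296) (nat_lit 6) (nat_lit 96) (nat_lit 0) (nat_lit 230) (nat_lit 226) (nat_lit 144)) (PT.nd (nat_lit 78) (PT.lf (nat_lit 6916) (nat_lit 6) (nat_lit 91) (nat_lit 5) (nat_lit 142) (nat_lit 227) (nat_lit 231)) (PT.lf (nat_lit 7144) (nat_lit 6) (nat_lit 94) (nat_lit 5) (nat_lit 143) (nat_lit 227) (nat_lit 230)))))) (PT.nd (nat_lit 390) (PT.nd (nat_lit 156) (PT.nd (nat_lit 78) (PT.lf (nat_lit 7372) (nat_lit 6) (nat_lit 97) (nat_lit 5) (nat_lit 144) (nat_lit 227) (nat_lit 229)) (PT.lf (nat_lit 7600)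 (nat_lit 6) (nat_lit 100) (nat_lit 5) (nat_lit 145) (nat_lit 227) (nat_lit 228))) (PT.nd (nat_lit 78) (PT.lf (nat_lit 7828) (nat_lit 3) (nat_lit 103) (nat_lit 4) (nat_lit 146) (nat_lit 227) (nat_lit 227)) (PT.nd (nat_lit 78) (PT.lf (nat_lit 7980) (nat_lit 6) (nat_lit 105) (nat_lit 4) (nat_lit 147) (nat_lit 227) (nat_lit 226)) (PT.lf (nat_lit 8132) (nat_lit 6) (nat_lit 107) (nat_lit 4) (nat_lit 148) (nat_lit 227) (nat_lit 225))))) (PT.nd (nat_lit 156) (PT.nd (nat_lit 78) (PT.lf (nat_lit 8360) (nat_lit 6) (nat_lit 110) (nat_lit 4) (nat_lit 149) (nat_lit 227) (nat_lit 224)) (PT.lf (nat_lit 8512) (nat_lit 6) (nat_lit 112) (nat_lit 4) (nat_lit 150) (nat_lit 227) (nat_lit 223))) (PT.nd (nat_lit 5538) (PT.lf (nat_lit 8740) (nat_lit 6) (nat_lit 115) (nat_lit 4) (nat_lit 151) (nat_lit 227) (nat_lit 222)) (PT.nd (nat_lit 78) (PT.lf (nat_lit 8740) (nat_lit 6) (nat_lit 115) (nat_lit 2) (nat_lit 222) (nat_lit 227) (nat_lit 151))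 (PT.lf (nat_lit 8512) (nat_lit 6) (nat_lit 112) (nat_lit 2) (nat_lit 223) (nat_lit 227) (nat_lit 150))))))))
noncomputable def pc55 : PT := (PT.nd (nat_lit 62478) (PT.nd (nat_lit 56004) (PT.nd (nat_lit 312) (PT.nd (nat_lit 156) (PT.nd (nat_lit 78) (PT.lf (nat_lit 8360) (nat_lit 6) (nat_lit 110) (nat_lit 2) (nat_lit 224) (nat_lit 227) (nat_lit 149)) (PT.lf (nat_lit 8132) (nat_lit 6) (nat_lit 107) (nat_lit 2) (nat_lit 225) (nat_lit 227) (nat_lit 148))) (PT.nd (nat_lit 78) (PT.lf (nat_lit 7980) (nat_lit 6) (nat_lit 105) (nat_lit 2) (nat_lit 226) (nat_lit 227) (nat_lit 147)) (PT.lf (nat_lit 7828) (nat_lit 3) (nat_lit 103) (nat_lit 0) (nat_lit 227) (nat_lit 227) (nat_lit 146)))) (PT.nd (nat_lit 156) (PT.nd (nat_lit 78) (PT.lf (nat_lit 7600) (nat_lit 6) (nat_lit 100) (nat_lit 0) (nat_lit 228) (nat_lit 227) (nat_lit 145)) (PT.lf (nat_lit 7372) (nat_lit 6) (nat_lit 97) (nat_lit 0) (nat_lit 229) (nat_lit 227) (nat_lit 144)))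 (PT.nd (nat_lit 78) (PT.lf (nat_lit 7144) (nat_lit 6) (nat_lit 94) (nat_lit 0) (nat_lit 230) (nat_lit 227) (nat_lit 143)) (PT.nd (nat_lit 55380) (PT.lf (nat_lit 6916) (nat_lit 6) (nat_lit 91) (nat_lit 0) (nat_lit 231) (nat_lit 227) (nat_lit 142)) (PT.lf (nat_lit 6536) (nat_lit 6) (nat_lit 86) (nat_lit 5) (nat_lit 140) (nat_lit 228) (nat_lit 232)))))) (PT.nd (nat_lit 390) (PT.nd (nat_lit 156) (PT.nd (nat_lit 78) (PT.lf (nat_lit 6764) (nat_lit 6) (nat_lit 89) (nat_lit 5) (nat_lit 141) (nat_lit 228) (nat_lit 231)) (PT.lf (nat_lit 6992) (nat_lit 6) (nat_lit 92) (nat_lit 5) (nat_lit 142) (nat_lit 228) (nat_lit 230))) (PT.nd (nat_lit 78) (PT.lf (nat_lit 7220) (nat_lit 6) (nat_lit 95) (nat_lit 5) (nat_lit 143) (nat_lit 228) (nat_lit 229)) (PT.nd (nat_lit 78) (PT.lf (nat_lit 7448) (nat_lit 3) (nat_lit 98) (nat_lit 4) (nat_lit 144) (nat_lit 228) (nat_lit 228)) (PT.lf (nat_lit 7600) (nat_lit 6) (nat_lit 100) (nat_lit 4) (nat_lit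 145) (nat_lit 228) (nat_lit 227))))) (PT.nd (nat_lit 156) (PT.nd (nat_lit 78) (PT.lf (nat_lit 7752) (nat_lit 6) (nat_lit 102) (nat_lit 4) (nat_lit 146) (nat_lit 228) (nat_lit 226)) (PT.lf (nat_lit 7904) (nat_lit 6) (nat_lit 104) (nat_lit 4) (nat_lit 147) (nat_lit 228) (nat_lit 225))) (PT.nd (nat_lit 78) (PT.lf (nat_lit 8056) (nat_lit 6) (nat_lit 106) (nat_lit 4) (nat_lit 148) (nat_lit 228) (nat_lit 224)) (PT.nd (nat_lit 5772) (PT.lf (nat_lit 8284) (nat_lit 6) (nat_lit 109) (nat_lit 4) (nat_lit 149) (nat_lit 228) (nat_lit 223)) (PT.lf (nat_lit 8284) (nat_lit 6) (nat_lit 109) (nat_lit 2) (nat_lit 223) (nat_lit 228) (nat_lit 149))))))) (PT.nd (nat_lit 55848) (PT.nd (nat_lit 312) (PT.nd (nat_lit 156) (PT.nd (nat_lit 78) (PT.lf (nat_lit 8056) (nat_lit 6) (nat_lit 106) (nat_lit 2) (nat_lit 224) (nat_lit 228) (nat_lit 148)) (PT.lf (nat_lit 7904) (nat_lit 6) (nat_lit 104) (nat_lit 2) (nat_lit 225) (nat_lit 228) (nat_lit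 147))) (PT.nd (nat_lit 78) (PT.lf (nat_lit 7752) (nat_lit 6) (nat_lit 102) (nat_lit 2) (nat_lit 226) (nat_lit 228) (nat_lit 146)) (PT.lf (nat_lit 7600) (nat_lit 6) (nat_lit 100) (nat_lit 2) (nat_lit 227) (nat_lit 228) (nat_lit 145)))) (PT.nd (nat_lit 156) (PT.nd (nat_lit 78) (PT.lf (nat_lit 7448) (nat_lit 3) (nat_lit 98) (nat_lit 0) (nat_lit 228) (nat_lit 228) (nat_lit 144)) (PT.lf (nat_lit 7220) (nat_lit 6) (nat_lit 95) (nat_lit 0) (nat_lit 229) (nat_lit 228) (nat_lit 143))) (PT.nd (nat_lit 78) (PT.lf (nat_lit 6992) (nat_lit 6) (nat_lit 92) (nat_lit 0) (nat_lit 230) (nat_lit 228) (nat_lit 142)) (PT.nd (nat_lit 78) (PT.lf (nat_lit 6764) (nat_lit 6) (nat_lit 89) (nat_lit 0) (nat_lit 231) (nat_lit 228) (nat_lit 141)) (PT.lf (nat_lit 6536) (nat_lit 6) (nat_lit 86) (nat_lit 0) (nat_lit 232) (nat_lit 228) (nat_lit 140)))))) (PT.nd (nat_lit 390) (PT.nd (nat_lit 156) (PT.nd (nat_lit 78) (PT.lf (nat_lit 6384) (nat_lit 6)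 (nat_lit 84) (nat_lit 5) (nat_lit 139) (nat_lit 229) (nat_lit 232)) (PT.lf (nat_lit 6612) (nat_lit 6) (nat_lit 87) (nat_lit 5) (nat_lit 140) (nat_lit 229) (nat_lit 231))) (PT.nd (nat_lit 78) (PT.lf (nat_lit 6840) (nat_lit 6) (nat_lit 90) (nat_lit 5) (nat_lit 141) (nat_lit 229) (nat_lit 230)) (PT.nd (nat_lit 78) (PT.lf (nat_lit 7068) (nat_lit 3) (nat_lit 93) (nat_lit 4) (nat_lit 142) (nat_lit 229) (nat_lit 229)) (PT.lf (nat_lit 7220) (nat_lit 6) (nat_lit 95) (nat_lit 4) (nat_lit 143) (nat_lit 229) (nat_lit 228))))) (PT.nd (nat_lit 156) (PT.nd (nat_lit 78) (PT.lf (nat_lit 7372) (nat_lit 6) (nat_lit 97) (nat_lit 4) (nat_lit 144) (nat_lit 229) (nat_lit 227)) (PT.lf (nat_lit 7524) (nat_lit 6) (nat_lit 99) (nat_lit 4) (nat_lit 145) (nat_lit 229) (nat_lit 226))) (PT.nd (nat_lit 6162) (PT.lf (nat_lit 7676) (nat_lit 6) (nat_lit 101) (nat_lit 4) (nat_lit 146) (nat_lit 229) (nat_lit 225)) (PT.nd (nat_lit 78) (PT.lf (nat_lit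 7676) (nat_lit 6) (nat_lit 101) (nat_lit 2) (nat_lit 225) (nat_lit 229) (nat_lit 146)) (PT.lf (nat_lit 7524) (nat_lit 6) (nat_lit 99) (nat_lit 2) (nat_lit 226) (nat_lit 229) (nat_lit 145))))))))
noncomputable def pc56 : PT := (PT.nd (nat_lit 62712) (PT.nd (nat_lit 55692) (PT.nd (nat_lit 312) (PT.nd (nat_lit 156) (PT.nd (nat_lit 78) (PT.lf (nat_lit 7372) (nat_lit 6) (nat_lit 97) (nat_lit 2) (nat_lit 227) (nat_lit 229) (nat_lit 144)) (PT.lf (nat_lit 7220) (nat_lit 6) (nat_lit 95) (nat_lit 2) (nat_lit 228) (nat_lit 229) (nat_lit 143))) (PT.nd (nat_lit 78) (PT.lf (nat_lit 7068) (nat_lit 3) (nat_lit 93) (nat_lit 0) (nat_lit 229) (nat_lit 229) (nat_lit 142)) (PT.lf (nat_lit 6840) (nat_lit 6) (nat_lit 90) (nat_lit 0) (nat_lit 230) (nat_lit 229) (nat_lit 141)))) (PT.nd (nat_lit 55146) (PT.nd (nat_lit 78) (PT.lf (nat_lit 6612) (nat_lit 6) (nat_lit 87) (nat_lit 0) (nat_lit 231) (nat_lit 229) (nat_lit 140)) (PT.lf (nat_lit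 6384) (nat_lit 6) (nat_lit 84) (nat_lit 0) (nat_lit 232) (nat_lit 229) (nat_lit 139))) (PT.nd (nat_lit 78) (PT.lf (nat_lit 6080) (nat_lit 6) (nat_lit 80) (nat_lit 5) (nat_lit 137) (nat_lit 230) (nat_lit 233)) (PT.nd (nat_lit 78) (PT.lf (nat_lit 6232) (nat_lit 6) (nat_lit 82) (nat_lit 5) (nat_lit 138) (nat_lit 230) (nat_lit 232)) (PT.lf (nat_lit 6460) (nat_lit 6) (nat_lit 85) (nat_lit 5) (nat_lit 139) (nat_lit 230) (nat_lit 231)))))) (PT.nd (nat_lit 312) (PT.nd (nat_lit 156) (PT.nd (nat_lit 78) (PT.lf (nat_lit 6688) (nat_lit 3) (nat_lit 88) (nat_lit 4) (nat_lit 140) (nat_lit 230) (nat_lit 230)) (PT.lf (nat_lit 6840) (nat_lit 6) (nat_lit 90) (nat_lit 4) (nat_lit 141) (nat_lit 230) (nat_lit 229))) (PT.nd (nat_lit 78) (PT.lf (nat_lit 6992) (nat_lit 6) (nat_lit 92) (nat_lit 4) (nat_lit 142) (nat_lit 230) (nat_lit 228)) (PT.lf (nat_lit 7144) (nat_lit 6) (nat_lit 94) (nat_lit 4) (nat_lit 143) (nat_lit 230) (nat_lit 227))))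 (PT.nd (nat_lit 6474) (PT.nd (nat_lit 6396) (PT.lf (nat_lit 7296) (nat_lit 6) (nat_lit 96) (nat_lit 4) (nat_lit 144) (nat_lit 230) (nat_lit 226)) (PT.lf (nat_lit 7296) (nat_lit 6) (nat_lit 96) (nat_lit 2) (nat_lit 226) (nat_lit 230) (nat_lit 144))) (PT.nd (nat_lit 78) (PT.lf (nat_lit 7144) (nat_lit 6) (nat_lit 94) (nat_lit 2) (nat_lit 227) (nat_lit 230) (nat_lit 143)) (PT.nd (nat_lit 78) (PT.lf (nat_lit 6992) (nat_lit 6) (nat_lit 92) (nat_lit 2) (nat_lit 228) (nat_lit 230) (nat_lit 142)) (PT.lf (nat_lit 6840) (nat_lit 6) (nat_lit 90) (nat_lit 2) (nat_lit 229) (nat_lit 230) (nat_lit 141))))))) (PT.nd (nat_lit 55458) (PT.nd (nat_lit 55068) (PT.nd (nat_lit 156) (PT.nd (nat_lit 78) (PT.lf (nat_lit 6688) (nat_lit 3) (nat_lit 88) (nat_lit 0) (nat_lit 230) (nat_lit 230) (nat_lit 140)) (PT.lf (nat_lit 6460) (nat_lit 6) (nat_lit 85) (nat_lit 0) (nat_lit 231) (nat_lit 230) (nat_lit 139))) (PT.nd (nat_lit 78) (PT.lf (nat_lit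 6232) (nat_lit 6) (nat_lit 82) (nat_lit 0) (nat_lit 232) (nat_lit 230) (nat_lit 138)) (PT.lf (nat_lit 6080) (nat_lit 6) (nat_lit 80) (nat_lit 0) (nat_lit 233) (nat_lit 230) (nat_lit 137)))) (PT.nd (nat_lit 156) (PT.nd (nat_lit 78) (PT.lf (nat_lit 5776) (nat_lit 6) (nat_lit 76) (nat_lit 5) (nat_lit 135) (nat_lit 231) (nat_lit 234)) (PT.lf (nat_lit 5928) (nat_lit 6) (nat_lit 78) (nat_lit 5) (nat_lit 136) (nat_lit 231) (nat_lit 233))) (PT.nd (nat_lit 78) (PT.lf (nat_lit 6156) (nat_lit 6) (nat_lit 81) (nat_lit 5) (nat_lit 137) (nat_lit 231) (nat_lit 232)) (PT.nd (nat_lit 78) (PT.lf (nat_lit 6308) (nat_lit 3) (nat_lit 83) (nat_lit 4) (nat_lit 138) (nat_lit 231) (nat_lit 231)) (PT.lf (nat_lit 6460) (nat_lit 6) (nat_lit 85) (nat_lit 4) (nat_lit 139) (nat_lit 231) (nat_lit 230)))))) (PT.nd (nat_lit 6942) (PT.nd (nat_lit 156) (PT.nd (nat_lit 78) (PT.lf (nat_lit 6612) (nat_lit 6) (nat_lit 87) (nat_lit 4) (nat_lit 140) (nat_lit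 231) (nat_lit 229)) (PT.lf (nat_lit 6764) (nat_lit 6) (nat_lit 89) (nat_lit 4) (nat_lit 141) (nat_lit 231) (nat_lit 228))) (PT.nd (nat_lit 6630) (PT.lf (nat_lit 6916) (nat_lit 6) (nat_lit 91) (nat_lit 4) (nat_lit 142) (nat_lit 231) (nat_lit 227)) (PT.nd (nat_lit 78) (PT.lf (nat_lit 6916) (nat_lit 6) (nat_lit 91) (nat_lit 2) (nat_lit 227) (nat_lit 231) (nat_lit 142)) (PT.lf (nat_lit 6764) (nat_lit 6) (nat_lit 89) (nat_lit 2) (nat_lit 228) (nat_lit 231) (nat_lit 141))))) (PT.nd (nat_lit 156) (PT.nd (nat_lit 78) (PT.lf (nat_lit 6612) (nat_lit 6) (nat_lit 87) (nat_lit 2) (nat_lit 229) (nat_lit 231) (nat_lit 140)) (PT.lf (nat_lit 6460) (nat_lit 6) (nat_lit 85) (nat_lit 2) (nat_lit 230) (nat_lit 231) (nat_lit 139))) (PT.nd (nat_lit 78) (PT.lf (nat_lit 6308) (nat_lit 3) (nat_lit 83) (nat_lit 0) (nat_lit 231) (nat_lit 231) (nat_lit 138)) (PT.nd (nat_lit 78) (PT.lf (nat_lit 6156) (nat_lit 6) (nat_lit 81) (nat_lit 0) (nat_lit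 232) (nat_lit 231) (nat_lit 137)) (PT.lf (nat_lit 5928) (nat_lit 6) (nat_lit 78) (nat_lit 0) (nat_lit 233) (nat_lit 231) (nat_lit 136))))))))
noncomputable def pc57 : PT := (PT.nd (nat_lit 117078) (PT.nd (nat_lit 62010) (PT.nd (nat_lit 54834) (PT.nd (nat_lit 54678) (PT.nd (nat_lit 54600) (PT.lf (nat_lit 5776) (nat_lit 6) (nat_lit 76) (nat_lit 0) (nat_lit 234) (nat_lit 231) (nat_lit 135)) (PT.lf (nat_lit 5472) (nat_lit 6) (nat_lit 72) (nat_lit 5) (nat_lit 133) (nat_lit 232) (nat_lit 235))) (PT.nd (nat_lit 78) (PT.lf (nat_lit 5624) (nat_lit 6) (nat_lit 74) (nat_lit 5) (nat_lit 134) (nat_lit 232) (nat_lit 234)) (PT.lf (nat_lit 5852) (nat_lit 6) (nat_lit 77) (nat_lit 5) (nat_lit 135) (nat_lit 232) (nat_lit 233)))) (PT.nd (nat_lit 156) (PT.nd (nat_lit 78) (PT.lf (nat_lit 6004) (nat_lit 3) (nat_lit 79) (nat_lit 4) (nat_lit 136) (nat_lit 232) (nat_lit 232)) (PT.lf (nat_lit 6156) (nat_lit 6) (nat_lit 81) (nat_lit 4) (nat_lit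 137) (nat_lit 232) (nat_lit 231))) (PT.nd (nat_lit 78) (PT.lf (nat_lit 6232) (nat_lit 6) (nat_lit 82) (nat_lit 4) (nat_lit 138) (nat_lit 232) (nat_lit 230)) (PT.nd (nat_lit 78) (PT.lf (nat_lit 6384) (nat_lit 6) (nat_lit 84) (nat_lit 4) (nat_lit 139) (nat_lit 232) (nat_lit 229)) (PT.lf (nat_lit 6536) (nat_lit 6) (nat_lit 86) (nat_lit 4) (nat_lit 140) (nat_lit 232) (nat_lit 228)))))) (PT.nd (nat_lit 390) (PT.nd (nat_lit 156) (PT.nd (nat_lit 78) (PT.lf (nat_lit 6536) (nat_lit 6) (nat_lit 86) (nat_lit 2) (nat_lit 228) (nat_lit 232) (nat_lit 140)) (PT.lf (nat_lit 6384) (nat_lit 6) (nat_lit 84) (nat_lit 2) (nat_lit 229) (nat_lit 232) (nat_lit 139))) (PT.nd (nat_lit 78) (PT.lf (nat_lit 6232) (nat_lit 6) (nat_lit 82) (nat_lit 2) (nat_lit 230) (nat_lit 232) (nat_lit 138)) (PT.nd (nat_lit 78) (PT.lf (nat_lit 6156) (nat_lit 6) (nat_lit 81) (nat_lit 2) (nat_lit 231) (nat_lit 232) (nat_lit 137)) (PT.lf (nat_lit 6004) (nat_lit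 3) (nat_lit 79) (nat_lit 0) (nat_lit 232) (nat_lit 232) (nat_lit 136))))) (PT.nd (nat_lit 156) (PT.nd (nat_lit 78) (PT.lf (nat_lit 5852) (nat_lit 6) (nat_lit 77) (nat_lit 0) (nat_lit 233) (nat_lit 232) (nat_lit 135)) (PT.lf (nat_lit 5624) (nat_lit 6) (nat_lit 74) (nat_lit 0) (nat_lit 234) (nat_lit 232) (nat_lit 134))) (PT.nd (nat_lit 54366) (PT.lf (nat_lit 5472) (nat_lit 6) (nat_lit 72) (nat_lit 0) (nat_lit 235) (nat_lit 232) (nat_lit 133)) (PT.nd (nat_lit 78) (PT.lf (nat_lit 5168) (nat_lit 6) (nat_lit 68) (nat_lit 5) (nat_lit 131) (nat_lit 233) (nat_lit 236)) (PT.lf (nat_lit 5320) (nat_lit 6) (nat_lit 70) (nat_lit 5) (nat_lit 132) (nat_lit 233) (nat_lit 235))))))) (PT.nd (nat_lit 7878) (PT.nd (nat_lit 312) (PT.nd (nat_lit 156) (PT.nd (nat_lit 78) (PT.lf (nat_lit 5548) (nat_lit 6) (nat_lit 73) (nat_lit 5) (nat_lit 133) (nat_lit 233) (nat_lit 234)) (PT.lf (nat_lit 5700) (nat_lit 3) (nat_lit 75) (nat_lit 4) (nat_lit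 134) (nat_lit 233) (nat_lit 233))) (PT.nd (nat_lit 78) (PT.lf (nat_lit 5852) (nat_lit 6) (nat_lit 77) (nat_lit 4) (nat_lit 135) (nat_lit 233) (nat_lit 232)) (PT.lf (nat_lit 5928) (nat_lit 6) (nat_lit 78) (nat_lit 4) (nat_lit 136) (nat_lit 233) (nat_lit 231)))) (PT.nd (nat_lit 7332) (PT.nd (nat_lit 7254) (PT.lf (nat_lit 6080) (nat_lit 6) (nat_lit 80) (nat_lit 4) (nat_lit 137) (nat_lit 233) (nat_lit 230)) (PT.lf (nat_lit 6080) (nat_lit 6) (nat_lit 80) (nat_lit 2) (nat_lit 230) (nat_lit 233) (nat_lit 137))) (PT.nd (nat_lit 78) (PT.lf (nat_lit 5928) (nat_lit 6) (nat_lit 78) (nat_lit 2) (nat_lit 231) (nat_lit 233) (nat_lit 136)) (PT.nd (nat_lit 78) (PT.lf (nat_lit 5852) (nat_lit 6) (nat_lit 77) (nat_lit 2) (nat_lit 232) (nat_lit 233) (nat_lit 135)) (PT.lf (nat_lit 5700) (nat_lit 3) (nat_lit 75) (nat_lit 0) (nat_lit 233) (nat_lit 233) (nat_lit 134)))))) (PT.nd (nat_lit 54444) (PT.nd (nat_lit 156) (PT.nd (nat_lit 78) (PT.lf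 (nat_lit 5548) (nat_lit 6) (nat_lit 73) (nat_lit 0) (nat_lit 234) (nat_lit 233) (nat_lit 133)) (PT.lf (nat_lit 5320) (nat_lit 6) (nat_lit 70) (nat_lit 0) (nat_lit 235) (nat_lit 233) (nat_lit 132))) (PT.nd (nat_lit 54132) (PT.lf (nat_lit 5168) (nat_lit 6) (nat_lit 68) (nat_lit 0) (nat_lit 236) (nat_lit 233) (nat_lit 131)) (PT.nd (nat_lit 78) (PT.lf (nat_lit 4864) (nat_lit 6) (nat_lit 64) (nat_lit 5) (nat_lit 129) (nat_lit 234) (nat_lit 237)) (PT.lf (nat_lit 5016) (nat_lit 6) (nat_lit 66) (nat_lit 5) (nat_lit 130) (nat_lit 234) (nat_lit 236))))) (PT.nd (nat_lit 156) (PT.nd (nat_lit 78) (PT.lf (nat_lit 5244) (nat_lit 6) (nat_lit 69) (nat_lit 5) (nat_lit 131) (nat_lit 234) (nat_lit 235)) (PT.lf (nat_lit 5396) (nat_lit 3) (nat_lit 71) (nat_lit 4) (nat_lit 132) (nat_lit 234) (nat_lit 234))) (PT.nd (nat_lit 78) (PT.lf (nat_lit 5548) (nat_lit 6) (nat_lit 73) (nat_lit 4) (nat_lit 133) (nat_lit 234) (nat_lit 233)) (PT.nd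 (nat_lit 78) (PT.lf (nat_lit 5624) (nat_lit 6) (nat_lit 74) (nat_lit 4) (nat_lit 134) (nat_lit 234) (nat_lit 232)) (PT.lf (nat_lit 5776) (nat_lit 6) (nat_lit 76) (nat_lit 4) (nat_lit 135) (nat_lit 234) (nat_lit 231))))))))
noncomputable def pc58 : PT := (PT.nd (nat_lit 62946) (PT.nd (nat_lit 54522) (PT.nd (nat_lit 312) (PT.nd (nat_lit 156) (PT.nd (nat_lit 78) (PT.lf (nat_lit 5776) (nat_lit 6) (nat_lit 76) (nat_lit 2) (nat_lit 231) (nat_lit 234) (nat_lit 135)) (PT.lf (nat_lit 5624) (nat_lit 6) (nat_lit 74) (nat_lit 2) (nat_lit 232) (nat_lit 234) (nat_lit 134))) (PT.nd (nat_lit 78) (PT.lf (nat_lit 5548) (nat_lit 6) (nat_lit 73) (nat_lit 2) (nat_lit 233) (nat_lit 234) (nat_lit 133)) (PT.lf (nat_lit 5396) (nat_lit 3) (nat_lit 71) (nat_lit 0) (nat_lit 234) (nat_lit 234) (nat_lit 132)))) (PT.nd (nat_lit 156) (PT.nd (nat_lit 78) (PT.lf (nat_lit 5244) (nat_lit 6) (nat_lit 69) (nat_lit 0) (nat_lit 235) (nat_lit 234) (nat_lit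 131)) (PT.lf (nat_lit 5016) (nat_lit 6) (nat_lit 66) (nat_lit 0) (nat_lit 236) (nat_lit 234) (nat_lit 130))) (PT.nd (nat_lit 53898) (PT.lf (nat_lit 4864) (nat_lit 6) (nat_lit 64) (nat_lit 0) (nat_lit 237) (nat_lit 234) (nat_lit 129)) (PT.nd (nat_lit 78) (PT.lf (nat_lit 4560) (nat_lit 6) (nat_lit 60) (nat_lit 5) (nat_lit 127) (nat_lit 235) (nat_lit 238)) (PT.lf (nat_lit 4712) (nat_lit 6) (nat_lit 62) (nat_lit 5) (nat_lit 128) (nat_lit 235) (nat_lit 237)))))) (PT.nd (nat_lit 8034) (PT.nd (nat_lit 156) (PT.nd (nat_lit 78) (PT.lf (nat_lit 4940) (nat_lit 6) (nat_lit 65) (nat_lit 5) (nat_lit 129) (nat_lit 235) (nat_lit 236)) (PT.lf (nat_lit 5092) (nat_lit 3) (nat_lit 67) (nat_lit 4) (nat_lit 130) (nat_lit 235) (nat_lit 235))) (PT.nd (nat_lit 78) (PT.lf (nat_lit 5244) (nat_lit 6) (nat_lit 69) (nat_lit 4) (nat_lit 131) (nat_lit 235) (nat_lit 234)) (PT.nd (nat_lit 78) (PT.lf (nat_lit 5320) (nat_lit 6) (nat_lit 70) (nat_lit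 4) (nat_lit 132) (nat_lit 235) (nat_lit 233)) (PT.lf (nat_lit 5472) (nat_lit 6) (nat_lit 72) (nat_lit 4) (nat_lit 133) (nat_lit 235) (nat_lit 232))))) (PT.nd (nat_lit 156) (PT.nd (nat_lit 78) (PT.lf (nat_lit 5472) (nat_lit 6) (nat_lit 72) (nat_lit 2) (nat_lit 232) (nat_lit 235) (nat_lit 133)) (PT.lf (nat_lit 5320) (nat_lit 6) (nat_lit 70) (nat_lit 2) (nat_lit 233) (nat_lit 235) (nat_lit 132))) (PT.nd (nat_lit 78) (PT.lf (nat_lit 5244) (nat_lit 6) (nat_lit 69) (nat_lit 2) (nat_lit 234) (nat_lit 235) (nat_lit 131)) (PT.nd (nat_lit 78) (PT.lf (nat_lit 5092) (nat_lit 3) (nat_lit 67) (nat_lit 0) (nat_lit 235) (nat_lit 235) (nat_lit 130)) (PT.lf (nat_lit 4940) (nat_lit 6) (nat_lit 65) (nat_lit 0) (nat_lit 236) (nat_lit 235) (nat_lit 129))))))) (PT.nd (nat_lit 62244) (PT.nd (nat_lit 53976) (PT.nd (nat_lit 53820) (PT.nd (nat_lit 78) (PT.lf (nat_lit 4712) (nat_lit 6) (nat_lit 62) (nat_lit 0) (nat_lit 237) (nat_lit 235) (nat_lit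 128)) (PT.lf (nat_lit 4560) (nat_lit 6) (nat_lit 60) (nat_lit 0) (nat_lit 238) (nat_lit 235) (nat_lit 127))) (PT.nd (nat_lit 78) (PT.lf (nat_lit 4408) (nat_lit 6) (nat_lit 58) (nat_lit 5) (nat_lit 126) (nat_lit 236) (nat_lit 238)) (PT.lf (nat_lit 4636) (nat_lit 6) (nat_lit 61) (nat_lit 5) (nat_lit 127) (nat_lit 236) (nat_lit 237)))) (PT.nd (nat_lit 156) (PT.nd (nat_lit 78) (PT.lf (nat_lit 4788) (nat_lit 3) (nat_lit 63) (nat_lit 4) (nat_lit 128) (nat_lit 236) (nat_lit 236)) (PT.lf (nat_lit 4940) (nat_lit 6) (nat_lit 65) (nat_lit 4) (nat_lit 129) (nat_lit 236) (nat_lit 235))) (PT.nd (nat_lit 78) (PT.lf (nat_lit 5016) (nat_lit 6) (nat_lit 66) (nat_lit 4) (nat_lit 130) (nat_lit 236) (nat_lit 234)) (PT.nd (nat_lit 7956) (PT.lf (nat_lit 5168) (nat_lit 6) (nat_lit 68) (nat_lit 4) (nat_lit 131) (nat_lit 236) (nat_lit 233)) (PT.lf (nat_lit 5168) (nat_lit 6) (nat_lit 68) (nat_lit 2) (nat_lit 233) (nat_lit 236) (nat_lit 131))))))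 (PT.nd (nat_lit 53898) (PT.nd (nat_lit 156) (PT.nd (nat_lit 78) (PT.lf (nat_lit 5016) (nat_lit 6) (nat_lit 66) (nat_lit 2) (nat_lit 234) (nat_lit 236) (nat_lit 130)) (PT.lf (nat_lit 4940) (nat_lit 6) (nat_lit 65) (nat_lit 2) (nat_lit 235) (nat_lit 236) (nat_lit 129))) (PT.nd (nat_lit 78) (PT.lf (nat_lit 4788) (nat_lit 3) (nat_lit 63) (nat_lit 0) (nat_lit 236) (nat_lit 236) (nat_lit 128)) (PT.nd (nat_lit 78) (PT.lf (nat_lit 4636) (nat_lit 6) (nat_lit 61) (nat_lit 0) (nat_lit 237) (nat_lit 236) (nat_lit 127)) (PT.lf (nat_lit 4408) (nat_lit 6) (nat_lit 58) (nat_lit 0) (nat_lit 238) (nat_lit 236) (nat_lit 126))))) (PT.nd (nat_lit 156) (PT.nd (nat_lit 78) (PT.lf (nat_lit 4180) (nat_lit 6) (nat_lit 55) (nat_lit 5) (nat_lit 124) (nat_lit 237) (nat_lit 239)) (PT.lf (nat_lit 4332) (nat_lit 6) (nat_lit 57) (nat_lit 5) (nat_lit 125) (nat_lit 237) (nat_lit 238))) (PT.nd (nat_lit 78) (PT.lf (nat_lit 4484) (nat_lit 3) (nat_lit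 59) (nat_lit 4) (nat_lit 126) (nat_lit 237) (nat_lit 237)) (PT.nd (nat_lit 78) (PT.lf (nat_lit 4636) (nat_lit 6) (nat_lit 61) (nat_lit 4) (nat_lit 127) (nat_lit 237) (nat_lit 236)) (PT.lf (nat_lit 4712) (nat_lit 6) (nat_lit 62) (nat_lit 4) (nat_lit 128) (nat_lit 237) (nat_lit 235))))))))
noncomputable def pc59 : PT := (PT.nd (nat_lit 124254) (PT.nd (nat_lit 62088) (PT.nd (nat_lit 8424) (PT.nd (nat_lit 8268) (PT.nd (nat_lit 8190) (PT.lf (nat_lit 4864) (nat_lit 6) (nat_lit 64) (nat_lit 4) (nat_lit 129) (nat_lit 237) (nat_lit 234)) (PT.lf (nat_lit 4864) (nat_lit 6) (nat_lit 64) (nat_lit 2) (nat_lit 234) (nat_lit 237) (nat_lit 129))) (PT.nd (nat_lit 78) (PT.lf (nat_lit 4712) (nat_lit 6) (nat_lit 62) (nat_lit 2) (nat_lit 235) (nat_lit 237) (nat_lit 128)) (PT.lf (nat_lit 4636) (nat_lit 6) (nat_lit 61) (nat_lit 2) (nat_lit 236) (nat_lit 237) (nat_lit 127)))) (PT.nd (nat_lit 156) (PT.nd (nat_lit 78) (PT.lf (nat_lit 4484)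 (nat_lit 3) (nat_lit 59) (nat_lit 0) (nat_lit 237) (nat_lit 237) (nat_lit 126)) (PT.lf (nat_lit 4332) (nat_lit 6) (nat_lit 57) (nat_lit 0) (nat_lit 238) (nat_lit 237) (nat_lit 125))) (PT.nd (nat_lit 53352) (PT.lf (nat_lit 4180) (nat_lit 6) (nat_lit 55) (nat_lit 0) (nat_lit 239) (nat_lit 237) (nat_lit 124)) (PT.nd (nat_lit 78) (PT.lf (nat_lit 3952) (nat_lit 6) (nat_lit 52) (nat_lit 5) (nat_lit 122) (nat_lit 238) (nat_lit 240)) (PT.lf (nat_lit 4104) (nat_lit 6) (nat_lit 54) (nat_lit 5) (nat_lit 123) (nat_lit 238) (nat_lit 239)))))) (PT.nd (nat_lit 8736) (PT.nd (nat_lit 156) (PT.nd (nat_lit 78) (PT.lf (nat_lit 4256) (nat_lit 3) (nat_lit 56) (nat_lit 4) (nat_lit 124) (nat_lit 238) (nat_lit 238)) (PT.lf (nat_lit 4332) (nat_lit 6) (nat_lit 57) (nat_lit 4) (nat_lit 125) (nat_lit 238) (nat_lit 237))) (PT.nd (nat_lit 78) (PT.lf (nat_lit 4408) (nat_lit 6) (nat_lit 58) (nat_lit 4) (nat_lit 126) (nat_lit 238) (nat_lit 236))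 (PT.nd (nat_lit 8424) (PT.lf (nat_lit 4560) (nat_lit 6) (nat_lit 60) (nat_lit 4) (nat_lit 127) (nat_lit 238) (nat_lit 235)) (PT.lf (nat_lit 4560) (nat_lit 6) (nat_lit 60) (nat_lit 2) (nat_lit 235) (nat_lit 238) (nat_lit 127))))) (PT.nd (nat_lit 156) (PT.nd (nat_lit 78) (PT.lf (nat_lit 4408) (nat_lit 6) (nat_lit 58) (nat_lit 2) (nat_lit 236) (nat_lit 238) (nat_lit 126)) (PT.lf (nat_lit 4332) (nat_lit 6) (nat_lit 57) (nat_lit 2) (nat_lit 237) (nat_lit 238) (nat_lit 125))) (PT.nd (nat_lit 78) (PT.lf (nat_lit 4256) (nat_lit 3) (nat_lit 56) (nat_lit 0) (nat_lit 238) (nat_lit 238) (nat_lit 124)) (PT.nd (nat_lit 78) (PT.lf (nat_lit 4104) (nat_lit 6) (nat_lit 54) (nat_lit 0) (nat_lit 239) (nat_lit 238) (nat_lit 123)) (PT.lf (nat_lit 3952) (nat_lit 6) (nat_lit 52) (nat_lit 0) (nat_lit 240) (nat_lit 238) (nat_lit 122))))))) (PT.nd (nat_lit 9438) (PT.nd (nat_lit 312) (PT.nd (nat_lit 156) (PT.nd (nat_lit 78) (PT.lf (nat_lit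 3724) (nat_lit 6) (nat_lit 49) (nat_lit 5) (nat_lit 120) (nat_lit 239) (nat_lit 241)) (PT.lf (nat_lit 3876) (nat_lit 6) (nat_lit 51) (nat_lit 5) (nat_lit 121) (nat_lit 239) (nat_lit 240))) (PT.nd (nat_lit 78) (PT.lf (nat_lit 4028) (nat_lit 3) (nat_lit 53) (nat_lit 4) (nat_lit 122) (nat_lit 239) (nat_lit 239)) (PT.lf (nat_lit 4104) (nat_lit 6) (nat_lit 54) (nat_lit 4) (nat_lit 123) (nat_lit 239) (nat_lit 238)))) (PT.nd (nat_lit 8892) (PT.nd (nat_lit 8814) (PT.lf (nat_lit 4180) (nat_lit 6) (nat_lit 55) (nat_lit 4) (nat_lit 124) (nat_lit 239) (nat_lit 237)) (PT.lf (nat_lit 4180) (nat_lit 6) (nat_lit 55) (nat_lit 2) (nat_lit 237) (nat_lit 239) (nat_lit 124))) (PT.nd (nat_lit 78) (PT.lf (nat_lit 4104) (nat_lit 6) (nat_lit 54) (nat_lit 2) (nat_lit 238) (nat_lit 239) (nat_lit 123)) (PT.nd (nat_lit 78) (PT.lf (nat_lit 4028) (nat_lit 3) (nat_lit 53) (nat_lit 0) (nat_lit 239) (nat_lit 239) (nat_lit 122)) (PT.lf (nat_lit 3876)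 (nat_lit 6) (nat_lit 51) (nat_lit 0) (nat_lit 240) (nat_lit 239) (nat_lit 121)))))) (PT.nd (nat_lit 53196) (PT.nd (nat_lit 52962) (PT.nd (nat_lit 52884) (PT.lf (nat_lit 3724) (nat_lit 6) (nat_lit 49) (nat_lit 0) (nat_lit 241) (nat_lit 239) (nat_lit 120)) (PT.lf (nat_lit 3496) (nat_lit 6) (nat_lit 46) (nat_lit 5) (nat_lit 118) (nat_lit 240) (nat_lit 242))) (PT.nd (nat_lit 78) (PT.lf (nat_lit 3648) (nat_lit 6) (nat_lit 48) (nat_lit 5) (nat_lit 119) (nat_lit 240) (nat_lit 241)) (PT.nd (nat_lit 78) (PT.lf (nat_lit 3800) (nat_lit 3) (nat_lit 50) (nat_lit 4) (nat_lit 120) (nat_lit 240) (nat_lit 240)) (PT.lf (nat_lit 3876) (nat_lit 6) (nat_lit 51) (nat_lit 4) (nat_lit 121) (nat_lit 240) (nat_lit 239))))) (PT.nd (nat_lit 9126) (PT.nd (nat_lit 9048) (PT.lf (nat_lit 3952) (nat_lit 6) (nat_lit 52) (nat_lit 4) (nat_lit 122) (nat_lit 240) (nat_lit 238)) (PT.lf (nat_lit 3952) (nat_lit 6) (nat_lit 52) (nat_lit 2) (nat_lit 238)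 (nat_lit 240) (nat_lit 122))) (PT.nd (nat_lit 78) (PT.lf (nat_lit 3876) (nat_lit 6) (nat_lit 51) (nat_lit 2) (nat_lit 239) (nat_lit 240) (nat_lit 121)) (PT.nd (nat_lit 78) (PT.lf (nat_lit 3800) (nat_lit 3) (nat_lit 50) (nat_lit 0) (nat_lit 240) (nat_lit 240) (nat_lit 120)) (PT.lf (nat_lit 3648) (nat_lit 6) (nat_lit 48) (nat_lit 0) (nat_lit 241) (nat_lit 240) (nat_lit 119))))))))
noncomputable def pc60 : PT := (PT.nd (nat_lit 124956) (PT.nd (nat_lit 62478) (PT.nd (nat_lit 52884) (PT.nd (nat_lit 52728) (PT.nd (nat_lit 52650) (PT.lf (nat_lit 3496) (nat_lit 6) (nat_lit 46) (nat_lit 0) (nat_lit 242) (nat_lit 240) (nat_lit 118)) (PT.lf (nat_lit 3268) (nat_lit 6) (nat_lit 43) (nat_lit 5) (nat_lit 116) (nat_lit 241) (nat_lit 243))) (PT.nd (nat_lit 78) (PT.lf (nat_lit 3420) (nat_lit 6) (nat_lit 45) (nat_lit 5) (nat_lit 117) (nat_lit 241) (nat_lit 242)) (PT.lf (nat_lit 3572) (nat_lit 3) (nat_lit 47) (nat_lit 4) (nat_lit 118)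 (nat_lit 241) (nat_lit 241)))) (PT.nd (nat_lit 9360) (PT.nd (nat_lit 78) (PT.lf (nat_lit 3648) (nat_lit 6) (nat_lit 48) (nat_lit 4) (nat_lit 119) (nat_lit 241) (nat_lit 240)) (PT.lf (nat_lit 3724) (nat_lit 6) (nat_lit 49) (nat_lit 4) (nat_lit 120) (nat_lit 241) (nat_lit 239))) (PT.nd (nat_lit 78) (PT.lf (nat_lit 3724) (nat_lit 6) (nat_lit 49) (nat_lit 2) (nat_lit 239) (nat_lit 241) (nat_lit 120)) (PT.nd (nat_lit 78) (PT.lf (nat_lit 3648) (nat_lit 6) (nat_lit 48) (nat_lit 2) (nat_lit 240) (nat_lit 241) (nat_lit 119)) (PT.lf (nat_lit 3572) (nat_lit 3) (nat_lit 47) (nat_lit 0) (nat_lit 241) (nat_lit 241) (nat_lit 118)))))) (PT.nd (nat_lit 52650) (PT.nd (nat_lit 52494) (PT.nd (nat_lit 78) (PT.lf (nat_lit 3420) (nat_lit 6) (nat_lit 45) (nat_lit 0) (nat_lit 242) (nat_lit 241) (nat_lit 117)) (PT.lf (nat_lit 3268) (nat_lit 6) (nat_lit 43) (nat_lit 0) (nat_lit 243) (nat_lit 241) (nat_lit 116))) (PT.nd (nat_lit 78) (PT.lf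 (nat_lit 3040) (nat_lit 6) (nat_lit 40) (nat_lit 5) (nat_lit 114) (nat_lit 242) (nat_lit 244)) (PT.lf (nat_lit 3192) (nat_lit 6) (nat_lit 42) (nat_lit 5) (nat_lit 115) (nat_lit 242) (nat_lit 243)))) (PT.nd (nat_lit 156) (PT.nd (nat_lit 78) (PT.lf (nat_lit 3344) (nat_lit 3) (nat_lit 44) (nat_lit 4) (nat_lit 116) (nat_lit 242) (nat_lit 242)) (PT.lf (nat_lit 3420) (nat_lit 6) (nat_lit 45) (nat_lit 4) (nat_lit 117) (nat_lit 242) (nat_lit 241))) (PT.nd (nat_lit 9516) (PT.lf (nat_lit 3496) (nat_lit 6) (nat_lit 46) (nat_lit 4) (nat_lit 118) (nat_lit 242) (nat_lit 240)) (PT.nd (nat_lit 78) (PT.lf (nat_lit 3496) (nat_lit 6) (nat_lit 46) (nat_lit 2) (nat_lit 240) (nat_lit 242) (nat_lit 118)) (PT.lf (nat_lit 3420) (nat_lit 6) (nat_lit 45) (nat_lit 2) (nat_lit 241) (nat_lit 242) (nat_lit 117))))))) (PT.nd (nat_lit 62478) (PT.nd (nat_lit 52416) (PT.nd (nat_lit 156) (PT.nd (nat_lit 78) (PT.lf (nat_lit 3344) (nat_lit 3) (nat_lit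 44) (nat_lit 0) (nat_lit 242) (nat_lit 242) (nat_lit 116)) (PT.lf (nat_lit 3192) (nat_lit 6) (nat_lit 42) (nat_lit 0) (nat_lit 243) (nat_lit 242) (nat_lit 115))) (PT.nd (nat_lit 52182) (PT.lf (nat_lit 3040) (nat_lit 6) (nat_lit 40) (nat_lit 0) (nat_lit 244) (nat_lit 242) (nat_lit 114)) (PT.lf (nat_lit 2812) (nat_lit 6) (nat_lit 37) (nat_lit 5) (nat_lit 112) (nat_lit 243) (nat_lit 245)))) (PT.nd (nat_lit 156) (PT.nd (nat_lit 78) (PT.lf (nat_lit 2964) (nat_lit 6) (nat_lit 39) (nat_lit 5) (nat_lit 113) (nat_lit 243) (nat_lit 244)) (PT.lf (nat_lit 3116) (nat_lit 3) (nat_lit 41) (nat_lit 4) (nat_lit 114) (nat_lit 243) (nat_lit 243))) (PT.nd (nat_lit 78) (PT.lf (nat_lit 3192) (nat_lit 6) (nat_lit 42) (nat_lit 4) (nat_lit 115) (nat_lit 243) (nat_lit 242)) (PT.nd (nat_lit 9750) (PT.lf (nat_lit 3268) (nat_lit 6) (nat_lit 43) (nat_lit 4) (nat_lit 116) (nat_lit 243) (nat_lit 241)) (PT.lf (nat_lit 3268) (nat_lit 6) (nat_lit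 43) (nat_lit 2) (nat_lit 241) (nat_lit 243) (nat_lit 116)))))) (PT.nd (nat_lit 52260) (PT.nd (nat_lit 156) (PT.nd (nat_lit 78) (PT.lf (nat_lit 3192) (nat_lit 6) (nat_lit 42) (nat_lit 2) (nat_lit 242) (nat_lit 243) (nat_lit 115)) (PT.lf (nat_lit 3116) (nat_lit 3) (nat_lit 41) (nat_lit 0) (nat_lit 243) (nat_lit 243) (nat_lit 114))) (PT.nd (nat_lit 78) (PT.lf (nat_lit 2964) (nat_lit 6) (nat_lit 39) (nat_lit 0) (nat_lit 244) (nat_lit 243) (nat_lit 113)) (PT.nd (nat_lit 51948) (PT.lf (nat_lit 2812) (nat_lit 6) (nat_lit 37) (nat_lit 0) (nat_lit 245) (nat_lit 243) (nat_lit 112)) (PT.lf (nat_lit 2584) (nat_lit 6) (nat_lit 34) (nat_lit 5) (nat_lit 110) (nat_lit 244) (nat_lit 246))))) (PT.nd (nat_lit 156) (PT.nd (nat_lit 78) (PT.lf (nat_lit 2736) (nat_lit 6) (nat_lit 36) (nat_lit 5) (nat_lit 111) (nat_lit 244) (nat_lit 245)) (PT.lf (nat_lit 2888) (nat_lit 3) (nat_lit 38) (nat_lit 4) (nat_lit 112) (nat_lit 244) (nat_lit 244)))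 (PT.nd (nat_lit 78) (PT.lf (nat_lit 2964) (nat_lit 6) (nat_lit 39) (nat_lit 4) (nat_lit 113) (nat_lit 244) (nat_lit 243)) (PT.nd (nat_lit 9984) (PT.lf (nat_lit 3040) (nat_lit 6) (nat_lit 40) (nat_lit 4) (nat_lit 114) (nat_lit 244) (nat_lit 242)) (PT.lf (nat_lit 3040) (nat_lit 6) (nat_lit 40) (nat_lit 2) (nat_lit 242) (nat_lit 244) (nat_lit 114))))))))
noncomputable def pc61 : PT := (PT.nd (nat_lit 125034) (PT.nd (nat_lit 62478) (PT.nd (nat_lit 51948) (PT.nd (nat_lit 156) (PT.nd (nat_lit 78) (PT.lf (nat_lit 2964) (nat_lit 6) (nat_lit 39) (nat_lit 2) (nat_lit 243) (nat_lit 244) (nat_lit 113)) (PT.lf (nat_lit 2888) (nat_lit 3) (nat_lit 38) (nat_lit 0) (nat_lit 244) (nat_lit 244) (nat_lit 112))) (PT.nd (nat_lit 78) (PT.lf (nat_lit 2736) (nat_lit 6) (nat_lit 36) (nat_lit 0) (nat_lit 245) (nat_lit 244) (nat_lit 111)) (PT.lf (nat_lit 2584) (nat_lit 6) (nat_lit 34) (nat_lit 0) (nat_lit 246) (nat_lit 244) (nat_lit 110))))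 (PT.nd (nat_lit 156) (PT.nd (nat_lit 78) (PT.lf (nat_lit 2356) (nat_lit 6) (nat_lit 31) (nat_lit 5) (nat_lit 108) (nat_lit 245) (nat_lit 247)) (PT.lf (nat_lit 2508) (nat_lit 6) (nat_lit 33) (nat_lit 5) (nat_lit 109) (nat_lit 245) (nat_lit 246))) (PT.nd (nat_lit 78) (PT.lf (nat_lit 2660) (nat_lit 3) (nat_lit 35) (nat_lit 4) (nat_lit 110) (nat_lit 245) (nat_lit 245)) (PT.nd (nat_lit 78) (PT.lf (nat_lit 2736) (nat_lit 6) (nat_lit 36) (nat_lit 4) (nat_lit 111) (nat_lit 245) (nat_lit 244)) (PT.lf (nat_lit 2812) (nat_lit 6) (nat_lit 37) (nat_lit 4) (nat_lit 112) (nat_lit 245) (nat_lit 243)))))) (PT.nd (nat_lit 51792) (PT.nd (nat_lit 156) (PT.nd (nat_lit 78) (PT.lf (nat_lit 2812) (nat_lit 6) (nat_lit 37) (nat_lit 2) (nat_lit 243) (nat_lit 245) (nat_lit 112)) (PT.lf (nat_lit 2736) (nat_lit 6) (nat_lit 36) (nat_lit 2) (nat_lit 244) (nat_lit 245) (nat_lit 111))) (PT.nd (nat_lit 78) (PT.lf (nat_lit 2660) (nat_lit 3) (nat_lit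 35) (nat_lit 0) (nat_lit 245) (nat_lit 245) (nat_lit 110)) (PT.nd (nat_lit 78) (PT.lf (nat_lit 2508) (nat_lit 6) (nat_lit 33) (nat_lit 0) (nat_lit 246) (nat_lit 245) (nat_lit 109)) (PT.lf (nat_lit 2356) (nat_lit 6) (nat_lit 31) (nat_lit 0) (nat_lit 247) (nat_lit 245) (nat_lit 108))))) (PT.nd (nat_lit 156) (PT.nd (nat_lit 78) (PT.lf (nat_lit 2128) (nat_lit 6) (nat_lit 28) (nat_lit 5) (nat_lit 106) (nat_lit 246) (nat_lit 248)) (PT.lf (nat_lit 2280) (nat_lit 6) (nat_lit 30) (nat_lit 5) (nat_lit 107) (nat_lit 246) (nat_lit 247))) (PT.nd (nat_lit 78) (PT.lf (nat_lit 2432) (nat_lit 3) (nat_lit 32) (nat_lit 4) (nat_lit 108) (nat_lit 246) (nat_lit 246)) (PT.nd (nat_lit 78) (PT.lf (nat_lit 2508) (nat_lit 6) (nat_lit 33) (nat_lit 4) (nat_lit 109) (nat_lit 246) (nat_lit 245)) (PT.lf (nat_lit 2584) (nat_lit 6) (nat_lit 34) (nat_lit 4) (nat_lit 110) (nat_lit 246) (nat_lit 244))))))) (PT.nd (nat_lit 51870) (PT.nd (nat_lit 312)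 (PT.nd (nat_lit 156) (PT.nd (nat_lit 78) (PT.lf (nat_lit 2584) (nat_lit 6) (nat_lit 34) (nat_lit 2) (nat_lit 244) (nat_lit 246) (nat_lit 110)) (PT.lf (nat_lit 2508) (nat_lit 6) (nat_lit 33) (nat_lit 2) (nat_lit 245) (nat_lit 246) (nat_lit 109))) (PT.nd (nat_lit 78) (PT.lf (nat_lit 2432) (nat_lit 3) (nat_lit 32) (nat_lit 0) (nat_lit 246) (nat_lit 246) (nat_lit 108)) (PT.lf (nat_lit 2280) (nat_lit 6) (nat_lit 30) (nat_lit 0) (nat_lit 247) (nat_lit 246) (nat_lit 107)))) (PT.nd (nat_lit 51324) (PT.nd (nat_lit 51246) (PT.lf (nat_lit 2128) (nat_lit 6) (nat_lit 28) (nat_lit 0) (nat_lit 248) (nat_lit 246) (nat_lit 106)) (PT.lf (nat_lit 1900) (nat_lit 6) (nat_lit 25) (nat_lit 5) (nat_lit 104) (nat_lit 247) (nat_lit 249))) (PT.nd (nat_lit 78) (PT.lf (nat_lit 2052) (nat_lit 6) (nat_lit 27) (nat_lit 5) (nat_lit 105) (nat_lit 247) (nat_lit 248)) (PT.nd (nat_lit 78) (PT.lf (nat_lit 2204) (nat_lit 3) (nat_lit 29) (nat_lit 4) (nat_lit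 106) (nat_lit 247) (nat_lit 247)) (PT.lf (nat_lit 2280) (nat_lit 6) (nat_lit 30) (nat_lit 4) (nat_lit 107) (nat_lit 247) (nat_lit 246)))))) (PT.nd (nat_lit 10998) (PT.nd (nat_lit 10764) (PT.nd (nat_lit 10686) (PT.lf (nat_lit 2356) (nat_lit 6) (nat_lit 31) (nat_lit 4) (nat_lit 108) (nat_lit 247) (nat_lit 245)) (PT.lf (nat_lit 2356) (nat_lit 6) (nat_lit 31) (nat_lit 2) (nat_lit 245) (nat_lit 247) (nat_lit 108))) (PT.nd (nat_lit 78) (PT.lf (nat_lit 2280) (nat_lit 6) (nat_lit 30) (nat_lit 2) (nat_lit 246) (nat_lit 247) (nat_lit 107)) (PT.nd (nat_lit 78) (PT.lf (nat_lit 2204) (nat_lit 3) (nat_lit 29) (nat_lit 0) (nat_lit 247) (nat_lit 247) (nat_lit 106)) (PT.lf (nat_lit 2052) (nat_lit 6) (nat_lit 27) (nat_lit 0) (nat_lit 248) (nat_lit 247) (nat_lit 105))))) (PT.nd (nat_lit 51090) (PT.nd (nat_lit 51012) (PT.lf (nat_lit 1900) (nat_lit 6) (nat_lit 25) (nat_lit 0) (nat_lit 249) (nat_lit 247) (nat_lit 104)) (PT.lf (nat_lit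 1672) (nat_lit 6) (nat_lit 22) (nat_lit 5) (nat_lit 102) (nat_lit 248) (nat_lit 250))) (PT.nd (nat_lit 78) (PT.lf (nat_lit 1824) (nat_lit 6) (nat_lit 24) (nat_lit 5) (nat_lit 103) (nat_lit 248) (nat_lit 249)) (PT.nd (nat_lit 78) (PT.lf (nat_lit 1976) (nat_lit 3) (nat_lit 26) (nat_lit 4) (nat_lit 104) (nat_lit 248) (nat_lit 248)) (PT.lf (nat_lit 2052) (nat_lit 6) (nat_lit 27) (nat_lit 4) (nat_lit 105) (nat_lit 248) (nat_lit 247))))))))
noncomputable def pc62 : PT := (PT.nd (nat_lit 124566) (PT.nd (nat_lit 62244) (PT.nd (nat_lit 11154) (PT.nd (nat_lit 10998) (PT.nd (nat_lit 10920) (PT.lf (nat_lit 2128) (nat_lit 6) (nat_lit 28) (nat_lit 4) (nat_lit 106) (nat_lit 248) (nat_lit 246)) (PT.lf (nat_lit 2128) (nat_lit 6) (nat_lit 28) (nat_lit 2) (nat_lit 246) (nat_lit 248) (nat_lit 106))) (PT.nd (nat_lit 78) (PT.lf (nat_lit 2052) (nat_lit 6) (nat_lit 27) (nat_lit 2) (nat_lit 247) (nat_lit 248) (nat_lit 105)) (PT.lf (nat_lit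 1976) (nat_lit 3) (nat_lit 26) (nat_lit 0) (nat_lit 248) (nat_lit 248) (nat_lit 104)))) (PT.nd (nat_lit 50856) (PT.nd (nat_lit 78) (PT.lf (nat_lit 1824) (nat_lit 6) (nat_lit 24) (nat_lit 0) (nat_lit 249) (nat_lit 248) (nat_lit 103)) (PT.lf (nat_lit 1672) (nat_lit 6) (nat_lit 22) (nat_lit 0) (nat_lit 250) (nat_lit 248) (nat_lit 102))) (PT.nd (nat_lit 78) (PT.lf (nat_lit 1444) (nat_lit 6) (nat_lit 19) (nat_lit 5) (nat_lit 100) (nat_lit 249) (nat_lit 251)) (PT.nd (nat_lit 78) (PT.lf (nat_lit 1596) (nat_lit 6) (nat_lit 21) (nat_lit 5) (nat_lit 101) (nat_lit 249) (nat_lit 250)) (PT.lf (nat_lit 1748) (nat_lit 3) (nat_lit 23) (nat_lit 4) (nat_lit 102) (nat_lit 249) (nat_lit 249)))))) (PT.nd (nat_lit 11466) (PT.nd (nat_lit 11232) (PT.nd (nat_lit 78) (PT.lf (nat_lit 1824) (nat_lit 6) (nat_lit 24) (nat_lit 4) (nat_lit 103) (nat_lit 249) (nat_lit 248)) (PT.lf (nat_lit 1900) (nat_lit 6) (nat_lit 25) (nat_lit 4) (nat_lit 104)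 (nat_lit 249) (nat_lit 247))) (PT.nd (nat_lit 78) (PT.lf (nat_lit 1900) (nat_lit 6) (nat_lit 25) (nat_lit 2) (nat_lit 247) (nat_lit 249) (nat_lit 104)) (PT.nd (nat_lit 78) (PT.lf (nat_lit 1824) (nat_lit 6) (nat_lit 24) (nat_lit 2) (nat_lit 248) (nat_lit 249) (nat_lit 103)) (PT.lf (nat_lit 1748) (nat_lit 3) (nat_lit 23) (nat_lit 0) (nat_lit 249) (nat_lit 249) (nat_lit 102))))) (PT.nd (nat_lit 50622) (PT.nd (nat_lit 78) (PT.lf (nat_lit 1596) (nat_lit 6) (nat_lit 21) (nat_lit 0) (nat_lit 250) (nat_lit 249) (nat_lit 101)) (PT.lf (nat_lit 1444) (nat_lit 6) (nat_lit 19) (nat_lit 0) (nat_lit 251) (nat_lit 249) (nat_lit 100))) (PT.nd (nat_lit 78) (PT.lf (nat_lit 1216) (nat_lit 6) (nat_lit 16) (nat_lit 5) (nat_lit 98) (nat_lit 250) (nat_lit 252)) (PT.nd (nat_lit 78) (PT.lf (nat_lit 1368) (nat_lit 6) (nat_lit 18) (nat_lit 5) (nat_lit 99) (nat_lit 250) (nat_lit 251)) (PT.lf (nat_lit 1520) (nat_lit 3) (nat_lit 20) (nat_lit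 4) (nat_lit 100) (nat_lit 250) (nat_lit 250))))))) (PT.nd (nat_lit 62244) (PT.nd (nat_lit 11622) (PT.nd (nat_lit 11466) (PT.nd (nat_lit 78) (PT.lf (nat_lit 1596) (nat_lit 6) (nat_lit 21) (nat_lit 4) (nat_lit 101) (nat_lit 250) (nat_lit 249)) (PT.lf (nat_lit 1672) (nat_lit 6) (nat_lit 22) (nat_lit 4) (nat_lit 102) (nat_lit 250) (nat_lit 248))) (PT.nd (nat_lit 78) (PT.lf (nat_lit 1672) (nat_lit 6) (nat_lit 22) (nat_lit 2) (nat_lit 248) (nat_lit 250) (nat_lit 102)) (PT.lf (nat_lit 1596) (nat_lit 6) (nat_lit 21) (nat_lit 2) (nat_lit 249) (nat_lit 250) (nat_lit 101)))) (PT.nd (nat_lit 156) (PT.nd (nat_lit 78) (PT.lf (nat_lit 1520) (nat_lit 3) (nat_lit 20) (nat_lit 0) (nat_lit 250) (nat_lit 250) (nat_lit 100)) (PT.lf (nat_lit 1368) (nat_lit 6) (nat_lit 18) (nat_lit 0) (nat_lit 251) (nat_lit 250) (nat_lit 99))) (PT.nd (nat_lit 50310) (PT.lf (nat_lit 1216) (nat_lit 6) (nat_lit 16) (nat_lit 0) (nat_lit 252) (nat_lit 250)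 (nat_lit 98)) (PT.nd (nat_lit 78) (PT.lf (nat_lit 988) (nat_lit 6) (nat_lit 13) (nat_lit 5) (nat_lit 96) (nat_lit 251) (nat_lit 253)) (PT.lf (nat_lit 1140) (nat_lit 6) (nat_lit 15) (nat_lit 5) (nat_lit 97) (nat_lit 251) (nat_lit 252)))))) (PT.nd (nat_lit 11934) (PT.nd (nat_lit 156) (PT.nd (nat_lit 78) (PT.lf (nat_lit 1292) (nat_lit 3) (nat_lit 17) (nat_lit 4) (nat_lit 98) (nat_lit 251) (nat_lit 251)) (PT.lf (nat_lit 1368) (nat_lit 6) (nat_lit 18) (nat_lit 4) (nat_lit 99) (nat_lit 251) (nat_lit 250))) (PT.nd (nat_lit 11622) (PT.lf (nat_lit 1444) (nat_lit 6) (nat_lit 19) (nat_lit 4) (nat_lit 100) (nat_lit 251) (nat_lit 249)) (PT.nd (nat_lit 78) (PT.lf (nat_lit 1444) (nat_lit 6) (nat_lit 19) (nat_lit 2) (nat_lit 249) (nat_lit 251) (nat_lit 100)) (PT.lf (nat_lit 1368) (nat_lit 6) (nat_lit 18) (nat_lit 2) (nat_lit 250) (nat_lit 251) (nat_lit 99))))) (PT.nd (nat_lit 156) (PT.nd (nat_lit 78) (PT.lf (nat_lit 1292) (nat_lit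 3) (nat_lit 17) (nat_lit 0) (nat_lit 251) (nat_lit 251) (nat_lit 98)) (PT.lf (nat_lit 1140) (nat_lit 6) (nat_lit 15) (nat_lit 0) (nat_lit 252) (nat_lit 251) (nat_lit 97))) (PT.nd (nat_lit 50076) (PT.lf (nat_lit 988) (nat_lit 6) (nat_lit 13) (nat_lit 0) (nat_lit 253) (nat_lit 251) (nat_lit 96)) (PT.nd (nat_lit 78) (PT.lf (nat_lit 760) (nat_lit 6) (nat_lit 10) (nat_lit 5) (nat_lit 94) (nat_lit 252) (nat_lit 254)) (PT.lf (nat_lit 912) (nat_lit 6) (nat_lit 12) (nat_lit 5) (nat_lit 95) (nat_lit 252) (nat_lit 253))))))))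
noncomputable def pc63 : PT := (PT.nd (nat_lit 124800) (PT.nd (nat_lit 62322) (PT.nd (nat_lit 12090) (PT.nd (nat_lit 156) (PT.nd (nat_lit 78) (PT.lf (nat_lit 1064) (nat_lit 3) (nat_lit 14) (nat_lit 4) (nat_lit 96) (nat_lit 252) (nat_lit 252)) (PT.lf (nat_lit 1140) (nat_lit 6) (nat_lit 15) (nat_lit 4) (nat_lit 97) (nat_lit 252) (nat_lit 251))) (PT.nd (nat_lit 11856) (PT.lf (nat_lit 1216) (nat_lit 6) (nat_lit 16) (nat_lit 4) (nat_lit 98) (nat_lit 252) (nat_lit 250)) (PT.lf (nat_lit 1216) (nat_lit 6) (nat_lit 16) (nat_lit 2) (nat_lit 250) (nat_lit 252) (nat_lit 98)))) (PT.nd (nat_lit 156) (PT.nd (nat_lit 78) (PT.lf (nat_lit 1140) (nat_lit 6) (nat_lit 15) (nat_lit 2) (nat_lit 251) (nat_lit 252) (nat_lit 97)) (PT.lf (nat_lit 1064) (nat_lit 3) (nat_lit 14) (nat_lit 0) (nat_lit 252) (nat_lit 252) (nat_lit 96))) (PT.nd (nat_lit 78) (PT.lf (nat_lit 912) (nat_lit 6) (nat_lit 12) (nat_lit 0) (nat_lit 253) (nat_lit 252) (nat_lit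 95)) (PT.nd (nat_lit 49920) (PT.lf (nat_lit 760) (nat_lit 6) (nat_lit 10) (nat_lit 0) (nat_lit 254) (nat_lit 252) (nat_lit 94)) (PT.lf (nat_lit 684) (nat_lit 6) (nat_lit 9) (nat_lit 5) (nat_lit 93) (nat_lit 253) (nat_lit 254)))))) (PT.nd (nat_lit 12402) (PT.nd (nat_lit 156) (PT.nd (nat_lit 78) (PT.lf (nat_lit 836) (nat_lit 3) (nat_lit 11) (nat_lit 4) (nat_lit 94) (nat_lit 253) (nat_lit 253)) (PT.lf (nat_lit 912) (nat_lit 6) (nat_lit 12) (nat_lit 4) (nat_lit 95) (nat_lit 253) (nat_lit 252))) (PT.nd (nat_lit 12090) (PT.lf (nat_lit 988) (nat_lit 6) (nat_lit 13) (nat_lit 4) (nat_lit 96) (nat_lit 253) (nat_lit 251)) (PT.nd (nat_lit 78) (PT.lf (nat_lit 988) (nat_lit 6) (nat_lit 13) (nat_lit 2) (nat_lit 251) (nat_lit 253) (nat_lit 96)) (PT.lf (nat_lit 912) (nat_lit 6) (nat_lit 12) (nat_lit 2) (nat_lit 252) (nat_lit 253) (nat_lit 95))))) (PT.nd (nat_lit 49842) (PT.nd (nat_lit 78) (PT.lf (nat_lit 836) (nat_lit 3) (nat_lit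 11) (nat_lit 0) (nat_lit 253) (nat_lit 253) (nat_lit 94)) (PT.lf (nat_lit 684) (nat_lit 6) (nat_lit 9) (nat_lit 0) (nat_lit 254) (nat_lit 253) (nat_lit 93))) (PT.nd (nat_lit 78) (PT.lf (nat_lit 456) (nat_lit 6) (nat_lit 6) (nat_lit 5) (nat_lit 91) (nat_lit 254) (nat_lit 255)) (PT.nd (nat_lit 78) (PT.lf (nat_lit 608) (nat_lit 3) (nat_lit 8) (nat_lit 4) (nat_lit 92) (nat_lit 254) (nat_lit 254)) (PT.lf (nat_lit 684) (nat_lit 6) (nat_lit 9) (nat_lit 4) (nat_lit 93) (nat_lit 254) (nat_lit 253))))))) (PT.nd (nat_lit 75036) (PT.nd (nat_lit 12558) (PT.nd (nat_lit 12402) (PT.nd (nat_lit 12324) (PT.lf (nat_lit 760) (nat_lit 6) (nat_lit 10) (nat_lit 4) (nat_lit 94) (nat_lit 254) (nat_lit 252)) (PT.lf (nat_lit 760) (nat_lit 6) (nat_lit 10) (nat_lit 2) (nat_lit 252) (nat_lit 254) (nat_lit 94))) (PT.nd (nat_lit 78) (PT.lf (nat_lit 684) (nat_lit 6) (nat_lit 9) (nat_lit 2) (nat_lit 253) (nat_lit 254) (nat_lit 93)) (PT.lf (nat_lit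 608) (nat_lit 3) (nat_lit 8) (nat_lit 0) (nat_lit 254) (nat_lit 254) (nat_lit 92)))) (PT.nd (nat_lit 49608) (PT.nd (nat_lit 49530) (PT.lf (nat_lit 456) (nat_lit 6) (nat_lit 6) (nat_lit 0) (nat_lit 255) (nat_lit 254) (nat_lit 91)) (PT.lf (nat_lit 228) (nat_lit 6) (nat_lit 3) (nat_lit 5) (nat_lit 89) (nat_lit 255) (nat_lit 256))) (PT.nd (nat_lit 78) (PT.lf (nat_lit 380) (nat_lit 3) (nat_lit 5) (nat_lit 4) (nat_lit 90) (nat_lit 255) (nat_lit 255)) (PT.nd (nat_lit 12714) (PT.lf (nat_lit 456) (nat_lit 6) (nat_lit 6) (nat_lit 4) (nat_lit 91) (nat_lit 255) (nat_lit 254)) (PT.lf (nat_lit 456) (nat_lit 6) (nat_lit 6) (nat_lit 2) (nat_lit 254) (nat_lit 255) (nat_lit 91)))))) (PT.nd (nat_lit 125190) (PT.nd (nat_lit 49530) (PT.nd (nat_lit 78) (PT.lf (nat_lit 380) (nat_lit 3) (nat_lit 5) (nat_lit 0) (nat_lit 255) (nat_lit 255) (nat_lit 90)) (PT.lf (nat_lit 228) (nat_lit 6) (nat_lit 3) (nat_lit 0) (nat_lit 256) (nat_lit 255)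 (nat_lit 89))) (PT.nd (nat_lit 12948) (PT.lf (nat_lit 228) (nat_lit 6) (nat_lit 3) (nat_lit 4) (nat_lit 89) (nat_lit 256) (nat_lit 255)) (PT.nd (nat_lit 49218) (PT.lf (nat_lit 228) (nat_lit 6) (nat_lit 3) (nat_lit 2) (nat_lit 255) (nat_lit 256) (nat_lit 89)) (PT.lf (nat_lit 152) (nat_lit 6) (nat_lit 2) (nat_lit 5) (nat_lit 85) (nat_lit 257) (nat_lit 258))))) (PT.nd (nat_lit 48984) (PT.nd (nat_lit 48906) (PT.lf (nat_lit 152) (nat_lit 6) (nat_lit 2) (nat_lit 0) (nat_lit 258) (nat_lit 257) (nat_lit 85)) (PT.lf (nat_lit 76) (nat_lit 3) (nat_lit 1) (nat_lit 4) (nat_lit 84) (nat_lit 258) (nat_lit 258))) (PT.nd (nat_lit 13416) (PT.lf (nat_lit 152) (nat_lit 6) (nat_lit 2) (nat_lit 4) (nat_lit 85) (nat_lit 258) (nat_lit 257)) (PT.nd (nat_lit 78) (PT.lf (nat_lit 152) (nat_lit 6) (nat_lit 2) (nat_lit 2) (nat_lit 257) (nat_lit 258) (nat_lit 85)) (PT.lf (nat_lit 76) (nat_lit 3) (nat_lit 1) (nat_lit 0) (nat_lit 258) (nat_lit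 258) (nat_lit 84))))))))
noncomputable def xc0 : XT := (XT.nd (nat_lit 249756) (nat_lit 0) (nat_lit 0) (XT.nd (nat_lit 186966) (nat_lit 0) (nat_lit 0) (XT.nd (nat_lit 124566) (nat_lit 0) (nat_lit 0) (XT.nd (nat_lit 62322) (nat_lit 0) (nat_lit 0) (XT.nd (nat_lit 78) (nat_lit 0) (nat_lit 0) (XT.lf (nat_lit 0) (nat_lit 4261942177) (nat_lit 152) (nat_lit 51408044840) (nat_lit 0) (nat_lit 4195503903) (nat_lit 6) (nat_lit 5) (nat_lit 8) (nat_lit 4) (nat_lit 6) (nat_lit 4) (nat_lit 553) (nat_lit 324) (nat_lit 323)) (XT.nd (nat_lit 62166) (nat_lit 0) (nat_lit 152) (XT.lf (nat_lit 0) (nat_lit 12577299054) (nat_lit 152) (nat_lit 36390084879) (nat_lit 0) (nat_lit 12446357601) (nat_lit 6) (nat_lit 5) (nat_lit 8) (nat_lit 4) (nat_lit 6) (nat_lit 4) (nat_lit 554) (nat_lit 324) (nat_lit 322)) (XT.lf (nat_lit 0) (nat_lit 7887187331) (nat_lit 76) (nat_lit 9928592299) (nat_lit 76) (nat_lit 9928592299) (nat_lit 8) (nat_lit 4) (nat_lit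 9) (nat_lit 5) (nat_lit 9) (nat_lit 4) (nat_lit 550) (nat_lit 325) (nat_lit 325)))) (XT.nd (nat_lit 156) (nat_lit 152) (nat_lit 0) (XT.nd (nat_lit 78) (nat_lit 0) (nat_lit 0) (XT.lf (nat_lit 0) (nat_lit 32962303828) (nat_lit 76) (nat_lit 12005672729) (nat_lit 76) (nat_lit 11935188364) (nat_lit 8) (nat_lit 4) (nat_lit 9) (nat_lit 5) (nat_lit 9) (nat_lit 4) (nat_lit 551) (nat_lit 325) (nat_lit 324)) (XT.lf (nat_lit 0) (nat_lit 50342904592) (nat_lit 76) (nat_lit 4080432520) (nat_lit 76) (nat_lit 3941516732) (nat_lit 8) (nat_lit 4) (nat_lit 9) (nat_lit 5) (nat_lit 9) (nat_lit 4) (nat_lit 552) (nat_lit 325) (nat_lit 323))) (XT.nd (nat_lit 78) (nat_lit 0) (nat_lit 0) (XT.lf (nat_lit 0) (nat_lit 4167707017) (nat_lit 152) (nat_lit 51734330472) (nat_lit 0) (nat_lit 3968334142) (nat_lit 6) (nat_lit 5) (nat_lit 8) (nat_lit 4) (nat_lit 6) (nat_lit 4) (nat_lit 553) (nat_lit 325) (nat_lit 322)) (XT.lf (nat_lit 0) (nat_lit 12405266495)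 (nat_lit 152) (nat_lit 36872420839) (nat_lit 0) (nat_lit 12143269174) (nat_lit 6) (nat_lit 5) (nat_lit 8) (nat_lit 4) (nat_lit 6) (nat_lit 4) (nat_lit 554) (nat_lit 325) (nat_lit 321))))) (XT.nd (nat_lit 312) (nat_lit 152) (nat_lit 0) (XT.nd (nat_lit 156) (nat_lit 76) (nat_lit 0) (XT.nd (nat_lit 78) (nat_lit 0) (nat_lit 0) (XT.lf (nat_lit 0) (nat_lit 8806021243) (nat_lit 152) (nat_lit 8782511928) (nat_lit 0) (nat_lit 8806021243) (nat_lit 9) (nat_lit 5) (nat_lit 11) (nat_lit 4) (nat_lit 9) (nat_lit 4) (nat_lit 548) (nat_lit 326) (nat_lit 326)) (XT.lf (nat_lit 0) (nat_lit 26490406334) (nat_lit 152) (nat_lit 1211784589) (nat_lit 0) (nat_lit 26417807438) (nat_lit 9) (nat_lit 5) (nat_lit 11) (nat_lit 4) (nat_lit 9) (nat_lit 4) (nat_lit 549) (nat_lit 326) (nat_lit 325))) (XT.nd (nat_lit 78) (nat_lit 0) (nat_lit 0) (XT.lf (nat_lit 0) (nat_lit 15610505076) (nat_lit 76) (nat_lit 20011887696) (nat_lit 76) (nat_lit 19868804435)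 (nat_lit 8) (nat_lit 4) (nat_lit 9) (nat_lit 5) (nat_lit 9) (nat_lit 4) (nat_lit 550) (nat_lit 326) (nat_lit 324)) (XT.lf (nat_lit 0) (nat_lit 32639337553) (nat_lit 76) (nat_lit 12240088642) (nat_lit 76) (nat_lit 12028573959) (nat_lit 8) (nat_lit 4) (nat_lit 9) (nat_lit 5) (nat_lit 9) (nat_lit 4) (nat_lit 551) (nat_lit 326) (nat_lit 323)))) (XT.nd (nat_lit 156) (nat_lit 0) (nat_lit 0) (XT.nd (nat_lit 78) (nat_lit 152) (nat_lit 0) (XT.lf (nat_lit 0) (nat_lit 49865475515) (nat_lit 76) (nat_lit 4392239518) (nat_lit 76) (nat_lit 4114286560) (nat_lit 8) (nat_lit 4) (nat_lit 9) (nat_lit 5) (nat_lit 9) (nat_lit 4) (nat_lit 552) (nat_lit 326) (nat_lit 322)) (XT.lf (nat_lit 0) (nat_lit 3912716082) (nat_lit 152) (nat_lit 52387186840) (nat_lit 0) (nat_lit 3580234396) (nat_lit 6) (nat_lit 5) (nat_lit 8) (nat_lit 4) (nat_lit 6) (nat_lit 4) (nat_lit 553) (nat_lit 326) (nat_lit 321))) (XT.nd (nat_lit 61854) (nat_lit 0) (nat_lit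 228) (XT.lf (nat_lit 0) (nat_lit 12074744104) (nat_lit 152) (nat_lit 37676782380) (nat_lit 0) (nat_lit 11681461985) (nat_lit 6) (nat_lit 5) (nat_lit 8) (nat_lit 4) (nat_lit 6) (nat_lit 4) (nat_lit 554) (nat_lit 326) (nat_lit 320)) (XT.lf (nat_lit 0) (nat_lit 147456274) (nat_lit 152) (nat_lit 24832385838) (nat_lit 0) (nat_lit 147456274) (nat_lit 9) (nat_lit 5) (nat_lit 11) (nat_lit 4) (nat_lit 9) (nat_lit 4) (nat_lit 546) (nat_lit 327) (nat_lit 327)))))) (XT.nd (nat_lit 546) (nat_lit 0) (nat_lit 0) (XT.nd (nat_lit 234) (nat_lit 228) (nat_lit 0) (XT.nd (nat_lit 78) (nat_lit 0) (nat_lit 0) (XT.lf (nat_lit 0) (nat_lit 8904262576) (nat_lit 152) (nat_lit 33768119144) (nat_lit 0) (nat_lit 8829485713) (nat_lit 9) (nat_lit 5) (nat_lit 11) (nat_lit 4) (nat_lit 9) (nat_lit 4) (nat_lit 547) (nat_lit 327) (nat_lit 326)) (XT.nd (nat_lit 78) (nat_lit 0) (nat_lit 0) (XT.lf (nat_lit 0) (nat_lit 17604223473) (nat_lit 152) (nat_lit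 17730515915) (nat_lit 0) (nat_lit 17456847714) (nat_lit 9) (nat_lit 5) (nat_lit 11) (nat_lit 4) (nat_lit 9) (nat_lit 4) (nat_lit 548) (nat_lit 327) (nat_lit 325)) (XT.lf (nat_lit 0) (nat_lit 26402397148) (nat_lit 152) (nat_lit 1537948549) (nat_lit 0) (nat_lit 26184537024) (nat_lit 9) (nat_lit 5) (nat_lit 11) (nat_lit 4) (nat_lit 9) (nat_lit 4) (nat_lit 549) (nat_lit 327) (nat_lit 324)))) (XT.nd (nat_lit 156) (nat_lit 152) (nat_lit 0) (XT.nd (nat_lit 78) (nat_lit 0) (nat_lit 0) (XT.lf (nat_lit 0) (nat_lit 15118753126) (nat_lit 76) (nat_lit 20333048904) (nat_lit 76) (nat_lit 20046757358) (nat_lit 8) (nat_lit 4) (nat_lit 9) (nat_lit 5) (nat_lit 9) (nat_lit 4) (nat_lit 550) (nat_lit 327) (nat_lit 323)) (XT.lf (nat_lit 0) (nat_lit 31993122801) (nat_lit 76) (nat_lit 12638640934) (nat_lit 76) (nat_lit 12285911114) (nat_lit 8) (nat_lit 4) (nat_lit 9) (nat_lit 5) (nat_lit 9) (nat_lit 4) (nat_lit 551) (nat_lit 327) (nat_lit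 322))) (XT.nd (nat_lit 78) (nat_lit 152) (nat_lit 0) (XT.lf (nat_lit 0) (nat_lit 49069296877) (nat_lit 76) (nat_lit 4865928784) (nat_lit 76) (nat_lit 4448695785) (nat_lit 8) (nat_lit 4) (nat_lit 9) (nat_lit 5) (nat_lit 9) (nat_lit 4) (nat_lit 552) (nat_lit 327) (nat_lit 321)) (XT.lf (nat_lit 0) (nat_lit 3496746564) (nat_lit 152) (nat_lit 53367184400) (nat_lit 0) (nat_lit 3030865549) (nat_lit 6) (nat_lit 5) (nat_lit 8) (nat_lit 4) (nat_lit 6) (nat_lit 4) (nat_lit 553) (nat_lit 327) (nat_lit 320))))) (XT.nd (nat_lit 61932) (nat_lit 0) (nat_lit 152) (XT.nd (nat_lit 61776) (nat_lit 0) (nat_lit 228) (XT.nd (nat_lit 61698) (nat_lit 0) (nat_lit 380) (XT.lf (nat_lit 0) (nat_lit 11585443075) (nat_lit 152) (nat_lit 38803872342) (nat_lit 0) (nat_lit 11060532514) (nat_lit 6) (nat_lit 5) (nat_lit 8) (nat_lit 4) (nat_lit 6) (nat_lit 4) (nat_lit 554) (nat_lit 327) (nat_lit 319)) (XT.lf (nat_lit 0) (nat_lit 7575257936) (nat_lit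 76) (nat_lit 8177696253) (nat_lit 76) (nat_lit 8177696253) (nat_lit 11) (nat_lit 4) (nat_lit 12) (nat_lit 5) (nat_lit 12) (nat_lit 4) (nat_lit 544) (nat_lit 328) (nat_lit 328))) (XT.nd (nat_lit 78) (nat_lit 152) (nat_lit 0) (XT.lf (nat_lit 0) (nat_lit 32814152414) (nat_lit 76) (nat_lit 8152182687) (nat_lit 76) (nat_lit 8072851913) (nat_lit 11) (nat_lit 4) (nat_lit 12) (nat_lit 5) (nat_lit 12) (nat_lit 4) (nat_lit 545) (nat_lit 328) (nat_lit 327)) (XT.lf (nat_lit 0) (nat_lit 286858965) (nat_lit 152) (nat_lit 49835228496) (nat_lit 0) (nat_lit 135061933) (nat_lit 9) (nat_lit 5) (nat_lit 11) (nat_lit 4) (nat_lit 9) (nat_lit 4) (nat_lit 546) (nat_lit 328) (nat_lit 326)))) (XT.nd (nat_lit 156) (nat_lit 76) (nat_lit 0) (XT.nd (nat_lit 78) (nat_lit 0) (nat_lit 0) (XT.lf (nat_lit 0) (nat_lit 8813613115) (nat_lit 152) (nat_lit 34104068023) (nat_lit 0) (nat_lit 8589217187) (nat_lit 9) (nat_lit 5) (nat_lit 11) (nat_lit 4) (nat_lit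 9) (nat_lit 4) (nat_lit 547) (nat_lit 328) (nat_lit 325)) (XT.lf (nat_lit 0) (nat_lit 17433383840) (nat_lit 152) (nat_lit 18227136695) (nat_lit 0) (nat_lit 17138503547) (nat_lit 9) (nat_lit 5) (nat_lit 11) (nat_lit 4) (nat_lit 9) (nat_lit 4) (nat_lit 548) (nat_lit 328) (nat_lit 324))) (XT.nd (nat_lit 78) (nat_lit 76) (nat_lit 0) (XT.lf (nat_lit 0) (nat_lit 26153702980) (nat_lit 152) (nat_lit 2190561467) (nat_lit 0) (nat_lit 25790391265) (nat_lit 9) (nat_lit 5) (nat_lit 11) (nat_lit 4) (nat_lit 9) (nat_lit 4) (nat_lit 549) (nat_lit 328) (nat_lit 323)) (XT.lf (nat_lit 0) (nat_lit 14298689129) (nat_lit 76) (nat_lit 20820948849) (nat_lit 76) (nat_lit 20391198859) (nat_lit 8) (nat_lit 4) (nat_lit 9) (nat_lit 5) (nat_lit 9) (nat_lit 4) (nat_lit 550) (nat_lit 328) (nat_lit 322))))))) (XT.nd (nat_lit 62634) (nat_lit 0) (nat_lit 0) (XT.nd (nat_lit 62010) (nat_lit 0) (nat_lit 152) (XT.nd (nat_lit 234) (nat_lit 0) (nat_lit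 0) (XT.nd (nat_lit 78) (nat_lit 152) (nat_lit 0) (XT.lf (nat_lit 0) (nat_lit 31023094917) (nat_lit 76) (nat_lit 13201677854) (nat_lit 76) (nat_lit 12707424685) (nat_lit 8) (nat_lit 4) (nat_lit 9) (nat_lit 5) (nat_lit 9) (nat_lit 4) (nat_lit 551) (nat_lit 328) (nat_lit 321)) (XT.nd (nat_lit 78) (nat_lit 152) (nat_lit 0) (XT.lf (nat_lit 0) (nat_lit 47953672987) (nat_lit 76) (nat_lit 5501914223) (nat_lit 76) (nat_lit 4945036609) (nat_lit 8) (nat_lit 4) (nat_lit 9) (nat_lit 5) (nat_lit 9) (nat_lit 4) (nat_lit 552) (nat_lit 328) (nat_lit 320)) (XT.lf (nat_lit 0) (nat_lit 2919434994) (nat_lit 152) (nat_lit 54675179462) (nat_lit 0) (nat_lit 2319747570) (nat_lit 6) (nat_lit 5) (nat_lit 8) (nat_lit 4) (nat_lit 6) (nat_lit 4) (nat_lit 553) (nat_lit 328) (nat_lit 319)))) (XT.nd (nat_lit 61620) (nat_lit 0) (nat_lit 380) (XT.nd (nat_lit 61542) (nat_lit 0) (nat_lit 456) (XT.lf (nat_lit 0) (nat_lit 10936935864) (nat_lit 152) (nat_lit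 40254675560) (nat_lit 0) (nat_lit 10279938202) (nat_lit 6) (nat_lit 5) (nat_lit 8) (nat_lit 4) (nat_lit 6) (nat_lit 4) (nat_lit 554) (nat_lit 328) (nat_lit 318)) (XT.lf (nat_lit 0) (nat_lit 6630444057) (nat_lit 152) (nat_lit 9546206044) (nat_lit 0) (nat_lit 6630444057) (nat_lit 12) (nat_lit 5) (nat_lit 14) (nat_lit 4) (nat_lit 12) (nat_lit 4) (nat_lit 542) (nat_lit 329) (nat_lit 329))) (XT.nd (nat_lit 78) (nat_lit 76) (nat_lit 0) (XT.lf (nat_lit 0) (nat_lit 22259034376) (nat_lit 152) (nat_lit 2285676047) (nat_lit 0) (nat_lit 22177323679) (nat_lit 12) (nat_lit 5) (nat_lit 14) (nat_lit 4) (nat_lit 12) (nat_lit 4) (nat_lit 543) (nat_lit 329) (nat_lit 328)) (XT.lf (nat_lit 0) (nat_lit 14981798998) (nat_lit 76) (nat_lit 16521536154) (nat_lit 76) (nat_lit 16360494683) (nat_lit 11) (nat_lit 4) (nat_lit 12) (nat_lit 5) (nat_lit 12) (nat_lit 4) (nat_lit 544) (nat_lit 329) (nat_lit 327))))) (XT.nd (nat_lit 312) (nat_lit 76)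 (nat_lit 0) (XT.nd (nat_lit 156) (nat_lit 76) (nat_lit 0) (XT.nd (nat_lit 78) (nat_lit 76) (nat_lit 0) (XT.lf (nat_lit 0) (nat_lit 32481632751) (nat_lit 76) (nat_lit 8400300072) (nat_lit 76) (nat_lit 8162238432) (nat_lit 11) (nat_lit 4) (nat_lit 12) (nat_lit 5) (nat_lit 12) (nat_lit 4) (nat_lit 545) (nat_lit 329) (nat_lit 326)) (XT.lf (nat_lit 0) (nat_lit 113591019) (nat_lit 152) (nat_lit 82248733) (nat_lit 76) (nat_lit 50068888827) (nat_lit 10) (nat_lit 5) (nat_lit 12) (nat_lit 5) (nat_lit 11) (nat_lit 4) (nat_lit 546) (nat_lit 329) (nat_lit 325))) (XT.nd (nat_lit 78) (nat_lit 0) (nat_lit 0) (XT.lf (nat_lit 0) (nat_lit 8557458121) (nat_lit 152) (nat_lit 34776259329) (nat_lit 0) (nat_lit 8183247054) (nat_lit 9) (nat_lit 5) (nat_lit 11) (nat_lit 4) (nat_lit 9) (nat_lit 4) (nat_lit 547) (nat_lit 329) (nat_lit 324)) (XT.lf (nat_lit 0) (nat_lit 17099374311) (nat_lit 152) (nat_lit 19055320139) (nat_lit 0) (nat_lit 16656731822)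 (nat_lit 9) (nat_lit 5) (nat_lit 11) (nat_lit 4) (nat_lit 9) (nat_lit 4) (nat_lit 548) (nat_lit 329) (nat_lit 323)))) (XT.nd (nat_lit 156) (nat_lit 0) (nat_lit 0) (XT.nd (nat_lit 78) (nat_lit 76) (nat_lit 0) (XT.lf (nat_lit 0) (nat_lit 25744106523) (nat_lit 152) (nat_lit 3170193588) (nat_lit 0) (nat_lit 25235025760) (nat_lit 9) (nat_lit 5) (nat_lit 11) (nat_lit 4) (nat_lit 9) (nat_lit 4) (nat_lit 549) (nat_lit 329) (nat_lit 322)) (XT.lf (nat_lit 0) (nat_lit 13149596522) (nat_lit 76) (nat_lit 21476013851) (nat_lit 76) (nat_lit 20902429908) (nat_lit 8) (nat_lit 4) (nat_lit 9) (nat_lit 5) (nat_lit 9) (nat_lit 4) (nat_lit 550) (nat_lit 329) (nat_lit 321))) (XT.nd (nat_lit 78) (nat_lit 0) (nat_lit 0) (XT.lf (nat_lit 0) (nat_lit 29728406304) (nat_lit 76) (nat_lit 13929691375) (nat_lit 76) (nat_lit 13293482987) (nat_lit 8) (nat_lit 4) (nat_lit 9) (nat_lit 5) (nat_lit 9) (nat_lit 4) (nat_lit 551) (nat_lit 329) (nat_lit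 320)) (XT.lf (nat_lit 0) (nat_lit 46517629029) (nat_lit 76) (nat_lit 6300751549) (nat_lit 76) (nat_lit 5603742729) (nat_lit 8) (nat_lit 4) (nat_lit 9) (nat_lit 5) (nat_lit 9) (nat_lit 4) (nat_lit 552) (nat_lit 329) (nat_lit 319)))))) (XT.nd (nat_lit 61854) (nat_lit 0) (nat_lit 152) (XT.nd (nat_lit 61542) (nat_lit 0) (nat_lit 380) (XT.nd (nat_lit 78) (nat_lit 0) (nat_lit 0) (XT.lf (nat_lit 0) (nat_lit 2180276925) (nat_lit 152) (nat_lit 56312314934) (nat_lit 0) (nat_lit 1446259094) (nat_lit 6) (nat_lit 5) (nat_lit 8) (nat_lit 4) (nat_lit 6) (nat_lit 4) (nat_lit 553) (nat_lit 329) (nat_lit 318)) (XT.nd (nat_lit 61386) (nat_lit 0) (nat_lit 608) (XT.lf (nat_lit 0) (nat_lit 10128655814) (nat_lit 152) (nat_lit 42030459728) (nat_lit 0) (nat_lit 9338996974) (nat_lit 6) (nat_lit 5) (nat_lit 8) (nat_lit 4) (nat_lit 6) (nat_lit 4) (nat_lit 554) (nat_lit 329) (nat_lit 317)) (XT.lf (nat_lit 0) (nat_lit 17504483944) (nat_lit 76)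 (nat_lit 2123224333) (nat_lit 76) (nat_lit 2123224333) (nat_lit 14) (nat_lit 4) (nat_lit 15) (nat_lit 5) (nat_lit 15) (nat_lit 4) (nat_lit 540) (nat_lit 330) (nat_lit 330)))) (XT.nd (nat_lit 156) (nat_lit 76) (nat_lit 0) (XT.nd (nat_lit 78) (nat_lit 0) (nat_lit 0) (XT.lf (nat_lit 0) (nat_lit 4441181711) (nat_lit 152) (nat_lit 35745443481) (nat_lit 0) (nat_lit 4357019693) (nat_lit 12) (nat_lit 5) (nat_lit 14) (nat_lit 4) (nat_lit 12) (nat_lit 4) (nat_lit 541) (nat_lit 330) (nat_lit 329)) (XT.lf (nat_lit 0) (nat_lit 13259908156) (nat_lit 152) (nat_lit 19262799425) (nat_lit 0) (nat_lit 13094035441) (nat_lit 12) (nat_lit 5) (nat_lit 14) (nat_lit 4) (nat_lit 12) (nat_lit 4) (nat_lit 542) (nat_lit 330) (nat_lit 328))) (XT.nd (nat_lit 78) (nat_lit 76) (nat_lit 0) (XT.lf (nat_lit 0) (nat_lit 22175392304) (nat_lit 152) (nat_lit 2621487983) (nat_lit 0) (nat_lit 21930188815) (nat_lit 12) (nat_lit 5) (nat_lit 14) (nat_lit 4)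 (nat_lit 12) (nat_lit 4) (nat_lit 543) (nat_lit 330) (nat_lit 327)) (XT.lf (nat_lit 0) (nat_lit 14475500956) (nat_lit 76) (nat_lit 16859070798) (nat_lit 76) (nat_lit 16536847140) (nat_lit 11) (nat_lit 4) (nat_lit 12) (nat_lit 5) (nat_lit 12) (nat_lit 4) (nat_lit 544) (nat_lit 330) (nat_lit 326))))) (XT.nd (nat_lit 312) (nat_lit 76) (nat_lit 0) (XT.nd (nat_lit 156) (nat_lit 152) (nat_lit 0) (XT.nd (nat_lit 78) (nat_lit 0) (nat_lit 0) (XT.lf (nat_lit 0) (nat_lit 31816302875) (nat_lit 76) (nat_lit 8817420870) (nat_lit 76) (nat_lit 8420420349) (nat_lit 11) (nat_lit 4) (nat_lit 12) (nat_lit 5) (nat_lit 12) (nat_lit 4) (nat_lit 545) (nat_lit 330) (nat_lit 325)) (XT.lf (nat_lit 0) (nat_lit 49363897177) (nat_lit 76) (nat_lit 691375707) (nat_lit 76) (nat_lit 221776290) (nat_lit 11) (nat_lit 4) (nat_lit 12) (nat_lit 5) (nat_lit 12) (nat_lit 4) (nat_lit 546) (nat_lit 330) (nat_lit 324))) (XT.nd (nat_lit 78) (nat_lit 0) (nat_lit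 0) (XT.lf (nat_lit 0) (nat_lit 8135573771) (nat_lit 152) (nat_lit 35785280413) (nat_lit 0) (nat_lit 7611220584) (nat_lit 9) (nat_lit 5) (nat_lit 11) (nat_lit 4) (nat_lit 9) (nat_lit 4) (nat_lit 547) (nat_lit 330) (nat_lit 323)) (XT.lf (nat_lit 0) (nat_lit 16601903033) (nat_lit 152) (nat_lit 20215789900) (nat_lit 0) (nat_lit 16011111572) (nat_lit 9) (nat_lit 5) (nat_lit 11) (nat_lit 4) (nat_lit 9) (nat_lit 4) (nat_lit 548) (nat_lit 330) (nat_lit 322)))) (XT.nd (nat_lit 156) (nat_lit 0) (nat_lit 0) (XT.nd (nat_lit 78) (nat_lit 76) (nat_lit 0) (XT.lf (nat_lit 0) (nat_lit 25173249878) (nat_lit 152) (nat_lit 4477700899) (nat_lit 0) (nat_lit 24517955239) (nat_lit 9) (nat_lit 5) (nat_lit 11) (nat_lit 4) (nat_lit 9) (nat_lit 4) (nat_lit 549) (nat_lit 330) (nat_lit 321)) (XT.lf (nat_lit 0) (nat_lit 11670471245) (nat_lit 76) (nat_lit 22298816297) (nat_lit 76) (nat_lit 21580897212) (nat_lit 8) (nat_lit 4) (nat_lit 9) (nat_lit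 5) (nat_lit 9) (nat_lit 4) (nat_lit 550) (nat_lit 330) (nat_lit 320))) (XT.nd (nat_lit 78) (nat_lit 0) (nat_lit 0) (XT.lf (nat_lit 0) (nat_lit 28107925682) (nat_lit 76) (nat_lit 14823317626) (nat_lit 76) (nat_lit 14044598109) (nat_lit 8) (nat_lit 4) (nat_lit 9) (nat_lit 5) (nat_lit 9) (nat_lit 4) (nat_lit 551) (nat_lit 330) (nat_lit 319)) (XT.lf (nat_lit 0) (nat_lit 44759910206) (nat_lit 76) (nat_lit 7263138776) (nat_lit 76) (nat_lit 6425389713) (nat_lit 8) (nat_lit 4) (nat_lit 9) (nat_lit 5) (nat_lit 9) (nat_lit 4) (nat_lit 552) (nat_lit 330) (nat_lit 318))))))))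
noncomputable def xc1 : XT := (XT.nd (nat_lit 124488) (nat_lit 0) (nat_lit 0) (XT.nd (nat_lit 62322) (nat_lit 0) (nat_lit 0) (XT.nd (nat_lit 61698) (nat_lit 0) (nat_lit 152) (XT.nd (nat_lit 61386) (nat_lit 0) (nat_lit 456) (XT.nd (nat_lit 78) (nat_lit 0) (nat_lit 0) (XT.lf (nat_lit 0) (nat_lit 1278626492) (nat_lit 152) (nat_lit 58280021322) (nat_lit 0) (nat_lit 409636878) (nat_lit 6) (nat_lit 5) (nat_lit 8) (nat_lit 4) (nat_lit 6) (nat_lit 4) (nat_lit 553) (nat_lit 330) (nat_lit 317)) (XT.nd (nat_lit 61230) (nat_lit 0) (nat_lit 684) (XT.lf (nat_lit 0) (nat_lit 9159896661) (nat_lit 152) (nat_lit 44132776500) (nat_lit 0) (nat_lit 8236886650) (nat_lit 6) (nat_lit 5) (nat_lit 8) (nat_lit 4) (nat_lit 6) (nat_lit 4) (nat_lit 554) (nat_lit 330) (nat_lit 316)) (XT.lf (nat_lit 0) (nat_lit 10196602005) (nat_lit 152) (nat_lit 362217251) (nat_lit 0) (nat_lit 10196602005) (nat_lit 15) (nat_lit 5) (nat_lit 17) (nat_lit 4) (nat_lit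 15) (nat_lit 4) (nat_lit 538) (nat_lit 331) (nat_lit 331)))) (XT.nd (nat_lit 156) (nat_lit 152) (nat_lit 0) (XT.nd (nat_lit 78) (nat_lit 0) (nat_lit 0) (XT.lf (nat_lit 0) (nat_lit 16956478372) (nat_lit 76) (nat_lit 12811637415) (nat_lit 76) (nat_lit 12722349930) (nat_lit 14) (nat_lit 4) (nat_lit 15) (nat_lit 5) (nat_lit 15) (nat_lit 4) (nat_lit 539) (nat_lit 331) (nat_lit 330)) (XT.lf (nat_lit 0) (nat_lit 34840326197) (nat_lit 76) (nat_lit 4420022265) (nat_lit 76) (nat_lit 4244047901) (nat_lit 14) (nat_lit 4) (nat_lit 15) (nat_lit 5) (nat_lit 15) (nat_lit 4) (nat_lit 540) (nat_lit 331) (nat_lit 329))) (XT.nd (nat_lit 78) (nat_lit 0) (nat_lit 0) (XT.lf (nat_lit 0) (nat_lit 4355030376) (nat_lit 152) (nat_lit 36091329776) (nat_lit 0) (nat_lit 4102470783) (nat_lit 12) (nat_lit 5) (nat_lit 14) (nat_lit 4) (nat_lit 12) (nat_lit 4) (nat_lit 541) (nat_lit 331) (nat_lit 328)) (XT.lf (nat_lit 0) (nat_lit 13091094708) (nat_lit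 152) (nat_lit 19774110319) (nat_lit 0) (nat_lit 12759204341) (nat_lit 12) (nat_lit 5) (nat_lit 14) (nat_lit 4) (nat_lit 12) (nat_lit 4) (nat_lit 542) (nat_lit 331) (nat_lit 327))))) (XT.nd (nat_lit 312) (nat_lit 228) (nat_lit 0) (XT.nd (nat_lit 156) (nat_lit 0) (nat_lit 0) (XT.nd (nat_lit 78) (nat_lit 76) (nat_lit 0) (XT.lf (nat_lit 0) (nat_lit 21926324377) (nat_lit 152) (nat_lit 3293405284) (nat_lit 0) (nat_lit 21517413841) (nat_lit 12) (nat_lit 5) (nat_lit 14) (nat_lit 4) (nat_lit 12) (nat_lit 4) (nat_lit 543) (nat_lit 331) (nat_lit 326)) (XT.lf (nat_lit 0) (nat_lit 13631179349) (nat_lit 76) (nat_lit 17368291373) (nat_lit 76) (nat_lit 16884603974) (nat_lit 11) (nat_lit 4) (nat_lit 12) (nat_lit 5) (nat_lit 12) (nat_lit 4) (nat_lit 544) (nat_lit 331) (nat_lit 325))) (XT.nd (nat_lit 78) (nat_lit 0) (nat_lit 0) (XT.lf (nat_lit 0) (nat_lit 30817581428) (nat_lit 76) (nat_lit 9403909554) (nat_lit 76) (nat_lit 8847623259)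 (nat_lit 11) (nat_lit 4) (nat_lit 12) (nat_lit 5) (nat_lit 12) (nat_lit 4) (nat_lit 545) (nat_lit 331) (nat_lit 324)) (XT.lf (nat_lit 0) (nat_lit 48215272974) (nat_lit 76) (nat_lit 1352881974) (nat_lit 76) (nat_lit 726111313) (nat_lit 11) (nat_lit 4) (nat_lit 12) (nat_lit 5) (nat_lit 12) (nat_lit 4) (nat_lit 546) (nat_lit 331) (nat_lit 323)))) (XT.nd (nat_lit 156) (nat_lit 76) (nat_lit 0) (XT.nd (nat_lit 78) (nat_lit 0) (nat_lit 0) (XT.lf (nat_lit 0) (nat_lit 7547591426) (nat_lit 152) (nat_lit 37132012944) (nat_lit 0) (nat_lit 6872637948) (nat_lit 9) (nat_lit 5) (nat_lit 11) (nat_lit 4) (nat_lit 9) (nat_lit 4) (nat_lit 547) (nat_lit 331) (nat_lit 322)) (XT.lf (nat_lit 0) (nat_lit 15940535322) (nat_lit 152) (nat_lit 21709559982) (nat_lit 0) (nat_lit 15201078664) (nat_lit 9) (nat_lit 5) (nat_lit 11) (nat_lit 4) (nat_lit 9) (nat_lit 4) (nat_lit 548) (nat_lit 331) (nat_lit 321))) (XT.nd (nat_lit 78) (nat_lit 76) (nat_lit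 0) (XT.lf (nat_lit 0) (nat_lit 24440634238) (nat_lit 152) (nat_lit 6114225885) (nat_lit 0) (nat_lit 23638553135) (nat_lit 9) (nat_lit 5) (nat_lit 11) (nat_lit 4) (nat_lit 9) (nat_lit 4) (nat_lit 549) (nat_lit 331) (nat_lit 320)) (XT.lf (nat_lit 0) (nat_lit 9860020858) (nat_lit 76) (nat_lit 23290075141) (nat_lit 76) (nat_lit 22427193605) (nat_lit 8) (nat_lit 4) (nat_lit 9) (nat_lit 5) (nat_lit 9) (nat_lit 4) (nat_lit 550) (nat_lit 331) (nat_lit 319)))))) (XT.nd (nat_lit 61542) (nat_lit 0) (nat_lit 380) (XT.nd (nat_lit 234) (nat_lit 76) (nat_lit 0) (XT.nd (nat_lit 78) (nat_lit 76) (nat_lit 0) (XT.lf (nat_lit 0) (nat_lit 26160237095) (nat_lit 76) (nat_lit 15883337446) (nat_lit 76) (nat_lit 14961426364) (nat_lit 8) (nat_lit 4) (nat_lit 9) (nat_lit 5) (nat_lit 9) (nat_lit 4) (nat_lit 551) (nat_lit 331) (nat_lit 318)) (XT.nd (nat_lit 78) (nat_lit 76) (nat_lit 0) (XT.lf (nat_lit 0) (nat_lit 42678980649) (nat_lit 76) (nat_lit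 8389916825) (nat_lit 76) (nat_lit 7410695505) (nat_lit 8) (nat_lit 4) (nat_lit 9) (nat_lit 5) (nat_lit 9) (nat_lit 4) (nat_lit 552) (nat_lit 331) (nat_lit 317)) (XT.lf (nat_lit 0) (nat_lit 227077413) (nat_lit 152) (nat_lit 573895179) (nat_lit 76) (nat_lit 59201314923) (nat_lit 7) (nat_lit 5) (nat_lit 9) (nat_lit 5) (nat_lit 8) (nat_lit 4) (nat_lit 553) (nat_lit 331) (nat_lit 316)))) (XT.nd (nat_lit 61152) (nat_lit 0) (nat_lit 684) (XT.nd (nat_lit 61074) (nat_lit 0) (nat_lit 684) (XT.lf (nat_lit 0) (nat_lit 8029811916) (nat_lit 152) (nat_lit 46563462853) (nat_lit 0) (nat_lit 6972644221) (nat_lit 6) (nat_lit 5) (nat_lit 8) (nat_lit 4) (nat_lit 6) (nat_lit 4) (nat_lit 554) (nat_lit 331) (nat_lit 315)) (XT.lf (nat_lit 0) (nat_lit 1221110868) (nat_lit 152) (nat_lit 17377526145) (nat_lit 0) (nat_lit 1221110868) (nat_lit 15) (nat_lit 5) (nat_lit 17) (nat_lit 4) (nat_lit 15) (nat_lit 4) (nat_lit 536) (nat_lit 332) (nat_lit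 332))) (XT.nd (nat_lit 78) (nat_lit 0) (nat_lit 0) (XT.lf (nat_lit 0) (nat_lit 11373611591) (nat_lit 152) (nat_lit 17904786999) (nat_lit 0) (nat_lit 11281645481) (nat_lit 15) (nat_lit 5) (nat_lit 17) (nat_lit 4) (nat_lit 15) (nat_lit 4) (nat_lit 537) (nat_lit 332) (nat_lit 331)) (XT.lf (nat_lit 0) (nat_lit 20399953593) (nat_lit 152) (nat_lit 894745913) (nat_lit 0) (nat_lit 20218699998) (nat_lit 15) (nat_lit 5) (nat_lit 17) (nat_lit 4) (nat_lit 15) (nat_lit 4) (nat_lit 538) (nat_lit 332) (nat_lit 330))))) (XT.nd (nat_lit 312) (nat_lit 76) (nat_lit 0) (XT.nd (nat_lit 156) (nat_lit 152) (nat_lit 0) (XT.nd (nat_lit 78) (nat_lit 0) (nat_lit 0) (XT.lf (nat_lit 0) (nat_lit 16614135738) (nat_lit 76) (nat_lit 13074704333) (nat_lit 76) (nat_lit 12806763860) (nat_lit 14) (nat_lit 4) (nat_lit 15) (nat_lit 5) (nat_lit 15) (nat_lit 4) (nat_lit 539) (nat_lit 332) (nat_lit 329)) (XT.lf (nat_lit 0) (nat_lit 34334253765) (nat_lit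 76) (nat_lit 4764920360) (nat_lit 76) (nat_lit 4412817869) (nat_lit 14) (nat_lit 4) (nat_lit 15) (nat_lit 5) (nat_lit 15) (nat_lit 4) (nat_lit 540) (nat_lit 332) (nat_lit 328))) (XT.nd (nat_lit 78) (nat_lit 0) (nat_lit 0) (XT.lf (nat_lit 0) (nat_lit 4098490412) (nat_lit 152) (nat_lit 36783404596) (nat_lit 0) (nat_lit 3677312559) (nat_lit 12) (nat_lit 5) (nat_lit 14) (nat_lit 4) (nat_lit 12) (nat_lit 4) (nat_lit 541) (nat_lit 332) (nat_lit 327)) (XT.lf (nat_lit 0) (nat_lit 12754300264) (nat_lit 152) (nat_lit 20626791546) (nat_lit 0) (nat_lit 12256102243) (nat_lit 12) (nat_lit 5) (nat_lit 14) (nat_lit 4) (nat_lit 12) (nat_lit 4) (nat_lit 542) (nat_lit 332) (nat_lit 326)))) (XT.nd (nat_lit 156) (nat_lit 0) (nat_lit 0) (XT.nd (nat_lit 78) (nat_lit 76) (nat_lit 0) (XT.lf (nat_lit 0) (nat_lit 21511612964) (nat_lit 152) (nat_lit 4302015062) (nat_lit 0) (nat_lit 20938638079) (nat_lit 12) (nat_lit 5) (nat_lit 14) (nat_lit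 4) (nat_lit 12) (nat_lit 4) (nat_lit 543) (nat_lit 332) (nat_lit 325)) (XT.lf (nat_lit 0) (nat_lit 12448096420) (nat_lit 76) (nat_lit 18049642828) (nat_lit 76) (nat_lit 17404069048) (nat_lit 11) (nat_lit 4) (nat_lit 12) (nat_lit 5) (nat_lit 12) (nat_lit 4) (nat_lit 544) (nat_lit 332) (nat_lit 324))) (XT.nd (nat_lit 78) (nat_lit 0) (nat_lit 0) (XT.lf (nat_lit 0) (nat_lit 29484595742) (nat_lit 76) (nat_lit 10160278592) (nat_lit 76) (nat_lit 9444220447) (nat_lit 11) (nat_lit 4) (nat_lit 12) (nat_lit 5) (nat_lit 12) (nat_lit 4) (nat_lit 545) (nat_lit 332) (nat_lit 323)) (XT.lf (nat_lit 0) (nat_lit 46736750631) (nat_lit 76) (nat_lit 2182083616) (nat_lit 76) (nat_lit 1397594048) (nat_lit 11) (nat_lit 4) (nat_lit 12) (nat_lit 5) (nat_lit 12) (nat_lit 4) (nat_lit 546) (nat_lit 332) (nat_lit 322))))))) (XT.nd (nat_lit 62010) (nat_lit 0) (nat_lit 0) (XT.nd (nat_lit 546) (nat_lit 152) (nat_lit 0) (XT.nd (nat_lit 234) (nat_lit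 76) (nat_lit 0) (XT.nd (nat_lit 78) (nat_lit 0) (nat_lit 0) (XT.lf (nat_lit 0) (nat_lit 6792997317) (nat_lit 152) (nat_lit 38817633679) (nat_lit 0) (nat_lit 5966853781) (nat_lit 9) (nat_lit 5) (nat_lit 11) (nat_lit 4) (nat_lit 9) (nat_lit 4) (nat_lit 547) (nat_lit 332) (nat_lit 321)) (XT.nd (nat_lit 78) (nat_lit 0) (nat_lit 0) (XT.lf (nat_lit 0) (nat_lit 15114693283) (nat_lit 152) (nat_lit 23537935620) (nat_lit 0) (nat_lit 14225925302) (nat_lit 9) (nat_lit 5) (nat_lit 11) (nat_lit 4) (nat_lit 9) (nat_lit 4) (nat_lit 548) (nat_lit 332) (nat_lit 320)) (XT.lf (nat_lit 0) (nat_lit 23545619454) (nat_lit 152) (nat_lit 8081198517) (nat_lit 0) (nat_lit 22596051040) (nat_lit 9) (nat_lit 5) (nat_lit 11) (nat_lit 4) (nat_lit 9) (nat_lit 4) (nat_lit 549) (nat_lit 332) (nat_lit 319)))) (XT.nd (nat_lit 156) (nat_lit 0) (nat_lit 0) (XT.nd (nat_lit 78) (nat_lit 0) (nat_lit 0) (XT.lf (nat_lit 0) (nat_lit 7716663414) (nat_lit 76)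 (nat_lit 24450656531) (nat_lit 76) (nat_lit 23442058571) (nat_lit 8) (nat_lit 4) (nat_lit 9) (nat_lit 5) (nat_lit 9) (nat_lit 4) (nat_lit 550) (nat_lit 332) (nat_lit 318)) (XT.lf (nat_lit 0) (nat_lit 23883638680) (nat_lit 76) (nat_lit 17110677065) (nat_lit 76) (nat_lit 16044768866) (nat_lit 8) (nat_lit 4) (nat_lit 9) (nat_lit 5) (nat_lit 9) (nat_lit 4) (nat_lit 551) (nat_lit 332) (nat_lit 317))) (XT.nd (nat_lit 78) (nat_lit 0) (nat_lit 0) (XT.lf (nat_lit 0) (nat_lit 40273022069) (nat_lit 76) (nat_lit 9682070259) (nat_lit 76) (nat_lit 8560521051) (nat_lit 8) (nat_lit 4) (nat_lit 9) (nat_lit 5) (nat_lit 9) (nat_lit 4) (nat_lit 552) (nat_lit 332) (nat_lit 316)) (XT.lf (nat_lit 0) (nat_lit 56899134399) (nat_lit 76) (nat_lit 2158345096) (nat_lit 76) (nat_lit 982775492) (nat_lit 8) (nat_lit 4) (nat_lit 9) (nat_lit 5) (nat_lit 9) (nat_lit 4) (nat_lit 553) (nat_lit 332) (nat_lit 315))))) (XT.nd (nat_lit 61152) (nat_lit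 0) (nat_lit 608) (XT.nd (nat_lit 60996) (nat_lit 0) (nat_lit 684) (XT.nd (nat_lit 60918) (nat_lit 0) (nat_lit 836) (XT.lf (nat_lit 0) (nat_lit 6737414126) (nat_lit 152) (nat_lit 49324642687) (nat_lit 0) (nat_lit 5545165008) (nat_lit 6) (nat_lit 5) (nat_lit 8) (nat_lit 4) (nat_lit 6) (nat_lit 4) (nat_lit 554) (nat_lit 332) (nat_lit 314)) (XT.lf (nat_lit 0) (nat_lit 4101943660) (nat_lit 76) (nat_lit 7417415536) (nat_lit 76) (nat_lit 7417415536) (nat_lit 17) (nat_lit 4) (nat_lit 18) (nat_lit 5) (nat_lit 18) (nat_lit 4) (nat_lit 534) (nat_lit 333) (nat_lit 333))) (XT.nd (nat_lit 78) (nat_lit 152) (nat_lit 0) (XT.lf (nat_lit 0) (nat_lit 26158869044) (nat_lit 76) (nat_lit 6341140411) (nat_lit 76) (nat_lit 6243573566) (nat_lit 17) (nat_lit 4) (nat_lit 18) (nat_lit 5) (nat_lit 18) (nat_lit 4) (nat_lit 535) (nat_lit 333) (nat_lit 332)) (XT.lf (nat_lit 0) (nat_lit 2449173806) (nat_lit 152) (nat_lit 34930473045) (nat_lit 0)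 (nat_lit 2262482604) (nat_lit 15) (nat_lit 5) (nat_lit 17) (nat_lit 4) (nat_lit 15) (nat_lit 4) (nat_lit 536) (nat_lit 333) (nat_lit 331)))) (XT.nd (nat_lit 156) (nat_lit 76) (nat_lit 0) (XT.nd (nat_lit 78) (nat_lit 0) (nat_lit 0) (XT.lf (nat_lit 0) (nat_lit 11295347134) (nat_lit 152) (nat_lit 18250519164) (nat_lit 0) (nat_lit 11019368447) (nat_lit 15) (nat_lit 5) (nat_lit 17) (nat_lit 4) (nat_lit 15) (nat_lit 4) (nat_lit 537) (nat_lit 333) (nat_lit 330)) (XT.lf (nat_lit 0) (nat_lit 20238954644) (nat_lit 152) (nat_lit 1405828963) (nat_lit 0) (nat_lit 19876289078) (nat_lit 15) (nat_lit 5) (nat_lit 17) (nat_lit 4) (nat_lit 15) (nat_lit 4) (nat_lit 538) (nat_lit 333) (nat_lit 329))) (XT.nd (nat_lit 78) (nat_lit 0) (nat_lit 0) (XT.lf (nat_lit 0) (nat_lit 15929151337) (nat_lit 76) (nat_lit 13511780548) (nat_lit 76) (nat_lit 13064952964) (nat_lit 14) (nat_lit 4) (nat_lit 15) (nat_lit 5) (nat_lit 15) (nat_lit 4) (nat_lit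 539) (nat_lit 333) (nat_lit 328)) (XT.lf (nat_lit 0) (nat_lit 33490308395) (nat_lit 76) (nat_lit 5281444319) (nat_lit 76) (nat_lit 4752906038) (nat_lit 14) (nat_lit 4) (nat_lit 15) (nat_lit 5) (nat_lit 15) (nat_lit 4) (nat_lit 540) (nat_lit 333) (nat_lit 327)))))) (XT.nd (nat_lit 624) (nat_lit 228) (nat_lit 0) (XT.nd (nat_lit 312) (nat_lit 152) (nat_lit 0) (XT.nd (nat_lit 156) (nat_lit 76) (nat_lit 0) (XT.nd (nat_lit 78) (nat_lit 0) (nat_lit 0) (XT.lf (nat_lit 0) (nat_lit 3671337656) (nat_lit 152) (nat_lit 37822272667) (nat_lit 0) (nat_lit 3081173525) (nat_lit 12) (nat_lit 5) (nat_lit 14) (nat_lit 4) (nat_lit 12) (nat_lit 4) (nat_lit 541) (nat_lit 333) (nat_lit 326)) (XT.lf (nat_lit 0) (nat_lit 12249230538) (nat_lit 152) (nat_lit 21821588168) (nat_lit 0) (nat_lit 11584289545) (nat_lit 12) (nat_lit 5) (nat_lit 14) (nat_lit 4) (nat_lit 12) (nat_lit 4) (nat_lit 542) (nat_lit 333) (nat_lit 325))) (XT.nd (nat_lit 78)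 (nat_lit 76) (nat_lit 0) (XT.lf (nat_lit 0) (nat_lit 20930895694) (nat_lit 152) (nat_lit 5648198626) (nat_lit 0) (nat_lit 20193355804) (nat_lit 12) (nat_lit 5) (nat_lit 14) (nat_lit 4) (nat_lit 12) (nat_lit 4) (nat_lit 543) (nat_lit 333) (nat_lit 324)) (XT.lf (nat_lit 0) (nat_lit 10925218406) (nat_lit 76) (nat_lit 18903720519) (nat_lit 76) (nat_lit 18095696265) (nat_lit 11) (nat_lit 4) (nat_lit 12) (nat_lit 5) (nat_lit 12) (nat_lit 4) (nat_lit 544) (nat_lit 333) (nat_lit 323)))) (XT.nd (nat_lit 156) (nat_lit 152) (nat_lit 0) (XT.nd (nat_lit 78) (nat_lit 0) (nat_lit 0) (XT.lf (nat_lit 0) (nat_lit 27816181072) (nat_lit 76) (nat_lit 11087188888) (nat_lit 76) (nat_lit 10210733210) (nat_lit 11) (nat_lit 4) (nat_lit 12) (nat_lit 5) (nat_lit 12) (nat_lit 4) (nat_lit 545) (nat_lit 333) (nat_lit 322)) (XT.lf (nat_lit 0) (nat_lit 44927038236) (nat_lit 76) (nat_lit 3179705178) (nat_lit 76) (nat_lit 2236811226) (nat_lit 11)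 (nat_lit 4) (nat_lit 12) (nat_lit 5) (nat_lit 12) (nat_lit 4) (nat_lit 546) (nat_lit 333) (nat_lit 321))) (XT.nd (nat_lit 78) (nat_lit 0) (nat_lit 0) (XT.lf (nat_lit 0) (nat_lit 5871132089) (nat_lit 152) (nat_lit 40843615490) (nat_lit 0) (nat_lit 4893076622) (nat_lit 9) (nat_lit 5) (nat_lit 11) (nat_lit 4) (nat_lit 9) (nat_lit 4) (nat_lit 547) (nat_lit 333) (nat_lit 320)) (XT.lf (nat_lit 0) (nat_lit 14123655309) (nat_lit 152) (nat_lit 25702514425) (nat_lit 0) (nat_lit 13084799410) (nat_lit 9) (nat_lit 5) (nat_lit 11) (nat_lit 4) (nat_lit 9) (nat_lit 4) (nat_lit 548) (nat_lit 333) (nat_lit 319))))) (XT.nd (nat_lit 312) (nat_lit 152) (nat_lit 0) (XT.nd (nat_lit 156) (nat_lit 0) (nat_lit 0) (XT.nd (nat_lit 78) (nat_lit 76) (nat_lit 0) (XT.lf (nat_lit 0) (nat_lit 22487423473) (nat_lit 152) (nat_lit 10380337510) (nat_lit 0) (nat_lit 21389538027) (nat_lit 9) (nat_lit 5) (nat_lit 11) (nat_lit 4) (nat_lit 9) (nat_lit 4)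 (nat_lit 549) (nat_lit 333) (nat_lit 318)) (XT.lf (nat_lit 0) (nat_lit 5238526076) (nat_lit 76) (nat_lit 25781574567) (nat_lit 76) (nat_lit 24626378883) (nat_lit 8) (nat_lit 4) (nat_lit 9) (nat_lit 5) (nat_lit 9) (nat_lit 4) (nat_lit 550) (nat_lit 333) (nat_lit 317))) (XT.nd (nat_lit 78) (nat_lit 0) (nat_lit 0) (XT.lf (nat_lit 0) (nat_lit 21276141177) (nat_lit 76) (nat_lit 18506408916) (nat_lit 76) (nat_lit 17295572223) (nat_lit 8) (nat_lit 4) (nat_lit 9) (nat_lit 5) (nat_lit 9) (nat_lit 4) (nat_lit 551) (nat_lit 333) (nat_lit 316)) (XT.lf (nat_lit 0) (nat_lit 37539932172) (nat_lit 76) (nat_lit 11140728143) (nat_lit 76) (nat_lit 9875871054) (nat_lit 8) (nat_lit 4) (nat_lit 9) (nat_lit 5) (nat_lit 9) (nat_lit 4) (nat_lit 552) (nat_lit 333) (nat_lit 315)))) (XT.nd (nat_lit 60840) (nat_lit 0) (nat_lit 912) (XT.nd (nat_lit 78) (nat_lit 152) (nat_lit 0) (XT.lf (nat_lit 0) (nat_lit 54044110139) (nat_lit 76) (nat_lit 3678096217)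 (nat_lit 76) (nat_lit 2360792141) (nat_lit 8) (nat_lit 4) (nat_lit 9) (nat_lit 5) (nat_lit 9) (nat_lit 4) (nat_lit 553) (nat_lit 333) (nat_lit 314)) (XT.lf (nat_lit 0) (nat_lit 5281574013) (nat_lit 152) (nat_lit 52418728685) (nat_lit 0) (nat_lit 3953201700) (nat_lit 6) (nat_lit 5) (nat_lit 8) (nat_lit 4) (nat_lit 6) (nat_lit 4) (nat_lit 554) (nat_lit 333) (nat_lit 313))) (XT.nd (nat_lit 78) (nat_lit 0) (nat_lit 0) (XT.lf (nat_lit 0) (nat_lit 2435043478) (nat_lit 152) (nat_lit 13236776127) (nat_lit 0) (nat_lit 2435043478) (nat_lit 18) (nat_lit 5) (nat_lit 20) (nat_lit 4) (nat_lit 18) (nat_lit 4) (nat_lit 532) (nat_lit 334) (nat_lit 334)) (XT.lf (nat_lit 0) (nat_lit 13874087663) (nat_lit 152) (nat_lit 9383558420) (nat_lit 0) (nat_lit 13773593812) (nat_lit 18) (nat_lit 5) (nat_lit 20) (nat_lit 4) (nat_lit 18) (nat_lit 4) (nat_lit 533) (nat_lit 334) (nat_lit 333))))))))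
noncomputable def xc2 : XT := (XT.nd (nat_lit 62868) (nat_lit 0) (nat_lit 0) (XT.nd (nat_lit 1170) (nat_lit 228) (nat_lit 0) (XT.nd (nat_lit 546) (nat_lit 380) (nat_lit 0) (XT.nd (nat_lit 234) (nat_lit 76) (nat_lit 0) (XT.nd (nat_lit 78) (nat_lit 152) (nat_lit 0) (XT.lf (nat_lit 0) (nat_lit 8030270996) (nat_lit 76) (nat_lit 15021974352) (nat_lit 76) (nat_lit 14823913656) (nat_lit 17) (nat_lit 4) (nat_lit 18) (nat_lit 5) (nat_lit 18) (nat_lit 4) (nat_lit 534) (nat_lit 334) (nat_lit 332)) (XT.nd (nat_lit 78) (nat_lit 152) (nat_lit 0) (XT.lf (nat_lit 0) (nat_lit 25816693181) (nat_lit 76) (nat_lit 6612409350) (nat_lit 76) (nat_lit 6319623561) (nat_lit 17) (nat_lit 4) (nat_lit 18) (nat_lit 5) (nat_lit 18) (nat_lit 4) (nat_lit 535) (nat_lit 334) (nat_lit 331)) (XT.lf (nat_lit 0) (nat_lit 2283344889) (nat_lit 152) (nat_lit 35456888586) (nat_lit 0) (nat_lit 1909799356) (nat_lit 15) (nat_lit 5) (nat_lit 17) (nat_lit 4) (nat_lit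 15) (nat_lit 4) (nat_lit 536) (nat_lit 334) (nat_lit 330)))) (XT.nd (nat_lit 156) (nat_lit 76) (nat_lit 0) (XT.nd (nat_lit 78) (nat_lit 0) (nat_lit 0) (XT.lf (nat_lit 0) (nat_lit 11046783726) (nat_lit 152) (nat_lit 18942285589) (nat_lit 0) (nat_lit 10586551314) (nat_lit 15) (nat_lit 5) (nat_lit 17) (nat_lit 4) (nat_lit 15) (nat_lit 4) (nat_lit 537) (nat_lit 334) (nat_lit 329)) (XT.lf (nat_lit 0) (nat_lit 19910066486) (nat_lit 152) (nat_lit 2258130228) (nat_lit 0) (nat_lit 19365672057) (nat_lit 15) (nat_lit 5) (nat_lit 17) (nat_lit 4) (nat_lit 15) (nat_lit 4) (nat_lit 538) (nat_lit 334) (nat_lit 328))) (XT.nd (nat_lit 78) (nat_lit 0) (nat_lit 0) (XT.lf (nat_lit 0) (nat_lit 14900926637) (nat_lit 76) (nat_lit 14123247971) (nat_lit 76) (nat_lit 13497142845) (nat_lit 14) (nat_lit 4) (nat_lit 15) (nat_lit 5) (nat_lit 15) (nat_lit 4) (nat_lit 539) (nat_lit 334) (nat_lit 327)) (XT.lf (nat_lit 0) (nat_lit 32307752658) (nat_lit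 76) (nat_lit 5970045475) (nat_lit 76) (nat_lit 5264609575) (nat_lit 14) (nat_lit 4) (nat_lit 15) (nat_lit 5) (nat_lit 15) (nat_lit 4) (nat_lit 540) (nat_lit 334) (nat_lit 326))))) (XT.nd (nat_lit 312) (nat_lit 152) (nat_lit 0) (XT.nd (nat_lit 156) (nat_lit 76) (nat_lit 0) (XT.nd (nat_lit 78) (nat_lit 0) (nat_lit 0) (XT.lf (nat_lit 0) (nat_lit 3073198868) (nat_lit 152) (nat_lit 39208841738) (nat_lit 0) (nat_lit 2313532781) (nat_lit 12) (nat_lit 5) (nat_lit 14) (nat_lit 4) (nat_lit 12) (nat_lit 4) (nat_lit 541) (nat_lit 334) (nat_lit 325)) (XT.lf (nat_lit 0) (nat_lit 11575444207) (nat_lit 152) (nat_lit 23359544181) (nat_lit 0) (nat_lit 10743179224) (nat_lit 12) (nat_lit 5) (nat_lit 14) (nat_lit 4) (nat_lit 12) (nat_lit 4) (nat_lit 542) (nat_lit 334) (nat_lit 324))) (XT.nd (nat_lit 78) (nat_lit 76) (nat_lit 0) (XT.lf (nat_lit 0) (nat_lit 20183665145) (nat_lit 152) (nat_lit 7333132253) (nat_lit 0) (nat_lit 19280915798)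 (nat_lit 12) (nat_lit 5) (nat_lit 14) (nat_lit 4) (nat_lit 12) (nat_lit 4) (nat_lit 543) (nat_lit 334) (nat_lit 323)) (XT.lf (nat_lit 0) (nat_lit 9061214639) (nat_lit 76) (nat_lit 19931270728) (nat_lit 76) (nat_lit 18960089958) (nat_lit 11) (nat_lit 4) (nat_lit 12) (nat_lit 5) (nat_lit 12) (nat_lit 4) (nat_lit 544) (nat_lit 334) (nat_lit 322)))) (XT.nd (nat_lit 156) (nat_lit 152) (nat_lit 0) (XT.nd (nat_lit 78) (nat_lit 0) (nat_lit 0) (XT.lf (nat_lit 0) (nat_lit 25810879580) (nat_lit 76) (nat_lit 12185450363) (nat_lit 76) (nat_lit 11147831319) (nat_lit 11) (nat_lit 4) (nat_lit 12) (nat_lit 5) (nat_lit 12) (nat_lit 4) (nat_lit 545) (nat_lit 334) (nat_lit 321)) (XT.lf (nat_lit 0) (nat_lit 42784554486) (nat_lit 76) (nat_lit 4346618368) (nat_lit 76) (nat_lit 3244496145) (nat_lit 11) (nat_lit 4) (nat_lit 12) (nat_lit 5) (nat_lit 12) (nat_lit 4) (nat_lit 546) (nat_lit 334) (nat_lit 320))) (XT.nd (nat_lit 78) (nat_lit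 0) (nat_lit 0) (XT.lf (nat_lit 0) (nat_lit 4781190228) (nat_lit 152) (nat_lit 43211728653) (nat_lit 0) (nat_lit 3650368220) (nat_lit 9) (nat_lit 5) (nat_lit 11) (nat_lit 4) (nat_lit 9) (nat_lit 4) (nat_lit 547) (nat_lit 334) (nat_lit 319)) (XT.lf (nat_lit 0) (nat_lit 12966555442) (nat_lit 152) (nat_lit 28205187776) (nat_lit 0) (nat_lit 11776703887) (nat_lit 9) (nat_lit 5) (nat_lit 11) (nat_lit 4) (nat_lit 9) (nat_lit 4) (nat_lit 548) (nat_lit 334) (nat_lit 318)))))) (XT.nd (nat_lit 61074) (nat_lit 0) (nat_lit 684) (XT.nd (nat_lit 234) (nat_lit 152) (nat_lit 0) (XT.nd (nat_lit 78) (nat_lit 76) (nat_lit 0) (XT.lf (nat_lit 0) (nat_lit 21265121658) (nat_lit 152) (nat_lit 13013651820) (nat_lit 0) (nat_lit 20017959864) (nat_lit 9) (nat_lit 5) (nat_lit 11) (nat_lit 4) (nat_lit 9) (nat_lit 4) (nat_lit 549) (nat_lit 334) (nat_lit 317)) (XT.nd (nat_lit 78) (nat_lit 0) (nat_lit 0) (XT.lf (nat_lit 0) (nat_lit 2423443482) (nat_lit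 76) (nat_lit 27283992189) (nat_lit 76) (nat_lit 25981189387) (nat_lit 8) (nat_lit 4) (nat_lit 9) (nat_lit 5) (nat_lit 9) (nat_lit 4) (nat_lit 550) (nat_lit 334) (nat_lit 316)) (XT.lf (nat_lit 0) (nat_lit 18335466190) (nat_lit 76) (nat_lit 20071752571) (nat_lit 76) (nat_lit 18714929372) (nat_lit 8) (nat_lit 4) (nat_lit 9) (nat_lit 5) (nat_lit 9) (nat_lit 4) (nat_lit 551) (nat_lit 334) (nat_lit 315)))) (XT.nd (nat_lit 156) (nat_lit 152) (nat_lit 0) (XT.nd (nat_lit 78) (nat_lit 0) (nat_lit 0) (XT.lf (nat_lit 0) (nat_lit 34477322821) (nat_lit 76) (nat_lit 12767165035) (nat_lit 76) (nat_lit 11357894848) (nat_lit 8) (nat_lit 4) (nat_lit 9) (nat_lit 5) (nat_lit 9) (nat_lit 4) (nat_lit 552) (nat_lit 334) (nat_lit 314)) (XT.lf (nat_lit 0) (nat_lit 50863117912) (nat_lit 76) (nat_lit 5363846930) (nat_lit 76) (nat_lit 3903657339) (nat_lit 8) (nat_lit 4) (nat_lit 9) (nat_lit 5) (nat_lit 9) (nat_lit 4) (nat_lit 553) (nat_lit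 334) (nat_lit 313))) (XT.nd (nat_lit 60606) (nat_lit 0) (nat_lit 1064) (XT.lf (nat_lit 0) (nat_lit 3661019481) (nat_lit 152) (nat_lit 55848424415) (nat_lit 0) (nat_lit 2195363261) (nat_lit 6) (nat_lit 5) (nat_lit 8) (nat_lit 4) (nat_lit 6) (nat_lit 4) (nat_lit 554) (nat_lit 334) (nat_lit 312)) (XT.lf (nat_lit 0) (nat_lit 4763751323) (nat_lit 76) (nat_lit 6280026660) (nat_lit 76) (nat_lit 6280026660) (nat_lit 20) (nat_lit 4) (nat_lit 21) (nat_lit 5) (nat_lit 21) (nat_lit 4) (nat_lit 530) (nat_lit 335) (nat_lit 335))))) (XT.nd (nat_lit 312) (nat_lit 152) (nat_lit 0) (XT.nd (nat_lit 156) (nat_lit 76) (nat_lit 0) (XT.nd (nat_lit 78) (nat_lit 152) (nat_lit 0) (XT.lf (nat_lit 0) (nat_lit 27512761498) (nat_lit 76) (nat_lit 4007221184) (nat_lit 76) (nat_lit 3900607257) (nat_lit 20) (nat_lit 4) (nat_lit 21) (nat_lit 5) (nat_lit 21) (nat_lit 4) (nat_lit 531) (nat_lit 335) (nat_lit 334)) (XT.lf (nat_lit 0) (nat_lit 4885738694)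 (nat_lit 152) (nat_lit 26648887552) (nat_lit 0) (nat_lit 4681736177) (nat_lit 18) (nat_lit 5) (nat_lit 20) (nat_lit 4) (nat_lit 18) (nat_lit 4) (nat_lit 532) (nat_lit 335) (nat_lit 333))) (XT.nd (nat_lit 78) (nat_lit 76) (nat_lit 0) (XT.lf (nat_lit 0) (nat_lit 13804441411) (nat_lit 152) (nat_lit 9729122163) (nat_lit 0) (nat_lit 13502872048) (nat_lit 18) (nat_lit 5) (nat_lit 20) (nat_lit 4) (nat_lit 18) (nat_lit 4) (nat_lit 533) (nat_lit 335) (nat_lit 332)) (XT.lf (nat_lit 0) (nat_lit 7509270319) (nat_lit 76) (nat_lit 15385507018) (nat_lit 76) (nat_lit 14989212563) (nat_lit 17) (nat_lit 4) (nat_lit 18) (nat_lit 5) (nat_lit 18) (nat_lit 4) (nat_lit 534) (nat_lit 335) (nat_lit 331)))) (XT.nd (nat_lit 156) (nat_lit 0) (nat_lit 0) (XT.nd (nat_lit 78) (nat_lit 152) (nat_lit 0) (XT.lf (nat_lit 0) (nat_lit 25132042466) (nat_lit 76) (nat_lit 7057617413) (nat_lit 76) (nat_lit 6569356848) (nat_lit 17) (nat_lit 4) (nat_lit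 18) (nat_lit 5) (nat_lit 18) (nat_lit 4) (nat_lit 535) (nat_lit 335) (nat_lit 330)) (XT.lf (nat_lit 0) (nat_lit 1944590086) (nat_lit 152) (nat_lit 36334758888) (nat_lit 0) (nat_lit 1383863824) (nat_lit 15) (nat_lit 5) (nat_lit 17) (nat_lit 4) (nat_lit 15) (nat_lit 4) (nat_lit 536) (nat_lit 335) (nat_lit 329))) (XT.nd (nat_lit 78) (nat_lit 0) (nat_lit 0) (XT.lf (nat_lit 0) (nat_lit 10627704173) (nat_lit 152) (nat_lit 19980690732) (nat_lit 0) (nat_lit 9982815893) (nat_lit 15) (nat_lit 5) (nat_lit 17) (nat_lit 4) (nat_lit 15) (nat_lit 4) (nat_lit 537) (nat_lit 335) (nat_lit 328)) (XT.lf (nat_lit 0) (nat_lit 19413001740) (nat_lit 152) (nat_lit 3452394437) (nat_lit 0) (nat_lit 18686402762) (nat_lit 15) (nat_lit 5) (nat_lit 17) (nat_lit 4) (nat_lit 15) (nat_lit 4) (nat_lit 538) (nat_lit 335) (nat_lit 327))))))) (XT.nd (nat_lit 1170) (nat_lit 152) (nat_lit 0) (XT.nd (nat_lit 546) (nat_lit 228) (nat_lit 0) (XT.nd (nat_lit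 234) (nat_lit 76) (nat_lit 0) (XT.nd (nat_lit 78) (nat_lit 152) (nat_lit 0) (XT.lf (nat_lit 0) (nat_lit 13528563190) (nat_lit 76) (nat_lit 14909640894) (nat_lit 76) (nat_lit 14103711143) (nat_lit 14) (nat_lit 4) (nat_lit 15) (nat_lit 5) (nat_lit 15) (nat_lit 4) (nat_lit 539) (nat_lit 335) (nat_lit 326)) (XT.nd (nat_lit 78) (nat_lit 152) (nat_lit 0) (XT.lf (nat_lit 0) (nat_lit 30785553253) (nat_lit 76) (nat_lit 6831325518) (nat_lit 76) (nat_lit 5948375598) (nat_lit 14) (nat_lit 4) (nat_lit 15) (nat_lit 5) (nat_lit 15) (nat_lit 4) (nat_lit 540) (nat_lit 335) (nat_lit 325)) (XT.lf (nat_lit 0) (nat_lit 2303551403) (nat_lit 152) (nat_lit 40944323374) (nat_lit 0) (nat_lit 1373719575) (nat_lit 12) (nat_lit 5) (nat_lit 14) (nat_lit 4) (nat_lit 12) (nat_lit 4) (nat_lit 541) (nat_lit 335) (nat_lit 324)))) (XT.nd (nat_lit 156) (nat_lit 76) (nat_lit 0) (XT.nd (nat_lit 78) (nat_lit 0) (nat_lit 0) (XT.lf (nat_lit 0) (nat_lit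 10732352525) (nat_lit 152) (nat_lit 25242003431) (nat_lit 0) (nat_lit 9732036332) (nat_lit 12) (nat_lit 5) (nat_lit 14) (nat_lit 4) (nat_lit 12) (nat_lit 4) (nat_lit 542) (nat_lit 335) (nat_lit 323)) (XT.lf (nat_lit 0) (nat_lit 19269268398) (nat_lit 152) (nat_lit 9358288216) (nat_lit 0) (nat_lit 18200520782) (nat_lit 12) (nat_lit 5) (nat_lit 14) (nat_lit 4) (nat_lit 12) (nat_lit 4) (nat_lit 543) (nat_lit 335) (nat_lit 322))) (XT.nd (nat_lit 78) (nat_lit 0) (nat_lit 0) (XT.lf (nat_lit 0) (nat_lit 6854456377) (nat_lit 76) (nat_lit 21133191314) (nat_lit 76) (nat_lit 19998005424) (nat_lit 11) (nat_lit 4) (nat_lit 12) (nat_lit 5) (nat_lit 12) (nat_lit 4) (nat_lit 544) (nat_lit 335) (nat_lit 321)) (XT.lf (nat_lit 0) (nat_lit 23466939060) (nat_lit 76) (nat_lit 13456022664) (nat_lit 76) (nat_lit 12256333595) (nat_lit 11) (nat_lit 4) (nat_lit 12) (nat_lit 5) (nat_lit 12) (nat_lit 4) (nat_lit 545) (nat_lit 335) (nat_lit 320)))))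 (XT.nd (nat_lit 312) (nat_lit 76) (nat_lit 0) (XT.nd (nat_lit 156) (nat_lit 0) (nat_lit 0) (XT.nd (nat_lit 78) (nat_lit 152) (nat_lit 0) (XT.lf (nat_lit 0) (nat_lit 40307427309) (nat_lit 76) (nat_lit 5683842819) (nat_lit 76) (nat_lit 4421529305) (nat_lit 11) (nat_lit 4) (nat_lit 12) (nat_lit 5) (nat_lit 12) (nat_lit 4) (nat_lit 546) (nat_lit 335) (nat_lit 319)) (XT.lf (nat_lit 0) (nat_lit 3522219359) (nat_lit 152) (nat_lit 45924042392) (nat_lit 0) (nat_lit 2237642712) (nat_lit 9) (nat_lit 5) (nat_lit 11) (nat_lit 4) (nat_lit 9) (nat_lit 4) (nat_lit 547) (nat_lit 335) (nat_lit 318))) (XT.nd (nat_lit 78) (nat_lit 0) (nat_lit 0) (XT.lf (nat_lit 0) (nat_lit 11642382625) (nat_lit 152) (nat_lit 31048142474) (nat_lit 0) (nat_lit 10300495739) (nat_lit 9) (nat_lit 5) (nat_lit 11) (nat_lit 4) (nat_lit 9) (nat_lit 4) (nat_lit 548) (nat_lit 335) (nat_lit 317)) (XT.lf (nat_lit 0) (nat_lit 19877645979) (nat_lit 152) (nat_lit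 15983442402) (nat_lit 0) (nat_lit 18480118084) (nat_lit 9) (nat_lit 5) (nat_lit 11) (nat_lit 4) (nat_lit 9) (nat_lit 4) (nat_lit 549) (nat_lit 335) (nat_lit 316)))) (XT.nd (nat_lit 156) (nat_lit 0) (nat_lit 0) (XT.nd (nat_lit 78) (nat_lit 76) (nat_lit 0) (XT.lf (nat_lit 0) (nat_lit 28235205282) (nat_lit 152) (nat_lit 716778843) (nat_lit 0) (nat_lit 26783656990) (nat_lit 9) (nat_lit 5) (nat_lit 11) (nat_lit 4) (nat_lit 9) (nat_lit 4) (nat_lit 550) (nat_lit 335) (nat_lit 315)) (XT.lf (nat_lit 0) (nat_lit 15059044196) (nat_lit 76) (nat_lit 21808075805) (nat_lit 76) (nat_lit 20304080526) (nat_lit 8) (nat_lit 4) (nat_lit 9) (nat_lit 5) (nat_lit 9) (nat_lit 4) (nat_lit 551) (nat_lit 335) (nat_lit 314))) (XT.nd (nat_lit 78) (nat_lit 0) (nat_lit 0) (XT.lf (nat_lit 0) (nat_lit 31082517951) (nat_lit 76) (nat_lit 14562802091) (nat_lit 76) (nat_lit 13007887407) (nat_lit 8) (nat_lit 4) (nat_lit 9) (nat_lit 5) (nat_lit 9) (nat_lit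 4) (nat_lit 552) (nat_lit 335) (nat_lit 313)) (XT.lf (nat_lit 0) (nat_lit 47353378210) (nat_lit 76) (nat_lit 7217070221) (nat_lit 76) (nat_lit 5612719222) (nat_lit 8) (nat_lit 4) (nat_lit 9) (nat_lit 5) (nat_lit 9) (nat_lit 4) (nat_lit 553) (nat_lit 335) (nat_lit 312)))))) (XT.nd (nat_lit 60918) (nat_lit 0) (nat_lit 456) (XT.nd (nat_lit 60606) (nat_lit 0) (nat_lit 912) (XT.nd (nat_lit 60450) (nat_lit 0) (nat_lit 1140) (XT.lf (nat_lit 0) (nat_lit 1874334514) (nat_lit 152) (nat_lit 59616726700) (nat_lit 0) (nat_lit 270113716) (nat_lit 6) (nat_lit 5) (nat_lit 8) (nat_lit 4) (nat_lit 6) (nat_lit 4) (nat_lit 554) (nat_lit 335) (nat_lit 311)) (XT.nd (nat_lit 78) (nat_lit 0) (nat_lit 0) (XT.lf (nat_lit 0) (nat_lit 1985436395) (nat_lit 152) (nat_lit 12616063239) (nat_lit 0) (nat_lit 1985436395) (nat_lit 21) (nat_lit 5) (nat_lit 23) (nat_lit 4) (nat_lit 21) (nat_lit 4) (nat_lit 528) (nat_lit 336) (nat_lit 336)) (XT.lf (nat_lit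 0) (nat_lit 12947651093) (nat_lit 152) (nat_lit 8114414581) (nat_lit 0) (nat_lit 12837838749) (nat_lit 21) (nat_lit 5) (nat_lit 23) (nat_lit 4) (nat_lit 21) (nat_lit 4) (nat_lit 529) (nat_lit 336) (nat_lit 335)))) (XT.nd (nat_lit 156) (nat_lit 152) (nat_lit 0) (XT.nd (nat_lit 78) (nat_lit 0) (nat_lit 0) (XT.lf (nat_lit 0) (nat_lit 9353978786) (nat_lit 76) (nat_lit 12756334502) (nat_lit 76) (nat_lit 12539908232) (nat_lit 20) (nat_lit 4) (nat_lit 21) (nat_lit 5) (nat_lit 21) (nat_lit 4) (nat_lit 530) (nat_lit 336) (nat_lit 334)) (XT.lf (nat_lit 0) (nat_lit 27170767870) (nat_lit 76) (nat_lit 4287452692) (nat_lit 76) (nat_lit 3967517755) (nat_lit 20) (nat_lit 4) (nat_lit 21) (nat_lit 5) (nat_lit 21) (nat_lit 4) (nat_lit 531) (nat_lit 336) (nat_lit 333))) (XT.nd (nat_lit 78) (nat_lit 0) (nat_lit 0) (XT.lf (nat_lit 0) (nat_lit 4728705065) (nat_lit 152) (nat_lit 27175046652) (nat_lit 0) (nat_lit 4320521776) (nat_lit 18)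 (nat_lit 5) (nat_lit 20) (nat_lit 4) (nat_lit 18) (nat_lit 4) (nat_lit 532) (nat_lit 336) (nat_lit 332)) (XT.lf (nat_lit 0) (nat_lit 13564594200) (nat_lit 152) (nat_lit 10420551597) (nat_lit 0) (nat_lit 13061685818) (nat_lit 18) (nat_lit 5) (nat_lit 20) (nat_lit 4) (nat_lit 18) (nat_lit 4) (nat_lit 533) (nat_lit 336) (nat_lit 331))))) (XT.nd (nat_lit 312) (nat_lit 228) (nat_lit 0) (XT.nd (nat_lit 156) (nat_lit 152) (nat_lit 0) (XT.nd (nat_lit 78) (nat_lit 0) (nat_lit 0) (XT.lf (nat_lit 0) (nat_lit 6640430046) (nat_lit 76) (nat_lit 15925746721) (nat_lit 76) (nat_lit 15330872229) (nat_lit 17) (nat_lit 4) (nat_lit 18) (nat_lit 5) (nat_lit 18) (nat_lit 4) (nat_lit 534) (nat_lit 336) (nat_lit 330)) (XT.lf (nat_lit 0) (nat_lit 24104318662) (nat_lit 76) (nat_lit 7677153618) (nat_lit 76) (nat_lit 6992991641) (nat_lit 17) (nat_lit 4) (nat_lit 18) (nat_lit 5) (nat_lit 18) (nat_lit 4) (nat_lit 535) (nat_lit 336) (nat_lit 329)))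 (XT.nd (nat_lit 78) (nat_lit 0) (nat_lit 0) (XT.lf (nat_lit 0) (nat_lit 1432613397) (nat_lit 152) (nat_lit 37564851025) (nat_lit 0) (nat_lit 684216451) (nat_lit 15) (nat_lit 5) (nat_lit 17) (nat_lit 4) (nat_lit 15) (nat_lit 4) (nat_lit 536) (nat_lit 336) (nat_lit 328)) (XT.lf (nat_lit 0) (nat_lit 10037742291) (nat_lit 152) (nat_lit 21366641935) (nat_lit 0) (nat_lit 9207634647) (nat_lit 15) (nat_lit 5) (nat_lit 17) (nat_lit 4) (nat_lit 15) (nat_lit 4) (nat_lit 537) (nat_lit 336) (nat_lit 327)))) (XT.nd (nat_lit 156) (nat_lit 152) (nat_lit 0) (XT.nd (nat_lit 78) (nat_lit 76) (nat_lit 0) (XT.lf (nat_lit 0) (nat_lit 18747326077) (nat_lit 152) (nat_lit 4989665124) (nat_lit 0) (nat_lit 17837887660) (nat_lit 15) (nat_lit 5) (nat_lit 17) (nat_lit 4) (nat_lit 15) (nat_lit 4) (nat_lit 538) (nat_lit 336) (nat_lit 326)) (XT.lf (nat_lit 0) (nat_lit 11810861844) (nat_lit 76) (nat_lit 15871646457) (nat_lit 76) (nat_lit 14885187871)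 (nat_lit 14) (nat_lit 4) (nat_lit 15) (nat_lit 5) (nat_lit 15) (nat_lit 4) (nat_lit 539) (nat_lit 336) (nat_lit 325))) (XT.nd (nat_lit 78) (nat_lit 152) (nat_lit 0) (XT.lf (nat_lit 0) (nat_lit 28922380102) (nat_lit 76) (nat_lit 7866037022) (nat_lit 76) (nat_lit 6804801572) (nat_lit 14) (nat_lit 4) (nat_lit 15) (nat_lit 5) (nat_lit 15) (nat_lit 4) (nat_lit 540) (nat_lit 336) (nat_lit 324)) (XT.lf (nat_lit 0) (nat_lit 1361722753) (nat_lit 152) (nat_lit 43030234016) (nat_lit 0) (nat_lit 260912709) (nat_lit 12) (nat_lit 5) (nat_lit 14) (nat_lit 4) (nat_lit 12) (nat_lit 4) (nat_lit 541) (nat_lit 336) (nat_lit 323))))))))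
noncomputable def xc3 : XT := (XT.nd (nat_lit 62556) (nat_lit 0) (nat_lit 0) (XT.nd (nat_lit 61386) (nat_lit 0) (nat_lit 304) (XT.nd (nat_lit 546) (nat_lit 76) (nat_lit 0) (XT.nd (nat_lit 234) (nat_lit 152) (nat_lit 0) (XT.nd (nat_lit 78) (nat_lit 76) (nat_lit 0) (XT.lf (nat_lit 0) (nat_lit 9719218810) (nat_lit 152) (nat_lit 27470610785) (nat_lit 0) (nat_lit 8549977343) (nat_lit 12) (nat_lit 5) (nat_lit 14) (nat_lit 4) (nat_lit 12) (nat_lit 4) (nat_lit 542) (nat_lit 336) (nat_lit 322)) (XT.nd (nat_lit 78) (nat_lit 76) (nat_lit 0) (XT.lf (nat_lit 0) (nat_lit 18186906465) (nat_lit 152) (nat_lit 11725436067) (nat_lit 0) (nat_lit 16951226724) (nat_lit 12) (nat_lit 5) (nat_lit 14) (nat_lit 4) (nat_lit 12) (nat_lit 4) (nat_lit 543) (nat_lit 336) (nat_lit 321)) (XT.lf (nat_lit 0) (nat_lit 4303015385) (nat_lit 76) (nat_lit 22510532499) (nat_lit 76) (nat_lit 21210349579) (nat_lit 11) (nat_lit 4) (nat_lit 12) (nat_lit 5)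 (nat_lit 12) (nat_lit 4) (nat_lit 544) (nat_lit 336) (nat_lit 320)))) (XT.nd (nat_lit 156) (nat_lit 152) (nat_lit 0) (XT.nd (nat_lit 78) (nat_lit 0) (nat_lit 0) (XT.lf (nat_lit 0) (nat_lit 20782311410) (nat_lit 76) (nat_lit 14900015998) (nat_lit 76) (nat_lit 13537208633) (nat_lit 11) (nat_lit 4) (nat_lit 12) (nat_lit 5) (nat_lit 12) (nat_lit 4) (nat_lit 545) (nat_lit 336) (nat_lit 319)) (XT.lf (nat_lit 0) (nat_lit 37493492224) (nat_lit 76) (nat_lit 7192546979) (nat_lit 76) (nat_lit 5768939182) (nat_lit 11) (nat_lit 4) (nat_lit 12) (nat_lit 5) (nat_lit 12) (nat_lit 4) (nat_lit 546) (nat_lit 336) (nat_lit 318))) (XT.nd (nat_lit 78) (nat_lit 0) (nat_lit 0) (XT.lf (nat_lit 0) (nat_lit 2093119410) (nat_lit 152) (nat_lit 48982926691) (nat_lit 0) (nat_lit 653665678) (nat_lit 9) (nat_lit 5) (nat_lit 11) (nat_lit 4) (nat_lit 9) (nat_lit 4) (nat_lit 547) (nat_lit 336) (nat_lit 317)) (XT.lf (nat_lit 0) (nat_lit 10149979814)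 (nat_lit 152) (nat_lit 34233862656) (nat_lit 0) (nat_lit 8654885073) (nat_lit 9) (nat_lit 5) (nat_lit 11) (nat_lit 4) (nat_lit 9) (nat_lit 4) (nat_lit 548) (nat_lit 336) (nat_lit 316))))) (XT.nd (nat_lit 312) (nat_lit 0) (nat_lit 0) (XT.nd (nat_lit 156) (nat_lit 76) (nat_lit 0) (XT.nd (nat_lit 78) (nat_lit 0) (nat_lit 0) (XT.lf (nat_lit 0) (nat_lit 18323784078) (nat_lit 152) (nat_lit 19292304217) (nat_lit 0) (nat_lit 16774668941) (nat_lit 9) (nat_lit 5) (nat_lit 11) (nat_lit 4) (nat_lit 9) (nat_lit 4) (nat_lit 549) (nat_lit 336) (nat_lit 315)) (XT.lf (nat_lit 0) (nat_lit 26621674363) (nat_lit 152) (nat_lit 4145195643) (nat_lit 0) (nat_lit 25020112238) (nat_lit 9) (nat_lit 5) (nat_lit 11) (nat_lit 4) (nat_lit 9) (nat_lit 4) (nat_lit 550) (nat_lit 336) (nat_lit 314))) (XT.nd (nat_lit 78) (nat_lit 0) (nat_lit 0) (XT.lf (nat_lit 0) (nat_lit 11444012302) (nat_lit 76) (nat_lit 23716895795) (nat_lit 76) (nat_lit 22064414265)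 (nat_lit 8) (nat_lit 4) (nat_lit 9) (nat_lit 5) (nat_lit 9) (nat_lit 4) (nat_lit 551) (nat_lit 336) (nat_lit 313)) (XT.lf (nat_lit 0) (nat_lit 27352551226) (nat_lit 76) (nat_lit 16529208315) (nat_lit 76) (nat_lit 14827290470) (nat_lit 8) (nat_lit 4) (nat_lit 9) (nat_lit 5) (nat_lit 9) (nat_lit 4) (nat_lit 552) (nat_lit 336) (nat_lit 312)))) (XT.nd (nat_lit 60372) (nat_lit 0) (nat_lit 1140) (XT.nd (nat_lit 78) (nat_lit 0) (nat_lit 0) (XT.lf (nat_lit 0) (nat_lit 43511824270) (nat_lit 76) (nat_lit 9239385411) (nat_lit 76) (nat_lit 7489471143) (nat_lit 8) (nat_lit 4) (nat_lit 9) (nat_lit 5) (nat_lit 9) (nat_lit 4) (nat_lit 553) (nat_lit 336) (nat_lit 311)) (XT.lf (nat_lit 0) (nat_lit 59935951188) (nat_lit 76) (nat_lit 1841057335) (nat_lit 76) (nat_lit 44544599) (nat_lit 8) (nat_lit 4) (nat_lit 9) (nat_lit 5) (nat_lit 9) (nat_lit 4) (nat_lit 554) (nat_lit 336) (nat_lit 310))) (XT.nd (nat_lit 78) (nat_lit 0) (nat_lit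 0) (XT.lf (nat_lit 0) (nat_lit 2501109508) (nat_lit 76) (nat_lit 6694906292) (nat_lit 76) (nat_lit 6694906292) (nat_lit 23) (nat_lit 4) (nat_lit 24) (nat_lit 5) (nat_lit 24) (nat_lit 4) (nat_lit 526) (nat_lit 337) (nat_lit 337)) (XT.lf (nat_lit 0) (nat_lit 22841413490) (nat_lit 76) (nat_lit 4871819070) (nat_lit 76) (nat_lit 4755319154) (nat_lit 23) (nat_lit 4) (nat_lit 24) (nat_lit 5) (nat_lit 24) (nat_lit 4) (nat_lit 527) (nat_lit 337) (nat_lit 336)))))) (XT.nd (nat_lit 546) (nat_lit 380) (nat_lit 0) (XT.nd (nat_lit 234) (nat_lit 228) (nat_lit 0) (XT.nd (nat_lit 78) (nat_lit 76) (nat_lit 0) (XT.lf (nat_lit 0) (nat_lit 3996030890) (nat_lit 152) (nat_lit 25407368397) (nat_lit 0) (nat_lit 3773111831) (nat_lit 21) (nat_lit 5) (nat_lit 23) (nat_lit 4) (nat_lit 21) (nat_lit 4) (nat_lit 528) (nat_lit 337) (nat_lit 335)) (XT.nd (nat_lit 78) (nat_lit 76) (nat_lit 0) (XT.lf (nat_lit 0) (nat_lit 12887422186) (nat_lit 152)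 (nat_lit 8459794285) (nat_lit 0) (nat_lit 12557889201) (nat_lit 21) (nat_lit 5) (nat_lit 23) (nat_lit 4) (nat_lit 21) (nat_lit 4) (nat_lit 529) (nat_lit 337) (nat_lit 334)) (XT.lf (nat_lit 0) (nat_lit 8833255581) (nat_lit 76) (nat_lit 13128923284) (nat_lit 76) (nat_lit 12695881632) (nat_lit 20) (nat_lit 4) (nat_lit 21) (nat_lit 5) (nat_lit 21) (nat_lit 4) (nat_lit 530) (nat_lit 337) (nat_lit 333)))) (XT.nd (nat_lit 156) (nat_lit 76) (nat_lit 0) (XT.nd (nat_lit 78) (nat_lit 152) (nat_lit 0) (XT.lf (nat_lit 0) (nat_lit 26486481785) (nat_lit 76) (nat_lit 4741546646) (nat_lit 76) (nat_lit 4208011144) (nat_lit 20) (nat_lit 4) (nat_lit 21) (nat_lit 5) (nat_lit 21) (nat_lit 4) (nat_lit 531) (nat_lit 337) (nat_lit 332)) (XT.lf (nat_lit 0) (nat_lit 4398848856) (nat_lit 152) (nat_lit 28052489304) (nat_lit 0) (nat_lit 3786128130) (nat_lit 18) (nat_lit 5) (nat_lit 20) (nat_lit 4) (nat_lit 18) (nat_lit 4) (nat_lit 532) (nat_lit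 337) (nat_lit 331))) (XT.nd (nat_lit 78) (nat_lit 76) (nat_lit 0) (XT.lf (nat_lit 0) (nat_lit 13154336455) (nat_lit 152) (nat_lit 11458450885) (nat_lit 0) (nat_lit 12449649619) (nat_lit 18) (nat_lit 5) (nat_lit 20) (nat_lit 4) (nat_lit 18) (nat_lit 4) (nat_lit 533) (nat_lit 337) (nat_lit 330)) (XT.lf (nat_lit 0) (nat_lit 5422990996) (nat_lit 76) (nat_lit 16643165513) (nat_lit 76) (nat_lit 15849191193) (nat_lit 17) (nat_lit 4) (nat_lit 18) (nat_lit 5) (nat_lit 18) (nat_lit 4) (nat_lit 534) (nat_lit 337) (nat_lit 329))))) (XT.nd (nat_lit 312) (nat_lit 228) (nat_lit 0) (XT.nd (nat_lit 156) (nat_lit 0) (nat_lit 0) (XT.nd (nat_lit 78) (nat_lit 152) (nat_lit 0) (XT.lf (nat_lit 0) (nat_lit 22732623756) (nat_lit 76) (nat_lit 8471559306) (nat_lit 76) (nat_lit 7590898107) (nat_lit 17) (nat_lit 4) (nat_lit 18) (nat_lit 5) (nat_lit 18) (nat_lit 4) (nat_lit 535) (nat_lit 337) (nat_lit 328)) (XT.lf (nat_lit 0) (nat_lit 555297216)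 (nat_lit 76) (nat_lit 193530583) (nat_lit 152) (nat_lit 38956569583) (nat_lit 15) (nat_lit 5) (nat_lit 16) (nat_lit 5) (nat_lit 17) (nat_lit 4) (nat_lit 536) (nat_lit 337) (nat_lit 327))) (XT.nd (nat_lit 78) (nat_lit 0) (nat_lit 0) (XT.lf (nat_lit 0) (nat_lit 9276382578) (nat_lit 152) (nat_lit 23101350226) (nat_lit 0) (nat_lit 8260330234) (nat_lit 15) (nat_lit 5) (nat_lit 17) (nat_lit 4) (nat_lit 15) (nat_lit 4) (nat_lit 537) (nat_lit 337) (nat_lit 326)) (XT.lf (nat_lit 0) (nat_lit 17912457840) (nat_lit 152) (nat_lit 6871285534) (nat_lit 0) (nat_lit 16819385327) (nat_lit 15) (nat_lit 5) (nat_lit 17) (nat_lit 4) (nat_lit 15) (nat_lit 4) (nat_lit 538) (nat_lit 337) (nat_lit 325)))) (XT.nd (nat_lit 156) (nat_lit 152) (nat_lit 0) (XT.nd (nat_lit 78) (nat_lit 0) (nat_lit 0) (XT.lf (nat_lit 0) (nat_lit 9746321694) (nat_lit 76) (nat_lit 17010105248) (nat_lit 76) (nat_lit 15842255872) (nat_lit 14) (nat_lit 4) (nat_lit 15)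 (nat_lit 5) (nat_lit 15) (nat_lit 4) (nat_lit 539) (nat_lit 337) (nat_lit 324)) (XT.lf (nat_lit 0) (nat_lit 26716605191) (nat_lit 76) (nat_lit 9075084104) (nat_lit 76) (nat_lit 7834635832) (nat_lit 14) (nat_lit 4) (nat_lit 15) (nat_lit 5) (nat_lit 15) (nat_lit 4) (nat_lit 540) (nat_lit 337) (nat_lit 323))) (XT.nd (nat_lit 78) (nat_lit 76) (nat_lit 0) (XT.lf (nat_lit 0) (nat_lit 264534931) (nat_lit 152) (nat_lit 773926725) (nat_lit 76) (nat_lit 43650435087) (nat_lit 13) (nat_lit 5) (nat_lit 15) (nat_lit 5) (nat_lit 14) (nat_lit 4) (nat_lit 541) (nat_lit 337) (nat_lit 322)) (XT.lf (nat_lit 0) (nat_lit 8535157800) (nat_lit 152) (nat_lit 30047313569) (nat_lit 0) (nat_lit 7195969393) (nat_lit 12) (nat_lit 5) (nat_lit 14) (nat_lit 4) (nat_lit 12) (nat_lit 4) (nat_lit 542) (nat_lit 337) (nat_lit 321))))))) (XT.nd (nat_lit 61230) (nat_lit 0) (nat_lit 304) (XT.nd (nat_lit 546) (nat_lit 76) (nat_lit 0) (XT.nd (nat_lit 234)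 (nat_lit 152) (nat_lit 0) (XT.nd (nat_lit 78) (nat_lit 76) (nat_lit 0) (XT.lf (nat_lit 0) (nat_lit 16935633592) (nat_lit 152) (nat_lit 14436644189) (nat_lit 0) (nat_lit 15531942006) (nat_lit 12) (nat_lit 5) (nat_lit 14) (nat_lit 4) (nat_lit 12) (nat_lit 4) (nat_lit 543) (nat_lit 337) (nat_lit 320)) (XT.nd (nat_lit 78) (nat_lit 0) (nat_lit 0) (XT.lf (nat_lit 0) (nat_lit 1404662247) (nat_lit 76) (nat_lit 24064497784) (nat_lit 76) (nat_lit 22598181752) (nat_lit 11) (nat_lit 4) (nat_lit 12) (nat_lit 5) (nat_lit 12) (nat_lit 4) (nat_lit 544) (nat_lit 337) (nat_lit 319)) (XT.lf (nat_lit 0) (nat_lit 17754650838) (nat_lit 76) (nat_lit 16518692110) (nat_lit 76) (nat_lit 14991575646) (nat_lit 11) (nat_lit 4) (nat_lit 12) (nat_lit 5) (nat_lit 12) (nat_lit 4) (nat_lit 545) (nat_lit 337) (nat_lit 318)))) (XT.nd (nat_lit 156) (nat_lit 76) (nat_lit 0) (XT.nd (nat_lit 78) (nat_lit 76) (nat_lit 0) (XT.lf (nat_lit 0) (nat_lit 34340290453)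 (nat_lit 76) (nat_lit 8874049135) (nat_lit 76) (nat_lit 7287903125) (nat_lit 11) (nat_lit 4) (nat_lit 12) (nat_lit 5) (nat_lit 12) (nat_lit 4) (nat_lit 546) (nat_lit 337) (nat_lit 317)) (XT.lf (nat_lit 0) (nat_lit 509428547) (nat_lit 152) (nat_lit 609316298) (nat_lit 76) (nat_lit 50661500623) (nat_lit 10) (nat_lit 5) (nat_lit 12) (nat_lit 5) (nat_lit 11) (nat_lit 4) (nat_lit 547) (nat_lit 337) (nat_lit 316))) (XT.nd (nat_lit 78) (nat_lit 0) (nat_lit 0) (XT.lf (nat_lit 0) (nat_lit 8488042967) (nat_lit 152) (nat_lit 37765131960) (nat_lit 0) (nat_lit 6838433978) (nat_lit 9) (nat_lit 5) (nat_lit 11) (nat_lit 4) (nat_lit 9) (nat_lit 4) (nat_lit 548) (nat_lit 337) (nat_lit 315)) (XT.lf (nat_lit 0) (nat_lit 16602178212) (nat_lit 152) (nat_lit 22943128505) (nat_lit 0) (nat_lit 14900122237) (nat_lit 9) (nat_lit 5) (nat_lit 11) (nat_lit 4) (nat_lit 9) (nat_lit 4) (nat_lit 549) (nat_lit 337) (nat_lit 314))))) (XT.nd (nat_lit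 312) (nat_lit 0) (nat_lit 0) (XT.nd (nat_lit 156) (nat_lit 0) (nat_lit 0) (XT.nd (nat_lit 78) (nat_lit 76) (nat_lit 0) (XT.lf (nat_lit 0) (nat_lit 24842137411) (nat_lit 152) (nat_lit 7912092732) (nat_lit 0) (nat_lit 23089162030) (nat_lit 9) (nat_lit 5) (nat_lit 11) (nat_lit 4) (nat_lit 9) (nat_lit 4) (nat_lit 550) (nat_lit 337) (nat_lit 313)) (XT.lf (nat_lit 0) (nat_lit 7487211744) (nat_lit 76) (nat_lit 25799880440) (nat_lit 76) (nat_lit 23997468745) (nat_lit 8) (nat_lit 4) (nat_lit 9) (nat_lit 5) (nat_lit 9) (nat_lit 4) (nat_lit 551) (nat_lit 337) (nat_lit 312))) (XT.nd (nat_lit 78) (nat_lit 0) (nat_lit 0) (XT.lf (nat_lit 0) (nat_lit 23284163452) (nat_lit 76) (nat_lit 18668101926) (nat_lit 76) (nat_lit 16817693808) (nat_lit 8) (nat_lit 4) (nat_lit 9) (nat_lit 5) (nat_lit 9) (nat_lit 4) (nat_lit 552) (nat_lit 337) (nat_lit 311)) (XT.lf (nat_lit 0) (nat_lit 39335099394) (nat_lit 76) (nat_lit 11432559572) (nat_lit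 76) (nat_lit 9535552984) (nat_lit 8) (nat_lit 4) (nat_lit 9) (nat_lit 5) (nat_lit 9) (nat_lit 4) (nat_lit 553) (nat_lit 337) (nat_lit 310)))) (XT.nd (nat_lit 60216) (nat_lit 0) (nat_lit 1140) (XT.nd (nat_lit 60138) (nat_lit 0) (nat_lit 1216) (XT.lf (nat_lit 0) (nat_lit 55654044660) (nat_lit 76) (nat_lit 4086931059) (nat_lit 76) (nat_lit 2144683239) (nat_lit 8) (nat_lit 4) (nat_lit 9) (nat_lit 5) (nat_lit 9) (nat_lit 4) (nat_lit 554) (nat_lit 337) (nat_lit 309)) (XT.lf (nat_lit 0) (nat_lit 269348087) (nat_lit 152) (nat_lit 14697292870) (nat_lit 0) (nat_lit 269348087) (nat_lit 24) (nat_lit 5) (nat_lit 26) (nat_lit 4) (nat_lit 24) (nat_lit 4) (nat_lit 524) (nat_lit 338) (nat_lit 338))) (XT.nd (nat_lit 78) (nat_lit 76) (nat_lit 0) (XT.lf (nat_lit 0) (nat_lit 9412240390) (nat_lit 152) (nat_lit 12412155529) (nat_lit 0) (nat_lit 9292245476) (nat_lit 24) (nat_lit 5) (nat_lit 26) (nat_lit 4) (nat_lit 24) (nat_lit 4) (nat_lit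 525) (nat_lit 338) (nat_lit 337)) (XT.lf (nat_lit 0) (nat_lit 4828796194) (nat_lit 76) (nat_lit 13596078999) (nat_lit 76) (nat_lit 13359584169) (nat_lit 23) (nat_lit 4) (nat_lit 24) (nat_lit 5) (nat_lit 24) (nat_lit 4) (nat_lit 526) (nat_lit 338) (nat_lit 336)))))) (XT.nd (nat_lit 624) (nat_lit 380) (nat_lit 0) (XT.nd (nat_lit 312) (nat_lit 228) (nat_lit 0) (XT.nd (nat_lit 156) (nat_lit 76) (nat_lit 0) (XT.nd (nat_lit 78) (nat_lit 152) (nat_lit 0) (XT.lf (nat_lit 0) (nat_lit 22499618995) (nat_lit 76) (nat_lit 5161844221) (nat_lit 76) (nat_lit 4812242677) (nat_lit 23) (nat_lit 4) (nat_lit 24) (nat_lit 5) (nat_lit 24) (nat_lit 4) (nat_lit 527) (nat_lit 338) (nat_lit 335)) (XT.lf (nat_lit 0) (nat_lit 3848608109) (nat_lit 152) (nat_lit 25933247276) (nat_lit 0) (nat_lit 3402575208) (nat_lit 21) (nat_lit 5) (nat_lit 23) (nat_lit 4) (nat_lit 21) (nat_lit 4) (nat_lit 528) (nat_lit 338) (nat_lit 334))) (XT.nd (nat_lit 78)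 (nat_lit 76) (nat_lit 0) (XT.lf (nat_lit 0) (nat_lit 12657099400) (nat_lit 152) (nat_lit 9150855480) (nat_lit 0) (nat_lit 12107557832) (nat_lit 21) (nat_lit 5) (nat_lit 23) (nat_lit 4) (nat_lit 21) (nat_lit 4) (nat_lit 529) (nat_lit 338) (nat_lit 333)) (XT.lf (nat_lit 0) (nat_lit 7964878032) (nat_lit 76) (nat_lit 13678145228) (nat_lit 76) (nat_lit 13028109810) (nat_lit 20) (nat_lit 4) (nat_lit 21) (nat_lit 5) (nat_lit 21) (nat_lit 4) (nat_lit 530) (nat_lit 338) (nat_lit 332)))) (XT.nd (nat_lit 156) (nat_lit 76) (nat_lit 0) (XT.nd (nat_lit 78) (nat_lit 152) (nat_lit 0) (XT.lf (nat_lit 0) (nat_lit 25459305322) (nat_lit 76) (nat_lit 5369899826) (nat_lit 76) (nat_lit 4622297562) (nat_lit 20) (nat_lit 4) (nat_lit 21) (nat_lit 5) (nat_lit 21) (nat_lit 4) (nat_lit 531) (nat_lit 338) (nat_lit 331)) (XT.lf (nat_lit 0) (nat_lit 3895881843) (nat_lit 152) (nat_lit 29281982206) (nat_lit 0) (nat_lit 3078088292) (nat_lit 18) (nat_lit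 5) (nat_lit 20) (nat_lit 4) (nat_lit 18) (nat_lit 4) (nat_lit 532) (nat_lit 338) (nat_lit 330))) (XT.nd (nat_lit 78) (nat_lit 76) (nat_lit 0) (XT.lf (nat_lit 0) (nat_lit 12573309698) (nat_lit 152) (nat_lit 12843726928) (nat_lit 0) (nat_lit 11666228663) (nat_lit 18) (nat_lit 5) (nat_lit 20) (nat_lit 4) (nat_lit 18) (nat_lit 4) (nat_lit 533) (nat_lit 338) (nat_lit 329)) (XT.lf (nat_lit 0) (nat_lit 3855889387) (nat_lit 76) (nat_lit 17538390267) (nat_lit 76) (nat_lit 16544622353) (nat_lit 17) (nat_lit 4) (nat_lit 18) (nat_lit 5) (nat_lit 18) (nat_lit 4) (nat_lit 534) (nat_lit 338) (nat_lit 328))))) (XT.nd (nat_lit 312) (nat_lit 228) (nat_lit 0) (XT.nd (nat_lit 156) (nat_lit 152) (nat_lit 0) (XT.nd (nat_lit 78) (nat_lit 0) (nat_lit 0) (XT.lf (nat_lit 0) (nat_lit 21015759181) (nat_lit 76) (nat_lit 9441528618) (nat_lit 76) (nat_lit 8363598686) (nat_lit 17) (nat_lit 4) (nat_lit 18) (nat_lit 5) (nat_lit 18) (nat_lit 4) (nat_lit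 535) (nat_lit 338) (nat_lit 327)) (XT.lf (nat_lit 0) (nat_lit 38395261163) (nat_lit 76) (nat_lit 1249073210) (nat_lit 76) (nat_lit 89432581) (nat_lit 17) (nat_lit 4) (nat_lit 18) (nat_lit 5) (nat_lit 18) (nat_lit 4) (nat_lit 536) (nat_lit 338) (nat_lit 326))) (XT.nd (nat_lit 78) (nat_lit 0) (nat_lit 0) (XT.lf (nat_lit 0) (nat_lit 8342959770) (nat_lit 152) (nat_lit 25186331367) (nat_lit 0) (nat_lit 7140074913) (nat_lit 15) (nat_lit 5) (nat_lit 17) (nat_lit 4) (nat_lit 15) (nat_lit 4) (nat_lit 537) (nat_lit 338) (nat_lit 325)) (XT.lf (nat_lit 0) (nat_lit 16907667532) (nat_lit 152) (nat_lit 9098899800) (nat_lit 0) (nat_lit 15630005812) (nat_lit 15) (nat_lit 5) (nat_lit 17) (nat_lit 4) (nat_lit 15) (nat_lit 4) (nat_lit 538) (nat_lit 338) (nat_lit 324)))) (XT.nd (nat_lit 156) (nat_lit 152) (nat_lit 0) (XT.nd (nat_lit 78) (nat_lit 0) (nat_lit 0) (XT.lf (nat_lit 0) (nat_lit 7333138774) (nat_lit 76) (nat_lit 18326012035)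 (nat_lit 76) (nat_lit 16975751419) (nat_lit 14) (nat_lit 4) (nat_lit 15) (nat_lit 5) (nat_lit 15) (nat_lit 4) (nat_lit 539) (nat_lit 338) (nat_lit 323)) (XT.lf (nat_lit 0) (nat_lit 24166301143) (nat_lit 76) (nat_lit 10459523214) (nat_lit 76) (nat_lit 9038778232) (nat_lit 14) (nat_lit 4) (nat_lit 15) (nat_lit 5) (nat_lit 15) (nat_lit 4) (nat_lit 540) (nat_lit 338) (nat_lit 322))) (XT.nd (nat_lit 78) (nat_lit 152) (nat_lit 0) (XT.lf (nat_lit 0) (nat_lit 41234209946) (nat_lit 76) (nat_lit 2492108286) (nat_lit 76) (nat_lit 1002931883) (nat_lit 14) (nat_lit 4) (nat_lit 15) (nat_lit 5) (nat_lit 15) (nat_lit 4) (nat_lit 541) (nat_lit 338) (nat_lit 321)) (XT.lf (nat_lit 0) (nat_lit 7179134878) (nat_lit 152) (nat_lit 32974363272) (nat_lit 0) (nat_lit 5668829365) (nat_lit 12) (nat_lit 5) (nat_lit 14) (nat_lit 4) (nat_lit 12) (nat_lit 4) (nat_lit 542) (nat_lit 338) (nat_lit 320))))))))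
noncomputable def xc4 : XT := (XT.nd (nat_lit 62244) (nat_lit 0) (nat_lit 0) (XT.nd (nat_lit 61074) (nat_lit 0) (nat_lit 456) (XT.nd (nat_lit 546) (nat_lit 76) (nat_lit 0) (XT.nd (nat_lit 234) (nat_lit 152) (nat_lit 0) (XT.nd (nat_lit 78) (nat_lit 76) (nat_lit 0) (XT.lf (nat_lit 0) (nat_lit 15514356434) (nat_lit 152) (nat_lit 17494281599) (nat_lit 0) (nat_lit 13941426476) (nat_lit 12) (nat_lit 5) (nat_lit 14) (nat_lit 4) (nat_lit 12) (nat_lit 4) (nat_lit 543) (nat_lit 338) (nat_lit 319)) (XT.nd (nat_lit 78) (nat_lit 76) (nat_lit 0) (XT.lf (nat_lit 0) (nat_lit 23971026775) (nat_lit 152) (nat_lit 1807169362) (nat_lit 0) (nat_lit 22337296384) (nat_lit 12) (nat_lit 5) (nat_lit 14) (nat_lit 4) (nat_lit 12) (nat_lit 4) (nat_lit 544) (nat_lit 338) (nat_lit 318)) (XT.lf (nat_lit 0) (nat_lit 14381311816) (nat_lit 76) (nat_lit 18313465374) (nat_lit 76) (nat_lit 16620705437) (nat_lit 11) (nat_lit 4) (nat_lit 12) (nat_lit 5)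 (nat_lit 12) (nat_lit 4) (nat_lit 545) (nat_lit 338) (nat_lit 317)))) (XT.nd (nat_lit 156) (nat_lit 152) (nat_lit 0) (XT.nd (nat_lit 78) (nat_lit 0) (nat_lit 0) (XT.lf (nat_lit 0) (nat_lit 30845066772) (nat_lit 76) (nat_lit 10729818559) (nat_lit 76) (nat_lit 8979748383) (nat_lit 11) (nat_lit 4) (nat_lit 12) (nat_lit 5) (nat_lit 12) (nat_lit 4) (nat_lit 546) (nat_lit 338) (nat_lit 316)) (XT.lf (nat_lit 0) (nat_lit 47562515097) (nat_lit 76) (nat_lit 3038878071) (nat_lit 76) (nat_lit 1233166886) (nat_lit 11) (nat_lit 4) (nat_lit 12) (nat_lit 5) (nat_lit 12) (nat_lit 4) (nat_lit 547) (nat_lit 338) (nat_lit 315))) (XT.nd (nat_lit 78) (nat_lit 0) (nat_lit 0) (XT.lf (nat_lit 0) (nat_lit 6655119906) (nat_lit 152) (nat_lit 41645035961) (nat_lit 0) (nat_lit 4849555264) (nat_lit 9) (nat_lit 5) (nat_lit 11) (nat_lit 4) (nat_lit 9) (nat_lit 4) (nat_lit 548) (nat_lit 338) (nat_lit 314)) (XT.lf (nat_lit 0) (nat_lit 14711324066)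 (nat_lit 152) (nat_lit 26939105307) (nat_lit 0) (nat_lit 12854840019) (nat_lit 9) (nat_lit 5) (nat_lit 11) (nat_lit 4) (nat_lit 9) (nat_lit 4) (nat_lit 549) (nat_lit 338) (nat_lit 313))))) (XT.nd (nat_lit 312) (nat_lit 0) (nat_lit 0) (XT.nd (nat_lit 156) (nat_lit 0) (nat_lit 0) (XT.nd (nat_lit 78) (nat_lit 76) (nat_lit 0) (XT.lf (nat_lit 0) (nat_lit 22895039491) (nat_lit 152) (nat_lit 12020761572) (nat_lit 0) (nat_lit 20989119128) (nat_lit 9) (nat_lit 5) (nat_lit 11) (nat_lit 4) (nat_lit 9) (nat_lit 4) (nat_lit 550) (nat_lit 338) (nat_lit 312)) (XT.lf (nat_lit 0) (nat_lit 3185185122) (nat_lit 76) (nat_lit 28058849826) (nat_lit 76) (nat_lit 26104933041) (nat_lit 8) (nat_lit 4) (nat_lit 9) (nat_lit 5) (nat_lit 9) (nat_lit 4) (nat_lit 551) (nat_lit 338) (nat_lit 311))) (XT.nd (nat_lit 78) (nat_lit 0) (nat_lit 0) (XT.lf (nat_lit 0) (nat_lit 18873799728) (nat_lit 76) (nat_lit 20981351861) (nat_lit 76) (nat_lit 18980836607)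 (nat_lit 8) (nat_lit 4) (nat_lit 9) (nat_lit 5) (nat_lit 9) (nat_lit 4) (nat_lit 552) (nat_lit 338) (nat_lit 310)) (XT.lf (nat_lit 0) (nat_lit 34819554018) (nat_lit 76) (nat_lit 13798509069) (nat_lit 76) (nat_lit 11752752583) (nat_lit 8) (nat_lit 4) (nat_lit 9) (nat_lit 5) (nat_lit 9) (nat_lit 4) (nat_lit 553) (nat_lit 338) (nat_lit 309)))) (XT.nd (nat_lit 60060) (nat_lit 0) (nat_lit 1216) (XT.nd (nat_lit 59982) (nat_lit 0) (nat_lit 1444) (XT.lf (nat_lit 0) (nat_lit 51036381174) (nat_lit 76) (nat_lit 6504045179) (nat_lit 76) (nat_lit 4414365168) (nat_lit 8) (nat_lit 4) (nat_lit 9) (nat_lit 5) (nat_lit 9) (nat_lit 4) (nat_lit 554) (nat_lit 338) (nat_lit 308)) (XT.lf (nat_lit 0) (nat_lit 6343448280) (nat_lit 152) (nat_lit 1928498205) (nat_lit 0) (nat_lit 6343448280) (nat_lit 27) (nat_lit 5) (nat_lit 29) (nat_lit 4) (nat_lit 27) (nat_lit 4) (nat_lit 522) (nat_lit 339) (nat_lit 339))) (XT.nd (nat_lit 78) (nat_lit 152)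 (nat_lit 0) (XT.lf (nat_lit 0) (nat_lit 13626095452) (nat_lit 76) (nat_lit 8171506505) (nat_lit 76) (nat_lit 8044203901) (nat_lit 26) (nat_lit 4) (nat_lit 27) (nat_lit 5) (nat_lit 27) (nat_lit 4) (nat_lit 523) (nat_lit 339) (nat_lit 338)) (XT.lf (nat_lit 0) (nat_lit 574242130) (nat_lit 152) (nat_lit 29569725621) (nat_lit 0) (nat_lit 330652456) (nat_lit 24) (nat_lit 5) (nat_lit 26) (nat_lit 4) (nat_lit 24) (nat_lit 4) (nat_lit 524) (nat_lit 339) (nat_lit 337)))))) (XT.nd (nat_lit 546) (nat_lit 456) (nat_lit 0) (XT.nd (nat_lit 234) (nat_lit 228) (nat_lit 0) (XT.nd (nat_lit 78) (nat_lit 76) (nat_lit 0) (XT.lf (nat_lit 0) (nat_lit 9362302069) (nat_lit 152) (nat_lit 12757334128) (nat_lit 0) (nat_lit 9002212479) (nat_lit 24) (nat_lit 5) (nat_lit 26) (nat_lit 4) (nat_lit 24) (nat_lit 4) (nat_lit 525) (nat_lit 339) (nat_lit 336)) (XT.nd (nat_lit 78) (nat_lit 0) (nat_lit 0) (XT.lf (nat_lit 0) (nat_lit 4308376192) (nat_lit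 76) (nat_lit 13978563642) (nat_lit 76) (nat_lit 13505367337) (nat_lit 23) (nat_lit 4) (nat_lit 24) (nat_lit 5) (nat_lit 24) (nat_lit 4) (nat_lit 526) (nat_lit 339) (nat_lit 335)) (XT.lf (nat_lit 0) (nat_lit 21815731350) (nat_lit 76) (nat_lit 5625648027) (nat_lit 76) (nat_lit 5042639378) (nat_lit 23) (nat_lit 4) (nat_lit 24) (nat_lit 5) (nat_lit 24) (nat_lit 4) (nat_lit 527) (nat_lit 339) (nat_lit 334)))) (XT.nd (nat_lit 156) (nat_lit 76) (nat_lit 0) (XT.nd (nat_lit 78) (nat_lit 0) (nat_lit 0) (XT.lf (nat_lit 0) (nat_lit 3528475634) (nat_lit 152) (nat_lit 26810222623) (nat_lit 0) (nat_lit 2858939153) (nat_lit 21) (nat_lit 5) (nat_lit 23) (nat_lit 4) (nat_lit 21) (nat_lit 4) (nat_lit 528) (nat_lit 339) (nat_lit 333)) (XT.lf (nat_lit 0) (nat_lit 12256481482) (nat_lit 152) (nat_lit 10188202007) (nat_lit 0) (nat_lit 11486451150) (nat_lit 21) (nat_lit 5) (nat_lit 23) (nat_lit 4) (nat_lit 21) (nat_lit 4) (nat_lit 529)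 (nat_lit 339) (nat_lit 332))) (XT.nd (nat_lit 78) (nat_lit 0) (nat_lit 0) (XT.lf (nat_lit 0) (nat_lit 6748087362) (nat_lit 76) (nat_lit 14404480238) (nat_lit 76) (nat_lit 13536883061) (nat_lit 20) (nat_lit 4) (nat_lit 21) (nat_lit 5) (nat_lit 21) (nat_lit 4) (nat_lit 530) (nat_lit 339) (nat_lit 331)) (XT.lf (nat_lit 0) (nat_lit 24088340950) (nat_lit 76) (nat_lit 6173061278) (nat_lit 76) (nat_lit 5210739007) (nat_lit 20) (nat_lit 4) (nat_lit 21) (nat_lit 5) (nat_lit 21) (nat_lit 4) (nat_lit 531) (nat_lit 339) (nat_lit 330))))) (XT.nd (nat_lit 312) (nat_lit 228) (nat_lit 0) (XT.nd (nat_lit 156) (nat_lit 76) (nat_lit 0) (XT.nd (nat_lit 78) (nat_lit 0) (nat_lit 0) (XT.lf (nat_lit 0) (nat_lit 3219364540) (nat_lit 152) (nat_lit 30864599672) (nat_lit 0) (nat_lit 2195783589) (nat_lit 18) (nat_lit 5) (nat_lit 20) (nat_lit 4) (nat_lit 18) (nat_lit 4) (nat_lit 532) (nat_lit 339) (nat_lit 329)) (XT.lf (nat_lit 0) (nat_lit 11821006237)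 (nat_lit 152) (nat_lit 14577590163) (nat_lit 0) (nat_lit 10710738407) (nat_lit 18) (nat_lit 5) (nat_lit 20) (nat_lit 4) (nat_lit 18) (nat_lit 4) (nat_lit 533) (nat_lit 339) (nat_lit 328))) (XT.nd (nat_lit 78) (nat_lit 0) (nat_lit 0) (XT.lf (nat_lit 0) (nat_lit 1937755908) (nat_lit 76) (nat_lit 18612203217) (nat_lit 76) (nat_lit 17417773369) (nat_lit 17) (nat_lit 4) (nat_lit 18) (nat_lit 5) (nat_lit 18) (nat_lit 4) (nat_lit 534) (nat_lit 339) (nat_lit 327)) (XT.lf (nat_lit 0) (nat_lit 18952224763) (nat_lit 76) (nat_lit 10587909101) (nat_lit 76) (nat_lit 9311768556) (nat_lit 17) (nat_lit 4) (nat_lit 18) (nat_lit 5) (nat_lit 18) (nat_lit 4) (nat_lit 535) (nat_lit 339) (nat_lit 326)))) (XT.nd (nat_lit 156) (nat_lit 76) (nat_lit 0) (XT.nd (nat_lit 78) (nat_lit 152) (nat_lit 0) (XT.lf (nat_lit 0) (nat_lit 36190560786) (nat_lit 76) (nat_lit 2465907608) (nat_lit 76) (nat_lit 1110436289) (nat_lit 17) (nat_lit 4) (nat_lit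 18) (nat_lit 5) (nat_lit 18) (nat_lit 4) (nat_lit 536) (nat_lit 339) (nat_lit 325)) (XT.lf (nat_lit 0) (nat_lit 7236658253) (nat_lit 152) (nat_lit 27623407187) (nat_lit 0) (nat_lit 5845889818) (nat_lit 15) (nat_lit 5) (nat_lit 17) (nat_lit 4) (nat_lit 15) (nat_lit 4) (nat_lit 537) (nat_lit 339) (nat_lit 324))) (XT.nd (nat_lit 78) (nat_lit 76) (nat_lit 0) (XT.lf (nat_lit 0) (nat_lit 15732077180) (nat_lit 152) (nat_lit 11674454384) (nat_lit 0) (nat_lit 14268709850) (nat_lit 15) (nat_lit 5) (nat_lit 17) (nat_lit 4) (nat_lit 15) (nat_lit 4) (nat_lit 538) (nat_lit 339) (nat_lit 323)) (XT.lf (nat_lit 0) (nat_lit 4569204477) (nat_lit 76) (nat_lit 19820516640) (nat_lit 76) (nat_lit 18286664944) (nat_lit 14) (nat_lit 4) (nat_lit 15) (nat_lit 5) (nat_lit 15) (nat_lit 4) (nat_lit 539) (nat_lit 339) (nat_lit 322))))))) (XT.nd (nat_lit 60918) (nat_lit 0) (nat_lit 760) (XT.nd (nat_lit 546) (nat_lit 228) (nat_lit 0) (XT.nd (nat_lit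 234) (nat_lit 76) (nat_lit 0) (XT.nd (nat_lit 78) (nat_lit 152) (nat_lit 0) (XT.lf (nat_lit 0) (nat_lit 21269239537) (nat_lit 76) (nat_lit 12020564055) (nat_lit 76) (nat_lit 10418280936) (nat_lit 14) (nat_lit 4) (nat_lit 15) (nat_lit 5) (nat_lit 15) (nat_lit 4) (nat_lit 540) (nat_lit 339) (nat_lit 321)) (XT.nd (nat_lit 78) (nat_lit 152) (nat_lit 0) (XT.lf (nat_lit 0) (nat_lit 38207898526) (nat_lit 76) (nat_lit 4117747414) (nat_lit 76) (nat_lit 2449026022) (nat_lit 14) (nat_lit 4) (nat_lit 15) (nat_lit 5) (nat_lit 15) (nat_lit 4) (nat_lit 541) (nat_lit 339) (nat_lit 320)) (XT.lf (nat_lit 0) (nat_lit 5649965170) (nat_lit 152) (nat_lit 36254317510) (nat_lit 0) (nat_lit 3967222868) (nat_lit 12) (nat_lit 5) (nat_lit 14) (nat_lit 4) (nat_lit 12) (nat_lit 4) (nat_lit 542) (nat_lit 339) (nat_lit 319)))) (XT.nd (nat_lit 156) (nat_lit 76) (nat_lit 0) (XT.nd (nat_lit 78) (nat_lit 0) (nat_lit 0) (XT.lf (nat_lit 0) (nat_lit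 13921833100) (nat_lit 152) (nat_lit 20901020017) (nat_lit 0) (nat_lit 12178290365) (nat_lit 12) (nat_lit 5) (nat_lit 14) (nat_lit 4) (nat_lit 12) (nat_lit 4) (nat_lit 543) (nat_lit 339) (nat_lit 318)) (XT.lf (nat_lit 0) (nat_lit 22316995064) (nat_lit 152) (nat_lit 5336999218) (nat_lit 0) (nat_lit 20514422784) (nat_lit 12) (nat_lit 5) (nat_lit 14) (nat_lit 4) (nat_lit 12) (nat_lit 4) (nat_lit 544) (nat_lit 339) (nat_lit 317))) (XT.nd (nat_lit 78) (nat_lit 0) (nat_lit 0) (XT.lf (nat_lit 0) (nat_lit 10659346765) (nat_lit 76) (nat_lit 20285904040) (nat_lit 76) (nat_lit 18426021520) (nat_lit 11) (nat_lit 4) (nat_lit 12) (nat_lit 5) (nat_lit 12) (nat_lit 4) (nat_lit 545) (nat_lit 339) (nat_lit 316)) (XT.lf (nat_lit 0) (nat_lit 27004767101) (nat_lit 76) (nat_lit 12761476797) (nat_lit 76) (nat_lit 10845953268) (nat_lit 11) (nat_lit 4) (nat_lit 12) (nat_lit 5) (nat_lit 12) (nat_lit 4) (nat_lit 546) (nat_lit 339) (nat_lit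 315))))) (XT.nd (nat_lit 312) (nat_lit 76) (nat_lit 0) (XT.nd (nat_lit 156) (nat_lit 0) (nat_lit 0) (XT.nd (nat_lit 78) (nat_lit 152) (nat_lit 0) (XT.lf (nat_lit 0) (nat_lit 43607327445) (nat_lit 76) (nat_lit 5128031039) (nat_lit 76) (nat_lit 3158487114) (nat_lit 11) (nat_lit 4) (nat_lit 12) (nat_lit 5) (nat_lit 12) (nat_lit 4) (nat_lit 547) (nat_lit 339) (nat_lit 314)) (XT.lf (nat_lit 0) (nat_lit 4649609049) (nat_lit 152) (nat_lit 45876964867) (nat_lit 0) (nat_lit 2686511075) (nat_lit 9) (nat_lit 5) (nat_lit 11) (nat_lit 4) (nat_lit 9) (nat_lit 4) (nat_lit 548) (nat_lit 339) (nat_lit 313))) (XT.nd (nat_lit 78) (nat_lit 0) (nat_lit 0) (XT.lf (nat_lit 0) (nat_lit 12649569435) (nat_lit 152) (nat_lit 31283726252) (nat_lit 0) (nat_lit 10637035146) (nat_lit 9) (nat_lit 5) (nat_lit 11) (nat_lit 4) (nat_lit 9) (nat_lit 4) (nat_lit 549) (nat_lit 339) (nat_lit 312)) (XT.lf (nat_lit 0) (nat_lit 20778679256) (nat_lit 152)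 (nat_lit 16474792264) (nat_lit 0) (nat_lit 18718148544) (nat_lit 9) (nat_lit 5) (nat_lit 11) (nat_lit 4) (nat_lit 9) (nat_lit 4) (nat_lit 550) (nat_lit 339) (nat_lit 311)))) (XT.nd (nat_lit 156) (nat_lit 0) (nat_lit 0) (XT.nd (nat_lit 78) (nat_lit 76) (nat_lit 0) (XT.lf (nat_lit 0) (nat_lit 29044041615) (nat_lit 152) (nat_lit 1437223058) (nat_lit 0) (nat_lit 26936912435) (nat_lit 9) (nat_lit 5) (nat_lit 11) (nat_lit 4) (nat_lit 9) (nat_lit 4) (nat_lit 551) (nat_lit 339) (nat_lit 310)) (XT.lf (nat_lit 0) (nat_lit 14117606338) (nat_lit 76) (nat_lit 23470979406) (nat_lit 76) (nat_lit 21318608994) (nat_lit 8) (nat_lit 4) (nat_lit 9) (nat_lit 5) (nat_lit 9) (nat_lit 4) (nat_lit 552) (nat_lit 339) (nat_lit 309))) (XT.nd (nat_lit 78) (nat_lit 0) (nat_lit 0) (XT.lf (nat_lit 0) (nat_lit 29961242518) (nat_lit 76) (nat_lit 16339301238) (nat_lit 76) (nat_lit 14143007299) (nat_lit 8) (nat_lit 4) (nat_lit 9) (nat_lit 5) (nat_lit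 9) (nat_lit 4) (nat_lit 553) (nat_lit 339) (nat_lit 308)) (XT.lf (nat_lit 0) (nat_lit 46078925879) (nat_lit 76) (nat_lit 9094511740) (nat_lit 76) (nat_lit 6855573601) (nat_lit 8) (nat_lit 4) (nat_lit 9) (nat_lit 5) (nat_lit 9) (nat_lit 4) (nat_lit 554) (nat_lit 339) (nat_lit 307)))))) (XT.nd (nat_lit 546) (nat_lit 380) (nat_lit 0) (XT.nd (nat_lit 234) (nat_lit 304) (nat_lit 0) (XT.nd (nat_lit 78) (nat_lit 152) (nat_lit 0) (XT.lf (nat_lit 0) (nat_lit 9294978466) (nat_lit 76) (nat_lit 2367788241) (nat_lit 76) (nat_lit 2367788241) (nat_lit 29) (nat_lit 4) (nat_lit 30) (nat_lit 5) (nat_lit 30) (nat_lit 4) (nat_lit 520) (nat_lit 340) (nat_lit 340)) (XT.nd (nat_lit 78) (nat_lit 0) (nat_lit 0) (XT.lf (nat_lit 0) (nat_lit 3931152338) (nat_lit 152) (nat_lit 20907633797) (nat_lit 0) (nat_lit 3800030656) (nat_lit 27) (nat_lit 5) (nat_lit 29) (nat_lit 4) (nat_lit 27) (nat_lit 4) (nat_lit 521) (nat_lit 340) (nat_lit 339)) (XT.lf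 (nat_lit 0) (nat_lit 12732427676) (nat_lit 152) (nat_lit 4026926877) (nat_lit 0) (nat_lit 12474003390) (nat_lit 27) (nat_lit 5) (nat_lit 29) (nat_lit 4) (nat_lit 27) (nat_lit 4) (nat_lit 522) (nat_lit 340) (nat_lit 338)))) (XT.nd (nat_lit 156) (nat_lit 76) (nat_lit 0) (XT.nd (nat_lit 78) (nat_lit 152) (nat_lit 0) (XT.lf (nat_lit 0) (nat_lit 13284518555) (nat_lit 76) (nat_lit 8472233433) (nat_lit 76) (nat_lit 8090214386) (nat_lit 26) (nat_lit 4) (nat_lit 27) (nat_lit 5) (nat_lit 27) (nat_lit 4) (nat_lit 523) (nat_lit 340) (nat_lit 337)) (XT.lf (nat_lit 0) (nat_lit 386744957) (nat_lit 76) (nat_lit 51067316) (nat_lit 152) (nat_lit 30044721869) (nat_lit 24) (nat_lit 5) (nat_lit 25) (nat_lit 5) (nat_lit 26) (nat_lit 4) (nat_lit 524) (nat_lit 340) (nat_lit 336))) (XT.nd (nat_lit 78) (nat_lit 76) (nat_lit 0) (XT.lf (nat_lit 0) (nat_lit 9142386880) (nat_lit 152) (nat_lit 13447992938) (nat_lit 0) (nat_lit 8541887971) (nat_lit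 24) (nat_lit 5) (nat_lit 26) (nat_lit 4) (nat_lit 24) (nat_lit 4) (nat_lit 525) (nat_lit 340) (nat_lit 335)) (XT.lf (nat_lit 0) (nat_lit 3440504274) (nat_lit 76) (nat_lit 14537600725) (nat_lit 76) (nat_lit 13827289472) (nat_lit 23) (nat_lit 4) (nat_lit 24) (nat_lit 5) (nat_lit 24) (nat_lit 4) (nat_lit 526) (nat_lit 340) (nat_lit 334))))) (XT.nd (nat_lit 312) (nat_lit 152) (nat_lit 0) (XT.nd (nat_lit 156) (nat_lit 76) (nat_lit 0) (XT.nd (nat_lit 78) (nat_lit 152) (nat_lit 0) (XT.lf (nat_lit 0) (nat_lit 20789152983) (nat_lit 76) (nat_lit 6263635753) (nat_lit 76) (nat_lit 5446710574) (nat_lit 23) (nat_lit 4) (nat_lit 24) (nat_lit 5) (nat_lit 24) (nat_lit 4) (nat_lit 527) (nat_lit 340) (nat_lit 333)) (XT.lf (nat_lit 0) (nat_lit 3035353736) (nat_lit 152) (nat_lit 28039060725) (nat_lit 0) (nat_lit 2141728644) (nat_lit 21) (nat_lit 5) (nat_lit 23) (nat_lit 4) (nat_lit 21) (nat_lit 4) (nat_lit 528) (nat_lit 340) (nat_lit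 332))) (XT.nd (nat_lit 78) (nat_lit 76) (nat_lit 0) (XT.lf (nat_lit 0) (nat_lit 11685218378) (nat_lit 152) (nat_lit 11572740284) (nat_lit 0) (nat_lit 10694026440) (nat_lit 21) (nat_lit 5) (nat_lit 23) (nat_lit 4) (nat_lit 21) (nat_lit 4) (nat_lit 529) (nat_lit 340) (nat_lit 331)) (XT.lf (nat_lit 0) (nat_lit 5181820356) (nat_lit 76) (nat_lit 15308562976) (nat_lit 76) (nat_lit 14222645945) (nat_lit 20) (nat_lit 4) (nat_lit 21) (nat_lit 5) (nat_lit 21) (nat_lit 4) (nat_lit 530) (nat_lit 340) (nat_lit 330)))) (XT.nd (nat_lit 156) (nat_lit 0) (nat_lit 0) (XT.nd (nat_lit 78) (nat_lit 152) (nat_lit 0) (XT.lf (nat_lit 0) (nat_lit 22372390737) (nat_lit 76) (nat_lit 7151732793) (nat_lit 76) (nat_lit 5973849653) (nat_lit 20) (nat_lit 4) (nat_lit 21) (nat_lit 5) (nat_lit 21) (nat_lit 4) (nat_lit 531) (nat_lit 340) (nat_lit 329)) (XT.lf (nat_lit 0) (nat_lit 2368705816) (nat_lit 152) (nat_lit 32801724572) (nat_lit 0) (nat_lit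 1138443072) (nat_lit 18) (nat_lit 5) (nat_lit 20) (nat_lit 4) (nat_lit 18) (nat_lit 4) (nat_lit 532) (nat_lit 340) (nat_lit 328))) (XT.nd (nat_lit 78) (nat_lit 0) (nat_lit 0) (XT.lf (nat_lit 0) (nat_lit 10896768717) (nat_lit 152) (nat_lit 16661555614) (nat_lit 0) (nat_lit 9582343956) (nat_lit 18) (nat_lit 5) (nat_lit 20) (nat_lit 4) (nat_lit 18) (nat_lit 4) (nat_lit 533) (nat_lit 340) (nat_lit 327)) (XT.lf (nat_lit 0) (nat_lit 19535658988) (nat_lit 152) (nat_lit 326585782) (nat_lit 0) (nat_lit 18139523530) (nat_lit 18) (nat_lit 5) (nat_lit 20) (nat_lit 4) (nat_lit 18) (nat_lit 4) (nat_lit 534) (nat_lit 340) (nat_lit 326))))))))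
noncomputable def xc5 : XT := (XT.nd (nat_lit 61932) (nat_lit 0) (nat_lit 0) (XT.nd (nat_lit 1170) (nat_lit 76) (nat_lit 0) (XT.nd (nat_lit 546) (nat_lit 380) (nat_lit 0) (XT.nd (nat_lit 234) (nat_lit 76) (nat_lit 0) (XT.nd (nat_lit 78) (nat_lit 152) (nat_lit 0) (XT.lf (nat_lit 0) (nat_lit 16540217415) (nat_lit 76) (nat_lit 11911702445) (nat_lit 76) (nat_lit 10436236213) (nat_lit 17) (nat_lit 4) (nat_lit 18) (nat_lit 5) (nat_lit 18) (nat_lit 4) (nat_lit 535) (nat_lit 340) (nat_lit 325)) (XT.nd (nat_lit 78) (nat_lit 152) (nat_lit 0) (XT.lf (nat_lit 0) (nat_lit 33641499108) (nat_lit 76) (nat_lit 3858102812) (nat_lit 76) (nat_lit 2305616411) (nat_lit 17) (nat_lit 4) (nat_lit 18) (nat_lit 5) (nat_lit 18) (nat_lit 4) (nat_lit 536) (nat_lit 340) (nat_lit 324)) (XT.lf (nat_lit 0) (nat_lit 5956511356) (nat_lit 152) (nat_lit 30414707171) (nat_lit 0) (nat_lit 4376644109) (nat_lit 15) (nat_lit 5) (nat_lit 17) (nat_lit 4) (nat_lit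 15) (nat_lit 4) (nat_lit 537) (nat_lit 340) (nat_lit 323)))) (XT.nd (nat_lit 156) (nat_lit 0) (nat_lit 0) (XT.nd (nat_lit 78) (nat_lit 76) (nat_lit 0) (XT.lf (nat_lit 0) (nat_lit 14384659571) (nat_lit 152) (nat_lit 14600199768) (nat_lit 0) (nat_lit 12734307959) (nat_lit 15) (nat_lit 5) (nat_lit 17) (nat_lit 4) (nat_lit 15) (nat_lit 4) (nat_lit 538) (nat_lit 340) (nat_lit 322)) (XT.lf (nat_lit 0) (nat_lit 1452103714) (nat_lit 76) (nat_lit 21494924942) (nat_lit 76) (nat_lit 19776141907) (nat_lit 14) (nat_lit 4) (nat_lit 15) (nat_lit 5) (nat_lit 15) (nat_lit 4) (nat_lit 539) (nat_lit 340) (nat_lit 321))) (XT.nd (nat_lit 78) (nat_lit 0) (nat_lit 0) (XT.lf (nat_lit 0) (nat_lit 18022888960) (nat_lit 76) (nat_lit 13759570643) (nat_lit 76) (nat_lit 11974349335) (nat_lit 14) (nat_lit 4) (nat_lit 15) (nat_lit 5) (nat_lit 15) (nat_lit 4) (nat_lit 540) (nat_lit 340) (nat_lit 320)) (XT.lf (nat_lit 0) (nat_lit 34836062693) (nat_lit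 76) (nat_lit 5919470786) (nat_lit 76) (nat_lit 4069746299) (nat_lit 14) (nat_lit 4) (nat_lit 15) (nat_lit 5) (nat_lit 15) (nat_lit 4) (nat_lit 541) (nat_lit 340) (nat_lit 319))))) (XT.nd (nat_lit 312) (nat_lit 152) (nat_lit 0) (XT.nd (nat_lit 156) (nat_lit 76) (nat_lit 0) (XT.nd (nat_lit 78) (nat_lit 0) (nat_lit 0) (XT.lf (nat_lit 0) (nat_lit 3946312508) (nat_lit 152) (nat_lit 39890042263) (nat_lit 0) (nat_lit 2089663059) (nat_lit 12) (nat_lit 5) (nat_lit 14) (nat_lit 4) (nat_lit 12) (nat_lit 4) (nat_lit 542) (nat_lit 340) (nat_lit 318)) (XT.lf (nat_lit 0) (nat_lit 12156672062) (nat_lit 152) (nat_lit 24659836207) (nat_lit 0) (nat_lit 10240993067) (nat_lit 12) (nat_lit 5) (nat_lit 14) (nat_lit 4) (nat_lit 12) (nat_lit 4) (nat_lit 543) (nat_lit 340) (nat_lit 317))) (XT.nd (nat_lit 78) (nat_lit 76) (nat_lit 0) (XT.lf (nat_lit 0) (nat_lit 20492117158) (nat_lit 152) (nat_lit 9215321658) (nat_lit 0) (nat_lit 18519127923)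 (nat_lit 12) (nat_lit 5) (nat_lit 14) (nat_lit 4) (nat_lit 12) (nat_lit 4) (nat_lit 544) (nat_lit 340) (nat_lit 316)) (XT.lf (nat_lit 0) (nat_lit 6585503483) (nat_lit 76) (nat_lit 22437731598) (nat_lit 76) (nat_lit 20409101355) (nat_lit 11) (nat_lit 4) (nat_lit 12) (nat_lit 5) (nat_lit 12) (nat_lit 4) (nat_lit 545) (nat_lit 340) (nat_lit 315)))) (XT.nd (nat_lit 156) (nat_lit 152) (nat_lit 0) (XT.nd (nat_lit 78) (nat_lit 0) (nat_lit 0) (XT.lf (nat_lit 0) (nat_lit 22816035838) (nat_lit 76) (nat_lit 14970799085) (nat_lit 76) (nat_lit 12888148445) (nat_lit 11) (nat_lit 4) (nat_lit 12) (nat_lit 5) (nat_lit 12) (nat_lit 4) (nat_lit 546) (nat_lit 340) (nat_lit 314)) (XT.lf (nat_lit 0) (nat_lit 39307054454) (nat_lit 76) (nat_lit 7393173454) (nat_lit 76) (nat_lit 5258075827) (nat_lit 11) (nat_lit 4) (nat_lit 12) (nat_lit 5) (nat_lit 12) (nat_lit 4) (nat_lit 547) (nat_lit 340) (nat_lit 313))) (XT.nd (nat_lit 78) (nat_lit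 0) (nat_lit 0) (XT.lf (nat_lit 0) (nat_lit 2469758006) (nat_lit 152) (nat_lit 50464616479) (nat_lit 0) (nat_lit 347411373) (nat_lit 9) (nat_lit 5) (nat_lit 11) (nat_lit 4) (nat_lit 9) (nat_lit 4) (nat_lit 548) (nat_lit 340) (nat_lit 312)) (XT.lf (nat_lit 0) (nat_lit 10415112788) (nat_lit 152) (nat_lit 35980787611) (nat_lit 0) (nat_lit 8244769732) (nat_lit 9) (nat_lit 5) (nat_lit 11) (nat_lit 4) (nat_lit 9) (nat_lit 4) (nat_lit 549) (nat_lit 340) (nat_lit 311)))))) (XT.nd (nat_lit 60138) (nat_lit 0) (nat_lit 1140) (XT.nd (nat_lit 234) (nat_lit 0) (nat_lit 0) (XT.nd (nat_lit 78) (nat_lit 76) (nat_lit 0) (XT.lf (nat_lit 0) (nat_lit 18491207458) (nat_lit 152) (nat_lit 21278076678) (nat_lit 0) (nat_lit 16274265933) (nat_lit 9) (nat_lit 5) (nat_lit 11) (nat_lit 4) (nat_lit 9) (nat_lit 4) (nat_lit 550) (nat_lit 340) (nat_lit 310)) (XT.nd (nat_lit 78) (nat_lit 76) (nat_lit 0) (XT.lf (nat_lit 0) (nat_lit 26705098798) (nat_lit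 152) (nat_lit 6343636651) (nat_lit 0) (nat_lit 24442916042) (nat_lit 9) (nat_lit 5) (nat_lit 11) (nat_lit 4) (nat_lit 9) (nat_lit 4) (nat_lit 551) (nat_lit 340) (nat_lit 309)) (XT.lf (nat_lit 0) (nat_lit 9011427384) (nat_lit 76) (nat_lit 26139159963) (nat_lit 76) (nat_lit 23833053680) (nat_lit 8) (nat_lit 4) (nat_lit 9) (nat_lit 5) (nat_lit 9) (nat_lit 4) (nat_lit 552) (nat_lit 340) (nat_lit 308)))) (XT.nd (nat_lit 59748) (nat_lit 0) (nat_lit 1596) (XT.nd (nat_lit 78) (nat_lit 0) (nat_lit 0) (XT.lf (nat_lit 0) (nat_lit 24755919769) (nat_lit 76) (nat_lit 19057156187) (nat_lit 76) (nat_lit 16708405704) (nat_lit 8) (nat_lit 4) (nat_lit 9) (nat_lit 5) (nat_lit 9) (nat_lit 4) (nat_lit 553) (nat_lit 340) (nat_lit 307)) (XT.lf (nat_lit 0) (nat_lit 40777347018) (nat_lit 76) (nat_lit 11860594254) (nat_lit 76) (nat_lit 9470441635) (nat_lit 8) (nat_lit 4) (nat_lit 9) (nat_lit 5) (nat_lit 9) (nat_lit 4) (nat_lit 554) (nat_lit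 340) (nat_lit 306))) (XT.nd (nat_lit 78) (nat_lit 76) (nat_lit 0) (XT.lf (nat_lit 0) (nat_lit 2788234459) (nat_lit 152) (nat_lit 7900978904) (nat_lit 0) (nat_lit 2788234459) (nat_lit 30) (nat_lit 5) (nat_lit 32) (nat_lit 4) (nat_lit 30) (nat_lit 4) (nat_lit 518) (nat_lit 341) (nat_lit 341)) (XT.lf (nat_lit 0) (nat_lit 1065619466) (nat_lit 76) (nat_lit 13287191441) (nat_lit 76) (nat_lit 13148084448) (nat_lit 29) (nat_lit 4) (nat_lit 30) (nat_lit 5) (nat_lit 30) (nat_lit 4) (nat_lit 519) (nat_lit 341) (nat_lit 340))))) (XT.nd (nat_lit 312) (nat_lit 228) (nat_lit 0) (XT.nd (nat_lit 156) (nat_lit 76) (nat_lit 0) (XT.nd (nat_lit 78) (nat_lit 152) (nat_lit 0) (XT.lf (nat_lit 0) (nat_lit 18421809582) (nat_lit 76) (nat_lit 4958004089) (nat_lit 76) (nat_lit 4683841764) (nat_lit 29) (nat_lit 4) (nat_lit 30) (nat_lit 5) (nat_lit 30) (nat_lit 4) (nat_lit 520) (nat_lit 341) (nat_lit 339)) (XT.lf (nat_lit 0) (nat_lit 3892458819)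 (nat_lit 152) (nat_lit 21252592644) (nat_lit 0) (nat_lit 3498979202) (nat_lit 27) (nat_lit 5) (nat_lit 29) (nat_lit 4) (nat_lit 27) (nat_lit 4) (nat_lit 521) (nat_lit 341) (nat_lit 338))) (XT.nd (nat_lit 78) (nat_lit 76) (nat_lit 0) (XT.lf (nat_lit 0) (nat_lit 12610636519) (nat_lit 152) (nat_lit 4536866758) (nat_lit 0) (nat_lit 12093562141) (nat_lit 27) (nat_lit 5) (nat_lit 29) (nat_lit 4) (nat_lit 27) (nat_lit 4) (nat_lit 522) (nat_lit 341) (nat_lit 337)) (XT.lf (nat_lit 0) (nat_lit 12601066296) (nat_lit 76) (nat_lit 8946647456) (nat_lit 76) (nat_lit 8309578164) (nat_lit 26) (nat_lit 4) (nat_lit 27) (nat_lit 5) (nat_lit 27) (nat_lit 4) (nat_lit 523) (nat_lit 341) (nat_lit 336)))) (XT.nd (nat_lit 156) (nat_lit 76) (nat_lit 0) (XT.nd (nat_lit 78) (nat_lit 76) (nat_lit 0) (XT.lf (nat_lit 0) (nat_lit 138368101) (nat_lit 152) (nat_lit 472681960) (nat_lit 76) (nat_lit 29884404329) (nat_lit 25) (nat_lit 5) (nat_lit 27)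 (nat_lit 5) (nat_lit 26) (nat_lit 4) (nat_lit 524) (nat_lit 341) (nat_lit 335)) (XT.lf (nat_lit 0) (nat_lit 8752302661) (nat_lit 152) (nat_lit 14484735448) (nat_lit 0) (nat_lit 7910869727) (nat_lit 24) (nat_lit 5) (nat_lit 26) (nat_lit 4) (nat_lit 24) (nat_lit 4) (nat_lit 525) (nat_lit 341) (nat_lit 334))) (XT.nd (nat_lit 78) (nat_lit 0) (nat_lit 0) (XT.lf (nat_lit 0) (nat_lit 2224422106) (nat_lit 76) (nat_lit 15273678726) (nat_lit 76) (nat_lit 14325631865) (nat_lit 23) (nat_lit 4) (nat_lit 24) (nat_lit 5) (nat_lit 24) (nat_lit 4) (nat_lit 526) (nat_lit 341) (nat_lit 333)) (XT.lf (nat_lit 0) (nat_lit 19418986883) (nat_lit 76) (nat_lit 7076364865) (nat_lit 76) (nat_lit 6024809338) (nat_lit 23) (nat_lit 4) (nat_lit 24) (nat_lit 5) (nat_lit 24) (nat_lit 4) (nat_lit 527) (nat_lit 341) (nat_lit 332))))))) (XT.nd (nat_lit 1170) (nat_lit 304) (nat_lit 0) (XT.nd (nat_lit 546) (nat_lit 456) (nat_lit 0) (XT.nd (nat_lit 234)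 (nat_lit 152) (nat_lit 0) (XT.nd (nat_lit 78) (nat_lit 76) (nat_lit 0) (XT.lf (nat_lit 0) (nat_lit 2368811533) (nat_lit 152) (nat_lit 29620835326) (nat_lit 0) (nat_lit 1250316991) (nat_lit 21) (nat_lit 5) (nat_lit 23) (nat_lit 4) (nat_lit 21) (nat_lit 4) (nat_lit 528) (nat_lit 341) (nat_lit 331)) (XT.nd (nat_lit 78) (nat_lit 76) (nat_lit 0) (XT.lf (nat_lit 0) (nat_lit 10942810927) (nat_lit 152) (nat_lit 13305680103) (nat_lit 0) (nat_lit 9729591292) (nat_lit 21) (nat_lit 5) (nat_lit 23) (nat_lit 4) (nat_lit 21) (nat_lit 4) (nat_lit 529) (nat_lit 341) (nat_lit 330)) (XT.lf (nat_lit 0) (nat_lit 3264708430) (nat_lit 76) (nat_lit 16391183416) (nat_lit 76) (nat_lit 15085997671) (nat_lit 20) (nat_lit 4) (nat_lit 21) (nat_lit 5) (nat_lit 21) (nat_lit 4) (nat_lit 530) (nat_lit 341) (nat_lit 329)))) (XT.nd (nat_lit 156) (nat_lit 0) (nat_lit 0) (XT.nd (nat_lit 78) (nat_lit 152) (nat_lit 0) (XT.lf (nat_lit 0) (nat_lit 20309955310)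 (nat_lit 76) (nat_lit 8306769523) (nat_lit 76) (nat_lit 6912296294) (nat_lit 20) (nat_lit 4) (nat_lit 21) (nat_lit 5) (nat_lit 21) (nat_lit 4) (nat_lit 531) (nat_lit 341) (nat_lit 328)) (XT.lf (nat_lit 0) (nat_lit 1247347359) (nat_lit 76) (nat_lit 96744988) (nat_lit 152) (nat_lit 34999234521) (nat_lit 18) (nat_lit 5) (nat_lit 19) (nat_lit 5) (nat_lit 20) (nat_lit 4) (nat_lit 532) (nat_lit 341) (nat_lit 327))) (XT.nd (nat_lit 78) (nat_lit 0) (nat_lit 0) (XT.lf (nat_lit 0) (nat_lit 9799789554) (nat_lit 152) (nat_lit 19097444223) (nat_lit 0) (nat_lit 8280059335) (nat_lit 18) (nat_lit 5) (nat_lit 20) (nat_lit 4) (nat_lit 18) (nat_lit 4) (nat_lit 533) (nat_lit 341) (nat_lit 326)) (XT.lf (nat_lit 0) (nat_lit 18369324754) (nat_lit 152) (nat_lit 2900885695) (nat_lit 0) (nat_lit 16770263761) (nat_lit 18) (nat_lit 5) (nat_lit 20) (nat_lit 4) (nat_lit 18) (nat_lit 4) (nat_lit 534) (nat_lit 341) (nat_lit 325))))) (XT.nd (nat_lit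 312) (nat_lit 228) (nat_lit 0) (XT.nd (nat_lit 156) (nat_lit 152) (nat_lit 0) (XT.nd (nat_lit 78) (nat_lit 0) (nat_lit 0) (XT.lf (nat_lit 0) (nat_lit 13777629557) (nat_lit 76) (nat_lit 13414065364) (nat_lit 76) (nat_lit 11737984202) (nat_lit 17) (nat_lit 4) (nat_lit 18) (nat_lit 5) (nat_lit 18) (nat_lit 4) (nat_lit 535) (nat_lit 341) (nat_lit 324)) (XT.lf (nat_lit 0) (nat_lit 30745848793) (nat_lit 76) (nat_lit 5426875303) (nat_lit 76) (nat_lit 3676017278) (nat_lit 17) (nat_lit 4) (nat_lit 18) (nat_lit 5) (nat_lit 18) (nat_lit 4) (nat_lit 536) (nat_lit 341) (nat_lit 323))) (XT.nd (nat_lit 78) (nat_lit 0) (nat_lit 0) (XT.lf (nat_lit 0) (nat_lit 4501400505) (nat_lit 152) (nat_lit 33562670317) (nat_lit 0) (nat_lit 2731053980) (nat_lit 15) (nat_lit 5) (nat_lit 17) (nat_lit 4) (nat_lit 15) (nat_lit 4) (nat_lit 537) (nat_lit 341) (nat_lit 322)) (XT.lf (nat_lit 0) (nat_lit 12864237348) (nat_lit 152) (nat_lit 17878692429)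 (nat_lit 0) (nat_lit 11025459400) (nat_lit 15) (nat_lit 5) (nat_lit 17) (nat_lit 4) (nat_lit 15) (nat_lit 4) (nat_lit 538) (nat_lit 341) (nat_lit 321)))) (XT.nd (nat_lit 156) (nat_lit 152) (nat_lit 0) (XT.nd (nat_lit 78) (nat_lit 76) (nat_lit 0) (XT.lf (nat_lit 0) (nat_lit 21349238825) (nat_lit 152) (nat_lit 1981452405) (nat_lit 0) (nat_lit 19444022603) (nat_lit 15) (nat_lit 5) (nat_lit 17) (nat_lit 4) (nat_lit 15) (nat_lit 4) (nat_lit 539) (nat_lit 341) (nat_lit 320)) (XT.lf (nat_lit 0) (nat_lit 14424412796) (nat_lit 76) (nat_lit 15678062499) (nat_lit 76) (nat_lit 13708343099) (nat_lit 14) (nat_lit 4) (nat_lit 15) (nat_lit 5) (nat_lit 15) (nat_lit 4) (nat_lit 540) (nat_lit 341) (nat_lit 319))) (XT.nd (nat_lit 78) (nat_lit 152) (nat_lit 0) (XT.lf (nat_lit 0) (nat_lit 31115756182) (nat_lit 76) (nat_lit 7898852723) (nat_lit 76) (nat_lit 5866508877) (nat_lit 14) (nat_lit 4) (nat_lit 15) (nat_lit 5) (nat_lit 15) (nat_lit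 4) (nat_lit 541) (nat_lit 341) (nat_lit 318)) (XT.lf (nat_lit 0) (nat_lit 2066688264) (nat_lit 152) (nat_lit 43884714376) (nat_lit 0) (nat_lit 34509353) (nat_lit 12) (nat_lit 5) (nat_lit 14) (nat_lit 4) (nat_lit 12) (nat_lit 4) (nat_lit 542) (nat_lit 341) (nat_lit 317)))))) (XT.nd (nat_lit 624) (nat_lit 76) (nat_lit 0) (XT.nd (nat_lit 312) (nat_lit 152) (nat_lit 0) (XT.nd (nat_lit 156) (nat_lit 76) (nat_lit 0) (XT.nd (nat_lit 78) (nat_lit 0) (nat_lit 0) (XT.lf (nat_lit 0) (nat_lit 10217330949) (nat_lit 152) (nat_lit 28774014571) (nat_lit 0) (nat_lit 8127841799) (nat_lit 12) (nat_lit 5) (nat_lit 14) (nat_lit 4) (nat_lit 12) (nat_lit 4) (nat_lit 543) (nat_lit 341) (nat_lit 316)) (XT.lf (nat_lit 0) (nat_lit 18494798501) (nat_lit 152) (nat_lit 13445525508) (nat_lit 0) (nat_lit 16349668342) (nat_lit 12) (nat_lit 5) (nat_lit 14) (nat_lit 4) (nat_lit 12) (nat_lit 4) (nat_lit 544) (nat_lit 341) (nat_lit 315))) (XT.nd (nat_lit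 78) (nat_lit 0) (nat_lit 0) (XT.lf (nat_lit 0) (nat_lit 2156222302) (nat_lit 76) (nat_lit 24770828285) (nat_lit 76) (nat_lit 22571677729) (nat_lit 11) (nat_lit 4) (nat_lit 12) (nat_lit 5) (nat_lit 12) (nat_lit 4) (nat_lit 545) (nat_lit 341) (nat_lit 314)) (XT.lf (nat_lit 0) (nat_lit 18275212928) (nat_lit 76) (nat_lit 17359715899) (nat_lit 76) (nat_lit 15108118356) (nat_lit 11) (nat_lit 4) (nat_lit 12) (nat_lit 5) (nat_lit 12) (nat_lit 4) (nat_lit 546) (nat_lit 341) (nat_lit 313)))) (XT.nd (nat_lit 156) (nat_lit 76) (nat_lit 0) (XT.nd (nat_lit 78) (nat_lit 76) (nat_lit 0) (XT.lf (nat_lit 0) (nat_lit 34657938603) (nat_lit 76) (nat_lit 9836284566) (nat_lit 76) (nat_lit 7533767618) (nat_lit 11) (nat_lit 4) (nat_lit 12) (nat_lit 5) (nat_lit 12) (nat_lit 4) (nat_lit 547) (nat_lit 341) (nat_lit 312)) (XT.lf (nat_lit 0) (nat_lit 154909839) (nat_lit 152) (nat_lit 2037486288) (nat_lit 76) (nat_lit 51162240204) (nat_lit 10)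 (nat_lit 5) (nat_lit 12) (nat_lit 5) (nat_lit 11) (nat_lit 4) (nat_lit 548) (nat_lit 341) (nat_lit 311))) (XT.nd (nat_lit 78) (nat_lit 0) (nat_lit 0) (XT.lf (nat_lit 0) (nat_lit 8006001686) (nat_lit 152) (nat_lit 41034393612) (nat_lit 0) (nat_lit 5675953447) (nat_lit 9) (nat_lit 5) (nat_lit 11) (nat_lit 4) (nat_lit 9) (nat_lit 4) (nat_lit 549) (nat_lit 341) (nat_lit 310)) (XT.lf (nat_lit 0) (nat_lit 16030625337) (nat_lit 152) (nat_lit 26434811859) (nat_lit 0) (nat_lit 13655335866) (nat_lit 9) (nat_lit 5) (nat_lit 11) (nat_lit 4) (nat_lit 9) (nat_lit 4) (nat_lit 550) (nat_lit 341) (nat_lit 309))))) (XT.nd (nat_lit 59748) (nat_lit 0) (nat_lit 1596) (XT.nd (nat_lit 156) (nat_lit 0) (nat_lit 0) (XT.nd (nat_lit 78) (nat_lit 76) (nat_lit 0) (XT.lf (nat_lit 0) (nat_lit 24194544813) (nat_lit 152) (nat_lit 11600497250) (nat_lit 0) (nat_lit 21775331816) (nat_lit 9) (nat_lit 5) (nat_lit 11) (nat_lit 4) (nat_lit 9) (nat_lit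 4) (nat_lit 551) (nat_lit 341) (nat_lit 308)) (XT.lf (nat_lit 0) (nat_lit 3550801157) (nat_lit 76) (nat_lit 28988224952) (nat_lit 76) (nat_lit 26526367755) (nat_lit 8) (nat_lit 4) (nat_lit 9) (nat_lit 5) (nat_lit 9) (nat_lit 4) (nat_lit 552) (nat_lit 341) (nat_lit 307))) (XT.nd (nat_lit 78) (nat_lit 0) (nat_lit 0) (XT.lf (nat_lit 0) (nat_lit 19199037430) (nat_lit 76) (nat_lit 21954448741) (nat_lit 76) (nat_lit 19451189408) (nat_lit 8) (nat_lit 4) (nat_lit 9) (nat_lit 5) (nat_lit 9) (nat_lit 4) (nat_lit 553) (nat_lit 341) (nat_lit 306)) (XT.lf (nat_lit 0) (nat_lit 35127012143) (nat_lit 76) (nat_lit 14804709687) (nat_lit 76) (nat_lit 12261254105) (nat_lit 8) (nat_lit 4) (nat_lit 9) (nat_lit 5) (nat_lit 9) (nat_lit 4) (nat_lit 554) (nat_lit 341) (nat_lit 305)))) (XT.nd (nat_lit 156) (nat_lit 228) (nat_lit 0) (XT.nd (nat_lit 78) (nat_lit 0) (nat_lit 0) (XT.lf (nat_lit 0) (nat_lit 1594347677) (nat_lit 76) (nat_lit 5680030043)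 (nat_lit 76) (nat_lit 5680030043) (nat_lit 32) (nat_lit 4) (nat_lit 33) (nat_lit 5) (nat_lit 33) (nat_lit 4) (nat_lit 516) (nat_lit 342) (nat_lit 342)) (XT.lf (nat_lit 0) (nat_lit 20422330807) (nat_lit 76) (nat_lit 3075651334) (nat_lit 76) (nat_lit 2928072726) (nat_lit 32) (nat_lit 4) (nat_lit 33) (nat_lit 5) (nat_lit 33) (nat_lit 4) (nat_lit 517) (nat_lit 342) (nat_lit 341))) (XT.nd (nat_lit 78) (nat_lit 76) (nat_lit 0) (XT.lf (nat_lit 0) (nat_lit 5634042407) (nat_lit 152) (nat_lit 15971769985) (nat_lit 0) (nat_lit 5351655213) (nat_lit 30) (nat_lit 5) (nat_lit 32) (nat_lit 4) (nat_lit 30) (nat_lit 4) (nat_lit 518) (nat_lit 342) (nat_lit 340)) (XT.lf (nat_lit 0) (nat_lit 724280344) (nat_lit 76) (nat_lit 13599612490) (nat_lit 76) (nat_lit 13182169963) (nat_lit 29) (nat_lit 4) (nat_lit 30) (nat_lit 5) (nat_lit 30) (nat_lit 4) (nat_lit 519) (nat_lit 342) (nat_lit 339))))))))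
noncomputable def xc6 : XT := (XT.nd (nat_lit 2340) (nat_lit 76) (nat_lit 0) (XT.nd (nat_lit 1170) (nat_lit 684) (nat_lit 0) (XT.nd (nat_lit 546) (nat_lit 380) (nat_lit 0) (XT.nd (nat_lit 234) (nat_lit 304) (nat_lit 0) (XT.nd (nat_lit 78) (nat_lit 152) (nat_lit 0) (XT.lf (nat_lit 0) (nat_lit 17917220605) (nat_lit 76) (nat_lit 5351318938) (nat_lit 76) (nat_lit 4802754730) (nat_lit 29) (nat_lit 4) (nat_lit 30) (nat_lit 5) (nat_lit 30) (nat_lit 4) (nat_lit 520) (nat_lit 342) (nat_lit 338)) (XT.nd (nat_lit 78) (nat_lit 0) (nat_lit 0) (XT.lf (nat_lit 0) (nat_lit 3683916291) (nat_lit 152) (nat_lit 21942811757) (nat_lit 0) (nat_lit 3027734920) (nat_lit 27) (nat_lit 5) (nat_lit 29) (nat_lit 4) (nat_lit 27) (nat_lit 4) (nat_lit 521) (nat_lit 342) (nat_lit 337)) (XT.lf (nat_lit 0) (nat_lit 12321416673) (nat_lit 152) (nat_lit 5387261634) (nat_lit 0) (nat_lit 11545240389) (nat_lit 27) (nat_lit 5) (nat_lit 29) (nat_lit 4) (nat_lit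 27) (nat_lit 4) (nat_lit 522) (nat_lit 342) (nat_lit 336)))) (XT.nd (nat_lit 156) (nat_lit 228) (nat_lit 0) (XT.nd (nat_lit 78) (nat_lit 0) (nat_lit 0) (XT.lf (nat_lit 0) (nat_lit 11575141483) (nat_lit 76) (nat_lit 9595163112) (nat_lit 76) (nat_lit 8702486912) (nat_lit 26) (nat_lit 4) (nat_lit 27) (nat_lit 5) (nat_lit 27) (nat_lit 4) (nat_lit 523) (nat_lit 342) (nat_lit 335)) (XT.lf (nat_lit 0) (nat_lit 28844259028) (nat_lit 76) (nat_lit 1337422485) (nat_lit 76) (nat_lit 331639570) (nat_lit 26) (nat_lit 4) (nat_lit 27) (nat_lit 5) (nat_lit 27) (nat_lit 4) (nat_lit 524) (nat_lit 342) (nat_lit 334))) (XT.nd (nat_lit 78) (nat_lit 76) (nat_lit 0) (XT.lf (nat_lit 0) (nat_lit 8191708565) (nat_lit 152) (nat_lit 15868467549) (nat_lit 0) (nat_lit 7108606372) (nat_lit 24) (nat_lit 5) (nat_lit 26) (nat_lit 4) (nat_lit 24) (nat_lit 4) (nat_lit 525) (nat_lit 342) (nat_lit 333)) (XT.lf (nat_lit 0) (nat_lit 659067092) (nat_lit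 76) (nat_lit 16187440822) (nat_lit 76) (nat_lit 15000829962) (nat_lit 23) (nat_lit 4) (nat_lit 24) (nat_lit 5) (nat_lit 24) (nat_lit 4) (nat_lit 526) (nat_lit 342) (nat_lit 332))))) (XT.nd (nat_lit 312) (nat_lit 152) (nat_lit 0) (XT.nd (nat_lit 156) (nat_lit 76) (nat_lit 0) (XT.nd (nat_lit 78) (nat_lit 152) (nat_lit 0) (XT.lf (nat_lit 0) (nat_lit 17704035818) (nat_lit 76) (nat_lit 8064545514) (nat_lit 76) (nat_lit 6777440803) (nat_lit 23) (nat_lit 4) (nat_lit 24) (nat_lit 5) (nat_lit 24) (nat_lit 4) (nat_lit 527) (nat_lit 342) (nat_lit 331)) (XT.lf (nat_lit 0) (nat_lit 1528266609) (nat_lit 152) (nat_lit 31556928558) (nat_lit 0) (nat_lit 183925293) (nat_lit 21) (nat_lit 5) (nat_lit 23) (nat_lit 4) (nat_lit 21) (nat_lit 4) (nat_lit 528) (nat_lit 342) (nat_lit 330))) (XT.nd (nat_lit 78) (nat_lit 76) (nat_lit 0) (XT.lf (nat_lit 0) (nat_lit 10028610421) (nat_lit 152) (nat_lit 15388535683) (nat_lit 0) (nat_lit 8592302995)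 (nat_lit 21) (nat_lit 5) (nat_lit 23) (nat_lit 4) (nat_lit 21) (nat_lit 4) (nat_lit 529) (nat_lit 342) (nat_lit 329)) (XT.lf (nat_lit 0) (nat_lit 995076439) (nat_lit 76) (nat_lit 17653287537) (nat_lit 76) (nat_lit 16127692626) (nat_lit 20) (nat_lit 4) (nat_lit 21) (nat_lit 5) (nat_lit 21) (nat_lit 4) (nat_lit 530) (nat_lit 342) (nat_lit 328)))) (XT.nd (nat_lit 156) (nat_lit 76) (nat_lit 0) (XT.nd (nat_lit 78) (nat_lit 76) (nat_lit 0) (XT.lf (nat_lit 0) (nat_lit 17899232540) (nat_lit 76) (nat_lit 9639180722) (nat_lit 76) (nat_lit 8026898933) (nat_lit 20) (nat_lit 4) (nat_lit 21) (nat_lit 5) (nat_lit 21) (nat_lit 4) (nat_lit 531) (nat_lit 342) (nat_lit 327)) (XT.lf (nat_lit 0) (nat_lit 169846450) (nat_lit 152) (nat_lit 1351655512) (nat_lit 76) (nat_lit 34860879642) (nat_lit 19) (nat_lit 5) (nat_lit 21) (nat_lit 5) (nat_lit 20) (nat_lit 4) (nat_lit 532) (nat_lit 342) (nat_lit 326))) (XT.nd (nat_lit 78) (nat_lit 0)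 (nat_lit 0) (XT.lf (nat_lit 0) (nat_lit 8529110222) (nat_lit 152) (nat_lit 21887384437) (nat_lit 0) (nat_lit 6802746625) (nat_lit 18) (nat_lit 5) (nat_lit 20) (nat_lit 4) (nat_lit 18) (nat_lit 4) (nat_lit 533) (nat_lit 342) (nat_lit 325)) (XT.lf (nat_lit 0) (nat_lit 17031310401) (nat_lit 152) (nat_lit 5825205814) (nat_lit 0) (nat_lit 15227926636) (nat_lit 18) (nat_lit 5) (nat_lit 20) (nat_lit 4) (nat_lit 18) (nat_lit 4) (nat_lit 534) (nat_lit 342) (nat_lit 324)))))) (XT.nd (nat_lit 546) (nat_lit 380) (nat_lit 0) (XT.nd (nat_lit 234) (nat_lit 76) (nat_lit 0) (XT.nd (nat_lit 78) (nat_lit 152) (nat_lit 0) (XT.lf (nat_lit 0) (nat_lit 10662047277) (nat_lit 76) (nat_lit 15096310603) (nat_lit 76) (nat_lit 13218149974) (nat_lit 17) (nat_lit 4) (nat_lit 18) (nat_lit 5) (nat_lit 18) (nat_lit 4) (nat_lit 535) (nat_lit 342) (nat_lit 323)) (XT.nd (nat_lit 78) (nat_lit 152) (nat_lit 0) (XT.lf (nat_lit 0) (nat_lit 27501079663)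 (nat_lit 76) (nat_lit 7173595854) (nat_lit 76) (nat_lit 5222836330) (nat_lit 17) (nat_lit 4) (nat_lit 18) (nat_lit 5) (nat_lit 18) (nat_lit 4) (nat_lit 536) (nat_lit 342) (nat_lit 322)) (XT.lf (nat_lit 0) (nat_lit 2870054243) (nat_lit 152) (nat_lit 37070047274) (nat_lit 0) (nat_lit 907681535) (nat_lit 15) (nat_lit 5) (nat_lit 17) (nat_lit 4) (nat_lit 15) (nat_lit 4) (nat_lit 537) (nat_lit 342) (nat_lit 321)))) (XT.nd (nat_lit 156) (nat_lit 76) (nat_lit 0) (XT.nd (nat_lit 78) (nat_lit 0) (nat_lit 0) (XT.lf (nat_lit 0) (nat_lit 11169481987) (nat_lit 152) (nat_lit 21512797071) (nat_lit 0) (nat_lit 9140671005) (nat_lit 15) (nat_lit 5) (nat_lit 17) (nat_lit 4) (nat_lit 15) (nat_lit 4) (nat_lit 538) (nat_lit 342) (nat_lit 320)) (XT.lf (nat_lit 0) (nat_lit 19592921232) (nat_lit 152) (nat_lit 5738593633) (nat_lit 0) (nat_lit 17499607071) (nat_lit 15) (nat_lit 5) (nat_lit 17) (nat_lit 4) (nat_lit 15) (nat_lit 4) (nat_lit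 539) (nat_lit 342) (nat_lit 319))) (XT.nd (nat_lit 78) (nat_lit 0) (nat_lit 0) (XT.lf (nat_lit 0) (nat_lit 10470666744) (nat_lit 76) (nat_lit 17777715976) (nat_lit 76) (nat_lit 15621777369) (nat_lit 14) (nat_lit 4) (nat_lit 15) (nat_lit 5) (nat_lit 15) (nat_lit 4) (nat_lit 540) (nat_lit 342) (nat_lit 318)) (XT.lf (nat_lit 0) (nat_lit 27043728241) (nat_lit 76) (nat_lit 10057622783) (nat_lit 76) (nat_lit 7840883743) (nat_lit 14) (nat_lit 4) (nat_lit 15) (nat_lit 5) (nat_lit 15) (nat_lit 4) (nat_lit 541) (nat_lit 342) (nat_lit 317))))) (XT.nd (nat_lit 312) (nat_lit 228) (nat_lit 0) (XT.nd (nat_lit 156) (nat_lit 0) (nat_lit 0) (XT.nd (nat_lit 78) (nat_lit 76) (nat_lit 0) (XT.lf (nat_lit 0) (nat_lit 52289796) (nat_lit 152) (nat_lit 2169620298) (nat_lit 76) (nat_lit 43828045087) (nat_lit 13) (nat_lit 5) (nat_lit 15) (nat_lit 5) (nat_lit 14) (nat_lit 4) (nat_lit 542) (nat_lit 342) (nat_lit 316)) (XT.lf (nat_lit 0) (nat_lit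 8102115189) (nat_lit 152) (nat_lit 33247150021) (nat_lit 0) (nat_lit 5836990117) (nat_lit 12) (nat_lit 5) (nat_lit 14) (nat_lit 4) (nat_lit 12) (nat_lit 4) (nat_lit 543) (nat_lit 342) (nat_lit 315))) (XT.nd (nat_lit 78) (nat_lit 0) (nat_lit 0) (XT.lf (nat_lit 0) (nat_lit 16323293865) (nat_lit 152) (nat_lit 18031307060) (nat_lit 0) (nat_lit 14004148395) (nat_lit 12) (nat_lit 5) (nat_lit 14) (nat_lit 4) (nat_lit 12) (nat_lit 4) (nat_lit 544) (nat_lit 342) (nat_lit 314)) (XT.lf (nat_lit 0) (nat_lit 24680169628) (nat_lit 152) (nat_lit 2581000061) (nat_lit 0) (nat_lit 22308577172) (nat_lit 12) (nat_lit 5) (nat_lit 14) (nat_lit 4) (nat_lit 12) (nat_lit 4) (nat_lit 545) (nat_lit 342) (nat_lit 313)))) (XT.nd (nat_lit 156) (nat_lit 152) (nat_lit 0) (XT.nd (nat_lit 78) (nat_lit 0) (nat_lit 0) (XT.lf (nat_lit 0) (nat_lit 13378330661) (nat_lit 76) (nat_lit 19930314642) (nat_lit 76) (nat_lit 17507802781) (nat_lit 11) (nat_lit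 4) (nat_lit 12) (nat_lit 5) (nat_lit 12) (nat_lit 4) (nat_lit 546) (nat_lit 342) (nat_lit 312)) (XT.lf (nat_lit 0) (nat_lit 29655917558) (nat_lit 76) (nat_lit 12459499132) (nat_lit 76) (nat_lit 9987550955) (nat_lit 11) (nat_lit 4) (nat_lit 12) (nat_lit 5) (nat_lit 12) (nat_lit 4) (nat_lit 547) (nat_lit 342) (nat_lit 311))) (XT.nd (nat_lit 78) (nat_lit 152) (nat_lit 0) (XT.lf (nat_lit 0) (nat_lit 46214616802) (nat_lit 76) (nat_lit 4868258303) (nat_lit 76) (nat_lit 2348313703) (nat_lit 11) (nat_lit 4) (nat_lit 12) (nat_lit 5) (nat_lit 12) (nat_lit 4) (nat_lit 548) (nat_lit 342) (nat_lit 310)) (XT.lf (nat_lit 0) (nat_lit 5420131081) (nat_lit 152) (nat_lit 46448960029) (nat_lit 0) (nat_lit 2928341694) (nat_lit 9) (nat_lit 5) (nat_lit 11) (nat_lit 4) (nat_lit 9) (nat_lit 4) (nat_lit 549) (nat_lit 342) (nat_lit 309))))))) (XT.nd (nat_lit 60450) (nat_lit 0) (nat_lit 532) (XT.nd (nat_lit 59826) (nat_lit 0) (nat_lit 1368)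 (XT.nd (nat_lit 234) (nat_lit 76) (nat_lit 0) (XT.nd (nat_lit 78) (nat_lit 0) (nat_lit 0) (XT.lf (nat_lit 0) (nat_lit 13394782868) (nat_lit 152) (nat_lit 31949503692) (nat_lit 0) (nat_lit 10859069955) (nat_lit 9) (nat_lit 5) (nat_lit 11) (nat_lit 4) (nat_lit 9) (nat_lit 4) (nat_lit 550) (nat_lit 342) (nat_lit 308)) (XT.nd (nat_lit 78) (nat_lit 0) (nat_lit 0) (XT.lf (nat_lit 0) (nat_lit 21510185971) (nat_lit 152) (nat_lit 17212398226) (nat_lit 0) (nat_lit 18931828858) (nat_lit 9) (nat_lit 5) (nat_lit 11) (nat_lit 4) (nat_lit 9) (nat_lit 4) (nat_lit 551) (nat_lit 342) (nat_lit 307)) (XT.lf (nat_lit 0) (nat_lit 29773431521) (nat_lit 152) (nat_lit 2224766547) (nat_lit 0) (nat_lit 27153672272) (nat_lit 9) (nat_lit 5) (nat_lit 11) (nat_lit 4) (nat_lit 9) (nat_lit 4) (nat_lit 552) (nat_lit 342) (nat_lit 306)))) (XT.nd (nat_lit 59436) (nat_lit 0) (nat_lit 1900) (XT.nd (nat_lit 78) (nat_lit 0) (nat_lit 0) (XT.lf (nat_lit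 0) (nat_lit 13285739972) (nat_lit 76) (nat_lit 25033710516) (nat_lit 76) (nat_lit 22373755018) (nat_lit 8) (nat_lit 4) (nat_lit 9) (nat_lit 5) (nat_lit 9) (nat_lit 4) (nat_lit 553) (nat_lit 342) (nat_lit 305)) (XT.lf (nat_lit 0) (nat_lit 29122984068) (nat_lit 76) (nat_lit 17929430567) (nat_lit 76) (nat_lit 15230449585) (nat_lit 8) (nat_lit 4) (nat_lit 9) (nat_lit 5) (nat_lit 9) (nat_lit 4) (nat_lit 554) (nat_lit 342) (nat_lit 304))) (XT.nd (nat_lit 78) (nat_lit 152) (nat_lit 0) (XT.lf (nat_lit 0) (nat_lit 9940817301) (nat_lit 76) (nat_lit 1259533639) (nat_lit 76) (nat_lit 1259533639) (nat_lit 35) (nat_lit 4) (nat_lit 36) (nat_lit 5) (nat_lit 36) (nat_lit 4) (nat_lit 514) (nat_lit 343) (nat_lit 343)) (XT.lf (nat_lit 0) (nat_lit 5978135246) (nat_lit 152) (nat_lit 13603400165) (nat_lit 0) (nat_lit 5826129279) (nat_lit 33) (nat_lit 5) (nat_lit 35) (nat_lit 4) (nat_lit 33) (nat_lit 4) (nat_lit 515) (nat_lit 343) (nat_lit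 342))))) (XT.nd (nat_lit 312) (nat_lit 228) (nat_lit 0) (XT.nd (nat_lit 156) (nat_lit 228) (nat_lit 0) (XT.nd (nat_lit 78) (nat_lit 0) (nat_lit 0) (XT.lf (nat_lit 0) (nat_lit 3020675995) (nat_lit 76) (nat_lit 11595136686) (nat_lit 76) (nat_lit 11295552112) (nat_lit 32) (nat_lit 4) (nat_lit 33) (nat_lit 5) (nat_lit 33) (nat_lit 4) (nat_lit 516) (nat_lit 343) (nat_lit 341)) (XT.lf (nat_lit 0) (nat_lit 20091185857) (nat_lit 76) (nat_lit 3391379034) (nat_lit 76) (nat_lit 2948514258) (nat_lit 32) (nat_lit 4) (nat_lit 33) (nat_lit 5) (nat_lit 33) (nat_lit 4) (nat_lit 517) (nat_lit 343) (nat_lit 340))) (XT.nd (nat_lit 78) (nat_lit 76) (nat_lit 0) (XT.lf (nat_lit 0) (nat_lit 5524425986) (nat_lit 152) (nat_lit 16481354892) (nat_lit 0) (nat_lit 4959404852) (nat_lit 30) (nat_lit 5) (nat_lit 32) (nat_lit 4) (nat_lit 30) (nat_lit 4) (nat_lit 518) (nat_lit 343) (nat_lit 339)) (XT.lf (nat_lit 0) (nat_lit 41303843) (nat_lit 76)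 (nat_lit 14085620585) (nat_lit 76) (nat_lit 13389477769) (nat_lit 29) (nat_lit 4) (nat_lit 30) (nat_lit 5) (nat_lit 30) (nat_lit 4) (nat_lit 519) (nat_lit 343) (nat_lit 338)))) (XT.nd (nat_lit 156) (nat_lit 76) (nat_lit 0) (XT.nd (nat_lit 78) (nat_lit 152) (nat_lit 0) (XT.lf (nat_lit 0) (nat_lit 17075749099) (nat_lit 76) (nat_lit 5915864703) (nat_lit 76) (nat_lit 5092419284) (nat_lit 29) (nat_lit 4) (nat_lit 30) (nat_lit 5) (nat_lit 30) (nat_lit 4) (nat_lit 520) (nat_lit 343) (nat_lit 337)) (XT.lf (nat_lit 0) (nat_lit 3305342531) (nat_lit 152) (nat_lit 22978894241) (nat_lit 0) (nat_lit 2385886044) (nat_lit 27) (nat_lit 5) (nat_lit 29) (nat_lit 4) (nat_lit 27) (nat_lit 4) (nat_lit 521) (nat_lit 343) (nat_lit 336))) (XT.nd (nat_lit 78) (nat_lit 76) (nat_lit 0) (XT.lf (nat_lit 0) (nat_lit 11864515419) (nat_lit 152) (nat_lit 6578854567) (nat_lit 0) (nat_lit 10828559017) (nat_lit 27) (nat_lit 5) (nat_lit 29) (nat_lit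 4) (nat_lit 27) (nat_lit 4) (nat_lit 522) (nat_lit 343) (nat_lit 335)) (XT.lf (nat_lit 0) (nat_lit 10205847678) (nat_lit 76) (nat_lit 10418347064) (nat_lit 76) (nat_lit 9269283947) (nat_lit 26) (nat_lit 4) (nat_lit 27) (nat_lit 5) (nat_lit 27) (nat_lit 4) (nat_lit 523) (nat_lit 343) (nat_lit 334)))))) (XT.nd (nat_lit 624) (nat_lit 380) (nat_lit 0) (XT.nd (nat_lit 312) (nat_lit 228) (nat_lit 0) (XT.nd (nat_lit 156) (nat_lit 76) (nat_lit 0) (XT.nd (nat_lit 78) (nat_lit 152) (nat_lit 0) (XT.lf (nat_lit 0) (nat_lit 27325464411) (nat_lit 76) (nat_lit 2234838981) (nat_lit 76) (nat_lit 975963520) (nat_lit 26) (nat_lit 4) (nat_lit 27) (nat_lit 5) (nat_lit 27) (nat_lit 4) (nat_lit 524) (nat_lit 343) (nat_lit 333)) (XT.lf (nat_lit 0) (nat_lit 7460114750) (nat_lit 152) (nat_lit 17600398327) (nat_lit 0) (nat_lit 6134396898) (nat_lit 24) (nat_lit 5) (nat_lit 26) (nat_lit 4) (nat_lit 24) (nat_lit 4) (nat_lit 525) (nat_lit 343)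 (nat_lit 332))) (XT.nd (nat_lit 78) (nat_lit 76) (nat_lit 0) (XT.lf (nat_lit 0) (nat_lit 16034839255) (nat_lit 152) (nat_lit 1232401351) (nat_lit 0) (nat_lit 14608627552) (nat_lit 24) (nat_lit 5) (nat_lit 26) (nat_lit 4) (nat_lit 24) (nat_lit 4) (nat_lit 526) (nat_lit 343) (nat_lit 331)) (XT.lf (nat_lit 0) (nat_lit 15642801288) (nat_lit 76) (nat_lit 9229041159) (nat_lit 76) (nat_lit 7705262611) (nat_lit 23) (nat_lit 4) (nat_lit 24) (nat_lit 5) (nat_lit 24) (nat_lit 4) (nat_lit 527) (nat_lit 343) (nat_lit 330)))) (XT.nd (nat_lit 156) (nat_lit 76) (nat_lit 0) (XT.nd (nat_lit 78) (nat_lit 76) (nat_lit 0) (XT.lf (nat_lit 0) (nat_lit 528706158) (nat_lit 152) (nat_lit 545230138) (nat_lit 76) (nat_lit 32229230463) (nat_lit 22) (nat_lit 5) (nat_lit 24) (nat_lit 5) (nat_lit 23) (nat_lit 4) (nat_lit 528) (nat_lit 343) (nat_lit 329)) (XT.lf (nat_lit 0) (nat_lit 8941818046) (nat_lit 152) (nat_lit 17823126994) (nat_lit 0) (nat_lit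 7281167803) (nat_lit 21) (nat_lit 5) (nat_lit 23) (nat_lit 4) (nat_lit 21) (nat_lit 4) (nat_lit 529) (nat_lit 343) (nat_lit 328))) (XT.nd (nat_lit 78) (nat_lit 76) (nat_lit 0) (XT.lf (nat_lit 0) (nat_lit 17482578868) (nat_lit 152) (nat_lit 1597269986) (nat_lit 0) (nat_lit 15735241746) (nat_lit 21) (nat_lit 5) (nat_lit 23) (nat_lit 4) (nat_lit 21) (nat_lit 4) (nat_lit 530) (nat_lit 343) (nat_lit 327)) (XT.lf (nat_lit 0) (nat_lit 15138115972) (nat_lit 76) (nat_lit 11150130633) (nat_lit 76) (nat_lit 9318631493) (nat_lit 20) (nat_lit 4) (nat_lit 21) (nat_lit 5) (nat_lit 21) (nat_lit 4) (nat_lit 531) (nat_lit 343) (nat_lit 326))))) (XT.nd (nat_lit 312) (nat_lit 152) (nat_lit 0) (XT.nd (nat_lit 156) (nat_lit 76) (nat_lit 0) (XT.nd (nat_lit 78) (nat_lit 152) (nat_lit 0) (XT.lf (nat_lit 0) (nat_lit 32138333051) (nat_lit 76) (nat_lit 3100438154) (nat_lit 76) (nat_lit 1187228317) (nat_lit 20) (nat_lit 4) (nat_lit 21) (nat_lit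 5) (nat_lit 21) (nat_lit 4) (nat_lit 532) (nat_lit 343) (nat_lit 325)) (XT.lf (nat_lit 0) (nat_lit 7083620418) (nat_lit 152) (nat_lit 25033814066) (nat_lit 0) (nat_lit 5149114971) (nat_lit 18) (nat_lit 5) (nat_lit 20) (nat_lit 4) (nat_lit 18) (nat_lit 4) (nat_lit 533) (nat_lit 343) (nat_lit 324))) (XT.nd (nat_lit 78) (nat_lit 76) (nat_lit 0) (XT.lf (nat_lit 0) (nat_lit 15520446791) (nat_lit 152) (nat_lit 9102101372) (nat_lit 0) (nat_lit 13511164481) (nat_lit 18) (nat_lit 5) (nat_lit 20) (nat_lit 4) (nat_lit 18) (nat_lit 4) (nat_lit 534) (nat_lit 343) (nat_lit 323)) (XT.lf (nat_lit 0) (nat_lit 7190748221) (nat_lit 76) (nat_lit 16959908083) (nat_lit 76) (nat_lit 14878026877) (nat_lit 17) (nat_lit 4) (nat_lit 18) (nat_lit 5) (nat_lit 18) (nat_lit 4) (nat_lit 535) (nat_lit 343) (nat_lit 322)))) (XT.nd (nat_lit 156) (nat_lit 76) (nat_lit 0) (XT.nd (nat_lit 78) (nat_lit 76) (nat_lit 0) (XT.lf (nat_lit 0) (nat_lit 23904356481)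 (nat_lit 76) (nat_lit 9099790726) (nat_lit 76) (nat_lit 6947425154) (nat_lit 17) (nat_lit 4) (nat_lit 18) (nat_lit 5) (nat_lit 18) (nat_lit 4) (nat_lit 536) (nat_lit 343) (nat_lit 321)) (XT.lf (nat_lit 0) (nat_lit 1072216380) (nat_lit 152) (nat_lit 44197741) (nat_lit 76) (nat_lit 39789134200) (nat_lit 16) (nat_lit 5) (nat_lit 18) (nat_lit 5) (nat_lit 17) (nat_lit 4) (nat_lit 537) (nat_lit 343) (nat_lit 320))) (XT.nd (nat_lit 78) (nat_lit 0) (nat_lit 0) (XT.lf (nat_lit 0) (nat_lit 9298912635) (nat_lit 152) (nat_lit 25505689123) (nat_lit 0) (nat_lit 7078295870) (nat_lit 15) (nat_lit 5) (nat_lit 17) (nat_lit 4) (nat_lit 15) (nat_lit 4) (nat_lit 538) (nat_lit 343) (nat_lit 319)) (XT.lf (nat_lit 0) (nat_lit 17662582723) (nat_lit 152) (nat_lit 9850938683) (nat_lit 0) (nat_lit 15379341512) (nat_lit 15) (nat_lit 5) (nat_lit 17) (nat_lit 4) (nat_lit 15) (nat_lit 4) (nat_lit 539) (nat_lit 343) (nat_lit 318))))))))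
noncomputable def xc7 : XT := (XT.nd (nat_lit 61464) (nat_lit 0) (nat_lit 0) (XT.nd (nat_lit 60294) (nat_lit 0) (nat_lit 1216) (XT.nd (nat_lit 546) (nat_lit 228) (nat_lit 0) (XT.nd (nat_lit 234) (nat_lit 228) (nat_lit 0) (XT.nd (nat_lit 78) (nat_lit 0) (nat_lit 0) (XT.lf (nat_lit 0) (nat_lit 6158196075) (nat_lit 76) (nat_lit 20060365721) (nat_lit 76) (nat_lit 17716324078) (nat_lit 14) (nat_lit 4) (nat_lit 15) (nat_lit 5) (nat_lit 15) (nat_lit 4) (nat_lit 540) (nat_lit 343) (nat_lit 317)) (XT.nd (nat_lit 78) (nat_lit 0) (nat_lit 0) (XT.lf (nat_lit 0) (nat_lit 22616420786) (nat_lit 76) (nat_lit 12397667269) (nat_lit 76) (nat_lit 9994596080) (nat_lit 14) (nat_lit 4) (nat_lit 15) (nat_lit 5) (nat_lit 15) (nat_lit 4) (nat_lit 541) (nat_lit 343) (nat_lit 316)) (XT.lf (nat_lit 0) (nat_lit 39342063428) (nat_lit 76) (nat_lit 4618205655) (nat_lit 76) (nat_lit 2157824226) (nat_lit 14) (nat_lit 4) (nat_lit 15) (nat_lit 5) (nat_lit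 15) (nat_lit 4) (nat_lit 542) (nat_lit 343) (nat_lit 315)))) (XT.nd (nat_lit 156) (nat_lit 76) (nat_lit 0) (XT.nd (nat_lit 78) (nat_lit 0) (nat_lit 0) (XT.lf (nat_lit 0) (nat_lit 5809176537) (nat_lit 152) (nat_lit 38083151123) (nat_lit 0) (nat_lit 3366436307) (nat_lit 12) (nat_lit 5) (nat_lit 14) (nat_lit 4) (nat_lit 12) (nat_lit 4) (nat_lit 543) (nat_lit 343) (nat_lit 314)) (XT.lf (nat_lit 0) (nat_lit 13975705817) (nat_lit 152) (nat_lit 22976673311) (nat_lit 0) (nat_lit 11480518600) (nat_lit 12) (nat_lit 5) (nat_lit 14) (nat_lit 4) (nat_lit 12) (nat_lit 4) (nat_lit 544) (nat_lit 343) (nat_lit 313))) (XT.nd (nat_lit 78) (nat_lit 76) (nat_lit 0) (XT.lf (nat_lit 0) (nat_lit 22279523916) (nat_lit 152) (nat_lit 7632546067) (nat_lit 0) (nat_lit 19733417293) (nat_lit 12) (nat_lit 5) (nat_lit 14) (nat_lit 4) (nat_lit 12) (nat_lit 4) (nat_lit 545) (nat_lit 343) (nat_lit 312)) (XT.lf (nat_lit 0) (nat_lit 8121110207) (nat_lit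 76) (nat_lit 22684841468) (nat_lit 76) (nat_lit 20089298530) (nat_lit 11) (nat_lit 4) (nat_lit 12) (nat_lit 5) (nat_lit 12) (nat_lit 4) (nat_lit 546) (nat_lit 343) (nat_lit 311))))) (XT.nd (nat_lit 312) (nat_lit 76) (nat_lit 0) (XT.nd (nat_lit 156) (nat_lit 152) (nat_lit 0) (XT.nd (nat_lit 78) (nat_lit 0) (nat_lit 0) (XT.lf (nat_lit 0) (nat_lit 24296620622) (nat_lit 76) (nat_lit 15265109281) (nat_lit 76) (nat_lit 12621569920) (nat_lit 11) (nat_lit 4) (nat_lit 12) (nat_lit 5) (nat_lit 12) (nat_lit 4) (nat_lit 547) (nat_lit 343) (nat_lit 310)) (XT.lf (nat_lit 0) (nat_lit 40756216484) (nat_lit 76) (nat_lit 7723463911) (nat_lit 76) (nat_lit 5033326082) (nat_lit 11) (nat_lit 4) (nat_lit 12) (nat_lit 5) (nat_lit 12) (nat_lit 4) (nat_lit 548) (nat_lit 343) (nat_lit 309))) (XT.nd (nat_lit 78) (nat_lit 0) (nat_lit 0) (XT.lf (nat_lit 0) (nat_lit 2654770414) (nat_lit 76) (nat_lit 475632) (nat_lit 152) (nat_lit 52228746974)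 (nat_lit 9) (nat_lit 5) (nat_lit 10) (nat_lit 5) (nat_lit 11) (nat_lit 4) (nat_lit 549) (nat_lit 343) (nat_lit 308)) (XT.lf (nat_lit 0) (nat_lit 10581376889) (nat_lit 152) (nat_lit 37826970841) (nat_lit 0) (nat_lit 7883024862) (nat_lit 9) (nat_lit 5) (nat_lit 11) (nat_lit 4) (nat_lit 9) (nat_lit 4) (nat_lit 550) (nat_lit 343) (nat_lit 307)))) (XT.nd (nat_lit 156) (nat_lit 76) (nat_lit 0) (XT.nd (nat_lit 78) (nat_lit 0) (nat_lit 0) (XT.lf (nat_lit 0) (nat_lit 18649676718) (nat_lit 152) (nat_lit 23184243183) (nat_lit 0) (nat_lit 15909922555) (nat_lit 9) (nat_lit 5) (nat_lit 11) (nat_lit 4) (nat_lit 9) (nat_lit 4) (nat_lit 551) (nat_lit 343) (nat_lit 306)) (XT.lf (nat_lit 0) (nat_lit 26867190933) (nat_lit 152) (nat_lit 8288240445) (nat_lit 0) (nat_lit 24087240522) (nat_lit 9) (nat_lit 5) (nat_lit 11) (nat_lit 4) (nat_lit 9) (nat_lit 4) (nat_lit 552) (nat_lit 343) (nat_lit 305))) (XT.nd (nat_lit 78) (nat_lit 0) (nat_lit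 0) (XT.lf (nat_lit 0) (nat_lit 7010860438) (nat_lit 76) (nat_lit 28297632128) (nat_lit 76) (nat_lit 25478656232) (nat_lit 8) (nat_lit 4) (nat_lit 9) (nat_lit 5) (nat_lit 9) (nat_lit 4) (nat_lit 553) (nat_lit 343) (nat_lit 304)) (XT.lf (nat_lit 0) (nat_lit 22760016555) (nat_lit 76) (nat_lit 21237487233) (nat_lit 76) (nat_lit 18380622518) (nat_lit 8) (nat_lit 4) (nat_lit 9) (nat_lit 5) (nat_lit 9) (nat_lit 4) (nat_lit 554) (nat_lit 343) (nat_lit 303)))))) (XT.nd (nat_lit 546) (nat_lit 456) (nat_lit 0) (XT.nd (nat_lit 234) (nat_lit 380) (nat_lit 0) (XT.nd (nat_lit 78) (nat_lit 76) (nat_lit 0) (XT.lf (nat_lit 0) (nat_lit 2596175300) (nat_lit 152) (nat_lit 6798255390) (nat_lit 0) (nat_lit 2596175300) (nat_lit 36) (nat_lit 5) (nat_lit 38) (nat_lit 4) (nat_lit 36) (nat_lit 4) (nat_lit 512) (nat_lit 344) (nat_lit 344)) (XT.nd (nat_lit 78) (nat_lit 0) (nat_lit 0) (XT.lf (nat_lit 0) (nat_lit 2840587613) (nat_lit 76) (nat_lit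 10882501085) (nat_lit 76) (nat_lit 10721237955) (nat_lit 35) (nat_lit 4) (nat_lit 36) (nat_lit 5) (nat_lit 36) (nat_lit 4) (nat_lit 513) (nat_lit 344) (nat_lit 343)) (XT.lf (nat_lit 0) (nat_lit 19718644797) (nat_lit 76) (nat_lit 2760716304) (nat_lit 76) (nat_lit 2442887029) (nat_lit 35) (nat_lit 4) (nat_lit 36) (nat_lit 5) (nat_lit 36) (nat_lit 4) (nat_lit 514) (nat_lit 344) (nat_lit 342)))) (XT.nd (nat_lit 156) (nat_lit 152) (nat_lit 0) (XT.nd (nat_lit 78) (nat_lit 76) (nat_lit 0) (XT.lf (nat_lit 0) (nat_lit 5965534141) (nat_lit 152) (nat_lit 13937823778) (nat_lit 0) (nat_lit 5509383421) (nat_lit 33) (nat_lit 5) (nat_lit 35) (nat_lit 4) (nat_lit 33) (nat_lit 4) (nat_lit 515) (nat_lit 344) (nat_lit 341)) (XT.lf (nat_lit 0) (nat_lit 2516471105) (nat_lit 76) (nat_lit 12000987317) (nat_lit 76) (nat_lit 11401556395) (nat_lit 32) (nat_lit 4) (nat_lit 33) (nat_lit 5) (nat_lit 33) (nat_lit 4) (nat_lit 516) (nat_lit 344)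 (nat_lit 340))) (XT.nd (nat_lit 78) (nat_lit 152) (nat_lit 0) (XT.lf (nat_lit 0) (nat_lit 19428606608) (nat_lit 76) (nat_lit 3875531704) (nat_lit 76) (nat_lit 3136993790) (nat_lit 32) (nat_lit 4) (nat_lit 33) (nat_lit 5) (nat_lit 33) (nat_lit 4) (nat_lit 517) (nat_lit 344) (nat_lit 339)) (XT.lf (nat_lit 0) (nat_lit 5247523875) (nat_lit 152) (nat_lit 17331157799) (nat_lit 0) (nat_lit 4399375092) (nat_lit 30) (nat_lit 5) (nat_lit 32) (nat_lit 4) (nat_lit 30) (nat_lit 4) (nat_lit 518) (nat_lit 344) (nat_lit 338))))) (XT.nd (nat_lit 312) (nat_lit 228) (nat_lit 0) (XT.nd (nat_lit 156) (nat_lit 152) (nat_lit 0) (XT.nd (nat_lit 78) (nat_lit 76) (nat_lit 0) (XT.lf (nat_lit 0) (nat_lit 13771191496) (nat_lit 152) (nat_lit 964707246) (nat_lit 0) (nat_lit 12795740110) (nat_lit 30) (nat_lit 5) (nat_lit 32) (nat_lit 4) (nat_lit 30) (nat_lit 4) (nat_lit 519) (nat_lit 344) (nat_lit 337)) (XT.lf (nat_lit 0) (nat_lit 15896659798)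 (nat_lit 76) (nat_lit 6652134677) (nat_lit 76) (nat_lit 5553088530) (nat_lit 29) (nat_lit 4) (nat_lit 30) (nat_lit 5) (nat_lit 30) (nat_lit 4) (nat_lit 520) (nat_lit 344) (nat_lit 336))) (XT.nd (nat_lit 78) (nat_lit 0) (nat_lit 0) (XT.lf (nat_lit 0) (nat_lit 2756406746) (nat_lit 152) (nat_lit 24361745411) (nat_lit 0) (nat_lit 1572871736) (nat_lit 27) (nat_lit 5) (nat_lit 29) (nat_lit 4) (nat_lit 27) (nat_lit 4) (nat_lit 521) (nat_lit 344) (nat_lit 335)) (XT.lf (nat_lit 0) (nat_lit 11239533525) (nat_lit 152) (nat_lit 8112686755) (nat_lit 0) (nat_lit 9942891800) (nat_lit 27) (nat_lit 5) (nat_lit 29) (nat_lit 4) (nat_lit 27) (nat_lit 4) (nat_lit 522) (nat_lit 344) (nat_lit 334)))) (XT.nd (nat_lit 156) (nat_lit 152) (nat_lit 0) (XT.nd (nat_lit 78) (nat_lit 0) (nat_lit 0) (XT.lf (nat_lit 0) (nat_lit 8491988409) (nat_lit 76) (nat_lit 11416918599) (nat_lit 76) (nat_lit 10010464530) (nat_lit 26) (nat_lit 4) (nat_lit 27)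 (nat_lit 5) (nat_lit 27) (nat_lit 4) (nat_lit 523) (nat_lit 344) (nat_lit 333)) (XT.lf (nat_lit 0) (nat_lit 25466458723) (nat_lit 76) (nat_lit 3305480948) (nat_lit 76) (nat_lit 1792412952) (nat_lit 26) (nat_lit 4) (nat_lit 27) (nat_lit 5) (nat_lit 27) (nat_lit 4) (nat_lit 524) (nat_lit 344) (nat_lit 332))) (XT.nd (nat_lit 78) (nat_lit 0) (nat_lit 0) (XT.lf (nat_lit 0) (nat_lit 6556881961) (nat_lit 152) (nat_lit 19682041120) (nat_lit 0) (nat_lit 4987390056) (nat_lit 24) (nat_lit 5) (nat_lit 26) (nat_lit 4) (nat_lit 24) (nat_lit 4) (nat_lit 525) (nat_lit 344) (nat_lit 331)) (XT.lf (nat_lit 0) (nat_lit 15060014730) (nat_lit 152) (nat_lit 3456448894) (nat_lit 0) (nat_lit 13392955980) (nat_lit 24) (nat_lit 5) (nat_lit 26) (nat_lit 4) (nat_lit 24) (nat_lit 4) (nat_lit 526) (nat_lit 344) (nat_lit 330))))))) (XT.nd (nat_lit 1170) (nat_lit 456) (nat_lit 0) (XT.nd (nat_lit 546) (nat_lit 304) (nat_lit 0) (XT.nd (nat_lit 234)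 (nat_lit 228) (nat_lit 0) (XT.nd (nat_lit 78) (nat_lit 152) (nat_lit 0) (XT.lf (nat_lit 0) (nat_lit 13233482213) (nat_lit 76) (nat_lit 10570869320) (nat_lit 76) (nat_lit 8809085477) (nat_lit 23) (nat_lit 4) (nat_lit 24) (nat_lit 5) (nat_lit 24) (nat_lit 4) (nat_lit 527) (nat_lit 344) (nat_lit 329)) (XT.nd (nat_lit 78) (nat_lit 152) (nat_lit 0) (XT.lf (nat_lit 0) (nat_lit 30217054865) (nat_lit 76) (nat_lit 2489206872) (nat_lit 76) (nat_lit 635456920) (nat_lit 23) (nat_lit 4) (nat_lit 24) (nat_lit 5) (nat_lit 24) (nat_lit 4) (nat_lit 528) (nat_lit 344) (nat_lit 328)) (XT.lf (nat_lit 0) (nat_lit 7681484177) (nat_lit 152) (nat_lit 20611581350) (nat_lit 0) (nat_lit 5795040063) (nat_lit 21) (nat_lit 5) (nat_lit 23) (nat_lit 4) (nat_lit 21) (nat_lit 4) (nat_lit 529) (nat_lit 344) (nat_lit 327)))) (XT.nd (nat_lit 156) (nat_lit 152) (nat_lit 0) (XT.nd (nat_lit 78) (nat_lit 76) (nat_lit 0) (XT.lf (nat_lit 0) (nat_lit 16154839708)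 (nat_lit 152) (nat_lit 4520032680) (nat_lit 0) (nat_lit 14184233576) (nat_lit 21) (nat_lit 5) (nat_lit 23) (nat_lit 4) (nat_lit 21) (nat_lit 4) (nat_lit 530) (nat_lit 344) (nat_lit 326)) (XT.lf (nat_lit 0) (nat_lit 12024192979) (nat_lit 76) (nat_lit 12840939504) (nat_lit 76) (nat_lit 10788622675) (nat_lit 20) (nat_lit 4) (nat_lit 21) (nat_lit 5) (nat_lit 21) (nat_lit 4) (nat_lit 531) (nat_lit 344) (nat_lit 325))) (XT.nd (nat_lit 78) (nat_lit 152) (nat_lit 0) (XT.lf (nat_lit 0) (nat_lit 28895292009) (nat_lit 76) (nat_lit 4855587960) (nat_lit 76) (nat_lit 2723940357) (nat_lit 20) (nat_lit 4) (nat_lit 21) (nat_lit 5) (nat_lit 21) (nat_lit 4) (nat_lit 532) (nat_lit 344) (nat_lit 324)) (XT.lf (nat_lit 0) (nat_lit 5462057094) (nat_lit 152) (nat_lit 28539482419) (nat_lit 0) (nat_lit 3317719451) (nat_lit 18) (nat_lit 5) (nat_lit 20) (nat_lit 4) (nat_lit 18) (nat_lit 4) (nat_lit 533) (nat_lit 344) (nat_lit 323))))) (XT.nd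 (nat_lit 312) (nat_lit 228) (nat_lit 0) (XT.nd (nat_lit 156) (nat_lit 0) (nat_lit 0) (XT.nd (nat_lit 78) (nat_lit 76) (nat_lit 0) (XT.lf (nat_lit 0) (nat_lit 13835413752) (nat_lit 152) (nat_lit 12734435675) (nat_lit 0) (nat_lit 11618477213) (nat_lit 18) (nat_lit 5) (nat_lit 20) (nat_lit 4) (nat_lit 18) (nat_lit 4) (nat_lit 534) (nat_lit 344) (nat_lit 322)) (XT.lf (nat_lit 0) (nat_lit 3360699217) (nat_lit 76) (nat_lit 19006486191) (nat_lit 76) (nat_lit 16719065288) (nat_lit 17) (nat_lit 4) (nat_lit 18) (nat_lit 5) (nat_lit 18) (nat_lit 4) (nat_lit 535) (nat_lit 344) (nat_lit 321))) (XT.nd (nat_lit 78) (nat_lit 0) (nat_lit 0) (XT.lf (nat_lit 0) (nat_lit 19952536479) (nat_lit 76) (nat_lit 11207143000) (nat_lit 76) (nat_lit 8851290674) (nat_lit 17) (nat_lit 4) (nat_lit 18) (nat_lit 5) (nat_lit 18) (nat_lit 4) (nat_lit 536) (nat_lit 344) (nat_lit 320)) (XT.lf (nat_lit 0) (nat_lit 36802133594) (nat_lit 76) (nat_lit 3293597724)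 (nat_lit 76) (nat_lit 871307123) (nat_lit 17) (nat_lit 4) (nat_lit 18) (nat_lit 5) (nat_lit 18) (nat_lit 4) (nat_lit 537) (nat_lit 344) (nat_lit 319)))) (XT.nd (nat_lit 156) (nat_lit 76) (nat_lit 0) (XT.nd (nat_lit 78) (nat_lit 0) (nat_lit 0) (XT.lf (nat_lit 0) (nat_lit 7250894813) (nat_lit 152) (nat_lit 29860857522) (nat_lit 0) (nat_lit 4836531920) (nat_lit 15) (nat_lit 5) (nat_lit 17) (nat_lit 4) (nat_lit 15) (nat_lit 4) (nat_lit 538) (nat_lit 344) (nat_lit 318)) (XT.lf (nat_lit 0) (nat_lit 15556536593) (nat_lit 152) (nat_lit 14322080865) (nat_lit 0) (nat_lit 13081373268) (nat_lit 15) (nat_lit 5) (nat_lit 17) (nat_lit 4) (nat_lit 15) (nat_lit 4) (nat_lit 539) (nat_lit 344) (nat_lit 317))) (XT.nd (nat_lit 78) (nat_lit 0) (nat_lit 0) (XT.lf (nat_lit 0) (nat_lit 1483232610) (nat_lit 76) (nat_lit 22528006283) (nat_lit 76) (nat_lit 19993813412) (nat_lit 14) (nat_lit 4) (nat_lit 15) (nat_lit 5) (nat_lit 15) (nat_lit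 4) (nat_lit 540) (nat_lit 344) (nat_lit 316)) (XT.lf (nat_lit 0) (nat_lit 17829965297) (nat_lit 76) (nat_lit 14921030881) (nat_lit 76) (nat_lit 12329527771) (nat_lit 14) (nat_lit 4) (nat_lit 15) (nat_lit 5) (nat_lit 15) (nat_lit 4) (nat_lit 541) (nat_lit 344) (nat_lit 315)))))) (XT.nd (nat_lit 624) (nat_lit 228) (nat_lit 0) (XT.nd (nat_lit 312) (nat_lit 76) (nat_lit 0) (XT.nd (nat_lit 156) (nat_lit 0) (nat_lit 0) (XT.nd (nat_lit 78) (nat_lit 152) (nat_lit 0) (XT.lf (nat_lit 0) (nat_lit 34447363255) (nat_lit 76) (nat_lit 7195669315) (nat_lit 76) (nat_lit 4548525196) (nat_lit 14) (nat_lit 4) (nat_lit 15) (nat_lit 5) (nat_lit 15) (nat_lit 4) (nat_lit 542) (nat_lit 344) (nat_lit 314)) (XT.lf (nat_lit 0) (nat_lit 3336511453) (nat_lit 152) (nat_lit 43286243509) (nat_lit 0) (nat_lit 714021632) (nat_lit 12) (nat_lit 5) (nat_lit 14) (nat_lit 4) (nat_lit 12) (nat_lit 4) (nat_lit 543) (nat_lit 344) (nat_lit 313))) (XT.nd (nat_lit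 78) (nat_lit 0) (nat_lit 0) (XT.lf (nat_lit 0) (nat_lit 11449983068) (nat_lit 152) (nat_lit 28285945452) (nat_lit 0) (nat_lit 8776573842) (nat_lit 12) (nat_lit 5) (nat_lit 14) (nat_lit 4) (nat_lit 12) (nat_lit 4) (nat_lit 544) (nat_lit 344) (nat_lit 312)) (XT.lf (nat_lit 0) (nat_lit 19702288870) (nat_lit 152) (nat_lit 13044905350) (nat_lit 0) (nat_lit 16979443329) (nat_lit 12) (nat_lit 5) (nat_lit 14) (nat_lit 4) (nat_lit 12) (nat_lit 4) (nat_lit 545) (nat_lit 344) (nat_lit 311)))) (XT.nd (nat_lit 156) (nat_lit 0) (nat_lit 0) (XT.nd (nat_lit 78) (nat_lit 0) (nat_lit 0) (XT.lf (nat_lit 0) (nat_lit 2498957879) (nat_lit 76) (nat_lit 25625703244) (nat_lit 76) (nat_lit 22854861280) (nat_lit 11) (nat_lit 4) (nat_lit 12) (nat_lit 5) (nat_lit 12) (nat_lit 4) (nat_lit 546) (nat_lit 344) (nat_lit 310)) (XT.lf (nat_lit 0) (nat_lit 18575364912) (nat_lit 76) (nat_lit 18255566517) (nat_lit 76) (nat_lit 15438126084) (nat_lit 11)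 (nat_lit 4) (nat_lit 12) (nat_lit 5) (nat_lit 12) (nat_lit 4) (nat_lit 547) (nat_lit 344) (nat_lit 309))) (XT.nd (nat_lit 78) (nat_lit 0) (nat_lit 0) (XT.lf (nat_lit 0) (nat_lit 34938743900) (nat_lit 76) (nat_lit 10762072079) (nat_lit 76) (nat_lit 7899390414) (nat_lit 11) (nat_lit 4) (nat_lit 12) (nat_lit 5) (nat_lit 12) (nat_lit 4) (nat_lit 548) (nat_lit 344) (nat_lit 308)) (XT.lf (nat_lit 0) (nat_lit 51603392939) (nat_lit 76) (nat_lit 3138672217) (nat_lit 76) (nat_lit 232067026) (nat_lit 11) (nat_lit 4) (nat_lit 12) (nat_lit 5) (nat_lit 12) (nat_lit 4) (nat_lit 549) (nat_lit 344) (nat_lit 307))))) (XT.nd (nat_lit 312) (nat_lit 0) (nat_lit 0) (XT.nd (nat_lit 156) (nat_lit 76) (nat_lit 0) (XT.nd (nat_lit 78) (nat_lit 0) (nat_lit 0) (XT.lf (nat_lit 0) (nat_lit 7587949083) (nat_lit 152) (nat_lit 44072348955) (nat_lit 0) (nat_lit 4724600159) (nat_lit 9) (nat_lit 5) (nat_lit 11) (nat_lit 4) (nat_lit 9) (nat_lit 4) (nat_lit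 550) (nat_lit 344) (nat_lit 306)) (XT.lf (nat_lit 0) (nat_lit 15610517578) (nat_lit 152) (nat_lit 29521250238) (nat_lit 0) (nat_lit 12706972406) (nat_lit 9) (nat_lit 5) (nat_lit 11) (nat_lit 4) (nat_lit 9) (nat_lit 4) (nat_lit 551) (nat_lit 344) (nat_lit 305))) (XT.nd (nat_lit 78) (nat_lit 76) (nat_lit 0) (XT.lf (nat_lit 0) (nat_lit 23783632439) (nat_lit 152) (nat_lit 14714207636) (nat_lit 0) (nat_lit 20841061783) (nat_lit 9) (nat_lit 5) (nat_lit 11) (nat_lit 4) (nat_lit 9) (nat_lit 4) (nat_lit 552) (nat_lit 344) (nat_lit 304)) (XT.lf (nat_lit 0) (nat_lit 368915921) (nat_lit 76) (nat_lit 31749065547) (nat_lit 76) (nat_lit 28768606072) (nat_lit 8) (nat_lit 4) (nat_lit 9) (nat_lit 5) (nat_lit 9) (nat_lit 4) (nat_lit 553) (nat_lit 344) (nat_lit 303)))) (XT.nd (nat_lit 59124) (nat_lit 0) (nat_lit 2128) (XT.nd (nat_lit 59046) (nat_lit 0) (nat_lit 2280) (XT.lf (nat_lit 0) (nat_lit 16032549730) (nat_lit 76) (nat_lit 24731770219)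 (nat_lit 76) (nat_lit 21714525482) (nat_lit 8) (nat_lit 4) (nat_lit 9) (nat_lit 5) (nat_lit 9) (nat_lit 4) (nat_lit 554) (nat_lit 344) (nat_lit 302)) (XT.lf (nat_lit 0) (nat_lit 336986359) (nat_lit 76) (nat_lit 5604656702) (nat_lit 76) (nat_lit 5604656702) (nat_lit 38) (nat_lit 4) (nat_lit 39) (nat_lit 5) (nat_lit 39) (nat_lit 4) (nat_lit 510) (nat_lit 345) (nat_lit 345))) (XT.nd (nat_lit 78) (nat_lit 152) (nat_lit 0) (XT.lf (nat_lit 0) (nat_lit 17304017440) (nat_lit 76) (nat_lit 3199574166) (nat_lit 76) (nat_lit 3028490112) (nat_lit 38) (nat_lit 4) (nat_lit 39) (nat_lit 5) (nat_lit 39) (nat_lit 4) (nat_lit 511) (nat_lit 345) (nat_lit 344)) (XT.lf (nat_lit 0) (nat_lit 5274983358) (nat_lit 152) (nat_lit 13761114345) (nat_lit 0) (nat_lit 4947619205) (nat_lit 36) (nat_lit 5) (nat_lit 38) (nat_lit 4) (nat_lit 36) (nat_lit 4) (nat_lit 512) (nat_lit 345) (nat_lit 343))))))))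
noncomputable def xc8 : XT := (XT.nd (nat_lit 2340) (nat_lit 456) (nat_lit 0) (XT.nd (nat_lit 1170) (nat_lit 684) (nat_lit 0) (XT.nd (nat_lit 546) (nat_lit 532) (nat_lit 0) (XT.nd (nat_lit 234) (nat_lit 228) (nat_lit 0) (XT.nd (nat_lit 78) (nat_lit 152) (nat_lit 0) (XT.lf (nat_lit 0) (nat_lit 2509718310) (nat_lit 76) (nat_lit 11211785476) (nat_lit 76) (nat_lit 10727855177) (nat_lit 35) (nat_lit 4) (nat_lit 36) (nat_lit 5) (nat_lit 36) (nat_lit 4) (nat_lit 513) (nat_lit 345) (nat_lit 342)) (XT.nd (nat_lit 78) (nat_lit 152) (nat_lit 0) (XT.lf (nat_lit 0) (nat_lit 19229532966) (nat_lit 76) (nat_lit 3168045254) (nat_lit 76) (nat_lit 2532108989) (nat_lit 35) (nat_lit 4) (nat_lit 36) (nat_lit 5) (nat_lit 36) (nat_lit 4) (nat_lit 514) (nat_lit 345) (nat_lit 341)) (XT.lf (nat_lit 0) (nat_lit 5788314955) (nat_lit 152) (nat_lit 14606963218) (nat_lit 0) (nat_lit 5027620903) (nat_lit 33) (nat_lit 5) (nat_lit 35) (nat_lit 4)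 (nat_lit 33) (nat_lit 4) (nat_lit 515) (nat_lit 345) (nat_lit 340)))) (XT.nd (nat_lit 156) (nat_lit 152) (nat_lit 0) (XT.nd (nat_lit 78) (nat_lit 0) (nat_lit 0) (XT.lf (nat_lit 0) (nat_lit 1675640118) (nat_lit 76) (nat_lit 12577966606) (nat_lit 76) (nat_lit 11678165563) (nat_lit 32) (nat_lit 4) (nat_lit 33) (nat_lit 5) (nat_lit 33) (nat_lit 4) (nat_lit 516) (nat_lit 345) (nat_lit 339)) (XT.lf (nat_lit 0) (nat_lit 18434014106) (nat_lit 76) (nat_lit 4528532390) (nat_lit 76) (nat_lit 3493676015) (nat_lit 32) (nat_lit 4) (nat_lit 33) (nat_lit 5) (nat_lit 33) (nat_lit 4) (nat_lit 517) (nat_lit 345) (nat_lit 338))) (XT.nd (nat_lit 78) (nat_lit 0) (nat_lit 0) (XT.lf (nat_lit 0) (nat_lit 4803094119) (nat_lit 152) (nat_lit 18521921251) (nat_lit 0) (nat_lit 3671076588) (nat_lit 30) (nat_lit 5) (nat_lit 32) (nat_lit 4) (nat_lit 30) (nat_lit 4) (nat_lit 518) (nat_lit 345) (nat_lit 337)) (XT.lf (nat_lit 0) (nat_lit 13250612436)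 (nat_lit 152) (nat_lit 2306346617) (nat_lit 0) (nat_lit 11995000143) (nat_lit 30) (nat_lit 5) (nat_lit 32) (nat_lit 4) (nat_lit 30) (nat_lit 4) (nat_lit 519) (nat_lit 345) (nat_lit 336))))) (XT.nd (nat_lit 312) (nat_lit 228) (nat_lit 0) (XT.nd (nat_lit 156) (nat_lit 76) (nat_lit 0) (XT.nd (nat_lit 78) (nat_lit 152) (nat_lit 0) (XT.lf (nat_lit 0) (nat_lit 14378922429) (nat_lit 76) (nat_lit 7560772202) (nat_lit 76) (nat_lit 6185164996) (nat_lit 29) (nat_lit 4) (nat_lit 30) (nat_lit 5) (nat_lit 30) (nat_lit 4) (nat_lit 520) (nat_lit 345) (nat_lit 335)) (XT.lf (nat_lit 0) (nat_lit 2036629285) (nat_lit 152) (nat_lit 26092573583) (nat_lit 0) (nat_lit 587981594) (nat_lit 27) (nat_lit 5) (nat_lit 29) (nat_lit 4) (nat_lit 27) (nat_lit 4) (nat_lit 521) (nat_lit 345) (nat_lit 334))) (XT.nd (nat_lit 78) (nat_lit 76) (nat_lit 0) (XT.lf (nat_lit 0) (nat_lit 10445924889) (nat_lit 152) (nat_lit 9990098440) (nat_lit 0) (nat_lit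 8887464853) (nat_lit 27) (nat_lit 5) (nat_lit 29) (nat_lit 4) (nat_lit 27) (nat_lit 4) (nat_lit 522) (nat_lit 345) (nat_lit 333)) (XT.lf (nat_lit 0) (nat_lit 6432066131) (nat_lit 76) (nat_lit 12591750256) (nat_lit 76) (nat_lit 10926676294) (nat_lit 26) (nat_lit 4) (nat_lit 27) (nat_lit 5) (nat_lit 27) (nat_lit 4) (nat_lit 523) (nat_lit 345) (nat_lit 332)))) (XT.nd (nat_lit 156) (nat_lit 76) (nat_lit 0) (XT.nd (nat_lit 78) (nat_lit 152) (nat_lit 0) (XT.lf (nat_lit 0) (nat_lit 23265617591) (nat_lit 76) (nat_lit 4550283897) (nat_lit 76) (nat_lit 2781701269) (nat_lit 26) (nat_lit 4) (nat_lit 27) (nat_lit 5) (nat_lit 27) (nat_lit 4) (nat_lit 524) (nat_lit 345) (nat_lit 331)) (XT.lf (nat_lit 0) (nat_lit 5481220964) (nat_lit 152) (nat_lit 22115214839) (nat_lit 0) (nat_lit 3666583606) (nat_lit 24) (nat_lit 5) (nat_lit 26) (nat_lit 4) (nat_lit 24) (nat_lit 4) (nat_lit 525) (nat_lit 345) (nat_lit 330))) (XT.nd (nat_lit 78)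 (nat_lit 76) (nat_lit 0) (XT.lf (nat_lit 0) (nat_lit 13914847194) (nat_lit 152) (nat_lit 6027879651) (nat_lit 0) (nat_lit 12005484742) (nat_lit 24) (nat_lit 5) (nat_lit 26) (nat_lit 4) (nat_lit 24) (nat_lit 4) (nat_lit 526) (nat_lit 345) (nat_lit 329)) (XT.lf (nat_lit 0) (nat_lit 10473973363) (nat_lit 76) (nat_lit 12091202469) (nat_lit 76) (nat_lit 10089873908) (nat_lit 23) (nat_lit 4) (nat_lit 24) (nat_lit 5) (nat_lit 24) (nat_lit 4) (nat_lit 527) (nat_lit 345) (nat_lit 328)))))) (XT.nd (nat_lit 546) (nat_lit 304) (nat_lit 0) (XT.nd (nat_lit 234) (nat_lit 228) (nat_lit 0) (XT.nd (nat_lit 78) (nat_lit 152) (nat_lit 0) (XT.lf (nat_lit 0) (nat_lit 27324631862) (nat_lit 76) (nat_lit 4075659942) (nat_lit 76) (nat_lit 1985043897) (nat_lit 23) (nat_lit 4) (nat_lit 24) (nat_lit 5) (nat_lit 24) (nat_lit 4) (nat_lit 528) (nat_lit 345) (nat_lit 327)) (XT.nd (nat_lit 78) (nat_lit 0) (nat_lit 0) (XT.lf (nat_lit 0) (nat_lit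 6246507551) (nat_lit 152) (nat_lit 23756335264) (nat_lit 0) (nat_lit 4132621217) (nat_lit 21) (nat_lit 5) (nat_lit 23) (nat_lit 4) (nat_lit 21) (nat_lit 4) (nat_lit 529) (nat_lit 345) (nat_lit 326)) (XT.lf (nat_lit 0) (nat_lit 14654421053) (nat_lit 152) (nat_lit 7795183039) (nat_lit 0) (nat_lit 12458824022) (nat_lit 21) (nat_lit 5) (nat_lit 23) (nat_lit 4) (nat_lit 21) (nat_lit 4) (nat_lit 530) (nat_lit 345) (nat_lit 325)))) (XT.nd (nat_lit 156) (nat_lit 152) (nat_lit 0) (XT.nd (nat_lit 78) (nat_lit 0) (nat_lit 0) (XT.lf (nat_lit 0) (nat_lit 8554742657) (nat_lit 76) (nat_lit 14713084740) (nat_lit 76) (nat_lit 12438156935) (nat_lit 20) (nat_lit 4) (nat_lit 21) (nat_lit 5) (nat_lit 21) (nat_lit 4) (nat_lit 531) (nat_lit 345) (nat_lit 324)) (XT.lf (nat_lit 0) (nat_lit 25300484358) (nat_lit 76) (nat_lit 6790200123) (nat_lit 76) (nat_lit 4438252150) (nat_lit 20) (nat_lit 4) (nat_lit 21) (nat_lit 5) (nat_lit 21) (nat_lit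 4) (nat_lit 532) (nat_lit 345) (nat_lit 323))) (XT.nd (nat_lit 78) (nat_lit 0) (nat_lit 0) (XT.lf (nat_lit 0) (nat_lit 3663003348) (nat_lit 152) (nat_lit 32407452700) (nat_lit 0) (nat_lit 1306959817) (nat_lit 18) (nat_lit 5) (nat_lit 20) (nat_lit 4) (nat_lit 18) (nat_lit 4) (nat_lit 533) (nat_lit 345) (nat_lit 322)) (XT.lf (nat_lit 0) (nat_lit 11974738924) (nat_lit 152) (nat_lit 16725382607) (nat_lit 0) (nat_lit 9548211028) (nat_lit 18) (nat_lit 5) (nat_lit 20) (nat_lit 4) (nat_lit 18) (nat_lit 4) (nat_lit 534) (nat_lit 345) (nat_lit 321))))) (XT.nd (nat_lit 312) (nat_lit 76) (nat_lit 0) (XT.nd (nat_lit 156) (nat_lit 152) (nat_lit 0) (XT.nd (nat_lit 78) (nat_lit 76) (nat_lit 0) (XT.lf (nat_lit 0) (nat_lit 20414379191) (nat_lit 152) (nat_lit 815221866) (nat_lit 0) (nat_lit 17919419872) (nat_lit 18) (nat_lit 5) (nat_lit 20) (nat_lit 4) (nat_lit 18) (nat_lit 4) (nat_lit 535) (nat_lit 345) (nat_lit 320)) (XT.lf (nat_lit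 0) (nat_lit 15642166612) (nat_lit 76) (nat_lit 13497494053) (nat_lit 76) (nat_lit 10936096461) (nat_lit 17) (nat_lit 4) (nat_lit 18) (nat_lit 5) (nat_lit 18) (nat_lit 4) (nat_lit 536) (nat_lit 345) (nat_lit 319))) (XT.nd (nat_lit 78) (nat_lit 152) (nat_lit 0) (XT.lf (nat_lit 0) (nat_lit 32376982883) (nat_lit 76) (nat_lit 5641234257) (nat_lit 76) (nat_lit 3015333486) (nat_lit 17) (nat_lit 4) (nat_lit 18) (nat_lit 5) (nat_lit 18) (nat_lit 4) (nat_lit 537) (nat_lit 345) (nat_lit 318)) (XT.lf (nat_lit 0) (nat_lit 5023638990) (nat_lit 152) (nat_lit 34582107753) (nat_lit 0) (nat_lit 2413420333) (nat_lit 15) (nat_lit 5) (nat_lit 17) (nat_lit 4) (nat_lit 15) (nat_lit 4) (nat_lit 538) (nat_lit 345) (nat_lit 317)))) (XT.nd (nat_lit 156) (nat_lit 76) (nat_lit 0) (XT.nd (nat_lit 78) (nat_lit 0) (nat_lit 0) (XT.lf (nat_lit 0) (nat_lit 13272942607) (nat_lit 152) (nat_lit 19155927003) (nat_lit 0) (nat_lit 10603694404) (nat_lit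 15) (nat_lit 5) (nat_lit 17) (nat_lit 4) (nat_lit 15) (nat_lit 4) (nat_lit 539) (nat_lit 345) (nat_lit 316)) (XT.lf (nat_lit 0) (nat_lit 21658689923) (nat_lit 152) (nat_lit 3488873151) (nat_lit 0) (nat_lit 18932131481) (nat_lit 15) (nat_lit 5) (nat_lit 17) (nat_lit 4) (nat_lit 15) (nat_lit 4) (nat_lit 540) (nat_lit 345) (nat_lit 315))) (XT.nd (nat_lit 78) (nat_lit 0) (nat_lit 0) (XT.lf (nat_lit 0) (nat_lit 12680179434) (nat_lit 76) (nat_lit 17629918499) (nat_lit 76) (nat_lit 14847719048) (nat_lit 14) (nat_lit 4) (nat_lit 15) (nat_lit 5) (nat_lit 15) (nat_lit 4) (nat_lit 541) (nat_lit 345) (nat_lit 314)) (XT.lf (nat_lit 0) (nat_lit 29192485465) (nat_lit 76) (nat_lit 9957081251) (nat_lit 76) (nat_lit 7120861404) (nat_lit 14) (nat_lit 4) (nat_lit 15) (nat_lit 5) (nat_lit 15) (nat_lit 4) (nat_lit 542) (nat_lit 345) (nat_lit 313))))))) (XT.nd (nat_lit 59982) (nat_lit 0) (nat_lit 1216) (XT.nd (nat_lit 546) (nat_lit 228)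 (nat_lit 0) (XT.nd (nat_lit 234) (nat_lit 76) (nat_lit 0) (XT.nd (nat_lit 78) (nat_lit 76) (nat_lit 0) (XT.lf (nat_lit 0) (nat_lit 716822962) (nat_lit 152) (nat_lit 1433516221) (nat_lit 76) (nat_lit 45268976284) (nat_lit 13) (nat_lit 5) (nat_lit 15) (nat_lit 5) (nat_lit 14) (nat_lit 4) (nat_lit 543) (nat_lit 345) (nat_lit 312)) (XT.nd (nat_lit 78) (nat_lit 0) (nat_lit 0) (XT.lf (nat_lit 0) (nat_lit 8743918675) (nat_lit 152) (nat_lit 33963762654) (nat_lit 0) (nat_lit 5889951452) (nat_lit 12) (nat_lit 5) (nat_lit 14) (nat_lit 4) (nat_lit 12) (nat_lit 4) (nat_lit 544) (nat_lit 345) (nat_lit 311)) (XT.lf (nat_lit 0) (nat_lit 16946212539) (nat_lit 152) (nat_lit 18822807155) (nat_lit 0) (nat_lit 14044248893) (nat_lit 12) (nat_lit 5) (nat_lit 14) (nat_lit 4) (nat_lit 12) (nat_lit 4) (nat_lit 545) (nat_lit 345) (nat_lit 310)))) (XT.nd (nat_lit 156) (nat_lit 0) (nat_lit 0) (XT.nd (nat_lit 78) (nat_lit 76) (nat_lit 0) (XT.lf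 (nat_lit 0) (nat_lit 25296008002) (nat_lit 152) (nat_lit 3424877112) (nat_lit 0) (nat_lit 22347445887) (nat_lit 12) (nat_lit 5) (nat_lit 14) (nat_lit 4) (nat_lit 12) (nat_lit 4) (nat_lit 546) (nat_lit 345) (nat_lit 309)) (XT.lf (nat_lit 0) (nat_lit 12487151275) (nat_lit 76) (nat_lit 21433483862) (nat_lit 76) (nat_lit 18439680515) (nat_lit 11) (nat_lit 4) (nat_lit 12) (nat_lit 5) (nat_lit 12) (nat_lit 4) (nat_lit 547) (nat_lit 345) (nat_lit 308))) (XT.nd (nat_lit 78) (nat_lit 0) (nat_lit 0) (XT.lf (nat_lit 0) (nat_lit 28757115820) (nat_lit 76) (nat_lit 13986737901) (nat_lit 76) (nat_lit 10949011028) (nat_lit 11) (nat_lit 4) (nat_lit 12) (nat_lit 5) (nat_lit 12) (nat_lit 4) (nat_lit 548) (nat_lit 345) (nat_lit 307)) (XT.lf (nat_lit 0) (nat_lit 45331071227) (nat_lit 76) (nat_lit 6408724910) (nat_lit 76) (nat_lit 3328353837) (nat_lit 11) (nat_lit 4) (nat_lit 12) (nat_lit 5) (nat_lit 12) (nat_lit 4) (nat_lit 549) (nat_lit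 345) (nat_lit 306))))) (XT.nd (nat_lit 312) (nat_lit 76) (nat_lit 0) (XT.nd (nat_lit 156) (nat_lit 0) (nat_lit 0) (XT.nd (nat_lit 78) (nat_lit 0) (nat_lit 0) (XT.lf (nat_lit 0) (nat_lit 4411883834) (nat_lit 152) (nat_lit 50691095162) (nat_lit 0) (nat_lit 1381036059) (nat_lit 9) (nat_lit 5) (nat_lit 11) (nat_lit 4) (nat_lit 9) (nat_lit 4) (nat_lit 550) (nat_lit 345) (nat_lit 305)) (XT.lf (nat_lit 0) (nat_lit 12390052975) (nat_lit 152) (nat_lit 36228956581) (nat_lit 0) (nat_lit 9320179715) (nat_lit 9) (nat_lit 5) (nat_lit 11) (nat_lit 4) (nat_lit 9) (nat_lit 4) (nat_lit 551) (nat_lit 345) (nat_lit 304))) (XT.nd (nat_lit 78) (nat_lit 0) (nat_lit 0) (XT.lf (nat_lit 0) (nat_lit 20520061668) (nat_lit 152) (nat_lit 21508283043) (nat_lit 0) (nat_lit 17412299589) (nat_lit 9) (nat_lit 5) (nat_lit 11) (nat_lit 4) (nat_lit 9) (nat_lit 4) (nat_lit 552) (nat_lit 345) (nat_lit 303)) (XT.lf (nat_lit 0) (nat_lit 28809013803) (nat_lit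 152) (nat_lit 6516211824) (nat_lit 0) (nat_lit 25664466463) (nat_lit 9) (nat_lit 5) (nat_lit 11) (nat_lit 4) (nat_lit 9) (nat_lit 4) (nat_lit 553) (nat_lit 345) (nat_lit 302)))) (XT.nd (nat_lit 58968) (nat_lit 0) (nat_lit 2280) (XT.nd (nat_lit 58890) (nat_lit 0) (nat_lit 2508) (XT.lf (nat_lit 0) (nat_lit 8934705224) (nat_lit 76) (nat_lit 28415332783) (nat_lit 76) (nat_lit 25235071597) (nat_lit 8) (nat_lit 4) (nat_lit 9) (nat_lit 5) (nat_lit 9) (nat_lit 4) (nat_lit 554) (nat_lit 345) (nat_lit 301)) (XT.lf (nat_lit 0) (nat_lit 6636801261) (nat_lit 76) (nat_lit 2243931103) (nat_lit 76) (nat_lit 2243931103) (nat_lit 41) (nat_lit 4) (nat_lit 42) (nat_lit 5) (nat_lit 42) (nat_lit 4) (nat_lit 508) (nat_lit 346) (nat_lit 346))) (XT.nd (nat_lit 78) (nat_lit 76) (nat_lit 0) (XT.lf (nat_lit 0) (nat_lit 3679002008) (nat_lit 152) (nat_lit 15484470345) (nat_lit 0) (nat_lit 3502785432) (nat_lit 39) (nat_lit 5) (nat_lit 41) (nat_lit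 4) (nat_lit 39) (nat_lit 4) (nat_lit 509) (nat_lit 346) (nat_lit 345)) (XT.lf (nat_lit 0) (nat_lit 511131292) (nat_lit 76) (nat_lit 11465626078) (nat_lit 76) (nat_lit 11118325448) (nat_lit 38) (nat_lit 4) (nat_lit 39) (nat_lit 5) (nat_lit 39) (nat_lit 4) (nat_lit 510) (nat_lit 346) (nat_lit 344)))))) (XT.nd (nat_lit 546) (nat_lit 608) (nat_lit 0) (XT.nd (nat_lit 234) (nat_lit 228) (nat_lit 0) (XT.nd (nat_lit 78) (nat_lit 228) (nat_lit 0) (XT.lf (nat_lit 0) (nat_lit 16983077541) (nat_lit 76) (nat_lit 3533650043) (nat_lit 76) (nat_lit 3020248390) (nat_lit 38) (nat_lit 4) (nat_lit 39) (nat_lit 5) (nat_lit 39) (nat_lit 4) (nat_lit 511) (nat_lit 346) (nat_lit 343)) (XT.nd (nat_lit 78) (nat_lit 76) (nat_lit 0) (XT.lf (nat_lit 0) (nat_lit 5195589681) (nat_lit 152) (nat_lit 14255068868) (nat_lit 0) (nat_lit 4540575328) (nat_lit 36) (nat_lit 5) (nat_lit 38) (nat_lit 4) (nat_lit 36) (nat_lit 4) (nat_lit 512) (nat_lit 346)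 (nat_lit 342)) (XT.lf (nat_lit 0) (nat_lit 1847690595) (nat_lit 76) (nat_lit 11709378852) (nat_lit 76) (nat_lit 10902358533) (nat_lit 35) (nat_lit 4) (nat_lit 36) (nat_lit 5) (nat_lit 36) (nat_lit 4) (nat_lit 513) (nat_lit 346) (nat_lit 341)))) (XT.nd (nat_lit 156) (nat_lit 76) (nat_lit 0) (XT.nd (nat_lit 78) (nat_lit 152) (nat_lit 0) (XT.lf (nat_lit 0) (nat_lit 18413871727) (nat_lit 76) (nat_lit 3741410046) (nat_lit 76) (nat_lit 2786811119) (nat_lit 35) (nat_lit 4) (nat_lit 36) (nat_lit 5) (nat_lit 36) (nat_lit 4) (nat_lit 514) (nat_lit 346) (nat_lit 340)) (XT.lf (nat_lit 0) (nat_lit 5446322835) (nat_lit 152) (nat_lit 15611403170) (nat_lit 0) (nat_lit 4380420768) (nat_lit 33) (nat_lit 5) (nat_lit 35) (nat_lit 4) (nat_lit 33) (nat_lit 4) (nat_lit 515) (nat_lit 346) (nat_lit 339))) (XT.nd (nat_lit 78) (nat_lit 0) (nat_lit 0) (XT.lf (nat_lit 0) (nat_lit 497448326) (nat_lit 76) (nat_lit 13326578710) (nat_lit 76) (nat_lit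 12125621311) (nat_lit 32) (nat_lit 4) (nat_lit 33) (nat_lit 5) (nat_lit 33) (nat_lit 4) (nat_lit 516) (nat_lit 346) (nat_lit 338)) (XT.lf (nat_lit 0) (nat_lit 17106539290) (nat_lit 76) (nat_lit 5350951676) (nat_lit 76) (nat_lit 4018872595) (nat_lit 32) (nat_lit 4) (nat_lit 33) (nat_lit 5) (nat_lit 33) (nat_lit 4) (nat_lit 517) (nat_lit 346) (nat_lit 337))))) (XT.nd (nat_lit 312) (nat_lit 228) (nat_lit 0) (XT.nd (nat_lit 156) (nat_lit 228) (nat_lit 0) (XT.nd (nat_lit 78) (nat_lit 0) (nat_lit 0) (XT.lf (nat_lit 0) (nat_lit 4190748383) (nat_lit 152) (nat_lit 20054685723) (nat_lit 0) (nat_lit 2773872961) (nat_lit 30) (nat_lit 5) (nat_lit 32) (nat_lit 4) (nat_lit 30) (nat_lit 4) (nat_lit 518) (nat_lit 346) (nat_lit 336)) (XT.lf (nat_lit 0) (nat_lit 12564335336) (nat_lit 152) (nat_lit 3985592563) (nat_lit 0) (nat_lit 11027465000) (nat_lit 30) (nat_lit 5) (nat_lit 32) (nat_lit 4) (nat_lit 30) (nat_lit 4) (nat_lit 519)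 (nat_lit 346) (nat_lit 335))) (XT.nd (nat_lit 78) (nat_lit 152) (nat_lit 0) (XT.lf (nat_lit 0) (nat_lit 12521210815) (nat_lit 76) (nat_lit 8642571233) (nat_lit 76) (nat_lit 6989200982) (nat_lit 29) (nat_lit 4) (nat_lit 30) (nat_lit 5) (nat_lit 30) (nat_lit 4) (nat_lit 520) (nat_lit 346) (nat_lit 334)) (XT.lf (nat_lit 0) (nat_lit 569983952) (nat_lit 76) (nat_lit 580982017) (nat_lit 152) (nat_lit 27597493869) (nat_lit 27) (nat_lit 5) (nat_lit 28) (nat_lit 5) (nat_lit 29) (nat_lit 4) (nat_lit 521) (nat_lit 346) (nat_lit 333)))) (XT.nd (nat_lit 156) (nat_lit 152) (nat_lit 0) (XT.nd (nat_lit 78) (nat_lit 76) (nat_lit 0) (XT.lf (nat_lit 0) (nat_lit 9482996066) (nat_lit 152) (nat_lit 12212730078) (nat_lit 0) (nat_lit 7661355959) (nat_lit 27) (nat_lit 5) (nat_lit 29) (nat_lit 4) (nat_lit 27) (nat_lit 4) (nat_lit 522) (nat_lit 346) (nat_lit 332)) (XT.lf (nat_lit 0) (nat_lit 4024280911) (nat_lit 76) (nat_lit 13943868586)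 (nat_lit 76) (nat_lit 12018719813) (nat_lit 26) (nat_lit 4) (nat_lit 27) (nat_lit 5) (nat_lit 27) (nat_lit 4) (nat_lit 523) (nat_lit 346) (nat_lit 331))) (XT.nd (nat_lit 78) (nat_lit 152) (nat_lit 0) (XT.lf (nat_lit 0) (nat_lit 20721017949) (nat_lit 76) (nat_lit 5970335521) (nat_lit 76) (nat_lit 3944692896) (nat_lit 26) (nat_lit 4) (nat_lit 27) (nat_lit 5) (nat_lit 27) (nat_lit 4) (nat_lit 524) (nat_lit 346) (nat_lit 330)) (XT.lf (nat_lit 0) (nat_lit 4232191862) (nat_lit 152) (nat_lit 24902045559) (nat_lit 0) (nat_lit 2170823444) (nat_lit 24) (nat_lit 5) (nat_lit 26) (nat_lit 4) (nat_lit 24) (nat_lit 4) (nat_lit 525) (nat_lit 346) (nat_lit 329))))))))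
noncomputable def xc9 : XT := (XT.nd (nat_lit 61074) (nat_lit 0) (nat_lit 532) (XT.nd (nat_lit 1170) (nat_lit 456) (nat_lit 0) (XT.nd (nat_lit 546) (nat_lit 380) (nat_lit 0) (XT.nd (nat_lit 234) (nat_lit 228) (nat_lit 0) (XT.nd (nat_lit 78) (nat_lit 76) (nat_lit 0) (XT.lf (nat_lit 0) (nat_lit 12598336014) (nat_lit 152) (nat_lit 8948940506) (nat_lit 0) (nat_lit 10445001487) (nat_lit 24) (nat_lit 5) (nat_lit 26) (nat_lit 4) (nat_lit 24) (nat_lit 4) (nat_lit 526) (nat_lit 346) (nat_lit 328)) (XT.nd (nat_lit 78) (nat_lit 0) (nat_lit 0) (XT.lf (nat_lit 0) (nat_lit 7361863518) (nat_lit 76) (nat_lit 13791369052) (nat_lit 76) (nat_lit 11548747040) (nat_lit 23) (nat_lit 4) (nat_lit 24) (nat_lit 5) (nat_lit 24) (nat_lit 4) (nat_lit 527) (nat_lit 346) (nat_lit 327)) (XT.lf (nat_lit 0) (nat_lit 24083479150) (nat_lit 76) (nat_lit 5840020623) (nat_lit 76) (nat_lit 3510711733) (nat_lit 23) (nat_lit 4) (nat_lit 24) (nat_lit 5)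 (nat_lit 24) (nat_lit 4) (nat_lit 528) (nat_lit 346) (nat_lit 326)))) (XT.nd (nat_lit 156) (nat_lit 76) (nat_lit 0) (XT.nd (nat_lit 78) (nat_lit 0) (nat_lit 0) (XT.lf (nat_lit 0) (nat_lit 4635634306) (nat_lit 152) (nat_lit 27260136579) (nat_lit 0) (nat_lit 2292458667) (nat_lit 21) (nat_lit 5) (nat_lit 23) (nat_lit 4) (nat_lit 21) (nat_lit 4) (nat_lit 529) (nat_lit 346) (nat_lit 325)) (XT.lf (nat_lit 0) (nat_lit 12980011856) (nat_lit 152) (nat_lit 11425582845) (nat_lit 0) (nat_lit 10557505443) (nat_lit 21) (nat_lit 5) (nat_lit 23) (nat_lit 4) (nat_lit 21) (nat_lit 4) (nat_lit 530) (nat_lit 346) (nat_lit 324))) (XT.nd (nat_lit 78) (nat_lit 0) (nat_lit 0) (XT.lf (nat_lit 0) (nat_lit 4726733448) (nat_lit 76) (nat_lit 16768202196) (nat_lit 76) (nat_lit 14268675614) (nat_lit 20) (nat_lit 4) (nat_lit 21) (nat_lit 5) (nat_lit 21) (nat_lit 4) (nat_lit 531) (nat_lit 346) (nat_lit 323)) (XT.lf (nat_lit 0) (nat_lit 21350769005)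 (nat_lit 76) (nat_lit 8905965082) (nat_lit 76) (nat_lit 6331661638) (nat_lit 20) (nat_lit 4) (nat_lit 21) (nat_lit 5) (nat_lit 21) (nat_lit 4) (nat_lit 532) (nat_lit 346) (nat_lit 322))))) (XT.nd (nat_lit 312) (nat_lit 152) (nat_lit 0) (XT.nd (nat_lit 156) (nat_lit 76) (nat_lit 0) (XT.nd (nat_lit 78) (nat_lit 0) (nat_lit 0) (XT.lf (nat_lit 0) (nat_lit 791030323) (nat_lit 76) (nat_lit 902532565) (nat_lit 152) (nat_lit 35747247820) (nat_lit 18) (nat_lit 5) (nat_lit 19) (nat_lit 5) (nat_lit 20) (nat_lit 4) (nat_lit 533) (nat_lit 346) (nat_lit 321)) (XT.lf (nat_lit 0) (nat_lit 9936796475) (nat_lit 152) (nat_lit 21078429403) (nat_lit 0) (nat_lit 7298556955) (nat_lit 18) (nat_lit 5) (nat_lit 20) (nat_lit 4) (nat_lit 18) (nat_lit 4) (nat_lit 534) (nat_lit 346) (nat_lit 320))) (XT.nd (nat_lit 78) (nat_lit 76) (nat_lit 0) (XT.lf (nat_lit 0) (nat_lit 18318352962) (nat_lit 152) (nat_lit 5284185950) (nat_lit 0) (nat_lit 15613675167)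 (nat_lit 18) (nat_lit 5) (nat_lit 20) (nat_lit 4) (nat_lit 18) (nat_lit 4) (nat_lit 535) (nat_lit 346) (nat_lit 319)) (XT.lf (nat_lit 0) (nat_lit 10969480537) (nat_lit 76) (nat_lit 15972845163) (nat_lit 76) (nat_lit 13203664190) (nat_lit 17) (nat_lit 4) (nat_lit 18) (nat_lit 5) (nat_lit 18) (nat_lit 4) (nat_lit 536) (nat_lit 346) (nat_lit 318)))) (XT.nd (nat_lit 156) (nat_lit 0) (nat_lit 0) (XT.nd (nat_lit 78) (nat_lit 152) (nat_lit 0) (XT.lf (nat_lit 0) (nat_lit 27592859096) (nat_lit 76) (nat_lit 8172202338) (nat_lit 76) (nat_lit 5340396919) (nat_lit 17) (nat_lit 4) (nat_lit 18) (nat_lit 5) (nat_lit 18) (nat_lit 4) (nat_lit 537) (nat_lit 346) (nat_lit 317)) (XT.lf (nat_lit 0) (nat_lit 2420092351) (nat_lit 76) (nat_lit 197000359) (nat_lit 152) (nat_lit 39478458510) (nat_lit 15) (nat_lit 5) (nat_lit 16) (nat_lit 5) (nat_lit 17) (nat_lit 4) (nat_lit 538) (nat_lit 346) (nat_lit 316))) (XT.nd (nat_lit 78) (nat_lit 0)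 (nat_lit 0) (XT.lf (nat_lit 0) (nat_lit 10809805393) (nat_lit 152) (nat_lit 24356700845) (nat_lit 0) (nat_lit 7944139959) (nat_lit 15) (nat_lit 5) (nat_lit 17) (nat_lit 4) (nat_lit 15) (nat_lit 4) (nat_lit 539) (nat_lit 346) (nat_lit 315)) (XT.lf (nat_lit 0) (nat_lit 19142448587) (nat_lit 152) (nat_lit 8795779434) (nat_lit 0) (nat_lit 16221142144) (nat_lit 15) (nat_lit 5) (nat_lit 17) (nat_lit 4) (nat_lit 15) (nat_lit 4) (nat_lit 540) (nat_lit 346) (nat_lit 314)))))) (XT.nd (nat_lit 546) (nat_lit 152) (nat_lit 0) (XT.nd (nat_lit 234) (nat_lit 228) (nat_lit 0) (XT.nd (nat_lit 78) (nat_lit 0) (nat_lit 0) (XT.lf (nat_lit 0) (nat_lit 7162563383) (nat_lit 76) (nat_lit 20526697112) (nat_lit 76) (nat_lit 17551370272) (nat_lit 14) (nat_lit 4) (nat_lit 15) (nat_lit 5) (nat_lit 15) (nat_lit 4) (nat_lit 541) (nat_lit 346) (nat_lit 313)) (XT.nd (nat_lit 78) (nat_lit 0) (nat_lit 0) (XT.lf (nat_lit 0) (nat_lit 23572838417) (nat_lit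 76) (nat_lit 12904854349) (nat_lit 76) (nat_lit 9877080522) (nat_lit 14) (nat_lit 4) (nat_lit 15) (nat_lit 5) (nat_lit 15) (nat_lit 4) (nat_lit 542) (nat_lit 346) (nat_lit 312)) (XT.lf (nat_lit 0) (nat_lit 40274331485) (nat_lit 76) (nat_lit 5154859995) (nat_lit 76) (nat_lit 2076166763) (nat_lit 14) (nat_lit 4) (nat_lit 15) (nat_lit 5) (nat_lit 15) (nat_lit 4) (nat_lit 543) (nat_lit 346) (nat_lit 311)))) (XT.nd (nat_lit 156) (nat_lit 76) (nat_lit 0) (XT.nd (nat_lit 78) (nat_lit 0) (nat_lit 0) (XT.lf (nat_lit 0) (nat_lit 5855148116) (nat_lit 152) (nat_lit 40015086117) (nat_lit 0) (nat_lit 2818129138) (nat_lit 12) (nat_lit 5) (nat_lit 14) (nat_lit 4) (nat_lit 12) (nat_lit 4) (nat_lit 544) (nat_lit 346) (nat_lit 310)) (XT.lf (nat_lit 0) (nat_lit 14008886701) (nat_lit 152) (nat_lit 24971300135) (nat_lit 0) (nat_lit 10925269254) (nat_lit 12) (nat_lit 5) (nat_lit 14) (nat_lit 4) (nat_lit 12) (nat_lit 4) (nat_lit 545) (nat_lit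 346) (nat_lit 309))) (XT.nd (nat_lit 78) (nat_lit 76) (nat_lit 0) (XT.lf (nat_lit 0) (nat_lit 22311541115) (nat_lit 152) (nat_lit 9667709429) (nat_lit 0) (nat_lit 19182682436) (nat_lit 12) (nat_lit 5) (nat_lit 14) (nat_lit 4) (nat_lit 12) (nat_lit 4) (nat_lit 546) (nat_lit 346) (nat_lit 308)) (XT.lf (nat_lit 0) (nat_lit 6026659911) (nat_lit 76) (nat_lit 24801638135) (nat_lit 76) (nat_lit 21628855930) (nat_lit 11) (nat_lit 4) (nat_lit 12) (nat_lit 5) (nat_lit 12) (nat_lit 4) (nat_lit 547) (nat_lit 346) (nat_lit 307))))) (XT.nd (nat_lit 312) (nat_lit 0) (nat_lit 0) (XT.nd (nat_lit 156) (nat_lit 152) (nat_lit 0) (XT.nd (nat_lit 78) (nat_lit 0) (nat_lit 0) (XT.lf (nat_lit 0) (nat_lit 22205930824) (nat_lit 76) (nat_lit 17400279046) (nat_lit 76) (nat_lit 14184852640) (nat_lit 11) (nat_lit 4) (nat_lit 12) (nat_lit 5) (nat_lit 12) (nat_lit 4) (nat_lit 548) (nat_lit 346) (nat_lit 306)) (XT.lf (nat_lit 0) (nat_lit 38691834159)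 (nat_lit 76) (nat_lit 9866330978) (nat_lit 76) (nat_lit 6609502437) (nat_lit 11) (nat_lit 4) (nat_lit 12) (nat_lit 5) (nat_lit 12) (nat_lit 4) (nat_lit 549) (nat_lit 346) (nat_lit 305))) (XT.nd (nat_lit 78) (nat_lit 76) (nat_lit 0) (XT.lf (nat_lit 0) (nat_lit 1082274533) (nat_lit 152) (nat_lit 1100007487) (nat_lit 76) (nat_lit 54405571692) (nat_lit 10) (nat_lit 5) (nat_lit 12) (nat_lit 5) (nat_lit 11) (nat_lit 4) (nat_lit 550) (nat_lit 346) (nat_lit 304)) (XT.lf (nat_lit 0) (nat_lit 8985468912) (nat_lit 152) (nat_lit 43313223315) (nat_lit 0) (nat_lit 5746585151) (nat_lit 9) (nat_lit 5) (nat_lit 11) (nat_lit 4) (nat_lit 9) (nat_lit 4) (nat_lit 551) (nat_lit 346) (nat_lit 303)))) (XT.nd (nat_lit 58890) (nat_lit 0) (nat_lit 2508) (XT.nd (nat_lit 78) (nat_lit 0) (nat_lit 0) (XT.lf (nat_lit 0) (nat_lit 17073626955) (nat_lit 152) (nat_lit 28676403238) (nat_lit 0) (nat_lit 13797957933) (nat_lit 9) (nat_lit 5) (nat_lit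 11) (nat_lit 4) (nat_lit 9) (nat_lit 4) (nat_lit 552) (nat_lit 346) (nat_lit 302)) (XT.lf (nat_lit 0) (nat_lit 25321947393) (nat_lit 152) (nat_lit 13765743145) (nat_lit 0) (nat_lit 22010564524) (nat_lit 9) (nat_lit 5) (nat_lit 11) (nat_lit 4) (nat_lit 9) (nat_lit 4) (nat_lit 553) (nat_lit 346) (nat_lit 301))) (XT.nd (nat_lit 78) (nat_lit 0) (nat_lit 0) (XT.lf (nat_lit 0) (nat_lit 684133565) (nat_lit 152) (nat_lit 9356668346) (nat_lit 0) (nat_lit 684133565) (nat_lit 42) (nat_lit 5) (nat_lit 44) (nat_lit 4) (nat_lit 42) (nat_lit 4) (nat_lit 506) (nat_lit 347) (nat_lit 347)) (XT.lf (nat_lit 0) (nat_lit 9513039478) (nat_lit 152) (nat_lit 3005243956) (nat_lit 0) (nat_lit 9326091313) (nat_lit 42) (nat_lit 5) (nat_lit 44) (nat_lit 4) (nat_lit 42) (nat_lit 4) (nat_lit 507) (nat_lit 347) (nat_lit 346))))))) (XT.nd (nat_lit 1170) (nat_lit 836) (nat_lit 0) (XT.nd (nat_lit 546) (nat_lit 608) (nat_lit 0) (XT.nd (nat_lit 234)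 (nat_lit 228) (nat_lit 0) (XT.nd (nat_lit 78) (nat_lit 228) (nat_lit 0) (XT.lf (nat_lit 0) (nat_lit 13115661464) (nat_lit 76) (nat_lit 4752266130) (nat_lit 76) (nat_lit 4383814891) (nat_lit 41) (nat_lit 4) (nat_lit 42) (nat_lit 5) (nat_lit 42) (nat_lit 4) (nat_lit 508) (nat_lit 347) (nat_lit 345)) (XT.nd (nat_lit 78) (nat_lit 76) (nat_lit 0) (XT.lf (nat_lit 0) (nat_lit 3695709687) (nat_lit 152) (nat_lit 15808587868) (nat_lit 0) (nat_lit 3166905984) (nat_lit 39) (nat_lit 5) (nat_lit 41) (nat_lit 4) (nat_lit 39) (nat_lit 4) (nat_lit 509) (nat_lit 347) (nat_lit 344)) (XT.lf (nat_lit 0) (nat_lit 22464722) (nat_lit 76) (nat_lit 11887487434) (nat_lit 76) (nat_lit 11192582707) (nat_lit 38) (nat_lit 4) (nat_lit 39) (nat_lit 5) (nat_lit 39) (nat_lit 4) (nat_lit 510) (nat_lit 347) (nat_lit 343)))) (XT.nd (nat_lit 156) (nat_lit 76) (nat_lit 0) (XT.nd (nat_lit 78) (nat_lit 152) (nat_lit 0) (XT.lf (nat_lit 0) (nat_lit 16340917309)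 (nat_lit 76) (nat_lit 4031009654) (nat_lit 76) (nat_lit 3174841798) (nat_lit 38) (nat_lit 4) (nat_lit 39) (nat_lit 5) (nat_lit 39) (nat_lit 4) (nat_lit 511) (nat_lit 347) (nat_lit 342)) (XT.lf (nat_lit 0) (nat_lit 4954100196) (nat_lit 152) (nat_lit 15078805960) (nat_lit 0) (nat_lit 3970863301) (nat_lit 36) (nat_lit 5) (nat_lit 38) (nat_lit 4) (nat_lit 36) (nat_lit 4) (nat_lit 512) (nat_lit 347) (nat_lit 341))) (XT.nd (nat_lit 78) (nat_lit 0) (nat_lit 0) (XT.lf (nat_lit 0) (nat_lit 853925996) (nat_lit 76) (nat_lit 12375716004) (nat_lit 76) (nat_lit 11244900502) (nat_lit 35) (nat_lit 4) (nat_lit 36) (nat_lit 5) (nat_lit 36) (nat_lit 4) (nat_lit 513) (nat_lit 347) (nat_lit 340)) (XT.lf (nat_lit 0) (nat_lit 17270948369) (nat_lit 76) (nat_lit 4481311680) (nat_lit 76) (nat_lit 3207215975) (nat_lit 35) (nat_lit 4) (nat_lit 36) (nat_lit 5) (nat_lit 36) (nat_lit 4) (nat_lit 514) (nat_lit 347) (nat_lit 339))))) (XT.nd (nat_lit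 312) (nat_lit 228) (nat_lit 0) (XT.nd (nat_lit 156) (nat_lit 228) (nat_lit 0) (XT.nd (nat_lit 78) (nat_lit 0) (nat_lit 0) (XT.lf (nat_lit 0) (nat_lit 4939258954) (nat_lit 152) (nat_lit 16952021301) (nat_lit 0) (nat_lit 3567217500) (nat_lit 33) (nat_lit 5) (nat_lit 35) (nat_lit 4) (nat_lit 33) (nat_lit 4) (nat_lit 515) (nat_lit 347) (nat_lit 338)) (XT.lf (nat_lit 0) (nat_lit 13238140536) (nat_lit 152) (nat_lit 999246787) (nat_lit 0) (nat_lit 11734977400) (nat_lit 33) (nat_lit 5) (nat_lit 35) (nat_lit 4) (nat_lit 33) (nat_lit 4) (nat_lit 516) (nat_lit 347) (nat_lit 337))) (XT.nd (nat_lit 78) (nat_lit 152) (nat_lit 0) (XT.lf (nat_lit 0) (nat_lit 15445022231) (nat_lit 76) (nat_lit 6343508180) (nat_lit 76) (nat_lit 4713042441) (nat_lit 32) (nat_lit 4) (nat_lit 33) (nat_lit 5) (nat_lit 33) (nat_lit 4) (nat_lit 517) (nat_lit 347) (nat_lit 336)) (XT.lf (nat_lit 0) (nat_lit 3409951606) (nat_lit 152) (nat_lit 21930790522)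 (nat_lit 0) (nat_lit 1706980247) (nat_lit 30) (nat_lit 5) (nat_lit 32) (nat_lit 4) (nat_lit 30) (nat_lit 4) (nat_lit 518) (nat_lit 347) (nat_lit 335)))) (XT.nd (nat_lit 156) (nat_lit 152) (nat_lit 0) (XT.nd (nat_lit 78) (nat_lit 76) (nat_lit 0) (XT.lf (nat_lit 0) (nat_lit 11711760536) (nat_lit 152) (nat_lit 6003912386) (nat_lit 0) (nat_lit 9892289261) (nat_lit 30) (nat_lit 5) (nat_lit 32) (nat_lit 4) (nat_lit 30) (nat_lit 4) (nat_lit 519) (nat_lit 347) (nat_lit 334)) (XT.lf (nat_lit 0) (nat_lit 10321901711) (nat_lit 76) (nat_lit 9898477032) (nat_lit 76) (nat_lit 7965899042) (nat_lit 29) (nat_lit 4) (nat_lit 30) (nat_lit 5) (nat_lit 30) (nat_lit 4) (nat_lit 520) (nat_lit 347) (nat_lit 333))) (XT.nd (nat_lit 78) (nat_lit 76) (nat_lit 0) (XT.lf (nat_lit 0) (nat_lit 118192395) (nat_lit 152) (nat_lit 1802459769) (nat_lit 76) (nat_lit 26863638700) (nat_lit 28) (nat_lit 5) (nat_lit 30) (nat_lit 5) (nat_lit 29) (nat_lit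 4) (nat_lit 521) (nat_lit 347) (nat_lit 332)) (XT.lf (nat_lit 0) (nat_lit 8349905664) (nat_lit 152) (nat_lit 14782523775) (nat_lit 0) (nat_lit 6263493761) (nat_lit 27) (nat_lit 5) (nat_lit 29) (nat_lit 4) (nat_lit 27) (nat_lit 4) (nat_lit 522) (nat_lit 347) (nat_lit 331)))))) (XT.nd (nat_lit 624) (nat_lit 380) (nat_lit 0) (XT.nd (nat_lit 312) (nat_lit 228) (nat_lit 0) (XT.nd (nat_lit 156) (nat_lit 152) (nat_lit 0) (XT.nd (nat_lit 78) (nat_lit 0) (nat_lit 0) (XT.lf (nat_lit 0) (nat_lit 1266528859) (nat_lit 76) (nat_lit 15474455052) (nat_lit 76) (nat_lit 13287549298) (nat_lit 26) (nat_lit 4) (nat_lit 27) (nat_lit 5) (nat_lit 27) (nat_lit 4) (nat_lit 523) (nat_lit 347) (nat_lit 330)) (XT.lf (nat_lit 0) (nat_lit 17830436362) (nat_lit 76) (nat_lit 7566876641) (nat_lit 76) (nat_lit 5282404041) (nat_lit 26) (nat_lit 4) (nat_lit 27) (nat_lit 5) (nat_lit 27) (nat_lit 4) (nat_lit 524) (nat_lit 347) (nat_lit 329))) (XT.nd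 (nat_lit 78) (nat_lit 0) (nat_lit 0) (XT.lf (nat_lit 0) (nat_lit 2808703270) (nat_lit 152) (nat_lit 28044968373) (nat_lit 0) (nat_lit 498802598) (nat_lit 24) (nat_lit 5) (nat_lit 26) (nat_lit 4) (nat_lit 24) (nat_lit 4) (nat_lit 525) (nat_lit 347) (nat_lit 328)) (XT.lf (nat_lit 0) (nat_lit 11109330842) (nat_lit 152) (nat_lit 12222183839) (nat_lit 0) (nat_lit 8710142685) (nat_lit 24) (nat_lit 5) (nat_lit 26) (nat_lit 4) (nat_lit 24) (nat_lit 4) (nat_lit 526) (nat_lit 347) (nat_lit 327)))) (XT.nd (nat_lit 156) (nat_lit 152) (nat_lit 0) (XT.nd (nat_lit 78) (nat_lit 0) (nat_lit 0) (XT.lf (nat_lit 0) (nat_lit 3894433357) (nat_lit 76) (nat_lit 15672854651) (nat_lit 76) (nat_lit 13186979615) (nat_lit 23) (nat_lit 4) (nat_lit 24) (nat_lit 5) (nat_lit 24) (nat_lit 4) (nat_lit 527) (nat_lit 347) (nat_lit 326)) (XT.lf (nat_lit 0) (nat_lit 20490764652) (nat_lit 76) (nat_lit 7783830589) (nat_lit 76) (nat_lit 5213793536) (nat_lit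 23) (nat_lit 4) (nat_lit 24) (nat_lit 5) (nat_lit 24) (nat_lit 4) (nat_lit 528) (nat_lit 347) (nat_lit 325))) (XT.nd (nat_lit 78) (nat_lit 0) (nat_lit 0) (XT.lf (nat_lit 0) (nat_lit 2847456882) (nat_lit 152) (nat_lit 31126046870) (nat_lit 0) (nat_lit 272944503) (nat_lit 21) (nat_lit 5) (nat_lit 23) (nat_lit 4) (nat_lit 21) (nat_lit 4) (nat_lit 529) (nat_lit 347) (nat_lit 324)) (XT.lf (nat_lit 0) (nat_lit 11130149042) (nat_lit 152) (nat_lit 15414404291) (nat_lit 0) (nat_lit 8478616494) (nat_lit 21) (nat_lit 5) (nat_lit 23) (nat_lit 4) (nat_lit 21) (nat_lit 4) (nat_lit 530) (nat_lit 347) (nat_lit 323))))) (XT.nd (nat_lit 312) (nat_lit 152) (nat_lit 0) (XT.nd (nat_lit 156) (nat_lit 152) (nat_lit 0) (XT.nd (nat_lit 78) (nat_lit 0) (nat_lit 0) (XT.lf (nat_lit 0) (nat_lit 536820490) (nat_lit 76) (nat_lit 19008087606) (nat_lit 76) (nat_lit 16281778195) (nat_lit 20) (nat_lit 4) (nat_lit 21) (nat_lit 5) (nat_lit 21) (nat_lit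 4) (nat_lit 531) (nat_lit 347) (nat_lit 322)) (XT.lf (nat_lit 0) (nat_lit 17042694741) (nat_lit 76) (nat_lit 11204731563) (nat_lit 76) (nat_lit 8405823256) (nat_lit 20) (nat_lit 4) (nat_lit 21) (nat_lit 5) (nat_lit 21) (nat_lit 4) (nat_lit 532) (nat_lit 347) (nat_lit 321))) (XT.nd (nat_lit 78) (nat_lit 152) (nat_lit 0) (XT.lf (nat_lit 0) (nat_lit 33810864200) (nat_lit 76) (nat_lit 3283321997) (nat_lit 76) (nat_lit 413929325) (nat_lit 20) (nat_lit 4) (nat_lit 21) (nat_lit 5) (nat_lit 21) (nat_lit 4) (nat_lit 533) (nat_lit 347) (nat_lit 320)) (XT.lf (nat_lit 0) (nat_lit 7719805679) (nat_lit 152) (nat_lit 25797379697) (nat_lit 0) (nat_lit 4867549277) (nat_lit 18) (nat_lit 5) (nat_lit 20) (nat_lit 4) (nat_lit 18) (nat_lit 4) (nat_lit 534) (nat_lit 347) (nat_lit 319)))) (XT.nd (nat_lit 156) (nat_lit 76) (nat_lit 0) (XT.nd (nat_lit 78) (nat_lit 76) (nat_lit 0) (XT.lf (nat_lit 0) (nat_lit 16044970146) (nat_lit 152) (nat_lit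 10115677300) (nat_lit 0) (nat_lit 13128210565) (nat_lit 18) (nat_lit 5) (nat_lit 20) (nat_lit 4) (nat_lit 18) (nat_lit 4) (nat_lit 535) (nat_lit 347) (nat_lit 318)) (XT.lf (nat_lit 0) (nat_lit 5930395324) (nat_lit 76) (nat_lit 18635359258) (nat_lit 76) (nat_lit 15655975231) (nat_lit 17) (nat_lit 4) (nat_lit 18) (nat_lit 5) (nat_lit 18) (nat_lit 4) (nat_lit 536) (nat_lit 347) (nat_lit 317))) (XT.nd (nat_lit 78) (nat_lit 76) (nat_lit 0) (XT.lf (nat_lit 0) (nat_lit 22445581929) (nat_lit 76) (nat_lit 10888713492) (nat_lit 76) (nat_lit 7848529033) (nat_lit 17) (nat_lit 4) (nat_lit 18) (nat_lit 5) (nat_lit 18) (nat_lit 4) (nat_lit 537) (nat_lit 347) (nat_lit 316)) (XT.lf (nat_lit 0) (nat_lit 81502208) (nat_lit 152) (nat_lit 2933764522) (nat_lit 76) (nat_lit 39160666226) (nat_lit 16) (nat_lit 5) (nat_lit 18) (nat_lit 5) (nat_lit 17) (nat_lit 4) (nat_lit 538) (nat_lit 347) (nat_lit 315))))))))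
noncomputable def xc10 : XT := (XT.nd (nat_lit 60918) (nat_lit 0) (nat_lit 152) (XT.nd (nat_lit 59748) (nat_lit 0) (nat_lit 1596) (XT.nd (nat_lit 546) (nat_lit 228) (nat_lit 0) (XT.nd (nat_lit 234) (nat_lit 152) (nat_lit 0) (XT.nd (nat_lit 78) (nat_lit 76) (nat_lit 0) (XT.lf (nat_lit 0) (nat_lit 8164972695) (nat_lit 152) (nat_lit 29928946758) (nat_lit 0) (nat_lit 5100386050) (nat_lit 15) (nat_lit 5) (nat_lit 17) (nat_lit 4) (nat_lit 15) (nat_lit 4) (nat_lit 539) (nat_lit 347) (nat_lit 314)) (XT.nd (nat_lit 78) (nat_lit 76) (nat_lit 0) (XT.lf (nat_lit 0) (nat_lit 16446058489) (nat_lit 152) (nat_lit 14471066551) (nat_lit 0) (nat_lit 13327451447) (nat_lit 15) (nat_lit 5) (nat_lit 17) (nat_lit 4) (nat_lit 15) (nat_lit 4) (nat_lit 540) (nat_lit 347) (nat_lit 313)) (XT.lf (nat_lit 0) (nat_lit 1272295927) (nat_lit 76) (nat_lit 23613897887) (nat_lit 76) (nat_lit 20442843858) (nat_lit 14) (nat_lit 4) (nat_lit 15) (nat_lit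 5) (nat_lit 15) (nat_lit 4) (nat_lit 541) (nat_lit 347) (nat_lit 312)))) (XT.nd (nat_lit 156) (nat_lit 152) (nat_lit 0) (XT.nd (nat_lit 78) (nat_lit 0) (nat_lit 0) (XT.lf (nat_lit 0) (nat_lit 17583511741) (nat_lit 76) (nat_lit 16041564332) (nat_lit 76) (nat_lit 12819590898) (nat_lit 14) (nat_lit 4) (nat_lit 15) (nat_lit 5) (nat_lit 15) (nat_lit 4) (nat_lit 542) (nat_lit 347) (nat_lit 311)) (XT.lf (nat_lit 0) (nat_lit 34188830809) (nat_lit 76) (nat_lit 8339637170) (nat_lit 76) (nat_lit 5068227420) (nat_lit 14) (nat_lit 4) (nat_lit 15) (nat_lit 5) (nat_lit 15) (nat_lit 4) (nat_lit 543) (nat_lit 347) (nat_lit 310))) (XT.nd (nat_lit 78) (nat_lit 0) (nat_lit 0) (XT.lf (nat_lit 0) (nat_lit 2335110943) (nat_lit 76) (nat_lit 450365468) (nat_lit 152) (nat_lit 45999167124) (nat_lit 12) (nat_lit 5) (nat_lit 13) (nat_lit 5) (nat_lit 14) (nat_lit 4) (nat_lit 544) (nat_lit 347) (nat_lit 309)) (XT.lf (nat_lit 0) (nat_lit 10887744759)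 (nat_lit 152) (nat_lit 31495756760) (nat_lit 0) (nat_lit 7619779088) (nat_lit 12) (nat_lit 5) (nat_lit 14) (nat_lit 4) (nat_lit 12) (nat_lit 4) (nat_lit 545) (nat_lit 347) (nat_lit 308))))) (XT.nd (nat_lit 312) (nat_lit 152) (nat_lit 0) (XT.nd (nat_lit 156) (nat_lit 76) (nat_lit 0) (XT.nd (nat_lit 78) (nat_lit 0) (nat_lit 0) (XT.lf (nat_lit 0) (nat_lit 19144631165) (nat_lit 152) (nat_lit 16283757644) (nat_lit 0) (nat_lit 15832741968) (nat_lit 12) (nat_lit 5) (nat_lit 14) (nat_lit 4) (nat_lit 12) (nat_lit 4) (nat_lit 546) (nat_lit 347) (nat_lit 307)) (XT.lf (nat_lit 0) (nat_lit 27559021197) (nat_lit 152) (nat_lit 795914018) (nat_lit 0) (nat_lit 24204487799) (nat_lit 12) (nat_lit 5) (nat_lit 14) (nat_lit 4) (nat_lit 12) (nat_lit 4) (nat_lit 547) (nat_lit 347) (nat_lit 306))) (XT.nd (nat_lit 78) (nat_lit 0) (nat_lit 0) (XT.lf (nat_lit 0) (nat_lit 15279464573) (nat_lit 76) (nat_lit 21005678219) (nat_lit 76) (nat_lit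 17609742686) (nat_lit 11) (nat_lit 4) (nat_lit 12) (nat_lit 5) (nat_lit 12) (nat_lit 4) (nat_lit 548) (nat_lit 347) (nat_lit 305)) (XT.lf (nat_lit 0) (nat_lit 31679880461) (nat_lit 76) (nat_lit 13514511631) (nat_lit 76) (nat_lit 10078379849) (nat_lit 11) (nat_lit 4) (nat_lit 12) (nat_lit 5) (nat_lit 12) (nat_lit 4) (nat_lit 549) (nat_lit 347) (nat_lit 304)))) (XT.nd (nat_lit 156) (nat_lit 0) (nat_lit 0) (XT.nd (nat_lit 78) (nat_lit 152) (nat_lit 0) (XT.lf (nat_lit 0) (nat_lit 48403823857) (nat_lit 76) (nat_lit 5882926940) (nat_lit 76) (nat_lit 2407769674) (nat_lit 11) (nat_lit 4) (nat_lit 12) (nat_lit 5) (nat_lit 12) (nat_lit 4) (nat_lit 550) (nat_lit 347) (nat_lit 303)) (XT.lf (nat_lit 0) (nat_lit 5393790509) (nat_lit 152) (nat_lit 50780240576) (nat_lit 0) (nat_lit 1983066154) (nat_lit 9) (nat_lit 5) (nat_lit 11) (nat_lit 4) (nat_lit 9) (nat_lit 4) (nat_lit 551) (nat_lit 347) (nat_lit 302))) (XT.nd (nat_lit 78)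 (nat_lit 0) (nat_lit 0) (XT.lf (nat_lit 0) (nat_lit 13441316854) (nat_lit 152) (nat_lit 36224831625) (nat_lit 0) (nat_lit 9994878653) (nat_lit 9) (nat_lit 5) (nat_lit 11) (nat_lit 4) (nat_lit 9) (nat_lit 4) (nat_lit 552) (nat_lit 347) (nat_lit 301)) (XT.lf (nat_lit 0) (nat_lit 21650189041) (nat_lit 152) (nat_lit 21393211462) (nat_lit 0) (nat_lit 18169077203) (nat_lit 9) (nat_lit 5) (nat_lit 11) (nat_lit 4) (nat_lit 9) (nat_lit 4) (nat_lit 553) (nat_lit 347) (nat_lit 300)))))) (XT.nd (nat_lit 546) (nat_lit 684) (nat_lit 0) (XT.nd (nat_lit 234) (nat_lit 228) (nat_lit 0) (XT.nd (nat_lit 78) (nat_lit 228) (nat_lit 0) (XT.lf (nat_lit 0) (nat_lit 3243005037) (nat_lit 152) (nat_lit 3857957237) (nat_lit 0) (nat_lit 3243005037) (nat_lit 45) (nat_lit 5) (nat_lit 47) (nat_lit 4) (nat_lit 45) (nat_lit 4) (nat_lit 504) (nat_lit 348) (nat_lit 348)) (XT.nd (nat_lit 78) (nat_lit 152) (nat_lit 0) (XT.lf (nat_lit 0) (nat_lit 7986882359)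 (nat_lit 76) (nat_lit 6637732077) (nat_lit 76) (nat_lit 6439398769) (nat_lit 44) (nat_lit 4) (nat_lit 45) (nat_lit 5) (nat_lit 45) (nat_lit 4) (nat_lit 505) (nat_lit 348) (nat_lit 347)) (XT.lf (nat_lit 0) (nat_lit 1479487653) (nat_lit 152) (nat_lit 18872841523) (nat_lit 0) (nat_lit 1099982878) (nat_lit 42) (nat_lit 5) (nat_lit 44) (nat_lit 4) (nat_lit 42) (nat_lit 4) (nat_lit 506) (nat_lit 348) (nat_lit 346)))) (XT.nd (nat_lit 156) (nat_lit 152) (nat_lit 0) (XT.nd (nat_lit 78) (nat_lit 76) (nat_lit 0) (XT.lf (nat_lit 0) (nat_lit 9545292925) (nat_lit 152) (nat_lit 3319607848) (nat_lit 0) (nat_lit 8984285076) (nat_lit 42) (nat_lit 5) (nat_lit 44) (nat_lit 4) (nat_lit 42) (nat_lit 4) (nat_lit 507) (nat_lit 348) (nat_lit 345)) (XT.lf (nat_lit 0) (nat_lit 12641700281) (nat_lit 76) (nat_lit 5177257692) (nat_lit 76) (nat_lit 4440033267) (nat_lit 41) (nat_lit 4) (nat_lit 42) (nat_lit 5) (nat_lit 42) (nat_lit 4) (nat_lit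 508) (nat_lit 348) (nat_lit 344))) (XT.nd (nat_lit 78) (nat_lit 0) (nat_lit 0) (XT.lf (nat_lit 0) (nat_lit 3552923070) (nat_lit 152) (nat_lit 16457106122) (nat_lit 0) (nat_lit 2671070178) (nat_lit 39) (nat_lit 5) (nat_lit 41) (nat_lit 4) (nat_lit 39) (nat_lit 4) (nat_lit 509) (nat_lit 348) (nat_lit 343)) (XT.lf (nat_lit 0) (nat_lit 11690429662) (nat_lit 152) (nat_lit 776990347) (nat_lit 0) (nat_lit 10647313640) (nat_lit 39) (nat_lit 5) (nat_lit 41) (nat_lit 4) (nat_lit 39) (nat_lit 4) (nat_lit 510) (nat_lit 348) (nat_lit 342))))) (XT.nd (nat_lit 312) (nat_lit 380) (nat_lit 0) (XT.nd (nat_lit 156) (nat_lit 76) (nat_lit 0) (XT.nd (nat_lit 78) (nat_lit 152) (nat_lit 0) (XT.lf (nat_lit 0) (nat_lit 15376975633) (nat_lit 76) (nat_lit 4692087585) (nat_lit 76) (nat_lit 3492405418) (nat_lit 38) (nat_lit 4) (nat_lit 39) (nat_lit 5) (nat_lit 39) (nat_lit 4) (nat_lit 511) (nat_lit 348) (nat_lit 341)) (XT.lf (nat_lit 0) (nat_lit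 4550303892) (nat_lit 152) (nat_lit 16233045392) (nat_lit 0) (nat_lit 3237985316) (nat_lit 36) (nat_lit 5) (nat_lit 38) (nat_lit 4) (nat_lit 36) (nat_lit 4) (nat_lit 512) (nat_lit 348) (nat_lit 340))) (XT.nd (nat_lit 78) (nat_lit 76) (nat_lit 0) (XT.lf (nat_lit 0) (nat_lit 12743476765) (nat_lit 152) (nat_lit 463224741) (nat_lit 0) (nat_lit 11287877987) (nat_lit 36) (nat_lit 5) (nat_lit 38) (nat_lit 4) (nat_lit 36) (nat_lit 4) (nat_lit 513) (nat_lit 348) (nat_lit 339)) (XT.lf (nat_lit 0) (nat_lit 15799764219) (nat_lit 76) (nat_lit 5388396671) (nat_lit 76) (nat_lit 3793690901) (nat_lit 35) (nat_lit 4) (nat_lit 36) (nat_lit 5) (nat_lit 36) (nat_lit 4) (nat_lit 514) (nat_lit 348) (nat_lit 338)))) (XT.nd (nat_lit 156) (nat_lit 228) (nat_lit 0) (XT.nd (nat_lit 78) (nat_lit 0) (nat_lit 0) (XT.lf (nat_lit 0) (nat_lit 4266680246) (nat_lit 152) (nat_lit 18629989024) (nat_lit 0) (nat_lit 2587300535) (nat_lit 33) (nat_lit 5)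 (nat_lit 35) (nat_lit 4) (nat_lit 33) (nat_lit 4) (nat_lit 515) (nat_lit 348) (nat_lit 337)) (XT.lf (nat_lit 0) (nat_lit 12493677514) (nat_lit 152) (nat_lit 2819321281) (nat_lit 0) (nat_lit 10686995199) (nat_lit 33) (nat_lit 5) (nat_lit 35) (nat_lit 4) (nat_lit 33) (nat_lit 4) (nat_lit 516) (nat_lit 348) (nat_lit 336))) (XT.nd (nat_lit 78) (nat_lit 152) (nat_lit 0) (XT.lf (nat_lit 0) (nat_lit 13448011117) (nat_lit 76) (nat_lit 7507069184) (nat_lit 76) (nat_lit 5576792108) (nat_lit 32) (nat_lit 4) (nat_lit 33) (nat_lit 5) (nat_lit 33) (nat_lit 4) (nat_lit 517) (nat_lit 348) (nat_lit 335)) (XT.lf (nat_lit 0) (nat_lit 2460021539) (nat_lit 152) (nat_lit 24151874963) (nat_lit 0) (nat_lit 469466210) (nat_lit 30) (nat_lit 5) (nat_lit 32) (nat_lit 4) (nat_lit 30) (nat_lit 4) (nat_lit 518) (nat_lit 348) (nat_lit 334))))))) (XT.nd (nat_lit 1170) (nat_lit 684) (nat_lit 0) (XT.nd (nat_lit 546) (nat_lit 380) (nat_lit 0) (XT.nd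 (nat_lit 234) (nat_lit 304) (nat_lit 0) (XT.nd (nat_lit 78) (nat_lit 76) (nat_lit 0) (XT.lf (nat_lit 0) (nat_lit 10692143068) (nat_lit 152) (nat_lit 8363069666) (nat_lit 0) (nat_lit 8588481025) (nat_lit 30) (nat_lit 5) (nat_lit 32) (nat_lit 4) (nat_lit 30) (nat_lit 4) (nat_lit 519) (nat_lit 348) (nat_lit 333)) (XT.nd (nat_lit 78) (nat_lit 0) (nat_lit 0) (XT.lf (nat_lit 0) (nat_lit 7779073392) (nat_lit 76) (nat_lit 11329586991) (nat_lit 76) (nat_lit 9116112603) (nat_lit 29) (nat_lit 4) (nat_lit 30) (nat_lit 5) (nat_lit 30) (nat_lit 4) (nat_lit 520) (nat_lit 348) (nat_lit 332)) (XT.lf (nat_lit 0) (nat_lit 24307459217) (nat_lit 76) (nat_lit 3418729699) (nat_lit 76) (nat_lit 1098641384) (nat_lit 29) (nat_lit 4) (nat_lit 30) (nat_lit 5) (nat_lit 30) (nat_lit 4) (nat_lit 521) (nat_lit 348) (nat_lit 331)))) (XT.nd (nat_lit 156) (nat_lit 152) (nat_lit 0) (XT.nd (nat_lit 78) (nat_lit 0) (nat_lit 0) (XT.lf (nat_lit 0) (nat_lit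 7045663602) (nat_lit 152) (nat_lit 17701724983) (nat_lit 0) (nat_lit 4692656824) (nat_lit 27) (nat_lit 5) (nat_lit 29) (nat_lit 4) (nat_lit 27) (nat_lit 4) (nat_lit 522) (nat_lit 348) (nat_lit 330)) (XT.lf (nat_lit 0) (nat_lit 15358969157) (nat_lit 152) (nat_lit 1807624440) (nat_lit 0) (nat_lit 12908395534) (nat_lit 27) (nat_lit 5) (nat_lit 29) (nat_lit 4) (nat_lit 27) (nat_lit 4) (nat_lit 523) (nat_lit 348) (nat_lit 329))) (XT.nd (nat_lit 78) (nat_lit 76) (nat_lit 0) (XT.lf (nat_lit 0) (nat_lit 14591347077) (nat_lit 76) (nat_lit 9341302293) (nat_lit 76) (nat_lit 6796003577) (nat_lit 26) (nat_lit 4) (nat_lit 27) (nat_lit 5) (nat_lit 27) (nat_lit 4) (nat_lit 524) (nat_lit 348) (nat_lit 328)) (XT.lf (nat_lit 0) (nat_lit 1224246504) (nat_lit 152) (nat_lit 152044421) (nat_lit 76) (nat_lit 30028567986) (nat_lit 25) (nat_lit 5) (nat_lit 27) (nat_lit 5) (nat_lit 26) (nat_lit 4) (nat_lit 525) (nat_lit 348) (nat_lit 327)))))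 (XT.nd (nat_lit 312) (nat_lit 152) (nat_lit 0) (XT.nd (nat_lit 156) (nat_lit 76) (nat_lit 0) (XT.nd (nat_lit 78) (nat_lit 76) (nat_lit 0) (XT.lf (nat_lit 0) (nat_lit 9446530606) (nat_lit 152) (nat_lit 15850469768) (nat_lit 0) (nat_lit 6799392440) (nat_lit 24) (nat_lit 5) (nat_lit 26) (nat_lit 4) (nat_lit 24) (nat_lit 4) (nat_lit 526) (nat_lit 348) (nat_lit 326)) (XT.lf (nat_lit 0) (nat_lit 68653087) (nat_lit 76) (nat_lit 17737303283) (nat_lit 76) (nat_lit 15006003100) (nat_lit 23) (nat_lit 4) (nat_lit 24) (nat_lit 5) (nat_lit 24) (nat_lit 4) (nat_lit 527) (nat_lit 348) (nat_lit 325))) (XT.nd (nat_lit 78) (nat_lit 76) (nat_lit 0) (XT.lf (nat_lit 0) (nat_lit 16543349104) (nat_lit 76) (nat_lit 9908788316) (nat_lit 76) (nat_lit 7095777435) (nat_lit 23) (nat_lit 4) (nat_lit 24) (nat_lit 5) (nat_lit 24) (nat_lit 4) (nat_lit 528) (nat_lit 348) (nat_lit 324)) (XT.lf (nat_lit 0) (nat_lit 909565823) (nat_lit 152) (nat_lit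 1045923032) (nat_lit 76) (nat_lit 32353807564) (nat_lit 22) (nat_lit 5) (nat_lit 24) (nat_lit 5) (nat_lit 23) (nat_lit 4) (nat_lit 529) (nat_lit 348) (nat_lit 323)))) (XT.nd (nat_lit 156) (nat_lit 76) (nat_lit 0) (XT.nd (nat_lit 78) (nat_lit 0) (nat_lit 0) (XT.lf (nat_lit 0) (nat_lit 9103216226) (nat_lit 152) (nat_lit 19765132756) (nat_lit 0) (nat_lit 6220340670) (nat_lit 21) (nat_lit 5) (nat_lit 23) (nat_lit 4) (nat_lit 21) (nat_lit 4) (nat_lit 530) (nat_lit 348) (nat_lit 322)) (XT.lf (nat_lit 0) (nat_lit 17454670638) (nat_lit 152) (nat_lit 3940238828) (nat_lit 0) (nat_lit 14499196185) (nat_lit 21) (nat_lit 5) (nat_lit 23) (nat_lit 4) (nat_lit 21) (nat_lit 4) (nat_lit 531) (nat_lit 348) (nat_lit 321))) (XT.nd (nat_lit 78) (nat_lit 0) (nat_lit 0) (XT.lf (nat_lit 0) (nat_lit 12372497230) (nat_lit 76) (nat_lit 13688508197) (nat_lit 76) (nat_lit 10662549380) (nat_lit 20) (nat_lit 4) (nat_lit 21) (nat_lit 5) (nat_lit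 21) (nat_lit 4) (nat_lit 532) (nat_lit 348) (nat_lit 320)) (XT.lf (nat_lit 0) (nat_lit 29029288326) (nat_lit 76) (nat_lit 5822599688) (nat_lit 76) (nat_lit 2728209448) (nat_lit 20) (nat_lit 4) (nat_lit 21) (nat_lit 5) (nat_lit 21) (nat_lit 4) (nat_lit 533) (nat_lit 348) (nat_lit 319)))))) (XT.nd (nat_lit 624) (nat_lit 304) (nat_lit 0) (XT.nd (nat_lit 312) (nat_lit 152) (nat_lit 0) (XT.nd (nat_lit 156) (nat_lit 76) (nat_lit 0) (XT.nd (nat_lit 78) (nat_lit 0) (nat_lit 0) (XT.lf (nat_lit 0) (nat_lit 5321829360) (nat_lit 152) (nat_lit 30886356843) (nat_lit 0) (nat_lit 2253063812) (nat_lit 18) (nat_lit 5) (nat_lit 20) (nat_lit 4) (nat_lit 18) (nat_lit 4) (nat_lit 534) (nat_lit 348) (nat_lit 318)) (XT.lf (nat_lit 0) (nat_lit 13592244293) (nat_lit 152) (nat_lit 15313917607) (nat_lit 0) (nat_lit 10460854300) (nat_lit 18) (nat_lit 5) (nat_lit 20) (nat_lit 4) (nat_lit 18) (nat_lit 4) (nat_lit 535) (nat_lit 348) (nat_lit 317)))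 (XT.nd (nat_lit 78) (nat_lit 0) (nat_lit 0) (XT.lf (nat_lit 0) (nat_lit 520507888) (nat_lit 76) (nat_lit 21487362806) (nat_lit 76) (nat_lit 18295172380) (nat_lit 17) (nat_lit 4) (nat_lit 18) (nat_lit 5) (nat_lit 18) (nat_lit 4) (nat_lit 536) (nat_lit 348) (nat_lit 316)) (XT.lf (nat_lit 0) (nat_lit 16930653762) (nat_lit 76) (nat_lit 13793141370) (nat_lit 76) (nat_lit 10541921398) (nat_lit 17) (nat_lit 4) (nat_lit 18) (nat_lit 5) (nat_lit 18) (nat_lit 4) (nat_lit 537) (nat_lit 348) (nat_lit 315)))) (XT.nd (nat_lit 156) (nat_lit 0) (nat_lit 0) (XT.nd (nat_lit 78) (nat_lit 152) (nat_lit 0) (XT.lf (nat_lit 0) (nat_lit 33626081987) (nat_lit 76) (nat_lit 5971415027) (nat_lit 76) (nat_lit 2662884817) (nat_lit 17) (nat_lit 4) (nat_lit 18) (nat_lit 5) (nat_lit 18) (nat_lit 4) (nat_lit 538) (nat_lit 348) (nat_lit 314)) (XT.lf (nat_lit 0) (nat_lit 5336133494) (nat_lit 152) (nat_lit 35877533693) (nat_lit 0) (nat_lit 2069947844)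 (nat_lit 15) (nat_lit 5) (nat_lit 17) (nat_lit 4) (nat_lit 15) (nat_lit 4) (nat_lit 539) (nat_lit 348) (nat_lit 313))) (XT.nd (nat_lit 78) (nat_lit 0) (nat_lit 0) (XT.lf (nat_lit 0) (nat_lit 13567163559) (nat_lit 152) (nat_lit 20519693491) (nat_lit 0) (nat_lit 10248530922) (nat_lit 15) (nat_lit 5) (nat_lit 17) (nat_lit 4) (nat_lit 15) (nat_lit 4) (nat_lit 540) (nat_lit 348) (nat_lit 312)) (XT.lf (nat_lit 0) (nat_lit 21946471004) (nat_lit 152) (nat_lit 4898284306) (nat_lit 0) (nat_lit 18576918962) (nat_lit 15) (nat_lit 5) (nat_lit 17) (nat_lit 4) (nat_lit 15) (nat_lit 4) (nat_lit 541) (nat_lit 348) (nat_lit 311))))) (XT.nd (nat_lit 312) (nat_lit 76) (nat_lit 0) (XT.nd (nat_lit 156) (nat_lit 152) (nat_lit 0) (XT.nd (nat_lit 78) (nat_lit 0) (nat_lit 0) (XT.lf (nat_lit 0) (nat_lit 11219272045) (nat_lit 76) (nat_lit 19369952014) (nat_lit 76) (nat_lit 15950963657) (nat_lit 14) (nat_lit 4) (nat_lit 15) (nat_lit 5) (nat_lit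 15) (nat_lit 4) (nat_lit 542) (nat_lit 348) (nat_lit 310)) (XT.lf (nat_lit 0) (nat_lit 27731218297) (nat_lit 76) (nat_lit 11714692029) (nat_lit 76) (nat_lit 8247707249) (nat_lit 14) (nat_lit 4) (nat_lit 15) (nat_lit 5) (nat_lit 15) (nat_lit 4) (nat_lit 543) (nat_lit 348) (nat_lit 309))) (XT.nd (nat_lit 78) (nat_lit 152) (nat_lit 0) (XT.lf (nat_lit 0) (nat_lit 44554496902) (nat_lit 76) (nat_lit 3921749360) (nat_lit 76) (nat_lit 408166111) (nat_lit 14) (nat_lit 4) (nat_lit 15) (nat_lit 5) (nat_lit 15) (nat_lit 4) (nat_lit 544) (nat_lit 348) (nat_lit 308)) (XT.lf (nat_lit 0) (nat_lit 7580059503) (nat_lit 152) (nat_lit 38401878011) (nat_lit 0) (nat_lit 4124890104) (nat_lit 12) (nat_lit 5) (nat_lit 14) (nat_lit 4) (nat_lit 12) (nat_lit 4) (nat_lit 545) (nat_lit 348) (nat_lit 307)))) (XT.nd (nat_lit 156) (nat_lit 76) (nat_lit 0) (XT.nd (nat_lit 78) (nat_lit 0) (nat_lit 0) (XT.lf (nat_lit 0) (nat_lit 15792510950) (nat_lit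 152) (nat_lit 23278802768) (nat_lit 0) (nat_lit 12294697351) (nat_lit 12) (nat_lit 5) (nat_lit 14) (nat_lit 4) (nat_lit 12) (nat_lit 4) (nat_lit 546) (nat_lit 348) (nat_lit 306)) (XT.lf (nat_lit 0) (nat_lit 24163760244) (nat_lit 152) (nat_lit 7877293000) (nat_lit 0) (nat_lit 20624544509) (nat_lit 12) (nat_lit 5) (nat_lit 14) (nat_lit 4) (nat_lit 12) (nat_lit 4) (nat_lit 547) (nat_lit 348) (nat_lit 305))) (XT.nd (nat_lit 78) (nat_lit 0) (nat_lit 0) (XT.lf (nat_lit 0) (nat_lit 7971664817) (nat_lit 76) (nat_lit 24806085771) (nat_lit 76) (nat_lit 21226673787) (nat_lit 11) (nat_lit 4) (nat_lit 12) (nat_lit 5) (nat_lit 12) (nat_lit 4) (nat_lit 548) (nat_lit 348) (nat_lit 304)) (XT.lf (nat_lit 0) (nat_lit 24289083183) (nat_lit 76) (nat_lit 17356454599) (nat_lit 76) (nat_lit 13738017131) (nat_lit 11) (nat_lit 4) (nat_lit 12) (nat_lit 5) (nat_lit 12) (nat_lit 4) (nat_lit 549) (nat_lit 348) (nat_lit 303))))))))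
noncomputable def xc11 : XT := (XT.nd (nat_lit 60762) (nat_lit 0) (nat_lit 0) (XT.nd (nat_lit 59592) (nat_lit 0) (nat_lit 1140) (XT.nd (nat_lit 58968) (nat_lit 0) (nat_lit 2052) (XT.nd (nat_lit 234) (nat_lit 0) (nat_lit 0) (XT.nd (nat_lit 78) (nat_lit 152) (nat_lit 0) (XT.lf (nat_lit 0) (nat_lit 40932446460) (nat_lit 76) (nat_lit 9765195555) (nat_lit 76) (nat_lit 6108869268) (nat_lit 11) (nat_lit 4) (nat_lit 12) (nat_lit 5) (nat_lit 12) (nat_lit 4) (nat_lit 550) (nat_lit 348) (nat_lit 302)) (XT.nd (nat_lit 78) (nat_lit 76) (nat_lit 0) (XT.lf (nat_lit 0) (nat_lit 1634898364) (nat_lit 152) (nat_lit 374267868) (nat_lit 76) (nat_lit 56264889761) (nat_lit 10) (nat_lit 5) (nat_lit 12) (nat_lit 5) (nat_lit 11) (nat_lit 4) (nat_lit 551) (nat_lit 348) (nat_lit 301)) (XT.lf (nat_lit 0) (nat_lit 9619957501) (nat_lit 152) (nat_lit 44160163920) (nat_lit 0) (nat_lit 5999738671) (nat_lit 9) (nat_lit 5) (nat_lit 11) (nat_lit 4)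 (nat_lit 9) (nat_lit 4) (nat_lit 552) (nat_lit 348) (nat_lit 300)))) (XT.nd (nat_lit 58578) (nat_lit 0) (nat_lit 2736) (XT.nd (nat_lit 58500) (nat_lit 0) (nat_lit 2888) (XT.lf (nat_lit 0) (nat_lit 17790530415) (nat_lit 152) (nat_lit 29405281552) (nat_lit 0) (nat_lit 14136647859) (nat_lit 9) (nat_lit 5) (nat_lit 11) (nat_lit 4) (nat_lit 9) (nat_lit 4) (nat_lit 553) (nat_lit 348) (nat_lit 299)) (XT.lf (nat_lit 0) (nat_lit 949618463) (nat_lit 76) (nat_lit 4516425085) (nat_lit 76) (nat_lit 4516425085) (nat_lit 47) (nat_lit 4) (nat_lit 48) (nat_lit 5) (nat_lit 48) (nat_lit 4) (nat_lit 502) (nat_lit 349) (nat_lit 349))) (XT.nd (nat_lit 78) (nat_lit 152) (nat_lit 0) (XT.lf (nat_lit 0) (nat_lit 17561331508) (nat_lit 76) (nat_lit 1486358896) (nat_lit 76) (nat_lit 1275947089) (nat_lit 47) (nat_lit 4) (nat_lit 48) (nat_lit 5) (nat_lit 48) (nat_lit 4) (nat_lit 503) (nat_lit 349) (nat_lit 348)) (XT.lf (nat_lit 0) (nat_lit 6611160709)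 (nat_lit 152) (nat_lit 7870604880) (nat_lit 0) (nat_lit 6208544093) (nat_lit 45) (nat_lit 5) (nat_lit 47) (nat_lit 4) (nat_lit 45) (nat_lit 4) (nat_lit 504) (nat_lit 349) (nat_lit 347))))) (XT.nd (nat_lit 312) (nat_lit 380) (nat_lit 0) (XT.nd (nat_lit 156) (nat_lit 76) (nat_lit 0) (XT.nd (nat_lit 78) (nat_lit 152) (nat_lit 0) (XT.lf (nat_lit 0) (nat_lit 7675939477) (nat_lit 76) (nat_lit 6994008785) (nat_lit 76) (nat_lit 6398835558) (nat_lit 44) (nat_lit 4) (nat_lit 45) (nat_lit 5) (nat_lit 45) (nat_lit 4) (nat_lit 505) (nat_lit 349) (nat_lit 346)) (XT.lf (nat_lit 0) (nat_lit 1433741628) (nat_lit 152) (nat_lit 19351495392) (nat_lit 0) (nat_lit 674400471) (nat_lit 42) (nat_lit 5) (nat_lit 44) (nat_lit 4) (nat_lit 42) (nat_lit 4) (nat_lit 506) (nat_lit 349) (nat_lit 345))) (XT.nd (nat_lit 78) (nat_lit 76) (nat_lit 0) (XT.lf (nat_lit 0) (nat_lit 9422879837) (nat_lit 152) (nat_lit 3948610318) (nat_lit 0) (nat_lit 8487322104)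 (nat_lit 42) (nat_lit 5) (nat_lit 44) (nat_lit 4) (nat_lit 42) (nat_lit 4) (nat_lit 507) (nat_lit 349) (nat_lit 344)) (XT.lf (nat_lit 0) (nat_lit 11851304832) (nat_lit 76) (nat_lit 5763208245) (nat_lit 76) (nat_lit 4656566458) (nat_lit 41) (nat_lit 4) (nat_lit 42) (nat_lit 5) (nat_lit 42) (nat_lit 4) (nat_lit 508) (nat_lit 349) (nat_lit 343)))) (XT.nd (nat_lit 156) (nat_lit 228) (nat_lit 0) (XT.nd (nat_lit 78) (nat_lit 0) (nat_lit 0) (XT.lf (nat_lit 0) (nat_lit 3250517390) (nat_lit 152) (nat_lit 17430591774) (nat_lit 0) (nat_lit 2014844758) (nat_lit 39) (nat_lit 5) (nat_lit 41) (nat_lit 4) (nat_lit 39) (nat_lit 4) (nat_lit 509) (nat_lit 349) (nat_lit 342)) (XT.lf (nat_lit 0) (nat_lit 11313732785) (nat_lit 152) (nat_lit 1896590998) (nat_lit 0) (nat_lit 9921494008) (nat_lit 39) (nat_lit 5) (nat_lit 41) (nat_lit 4) (nat_lit 39) (nat_lit 4) (nat_lit 510) (nat_lit 349) (nat_lit 341))) (XT.nd (nat_lit 78) (nat_lit 152)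 (nat_lit 0) (XT.lf (nat_lit 0) (nat_lit 14090410235) (nat_lit 76) (nat_lit 5517461477) (nat_lit 76) (nat_lit 3973216733) (nat_lit 38) (nat_lit 4) (nat_lit 39) (nat_lit 5) (nat_lit 39) (nat_lit 4) (nat_lit 511) (nat_lit 349) (nat_lit 340)) (XT.lf (nat_lit 0) (nat_lit 3983847939) (nat_lit 152) (nat_lit 17718795721) (nat_lit 0) (nat_lit 2341300996) (nat_lit 36) (nat_lit 5) (nat_lit 38) (nat_lit 4) (nat_lit 36) (nat_lit 4) (nat_lit 512) (nat_lit 349) (nat_lit 339)))))) (XT.nd (nat_lit 546) (nat_lit 456) (nat_lit 0) (XT.nd (nat_lit 234) (nat_lit 228) (nat_lit 0) (XT.nd (nat_lit 78) (nat_lit 228) (nat_lit 0) (XT.lf (nat_lit 0) (nat_lit 12105020353) (nat_lit 152) (nat_lit 2090963552) (nat_lit 0) (nat_lit 10323366417) (nat_lit 36) (nat_lit 5) (nat_lit 38) (nat_lit 4) (nat_lit 36) (nat_lit 4) (nat_lit 513) (nat_lit 349) (nat_lit 338)) (XT.nd (nat_lit 78) (nat_lit 152) (nat_lit 0) (XT.lf (nat_lit 0) (nat_lit 13999033778)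 (nat_lit 76) (nat_lit 6463457618) (nat_lit 76) (nat_lit 4546748351) (nat_lit 35) (nat_lit 4) (nat_lit 36) (nat_lit 5) (nat_lit 36) (nat_lit 4) (nat_lit 514) (nat_lit 349) (nat_lit 337)) (XT.lf (nat_lit 0) (nat_lit 3427999021) (nat_lit 152) (nat_lit 20646772525) (nat_lit 0) (nat_lit 1439813633) (nat_lit 33) (nat_lit 5) (nat_lit 35) (nat_lit 4) (nat_lit 33) (nat_lit 4) (nat_lit 515) (nat_lit 349) (nat_lit 336)))) (XT.nd (nat_lit 156) (nat_lit 152) (nat_lit 0) (XT.nd (nat_lit 78) (nat_lit 76) (nat_lit 0) (XT.lf (nat_lit 0) (nat_lit 11585205694) (nat_lit 152) (nat_lit 4974072521) (nat_lit 0) (nat_lit 9473425545) (nat_lit 33) (nat_lit 5) (nat_lit 35) (nat_lit 4) (nat_lit 33) (nat_lit 4) (nat_lit 516) (nat_lit 349) (nat_lit 335)) (XT.lf (nat_lit 0) (nat_lit 11113760988) (nat_lit 76) (nat_lit 8842651393) (nat_lit 76) (nat_lit 6610876331) (nat_lit 32) (nat_lit 4) (nat_lit 33) (nat_lit 5) (nat_lit 33) (nat_lit 4) (nat_lit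 517) (nat_lit 349) (nat_lit 334))) (XT.nd (nat_lit 78) (nat_lit 0) (nat_lit 0) (XT.lf (nat_lit 0) (nat_lit 390888038) (nat_lit 76) (nat_lit 958453349) (nat_lit 152) (nat_lit 25770639691) (nat_lit 30) (nat_lit 5) (nat_lit 31) (nat_lit 5) (nat_lit 32) (nat_lit 4) (nat_lit 518) (nat_lit 349) (nat_lit 333)) (XT.lf (nat_lit 0) (nat_lit 9504592005) (nat_lit 152) (nat_lit 11065125803) (nat_lit 0) (nat_lit 7114901041) (nat_lit 30) (nat_lit 5) (nat_lit 32) (nat_lit 4) (nat_lit 30) (nat_lit 4) (nat_lit 519) (nat_lit 349) (nat_lit 332))))) (XT.nd (nat_lit 312) (nat_lit 228) (nat_lit 0) (XT.nd (nat_lit 156) (nat_lit 152) (nat_lit 0) (XT.nd (nat_lit 78) (nat_lit 0) (nat_lit 0) (XT.lf (nat_lit 0) (nat_lit 4890503969) (nat_lit 76) (nat_lit 12937151596) (nat_lit 76) (nat_lit 10440846706) (nat_lit 29) (nat_lit 4) (nat_lit 30) (nat_lit 5) (nat_lit 30) (nat_lit 4) (nat_lit 520) (nat_lit 349) (nat_lit 331)) (XT.lf (nat_lit 0) (nat_lit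 21290018850) (nat_lit 76) (nat_lit 5090152617) (nat_lit 76) (nat_lit 2490339060) (nat_lit 29) (nat_lit 4) (nat_lit 30) (nat_lit 5) (nat_lit 30) (nat_lit 4) (nat_lit 521) (nat_lit 349) (nat_lit 330))) (XT.nd (nat_lit 78) (nat_lit 0) (nat_lit 0) (XT.lf (nat_lit 0) (nat_lit 5569130252) (nat_lit 152) (nat_lit 20972884458) (nat_lit 0) (nat_lit 2947472575) (nat_lit 27) (nat_lit 5) (nat_lit 29) (nat_lit 4) (nat_lit 27) (nat_lit 4) (nat_lit 522) (nat_lit 349) (nat_lit 329)) (XT.lf (nat_lit 0) (nat_lit 13818748387) (nat_lit 152) (nat_lit 5205228141) (nat_lit 0) (nat_lit 11102365617) (nat_lit 27) (nat_lit 5) (nat_lit 29) (nat_lit 4) (nat_lit 27) (nat_lit 4) (nat_lit 523) (nat_lit 349) (nat_lit 328)))) (XT.nd (nat_lit 156) (nat_lit 152) (nat_lit 0) (XT.nd (nat_lit 78) (nat_lit 0) (nat_lit 0) (XT.lf (nat_lit 0) (nat_lit 11000919824) (nat_lit 76) (nat_lit 11295162946) (nat_lit 76) (nat_lit 8486814067) (nat_lit 26) (nat_lit 4)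 (nat_lit 27) (nat_lit 5) (nat_lit 27) (nat_lit 4) (nat_lit 524) (nat_lit 349) (nat_lit 327)) (XT.lf (nat_lit 0) (nat_lit 27553191884) (nat_lit 76) (nat_lit 3402871920) (nat_lit 76) (nat_lit 505235555) (nat_lit 26) (nat_lit 4) (nat_lit 27) (nat_lit 5) (nat_lit 27) (nat_lit 4) (nat_lit 525) (nat_lit 349) (nat_lit 326))) (XT.nd (nat_lit 78) (nat_lit 0) (nat_lit 0) (XT.lf (nat_lit 0) (nat_lit 7608482371) (nat_lit 152) (nat_lit 19836968638) (nat_lit 0) (nat_lit 4711081165) (nat_lit 24) (nat_lit 5) (nat_lit 26) (nat_lit 4) (nat_lit 24) (nat_lit 4) (nat_lit 526) (nat_lit 349) (nat_lit 325)) (XT.lf (nat_lit 0) (nat_lit 15907291249) (nat_lit 152) (nat_lit 4038447188) (nat_lit 0) (nat_lit 12928179346) (nat_lit 24) (nat_lit 5) (nat_lit 26) (nat_lit 4) (nat_lit 24) (nat_lit 4) (nat_lit 527) (nat_lit 349) (nat_lit 324))))))) (XT.nd (nat_lit 1170) (nat_lit 380) (nat_lit 0) (XT.nd (nat_lit 546) (nat_lit 304) (nat_lit 0) (XT.nd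 (nat_lit 234) (nat_lit 228) (nat_lit 0) (XT.nd (nat_lit 78) (nat_lit 152) (nat_lit 0) (XT.lf (nat_lit 0) (nat_lit 12237783307) (nat_lit 76) (nat_lit 12216750562) (nat_lit 76) (nat_lit 9158307884) (nat_lit 23) (nat_lit 4) (nat_lit 24) (nat_lit 5) (nat_lit 24) (nat_lit 4) (nat_lit 528) (nat_lit 349) (nat_lit 323)) (XT.nd (nat_lit 78) (nat_lit 152) (nat_lit 0) (XT.lf (nat_lit 0) (nat_lit 28852339506) (nat_lit 76) (nat_lit 4329671557) (nat_lit 76) (nat_lit 1194208711) (nat_lit 23) (nat_lit 4) (nat_lit 24) (nat_lit 5) (nat_lit 24) (nat_lit 4) (nat_lit 529) (nat_lit 349) (nat_lit 322)) (XT.lf (nat_lit 0) (nat_lit 6897442302) (nat_lit 152) (nat_lit 24481569846) (nat_lit 0) (nat_lit 3780704720) (nat_lit 21) (nat_lit 5) (nat_lit 23) (nat_lit 4) (nat_lit 21) (nat_lit 4) (nat_lit 530) (nat_lit 349) (nat_lit 321)))) (XT.nd (nat_lit 156) (nat_lit 152) (nat_lit 0) (XT.nd (nat_lit 78) (nat_lit 76) (nat_lit 0) (XT.lf (nat_lit 0)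 (nat_lit 15192445843) (nat_lit 152) (nat_lit 8769157038) (nat_lit 0) (nat_lit 12005223896) (nat_lit 21) (nat_lit 5) (nat_lit 23) (nat_lit 4) (nat_lit 21) (nat_lit 4) (nat_lit 531) (nat_lit 349) (nat_lit 320)) (XT.lf (nat_lit 0) (nat_lit 7336095716) (nat_lit 76) (nat_lit 16359465274) (nat_lit 76) (nat_lit 13103811905) (nat_lit 20) (nat_lit 4) (nat_lit 21) (nat_lit 5) (nat_lit 21) (nat_lit 4) (nat_lit 532) (nat_lit 349) (nat_lit 319))) (XT.nd (nat_lit 78) (nat_lit 152) (nat_lit 0) (XT.lf (nat_lit 0) (nat_lit 23884752480) (nat_lit 76) (nat_lit 8547441285) (nat_lit 76) (nat_lit 5225349641) (nat_lit 20) (nat_lit 4) (nat_lit 21) (nat_lit 5) (nat_lit 21) (nat_lit 4) (nat_lit 533) (nat_lit 349) (nat_lit 318)) (XT.lf (nat_lit 0) (nat_lit 2188062772) (nat_lit 76) (nat_lit 558073973) (nat_lit 152) (nat_lit 35797098095) (nat_lit 18) (nat_lit 5) (nat_lit 19) (nat_lit 5) (nat_lit 20) (nat_lit 4) (nat_lit 534) (nat_lit 349) (nat_lit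 317))))) (XT.nd (nat_lit 312) (nat_lit 228) (nat_lit 0) (XT.nd (nat_lit 156) (nat_lit 76) (nat_lit 0) (XT.nd (nat_lit 78) (nat_lit 0) (nat_lit 0) (XT.lf (nat_lit 0) (nat_lit 10958032244) (nat_lit 152) (nat_lit 20883449024) (nat_lit 0) (nat_lit 7609275673) (nat_lit 18) (nat_lit 5) (nat_lit 20) (nat_lit 4) (nat_lit 18) (nat_lit 4) (nat_lit 535) (nat_lit 349) (nat_lit 316)) (XT.lf (nat_lit 0) (nat_lit 19317048519) (nat_lit 152) (nat_lit 5162171519) (nat_lit 0) (nat_lit 15909262402) (nat_lit 18) (nat_lit 5) (nat_lit 20) (nat_lit 4) (nat_lit 18) (nat_lit 4) (nat_lit 536) (nat_lit 349) (nat_lit 315))) (XT.nd (nat_lit 78) (nat_lit 0) (nat_lit 0) (XT.lf (nat_lit 0) (nat_lit 11043255725) (nat_lit 76) (nat_lit 16888023820) (nat_lit 76) (nat_lit 13422927464) (nat_lit 17) (nat_lit 4) (nat_lit 18) (nat_lit 5) (nat_lit 18) (nat_lit 4) (nat_lit 537) (nat_lit 349) (nat_lit 314)) (XT.lf (nat_lit 0) (nat_lit 27639672987) (nat_lit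 76) (nat_lit 9115712436) (nat_lit 76) (nat_lit 5594975072) (nat_lit 17) (nat_lit 4) (nat_lit 18) (nat_lit 5) (nat_lit 18) (nat_lit 4) (nat_lit 538) (nat_lit 349) (nat_lit 313)))) (XT.nd (nat_lit 156) (nat_lit 76) (nat_lit 0) (XT.nd (nat_lit 78) (nat_lit 0) (nat_lit 0) (XT.lf (nat_lit 0) (nat_lit 1159382419) (nat_lit 76) (nat_lit 1172706339) (nat_lit 152) (nat_lit 41046225876) (nat_lit 15) (nat_lit 5) (nat_lit 16) (nat_lit 5) (nat_lit 17) (nat_lit 4) (nat_lit 539) (nat_lit 349) (nat_lit 312)) (XT.lf (nat_lit 0) (nat_lit 10503248259) (nat_lit 152) (nat_lit 26946945462) (nat_lit 0) (nat_lit 6981690251) (nat_lit 15) (nat_lit 5) (nat_lit 17) (nat_lit 4) (nat_lit 15) (nat_lit 4) (nat_lit 540) (nat_lit 349) (nat_lit 311))) (XT.nd (nat_lit 78) (nat_lit 76) (nat_lit 0) (XT.lf (nat_lit 0) (nat_lit 18835373379) (nat_lit 152) (nat_lit 11419833575) (nat_lit 0) (nat_lit 15264379055) (nat_lit 15) (nat_lit 5) (nat_lit 17) (nat_lit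 4) (nat_lit 15) (nat_lit 4) (nat_lit 541) (nat_lit 349) (nat_lit 310)) (XT.lf (nat_lit 0) (nat_lit 4474558342) (nat_lit 76) (nat_lit 22892925696) (nat_lit 76) (nat_lit 19273934949) (nat_lit 14) (nat_lit 4) (nat_lit 15) (nat_lit 5) (nat_lit 15) (nat_lit 4) (nat_lit 542) (nat_lit 349) (nat_lit 309)))))) (XT.nd (nat_lit 624) (nat_lit 152) (nat_lit 0) (XT.nd (nat_lit 312) (nat_lit 76) (nat_lit 0) (XT.nd (nat_lit 156) (nat_lit 152) (nat_lit 0) (XT.nd (nat_lit 78) (nat_lit 0) (nat_lit 0) (XT.lf (nat_lit 0) (nat_lit 20895851375) (nat_lit 76) (nat_lit 15282973650) (nat_lit 76) (nat_lit 11617384434) (nat_lit 14) (nat_lit 4) (nat_lit 15) (nat_lit 5) (nat_lit 15) (nat_lit 4) (nat_lit 543) (nat_lit 349) (nat_lit 308)) (XT.lf (nat_lit 0) (nat_lit 37631117146) (nat_lit 76) (nat_lit 7534019271) (nat_lit 76) (nat_lit 3823188824) (nat_lit 14) (nat_lit 4) (nat_lit 15) (nat_lit 5) (nat_lit 15) (nat_lit 4) (nat_lit 544) (nat_lit 349)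 (nat_lit 307))) (XT.nd (nat_lit 78) (nat_lit 0) (nat_lit 0) (XT.lf (nat_lit 0) (nat_lit 4082940722) (nat_lit 152) (nat_lit 45695698362) (nat_lit 0) (nat_lit 437548515) (nat_lit 12) (nat_lit 5) (nat_lit 14) (nat_lit 4) (nat_lit 12) (nat_lit 4) (nat_lit 545) (nat_lit 349) (nat_lit 306)) (XT.lf (nat_lit 0) (nat_lit 12252251432) (nat_lit 152) (nat_lit 30658956977) (nat_lit 0) (nat_lit 8565457089) (nat_lit 12) (nat_lit 5) (nat_lit 14) (nat_lit 4) (nat_lit 12) (nat_lit 4) (nat_lit 546) (nat_lit 349) (nat_lit 305)))) (XT.nd (nat_lit 156) (nat_lit 0) (nat_lit 0) (XT.nd (nat_lit 78) (nat_lit 76) (nat_lit 0) (XT.lf (nat_lit 0) (nat_lit 20581616515) (nat_lit 152) (nat_lit 15341266489) (nat_lit 0) (nat_lit 16854625923) (nat_lit 12) (nat_lit 5) (nat_lit 14) (nat_lit 4) (nat_lit 12) (nat_lit 4) (nat_lit 547) (nat_lit 349) (nat_lit 304)) (XT.lf (nat_lit 0) (nat_lit 276146098) (nat_lit 76) (nat_lit 28804822444) (nat_lit 76) (nat_lit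 25038806368) (nat_lit 11) (nat_lit 4) (nat_lit 12) (nat_lit 5) (nat_lit 12) (nat_lit 4) (nat_lit 548) (nat_lit 349) (nat_lit 303))) (XT.nd (nat_lit 78) (nat_lit 0) (nat_lit 0) (XT.lf (nat_lit 0) (nat_lit 16512984346) (nat_lit 76) (nat_lit 21395516919) (nat_lit 76) (nat_lit 17591612024) (nat_lit 11) (nat_lit 4) (nat_lit 12) (nat_lit 5) (nat_lit 12) (nat_lit 4) (nat_lit 549) (nat_lit 349) (nat_lit 302)) (XT.lf (nat_lit 0) (nat_lit 33078114499) (nat_lit 76) (nat_lit 13843408989) (nat_lit 76) (nat_lit 10002718832) (nat_lit 11) (nat_lit 4) (nat_lit 12) (nat_lit 5) (nat_lit 12) (nat_lit 4) (nat_lit 550) (nat_lit 349) (nat_lit 301))))) (XT.nd (nat_lit 58578) (nat_lit 0) (nat_lit 2736) (XT.nd (nat_lit 156) (nat_lit 0) (nat_lit 0) (XT.nd (nat_lit 78) (nat_lit 152) (nat_lit 0) (XT.lf (nat_lit 0) (nat_lit 49986010942) (nat_lit 76) (nat_lit 6141899725) (nat_lit 76) (nat_lit 2265495722) (nat_lit 11) (nat_lit 4) (nat_lit 12)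 (nat_lit 5) (nat_lit 12) (nat_lit 4) (nat_lit 551) (nat_lit 349) (nat_lit 300)) (XT.lf (nat_lit 0) (nat_lit 5606209844) (nat_lit 152) (nat_lit 52489333908) (nat_lit 0) (nat_lit 1809047086) (nat_lit 9) (nat_lit 5) (nat_lit 11) (nat_lit 4) (nat_lit 9) (nat_lit 4) (nat_lit 552) (nat_lit 349) (nat_lit 299))) (XT.nd (nat_lit 58344) (nat_lit 0) (nat_lit 3116) (XT.lf (nat_lit 0) (nat_lit 13739598998) (nat_lit 152) (nat_lit 37808954253) (nat_lit 0) (nat_lit 9909753012) (nat_lit 9) (nat_lit 5) (nat_lit 11) (nat_lit 4) (nat_lit 9) (nat_lit 4) (nat_lit 553) (nat_lit 349) (nat_lit 298)) (XT.lf (nat_lit 0) (nat_lit 5195830622) (nat_lit 76) (nat_lit 2221226742) (nat_lit 76) (nat_lit 2221226742) (nat_lit 50) (nat_lit 4) (nat_lit 51) (nat_lit 5) (nat_lit 51) (nat_lit 4) (nat_lit 500) (nat_lit 350) (nat_lit 350)))) (XT.nd (nat_lit 156) (nat_lit 152) (nat_lit 0) (XT.nd (nat_lit 78) (nat_lit 76) (nat_lit 0) (XT.lf (nat_lit 0) (nat_lit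 3245732481) (nat_lit 152) (nat_lit 13342661649) (nat_lit 0) (nat_lit 3029008320) (nat_lit 48) (nat_lit 5) (nat_lit 50) (nat_lit 4) (nat_lit 48) (nat_lit 4) (nat_lit 501) (nat_lit 350) (nat_lit 349)) (XT.lf (nat_lit 0) (nat_lit 1746245579) (nat_lit 76) (nat_lit 9324091515) (nat_lit 76) (nat_lit 8896955546) (nat_lit 47) (nat_lit 4) (nat_lit 48) (nat_lit 5) (nat_lit 48) (nat_lit 4) (nat_lit 502) (nat_lit 350) (nat_lit 348))) (XT.nd (nat_lit 78) (nat_lit 152) (nat_lit 0) (XT.lf (nat_lit 0) (nat_lit 17259804871) (nat_lit 76) (nat_lit 1849947019) (nat_lit 76) (nat_lit 1218527743) (nat_lit 47) (nat_lit 4) (nat_lit 48) (nat_lit 5) (nat_lit 48) (nat_lit 4) (nat_lit 503) (nat_lit 350) (nat_lit 347)) (XT.lf (nat_lit 0) (nat_lit 6584105355) (nat_lit 152) (nat_lit 8334811265) (nat_lit 0) (nat_lit 5778520321) (nat_lit 45) (nat_lit 5) (nat_lit 47) (nat_lit 4) (nat_lit 45) (nat_lit 4) (nat_lit 504) (nat_lit 350) (nat_lit 346))))))))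
noncomputable def xc12 : XT := (XT.nd (nat_lit 2340) (nat_lit 760) (nat_lit 0) (XT.nd (nat_lit 1170) (nat_lit 836) (nat_lit 0) (XT.nd (nat_lit 546) (nat_lit 608) (nat_lit 0) (XT.nd (nat_lit 234) (nat_lit 304) (nat_lit 0) (XT.nd (nat_lit 78) (nat_lit 152) (nat_lit 0) (XT.lf (nat_lit 0) (nat_lit 7053782015) (nat_lit 76) (nat_lit 7508540201) (nat_lit 76) (nat_lit 6516007001) (nat_lit 44) (nat_lit 4) (nat_lit 45) (nat_lit 5) (nat_lit 45) (nat_lit 4) (nat_lit 505) (nat_lit 350) (nat_lit 345)) (XT.nd (nat_lit 78) (nat_lit 0) (nat_lit 0) (XT.lf (nat_lit 0) (nat_lit 1230989084) (nat_lit 152) (nat_lit 20149716538) (nat_lit 0) (nat_lit 91148043) (nat_lit 42) (nat_lit 5) (nat_lit 44) (nat_lit 4) (nat_lit 42) (nat_lit 4) (nat_lit 506) (nat_lit 350) (nat_lit 344)) (XT.lf (nat_lit 0) (nat_lit 9145693250) (nat_lit 152) (nat_lit 4892800981) (nat_lit 0) (nat_lit 7834768155) (nat_lit 42) (nat_lit 5) (nat_lit 44) (nat_lit 4) (nat_lit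 42) (nat_lit 4) (nat_lit 507) (nat_lit 350) (nat_lit 343)))) (XT.nd (nat_lit 156) (nat_lit 76) (nat_lit 0) (XT.nd (nat_lit 78) (nat_lit 152) (nat_lit 0) (XT.lf (nat_lit 0) (nat_lit 10743784481) (nat_lit 76) (nat_lit 6510629786) (nat_lit 76) (nat_lit 5033603667) (nat_lit 41) (nat_lit 4) (nat_lit 42) (nat_lit 5) (nat_lit 42) (nat_lit 4) (nat_lit 508) (nat_lit 350) (nat_lit 342)) (XT.lf (nat_lit 0) (nat_lit 2788228410) (nat_lit 152) (nat_lit 18729895443) (nat_lit 0) (nat_lit 1197656324) (nat_lit 39) (nat_lit 5) (nat_lit 41) (nat_lit 4) (nat_lit 39) (nat_lit 4) (nat_lit 509) (nat_lit 350) (nat_lit 341))) (XT.nd (nat_lit 78) (nat_lit 76) (nat_lit 0) (XT.lf (nat_lit 0) (nat_lit 10779316429) (nat_lit 152) (nat_lit 3337753889) (nat_lit 0) (nat_lit 9036738377) (nat_lit 39) (nat_lit 5) (nat_lit 41) (nat_lit 4) (nat_lit 39) (nat_lit 4) (nat_lit 510) (nat_lit 350) (nat_lit 340)) (XT.lf (nat_lit 0) (nat_lit 12480096932) (nat_lit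 76) (nat_lit 6507852530) (nat_lit 76) (nat_lit 4617695870) (nat_lit 38) (nat_lit 4) (nat_lit 39) (nat_lit 5) (nat_lit 39) (nat_lit 4) (nat_lit 511) (nat_lit 350) (nat_lit 339))))) (XT.nd (nat_lit 312) (nat_lit 228) (nat_lit 0) (XT.nd (nat_lit 156) (nat_lit 228) (nat_lit 0) (XT.nd (nat_lit 78) (nat_lit 0) (nat_lit 0) (XT.lf (nat_lit 0) (nat_lit 3254237374) (nat_lit 152) (nat_lit 19537355177) (nat_lit 0) (nat_lit 1280026828) (nat_lit 36) (nat_lit 5) (nat_lit 38) (nat_lit 4) (nat_lit 36) (nat_lit 4) (nat_lit 512) (nat_lit 350) (nat_lit 338)) (XT.lf (nat_lit 0) (nat_lit 11305506429) (nat_lit 152) (nat_lit 4047375901) (nat_lit 0) (nat_lit 9196240551) (nat_lit 36) (nat_lit 5) (nat_lit 38) (nat_lit 4) (nat_lit 36) (nat_lit 4) (nat_lit 513) (nat_lit 350) (nat_lit 337))) (XT.nd (nat_lit 78) (nat_lit 152) (nat_lit 0) (XT.lf (nat_lit 0) (nat_lit 11867183591) (nat_lit 76) (nat_lit 7707433895) (nat_lit 76) (nat_lit 5467046335)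 (nat_lit 35) (nat_lit 4) (nat_lit 36) (nat_lit 5) (nat_lit 36) (nat_lit 4) (nat_lit 514) (nat_lit 350) (nat_lit 336)) (XT.lf (nat_lit 0) (nat_lit 2422482450) (nat_lit 152) (nat_lit 23004134042) (nat_lit 0) (nat_lit 123754136) (nat_lit 33) (nat_lit 5) (nat_lit 35) (nat_lit 4) (nat_lit 33) (nat_lit 4) (nat_lit 515) (nat_lit 350) (nat_lit 335)))) (XT.nd (nat_lit 156) (nat_lit 152) (nat_lit 0) (XT.nd (nat_lit 78) (nat_lit 76) (nat_lit 0) (XT.lf (nat_lit 0) (nat_lit 10511931264) (nat_lit 152) (nat_lit 7465383299) (nat_lit 0) (nat_lit 8093208036) (nat_lit 33) (nat_lit 5) (nat_lit 35) (nat_lit 4) (nat_lit 33) (nat_lit 4) (nat_lit 516) (nat_lit 350) (nat_lit 334)) (XT.lf (nat_lit 0) (nat_lit 8440232207) (nat_lit 76) (nat_lit 10351421820) (nat_lit 76) (nat_lit 7816198676) (nat_lit 32) (nat_lit 4) (nat_lit 33) (nat_lit 5) (nat_lit 33) (nat_lit 4) (nat_lit 517) (nat_lit 350) (nat_lit 333))) (XT.nd (nat_lit 78) (nat_lit 76)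 (nat_lit 0) (XT.lf (nat_lit 0) (nat_lit 98030423) (nat_lit 152) (nat_lit 2449328098) (nat_lit 76) (nat_lit 24615619999) (nat_lit 31) (nat_lit 5) (nat_lit 33) (nat_lit 5) (nat_lit 32) (nat_lit 4) (nat_lit 518) (nat_lit 350) (nat_lit 332)) (XT.lf (nat_lit 0) (nat_lit 8148069680) (nat_lit 152) (nat_lit 14112441816) (nat_lit 0) (nat_lit 5470261717) (nat_lit 30) (nat_lit 5) (nat_lit 32) (nat_lit 4) (nat_lit 30) (nat_lit 4) (nat_lit 519) (nat_lit 350) (nat_lit 331)))))) (XT.nd (nat_lit 546) (nat_lit 380) (nat_lit 0) (XT.nd (nat_lit 234) (nat_lit 228) (nat_lit 0) (XT.nd (nat_lit 78) (nat_lit 152) (nat_lit 0) (XT.lf (nat_lit 0) (nat_lit 1653669448) (nat_lit 76) (nat_lit 14722575515) (nat_lit 76) (nat_lit 11941258885) (nat_lit 29) (nat_lit 4) (nat_lit 30) (nat_lit 5) (nat_lit 30) (nat_lit 4) (nat_lit 520) (nat_lit 350) (nat_lit 330)) (XT.nd (nat_lit 78) (nat_lit 152) (nat_lit 0) (XT.lf (nat_lit 0) (nat_lit 17928066910) (nat_lit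 76) (nat_lit 6937574897) (nat_lit 76) (nat_lit 4055764416) (nat_lit 29) (nat_lit 4) (nat_lit 30) (nat_lit 5) (nat_lit 30) (nat_lit 4) (nat_lit 521) (nat_lit 350) (nat_lit 329)) (XT.lf (nat_lit 0) (nat_lit 3919015439) (nat_lit 152) (nat_lit 24598860496) (nat_lit 0) (nat_lit 1026416093) (nat_lit 27) (nat_lit 5) (nat_lit 29) (nat_lit 4) (nat_lit 27) (nat_lit 4) (nat_lit 522) (nat_lit 350) (nat_lit 328)))) (XT.nd (nat_lit 156) (nat_lit 152) (nat_lit 0) (XT.nd (nat_lit 78) (nat_lit 76) (nat_lit 0) (XT.lf (nat_lit 0) (nat_lit 12106801128) (nat_lit 152) (nat_lit 8953965563) (nat_lit 0) (nat_lit 9122235672) (nat_lit 27) (nat_lit 5) (nat_lit 29) (nat_lit 4) (nat_lit 27) (nat_lit 4) (nat_lit 523) (nat_lit 350) (nat_lit 327)) (XT.lf (nat_lit 0) (nat_lit 7056017335) (nat_lit 76) (nat_lit 13430165858) (nat_lit 76) (nat_lit 10356312918) (nat_lit 26) (nat_lit 4) (nat_lit 27) (nat_lit 5) (nat_lit 27) (nat_lit 4) (nat_lit 524) (nat_lit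 350) (nat_lit 326))) (XT.nd (nat_lit 78) (nat_lit 152) (nat_lit 0) (XT.lf (nat_lit 0) (nat_lit 23490272074) (nat_lit 76) (nat_lit 5596474687) (nat_lit 76) (nat_lit 2435934869) (nat_lit 26) (nat_lit 4) (nat_lit 27) (nat_lit 5) (nat_lit 27) (nat_lit 4) (nat_lit 525) (nat_lit 350) (nat_lit 325)) (XT.lf (nat_lit 0) (nat_lit 5593580078) (nat_lit 152) (nat_lit 24185163799) (nat_lit 0) (nat_lit 2443384120) (nat_lit 24) (nat_lit 5) (nat_lit 26) (nat_lit 4) (nat_lit 24) (nat_lit 4) (nat_lit 526) (nat_lit 350) (nat_lit 324))))) (XT.nd (nat_lit 312) (nat_lit 152) (nat_lit 0) (XT.nd (nat_lit 156) (nat_lit 152) (nat_lit 0) (XT.nd (nat_lit 78) (nat_lit 76) (nat_lit 0) (XT.lf (nat_lit 0) (nat_lit 13834178324) (nat_lit 152) (nat_lit 8502430442) (nat_lit 0) (nat_lit 10604651592) (nat_lit 24) (nat_lit 5) (nat_lit 26) (nat_lit 4) (nat_lit 24) (nat_lit 4) (nat_lit 527) (nat_lit 350) (nat_lit 323)) (XT.lf (nat_lit 0) (nat_lit 7570305117)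 (nat_lit 76) (nat_lit 14709733993) (nat_lit 76) (nat_lit 11403187092) (nat_lit 23) (nat_lit 4) (nat_lit 24) (nat_lit 5) (nat_lit 24) (nat_lit 4) (nat_lit 528) (nat_lit 350) (nat_lit 322))) (XT.nd (nat_lit 78) (nat_lit 152) (nat_lit 0) (XT.lf (nat_lit 0) (nat_lit 24073547806) (nat_lit 76) (nat_lit 6878029382) (nat_lit 76) (nat_lit 3496705618) (nat_lit 23) (nat_lit 4) (nat_lit 24) (nat_lit 5) (nat_lit 24) (nat_lit 4) (nat_lit 529) (nat_lit 350) (nat_lit 321)) (XT.lf (nat_lit 0) (nat_lit 4510899894) (nat_lit 152) (nat_lit 29567836721) (nat_lit 0) (nat_lit 1157576923) (nat_lit 21) (nat_lit 5) (nat_lit 23) (nat_lit 4) (nat_lit 21) (nat_lit 4) (nat_lit 530) (nat_lit 350) (nat_lit 320)))) (XT.nd (nat_lit 156) (nat_lit 76) (nat_lit 0) (XT.nd (nat_lit 78) (nat_lit 76) (nat_lit 0) (XT.lf (nat_lit 0) (nat_lit 12751096765) (nat_lit 152) (nat_lit 13964628883) (nat_lit 0) (nat_lit 9329342372) (nat_lit 21) (nat_lit 5) (nat_lit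 23) (nat_lit 4) (nat_lit 21) (nat_lit 4) (nat_lit 531) (nat_lit 350) (nat_lit 319)) (XT.lf (nat_lit 0) (nat_lit 1929089461) (nat_lit 76) (nat_lit 19219936640) (nat_lit 76) (nat_lit 15731743973) (nat_lit 20) (nat_lit 4) (nat_lit 21) (nat_lit 5) (nat_lit 21) (nat_lit 4) (nat_lit 532) (nat_lit 350) (nat_lit 318))) (XT.nd (nat_lit 78) (nat_lit 76) (nat_lit 0) (XT.lf (nat_lit 0) (nat_lit 18372761435) (nat_lit 76) (nat_lit 11460227720) (nat_lit 76) (nat_lit 7907531874) (nat_lit 20) (nat_lit 4) (nat_lit 21) (nat_lit 5) (nat_lit 21) (nat_lit 4) (nat_lit 533) (nat_lit 350) (nat_lit 317)) (XT.lf (nat_lit 0) (nat_lit 43618273) (nat_lit 152) (nat_lit 3526775197) (nat_lit 76) (nat_lit 35058773067) (nat_lit 19) (nat_lit 5) (nat_lit 21) (nat_lit 5) (nat_lit 20) (nat_lit 4) (nat_lit 534) (nat_lit 350) (nat_lit 316))))))) (XT.nd (nat_lit 1170) (nat_lit 152) (nat_lit 0) (XT.nd (nat_lit 546) (nat_lit 304) (nat_lit 0) (XT.nd (nat_lit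 234) (nat_lit 152) (nat_lit 0) (XT.nd (nat_lit 78) (nat_lit 76) (nat_lit 0) (XT.lf (nat_lit 0) (nat_lit 8140032260) (nat_lit 152) (nat_lit 26829138130) (nat_lit 0) (nat_lit 4570983014) (nat_lit 18) (nat_lit 5) (nat_lit 20) (nat_lit 4) (nat_lit 18) (nat_lit 4) (nat_lit 535) (nat_lit 350) (nat_lit 315)) (XT.nd (nat_lit 78) (nat_lit 76) (nat_lit 0) (XT.lf (nat_lit 0) (nat_lit 16448944956) (nat_lit 152) (nat_lit 11207851896) (nat_lit 0) (nat_lit 12822585470) (nat_lit 18) (nat_lit 5) (nat_lit 20) (nat_lit 4) (nat_lit 18) (nat_lit 4) (nat_lit 536) (nat_lit 350) (nat_lit 314)) (XT.lf (nat_lit 0) (nat_lit 4778243491) (nat_lit 76) (nat_lit 20176065110) (nat_lit 76) (nat_lit 16494064616) (nat_lit 17) (nat_lit 4) (nat_lit 18) (nat_lit 5) (nat_lit 18) (nat_lit 4) (nat_lit 537) (nat_lit 350) (nat_lit 313)))) (XT.nd (nat_lit 156) (nat_lit 152) (nat_lit 0) (XT.nd (nat_lit 78) (nat_lit 0) (nat_lit 0) (XT.lf (nat_lit 0) (nat_lit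 21278533603) (nat_lit 76) (nat_lit 12451729414) (nat_lit 76) (nat_lit 8715708523) (nat_lit 17) (nat_lit 4) (nat_lit 18) (nat_lit 5) (nat_lit 18) (nat_lit 4) (nat_lit 538) (nat_lit 350) (nat_lit 312)) (XT.lf (nat_lit 0) (nat_lit 38084377939) (nat_lit 76) (nat_lit 4590217673) (nat_lit 76) (nat_lit 801749794) (nat_lit 17) (nat_lit 4) (nat_lit 18) (nat_lit 5) (nat_lit 18) (nat_lit 4) (nat_lit 539) (nat_lit 350) (nat_lit 311))) (XT.nd (nat_lit 78) (nat_lit 0) (nat_lit 0) (XT.lf (nat_lit 0) (nat_lit 7251635381) (nat_lit 152) (nat_lit 33758438508) (nat_lit 0) (nat_lit 3524074911) (nat_lit 15) (nat_lit 5) (nat_lit 17) (nat_lit 4) (nat_lit 15) (nat_lit 4) (nat_lit 540) (nat_lit 350) (nat_lit 310)) (XT.lf (nat_lit 0) (nat_lit 15537952419) (nat_lit 152) (nat_lit 18322877398) (nat_lit 0) (nat_lit 11762395527) (nat_lit 15) (nat_lit 5) (nat_lit 17) (nat_lit 4) (nat_lit 15) (nat_lit 4) (nat_lit 541) (nat_lit 350) (nat_lit 309)))))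 (XT.nd (nat_lit 312) (nat_lit 152) (nat_lit 0) (XT.nd (nat_lit 156) (nat_lit 76) (nat_lit 0) (XT.nd (nat_lit 78) (nat_lit 76) (nat_lit 0) (XT.lf (nat_lit 0) (nat_lit 23982577019) (nat_lit 152) (nat_lit 2604684478) (nat_lit 0) (nat_lit 20160421658) (nat_lit 15) (nat_lit 5) (nat_lit 17) (nat_lit 4) (nat_lit 15) (nat_lit 4) (nat_lit 542) (nat_lit 350) (nat_lit 308)) (XT.lf (nat_lit 0) (nat_lit 13676757391) (nat_lit 76) (nat_lit 19047599948) (nat_lit 76) (nat_lit 15180203355) (nat_lit 14) (nat_lit 4) (nat_lit 15) (nat_lit 5) (nat_lit 15) (nat_lit 4) (nat_lit 543) (nat_lit 350) (nat_lit 307))) (XT.nd (nat_lit 78) (nat_lit 76) (nat_lit 0) (XT.lf (nat_lit 0) (nat_lit 30326573809) (nat_lit 76) (nat_lit 11341352647) (nat_lit 76) (nat_lit 7430032528) (nat_lit 14) (nat_lit 4) (nat_lit 15) (nat_lit 5) (nat_lit 15) (nat_lit 4) (nat_lit 544) (nat_lit 350) (nat_lit 306)) (XT.lf (nat_lit 0) (nat_lit 456785210) (nat_lit 152) (nat_lit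 3026690340) (nat_lit 76) (nat_lit 46846076982) (nat_lit 13) (nat_lit 5) (nat_lit 15) (nat_lit 5) (nat_lit 14) (nat_lit 4) (nat_lit 545) (nat_lit 350) (nat_lit 305)))) (XT.nd (nat_lit 156) (nat_lit 76) (nat_lit 0) (XT.nd (nat_lit 78) (nat_lit 0) (nat_lit 0) (XT.lf (nat_lit 0) (nat_lit 8520759180) (nat_lit 152) (nat_lit 38430668950) (nat_lit 0) (nat_lit 4641762622) (nat_lit 12) (nat_lit 5) (nat_lit 14) (nat_lit 4) (nat_lit 12) (nat_lit 4) (nat_lit 546) (nat_lit 350) (nat_lit 304)) (XT.lf (nat_lit 0) (nat_lit 16809459981) (nat_lit 152) (nat_lit 23194356403) (nat_lit 0) (nat_lit 12891437939) (nat_lit 12) (nat_lit 5) (nat_lit 14) (nat_lit 4) (nat_lit 12) (nat_lit 4) (nat_lit 547) (nat_lit 350) (nat_lit 303))) (XT.nd (nat_lit 78) (nat_lit 76) (nat_lit 0) (XT.lf (nat_lit 0) (nat_lit 25266677638) (nat_lit 152) (nat_lit 7661340130) (nat_lit 0) (nat_lit 21310766777) (nat_lit 12) (nat_lit 5) (nat_lit 14) (nat_lit 4) (nat_lit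 12) (nat_lit 4) (nat_lit 548) (nat_lit 350) (nat_lit 302)) (XT.lf (nat_lit 0) (nat_lit 8344789302) (nat_lit 76) (nat_lit 25635227870) (nat_lit 76) (nat_lit 21642531747) (nat_lit 11) (nat_lit 4) (nat_lit 12) (nat_lit 5) (nat_lit 12) (nat_lit 4) (nat_lit 549) (nat_lit 350) (nat_lit 301)))))) (XT.nd (nat_lit 58656) (nat_lit 0) (nat_lit 2432) (XT.nd (nat_lit 234) (nat_lit 76) (nat_lit 0) (XT.nd (nat_lit 78) (nat_lit 76) (nat_lit 0) (XT.lf (nat_lit 0) (nat_lit 24833964965) (nat_lit 76) (nat_lit 18121130730) (nat_lit 76) (nat_lit 14092720761) (nat_lit 11) (nat_lit 4) (nat_lit 12) (nat_lit 5) (nat_lit 12) (nat_lit 4) (nat_lit 550) (nat_lit 350) (nat_lit 300)) (XT.nd (nat_lit 78) (nat_lit 76) (nat_lit 0) (XT.lf (nat_lit 0) (nat_lit 41668119184) (nat_lit 76) (nat_lit 10456525146) (nat_lit 76) (nat_lit 6393441539) (nat_lit 11) (nat_lit 4) (nat_lit 12) (nat_lit 5) (nat_lit 12) (nat_lit 4) (nat_lit 551) (nat_lit 350) (nat_lit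 299)) (XT.lf (nat_lit 0) (nat_lit 1433503904) (nat_lit 152) (nat_lit 1186734406) (nat_lit 76) (nat_lit 57413981934) (nat_lit 10) (nat_lit 5) (nat_lit 12) (nat_lit 5) (nat_lit 11) (nat_lit 4) (nat_lit 552) (nat_lit 350) (nat_lit 298)))) (XT.nd (nat_lit 58266) (nat_lit 0) (nat_lit 3116) (XT.nd (nat_lit 58188) (nat_lit 0) (nat_lit 3344) (XT.lf (nat_lit 0) (nat_lit 9493855141) (nat_lit 152) (nat_lit 46611572581) (nat_lit 0) (nat_lit 5484699257) (nat_lit 9) (nat_lit 5) (nat_lit 11) (nat_lit 4) (nat_lit 9) (nat_lit 4) (nat_lit 553) (nat_lit 350) (nat_lit 297)) (XT.lf (nat_lit 0) (nat_lit 8879975143) (nat_lit 76) (nat_lit 215610168) (nat_lit 76) (nat_lit 215610168) (nat_lit 53) (nat_lit 4) (nat_lit 54) (nat_lit 5) (nat_lit 54) (nat_lit 4) (nat_lit 498) (nat_lit 351) (nat_lit 351))) (XT.nd (nat_lit 78) (nat_lit 76) (nat_lit 0) (XT.lf (nat_lit 0) (nat_lit 7188565191) (nat_lit 152) (nat_lit 4798029000) (nat_lit 0) (nat_lit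 6958642528) (nat_lit 51) (nat_lit 5) (nat_lit 53) (nat_lit 4) (nat_lit 51) (nat_lit 4) (nat_lit 499) (nat_lit 351) (nat_lit 350)) (XT.lf (nat_lit 0) (nat_lit 10243319555) (nat_lit 76) (nat_lit 4744344808) (nat_lit 76) (nat_lit 4291196259) (nat_lit 50) (nat_lit 4) (nat_lit 51) (nat_lit 5) (nat_lit 51) (nat_lit 4) (nat_lit 500) (nat_lit 351) (nat_lit 349))))) (XT.nd (nat_lit 312) (nat_lit 304) (nat_lit 0) (XT.nd (nat_lit 156) (nat_lit 152) (nat_lit 0) (XT.nd (nat_lit 78) (nat_lit 76) (nat_lit 0) (XT.lf (nat_lit 0) (nat_lit 3312641224) (nat_lit 152) (nat_lit 13647173698) (nat_lit 0) (nat_lit 2662279370) (nat_lit 48) (nat_lit 5) (nat_lit 50) (nat_lit 4) (nat_lit 48) (nat_lit 4) (nat_lit 501) (nat_lit 351) (nat_lit 348)) (XT.lf (nat_lit 0) (nat_lit 1287137854) (nat_lit 76) (nat_lit 9770934060) (nat_lit 76) (nat_lit 8916288898) (nat_lit 47) (nat_lit 4) (nat_lit 48) (nat_lit 5) (nat_lit 48) (nat_lit 4) (nat_lit 502) (nat_lit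 351) (nat_lit 347))) (XT.nd (nat_lit 78) (nat_lit 152) (nat_lit 0) (XT.lf (nat_lit 0) (nat_lit 16656488127) (nat_lit 76) (nat_lit 2367029157) (nat_lit 76) (nat_lit 1314050686) (nat_lit 47) (nat_lit 4) (nat_lit 48) (nat_lit 5) (nat_lit 48) (nat_lit 4) (nat_lit 503) (nat_lit 351) (nat_lit 346)) (XT.lf (nat_lit 0) (nat_lit 6404820369) (nat_lit 152) (nat_lit 9108939246) (nat_lit 0) (nat_lit 5195563009) (nat_lit 45) (nat_lit 5) (nat_lit 47) (nat_lit 4) (nat_lit 45) (nat_lit 4) (nat_lit 504) (nat_lit 351) (nat_lit 345)))) (XT.nd (nat_lit 156) (nat_lit 76) (nat_lit 0) (XT.nd (nat_lit 78) (nat_lit 152) (nat_lit 0) (XT.lf (nat_lit 0) (nat_lit 6119866341) (nat_lit 76) (nat_lit 8181775915) (nat_lit 76) (nat_lit 6791015482) (nat_lit 44) (nat_lit 4) (nat_lit 45) (nat_lit 5) (nat_lit 45) (nat_lit 4) (nat_lit 505) (nat_lit 351) (nat_lit 344)) (XT.lf (nat_lit 0) (nat_lit 214202219) (nat_lit 76) (nat_lit 663225972) (nat_lit 152)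 (nat_lit 20611351798) (nat_lit 42) (nat_lit 5) (nat_lit 43) (nat_lit 5) (nat_lit 44) (nat_lit 4) (nat_lit 506) (nat_lit 351) (nat_lit 343))) (XT.nd (nat_lit 78) (nat_lit 76) (nat_lit 0) (XT.lf (nat_lit 0) (nat_lit 8713490963) (nat_lit 152) (nat_lit 6153004857) (nat_lit 0) (nat_lit 7026053037) (nat_lit 42) (nat_lit 5) (nat_lit 44) (nat_lit 4) (nat_lit 42) (nat_lit 4) (nat_lit 507) (nat_lit 351) (nat_lit 342)) (XT.lf (nat_lit 0) (nat_lit 9318171492) (nat_lit 76) (nat_lit 7420175400) (nat_lit 76) (nat_lit 5571474344) (nat_lit 41) (nat_lit 4) (nat_lit 42) (nat_lit 5) (nat_lit 42) (nat_lit 4) (nat_lit 508) (nat_lit 351) (nat_lit 341))))))))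
noncomputable def xc13 : XT := (XT.nd (nat_lit 2340) (nat_lit 608) (nat_lit 0) (XT.nd (nat_lit 1170) (nat_lit 760) (nat_lit 0) (XT.nd (nat_lit 546) (nat_lit 532) (nat_lit 0) (XT.nd (nat_lit 234) (nat_lit 304) (nat_lit 0) (XT.nd (nat_lit 78) (nat_lit 76) (nat_lit 0) (XT.lf (nat_lit 0) (nat_lit 2165652187) (nat_lit 152) (nat_lit 20356152443) (nat_lit 0) (nat_lit 218790827) (nat_lit 39) (nat_lit 5) (nat_lit 41) (nat_lit 4) (nat_lit 39) (nat_lit 4) (nat_lit 509) (nat_lit 351) (nat_lit 340)) (XT.nd (nat_lit 78) (nat_lit 76) (nat_lit 0) (XT.lf (nat_lit 0) (nat_lit 10086713629) (nat_lit 152) (nat_lit 5101738289) (nat_lit 0) (nat_lit 7992273661) (nat_lit 39) (nat_lit 5) (nat_lit 41) (nat_lit 4) (nat_lit 39) (nat_lit 4) (nat_lit 510) (nat_lit 351) (nat_lit 339)) (XT.lf (nat_lit 0) (nat_lit 10544628652) (nat_lit 76) (nat_lit 7664126134) (nat_lit 76) (nat_lit 5426405964) (nat_lit 38) (nat_lit 4) (nat_lit 39) (nat_lit 5) (nat_lit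 39) (nat_lit 4) (nat_lit 511) (nat_lit 351) (nat_lit 338)))) (XT.nd (nat_lit 156) (nat_lit 152) (nat_lit 0) (XT.nd (nat_lit 78) (nat_lit 0) (nat_lit 0) (XT.lf (nat_lit 0) (nat_lit 2360834674) (nat_lit 152) (nat_lit 21690312791) (nat_lit 0) (nat_lit 53235487) (nat_lit 36) (nat_lit 5) (nat_lit 38) (nat_lit 4) (nat_lit 36) (nat_lit 4) (nat_lit 512) (nat_lit 351) (nat_lit 337)) (XT.lf (nat_lit 0) (nat_lit 10344236390) (nat_lit 152) (nat_lit 6334171277) (nat_lit 0) (nat_lit 7905515522) (nat_lit 36) (nat_lit 5) (nat_lit 38) (nat_lit 4) (nat_lit 36) (nat_lit 4) (nat_lit 513) (nat_lit 351) (nat_lit 336))) (XT.nd (nat_lit 78) (nat_lit 76) (nat_lit 0) (XT.lf (nat_lit 0) (nat_lit 9402350877) (nat_lit 76) (nat_lit 9121412471) (nat_lit 76) (nat_lit 6555388999) (nat_lit 35) (nat_lit 4) (nat_lit 36) (nat_lit 5) (nat_lit 36) (nat_lit 4) (nat_lit 514) (nat_lit 351) (nat_lit 335)) (XT.lf (nat_lit 0) (nat_lit 1263821424) (nat_lit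 152) (nat_lit 124060741) (nat_lit 76) (nat_lit 24203038172) (nat_lit 34) (nat_lit 5) (nat_lit 36) (nat_lit 5) (nat_lit 35) (nat_lit 4) (nat_lit 515) (nat_lit 351) (nat_lit 334))))) (XT.nd (nat_lit 312) (nat_lit 228) (nat_lit 0) (XT.nd (nat_lit 156) (nat_lit 152) (nat_lit 0) (XT.nd (nat_lit 78) (nat_lit 76) (nat_lit 0) (XT.lf (nat_lit 0) (nat_lit 9272916411) (nat_lit 152) (nat_lit 10295430488) (nat_lit 0) (nat_lit 6545136657) (nat_lit 33) (nat_lit 5) (nat_lit 35) (nat_lit 4) (nat_lit 33) (nat_lit 4) (nat_lit 516) (nat_lit 351) (nat_lit 333)) (XT.lf (nat_lit 0) (nat_lit 5425088682) (nat_lit 76) (nat_lit 12034698807) (nat_lit 76) (nat_lit 9193812339) (nat_lit 32) (nat_lit 4) (nat_lit 33) (nat_lit 5) (nat_lit 33) (nat_lit 4) (nat_lit 517) (nat_lit 351) (nat_lit 332))) (XT.nd (nat_lit 78) (nat_lit 152) (nat_lit 0) (XT.lf (nat_lit 0) (nat_lit 21574474630) (nat_lit 76) (nat_lit 4293437777) (nat_lit 76) (nat_lit 1342738964)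 (nat_lit 32) (nat_lit 4) (nat_lit 33) (nat_lit 5) (nat_lit 33) (nat_lit 4) (nat_lit 518) (nat_lit 351) (nat_lit 331)) (XT.lf (nat_lit 0) (nat_lit 6621390783) (nat_lit 152) (nat_lit 17507680410) (nat_lit 0) (nat_lit 3653125988) (nat_lit 30) (nat_lit 5) (nat_lit 32) (nat_lit 4) (nat_lit 30) (nat_lit 4) (nat_lit 519) (nat_lit 351) (nat_lit 330)))) (XT.nd (nat_lit 156) (nat_lit 152) (nat_lit 0) (XT.nd (nat_lit 78) (nat_lit 76) (nat_lit 0) (XT.lf (nat_lit 0) (nat_lit 14771753631) (nat_lit 152) (nat_lit 1896514121) (nat_lit 0) (nat_lit 11702994984) (nat_lit 30) (nat_lit 5) (nat_lit 32) (nat_lit 4) (nat_lit 30) (nat_lit 4) (nat_lit 520) (nat_lit 351) (nat_lit 329)) (XT.lf (nat_lit 0) (nat_lit 14218665767) (nat_lit 76) (nat_lit 8962610793) (nat_lit 76) (nat_lit 5796285301) (nat_lit 29) (nat_lit 4) (nat_lit 30) (nat_lit 5) (nat_lit 30) (nat_lit 4) (nat_lit 521) (nat_lit 351) (nat_lit 328))) (XT.nd (nat_lit 78) (nat_lit 0)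 (nat_lit 0) (XT.lf (nat_lit 0) (nat_lit 1010859073) (nat_lit 76) (nat_lit 1093529920) (nat_lit 152) (nat_lit 27499803183) (nat_lit 27) (nat_lit 5) (nat_lit 28) (nat_lit 5) (nat_lit 29) (nat_lit 4) (nat_lit 522) (nat_lit 351) (nat_lit 327)) (XT.lf (nat_lit 0) (nat_lit 10221631502) (nat_lit 152) (nat_lit 13057112302) (nat_lit 0) (nat_lit 6966275489) (nat_lit 27) (nat_lit 5) (nat_lit 29) (nat_lit 4) (nat_lit 27) (nat_lit 4) (nat_lit 523) (nat_lit 351) (nat_lit 326)))))) (XT.nd (nat_lit 546) (nat_lit 304) (nat_lit 0) (XT.nd (nat_lit 234) (nat_lit 228) (nat_lit 0) (XT.nd (nat_lit 78) (nat_lit 152) (nat_lit 0) (XT.lf (nat_lit 0) (nat_lit 2753192609) (nat_lit 76) (nat_lit 15748176565) (nat_lit 76) (nat_lit 12406133673) (nat_lit 26) (nat_lit 4) (nat_lit 27) (nat_lit 5) (nat_lit 27) (nat_lit 4) (nat_lit 524) (nat_lit 351) (nat_lit 325)) (XT.nd (nat_lit 78) (nat_lit 152) (nat_lit 0) (XT.lf (nat_lit 0) (nat_lit 19072867423)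 (nat_lit 76) (nat_lit 7971378458) (nat_lit 76) (nat_lit 4545173548) (nat_lit 26) (nat_lit 4) (nat_lit 27) (nat_lit 5) (nat_lit 27) (nat_lit 4) (nat_lit 525) (nat_lit 351) (nat_lit 324)) (XT.lf (nat_lit 0) (nat_lit 3394325599) (nat_lit 76) (nat_lit 5793221) (nat_lit 152) (nat_lit 28893117111) (nat_lit 24) (nat_lit 5) (nat_lit 25) (nat_lit 5) (nat_lit 26) (nat_lit 4) (nat_lit 526) (nat_lit 351) (nat_lit 323)))) (XT.nd (nat_lit 156) (nat_lit 152) (nat_lit 0) (XT.nd (nat_lit 78) (nat_lit 76) (nat_lit 0) (XT.lf (nat_lit 0) (nat_lit 11584146201) (nat_lit 152) (nat_lit 13328536912) (nat_lit 0) (nat_lit 8101382724) (nat_lit 24) (nat_lit 5) (nat_lit 26) (nat_lit 4) (nat_lit 24) (nat_lit 4) (nat_lit 527) (nat_lit 351) (nat_lit 322)) (XT.lf (nat_lit 0) (nat_lit 2536836155) (nat_lit 76) (nat_lit 17389916945) (nat_lit 76) (nat_lit 13832376605) (nat_lit 23) (nat_lit 4) (nat_lit 24) (nat_lit 5) (nat_lit 24) (nat_lit 4) (nat_lit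 528) (nat_lit 351) (nat_lit 321))) (XT.nd (nat_lit 78) (nat_lit 152) (nat_lit 0) (XT.lf (nat_lit 0) (nat_lit 18932007474) (nat_lit 76) (nat_lit 9611973880) (nat_lit 76) (nat_lit 5981834644) (nat_lit 23) (nat_lit 4) (nat_lit 24) (nat_lit 5) (nat_lit 24) (nat_lit 4) (nat_lit 529) (nat_lit 351) (nat_lit 320)) (XT.lf (nat_lit 0) (nat_lit 273493658) (nat_lit 76) (nat_lit 1684199572) (nat_lit 152) (nat_lit 33360367675) (nat_lit 21) (nat_lit 5) (nat_lit 22) (nat_lit 5) (nat_lit 23) (nat_lit 4) (nat_lit 530) (nat_lit 351) (nat_lit 319))))) (XT.nd (nat_lit 312) (nat_lit 228) (nat_lit 0) (XT.nd (nat_lit 156) (nat_lit 76) (nat_lit 0) (XT.nd (nat_lit 78) (nat_lit 0) (nat_lit 0) (XT.lf (nat_lit 0) (nat_lit 10128490186) (nat_lit 152) (nat_lit 19531194096) (nat_lit 0) (nat_lit 6469213465) (nat_lit 21) (nat_lit 5) (nat_lit 23) (nat_lit 4) (nat_lit 21) (nat_lit 4) (nat_lit 531) (nat_lit 351) (nat_lit 318)) (XT.lf (nat_lit 0) (nat_lit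 18456215392) (nat_lit 152) (nat_lit 3778055392) (nat_lit 0) (nat_lit 14732435492) (nat_lit 21) (nat_lit 5) (nat_lit 23) (nat_lit 4) (nat_lit 21) (nat_lit 4) (nat_lit 532) (nat_lit 351) (nat_lit 317))) (XT.nd (nat_lit 78) (nat_lit 0) (nat_lit 0) (XT.lf (nat_lit 0) (nat_lit 12488498890) (nat_lit 76) (nat_lit 14563504145) (nat_lit 76) (nat_lit 10777099799) (nat_lit 20) (nat_lit 4) (nat_lit 21) (nat_lit 5) (nat_lit 21) (nat_lit 4) (nat_lit 533) (nat_lit 351) (nat_lit 316)) (XT.lf (nat_lit 0) (nat_lit 29119611021) (nat_lit 76) (nat_lit 6723422323) (nat_lit 76) (nat_lit 2876217545) (nat_lit 20) (nat_lit 4) (nat_lit 21) (nat_lit 5) (nat_lit 21) (nat_lit 4) (nat_lit 534) (nat_lit 351) (nat_lit 315)))) (XT.nd (nat_lit 156) (nat_lit 76) (nat_lit 0) (XT.nd (nat_lit 78) (nat_lit 0) (nat_lit 0) (XT.lf (nat_lit 0) (nat_lit 5135782011) (nat_lit 152) (nat_lit 33156180188) (nat_lit 0) (nat_lit 1343321502) (nat_lit 18) (nat_lit 5)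 (nat_lit 20) (nat_lit 4) (nat_lit 18) (nat_lit 4) (nat_lit 535) (nat_lit 351) (nat_lit 314)) (XT.lf (nat_lit 0) (nat_lit 13396050456) (nat_lit 152) (nat_lit 17631972858) (nat_lit 0) (nat_lit 9547948938) (nat_lit 18) (nat_lit 5) (nat_lit 20) (nat_lit 4) (nat_lit 18) (nat_lit 4) (nat_lit 536) (nat_lit 351) (nat_lit 313))) (XT.nd (nat_lit 78) (nat_lit 76) (nat_lit 0) (XT.lf (nat_lit 0) (nat_lit 21808255273) (nat_lit 152) (nat_lit 1833369574) (nat_lit 0) (nat_lit 17906133358) (nat_lit 18) (nat_lit 5) (nat_lit 20) (nat_lit 4) (nat_lit 18) (nat_lit 4) (nat_lit 537) (nat_lit 351) (nat_lit 312)) (XT.lf (nat_lit 0) (nat_lit 14537105559) (nat_lit 76) (nat_lit 15982380927) (nat_lit 76) (nat_lit 12027812025) (nat_lit 17) (nat_lit 4) (nat_lit 18) (nat_lit 5) (nat_lit 18) (nat_lit 4) (nat_lit 538) (nat_lit 351) (nat_lit 311))))))) (XT.nd (nat_lit 59124) (nat_lit 0) (nat_lit 2204) (XT.nd (nat_lit 546) (nat_lit 380) (nat_lit 0)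 (XT.nd (nat_lit 234) (nat_lit 76) (nat_lit 0) (XT.nd (nat_lit 78) (nat_lit 152) (nat_lit 0) (XT.lf (nat_lit 0) (nat_lit 31252340837) (nat_lit 76) (nat_lit 8166090872) (nat_lit 76) (nat_lit 4160602566) (nat_lit 17) (nat_lit 4) (nat_lit 18) (nat_lit 5) (nat_lit 18) (nat_lit 4) (nat_lit 539) (nat_lit 351) (nat_lit 310)) (XT.nd (nat_lit 78) (nat_lit 0) (nat_lit 0) (XT.lf (nat_lit 0) (nat_lit 3680861550) (nat_lit 76) (nat_lit 129870554) (nat_lit 152) (nat_lit 40831502262) (nat_lit 15) (nat_lit 5) (nat_lit 16) (nat_lit 5) (nat_lit 17) (nat_lit 4) (nat_lit 540) (nat_lit 351) (nat_lit 309)) (XT.lf (nat_lit 0) (nat_lit 12051326881) (nat_lit 152) (nat_lit 25613447559) (nat_lit 0) (nat_lit 8067908390) (nat_lit 15) (nat_lit 5) (nat_lit 17) (nat_lit 4) (nat_lit 15) (nat_lit 4) (nat_lit 541) (nat_lit 351) (nat_lit 308)))) (XT.nd (nat_lit 156) (nat_lit 0) (nat_lit 0) (XT.nd (nat_lit 78) (nat_lit 76) (nat_lit 0) (XT.lf (nat_lit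 0) (nat_lit 20452772971) (nat_lit 152) (nat_lit 9981550026) (nat_lit 0) (nat_lit 16424113248) (nat_lit 15) (nat_lit 5) (nat_lit 17) (nat_lit 4) (nat_lit 15) (nat_lit 4) (nat_lit 542) (nat_lit 351) (nat_lit 307)) (XT.lf (nat_lit 0) (nat_lit 6067628401) (nat_lit 76) (nat_lit 23011860402) (nat_lit 76) (nat_lit 18939277154) (nat_lit 14) (nat_lit 4) (nat_lit 15) (nat_lit 5) (nat_lit 15) (nat_lit 4) (nat_lit 543) (nat_lit 351) (nat_lit 306))) (XT.nd (nat_lit 78) (nat_lit 0) (nat_lit 0) (XT.lf (nat_lit 0) (nat_lit 22634484281) (nat_lit 76) (nat_lit 15347076283) (nat_lit 76) (nat_lit 11231848835) (nat_lit 14) (nat_lit 4) (nat_lit 15) (nat_lit 5) (nat_lit 15) (nat_lit 4) (nat_lit 544) (nat_lit 351) (nat_lit 305)) (XT.lf (nat_lit 0) (nat_lit 39534841089) (nat_lit 76) (nat_lit 7534067340) (nat_lit 76) (nat_lit 3377437755) (nat_lit 14) (nat_lit 4) (nat_lit 15) (nat_lit 5) (nat_lit 15) (nat_lit 4) (nat_lit 545) (nat_lit 351)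 (nat_lit 304))))) (XT.nd (nat_lit 312) (nat_lit 228) (nat_lit 0) (XT.nd (nat_lit 156) (nat_lit 0) (nat_lit 0) (XT.nd (nat_lit 78) (nat_lit 0) (nat_lit 0) (XT.lf (nat_lit 0) (nat_lit 4594773668) (nat_lit 152) (nat_lit 46600729503) (nat_lit 0) (nat_lit 520185481) (nat_lit 12) (nat_lit 5) (nat_lit 14) (nat_lit 4) (nat_lit 12) (nat_lit 4) (nat_lit 546) (nat_lit 351) (nat_lit 303)) (XT.lf (nat_lit 0) (nat_lit 12843994583) (nat_lit 152) (nat_lit 31443424666) (nat_lit 0) (nat_lit 8731517576) (nat_lit 12) (nat_lit 5) (nat_lit 14) (nat_lit 4) (nat_lit 12) (nat_lit 4) (nat_lit 547) (nat_lit 351) (nat_lit 302))) (XT.nd (nat_lit 78) (nat_lit 0) (nat_lit 0) (XT.lf (nat_lit 0) (nat_lit 21262882254) (nat_lit 152) (nat_lit 15987114907) (nat_lit 0) (nat_lit 17113619986) (nat_lit 12) (nat_lit 5) (nat_lit 14) (nat_lit 4) (nat_lit 12) (nat_lit 4) (nat_lit 548) (nat_lit 351) (nat_lit 301)) (XT.lf (nat_lit 0) (nat_lit 29858792990) (nat_lit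 152) (nat_lit 218294715) (nat_lit 0) (nat_lit 25673816875) (nat_lit 12) (nat_lit 5) (nat_lit 14) (nat_lit 4) (nat_lit 12) (nat_lit 4) (nat_lit 549) (nat_lit 351) (nat_lit 300)))) (XT.nd (nat_lit 156) (nat_lit 152) (nat_lit 0) (XT.nd (nat_lit 78) (nat_lit 0) (nat_lit 0) (XT.lf (nat_lit 0) (nat_lit 16192794231) (nat_lit 76) (nat_lit 22602098593) (nat_lit 76) (nat_lit 18382448842) (nat_lit 11) (nat_lit 4) (nat_lit 12) (nat_lit 5) (nat_lit 12) (nat_lit 4) (nat_lit 550) (nat_lit 351) (nat_lit 299)) (XT.lf (nat_lit 0) (nat_lit 32955354060) (nat_lit 76) (nat_lit 14973321824) (nat_lit 76) (nat_lit 10720008347) (nat_lit 11) (nat_lit 4) (nat_lit 12) (nat_lit 5) (nat_lit 12) (nat_lit 4) (nat_lit 551) (nat_lit 351) (nat_lit 298))) (XT.nd (nat_lit 78) (nat_lit 152) (nat_lit 0) (XT.lf (nat_lit 0) (nat_lit 50079687174) (nat_lit 76) (nat_lit 7186295824) (nat_lit 76) (nat_lit 2900299119) (nat_lit 11) (nat_lit 4) (nat_lit 12) (nat_lit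 5) (nat_lit 12) (nat_lit 4) (nat_lit 552) (nat_lit 351) (nat_lit 297)) (XT.lf (nat_lit 0) (nat_lit 5049588970) (nat_lit 152) (nat_lit 55820828143) (nat_lit 0) (nat_lit 857620043) (nat_lit 9) (nat_lit 5) (nat_lit 11) (nat_lit 4) (nat_lit 9) (nat_lit 4) (nat_lit 553) (nat_lit 351) (nat_lit 296)))))) (XT.nd (nat_lit 624) (nat_lit 684) (nat_lit 0) (XT.nd (nat_lit 312) (nat_lit 304) (nat_lit 0) (XT.nd (nat_lit 156) (nat_lit 152) (nat_lit 0) (XT.nd (nat_lit 78) (nat_lit 76) (nat_lit 0) (XT.lf (nat_lit 0) (nat_lit 1550022103) (nat_lit 152) (nat_lit 5898142844) (nat_lit 0) (nat_lit 1550022103) (nat_lit 54) (nat_lit 5) (nat_lit 56) (nat_lit 4) (nat_lit 54) (nat_lit 4) (nat_lit 496) (nat_lit 352) (nat_lit 352)) (XT.lf (nat_lit 0) (nat_lit 2717287622) (nat_lit 76) (nat_lit 7916011103) (nat_lit 76) (nat_lit 7672086150) (nat_lit 53) (nat_lit 4) (nat_lit 54) (nat_lit 5) (nat_lit 54) (nat_lit 4) (nat_lit 497) (nat_lit 352) (nat_lit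 351))) (XT.nd (nat_lit 78) (nat_lit 152) (nat_lit 0) (XT.lf (nat_lit 0) (nat_lit 17616134617) (nat_lit 76) (nat_lit 744616629) (nat_lit 76) (nat_lit 263871333) (nat_lit 53) (nat_lit 4) (nat_lit 54) (nat_lit 5) (nat_lit 54) (nat_lit 4) (nat_lit 498) (nat_lit 352) (nat_lit 350)) (XT.lf (nat_lit 0) (nat_lit 7273242964) (nat_lit 152) (nat_lit 5093286429) (nat_lit 0) (nat_lit 6583274073) (nat_lit 51) (nat_lit 5) (nat_lit 53) (nat_lit 4) (nat_lit 51) (nat_lit 4) (nat_lit 499) (nat_lit 352) (nat_lit 349)))) (XT.nd (nat_lit 156) (nat_lit 76) (nat_lit 0) (XT.nd (nat_lit 78) (nat_lit 152) (nat_lit 0) (XT.lf (nat_lit 0) (nat_lit 9798164866) (nat_lit 76) (nat_lit 5197134017) (nat_lit 76) (nat_lit 4290440964) (nat_lit 50) (nat_lit 4) (nat_lit 51) (nat_lit 5) (nat_lit 51) (nat_lit 4) (nat_lit 500) (nat_lit 352) (nat_lit 348)) (XT.lf (nat_lit 0) (nat_lit 3229793013) (nat_lit 152) (nat_lit 14256463875) (nat_lit 0) (nat_lit 2145225188)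 (nat_lit 48) (nat_lit 5) (nat_lit 50) (nat_lit 4) (nat_lit 48) (nat_lit 4) (nat_lit 501) (nat_lit 352) (nat_lit 347))) (XT.nd (nat_lit 78) (nat_lit 0) (nat_lit 0) (XT.lf (nat_lit 0) (nat_lit 521512590) (nat_lit 76) (nat_lit 10373768253) (nat_lit 76) (nat_lit 9090867119) (nat_lit 47) (nat_lit 4) (nat_lit 48) (nat_lit 5) (nat_lit 48) (nat_lit 4) (nat_lit 502) (nat_lit 352) (nat_lit 346)) (XT.lf (nat_lit 0) (nat_lit 15750854107) (nat_lit 76) (nat_lit 3038057127) (nat_lit 76) (nat_lit 1562599383) (nat_lit 47) (nat_lit 4) (nat_lit 48) (nat_lit 5) (nat_lit 48) (nat_lit 4) (nat_lit 503) (nat_lit 352) (nat_lit 345))))) (XT.nd (nat_lit 312) (nat_lit 304) (nat_lit 0) (XT.nd (nat_lit 156) (nat_lit 152) (nat_lit 0) (XT.nd (nat_lit 78) (nat_lit 76) (nat_lit 0) (XT.lf (nat_lit 0) (nat_lit 6073149096) (nat_lit 152) (nat_lit 10193665245) (nat_lit 0) (nat_lit 4459162776) (nat_lit 45) (nat_lit 5) (nat_lit 47) (nat_lit 4) (nat_lit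 45) (nat_lit 4) (nat_lit 504) (nat_lit 352) (nat_lit 344)) (XT.lf (nat_lit 0) (nat_lit 4873376412) (nat_lit 76) (nat_lit 9014304193) (nat_lit 76) (nat_lit 7224101298) (nat_lit 44) (nat_lit 4) (nat_lit 45) (nat_lit 5) (nat_lit 45) (nat_lit 4) (nat_lit 505) (nat_lit 352) (nat_lit 343))) (XT.nd (nat_lit 78) (nat_lit 76) (nat_lit 0) (XT.lf (nat_lit 0) (nat_lit 380475936) (nat_lit 152) (nat_lit 1188920799) (nat_lit 76) (nat_lit 19940802742) (nat_lit 43) (nat_lit 5) (nat_lit 45) (nat_lit 5) (nat_lit 44) (nat_lit 4) (nat_lit 506) (nat_lit 352) (nat_lit 342)) (XT.lf (nat_lit 0) (nat_lit 8125895323) (nat_lit 152) (nat_lit 7730323095) (nat_lit 0) (nat_lit 6060470106) (nat_lit 42) (nat_lit 5) (nat_lit 44) (nat_lit 4) (nat_lit 42) (nat_lit 4) (nat_lit 507) (nat_lit 352) (nat_lit 341)))) (XT.nd (nat_lit 156) (nat_lit 76) (nat_lit 0) (XT.nd (nat_lit 78) (nat_lit 152) (nat_lit 0) (XT.lf (nat_lit 0) (nat_lit 7573220183) (nat_lit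 76) (nat_lit 8492639837) (nat_lit 76) (nat_lit 6270648474) (nat_lit 41) (nat_lit 4) (nat_lit 42) (nat_lit 5) (nat_lit 42) (nat_lit 4) (nat_lit 508) (nat_lit 352) (nat_lit 340)) (XT.lf (nat_lit 0) (nat_lit 450321152) (nat_lit 76) (nat_lit 940968739) (nat_lit 152) (nat_lit 21378860203) (nat_lit 39) (nat_lit 5) (nat_lit 40) (nat_lit 5) (nat_lit 41) (nat_lit 4) (nat_lit 509) (nat_lit 352) (nat_lit 339))) (XT.nd (nat_lit 78) (nat_lit 76) (nat_lit 0) (XT.lf (nat_lit 0) (nat_lit 9235319197) (nat_lit 152) (nat_lit 7190085543) (nat_lit 0) (nat_lit 6787187220) (nat_lit 39) (nat_lit 5) (nat_lit 41) (nat_lit 4) (nat_lit 39) (nat_lit 4) (nat_lit 510) (nat_lit 352) (nat_lit 338)) (XT.lf (nat_lit 0) (nat_lit 8282314211) (nat_lit 76) (nat_lit 8987292626) (nat_lit 76) (nat_lit 6400053657) (nat_lit 38) (nat_lit 4) (nat_lit 39) (nat_lit 5) (nat_lit 39) (nat_lit 4) (nat_lit 511) (nat_lit 352) (nat_lit 337))))))))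
noncomputable def xc14 : XT := (XT.nd (nat_lit 2340) (nat_lit 380) (nat_lit 0) (XT.nd (nat_lit 1170) (nat_lit 760) (nat_lit 0) (XT.nd (nat_lit 546) (nat_lit 532) (nat_lit 0) (XT.nd (nat_lit 234) (nat_lit 228) (nat_lit 0) (XT.nd (nat_lit 78) (nat_lit 152) (nat_lit 0) (XT.lf (nat_lit 0) (nat_lit 1316486372) (nat_lit 152) (nat_lit 49826966) (nat_lit 76) (nat_lit 22775541852) (nat_lit 37) (nat_lit 5) (nat_lit 39) (nat_lit 5) (nat_lit 38) (nat_lit 4) (nat_lit 512) (nat_lit 352) (nat_lit 336)) (XT.nd (nat_lit 78) (nat_lit 76) (nat_lit 0) (XT.lf (nat_lit 0) (nat_lit 9220370292) (nat_lit 152) (nat_lit 8953347850) (nat_lit 0) (nat_lit 6450063512) (nat_lit 36) (nat_lit 5) (nat_lit 38) (nat_lit 4) (nat_lit 36) (nat_lit 4) (nat_lit 513) (nat_lit 352) (nat_lit 335)) (XT.lf (nat_lit 0) (nat_lit 6602381898) (nat_lit 76) (nat_lit 10706628861) (nat_lit 76) (nat_lit 7812727320) (nat_lit 35) (nat_lit 4) (nat_lit 36) (nat_lit 5) (nat_lit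 36) (nat_lit 4) (nat_lit 514) (nat_lit 352) (nat_lit 334)))) (XT.nd (nat_lit 156) (nat_lit 76) (nat_lit 0) (XT.nd (nat_lit 78) (nat_lit 152) (nat_lit 0) (XT.lf (nat_lit 0) (nat_lit 22554734622) (nat_lit 76) (nat_lit 3047469769) (nat_lit 76) (nat_lit 33573315) (nat_lit 35) (nat_lit 4) (nat_lit 36) (nat_lit 5) (nat_lit 36) (nat_lit 4) (nat_lit 515) (nat_lit 352) (nat_lit 333)) (XT.lf (nat_lit 0) (nat_lit 7867078502) (nat_lit 152) (nat_lit 13466686946) (nat_lit 0) (nat_lit 4827858726) (nat_lit 33) (nat_lit 5) (nat_lit 35) (nat_lit 4) (nat_lit 33) (nat_lit 4) (nat_lit 516) (nat_lit 352) (nat_lit 332))) (XT.nd (nat_lit 78) (nat_lit 0) (nat_lit 0) (XT.lf (nat_lit 0) (nat_lit 2065695821) (nat_lit 76) (nat_lit 13893953181) (nat_lit 76) (nat_lit 10744921059) (nat_lit 32) (nat_lit 4) (nat_lit 33) (nat_lit 5) (nat_lit 33) (nat_lit 4) (nat_lit 517) (nat_lit 352) (nat_lit 331)) (XT.lf (nat_lit 0) (nat_lit 18093701009) (nat_lit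 76) (nat_lit 6212704143) (nat_lit 76) (nat_lit 2957058096) (nat_lit 32) (nat_lit 4) (nat_lit 33) (nat_lit 5) (nat_lit 33) (nat_lit 4) (nat_lit 518) (nat_lit 352) (nat_lit 330))))) (XT.nd (nat_lit 312) (nat_lit 228) (nat_lit 0) (XT.nd (nat_lit 156) (nat_lit 152) (nat_lit 0) (XT.nd (nat_lit 78) (nat_lit 0) (nat_lit 0) (XT.lf (nat_lit 0) (nat_lit 4923221322) (nat_lit 152) (nat_lit 21253808297) (nat_lit 0) (nat_lit 1661906066) (nat_lit 30) (nat_lit 5) (nat_lit 32) (nat_lit 4) (nat_lit 30) (nat_lit 4) (nat_lit 519) (nat_lit 352) (nat_lit 329)) (XT.lf (nat_lit 0) (nat_lit 13013471205) (nat_lit 152) (nat_lit 5761744851) (nat_lit 0) (nat_lit 9654589104) (nat_lit 30) (nat_lit 5) (nat_lit 32) (nat_lit 4) (nat_lit 30) (nat_lit 4) (nat_lit 520) (nat_lit 352) (nat_lit 328))) (XT.nd (nat_lit 78) (nat_lit 76) (nat_lit 0) (XT.lf (nat_lit 0) (nat_lit 10158574197) (nat_lit 76) (nat_lit 11167029752) (nat_lit 76) (nat_lit 7713422557)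 (nat_lit 29) (nat_lit 4) (nat_lit 30) (nat_lit 5) (nat_lit 30) (nat_lit 4) (nat_lit 521) (nat_lit 352) (nat_lit 327)) (XT.lf (nat_lit 0) (nat_lit 156609714) (nat_lit 152) (nat_lit 3227655584) (nat_lit 76) (nat_lit 26283986441) (nat_lit 28) (nat_lit 5) (nat_lit 30) (nat_lit 5) (nat_lit 29) (nat_lit 4) (nat_lit 522) (nat_lit 352) (nat_lit 326)))) (XT.nd (nat_lit 156) (nat_lit 152) (nat_lit 0) (XT.nd (nat_lit 78) (nat_lit 0) (nat_lit 0) (XT.lf (nat_lit 0) (nat_lit 8161592275) (nat_lit 152) (nat_lit 17518253633) (nat_lit 0) (nat_lit 4632601218) (nat_lit 27) (nat_lit 5) (nat_lit 29) (nat_lit 4) (nat_lit 27) (nat_lit 4) (nat_lit 523) (nat_lit 352) (nat_lit 325)) (XT.lf (nat_lit 0) (nat_lit 16358279128) (nat_lit 152) (nat_lit 1874017482) (nat_lit 0) (nat_lit 12745126052) (nat_lit 27) (nat_lit 5) (nat_lit 29) (nat_lit 4) (nat_lit 27) (nat_lit 4) (nat_lit 524) (nat_lit 352) (nat_lit 324))) (XT.nd (nat_lit 78) (nat_lit 76)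 (nat_lit 0) (XT.lf (nat_lit 0) (nat_lit 14297118065) (nat_lit 76) (nat_lit 10529658390) (nat_lit 76) (nat_lit 6834794617) (nat_lit 26) (nat_lit 4) (nat_lit 27) (nat_lit 5) (nat_lit 27) (nat_lit 4) (nat_lit 525) (nat_lit 352) (nat_lit 323)) (XT.lf (nat_lit 0) (nat_lit 1067633978) (nat_lit 152) (nat_lit 1606897569) (nat_lit 76) (nat_lit 29694142999) (nat_lit 25) (nat_lit 5) (nat_lit 27) (nat_lit 5) (nat_lit 26) (nat_lit 4) (nat_lit 526) (nat_lit 352) (nat_lit 322)))))) (XT.nd (nat_lit 546) (nat_lit 380) (nat_lit 0) (XT.nd (nat_lit 234) (nat_lit 228) (nat_lit 0) (XT.nd (nat_lit 78) (nat_lit 76) (nat_lit 0) (XT.lf (nat_lit 0) (nat_lit 9155228832) (nat_lit 152) (nat_lit 18520983583) (nat_lit 0) (nat_lit 5416185419) (nat_lit 24) (nat_lit 5) (nat_lit 26) (nat_lit 4) (nat_lit 24) (nat_lit 4) (nat_lit 527) (nat_lit 352) (nat_lit 321)) (XT.nd (nat_lit 78) (nat_lit 76) (nat_lit 0) (XT.lf (nat_lit 0) (nat_lit 17420179136) (nat_lit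 152) (nat_lit 2811075834) (nat_lit 0) (nat_lit 13608536827) (nat_lit 24) (nat_lit 5) (nat_lit 26) (nat_lit 4) (nat_lit 24) (nat_lit 4) (nat_lit 528) (nat_lit 352) (nat_lit 320)) (XT.lf (nat_lit 0) (nat_lit 13423225903) (nat_lit 76) (nat_lit 12533893936) (nat_lit 76) (nat_lit 8651767262) (nat_lit 23) (nat_lit 4) (nat_lit 24) (nat_lit 5) (nat_lit 24) (nat_lit 4) (nat_lit 529) (nat_lit 352) (nat_lit 319)))) (XT.nd (nat_lit 156) (nat_lit 76) (nat_lit 0) (XT.nd (nat_lit 78) (nat_lit 152) (nat_lit 0) (XT.lf (nat_lit 0) (nat_lit 29995389702) (nat_lit 76) (nat_lit 4679245215) (nat_lit 76) (nat_lit 728687119) (nat_lit 23) (nat_lit 4) (nat_lit 24) (nat_lit 5) (nat_lit 24) (nat_lit 4) (nat_lit 530) (nat_lit 352) (nat_lit 318)) (XT.lf (nat_lit 0) (nat_lit 7322334508) (nat_lit 152) (nat_lit 25473716666) (nat_lit 0) (nat_lit 3422338032) (nat_lit 21) (nat_lit 5) (nat_lit 23) (nat_lit 4) (nat_lit 21) (nat_lit 4) (nat_lit 531) (nat_lit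 352) (nat_lit 317))) (XT.nd (nat_lit 78) (nat_lit 76) (nat_lit 0) (XT.lf (nat_lit 0) (nat_lit 15599903847) (nat_lit 152) (nat_lit 9820515980) (nat_lit 0) (nat_lit 11637282925) (nat_lit 21) (nat_lit 5) (nat_lit 23) (nat_lit 4) (nat_lit 21) (nat_lit 4) (nat_lit 532) (nat_lit 352) (nat_lit 316)) (XT.lf (nat_lit 0) (nat_lit 6226823256) (nat_lit 76) (nat_lit 17859982161) (nat_lit 76) (nat_lit 13836560806) (nat_lit 20) (nat_lit 4) (nat_lit 21) (nat_lit 5) (nat_lit 21) (nat_lit 4) (nat_lit 533) (nat_lit 352) (nat_lit 315))))) (XT.nd (nat_lit 312) (nat_lit 228) (nat_lit 0) (XT.nd (nat_lit 156) (nat_lit 76) (nat_lit 0) (XT.nd (nat_lit 78) (nat_lit 76) (nat_lit 0) (XT.lf (nat_lit 0) (nat_lit 22761859433) (nat_lit 76) (nat_lit 10067776038) (nat_lit 76) (nat_lit 5985325138) (nat_lit 20) (nat_lit 4) (nat_lit 21) (nat_lit 5) (nat_lit 21) (nat_lit 4) (nat_lit 534) (nat_lit 352) (nat_lit 314)) (XT.lf (nat_lit 0) (nat_lit 1964502986)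 (nat_lit 152) (nat_lit 151820077) (nat_lit 76) (nat_lit 37619252501) (nat_lit 19) (nat_lit 5) (nat_lit 21) (nat_lit 5) (nat_lit 20) (nat_lit 4) (nat_lit 535) (nat_lit 352) (nat_lit 313))) (XT.nd (nat_lit 78) (nat_lit 0) (nat_lit 0) (XT.lf (nat_lit 0) (nat_lit 10155697440) (nat_lit 152) (nat_lit 24440147715) (nat_lit 0) (nat_lit 6082491471) (nat_lit 18) (nat_lit 5) (nat_lit 20) (nat_lit 4) (nat_lit 18) (nat_lit 4) (nat_lit 536) (nat_lit 352) (nat_lit 312)) (XT.lf (nat_lit 0) (nat_lit 18522050385) (nat_lit 152) (nat_lit 8733050607) (nat_lit 0) (nat_lit 14396397429) (nat_lit 18) (nat_lit 5) (nat_lit 20) (nat_lit 4) (nat_lit 18) (nat_lit 4) (nat_lit 537) (nat_lit 352) (nat_lit 311)))) (XT.nd (nat_lit 156) (nat_lit 152) (nat_lit 0) (XT.nd (nat_lit 78) (nat_lit 0) (nat_lit 0) (XT.lf (nat_lit 0) (nat_lit 7409498286) (nat_lit 76) (nat_lit 19710752010) (nat_lit 76) (nat_lit 15534179648) (nat_lit 17) (nat_lit 4) (nat_lit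 18) (nat_lit 5) (nat_lit 18) (nat_lit 4) (nat_lit 538) (nat_lit 352) (nat_lit 310)) (XT.lf (nat_lit 0) (nat_lit 24036763605) (nat_lit 76) (nat_lit 11938366506) (nat_lit 76) (nat_lit 7712357829) (nat_lit 17) (nat_lit 4) (nat_lit 18) (nat_lit 5) (nat_lit 18) (nat_lit 4) (nat_lit 539) (nat_lit 352) (nat_lit 309))) (XT.nd (nat_lit 78) (nat_lit 76) (nat_lit 0) (XT.lf (nat_lit 0) (nat_lit 249695896) (nat_lit 152) (nat_lit 3767122430) (nat_lit 76) (nat_lit 40737251863) (nat_lit 16) (nat_lit 5) (nat_lit 18) (nat_lit 5) (nat_lit 17) (nat_lit 4) (nat_lit 540) (nat_lit 352) (nat_lit 308)) (XT.lf (nat_lit 0) (nat_lit 8372450200) (nat_lit 152) (nat_lit 33297914461) (nat_lit 0) (nat_lit 4177689454) (nat_lit 15) (nat_lit 5) (nat_lit 17) (nat_lit 4) (nat_lit 15) (nat_lit 4) (nat_lit 541) (nat_lit 352) (nat_lit 307))))))) (XT.nd (nat_lit 58968) (nat_lit 0) (nat_lit 2052) (XT.nd (nat_lit 546) (nat_lit 152) (nat_lit 0) (XT.nd (nat_lit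 234) (nat_lit 152) (nat_lit 0) (XT.nd (nat_lit 78) (nat_lit 76) (nat_lit 0) (XT.lf (nat_lit 0) (nat_lit 16731975405) (nat_lit 152) (nat_lit 17749798856) (nat_lit 0) (nat_lit 12493291133) (nat_lit 15) (nat_lit 5) (nat_lit 17) (nat_lit 4) (nat_lit 15) (nat_lit 4) (nat_lit 542) (nat_lit 352) (nat_lit 306)) (XT.nd (nat_lit 78) (nat_lit 76) (nat_lit 0) (XT.lf (nat_lit 0) (nat_lit 25259665595) (nat_lit 152) (nat_lit 1900363391) (nat_lit 0) (nat_lit 20978337122) (nat_lit 15) (nat_lit 5) (nat_lit 17) (nat_lit 4) (nat_lit 15) (nat_lit 4) (nat_lit 543) (nat_lit 352) (nat_lit 305)) (XT.lf (nat_lit 0) (nat_lit 14548127319) (nat_lit 76) (nat_lit 19554690328) (nat_lit 76) (nat_lit 15231959720) (nat_lit 14) (nat_lit 4) (nat_lit 15) (nat_lit 5) (nat_lit 15) (nat_lit 4) (nat_lit 544) (nat_lit 352) (nat_lit 304)))) (XT.nd (nat_lit 156) (nat_lit 76) (nat_lit 0) (XT.nd (nat_lit 78) (nat_lit 76) (nat_lit 0) (XT.lf (nat_lit 0) (nat_lit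 31370285863) (nat_lit 76) (nat_lit 11780764410) (nat_lit 76) (nat_lit 7417837554) (nat_lit 14) (nat_lit 4) (nat_lit 15) (nat_lit 5) (nat_lit 15) (nat_lit 4) (nat_lit 545) (nat_lit 352) (nat_lit 303)) (XT.lf (nat_lit 0) (nat_lit 540545988) (nat_lit 152) (nat_lit 3304643983) (nat_lit 76) (nat_lit 47996985814) (nat_lit 13) (nat_lit 5) (nat_lit 15) (nat_lit 5) (nat_lit 14) (nat_lit 4) (nat_lit 546) (nat_lit 352) (nat_lit 302))) (XT.nd (nat_lit 78) (nat_lit 0) (nat_lit 0) (XT.lf (nat_lit 0) (nat_lit 8681755352) (nat_lit 152) (nat_lit 40095679201) (nat_lit 0) (nat_lit 4371229953) (nat_lit 12) (nat_lit 5) (nat_lit 14) (nat_lit 4) (nat_lit 12) (nat_lit 4) (nat_lit 547) (nat_lit 352) (nat_lit 301)) (XT.lf (nat_lit 0) (nat_lit 17063429444) (nat_lit 152) (nat_lit 24713841786) (nat_lit 0) (nat_lit 12717190199) (nat_lit 12) (nat_lit 5) (nat_lit 14) (nat_lit 4) (nat_lit 12) (nat_lit 4) (nat_lit 548) (nat_lit 352) (nat_lit 300)))))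 (XT.nd (nat_lit 312) (nat_lit 76) (nat_lit 0) (XT.nd (nat_lit 156) (nat_lit 0) (nat_lit 0) (XT.nd (nat_lit 78) (nat_lit 76) (nat_lit 0) (XT.lf (nat_lit 0) (nat_lit 25623210491) (nat_lit 152) (nat_lit 9017324841) (nat_lit 0) (nat_lit 21242297610) (nat_lit 12) (nat_lit 5) (nat_lit 14) (nat_lit 4) (nat_lit 12) (nat_lit 4) (nat_lit 549) (nat_lit 352) (nat_lit 299)) (XT.lf (nat_lit 0) (nat_lit 7147051761) (nat_lit 76) (nat_lit 27290227987) (nat_lit 76) (nat_lit 22875651380) (nat_lit 11) (nat_lit 4) (nat_lit 12) (nat_lit 5) (nat_lit 12) (nat_lit 4) (nat_lit 550) (nat_lit 352) (nat_lit 298))) (XT.nd (nat_lit 78) (nat_lit 0) (nat_lit 0) (XT.lf (nat_lit 0) (nat_lit 23840102472) (nat_lit 76) (nat_lit 19696236475) (nat_lit 76) (nat_lit 15248976640) (nat_lit 11) (nat_lit 4) (nat_lit 12) (nat_lit 5) (nat_lit 12) (nat_lit 4) (nat_lit 551) (nat_lit 352) (nat_lit 297)) (XT.lf (nat_lit 0) (nat_lit 40896951005) (nat_lit 76) (nat_lit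 11942982570) (nat_lit 76) (nat_lit 7463991445) (nat_lit 11) (nat_lit 4) (nat_lit 12) (nat_lit 5) (nat_lit 12) (nat_lit 4) (nat_lit 552) (nat_lit 352) (nat_lit 296)))) (XT.nd (nat_lit 57954) (nat_lit 0) (nat_lit 3344) (XT.nd (nat_lit 57876) (nat_lit 0) (nat_lit 3572) (XT.lf (nat_lit 0) (nat_lit 476620926) (nat_lit 152) (nat_lit 3542257720) (nat_lit 76) (nat_lit 57851067541) (nat_lit 10) (nat_lit 5) (nat_lit 12) (nat_lit 5) (nat_lit 11) (nat_lit 4) (nat_lit 553) (nat_lit 352) (nat_lit 295)) (XT.lf (nat_lit 0) (nat_lit 3090957031) (nat_lit 152) (nat_lit 2518053591) (nat_lit 0) (nat_lit 3090957031) (nat_lit 57) (nat_lit 5) (nat_lit 59) (nat_lit 4) (nat_lit 57) (nat_lit 4) (nat_lit 494) (nat_lit 353) (nat_lit 353))) (XT.nd (nat_lit 78) (nat_lit 152) (nat_lit 0) (XT.lf (nat_lit 0) (nat_lit 9355880252) (nat_lit 76) (nat_lit 4299033352) (nat_lit 76) (nat_lit 4040253370) (nat_lit 56) (nat_lit 4) (nat_lit 57) (nat_lit 5)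 (nat_lit 57) (nat_lit 4) (nat_lit 495) (nat_lit 353) (nat_lit 352)) (XT.lf (nat_lit 0) (nat_lit 3276136167) (nat_lit 152) (nat_lit 11941525274) (nat_lit 0) (nat_lit 2780968513) (nat_lit 54) (nat_lit 5) (nat_lit 56) (nat_lit 4) (nat_lit 54) (nat_lit 4) (nat_lit 496) (nat_lit 353) (nat_lit 351)))))) (XT.nd (nat_lit 624) (nat_lit 608) (nat_lit 0) (XT.nd (nat_lit 312) (nat_lit 380) (nat_lit 0) (XT.nd (nat_lit 156) (nat_lit 228) (nat_lit 0) (XT.nd (nat_lit 78) (nat_lit 0) (nat_lit 0) (XT.lf (nat_lit 0) (nat_lit 2425341814) (nat_lit 76) (nat_lit 8308280623) (nat_lit 76) (nat_lit 7576292626) (nat_lit 53) (nat_lit 4) (nat_lit 54) (nat_lit 5) (nat_lit 54) (nat_lit 4) (nat_lit 497) (nat_lit 353) (nat_lit 350)) (XT.lf (nat_lit 0) (nat_lit 17184561946) (nat_lit 76) (nat_lit 1204334052) (nat_lit 76) (nat_lit 242423392) (nat_lit 53) (nat_lit 4) (nat_lit 54) (nat_lit 5) (nat_lit 54) (nat_lit 4) (nat_lit 498) (nat_lit 353) (nat_lit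 349))) (XT.nd (nat_lit 78) (nat_lit 76) (nat_lit 0) (XT.lf (nat_lit 0) (nat_lit 7212749838) (nat_lit 152) (nat_lit 5684059279) (nat_lit 0) (nat_lit 6062131832) (nat_lit 51) (nat_lit 5) (nat_lit 53) (nat_lit 4) (nat_lit 51) (nat_lit 4) (nat_lit 499) (nat_lit 353) (nat_lit 348)) (XT.lf (nat_lit 0) (nat_lit 9055808208) (nat_lit 76) (nat_lit 5801216753) (nat_lit 76) (nat_lit 4440186940) (nat_lit 50) (nat_lit 4) (nat_lit 51) (nat_lit 5) (nat_lit 51) (nat_lit 4) (nat_lit 500) (nat_lit 353) (nat_lit 347)))) (XT.nd (nat_lit 156) (nat_lit 228) (nat_lit 0) (XT.nd (nat_lit 78) (nat_lit 0) (nat_lit 0) (XT.lf (nat_lit 0) (nat_lit 2997115455) (nat_lit 152) (nat_lit 15171064569) (nat_lit 0) (nat_lit 1477393979) (nat_lit 48) (nat_lit 5) (nat_lit 50) (nat_lit 4) (nat_lit 48) (nat_lit 4) (nat_lit 501) (nat_lit 353) (nat_lit 346)) (XT.lf (nat_lit 0) (nat_lit 10587121060) (nat_lit 152) (nat_lit 540541373) (nat_lit 0) (nat_lit 8874842973)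 (nat_lit 48) (nat_lit 5) (nat_lit 50) (nat_lit 4) (nat_lit 48) (nat_lit 4) (nat_lit 502) (nat_lit 353) (nat_lit 345))) (XT.nd (nat_lit 78) (nat_lit 152) (nat_lit 0) (XT.lf (nat_lit 0) (nat_lit 14542111479) (nat_lit 76) (nat_lit 3863617267) (nat_lit 76) (nat_lit 1964391015) (nat_lit 47) (nat_lit 4) (nat_lit 48) (nat_lit 5) (nat_lit 48) (nat_lit 4) (nat_lit 503) (nat_lit 353) (nat_lit 344)) (XT.lf (nat_lit 0) (nat_lit 5588801725) (nat_lit 152) (nat_lit 11589937081) (nat_lit 0) (nat_lit 3568676167) (nat_lit 45) (nat_lit 5) (nat_lit 47) (nat_lit 4) (nat_lit 45) (nat_lit 4) (nat_lit 504) (nat_lit 353) (nat_lit 343))))) (XT.nd (nat_lit 312) (nat_lit 304) (nat_lit 0) (XT.nd (nat_lit 156) (nat_lit 228) (nat_lit 0) (XT.nd (nat_lit 78) (nat_lit 0) (nat_lit 0) (XT.lf (nat_lit 0) (nat_lit 3313223061) (nat_lit 76) (nat_lit 10006852487) (nat_lit 76) (nat_lit 7815642874) (nat_lit 44) (nat_lit 4) (nat_lit 45) (nat_lit 5) (nat_lit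 45) (nat_lit 4) (nat_lit 505) (nat_lit 353) (nat_lit 342)) (XT.lf (nat_lit 0) (nat_lit 18632838294) (nat_lit 76) (nat_lit 2630373711) (nat_lit 76) (nat_lit 273063074) (nat_lit 44) (nat_lit 4) (nat_lit 45) (nat_lit 5) (nat_lit 45) (nat_lit 4) (nat_lit 506) (nat_lit 353) (nat_lit 341))) (XT.nd (nat_lit 78) (nat_lit 76) (nat_lit 0) (XT.lf (nat_lit 0) (nat_lit 7382392898) (nat_lit 152) (nat_lit 9626133935) (nat_lit 0) (nat_lit 4937175649) (nat_lit 42) (nat_lit 5) (nat_lit 44) (nat_lit 4) (nat_lit 42) (nat_lit 4) (nat_lit 507) (nat_lit 353) (nat_lit 340)) (XT.lf (nat_lit 0) (nat_lit 5507405840) (nat_lit 76) (nat_lit 9728960200) (nat_lit 76) (nat_lit 7131736986) (nat_lit 41) (nat_lit 4) (nat_lit 42) (nat_lit 5) (nat_lit 42) (nat_lit 4) (nat_lit 508) (nat_lit 353) (nat_lit 339)))) (XT.nd (nat_lit 156) (nat_lit 152) (nat_lit 0) (XT.nd (nat_lit 78) (nat_lit 76) (nat_lit 0) (XT.lf (nat_lit 0) (nat_lit 476584913) (nat_lit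 152) (nat_lit 1777334448) (nat_lit 76) (nat_lit 20550186947) (nat_lit 40) (nat_lit 5) (nat_lit 42) (nat_lit 5) (nat_lit 41) (nat_lit 4) (nat_lit 509) (nat_lit 353) (nat_lit 338)) (XT.lf (nat_lit 0) (nat_lit 8224389196) (nat_lit 152) (nat_lit 9604620420) (nat_lit 0) (nat_lit 5420426065) (nat_lit 39) (nat_lit 5) (nat_lit 41) (nat_lit 4) (nat_lit 39) (nat_lit 4) (nat_lit 510) (nat_lit 353) (nat_lit 337))) (XT.nd (nat_lit 78) (nat_lit 76) (nat_lit 0) (XT.lf (nat_lit 0) (nat_lit 5691176829) (nat_lit 76) (nat_lit 10478508171) (nat_lit 76) (nat_lit 7539489708) (nat_lit 38) (nat_lit 4) (nat_lit 39) (nat_lit 5) (nat_lit 39) (nat_lit 4) (nat_lit 511) (nat_lit 353) (nat_lit 336)) (XT.lf (nat_lit 0) (nat_lit 135238822) (nat_lit 152) (nat_lit 2795605334) (nat_lit 76) (nat_lit 21252775909) (nat_lit 37) (nat_lit 5) (nat_lit 39) (nat_lit 5) (nat_lit 38) (nat_lit 4) (nat_lit 512) (nat_lit 353) (nat_lit 335))))))))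
noncomputable def xc15 : XT := (XT.nd (nat_lit 2340) (nat_lit 304) (nat_lit 0) (XT.nd (nat_lit 1170) (nat_lit 684) (nat_lit 0) (XT.nd (nat_lit 546) (nat_lit 456) (nat_lit 0) (XT.nd (nat_lit 234) (nat_lit 380) (nat_lit 0) (XT.nd (nat_lit 78) (nat_lit 76) (nat_lit 0) (XT.lf (nat_lit 0) (nat_lit 7932926115) (nat_lit 152) (nat_lit 11907194221) (nat_lit 0) (nat_lit 4828612767) (nat_lit 36) (nat_lit 5) (nat_lit 38) (nat_lit 4) (nat_lit 36) (nat_lit 4) (nat_lit 513) (nat_lit 353) (nat_lit 334)) (XT.nd (nat_lit 78) (nat_lit 0) (nat_lit 0) (XT.lf (nat_lit 0) (nat_lit 3464830079) (nat_lit 76) (nat_lit 12464468206) (nat_lit 76) (nat_lit 9240159945) (nat_lit 35) (nat_lit 4) (nat_lit 36) (nat_lit 5) (nat_lit 36) (nat_lit 4) (nat_lit 514) (nat_lit 353) (nat_lit 333)) (XT.lf (nat_lit 0) (nat_lit 19295903082) (nat_lit 76) (nat_lit 4865123770) (nat_lit 76) (nat_lit 1524315592) (nat_lit 35) (nat_lit 4) (nat_lit 36) (nat_lit 5) (nat_lit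 36) (nat_lit 4) (nat_lit 515) (nat_lit 353) (nat_lit 332)))) (XT.nd (nat_lit 156) (nat_lit 228) (nat_lit 0) (XT.nd (nat_lit 78) (nat_lit 0) (nat_lit 0) (XT.lf (nat_lit 0) (nat_lit 6293189135) (nat_lit 152) (nat_lit 16981923672) (nat_lit 0) (nat_lit 2939873706) (nat_lit 33) (nat_lit 5) (nat_lit 35) (nat_lit 4) (nat_lit 33) (nat_lit 4) (nat_lit 516) (nat_lit 353) (nat_lit 331)) (XT.lf (nat_lit 0) (nat_lit 14305700922) (nat_lit 152) (nat_lit 1608862254) (nat_lit 0) (nat_lit 10845771566) (nat_lit 33) (nat_lit 5) (nat_lit 35) (nat_lit 4) (nat_lit 33) (nat_lit 4) (nat_lit 517) (nat_lit 353) (nat_lit 330))) (XT.nd (nat_lit 78) (nat_lit 152) (nat_lit 0) (XT.lf (nat_lit 0) (nat_lit 14269278022) (nat_lit 76) (nat_lit 8307824564) (nat_lit 76) (nat_lit 4744386542) (nat_lit 32) (nat_lit 4) (nat_lit 33) (nat_lit 5) (nat_lit 33) (nat_lit 4) (nat_lit 518) (nat_lit 353) (nat_lit 329)) (XT.lf (nat_lit 0) (nat_lit 2541838608) (nat_lit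 76) (nat_lit 515191185) (nat_lit 152) (nat_lit 24843859940) (nat_lit 30) (nat_lit 5) (nat_lit 31) (nat_lit 5) (nat_lit 32) (nat_lit 4) (nat_lit 519) (nat_lit 353) (nat_lit 328))))) (XT.nd (nat_lit 312) (nat_lit 228) (nat_lit 0) (XT.nd (nat_lit 156) (nat_lit 152) (nat_lit 0) (XT.nd (nat_lit 78) (nat_lit 76) (nat_lit 0) (XT.lf (nat_lit 0) (nat_lit 11083965242) (nat_lit 152) (nat_lit 9977669176) (nat_lit 0) (nat_lit 7432024739) (nat_lit 30) (nat_lit 5) (nat_lit 32) (nat_lit 4) (nat_lit 30) (nat_lit 4) (nat_lit 520) (nat_lit 353) (nat_lit 327)) (XT.lf (nat_lit 0) (nat_lit 5744244548) (nat_lit 76) (nat_lit 13552757967) (nat_lit 76) (nat_lit 9808851354) (nat_lit 29) (nat_lit 4) (nat_lit 30) (nat_lit 5) (nat_lit 30) (nat_lit 4) (nat_lit 521) (nat_lit 353) (nat_lit 326))) (XT.nd (nat_lit 78) (nat_lit 152) (nat_lit 0) (XT.lf (nat_lit 0) (nat_lit 21916682749) (nat_lit 76) (nat_lit 5826659705) (nat_lit 76) (nat_lit 1993465608)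 (nat_lit 29) (nat_lit 4) (nat_lit 30) (nat_lit 5) (nat_lit 30) (nat_lit 4) (nat_lit 522) (nat_lit 353) (nat_lit 325)) (XT.lf (nat_lit 0) (nat_lit 5924883413) (nat_lit 152) (nat_lit 22341287638) (nat_lit 0) (nat_lit 2119173727) (nat_lit 27) (nat_lit 5) (nat_lit 29) (nat_lit 4) (nat_lit 27) (nat_lit 4) (nat_lit 523) (nat_lit 353) (nat_lit 324)))) (XT.nd (nat_lit 156) (nat_lit 152) (nat_lit 0) (XT.nd (nat_lit 78) (nat_lit 76) (nat_lit 0) (XT.lf (nat_lit 0) (nat_lit 14066632937) (nat_lit 152) (nat_lit 6806123388) (nat_lit 0) (nat_lit 10179212554) (nat_lit 27) (nat_lit 5) (nat_lit 29) (nat_lit 4) (nat_lit 27) (nat_lit 4) (nat_lit 524) (nat_lit 353) (nat_lit 323)) (XT.lf (nat_lit 0) (nat_lit 9158851013) (nat_lit 76) (nat_lit 13273549873) (nat_lit 76) (nat_lit 9306798717) (nat_lit 26) (nat_lit 4) (nat_lit 27) (nat_lit 5) (nat_lit 27) (nat_lit 4) (nat_lit 525) (nat_lit 353) (nat_lit 322))) (XT.nd (nat_lit 78) (nat_lit 152)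 (nat_lit 0) (XT.lf (nat_lit 0) (nat_lit 25529434074) (nat_lit 76) (nat_lit 5481269254) (nat_lit 76) (nat_lit 1437497928) (nat_lit 26) (nat_lit 4) (nat_lit 27) (nat_lit 5) (nat_lit 27) (nat_lit 4) (nat_lit 526) (nat_lit 353) (nat_lit 321)) (XT.lf (nat_lit 0) (nat_lit 6545303863) (nat_lit 152) (nat_lit 24084307546) (nat_lit 0) (nat_lit 2546713389) (nat_lit 24) (nat_lit 5) (nat_lit 26) (nat_lit 4) (nat_lit 24) (nat_lit 4) (nat_lit 527) (nat_lit 353) (nat_lit 320)))))) (XT.nd (nat_lit 546) (nat_lit 380) (nat_lit 0) (XT.nd (nat_lit 234) (nat_lit 228) (nat_lit 0) (XT.nd (nat_lit 78) (nat_lit 76) (nat_lit 0) (XT.lf (nat_lit 0) (nat_lit 14758534774) (nat_lit 152) (nat_lit 8477276018) (nat_lit 0) (nat_lit 10689459935) (nat_lit 24) (nat_lit 5) (nat_lit 26) (nat_lit 4) (nat_lit 24) (nat_lit 4) (nat_lit 528) (nat_lit 353) (nat_lit 319)) (XT.nd (nat_lit 78) (nat_lit 0) (nat_lit 0) (XT.lf (nat_lit 0) (nat_lit 7542389595) (nat_lit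 76) (nat_lit 15646342683) (nat_lit 76) (nat_lit 11508836421) (nat_lit 23) (nat_lit 4) (nat_lit 24) (nat_lit 5) (nat_lit 24) (nat_lit 4) (nat_lit 529) (nat_lit 353) (nat_lit 318)) (XT.lf (nat_lit 0) (nat_lit 24015652781) (nat_lit 76) (nat_lit 7840893394) (nat_lit 76) (nat_lit 3636948858) (nat_lit 23) (nat_lit 4) (nat_lit 24) (nat_lit 5) (nat_lit 24) (nat_lit 4) (nat_lit 530) (nat_lit 353) (nat_lit 317)))) (XT.nd (nat_lit 156) (nat_lit 76) (nat_lit 0) (XT.nd (nat_lit 78) (nat_lit 0) (nat_lit 0) (XT.lf (nat_lit 0) (nat_lit 4330177750) (nat_lit 152) (nat_lit 31797389089) (nat_lit 0) (nat_lit 186053755) (nat_lit 21) (nat_lit 5) (nat_lit 23) (nat_lit 4) (nat_lit 21) (nat_lit 4) (nat_lit 531) (nat_lit 353) (nat_lit 316)) (XT.lf (nat_lit 0) (nat_lit 12559052072) (nat_lit 152) (nat_lit 16241215604) (nat_lit 0) (nat_lit 8354127645) (nat_lit 21) (nat_lit 5) (nat_lit 23) (nat_lit 4) (nat_lit 21) (nat_lit 4) (nat_lit 532) (nat_lit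 353) (nat_lit 315))) (XT.nd (nat_lit 78) (nat_lit 76) (nat_lit 0) (XT.lf (nat_lit 0) (nat_lit 20938820894) (nat_lit 152) (nat_lit 409585283) (nat_lit 0) (nat_lit 16674866920) (nat_lit 21) (nat_lit 5) (nat_lit 23) (nat_lit 4) (nat_lit 21) (nat_lit 4) (nat_lit 533) (nat_lit 353) (nat_lit 314)) (XT.lf (nat_lit 0) (nat_lit 16024021717) (nat_lit 76) (nat_lit 13606817324) (nat_lit 76) (nat_lit 9285553111) (nat_lit 20) (nat_lit 4) (nat_lit 21) (nat_lit 5) (nat_lit 21) (nat_lit 4) (nat_lit 534) (nat_lit 353) (nat_lit 313))))) (XT.nd (nat_lit 312) (nat_lit 228) (nat_lit 0) (XT.nd (nat_lit 156) (nat_lit 0) (nat_lit 0) (XT.nd (nat_lit 78) (nat_lit 152) (nat_lit 0) (XT.lf (nat_lit 0) (nat_lit 32775194597) (nat_lit 76) (nat_lit 5720329414) (nat_lit 76) (nat_lit 1343424193) (nat_lit 20) (nat_lit 4) (nat_lit 21) (nat_lit 5) (nat_lit 21) (nat_lit 4) (nat_lit 535) (nat_lit 353) (nat_lit 312)) (XT.lf (nat_lit 0) (nat_lit 6725054533)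 (nat_lit 152) (nat_lit 31638325357) (nat_lit 0) (nat_lit 2423185002) (nat_lit 18) (nat_lit 5) (nat_lit 20) (nat_lit 4) (nat_lit 18) (nat_lit 4) (nat_lit 536) (nat_lit 353) (nat_lit 311))) (XT.nd (nat_lit 78) (nat_lit 0) (nat_lit 0) (XT.lf (nat_lit 0) (nat_lit 15046891098) (nat_lit 152) (nat_lit 16020069198) (nat_lit 0) (nat_lit 10694102161) (nat_lit 18) (nat_lit 5) (nat_lit 20) (nat_lit 4) (nat_lit 18) (nat_lit 4) (nat_lit 537) (nat_lit 353) (nat_lit 310)) (XT.lf (nat_lit 0) (nat_lit 23530646590) (nat_lit 152) (nat_lit 108359652) (nat_lit 0) (nat_lit 19128421338) (nat_lit 18) (nat_lit 5) (nat_lit 20) (nat_lit 4) (nat_lit 18) (nat_lit 4) (nat_lit 538) (nat_lit 353) (nat_lit 309)))) (XT.nd (nat_lit 156) (nat_lit 152) (nat_lit 0) (XT.nd (nat_lit 78) (nat_lit 0) (nat_lit 0) (XT.lf (nat_lit 0) (nat_lit 16431341370) (nat_lit 76) (nat_lit 15910340736) (nat_lit 76) (nat_lit 11460119061) (nat_lit 17) (nat_lit 4) (nat_lit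 18) (nat_lit 5) (nat_lit 18) (nat_lit 4) (nat_lit 539) (nat_lit 353) (nat_lit 308)) (XT.lf (nat_lit 0) (nat_lit 33301126839) (nat_lit 76) (nat_lit 8032698245) (nat_lit 76) (nat_lit 3535878101) (nat_lit 17) (nat_lit 4) (nat_lit 18) (nat_lit 5) (nat_lit 18) (nat_lit 4) (nat_lit 540) (nat_lit 353) (nat_lit 307))) (XT.nd (nat_lit 78) (nat_lit 0) (nat_lit 0) (XT.lf (nat_lit 0) (nat_lit 4498107823) (nat_lit 152) (nat_lit 41382992684) (nat_lit 0) (nat_lit 88339496) (nat_lit 15) (nat_lit 5) (nat_lit 17) (nat_lit 4) (nat_lit 15) (nat_lit 4) (nat_lit 541) (nat_lit 353) (nat_lit 306)) (XT.lf (nat_lit 0) (nat_lit 12816933140) (nat_lit 152) (nat_lit 25916218759) (nat_lit 0) (nat_lit 8364520614) (nat_lit 15) (nat_lit 5) (nat_lit 17) (nat_lit 4) (nat_lit 15) (nat_lit 4) (nat_lit 542) (nat_lit 353) (nat_lit 305))))))) (XT.nd (nat_lit 58812) (nat_lit 0) (nat_lit 2052) (XT.nd (nat_lit 546) (nat_lit 76) (nat_lit 0) (XT.nd (nat_lit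 234) (nat_lit 152) (nat_lit 0) (XT.nd (nat_lit 78) (nat_lit 76) (nat_lit 0) (XT.lf (nat_lit 0) (nat_lit 21305108876) (nat_lit 152) (nat_lit 10145755797) (nat_lit 0) (nat_lit 16811294213) (nat_lit 15) (nat_lit 5) (nat_lit 17) (nat_lit 4) (nat_lit 15) (nat_lit 4) (nat_lit 543) (nat_lit 353) (nat_lit 304)) (XT.nd (nat_lit 78) (nat_lit 0) (nat_lit 0) (XT.lf (nat_lit 0) (nat_lit 6060437173) (nat_lit 76) (nat_lit 23967871337) (nat_lit 76) (nat_lit 19433860426) (nat_lit 14) (nat_lit 4) (nat_lit 15) (nat_lit 5) (nat_lit 15) (nat_lit 4) (nat_lit 544) (nat_lit 353) (nat_lit 303)) (XT.lf (nat_lit 0) (nat_lit 22806675074) (nat_lit 76) (nat_lit 16231890105) (nat_lit 76) (nat_lit 11658853710) (nat_lit 14) (nat_lit 4) (nat_lit 15) (nat_lit 5) (nat_lit 15) (nat_lit 4) (nat_lit 545) (nat_lit 353) (nat_lit 302)))) (XT.nd (nat_lit 156) (nat_lit 0) (nat_lit 0) (XT.nd (nat_lit 78) (nat_lit 152) (nat_lit 0) (XT.lf (nat_lit 0) (nat_lit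 39905670105) (nat_lit 76) (nat_lit 8338613621) (nat_lit 76) (nat_lit 3727688407) (nat_lit 14) (nat_lit 4) (nat_lit 15) (nat_lit 5) (nat_lit 15) (nat_lit 4) (nat_lit 546) (nat_lit 353) (nat_lit 301)) (XT.lf (nat_lit 0) (nat_lit 4123919195) (nat_lit 76) (nat_lit 197080642) (nat_lit 152) (nat_lit 48963494048) (nat_lit 12) (nat_lit 5) (nat_lit 13) (nat_lit 5) (nat_lit 14) (nat_lit 4) (nat_lit 547) (nat_lit 353) (nat_lit 300))) (XT.nd (nat_lit 78) (nat_lit 0) (nat_lit 0) (XT.lf (nat_lit 0) (nat_lit 12664649782) (nat_lit 152) (nat_lit 33849146063) (nat_lit 0) (nat_lit 8117635877) (nat_lit 12) (nat_lit 5) (nat_lit 14) (nat_lit 4) (nat_lit 12) (nat_lit 4) (nat_lit 548) (nat_lit 353) (nat_lit 299)) (XT.lf (nat_lit 0) (nat_lit 21189353462) (nat_lit 152) (nat_lit 18222826444) (nat_lit 0) (nat_lit 16608675832) (nat_lit 12) (nat_lit 5) (nat_lit 14) (nat_lit 4) (nat_lit 12) (nat_lit 4) (nat_lit 549) (nat_lit 353) (nat_lit 298)))))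 (XT.nd (nat_lit 57954) (nat_lit 0) (nat_lit 3420) (XT.nd (nat_lit 156) (nat_lit 0) (nat_lit 0) (XT.nd (nat_lit 78) (nat_lit 76) (nat_lit 0) (XT.lf (nat_lit 0) (nat_lit 29900665190) (nat_lit 152) (nat_lit 2266067308) (nat_lit 0) (nat_lit 25287304332) (nat_lit 12) (nat_lit 5) (nat_lit 14) (nat_lit 4) (nat_lit 12) (nat_lit 4) (nat_lit 550) (nat_lit 353) (nat_lit 297)) (XT.lf (nat_lit 0) (nat_lit 14314399638) (nat_lit 76) (nat_lit 24629395918) (nat_lit 76) (nat_lit 19984303770) (nat_lit 11) (nat_lit 4) (nat_lit 12) (nat_lit 5) (nat_lit 12) (nat_lit 4) (nat_lit 551) (nat_lit 353) (nat_lit 296))) (XT.nd (nat_lit 78) (nat_lit 0) (nat_lit 0) (XT.lf (nat_lit 0) (nat_lit 31305729161) (nat_lit 76) (nat_lit 16908930455) (nat_lit 76) (nat_lit 12233031229) (nat_lit 11) (nat_lit 4) (nat_lit 12) (nat_lit 5) (nat_lit 12) (nat_lit 4) (nat_lit 552) (nat_lit 353) (nat_lit 295)) (XT.lf (nat_lit 0) (nat_lit 48677668871) (nat_lit 76)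 (nat_lit 9021472907) (nat_lit 76) (nat_lit 4315663897) (nat_lit 11) (nat_lit 4) (nat_lit 12) (nat_lit 5) (nat_lit 12) (nat_lit 4) (nat_lit 553) (nat_lit 353) (nat_lit 294)))) (XT.nd (nat_lit 156) (nat_lit 228) (nat_lit 0) (XT.nd (nat_lit 78) (nat_lit 0) (nat_lit 0) (XT.lf (nat_lit 0) (nat_lit 458180952) (nat_lit 152) (nat_lit 3978726729) (nat_lit 152) (nat_lit 3978726729) (nat_lit 59) (nat_lit 4) (nat_lit 61) (nat_lit 5) (nat_lit 61) (nat_lit 4) (nat_lit 492) (nat_lit 354) (nat_lit 354)) (XT.lf (nat_lit 0) (nat_lit 15139280781) (nat_lit 152) (nat_lit 1124557830) (nat_lit 152) (nat_lit 850018147) (nat_lit 59) (nat_lit 4) (nat_lit 61) (nat_lit 5) (nat_lit 61) (nat_lit 4) (nat_lit 493) (nat_lit 354) (nat_lit 353))) (XT.nd (nat_lit 78) (nat_lit 76) (nat_lit 0) (XT.lf (nat_lit 0) (nat_lit 6375279494) (nat_lit 152) (nat_lit 5176896435) (nat_lit 0) (nat_lit 5849956129) (nat_lit 57) (nat_lit 5) (nat_lit 59) (nat_lit 4)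 (nat_lit 57) (nat_lit 4) (nat_lit 494) (nat_lit 354) (nat_lit 352)) (XT.lf (nat_lit 0) (nat_lit 9072880052) (nat_lit 76) (nat_lit 4701632057) (nat_lit 76) (nat_lit 3925065991) (nat_lit 56) (nat_lit 4) (nat_lit 57) (nat_lit 5) (nat_lit 57) (nat_lit 4) (nat_lit 495) (nat_lit 354) (nat_lit 351)))))) (XT.nd (nat_lit 624) (nat_lit 684) (nat_lit 0) (XT.nd (nat_lit 312) (nat_lit 304) (nat_lit 0) (XT.nd (nat_lit 156) (nat_lit 152) (nat_lit 0) (XT.nd (nat_lit 78) (nat_lit 76) (nat_lit 0) (XT.lf (nat_lit 0) (nat_lit 3309398258) (nat_lit 152) (nat_lit 12377370942) (nat_lit 0) (nat_lit 2318630279) (nat_lit 54) (nat_lit 5) (nat_lit 56) (nat_lit 4) (nat_lit 54) (nat_lit 4) (nat_lit 496) (nat_lit 354) (nat_lit 350)) (XT.lf (nat_lit 0) (nat_lit 1841195100) (nat_lit 76) (nat_lit 8849237471) (nat_lit 76) (nat_lit 7628546829) (nat_lit 53) (nat_lit 4) (nat_lit 54) (nat_lit 5) (nat_lit 54) (nat_lit 4) (nat_lit 497) (nat_lit 354) (nat_lit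 349))) (XT.nd (nat_lit 78) (nat_lit 152) (nat_lit 0) (XT.lf (nat_lit 0) (nat_lit 16464855171) (nat_lit 76) (nat_lit 1810774300) (nat_lit 76) (nat_lit 366857772) (nat_lit 53) (nat_lit 4) (nat_lit 54) (nat_lit 5) (nat_lit 54) (nat_lit 4) (nat_lit 498) (nat_lit 354) (nat_lit 348)) (XT.lf (nat_lit 0) (nat_lit 7007032954) (nat_lit 152) (nat_lit 6570863759) (nat_lit 0) (nat_lit 5394760440) (nat_lit 51) (nat_lit 5) (nat_lit 53) (nat_lit 4) (nat_lit 51) (nat_lit 4) (nat_lit 499) (nat_lit 354) (nat_lit 347)))) (XT.nd (nat_lit 156) (nat_lit 76) (nat_lit 0) (XT.nd (nat_lit 78) (nat_lit 152) (nat_lit 0) (XT.lf (nat_lit 0) (nat_lit 8015600920) (nat_lit 76) (nat_lit 6557120854) (nat_lit 76) (nat_lit 4740565032) (nat_lit 50) (nat_lit 4) (nat_lit 51) (nat_lit 5) (nat_lit 51) (nat_lit 4) (nat_lit 500) (nat_lit 354) (nat_lit 346)) (XT.lf (nat_lit 0) (nat_lit 2614405241) (nat_lit 152) (nat_lit 16391774945) (nat_lit 0) (nat_lit 658202202)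 (nat_lit 48) (nat_lit 5) (nat_lit 50) (nat_lit 4) (nat_lit 48) (nat_lit 4) (nat_lit 501) (nat_lit 354) (nat_lit 345))) (XT.nd (nat_lit 78) (nat_lit 76) (nat_lit 0) (XT.lf (nat_lit 0) (nat_lit 10135994217) (nat_lit 152) (nat_lit 1894530080) (nat_lit 0) (nat_lit 7992843012) (nat_lit 48) (nat_lit 5) (nat_lit 50) (nat_lit 4) (nat_lit 48) (nat_lit 4) (nat_lit 502) (nat_lit 354) (nat_lit 344)) (XT.lf (nat_lit 0) (nat_lit 13029204061) (nat_lit 76) (nat_lit 4844430939) (nat_lit 76) (nat_lit 2519776661) (nat_lit 47) (nat_lit 4) (nat_lit 48) (nat_lit 5) (nat_lit 48) (nat_lit 4) (nat_lit 503) (nat_lit 354) (nat_lit 343))))) (XT.nd (nat_lit 312) (nat_lit 304) (nat_lit 0) (XT.nd (nat_lit 156) (nat_lit 152) (nat_lit 0) (XT.nd (nat_lit 78) (nat_lit 76) (nat_lit 0) (XT.lf (nat_lit 0) (nat_lit 4951355040) (nat_lit 152) (nat_lit 13298974798) (nat_lit 0) (nat_lit 2523325085) (nat_lit 45) (nat_lit 5) (nat_lit 47) (nat_lit 4) (nat_lit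 45) (nat_lit 4) (nat_lit 504) (nat_lit 354) (nat_lit 342)) (XT.lf (nat_lit 0) (nat_lit 1438043048) (nat_lit 76) (nat_lit 11160288070) (nat_lit 76) (nat_lit 8566157092) (nat_lit 44) (nat_lit 4) (nat_lit 45) (nat_lit 5) (nat_lit 45) (nat_lit 4) (nat_lit 505) (nat_lit 354) (nat_lit 341))) (XT.nd (nat_lit 78) (nat_lit 152) (nat_lit 0) (XT.lf (nat_lit 0) (nat_lit 16629377607) (nat_lit 76) (nat_lit 3846514752) (nat_lit 76) (nat_lit 1091120644) (nat_lit 44) (nat_lit 4) (nat_lit 45) (nat_lit 5) (nat_lit 45) (nat_lit 4) (nat_lit 506) (nat_lit 354) (nat_lit 340)) (XT.lf (nat_lit 0) (nat_lit 6482334024) (nat_lit 152) (nat_lit 11842093910) (nat_lit 0) (nat_lit 3655188147) (nat_lit 42) (nat_lit 5) (nat_lit 44) (nat_lit 4) (nat_lit 42) (nat_lit 4) (nat_lit 507) (nat_lit 354) (nat_lit 339)))) (XT.nd (nat_lit 156) (nat_lit 228) (nat_lit 0) (XT.nd (nat_lit 78) (nat_lit 0) (nat_lit 0) (XT.lf (nat_lit 0) (nat_lit 3118923382) (nat_lit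 76) (nat_lit 11130216771) (nat_lit 76) (nat_lit 8155492286) (nat_lit 41) (nat_lit 4) (nat_lit 42) (nat_lit 5) (nat_lit 42) (nat_lit 4) (nat_lit 508) (nat_lit 354) (nat_lit 338)) (XT.lf (nat_lit 0) (nat_lit 18518421845) (nat_lit 76) (nat_lit 3721132796) (nat_lit 76) (nat_lit 603128108) (nat_lit 41) (nat_lit 4) (nat_lit 42) (nat_lit 5) (nat_lit 42) (nat_lit 4) (nat_lit 509) (nat_lit 354) (nat_lit 337))) (XT.nd (nat_lit 78) (nat_lit 76) (nat_lit 0) (XT.lf (nat_lit 0) (nat_lit 7053040290) (nat_lit 152) (nat_lit 12347452709) (nat_lit 0) (nat_lit 3890795941) (nat_lit 39) (nat_lit 5) (nat_lit 41) (nat_lit 4) (nat_lit 39) (nat_lit 4) (nat_lit 510) (nat_lit 354) (nat_lit 336)) (XT.lf (nat_lit 0) (nat_lit 2768952405) (nat_lit 76) (nat_lit 12139075773) (nat_lit 76) (nat_lit 8845709742) (nat_lit 38) (nat_lit 4) (nat_lit 39) (nat_lit 5) (nat_lit 39) (nat_lit 4) (nat_lit 511) (nat_lit 354) (nat_lit 335))))))))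
noncomputable def xc16 : XT := (XT.nd (nat_lit 2340) (nat_lit 380) (nat_lit 0) (XT.nd (nat_lit 1170) (nat_lit 760) (nat_lit 0) (XT.nd (nat_lit 546) (nat_lit 456) (nat_lit 0) (XT.nd (nat_lit 234) (nat_lit 304) (nat_lit 0) (XT.nd (nat_lit 78) (nat_lit 152) (nat_lit 0) (XT.lf (nat_lit 0) (nat_lit 18345986640) (nat_lit 76) (nat_lit 4652376425) (nat_lit 76) (nat_lit 1231707790) (nat_lit 38) (nat_lit 4) (nat_lit 39) (nat_lit 5) (nat_lit 39) (nat_lit 4) (nat_lit 512) (nat_lit 354) (nat_lit 334)) (XT.nd (nat_lit 78) (nat_lit 0) (nat_lit 0) (XT.lf (nat_lit 0) (nat_lit 6480778908) (nat_lit 152) (nat_lit 15198291420) (nat_lit 0) (nat_lit 3039746485) (nat_lit 36) (nat_lit 5) (nat_lit 38) (nat_lit 4) (nat_lit 36) (nat_lit 4) (nat_lit 513) (nat_lit 354) (nat_lit 333)) (XT.lf (nat_lit 0) (nat_lit 14383545762) (nat_lit 152) (nat_lit 12791551) (nat_lit 0) (nat_lit 10826013423) (nat_lit 36) (nat_lit 5) (nat_lit 38) (nat_lit 4) (nat_lit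 36) (nat_lit 4) (nat_lit 514) (nat_lit 354) (nat_lit 332)))) (XT.nd (nat_lit 156) (nat_lit 76) (nat_lit 0) (XT.nd (nat_lit 78) (nat_lit 152) (nat_lit 0) (XT.lf (nat_lit 0) (nat_lit 15700279571) (nat_lit 76) (nat_lit 6855194527) (nat_lit 76) (nat_lit 3184555474) (nat_lit 35) (nat_lit 4) (nat_lit 36) (nat_lit 5) (nat_lit 36) (nat_lit 4) (nat_lit 515) (nat_lit 354) (nat_lit 331)) (XT.lf (nat_lit 0) (nat_lit 4549873066) (nat_lit 152) (nat_lit 20844212233) (nat_lit 0) (nat_lit 879531904) (nat_lit 33) (nat_lit 5) (nat_lit 35) (nat_lit 4) (nat_lit 33) (nat_lit 4) (nat_lit 516) (nat_lit 354) (nat_lit 330))) (XT.nd (nat_lit 78) (nat_lit 76) (nat_lit 0) (XT.lf (nat_lit 0) (nat_lit 12503936328) (nat_lit 152) (nat_lit 5586696625) (nat_lit 0) (nat_lit 8730086499) (nat_lit 33) (nat_lit 5) (nat_lit 35) (nat_lit 4) (nat_lit 33) (nat_lit 4) (nat_lit 517) (nat_lit 354) (nat_lit 329)) (XT.lf (nat_lit 0) (nat_lit 10097863940) (nat_lit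 76) (nat_lit 10580629727) (nat_lit 76) (nat_lit 6706286047) (nat_lit 32) (nat_lit 4) (nat_lit 33) (nat_lit 5) (nat_lit 33) (nat_lit 4) (nat_lit 518) (nat_lit 354) (nat_lit 328))))) (XT.nd (nat_lit 312) (nat_lit 228) (nat_lit 0) (XT.nd (nat_lit 156) (nat_lit 76) (nat_lit 0) (XT.nd (nat_lit 78) (nat_lit 76) (nat_lit 0) (XT.lf (nat_lit 0) (nat_lit 1052262619) (nat_lit 152) (nat_lit 1835817408) (nat_lit 76) (nat_lit 25079101120) (nat_lit 31) (nat_lit 5) (nat_lit 33) (nat_lit 5) (nat_lit 32) (nat_lit 4) (nat_lit 519) (nat_lit 354) (nat_lit 327)) (XT.lf (nat_lit 0) (nat_lit 8981549765) (nat_lit 152) (nat_lit 14547970912) (nat_lit 0) (nat_lit 5033359844) (nat_lit 30) (nat_lit 5) (nat_lit 32) (nat_lit 4) (nat_lit 30) (nat_lit 4) (nat_lit 520) (nat_lit 354) (nat_lit 326))) (XT.nd (nat_lit 78) (nat_lit 0) (nat_lit 0) (XT.lf (nat_lit 0) (nat_lit 971819638) (nat_lit 76) (nat_lit 16121880053) (nat_lit 76) (nat_lit 12084402648)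 (nat_lit 29) (nat_lit 4) (nat_lit 30) (nat_lit 5) (nat_lit 30) (nat_lit 4) (nat_lit 521) (nat_lit 354) (nat_lit 325)) (XT.lf (nat_lit 0) (nat_lit 17036330454) (nat_lit 76) (nat_lit 8449262124) (nat_lit 76) (nat_lit 4325097840) (nat_lit 29) (nat_lit 4) (nat_lit 30) (nat_lit 5) (nat_lit 30) (nat_lit 4) (nat_lit 522) (nat_lit 354) (nat_lit 324)))) (XT.nd (nat_lit 156) (nat_lit 76) (nat_lit 0) (XT.nd (nat_lit 78) (nat_lit 0) (nat_lit 0) (XT.lf (nat_lit 0) (nat_lit 2927528804) (nat_lit 76) (nat_lit 587670755) (nat_lit 152) (nat_lit 26948406917) (nat_lit 27) (nat_lit 5) (nat_lit 28) (nat_lit 5) (nat_lit 29) (nat_lit 4) (nat_lit 523) (nat_lit 354) (nat_lit 323)) (XT.lf (nat_lit 0) (nat_lit 11597962822) (nat_lit 152) (nat_lit 12101159419) (nat_lit 0) (nat_lit 7432878356) (nat_lit 27) (nat_lit 5) (nat_lit 29) (nat_lit 4) (nat_lit 27) (nat_lit 4) (nat_lit 524) (nat_lit 354) (nat_lit 322))) (XT.nd (nat_lit 78) (nat_lit 0)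 (nat_lit 0) (XT.lf (nat_lit 0) (nat_lit 3653576520) (nat_lit 76) (nat_lit 16205450483) (nat_lit 76) (nat_lit 11963345849) (nat_lit 26) (nat_lit 4) (nat_lit 27) (nat_lit 5) (nat_lit 27) (nat_lit 4) (nat_lit 525) (nat_lit 354) (nat_lit 321)) (XT.lf (nat_lit 0) (nat_lit 19922356803) (nat_lit 76) (nat_lit 8463718614) (nat_lit 76) (nat_lit 4146837117) (nat_lit 26) (nat_lit 4) (nat_lit 27) (nat_lit 5) (nat_lit 27) (nat_lit 4) (nat_lit 526) (nat_lit 354) (nat_lit 320)))))) (XT.nd (nat_lit 546) (nat_lit 380) (nat_lit 0) (XT.nd (nat_lit 234) (nat_lit 152) (nat_lit 0) (XT.nd (nat_lit 78) (nat_lit 76) (nat_lit 0) (XT.lf (nat_lit 0) (nat_lit 3237404744) (nat_lit 76) (nat_lit 519681530) (nat_lit 152) (nat_lit 29508683923) (nat_lit 24) (nat_lit 5) (nat_lit 25) (nat_lit 5) (nat_lit 26) (nat_lit 4) (nat_lit 527) (nat_lit 354) (nat_lit 319)) (XT.nd (nat_lit 78) (nat_lit 76) (nat_lit 0) (XT.lf (nat_lit 0) (nat_lit 11915108685) (nat_lit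 152) (nat_lit 14516218255) (nat_lit 0) (nat_lit 7585045813) (nat_lit 24) (nat_lit 5) (nat_lit 26) (nat_lit 4) (nat_lit 24) (nat_lit 4) (nat_lit 528) (nat_lit 354) (nat_lit 318)) (XT.lf (nat_lit 0) (nat_lit 1284359953) (nat_lit 76) (nat_lit 18952039738) (nat_lit 76) (nat_lit 14555538591) (nat_lit 23) (nat_lit 4) (nat_lit 24) (nat_lit 5) (nat_lit 24) (nat_lit 4) (nat_lit 529) (nat_lit 354) (nat_lit 317)))) (XT.nd (nat_lit 156) (nat_lit 76) (nat_lit 0) (XT.nd (nat_lit 78) (nat_lit 76) (nat_lit 0) (XT.lf (nat_lit 0) (nat_lit 17661603127) (nat_lit 76) (nat_lit 11194356886) (nat_lit 76) (nat_lit 6733352561) (nat_lit 23) (nat_lit 4) (nat_lit 24) (nat_lit 5) (nat_lit 24) (nat_lit 4) (nat_lit 530) (nat_lit 354) (nat_lit 316)) (XT.lf (nat_lit 0) (nat_lit 1201628831) (nat_lit 152) (nat_lit 2084322242) (nat_lit 76) (nat_lit 33127157345) (nat_lit 22) (nat_lit 5) (nat_lit 24) (nat_lit 5) (nat_lit 23) (nat_lit 4) (nat_lit 531)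 (nat_lit 354) (nat_lit 315))) (XT.nd (nat_lit 78) (nat_lit 0) (nat_lit 0) (XT.lf (nat_lit 0) (nat_lit 9331003013) (nat_lit 152) (nat_lit 23045764585) (nat_lit 0) (nat_lit 4880100874) (nat_lit 21) (nat_lit 5) (nat_lit 23) (nat_lit 4) (nat_lit 21) (nat_lit 4) (nat_lit 532) (nat_lit 354) (nat_lit 314)) (XT.lf (nat_lit 0) (nat_lit 17664872111) (nat_lit 152) (nat_lit 7305591707) (nat_lit 0) (nat_lit 13156659734) (nat_lit 21) (nat_lit 5) (nat_lit 23) (nat_lit 4) (nat_lit 21) (nat_lit 4) (nat_lit 533) (nat_lit 354) (nat_lit 313))))) (XT.nd (nat_lit 312) (nat_lit 152) (nat_lit 0) (XT.nd (nat_lit 156) (nat_lit 152) (nat_lit 0) (XT.nd (nat_lit 78) (nat_lit 0) (nat_lit 0) (XT.lf (nat_lit 0) (nat_lit 8900210442) (nat_lit 76) (nat_lit 17343638546) (nat_lit 76) (nat_lit 12779785160) (nat_lit 20) (nat_lit 4) (nat_lit 21) (nat_lit 5) (nat_lit 21) (nat_lit 4) (nat_lit 534) (nat_lit 354) (nat_lit 312)) (XT.lf (nat_lit 0) (nat_lit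 25563460214) (nat_lit 76) (nat_lit 9500963683) (nat_lit 76) (nat_lit 4883089900) (nat_lit 20) (nat_lit 4) (nat_lit 21) (nat_lit 5) (nat_lit 21) (nat_lit 4) (nat_lit 535) (nat_lit 354) (nat_lit 311))) (XT.nd (nat_lit 78) (nat_lit 0) (nat_lit 0) (XT.lf (nat_lit 0) (nat_lit 1653483977) (nat_lit 76) (nat_lit 1461690775) (nat_lit 152) (nat_lit 37785155344) (nat_lit 18) (nat_lit 5) (nat_lit 19) (nat_lit 5) (nat_lit 20) (nat_lit 4) (nat_lit 536) (nat_lit 354) (nat_lit 310)) (XT.lf (nat_lit 0) (nat_lit 11379740863) (nat_lit 152) (nat_lit 23700792644) (nat_lit 0) (nat_lit 6796012537) (nat_lit 18) (nat_lit 5) (nat_lit 20) (nat_lit 4) (nat_lit 18) (nat_lit 4) (nat_lit 537) (nat_lit 354) (nat_lit 309)))) (XT.nd (nat_lit 156) (nat_lit 76) (nat_lit 0) (XT.nd (nat_lit 78) (nat_lit 76) (nat_lit 0) (XT.lf (nat_lit 0) (nat_lit 19821535397) (nat_lit 152) (nat_lit 7872824212) (nat_lit 0) (nat_lit 15189810648) (nat_lit 18) (nat_lit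 5) (nat_lit 20) (nat_lit 4) (nat_lit 18) (nat_lit 4) (nat_lit 538) (nat_lit 354) (nat_lit 308)) (XT.lf (nat_lit 0) (nat_lit 8429428617) (nat_lit 76) (nat_lit 20085484221) (nat_lit 76) (nat_lit 15407161003) (nat_lit 17) (nat_lit 4) (nat_lit 18) (nat_lit 5) (nat_lit 18) (nat_lit 4) (nat_lit 539) (nat_lit 354) (nat_lit 307))) (XT.nd (nat_lit 78) (nat_lit 76) (nat_lit 0) (XT.lf (nat_lit 0) (nat_lit 25218709112) (nat_lit 76) (nat_lit 12248020613) (nat_lit 76) (nat_lit 7524456164) (nat_lit 17) (nat_lit 4) (nat_lit 18) (nat_lit 5) (nat_lit 18) (nat_lit 4) (nat_lit 540) (nat_lit 354) (nat_lit 306)) (XT.lf (nat_lit 0) (nat_lit 502859480) (nat_lit 152) (nat_lit 3746683229) (nat_lit 76) (nat_lit 41845065503) (nat_lit 16) (nat_lit 5) (nat_lit 18) (nat_lit 5) (nat_lit 17) (nat_lit 4) (nat_lit 541) (nat_lit 354) (nat_lit 305))))))) (XT.nd (nat_lit 58656) (nat_lit 0) (nat_lit 2356) (XT.nd (nat_lit 546) (nat_lit 76) (nat_lit 0)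 (XT.nd (nat_lit 234) (nat_lit 228) (nat_lit 0) (XT.nd (nat_lit 78) (nat_lit 0) (nat_lit 0) (XT.lf (nat_lit 0) (nat_lit 8704225266) (nat_lit 152) (nat_lit 34487945440) (nat_lit 0) (nat_lit 4034194028) (nat_lit 15) (nat_lit 5) (nat_lit 17) (nat_lit 4) (nat_lit 15) (nat_lit 4) (nat_lit 542) (nat_lit 354) (nat_lit 304)) (XT.nd (nat_lit 78) (nat_lit 0) (nat_lit 0) (XT.lf (nat_lit 0) (nat_lit 17154037454) (nat_lit 152) (nat_lit 18794154812) (nat_lit 0) (nat_lit 12443809967) (nat_lit 15) (nat_lit 5) (nat_lit 17) (nat_lit 4) (nat_lit 15) (nat_lit 4) (nat_lit 543) (nat_lit 354) (nat_lit 303)) (XT.lf (nat_lit 0) (nat_lit 25781734296) (nat_lit 152) (nat_lit 2780661957) (nat_lit 0) (nat_lit 21032481326) (nat_lit 15) (nat_lit 5) (nat_lit 17) (nat_lit 4) (nat_lit 15) (nat_lit 4) (nat_lit 544) (nat_lit 354) (nat_lit 302)))) (XT.nd (nat_lit 156) (nat_lit 152) (nat_lit 0) (XT.nd (nat_lit 78) (nat_lit 0) (nat_lit 0) (XT.lf (nat_lit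 0) (nat_lit 13836525955) (nat_lit 76) (nat_lit 20891333755) (nat_lit 76) (nat_lit 16104191965) (nat_lit 14) (nat_lit 4) (nat_lit 15) (nat_lit 5) (nat_lit 15) (nat_lit 4) (nat_lit 545) (nat_lit 354) (nat_lit 301)) (XT.lf (nat_lit 0) (nat_lit 30863958497) (nat_lit 76) (nat_lit 13033823777) (nat_lit 76) (nat_lit 8209896725) (nat_lit 14) (nat_lit 4) (nat_lit 15) (nat_lit 5) (nat_lit 15) (nat_lit 4) (nat_lit 546) (nat_lit 354) (nat_lit 300))) (XT.nd (nat_lit 78) (nat_lit 152) (nat_lit 0) (XT.lf (nat_lit 0) (nat_lit 48261173384) (nat_lit 76) (nat_lit 5011079766) (nat_lit 76) (nat_lit 151438869) (nat_lit 14) (nat_lit 4) (nat_lit 15) (nat_lit 5) (nat_lit 15) (nat_lit 4) (nat_lit 547) (nat_lit 354) (nat_lit 299)) (XT.lf (nat_lit 0) (nat_lit 8062699675) (nat_lit 152) (nat_lit 43401010041) (nat_lit 0) (nat_lit 3310937990) (nat_lit 12) (nat_lit 5) (nat_lit 14) (nat_lit 4) (nat_lit 12) (nat_lit 4) (nat_lit 548) (nat_lit 354)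 (nat_lit 298))))) (XT.nd (nat_lit 312) (nat_lit 0) (nat_lit 0) (XT.nd (nat_lit 156) (nat_lit 76) (nat_lit 0) (XT.nd (nat_lit 78) (nat_lit 0) (nat_lit 0) (XT.lf (nat_lit 0) (nat_lit 16553347659) (nat_lit 152) (nat_lit 27842843167) (nat_lit 0) (nat_lit 11768902746) (nat_lit 12) (nat_lit 5) (nat_lit 14) (nat_lit 4) (nat_lit 12) (nat_lit 4) (nat_lit 549) (nat_lit 354) (nat_lit 297)) (XT.lf (nat_lit 0) (nat_lit 25231595604) (nat_lit 152) (nat_lit 11952251745) (nat_lit 0) (nat_lit 20415419402) (nat_lit 12) (nat_lit 5) (nat_lit 14) (nat_lit 4) (nat_lit 12) (nat_lit 4) (nat_lit 550) (nat_lit 354) (nat_lit 296))) (XT.nd (nat_lit 78) (nat_lit 0) (nat_lit 0) (XT.lf (nat_lit 0) (nat_lit 4369922129) (nat_lit 76) (nat_lit 29777110680) (nat_lit 76) (nat_lit 24930127400) (nat_lit 11) (nat_lit 4) (nat_lit 12) (nat_lit 5) (nat_lit 12) (nat_lit 4) (nat_lit 551) (nat_lit 354) (nat_lit 295)) (XT.lf (nat_lit 0) (nat_lit 21297640963)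 (nat_lit 76) (nat_lit 22088478655) (nat_lit 76) (nat_lit 17211585591) (nat_lit 11) (nat_lit 4) (nat_lit 12) (nat_lit 5) (nat_lit 12) (nat_lit 4) (nat_lit 552) (nat_lit 354) (nat_lit 294)))) (XT.nd (nat_lit 57642) (nat_lit 0) (nat_lit 3648) (XT.nd (nat_lit 57564) (nat_lit 0) (nat_lit 3952) (XT.lf (nat_lit 0) (nat_lit 38607822721) (nat_lit 76) (nat_lit 14231927358) (nat_lit 76) (nat_lit 9325995668) (nat_lit 11) (nat_lit 4) (nat_lit 12) (nat_lit 5) (nat_lit 12) (nat_lit 4) (nat_lit 553) (nat_lit 354) (nat_lit 293)) (XT.lf (nat_lit 0) (nat_lit 3114229504) (nat_lit 152) (nat_lit 2514766270) (nat_lit 152) (nat_lit 2514766270) (nat_lit 63) (nat_lit 4) (nat_lit 65) (nat_lit 5) (nat_lit 65) (nat_lit 4) (nat_lit 490) (nat_lit 355) (nat_lit 355))) (XT.nd (nat_lit 78) (nat_lit 152) (nat_lit 0) (XT.lf (nat_lit 0) (nat_lit 1965264468) (nat_lit 152) (nat_lit 12909657899) (nat_lit 0) (nat_lit 1682488594) (nat_lit 61) (nat_lit 5)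 (nat_lit 63) (nat_lit 4) (nat_lit 61) (nat_lit 4) (nat_lit 491) (nat_lit 355) (nat_lit 354)) (XT.lf (nat_lit 0) (nat_lit 777191041) (nat_lit 152) (nat_lit 8306786621) (nat_lit 152) (nat_lit 7749471064) (nat_lit 59) (nat_lit 4) (nat_lit 61) (nat_lit 5) (nat_lit 61) (nat_lit 4) (nat_lit 492) (nat_lit 355) (nat_lit 353)))))) (XT.nd (nat_lit 546) (nat_lit 684) (nat_lit 0) (XT.nd (nat_lit 234) (nat_lit 380) (nat_lit 0) (XT.nd (nat_lit 78) (nat_lit 228) (nat_lit 0) (XT.lf (nat_lit 0) (nat_lit 14864992576) (nat_lit 152) (nat_lit 1538509718) (nat_lit 152) (nat_lit 714650779) (nat_lit 59) (nat_lit 4) (nat_lit 61) (nat_lit 5) (nat_lit 61) (nat_lit 4) (nat_lit 493) (nat_lit 355) (nat_lit 352)) (XT.nd (nat_lit 78) (nat_lit 76) (nat_lit 0) (XT.lf (nat_lit 0) (nat_lit 6430221381) (nat_lit 152) (nat_lit 5599387212) (nat_lit 0) (nat_lit 5379115631) (nat_lit 57) (nat_lit 5) (nat_lit 59) (nat_lit 4) (nat_lit 57) (nat_lit 4) (nat_lit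 494) (nat_lit 355) (nat_lit 351)) (XT.lf (nat_lit 0) (nat_lit 8506632370) (nat_lit 76) (nat_lit 5248401268) (nat_lit 76) (nat_lit 3953370566) (nat_lit 56) (nat_lit 4) (nat_lit 57) (nat_lit 5) (nat_lit 57) (nat_lit 4) (nat_lit 495) (nat_lit 355) (nat_lit 350)))) (XT.nd (nat_lit 156) (nat_lit 152) (nat_lit 0) (XT.nd (nat_lit 78) (nat_lit 76) (nat_lit 0) (XT.lf (nat_lit 0) (nat_lit 3199859546) (nat_lit 152) (nat_lit 13104203527) (nat_lit 0) (nat_lit 1712625521) (nat_lit 54) (nat_lit 5) (nat_lit 56) (nat_lit 4) (nat_lit 54) (nat_lit 4) (nat_lit 496) (nat_lit 355) (nat_lit 349)) (XT.lf (nat_lit 0) (nat_lit 964337061) (nat_lit 76) (nat_lit 9539354328) (nat_lit 76) (nat_lit 7828894417) (nat_lit 53) (nat_lit 4) (nat_lit 54) (nat_lit 5) (nat_lit 54) (nat_lit 4) (nat_lit 497) (nat_lit 355) (nat_lit 348))) (XT.nd (nat_lit 78) (nat_lit 152) (nat_lit 0) (XT.lf (nat_lit 0) (nat_lit 15456385421) (nat_lit 76) (nat_lit 2564467274)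 (nat_lit 76) (nat_lit 637283202) (nat_lit 53) (nat_lit 4) (nat_lit 54) (nat_lit 5) (nat_lit 54) (nat_lit 4) (nat_lit 498) (nat_lit 355) (nat_lit 347)) (XT.lf (nat_lit 0) (nat_lit 6655912561) (nat_lit 152) (nat_lit 7754474746) (nat_lit 0) (nat_lit 4580576756) (nat_lit 51) (nat_lit 5) (nat_lit 53) (nat_lit 4) (nat_lit 51) (nat_lit 4) (nat_lit 499) (nat_lit 355) (nat_lit 346))))) (XT.nd (nat_lit 312) (nat_lit 380) (nat_lit 0) (XT.nd (nat_lit 156) (nat_lit 76) (nat_lit 0) (XT.nd (nat_lit 78) (nat_lit 152) (nat_lit 0) (XT.lf (nat_lit 0) (nat_lit 6676634083) (nat_lit 76) (nat_lit 7465506821) (nat_lit 76) (nat_lit 5191837708) (nat_lit 50) (nat_lit 4) (nat_lit 51) (nat_lit 5) (nat_lit 51) (nat_lit 4) (nat_lit 500) (nat_lit 355) (nat_lit 345)) (XT.lf (nat_lit 0) (nat_lit 1765100670) (nat_lit 76) (nat_lit 319296568) (nat_lit 152) (nat_lit 17603434350) (nat_lit 48) (nat_lit 5) (nat_lit 49) (nat_lit 5) (nat_lit 50) (nat_lit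 4) (nat_lit 501) (nat_lit 355) (nat_lit 344))) (XT.nd (nat_lit 78) (nat_lit 76) (nat_lit 0) (XT.lf (nat_lit 0) (nat_lit 9536493027) (nat_lit 152) (nat_lit 3551813218) (nat_lit 0) (nat_lit 6960596048) (nat_lit 48) (nat_lit 5) (nat_lit 50) (nat_lit 4) (nat_lit 48) (nat_lit 4) (nat_lit 502) (nat_lit 355) (nat_lit 343)) (XT.lf (nat_lit 0) (nat_lit 11210809895) (nat_lit 76) (nat_lit 5981355164) (nat_lit 76) (nat_lit 3229241608) (nat_lit 47) (nat_lit 4) (nat_lit 48) (nat_lit 5) (nat_lit 48) (nat_lit 4) (nat_lit 503) (nat_lit 355) (nat_lit 342)))) (XT.nd (nat_lit 156) (nat_lit 228) (nat_lit 0) (XT.nd (nat_lit 78) (nat_lit 0) (nat_lit 0) (XT.lf (nat_lit 0) (nat_lit 4160252050) (nat_lit 152) (nat_lit 15322271729) (nat_lit 0) (nat_lit 1322196118) (nat_lit 45) (nat_lit 5) (nat_lit 47) (nat_lit 4) (nat_lit 45) (nat_lit 4) (nat_lit 504) (nat_lit 355) (nat_lit 341)) (XT.lf (nat_lit 0) (nat_lit 11729062675) (nat_lit 152) (nat_lit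 739092738) (nat_lit 0) (nat_lit 8729743614) (nat_lit 45) (nat_lit 5) (nat_lit 47) (nat_lit 4) (nat_lit 45) (nat_lit 4) (nat_lit 505) (nat_lit 355) (nat_lit 340))) (XT.nd (nat_lit 78) (nat_lit 152) (nat_lit 0) (XT.lf (nat_lit 0) (nat_lit 14312988082) (nat_lit 76) (nat_lit 5222724567) (nat_lit 76) (nat_lit 2066839361) (nat_lit 44) (nat_lit 4) (nat_lit 45) (nat_lit 5) (nat_lit 45) (nat_lit 4) (nat_lit 506) (nat_lit 355) (nat_lit 339)) (XT.lf (nat_lit 0) (nat_lit 5424932243) (nat_lit 152) (nat_lit 14380139296) (nat_lit 0) (nat_lit 2213387415) (nat_lit 42) (nat_lit 5) (nat_lit 44) (nat_lit 4) (nat_lit 42) (nat_lit 4) (nat_lit 507) (nat_lit 355) (nat_lit 338))))))))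
noncomputable def xc17 : XT := (XT.nd (nat_lit 2340) (nat_lit 532) (nat_lit 0) (XT.nd (nat_lit 1170) (nat_lit 836) (nat_lit 0) (XT.nd (nat_lit 546) (nat_lit 532) (nat_lit 0) (XT.nd (nat_lit 234) (nat_lit 228) (nat_lit 0) (XT.nd (nat_lit 78) (nat_lit 152) (nat_lit 0) (XT.lf (nat_lit 0) (nat_lit 405685786) (nat_lit 76) (nat_lit 12697633948) (nat_lit 76) (nat_lit 9342808918) (nat_lit 41) (nat_lit 4) (nat_lit 42) (nat_lit 5) (nat_lit 42) (nat_lit 4) (nat_lit 508) (nat_lit 355) (nat_lit 337)) (XT.nd (nat_lit 78) (nat_lit 152) (nat_lit 0) (XT.lf (nat_lit 0) (nat_lit 15684135579) (nat_lit 76) (nat_lit 5347913361) (nat_lit 76) (nat_lit 1853981339) (nat_lit 41) (nat_lit 4) (nat_lit 42) (nat_lit 5) (nat_lit 42) (nat_lit 4) (nat_lit 509) (nat_lit 355) (nat_lit 336)) (XT.lf (nat_lit 0) (nat_lit 5720248970) (nat_lit 152) (nat_lit 15420979060) (nat_lit 0) (nat_lit 2196960276) (nat_lit 39) (nat_lit 5) (nat_lit 41) (nat_lit 4)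 (nat_lit 39) (nat_lit 4) (nat_lit 510) (nat_lit 355) (nat_lit 335)))) (XT.nd (nat_lit 156) (nat_lit 152) (nat_lit 0) (XT.nd (nat_lit 78) (nat_lit 76) (nat_lit 0) (XT.lf (nat_lit 0) (nat_lit 13488214452) (nat_lit 152) (nat_lit 477411044) (nat_lit 0) (nat_lit 9837623155) (nat_lit 39) (nat_lit 5) (nat_lit 41) (nat_lit 4) (nat_lit 39) (nat_lit 4) (nat_lit 511) (nat_lit 355) (nat_lit 334)) (XT.lf (nat_lit 0) (nat_lit 14972481663) (nat_lit 76) (nat_lit 6541610190) (nat_lit 76) (nat_lit 2767424132) (nat_lit 38) (nat_lit 4) (nat_lit 39) (nat_lit 5) (nat_lit 39) (nat_lit 4) (nat_lit 512) (nat_lit 355) (nat_lit 333))) (XT.nd (nat_lit 78) (nat_lit 0) (nat_lit 0) (XT.lf (nat_lit 0) (nat_lit 4862659805) (nat_lit 152) (nat_lit 18829515163) (nat_lit 0) (nat_lit 1081901580) (nat_lit 36) (nat_lit 5) (nat_lit 38) (nat_lit 4) (nat_lit 36) (nat_lit 4) (nat_lit 513) (nat_lit 355) (nat_lit 332)) (XT.lf (nat_lit 0) (nat_lit 12706883696)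 (nat_lit 152) (nat_lit 3759464923) (nat_lit 0) (nat_lit 8813018757) (nat_lit 36) (nat_lit 5) (nat_lit 38) (nat_lit 4) (nat_lit 36) (nat_lit 4) (nat_lit 514) (nat_lit 355) (nat_lit 331))))) (XT.nd (nat_lit 312) (nat_lit 228) (nat_lit 0) (XT.nd (nat_lit 156) (nat_lit 76) (nat_lit 0) (XT.nd (nat_lit 78) (nat_lit 152) (nat_lit 0) (XT.lf (nat_lit 0) (nat_lit 11764722283) (nat_lit 76) (nat_lit 9019420937) (nat_lit 76) (nat_lit 5015743654) (nat_lit 35) (nat_lit 4) (nat_lit 36) (nat_lit 5) (nat_lit 36) (nat_lit 4) (nat_lit 515) (nat_lit 355) (nat_lit 330)) (XT.lf (nat_lit 0) (nat_lit 1266957519) (nat_lit 76) (nat_lit 1381933480) (nat_lit 152) (nat_lit 23688277955) (nat_lit 33) (nat_lit 5) (nat_lit 34) (nat_lit 5) (nat_lit 35) (nat_lit 4) (nat_lit 516) (nat_lit 355) (nat_lit 329))) (XT.nd (nat_lit 78) (nat_lit 76) (nat_lit 0) (XT.lf (nat_lit 0) (nat_lit 10532924131) (nat_lit 152) (nat_lit 9911592234) (nat_lit 0) (nat_lit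 6441856289) (nat_lit 33) (nat_lit 5) (nat_lit 35) (nat_lit 4) (nat_lit 33) (nat_lit 4) (nat_lit 517) (nat_lit 355) (nat_lit 328)) (XT.lf (nat_lit 0) (nat_lit 5575813838) (nat_lit 76) (nat_lit 13033105579) (nat_lit 76) (nat_lit 8844470893) (nat_lit 32) (nat_lit 4) (nat_lit 33) (nat_lit 5) (nat_lit 33) (nat_lit 4) (nat_lit 518) (nat_lit 355) (nat_lit 327)))) (XT.nd (nat_lit 156) (nat_lit 76) (nat_lit 0) (XT.nd (nat_lit 78) (nat_lit 152) (nat_lit 0) (XT.lf (nat_lit 0) (nat_lit 21512094195) (nat_lit 76) (nat_lit 5404501546) (nat_lit 76) (nat_lit 1121141767) (nat_lit 32) (nat_lit 4) (nat_lit 33) (nat_lit 5) (nat_lit 33) (nat_lit 4) (nat_lit 519) (nat_lit 355) (nat_lit 326)) (XT.lf (nat_lit 0) (nat_lit 6704387711) (nat_lit 152) (nat_lit 19476643527) (nat_lit 0) (nat_lit 2456498499) (nat_lit 30) (nat_lit 5) (nat_lit 32) (nat_lit 4) (nat_lit 30) (nat_lit 4) (nat_lit 520) (nat_lit 355) (nat_lit 325))) (XT.nd (nat_lit 78)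 (nat_lit 76) (nat_lit 0) (XT.lf (nat_lit 0) (nat_lit 14753786324) (nat_lit 152) (nat_lit 4081638011) (nat_lit 0) (nat_lit 10419210233) (nat_lit 30) (nat_lit 5) (nat_lit 32) (nat_lit 4) (nat_lit 30) (nat_lit 4) (nat_lit 521) (nat_lit 355) (nat_lit 324)) (XT.lf (nat_lit 0) (nat_lit 11796856334) (nat_lit 76) (nat_lit 11255945599) (nat_lit 76) (nat_lit 6837207490) (nat_lit 29) (nat_lit 4) (nat_lit 30) (nat_lit 5) (nat_lit 30) (nat_lit 4) (nat_lit 522) (nat_lit 355) (nat_lit 323)))))) (XT.nd (nat_lit 546) (nat_lit 456) (nat_lit 0) (XT.nd (nat_lit 234) (nat_lit 228) (nat_lit 0) (XT.nd (nat_lit 78) (nat_lit 76) (nat_lit 0) (XT.lf (nat_lit 0) (nat_lit 972138878) (nat_lit 152) (nat_lit 2527006883) (nat_lit 76) (nat_lit 27046903731) (nat_lit 28) (nat_lit 5) (nat_lit 30) (nat_lit 5) (nat_lit 29) (nat_lit 4) (nat_lit 523) (nat_lit 355) (nat_lit 322)) (XT.nd (nat_lit 78) (nat_lit 0) (nat_lit 0) (XT.lf (nat_lit 0) (nat_lit 8950111690)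 (nat_lit 152) (nat_lit 17763752307) (nat_lit 0) (nat_lit 4503723748) (nat_lit 27) (nat_lit 5) (nat_lit 29) (nat_lit 4) (nat_lit 27) (nat_lit 4) (nat_lit 524) (nat_lit 355) (nat_lit 321)) (XT.lf (nat_lit 0) (nat_lit 17125780023) (nat_lit 152) (nat_lit 2180127043) (nat_lit 0) (nat_lit 12604615218) (nat_lit 27) (nat_lit 5) (nat_lit 29) (nat_lit 4) (nat_lit 27) (nat_lit 4) (nat_lit 525) (nat_lit 355) (nat_lit 320)))) (XT.nd (nat_lit 156) (nat_lit 76) (nat_lit 0) (XT.nd (nat_lit 78) (nat_lit 76) (nat_lit 0) (XT.lf (nat_lit 0) (nat_lit 13946426787) (nat_lit 76) (nat_lit 11635266663) (nat_lit 76) (nat_lit 7041502962) (nat_lit 26) (nat_lit 4) (nat_lit 27) (nat_lit 5) (nat_lit 27) (nat_lit 4) (nat_lit 526) (nat_lit 355) (nat_lit 319)) (XT.lf (nat_lit 0) (nat_lit 838995323) (nat_lit 152) (nat_lit 2961087560) (nat_lit 76) (nat_lit 29559203637) (nat_lit 25) (nat_lit 5) (nat_lit 27) (nat_lit 5) (nat_lit 26) (nat_lit 4) (nat_lit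 527) (nat_lit 355) (nat_lit 318))) (XT.nd (nat_lit 78) (nat_lit 0) (nat_lit 0) (XT.lf (nat_lit 0) (nat_lit 8887416322) (nat_lit 152) (nat_lit 20933179291) (nat_lit 0) (nat_lit 4292581867) (nat_lit 24) (nat_lit 5) (nat_lit 26) (nat_lit 4) (nat_lit 24) (nat_lit 4) (nat_lit 528) (nat_lit 355) (nat_lit 317)) (XT.lf (nat_lit 0) (nat_lit 17149030704) (nat_lit 152) (nat_lit 5251809886) (nat_lit 0) (nat_lit 12489693070) (nat_lit 24) (nat_lit 5) (nat_lit 26) (nat_lit 4) (nat_lit 24) (nat_lit 4) (nat_lit 529) (nat_lit 355) (nat_lit 316))))) (XT.nd (nat_lit 312) (nat_lit 228) (nat_lit 0) (XT.nd (nat_lit 156) (nat_lit 152) (nat_lit 0) (XT.nd (nat_lit 78) (nat_lit 0) (nat_lit 0) (XT.lf (nat_lit 0) (nat_lit 10927688660) (nat_lit 76) (nat_lit 14742565903) (nat_lit 76) (nat_lit 10020603824) (nat_lit 23) (nat_lit 4) (nat_lit 24) (nat_lit 5) (nat_lit 24) (nat_lit 4) (nat_lit 530) (nat_lit 355) (nat_lit 315)) (XT.lf (nat_lit 0) (nat_lit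 27516497734) (nat_lit 76) (nat_lit 6891318634) (nat_lit 76) (nat_lit 2108556123) (nat_lit 23) (nat_lit 4) (nat_lit 24) (nat_lit 5) (nat_lit 24) (nat_lit 4) (nat_lit 531) (nat_lit 355) (nat_lit 314))) (XT.nd (nat_lit 78) (nat_lit 0) (nat_lit 0) (XT.lf (nat_lit 0) (nat_lit 5912936044) (nat_lit 152) (nat_lit 30240108644) (nat_lit 0) (nat_lit 1212167056) (nat_lit 21) (nat_lit 5) (nat_lit 23) (nat_lit 4) (nat_lit 21) (nat_lit 4) (nat_lit 532) (nat_lit 355) (nat_lit 313)) (XT.lf (nat_lit 0) (nat_lit 14202242305) (nat_lit 152) (nat_lit 14588729401) (nat_lit 0) (nat_lit 9445832308) (nat_lit 21) (nat_lit 5) (nat_lit 23) (nat_lit 4) (nat_lit 21) (nat_lit 4) (nat_lit 533) (nat_lit 355) (nat_lit 312)))) (XT.nd (nat_lit 156) (nat_lit 152) (nat_lit 0) (XT.nd (nat_lit 78) (nat_lit 0) (nat_lit 0) (XT.lf (nat_lit 0) (nat_lit 1384200919) (nat_lit 76) (nat_lit 21281504889) (nat_lit 76) (nat_lit 16471074496) (nat_lit 20) (nat_lit 4)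 (nat_lit 21) (nat_lit 5) (nat_lit 21) (nat_lit 4) (nat_lit 534) (nat_lit 355) (nat_lit 311)) (XT.lf (nat_lit 0) (nat_lit 17962088450) (nat_lit 76) (nat_lit 13481366965) (nat_lit 76) (nat_lit 8618489584) (nat_lit 20) (nat_lit 4) (nat_lit 21) (nat_lit 5) (nat_lit 21) (nat_lit 4) (nat_lit 535) (nat_lit 355) (nat_lit 310))) (XT.nd (nat_lit 78) (nat_lit 152) (nat_lit 0) (XT.lf (nat_lit 0) (nat_lit 34869074404) (nat_lit 76) (nat_lit 5531059839) (nat_lit 76) (nat_lit 617263053) (nat_lit 20) (nat_lit 4) (nat_lit 21) (nat_lit 5) (nat_lit 21) (nat_lit 4) (nat_lit 536) (nat_lit 355) (nat_lit 309)) (XT.lf (nat_lit 0) (nat_lit 7517395375) (nat_lit 152) (nat_lit 31781932256) (nat_lit 0) (nat_lit 2698722461) (nat_lit 18) (nat_lit 5) (nat_lit 20) (nat_lit 4) (nat_lit 18) (nat_lit 4) (nat_lit 537) (nat_lit 355) (nat_lit 308))))))) (XT.nd (nat_lit 1170) (nat_lit 0) (nat_lit 0) (XT.nd (nat_lit 546) (nat_lit 304) (nat_lit 0) (XT.nd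 (nat_lit 234) (nat_lit 152) (nat_lit 0) (XT.nd (nat_lit 78) (nat_lit 76) (nat_lit 0) (XT.lf (nat_lit 0) (nat_lit 15918451114) (nat_lit 152) (nat_lit 16035265878) (nat_lit 0) (nat_lit 11053179731) (nat_lit 18) (nat_lit 5) (nat_lit 20) (nat_lit 4) (nat_lit 18) (nat_lit 4) (nat_lit 538) (nat_lit 355) (nat_lit 307)) (XT.nd (nat_lit 78) (nat_lit 0) (nat_lit 0) (XT.lf (nat_lit 0) (nat_lit 24033383) (nat_lit 76) (nat_lit 24467445142) (nat_lit 76) (nat_lit 19556932528) (nat_lit 17) (nat_lit 4) (nat_lit 18) (nat_lit 5) (nat_lit 18) (nat_lit 4) (nat_lit 539) (nat_lit 355) (nat_lit 306)) (XT.lf (nat_lit 0) (nat_lit 16735153709) (nat_lit 76) (nat_lit 16668990159) (nat_lit 76) (nat_lit 11714554019) (nat_lit 17) (nat_lit 4) (nat_lit 18) (nat_lit 5) (nat_lit 18) (nat_lit 4) (nat_lit 540) (nat_lit 355) (nat_lit 305)))) (XT.nd (nat_lit 156) (nat_lit 0) (nat_lit 0) (XT.nd (nat_lit 78) (nat_lit 152) (nat_lit 0) (XT.lf (nat_lit 0)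 (nat_lit 33793563816) (nat_lit 76) (nat_lit 8713462602) (nat_lit 76) (nat_lit 3716382261) (nat_lit 17) (nat_lit 4) (nat_lit 18) (nat_lit 5) (nat_lit 18) (nat_lit 4) (nat_lit 541) (nat_lit 355) (nat_lit 304)) (XT.lf (nat_lit 0) (nat_lit 3883721859) (nat_lit 76) (nat_lit 511452690) (nat_lit 152) (nat_lit 42965932465) (nat_lit 15) (nat_lit 5) (nat_lit 16) (nat_lit 5) (nat_lit 17) (nat_lit 4) (nat_lit 542) (nat_lit 355) (nat_lit 303))) (XT.nd (nat_lit 78) (nat_lit 0) (nat_lit 0) (XT.lf (nat_lit 0) (nat_lit 12802824178) (nat_lit 152) (nat_lit 27853117289) (nat_lit 0) (nat_lit 7872068134) (nat_lit 15) (nat_lit 5) (nat_lit 17) (nat_lit 4) (nat_lit 15) (nat_lit 4) (nat_lit 543) (nat_lit 355) (nat_lit 302)) (XT.lf (nat_lit 0) (nat_lit 21394359698) (nat_lit 152) (nat_lit 11911895462) (nat_lit 0) (nat_lit 16425714835) (nat_lit 15) (nat_lit 5) (nat_lit 17) (nat_lit 4) (nat_lit 15) (nat_lit 4) (nat_lit 544) (nat_lit 355) (nat_lit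 301))))) (XT.nd (nat_lit 312) (nat_lit 76) (nat_lit 0) (XT.nd (nat_lit 156) (nat_lit 152) (nat_lit 0) (XT.nd (nat_lit 78) (nat_lit 0) (nat_lit 0) (XT.lf (nat_lit 0) (nat_lit 4452000510) (nat_lit 76) (nat_lit 25763166721) (nat_lit 76) (nat_lit 20757736596) (nat_lit 14) (nat_lit 4) (nat_lit 15) (nat_lit 5) (nat_lit 15) (nat_lit 4) (nat_lit 545) (nat_lit 355) (nat_lit 300)) (XT.lf (nat_lit 0) (nat_lit 21409954909) (nat_lit 76) (nat_lit 17940381505) (nat_lit 76) (nat_lit 12899237534) (nat_lit 14) (nat_lit 4) (nat_lit 15) (nat_lit 5) (nat_lit 15) (nat_lit 4) (nat_lit 546) (nat_lit 355) (nat_lit 299))) (XT.nd (nat_lit 78) (nat_lit 152) (nat_lit 0) (XT.lf (nat_lit 0) (nat_lit 38739715287) (nat_lit 76) (nat_lit 9951350856) (nat_lit 76) (nat_lit 4875533248) (nat_lit 14) (nat_lit 4) (nat_lit 15) (nat_lit 5) (nat_lit 15) (nat_lit 4) (nat_lit 547) (nat_lit 355) (nat_lit 298)) (XT.lf (nat_lit 0) (nat_lit 1529216116) (nat_lit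 76) (nat_lit 1741078193) (nat_lit 152) (nat_lit 51653438126) (nat_lit 12) (nat_lit 5) (nat_lit 13) (nat_lit 5) (nat_lit 14) (nat_lit 4) (nat_lit 548) (nat_lit 355) (nat_lit 297)))) (XT.nd (nat_lit 156) (nat_lit 76) (nat_lit 0) (XT.nd (nat_lit 78) (nat_lit 0) (nat_lit 0) (XT.lf (nat_lit 0) (nat_lit 11711142203) (nat_lit 152) (nat_lit 37885780850) (nat_lit 0) (nat_lit 6718749424) (nat_lit 12) (nat_lit 5) (nat_lit 14) (nat_lit 4) (nat_lit 12) (nat_lit 4) (nat_lit 549) (nat_lit 355) (nat_lit 296)) (XT.lf (nat_lit 0) (nat_lit 20357289388) (nat_lit 152) (nat_lit 22059429926) (nat_lit 0) (nat_lit 15334089532) (nat_lit 12) (nat_lit 5) (nat_lit 14) (nat_lit 4) (nat_lit 12) (nat_lit 4) (nat_lit 550) (nat_lit 355) (nat_lit 295))) (XT.nd (nat_lit 78) (nat_lit 76) (nat_lit 0) (XT.lf (nat_lit 0) (nat_lit 29199554442) (nat_lit 152) (nat_lit 5884898387) (nat_lit 0) (nat_lit 24146444802) (nat_lit 12) (nat_lit 5) (nat_lit 14) (nat_lit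 4) (nat_lit 12) (nat_lit 4) (nat_lit 551) (nat_lit 355) (nat_lit 294)) (XT.lf (nat_lit 0) (nat_lit 10863941477) (nat_lit 76) (nat_lit 27486152990) (nat_lit 76) (nat_lit 22404004725) (nat_lit 11) (nat_lit 4) (nat_lit 12) (nat_lit 5) (nat_lit 12) (nat_lit 4) (nat_lit 552) (nat_lit 355) (nat_lit 293)))))) (XT.nd (nat_lit 57954) (nat_lit 0) (nat_lit 2812) (XT.nd (nat_lit 57642) (nat_lit 0) (nat_lit 3496) (XT.nd (nat_lit 57486) (nat_lit 0) (nat_lit 3952) (XT.nd (nat_lit 57408) (nat_lit 0) (nat_lit 4256) (XT.lf (nat_lit 0) (nat_lit 28114164060) (nat_lit 76) (nat_lit 19659607762) (nat_lit 76) (nat_lit 14549266656) (nat_lit 11) (nat_lit 4) (nat_lit 12) (nat_lit 5) (nat_lit 12) (nat_lit 4) (nat_lit 553) (nat_lit 355) (nat_lit 292)) (XT.lf (nat_lit 0) (nat_lit 5445088325) (nat_lit 152) (nat_lit 1219577714) (nat_lit 152) (nat_lit 1219577714) (nat_lit 67) (nat_lit 4) (nat_lit 69) (nat_lit 5) (nat_lit 69) (nat_lit 4) (nat_lit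 488) (nat_lit 356) (nat_lit 356))) (XT.nd (nat_lit 78) (nat_lit 152) (nat_lit 0) (XT.lf (nat_lit 0) (nat_lit 4449477008) (nat_lit 152) (nat_lit 7426489426) (nat_lit 0) (nat_lit 4149480084) (nat_lit 65) (nat_lit 5) (nat_lit 67) (nat_lit 4) (nat_lit 65) (nat_lit 4) (nat_lit 489) (nat_lit 356) (nat_lit 355)) (XT.lf (nat_lit 0) (nat_lit 6093594269) (nat_lit 152) (nat_lit 5393654832) (nat_lit 152) (nat_lit 4802398757) (nat_lit 63) (nat_lit 4) (nat_lit 65) (nat_lit 5) (nat_lit 65) (nat_lit 4) (nat_lit 490) (nat_lit 356) (nat_lit 354)))) (XT.nd (nat_lit 156) (nat_lit 152) (nat_lit 0) (XT.nd (nat_lit 78) (nat_lit 152) (nat_lit 0) (XT.lf (nat_lit 0) (nat_lit 2111833785) (nat_lit 152) (nat_lit 13186661829) (nat_lit 0) (nat_lit 1263259078) (nat_lit 61) (nat_lit 5) (nat_lit 63) (nat_lit 4) (nat_lit 61) (nat_lit 4) (nat_lit 491) (nat_lit 356) (nat_lit 353)) (XT.lf (nat_lit 0) (nat_lit 359556847) (nat_lit 152) (nat_lit 8797775792)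 (nat_lit 152) (nat_lit 7682657702) (nat_lit 59) (nat_lit 4) (nat_lit 61) (nat_lit 5) (nat_lit 61) (nat_lit 4) (nat_lit 492) (nat_lit 356) (nat_lit 352))) (XT.nd (nat_lit 78) (nat_lit 152) (nat_lit 0) (XT.lf (nat_lit 0) (nat_lit 14316176495) (nat_lit 152) (nat_lit 2092235516) (nat_lit 152) (nat_lit 718337444) (nat_lit 59) (nat_lit 4) (nat_lit 61) (nat_lit 5) (nat_lit 61) (nat_lit 4) (nat_lit 493) (nat_lit 356) (nat_lit 351)) (XT.lf (nat_lit 0) (nat_lit 6346787732) (nat_lit 152) (nat_lit 6303948679) (nat_lit 0) (nat_lit 4768981155) (nat_lit 57) (nat_lit 5) (nat_lit 59) (nat_lit 4) (nat_lit 57) (nat_lit 4) (nat_lit 494) (nat_lit 356) (nat_lit 350))))) (XT.nd (nat_lit 312) (nat_lit 380) (nat_lit 0) (XT.nd (nat_lit 156) (nat_lit 76) (nat_lit 0) (XT.nd (nat_lit 78) (nat_lit 152) (nat_lit 0) (XT.lf (nat_lit 0) (nat_lit 7656642428) (nat_lit 76) (nat_lit 5939818746) (nat_lit 76) (nat_lit 4125191827) (nat_lit 56) (nat_lit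 4) (nat_lit 57) (nat_lit 5) (nat_lit 57) (nat_lit 4) (nat_lit 495) (nat_lit 356) (nat_lit 349)) (XT.lf (nat_lit 0) (nat_lit 2947424315) (nat_lit 152) (nat_lit 14122658125) (nat_lit 0) (nat_lit 962424721) (nat_lit 54) (nat_lit 5) (nat_lit 56) (nat_lit 4) (nat_lit 54) (nat_lit 4) (nat_lit 496) (nat_lit 356) (nat_lit 348))) (XT.nd (nat_lit 78) (nat_lit 76) (nat_lit 0) (XT.lf (nat_lit 0) (nat_lit 10175215900) (nat_lit 152) (nat_lit 201978717) (nat_lit 0) (nat_lit 7973492145) (nat_lit 54) (nat_lit 5) (nat_lit 56) (nat_lit 4) (nat_lit 54) (nat_lit 4) (nat_lit 497) (nat_lit 356) (nat_lit 347)) (XT.lf (nat_lit 0) (nat_lit 14158271510) (nat_lit 76) (nat_lit 3466071538) (nat_lit 76) (nat_lit 1053935976) (nat_lit 53) (nat_lit 4) (nat_lit 54) (nat_lit 5) (nat_lit 54) (nat_lit 4) (nat_lit 498) (nat_lit 356) (nat_lit 346)))) (XT.nd (nat_lit 156) (nat_lit 152) (nat_lit 0) (XT.nd (nat_lit 78) (nat_lit 76) (nat_lit 0) (XT.lf (nat_lit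 0) (nat_lit 6159081853) (nat_lit 152) (nat_lit 9235926465) (nat_lit 0) (nat_lit 3618869358) (nat_lit 51) (nat_lit 5) (nat_lit 53) (nat_lit 4) (nat_lit 51) (nat_lit 4) (nat_lit 499) (nat_lit 356) (nat_lit 345)) (XT.lf (nat_lit 0) (nat_lit 5037737726) (nat_lit 76) (nat_lit 8527168388) (nat_lit 76) (nat_lit 5794399282) (nat_lit 50) (nat_lit 4) (nat_lit 51) (nat_lit 5) (nat_lit 51) (nat_lit 4) (nat_lit 500) (nat_lit 356) (nat_lit 344))) (XT.nd (nat_lit 78) (nat_lit 76) (nat_lit 0) (XT.lf (nat_lit 0) (nat_lit 1412031094) (nat_lit 152) (nat_lit 53294148) (nat_lit 76) (nat_lit 18250454765) (nat_lit 49) (nat_lit 5) (nat_lit 51) (nat_lit 5) (nat_lit 50) (nat_lit 4) (nat_lit 501) (nat_lit 356) (nat_lit 343)) (XT.lf (nat_lit 0) (nat_lit 8788093656) (nat_lit 152) (nat_lit 5513838896) (nat_lit 0) (nat_lit 5777200118) (nat_lit 48) (nat_lit 5) (nat_lit 50) (nat_lit 4) (nat_lit 48) (nat_lit 4) (nat_lit 502) (nat_lit 356) (nat_lit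 342))))))))
noncomputable def xc18 : XT := (XT.nd (nat_lit 2340) (nat_lit 836) (nat_lit 0) (XT.nd (nat_lit 1170) (nat_lit 836) (nat_lit 0) (XT.nd (nat_lit 546) (nat_lit 608) (nat_lit 0) (XT.nd (nat_lit 234) (nat_lit 304) (nat_lit 0) (XT.nd (nat_lit 78) (nat_lit 152) (nat_lit 0) (XT.lf (nat_lit 0) (nat_lit 9085340092) (nat_lit 76) (nat_lit 7275383371) (nat_lit 76) (nat_lit 4093405779) (nat_lit 47) (nat_lit 4) (nat_lit 48) (nat_lit 5) (nat_lit 48) (nat_lit 4) (nat_lit 503) (nat_lit 356) (nat_lit 341)) (XT.nd (nat_lit 78) (nat_lit 0) (nat_lit 0) (XT.lf (nat_lit 0) (nat_lit 3178680125) (nat_lit 76) (nat_lit 36471963) (nat_lit 152) (nat_lit 17625474432) (nat_lit 45) (nat_lit 5) (nat_lit 46) (nat_lit 5) (nat_lit 47) (nat_lit 4) (nat_lit 504) (nat_lit 356) (nat_lit 340)) (XT.lf (nat_lit 0) (nat_lit 10721144061) (nat_lit 152) (nat_lit 3200530848) (nat_lit 0) (nat_lit 7314016153) (nat_lit 45) (nat_lit 5) (nat_lit 47) (nat_lit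 4) (nat_lit 45) (nat_lit 4) (nat_lit 505) (nat_lit 356) (nat_lit 339)))) (XT.nd (nat_lit 156) (nat_lit 76) (nat_lit 0) (XT.nd (nat_lit 78) (nat_lit 152) (nat_lit 0) (XT.lf (nat_lit 0) (nat_lit 11681645688) (nat_lit 76) (nat_lit 6760205670) (nat_lit 76) (nat_lit 3201071796) (nat_lit 44) (nat_lit 4) (nat_lit 45) (nat_lit 5) (nat_lit 45) (nat_lit 4) (nat_lit 506) (nat_lit 356) (nat_lit 338)) (XT.lf (nat_lit 0) (nat_lit 4209263611) (nat_lit 152) (nat_lit 17242487803) (nat_lit 0) (nat_lit 610513628) (nat_lit 42) (nat_lit 5) (nat_lit 44) (nat_lit 4) (nat_lit 42) (nat_lit 4) (nat_lit 507) (nat_lit 356) (nat_lit 337))) (XT.nd (nat_lit 78) (nat_lit 76) (nat_lit 0) (XT.lf (nat_lit 0) (nat_lit 11823229715) (nat_lit 152) (nat_lit 2583265685) (nat_lit 0) (nat_lit 8085372740) (nat_lit 42) (nat_lit 5) (nat_lit 44) (nat_lit 4) (nat_lit 42) (nat_lit 4) (nat_lit 508) (nat_lit 356) (nat_lit 336)) (XT.lf (nat_lit 0) (nat_lit 12526249073)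 (nat_lit 76) (nat_lit 7140495089) (nat_lit 76) (nat_lit 3267582782) (nat_lit 41) (nat_lit 4) (nat_lit 42) (nat_lit 5) (nat_lit 42) (nat_lit 4) (nat_lit 509) (nat_lit 356) (nat_lit 335))))) (XT.nd (nat_lit 312) (nat_lit 228) (nat_lit 0) (XT.nd (nat_lit 156) (nat_lit 228) (nat_lit 0) (XT.nd (nat_lit 78) (nat_lit 0) (nat_lit 0) (XT.lf (nat_lit 0) (nat_lit 4224850660) (nat_lit 152) (nat_lit 18827885076) (nat_lit 0) (nat_lit 337439021) (nat_lit 39) (nat_lit 5) (nat_lit 41) (nat_lit 4) (nat_lit 39) (nat_lit 4) (nat_lit 510) (nat_lit 356) (nat_lit 334)) (XT.lf (nat_lit 0) (nat_lit 11934169986) (nat_lit 152) (nat_lit 3999661590) (nat_lit 0) (nat_lit 7923163585) (nat_lit 39) (nat_lit 5) (nat_lit 41) (nat_lit 4) (nat_lit 39) (nat_lit 4) (nat_lit 511) (nat_lit 356) (nat_lit 333))) (XT.nd (nat_lit 78) (nat_lit 152) (nat_lit 0) (XT.lf (nat_lit 0) (nat_lit 11265917724) (nat_lit 76) (nat_lit 8601561886) (nat_lit 76) (nat_lit 4470560571)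 (nat_lit 38) (nat_lit 4) (nat_lit 39) (nat_lit 5) (nat_lit 39) (nat_lit 4) (nat_lit 512) (nat_lit 356) (nat_lit 332)) (XT.lf (nat_lit 0) (nat_lit 2019953290) (nat_lit 76) (nat_lit 1067462729) (nat_lit 152) (nat_lit 21746836740) (nat_lit 36) (nat_lit 5) (nat_lit 37) (nat_lit 5) (nat_lit 38) (nat_lit 4) (nat_lit 513) (nat_lit 356) (nat_lit 331)))) (XT.nd (nat_lit 156) (nat_lit 152) (nat_lit 0) (XT.nd (nat_lit 78) (nat_lit 76) (nat_lit 0) (XT.lf (nat_lit 0) (nat_lit 10864540978) (nat_lit 152) (nat_lit 7846075143) (nat_lit 0) (nat_lit 6630941032) (nat_lit 36) (nat_lit 5) (nat_lit 38) (nat_lit 4) (nat_lit 36) (nat_lit 4) (nat_lit 514) (nat_lit 356) (nat_lit 330)) (XT.lf (nat_lit 0) (nat_lit 7485792381) (nat_lit 76) (nat_lit 11359694073) (nat_lit 76) (nat_lit 7019480200) (nat_lit 35) (nat_lit 4) (nat_lit 36) (nat_lit 5) (nat_lit 36) (nat_lit 4) (nat_lit 515) (nat_lit 356) (nat_lit 329))) (XT.nd (nat_lit 78) (nat_lit 76)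 (nat_lit 0) (XT.lf (nat_lit 0) (nat_lit 616923629) (nat_lit 152) (nat_lit 3191367571) (nat_lit 76) (nat_lit 22596555844) (nat_lit 34) (nat_lit 5) (nat_lit 36) (nat_lit 5) (nat_lit 35) (nat_lit 4) (nat_lit 516) (nat_lit 356) (nat_lit 328)) (XT.lf (nat_lit 0) (nat_lit 8390942086) (nat_lit 152) (nat_lit 14587328116) (nat_lit 0) (nat_lit 3979081513) (nat_lit 33) (nat_lit 5) (nat_lit 35) (nat_lit 4) (nat_lit 33) (nat_lit 4) (nat_lit 517) (nat_lit 356) (nat_lit 327)))))) (XT.nd (nat_lit 546) (nat_lit 380) (nat_lit 0) (XT.nd (nat_lit 234) (nat_lit 228) (nat_lit 0) (XT.nd (nat_lit 78) (nat_lit 152) (nat_lit 0) (XT.lf (nat_lit 0) (nat_lit 699176411) (nat_lit 76) (nat_lit 15667395060) (nat_lit 76) (nat_lit 11160809394) (nat_lit 32) (nat_lit 4) (nat_lit 33) (nat_lit 5) (nat_lit 33) (nat_lit 4) (nat_lit 518) (nat_lit 356) (nat_lit 326)) (XT.nd (nat_lit 78) (nat_lit 152) (nat_lit 0) (XT.lf (nat_lit 0) (nat_lit 16530752658) (nat_lit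 76) (nat_lit 8090557899) (nat_lit 76) (nat_lit 3492006124) (nat_lit 32) (nat_lit 4) (nat_lit 33) (nat_lit 5) (nat_lit 33) (nat_lit 4) (nat_lit 519) (nat_lit 356) (nat_lit 325)) (XT.lf (nat_lit 0) (nat_lit 3946640804) (nat_lit 76) (nat_lit 306797650) (nat_lit 152) (nat_lit 24464145105) (nat_lit 30) (nat_lit 5) (nat_lit 31) (nat_lit 5) (nat_lit 32) (nat_lit 4) (nat_lit 520) (nat_lit 356) (nat_lit 324)))) (XT.nd (nat_lit 156) (nat_lit 152) (nat_lit 0) (XT.nd (nat_lit 78) (nat_lit 76) (nat_lit 0) (XT.lf (nat_lit 0) (nat_lit 12248033970) (nat_lit 152) (nat_lit 9475727272) (nat_lit 0) (nat_lit 7612571699) (nat_lit 30) (nat_lit 5) (nat_lit 32) (nat_lit 4) (nat_lit 30) (nat_lit 4) (nat_lit 521) (nat_lit 356) (nat_lit 323)) (XT.lf (nat_lit 0) (nat_lit 6193682208) (nat_lit 76) (nat_lit 14249162573) (nat_lit 76) (nat_lit 9531989605) (nat_lit 29) (nat_lit 4) (nat_lit 30) (nat_lit 5) (nat_lit 30) (nat_lit 4) (nat_lit 522) (nat_lit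 356) (nat_lit 322))) (XT.nd (nat_lit 78) (nat_lit 152) (nat_lit 0) (XT.lf (nat_lit 0) (nat_lit 22326916332) (nat_lit 76) (nat_lit 6551121511) (nat_lit 76) (nat_lit 1754617769) (nat_lit 29) (nat_lit 4) (nat_lit 30) (nat_lit 5) (nat_lit 30) (nat_lit 4) (nat_lit 523) (nat_lit 356) (nat_lit 321)) (XT.lf (nat_lit 0) (nat_lit 6120765887) (nat_lit 152) (nat_lit 23798849947) (nat_lit 0) (nat_lit 1389189275) (nat_lit 27) (nat_lit 5) (nat_lit 29) (nat_lit 4) (nat_lit 27) (nat_lit 4) (nat_lit 524) (nat_lit 356) (nat_lit 320))))) (XT.nd (nat_lit 312) (nat_lit 152) (nat_lit 0) (XT.nd (nat_lit 156) (nat_lit 152) (nat_lit 0) (XT.nd (nat_lit 78) (nat_lit 76) (nat_lit 0) (XT.lf (nat_lit 0) (nat_lit 14247623116) (nat_lit 152) (nat_lit 8312133654) (nat_lit 0) (nat_lit 9443447608) (nat_lit 27) (nat_lit 5) (nat_lit 29) (nat_lit 4) (nat_lit 27) (nat_lit 4) (nat_lit 525) (nat_lit 356) (nat_lit 319)) (XT.lf (nat_lit 0) (nat_lit 7596422338)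 (nat_lit 76) (nat_lit 14998684655) (nat_lit 76) (nat_lit 10124024782) (nat_lit 26) (nat_lit 4) (nat_lit 27) (nat_lit 5) (nat_lit 27) (nat_lit 4) (nat_lit 526) (nat_lit 356) (nat_lit 318))) (XT.nd (nat_lit 78) (nat_lit 152) (nat_lit 0) (XT.lf (nat_lit 0) (nat_lit 23963502756) (nat_lit 76) (nat_lit 7218232350) (nat_lit 76) (nat_lit 2275141054) (nat_lit 26) (nat_lit 4) (nat_lit 27) (nat_lit 5) (nat_lit 27) (nat_lit 4) (nat_lit 527) (nat_lit 356) (nat_lit 317)) (XT.lf (nat_lit 0) (nat_lit 5672812128) (nat_lit 152) (nat_lit 27733766179) (nat_lit 0) (nat_lit 809191187) (nat_lit 24) (nat_lit 5) (nat_lit 26) (nat_lit 4) (nat_lit 24) (nat_lit 4) (nat_lit 528) (nat_lit 356) (nat_lit 316)))) (XT.nd (nat_lit 156) (nat_lit 76) (nat_lit 0) (XT.nd (nat_lit 78) (nat_lit 76) (nat_lit 0) (XT.lf (nat_lit 0) (nat_lit 13888474499) (nat_lit 152) (nat_lit 12143800964) (nat_lit 0) (nat_lit 8962229112) (nat_lit 24) (nat_lit 5) (nat_lit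 26) (nat_lit 4) (nat_lit 24) (nat_lit 4) (nat_lit 529) (nat_lit 356) (nat_lit 315)) (XT.lf (nat_lit 0) (nat_lit 3808025375) (nat_lit 76) (nat_lit 18488620821) (nat_lit 76) (nat_lit 13501575002) (nat_lit 23) (nat_lit 4) (nat_lit 24) (nat_lit 5) (nat_lit 24) (nat_lit 4) (nat_lit 530) (nat_lit 356) (nat_lit 314))) (XT.nd (nat_lit 78) (nat_lit 76) (nat_lit 0) (XT.lf (nat_lit 0) (nat_lit 20308962536) (nat_lit 76) (nat_lit 10681086610) (nat_lit 76) (nat_lit 5635011244) (nat_lit 23) (nat_lit 4) (nat_lit 24) (nat_lit 5) (nat_lit 24) (nat_lit 4) (nat_lit 531) (nat_lit 356) (nat_lit 313)) (XT.lf (nat_lit 0) (nat_lit 2331504796) (nat_lit 152) (nat_lit 370430867) (nat_lit 76) (nat_lit 34776694937) (nat_lit 22) (nat_lit 5) (nat_lit 24) (nat_lit 5) (nat_lit 23) (nat_lit 4) (nat_lit 532) (nat_lit 356) (nat_lit 312))))))) (XT.nd (nat_lit 1170) (nat_lit 228) (nat_lit 0) (XT.nd (nat_lit 546) (nat_lit 304) (nat_lit 0) (XT.nd (nat_lit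 234) (nat_lit 152) (nat_lit 0) (XT.nd (nat_lit 78) (nat_lit 76) (nat_lit 0) (XT.lf (nat_lit 0) (nat_lit 10547905874) (nat_lit 152) (nat_lit 22265362271) (nat_lit 0) (nat_lit 5539142172) (nat_lit 21) (nat_lit 5) (nat_lit 23) (nat_lit 4) (nat_lit 21) (nat_lit 4) (nat_lit 533) (nat_lit 356) (nat_lit 311)) (XT.nd (nat_lit 78) (nat_lit 76) (nat_lit 0) (XT.lf (nat_lit 0) (nat_lit 18956058844) (nat_lit 152) (nat_lit 6403139212) (nat_lit 0) (nat_lit 13894848155) (nat_lit 21) (nat_lit 5) (nat_lit 23) (nat_lit 4) (nat_lit 21) (nat_lit 4) (nat_lit 534) (nat_lit 356) (nat_lit 310)) (XT.lf (nat_lit 0) (nat_lit 9964437331) (nat_lit 76) (nat_lit 17665017281) (nat_lit 76) (nat_lit 12552887187) (nat_lit 20) (nat_lit 4) (nat_lit 21) (nat_lit 5) (nat_lit 21) (nat_lit 4) (nat_lit 535) (nat_lit 356) (nat_lit 309)))) (XT.nd (nat_lit 156) (nat_lit 0) (nat_lit 0) (XT.nd (nat_lit 78) (nat_lit 152) (nat_lit 0) (XT.lf (nat_lit 0) (nat_lit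 26790961185) (nat_lit 76) (nat_lit 9754805299) (nat_lit 76) (nat_lit 4593238889) (nat_lit 20) (nat_lit 4) (nat_lit 21) (nat_lit 5) (nat_lit 21) (nat_lit 4) (nat_lit 536) (nat_lit 356) (nat_lit 308)) (XT.lf (nat_lit 0) (nat_lit 1838961068) (nat_lit 76) (nat_lit 1633218193) (nat_lit 152) (nat_lit 38653030523) (nat_lit 18) (nat_lit 5) (nat_lit 19) (nat_lit 5) (nat_lit 20) (nat_lit 4) (nat_lit 537) (nat_lit 356) (nat_lit 307))) (XT.nd (nat_lit 78) (nat_lit 0) (nat_lit 0) (XT.lf (nat_lit 0) (nat_lit 11817983280) (nat_lit 152) (nat_lit 24602816878) (nat_lit 0) (nat_lit 6714914055) (nat_lit 18) (nat_lit 5) (nat_lit 20) (nat_lit 4) (nat_lit 18) (nat_lit 4) (nat_lit 538) (nat_lit 356) (nat_lit 306)) (XT.lf (nat_lit 0) (nat_lit 20352379448) (nat_lit 152) (nat_lit 8620621577) (nat_lit 0) (nat_lit 15205386697) (nat_lit 18) (nat_lit 5) (nat_lit 20) (nat_lit 4) (nat_lit 18) (nat_lit 4) (nat_lit 539) (nat_lit 356) (nat_lit 305)))))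 (XT.nd (nat_lit 312) (nat_lit 76) (nat_lit 0) (XT.nd (nat_lit 156) (nat_lit 152) (nat_lit 0) (XT.nd (nat_lit 78) (nat_lit 0) (nat_lit 0) (XT.lf (nat_lit 0) (nat_lit 7843047816) (nat_lit 76) (nat_lit 21299469868) (nat_lit 76) (nat_lit 16109832917) (nat_lit 17) (nat_lit 4) (nat_lit 18) (nat_lit 5) (nat_lit 18) (nat_lit 4) (nat_lit 540) (nat_lit 356) (nat_lit 304)) (XT.lf (nat_lit 0) (nat_lit 24827784467) (nat_lit 76) (nat_lit 13380711680) (nat_lit 76) (nat_lit 8149672594) (nat_lit 17) (nat_lit 4) (nat_lit 18) (nat_lit 5) (nat_lit 18) (nat_lit 4) (nat_lit 541) (nat_lit 356) (nat_lit 303))) (XT.nd (nat_lit 78) (nat_lit 152) (nat_lit 0) (XT.lf (nat_lit 0) (nat_lit 42176862135) (nat_lit 76) (nat_lit 5296858535) (nat_lit 76) (nat_lit 25623199) (nat_lit 17) (nat_lit 4) (nat_lit 18) (nat_lit 5) (nat_lit 18) (nat_lit 4) (nat_lit 542) (nat_lit 356) (nat_lit 302)) (XT.lf (nat_lit 0) (nat_lit 8247667019) (nat_lit 152) (nat_lit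 37330558827) (nat_lit 0) (nat_lit 3092073990) (nat_lit 15) (nat_lit 5) (nat_lit 17) (nat_lit 4) (nat_lit 15) (nat_lit 4) (nat_lit 543) (nat_lit 356) (nat_lit 301)))) (XT.nd (nat_lit 156) (nat_lit 76) (nat_lit 0) (XT.nd (nat_lit 78) (nat_lit 0) (nat_lit 0) (XT.lf (nat_lit 0) (nat_lit 16804094458) (nat_lit 152) (nat_lit 21459503046) (nat_lit 0) (nat_lit 11611716167) (nat_lit 15) (nat_lit 5) (nat_lit 17) (nat_lit 4) (nat_lit 15) (nat_lit 4) (nat_lit 544) (nat_lit 356) (nat_lit 300)) (XT.lf (nat_lit 0) (nat_lit 25548021124) (nat_lit 152) (nat_lit 5250604014) (nat_lit 0) (nat_lit 20319928987) (nat_lit 15) (nat_lit 5) (nat_lit 17) (nat_lit 4) (nat_lit 15) (nat_lit 4) (nat_lit 545) (nat_lit 356) (nat_lit 299))) (XT.nd (nat_lit 78) (nat_lit 0) (nat_lit 0) (XT.lf (nat_lit 0) (nat_lit 11535398560) (nat_lit 76) (nat_lit 23062574089) (nat_lit 76) (nat_lit 17799808315) (nat_lit 14) (nat_lit 4) (nat_lit 15) (nat_lit 5) (nat_lit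 15) (nat_lit 4) (nat_lit 546) (nat_lit 356) (nat_lit 298)) (XT.lf (nat_lit 0) (nat_lit 28799669124) (nat_lit 76) (nat_lit 15106274859) (nat_lit 76) (nat_lit 9809845360) (nat_lit 14) (nat_lit 4) (nat_lit 15) (nat_lit 5) (nat_lit 15) (nat_lit 4) (nat_lit 547) (nat_lit 356) (nat_lit 297)))))) (XT.nd (nat_lit 57798) (nat_lit 0) (nat_lit 3420) (XT.nd (nat_lit 312) (nat_lit 76) (nat_lit 0) (XT.nd (nat_lit 156) (nat_lit 0) (nat_lit 0) (XT.nd (nat_lit 78) (nat_lit 152) (nat_lit 0) (XT.lf (nat_lit 0) (nat_lit 46452795646) (nat_lit 76) (nat_lit 6975796147) (nat_lit 76) (nat_lit 1646683420) (nat_lit 14) (nat_lit 4) (nat_lit 15) (nat_lit 5) (nat_lit 15) (nat_lit 4) (nat_lit 548) (nat_lit 356) (nat_lit 296)) (XT.lf (nat_lit 0) (nat_lit 6658506040) (nat_lit 152) (nat_lit 48360414875) (nat_lit 0) (nat_lit 1453803111) (nat_lit 12) (nat_lit 5) (nat_lit 14) (nat_lit 4) (nat_lit 12) (nat_lit 4) (nat_lit 549) (nat_lit 356) (nat_lit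 295))) (XT.nd (nat_lit 78) (nat_lit 0) (nat_lit 0) (XT.lf (nat_lit 0) (nat_lit 15273487439) (nat_lit 152) (nat_lit 32596433366) (nat_lit 0) (nat_lit 10038874726) (nat_lit 12) (nat_lit 5) (nat_lit 14) (nat_lit 4) (nat_lit 12) (nat_lit 4) (nat_lit 550) (nat_lit 356) (nat_lit 294)) (XT.lf (nat_lit 0) (nat_lit 24085494448) (nat_lit 152) (nat_lit 16482454659) (nat_lit 0) (nat_lit 18821843110) (nat_lit 12) (nat_lit 5) (nat_lit 14) (nat_lit 4) (nat_lit 12) (nat_lit 4) (nat_lit 551) (nat_lit 356) (nat_lit 293)))) (XT.nd (nat_lit 57330) (nat_lit 0) (nat_lit 4408) (XT.nd (nat_lit 78) (nat_lit 76) (nat_lit 0) (XT.lf (nat_lit 0) (nat_lit 33102226880) (nat_lit 152) (nat_lit 4398577) (nat_lit 0) (nat_lit 27810382702) (nat_lit 12) (nat_lit 5) (nat_lit 14) (nat_lit 4) (nat_lit 12) (nat_lit 4) (nat_lit 552) (nat_lit 356) (nat_lit 292)) (XT.lf (nat_lit 0) (nat_lit 17187523672) (nat_lit 76) (nat_lit 25309256752) (nat_lit 76) (nat_lit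 19990040884) (nat_lit 11) (nat_lit 4) (nat_lit 12) (nat_lit 5) (nat_lit 12) (nat_lit 4) (nat_lit 553) (nat_lit 356) (nat_lit 291))) (XT.nd (nat_lit 78) (nat_lit 152) (nat_lit 0) (XT.lf (nat_lit 0) (nat_lit 7490900547) (nat_lit 152) (nat_lit 72706483) (nat_lit 152) (nat_lit 72706483) (nat_lit 71) (nat_lit 4) (nat_lit 73) (nat_lit 5) (nat_lit 73) (nat_lit 4) (nat_lit 486) (nat_lit 357) (nat_lit 357)) (XT.lf (nat_lit 0) (nat_lit 6631214878) (nat_lit 152) (nat_lit 2573332647) (nat_lit 0) (nat_lit 6312948141) (nat_lit 69) (nat_lit 5) (nat_lit 71) (nat_lit 4) (nat_lit 69) (nat_lit 4) (nat_lit 487) (nat_lit 357) (nat_lit 356))))) (XT.nd (nat_lit 312) (nat_lit 380) (nat_lit 0) (XT.nd (nat_lit 156) (nat_lit 304) (nat_lit 0) (XT.nd (nat_lit 78) (nat_lit 152) (nat_lit 0) (XT.lf (nat_lit 0) (nat_lit 10759507997) (nat_lit 152) (nat_lit 2819156399) (nat_lit 152) (nat_lit 2191892830) (nat_lit 67) (nat_lit 4) (nat_lit 69) (nat_lit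 5) (nat_lit 69) (nat_lit 4) (nat_lit 488) (nat_lit 357) (nat_lit 355)) (XT.lf (nat_lit 0) (nat_lit 4617504611) (nat_lit 152) (nat_lit 7694922503) (nat_lit 0) (nat_lit 3717251703) (nat_lit 65) (nat_lit 5) (nat_lit 67) (nat_lit 4) (nat_lit 65) (nat_lit 4) (nat_lit 489) (nat_lit 357) (nat_lit 354))) (XT.nd (nat_lit 78) (nat_lit 152) (nat_lit 0) (XT.lf (nat_lit 0) (nat_lit 5688882207) (nat_lit 152) (nat_lit 5895083797) (nat_lit 152) (nat_lit 4712055016) (nat_lit 63) (nat_lit 4) (nat_lit 65) (nat_lit 5) (nat_lit 65) (nat_lit 4) (nat_lit 490) (nat_lit 357) (nat_lit 353)) (XT.lf (nat_lit 0) (nat_lit 2122324617) (nat_lit 152) (nat_lit 13740911732) (nat_lit 0) (nat_lit 707209602) (nat_lit 61) (nat_lit 5) (nat_lit 63) (nat_lit 4) (nat_lit 61) (nat_lit 4) (nat_lit 491) (nat_lit 357) (nat_lit 352)))) (XT.nd (nat_lit 156) (nat_lit 228) (nat_lit 0) (XT.nd (nat_lit 78) (nat_lit 152) (nat_lit 0) (XT.lf (nat_lit 0) (nat_lit 9097182932)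 (nat_lit 152) (nat_lit 330331359) (nat_lit 0) (nat_lit 7423287935) (nat_lit 61) (nat_lit 5) (nat_lit 63) (nat_lit 4) (nat_lit 61) (nat_lit 4) (nat_lit 492) (nat_lit 357) (nat_lit 351)) (XT.lf (nat_lit 0) (nat_lit 13492352992) (nat_lit 152) (nat_lit 2786219061) (nat_lit 152) (nat_lit 861081363) (nat_lit 59) (nat_lit 4) (nat_lit 61) (nat_lit 5) (nat_lit 61) (nat_lit 4) (nat_lit 493) (nat_lit 357) (nat_lit 350))) (XT.nd (nat_lit 78) (nat_lit 76) (nat_lit 0) (XT.lf (nat_lit 0) (nat_lit 6124905643) (nat_lit 152) (nat_lit 7291196474) (nat_lit 0) (nat_lit 4019019574) (nat_lit 57) (nat_lit 5) (nat_lit 59) (nat_lit 4) (nat_lit 57) (nat_lit 4) (nat_lit 494) (nat_lit 357) (nat_lit 349)) (XT.lf (nat_lit 0) (nat_lit 6522167514) (nat_lit 76) (nat_lit 6776488642) (nat_lit 76) (nat_lit 4440679911) (nat_lit 56) (nat_lit 4) (nat_lit 57) (nat_lit 5) (nat_lit 57) (nat_lit 4) (nat_lit 495) (nat_lit 357) (nat_lit 348))))))))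
noncomputable def xc19 : XT := (XT.nd (nat_lit 2340) (nat_lit 1216) (nat_lit 0) (XT.nd (nat_lit 1170) (nat_lit 912) (nat_lit 0) (XT.nd (nat_lit 546) (nat_lit 684) (nat_lit 0) (XT.nd (nat_lit 234) (nat_lit 380) (nat_lit 0) (XT.nd (nat_lit 78) (nat_lit 76) (nat_lit 0) (XT.lf (nat_lit 0) (nat_lit 2551871992) (nat_lit 152) (nat_lit 15433624649) (nat_lit 0) (nat_lit 67372363) (nat_lit 54) (nat_lit 5) (nat_lit 56) (nat_lit 4) (nat_lit 54) (nat_lit 4) (nat_lit 496) (nat_lit 357) (nat_lit 347)) (XT.nd (nat_lit 78) (nat_lit 76) (nat_lit 0) (XT.lf (nat_lit 0) (nat_lit 9714837887) (nat_lit 152) (nat_lit 1638230184) (nat_lit 0) (nat_lit 7019926451) (nat_lit 54) (nat_lit 5) (nat_lit 56) (nat_lit 4) (nat_lit 54) (nat_lit 4) (nat_lit 497) (nat_lit 357) (nat_lit 346)) (XT.lf (nat_lit 0) (nat_lit 12569379164) (nat_lit 76) (nat_lit 4516374904) (nat_lit 76) (nat_lit 1617180160) (nat_lit 53) (nat_lit 4) (nat_lit 54) (nat_lit 5) (nat_lit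 54) (nat_lit 4) (nat_lit 498) (nat_lit 357) (nat_lit 345)))) (XT.nd (nat_lit 156) (nat_lit 152) (nat_lit 0) (XT.nd (nat_lit 78) (nat_lit 76) (nat_lit 0) (XT.lf (nat_lit 0) (nat_lit 5516106707) (nat_lit 152) (nat_lit 11016513386) (nat_lit 0) (nat_lit 2508797918) (nat_lit 51) (nat_lit 5) (nat_lit 53) (nat_lit 4) (nat_lit 51) (nat_lit 4) (nat_lit 499) (nat_lit 357) (nat_lit 344)) (XT.lf (nat_lit 0) (nat_lit 3097479803) (nat_lit 76) (nat_lit 9743033220) (nat_lit 76) (nat_lit 6548776266) (nat_lit 50) (nat_lit 4) (nat_lit 51) (nat_lit 5) (nat_lit 51) (nat_lit 4) (nat_lit 500) (nat_lit 357) (nat_lit 343))) (XT.nd (nat_lit 78) (nat_lit 76) (nat_lit 0) (XT.lf (nat_lit 0) (nat_lit 609660657) (nat_lit 152) (nat_lit 2138148892) (nat_lit 76) (nat_lit 17000054279) (nat_lit 49) (nat_lit 5) (nat_lit 51) (nat_lit 5) (nat_lit 50) (nat_lit 4) (nat_lit 501) (nat_lit 357) (nat_lit 342)) (XT.lf (nat_lit 0) (nat_lit 7890142161) (nat_lit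 152) (nat_lit 7782321507) (nat_lit 0) (nat_lit 4441621187) (nat_lit 48) (nat_lit 5) (nat_lit 50) (nat_lit 4) (nat_lit 48) (nat_lit 4) (nat_lit 502) (nat_lit 357) (nat_lit 341))))) (XT.nd (nat_lit 312) (nat_lit 380) (nat_lit 0) (XT.nd (nat_lit 156) (nat_lit 76) (nat_lit 0) (XT.nd (nat_lit 78) (nat_lit 152) (nat_lit 0) (XT.lf (nat_lit 0) (nat_lit 6650937447) (nat_lit 76) (nat_lit 8727646266) (nat_lit 76) (nat_lit 5113024268) (nat_lit 47) (nat_lit 4) (nat_lit 48) (nat_lit 5) (nat_lit 48) (nat_lit 4) (nat_lit 503) (nat_lit 357) (nat_lit 340)) (XT.lf (nat_lit 0) (nat_lit 546777201) (nat_lit 76) (nat_lit 1582613108) (nat_lit 152) (nat_lit 18751591030) (nat_lit 45) (nat_lit 5) (nat_lit 46) (nat_lit 5) (nat_lit 47) (nat_lit 4) (nat_lit 504) (nat_lit 357) (nat_lit 339))) (XT.nd (nat_lit 78) (nat_lit 76) (nat_lit 0) (XT.lf (nat_lit 0) (nat_lit 9559871222) (nat_lit 152) (nat_lit 5976483453) (nat_lit 0) (nat_lit 5741957366)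 (nat_lit 45) (nat_lit 5) (nat_lit 47) (nat_lit 4) (nat_lit 45) (nat_lit 4) (nat_lit 505) (nat_lit 357) (nat_lit 338)) (XT.lf (nat_lit 0) (nat_lit 8733051195) (nat_lit 76) (nat_lit 8460301491) (nat_lit 76) (nat_lit 4494809026) (nat_lit 44) (nat_lit 4) (nat_lit 45) (nat_lit 5) (nat_lit 45) (nat_lit 4) (nat_lit 506) (nat_lit 357) (nat_lit 337)))) (XT.nd (nat_lit 156) (nat_lit 228) (nat_lit 0) (XT.nd (nat_lit 78) (nat_lit 0) (nat_lit 0) (XT.lf (nat_lit 0) (nat_lit 1667770554) (nat_lit 76) (nat_lit 1177817239) (nat_lit 152) (nat_lit 19265145172) (nat_lit 42) (nat_lit 5) (nat_lit 43) (nat_lit 5) (nat_lit 44) (nat_lit 4) (nat_lit 507) (nat_lit 357) (nat_lit 336)) (XT.lf (nat_lit 0) (nat_lit 10389473077) (nat_lit 152) (nat_lit 5887648078) (nat_lit 0) (nat_lit 6265318069) (nat_lit 42) (nat_lit 5) (nat_lit 44) (nat_lit 4) (nat_lit 42) (nat_lit 4) (nat_lit 508) (nat_lit 357) (nat_lit 335))) (XT.nd (nat_lit 78) (nat_lit 152)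 (nat_lit 0) (XT.lf (nat_lit 0) (nat_lit 9042003010) (nat_lit 76) (nat_lit 9100444315) (nat_lit 76) (nat_lit 4845167624) (nat_lit 41) (nat_lit 4) (nat_lit 42) (nat_lit 5) (nat_lit 42) (nat_lit 4) (nat_lit 509) (nat_lit 357) (nat_lit 334)) (XT.lf (nat_lit 0) (nat_lit 859086500) (nat_lit 76) (nat_lit 1723014876) (nat_lit 152) (nat_lit 20864695465) (nat_lit 39) (nat_lit 5) (nat_lit 40) (nat_lit 5) (nat_lit 41) (nat_lit 4) (nat_lit 510) (nat_lit 357) (nat_lit 333)))))) (XT.nd (nat_lit 546) (nat_lit 456) (nat_lit 0) (XT.nd (nat_lit 234) (nat_lit 304) (nat_lit 0) (XT.nd (nat_lit 78) (nat_lit 152) (nat_lit 0) (XT.lf (nat_lit 0) (nat_lit 10217920012) (nat_lit 152) (nat_lit 7854909161) (nat_lit 0) (nat_lit 5842993745) (nat_lit 39) (nat_lit 5) (nat_lit 41) (nat_lit 4) (nat_lit 39) (nat_lit 4) (nat_lit 511) (nat_lit 357) (nat_lit 332)) (XT.nd (nat_lit 78) (nat_lit 76) (nat_lit 0) (XT.lf (nat_lit 0) (nat_lit 7223056079) (nat_lit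 76) (nat_lit 10834031470) (nat_lit 76) (nat_lit 6342605287) (nat_lit 38) (nat_lit 4) (nat_lit 39) (nat_lit 5) (nat_lit 39) (nat_lit 4) (nat_lit 512) (nat_lit 357) (nat_lit 331)) (XT.lf (nat_lit 0) (nat_lit 1177237970) (nat_lit 152) (nat_lit 2214739816) (nat_lit 76) (nat_lit 21506707994) (nat_lit 37) (nat_lit 5) (nat_lit 39) (nat_lit 5) (nat_lit 38) (nat_lit 4) (nat_lit 513) (nat_lit 357) (nat_lit 330)))) (XT.nd (nat_lit 156) (nat_lit 152) (nat_lit 0) (XT.nd (nat_lit 78) (nat_lit 76) (nat_lit 0) (XT.lf (nat_lit 0) (nat_lit 8854907794) (nat_lit 152) (nat_lit 12276193035) (nat_lit 0) (nat_lit 4277873579) (nat_lit 36) (nat_lit 5) (nat_lit 38) (nat_lit 4) (nat_lit 36) (nat_lit 4) (nat_lit 514) (nat_lit 357) (nat_lit 329)) (XT.lf (nat_lit 0) (nat_lit 2859750994) (nat_lit 76) (nat_lit 13878058833) (nat_lit 76) (nat_lit 9197515951) (nat_lit 35) (nat_lit 4) (nat_lit 36) (nat_lit 5) (nat_lit 36) (nat_lit 4) (nat_lit 515)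 (nat_lit 357) (nat_lit 328))) (XT.nd (nat_lit 78) (nat_lit 152) (nat_lit 0) (XT.lf (nat_lit 0) (nat_lit 18489050852) (nat_lit 76) (nat_lit 6384482326) (nat_lit 76) (nat_lit 1603445593) (nat_lit 35) (nat_lit 4) (nat_lit 36) (nat_lit 5) (nat_lit 36) (nat_lit 4) (nat_lit 516) (nat_lit 357) (nat_lit 327)) (XT.lf (nat_lit 0) (nat_lit 6076118560) (nat_lit 152) (nat_lit 19617989866) (nat_lit 0) (nat_lit 1339610232) (nat_lit 33) (nat_lit 5) (nat_lit 35) (nat_lit 4) (nat_lit 33) (nat_lit 4) (nat_lit 517) (nat_lit 357) (nat_lit 326))))) (XT.nd (nat_lit 312) (nat_lit 228) (nat_lit 0) (XT.nd (nat_lit 156) (nat_lit 152) (nat_lit 0) (XT.nd (nat_lit 78) (nat_lit 76) (nat_lit 0) (XT.lf (nat_lit 0) (nat_lit 13993096276) (nat_lit 152) (nat_lit 4447789743) (nat_lit 0) (nat_lit 9164621839) (nat_lit 33) (nat_lit 5) (nat_lit 35) (nat_lit 4) (nat_lit 33) (nat_lit 4) (nat_lit 518) (nat_lit 357) (nat_lit 325)) (XT.lf (nat_lit 0) (nat_lit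 11193612290) (nat_lit 76) (nat_lit 10959221914) (nat_lit 76) (nat_lit 6041459992) (nat_lit 32) (nat_lit 4) (nat_lit 33) (nat_lit 5) (nat_lit 33) (nat_lit 4) (nat_lit 519) (nat_lit 357) (nat_lit 324))) (XT.nd (nat_lit 78) (nat_lit 76) (nat_lit 0) (XT.lf (nat_lit 0) (nat_lit 1665403159) (nat_lit 152) (nat_lit 1623680386) (nat_lit 76) (nat_lit 25512863108) (nat_lit 31) (nat_lit 5) (nat_lit 33) (nat_lit 5) (nat_lit 32) (nat_lit 4) (nat_lit 520) (nat_lit 357) (nat_lit 323)) (XT.lf (nat_lit 0) (nat_lit 9564911413) (nat_lit 152) (nat_lit 15234125126) (nat_lit 0) (nat_lit 4624512559) (nat_lit 30) (nat_lit 5) (nat_lit 32) (nat_lit 4) (nat_lit 30) (nat_lit 4) (nat_lit 521) (nat_lit 357) (nat_lit 322)))) (XT.nd (nat_lit 156) (nat_lit 152) (nat_lit 0) (XT.nd (nat_lit 78) (nat_lit 0) (nat_lit 0) (XT.lf (nat_lit 0) (nat_lit 221912098) (nat_lit 76) (nat_lit 17431528477) (nat_lit 76) (nat_lit 12411798849) (nat_lit 29) (nat_lit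 4) (nat_lit 30) (nat_lit 5) (nat_lit 30) (nat_lit 4) (nat_lit 522) (nat_lit 357) (nat_lit 321)) (XT.lf (nat_lit 0) (nat_lit 16259254139) (nat_lit 76) (nat_lit 9781003997) (nat_lit 76) (nat_lit 4684254201) (nat_lit 29) (nat_lit 4) (nat_lit 30) (nat_lit 5) (nat_lit 30) (nat_lit 4) (nat_lit 523) (nat_lit 357) (nat_lit 320))) (XT.nd (nat_lit 78) (nat_lit 0) (nat_lit 0) (XT.lf (nat_lit 0) (nat_lit 1174684610) (nat_lit 76) (nat_lit 1951527837) (nat_lit 152) (nat_lit 28278957169) (nat_lit 27) (nat_lit 5) (nat_lit 28) (nat_lit 5) (nat_lit 29) (nat_lit 4) (nat_lit 524) (nat_lit 357) (nat_lit 319)) (XT.lf (nat_lit 0) (nat_lit 11186920975) (nat_lit 152) (nat_lit 14819095813) (nat_lit 0) (nat_lit 6095536941) (nat_lit 27) (nat_lit 5) (nat_lit 29) (nat_lit 4) (nat_lit 27) (nat_lit 4) (nat_lit 525) (nat_lit 357) (nat_lit 318))))))) (XT.nd (nat_lit 1170) (nat_lit 532) (nat_lit 0) (XT.nd (nat_lit 546) (nat_lit 380) (nat_lit 0) (XT.nd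 (nat_lit 234) (nat_lit 152) (nat_lit 0) (XT.nd (nat_lit 78) (nat_lit 76) (nat_lit 0) (XT.lf (nat_lit 0) (nat_lit 866794910) (nat_lit 76) (nat_lit 18556911500) (nat_lit 76) (nat_lit 13397096043) (nat_lit 26) (nat_lit 4) (nat_lit 27) (nat_lit 5) (nat_lit 27) (nat_lit 4) (nat_lit 526) (nat_lit 357) (nat_lit 317)) (XT.nd (nat_lit 78) (nat_lit 76) (nat_lit 0) (XT.lf (nat_lit 0) (nat_lit 17143424878) (nat_lit 76) (nat_lit 10821371104) (nat_lit 76) (nat_lit 5595117373) (nat_lit 26) (nat_lit 4) (nat_lit 27) (nat_lit 5) (nat_lit 27) (nat_lit 4) (nat_lit 527) (nat_lit 357) (nat_lit 316)) (XT.lf (nat_lit 0) (nat_lit 2302649466) (nat_lit 152) (nat_lit 616378492) (nat_lit 76) (nat_lit 31404185613) (nat_lit 25) (nat_lit 5) (nat_lit 27) (nat_lit 5) (nat_lit 26) (nat_lit 4) (nat_lit 528) (nat_lit 357) (nat_lit 315)))) (XT.nd (nat_lit 156) (nat_lit 76) (nat_lit 0) (XT.nd (nat_lit 78) (nat_lit 0) (nat_lit 0) (XT.lf (nat_lit 0) (nat_lit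 10439535994) (nat_lit 152) (nat_lit 19422697897) (nat_lit 0) (nat_lit 5242078368) (nat_lit 24) (nat_lit 5) (nat_lit 26) (nat_lit 4) (nat_lit 24) (nat_lit 4) (nat_lit 529) (nat_lit 357) (nat_lit 314)) (XT.lf (nat_lit 0) (nat_lit 18767788445) (nat_lit 152) (nat_lit 3631337063) (nat_lit 0) (nat_lit 13511301272) (nat_lit 24) (nat_lit 5) (nat_lit 26) (nat_lit 4) (nat_lit 24) (nat_lit 4) (nat_lit 530) (nat_lit 357) (nat_lit 313))) (XT.nd (nat_lit 78) (nat_lit 0) (nat_lit 0) (XT.lf (nat_lit 0) (nat_lit 12712016831) (nat_lit 76) (nat_lit 14670700543) (nat_lit 76) (nat_lit 9356903131) (nat_lit 23) (nat_lit 4) (nat_lit 24) (nat_lit 5) (nat_lit 24) (nat_lit 4) (nat_lit 531) (nat_lit 357) (nat_lit 312)) (XT.lf (nat_lit 0) (nat_lit 29451969951) (nat_lit 76) (nat_lit 6756296972) (nat_lit 76) (nat_lit 1386858552) (nat_lit 23) (nat_lit 4) (nat_lit 24) (nat_lit 5) (nat_lit 24) (nat_lit 4) (nat_lit 532) (nat_lit 357) (nat_lit 311)))))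 (XT.nd (nat_lit 312) (nat_lit 152) (nat_lit 0) (XT.nd (nat_lit 156) (nat_lit 76) (nat_lit 0) (XT.nd (nat_lit 78) (nat_lit 0) (nat_lit 0) (XT.lf (nat_lit 0) (nat_lit 6698669711) (nat_lit 152) (nat_lit 30342198056) (nat_lit 0) (nat_lit 1433175714) (nat_lit 21) (nat_lit 5) (nat_lit 23) (nat_lit 4) (nat_lit 21) (nat_lit 4) (nat_lit 533) (nat_lit 357) (nat_lit 310)) (XT.lf (nat_lit 0) (nat_lit 15066041371) (nat_lit 152) (nat_lit 14561233750) (nat_lit 0) (nat_lit 9749627969) (nat_lit 21) (nat_lit 5) (nat_lit 23) (nat_lit 4) (nat_lit 21) (nat_lit 4) (nat_lit 534) (nat_lit 357) (nat_lit 309))) (XT.nd (nat_lit 78) (nat_lit 0) (nat_lit 0) (XT.lf (nat_lit 0) (nat_lit 1563518616) (nat_lit 76) (nat_lit 22055570249) (nat_lit 76) (nat_lit 16689720531) (nat_lit 20) (nat_lit 4) (nat_lit 21) (nat_lit 5) (nat_lit 21) (nat_lit 4) (nat_lit 535) (nat_lit 357) (nat_lit 308)) (XT.lf (nat_lit 0) (nat_lit 18311923927) (nat_lit 76) (nat_lit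 14184285591) (nat_lit 76) (nat_lit 8770439450) (nat_lit 20) (nat_lit 4) (nat_lit 21) (nat_lit 5) (nat_lit 21) (nat_lit 4) (nat_lit 536) (nat_lit 357) (nat_lit 307)))) (XT.nd (nat_lit 156) (nat_lit 0) (nat_lit 0) (XT.nd (nat_lit 78) (nat_lit 152) (nat_lit 0) (XT.lf (nat_lit 0) (nat_lit 35408819610) (nat_lit 76) (nat_lit 6153583236) (nat_lit 76) (nat_lit 693138626) (nat_lit 20) (nat_lit 4) (nat_lit 21) (nat_lit 5) (nat_lit 21) (nat_lit 4) (nat_lit 537) (nat_lit 357) (nat_lit 306)) (XT.lf (nat_lit 0) (nat_lit 7516548962) (nat_lit 152) (nat_lit 33582963424) (nat_lit 0) (nat_lit 2171222903) (nat_lit 18) (nat_lit 5) (nat_lit 20) (nat_lit 4) (nat_lit 18) (nat_lit 4) (nat_lit 538) (nat_lit 357) (nat_lit 305))) (XT.nd (nat_lit 78) (nat_lit 0) (nat_lit 0) (XT.lf (nat_lit 0) (nat_lit 16013663361) (nat_lit 152) (nat_lit 17675171019) (nat_lit 0) (nat_lit 10625693102) (nat_lit 18) (nat_lit 5) (nat_lit 20) (nat_lit 4) (nat_lit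 18) (nat_lit 4) (nat_lit 539) (nat_lit 357) (nat_lit 304)) (XT.lf (nat_lit 0) (nat_lit 24692213533) (nat_lit 152) (nat_lit 1436783559) (nat_lit 0) (nat_lit 19262841137) (nat_lit 18) (nat_lit 5) (nat_lit 20) (nat_lit 4) (nat_lit 18) (nat_lit 4) (nat_lit 540) (nat_lit 357) (nat_lit 303)))))) (XT.nd (nat_lit 624) (nat_lit 228) (nat_lit 0) (XT.nd (nat_lit 312) (nat_lit 76) (nat_lit 0) (XT.nd (nat_lit 156) (nat_lit 152) (nat_lit 0) (XT.nd (nat_lit 78) (nat_lit 0) (nat_lit 0) (XT.lf (nat_lit 0) (nat_lit 15447830655) (nat_lit 76) (nat_lit 18260446019) (nat_lit 76) (nat_lit 12790877374) (nat_lit 17) (nat_lit 4) (nat_lit 18) (nat_lit 5) (nat_lit 18) (nat_lit 4) (nat_lit 541) (nat_lit 357) (nat_lit 302)) (XT.lf (nat_lit 0) (nat_lit 32727464025) (nat_lit 76) (nat_lit 10211251531) (nat_lit 76) (nat_lit 4702657403) (nat_lit 17) (nat_lit 4) (nat_lit 18) (nat_lit 5) (nat_lit 18) (nat_lit 4) (nat_lit 542) (nat_lit 357) (nat_lit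 301))) (XT.nd (nat_lit 78) (nat_lit 0) (nat_lit 0) (XT.lf (nat_lit 0) (nat_lit 1565046781) (nat_lit 76) (nat_lit 1938169833) (nat_lit 152) (nat_lit 45315221726) (nat_lit 15) (nat_lit 5) (nat_lit 16) (nat_lit 5) (nat_lit 17) (nat_lit 4) (nat_lit 543) (nat_lit 357) (nat_lit 300)) (XT.lf (nat_lit 0) (nat_lit 12006927664) (nat_lit 152) (nat_lit 31431827280) (nat_lit 0) (nat_lit 6586278918) (nat_lit 15) (nat_lit 5) (nat_lit 17) (nat_lit 4) (nat_lit 15) (nat_lit 4) (nat_lit 544) (nat_lit 357) (nat_lit 299)))) (XT.nd (nat_lit 156) (nat_lit 0) (nat_lit 0) (XT.nd (nat_lit 78) (nat_lit 76) (nat_lit 0) (XT.lf (nat_lit 0) (nat_lit 20717761597) (nat_lit 152) (nat_lit 15289066475) (nat_lit 0) (nat_lit 15262439213) (nat_lit 15) (nat_lit 5) (nat_lit 17) (nat_lit 4) (nat_lit 15) (nat_lit 4) (nat_lit 545) (nat_lit 357) (nat_lit 298)) (XT.lf (nat_lit 0) (nat_lit 1231661198) (nat_lit 76) (nat_lit 28404877230) (nat_lit 76) (nat_lit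 22915891121) (nat_lit 14) (nat_lit 4) (nat_lit 15) (nat_lit 5) (nat_lit 15) (nat_lit 4) (nat_lit 546) (nat_lit 357) (nat_lit 297))) (XT.nd (nat_lit 78) (nat_lit 0) (nat_lit 0) (XT.lf (nat_lit 0) (nat_lit 18432349418) (nat_lit 76) (nat_lit 20480356077) (nat_lit 76) (nat_lit 14958686739) (nat_lit 14) (nat_lit 4) (nat_lit 15) (nat_lit 5) (nat_lit 15) (nat_lit 4) (nat_lit 547) (nat_lit 357) (nat_lit 296)) (XT.lf (nat_lit 0) (nat_lit 36023745509) (nat_lit 76) (nat_lit 12380729867) (nat_lit 76) (nat_lit 6827329240) (nat_lit 14) (nat_lit 4) (nat_lit 15) (nat_lit 5) (nat_lit 15) (nat_lit 4) (nat_lit 548) (nat_lit 357) (nat_lit 295))))) (XT.nd (nat_lit 312) (nat_lit 76) (nat_lit 0) (XT.nd (nat_lit 156) (nat_lit 0) (nat_lit 0) (XT.nd (nat_lit 78) (nat_lit 76) (nat_lit 0) (XT.lf (nat_lit 0) (nat_lit 1456303157) (nat_lit 152) (nat_lit 2627912294) (nat_lit 76) (nat_lit 52550211630) (nat_lit 13) (nat_lit 5) (nat_lit 15) (nat_lit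 5) (nat_lit 14) (nat_lit 4) (nat_lit 549) (nat_lit 357) (nat_lit 294)) (XT.lf (nat_lit 0) (nat_lit 9975747600) (nat_lit 152) (nat_lit 43572469156) (nat_lit 0) (nat_lit 4525148096) (nat_lit 12) (nat_lit 5) (nat_lit 14) (nat_lit 4) (nat_lit 12) (nat_lit 4) (nat_lit 550) (nat_lit 357) (nat_lit 293))) (XT.nd (nat_lit 78) (nat_lit 0) (nat_lit 0) (XT.lf (nat_lit 0) (nat_lit 18758377867) (nat_lit 152) (nat_lit 27517279605) (nat_lit 0) (nat_lit 13279585523) (nat_lit 12) (nat_lit 5) (nat_lit 14) (nat_lit 4) (nat_lit 12) (nat_lit 4) (nat_lit 551) (nat_lit 357) (nat_lit 292)) (XT.lf (nat_lit 0) (nat_lit 27746589189) (nat_lit 152) (nat_lit 11096300375) (nat_lit 0) (nat_lit 22240425156) (nat_lit 12) (nat_lit 5) (nat_lit 14) (nat_lit 4) (nat_lit 12) (nat_lit 4) (nat_lit 552) (nat_lit 357) (nat_lit 291)))) (XT.nd (nat_lit 57174) (nat_lit 0) (nat_lit 4484) (XT.nd (nat_lit 57096) (nat_lit 0) (nat_lit 4712) (XT.lf (nat_lit 0) (nat_lit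 5818354007) (nat_lit 76) (nat_lit 31185810915) (nat_lit 76) (nat_lit 25653072426) (nat_lit 11) (nat_lit 4) (nat_lit 12) (nat_lit 5) (nat_lit 12) (nat_lit 4) (nat_lit 553) (nat_lit 357) (nat_lit 290)) (XT.lf (nat_lit 0) (nat_lit 953410348) (nat_lit 152) (nat_lit 5491352263) (nat_lit 0) (nat_lit 953410348) (nat_lit 73) (nat_lit 5) (nat_lit 75) (nat_lit 4) (nat_lit 73) (nat_lit 4) (nat_lit 484) (nat_lit 358) (nat_lit 358))) (XT.nd (nat_lit 78) (nat_lit 76) (nat_lit 0) (XT.lf (nat_lit 0) (nat_lit 1761013090) (nat_lit 152) (nat_lit 6804109225) (nat_lit 152) (nat_lit 6466460043) (nat_lit 71) (nat_lit 4) (nat_lit 73) (nat_lit 5) (nat_lit 73) (nat_lit 4) (nat_lit 485) (nat_lit 358) (nat_lit 357)) (XT.lf (nat_lit 0) (nat_lit 120620323) (nat_lit 228) (nat_lit 420604663) (nat_lit 76) (nat_lit 14733384277) (nat_lit 70) (nat_lit 5) (nat_lit 73) (nat_lit 5) (nat_lit 71) (nat_lit 4) (nat_lit 486) (nat_lit 358) (nat_lit 356))))))))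
noncomputable def xc20 : XT := (XT.nd (nat_lit 2340) (nat_lit 1520) (nat_lit 0) (XT.nd (nat_lit 1170) (nat_lit 1140) (nat_lit 0) (XT.nd (nat_lit 546) (nat_lit 684) (nat_lit 0) (XT.nd (nat_lit 234) (nat_lit 456) (nat_lit 0) (XT.nd (nat_lit 78) (nat_lit 304) (nat_lit 0) (XT.lf (nat_lit 0) (nat_lit 6821642559) (nat_lit 152) (nat_lit 2833413888) (nat_lit 0) (nat_lit 5866564249) (nat_lit 69) (nat_lit 5) (nat_lit 71) (nat_lit 4) (nat_lit 69) (nat_lit 4) (nat_lit 487) (nat_lit 358) (nat_lit 355)) (XT.nd (nat_lit 78) (nat_lit 152) (nat_lit 0) (XT.lf (nat_lit 0) (nat_lit 10367387859) (nat_lit 152) (nat_lit 3332227780) (nat_lit 152) (nat_lit 2077152546) (nat_lit 67) (nat_lit 4) (nat_lit 69) (nat_lit 5) (nat_lit 69) (nat_lit 4) (nat_lit 488) (nat_lit 358) (nat_lit 354)) (XT.lf (nat_lit 0) (nat_lit 4653709710) (nat_lit 152) (nat_lit 8232023210) (nat_lit 0) (nat_lit 3152414192) (nat_lit 65) (nat_lit 5) (nat_lit 67) (nat_lit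 4) (nat_lit 65) (nat_lit 4) (nat_lit 489) (nat_lit 358) (nat_lit 353)))) (XT.nd (nat_lit 156) (nat_lit 152) (nat_lit 0) (XT.nd (nat_lit 78) (nat_lit 152) (nat_lit 0) (XT.lf (nat_lit 0) (nat_lit 5013969190) (nat_lit 152) (nat_lit 6534257576) (nat_lit 152) (nat_lit 4758422374) (nat_lit 63) (nat_lit 4) (nat_lit 65) (nat_lit 5) (nat_lit 65) (nat_lit 4) (nat_lit 490) (nat_lit 358) (nat_lit 352)) (XT.lf (nat_lit 0) (nat_lit 1996746129) (nat_lit 152) (nat_lit 14572891904) (nat_lit 0) (nat_lit 13854299) (nat_lit 61) (nat_lit 5) (nat_lit 63) (nat_lit 4) (nat_lit 61) (nat_lit 4) (nat_lit 491) (nat_lit 358) (nat_lit 351))) (XT.nd (nat_lit 78) (nat_lit 152) (nat_lit 0) (XT.lf (nat_lit 0) (nat_lit 8906377009) (nat_lit 152) (nat_lit 1287187313) (nat_lit 0) (nat_lit 6672242478) (nat_lit 61) (nat_lit 5) (nat_lit 63) (nat_lit 4) (nat_lit 61) (nat_lit 4) (nat_lit 492) (nat_lit 358) (nat_lit 350)) (XT.lf (nat_lit 0) (nat_lit 12392802220)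 (nat_lit 152) (nat_lit 3621066749) (nat_lit 152) (nat_lit 1143007265) (nat_lit 59) (nat_lit 4) (nat_lit 61) (nat_lit 5) (nat_lit 61) (nat_lit 4) (nat_lit 493) (nat_lit 358) (nat_lit 349))))) (XT.nd (nat_lit 312) (nat_lit 304) (nat_lit 0) (XT.nd (nat_lit 156) (nat_lit 152) (nat_lit 0) (XT.nd (nat_lit 78) (nat_lit 76) (nat_lit 0) (XT.lf (nat_lit 0) (nat_lit 5764381238) (nat_lit 152) (nat_lit 8561993239) (nat_lit 0) (nat_lit 3128575582) (nat_lit 57) (nat_lit 5) (nat_lit 59) (nat_lit 4) (nat_lit 57) (nat_lit 4) (nat_lit 494) (nat_lit 358) (nat_lit 348)) (XT.lf (nat_lit 0) (nat_lit 5102216341) (nat_lit 76) (nat_lit 7759142027) (nat_lit 76) (nat_lit 4900110485) (nat_lit 56) (nat_lit 4) (nat_lit 57) (nat_lit 5) (nat_lit 57) (nat_lit 4) (nat_lit 495) (nat_lit 358) (nat_lit 347))) (XT.nd (nat_lit 78) (nat_lit 0) (nat_lit 0) (XT.lf (nat_lit 0) (nat_lit 1029714754) (nat_lit 76) (nat_lit 992684486) (nat_lit 152) (nat_lit 16055106407)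 (nat_lit 54) (nat_lit 5) (nat_lit 55) (nat_lit 5) (nat_lit 56) (nat_lit 4) (nat_lit 496) (nat_lit 358) (nat_lit 346)) (XT.lf (nat_lit 0) (nat_lit 9112885281) (nat_lit 152) (nat_lit 3364490005) (nat_lit 0) (nat_lit 5922431387) (nat_lit 54) (nat_lit 5) (nat_lit 56) (nat_lit 4) (nat_lit 54) (nat_lit 4) (nat_lit 497) (nat_lit 358) (nat_lit 345)))) (XT.nd (nat_lit 156) (nat_lit 76) (nat_lit 0) (XT.nd (nat_lit 78) (nat_lit 152) (nat_lit 0) (XT.lf (nat_lit 0) (nat_lit 10688320029) (nat_lit 76) (nat_lit 5716295111) (nat_lit 76) (nat_lit 2327507908) (nat_lit 53) (nat_lit 4) (nat_lit 54) (nat_lit 5) (nat_lit 54) (nat_lit 4) (nat_lit 498) (nat_lit 358) (nat_lit 344)) (XT.lf (nat_lit 0) (nat_lit 4726425299) (nat_lit 152) (nat_lit 13097791364) (nat_lit 0) (nat_lit 1249392471) (nat_lit 51) (nat_lit 5) (nat_lit 53) (nat_lit 4) (nat_lit 51) (nat_lit 4) (nat_lit 499) (nat_lit 358) (nat_lit 343))) (XT.nd (nat_lit 78) (nat_lit 0)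 (nat_lit 0) (XT.lf (nat_lit 0) (nat_lit 854164944) (nat_lit 76) (nat_lit 11114163724) (nat_lit 76) (nat_lit 7455627822) (nat_lit 50) (nat_lit 4) (nat_lit 51) (nat_lit 5) (nat_lit 51) (nat_lit 4) (nat_lit 500) (nat_lit 358) (nat_lit 342)) (XT.lf (nat_lit 0) (nat_lit 15255454155) (nat_lit 76) (nat_lit 4181909156) (nat_lit 76) (nat_lit 347156679) (nat_lit 50) (nat_lit 4) (nat_lit 51) (nat_lit 5) (nat_lit 51) (nat_lit 4) (nat_lit 501) (nat_lit 358) (nat_lit 341)))))) (XT.nd (nat_lit 546) (nat_lit 532) (nat_lit 0) (XT.nd (nat_lit 234) (nat_lit 304) (nat_lit 0) (XT.nd (nat_lit 78) (nat_lit 152) (nat_lit 0) (XT.lf (nat_lit 0) (nat_lit 6841853925) (nat_lit 152) (nat_lit 10359243220) (nat_lit 0) (nat_lit 2952692244) (nat_lit 48) (nat_lit 5) (nat_lit 50) (nat_lit 4) (nat_lit 48) (nat_lit 4) (nat_lit 502) (nat_lit 358) (nat_lit 340)) (XT.nd (nat_lit 78) (nat_lit 76) (nat_lit 0) (XT.lf (nat_lit 0) (nat_lit 3905474810) (nat_lit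 76) (nat_lit 10339412815) (nat_lit 76) (nat_lit 6288988004) (nat_lit 47) (nat_lit 4) (nat_lit 48) (nat_lit 5) (nat_lit 48) (nat_lit 4) (nat_lit 503) (nat_lit 358) (nat_lit 339)) (XT.lf (nat_lit 0) (nat_lit 912146779) (nat_lit 152) (nat_lit 2355332993) (nat_lit 76) (nat_lit 17658035978) (nat_lit 46) (nat_lit 5) (nat_lit 48) (nat_lit 5) (nat_lit 47) (nat_lit 4) (nat_lit 504) (nat_lit 358) (nat_lit 338)))) (XT.nd (nat_lit 156) (nat_lit 152) (nat_lit 0) (XT.nd (nat_lit 78) (nat_lit 76) (nat_lit 0) (XT.lf (nat_lit 0) (nat_lit 8244229455) (nat_lit 152) (nat_lit 9069376141) (nat_lit 0) (nat_lit 4012193608) (nat_lit 45) (nat_lit 5) (nat_lit 47) (nat_lit 4) (nat_lit 45) (nat_lit 4) (nat_lit 505) (nat_lit 358) (nat_lit 337)) (XT.lf (nat_lit 0) (nat_lit 5464628160) (nat_lit 76) (nat_lit 10324497550) (nat_lit 76) (nat_lit 5949181501) (nat_lit 44) (nat_lit 4) (nat_lit 45) (nat_lit 5) (nat_lit 45) (nat_lit 4) (nat_lit 506) (nat_lit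 358) (nat_lit 336))) (XT.nd (nat_lit 78) (nat_lit 76) (nat_lit 0) (XT.lf (nat_lit 0) (nat_lit 1346437175) (nat_lit 152) (nat_lit 1781155574) (nat_lit 76) (nat_lit 19035900606) (nat_lit 43) (nat_lit 5) (nat_lit 45) (nat_lit 5) (nat_lit 44) (nat_lit 4) (nat_lit 507) (nat_lit 358) (nat_lit 335)) (XT.lf (nat_lit 0) (nat_lit 8796897325) (nat_lit 152) (nat_lit 9518265106) (nat_lit 0) (nat_lit 4282840652) (nat_lit 42) (nat_lit 5) (nat_lit 44) (nat_lit 4) (nat_lit 42) (nat_lit 4) (nat_lit 508) (nat_lit 358) (nat_lit 334))))) (XT.nd (nat_lit 312) (nat_lit 228) (nat_lit 0) (XT.nd (nat_lit 156) (nat_lit 152) (nat_lit 0) (XT.nd (nat_lit 78) (nat_lit 76) (nat_lit 0) (XT.lf (nat_lit 0) (nat_lit 5228352903) (nat_lit 76) (nat_lit 11229473614) (nat_lit 76) (nat_lit 6588114337) (nat_lit 41) (nat_lit 4) (nat_lit 42) (nat_lit 5) (nat_lit 42) (nat_lit 4) (nat_lit 509) (nat_lit 358) (nat_lit 333)) (XT.lf (nat_lit 0) (nat_lit 809557893)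 (nat_lit 152) (nat_lit 3121551513) (nat_lit 76) (nat_lit 19576424859) (nat_lit 40) (nat_lit 5) (nat_lit 42) (nat_lit 5) (nat_lit 41) (nat_lit 4) (nat_lit 510) (nat_lit 358) (nat_lit 332))) (XT.nd (nat_lit 78) (nat_lit 76) (nat_lit 0) (XT.lf (nat_lit 0) (nat_lit 8337964895) (nat_lit 152) (nat_lit 12046522421) (nat_lit 0) (nat_lit 3595296011) (nat_lit 39) (nat_lit 5) (nat_lit 41) (nat_lit 4) (nat_lit 39) (nat_lit 4) (nat_lit 511) (nat_lit 358) (nat_lit 331)) (XT.lf (nat_lit 0) (nat_lit 2840364130) (nat_lit 76) (nat_lit 13240969645) (nat_lit 76) (nat_lit 8385194046) (nat_lit 38) (nat_lit 4) (nat_lit 39) (nat_lit 5) (nat_lit 39) (nat_lit 4) (nat_lit 512) (nat_lit 358) (nat_lit 330)))) (XT.nd (nat_lit 156) (nat_lit 76) (nat_lit 0) (XT.nd (nat_lit 78) (nat_lit 152) (nat_lit 0) (XT.lf (nat_lit 0) (nat_lit 18208620095) (nat_lit 76) (nat_lit 5862214395) (nat_lit 76) (nat_lit 896626452) (nat_lit 38) (nat_lit 4) (nat_lit 39)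 (nat_lit 5) (nat_lit 39) (nat_lit 4) (nat_lit 513) (nat_lit 358) (nat_lit 329)) (XT.lf (nat_lit 0) (nat_lit 6676228154) (nat_lit 152) (nat_lit 17053689577) (nat_lit 0) (nat_lit 1751760320) (nat_lit 36) (nat_lit 5) (nat_lit 38) (nat_lit 4) (nat_lit 36) (nat_lit 4) (nat_lit 514) (nat_lit 358) (nat_lit 328))) (XT.nd (nat_lit 78) (nat_lit 76) (nat_lit 0) (XT.lf (nat_lit 0) (nat_lit 14479625847) (nat_lit 152) (nat_lit 2076125088) (nat_lit 0) (nat_lit 9454664162) (nat_lit 36) (nat_lit 5) (nat_lit 38) (nat_lit 4) (nat_lit 36) (nat_lit 4) (nat_lit 515) (nat_lit 358) (nat_lit 327)) (XT.lf (nat_lit 0) (nat_lit 13410285951) (nat_lit 76) (nat_lit 9133233055) (nat_lit 76) (nat_lit 4010704524) (nat_lit 35) (nat_lit 4) (nat_lit 36) (nat_lit 5) (nat_lit 36) (nat_lit 4) (nat_lit 516) (nat_lit 358) (nat_lit 326))))))) (XT.nd (nat_lit 1170) (nat_lit 608) (nat_lit 0) (XT.nd (nat_lit 546) (nat_lit 456) (nat_lit 0) (XT.nd (nat_lit 234)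 (nat_lit 228) (nat_lit 0) (XT.nd (nat_lit 78) (nat_lit 76) (nat_lit 0) (XT.lf (nat_lit 0) (nat_lit 2092633376) (nat_lit 76) (nat_lit 1508296180) (nat_lit 152) (nat_lit 23514175693) (nat_lit 33) (nat_lit 5) (nat_lit 34) (nat_lit 5) (nat_lit 35) (nat_lit 4) (nat_lit 517) (nat_lit 358) (nat_lit 325)) (XT.nd (nat_lit 78) (nat_lit 76) (nat_lit 0) (XT.lf (nat_lit 0) (nat_lit 11452990396) (nat_lit 152) (nat_lit 9937443915) (nat_lit 0) (nat_lit 6298408131) (nat_lit 33) (nat_lit 5) (nat_lit 35) (nat_lit 4) (nat_lit 33) (nat_lit 4) (nat_lit 518) (nat_lit 358) (nat_lit 324)) (XT.lf (nat_lit 0) (nat_lit 5496009571) (nat_lit 76) (nat_lit 14013000191) (nat_lit 76) (nat_lit 8771731047) (nat_lit 32) (nat_lit 4) (nat_lit 33) (nat_lit 5) (nat_lit 33) (nat_lit 4) (nat_lit 519) (nat_lit 358) (nat_lit 323)))) (XT.nd (nat_lit 156) (nat_lit 76) (nat_lit 0) (XT.nd (nat_lit 78) (nat_lit 152) (nat_lit 0) (XT.lf (nat_lit 0) (nat_lit 21401661762)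 (nat_lit 76) (nat_lit 6407053151) (nat_lit 76) (nat_lit 1081621989) (nat_lit 32) (nat_lit 4) (nat_lit 33) (nat_lit 5) (nat_lit 33) (nat_lit 4) (nat_lit 520) (nat_lit 358) (nat_lit 322)) (XT.lf (nat_lit 0) (nat_lit 6702074178) (nat_lit 152) (nat_lit 21361863183) (nat_lit 0) (nat_lit 1452421887) (nat_lit 30) (nat_lit 5) (nat_lit 32) (nat_lit 4) (nat_lit 30) (nat_lit 4) (nat_lit 521) (nat_lit 358) (nat_lit 321))) (XT.nd (nat_lit 78) (nat_lit 76) (nat_lit 0) (XT.lf (nat_lit 0) (nat_lit 14741016456) (nat_lit 152) (nat_lit 6004177146) (nat_lit 0) (nat_lit 9414343997) (nat_lit 30) (nat_lit 5) (nat_lit 32) (nat_lit 4) (nat_lit 30) (nat_lit 4) (nat_lit 522) (nat_lit 358) (nat_lit 320)) (XT.lf (nat_lit 0) (nat_lit 9820570884) (nat_lit 76) (nat_lit 13201432144) (nat_lit 76) (nat_lit 7799982822) (nat_lit 29) (nat_lit 4) (nat_lit 30) (nat_lit 5) (nat_lit 30) (nat_lit 4) (nat_lit 523) (nat_lit 358) (nat_lit 319))))) (XT.nd (nat_lit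 312) (nat_lit 228) (nat_lit 0) (XT.nd (nat_lit 156) (nat_lit 76) (nat_lit 0) (XT.nd (nat_lit 78) (nat_lit 76) (nat_lit 0) (XT.lf (nat_lit 0) (nat_lit 13940718) (nat_lit 152) (nat_lit 5445748559) (nat_lit 76) (nat_lit 26045573011) (nat_lit 28) (nat_lit 5) (nat_lit 30) (nat_lit 5) (nat_lit 29) (nat_lit 4) (nat_lit 524) (nat_lit 358) (nat_lit 318)) (XT.lf (nat_lit 0) (nat_lit 7940999202) (nat_lit 152) (nat_lit 21706699215) (nat_lit 0) (nat_lit 2557957859) (nat_lit 27) (nat_lit 5) (nat_lit 29) (nat_lit 4) (nat_lit 27) (nat_lit 4) (nat_lit 525) (nat_lit 358) (nat_lit 317))) (XT.nd (nat_lit 78) (nat_lit 76) (nat_lit 0) (XT.lf (nat_lit 0) (nat_lit 16124783399) (nat_lit 152) (nat_lit 6126408217) (nat_lit 0) (nat_lit 10675303782) (nat_lit 27) (nat_lit 5) (nat_lit 29) (nat_lit 4) (nat_lit 27) (nat_lit 4) (nat_lit 526) (nat_lit 358) (nat_lit 316)) (XT.lf (nat_lit 0) (nat_lit 9940478243) (nat_lit 76) (nat_lit 14621119728) (nat_lit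 76) (nat_lit 9107136932) (nat_lit 26) (nat_lit 4) (nat_lit 27) (nat_lit 5) (nat_lit 27) (nat_lit 4) (nat_lit 527) (nat_lit 358) (nat_lit 315)))) (XT.nd (nat_lit 156) (nat_lit 76) (nat_lit 0) (XT.nd (nat_lit 78) (nat_lit 152) (nat_lit 0) (XT.lf (nat_lit 0) (nat_lit 26441882464) (nat_lit 76) (nat_lit 6784362609) (nat_lit 76) (nat_lit 1207755368) (nat_lit 26) (nat_lit 4) (nat_lit 27) (nat_lit 5) (nat_lit 27) (nat_lit 4) (nat_lit 528) (nat_lit 358) (nat_lit 314)) (XT.lf (nat_lit 0) (nat_lit 6799201554) (nat_lit 152) (nat_lit 27094860885) (nat_lit 0) (nat_lit 1325990220) (nat_lit 24) (nat_lit 5) (nat_lit 26) (nat_lit 4) (nat_lit 24) (nat_lit 4) (nat_lit 529) (nat_lit 358) (nat_lit 313))) (XT.nd (nat_lit 78) (nat_lit 76) (nat_lit 0) (XT.lf (nat_lit 0) (nat_lit 15085401405) (nat_lit 152) (nat_lit 11387147834) (nat_lit 0) (nat_lit 9554879833) (nat_lit 24) (nat_lit 5) (nat_lit 26) (nat_lit 4) (nat_lit 24) (nat_lit 4) (nat_lit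 530) (nat_lit 358) (nat_lit 312)) (XT.lf (nat_lit 0) (nat_lit 4719022513) (nat_lit 76) (nat_lit 18863646504) (nat_lit 76) (nat_lit 13277483922) (nat_lit 23) (nat_lit 4) (nat_lit 24) (nat_lit 5) (nat_lit 24) (nat_lit 4) (nat_lit 531) (nat_lit 358) (nat_lit 311)))))) (XT.nd (nat_lit 546) (nat_lit 228) (nat_lit 0) (XT.nd (nat_lit 234) (nat_lit 228) (nat_lit 0) (XT.nd (nat_lit 78) (nat_lit 152) (nat_lit 0) (XT.lf (nat_lit 0) (nat_lit 21378560384) (nat_lit 76) (nat_lit 10989246573) (nat_lit 76) (nat_lit 5349063594) (nat_lit 23) (nat_lit 4) (nat_lit 24) (nat_lit 5) (nat_lit 24) (nat_lit 4) (nat_lit 532) (nat_lit 358) (nat_lit 310)) (XT.nd (nat_lit 78) (nat_lit 76) (nat_lit 0) (XT.lf (nat_lit 0) (nat_lit 2681800116) (nat_lit 152) (nat_lit 248575729) (nat_lit 76) (nat_lit 35670515047) (nat_lit 22) (nat_lit 5) (nat_lit 24) (nat_lit 5) (nat_lit 23) (nat_lit 4) (nat_lit 533) (nat_lit 358) (nat_lit 309)) (XT.lf (nat_lit 0)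 (nat_lit 10978948560) (nat_lit 152) (nat_lit 23124221872) (nat_lit 0) (nat_lit 5402687035) (nat_lit 21) (nat_lit 5) (nat_lit 23) (nat_lit 4) (nat_lit 21) (nat_lit 4) (nat_lit 534) (nat_lit 358) (nat_lit 308)))) (XT.nd (nat_lit 156) (nat_lit 152) (nat_lit 0) (XT.nd (nat_lit 78) (nat_lit 76) (nat_lit 0) (XT.lf (nat_lit 0) (nat_lit 19478526261) (nat_lit 152) (nat_lit 7106573554) (nat_lit 0) (nat_lit 13854268313) (nat_lit 21) (nat_lit 5) (nat_lit 23) (nat_lit 4) (nat_lit 21) (nat_lit 4) (nat_lit 535) (nat_lit 358) (nat_lit 307)) (XT.lf (nat_lit 0) (nat_lit 9424553763) (nat_lit 76) (nat_lit 18823371134) (nat_lit 76) (nat_lit 13152514718) (nat_lit 20) (nat_lit 4) (nat_lit 21) (nat_lit 5) (nat_lit 21) (nat_lit 4) (nat_lit 536) (nat_lit 358) (nat_lit 306))) (XT.nd (nat_lit 78) (nat_lit 152) (nat_lit 0) (XT.lf (nat_lit 0) (nat_lit 26447815227) (nat_lit 76) (nat_lit 10829361516) (nat_lit 76) (nat_lit 5113263867) (nat_lit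 20) (nat_lit 4) (nat_lit 21) (nat_lit 5) (nat_lit 21) (nat_lit 4) (nat_lit 537) (nat_lit 358) (nat_lit 305)) (XT.lf (nat_lit 0) (nat_lit 402453920) (nat_lit 76) (nat_lit 2633248096) (nat_lit 152) (nat_lit 40375616540) (nat_lit 18) (nat_lit 5) (nat_lit 19) (nat_lit 5) (nat_lit 20) (nat_lit 4) (nat_lit 538) (nat_lit 358) (nat_lit 304))))) (XT.nd (nat_lit 312) (nat_lit 152) (nat_lit 0) (XT.nd (nat_lit 156) (nat_lit 76) (nat_lit 0) (XT.nd (nat_lit 78) (nat_lit 0) (nat_lit 0) (XT.lf (nat_lit 0) (nat_lit 11471308133) (nat_lit 152) (nat_lit 27147995661) (nat_lit 0) (nat_lit 5837652429) (nat_lit 18) (nat_lit 5) (nat_lit 20) (nat_lit 4) (nat_lit 18) (nat_lit 4) (nat_lit 539) (nat_lit 358) (nat_lit 303)) (XT.lf (nat_lit 0) (nat_lit 20114716662) (nat_lit 152) (nat_lit 10979740066) (nat_lit 0) (nat_lit 14440864710) (nat_lit 18) (nat_lit 5) (nat_lit 20) (nat_lit 4) (nat_lit 18) (nat_lit 4) (nat_lit 540) (nat_lit 358) (nat_lit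 302))) (XT.nd (nat_lit 78) (nat_lit 0) (nat_lit 0) (XT.lf (nat_lit 0) (nat_lit 5645506303) (nat_lit 76) (nat_lit 23356929462) (nat_lit 76) (nat_lit 17644052026) (nat_lit 17) (nat_lit 4) (nat_lit 18) (nat_lit 5) (nat_lit 18) (nat_lit 4) (nat_lit 541) (nat_lit 358) (nat_lit 301)) (XT.lf (nat_lit 0) (nat_lit 22857718025) (nat_lit 76) (nat_lit 15341384156) (nat_lit 76) (nat_lit 9590617901) (nat_lit 17) (nat_lit 4) (nat_lit 18) (nat_lit 5) (nat_lit 18) (nat_lit 4) (nat_lit 542) (nat_lit 358) (nat_lit 300)))) (XT.nd (nat_lit 156) (nat_lit 0) (nat_lit 0) (XT.nd (nat_lit 78) (nat_lit 152) (nat_lit 0) (XT.lf (nat_lit 0) (nat_lit 40453416538) (nat_lit 76) (nat_lit 7151690783) (nat_lit 76) (nat_lit 1364139266) (nat_lit 17) (nat_lit 4) (nat_lit 18) (nat_lit 5) (nat_lit 18) (nat_lit 4) (nat_lit 543) (nat_lit 358) (nat_lit 299)) (XT.lf (nat_lit 0) (nat_lit 6998667619) (nat_lit 152) (nat_lit 41837581844) (nat_lit 0) (nat_lit 1345011926)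 (nat_lit 15) (nat_lit 5) (nat_lit 17) (nat_lit 4) (nat_lit 15) (nat_lit 4) (nat_lit 544) (nat_lit 358) (nat_lit 298))) (XT.nd (nat_lit 78) (nat_lit 0) (nat_lit 0) (XT.lf (nat_lit 0) (nat_lit 15677372684) (nat_lit 152) (nat_lit 25759032911) (nat_lit 0) (nat_lit 9990053267) (nat_lit 15) (nat_lit 5) (nat_lit 17) (nat_lit 4) (nat_lit 15) (nat_lit 4) (nat_lit 545) (nat_lit 358) (nat_lit 297)) (XT.lf (nat_lit 0) (nat_lit 24553116960) (nat_lit 152) (nat_lit 9324681007) (nat_lit 0) (nat_lit 18833114314) (nat_lit 15) (nat_lit 5) (nat_lit 17) (nat_lit 4) (nat_lit 15) (nat_lit 4) (nat_lit 546) (nat_lit 358) (nat_lit 296))))))))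
noncomputable def xc21 : XT := (XT.nd (nat_lit 59202) (nat_lit 0) (nat_lit 684) (XT.nd (nat_lit 58032) (nat_lit 0) (nat_lit 2660) (XT.nd (nat_lit 57408) (nat_lit 0) (nat_lit 4028) (XT.nd (nat_lit 234) (nat_lit 152) (nat_lit 0) (XT.nd (nat_lit 78) (nat_lit 0) (nat_lit 0) (XT.lf (nat_lit 0) (nat_lit 7628697345) (nat_lit 76) (nat_lit 26078290310) (nat_lit 76) (nat_lit 20326556374) (nat_lit 14) (nat_lit 4) (nat_lit 15) (nat_lit 5) (nat_lit 15) (nat_lit 4) (nat_lit 547) (nat_lit 358) (nat_lit 295)) (XT.nd (nat_lit 78) (nat_lit 0) (nat_lit 0) (XT.lf (nat_lit 0) (nat_lit 25160160979) (nat_lit 76) (nat_lit 18008617985) (nat_lit 76) (nat_lit 12226076972) (nat_lit 14) (nat_lit 4) (nat_lit 15) (nat_lit 5) (nat_lit 15) (nat_lit 4) (nat_lit 548) (nat_lit 358) (nat_lit 294)) (XT.lf (nat_lit 0) (nat_lit 43099449213) (nat_lit 76) (nat_lit 9755890818) (nat_lit 76) (nat_lit 3943440020) (nat_lit 14) (nat_lit 4) (nat_lit 15) (nat_lit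 5) (nat_lit 15) (nat_lit 4) (nat_lit 549) (nat_lit 358) (nat_lit 293)))) (XT.nd (nat_lit 156) (nat_lit 0) (nat_lit 0) (XT.nd (nat_lit 78) (nat_lit 0) (nat_lit 0) (XT.lf (nat_lit 0) (nat_lit 3235294707) (nat_lit 76) (nat_lit 1236027524) (nat_lit 152) (nat_lit 53772981936) (nat_lit 12) (nat_lit 5) (nat_lit 13) (nat_lit 5) (nat_lit 14) (nat_lit 4) (nat_lit 550) (nat_lit 358) (nat_lit 292)) (XT.lf (nat_lit 0) (nat_lit 13213549935) (nat_lit 152) (nat_lit 38999015307) (nat_lit 0) (nat_lit 7514829292) (nat_lit 12) (nat_lit 5) (nat_lit 14) (nat_lit 4) (nat_lit 12) (nat_lit 4) (nat_lit 551) (nat_lit 358) (nat_lit 291))) (XT.nd (nat_lit 78) (nat_lit 0) (nat_lit 0) (XT.lf (nat_lit 0) (nat_lit 22174070860) (nat_lit 152) (nat_lit 22633450495) (nat_lit 0) (nat_lit 16448775761) (nat_lit 12) (nat_lit 5) (nat_lit 14) (nat_lit 4) (nat_lit 12) (nat_lit 4) (nat_lit 552) (nat_lit 358) (nat_lit 290)) (XT.lf (nat_lit 0) (nat_lit 31348833134)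 (nat_lit 152) (nat_lit 5886133562) (nat_lit 0) (nat_lit 25597737593) (nat_lit 12) (nat_lit 5) (nat_lit 14) (nat_lit 4) (nat_lit 12) (nat_lit 4) (nat_lit 553) (nat_lit 358) (nat_lit 289))))) (XT.nd (nat_lit 312) (nat_lit 456) (nat_lit 0) (XT.nd (nat_lit 156) (nat_lit 304) (nat_lit 0) (XT.nd (nat_lit 78) (nat_lit 152) (nat_lit 0) (XT.lf (nat_lit 0) (nat_lit 1865248895) (nat_lit 152) (nat_lit 3439850327) (nat_lit 0) (nat_lit 1865248895) (nat_lit 77) (nat_lit 5) (nat_lit 79) (nat_lit 4) (nat_lit 77) (nat_lit 4) (nat_lit 482) (nat_lit 359) (nat_lit 359)) (XT.lf (nat_lit 0) (nat_lit 5652196216) (nat_lit 152) (nat_lit 4636143633) (nat_lit 152) (nat_lit 4277931616) (nat_lit 75) (nat_lit 4) (nat_lit 77) (nat_lit 5) (nat_lit 77) (nat_lit 4) (nat_lit 483) (nat_lit 359) (nat_lit 358))) (XT.nd (nat_lit 78) (nat_lit 152) (nat_lit 0) (XT.lf (nat_lit 0) (nat_lit 2186639081) (nat_lit 152) (nat_lit 11110536242) (nat_lit 0) (nat_lit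 1501211242) (nat_lit 73) (nat_lit 5) (nat_lit 75) (nat_lit 4) (nat_lit 73) (nat_lit 4) (nat_lit 484) (nat_lit 359) (nat_lit 357)) (XT.lf (nat_lit 0) (nat_lit 1504058808) (nat_lit 152) (nat_lit 7272431044) (nat_lit 152) (nat_lit 6259188466) (nat_lit 71) (nat_lit 4) (nat_lit 73) (nat_lit 5) (nat_lit 73) (nat_lit 4) (nat_lit 485) (nat_lit 359) (nat_lit 356)))) (XT.nd (nat_lit 156) (nat_lit 304) (nat_lit 0) (XT.nd (nat_lit 78) (nat_lit 76) (nat_lit 0) (XT.lf (nat_lit 0) (nat_lit 257959256) (nat_lit 228) (nat_lit 807852024) (nat_lit 76) (nat_lit 14214812495) (nat_lit 70) (nat_lit 5) (nat_lit 73) (nat_lit 5) (nat_lit 71) (nat_lit 4) (nat_lit 486) (nat_lit 359) (nat_lit 355)) (XT.lf (nat_lit 0) (nat_lit 6884397575) (nat_lit 152) (nat_lit 3353803625) (nat_lit 0) (nat_lit 5291673159) (nat_lit 69) (nat_lit 5) (nat_lit 71) (nat_lit 4) (nat_lit 69) (nat_lit 4) (nat_lit 487) (nat_lit 359) (nat_lit 354))) (XT.nd (nat_lit 78)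 (nat_lit 152) (nat_lit 0) (XT.lf (nat_lit 0) (nat_lit 9713473607) (nat_lit 152) (nat_lit 3978817885) (nat_lit 152) (nat_lit 2094834319) (nat_lit 67) (nat_lit 4) (nat_lit 69) (nat_lit 5) (nat_lit 69) (nat_lit 4) (nat_lit 488) (nat_lit 359) (nat_lit 353)) (XT.lf (nat_lit 0) (nat_lit 4558123943) (nat_lit 152) (nat_lit 9038260859) (nat_lit 0) (nat_lit 2454474002) (nat_lit 65) (nat_lit 5) (nat_lit 67) (nat_lit 4) (nat_lit 65) (nat_lit 4) (nat_lit 489) (nat_lit 359) (nat_lit 352)))))) (XT.nd (nat_lit 546) (nat_lit 608) (nat_lit 0) (XT.nd (nat_lit 234) (nat_lit 456) (nat_lit 0) (XT.nd (nat_lit 78) (nat_lit 152) (nat_lit 0) (XT.lf (nat_lit 0) (nat_lit 4068265490) (nat_lit 152) (nat_lit 7311734672) (nat_lit 152) (nat_lit 4941541348) (nat_lit 63) (nat_lit 4) (nat_lit 65) (nat_lit 5) (nat_lit 65) (nat_lit 4) (nat_lit 490) (nat_lit 359) (nat_lit 351)) (XT.nd (nat_lit 78) (nat_lit 0) (nat_lit 0) (XT.lf (nat_lit 0) (nat_lit 909321652)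 (nat_lit 76) (nat_lit 833680790) (nat_lit 152) (nat_lit 14857662377) (nat_lit 61) (nat_lit 5) (nat_lit 62) (nat_lit 5) (nat_lit 63) (nat_lit 4) (nat_lit 491) (nat_lit 359) (nat_lit 350)) (XT.lf (nat_lit 0) (nat_lit 8581291865) (nat_lit 152) (nat_lit 2518863349) (nat_lit 0) (nat_lit 5784965644) (nat_lit 61) (nat_lit 5) (nat_lit 63) (nat_lit 4) (nat_lit 61) (nat_lit 4) (nat_lit 492) (nat_lit 359) (nat_lit 349)))) (XT.nd (nat_lit 156) (nat_lit 152) (nat_lit 0) (XT.nd (nat_lit 78) (nat_lit 152) (nat_lit 0) (XT.lf (nat_lit 0) (nat_lit 11016563406) (nat_lit 152) (nat_lit 4597508056) (nat_lit 152) (nat_lit 1564361492) (nat_lit 59) (nat_lit 4) (nat_lit 61) (nat_lit 5) (nat_lit 61) (nat_lit 4) (nat_lit 493) (nat_lit 359) (nat_lit 348)) (XT.lf (nat_lit 0) (nat_lit 5264899495) (nat_lit 152) (nat_lit 10117449381) (nat_lit 0) (nat_lit 2096871120) (nat_lit 57) (nat_lit 5) (nat_lit 59) (nat_lit 4) (nat_lit 57) (nat_lit 4) (nat_lit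 494) (nat_lit 359) (nat_lit 347))) (XT.nd (nat_lit 78) (nat_lit 76) (nat_lit 0) (XT.lf (nat_lit 0) (nat_lit 3395548175) (nat_lit 76) (nat_lit 8888637530) (nat_lit 76) (nat_lit 5503884993) (nat_lit 56) (nat_lit 4) (nat_lit 57) (nat_lit 5) (nat_lit 57) (nat_lit 4) (nat_lit 495) (nat_lit 359) (nat_lit 346)) (XT.lf (nat_lit 0) (nat_lit 1359284279) (nat_lit 152) (nat_lit 835817256) (nat_lit 76) (nat_lit 15911314854) (nat_lit 55) (nat_lit 5) (nat_lit 57) (nat_lit 5) (nat_lit 56) (nat_lit 4) (nat_lit 496) (nat_lit 359) (nat_lit 345))))) (XT.nd (nat_lit 312) (nat_lit 304) (nat_lit 0) (XT.nd (nat_lit 156) (nat_lit 152) (nat_lit 0) (XT.nd (nat_lit 78) (nat_lit 76) (nat_lit 0) (XT.lf (nat_lit 0) (nat_lit 8368832103) (nat_lit 152) (nat_lit 5382266563) (nat_lit 0) (nat_lit 4680047976) (nat_lit 54) (nat_lit 5) (nat_lit 56) (nat_lit 4) (nat_lit 54) (nat_lit 4) (nat_lit 497) (nat_lit 359) (nat_lit 344)) (XT.lf (nat_lit 0) (nat_lit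 8513450462) (nat_lit 76) (nat_lit 7066880634) (nat_lit 76) (nat_lit 3185539896) (nat_lit 53) (nat_lit 4) (nat_lit 54) (nat_lit 5) (nat_lit 54) (nat_lit 4) (nat_lit 498) (nat_lit 359) (nat_lit 343))) (XT.nd (nat_lit 78) (nat_lit 0) (nat_lit 0) (XT.lf (nat_lit 0) (nat_lit 3627279981) (nat_lit 76) (nat_lit 163640651) (nat_lit 152) (nat_lit 15319511353) (nat_lit 51) (nat_lit 5) (nat_lit 52) (nat_lit 5) (nat_lit 53) (nat_lit 4) (nat_lit 499) (nat_lit 359) (nat_lit 342)) (XT.lf (nat_lit 0) (nat_lit 10963876315) (nat_lit 152) (nat_lit 1661107728) (nat_lit 0) (nat_lit 6837864687) (nat_lit 51) (nat_lit 5) (nat_lit 53) (nat_lit 4) (nat_lit 51) (nat_lit 4) (nat_lit 500) (nat_lit 359) (nat_lit 341)))) (XT.nd (nat_lit 156) (nat_lit 76) (nat_lit 0) (XT.nd (nat_lit 78) (nat_lit 152) (nat_lit 0) (XT.lf (nat_lit 0) (nat_lit 12593430628) (nat_lit 76) (nat_lit 5764661392) (nat_lit 76) (nat_lit 1467565711) (nat_lit 50) (nat_lit 4)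 (nat_lit 51) (nat_lit 5) (nat_lit 51) (nat_lit 4) (nat_lit 501) (nat_lit 359) (nat_lit 340)) (XT.lf (nat_lit 0) (nat_lit 5642312968) (nat_lit 152) (nat_lit 13246855714) (nat_lit 0) (nat_lit 1309112283) (nat_lit 48) (nat_lit 5) (nat_lit 50) (nat_lit 4) (nat_lit 48) (nat_lit 4) (nat_lit 502) (nat_lit 359) (nat_lit 339))) (XT.nd (nat_lit 78) (nat_lit 0) (nat_lit 0) (XT.lf (nat_lit 0) (nat_lit 846553235) (nat_lit 76) (nat_lit 12112091358) (nat_lit 76) (nat_lit 7622324528) (nat_lit 47) (nat_lit 4) (nat_lit 48) (nat_lit 5) (nat_lit 48) (nat_lit 4) (nat_lit 503) (nat_lit 359) (nat_lit 338)) (XT.lf (nat_lit 0) (nat_lit 15409947872) (nat_lit 76) (nat_lit 5103202007) (nat_lit 76) (nat_lit 461429211) (nat_lit 47) (nat_lit 4) (nat_lit 48) (nat_lit 5) (nat_lit 48) (nat_lit 4) (nat_lit 504) (nat_lit 359) (nat_lit 337))))))) (XT.nd (nat_lit 1170) (nat_lit 912) (nat_lit 0) (XT.nd (nat_lit 546) (nat_lit 456) (nat_lit 0) (XT.nd (nat_lit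 234) (nat_lit 380) (nat_lit 0) (XT.nd (nat_lit 78) (nat_lit 76) (nat_lit 0) (XT.lf (nat_lit 0) (nat_lit 6773069168) (nat_lit 152) (nat_lit 12481911440) (nat_lit 0) (nat_lit 2123213436) (nat_lit 45) (nat_lit 5) (nat_lit 47) (nat_lit 4) (nat_lit 45) (nat_lit 4) (nat_lit 505) (nat_lit 359) (nat_lit 336)) (XT.nd (nat_lit 78) (nat_lit 0) (nat_lit 0) (XT.lf (nat_lit 0) (nat_lit 1873520681) (nat_lit 76) (nat_lit 12354422756) (nat_lit 76) (nat_lit 7565460032) (nat_lit 44) (nat_lit 4) (nat_lit 45) (nat_lit 5) (nat_lit 45) (nat_lit 4) (nat_lit 506) (nat_lit 359) (nat_lit 335)) (XT.lf (nat_lit 0) (nat_lit 16697393633) (nat_lit 76) (nat_lit 5223629165) (nat_lit 76) (nat_lit 299611109) (nat_lit 44) (nat_lit 4) (nat_lit 45) (nat_lit 5) (nat_lit 45) (nat_lit 4) (nat_lit 507) (nat_lit 359) (nat_lit 334)))) (XT.nd (nat_lit 156) (nat_lit 152) (nat_lit 0) (XT.nd (nat_lit 78) (nat_lit 76) (nat_lit 0) (XT.lf (nat_lit 0) (nat_lit 7044110887)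 (nat_lit 152) (nat_lit 13478289154) (nat_lit 0) (nat_lit 2136208228) (nat_lit 42) (nat_lit 5) (nat_lit 44) (nat_lit 4) (nat_lit 42) (nat_lit 4) (nat_lit 508) (nat_lit 359) (nat_lit 333)) (XT.lf (nat_lit 0) (nat_lit 1081966436) (nat_lit 76) (nat_lit 13529443303) (nat_lit 76) (nat_lit 8497945884) (nat_lit 41) (nat_lit 4) (nat_lit 42) (nat_lit 5) (nat_lit 42) (nat_lit 4) (nat_lit 509) (nat_lit 359) (nat_lit 332))) (XT.nd (nat_lit 78) (nat_lit 152) (nat_lit 0) (XT.lf (nat_lit 0) (nat_lit 16143353587) (nat_lit 76) (nat_lit 6290461424) (nat_lit 76) (nat_lit 1138969091) (nat_lit 41) (nat_lit 4) (nat_lit 42) (nat_lit 5) (nat_lit 42) (nat_lit 4) (nat_lit 510) (nat_lit 359) (nat_lit 331)) (XT.lf (nat_lit 0) (nat_lit 6292661956) (nat_lit 152) (nat_lit 16578163943) (nat_lit 0) (nat_lit 1178106375) (nat_lit 39) (nat_lit 5) (nat_lit 41) (nat_lit 4) (nat_lit 39) (nat_lit 4) (nat_lit 511) (nat_lit 359) (nat_lit 330))))) (XT.nd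 (nat_lit 312) (nat_lit 228) (nat_lit 0) (XT.nd (nat_lit 156) (nat_lit 152) (nat_lit 0) (XT.nd (nat_lit 78) (nat_lit 76) (nat_lit 0) (XT.lf (nat_lit 0) (nat_lit 13956621168) (nat_lit 152) (nat_lit 1849185246) (nat_lit 0) (nat_lit 8732253242) (nat_lit 39) (nat_lit 5) (nat_lit 41) (nat_lit 4) (nat_lit 39) (nat_lit 4) (nat_lit 512) (nat_lit 359) (nat_lit 329)) (XT.lf (nat_lit 0) (nat_lit 13380790912) (nat_lit 76) (nat_lit 8495637550) (nat_lit 76) (nat_lit 3164655698) (nat_lit 38) (nat_lit 4) (nat_lit 39) (nat_lit 5) (nat_lit 39) (nat_lit 4) (nat_lit 513) (nat_lit 359) (nat_lit 328))) (XT.nd (nat_lit 78) (nat_lit 0) (nat_lit 0) (XT.lf (nat_lit 0) (nat_lit 3367403170) (nat_lit 76) (nat_lit 968505050) (nat_lit 152) (nat_lit 21223544091) (nat_lit 36) (nat_lit 5) (nat_lit 37) (nat_lit 5) (nat_lit 38) (nat_lit 4) (nat_lit 514) (nat_lit 359) (nat_lit 327)) (XT.lf (nat_lit 0) (nat_lit 12079496377) (nat_lit 152) (nat_lit 7304762655)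 (nat_lit 0) (nat_lit 6705725144) (nat_lit 36) (nat_lit 5) (nat_lit 38) (nat_lit 4) (nat_lit 36) (nat_lit 4) (nat_lit 515) (nat_lit 359) (nat_lit 326)))) (XT.nd (nat_lit 156) (nat_lit 76) (nat_lit 0) (XT.nd (nat_lit 78) (nat_lit 76) (nat_lit 0) (XT.lf (nat_lit 0) (nat_lit 7978976733) (nat_lit 76) (nat_lit 12063174926) (nat_lit 76) (nat_lit 6594678601) (nat_lit 35) (nat_lit 4) (nat_lit 36) (nat_lit 5) (nat_lit 36) (nat_lit 4) (nat_lit 516) (nat_lit 359) (nat_lit 325)) (XT.lf (nat_lit 0) (nat_lit 998260459) (nat_lit 152) (nat_lit 3533993701) (nat_lit 76) (nat_lit 22668276998) (nat_lit 34) (nat_lit 5) (nat_lit 36) (nat_lit 5) (nat_lit 35) (nat_lit 4) (nat_lit 517) (nat_lit 359) (nat_lit 324))) (XT.nd (nat_lit 78) (nat_lit 0) (nat_lit 0) (XT.lf (nat_lit 0) (nat_lit 8737313409) (nat_lit 152) (nat_lit 15788226339) (nat_lit 0) (nat_lit 3252119312) (nat_lit 33) (nat_lit 5) (nat_lit 35) (nat_lit 4) (nat_lit 33) (nat_lit 4)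 (nat_lit 518) (nat_lit 359) (nat_lit 323)) (XT.lf (nat_lit 0) (nat_lit 16692977770) (nat_lit 152) (nat_lit 555969112) (nat_lit 0) (nat_lit 11123621655) (nat_lit 33) (nat_lit 5) (nat_lit 35) (nat_lit 4) (nat_lit 33) (nat_lit 4) (nat_lit 519) (nat_lit 359) (nat_lit 322)))))) (XT.nd (nat_lit 624) (nat_lit 380) (nat_lit 0) (XT.nd (nat_lit 312) (nat_lit 228) (nat_lit 0) (XT.nd (nat_lit 156) (nat_lit 76) (nat_lit 0) (XT.nd (nat_lit 78) (nat_lit 152) (nat_lit 0) (XT.lf (nat_lit 0) (nat_lit 15245589958) (nat_lit 76) (nat_lit 9694608235) (nat_lit 76) (nat_lit 4043541423) (nat_lit 32) (nat_lit 4) (nat_lit 33) (nat_lit 5) (nat_lit 33) (nat_lit 4) (nat_lit 520) (nat_lit 359) (nat_lit 321)) (XT.lf (nat_lit 0) (nat_lit 1731297080) (nat_lit 76) (nat_lit 1944414577) (nat_lit 152) (nat_lit 25938572102) (nat_lit 30) (nat_lit 5) (nat_lit 31) (nat_lit 5) (nat_lit 32) (nat_lit 4) (nat_lit 521) (nat_lit 359) (nat_lit 320))) (XT.nd (nat_lit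 78) (nat_lit 76) (nat_lit 0) (XT.lf (nat_lit 0) (nat_lit 11649891452) (nat_lit 152) (nat_lit 12597892153) (nat_lit 0) (nat_lit 6011621788) (nat_lit 30) (nat_lit 5) (nat_lit 32) (nat_lit 4) (nat_lit 30) (nat_lit 4) (nat_lit 522) (nat_lit 359) (nat_lit 319)) (XT.lf (nat_lit 0) (nat_lit 3005240533) (nat_lit 76) (nat_lit 16815394675) (nat_lit 76) (nat_lit 11104526114) (nat_lit 29) (nat_lit 4) (nat_lit 30) (nat_lit 5) (nat_lit 30) (nat_lit 4) (nat_lit 523) (nat_lit 359) (nat_lit 318)))) (XT.nd (nat_lit 156) (nat_lit 76) (nat_lit 0) (XT.nd (nat_lit 78) (nat_lit 152) (nat_lit 0) (XT.lf (nat_lit 0) (nat_lit 19156569311) (nat_lit 76) (nat_lit 9117276987) (nat_lit 76) (nat_lit 3335924061) (nat_lit 29) (nat_lit 4) (nat_lit 30) (nat_lit 5) (nat_lit 30) (nat_lit 4) (nat_lit 524) (nat_lit 359) (nat_lit 317)) (XT.lf (nat_lit 0) (nat_lit 3322802079) (nat_lit 76) (nat_lit 1195713401) (nat_lit 152) (nat_lit 27796742680) (nat_lit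 27) (nat_lit 5) (nat_lit 28) (nat_lit 5) (nat_lit 29) (nat_lit 4) (nat_lit 525) (nat_lit 359) (nat_lit 316))) (XT.nd (nat_lit 78) (nat_lit 76) (nat_lit 0) (XT.lf (nat_lit 0) (nat_lit 12647437716) (nat_lit 152) (nat_lit 13486773521) (nat_lit 0) (nat_lit 6903532257) (nat_lit 27) (nat_lit 5) (nat_lit 29) (nat_lit 4) (nat_lit 27) (nat_lit 4) (nat_lit 526) (nat_lit 359) (nat_lit 315)) (XT.lf (nat_lit 0) (nat_lit 2348369013) (nat_lit 76) (nat_lit 18620798389) (nat_lit 76) (nat_lit 12814268485) (nat_lit 26) (nat_lit 4) (nat_lit 27) (nat_lit 5) (nat_lit 27) (nat_lit 4) (nat_lit 527) (nat_lit 359) (nat_lit 314))))) (XT.nd (nat_lit 312) (nat_lit 228) (nat_lit 0) (XT.nd (nat_lit 156) (nat_lit 0) (nat_lit 0) (XT.nd (nat_lit 78) (nat_lit 152) (nat_lit 0) (XT.lf (nat_lit 0) (nat_lit 18766998260) (nat_lit 76) (nat_lit 10825142030) (nat_lit 76) (nat_lit 4957811694) (nat_lit 26) (nat_lit 4) (nat_lit 27) (nat_lit 5) (nat_lit 27)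 (nat_lit 4) (nat_lit 528) (nat_lit 359) (nat_lit 313)) (XT.lf (nat_lit 0) (nat_lit 146665101) (nat_lit 76) (nat_lit 2844972821) (nat_lit 152) (nat_lit 32349368559) (nat_lit 24) (nat_lit 5) (nat_lit 25) (nat_lit 5) (nat_lit 26) (nat_lit 4) (nat_lit 529) (nat_lit 359) (nat_lit 312))) (XT.nd (nat_lit 78) (nat_lit 0) (nat_lit 0) (XT.lf (nat_lit 0) (nat_lit 11209662389) (nat_lit 152) (nat_lit 19540492149) (nat_lit 0) (nat_lit 5400273921) (nat_lit 24) (nat_lit 5) (nat_lit 26) (nat_lit 4) (nat_lit 24) (nat_lit 4) (nat_lit 530) (nat_lit 359) (nat_lit 311)) (XT.lf (nat_lit 0) (nat_lit 19621929261) (nat_lit 152) (nat_lit 3605252985) (nat_lit 0) (nat_lit 13758520396) (nat_lit 24) (nat_lit 5) (nat_lit 26) (nat_lit 4) (nat_lit 24) (nat_lit 4) (nat_lit 531) (nat_lit 359) (nat_lit 310)))) (XT.nd (nat_lit 156) (nat_lit 152) (nat_lit 0) (XT.nd (nat_lit 78) (nat_lit 0) (nat_lit 0) (XT.lf (nat_lit 0) (nat_lit 12904460225) (nat_lit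 76) (nat_lit 15428026786) (nat_lit 76) (nat_lit 9512170934) (nat_lit 23) (nat_lit 4) (nat_lit 24) (nat_lit 5) (nat_lit 24) (nat_lit 4) (nat_lit 532) (nat_lit 359) (nat_lit 309)) (XT.lf (nat_lit 0) (nat_lit 29829496842) (nat_lit 76) (nat_lit 7433944249) (nat_lit 76) (nat_lit 1467168992) (nat_lit 23) (nat_lit 4) (nat_lit 24) (nat_lit 5) (nat_lit 24) (nat_lit 4) (nat_lit 533) (nat_lit 359) (nat_lit 308))) (XT.nd (nat_lit 78) (nat_lit 0) (nat_lit 0) (XT.lf (nat_lit 0) (nat_lit 6691209165) (nat_lit 152) (nat_lit 32099585800) (nat_lit 0) (nat_lit 850227056) (nat_lit 21) (nat_lit 5) (nat_lit 23) (nat_lit 4) (nat_lit 21) (nat_lit 4) (nat_lit 534) (nat_lit 359) (nat_lit 307)) (XT.lf (nat_lit 0) (nat_lit 15153466190) (nat_lit 152) (nat_lit 16156300753) (nat_lit 0) (nat_lit 9265885613) (nat_lit 21) (nat_lit 5) (nat_lit 23) (nat_lit 4) (nat_lit 21) (nat_lit 4) (nat_lit 535) (nat_lit 359) (nat_lit 306))))))))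
noncomputable def xc22 : XT := (XT.nd (nat_lit 59046) (nat_lit 0) (nat_lit 1368) (XT.nd (nat_lit 1170) (nat_lit 152) (nat_lit 0) (XT.nd (nat_lit 546) (nat_lit 228) (nat_lit 0) (XT.nd (nat_lit 234) (nat_lit 228) (nat_lit 0) (XT.nd (nat_lit 78) (nat_lit 0) (nat_lit 0) (XT.lf (nat_lit 0) (nat_lit 121085030) (nat_lit 76) (nat_lit 23676115499) (nat_lit 76) (nat_lit 17743293689) (nat_lit 20) (nat_lit 4) (nat_lit 21) (nat_lit 5) (nat_lit 21) (nat_lit 4) (nat_lit 536) (nat_lit 359) (nat_lit 305)) (XT.nd (nat_lit 78) (nat_lit 0) (nat_lit 0) (XT.lf (nat_lit 0) (nat_lit 17072856960) (nat_lit 76) (nat_lit 15717729897) (nat_lit 76) (nat_lit 9740984561) (nat_lit 20) (nat_lit 4) (nat_lit 21) (nat_lit 5) (nat_lit 21) (nat_lit 4) (nat_lit 537) (nat_lit 359) (nat_lit 304)) (XT.lf (nat_lit 0) (nat_lit 34392285203) (nat_lit 76) (nat_lit 7590803165) (nat_lit 76) (nat_lit 1571413630) (nat_lit 20) (nat_lit 4) (nat_lit 21) (nat_lit 5)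 (nat_lit 21) (nat_lit 4) (nat_lit 538) (nat_lit 359) (nat_lit 303)))) (XT.nd (nat_lit 156) (nat_lit 76) (nat_lit 0) (XT.nd (nat_lit 78) (nat_lit 0) (nat_lit 0) (XT.lf (nat_lit 0) (nat_lit 6721344713) (nat_lit 152) (nat_lit 37047372729) (nat_lit 0) (nat_lit 837080954) (nat_lit 18) (nat_lit 5) (nat_lit 20) (nat_lit 4) (nat_lit 18) (nat_lit 4) (nat_lit 539) (nat_lit 359) (nat_lit 302)) (XT.lf (nat_lit 0) (nat_lit 15330635143) (nat_lit 152) (nat_lit 20947206324) (nat_lit 0) (nat_lit 9407345900) (nat_lit 18) (nat_lit 5) (nat_lit 20) (nat_lit 4) (nat_lit 18) (nat_lit 4) (nat_lit 540) (nat_lit 359) (nat_lit 301))) (XT.nd (nat_lit 78) (nat_lit 76) (nat_lit 0) (XT.lf (nat_lit 0) (nat_lit 24130961818) (nat_lit 152) (nat_lit 4498230125) (nat_lit 0) (nat_lit 18169783756) (nat_lit 18) (nat_lit 5) (nat_lit 20) (nat_lit 4) (nat_lit 18) (nat_lit 4) (nat_lit 541) (nat_lit 359) (nat_lit 300)) (XT.lf (nat_lit 0) (nat_lit 12559000085)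 (nat_lit 76) (nat_lit 20691739052) (nat_lit 76) (nat_lit 14693775728) (nat_lit 17) (nat_lit 4) (nat_lit 18) (nat_lit 5) (nat_lit 18) (nat_lit 4) (nat_lit 542) (nat_lit 359) (nat_lit 299))))) (XT.nd (nat_lit 312) (nat_lit 76) (nat_lit 0) (XT.nd (nat_lit 156) (nat_lit 76) (nat_lit 0) (XT.nd (nat_lit 78) (nat_lit 76) (nat_lit 0) (XT.lf (nat_lit 0) (nat_lit 30091147228) (nat_lit 76) (nat_lit 12533763259) (nat_lit 76) (nat_lit 6500086089) (nat_lit 17) (nat_lit 4) (nat_lit 18) (nat_lit 5) (nat_lit 18) (nat_lit 4) (nat_lit 543) (nat_lit 359) (nat_lit 298)) (XT.lf (nat_lit 0) (nat_lit 1838207333) (nat_lit 152) (nat_lit 2336789921) (nat_lit 76) (nat_lit 46167237433) (nat_lit 16) (nat_lit 5) (nat_lit 18) (nat_lit 5) (nat_lit 17) (nat_lit 4) (nat_lit 544) (nat_lit 359) (nat_lit 297))) (XT.nd (nat_lit 78) (nat_lit 0) (nat_lit 0) (XT.lf (nat_lit 0) (nat_lit 10422450162) (nat_lit 152) (nat_lit 36669651836) (nat_lit 0) (nat_lit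 4498164208) (nat_lit 15) (nat_lit 5) (nat_lit 17) (nat_lit 4) (nat_lit 15) (nat_lit 4) (nat_lit 545) (nat_lit 359) (nat_lit 296)) (XT.lf (nat_lit 0) (nat_lit 19267909899) (nat_lit 152) (nat_lit 20295825780) (nat_lit 0) (nat_lit 13311892655) (nat_lit 15) (nat_lit 5) (nat_lit 17) (nat_lit 4) (nat_lit 15) (nat_lit 4) (nat_lit 546) (nat_lit 359) (nat_lit 295)))) (XT.nd (nat_lit 156) (nat_lit 0) (nat_lit 0) (XT.nd (nat_lit 78) (nat_lit 76) (nat_lit 0) (XT.lf (nat_lit 0) (nat_lit 28319046424) (nat_lit 152) (nat_lit 3550073748) (nat_lit 0) (nat_lit 22332222102) (nat_lit 15) (nat_lit 5) (nat_lit 17) (nat_lit 4) (nat_lit 15) (nat_lit 4) (nat_lit 547) (nat_lit 359) (nat_lit 294)) (XT.lf (nat_lit 0) (nat_lit 13852549604) (nat_lit 76) (nat_lit 23864378074) (nat_lit 76) (nat_lit 17847643969) (nat_lit 14) (nat_lit 4) (nat_lit 15) (nat_lit 5) (nat_lit 15) (nat_lit 4) (nat_lit 548) (nat_lit 359) (nat_lit 293))) (XT.nd (nat_lit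 78) (nat_lit 0) (nat_lit 0) (XT.lf (nat_lit 0) (nat_lit 31735345749) (nat_lit 76) (nat_lit 15639885316) (nat_lit 76) (nat_lit 9594112585) (nat_lit 14) (nat_lit 4) (nat_lit 15) (nat_lit 5) (nat_lit 15) (nat_lit 4) (nat_lit 549) (nat_lit 359) (nat_lit 292)) (XT.lf (nat_lit 0) (nat_lit 50043287000) (nat_lit 76) (nat_lit 7224304232) (nat_lit 76) (nat_lit 1150338662) (nat_lit 14) (nat_lit 4) (nat_lit 15) (nat_lit 5) (nat_lit 15) (nat_lit 4) (nat_lit 550) (nat_lit 359) (nat_lit 291)))))) (XT.nd (nat_lit 57252) (nat_lit 0) (nat_lit 3800) (XT.nd (nat_lit 56940) (nat_lit 0) (nat_lit 4788) (XT.nd (nat_lit 78) (nat_lit 0) (nat_lit 0) (XT.lf (nat_lit 0) (nat_lit 7446165659) (nat_lit 152) (nat_lit 50937694349) (nat_lit 0) (nat_lit 1522537252) (nat_lit 12) (nat_lit 5) (nat_lit 14) (nat_lit 4) (nat_lit 12) (nat_lit 4) (nat_lit 551) (nat_lit 359) (nat_lit 290)) (XT.nd (nat_lit 78) (nat_lit 0) (nat_lit 0) (XT.lf (nat_lit 0) (nat_lit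 16379802703) (nat_lit 152) (nat_lit 34625929942) (nat_lit 0) (nat_lit 10430373853) (nat_lit 12) (nat_lit 5) (nat_lit 14) (nat_lit 4) (nat_lit 12) (nat_lit 4) (nat_lit 552) (nat_lit 359) (nat_lit 289)) (XT.lf (nat_lit 0) (nat_lit 25528464121) (nat_lit 152) (nat_lit 17930846413) (nat_lit 0) (nat_lit 19553986298) (nat_lit 12) (nat_lit 5) (nat_lit 14) (nat_lit 4) (nat_lit 12) (nat_lit 4) (nat_lit 553) (nat_lit 359) (nat_lit 288)))) (XT.nd (nat_lit 156) (nat_lit 304) (nat_lit 0) (XT.nd (nat_lit 78) (nat_lit 152) (nat_lit 0) (XT.lf (nat_lit 0) (nat_lit 2676704291) (nat_lit 152) (nat_lit 1598930023) (nat_lit 0) (nat_lit 2676704291) (nat_lit 81) (nat_lit 5) (nat_lit 83) (nat_lit 4) (nat_lit 81) (nat_lit 4) (nat_lit 480) (nat_lit 360) (nat_lit 360)) (XT.lf (nat_lit 0) (nat_lit 9111222349) (nat_lit 152) (nat_lit 2694951676) (nat_lit 152) (nat_lit 2314924548) (nat_lit 79) (nat_lit 4) (nat_lit 81) (nat_lit 5) (nat_lit 81) (nat_lit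 4) (nat_lit 481) (nat_lit 360) (nat_lit 359))) (XT.nd (nat_lit 78) (nat_lit 152) (nat_lit 0) (XT.lf (nat_lit 0) (nat_lit 4033176235) (nat_lit 152) (nat_lit 7003504510) (nat_lit 0) (nat_lit 3306005841) (nat_lit 77) (nat_lit 5) (nat_lit 79) (nat_lit 4) (nat_lit 77) (nat_lit 4) (nat_lit 482) (nat_lit 360) (nat_lit 358)) (XT.lf (nat_lit 0) (nat_lit 5403338330) (nat_lit 152) (nat_lit 5120938340) (nat_lit 152) (nat_lit 4045989288) (nat_lit 75) (nat_lit 4) (nat_lit 77) (nat_lit 5) (nat_lit 77) (nat_lit 4) (nat_lit 483) (nat_lit 360) (nat_lit 357))))) (XT.nd (nat_lit 312) (nat_lit 532) (nat_lit 0) (XT.nd (nat_lit 156) (nat_lit 152) (nat_lit 0) (XT.nd (nat_lit 78) (nat_lit 152) (nat_lit 0) (XT.lf (nat_lit 0) (nat_lit 2340910900) (nat_lit 152) (nat_lit 11494143088) (nat_lit 0) (nat_lit 969456305) (nat_lit 73) (nat_lit 5) (nat_lit 75) (nat_lit 4) (nat_lit 73) (nat_lit 4) (nat_lit 484) (nat_lit 360) (nat_lit 356)) (XT.lf (nat_lit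 0) (nat_lit 989925721) (nat_lit 152) (nat_lit 7871834714) (nat_lit 152) (nat_lit 6182113382) (nat_lit 71) (nat_lit 4) (nat_lit 73) (nat_lit 5) (nat_lit 73) (nat_lit 4) (nat_lit 485) (nat_lit 360) (nat_lit 355))) (XT.nd (nat_lit 78) (nat_lit 76) (nat_lit 0) (XT.lf (nat_lit 0) (nat_lit 269561368) (nat_lit 228) (nat_lit 1451508587) (nat_lit 76) (nat_lit 13569647796) (nat_lit 70) (nat_lit 5) (nat_lit 73) (nat_lit 5) (nat_lit 71) (nat_lit 4) (nat_lit 486) (nat_lit 360) (nat_lit 354)) (XT.lf (nat_lit 0) (nat_lit 6819534762) (nat_lit 152) (nat_lit 4134956569) (nat_lit 0) (nat_lit 4587772539) (nat_lit 69) (nat_lit 5) (nat_lit 71) (nat_lit 4) (nat_lit 69) (nat_lit 4) (nat_lit 487) (nat_lit 360) (nat_lit 353)))) (XT.nd (nat_lit 156) (nat_lit 228) (nat_lit 0) (XT.nd (nat_lit 78) (nat_lit 152) (nat_lit 0) (XT.lf (nat_lit 0) (nat_lit 8797193859) (nat_lit 152) (nat_lit 4759491696) (nat_lit 152) (nat_lit 2244953599) (nat_lit 67)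 (nat_lit 4) (nat_lit 69) (nat_lit 5) (nat_lit 69) (nat_lit 4) (nat_lit 488) (nat_lit 360) (nat_lit 352)) (XT.lf (nat_lit 0) (nat_lit 4330663788) (nat_lit 152) (nat_lit 10114339929) (nat_lit 0) (nat_lit 1622821283) (nat_lit 65) (nat_lit 5) (nat_lit 67) (nat_lit 4) (nat_lit 65) (nat_lit 4) (nat_lit 489) (nat_lit 360) (nat_lit 351))) (XT.nd (nat_lit 78) (nat_lit 76) (nat_lit 0) (XT.lf (nat_lit 0) (nat_lit 2850944762) (nat_lit 152) (nat_lit 8228194433) (nat_lit 152) (nat_lit 5261571945) (nat_lit 63) (nat_lit 4) (nat_lit 65) (nat_lit 5) (nat_lit 65) (nat_lit 4) (nat_lit 490) (nat_lit 360) (nat_lit 350)) (XT.lf (nat_lit 0) (nat_lit 1358849930) (nat_lit 228) (nat_lit 459399830) (nat_lit 76) (nat_lit 14803789314) (nat_lit 62) (nat_lit 5) (nat_lit 65) (nat_lit 5) (nat_lit 63) (nat_lit 4) (nat_lit 491) (nat_lit 360) (nat_lit 349))))))) (XT.nd (nat_lit 1170) (nat_lit 1140) (nat_lit 0) (XT.nd (nat_lit 546) (nat_lit 608) (nat_lit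 0) (XT.nd (nat_lit 234) (nat_lit 304) (nat_lit 0) (XT.nd (nat_lit 78) (nat_lit 304) (nat_lit 0) (XT.lf (nat_lit 0) (nat_lit 8121643447) (nat_lit 152) (nat_lit 4026435690) (nat_lit 0) (nat_lit 4760682144) (nat_lit 61) (nat_lit 5) (nat_lit 63) (nat_lit 4) (nat_lit 61) (nat_lit 4) (nat_lit 492) (nat_lit 360) (nat_lit 348)) (XT.nd (nat_lit 78) (nat_lit 152) (nat_lit 0) (XT.lf (nat_lit 0) (nat_lit 9362434013) (nat_lit 152) (nat_lit 5716396184) (nat_lit 152) (nat_lit 2125512218) (nat_lit 59) (nat_lit 4) (nat_lit 61) (nat_lit 5) (nat_lit 61) (nat_lit 4) (nat_lit 493) (nat_lit 360) (nat_lit 347)) (XT.lf (nat_lit 0) (nat_lit 4626023973) (nat_lit 152) (nat_lit 11958924034) (nat_lit 0) (nat_lit 923004700) (nat_lit 57) (nat_lit 5) (nat_lit 59) (nat_lit 4) (nat_lit 57) (nat_lit 4) (nat_lit 494) (nat_lit 360) (nat_lit 346)))) (XT.nd (nat_lit 156) (nat_lit 152) (nat_lit 0) (XT.nd (nat_lit 78) (nat_lit 76) (nat_lit 0) (XT.lf (nat_lit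 0) (nat_lit 1400671751) (nat_lit 76) (nat_lit 10165962088) (nat_lit 76) (nat_lit 6252531007) (nat_lit 56) (nat_lit 4) (nat_lit 57) (nat_lit 5) (nat_lit 57) (nat_lit 4) (nat_lit 495) (nat_lit 360) (nat_lit 345)) (XT.lf (nat_lit 0) (nat_lit 565806250) (nat_lit 152) (nat_lit 2969127700) (nat_lit 76) (nat_lit 14604576785) (nat_lit 55) (nat_lit 5) (nat_lit 57) (nat_lit 5) (nat_lit 56) (nat_lit 4) (nat_lit 496) (nat_lit 360) (nat_lit 344))) (XT.nd (nat_lit 78) (nat_lit 76) (nat_lit 0) (XT.lf (nat_lit 0) (nat_lit 7482028211) (nat_lit 152) (nat_lit 7693322963) (nat_lit 0) (nat_lit 3291690640) (nat_lit 54) (nat_lit 5) (nat_lit 56) (nat_lit 4) (nat_lit 54) (nat_lit 4) (nat_lit 497) (nat_lit 360) (nat_lit 343)) (XT.lf (nat_lit 0) (nat_lit 6042870091) (nat_lit 76) (nat_lit 8569311596) (nat_lit 76) (nat_lit 4192025861) (nat_lit 53) (nat_lit 4) (nat_lit 54) (nat_lit 5) (nat_lit 54) (nat_lit 4) (nat_lit 498) (nat_lit 360) (nat_lit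 342))))) (XT.nd (nat_lit 312) (nat_lit 228) (nat_lit 0) (XT.nd (nat_lit 156) (nat_lit 228) (nat_lit 0) (XT.nd (nat_lit 78) (nat_lit 0) (nat_lit 0) (XT.lf (nat_lit 0) (nat_lit 964712807) (nat_lit 76) (nat_lit 1756223949) (nat_lit 152) (nat_lit 16430617136) (nat_lit 51) (nat_lit 5) (nat_lit 52) (nat_lit 5) (nat_lit 53) (nat_lit 4) (nat_lit 499) (nat_lit 360) (nat_lit 341)) (XT.lf (nat_lit 0) (nat_lit 9821142859) (nat_lit 152) (nat_lit 4460960946) (nat_lit 0) (nat_lit 5224050253) (nat_lit 51) (nat_lit 5) (nat_lit 53) (nat_lit 4) (nat_lit 51) (nat_lit 4) (nat_lit 500) (nat_lit 360) (nat_lit 340))) (XT.nd (nat_lit 78) (nat_lit 152) (nat_lit 0) (XT.lf (nat_lit 0) (nat_lit 9627474692) (nat_lit 76) (nat_lit 7503605623) (nat_lit 76) (nat_lit 2740411994) (nat_lit 50) (nat_lit 4) (nat_lit 51) (nat_lit 5) (nat_lit 51) (nat_lit 4) (nat_lit 501) (nat_lit 360) (nat_lit 339)) (XT.lf (nat_lit 0) (nat_lit 3794962672) (nat_lit 76)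 (nat_lit 500317835) (nat_lit 152) (nat_lit 15952173670) (nat_lit 48) (nat_lit 5) (nat_lit 49) (nat_lit 5) (nat_lit 50) (nat_lit 4) (nat_lit 502) (nat_lit 360) (nat_lit 338)))) (XT.nd (nat_lit 156) (nat_lit 152) (nat_lit 0) (XT.nd (nat_lit 78) (nat_lit 76) (nat_lit 0) (XT.lf (nat_lit 0) (nat_lit 11543036204) (nat_lit 152) (nat_lit 2479159978) (nat_lit 0) (nat_lit 6610004258) (nat_lit 48) (nat_lit 5) (nat_lit 50) (nat_lit 4) (nat_lit 48) (nat_lit 4) (nat_lit 503) (nat_lit 360) (nat_lit 337)) (XT.lf (nat_lit 0) (nat_lit 11927589460) (nat_lit 76) (nat_lit 7090606339) (nat_lit 76) (nat_lit 2009995785) (nat_lit 47) (nat_lit 4) (nat_lit 48) (nat_lit 5) (nat_lit 48) (nat_lit 4) (nat_lit 504) (nat_lit 360) (nat_lit 336))) (XT.nd (nat_lit 78) (nat_lit 0) (nat_lit 0) (XT.lf (nat_lit 0) (nat_lit 5145104882) (nat_lit 152) (nat_lit 16217071177) (nat_lit 0) (nat_lit 73366284) (nat_lit 45) (nat_lit 5) (nat_lit 47) (nat_lit 4) (nat_lit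 45) (nat_lit 4) (nat_lit 505) (nat_lit 360) (nat_lit 335)) (XT.lf (nat_lit 0) (nat_lit 12528084226) (nat_lit 152) (nat_lit 2003534831) (nat_lit 0) (nat_lit 7321290296) (nat_lit 45) (nat_lit 5) (nat_lit 47) (nat_lit 4) (nat_lit 45) (nat_lit 4) (nat_lit 506) (nat_lit 360) (nat_lit 334)))))) (XT.nd (nat_lit 624) (nat_lit 532) (nat_lit 0) (XT.nd (nat_lit 312) (nat_lit 304) (nat_lit 0) (XT.nd (nat_lit 156) (nat_lit 76) (nat_lit 0) (XT.nd (nat_lit 78) (nat_lit 152) (nat_lit 0) (XT.lf (nat_lit 0) (nat_lit 12676159921) (nat_lit 76) (nat_lit 7472042516) (nat_lit 76) (nat_lit 2134126903) (nat_lit 44) (nat_lit 4) (nat_lit 45) (nat_lit 5) (nat_lit 45) (nat_lit 4) (nat_lit 507) (nat_lit 360) (nat_lit 333)) (XT.lf (nat_lit 0) (nat_lit 4951345452) (nat_lit 76) (nat_lit 179966699) (nat_lit 152) (nat_lit 17592943687) (nat_lit 42) (nat_lit 5) (nat_lit 43) (nat_lit 5) (nat_lit 44) (nat_lit 4) (nat_lit 508) (nat_lit 360) (nat_lit 332)))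 (XT.nd (nat_lit 78) (nat_lit 76) (nat_lit 0) (XT.lf (nat_lit 0) (nat_lit 12634273992) (nat_lit 152) (nat_lit 3334417990) (nat_lit 0) (nat_lit 7208241975) (nat_lit 42) (nat_lit 5) (nat_lit 44) (nat_lit 4) (nat_lit 42) (nat_lit 4) (nat_lit 509) (nat_lit 360) (nat_lit 331)) (XT.lf (nat_lit 0) (nat_lit 11559231348) (nat_lit 76) (nat_lit 8813097089) (nat_lit 76) (nat_lit 3270565157) (nat_lit 41) (nat_lit 4) (nat_lit 42) (nat_lit 5) (nat_lit 42) (nat_lit 4) (nat_lit 510) (nat_lit 360) (nat_lit 330)))) (XT.nd (nat_lit 156) (nat_lit 152) (nat_lit 0) (XT.nd (nat_lit 78) (nat_lit 0) (nat_lit 0) (XT.lf (nat_lit 0) (nat_lit 2655291590) (nat_lit 76) (nat_lit 1438762713) (nat_lit 152) (nat_lit 20028860969) (nat_lit 39) (nat_lit 5) (nat_lit 40) (nat_lit 5) (nat_lit 41) (nat_lit 4) (nat_lit 511) (nat_lit 360) (nat_lit 329)) (XT.lf (nat_lit 0) (nat_lit 11693594558) (nat_lit 152) (nat_lit 6824311923) (nat_lit 0) (nat_lit 6096069324)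 (nat_lit 39) (nat_lit 5) (nat_lit 41) (nat_lit 4) (nat_lit 39) (nat_lit 4) (nat_lit 512) (nat_lit 360) (nat_lit 328))) (XT.nd (nat_lit 78) (nat_lit 76) (nat_lit 0) (XT.lf (nat_lit 0) (nat_lit 8208127719) (nat_lit 76) (nat_lit 11306436098) (nat_lit 76) (nat_lit 5605402198) (nat_lit 38) (nat_lit 4) (nat_lit 39) (nat_lit 5) (nat_lit 39) (nat_lit 4) (nat_lit 513) (nat_lit 360) (nat_lit 327)) (XT.lf (nat_lit 0) (nat_lit 1861334011) (nat_lit 152) (nat_lit 2023019707) (nat_lit 76) (nat_lit 21757128501) (nat_lit 37) (nat_lit 5) (nat_lit 39) (nat_lit 5) (nat_lit 38) (nat_lit 4) (nat_lit 514) (nat_lit 360) (nat_lit 326))))) (XT.nd (nat_lit 312) (nat_lit 228) (nat_lit 0) (XT.nd (nat_lit 156) (nat_lit 152) (nat_lit 0) (XT.nd (nat_lit 78) (nat_lit 76) (nat_lit 0) (XT.lf (nat_lit 0) (nat_lit 9507834539) (nat_lit 152) (nat_lit 12886534458) (nat_lit 0) (nat_lit 3780558231) (nat_lit 36) (nat_lit 5) (nat_lit 38) (nat_lit 4) (nat_lit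 36) (nat_lit 4) (nat_lit 515) (nat_lit 360) (nat_lit 325)) (XT.lf (nat_lit 0) (nat_lit 2190377394) (nat_lit 76) (nat_lit 15176868084) (nat_lit 76) (nat_lit 9357625666) (nat_lit 35) (nat_lit 4) (nat_lit 36) (nat_lit 5) (nat_lit 36) (nat_lit 4) (nat_lit 516) (nat_lit 360) (nat_lit 324))) (XT.nd (nat_lit 78) (nat_lit 152) (nat_lit 0) (XT.lf (nat_lit 0) (nat_lit 17795067784) (nat_lit 76) (nat_lit 7701870744) (nat_lit 76) (nat_lit 1793340842) (nat_lit 35) (nat_lit 4) (nat_lit 36) (nat_lit 5) (nat_lit 36) (nat_lit 4) (nat_lit 517) (nat_lit 360) (nat_lit 323)) (XT.lf (nat_lit 0) (nat_lit 5843692393) (nat_lit 152) (nat_lit 22005249349) (nat_lit 0) (nat_lit 23093577) (nat_lit 33) (nat_lit 5) (nat_lit 35) (nat_lit 4) (nat_lit 33) (nat_lit 4) (nat_lit 518) (nat_lit 360) (nat_lit 322)))) (XT.nd (nat_lit 156) (nat_lit 152) (nat_lit 0) (XT.nd (nat_lit 78) (nat_lit 76) (nat_lit 0) (XT.lf (nat_lit 0) (nat_lit 13753216949) (nat_lit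 152) (nat_lit 6864205050) (nat_lit 0) (nat_lit 7850907435) (nat_lit 33) (nat_lit 5) (nat_lit 35) (nat_lit 4) (nat_lit 33) (nat_lit 4) (nat_lit 519) (nat_lit 360) (nat_lit 321)) (XT.lf (nat_lit 0) (nat_lit 8721489071) (nat_lit 76) (nat_lit 13171438725) (nat_lit 76) (nat_lit 7189798438) (nat_lit 32) (nat_lit 4) (nat_lit 33) (nat_lit 5) (nat_lit 33) (nat_lit 4) (nat_lit 520) (nat_lit 360) (nat_lit 320))) (XT.nd (nat_lit 78) (nat_lit 76) (nat_lit 0) (XT.lf (nat_lit 0) (nat_lit 529433697) (nat_lit 152) (nat_lit 4983910050) (nat_lit 76) (nat_lit 24202676823) (nat_lit 31) (nat_lit 5) (nat_lit 33) (nat_lit 5) (nat_lit 32) (nat_lit 4) (nat_lit 521) (nat_lit 360) (nat_lit 319)) (XT.lf (nat_lit 0) (nat_lit 8375231426) (nat_lit 152) (nat_lit 19569324723) (nat_lit 0) (nat_lit 2420437912) (nat_lit 30) (nat_lit 5) (nat_lit 32) (nat_lit 4) (nat_lit 30) (nat_lit 4) (nat_lit 522) (nat_lit 360) (nat_lit 318))))))))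
noncomputable def xc23 : XT := (XT.nd (nat_lit 2340) (nat_lit 0) (nat_lit 0) (XT.nd (nat_lit 1170) (nat_lit 608) (nat_lit 0) (XT.nd (nat_lit 546) (nat_lit 456) (nat_lit 0) (XT.nd (nat_lit 234) (nat_lit 152) (nat_lit 0) (XT.nd (nat_lit 78) (nat_lit 152) (nat_lit 0) (XT.lf (nat_lit 0) (nat_lit 16473660087) (nat_lit 152) (nat_lit 4110877531) (nat_lit 0) (nat_lit 10448382209) (nat_lit 30) (nat_lit 5) (nat_lit 32) (nat_lit 4) (nat_lit 30) (nat_lit 4) (nat_lit 523) (nat_lit 360) (nat_lit 317)) (XT.nd (nat_lit 78) (nat_lit 76) (nat_lit 0) (XT.lf (nat_lit 0) (nat_lit 11873437847) (nat_lit 76) (nat_lit 12970149601) (nat_lit 76) (nat_lit 6876440300) (nat_lit 29) (nat_lit 4) (nat_lit 30) (nat_lit 5) (nat_lit 30) (nat_lit 4) (nat_lit 524) (nat_lit 360) (nat_lit 316)) (XT.lf (nat_lit 0) (nat_lit 973004012) (nat_lit 152) (nat_lit 4184949429) (nat_lit 76) (nat_lit 27270805972) (nat_lit 28) (nat_lit 5) (nat_lit 30) (nat_lit 5)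 (nat_lit 29) (nat_lit 4) (nat_lit 525) (nat_lit 360) (nat_lit 315)))) (XT.nd (nat_lit 156) (nat_lit 76) (nat_lit 0) (XT.nd (nat_lit 78) (nat_lit 0) (nat_lit 0) (XT.lf (nat_lit 0) (nat_lit 8980298741) (nat_lit 152) (nat_lit 21237646678) (nat_lit 0) (nat_lit 2936948494) (nat_lit 27) (nat_lit 5) (nat_lit 29) (nat_lit 4) (nat_lit 27) (nat_lit 4) (nat_lit 526) (nat_lit 360) (nat_lit 314)) (XT.lf (nat_lit 0) (nat_lit 17238575937) (nat_lit 152) (nat_lit 5529489018) (nat_lit 0) (nat_lit 11134425257) (nat_lit 27) (nat_lit 5) (nat_lit 29) (nat_lit 4) (nat_lit 27) (nat_lit 4) (nat_lit 527) (nat_lit 360) (nat_lit 313))) (XT.nd (nat_lit 78) (nat_lit 0) (nat_lit 0) (XT.lf (nat_lit 0) (nat_lit 10698728501) (nat_lit 76) (nat_lit 15068149244) (nat_lit 76) (nat_lit 8904969018) (nat_lit 26) (nat_lit 4) (nat_lit 27) (nat_lit 5) (nat_lit 27) (nat_lit 4) (nat_lit 528) (nat_lit 360) (nat_lit 312)) (XT.lf (nat_lit 0) (nat_lit 27368754244)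 (nat_lit 76) (nat_lit 7158369013) (nat_lit 76) (nat_lit 937878549) (nat_lit 26) (nat_lit 4) (nat_lit 27) (nat_lit 5) (nat_lit 27) (nat_lit 4) (nat_lit 529) (nat_lit 360) (nat_lit 311))))) (XT.nd (nat_lit 312) (nat_lit 228) (nat_lit 0) (XT.nd (nat_lit 156) (nat_lit 76) (nat_lit 0) (XT.nd (nat_lit 78) (nat_lit 0) (nat_lit 0) (XT.lf (nat_lit 0) (nat_lit 7137184826) (nat_lit 152) (nat_lit 28098494290) (nat_lit 0) (nat_lit 1043853299) (nat_lit 24) (nat_lit 5) (nat_lit 26) (nat_lit 4) (nat_lit 24) (nat_lit 4) (nat_lit 530) (nat_lit 360) (nat_lit 310)) (XT.lf (nat_lit 0) (nat_lit 15510967613) (nat_lit 152) (nat_lit 12239804696) (nat_lit 0) (nat_lit 9365189098) (nat_lit 24) (nat_lit 5) (nat_lit 26) (nat_lit 4) (nat_lit 24) (nat_lit 4) (nat_lit 531) (nat_lit 360) (nat_lit 309))) (XT.nd (nat_lit 78) (nat_lit 0) (nat_lit 0) (XT.lf (nat_lit 0) (nat_lit 4022264920) (nat_lit 76) (nat_lit 20076516158) (nat_lit 76) (nat_lit 13879818238)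 (nat_lit 23) (nat_lit 4) (nat_lit 24) (nat_lit 5) (nat_lit 24) (nat_lit 4) (nat_lit 532) (nat_lit 360) (nat_lit 308)) (XT.lf (nat_lit 0) (nat_lit 20873710194) (nat_lit 76) (nat_lit 12119042618) (nat_lit 76) (nat_lit 5872908383) (nat_lit 23) (nat_lit 4) (nat_lit 24) (nat_lit 5) (nat_lit 24) (nat_lit 4) (nat_lit 533) (nat_lit 360) (nat_lit 307)))) (XT.nd (nat_lit 156) (nat_lit 76) (nat_lit 0) (XT.nd (nat_lit 78) (nat_lit 76) (nat_lit 0) (XT.lf (nat_lit 0) (nat_lit 2254269686) (nat_lit 152) (nat_lit 1717963193) (nat_lit 76) (nat_lit 35808626184) (nat_lit 22) (nat_lit 5) (nat_lit 24) (nat_lit 5) (nat_lit 23) (nat_lit 4) (nat_lit 534) (nat_lit 360) (nat_lit 306)) (XT.lf (nat_lit 0) (nat_lit 10625099977) (nat_lit 152) (nat_lit 25624080388) (nat_lit 0) (nat_lit 4469052281) (nat_lit 21) (nat_lit 5) (nat_lit 23) (nat_lit 4) (nat_lit 21) (nat_lit 4) (nat_lit 535) (nat_lit 360) (nat_lit 305))) (XT.nd (nat_lit 78) (nat_lit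 76) (nat_lit 0) (XT.lf (nat_lit 0) (nat_lit 19232492057) (nat_lit 152) (nat_lit 9419151925) (nat_lit 0) (nat_lit 13032520835) (nat_lit 21) (nat_lit 5) (nat_lit 23) (nat_lit 4) (nat_lit 21) (nat_lit 4) (nat_lit 536) (nat_lit 360) (nat_lit 304)) (XT.lf (nat_lit 0) (nat_lit 7275753099) (nat_lit 76) (nat_lit 20822959768) (nat_lit 76) (nat_lit 14580344346) (nat_lit 20) (nat_lit 4) (nat_lit 21) (nat_lit 5) (nat_lit 21) (nat_lit 4) (nat_lit 537) (nat_lit 360) (nat_lit 303)))))) (XT.nd (nat_lit 546) (nat_lit 380) (nat_lit 0) (XT.nd (nat_lit 234) (nat_lit 76) (nat_lit 0) (XT.nd (nat_lit 78) (nat_lit 152) (nat_lit 0) (XT.lf (nat_lit 0) (nat_lit 24527795600) (nat_lit 76) (nat_lit 12729612089) (nat_lit 76) (nat_lit 6445594531) (nat_lit 20) (nat_lit 4) (nat_lit 21) (nat_lit 5) (nat_lit 21) (nat_lit 4) (nat_lit 538) (nat_lit 360) (nat_lit 302)) (XT.nd (nat_lit 78) (nat_lit 76) (nat_lit 0) (XT.lf (nat_lit 0) (nat_lit 1828185282)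 (nat_lit 152) (nat_lit 2612997683) (nat_lit 76) (nat_lit 40317944216) (nat_lit 19) (nat_lit 5) (nat_lit 21) (nat_lit 5) (nat_lit 20) (nat_lit 4) (nat_lit 539) (nat_lit 360) (nat_lit 301)) (XT.lf (nat_lit 0) (nat_lit 10335788712) (nat_lit 152) (nat_lit 31347891768) (nat_lit 0) (nat_lit 4157886488) (nat_lit 18) (nat_lit 5) (nat_lit 20) (nat_lit 4) (nat_lit 18) (nat_lit 4) (nat_lit 540) (nat_lit 360) (nat_lit 300)))) (XT.nd (nat_lit 156) (nat_lit 0) (nat_lit 0) (XT.nd (nat_lit 78) (nat_lit 76) (nat_lit 0) (XT.lf (nat_lit 0) (nat_lit 19103955806) (nat_lit 152) (nat_lit 14963096161) (nat_lit 0) (nat_lit 12889268321) (nat_lit 18) (nat_lit 5) (nat_lit 20) (nat_lit 4) (nat_lit 18) (nat_lit 4) (nat_lit 541) (nat_lit 360) (nat_lit 299)) (XT.lf (nat_lit 0) (nat_lit 1822311325) (nat_lit 76) (nat_lit 26266991284) (nat_lit 76) (nat_lit 20016589953) (nat_lit 17) (nat_lit 4) (nat_lit 18) (nat_lit 5) (nat_lit 18) (nat_lit 4) (nat_lit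 542) (nat_lit 360) (nat_lit 298))) (XT.nd (nat_lit 78) (nat_lit 0) (nat_lit 0) (XT.lf (nat_lit 0) (nat_lit 19292758109) (nat_lit 76) (nat_lit 18139809261) (nat_lit 76) (nat_lit 11854734292) (nat_lit 17) (nat_lit 4) (nat_lit 18) (nat_lit 5) (nat_lit 18) (nat_lit 4) (nat_lit 543) (nat_lit 360) (nat_lit 297)) (XT.lf (nat_lit 0) (nat_lit 37165714676) (nat_lit 76) (nat_lit 9829502407) (nat_lit 76) (nat_lit 3510763713) (nat_lit 17) (nat_lit 4) (nat_lit 18) (nat_lit 5) (nat_lit 18) (nat_lit 4) (nat_lit 544) (nat_lit 360) (nat_lit 296))))) (XT.nd (nat_lit 312) (nat_lit 152) (nat_lit 0) (XT.nd (nat_lit 156) (nat_lit 76) (nat_lit 0) (XT.nd (nat_lit 78) (nat_lit 0) (nat_lit 0) (XT.lf (nat_lit 0) (nat_lit 3718075968) (nat_lit 76) (nat_lit 1242267820) (nat_lit 152) (nat_lit 46800130418) (nat_lit 15) (nat_lit 5) (nat_lit 16) (nat_lit 5) (nat_lit 17) (nat_lit 4) (nat_lit 545) (nat_lit 360) (nat_lit 295)) (XT.lf (nat_lit 0) (nat_lit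 13764459622) (nat_lit 152) (nat_lit 31715393703) (nat_lit 0) (nat_lit 7567223493) (nat_lit 15) (nat_lit 5) (nat_lit 17) (nat_lit 4) (nat_lit 15) (nat_lit 4) (nat_lit 546) (nat_lit 360) (nat_lit 294))) (XT.nd (nat_lit 78) (nat_lit 76) (nat_lit 0) (XT.lf (nat_lit 0) (nat_lit 22787050064) (nat_lit 152) (nat_lit 15026693088) (nat_lit 0) (nat_lit 16559904152) (nat_lit 15) (nat_lit 5) (nat_lit 17) (nat_lit 4) (nat_lit 15) (nat_lit 4) (nat_lit 547) (nat_lit 360) (nat_lit 293)) (XT.lf (nat_lit 0) (nat_lit 2091030947) (nat_lit 76) (nat_lit 29953126816) (nat_lit 76) (nat_lit 23696942279) (nat_lit 14) (nat_lit 4) (nat_lit 15) (nat_lit 5) (nat_lit 15) (nat_lit 4) (nat_lit 548) (nat_lit 360) (nat_lit 292)))) (XT.nd (nat_lit 156) (nat_lit 152) (nat_lit 0) (XT.nd (nat_lit 78) (nat_lit 0) (nat_lit 0) (XT.lf (nat_lit 0) (nat_lit 19918980403) (nat_lit 76) (nat_lit 21756046106) (nat_lit 76) (nat_lit 15471668729) (nat_lit 14) (nat_lit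 4) (nat_lit 15) (nat_lit 5) (nat_lit 15) (nat_lit 4) (nat_lit 549) (nat_lit 360) (nat_lit 291)) (XT.lf (nat_lit 0) (nat_lit 38173672443) (nat_lit 76) (nat_lit 13367078662) (nat_lit 76) (nat_lit 7055329595) (nat_lit 14) (nat_lit 4) (nat_lit 15) (nat_lit 5) (nat_lit 15) (nat_lit 4) (nat_lit 550) (nat_lit 360) (nat_lit 290))) (XT.nd (nat_lit 78) (nat_lit 76) (nat_lit 0) (XT.lf (nat_lit 0) (nat_lit 1528999124) (nat_lit 152) (nat_lit 3234455300) (nat_lit 76) (nat_lit 55326618750) (nat_lit 13) (nat_lit 5) (nat_lit 15) (nat_lit 5) (nat_lit 14) (nat_lit 4) (nat_lit 551) (nat_lit 360) (nat_lit 289)) (XT.lf (nat_lit 0) (nat_lit 10358721764) (nat_lit 152) (nat_lit 47084217583) (nat_lit 0) (nat_lit 4179960633) (nat_lit 12) (nat_lit 5) (nat_lit 14) (nat_lit 4) (nat_lit 12) (nat_lit 4) (nat_lit 552) (nat_lit 360) (nat_lit 288))))))) (XT.nd (nat_lit 57720) (nat_lit 0) (nat_lit 2432) (XT.nd (nat_lit 57096) (nat_lit 0) (nat_lit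 3800) (XT.nd (nat_lit 56784) (nat_lit 0) (nat_lit 4788) (XT.nd (nat_lit 56628) (nat_lit 0) (nat_lit 5396) (XT.lf (nat_lit 0) (nat_lit 19482042546) (nat_lit 152) (nat_lit 30439846096) (nat_lit 0) (nat_lit 13278962024) (nat_lit 12) (nat_lit 5) (nat_lit 14) (nat_lit 4) (nat_lit 12) (nat_lit 4) (nat_lit 553) (nat_lit 360) (nat_lit 287)) (XT.nd (nat_lit 78) (nat_lit 0) (nat_lit 0) (XT.lf (nat_lit 0) (nat_lit 59176596) (nat_lit 152) (nat_lit 3342210056) (nat_lit 152) (nat_lit 3342210056) (nat_lit 83) (nat_lit 4) (nat_lit 85) (nat_lit 5) (nat_lit 85) (nat_lit 4) (nat_lit 478) (nat_lit 361) (nat_lit 361)) (XT.lf (nat_lit 0) (nat_lit 12193588980) (nat_lit 152) (nat_lit 952269450) (nat_lit 152) (nat_lit 549098670) (nat_lit 83) (nat_lit 4) (nat_lit 85) (nat_lit 5) (nat_lit 85) (nat_lit 4) (nat_lit 479) (nat_lit 361) (nat_lit 360)))) (XT.nd (nat_lit 156) (nat_lit 304) (nat_lit 0) (XT.nd (nat_lit 78) (nat_lit 152) (nat_lit 0)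 (XT.lf (nat_lit 0) (nat_lit 5680169774) (nat_lit 152) (nat_lit 3317734806) (nat_lit 0) (nat_lit 4908714703) (nat_lit 81) (nat_lit 5) (nat_lit 83) (nat_lit 4) (nat_lit 81) (nat_lit 4) (nat_lit 480) (nat_lit 361) (nat_lit 359)) (XT.lf (nat_lit 0) (nat_lit 8870262330) (nat_lit 152) (nat_lit 3197573380) (nat_lit 152) (nat_lit 2057159931) (nat_lit 79) (nat_lit 4) (nat_lit 81) (nat_lit 5) (nat_lit 81) (nat_lit 4) (nat_lit 481) (nat_lit 361) (nat_lit 358))) (XT.nd (nat_lit 78) (nat_lit 152) (nat_lit 0) (XT.lf (nat_lit 0) (nat_lit 4214305652) (nat_lit 152) (nat_lit 7375024253) (nat_lit 0) (nat_lit 2759329472) (nat_lit 77) (nat_lit 5) (nat_lit 79) (nat_lit 4) (nat_lit 77) (nat_lit 4) (nat_lit 482) (nat_lit 361) (nat_lit 357)) (XT.lf (nat_lit 0) (nat_lit 4905405110) (nat_lit 152) (nat_lit 5732739344) (nat_lit 152) (nat_lit 3940113982) (nat_lit 75) (nat_lit 4) (nat_lit 77) (nat_lit 5) (nat_lit 77) (nat_lit 4) (nat_lit 483)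 (nat_lit 361) (nat_lit 356))))) (XT.nd (nat_lit 312) (nat_lit 532) (nat_lit 0) (XT.nd (nat_lit 156) (nat_lit 152) (nat_lit 0) (XT.nd (nat_lit 78) (nat_lit 152) (nat_lit 0) (XT.lf (nat_lit 0) (nat_lit 2369770953) (nat_lit 152) (nat_lit 12133860254) (nat_lit 0) (nat_lit 311091243) (nat_lit 73) (nat_lit 5) (nat_lit 75) (nat_lit 4) (nat_lit 73) (nat_lit 4) (nat_lit 484) (nat_lit 361) (nat_lit 355)) (XT.lf (nat_lit 0) (nat_lit 218164587) (nat_lit 152) (nat_lit 8602843986) (nat_lit 152) (nat_lit 6235167443) (nat_lit 71) (nat_lit 4) (nat_lit 73) (nat_lit 5) (nat_lit 73) (nat_lit 4) (nat_lit 485) (nat_lit 361) (nat_lit 354))) (XT.nd (nat_lit 78) (nat_lit 76) (nat_lit 0) (XT.lf (nat_lit 0) (nat_lit 155436795) (nat_lit 228) (nat_lit 2352136771) (nat_lit 76) (nat_lit 12797326443) (nat_lit 70) (nat_lit 5) (nat_lit 73) (nat_lit 5) (nat_lit 71) (nat_lit 4) (nat_lit 486) (nat_lit 361) (nat_lit 353)) (XT.lf (nat_lit 0) (nat_lit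 6626997443) (nat_lit 152) (nat_lit 5177555279) (nat_lit 0) (nat_lit 3754247330) (nat_lit 69) (nat_lit 5) (nat_lit 71) (nat_lit 4) (nat_lit 69) (nat_lit 4) (nat_lit 487) (nat_lit 361) (nat_lit 352)))) (XT.nd (nat_lit 156) (nat_lit 228) (nat_lit 0) (XT.nd (nat_lit 78) (nat_lit 152) (nat_lit 0) (XT.lf (nat_lit 0) (nat_lit 7617747984) (nat_lit 152) (nat_lit 5674931356) (nat_lit 152) (nat_lit 2527641559) (nat_lit 67) (nat_lit 4) (nat_lit 69) (nat_lit 5) (nat_lit 69) (nat_lit 4) (nat_lit 488) (nat_lit 361) (nat_lit 351)) (XT.lf (nat_lit 0) (nat_lit 3971130493) (nat_lit 152) (nat_lit 11461200683) (nat_lit 0) (nat_lit 656729348) (nat_lit 65) (nat_lit 5) (nat_lit 67) (nat_lit 4) (nat_lit 65) (nat_lit 4) (nat_lit 489) (nat_lit 361) (nat_lit 350))) (XT.nd (nat_lit 78) (nat_lit 76) (nat_lit 0) (XT.lf (nat_lit 0) (nat_lit 1360943329) (nat_lit 152) (nat_lit 9284437649) (nat_lit 152) (nat_lit 5718793802) (nat_lit 63) (nat_lit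 4) (nat_lit 65) (nat_lit 5) (nat_lit 65) (nat_lit 4) (nat_lit 490) (nat_lit 361) (nat_lit 349)) (XT.lf (nat_lit 0) (nat_lit 850719138) (nat_lit 228) (nat_lit 2082608948) (nat_lit 76) (nat_lit 13714102701) (nat_lit 62) (nat_lit 5) (nat_lit 65) (nat_lit 5) (nat_lit 63) (nat_lit 4) (nat_lit 491) (nat_lit 361) (nat_lit 348)))))) (XT.nd (nat_lit 624) (nat_lit 608) (nat_lit 0) (XT.nd (nat_lit 312) (nat_lit 380) (nat_lit 0) (XT.nd (nat_lit 156) (nat_lit 152) (nat_lit 0) (XT.nd (nat_lit 78) (nat_lit 152) (nat_lit 0) (XT.lf (nat_lit 0) (nat_lit 7527030119) (nat_lit 152) (nat_lit 5811221632) (nat_lit 0) (nat_lit 3598496972) (nat_lit 61) (nat_lit 5) (nat_lit 63) (nat_lit 4) (nat_lit 61) (nat_lit 4) (nat_lit 492) (nat_lit 361) (nat_lit 347)) (XT.lf (nat_lit 0) (nat_lit 7428968684) (nat_lit 152) (nat_lit 6978708802) (nat_lit 152) (nat_lit 2826949769) (nat_lit 59) (nat_lit 4) (nat_lit 61) (nat_lit 5) (nat_lit 61) (nat_lit 4)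 (nat_lit 493) (nat_lit 361) (nat_lit 346))) (XT.nd (nat_lit 78) (nat_lit 0) (nat_lit 0) (XT.lf (nat_lit 0) (nat_lit 3449167919) (nat_lit 76) (nat_lit 401891742) (nat_lit 152) (nat_lit 13689997742) (nat_lit 57) (nat_lit 5) (nat_lit 58) (nat_lit 5) (nat_lit 59) (nat_lit 4) (nat_lit 494) (nat_lit 361) (nat_lit 345)) (XT.lf (nat_lit 0) (nat_lit 10716574834) (nat_lit 152) (nat_lit 866902956) (nat_lit 0) (nat_lit 6271045706) (nat_lit 57) (nat_lit 5) (nat_lit 59) (nat_lit 4) (nat_lit 57) (nat_lit 4) (nat_lit 495) (nat_lit 361) (nat_lit 344)))) (XT.nd (nat_lit 156) (nat_lit 152) (nat_lit 0) (XT.nd (nat_lit 78) (nat_lit 152) (nat_lit 0) (XT.lf (nat_lit 0) (nat_lit 12781218068) (nat_lit 76) (nat_lit 5019825250) (nat_lit 76) (nat_lit 375962813) (nat_lit 56) (nat_lit 4) (nat_lit 57) (nat_lit 5) (nat_lit 57) (nat_lit 4) (nat_lit 496) (nat_lit 361) (nat_lit 343)) (XT.lf (nat_lit 0) (nat_lit 6451698725) (nat_lit 152) (nat_lit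 10299678574) (nat_lit 0) (nat_lit 1756146253) (nat_lit 54) (nat_lit 5) (nat_lit 56) (nat_lit 4) (nat_lit 54) (nat_lit 4) (nat_lit 497) (nat_lit 361) (nat_lit 342))) (XT.nd (nat_lit 78) (nat_lit 76) (nat_lit 0) (XT.lf (nat_lit 0) (nat_lit 3274420157) (nat_lit 76) (nat_lit 10224900801) (nat_lit 76) (nat_lit 5347845255) (nat_lit 53) (nat_lit 4) (nat_lit 54) (nat_lit 5) (nat_lit 54) (nat_lit 4) (nat_lit 498) (nat_lit 361) (nat_lit 341)) (XT.lf (nat_lit 0) (nat_lit 1522530333) (nat_lit 152) (nat_lit 1962535545) (nat_lit 76) (nat_lit 15711735162) (nat_lit 52) (nat_lit 5) (nat_lit 54) (nat_lit 5) (nat_lit 53) (nat_lit 4) (nat_lit 499) (nat_lit 361) (nat_lit 340))))) (XT.nd (nat_lit 312) (nat_lit 304) (nat_lit 0) (XT.nd (nat_lit 156) (nat_lit 152) (nat_lit 0) (XT.nd (nat_lit 78) (nat_lit 76) (nat_lit 0) (XT.lf (nat_lit 0) (nat_lit 8530919039) (nat_lit 152) (nat_lit 7564509016) (nat_lit 0) (nat_lit 3458728577) (nat_lit 51)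 (nat_lit 5) (nat_lit 53) (nat_lit 4) (nat_lit 51) (nat_lit 4) (nat_lit 500) (nat_lit 361) (nat_lit 339)) (XT.lf (nat_lit 0) (nat_lit 6354994737) (nat_lit 76) (nat_lit 9400261315) (nat_lit 76) (nat_lit 4166807723) (nat_lit 50) (nat_lit 4) (nat_lit 51) (nat_lit 5) (nat_lit 51) (nat_lit 4) (nat_lit 501) (nat_lit 361) (nat_lit 338))) (XT.nd (nat_lit 78) (nat_lit 0) (nat_lit 0) (XT.lf (nat_lit 0) (nat_lit 312546807) (nat_lit 76) (nat_lit 2496599273) (nat_lit 152) (nat_lit 17491918918) (nat_lit 48) (nat_lit 5) (nat_lit 49) (nat_lit 5) (nat_lit 50) (nat_lit 4) (nat_lit 502) (nat_lit 361) (nat_lit 337)) (XT.lf (nat_lit 0) (nat_lit 9983703579) (nat_lit 152) (nat_lit 6101208331) (nat_lit 0) (nat_lit 4603096100) (nat_lit 48) (nat_lit 5) (nat_lit 50) (nat_lit 4) (nat_lit 48) (nat_lit 4) (nat_lit 503) (nat_lit 361) (nat_lit 336)))) (XT.nd (nat_lit 156) (nat_lit 76) (nat_lit 0) (XT.nd (nat_lit 78) (nat_lit 152) (nat_lit 0) (XT.lf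 (nat_lit 0) (nat_lit 8129275580) (nat_lit 76) (nat_lit 9240640229) (nat_lit 76) (nat_lit 3716752548) (nat_lit 47) (nat_lit 4) (nat_lit 48) (nat_lit 5) (nat_lit 48) (nat_lit 4) (nat_lit 504) (nat_lit 361) (nat_lit 335)) (XT.lf (nat_lit 0) (nat_lit 1198174020) (nat_lit 76) (nat_lit 2181712035) (nat_lit 152) (nat_lit 18117379000) (nat_lit 45) (nat_lit 5) (nat_lit 46) (nat_lit 5) (nat_lit 47) (nat_lit 4) (nat_lit 505) (nat_lit 361) (nat_lit 334))) (XT.nd (nat_lit 78) (nat_lit 76) (nat_lit 0) (XT.lf (nat_lit 0) (nat_lit 10689577430) (nat_lit 152) (nat_lit 6166851320) (nat_lit 0) (nat_lit 5060402668) (nat_lit 45) (nat_lit 5) (nat_lit 47) (nat_lit 4) (nat_lit 45) (nat_lit 4) (nat_lit 506) (nat_lit 361) (nat_lit 333)) (XT.lf (nat_lit 0) (nat_lit 8328719321) (nat_lit 76) (nat_lit 9888393809) (nat_lit 76) (nat_lit 4131916443) (nat_lit 44) (nat_lit 4) (nat_lit 45) (nat_lit 5) (nat_lit 45) (nat_lit 4) (nat_lit 507) (nat_lit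 361) (nat_lit 332))))))))
noncomputable def xc24 : XT := (XT.nd (nat_lit 2340) (nat_lit 684) (nat_lit 0) (XT.nd (nat_lit 1170) (nat_lit 684) (nat_lit 0) (XT.nd (nat_lit 546) (nat_lit 608) (nat_lit 0) (XT.nd (nat_lit 234) (nat_lit 228) (nat_lit 0) (XT.nd (nat_lit 78) (nat_lit 76) (nat_lit 0) (XT.lf (nat_lit 0) (nat_lit 367636668) (nat_lit 76) (nat_lit 2710052393) (nat_lit 152) (nat_lit 19716688313) (nat_lit 42) (nat_lit 5) (nat_lit 43) (nat_lit 5) (nat_lit 44) (nat_lit 4) (nat_lit 508) (nat_lit 361) (nat_lit 331)) (XT.nd (nat_lit 78) (nat_lit 76) (nat_lit 0) (XT.lf (nat_lit 0) (nat_lit 10505644210) (nat_lit 152) (nat_lit 8063325715) (nat_lit 0) (nat_lit 4680336403) (nat_lit 42) (nat_lit 5) (nat_lit 44) (nat_lit 4) (nat_lit 42) (nat_lit 4) (nat_lit 509) (nat_lit 361) (nat_lit 330)) (XT.lf (nat_lit 0) (nat_lit 6637785441) (nat_lit 76) (nat_lit 11509395595) (nat_lit 76) (nat_lit 5570981074) (nat_lit 41) (nat_lit 4)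 (nat_lit 42) (nat_lit 5) (nat_lit 42) (nat_lit 4) (nat_lit 510) (nat_lit 361) (nat_lit 329)))) (XT.nd (nat_lit 156) (nat_lit 76) (nat_lit 0) (XT.nd (nat_lit 78) (nat_lit 76) (nat_lit 0) (XT.lf (nat_lit 0) (nat_lit 1763825854) (nat_lit 152) (nat_lit 2467660381) (nat_lit 76) (nat_lit 19969602583) (nat_lit 40) (nat_lit 5) (nat_lit 42) (nat_lit 5) (nat_lit 41) (nat_lit 4) (nat_lit 511) (nat_lit 361) (nat_lit 328)) (XT.lf (nat_lit 0) (nat_lit 9262973227) (nat_lit 152) (nat_lit 12144788831) (nat_lit 0) (nat_lit 3287399643) (nat_lit 39) (nat_lit 5) (nat_lit 41) (nat_lit 4) (nat_lit 39) (nat_lit 4) (nat_lit 512) (nat_lit 361) (nat_lit 327))) (XT.nd (nat_lit 78) (nat_lit 0) (nat_lit 0) (XT.lf (nat_lit 0) (nat_lit 2686110712) (nat_lit 76) (nat_lit 14297066076) (nat_lit 76) (nat_lit 8220998641) (nat_lit 38) (nat_lit 4) (nat_lit 39) (nat_lit 5) (nat_lit 39) (nat_lit 4) (nat_lit 513) (nat_lit 361) (nat_lit 326)) (XT.lf (nat_lit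 0) (nat_lit 18022375139) (nat_lit 76) (nat_lit 6939457206) (nat_lit 76) (nat_lit 765822926) (nat_lit 38) (nat_lit 4) (nat_lit 39) (nat_lit 5) (nat_lit 39) (nat_lit 4) (nat_lit 514) (nat_lit 361) (nat_lit 325))))) (XT.nd (nat_lit 312) (nat_lit 304) (nat_lit 0) (XT.nd (nat_lit 156) (nat_lit 152) (nat_lit 0) (XT.nd (nat_lit 78) (nat_lit 0) (nat_lit 0) (XT.lf (nat_lit 0) (nat_lit 6762393251) (nat_lit 152) (nat_lit 18826317775) (nat_lit 0) (nat_lit 676607452) (nat_lit 36) (nat_lit 5) (nat_lit 38) (nat_lit 4) (nat_lit 36) (nat_lit 4) (nat_lit 515) (nat_lit 361) (nat_lit 324)) (XT.lf (nat_lit 0) (nat_lit 14554534587) (nat_lit 152) (nat_lit 3883285078) (nat_lit 0) (nat_lit 8379461303) (nat_lit 36) (nat_lit 5) (nat_lit 38) (nat_lit 4) (nat_lit 36) (nat_lit 4) (nat_lit 516) (nat_lit 361) (nat_lit 323))) (XT.nd (nat_lit 78) (nat_lit 76) (nat_lit 0) (XT.lf (nat_lit 0) (nat_lit 11553876821) (nat_lit 76) (nat_lit 11046543612)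 (nat_lit 76) (nat_lit 4784783449) (nat_lit 35) (nat_lit 4) (nat_lit 36) (nat_lit 5) (nat_lit 36) (nat_lit 4) (nat_lit 517) (nat_lit 361) (nat_lit 322)) (XT.lf (nat_lit 0) (nat_lit 2809156060) (nat_lit 152) (nat_lit 643335378) (nat_lit 76) (nat_lit 24518375533) (nat_lit 34) (nat_lit 5) (nat_lit 36) (nat_lit 5) (nat_lit 35) (nat_lit 4) (nat_lit 518) (nat_lit 361) (nat_lit 321)))) (XT.nd (nat_lit 156) (nat_lit 152) (nat_lit 0) (XT.nd (nat_lit 78) (nat_lit 76) (nat_lit 0) (XT.lf (nat_lit 0) (nat_lit 10634327570) (nat_lit 152) (nat_lit 13541457238) (nat_lit 0) (nat_lit 4393907301) (nat_lit 33) (nat_lit 5) (nat_lit 35) (nat_lit 4) (nat_lit 33) (nat_lit 4) (nat_lit 519) (nat_lit 361) (nat_lit 320)) (XT.lf (nat_lit 0) (nat_lit 1823658428) (nat_lit 76) (nat_lit 16840582630) (nat_lit 76) (nat_lit 10523142191) (nat_lit 32) (nat_lit 4) (nat_lit 33) (nat_lit 5) (nat_lit 33) (nat_lit 4) (nat_lit 520) (nat_lit 361) (nat_lit 319)))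 (XT.nd (nat_lit 78) (nat_lit 152) (nat_lit 0) (XT.lf (nat_lit 0) (nat_lit 17754492097) (nat_lit 76) (nat_lit 9229925099) (nat_lit 76) (nat_lit 2837707797) (nat_lit 32) (nat_lit 4) (nat_lit 33) (nat_lit 5) (nat_lit 33) (nat_lit 4) (nat_lit 521) (nat_lit 361) (nat_lit 318)) (XT.lf (nat_lit 0) (nat_lit 3538072449) (nat_lit 76) (nat_lit 1389458903) (nat_lit 152) (nat_lit 25548463825) (nat_lit 30) (nat_lit 5) (nat_lit 31) (nat_lit 5) (nat_lit 32) (nat_lit 4) (nat_lit 522) (nat_lit 361) (nat_lit 317)))))) (XT.nd (nat_lit 546) (nat_lit 380) (nat_lit 0) (XT.nd (nat_lit 234) (nat_lit 228) (nat_lit 0) (XT.nd (nat_lit 78) (nat_lit 76) (nat_lit 0) (XT.lf (nat_lit 0) (nat_lit 12970441661) (nat_lit 152) (nat_lit 11549655546) (nat_lit 0) (nat_lit 6625489659) (nat_lit 30) (nat_lit 5) (nat_lit 32) (nat_lit 4) (nat_lit 30) (nat_lit 4) (nat_lit 523) (nat_lit 361) (nat_lit 316)) (XT.nd (nat_lit 78) (nat_lit 0) (nat_lit 0) (XT.lf (nat_lit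 0) (nat_lit 4203896210) (nat_lit 76) (nat_lit 17021814483) (nat_lit 76) (nat_lit 10610424206) (nat_lit 29) (nat_lit 4) (nat_lit 30) (nat_lit 5) (nat_lit 30) (nat_lit 4) (nat_lit 524) (nat_lit 361) (nat_lit 315)) (XT.lf (nat_lit 0) (nat_lit 20503785669) (nat_lit 76) (nat_lit 9259238146) (nat_lit 76) (nat_lit 2783344690) (nat_lit 29) (nat_lit 4) (nat_lit 30) (nat_lit 5) (nat_lit 30) (nat_lit 4) (nat_lit 525) (nat_lit 361) (nat_lit 314)))) (XT.nd (nat_lit 156) (nat_lit 76) (nat_lit 0) (XT.nd (nat_lit 78) (nat_lit 0) (nat_lit 0) (XT.lf (nat_lit 0) (nat_lit 3879849207) (nat_lit 76) (nat_lit 1252351338) (nat_lit 152) (nat_lit 28145487324) (nat_lit 27) (nat_lit 5) (nat_lit 28) (nat_lit 5) (nat_lit 29) (nat_lit 4) (nat_lit 526) (nat_lit 361) (nat_lit 313)) (XT.lf (nat_lit 0) (nat_lit 13338751479) (nat_lit 152) (nat_lit 13756438497) (nat_lit 0) (nat_lit 6931646301) (nat_lit 27) (nat_lit 5) (nat_lit 29) (nat_lit 4) (nat_lit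 27) (nat_lit 4) (nat_lit 527) (nat_lit 361) (nat_lit 312))) (XT.nd (nat_lit 78) (nat_lit 0) (nat_lit 0) (XT.lf (nat_lit 0) (nat_lit 2230023243) (nat_lit 76) (nat_lit 19517091732) (nat_lit 76) (nat_lit 13052676315) (nat_lit 26) (nat_lit 4) (nat_lit 27) (nat_lit 5) (nat_lit 27) (nat_lit 4) (nat_lit 528) (nat_lit 361) (nat_lit 311)) (XT.lf (nat_lit 0) (nat_lit 18824298158) (nat_lit 76) (nat_lit 11644924519) (nat_lit 76) (nat_lit 5124868093) (nat_lit 26) (nat_lit 4) (nat_lit 27) (nat_lit 5) (nat_lit 27) (nat_lit 4) (nat_lit 529) (nat_lit 361) (nat_lit 310))))) (XT.nd (nat_lit 312) (nat_lit 152) (nat_lit 0) (XT.nd (nat_lit 156) (nat_lit 76) (nat_lit 0) (XT.nd (nat_lit 78) (nat_lit 76) (nat_lit 0) (XT.lf (nat_lit 0) (nat_lit 2905528311) (nat_lit 152) (nat_lit 675854349) (nat_lit 76) (nat_lit 32832237549) (nat_lit 25) (nat_lit 5) (nat_lit 27) (nat_lit 5) (nat_lit 26) (nat_lit 4) (nat_lit 530) (nat_lit 361) (nat_lit 309))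 (XT.lf (nat_lit 0) (nat_lit 11200829840) (nat_lit 152) (nat_lit 21284262499) (nat_lit 0) (nat_lit 4767311578) (nat_lit 24) (nat_lit 5) (nat_lit 26) (nat_lit 4) (nat_lit 24) (nat_lit 4) (nat_lit 531) (nat_lit 361) (nat_lit 308))) (XT.nd (nat_lit 78) (nat_lit 76) (nat_lit 0) (XT.lf (nat_lit 0) (nat_lit 19713703892) (nat_lit 152) (nat_lit 5172837071) (nat_lit 0) (nat_lit 13230749315) (nat_lit 24) (nat_lit 5) (nat_lit 26) (nat_lit 4) (nat_lit 24) (nat_lit 4) (nat_lit 532) (nat_lit 361) (nat_lit 307)) (XT.lf (nat_lit 0) (nat_lit 11504210695) (nat_lit 76) (nat_lit 17016845650) (nat_lit 76) (nat_lit 10485894650) (nat_lit 23) (nat_lit 4) (nat_lit 24) (nat_lit 5) (nat_lit 24) (nat_lit 4) (nat_lit 533) (nat_lit 361) (nat_lit 306)))) (XT.nd (nat_lit 156) (nat_lit 0) (nat_lit 0) (XT.nd (nat_lit 78) (nat_lit 152) (nat_lit 0) (XT.lf (nat_lit 0) (nat_lit 28646793176) (nat_lit 76) (nat_lit 8927307107) (nat_lit 76) (nat_lit 2349757638)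 (nat_lit 23) (nat_lit 4) (nat_lit 24) (nat_lit 5) (nat_lit 24) (nat_lit 4) (nat_lit 534) (nat_lit 361) (nat_lit 305)) (XT.lf (nat_lit 0) (nat_lit 5343590495) (nat_lit 76) (nat_lit 551178566) (nat_lit 152) (nat_lit 34972304976) (nat_lit 21) (nat_lit 5) (nat_lit 22) (nat_lit 5) (nat_lit 23) (nat_lit 4) (nat_lit 535) (nat_lit 361) (nat_lit 304))) (XT.nd (nat_lit 78) (nat_lit 0) (nat_lit 0) (XT.lf (nat_lit 0) (nat_lit 14462709172) (nat_lit 152) (nat_lit 19381309741) (nat_lit 0) (nat_lit 7990171087) (nat_lit 21) (nat_lit 5) (nat_lit 23) (nat_lit 4) (nat_lit 21) (nat_lit 4) (nat_lit 536) (nat_lit 361) (nat_lit 303)) (XT.lf (nat_lit 0) (nat_lit 23225832056) (nat_lit 152) (nat_lit 2894451668) (nat_lit 0) (nat_lit 16711891836) (nat_lit 21) (nat_lit 5) (nat_lit 23) (nat_lit 4) (nat_lit 21) (nat_lit 4) (nat_lit 537) (nat_lit 361) (nat_lit 302))))))) (XT.nd (nat_lit 1170) (nat_lit 0) (nat_lit 0) (XT.nd (nat_lit 546) (nat_lit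 380) (nat_lit 0) (XT.nd (nat_lit 234) (nat_lit 76) (nat_lit 0) (XT.nd (nat_lit 78) (nat_lit 152) (nat_lit 0) (XT.lf (nat_lit 0) (nat_lit 14234562518) (nat_lit 76) (nat_lit 18088765353) (nat_lit 76) (nat_lit 11534628884) (nat_lit 20) (nat_lit 4) (nat_lit 21) (nat_lit 5) (nat_lit 21) (nat_lit 4) (nat_lit 538) (nat_lit 361) (nat_lit 301)) (XT.nd (nat_lit 78) (nat_lit 152) (nat_lit 0) (XT.lf (nat_lit 0) (nat_lit 31807839979) (nat_lit 76) (nat_lit 9850448793) (nat_lit 76) (nat_lit 3257286840) (nat_lit 20) (nat_lit 4) (nat_lit 21) (nat_lit 5) (nat_lit 21) (nat_lit 4) (nat_lit 539) (nat_lit 361) (nat_lit 300)) (XT.lf (nat_lit 0) (nat_lit 3800462864) (nat_lit 76) (nat_lit 1338213804) (nat_lit 152) (nat_lit 40865534302) (nat_lit 18) (nat_lit 5) (nat_lit 19) (nat_lit 5) (nat_lit 20) (nat_lit 4) (nat_lit 540) (nat_lit 361) (nat_lit 299)))) (XT.nd (nat_lit 156) (nat_lit 76) (nat_lit 0) (XT.nd (nat_lit 78) (nat_lit 0) (nat_lit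 0) (XT.lf (nat_lit 0) (nat_lit 13862757139) (nat_lit 152) (nat_lit 25868400024) (nat_lit 0) (nat_lit 7389129921) (nat_lit 18) (nat_lit 5) (nat_lit 20) (nat_lit 4) (nat_lit 18) (nat_lit 4) (nat_lit 541) (nat_lit 361) (nat_lit 298)) (XT.lf (nat_lit 0) (nat_lit 22800273282) (nat_lit 152) (nat_lit 9179048757) (nat_lit 0) (nat_lit 16291972427) (nat_lit 18) (nat_lit 5) (nat_lit 20) (nat_lit 4) (nat_lit 18) (nat_lit 4) (nat_lit 542) (nat_lit 361) (nat_lit 297))) (XT.nd (nat_lit 78) (nat_lit 0) (nat_lit 0) (XT.lf (nat_lit 0) (nat_lit 8048813696) (nat_lit 76) (nat_lit 23974727273) (nat_lit 76) (nat_lit 17432762693) (nat_lit 17) (nat_lit 4) (nat_lit 18) (nat_lit 5) (nat_lit 18) (nat_lit 4) (nat_lit 543) (nat_lit 361) (nat_lit 296)) (XT.lf (nat_lit 0) (nat_lit 25863611756) (nat_lit 76) (nat_lit 15693446500) (nat_lit 76) (nat_lit 9118798691) (nat_lit 17) (nat_lit 4) (nat_lit 18) (nat_lit 5) (nat_lit 18) (nat_lit 4) (nat_lit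 544) (nat_lit 361) (nat_lit 295))))) (XT.nd (nat_lit 312) (nat_lit 228) (nat_lit 0) (XT.nd (nat_lit 156) (nat_lit 0) (nat_lit 0) (XT.nd (nat_lit 78) (nat_lit 152) (nat_lit 0) (XT.lf (nat_lit 0) (nat_lit 44098230683) (nat_lit 76) (nat_lit 7220934044) (nat_lit 76) (nat_lit 614554945) (nat_lit 17) (nat_lit 4) (nat_lit 18) (nat_lit 5) (nat_lit 18) (nat_lit 4) (nat_lit 545) (nat_lit 361) (nat_lit 294)) (XT.lf (nat_lit 0) (nat_lit 8037957289) (nat_lit 152) (nat_lit 43593363039) (nat_lit 0) (nat_lit 1594087216) (nat_lit 15) (nat_lit 5) (nat_lit 17) (nat_lit 4) (nat_lit 15) (nat_lit 4) (nat_lit 546) (nat_lit 361) (nat_lit 293))) (XT.nd (nat_lit 78) (nat_lit 0) (nat_lit 0) (XT.lf (nat_lit 0) (nat_lit 17032833089) (nat_lit 152) (nat_lit 26960052150) (nat_lit 0) (nat_lit 10559924390) (nat_lit 15) (nat_lit 5) (nat_lit 17) (nat_lit 4) (nat_lit 15) (nat_lit 4) (nat_lit 547) (nat_lit 361) (nat_lit 292)) (XT.lf (nat_lit 0) (nat_lit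 26242933099) (nat_lit 152) (nat_lit 9936908091) (nat_lit 0) (nat_lit 19741831560) (nat_lit 15) (nat_lit 5) (nat_lit 17) (nat_lit 4) (nat_lit 15) (nat_lit 4) (nat_lit 548) (nat_lit 361) (nat_lit 291)))) (XT.nd (nat_lit 156) (nat_lit 152) (nat_lit 0) (XT.nd (nat_lit 78) (nat_lit 0) (nat_lit 0) (XT.lf (nat_lit 0) (nat_lit 7640028197) (nat_lit 76) (nat_lit 28109717407) (nat_lit 76) (nat_lit 21581244179) (nat_lit 14) (nat_lit 4) (nat_lit 15) (nat_lit 5) (nat_lit 15) (nat_lit 4) (nat_lit 549) (nat_lit 361) (nat_lit 290)) (XT.lf (nat_lit 0) (nat_lit 25843021972) (nat_lit 76) (nat_lit 19746588447) (nat_lit 76) (nat_lit 13191540763) (nat_lit 14) (nat_lit 4) (nat_lit 15) (nat_lit 5) (nat_lit 15) (nat_lit 4) (nat_lit 550) (nat_lit 361) (nat_lit 289))) (XT.nd (nat_lit 78) (nat_lit 152) (nat_lit 0) (XT.lf (nat_lit 0) (nat_lit 44490214807) (nat_lit 76) (nat_lit 11183490009) (nat_lit 76) (nat_lit 4602641884) (nat_lit 14) (nat_lit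 4) (nat_lit 15) (nat_lit 5) (nat_lit 15) (nat_lit 4) (nat_lit 551) (nat_lit 361) (nat_lit 288)) (XT.lf (nat_lit 0) (nat_lit 1774335961) (nat_lit 76) (nat_lit 2353857664) (nat_lit 152) (nat_lit 57687968355) (nat_lit 12) (nat_lit 5) (nat_lit 13) (nat_lit 5) (nat_lit 14) (nat_lit 4) (nat_lit 552) (nat_lit 361) (nat_lit 287)))))) (XT.nd (nat_lit 56940) (nat_lit 0) (nat_lit 4028) (XT.nd (nat_lit 56628) (nat_lit 0) (nat_lit 5092) (XT.nd (nat_lit 56472) (nat_lit 0) (nat_lit 5548) (XT.lf (nat_lit 0) (nat_lit 13204285128) (nat_lit 152) (nat_lit 43424062806) (nat_lit 0) (nat_lit 6767181739) (nat_lit 12) (nat_lit 5) (nat_lit 14) (nat_lit 4) (nat_lit 12) (nat_lit 4) (nat_lit 553) (nat_lit 361) (nat_lit 286)) (XT.nd (nat_lit 78) (nat_lit 228) (nat_lit 0) (XT.lf (nat_lit 0) (nat_lit 1585725719) (nat_lit 152) (nat_lit 2478754703) (nat_lit 152) (nat_lit 2478754703) (nat_lit 88) (nat_lit 4) (nat_lit 90) (nat_lit 5) (nat_lit 90)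 (nat_lit 4) (nat_lit 476) (nat_lit 362) (nat_lit 362)) (XT.lf (nat_lit 0) (nat_lit 1046858882) (nat_lit 228) (nat_lit 11607418929) (nat_lit 0) (nat_lit 631592977) (nat_lit 85) (nat_lit 5) (nat_lit 88) (nat_lit 4) (nat_lit 85) (nat_lit 4) (nat_lit 477) (nat_lit 362) (nat_lit 361)))) (XT.nd (nat_lit 156) (nat_lit 304) (nat_lit 0) (XT.nd (nat_lit 78) (nat_lit 0) (nat_lit 0) (XT.lf (nat_lit 0) (nat_lit 3337) (nat_lit 152) (nat_lit 7153778343) (nat_lit 152) (nat_lit 6335341658) (nat_lit 83) (nat_lit 4) (nat_lit 85) (nat_lit 5) (nat_lit 85) (nat_lit 4) (nat_lit 478) (nat_lit 362) (nat_lit 360)) (XT.lf (nat_lit 0) (nat_lit 11960336353) (nat_lit 152) (nat_lit 1474144504) (nat_lit 152) (nat_lit 264279877) (nat_lit 83) (nat_lit 4) (nat_lit 85) (nat_lit 5) (nat_lit 85) (nat_lit 4) (nat_lit 479) (nat_lit 362) (nat_lit 359))) (XT.nd (nat_lit 78) (nat_lit 152) (nat_lit 0) (XT.lf (nat_lit 0) (nat_lit 5889283801) (nat_lit 152)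 (nat_lit 3677463828) (nat_lit 0) (nat_lit 4345699571) (nat_lit 81) (nat_lit 5) (nat_lit 83) (nat_lit 4) (nat_lit 81) (nat_lit 4) (nat_lit 480) (nat_lit 362) (nat_lit 358)) (XT.lf (nat_lit 0) (nat_lit 8388131746) (nat_lit 152) (nat_lit 3823228842) (nat_lit 152) (nat_lit 1921432596) (nat_lit 79) (nat_lit 4) (nat_lit 81) (nat_lit 5) (nat_lit 81) (nat_lit 4) (nat_lit 481) (nat_lit 362) (nat_lit 357))))) (XT.nd (nat_lit 312) (nat_lit 608) (nat_lit 0) (XT.nd (nat_lit 156) (nat_lit 152) (nat_lit 0) (XT.nd (nat_lit 78) (nat_lit 152) (nat_lit 0) (XT.lf (nat_lit 0) (nat_lit 4274044308) (nat_lit 152) (nat_lit 7994584512) (nat_lit 0) (nat_lit 2089991003) (nat_lit 77) (nat_lit 5) (nat_lit 79) (nat_lit 4) (nat_lit 77) (nat_lit 4) (nat_lit 482) (nat_lit 362) (nat_lit 356)) (XT.lf (nat_lit 0) (nat_lit 4157961468) (nat_lit 152) (nat_lit 6472081228) (nat_lit 152) (nat_lit 3960213184) (nat_lit 75) (nat_lit 4) (nat_lit 77) (nat_lit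 5) (nat_lit 77) (nat_lit 4) (nat_lit 483) (nat_lit 362) (nat_lit 355))) (XT.nd (nat_lit 78) (nat_lit 0) (nat_lit 0) (XT.lf (nat_lit 0) (nat_lit 1793994136) (nat_lit 76) (nat_lit 483901882) (nat_lit 152) (nat_lit 12550996396) (nat_lit 73) (nat_lit 5) (nat_lit 74) (nat_lit 5) (nat_lit 75) (nat_lit 4) (nat_lit 484) (nat_lit 362) (nat_lit 354)) (XT.lf (nat_lit 0) (nat_lit 8662003124) (nat_lit 152) (nat_lit 796055876) (nat_lit 0) (nat_lit 5614302529) (nat_lit 73) (nat_lit 5) (nat_lit 75) (nat_lit 4) (nat_lit 73) (nat_lit 4) (nat_lit 485) (nat_lit 362) (nat_lit 353)))) (XT.nd (nat_lit 156) (nat_lit 304) (nat_lit 0) (XT.nd (nat_lit 78) (nat_lit 152) (nat_lit 0) (XT.lf (nat_lit 0) (nat_lit 11811805983) (nat_lit 152) (nat_lit 3425155925) (nat_lit 152) (nat_lit 86196179) (nat_lit 71) (nat_lit 4) (nat_lit 73) (nat_lit 5) (nat_lit 73) (nat_lit 4) (nat_lit 486) (nat_lit 362) (nat_lit 352)) (XT.lf (nat_lit 0) (nat_lit 6306617383)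 (nat_lit 152) (nat_lit 6482510764) (nat_lit 0) (nat_lit 2790369208) (nat_lit 69) (nat_lit 5) (nat_lit 71) (nat_lit 4) (nat_lit 69) (nat_lit 4) (nat_lit 487) (nat_lit 362) (nat_lit 351))) (XT.nd (nat_lit 78) (nat_lit 152) (nat_lit 0) (XT.lf (nat_lit 0) (nat_lit 6174105397) (nat_lit 152) (nat_lit 6725936764) (nat_lit 152) (nat_lit 2943145207) (nat_lit 67) (nat_lit 4) (nat_lit 69) (nat_lit 5) (nat_lit 69) (nat_lit 4) (nat_lit 488) (nat_lit 362) (nat_lit 350)) (XT.lf (nat_lit 0) (nat_lit 3030073890) (nat_lit 76) (nat_lit 453495286) (nat_lit 152) (nat_lit 12630883977) (nat_lit 65) (nat_lit 5) (nat_lit 66) (nat_lit 5) (nat_lit 67) (nat_lit 4) (nat_lit 489) (nat_lit 362) (nat_lit 349))))))))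
noncomputable def xc25 : XT := (XT.nd (nat_lit 2340) (nat_lit 1444) (nat_lit 0) (XT.nd (nat_lit 1170) (nat_lit 1064) (nat_lit 0) (XT.nd (nat_lit 546) (nat_lit 684) (nat_lit 0) (XT.nd (nat_lit 234) (nat_lit 380) (nat_lit 0) (XT.nd (nat_lit 78) (nat_lit 304) (nat_lit 0) (XT.lf (nat_lit 0) (nat_lit 10082220773) (nat_lit 152) (nat_lit 395175974) (nat_lit 0) (nat_lit 5914439957) (nat_lit 65) (nat_lit 5) (nat_lit 67) (nat_lit 4) (nat_lit 65) (nat_lit 4) (nat_lit 490) (nat_lit 362) (nat_lit 348)) (XT.nd (nat_lit 78) (nat_lit 76) (nat_lit 0) (XT.lf (nat_lit 0) (nat_lit 209425112) (nat_lit 228) (nat_lit 3979468179) (nat_lit 76) (nat_lit 12488231082) (nat_lit 62) (nat_lit 5) (nat_lit 65) (nat_lit 5) (nat_lit 63) (nat_lit 4) (nat_lit 491) (nat_lit 362) (nat_lit 347)) (XT.lf (nat_lit 0) (nat_lit 6796932317) (nat_lit 152) (nat_lit 7874780697) (nat_lit 0) (nat_lit 2297394626) (nat_lit 61) (nat_lit 5) (nat_lit 63) (nat_lit 4)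 (nat_lit 61) (nat_lit 4) (nat_lit 492) (nat_lit 362) (nat_lit 346)))) (XT.nd (nat_lit 156) (nat_lit 76) (nat_lit 0) (XT.nd (nat_lit 78) (nat_lit 152) (nat_lit 0) (XT.lf (nat_lit 0) (nat_lit 5214477983) (nat_lit 152) (nat_lit 8385548903) (nat_lit 152) (nat_lit 3669287051) (nat_lit 59) (nat_lit 4) (nat_lit 61) (nat_lit 5) (nat_lit 61) (nat_lit 4) (nat_lit 493) (nat_lit 362) (nat_lit 345)) (XT.lf (nat_lit 0) (nat_lit 1053558051) (nat_lit 76) (nat_lit 1892368899) (nat_lit 152) (nat_lit 14632438133) (nat_lit 57) (nat_lit 5) (nat_lit 58) (nat_lit 5) (nat_lit 59) (nat_lit 4) (nat_lit 494) (nat_lit 362) (nat_lit 344))) (XT.nd (nat_lit 78) (nat_lit 76) (nat_lit 0) (XT.lf (nat_lit 0) (nat_lit 9741029939) (nat_lit 152) (nat_lit 3393396364) (nat_lit 0) (nat_lit 4759518320) (nat_lit 57) (nat_lit 5) (nat_lit 59) (nat_lit 4) (nat_lit 57) (nat_lit 4) (nat_lit 495) (nat_lit 362) (nat_lit 343)) (XT.lf (nat_lit 0) (nat_lit 10097597123)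 (nat_lit 76) (nat_lit 6647653424) (nat_lit 76) (nat_lit 1473585196) (nat_lit 56) (nat_lit 4) (nat_lit 57) (nat_lit 5) (nat_lit 57) (nat_lit 4) (nat_lit 496) (nat_lit 362) (nat_lit 342))))) (XT.nd (nat_lit 312) (nat_lit 304) (nat_lit 0) (XT.nd (nat_lit 156) (nat_lit 152) (nat_lit 0) (XT.nd (nat_lit 78) (nat_lit 76) (nat_lit 0) (XT.lf (nat_lit 0) (nat_lit 5276943360) (nat_lit 152) (nat_lit 13203610796) (nat_lit 0) (nat_lit 72073075) (nat_lit 54) (nat_lit 5) (nat_lit 56) (nat_lit 4) (nat_lit 54) (nat_lit 4) (nat_lit 497) (nat_lit 362) (nat_lit 341)) (XT.lf (nat_lit 0) (nat_lit 205681626) (nat_lit 76) (nat_lit 12035094879) (nat_lit 76) (nat_lit 6654008018) (nat_lit 53) (nat_lit 4) (nat_lit 54) (nat_lit 5) (nat_lit 54) (nat_lit 4) (nat_lit 498) (nat_lit 362) (nat_lit 340))) (XT.nd (nat_lit 78) (nat_lit 76) (nat_lit 0) (XT.lf (nat_lit 0) (nat_lit 187614908) (nat_lit 152) (nat_lit 5171312650) (nat_lit 76) (nat_lit 13887496584)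 (nat_lit 52) (nat_lit 5) (nat_lit 54) (nat_lit 5) (nat_lit 53) (nat_lit 4) (nat_lit 499) (nat_lit 362) (nat_lit 339)) (XT.lf (nat_lit 0) (nat_lit 7092077475) (nat_lit 152) (nat_lit 10974463777) (nat_lit 0) (nat_lit 1540357146) (nat_lit 51) (nat_lit 5) (nat_lit 53) (nat_lit 4) (nat_lit 51) (nat_lit 4) (nat_lit 500) (nat_lit 362) (nat_lit 338)))) (XT.nd (nat_lit 156) (nat_lit 152) (nat_lit 0) (XT.nd (nat_lit 78) (nat_lit 76) (nat_lit 0) (XT.lf (nat_lit 0) (nat_lit 2773131314) (nat_lit 76) (nat_lit 11456285740) (nat_lit 76) (nat_lit 5747999265) (nat_lit 50) (nat_lit 4) (nat_lit 51) (nat_lit 5) (nat_lit 51) (nat_lit 4) (nat_lit 501) (nat_lit 362) (nat_lit 337)) (XT.lf (nat_lit 0) (nat_lit 1203282847) (nat_lit 152) (nat_lit 3417628260) (nat_lit 76) (nat_lit 15737629012) (nat_lit 49) (nat_lit 5) (nat_lit 51) (nat_lit 5) (nat_lit 50) (nat_lit 4) (nat_lit 502) (nat_lit 362) (nat_lit 336))) (XT.nd (nat_lit 78) (nat_lit 76)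 (nat_lit 0) (XT.lf (nat_lit 0) (nat_lit 8271146608) (nat_lit 152) (nat_lit 10039276022) (nat_lit 0) (nat_lit 2438262094) (nat_lit 48) (nat_lit 5) (nat_lit 50) (nat_lit 4) (nat_lit 48) (nat_lit 4) (nat_lit 503) (nat_lit 362) (nat_lit 335)) (XT.lf (nat_lit 0) (nat_lit 4011687316) (nat_lit 76) (nat_lit 11555182347) (nat_lit 76) (nat_lit 5583190842) (nat_lit 47) (nat_lit 4) (nat_lit 48) (nat_lit 5) (nat_lit 48) (nat_lit 4) (nat_lit 504) (nat_lit 362) (nat_lit 334)))))) (XT.nd (nat_lit 546) (nat_lit 608) (nat_lit 0) (XT.nd (nat_lit 234) (nat_lit 228) (nat_lit 0) (XT.nd (nat_lit 78) (nat_lit 152) (nat_lit 0) (XT.lf (nat_lit 0) (nat_lit 1487482104) (nat_lit 152) (nat_lit 3087458166) (nat_lit 76) (nat_lit 16988127485) (nat_lit 46) (nat_lit 5) (nat_lit 48) (nat_lit 5) (nat_lit 47) (nat_lit 4) (nat_lit 505) (nat_lit 362) (nat_lit 333)) (XT.nd (nat_lit 78) (nat_lit 76) (nat_lit 0) (XT.lf (nat_lit 0) (nat_lit 8692807160) (nat_lit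 152) (nat_lit 10656625771) (nat_lit 0) (nat_lit 2636332870) (nat_lit 45) (nat_lit 5) (nat_lit 47) (nat_lit 4) (nat_lit 45) (nat_lit 4) (nat_lit 506) (nat_lit 362) (nat_lit 332)) (XT.lf (nat_lit 0) (nat_lit 3651273100) (nat_lit 76) (nat_lit 12474794421) (nat_lit 76) (nat_lit 6294725369) (nat_lit 44) (nat_lit 4) (nat_lit 45) (nat_lit 5) (nat_lit 45) (nat_lit 4) (nat_lit 507) (nat_lit 362) (nat_lit 331)))) (XT.nd (nat_lit 156) (nat_lit 76) (nat_lit 0) (XT.nd (nat_lit 78) (nat_lit 76) (nat_lit 0) (XT.lf (nat_lit 0) (nat_lit 904272508) (nat_lit 152) (nat_lit 4464390772) (nat_lit 76) (nat_lit 17499686107) (nat_lit 43) (nat_lit 5) (nat_lit 45) (nat_lit 5) (nat_lit 44) (nat_lit 4) (nat_lit 508) (nat_lit 362) (nat_lit 330)) (XT.lf (nat_lit 0) (nat_lit 8213259903) (nat_lit 152) (nat_lit 13130001856) (nat_lit 0) (nat_lit 1983586231) (nat_lit 42) (nat_lit 5) (nat_lit 44) (nat_lit 4) (nat_lit 42) (nat_lit 4) (nat_lit 509) (nat_lit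 362) (nat_lit 329))) (XT.nd (nat_lit 78) (nat_lit 0) (nat_lit 0) (XT.lf (nat_lit 0) (nat_lit 1374715572) (nat_lit 76) (nat_lit 14381712931) (nat_lit 76) (nat_lit 8042226916) (nat_lit 41) (nat_lit 4) (nat_lit 42) (nat_lit 5) (nat_lit 42) (nat_lit 4) (nat_lit 510) (nat_lit 362) (nat_lit 328)) (XT.lf (nat_lit 0) (nat_lit 16395396025) (nat_lit 76) (nat_lit 7167111847) (nat_lit 76) (nat_lit 721011905) (nat_lit 41) (nat_lit 4) (nat_lit 42) (nat_lit 5) (nat_lit 42) (nat_lit 4) (nat_lit 511) (nat_lit 362) (nat_lit 327))))) (XT.nd (nat_lit 312) (nat_lit 228) (nat_lit 0) (XT.nd (nat_lit 156) (nat_lit 228) (nat_lit 0) (XT.nd (nat_lit 78) (nat_lit 0) (nat_lit 0) (XT.lf (nat_lit 0) (nat_lit 6662633330) (nat_lit 152) (nat_lit 17815264931) (nat_lit 0) (nat_lit 303790021) (nat_lit 39) (nat_lit 5) (nat_lit 41) (nat_lit 4) (nat_lit 39) (nat_lit 4) (nat_lit 512) (nat_lit 362) (nat_lit 326)) (XT.lf (nat_lit 0) (nat_lit 14310720534)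 (nat_lit 152) (nat_lit 3127835119) (nat_lit 0) (nat_lit 7854310380) (nat_lit 39) (nat_lit 5) (nat_lit 41) (nat_lit 4) (nat_lit 39) (nat_lit 4) (nat_lit 513) (nat_lit 362) (nat_lit 325))) (XT.nd (nat_lit 78) (nat_lit 152) (nat_lit 0) (XT.lf (nat_lit 0) (nat_lit 12056017906) (nat_lit 76) (nat_lit 10156879053) (nat_lit 76) (nat_lit 3605743806) (nat_lit 38) (nat_lit 4) (nat_lit 39) (nat_lit 5) (nat_lit 39) (nat_lit 4) (nat_lit 514) (nat_lit 362) (nat_lit 324)) (XT.lf (nat_lit 0) (nat_lit 1205590037) (nat_lit 76) (nat_lit 2660760402) (nat_lit 152) (nat_lit 22494119161) (nat_lit 36) (nat_lit 5) (nat_lit 37) (nat_lit 5) (nat_lit 38) (nat_lit 4) (nat_lit 515) (nat_lit 362) (nat_lit 323)))) (XT.nd (nat_lit 156) (nat_lit 152) (nat_lit 0) (XT.nd (nat_lit 78) (nat_lit 76) (nat_lit 0) (XT.lf (nat_lit 0) (nat_lit 11588046613) (nat_lit 152) (nat_lit 10274752537) (nat_lit 0) (nat_lit 5051746767) (nat_lit 36) (nat_lit 5) (nat_lit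 38) (nat_lit 4) (nat_lit 36) (nat_lit 4) (nat_lit 516) (nat_lit 362) (nat_lit 322)) (XT.lf (nat_lit 0) (nat_lit 4947591576) (nat_lit 76) (nat_lit 14579275767) (nat_lit 76) (nat_lit 7958813903) (nat_lit 35) (nat_lit 4) (nat_lit 36) (nat_lit 5) (nat_lit 36) (nat_lit 4) (nat_lit 517) (nat_lit 362) (nat_lit 321))) (XT.nd (nat_lit 78) (nat_lit 152) (nat_lit 0) (XT.lf (nat_lit 0) (nat_lit 20664550159) (nat_lit 76) (nat_lit 7055543357) (nat_lit 76) (nat_lit 353370796) (nat_lit 35) (nat_lit 4) (nat_lit 36) (nat_lit 5) (nat_lit 36) (nat_lit 4) (nat_lit 518) (nat_lit 362) (nat_lit 320)) (XT.lf (nat_lit 0) (nat_lit 7333584392) (nat_lit 152) (nat_lit 20593560168) (nat_lit 0) (nat_lit 749600571) (nat_lit 33) (nat_lit 5) (nat_lit 35) (nat_lit 4) (nat_lit 33) (nat_lit 4) (nat_lit 519) (nat_lit 362) (nat_lit 319))))))) (XT.nd (nat_lit 1170) (nat_lit 684) (nat_lit 0) (XT.nd (nat_lit 546) (nat_lit 380) (nat_lit 0) (XT.nd (nat_lit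 234) (nat_lit 228) (nat_lit 0) (XT.nd (nat_lit 78) (nat_lit 152) (nat_lit 0) (XT.lf (nat_lit 0) (nat_lit 15303743301) (nat_lit 152) (nat_lit 5347503396) (nat_lit 0) (nat_lit 8644982618) (nat_lit 33) (nat_lit 5) (nat_lit 35) (nat_lit 4) (nat_lit 33) (nat_lit 4) (nat_lit 520) (nat_lit 362) (nat_lit 318)) (XT.nd (nat_lit 78) (nat_lit 76) (nat_lit 0) (XT.lf (nat_lit 0) (nat_lit 10394250078) (nat_lit 76) (nat_lit 13135453712) (nat_lit 76) (nat_lit 6404094133) (nat_lit 32) (nat_lit 4) (nat_lit 33) (nat_lit 5) (nat_lit 33) (nat_lit 4) (nat_lit 521) (nat_lit 362) (nat_lit 317)) (XT.lf (nat_lit 0) (nat_lit 1355753879) (nat_lit 152) (nat_lit 4049663568) (nat_lit 76) (nat_lit 25185529027) (nat_lit 31) (nat_lit 5) (nat_lit 33) (nat_lit 5) (nat_lit 32) (nat_lit 4) (nat_lit 522) (nat_lit 362) (nat_lit 316)))) (XT.nd (nat_lit 156) (nat_lit 152) (nat_lit 0) (XT.nd (nat_lit 78) (nat_lit 0) (nat_lit 0) (XT.lf (nat_lit 0) (nat_lit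 9279030655) (nat_lit 152) (nat_lit 19376236480) (nat_lit 0) (nat_lit 2608860396) (nat_lit 30) (nat_lit 5) (nat_lit 32) (nat_lit 4) (nat_lit 30) (nat_lit 4) (nat_lit 523) (nat_lit 362) (nat_lit 315)) (XT.lf (nat_lit 0) (nat_lit 17454147514) (nat_lit 152) (nat_lit 3783458891) (nat_lit 0) (nat_lit 10719474076) (nat_lit 30) (nat_lit 5) (nat_lit 32) (nat_lit 4) (nat_lit 30) (nat_lit 4) (nat_lit 524) (nat_lit 362) (nat_lit 314))) (XT.nd (nat_lit 78) (nat_lit 76) (nat_lit 0) (XT.lf (nat_lit 0) (nat_lit 12363163277) (nat_lit 76) (nat_lit 13551870914) (nat_lit 76) (nat_lit 6754573031) (nat_lit 29) (nat_lit 4) (nat_lit 30) (nat_lit 5) (nat_lit 30) (nat_lit 4) (nat_lit 525) (nat_lit 362) (nat_lit 313)) (XT.lf (nat_lit 0) (nat_lit 1162603197) (nat_lit 152) (nat_lit 4498013825) (nat_lit 76) (nat_lit 27743730962) (nat_lit 28) (nat_lit 5) (nat_lit 30) (nat_lit 5) (nat_lit 29) (nat_lit 4) (nat_lit 526) (nat_lit 362) (nat_lit 312)))))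 (XT.nd (nat_lit 312) (nat_lit 228) (nat_lit 0) (XT.nd (nat_lit 156) (nat_lit 76) (nat_lit 0) (XT.nd (nat_lit 78) (nat_lit 0) (nat_lit 0) (XT.lf (nat_lit 0) (nat_lit 9243712457) (nat_lit 152) (nat_lit 22385493158) (nat_lit 0) (nat_lit 2528054339) (nat_lit 27) (nat_lit 5) (nat_lit 29) (nat_lit 4) (nat_lit 27) (nat_lit 4) (nat_lit 527) (nat_lit 362) (nat_lit 311)) (XT.lf (nat_lit 0) (nat_lit 17593229959) (nat_lit 152) (nat_lit 6516819859) (nat_lit 0) (nat_lit 10821930832) (nat_lit 27) (nat_lit 5) (nat_lit 29) (nat_lit 4) (nat_lit 27) (nat_lit 4) (nat_lit 528) (nat_lit 362) (nat_lit 310))) (XT.nd (nat_lit 78) (nat_lit 0) (nat_lit 0) (XT.lf (nat_lit 0) (nat_lit 9874213069) (nat_lit 76) (nat_lit 16340207201) (nat_lit 76) (nat_lit 9514887677) (nat_lit 26) (nat_lit 4) (nat_lit 27) (nat_lit 5) (nat_lit 27) (nat_lit 4) (nat_lit 529) (nat_lit 362) (nat_lit 309)) (XT.lf (nat_lit 0) (nat_lit 26745618490) (nat_lit 76) (nat_lit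 8341459358) (nat_lit 76) (nat_lit 1463692847) (nat_lit 26) (nat_lit 4) (nat_lit 27) (nat_lit 5) (nat_lit 27) (nat_lit 4) (nat_lit 530) (nat_lit 362) (nat_lit 308)))) (XT.nd (nat_lit 156) (nat_lit 76) (nat_lit 0) (XT.nd (nat_lit 78) (nat_lit 0) (nat_lit 0) (XT.lf (nat_lit 0) (nat_lit 6648224939) (nat_lit 76) (nat_lit 39908486) (nat_lit 152) (nat_lit 30707004458) (nat_lit 24) (nat_lit 5) (nat_lit 25) (nat_lit 5) (nat_lit 26) (nat_lit 4) (nat_lit 531) (nat_lit 362) (nat_lit 307)) (XT.lf (nat_lit 0) (nat_lit 15165405464) (nat_lit 152) (nat_lit 14705157592) (nat_lit 0) (nat_lit 8390529511) (nat_lit 24) (nat_lit 5) (nat_lit 26) (nat_lit 4) (nat_lit 24) (nat_lit 4) (nat_lit 532) (nat_lit 362) (nat_lit 306))) (XT.nd (nat_lit 78) (nat_lit 0) (nat_lit 0) (XT.lf (nat_lit 0) (nat_lit 1712811405) (nat_lit 76) (nat_lit 22131632981) (nat_lit 76) (nat_lit 15310158558) (nat_lit 23) (nat_lit 4) (nat_lit 24) (nat_lit 5) (nat_lit 24)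 (nat_lit 4) (nat_lit 533) (nat_lit 362) (nat_lit 305)) (XT.lf (nat_lit 0) (nat_lit 18788047382) (nat_lit 76) (nat_lit 14075596856) (nat_lit 76) (nat_lit 7208881202) (nat_lit 23) (nat_lit 4) (nat_lit 24) (nat_lit 5) (nat_lit 24) (nat_lit 4) (nat_lit 534) (nat_lit 362) (nat_lit 304)))))) (XT.nd (nat_lit 624) (nat_lit 304) (nat_lit 0) (XT.nd (nat_lit 312) (nat_lit 152) (nat_lit 0) (XT.nd (nat_lit 156) (nat_lit 76) (nat_lit 0) (XT.nd (nat_lit 78) (nat_lit 76) (nat_lit 0) (XT.lf (nat_lit 0) (nat_lit 1045914739) (nat_lit 152) (nat_lit 4787432258) (nat_lit 76) (nat_lit 35186332550) (nat_lit 22) (nat_lit 5) (nat_lit 24) (nat_lit 5) (nat_lit 23) (nat_lit 4) (nat_lit 535) (nat_lit 362) (nat_lit 303)) (XT.lf (nat_lit 0) (nat_lit 9482520158) (nat_lit 152) (nat_lit 29776456021) (nat_lit 0) (nat_lit 2731759595) (nat_lit 21) (nat_lit 5) (nat_lit 23) (nat_lit 4) (nat_lit 21) (nat_lit 4) (nat_lit 536) (nat_lit 362) (nat_lit 302)))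 (XT.nd (nat_lit 78) (nat_lit 76) (nat_lit 0) (XT.lf (nat_lit 0) (nat_lit 18213449901) (nat_lit 152) (nat_lit 13353744359) (nat_lit 0) (nat_lit 11422493089) (nat_lit 21) (nat_lit 5) (nat_lit 23) (nat_lit 4) (nat_lit 21) (nat_lit 4) (nat_lit 537) (nat_lit 362) (nat_lit 301)) (XT.lf (nat_lit 0) (nat_lit 3503591870) (nat_lit 76) (nat_lit 23672945713) (nat_lit 76) (nat_lit 16842963417) (nat_lit 20) (nat_lit 4) (nat_lit 21) (nat_lit 5) (nat_lit 21) (nat_lit 4) (nat_lit 538) (nat_lit 362) (nat_lit 300)))) (XT.nd (nat_lit 156) (nat_lit 152) (nat_lit 0) (XT.nd (nat_lit 78) (nat_lit 0) (nat_lit 0) (XT.lf (nat_lit 0) (nat_lit 21015201832) (nat_lit 76) (nat_lit 15465358742) (nat_lit 76) (nat_lit 8597487627) (nat_lit 20) (nat_lit 4) (nat_lit 21) (nat_lit 5) (nat_lit 21) (nat_lit 4) (nat_lit 539) (nat_lit 362) (nat_lit 299)) (XT.lf (nat_lit 0) (nat_lit 38930621234) (nat_lit 76) (nat_lit 7072108304) (nat_lit 76) (nat_lit 167451927)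 (nat_lit 20) (nat_lit 4) (nat_lit 21) (nat_lit 5) (nat_lit 21) (nat_lit 4) (nat_lit 540) (nat_lit 362) (nat_lit 298))) (XT.nd (nat_lit 78) (nat_lit 0) (nat_lit 0) (XT.lf (nat_lit 0) (nat_lit 8402786128) (nat_lit 152) (nat_lit 37223670619) (nat_lit 0) (nat_lit 1664562610) (nat_lit 18) (nat_lit 5) (nat_lit 20) (nat_lit 4) (nat_lit 18) (nat_lit 4) (nat_lit 541) (nat_lit 362) (nat_lit 297)) (XT.lf (nat_lit 0) (nat_lit 17310871699) (nat_lit 152) (nat_lit 20593053686) (nat_lit 0) (nat_lit 10538984456) (nat_lit 18) (nat_lit 5) (nat_lit 20) (nat_lit 4) (nat_lit 18) (nat_lit 4) (nat_lit 542) (nat_lit 362) (nat_lit 296))))) (XT.nd (nat_lit 312) (nat_lit 152) (nat_lit 0) (XT.nd (nat_lit 156) (nat_lit 76) (nat_lit 0) (XT.nd (nat_lit 78) (nat_lit 76) (nat_lit 0) (XT.lf (nat_lit 0) (nat_lit 26428195894) (nat_lit 152) (nat_lit 3579276202) (nat_lit 0) (nat_lit 19623625423) (nat_lit 18) (nat_lit 5) (nat_lit 20) (nat_lit 4) (nat_lit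 18) (nat_lit 4) (nat_lit 543) (nat_lit 362) (nat_lit 295)) (XT.lf (nat_lit 0) (nat_lit 14107822674) (nat_lit 76) (nat_lit 21790515655) (nat_lit 76) (nat_lit 14954213894) (nat_lit 17) (nat_lit 4) (nat_lit 18) (nat_lit 5) (nat_lit 18) (nat_lit 4) (nat_lit 544) (nat_lit 362) (nat_lit 294))) (XT.nd (nat_lit 78) (nat_lit 76) (nat_lit 0) (XT.lf (nat_lit 0) (nat_lit 32287621630) (nat_lit 76) (nat_lit 13345363064) (nat_lit 76) (nat_lit 6478254225) (nat_lit 17) (nat_lit 4) (nat_lit 18) (nat_lit 5) (nat_lit 18) (nat_lit 4) (nat_lit 545) (nat_lit 362) (nat_lit 293)) (XT.lf (nat_lit 0) (nat_lit 2153383337) (nat_lit 152) (nat_lit 2525650447) (nat_lit 76) (nat_lit 48729643027) (nat_lit 16) (nat_lit 5) (nat_lit 18) (nat_lit 5) (nat_lit 17) (nat_lit 4) (nat_lit 546) (nat_lit 362) (nat_lit 292)))) (XT.nd (nat_lit 156) (nat_lit 76) (nat_lit 0) (XT.nd (nat_lit 78) (nat_lit 0) (nat_lit 0) (XT.lf (nat_lit 0) (nat_lit 11051367541) (nat_lit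 152) (nat_lit 39360578141) (nat_lit 0) (nat_lit 4327040116) (nat_lit 15) (nat_lit 5) (nat_lit 17) (nat_lit 4) (nat_lit 15) (nat_lit 4) (nat_lit 547) (nat_lit 362) (nat_lit 291)) (XT.lf (nat_lit 0) (nat_lit 20235343842) (nat_lit 152) (nat_lit 22389644210) (nat_lit 0) (nat_lit 13483644727) (nat_lit 15) (nat_lit 5) (nat_lit 17) (nat_lit 4) (nat_lit 15) (nat_lit 4) (nat_lit 548) (nat_lit 362) (nat_lit 290))) (XT.nd (nat_lit 78) (nat_lit 76) (nat_lit 0) (XT.lf (nat_lit 0) (nat_lit 29643352898) (nat_lit 152) (nat_lit 5012481834) (nat_lit 0) (nat_lit 22865079328) (nat_lit 15) (nat_lit 5) (nat_lit 17) (nat_lit 4) (nat_lit 15) (nat_lit 4) (nat_lit 549) (nat_lit 362) (nat_lit 289)) (XT.lf (nat_lit 0) (nat_lit 13040561234) (nat_lit 76) (nat_lit 26368407917) (nat_lit 76) (nat_lit 19564333905) (nat_lit 14) (nat_lit 4) (nat_lit 15) (nat_lit 5) (nat_lit 15) (nat_lit 4) (nat_lit 550) (nat_lit 362) (nat_lit 288))))))))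
noncomputable def xc26 : XT := (XT.nd (nat_lit 58578) (nat_lit 0) (nat_lit 988) (XT.nd (nat_lit 57408) (nat_lit 0) (nat_lit 2964) (XT.nd (nat_lit 56784) (nat_lit 0) (nat_lit 4636) (XT.nd (nat_lit 56472) (nat_lit 0) (nat_lit 5548) (XT.nd (nat_lit 78) (nat_lit 152) (nat_lit 0) (XT.lf (nat_lit 0) (nat_lit 31639023497) (nat_lit 76) (nat_lit 17829664729) (nat_lit 76) (nat_lit 11000541744) (nat_lit 14) (nat_lit 4) (nat_lit 15) (nat_lit 5) (nat_lit 15) (nat_lit 4) (nat_lit 551) (nat_lit 362) (nat_lit 287)) (XT.nd (nat_lit 78) (nat_lit 152) (nat_lit 0) (XT.lf (nat_lit 0) (nat_lit 50699397819) (nat_lit 76) (nat_lit 9082760369) (nat_lit 76) (nat_lit 2229317992) (nat_lit 14) (nat_lit 4) (nat_lit 15) (nat_lit 5) (nat_lit 15) (nat_lit 4) (nat_lit 552) (nat_lit 362) (nat_lit 286)) (XT.lf (nat_lit 0) (nat_lit 6689706448) (nat_lit 152) (nat_lit 56894841973) (nat_lit 0) (nat_lit 12955539) (nat_lit 12) (nat_lit 5) (nat_lit 14) (nat_lit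 4) (nat_lit 12) (nat_lit 4) (nat_lit 553) (nat_lit 362) (nat_lit 285)))) (XT.nd (nat_lit 156) (nat_lit 380) (nat_lit 0) (XT.nd (nat_lit 78) (nat_lit 228) (nat_lit 0) (XT.lf (nat_lit 0) (nat_lit 2970585982) (nat_lit 152) (nat_lit 1690347651) (nat_lit 152) (nat_lit 1690347651) (nat_lit 93) (nat_lit 4) (nat_lit 95) (nat_lit 5) (nat_lit 95) (nat_lit 4) (nat_lit 474) (nat_lit 363) (nat_lit 363)) (XT.lf (nat_lit 0) (nat_lit 2505382102) (nat_lit 228) (nat_lit 8322990488) (nat_lit 0) (nat_lit 2064826504) (nat_lit 90) (nat_lit 5) (nat_lit 93) (nat_lit 4) (nat_lit 90) (nat_lit 4) (nat_lit 475) (nat_lit 363) (nat_lit 362))) (XT.nd (nat_lit 78) (nat_lit 228) (nat_lit 0) (XT.lf (nat_lit 0) (nat_lit 3056919624) (nat_lit 152) (nat_lit 5449857311) (nat_lit 152) (nat_lit 4581577832) (nat_lit 88) (nat_lit 4) (nat_lit 90) (nat_lit 5) (nat_lit 90) (nat_lit 4) (nat_lit 476) (nat_lit 363) (nat_lit 361)) (XT.lf (nat_lit 0) (nat_lit 1346449414)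 (nat_lit 228) (nat_lit 11842980988) (nat_lit 0) (nat_lit 100288847) (nat_lit 85) (nat_lit 5) (nat_lit 88) (nat_lit 4) (nat_lit 85) (nat_lit 4) (nat_lit 477) (nat_lit 363) (nat_lit 360))))) (XT.nd (nat_lit 312) (nat_lit 456) (nat_lit 0) (XT.nd (nat_lit 156) (nat_lit 304) (nat_lit 0) (XT.nd (nat_lit 78) (nat_lit 152) (nat_lit 0) (XT.lf (nat_lit 0) (nat_lit 7392090747) (nat_lit 228) (nat_lit 348219391) (nat_lit 0) (nat_lit 5754502238) (nat_lit 85) (nat_lit 5) (nat_lit 88) (nat_lit 4) (nat_lit 85) (nat_lit 4) (nat_lit 478) (nat_lit 363) (nat_lit 359)) (XT.lf (nat_lit 0) (nat_lit 11493627287) (nat_lit 152) (nat_lit 2115179838) (nat_lit 152) (nat_lit 97564200) (nat_lit 83) (nat_lit 4) (nat_lit 85) (nat_lit 5) (nat_lit 85) (nat_lit 4) (nat_lit 479) (nat_lit 363) (nat_lit 358))) (XT.nd (nat_lit 78) (nat_lit 152) (nat_lit 0) (XT.lf (nat_lit 0) (nat_lit 5980933381) (nat_lit 152) (nat_lit 4277361440) (nat_lit 0) (nat_lit 3663871231)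 (nat_lit 81) (nat_lit 5) (nat_lit 83) (nat_lit 4) (nat_lit 81) (nat_lit 4) (nat_lit 480) (nat_lit 363) (nat_lit 357)) (XT.lf (nat_lit 0) (nat_lit 7664409317) (nat_lit 152) (nat_lit 4572464753) (nat_lit 152) (nat_lit 1907623945) (nat_lit 79) (nat_lit 4) (nat_lit 81) (nat_lit 5) (nat_lit 81) (nat_lit 4) (nat_lit 481) (nat_lit 363) (nat_lit 356)))) (XT.nd (nat_lit 156) (nat_lit 152) (nat_lit 0) (XT.nd (nat_lit 78) (nat_lit 152) (nat_lit 0) (XT.lf (nat_lit 0) (nat_lit 4212444402) (nat_lit 152) (nat_lit 8862726650) (nat_lit 0) (nat_lit 1297405578) (nat_lit 77) (nat_lit 5) (nat_lit 79) (nat_lit 4) (nat_lit 77) (nat_lit 4) (nat_lit 482) (nat_lit 363) (nat_lit 355)) (XT.lf (nat_lit 0) (nat_lit 3160354299) (nat_lit 152) (nat_lit 7339610020) (nat_lit 152) (nat_lit 4106304458) (nat_lit 75) (nat_lit 4) (nat_lit 77) (nat_lit 5) (nat_lit 77) (nat_lit 4) (nat_lit 483) (nat_lit 363) (nat_lit 354))) (XT.nd (nat_lit 78) (nat_lit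 0) (nat_lit 0) (XT.lf (nat_lit 0) (nat_lit 649350719) (nat_lit 76) (nat_lit 1415503031) (nat_lit 152) (nat_lit 12782189377) (nat_lit 73) (nat_lit 5) (nat_lit 74) (nat_lit 5) (nat_lit 75) (nat_lit 4) (nat_lit 484) (nat_lit 363) (nat_lit 353)) (XT.lf (nat_lit 0) (nat_lit 8381382609) (nat_lit 152) (nat_lit 2060163647) (nat_lit 0) (nat_lit 4650994921) (nat_lit 73) (nat_lit 5) (nat_lit 75) (nat_lit 4) (nat_lit 73) (nat_lit 4) (nat_lit 485) (nat_lit 363) (nat_lit 352)))))) (XT.nd (nat_lit 546) (nat_lit 760) (nat_lit 0) (XT.nd (nat_lit 234) (nat_lit 456) (nat_lit 0) (XT.nd (nat_lit 78) (nat_lit 304) (nat_lit 0) (XT.lf (nat_lit 0) (nat_lit 10413352294) (nat_lit 152) (nat_lit 4472630649) (nat_lit 152) (nat_lit 459467086) (nat_lit 71) (nat_lit 4) (nat_lit 73) (nat_lit 5) (nat_lit 73) (nat_lit 4) (nat_lit 486) (nat_lit 363) (nat_lit 351)) (XT.nd (nat_lit 78) (nat_lit 152) (nat_lit 0) (XT.lf (nat_lit 0) (nat_lit 5858114636)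 (nat_lit 152) (nat_lit 8050963277) (nat_lit 0) (nat_lit 1695295951) (nat_lit 69) (nat_lit 5) (nat_lit 71) (nat_lit 4) (nat_lit 69) (nat_lit 4) (nat_lit 487) (nat_lit 363) (nat_lit 350)) (XT.lf (nat_lit 0) (nat_lit 4465004663) (nat_lit 152) (nat_lit 7913426273) (nat_lit 152) (nat_lit 3491827605) (nat_lit 67) (nat_lit 4) (nat_lit 69) (nat_lit 5) (nat_lit 69) (nat_lit 4) (nat_lit 488) (nat_lit 363) (nat_lit 349)))) (XT.nd (nat_lit 156) (nat_lit 304) (nat_lit 0) (XT.nd (nat_lit 78) (nat_lit 0) (nat_lit 0) (XT.lf (nat_lit 0) (nat_lit 1155217575) (nat_lit 76) (nat_lit 1715747421) (nat_lit 152) (nat_lit 13272957743) (nat_lit 65) (nat_lit 5) (nat_lit 66) (nat_lit 5) (nat_lit 67) (nat_lit 4) (nat_lit 489) (nat_lit 363) (nat_lit 348)) (XT.lf (nat_lit 0) (nat_lit 9401019564) (nat_lit 152) (nat_lit 2394885901) (nat_lit 0) (nat_lit 4627460028) (nat_lit 65) (nat_lit 5) (nat_lit 67) (nat_lit 4) (nat_lit 65) (nat_lit 4) (nat_lit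 490) (nat_lit 363) (nat_lit 347))) (XT.nd (nat_lit 78) (nat_lit 152) (nat_lit 0) (XT.lf (nat_lit 0) (nat_lit 10553799432) (nat_lit 152) (nat_lit 5580331099) (nat_lit 152) (nat_lit 576848900) (nat_lit 63) (nat_lit 4) (nat_lit 65) (nat_lit 5) (nat_lit 65) (nat_lit 4) (nat_lit 491) (nat_lit 363) (nat_lit 346)) (XT.lf (nat_lit 0) (nat_lit 5930712091) (nat_lit 152) (nat_lit 10218915994) (nat_lit 0) (nat_lit 856238222) (nat_lit 61) (nat_lit 5) (nat_lit 63) (nat_lit 4) (nat_lit 61) (nat_lit 4) (nat_lit 492) (nat_lit 363) (nat_lit 345))))) (XT.nd (nat_lit 312) (nat_lit 380) (nat_lit 0) (XT.nd (nat_lit 156) (nat_lit 152) (nat_lit 0) (XT.nd (nat_lit 78) (nat_lit 76) (nat_lit 0) (XT.lf (nat_lit 0) (nat_lit 2717026919) (nat_lit 152) (nat_lit 9938145763) (nat_lit 152) (nat_lit 4653260087) (nat_lit 59) (nat_lit 4) (nat_lit 61) (nat_lit 5) (nat_lit 61) (nat_lit 4) (nat_lit 493) (nat_lit 363) (nat_lit 344)) (XT.lf (nat_lit 0) (nat_lit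 1916459954) (nat_lit 228) (nat_lit 1598755276) (nat_lit 76) (nat_lit 14104494368) (nat_lit 58) (nat_lit 5) (nat_lit 61) (nat_lit 5) (nat_lit 59) (nat_lit 4) (nat_lit 494) (nat_lit 363) (nat_lit 343))) (XT.nd (nat_lit 78) (nat_lit 76) (nat_lit 0) (XT.lf (nat_lit 0) (nat_lit 8625682621) (nat_lit 152) (nat_lit 6208348239) (nat_lit 0) (nat_lit 3103835735) (nat_lit 57) (nat_lit 5) (nat_lit 59) (nat_lit 4) (nat_lit 57) (nat_lit 4) (nat_lit 495) (nat_lit 363) (nat_lit 342)) (XT.lf (nat_lit 0) (nat_lit 7122888823) (nat_lit 76) (nat_lit 8425554382) (nat_lit 76) (nat_lit 2716759331) (nat_lit 56) (nat_lit 4) (nat_lit 57) (nat_lit 5) (nat_lit 57) (nat_lit 4) (nat_lit 496) (nat_lit 363) (nat_lit 341)))) (XT.nd (nat_lit 156) (nat_lit 228) (nat_lit 0) (XT.nd (nat_lit 78) (nat_lit 0) (nat_lit 0) (XT.lf (nat_lit 0) (nat_lit 2176942467) (nat_lit 76) (nat_lit 1797067676) (nat_lit 152) (nat_lit 14627863882) (nat_lit 54) (nat_lit 5)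 (nat_lit 55) (nat_lit 5) (nat_lit 56) (nat_lit 4) (nat_lit 497) (nat_lit 363) (nat_lit 340)) (XT.lf (nat_lit 0) (nat_lit 10865882419) (nat_lit 152) (nat_lit 3104246334) (nat_lit 0) (nat_lit 4976062322) (nat_lit 54) (nat_lit 5) (nat_lit 56) (nat_lit 4) (nat_lit 54) (nat_lit 4) (nat_lit 498) (nat_lit 363) (nat_lit 339))) (XT.nd (nat_lit 78) (nat_lit 152) (nat_lit 0) (XT.lf (nat_lit 0) (nat_lit 10604428069) (nat_lit 76) (nat_lit 7375928577) (nat_lit 76) (nat_lit 1320007457) (nat_lit 53) (nat_lit 4) (nat_lit 54) (nat_lit 5) (nat_lit 54) (nat_lit 4) (nat_lit 499) (nat_lit 363) (nat_lit 338)) (XT.lf (nat_lit 0) (nat_lit 4965241009) (nat_lit 76) (nat_lit 543342862) (nat_lit 152) (nat_lit 14155684882) (nat_lit 51) (nat_lit 5) (nat_lit 52) (nat_lit 5) (nat_lit 53) (nat_lit 4) (nat_lit 500) (nat_lit 363) (nat_lit 337))))))) (XT.nd (nat_lit 1170) (nat_lit 912) (nat_lit 0) (XT.nd (nat_lit 546) (nat_lit 608) (nat_lit 0) (XT.nd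 (nat_lit 234) (nat_lit 228) (nat_lit 0) (XT.nd (nat_lit 78) (nat_lit 228) (nat_lit 0) (XT.lf (nat_lit 0) (nat_lit 12563008158) (nat_lit 152) (nat_lit 1099365825) (nat_lit 0) (nat_lit 6374900978) (nat_lit 51) (nat_lit 5) (nat_lit 53) (nat_lit 4) (nat_lit 51) (nat_lit 4) (nat_lit 501) (nat_lit 363) (nat_lit 336)) (XT.nd (nat_lit 78) (nat_lit 152) (nat_lit 0) (XT.lf (nat_lit 0) (nat_lit 12960614649) (nat_lit 76) (nat_lit 6897831351) (nat_lit 76) (nat_lit 562145563) (nat_lit 50) (nat_lit 4) (nat_lit 51) (nat_lit 5) (nat_lit 51) (nat_lit 4) (nat_lit 502) (nat_lit 363) (nat_lit 335)) (XT.lf (nat_lit 0) (nat_lit 6403868881) (nat_lit 152) (nat_lit 14296804082) (nat_lit 0) (nat_lit 113610638) (nat_lit 48) (nat_lit 5) (nat_lit 50) (nat_lit 4) (nat_lit 48) (nat_lit 4) (nat_lit 503) (nat_lit 363) (nat_lit 334)))) (XT.nd (nat_lit 156) (nat_lit 152) (nat_lit 0) (XT.nd (nat_lit 78) (nat_lit 76) (nat_lit 0) (XT.lf (nat_lit 0) (nat_lit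 13611603515) (nat_lit 152) (nat_lit 420406314) (nat_lit 0) (nat_lit 7186289940) (nat_lit 48) (nat_lit 5) (nat_lit 50) (nat_lit 4) (nat_lit 48) (nat_lit 4) (nat_lit 504) (nat_lit 363) (nat_lit 333)) (XT.lf (nat_lit 0) (nat_lit 13954830551) (nat_lit 76) (nat_lit 7117470329) (nat_lit 76) (nat_lit 561035072) (nat_lit 47) (nat_lit 4) (nat_lit 48) (nat_lit 5) (nat_lit 48) (nat_lit 4) (nat_lit 505) (nat_lit 363) (nat_lit 332))) (XT.nd (nat_lit 78) (nat_lit 0) (nat_lit 0) (XT.lf (nat_lit 0) (nat_lit 6536028666) (nat_lit 152) (nat_lit 15476781288) (nat_lit 0) (nat_lit 46962782) (nat_lit 45) (nat_lit 5) (nat_lit 47) (nat_lit 4) (nat_lit 45) (nat_lit 4) (nat_lit 506) (nat_lit 363) (nat_lit 331)) (XT.lf (nat_lit 0) (nat_lit 13886314188) (nat_lit 152) (nat_lit 1333722145) (nat_lit 0) (nat_lit 7277253391) (nat_lit 45) (nat_lit 5) (nat_lit 47) (nat_lit 4) (nat_lit 45) (nat_lit 4) (nat_lit 507) (nat_lit 363) (nat_lit 330))))) (XT.nd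 (nat_lit 312) (nat_lit 304) (nat_lit 0) (XT.nd (nat_lit 156) (nat_lit 76) (nat_lit 0) (XT.nd (nat_lit 78) (nat_lit 152) (nat_lit 0) (XT.lf (nat_lit 0) (nat_lit 13308878375) (nat_lit 76) (nat_lit 8181804308) (nat_lit 76) (nat_lit 1456243595) (nat_lit 44) (nat_lit 4) (nat_lit 45) (nat_lit 5) (nat_lit 45) (nat_lit 4) (nat_lit 508) (nat_lit 363) (nat_lit 329)) (XT.lf (nat_lit 0) (nat_lit 4861822742) (nat_lit 76) (nat_lit 901965519) (nat_lit 152) (nat_lit 17645578331) (nat_lit 42) (nat_lit 5) (nat_lit 43) (nat_lit 5) (nat_lit 44) (nat_lit 4) (nat_lit 509) (nat_lit 363) (nat_lit 328))) (XT.nd (nat_lit 78) (nat_lit 76) (nat_lit 0) (XT.lf (nat_lit 0) (nat_lit 13238687176) (nat_lit 152) (nat_lit 4151945206) (nat_lit 0) (nat_lit 6492590309) (nat_lit 42) (nat_lit 5) (nat_lit 44) (nat_lit 4) (nat_lit 42) (nat_lit 4) (nat_lit 510) (nat_lit 363) (nat_lit 327)) (XT.lf (nat_lit 0) (nat_lit 10696031816) (nat_lit 76) (nat_lit 10262129740)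 (nat_lit 76) (nat_lit 3412524207) (nat_lit 41) (nat_lit 4) (nat_lit 42) (nat_lit 5) (nat_lit 42) (nat_lit 4) (nat_lit 511) (nat_lit 363) (nat_lit 326)))) (XT.nd (nat_lit 156) (nat_lit 152) (nat_lit 0) (XT.nd (nat_lit 78) (nat_lit 0) (nat_lit 0) (XT.lf (nat_lit 0) (nat_lit 1004082349) (nat_lit 76) (nat_lit 2914233775) (nat_lit 152) (nat_lit 20954474630) (nat_lit 39) (nat_lit 5) (nat_lit 40) (nat_lit 5) (nat_lit 41) (nat_lit 4) (nat_lit 512) (nat_lit 363) (nat_lit 325)) (XT.lf (nat_lit 0) (nat_lit 11493442535) (nat_lit 152) (nat_lit 9241667173) (nat_lit 0) (nat_lit 4651048137) (nat_lit 39) (nat_lit 5) (nat_lit 41) (nat_lit 4) (nat_lit 39) (nat_lit 4) (nat_lit 513) (nat_lit 363) (nat_lit 324))) (XT.nd (nat_lit 78) (nat_lit 76) (nat_lit 0) (XT.lf (nat_lit 0) (nat_lit 5732973315) (nat_lit 76) (nat_lit 13558226423) (nat_lit 76) (nat_lit 6623865917) (nat_lit 38) (nat_lit 4) (nat_lit 39) (nat_lit 5) (nat_lit 39) (nat_lit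 4) (nat_lit 514) (nat_lit 363) (nat_lit 323)) (XT.lf (nat_lit 0) (nat_lit 851921685) (nat_lit 152) (nat_lit 5294246971) (nat_lit 76) (nat_lit 20313252701) (nat_lit 37) (nat_lit 5) (nat_lit 39) (nat_lit 5) (nat_lit 38) (nat_lit 4) (nat_lit 515) (nat_lit 363) (nat_lit 322)))))) (XT.nd (nat_lit 624) (nat_lit 380) (nat_lit 0) (XT.nd (nat_lit 312) (nat_lit 228) (nat_lit 0) (XT.nd (nat_lit 156) (nat_lit 228) (nat_lit 0) (XT.nd (nat_lit 78) (nat_lit 0) (nat_lit 0) (XT.lf (nat_lit 0) (nat_lit 8444134233) (nat_lit 152) (nat_lit 17032351914) (nat_lit 0) (nat_lit 1540896494) (nat_lit 36) (nat_lit 5) (nat_lit 38) (nat_lit 4) (nat_lit 36) (nat_lit 4) (nat_lit 516) (nat_lit 363) (nat_lit 321)) (XT.lf (nat_lit 0) (nat_lit 16293103004) (nat_lit 152) (nat_lit 1989956400) (nat_lit 0) (nat_lit 9308154568) (nat_lit 36) (nat_lit 5) (nat_lit 38) (nat_lit 4) (nat_lit 36) (nat_lit 4) (nat_lit 517) (nat_lit 363) (nat_lit 320))) (XT.nd (nat_lit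 78) (nat_lit 152) (nat_lit 0) (XT.lf (nat_lit 0) (nat_lit 13604812559) (nat_lit 76) (nat_lit 10820152522) (nat_lit 76) (nat_lit 3755873313) (nat_lit 35) (nat_lit 4) (nat_lit 36) (nat_lit 5) (nat_lit 36) (nat_lit 4) (nat_lit 518) (nat_lit 363) (nat_lit 319)) (XT.lf (nat_lit 0) (nat_lit 731751728) (nat_lit 76) (nat_lit 3146598570) (nat_lit 152) (nat_lit 24910324330) (nat_lit 33) (nat_lit 5) (nat_lit 34) (nat_lit 5) (nat_lit 35) (nat_lit 4) (nat_lit 519) (nat_lit 363) (nat_lit 318)))) (XT.nd (nat_lit 156) (nat_lit 152) (nat_lit 0) (XT.nd (nat_lit 78) (nat_lit 76) (nat_lit 0) (XT.lf (nat_lit 0) (nat_lit 11777267558) (nat_lit 152) (nat_lit 12861660604) (nat_lit 0) (nat_lit 4771368295) (nat_lit 33) (nat_lit 5) (nat_lit 35) (nat_lit 4) (nat_lit 33) (nat_lit 4) (nat_lit 520) (nat_lit 363) (nat_lit 317)) (XT.lf (nat_lit 0) (nat_lit 2650299427) (nat_lit 76) (nat_lit 17238688429) (nat_lit 76) (nat_lit 10162304800) (nat_lit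 32) (nat_lit 4) (nat_lit 33) (nat_lit 5) (nat_lit 33) (nat_lit 4) (nat_lit 521) (nat_lit 363) (nat_lit 316))) (XT.nd (nat_lit 78) (nat_lit 152) (nat_lit 0) (XT.lf (nat_lit 0) (nat_lit 18733113020) (nat_lit 76) (nat_lit 9560862035) (nat_lit 76) (nat_lit 2416046984) (nat_lit 32) (nat_lit 4) (nat_lit 33) (nat_lit 5) (nat_lit 33) (nat_lit 4) (nat_lit 522) (nat_lit 363) (nat_lit 315)) (XT.lf (nat_lit 0) (nat_lit 3774978803) (nat_lit 76) (nat_lit 1636958205) (nat_lit 152) (nat_lit 25976236332) (nat_lit 30) (nat_lit 5) (nat_lit 31) (nat_lit 5) (nat_lit 32) (nat_lit 4) (nat_lit 523) (nat_lit 363) (nat_lit 314))))) (XT.nd (nat_lit 312) (nat_lit 152) (nat_lit 0) (XT.nd (nat_lit 156) (nat_lit 152) (nat_lit 0) (XT.nd (nat_lit 78) (nat_lit 76) (nat_lit 0) (XT.lf (nat_lit 0) (nat_lit 13532734199) (nat_lit 152) (nat_lit 12081129088) (nat_lit 0) (nat_lit 6468892934) (nat_lit 30) (nat_lit 5) (nat_lit 32) (nat_lit 4) (nat_lit 30)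 (nat_lit 4) (nat_lit 524) (nat_lit 363) (nat_lit 313)) (XT.lf (nat_lit 0) (nat_lit 3824655076) (nat_lit 76) (nat_lit 18049428024) (nat_lit 76) (nat_lit 10924786326) (nat_lit 29) (nat_lit 4) (nat_lit 30) (nat_lit 5) (nat_lit 30) (nat_lit 4) (nat_lit 525) (nat_lit 363) (nat_lit 312))) (XT.nd (nat_lit 78) (nat_lit 152) (nat_lit 0) (XT.lf (nat_lit 0) (nat_lit 20306072674) (nat_lit 76) (nat_lit 10206331648) (nat_lit 76) (nat_lit 3022660404) (nat_lit 29) (nat_lit 4) (nat_lit 30) (nat_lit 5) (nat_lit 30) (nat_lit 4) (nat_lit 526) (nat_lit 363) (nat_lit 311)) (XT.lf (nat_lit 0) (nat_lit 2848676328) (nat_lit 76) (nat_lit 2121598455) (nat_lit 152) (nat_lit 29322988598) (nat_lit 27) (nat_lit 5) (nat_lit 28) (nat_lit 5) (nat_lit 29) (nat_lit 4) (nat_lit 527) (nat_lit 363) (nat_lit 310)))) (XT.nd (nat_lit 156) (nat_lit 76) (nat_lit 0) (XT.nd (nat_lit 78) (nat_lit 76) (nat_lit 0) (XT.lf (nat_lit 0) (nat_lit 13263078138) (nat_lit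 152) (nat_lit 15627629027) (nat_lit 0) (nat_lit 6178978631) (nat_lit 27) (nat_lit 5) (nat_lit 29) (nat_lit 4) (nat_lit 27) (nat_lit 4) (nat_lit 528) (nat_lit 363) (nat_lit 309)) (XT.lf (nat_lit 0) (nat_lit 510678513) (nat_lit 76) (nat_lit 21248319732) (nat_lit 76) (nat_lit 14111773238) (nat_lit 26) (nat_lit 4) (nat_lit 27) (nat_lit 5) (nat_lit 27) (nat_lit 4) (nat_lit 529) (nat_lit 363) (nat_lit 308))) (XT.nd (nat_lit 78) (nat_lit 76) (nat_lit 0) (XT.lf (nat_lit 0) (nat_lit 17312761195) (nat_lit 76) (nat_lit 13283993129) (nat_lit 76) (nat_lit 6096527230) (nat_lit 26) (nat_lit 4) (nat_lit 27) (nat_lit 5) (nat_lit 27) (nat_lit 4) (nat_lit 530) (nat_lit 363) (nat_lit 307)) (XT.lf (nat_lit 0) (nat_lit 2047574814) (nat_lit 152) (nat_lit 3080325340) (nat_lit 76) (nat_lit 32414028685) (nat_lit 25) (nat_lit 5) (nat_lit 27) (nat_lit 5) (nat_lit 26) (nat_lit 4) (nat_lit 531) (nat_lit 363) (nat_lit 306))))))))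
noncomputable def xc27 : XT := (XT.nd (nat_lit 58422) (nat_lit 0) (nat_lit 2204) (XT.nd (nat_lit 1170) (nat_lit 304) (nat_lit 0) (XT.nd (nat_lit 546) (nat_lit 304) (nat_lit 0) (XT.nd (nat_lit 234) (nat_lit 152) (nat_lit 0) (XT.nd (nat_lit 78) (nat_lit 76) (nat_lit 0) (XT.lf (nat_lit 0) (nat_lit 10411247081) (nat_lit 152) (nat_lit 24661514731) (nat_lit 0) (nat_lit 3338529957) (nat_lit 24) (nat_lit 5) (nat_lit 26) (nat_lit 4) (nat_lit 24) (nat_lit 4) (nat_lit 532) (nat_lit 363) (nat_lit 305)) (XT.nd (nat_lit 78) (nat_lit 76) (nat_lit 0) (XT.lf (nat_lit 0) (nat_lit 19040624701) (nat_lit 152) (nat_lit 8343001185) (nat_lit 0) (nat_lit 11922666346) (nat_lit 24) (nat_lit 5) (nat_lit 26) (nat_lit 4) (nat_lit 24) (nat_lit 4) (nat_lit 533) (nat_lit 363) (nat_lit 304)) (XT.lf (nat_lit 0) (nat_lit 8500807753) (nat_lit 76) (nat_lit 19444364335) (nat_lit 76) (nat_lit 12282482454) (nat_lit 23) (nat_lit 4) (nat_lit 24) (nat_lit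 5) (nat_lit 24) (nat_lit 4) (nat_lit 534) (nat_lit 363) (nat_lit 303)))) (XT.nd (nat_lit 156) (nat_lit 0) (nat_lit 0) (XT.nd (nat_lit 78) (nat_lit 152) (nat_lit 0) (XT.lf (nat_lit 0) (nat_lit 25892088809) (nat_lit 76) (nat_lit 11244255408) (nat_lit 76) (nat_lit 4039729326) (nat_lit 23) (nat_lit 4) (nat_lit 24) (nat_lit 5) (nat_lit 24) (nat_lit 4) (nat_lit 535) (nat_lit 363) (nat_lit 302)) (XT.lf (nat_lit 0) (nat_lit 1512522600) (nat_lit 76) (nat_lit 2801985191) (nat_lit 152) (nat_lit 37838623108) (nat_lit 21) (nat_lit 5) (nat_lit 22) (nat_lit 5) (nat_lit 23) (nat_lit 4) (nat_lit 536) (nat_lit 363) (nat_lit 301))) (XT.nd (nat_lit 78) (nat_lit 0) (nat_lit 0) (XT.lf (nat_lit 0) (nat_lit 12987247660) (nat_lit 152) (nat_lit 24253240310) (nat_lit 0) (nat_lit 5913340412) (nat_lit 21) (nat_lit 5) (nat_lit 23) (nat_lit 4) (nat_lit 21) (nat_lit 4) (nat_lit 537) (nat_lit 363) (nat_lit 300)) (XT.lf (nat_lit 0) (nat_lit 21886311551)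 (nat_lit 152) (nat_lit 7524735920) (nat_lit 0) (nat_lit 14774515483) (nat_lit 21) (nat_lit 5) (nat_lit 23) (nat_lit 4) (nat_lit 21) (nat_lit 4) (nat_lit 538) (nat_lit 363) (nat_lit 299))))) (XT.nd (nat_lit 312) (nat_lit 76) (nat_lit 0) (XT.nd (nat_lit 156) (nat_lit 152) (nat_lit 0) (XT.nd (nat_lit 78) (nat_lit 0) (nat_lit 0) (XT.lf (nat_lit 0) (nat_lit 9777245682) (nat_lit 76) (nat_lit 21309280132) (nat_lit 76) (nat_lit 14160698802) (nat_lit 20) (nat_lit 4) (nat_lit 21) (nat_lit 5) (nat_lit 21) (nat_lit 4) (nat_lit 539) (nat_lit 363) (nat_lit 298)) (XT.lf (nat_lit 0) (nat_lit 27634537552) (nat_lit 76) (nat_lit 12944995278) (nat_lit 76) (nat_lit 5760700103) (nat_lit 20) (nat_lit 4) (nat_lit 21) (nat_lit 5) (nat_lit 21) (nat_lit 4) (nat_lit 540) (nat_lit 363) (nat_lit 297))) (XT.nd (nat_lit 78) (nat_lit 76) (nat_lit 0) (XT.lf (nat_lit 0) (nat_lit 2776834960) (nat_lit 152) (nat_lit 1581993843) (nat_lit 76) (nat_lit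 43108110600) (nat_lit 19) (nat_lit 5) (nat_lit 21) (nat_lit 5) (nat_lit 20) (nat_lit 4) (nat_lit 541) (nat_lit 363) (nat_lit 296)) (XT.lf (nat_lit 0) (nat_lit 11598784126) (nat_lit 152) (nat_lit 32465236720) (nat_lit 0) (nat_lit 4557393312) (nat_lit 18) (nat_lit 5) (nat_lit 20) (nat_lit 4) (nat_lit 18) (nat_lit 4) (nat_lit 542) (nat_lit 363) (nat_lit 295)))) (XT.nd (nat_lit 156) (nat_lit 0) (nat_lit 0) (XT.nd (nat_lit 78) (nat_lit 76) (nat_lit 0) (XT.lf (nat_lit 0) (nat_lit 20688367184) (nat_lit 152) (nat_lit 15506821978) (nat_lit 0) (nat_lit 13615245080) (nat_lit 18) (nat_lit 5) (nat_lit 20) (nat_lit 4) (nat_lit 18) (nat_lit 4) (nat_lit 543) (nat_lit 363) (nat_lit 294)) (XT.lf (nat_lit 0) (nat_lit 1888075379) (nat_lit 76) (nat_lit 28126037410) (nat_lit 76) (nat_lit 21022108229) (nat_lit 17) (nat_lit 4) (nat_lit 18) (nat_lit 5) (nat_lit 18) (nat_lit 4) (nat_lit 544) (nat_lit 363) (nat_lit 293))) (XT.nd (nat_lit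 78) (nat_lit 0) (nat_lit 0) (XT.lf (nat_lit 0) (nat_lit 20014651064) (nat_lit 76) (nat_lit 19707447794) (nat_lit 76) (nat_lit 12573608829) (nat_lit 17) (nat_lit 4) (nat_lit 18) (nat_lit 5) (nat_lit 18) (nat_lit 4) (nat_lit 545) (nat_lit 363) (nat_lit 292)) (XT.lf (nat_lit 0) (nat_lit 38580127667) (nat_lit 76) (nat_lit 11088652760) (nat_lit 76) (nat_lit 3925775170) (nat_lit 17) (nat_lit 4) (nat_lit 18) (nat_lit 5) (nat_lit 18) (nat_lit 4) (nat_lit 546) (nat_lit 363) (nat_lit 291)))))) (XT.nd (nat_lit 56628) (nat_lit 0) (nat_lit 5320) (XT.nd (nat_lit 234) (nat_lit 152) (nat_lit 0) (XT.nd (nat_lit 78) (nat_lit 0) (nat_lit 0) (XT.lf (nat_lit 0) (nat_lit 2671579852) (nat_lit 76) (nat_lit 2186868562) (nat_lit 152) (nat_lit 50073259427) (nat_lit 15) (nat_lit 5) (nat_lit 16) (nat_lit 5) (nat_lit 17) (nat_lit 4) (nat_lit 547) (nat_lit 363) (nat_lit 290)) (XT.nd (nat_lit 78) (nat_lit 0) (nat_lit 0) (XT.lf (nat_lit 0) (nat_lit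 13996040373) (nat_lit 152) (nat_lit 35318861985) (nat_lit 0) (nat_lit 6987844140) (nat_lit 15) (nat_lit 5) (nat_lit 17) (nat_lit 4) (nat_lit 15) (nat_lit 4) (nat_lit 548) (nat_lit 363) (nat_lit 289)) (XT.lf (nat_lit 0) (nat_lit 23379425327) (nat_lit 152) (nat_lit 17990912662) (nat_lit 0) (nat_lit 16345428652) (nat_lit 15) (nat_lit 5) (nat_lit 17) (nat_lit 4) (nat_lit 15) (nat_lit 4) (nat_lit 549) (nat_lit 363) (nat_lit 288)))) (XT.nd (nat_lit 156) (nat_lit 76) (nat_lit 0) (XT.nd (nat_lit 78) (nat_lit 76) (nat_lit 0) (XT.lf (nat_lit 0) (nat_lit 32995780835) (nat_lit 152) (nat_lit 240117577) (nat_lit 0) (nat_lit 25936735187) (nat_lit 15) (nat_lit 5) (nat_lit 17) (nat_lit 4) (nat_lit 15) (nat_lit 4) (nat_lit 550) (nat_lit 363) (nat_lit 287)) (XT.lf (nat_lit 0) (nat_lit 18306254639) (nat_lit 76) (nat_lit 24723225814) (nat_lit 76) (nat_lit 17639860775) (nat_lit 14) (nat_lit 4) (nat_lit 15) (nat_lit 5) (nat_lit 15) (nat_lit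 4) (nat_lit 551) (nat_lit 363) (nat_lit 286))) (XT.nd (nat_lit 78) (nat_lit 76) (nat_lit 0) (XT.lf (nat_lit 0) (nat_lit 37320695724) (nat_lit 76) (nat_lit 15999278613) (nat_lit 76) (nat_lit 8892302513) (nat_lit 14) (nat_lit 4) (nat_lit 15) (nat_lit 5) (nat_lit 15) (nat_lit 4) (nat_lit 552) (nat_lit 363) (nat_lit 285)) (XT.lf (nat_lit 0) (nat_lit 69654538) (nat_lit 152) (nat_lit 6988500744) (nat_lit 76) (nat_lit 56744683514) (nat_lit 13) (nat_lit 5) (nat_lit 15) (nat_lit 5) (nat_lit 14) (nat_lit 4) (nat_lit 553) (nat_lit 363) (nat_lit 284))))) (XT.nd (nat_lit 312) (nat_lit 532) (nat_lit 0) (XT.nd (nat_lit 156) (nat_lit 380) (nat_lit 0) (XT.nd (nat_lit 78) (nat_lit 228) (nat_lit 0) (XT.lf (nat_lit 0) (nat_lit 4233183862) (nat_lit 152) (nat_lit 967074731) (nat_lit 152) (nat_lit 967074731) (nat_lit 98) (nat_lit 4) (nat_lit 100) (nat_lit 5) (nat_lit 100) (nat_lit 4) (nat_lit 472) (nat_lit 364) (nat_lit 364)) (XT.lf (nat_lit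 0) (nat_lit 3833631959) (nat_lit 228) (nat_lit 5317092737) (nat_lit 0) (nat_lit 3366246526) (nat_lit 95) (nat_lit 5) (nat_lit 98) (nat_lit 4) (nat_lit 95) (nat_lit 4) (nat_lit 473) (nat_lit 364) (nat_lit 363))) (XT.nd (nat_lit 78) (nat_lit 228) (nat_lit 0) (XT.lf (nat_lit 0) (nat_lit 5830369573) (nat_lit 152) (nat_lit 3897595892) (nat_lit 152) (nat_lit 2976438193) (nat_lit 93) (nat_lit 4) (nat_lit 95) (nat_lit 5) (nat_lit 95) (nat_lit 4) (nat_lit 474) (nat_lit 364) (nat_lit 362)) (XT.lf (nat_lit 0) (nat_lit 2834028094) (nat_lit 228) (nat_lit 8550953169) (nat_lit 0) (nat_lit 1511976350) (nat_lit 90) (nat_lit 5) (nat_lit 93) (nat_lit 4) (nat_lit 90) (nat_lit 4) (nat_lit 475) (nat_lit 364) (nat_lit 361)))) (XT.nd (nat_lit 156) (nat_lit 152) (nat_lit 0) (XT.nd (nat_lit 78) (nat_lit 228) (nat_lit 0) (XT.lf (nat_lit 0) (nat_lit 2713224100) (nat_lit 152) (nat_lit 6059051755) (nat_lit 152) (nat_lit 4321734106) (nat_lit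 88) (nat_lit 4) (nat_lit 90) (nat_lit 5) (nat_lit 90) (nat_lit 4) (nat_lit 476) (nat_lit 364) (nat_lit 360)) (XT.lf (nat_lit 0) (nat_lit 977579741) (nat_lit 152) (nat_lit 558414431) (nat_lit 228) (nat_lit 11761264325) (nat_lit 85) (nat_lit 5) (nat_lit 87) (nat_lit 5) (nat_lit 88) (nat_lit 4) (nat_lit 477) (nat_lit 364) (nat_lit 359))) (XT.nd (nat_lit 78) (nat_lit 152) (nat_lit 0) (XT.lf (nat_lit 0) (nat_lit 7516771147) (nat_lit 228) (nat_lit 928928566) (nat_lit 0) (nat_lit 5058599912) (nat_lit 85) (nat_lit 5) (nat_lit 88) (nat_lit 4) (nat_lit 85) (nat_lit 4) (nat_lit 478) (nat_lit 364) (nat_lit 358)) (XT.lf (nat_lit 0) (nat_lit 10793053978) (nat_lit 152) (nat_lit 2875935580) (nat_lit 152) (nat_lit 48805967) (nat_lit 83) (nat_lit 4) (nat_lit 85) (nat_lit 5) (nat_lit 85) (nat_lit 4) (nat_lit 479) (nat_lit 364) (nat_lit 357))))))) (XT.nd (nat_lit 1170) (nat_lit 1216) (nat_lit 0) (XT.nd (nat_lit 546) (nat_lit 988) (nat_lit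 0) (XT.nd (nat_lit 234) (nat_lit 456) (nat_lit 0) (XT.nd (nat_lit 78) (nat_lit 304) (nat_lit 0) (XT.lf (nat_lit 0) (nat_lit 5955198599) (nat_lit 152) (nat_lit 5117951824) (nat_lit 0) (nat_lit 2862633910) (nat_lit 81) (nat_lit 5) (nat_lit 83) (nat_lit 4) (nat_lit 81) (nat_lit 4) (nat_lit 480) (nat_lit 364) (nat_lit 356)) (XT.nd (nat_lit 78) (nat_lit 152) (nat_lit 0) (XT.lf (nat_lit 0) (nat_lit 6698462664) (nat_lit 152) (nat_lit 5445935784) (nat_lit 152) (nat_lit 2015721913) (nat_lit 79) (nat_lit 4) (nat_lit 81) (nat_lit 5) (nat_lit 81) (nat_lit 4) (nat_lit 481) (nat_lit 364) (nat_lit 355)) (XT.lf (nat_lit 0) (nat_lit 4029452110) (nat_lit 152) (nat_lit 9980209240) (nat_lit 0) (nat_lit 380880644) (nat_lit 77) (nat_lit 5) (nat_lit 79) (nat_lit 4) (nat_lit 77) (nat_lit 4) (nat_lit 482) (nat_lit 364) (nat_lit 354)))) (XT.nd (nat_lit 156) (nat_lit 228) (nat_lit 0) (XT.nd (nat_lit 78) (nat_lit 76) (nat_lit 0) (XT.lf (nat_lit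 0) (nat_lit 1911711906) (nat_lit 152) (nat_lit 8336083754) (nat_lit 152) (nat_lit 4378515455) (nat_lit 75) (nat_lit 4) (nat_lit 77) (nat_lit 5) (nat_lit 77) (nat_lit 4) (nat_lit 483) (nat_lit 364) (nat_lit 353)) (XT.lf (nat_lit 0) (nat_lit 1734626450) (nat_lit 228) (nat_lit 736273528) (nat_lit 76) (nat_lit 12398165418) (nat_lit 74) (nat_lit 5) (nat_lit 77) (nat_lit 5) (nat_lit 75) (nat_lit 4) (nat_lit 484) (nat_lit 364) (nat_lit 352))) (XT.nd (nat_lit 78) (nat_lit 152) (nat_lit 0) (XT.lf (nat_lit 0) (nat_lit 7976804694) (nat_lit 152) (nat_lit 3579520462) (nat_lit 0) (nat_lit 3560470350) (nat_lit 73) (nat_lit 5) (nat_lit 75) (nat_lit 4) (nat_lit 73) (nat_lit 4) (nat_lit 485) (nat_lit 364) (nat_lit 351)) (XT.lf (nat_lit 0) (nat_lit 8757749828) (nat_lit 152) (nat_lit 5652482615) (nat_lit 152) (nat_lit 961608588) (nat_lit 71) (nat_lit 4) (nat_lit 73) (nat_lit 5) (nat_lit 73) (nat_lit 4) (nat_lit 486) (nat_lit 364) (nat_lit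 350))))) (XT.nd (nat_lit 312) (nat_lit 532) (nat_lit 0) (XT.nd (nat_lit 156) (nat_lit 152) (nat_lit 0) (XT.nd (nat_lit 78) (nat_lit 152) (nat_lit 0) (XT.lf (nat_lit 0) (nat_lit 5281097308) (nat_lit 152) (nat_lit 9884283310) (nat_lit 0) (nat_lit 468070697) (nat_lit 69) (nat_lit 5) (nat_lit 71) (nat_lit 4) (nat_lit 69) (nat_lit 4) (nat_lit 487) (nat_lit 364) (nat_lit 349)) (XT.lf (nat_lit 0) (nat_lit 2488952393) (nat_lit 152) (nat_lit 9238437496) (nat_lit 152) (nat_lit 4174168184) (nat_lit 67) (nat_lit 4) (nat_lit 69) (nat_lit 5) (nat_lit 69) (nat_lit 4) (nat_lit 488) (nat_lit 364) (nat_lit 348))) (XT.nd (nat_lit 78) (nat_lit 76) (nat_lit 0) (XT.lf (nat_lit 0) (nat_lit 2135877124) (nat_lit 228) (nat_lit 972363702) (nat_lit 76) (nat_lit 13069161376) (nat_lit 66) (nat_lit 5) (nat_lit 69) (nat_lit 5) (nat_lit 67) (nat_lit 4) (nat_lit 489) (nat_lit 364) (nat_lit 347)) (XT.lf (nat_lit 0) (nat_lit 8588099907) (nat_lit 152)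 (nat_lit 4666490675) (nat_lit 0) (nat_lit 3204590579) (nat_lit 65) (nat_lit 5) (nat_lit 67) (nat_lit 4) (nat_lit 65) (nat_lit 4) (nat_lit 490) (nat_lit 364) (nat_lit 346)))) (XT.nd (nat_lit 156) (nat_lit 228) (nat_lit 0) (XT.nd (nat_lit 78) (nat_lit 152) (nat_lit 0) (XT.lf (nat_lit 0) (nat_lit 8133622676) (nat_lit 152) (nat_lit 7111101723) (nat_lit 152) (nat_lit 1504366510) (nat_lit 63) (nat_lit 4) (nat_lit 65) (nat_lit 5) (nat_lit 65) (nat_lit 4) (nat_lit 491) (nat_lit 364) (nat_lit 345)) (XT.lf (nat_lit 0) (nat_lit 4194047530) (nat_lit 76) (nat_lit 740684935) (nat_lit 152) (nat_lit 12112110779) (nat_lit 61) (nat_lit 5) (nat_lit 62) (nat_lit 5) (nat_lit 63) (nat_lit 4) (nat_lit 492) (nat_lit 364) (nat_lit 344))) (XT.nd (nat_lit 78) (nat_lit 228) (nat_lit 0) (XT.lf (nat_lit 0) (nat_lit 11572919542) (nat_lit 152) (nat_lit 64287303) (nat_lit 0) (nat_lit 5714792181) (nat_lit 61) (nat_lit 5) (nat_lit 63) (nat_lit 4)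 (nat_lit 61) (nat_lit 4) (nat_lit 493) (nat_lit 364) (nat_lit 343)) (XT.lf (nat_lit 0) (nat_lit 758994807) (nat_lit 228) (nat_lit 4515701210) (nat_lit 76) (nat_lit 12390513984) (nat_lit 58) (nat_lit 5) (nat_lit 61) (nat_lit 5) (nat_lit 59) (nat_lit 4) (nat_lit 494) (nat_lit 364) (nat_lit 342)))))) (XT.nd (nat_lit 624) (nat_lit 608) (nat_lit 0) (XT.nd (nat_lit 312) (nat_lit 304) (nat_lit 0) (XT.nd (nat_lit 156) (nat_lit 152) (nat_lit 0) (XT.nd (nat_lit 78) (nat_lit 76) (nat_lit 0) (XT.lf (nat_lit 0) (nat_lit 7369558307) (nat_lit 152) (nat_lit 9314218248) (nat_lit 0) (nat_lit 1302551239) (nat_lit 57) (nat_lit 5) (nat_lit 59) (nat_lit 4) (nat_lit 57) (nat_lit 4) (nat_lit 495) (nat_lit 364) (nat_lit 341)) (XT.lf (nat_lit 0) (nat_lit 3854493909) (nat_lit 76) (nat_lit 10355081627) (nat_lit 76) (nat_lit 4106571486) (nat_lit 56) (nat_lit 4) (nat_lit 57) (nat_lit 5) (nat_lit 57) (nat_lit 4) (nat_lit 496) (nat_lit 364) (nat_lit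 340))) (XT.nd (nat_lit 78) (nat_lit 76) (nat_lit 0) (XT.lf (nat_lit 0) (nat_lit 2539117973) (nat_lit 152) (nat_lit 1270317230) (nat_lit 76) (nat_lit 14845951040) (nat_lit 55) (nat_lit 5) (nat_lit 57) (nat_lit 5) (nat_lit 56) (nat_lit 4) (nat_lit 497) (nat_lit 364) (nat_lit 339)) (XT.lf (nat_lit 0) (nat_lit 9347894745) (nat_lit 152) (nat_lit 6710107352) (nat_lit 0) (nat_lit 2944194967) (nat_lit 54) (nat_lit 5) (nat_lit 56) (nat_lit 4) (nat_lit 54) (nat_lit 4) (nat_lit 498) (nat_lit 364) (nat_lit 338)))) (XT.nd (nat_lit 156) (nat_lit 76) (nat_lit 0) (XT.nd (nat_lit 78) (nat_lit 152) (nat_lit 0) (XT.lf (nat_lit 0) (nat_lit 6828871874) (nat_lit 76) (nat_lit 9547520649) (nat_lit 76) (nat_lit 2982557741) (nat_lit 53) (nat_lit 4) (nat_lit 54) (nat_lit 5) (nat_lit 54) (nat_lit 4) (nat_lit 499) (nat_lit 364) (nat_lit 337)) (XT.lf (nat_lit 0) (nat_lit 973111459) (nat_lit 76) (nat_lit 2817351847) (nat_lit 152) (nat_lit 15935512259)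 (nat_lit 51) (nat_lit 5) (nat_lit 52) (nat_lit 5) (nat_lit 53) (nat_lit 4) (nat_lit 500) (nat_lit 364) (nat_lit 336))) (XT.nd (nat_lit 78) (nat_lit 76) (nat_lit 0) (XT.lf (nat_lit 0) (nat_lit 10773479579) (nat_lit 152) (nat_lit 5227500629) (nat_lit 0) (nat_lit 4100144609) (nat_lit 51) (nat_lit 5) (nat_lit 53) (nat_lit 4) (nat_lit 51) (nat_lit 4) (nat_lit 501) (nat_lit 364) (nat_lit 335)) (XT.lf (nat_lit 0) (nat_lit 8655106982) (nat_lit 76) (nat_lit 9324317587) (nat_lit 76) (nat_lit 2507702415) (nat_lit 50) (nat_lit 4) (nat_lit 51) (nat_lit 5) (nat_lit 51) (nat_lit 4) (nat_lit 502) (nat_lit 364) (nat_lit 334))))) (XT.nd (nat_lit 312) (nat_lit 228) (nat_lit 0) (XT.nd (nat_lit 156) (nat_lit 228) (nat_lit 0) (XT.nd (nat_lit 78) (nat_lit 0) (nat_lit 0) (XT.lf (nat_lit 0) (nat_lit 1983387745) (nat_lit 76) (nat_lit 2420114672) (nat_lit 152) (nat_lit 16480661630) (nat_lit 48) (nat_lit 5) (nat_lit 49) (nat_lit 5) (nat_lit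 50) (nat_lit 4) (nat_lit 503) (nat_lit 364) (nat_lit 333)) (XT.lf (nat_lit 0) (nat_lit 11539987383) (nat_lit 152) (nat_lit 5094593652) (nat_lit 0) (nat_lit 4655737386) (nat_lit 48) (nat_lit 5) (nat_lit 50) (nat_lit 4) (nat_lit 48) (nat_lit 4) (nat_lit 504) (nat_lit 364) (nat_lit 332))) (XT.nd (nat_lit 78) (nat_lit 152) (nat_lit 0) (XT.lf (nat_lit 0) (nat_lit 9095055439) (nat_lit 76) (nat_lit 9812325783) (nat_lit 76) (nat_lit 2800773183) (nat_lit 47) (nat_lit 4) (nat_lit 48) (nat_lit 5) (nat_lit 48) (nat_lit 4) (nat_lit 505) (nat_lit 364) (nat_lit 331)) (XT.lf (nat_lit 0) (nat_lit 1480021849) (nat_lit 76) (nat_lit 2763903870) (nat_lit 152) (nat_lit 17894194122) (nat_lit 45) (nat_lit 5) (nat_lit 46) (nat_lit 5) (nat_lit 47) (nat_lit 4) (nat_lit 506) (nat_lit 364) (nat_lit 330)))) (XT.nd (nat_lit 156) (nat_lit 152) (nat_lit 0) (XT.nd (nat_lit 78) (nat_lit 76) (nat_lit 0) (XT.lf (nat_lit 0) (nat_lit 11521160801) (nat_lit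 152) (nat_lit 6579334825) (nat_lit 0) (nat_lit 4477333350) (nat_lit 45) (nat_lit 5) (nat_lit 47) (nat_lit 4) (nat_lit 45) (nat_lit 4) (nat_lit 507) (nat_lit 364) (nat_lit 329)) (XT.lf (nat_lit 0) (nat_lit 7868894233) (nat_lit 76) (nat_lit 11159214350) (nat_lit 76) (nat_lit 4002280184) (nat_lit 44) (nat_lit 4) (nat_lit 45) (nat_lit 5) (nat_lit 45) (nat_lit 4) (nat_lit 508) (nat_lit 364) (nat_lit 328))) (XT.nd (nat_lit 78) (nat_lit 76) (nat_lit 0) (XT.lf (nat_lit 0) (nat_lit 3175602969) (nat_lit 152) (nat_lit 820272481) (nat_lit 76) (nat_lit 19500443365) (nat_lit 43) (nat_lit 5) (nat_lit 45) (nat_lit 5) (nat_lit 44) (nat_lit 4) (nat_lit 509) (nat_lit 364) (nat_lit 327)) (XT.lf (nat_lit 0) (nat_lit 10567606000) (nat_lit 152) (nat_lit 9996052721) (nat_lit 0) (nat_lit 3409003634) (nat_lit 42) (nat_lit 5) (nat_lit 44) (nat_lit 4) (nat_lit 42) (nat_lit 4) (nat_lit 510) (nat_lit 364) (nat_lit 326))))))))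
noncomputable def xc28 : XT := (XT.nd (nat_lit 2340) (nat_lit 456) (nat_lit 0) (XT.nd (nat_lit 1170) (nat_lit 760) (nat_lit 0) (XT.nd (nat_lit 546) (nat_lit 456) (nat_lit 0) (XT.nd (nat_lit 234) (nat_lit 228) (nat_lit 0) (XT.nd (nat_lit 78) (nat_lit 152) (nat_lit 0) (XT.lf (nat_lit 0) (nat_lit 4648166968) (nat_lit 76) (nat_lit 13537055481) (nat_lit 76) (nat_lit 6277959265) (nat_lit 41) (nat_lit 4) (nat_lit 42) (nat_lit 5) (nat_lit 42) (nat_lit 4) (nat_lit 511) (nat_lit 364) (nat_lit 325)) (XT.nd (nat_lit 78) (nat_lit 76) (nat_lit 0) (XT.lf (nat_lit 0) (nat_lit 1055450471) (nat_lit 152) (nat_lit 5214098605) (nat_lit 76) (nat_lit 18698164841) (nat_lit 40) (nat_lit 5) (nat_lit 42) (nat_lit 5) (nat_lit 41) (nat_lit 4) (nat_lit 512) (nat_lit 364) (nat_lit 324)) (XT.lf (nat_lit 0) (nat_lit 8503060550) (nat_lit 152) (nat_lit 15713143328) (nat_lit 0) (nat_lit 1268703119) (nat_lit 39) (nat_lit 5) (nat_lit 41) (nat_lit 4)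 (nat_lit 39) (nat_lit 4) (nat_lit 513) (nat_lit 364) (nat_lit 323)))) (XT.nd (nat_lit 156) (nat_lit 152) (nat_lit 0) (XT.nd (nat_lit 78) (nat_lit 76) (nat_lit 0) (XT.lf (nat_lit 0) (nat_lit 16203341677) (nat_lit 152) (nat_lit 933701140) (nat_lit 0) (nat_lit 8879696760) (nat_lit 39) (nat_lit 5) (nat_lit 41) (nat_lit 4) (nat_lit 39) (nat_lit 4) (nat_lit 514) (nat_lit 364) (nat_lit 322)) (XT.lf (nat_lit 0) (nat_lit 14406009778) (nat_lit 76) (nat_lit 9783600371) (nat_lit 76) (nat_lit 2373268576) (nat_lit 38) (nat_lit 4) (nat_lit 39) (nat_lit 5) (nat_lit 39) (nat_lit 4) (nat_lit 515) (nat_lit 364) (nat_lit 321))) (XT.nd (nat_lit 78) (nat_lit 0) (nat_lit 0) (XT.lf (nat_lit 0) (nat_lit 2942120127) (nat_lit 76) (nat_lit 2199069005) (nat_lit 152) (nat_lit 21984057697) (nat_lit 36) (nat_lit 5) (nat_lit 37) (nat_lit 5) (nat_lit 38) (nat_lit 4) (nat_lit 516) (nat_lit 364) (nat_lit 320)) (XT.lf (nat_lit 0) (nat_lit 12927958252)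 (nat_lit 152) (nat_lit 9200566439) (nat_lit 0) (nat_lit 5572419892) (nat_lit 36) (nat_lit 5) (nat_lit 38) (nat_lit 4) (nat_lit 36) (nat_lit 4) (nat_lit 517) (nat_lit 364) (nat_lit 319))))) (XT.nd (nat_lit 312) (nat_lit 228) (nat_lit 0) (XT.nd (nat_lit 156) (nat_lit 76) (nat_lit 0) (XT.nd (nat_lit 78) (nat_lit 76) (nat_lit 0) (XT.lf (nat_lit 0) (nat_lit 6170517058) (nat_lit 76) (nat_lit 14777975366) (nat_lit 76) (nat_lit 7345416838) (nat_lit 35) (nat_lit 4) (nat_lit 36) (nat_lit 5) (nat_lit 36) (nat_lit 4) (nat_lit 518) (nat_lit 364) (nat_lit 318)) (XT.lf (nat_lit 0) (nat_lit 311974550) (nat_lit 152) (nat_lit 6874027052) (nat_lit 76) (nat_lit 21718185749) (nat_lit 34) (nat_lit 5) (nat_lit 36) (nat_lit 5) (nat_lit 35) (nat_lit 4) (nat_lit 519) (nat_lit 364) (nat_lit 317))) (XT.nd (nat_lit 78) (nat_lit 0) (nat_lit 0) (XT.lf (nat_lit 0) (nat_lit 8064202322) (nat_lit 152) (nat_lit 20760965108) (nat_lit 0) (nat_lit 705042820)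 (nat_lit 33) (nat_lit 5) (nat_lit 35) (nat_lit 4) (nat_lit 33) (nat_lit 4) (nat_lit 520) (nat_lit 364) (nat_lit 316)) (XT.lf (nat_lit 0) (nat_lit 16111804960) (nat_lit 152) (nat_lit 5377111356) (nat_lit 0) (nat_lit 8684214035) (nat_lit 33) (nat_lit 5) (nat_lit 35) (nat_lit 4) (nat_lit 33) (nat_lit 4) (nat_lit 521) (nat_lit 364) (nat_lit 315)))) (XT.nd (nat_lit 156) (nat_lit 76) (nat_lit 0) (XT.nd (nat_lit 78) (nat_lit 76) (nat_lit 0) (XT.lf (nat_lit 0) (nat_lit 10523046700) (nat_lit 76) (nat_lit 13902785694) (nat_lit 76) (nat_lit 6408756495) (nat_lit 32) (nat_lit 4) (nat_lit 33) (nat_lit 5) (nat_lit 33) (nat_lit 4) (nat_lit 522) (nat_lit 364) (nat_lit 314)) (XT.lf (nat_lit 0) (nat_lit 1423355163) (nat_lit 152) (nat_lit 4669121396) (nat_lit 76) (nat_lit 25423628919) (nat_lit 31) (nat_lit 5) (nat_lit 33) (nat_lit 5) (nat_lit 32) (nat_lit 4) (nat_lit 523) (nat_lit 364) (nat_lit 313))) (XT.nd (nat_lit 78) (nat_lit 0)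 (nat_lit 0) (XT.lf (nat_lit 0) (nat_lit 9417633849) (nat_lit 152) (nat_lit 20778397928) (nat_lit 0) (nat_lit 2018452467) (nat_lit 30) (nat_lit 5) (nat_lit 32) (nat_lit 4) (nat_lit 30) (nat_lit 4) (nat_lit 524) (nat_lit 364) (nat_lit 312)) (XT.lf (nat_lit 0) (nat_lit 17685848494) (nat_lit 152) (nat_lit 5019305738) (nat_lit 0) (nat_lit 10227637567) (nat_lit 30) (nat_lit 5) (nat_lit 32) (nat_lit 4) (nat_lit 30) (nat_lit 4) (nat_lit 525) (nat_lit 364) (nat_lit 311)))))) (XT.nd (nat_lit 546) (nat_lit 304) (nat_lit 0) (XT.nd (nat_lit 234) (nat_lit 228) (nat_lit 0) (XT.nd (nat_lit 78) (nat_lit 152) (nat_lit 0) (XT.lf (nat_lit 0) (nat_lit 11290865115) (nat_lit 76) (nat_lit 14948099803) (nat_lit 76) (nat_lit 7432578636) (nat_lit 29) (nat_lit 4) (nat_lit 30) (nat_lit 5) (nat_lit 30) (nat_lit 4) (nat_lit 526) (nat_lit 364) (nat_lit 310)) (XT.nd (nat_lit 78) (nat_lit 76) (nat_lit 0) (XT.lf (nat_lit 0) (nat_lit 583732916) (nat_lit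 152) (nat_lit 6386184355) (nat_lit 76) (nat_lit 27462977270) (nat_lit 28) (nat_lit 5) (nat_lit 30) (nat_lit 5) (nat_lit 29) (nat_lit 4) (nat_lit 527) (nat_lit 364) (nat_lit 309)) (XT.lf (nat_lit 0) (nat_lit 8731439535) (nat_lit 152) (nat_lit 25153880948) (nat_lit 0) (nat_lit 1328349659) (nat_lit 27) (nat_lit 5) (nat_lit 29) (nat_lit 4) (nat_lit 27) (nat_lit 4) (nat_lit 528) (nat_lit 364) (nat_lit 308)))) (XT.nd (nat_lit 156) (nat_lit 152) (nat_lit 0) (XT.nd (nat_lit 78) (nat_lit 76) (nat_lit 0) (XT.lf (nat_lit 0) (nat_lit 17188215563) (nat_lit 152) (nat_lit 9093508586) (nat_lit 0) (nat_lit 9734206282) (nat_lit 27) (nat_lit 5) (nat_lit 29) (nat_lit 4) (nat_lit 27) (nat_lit 4) (nat_lit 529) (nat_lit 364) (nat_lit 307)) (XT.lf (nat_lit 0) (nat_lit 7460291815) (nat_lit 76) (nat_lit 18442642831) (nat_lit 76) (nat_lit 10939197235) (nat_lit 26) (nat_lit 4) (nat_lit 27) (nat_lit 5) (nat_lit 27) (nat_lit 4) (nat_lit 530)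 (nat_lit 364) (nat_lit 306))) (XT.nd (nat_lit 78) (nat_lit 152) (nat_lit 0) (XT.lf (nat_lit 0) (nat_lit 24564467280) (nat_lit 76) (nat_lit 10339671667) (nat_lit 76) (nat_lit 2788229648) (nat_lit 26) (nat_lit 4) (nat_lit 27) (nat_lit 5) (nat_lit 27) (nat_lit 4) (nat_lit 531) (nat_lit 364) (nat_lit 305)) (XT.lf (nat_lit 0) (nat_lit 3497925092) (nat_lit 76) (nat_lit 1968067804) (nat_lit 152) (nat_lit 33101458685) (nat_lit 24) (nat_lit 5) (nat_lit 25) (nat_lit 5) (nat_lit 26) (nat_lit 4) (nat_lit 532) (nat_lit 364) (nat_lit 304))))) (XT.nd (nat_lit 312) (nat_lit 228) (nat_lit 0) (XT.nd (nat_lit 156) (nat_lit 76) (nat_lit 0) (XT.nd (nat_lit 78) (nat_lit 0) (nat_lit 0) (XT.lf (nat_lit 0) (nat_lit 14044222429) (nat_lit 152) (nat_lit 18796203732) (nat_lit 0) (nat_lit 6623560565) (nat_lit 24) (nat_lit 5) (nat_lit 26) (nat_lit 4) (nat_lit 24) (nat_lit 4) (nat_lit 533) (nat_lit 364) (nat_lit 303)) (XT.lf (nat_lit 0) (nat_lit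 22835763768) (nat_lit 152) (nat_lit 2180517976) (nat_lit 0) (nat_lit 15372457704) (nat_lit 24) (nat_lit 5) (nat_lit 26) (nat_lit 4) (nat_lit 24) (nat_lit 4) (nat_lit 534) (nat_lit 364) (nat_lit 302))) (XT.nd (nat_lit 78) (nat_lit 0) (nat_lit 0) (XT.lf (nat_lit 0) (nat_lit 15105734903) (nat_lit 76) (nat_lit 16868851232) (nat_lit 76) (nat_lit 9364143032) (nat_lit 23) (nat_lit 4) (nat_lit 24) (nat_lit 5) (nat_lit 24) (nat_lit 4) (nat_lit 535) (nat_lit 364) (nat_lit 301)) (XT.lf (nat_lit 0) (nat_lit 32833805763) (nat_lit 76) (nat_lit 8514744203) (nat_lit 76) (nat_lit 969839754) (nat_lit 23) (nat_lit 4) (nat_lit 24) (nat_lit 5) (nat_lit 24) (nat_lit 4) (nat_lit 536) (nat_lit 364) (nat_lit 300)))) (XT.nd (nat_lit 156) (nat_lit 76) (nat_lit 0) (XT.nd (nat_lit 78) (nat_lit 0) (nat_lit 0) (XT.lf (nat_lit 0) (nat_lit 7542658750) (nat_lit 152) (nat_lit 35602463352) (nat_lit 0) (nat_lit 179619981) (nat_lit 21) (nat_lit 5) (nat_lit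 23) (nat_lit 4) (nat_lit 21) (nat_lit 4) (nat_lit 537) (nat_lit 364) (nat_lit 299)) (XT.lf (nat_lit 0) (nat_lit 16412261355) (nat_lit 152) (nat_lit 18932662015) (nat_lit 0) (nat_lit 9012437324) (nat_lit 21) (nat_lit 5) (nat_lit 23) (nat_lit 4) (nat_lit 21) (nat_lit 4) (nat_lit 538) (nat_lit 364) (nat_lit 298))) (XT.nd (nat_lit 78) (nat_lit 76) (nat_lit 0) (XT.lf (nat_lit 0) (nat_lit 25489887562) (nat_lit 152) (nat_lit 1878462945) (nat_lit 0) (nat_lit 18054349685) (nat_lit 21) (nat_lit 5) (nat_lit 23) (nat_lit 4) (nat_lit 21) (nat_lit 4) (nat_lit 539) (nat_lit 364) (nat_lit 297)) (XT.lf (nat_lit 0) (nat_lit 15885009330) (nat_lit 76) (nat_lit 19051156374) (nat_lit 76) (nat_lit 11580944860) (nat_lit 20) (nat_lit 4) (nat_lit 21) (nat_lit 5) (nat_lit 21) (nat_lit 4) (nat_lit 540) (nat_lit 364) (nat_lit 296))))))) (XT.nd (nat_lit 57096) (nat_lit 0) (nat_lit 4332) (XT.nd (nat_lit 546) (nat_lit 228) (nat_lit 0) (XT.nd (nat_lit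 234) (nat_lit 76) (nat_lit 0) (XT.nd (nat_lit 78) (nat_lit 152) (nat_lit 0) (XT.lf (nat_lit 0) (nat_lit 34108667152) (nat_lit 76) (nat_lit 10520333330) (nat_lit 76) (nat_lit 3016458090) (nat_lit 20) (nat_lit 4) (nat_lit 21) (nat_lit 5) (nat_lit 21) (nat_lit 4) (nat_lit 541) (nat_lit 364) (nat_lit 295)) (XT.nd (nat_lit 78) (nat_lit 0) (nat_lit 0) (XT.lf (nat_lit 0) (nat_lit 3984248950) (nat_lit 76) (nat_lit 1691025640) (nat_lit 152) (nat_lit 43131201144) (nat_lit 18) (nat_lit 5) (nat_lit 19) (nat_lit 5) (nat_lit 20) (nat_lit 4) (nat_lit 542) (nat_lit 364) (nat_lit 294)) (XT.lf (nat_lit 0) (nat_lit 14721669333) (nat_lit 152) (nat_lit 27901307104) (nat_lit 0) (nat_lit 7373815199) (nat_lit 18) (nat_lit 5) (nat_lit 20) (nat_lit 4) (nat_lit 18) (nat_lit 4) (nat_lit 543) (nat_lit 364) (nat_lit 293)))) (XT.nd (nat_lit 156) (nat_lit 0) (nat_lit 0) (XT.nd (nat_lit 78) (nat_lit 76) (nat_lit 0) (XT.lf (nat_lit 0) (nat_lit 24003116921)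 (nat_lit 152) (nat_lit 10595437592) (nat_lit 0) (nat_lit 16625353003) (nat_lit 18) (nat_lit 5) (nat_lit 20) (nat_lit 4) (nat_lit 18) (nat_lit 4) (nat_lit 544) (nat_lit 364) (nat_lit 292)) (XT.lf (nat_lit 0) (nat_lit 7268595029) (nat_lit 76) (nat_lit 26312747337) (nat_lit 76) (nat_lit 18905944794) (nat_lit 17) (nat_lit 4) (nat_lit 18) (nat_lit 5) (nat_lit 18) (nat_lit 4) (nat_lit 545) (nat_lit 364) (nat_lit 291))) (XT.nd (nat_lit 78) (nat_lit 0) (nat_lit 0) (XT.lf (nat_lit 0) (nat_lit 25783903594) (nat_lit 76) (nat_lit 17718990456) (nat_lit 76) (nat_lit 10283995073) (nat_lit 17) (nat_lit 4) (nat_lit 18) (nat_lit 5) (nat_lit 18) (nat_lit 4) (nat_lit 546) (nat_lit 364) (nat_lit 290)) (XT.lf (nat_lit 0) (nat_lit 44755796544) (nat_lit 76) (nat_lit 8916767904) (nat_lit 76) (nat_lit 1454400832) (nat_lit 17) (nat_lit 4) (nat_lit 18) (nat_lit 5) (nat_lit 18) (nat_lit 4) (nat_lit 547) (nat_lit 364) (nat_lit 289))))) (XT.nd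 (nat_lit 312) (nat_lit 0) (nat_lit 0) (XT.nd (nat_lit 156) (nat_lit 76) (nat_lit 0) (XT.nd (nat_lit 78) (nat_lit 0) (nat_lit 0) (XT.lf (nat_lit 0) (nat_lit 7519570874) (nat_lit 152) (nat_lit 48735858792) (nat_lit 0) (nat_lit 248753856) (nat_lit 15) (nat_lit 5) (nat_lit 17) (nat_lit 4) (nat_lit 15) (nat_lit 4) (nat_lit 548) (nat_lit 364) (nat_lit 288)) (XT.lf (nat_lit 0) (nat_lit 16879048934) (nat_lit 152) (nat_lit 31455689132) (nat_lit 0) (nat_lit 9583182943) (nat_lit 15) (nat_lit 5) (nat_lit 17) (nat_lit 4) (nat_lit 15) (nat_lit 4) (nat_lit 549) (nat_lit 364) (nat_lit 287))) (XT.nd (nat_lit 78) (nat_lit 76) (nat_lit 0) (XT.lf (nat_lit 0) (nat_lit 26472193864) (nat_lit 152) (nat_lit 13751282069) (nat_lit 0) (nat_lit 19152008482) (nat_lit 15) (nat_lit 5) (nat_lit 17) (nat_lit 4) (nat_lit 15) (nat_lit 4) (nat_lit 550) (nat_lit 364) (nat_lit 286)) (XT.lf (nat_lit 0) (nat_lit 4480258243) (nat_lit 76) (nat_lit 31870196763)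 (nat_lit 76) (nat_lit 24526400322) (nat_lit 14) (nat_lit 4) (nat_lit 15) (nat_lit 5) (nat_lit 15) (nat_lit 4) (nat_lit 551) (nat_lit 364) (nat_lit 285)))) (XT.nd (nat_lit 56082) (nat_lit 0) (nat_lit 6536) (XT.nd (nat_lit 78) (nat_lit 0) (nat_lit 0) (XT.lf (nat_lit 0) (nat_lit 23450103951) (nat_lit 76) (nat_lit 23168538065) (nat_lit 76) (nat_lit 15801818265) (nat_lit 14) (nat_lit 4) (nat_lit 15) (nat_lit 5) (nat_lit 15) (nat_lit 4) (nat_lit 552) (nat_lit 364) (nat_lit 284)) (XT.lf (nat_lit 0) (nat_lit 42901153171) (nat_lit 76) (nat_lit 14249757434) (nat_lit 76) (nat_lit 6860781945) (nat_lit 14) (nat_lit 4) (nat_lit 15) (nat_lit 5) (nat_lit 15) (nat_lit 4) (nat_lit 553) (nat_lit 364) (nat_lit 283))) (XT.nd (nat_lit 78) (nat_lit 228) (nat_lit 0) (XT.lf (nat_lit 0) (nat_lit 5390945387) (nat_lit 152) (nat_lit 300040558) (nat_lit 152) (nat_lit 300040558) (nat_lit 103) (nat_lit 4) (nat_lit 105) (nat_lit 5) (nat_lit 105)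 (nat_lit 4) (nat_lit 470) (nat_lit 365) (nat_lit 365)) (XT.lf (nat_lit 0) (nat_lit 5049958344) (nat_lit 228) (nat_lit 2552348597) (nat_lit 0) (nat_lit 4554109137) (nat_lit 100) (nat_lit 5) (nat_lit 103) (nat_lit 4) (nat_lit 100) (nat_lit 4) (nat_lit 471) (nat_lit 365) (nat_lit 364)))))) (XT.nd (nat_lit 546) (nat_lit 1064) (nat_lit 0) (XT.nd (nat_lit 234) (nat_lit 608) (nat_lit 0) (XT.nd (nat_lit 78) (nat_lit 380) (nat_lit 0) (XT.lf (nat_lit 0) (nat_lit 8359210103) (nat_lit 152) (nat_lit 2477256188) (nat_lit 152) (nat_lit 1499999984) (nat_lit 98) (nat_lit 4) (nat_lit 100) (nat_lit 5) (nat_lit 100) (nat_lit 4) (nat_lit 472) (nat_lit 365) (nat_lit 363)) (XT.nd (nat_lit 78) (nat_lit 152) (nat_lit 0) (XT.lf (nat_lit 0) (nat_lit 4192788024) (nat_lit 228) (nat_lit 5537632418) (nat_lit 0) (nat_lit 2790223328) (nat_lit 95) (nat_lit 5) (nat_lit 98) (nat_lit 4) (nat_lit 95) (nat_lit 4) (nat_lit 473) (nat_lit 365) (nat_lit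 362)) (XT.lf (nat_lit 0) (nat_lit 5497865584) (nat_lit 152) (nat_lit 4527591623) (nat_lit 152) (nat_lit 2684471329) (nat_lit 93) (nat_lit 4) (nat_lit 95) (nat_lit 5) (nat_lit 95) (nat_lit 4) (nat_lit 474) (nat_lit 365) (nat_lit 361)))) (XT.nd (nat_lit 156) (nat_lit 228) (nat_lit 0) (XT.nd (nat_lit 78) (nat_lit 152) (nat_lit 0) (XT.lf (nat_lit 0) (nat_lit 3051051648) (nat_lit 228) (nat_lit 9007077723) (nat_lit 0) (nat_lit 846348565) (nat_lit 90) (nat_lit 5) (nat_lit 93) (nat_lit 4) (nat_lit 90) (nat_lit 4) (nat_lit 475) (nat_lit 365) (nat_lit 360)) (XT.lf (nat_lit 0) (nat_lit 2140064552) (nat_lit 152) (nat_lit 6785625044) (nat_lit 152) (nat_lit 4177751180) (nat_lit 88) (nat_lit 4) (nat_lit 90) (nat_lit 5) (nat_lit 90) (nat_lit 4) (nat_lit 476) (nat_lit 365) (nat_lit 359))) (XT.nd (nat_lit 78) (nat_lit 0) (nat_lit 0) (XT.lf (nat_lit 0) (nat_lit 273905157) (nat_lit 152) (nat_lit 1338512065) (nat_lit 228) (nat_lit 11696175145)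 (nat_lit 85) (nat_lit 5) (nat_lit 87) (nat_lit 5) (nat_lit 88) (nat_lit 4) (nat_lit 477) (nat_lit 365) (nat_lit 358)) (XT.lf (nat_lit 0) (nat_lit 7527931794) (nat_lit 228) (nat_lit 1742631670) (nat_lit 0) (nat_lit 4247029915) (nat_lit 85) (nat_lit 5) (nat_lit 88) (nat_lit 4) (nat_lit 85) (nat_lit 4) (nat_lit 478) (nat_lit 365) (nat_lit 357))))) (XT.nd (nat_lit 312) (nat_lit 456) (nat_lit 0) (XT.nd (nat_lit 156) (nat_lit 304) (nat_lit 0) (XT.nd (nat_lit 78) (nat_lit 152) (nat_lit 0) (XT.lf (nat_lit 0) (nat_lit 9858004273) (nat_lit 152) (nat_lit 3757076468) (nat_lit 152) (nat_lit 117962573) (nat_lit 83) (nat_lit 4) (nat_lit 85) (nat_lit 5) (nat_lit 85) (nat_lit 4) (nat_lit 479) (nat_lit 365) (nat_lit 356)) (XT.lf (nat_lit 0) (nat_lit 5812056967) (nat_lit 152) (nat_lit 6199969476) (nat_lit 0) (nat_lit 1941287498) (nat_lit 81) (nat_lit 5) (nat_lit 83) (nat_lit 4) (nat_lit 81) (nat_lit 4) (nat_lit 480) (nat_lit 365)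 (nat_lit 355))) (XT.nd (nat_lit 78) (nat_lit 152) (nat_lit 0) (XT.lf (nat_lit 0) (nat_lit 5489447756) (nat_lit 152) (nat_lit 6444405162) (nat_lit 152) (nat_lit 2245820954) (nat_lit 79) (nat_lit 4) (nat_lit 81) (nat_lit 5) (nat_lit 81) (nat_lit 4) (nat_lit 481) (nat_lit 365) (nat_lit 354)) (XT.lf (nat_lit 0) (nat_lit 3057854303) (nat_lit 76) (nat_lit 673527592) (nat_lit 152) (nat_lit 10680955488) (nat_lit 77) (nat_lit 5) (nat_lit 78) (nat_lit 5) (nat_lit 79) (nat_lit 4) (nat_lit 482) (nat_lit 365) (nat_lit 353)))) (XT.nd (nat_lit 156) (nat_lit 228) (nat_lit 0) (XT.nd (nat_lit 78) (nat_lit 76) (nat_lit 0) (XT.lf (nat_lit 0) (nat_lit 410943244) (nat_lit 152) (nat_lit 9462373136) (nat_lit 152) (nat_lit 4777084031) (nat_lit 75) (nat_lit 4) (nat_lit 77) (nat_lit 5) (nat_lit 77) (nat_lit 4) (nat_lit 483) (nat_lit 365) (nat_lit 352)) (XT.lf (nat_lit 0) (nat_lit 1288411924) (nat_lit 228) (nat_lit 2361072048) (nat_lit 76)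 (nat_lit 11245449902) (nat_lit 74) (nat_lit 5) (nat_lit 77) (nat_lit 5) (nat_lit 75) (nat_lit 4) (nat_lit 484) (nat_lit 365) (nat_lit 351))) (XT.nd (nat_lit 78) (nat_lit 152) (nat_lit 0) (XT.lf (nat_lit 0) (nat_lit 7447915863) (nat_lit 152) (nat_lit 5355453914) (nat_lit 0) (nat_lit 2341775932) (nat_lit 73) (nat_lit 5) (nat_lit 75) (nat_lit 4) (nat_lit 73) (nat_lit 4) (nat_lit 485) (nat_lit 365) (nat_lit 350)) (XT.lf (nat_lit 0) (nat_lit 6843551944) (nat_lit 152) (nat_lit 6965742761) (nat_lit 152) (nat_lit 1593059449) (nat_lit 71) (nat_lit 4) (nat_lit 73) (nat_lit 5) (nat_lit 73) (nat_lit 4) (nat_lit 486) (nat_lit 365) (nat_lit 349))))))))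
noncomputable def xc29 : XT := (XT.nd (nat_lit 2340) (nat_lit 1520) (nat_lit 0) (XT.nd (nat_lit 1170) (nat_lit 1064) (nat_lit 0) (XT.nd (nat_lit 546) (nat_lit 760) (nat_lit 0) (XT.nd (nat_lit 234) (nat_lit 380) (nat_lit 0) (XT.nd (nat_lit 78) (nat_lit 228) (nat_lit 0) (XT.lf (nat_lit 0) (nat_lit 3673671047) (nat_lit 76) (nat_lit 910138973) (nat_lit 152) (nat_lit 11082682632) (nat_lit 69) (nat_lit 5) (nat_lit 70) (nat_lit 5) (nat_lit 71) (nat_lit 4) (nat_lit 487) (nat_lit 365) (nat_lit 348)) (XT.nd (nat_lit 78) (nat_lit 76) (nat_lit 0) (XT.lf (nat_lit 0) (nat_lit 244221940) (nat_lit 152) (nat_lit 10702128210) (nat_lit 152) (nat_lit 4990763164) (nat_lit 67) (nat_lit 4) (nat_lit 69) (nat_lit 5) (nat_lit 69) (nat_lit 4) (nat_lit 488) (nat_lit 365) (nat_lit 347)) (XT.lf (nat_lit 0) (nat_lit 1281860000) (nat_lit 228) (nat_lit 3346009587) (nat_lit 76) (nat_lit 11586925302) (nat_lit 66) (nat_lit 5) (nat_lit 69) (nat_lit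 5) (nat_lit 67) (nat_lit 4) (nat_lit 489) (nat_lit 365) (nat_lit 346)))) (XT.nd (nat_lit 156) (nat_lit 152) (nat_lit 0) (XT.nd (nat_lit 78) (nat_lit 152) (nat_lit 0) (XT.lf (nat_lit 0) (nat_lit 7642751483) (nat_lit 152) (nat_lit 7211975194) (nat_lit 0) (nat_lit 1644588327) (nat_lit 65) (nat_lit 5) (nat_lit 67) (nat_lit 4) (nat_lit 65) (nat_lit 4) (nat_lit 490) (nat_lit 365) (nat_lit 345)) (XT.lf (nat_lit 0) (nat_lit 5437125991) (nat_lit 152) (nat_lit 8784657516) (nat_lit 152) (nat_lit 2569770199) (nat_lit 63) (nat_lit 4) (nat_lit 65) (nat_lit 5) (nat_lit 65) (nat_lit 4) (nat_lit 491) (nat_lit 365) (nat_lit 344))) (XT.nd (nat_lit 78) (nat_lit 0) (nat_lit 0) (XT.lf (nat_lit 0) (nat_lit 1310605597) (nat_lit 76) (nat_lit 2500184905) (nat_lit 152) (nat_lit 13281203735) (nat_lit 61) (nat_lit 5) (nat_lit 62) (nat_lit 5) (nat_lit 63) (nat_lit 4) (nat_lit 492) (nat_lit 365) (nat_lit 343)) (XT.lf (nat_lit 0) (nat_lit 10380573050)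 (nat_lit 152) (nat_lit 3074544935) (nat_lit 0) (nat_lit 3944085251) (nat_lit 61) (nat_lit 5) (nat_lit 63) (nat_lit 4) (nat_lit 61) (nat_lit 4) (nat_lit 493) (nat_lit 365) (nat_lit 342))))) (XT.nd (nat_lit 312) (nat_lit 304) (nat_lit 0) (XT.nd (nat_lit 156) (nat_lit 152) (nat_lit 0) (XT.nd (nat_lit 78) (nat_lit 152) (nat_lit 0) (XT.lf (nat_lit 0) (nat_lit 9989393847) (nat_lit 152) (nat_lit 7177351159) (nat_lit 152) (nat_lit 548306750) (nat_lit 59) (nat_lit 4) (nat_lit 61) (nat_lit 5) (nat_lit 61) (nat_lit 4) (nat_lit 494) (nat_lit 365) (nat_lit 341)) (XT.lf (nat_lit 0) (nat_lit 5319127888) (nat_lit 76) (nat_lit 658763964) (nat_lit 152) (nat_lit 12061288734) (nat_lit 57) (nat_lit 5) (nat_lit 58) (nat_lit 5) (nat_lit 59) (nat_lit 4) (nat_lit 495) (nat_lit 365) (nat_lit 340))) (XT.nd (nat_lit 78) (nat_lit 76) (nat_lit 0) (XT.lf (nat_lit 0) (nat_lit 289556500) (nat_lit 76) (nat_lit 12437921156) (nat_lit 76) (nat_lit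 5644236062) (nat_lit 56) (nat_lit 4) (nat_lit 57) (nat_lit 5) (nat_lit 57) (nat_lit 4) (nat_lit 496) (nat_lit 365) (nat_lit 339)) (XT.lf (nat_lit 0) (nat_lit 981678042) (nat_lit 152) (nat_lit 4971962723) (nat_lit 76) (nat_lit 12759249931) (nat_lit 55) (nat_lit 5) (nat_lit 57) (nat_lit 5) (nat_lit 56) (nat_lit 4) (nat_lit 497) (nat_lit 365) (nat_lit 338)))) (XT.nd (nat_lit 156) (nat_lit 152) (nat_lit 0) (XT.nd (nat_lit 78) (nat_lit 76) (nat_lit 0) (XT.lf (nat_lit 0) (nat_lit 7683509949) (nat_lit 152) (nat_lit 10619065768) (nat_lit 0) (nat_lit 760335025) (nat_lit 54) (nat_lit 5) (nat_lit 56) (nat_lit 4) (nat_lit 54) (nat_lit 4) (nat_lit 498) (nat_lit 365) (nat_lit 337)) (XT.lf (nat_lit 0) (nat_lit 2747038422) (nat_lit 76) (nat_lit 11877495823) (nat_lit 76) (nat_lit 4797754754) (nat_lit 53) (nat_lit 4) (nat_lit 54) (nat_lit 5) (nat_lit 54) (nat_lit 4) (nat_lit 499) (nat_lit 365) (nat_lit 336))) (XT.nd (nat_lit 78)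 (nat_lit 76) (nat_lit 0) (XT.lf (nat_lit 0) (nat_lit 1953141111) (nat_lit 152) (nat_lit 3266870579) (nat_lit 76) (nat_lit 14571553263) (nat_lit 52) (nat_lit 5) (nat_lit 54) (nat_lit 5) (nat_lit 53) (nat_lit 4) (nat_lit 500) (nat_lit 365) (nat_lit 335)) (XT.lf (nat_lit 0) (nat_lit 8832610617) (nat_lit 152) (nat_lit 9668993985) (nat_lit 0) (nat_lit 1668216788) (nat_lit 51) (nat_lit 5) (nat_lit 53) (nat_lit 4) (nat_lit 51) (nat_lit 4) (nat_lit 501) (nat_lit 365) (nat_lit 334)))))) (XT.nd (nat_lit 546) (nat_lit 532) (nat_lit 0) (XT.nd (nat_lit 234) (nat_lit 304) (nat_lit 0) (XT.nd (nat_lit 78) (nat_lit 152) (nat_lit 0) (XT.lf (nat_lit 0) (nat_lit 4032777562) (nat_lit 76) (nat_lit 11914640845) (nat_lit 76) (nat_lit 4611140024) (nat_lit 50) (nat_lit 4) (nat_lit 51) (nat_lit 5) (nat_lit 51) (nat_lit 4) (nat_lit 502) (nat_lit 365) (nat_lit 333)) (XT.nd (nat_lit 78) (nat_lit 76) (nat_lit 0) (XT.lf (nat_lit 0) (nat_lit 2275379762)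 (nat_lit 152) (nat_lit 2819535234) (nat_lit 76) (nat_lit 15863259719) (nat_lit 49) (nat_lit 5) (nat_lit 51) (nat_lit 5) (nat_lit 50) (nat_lit 4) (nat_lit 503) (nat_lit 365) (nat_lit 332)) (XT.lf (nat_lit 0) (nat_lit 9311648324) (nat_lit 152) (nat_lit 10093241408) (nat_lit 0) (nat_lit 1962446542) (nat_lit 48) (nat_lit 5) (nat_lit 50) (nat_lit 4) (nat_lit 48) (nat_lit 4) (nat_lit 504) (nat_lit 365) (nat_lit 331)))) (XT.nd (nat_lit 156) (nat_lit 152) (nat_lit 0) (XT.nd (nat_lit 78) (nat_lit 76) (nat_lit 0) (XT.lf (nat_lit 0) (nat_lit 3907058499) (nat_lit 76) (nat_lit 12676882012) (nat_lit 76) (nat_lit 5204085470) (nat_lit 47) (nat_lit 4) (nat_lit 48) (nat_lit 5) (nat_lit 48) (nat_lit 4) (nat_lit 505) (nat_lit 365) (nat_lit 330)) (XT.lf (nat_lit 0) (nat_lit 1828087378) (nat_lit 152) (nat_lit 3881774077) (nat_lit 76) (nat_lit 16510606360) (nat_lit 46) (nat_lit 5) (nat_lit 48) (nat_lit 5) (nat_lit 47) (nat_lit 4) (nat_lit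 506) (nat_lit 365) (nat_lit 329))) (XT.nd (nat_lit 78) (nat_lit 76) (nat_lit 0) (XT.lf (nat_lit 0) (nat_lit 8993442450) (nat_lit 152) (nat_lit 12161397972) (nat_lit 0) (nat_lit 1508693545) (nat_lit 45) (nat_lit 5) (nat_lit 47) (nat_lit 4) (nat_lit 45) (nat_lit 4) (nat_lit 507) (nat_lit 365) (nat_lit 328)) (XT.lf (nat_lit 0) (nat_lit 2088384187) (nat_lit 76) (nat_lit 14312626404) (nat_lit 76) (nat_lit 6718065155) (nat_lit 44) (nat_lit 4) (nat_lit 45) (nat_lit 5) (nat_lit 45) (nat_lit 4) (nat_lit 508) (nat_lit 365) (nat_lit 327))))) (XT.nd (nat_lit 312) (nat_lit 304) (nat_lit 0) (XT.nd (nat_lit 156) (nat_lit 76) (nat_lit 0) (XT.nd (nat_lit 78) (nat_lit 76) (nat_lit 0) (XT.lf (nat_lit 0) (nat_lit 469029995) (nat_lit 152) (nat_lit 6749044284) (nat_lit 76) (nat_lit 16369028734) (nat_lit 43) (nat_lit 5) (nat_lit 45) (nat_lit 5) (nat_lit 44) (nat_lit 4) (nat_lit 509) (nat_lit 365) (nat_lit 326)) (XT.lf (nat_lit 0) (nat_lit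 7727636413) (nat_lit 152) (nat_lit 16189539126) (nat_lit 0) (nat_lit 150273460) (nat_lit 42) (nat_lit 5) (nat_lit 44) (nat_lit 4) (nat_lit 42) (nat_lit 4) (nat_lit 510) (nat_lit 365) (nat_lit 325))) (XT.nd (nat_lit 78) (nat_lit 76) (nat_lit 0) (XT.lf (nat_lit 0) (nat_lit 15258123144) (nat_lit 152) (nat_lit 1719266292) (nat_lit 0) (nat_lit 7583193345) (nat_lit 42) (nat_lit 5) (nat_lit 44) (nat_lit 4) (nat_lit 42) (nat_lit 4) (nat_lit 511) (nat_lit 365) (nat_lit 324)) (XT.lf (nat_lit 0) (nat_lit 13280195007) (nat_lit 76) (nat_lit 9778325809) (nat_lit 76) (nat_lit 2008670917) (nat_lit 41) (nat_lit 4) (nat_lit 42) (nat_lit 5) (nat_lit 42) (nat_lit 4) (nat_lit 512) (nat_lit 365) (nat_lit 323)))) (XT.nd (nat_lit 156) (nat_lit 152) (nat_lit 0) (XT.nd (nat_lit 78) (nat_lit 0) (nat_lit 0) (XT.lf (nat_lit 0) (nat_lit 3018099637) (nat_lit 76) (nat_lit 2341368657) (nat_lit 152) (nat_lit 20229056283) (nat_lit 39) (nat_lit 5)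 (nat_lit 40) (nat_lit 5) (nat_lit 41) (nat_lit 4) (nat_lit 513) (nat_lit 365) (nat_lit 322)) (XT.lf (nat_lit 0) (nat_lit 12996109519) (nat_lit 152) (nat_lit 7849376416) (nat_lit 0) (nat_lit 5276780891) (nat_lit 39) (nat_lit 5) (nat_lit 41) (nat_lit 4) (nat_lit 39) (nat_lit 4) (nat_lit 514) (nat_lit 365) (nat_lit 321))) (XT.nd (nat_lit 78) (nat_lit 76) (nat_lit 0) (XT.lf (nat_lit 0) (nat_lit 7272591812) (nat_lit 76) (nat_lit 13601280222) (nat_lit 76) (nat_lit 5797789577) (nat_lit 38) (nat_lit 4) (nat_lit 39) (nat_lit 5) (nat_lit 39) (nat_lit 4) (nat_lit 515) (nat_lit 365) (nat_lit 320)) (XT.lf (nat_lit 0) (nat_lit 1715300063) (nat_lit 152) (nat_lit 4403142212) (nat_lit 76) (nat_lit 21118621214) (nat_lit 37) (nat_lit 5) (nat_lit 39) (nat_lit 5) (nat_lit 38) (nat_lit 4) (nat_lit 516) (nat_lit 365) (nat_lit 319))))))) (XT.nd (nat_lit 1170) (nat_lit 684) (nat_lit 0) (XT.nd (nat_lit 546) (nat_lit 456) (nat_lit 0) (XT.nd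 (nat_lit 234) (nat_lit 228) (nat_lit 0) (XT.nd (nat_lit 78) (nat_lit 76) (nat_lit 0) (XT.lf (nat_lit 0) (nat_lit 9380933392) (nat_lit 152) (nat_lit 16787084405) (nat_lit 0) (nat_lit 1648377939) (nat_lit 36) (nat_lit 5) (nat_lit 38) (nat_lit 4) (nat_lit 36) (nat_lit 4) (nat_lit 517) (nat_lit 365) (nat_lit 318)) (XT.nd (nat_lit 78) (nat_lit 76) (nat_lit 0) (XT.lf (nat_lit 0) (nat_lit 17303448985) (nat_lit 152) (nat_lit 1612735725) (nat_lit 0) (nat_lit 9496116669) (nat_lit 36) (nat_lit 5) (nat_lit 38) (nat_lit 4) (nat_lit 36) (nat_lit 4) (nat_lit 518) (nat_lit 365) (nat_lit 317)) (XT.lf (nat_lit 0) (nat_lit 14142383731) (nat_lit 76) (nat_lit 11380921264) (nat_lit 76) (nat_lit 3500990052) (nat_lit 35) (nat_lit 4) (nat_lit 36) (nat_lit 5) (nat_lit 36) (nat_lit 4) (nat_lit 519) (nat_lit 365) (nat_lit 316)))) (XT.nd (nat_lit 156) (nat_lit 76) (nat_lit 0) (XT.nd (nat_lit 78) (nat_lit 0) (nat_lit 0) (XT.lf (nat_lit 0) (nat_lit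 567832012) (nat_lit 76) (nat_lit 3628349066) (nat_lit 152) (nat_lit 25458848058) (nat_lit 33) (nat_lit 5) (nat_lit 34) (nat_lit 5) (nat_lit 35) (nat_lit 4) (nat_lit 520) (nat_lit 365) (nat_lit 315)) (XT.lf (nat_lit 0) (nat_lit 12171389921) (nat_lit 152) (nat_lit 13742629920) (nat_lit 0) (nat_lit 4386101572) (nat_lit 33) (nat_lit 5) (nat_lit 35) (nat_lit 4) (nat_lit 33) (nat_lit 4) (nat_lit 521) (nat_lit 365) (nat_lit 314))) (XT.nd (nat_lit 78) (nat_lit 0) (nat_lit 0) (XT.lf (nat_lit 0) (nat_lit 1917600558) (nat_lit 76) (nat_lit 18448672795) (nat_lit 76) (nat_lit 10598881268) (nat_lit 32) (nat_lit 4) (nat_lit 33) (nat_lit 5) (nat_lit 33) (nat_lit 4) (nat_lit 522) (nat_lit 365) (nat_lit 313)) (XT.lf (nat_lit 0) (nat_lit 18184612633) (nat_lit 76) (nat_lit 10687987478) (nat_lit 76) (nat_lit 2775571505) (nat_lit 32) (nat_lit 4) (nat_lit 33) (nat_lit 5) (nat_lit 33) (nat_lit 4) (nat_lit 523) (nat_lit 365) (nat_lit 312)))))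 (XT.nd (nat_lit 312) (nat_lit 228) (nat_lit 0) (XT.nd (nat_lit 156) (nat_lit 76) (nat_lit 0) (XT.nd (nat_lit 78) (nat_lit 0) (nat_lit 0) (XT.lf (nat_lit 0) (nat_lit 2442898921) (nat_lit 76) (nat_lit 2688192372) (nat_lit 152) (nat_lit 27220513144) (nat_lit 30) (nat_lit 5) (nat_lit 31) (nat_lit 5) (nat_lit 32) (nat_lit 4) (nat_lit 524) (nat_lit 365) (nat_lit 311)) (XT.lf (nat_lit 0) (nat_lit 13338155359) (nat_lit 152) (nat_lit 14193733145) (nat_lit 0) (nat_lit 5539858318) (nat_lit 30) (nat_lit 5) (nat_lit 32) (nat_lit 4) (nat_lit 30) (nat_lit 4) (nat_lit 525) (nat_lit 365) (nat_lit 310))) (XT.nd (nat_lit 78) (nat_lit 0) (nat_lit 0) (XT.lf (nat_lit 0) (nat_lit 1864574132) (nat_lit 76) (nat_lit 19901804792) (nat_lit 76) (nat_lit 12047866743) (nat_lit 29) (nat_lit 4) (nat_lit 30) (nat_lit 5) (nat_lit 30) (nat_lit 4) (nat_lit 526) (nat_lit 365) (nat_lit 309)) (XT.lf (nat_lit 0) (nat_lit 18559056981) (nat_lit 76) (nat_lit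 11962843992) (nat_lit 76) (nat_lit 4054885546) (nat_lit 29) (nat_lit 4) (nat_lit 30) (nat_lit 5) (nat_lit 30) (nat_lit 4) (nat_lit 527) (nat_lit 365) (nat_lit 308)))) (XT.nd (nat_lit 156) (nat_lit 76) (nat_lit 0) (XT.nd (nat_lit 78) (nat_lit 0) (nat_lit 0) (XT.lf (nat_lit 0) (nat_lit 222451930) (nat_lit 76) (nat_lit 3808512288) (nat_lit 152) (nat_lit 31331996993) (nat_lit 27) (nat_lit 5) (nat_lit 28) (nat_lit 5) (nat_lit 29) (nat_lit 4) (nat_lit 528) (nat_lit 365) (nat_lit 307)) (XT.lf (nat_lit 0) (nat_lit 12417892508) (nat_lit 152) (nat_lit 19109517462) (nat_lit 0) (nat_lit 4639907229) (nat_lit 27) (nat_lit 5) (nat_lit 29) (nat_lit 4) (nat_lit 27) (nat_lit 4) (nat_lit 529) (nat_lit 365) (nat_lit 306))) (XT.nd (nat_lit 78) (nat_lit 76) (nat_lit 0) (XT.lf (nat_lit 0) (nat_lit 21028628813) (nat_lit 152) (nat_lit 2765362470) (nat_lit 0) (nat_lit 13202647110) (nat_lit 27) (nat_lit 5) (nat_lit 29) (nat_lit 4) (nat_lit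 27) (nat_lit 4) (nat_lit 530) (nat_lit 365) (nat_lit 305)) (XT.lf (nat_lit 0) (nat_lit 14220336733) (nat_lit 76) (nat_lit 15750445169) (nat_lit 76) (nat_lit 7877864997) (nat_lit 26) (nat_lit 4) (nat_lit 27) (nat_lit 5) (nat_lit 27) (nat_lit 4) (nat_lit 531) (nat_lit 365) (nat_lit 304)))))) (XT.nd (nat_lit 624) (nat_lit 304) (nat_lit 0) (XT.nd (nat_lit 312) (nat_lit 152) (nat_lit 0) (XT.nd (nat_lit 156) (nat_lit 76) (nat_lit 0) (XT.nd (nat_lit 78) (nat_lit 76) (nat_lit 0) (XT.lf (nat_lit 0) (nat_lit 410733672) (nat_lit 152) (nat_lit 7084032048) (nat_lit 76) (nat_lit 31232380375) (nat_lit 25) (nat_lit 5) (nat_lit 27) (nat_lit 5) (nat_lit 26) (nat_lit 4) (nat_lit 532) (nat_lit 365) (nat_lit 303)) (XT.lf (nat_lit 0) (nat_lit 8834407189) (nat_lit 152) (nat_lit 29689353220) (nat_lit 0) (nat_lit 1104557743) (nat_lit 24) (nat_lit 5) (nat_lit 26) (nat_lit 4) (nat_lit 24) (nat_lit 4) (nat_lit 533) (nat_lit 365) (nat_lit 302)))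 (XT.nd (nat_lit 78) (nat_lit 76) (nat_lit 0) (XT.lf (nat_lit 0) (nat_lit 17595568835) (nat_lit 152) (nat_lit 13134096403) (nat_lit 0) (nat_lit 9824317253) (nat_lit 24) (nat_lit 5) (nat_lit 26) (nat_lit 4) (nat_lit 24) (nat_lit 4) (nat_lit 534) (nat_lit 365) (nat_lit 301)) (XT.lf (nat_lit 0) (nat_lit 3874322292) (nat_lit 76) (nat_lit 22722610855) (nat_lit 76) (nat_lit 14911163024) (nat_lit 23) (nat_lit 4) (nat_lit 24) (nat_lit 5) (nat_lit 24) (nat_lit 4) (nat_lit 535) (nat_lit 365) (nat_lit 300)))) (XT.nd (nat_lit 156) (nat_lit 76) (nat_lit 0) (XT.nd (nat_lit 78) (nat_lit 76) (nat_lit 0) (XT.lf (nat_lit 0) (nat_lit 21544299465) (nat_lit 76) (nat_lit 14397403306) (nat_lit 76) (nat_lit 6546929991) (nat_lit 23) (nat_lit 4) (nat_lit 24) (nat_lit 5) (nat_lit 24) (nat_lit 4) (nat_lit 536) (nat_lit 365) (nat_lit 299)) (XT.lf (nat_lit 0) (nat_lit 1969763224) (nat_lit 152) (nat_lit 3889742788) (nat_lit 76) (nat_lit 37640226658)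 (nat_lit 22) (nat_lit 5) (nat_lit 24) (nat_lit 5) (nat_lit 23) (nat_lit 4) (nat_lit 537) (nat_lit 365) (nat_lit 298))) (XT.nd (nat_lit 78) (nat_lit 0) (nat_lit 0) (XT.lf (nat_lit 0) (nat_lit 10715925178) (nat_lit 152) (nat_lit 30798522199) (nat_lit 0) (nat_lit 3021607318) (nat_lit 21) (nat_lit 5) (nat_lit 23) (nat_lit 4) (nat_lit 21) (nat_lit 4) (nat_lit 538) (nat_lit 365) (nat_lit 297)) (XT.lf (nat_lit 0) (nat_lit 19765781297) (nat_lit 152) (nat_lit 13799656387) (nat_lit 0) (nat_lit 12036789800) (nat_lit 21) (nat_lit 5) (nat_lit 23) (nat_lit 4) (nat_lit 21) (nat_lit 4) (nat_lit 539) (nat_lit 365) (nat_lit 296))))) (XT.nd (nat_lit 312) (nat_lit 76) (nat_lit 0) (XT.nd (nat_lit 156) (nat_lit 152) (nat_lit 0) (XT.nd (nat_lit 78) (nat_lit 0) (nat_lit 0) (XT.lf (nat_lit 0) (nat_lit 3671769990) (nat_lit 76) (nat_lit 25395927072) (nat_lit 76) (nat_lit 17633271850) (nat_lit 20) (nat_lit 4) (nat_lit 21) (nat_lit 5) (nat_lit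 21) (nat_lit 4) (nat_lit 540) (nat_lit 365) (nat_lit 295)) (XT.lf (nat_lit 0) (nat_lit 21842232885) (nat_lit 76) (nat_lit 16891611641) (nat_lit 76) (nat_lit 9096273191) (nat_lit 20) (nat_lit 4) (nat_lit 21) (nat_lit 5) (nat_lit 21) (nat_lit 4) (nat_lit 541) (nat_lit 365) (nat_lit 294))) (XT.nd (nat_lit 78) (nat_lit 152) (nat_lit 0) (XT.lf (nat_lit 0) (nat_lit 40452969182) (nat_lit 76) (nat_lit 8184409908) (nat_lit 76) (nat_lit 357340167) (nat_lit 20) (nat_lit 4) (nat_lit 21) (nat_lit 5) (nat_lit 21) (nat_lit 4) (nat_lit 542) (nat_lit 365) (nat_lit 293)) (XT.lf (nat_lit 0) (nat_lit 8522888721) (nat_lit 152) (nat_lit 40773561714) (nat_lit 0) (nat_lit 893882102) (nat_lit 18) (nat_lit 5) (nat_lit 20) (nat_lit 4) (nat_lit 18) (nat_lit 4) (nat_lit 543) (nat_lit 365) (nat_lit 292)))) (XT.nd (nat_lit 156) (nat_lit 76) (nat_lit 0) (XT.nd (nat_lit 78) (nat_lit 0) (nat_lit 0) (XT.lf (nat_lit 0) (nat_lit 17778949239) (nat_lit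 152) (nat_lit 23518356953) (nat_lit 0) (nat_lit 10120903995) (nat_lit 18) (nat_lit 5) (nat_lit 20) (nat_lit 4) (nat_lit 18) (nat_lit 4) (nat_lit 544) (nat_lit 365) (nat_lit 291)) (XT.lf (nat_lit 0) (nat_lit 27262656862) (nat_lit 152) (nat_lit 5845349880) (nat_lit 0) (nat_lit 19576418778) (nat_lit 18) (nat_lit 5) (nat_lit 20) (nat_lit 4) (nat_lit 18) (nat_lit 4) (nat_lit 545) (nat_lit 365) (nat_lit 290))) (XT.nd (nat_lit 78) (nat_lit 0) (nat_lit 0) (XT.lf (nat_lit 0) (nat_lit 12504917927) (nat_lit 76) (nat_lit 24597585319) (nat_lit 76) (nat_lit 16883975545) (nat_lit 17) (nat_lit 4) (nat_lit 18) (nat_lit 5) (nat_lit 18) (nat_lit 4) (nat_lit 546) (nat_lit 365) (nat_lit 289)) (XT.lf (nat_lit 0) (nat_lit 31429522689) (nat_lit 76) (nat_lit 15818963627) (nat_lit 76) (nat_lit 8078779397) (nat_lit 17) (nat_lit 4) (nat_lit 18) (nat_lit 5) (nat_lit 18) (nat_lit 4) (nat_lit 547) (nat_lit 365) (nat_lit 288))))))))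
noncomputable def xc30 : XT := (XT.nd (nat_lit 58110) (nat_lit 0) (nat_lit 1444) (XT.nd (nat_lit 56940) (nat_lit 0) (nat_lit 3724) (XT.nd (nat_lit 56316) (nat_lit 0) (nat_lit 5624) (XT.nd (nat_lit 234) (nat_lit 76) (nat_lit 0) (XT.nd (nat_lit 78) (nat_lit 76) (nat_lit 0) (XT.lf (nat_lit 0) (nat_lit 924095754) (nat_lit 152) (nat_lit 5890070290) (nat_lit 76) (nat_lit 49895239235) (nat_lit 16) (nat_lit 5) (nat_lit 18) (nat_lit 5) (nat_lit 17) (nat_lit 4) (nat_lit 548) (nat_lit 365) (nat_lit 287)) (XT.nd (nat_lit 78) (nat_lit 0) (nat_lit 0) (XT.lf (nat_lit 0) (nat_lit 10136543777) (nat_lit 152) (nat_lit 45418576582) (nat_lit 0) (nat_lit 2572433442) (nat_lit 15) (nat_lit 5) (nat_lit 17) (nat_lit 4) (nat_lit 15) (nat_lit 4) (nat_lit 549) (nat_lit 365) (nat_lit 286)) (XT.lf (nat_lit 0) (nat_lit 19707154166) (nat_lit 152) (nat_lit 27759206434) (nat_lit 0) (nat_lit 12119432771) (nat_lit 15) (nat_lit 5) (nat_lit 17) (nat_lit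 4) (nat_lit 15) (nat_lit 4) (nat_lit 550) (nat_lit 365) (nat_lit 285)))) (XT.nd (nat_lit 156) (nat_lit 0) (nat_lit 0) (XT.nd (nat_lit 78) (nat_lit 76) (nat_lit 0) (XT.lf (nat_lit 0) (nat_lit 29520470130) (nat_lit 152) (nat_lit 9658817257) (nat_lit 0) (nat_lit 21909825377) (nat_lit 15) (nat_lit 5) (nat_lit 17) (nat_lit 4) (nat_lit 15) (nat_lit 4) (nat_lit 551) (nat_lit 365) (nat_lit 284)) (XT.lf (nat_lit 0) (nat_lit 9075502565) (nat_lit 76) (nat_lit 30596803129) (nat_lit 76) (nat_lit 22963902688) (nat_lit 14) (nat_lit 4) (nat_lit 15) (nat_lit 5) (nat_lit 15) (nat_lit 4) (nat_lit 552) (nat_lit 365) (nat_lit 283))) (XT.nd (nat_lit 55848) (nat_lit 0) (nat_lit 6916) (XT.lf (nat_lit 0) (nat_lit 28484516365) (nat_lit 76) (nat_lit 21699031550) (nat_lit 76) (nat_lit 14044523644) (nat_lit 14) (nat_lit 4) (nat_lit 15) (nat_lit 5) (nat_lit 15) (nat_lit 4) (nat_lit 553) (nat_lit 365) (nat_lit 282)) (XT.lf (nat_lit 0) (nat_lit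 321906517) (nat_lit 228) (nat_lit 5177843528) (nat_lit 0) (nat_lit 321906517) (nat_lit 105) (nat_lit 5) (nat_lit 108) (nat_lit 4) (nat_lit 105) (nat_lit 4) (nat_lit 468) (nat_lit 366) (nat_lit 366))))) (XT.nd (nat_lit 312) (nat_lit 760) (nat_lit 0) (XT.nd (nat_lit 156) (nat_lit 380) (nat_lit 0) (XT.nd (nat_lit 78) (nat_lit 0) (nat_lit 0) (XT.lf (nat_lit 0) (nat_lit 4902988) (nat_lit 152) (nat_lit 6165987918) (nat_lit 152) (nat_lit 5639941495) (nat_lit 103) (nat_lit 4) (nat_lit 105) (nat_lit 5) (nat_lit 105) (nat_lit 4) (nat_lit 469) (nat_lit 366) (nat_lit 365)) (XT.lf (nat_lit 0) (nat_lit 10678297189) (nat_lit 152) (nat_lit 1171143518) (nat_lit 152) (nat_lit 134372412) (nat_lit 103) (nat_lit 4) (nat_lit 105) (nat_lit 5) (nat_lit 105) (nat_lit 4) (nat_lit 470) (nat_lit 366) (nat_lit 364))) (XT.nd (nat_lit 78) (nat_lit 152) (nat_lit 0) (XT.lf (nat_lit 0) (nat_lit 5441176849) (nat_lit 228) (nat_lit 2765633777) (nat_lit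 0) (nat_lit 3953195963) (nat_lit 100) (nat_lit 5) (nat_lit 103) (nat_lit 4) (nat_lit 100) (nat_lit 4) (nat_lit 471) (nat_lit 366) (nat_lit 363)) (XT.lf (nat_lit 0) (nat_lit 8037643604) (nat_lit 152) (nat_lit 3129794721) (nat_lit 152) (nat_lit 1174428401) (nat_lit 98) (nat_lit 4) (nat_lit 100) (nat_lit 5) (nat_lit 100) (nat_lit 4) (nat_lit 472) (nat_lit 366) (nat_lit 362)))) (XT.nd (nat_lit 156) (nat_lit 380) (nat_lit 0) (XT.nd (nat_lit 78) (nat_lit 152) (nat_lit 0) (XT.lf (nat_lit 0) (nat_lit 4444028546) (nat_lit 228) (nat_lit 5978904483) (nat_lit 0) (nat_lit 2105059045) (nat_lit 95) (nat_lit 5) (nat_lit 98) (nat_lit 4) (nat_lit 95) (nat_lit 4) (nat_lit 473) (nat_lit 366) (nat_lit 361)) (XT.lf (nat_lit 0) (nat_lit 4943369460) (nat_lit 152) (nat_lit 5271232976) (nat_lit 152) (nat_lit 2504539594) (nat_lit 93) (nat_lit 4) (nat_lit 95) (nat_lit 5) (nat_lit 95) (nat_lit 4) (nat_lit 474) (nat_lit 366) (nat_lit 360)))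 (XT.nd (nat_lit 78) (nat_lit 152) (nat_lit 0) (XT.lf (nat_lit 0) (nat_lit 3156642395) (nat_lit 228) (nat_lit 9691762705) (nat_lit 0) (nat_lit 67361535) (nat_lit 90) (nat_lit 5) (nat_lit 93) (nat_lit 4) (nat_lit 90) (nat_lit 4) (nat_lit 475) (nat_lit 366) (nat_lit 359)) (XT.lf (nat_lit 0) (nat_lit 1336940161) (nat_lit 152) (nat_lit 7630212046) (nat_lit 152) (nat_lit 4149503243) (nat_lit 88) (nat_lit 4) (nat_lit 90) (nat_lit 5) (nat_lit 90) (nat_lit 4) (nat_lit 476) (nat_lit 366) (nat_lit 358)))))) (XT.nd (nat_lit 546) (nat_lit 1064) (nat_lit 0) (XT.nd (nat_lit 234) (nat_lit 456) (nat_lit 0) (XT.nd (nat_lit 78) (nat_lit 304) (nat_lit 0) (XT.lf (nat_lit 0) (nat_lit 1581183813) (nat_lit 228) (nat_lit 650932790) (nat_lit 76) (nat_lit 11091452208) (nat_lit 87) (nat_lit 5) (nat_lit 90) (nat_lit 5) (nat_lit 88) (nat_lit 4) (nat_lit 477) (nat_lit 366) (nat_lit 357)) (XT.nd (nat_lit 78) (nat_lit 152) (nat_lit 0) (XT.lf (nat_lit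 0) (nat_lit 7425582438) (nat_lit 228) (nat_lit 2790039705) (nat_lit 0) (nat_lit 3319083109) (nat_lit 85) (nat_lit 5) (nat_lit 88) (nat_lit 4) (nat_lit 85) (nat_lit 4) (nat_lit 478) (nat_lit 366) (nat_lit 356)) (XT.lf (nat_lit 0) (nat_lit 8687661140) (nat_lit 152) (nat_lit 4759372432) (nat_lit 152) (nat_lit 305094446) (nat_lit 83) (nat_lit 4) (nat_lit 85) (nat_lit 5) (nat_lit 85) (nat_lit 4) (nat_lit 479) (nat_lit 366) (nat_lit 355)))) (XT.nd (nat_lit 156) (nat_lit 152) (nat_lit 0) (XT.nd (nat_lit 78) (nat_lit 152) (nat_lit 0) (XT.lf (nat_lit 0) (nat_lit 5551383410) (nat_lit 152) (nat_lit 7524359849) (nat_lit 0) (nat_lit 899026936) (nat_lit 81) (nat_lit 5) (nat_lit 83) (nat_lit 4) (nat_lit 81) (nat_lit 4) (nat_lit 480) (nat_lit 366) (nat_lit 354)) (XT.lf (nat_lit 0) (nat_lit 4036308172) (nat_lit 152) (nat_lit 7568745337) (nat_lit 152) (nat_lit 2598122126) (nat_lit 79) (nat_lit 4) (nat_lit 81) (nat_lit 5) (nat_lit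 81) (nat_lit 4) (nat_lit 481) (nat_lit 366) (nat_lit 353))) (XT.nd (nat_lit 78) (nat_lit 0) (nat_lit 0) (XT.lf (nat_lit 0) (nat_lit 1452792294) (nat_lit 76) (nat_lit 1863666985) (nat_lit 152) (nat_lit 11121567980) (nat_lit 77) (nat_lit 5) (nat_lit 78) (nat_lit 5) (nat_lit 79) (nat_lit 4) (nat_lit 482) (nat_lit 366) (nat_lit 352)) (XT.lf (nat_lit 0) (nat_lit 9389111528) (nat_lit 152) (nat_lit 1317051139) (nat_lit 0) (nat_lit 3972007675) (nat_lit 77) (nat_lit 5) (nat_lit 79) (nat_lit 4) (nat_lit 77) (nat_lit 4) (nat_lit 483) (nat_lit 366) (nat_lit 351))))) (XT.nd (nat_lit 312) (nat_lit 456) (nat_lit 0) (XT.nd (nat_lit 156) (nat_lit 304) (nat_lit 0) (XT.nd (nat_lit 78) (nat_lit 76) (nat_lit 0) (XT.lf (nat_lit 0) (nat_lit 719578318) (nat_lit 228) (nat_lit 4239135739) (nat_lit 76) (nat_lit 9966144365) (nat_lit 74) (nat_lit 5) (nat_lit 77) (nat_lit 5) (nat_lit 75) (nat_lit 4) (nat_lit 484) (nat_lit 366) (nat_lit 350))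 (XT.lf (nat_lit 0) (nat_lit 6794253981) (nat_lit 152) (nat_lit 7389515791) (nat_lit 0) (nat_lit 993846786) (nat_lit 73) (nat_lit 5) (nat_lit 75) (nat_lit 4) (nat_lit 73) (nat_lit 4) (nat_lit 485) (nat_lit 366) (nat_lit 349))) (XT.nd (nat_lit 78) (nat_lit 152) (nat_lit 0) (XT.lf (nat_lit 0) (nat_lit 4669086039) (nat_lit 152) (nat_lit 8413558598) (nat_lit 152) (nat_lit 2354371421) (nat_lit 71) (nat_lit 4) (nat_lit 73) (nat_lit 5) (nat_lit 73) (nat_lit 4) (nat_lit 486) (nat_lit 366) (nat_lit 348)) (XT.lf (nat_lit 0) (nat_lit 1328041417) (nat_lit 76) (nat_lit 2434752324) (nat_lit 152) (nat_lit 11940818499) (nat_lit 69) (nat_lit 5) (nat_lit 70) (nat_lit 5) (nat_lit 71) (nat_lit 4) (nat_lit 487) (nat_lit 366) (nat_lit 347)))) (XT.nd (nat_lit 156) (nat_lit 228) (nat_lit 0) (XT.nd (nat_lit 78) (nat_lit 228) (nat_lit 0) (XT.lf (nat_lit 0) (nat_lit 10056460921) (nat_lit 152) (nat_lit 2226829831) (nat_lit 0) (nat_lit 3693009628)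 (nat_lit 69) (nat_lit 5) (nat_lit 71) (nat_lit 4) (nat_lit 69) (nat_lit 4) (nat_lit 488) (nat_lit 366) (nat_lit 346)) (XT.lf (nat_lit 0) (nat_lit 297062739) (nat_lit 228) (nat_lit 5990336593) (nat_lit 76) (nat_lit 9969067281) (nat_lit 66) (nat_lit 5) (nat_lit 69) (nat_lit 5) (nat_lit 67) (nat_lit 4) (nat_lit 489) (nat_lit 366) (nat_lit 345))) (XT.nd (nat_lit 78) (nat_lit 152) (nat_lit 0) (XT.lf (nat_lit 0) (nat_lit 6509694038) (nat_lit 76) (nat_lit 54982749) (nat_lit 152) (nat_lit 9979109446) (nat_lit 65) (nat_lit 5) (nat_lit 66) (nat_lit 5) (nat_lit 67) (nat_lit 4) (nat_lit 490) (nat_lit 366) (nat_lit 344)) (XT.lf (nat_lit 0) (nat_lit 2461953217) (nat_lit 152) (nat_lit 10602460807) (nat_lit 152) (nat_lit 3773990902) (nat_lit 63) (nat_lit 4) (nat_lit 65) (nat_lit 5) (nat_lit 65) (nat_lit 4) (nat_lit 491) (nat_lit 366) (nat_lit 343))))))) (XT.nd (nat_lit 1170) (nat_lit 1064) (nat_lit 0) (XT.nd (nat_lit 546) (nat_lit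 532) (nat_lit 0) (XT.nd (nat_lit 234) (nat_lit 380) (nat_lit 0) (XT.nd (nat_lit 78) (nat_lit 228) (nat_lit 0) (XT.lf (nat_lit 0) (nat_lit 2567362637) (nat_lit 228) (nat_lit 1821007059) (nat_lit 76) (nat_lit 12752705289) (nat_lit 62) (nat_lit 5) (nat_lit 65) (nat_lit 5) (nat_lit 63) (nat_lit 4) (nat_lit 492) (nat_lit 366) (nat_lit 342)) (XT.nd (nat_lit 78) (nat_lit 152) (nat_lit 0) (XT.lf (nat_lit 0) (nat_lit 9050973626) (nat_lit 152) (nat_lit 6369395279) (nat_lit 0) (nat_lit 2030501274) (nat_lit 61) (nat_lit 5) (nat_lit 63) (nat_lit 4) (nat_lit 61) (nat_lit 4) (nat_lit 493) (nat_lit 366) (nat_lit 341)) (XT.lf (nat_lit 0) (nat_lit 6534200935) (nat_lit 152) (nat_lit 9221195881) (nat_lit 152) (nat_lit 2013775365) (nat_lit 59) (nat_lit 4) (nat_lit 61) (nat_lit 5) (nat_lit 61) (nat_lit 4) (nat_lit 494) (nat_lit 366) (nat_lit 340)))) (XT.nd (nat_lit 156) (nat_lit 228) (nat_lit 0) (XT.nd (nat_lit 78) (nat_lit 0) (nat_lit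 0) (XT.lf (nat_lit 0) (nat_lit 1659515115) (nat_lit 76) (nat_lit 2797843852) (nat_lit 152) (nat_lit 13638875439) (nat_lit 57) (nat_lit 5) (nat_lit 58) (nat_lit 5) (nat_lit 59) (nat_lit 4) (nat_lit 495) (nat_lit 366) (nat_lit 339)) (XT.lf (nat_lit 0) (nat_lit 11135219986) (nat_lit 152) (nat_lit 3505276518) (nat_lit 0) (nat_lit 3790423709) (nat_lit 57) (nat_lit 5) (nat_lit 59) (nat_lit 4) (nat_lit 57) (nat_lit 4) (nat_lit 496) (nat_lit 366) (nat_lit 338))) (XT.nd (nat_lit 78) (nat_lit 152) (nat_lit 0) (XT.lf (nat_lit 0) (nat_lit 9794080352) (nat_lit 76) (nat_lit 8245835210) (nat_lit 76) (nat_lit 734937909) (nat_lit 56) (nat_lit 4) (nat_lit 57) (nat_lit 5) (nat_lit 57) (nat_lit 4) (nat_lit 497) (nat_lit 366) (nat_lit 337)) (XT.lf (nat_lit 0) (nat_lit 4277919075) (nat_lit 76) (nat_lit 1608819597) (nat_lit 152) (nat_lit 13241182538) (nat_lit 54) (nat_lit 5) (nat_lit 55) (nat_lit 5) (nat_lit 56) (nat_lit 4) (nat_lit 498)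 (nat_lit 366) (nat_lit 336))))) (XT.nd (nat_lit 312) (nat_lit 304) (nat_lit 0) (XT.nd (nat_lit 156) (nat_lit 152) (nat_lit 0) (XT.nd (nat_lit 78) (nat_lit 76) (nat_lit 0) (XT.lf (nat_lit 0) (nat_lit 12739060339) (nat_lit 152) (nat_lit 1612546109) (nat_lit 0) (nat_lit 5138354925) (nat_lit 54) (nat_lit 5) (nat_lit 56) (nat_lit 4) (nat_lit 54) (nat_lit 4) (nat_lit 499) (nat_lit 366) (nat_lit 335)) (XT.lf (nat_lit 0) (nat_lit 12063118739) (nat_lit 76) (nat_lit 7773421007) (nat_lit 76) (nat_lit 25136985) (nat_lit 53) (nat_lit 4) (nat_lit 54) (nat_lit 5) (nat_lit 54) (nat_lit 4) (nat_lit 500) (nat_lit 366) (nat_lit 334))) (XT.nd (nat_lit 78) (nat_lit 0) (nat_lit 0) (XT.lf (nat_lit 0) (nat_lit 5806377329) (nat_lit 76) (nat_lit 941377129) (nat_lit 152) (nat_lit 13495398773) (nat_lit 51) (nat_lit 5) (nat_lit 52) (nat_lit 5) (nat_lit 53) (nat_lit 4) (nat_lit 501) (nat_lit 366) (nat_lit 333)) (XT.lf (nat_lit 0) (nat_lit 13769403418)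 (nat_lit 152) (nat_lit 892647110) (nat_lit 0) (nat_lit 5972635247) (nat_lit 51) (nat_lit 5) (nat_lit 53) (nat_lit 4) (nat_lit 51) (nat_lit 4) (nat_lit 502) (nat_lit 366) (nat_lit 332)))) (XT.nd (nat_lit 156) (nat_lit 76) (nat_lit 0) (XT.nd (nat_lit 78) (nat_lit 76) (nat_lit 0) (XT.lf (nat_lit 0) (nat_lit 11079799) (nat_lit 152) (nat_lit 7905397859) (nat_lit 76) (nat_lit 13120099462) (nat_lit 49) (nat_lit 5) (nat_lit 51) (nat_lit 5) (nat_lit 50) (nat_lit 4) (nat_lit 503) (nat_lit 366) (nat_lit 331)) (XT.lf (nat_lit 0) (nat_lit 6019656098) (nat_lit 76) (nat_lit 913766834) (nat_lit 152) (nat_lit 14515734183) (nat_lit 48) (nat_lit 5) (nat_lit 49) (nat_lit 5) (nat_lit 50) (nat_lit 4) (nat_lit 504) (nat_lit 366) (nat_lit 330))) (XT.nd (nat_lit 78) (nat_lit 76) (nat_lit 0) (XT.lf (nat_lit 0) (nat_lit 14115460367) (nat_lit 152) (nat_lit 1582204497) (nat_lit 0) (nat_lit 6174890254) (nat_lit 48) (nat_lit 5) (nat_lit 50) (nat_lit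 4) (nat_lit 48) (nat_lit 4) (nat_lit 505) (nat_lit 366) (nat_lit 329)) (XT.lf (nat_lit 0) (nat_lit 12751694268) (nat_lit 76) (nat_lit 8806339927) (nat_lit 76) (nat_lit 749269897) (nat_lit 47) (nat_lit 4) (nat_lit 48) (nat_lit 5) (nat_lit 48) (nat_lit 4) (nat_lit 506) (nat_lit 366) (nat_lit 328)))))) (XT.nd (nat_lit 624) (nat_lit 456) (nat_lit 0) (XT.nd (nat_lit 312) (nat_lit 228) (nat_lit 0) (XT.nd (nat_lit 156) (nat_lit 228) (nat_lit 0) (XT.nd (nat_lit 78) (nat_lit 0) (nat_lit 0) (XT.lf (nat_lit 0) (nat_lit 4653217941) (nat_lit 76) (nat_lit 1663725253) (nat_lit 152) (nat_lit 16437056610) (nat_lit 45) (nat_lit 5) (nat_lit 46) (nat_lit 5) (nat_lit 47) (nat_lit 4) (nat_lit 507) (nat_lit 366) (nat_lit 327)) (XT.lf (nat_lit 0) (nat_lit 13645906054) (nat_lit 152) (nat_lit 3958912571) (nat_lit 0) (nat_lit 5607081696) (nat_lit 45) (nat_lit 5) (nat_lit 47) (nat_lit 4) (nat_lit 45) (nat_lit 4) (nat_lit 508) (nat_lit 366)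 (nat_lit 326))) (XT.nd (nat_lit 78) (nat_lit 152) (nat_lit 0) (XT.lf (nat_lit 0) (nat_lit 10634369648) (nat_lit 76) (nat_lit 10595228286) (nat_lit 76) (nat_lit 2452895262) (nat_lit 44) (nat_lit 4) (nat_lit 45) (nat_lit 5) (nat_lit 45) (nat_lit 4) (nat_lit 509) (nat_lit 366) (nat_lit 325)) (XT.lf (nat_lit 0) (nat_lit 1396662566) (nat_lit 76) (nat_lit 3351854399) (nat_lit 152) (nat_lit 19418181881) (nat_lit 42) (nat_lit 5) (nat_lit 43) (nat_lit 5) (nat_lit 44) (nat_lit 4) (nat_lit 510) (nat_lit 366) (nat_lit 324)))) (XT.nd (nat_lit 156) (nat_lit 152) (nat_lit 0) (XT.nd (nat_lit 78) (nat_lit 76) (nat_lit 0) (XT.lf (nat_lit 0) (nat_lit 12205571297) (nat_lit 152) (nat_lit 8348363153) (nat_lit 0) (nat_lit 4108101666) (nat_lit 42) (nat_lit 5) (nat_lit 44) (nat_lit 4) (nat_lit 42) (nat_lit 4) (nat_lit 511) (nat_lit 366) (nat_lit 323)) (XT.lf (nat_lit 0) (nat_lit 6439138688) (nat_lit 76) (nat_lit 13461057897) (nat_lit 76)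 (nat_lit 5271622156) (nat_lit 41) (nat_lit 4) (nat_lit 42) (nat_lit 5) (nat_lit 42) (nat_lit 4) (nat_lit 512) (nat_lit 366) (nat_lit 322))) (XT.nd (nat_lit 78) (nat_lit 76) (nat_lit 0) (XT.lf (nat_lit 0) (nat_lit 2091191241) (nat_lit 152) (nat_lit 4033605005) (nat_lit 76) (nat_lit 19571366708) (nat_lit 40) (nat_lit 5) (nat_lit 42) (nat_lit 5) (nat_lit 41) (nat_lit 4) (nat_lit 513) (nat_lit 366) (nat_lit 321)) (XT.lf (nat_lit 0) (nat_lit 9611591982) (nat_lit 152) (nat_lit 15131966294) (nat_lit 0) (nat_lit 1489834599) (nat_lit 39) (nat_lit 5) (nat_lit 41) (nat_lit 4) (nat_lit 39) (nat_lit 4) (nat_lit 514) (nat_lit 366) (nat_lit 320))))) (XT.nd (nat_lit 312) (nat_lit 228) (nat_lit 0) (XT.nd (nat_lit 156) (nat_lit 152) (nat_lit 0) (XT.nd (nat_lit 78) (nat_lit 76) (nat_lit 0) (XT.lf (nat_lit 0) (nat_lit 17380673878) (nat_lit 152) (nat_lit 228168848) (nat_lit 0) (nat_lit 9177205798) (nat_lit 39) (nat_lit 5) (nat_lit 41)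 (nat_lit 4) (nat_lit 39) (nat_lit 4) (nat_lit 515) (nat_lit 366) (nat_lit 319)) (XT.lf (nat_lit 0) (nat_lit 15270432065) (nat_lit 76) (nat_lit 10182770145) (nat_lit 76) (nat_lit 1899971291) (nat_lit 38) (nat_lit 4) (nat_lit 39) (nat_lit 5) (nat_lit 39) (nat_lit 4) (nat_lit 516) (nat_lit 366) (nat_lit 318))) (XT.nd (nat_lit 78) (nat_lit 0) (nat_lit 0) (XT.lf (nat_lit 0) (nat_lit 3156613117) (nat_lit 76) (nat_lit 2516506163) (nat_lit 152) (nat_lit 22263823328) (nat_lit 36) (nat_lit 5) (nat_lit 37) (nat_lit 5) (nat_lit 38) (nat_lit 4) (nat_lit 517) (nat_lit 366) (nat_lit 317)) (XT.lf (nat_lit 0) (nat_lit 13533868177) (nat_lit 152) (nat_lit 9655893338) (nat_lit 0) (nat_lit 5344940132) (nat_lit 36) (nat_lit 5) (nat_lit 38) (nat_lit 4) (nat_lit 36) (nat_lit 4) (nat_lit 518) (nat_lit 366) (nat_lit 316)))) (XT.nd (nat_lit 156) (nat_lit 76) (nat_lit 0) (XT.nd (nat_lit 78) (nat_lit 76) (nat_lit 0) (XT.lf (nat_lit 0) (nat_lit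 5865775284) (nat_lit 76) (nat_lit 15771907040) (nat_lit 76) (nat_lit 7512494631) (nat_lit 35) (nat_lit 4) (nat_lit 36) (nat_lit 5) (nat_lit 36) (nat_lit 4) (nat_lit 519) (nat_lit 366) (nat_lit 315)) (XT.lf (nat_lit 0) (nat_lit 221034972) (nat_lit 152) (nat_lit 7879142837) (nat_lit 76) (nat_lit 21683148040) (nat_lit 34) (nat_lit 5) (nat_lit 36) (nat_lit 5) (nat_lit 35) (nat_lit 4) (nat_lit 520) (nat_lit 366) (nat_lit 314))) (XT.nd (nat_lit 78) (nat_lit 0) (nat_lit 0) (XT.lf (nat_lit 0) (nat_lit 7926737734) (nat_lit 76) (nat_lit 113173516) (nat_lit 152) (nat_lit 22393197203) (nat_lit 33) (nat_lit 5) (nat_lit 34) (nat_lit 5) (nat_lit 35) (nat_lit 4) (nat_lit 521) (nat_lit 366) (nat_lit 313)) (XT.lf (nat_lit 0) (nat_lit 16179911323) (nat_lit 152) (nat_lit 6952378757) (nat_lit 0) (nat_lit 7967498425) (nat_lit 33) (nat_lit 5) (nat_lit 35) (nat_lit 4) (nat_lit 33) (nat_lit 4) (nat_lit 522) (nat_lit 366) (nat_lit 312))))))))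
noncomputable def xc31 : XT := (XT.nd (nat_lit 2340) (nat_lit 76) (nat_lit 0) (XT.nd (nat_lit 1170) (nat_lit 608) (nat_lit 0) (XT.nd (nat_lit 546) (nat_lit 304) (nat_lit 0) (XT.nd (nat_lit 234) (nat_lit 228) (nat_lit 0) (XT.nd (nat_lit 78) (nat_lit 152) (nat_lit 0) (XT.lf (nat_lit 0) (nat_lit 9107045596) (nat_lit 76) (nat_lit 15476034157) (nat_lit 76) (nat_lit 7202820827) (nat_lit 32) (nat_lit 4) (nat_lit 33) (nat_lit 5) (nat_lit 33) (nat_lit 4) (nat_lit 523) (nat_lit 366) (nat_lit 311)) (XT.nd (nat_lit 78) (nat_lit 76) (nat_lit 0) (XT.lf (nat_lit 0) (nat_lit 732435780) (nat_lit 152) (nat_lit 6845398242) (nat_lit 76) (nat_lit 24914510349) (nat_lit 31) (nat_lit 5) (nat_lit 33) (nat_lit 5) (nat_lit 32) (nat_lit 4) (nat_lit 524) (nat_lit 366) (nat_lit 310)) (XT.lf (nat_lit 0) (nat_lit 8790439814) (nat_lit 152) (nat_lit 23781276430) (nat_lit 0) (nat_lit 645242615) (nat_lit 30) (nat_lit 5) (nat_lit 32) (nat_lit 4) (nat_lit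 30) (nat_lit 4) (nat_lit 525) (nat_lit 366) (nat_lit 309)))) (XT.nd (nat_lit 156) (nat_lit 152) (nat_lit 0) (XT.nd (nat_lit 78) (nat_lit 76) (nat_lit 0) (XT.lf (nat_lit 0) (nat_lit 17167456862) (nat_lit 152) (nat_lit 7825298066) (nat_lit 0) (nat_lit 8968239266) (nat_lit 30) (nat_lit 5) (nat_lit 32) (nat_lit 4) (nat_lit 30) (nat_lit 4) (nat_lit 526) (nat_lit 366) (nat_lit 308)) (XT.lf (nat_lit 0) (nat_lit 8648148164) (nat_lit 76) (nat_lit 17165170776) (nat_lit 76) (nat_lit 8913506192) (nat_lit 29) (nat_lit 4) (nat_lit 30) (nat_lit 5) (nat_lit 30) (nat_lit 4) (nat_lit 527) (nat_lit 366) (nat_lit 307))) (XT.nd (nat_lit 78) (nat_lit 152) (nat_lit 0) (XT.lf (nat_lit 0) (nat_lit 25647514913) (nat_lit 76) (nat_lit 9085138866) (nat_lit 76) (nat_lit 782554877) (nat_lit 29) (nat_lit 4) (nat_lit 30) (nat_lit 5) (nat_lit 30) (nat_lit 4) (nat_lit 528) (nat_lit 366) (nat_lit 306)) (XT.lf (nat_lit 0) (nat_lit 6762382471) (nat_lit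 76) (nat_lit 683136137) (nat_lit 152) (nat_lit 28879495729) (nat_lit 27) (nat_lit 5) (nat_lit 28) (nat_lit 5) (nat_lit 29) (nat_lit 4) (nat_lit 529) (nat_lit 366) (nat_lit 305))))) (XT.nd (nat_lit 312) (nat_lit 152) (nat_lit 0) (XT.nd (nat_lit 156) (nat_lit 76) (nat_lit 0) (XT.nd (nat_lit 78) (nat_lit 76) (nat_lit 0) (XT.lf (nat_lit 0) (nat_lit 16018358200) (nat_lit 152) (nat_lit 13274112332) (nat_lit 0) (nat_lit 7863002154) (nat_lit 27) (nat_lit 5) (nat_lit 29) (nat_lit 4) (nat_lit 27) (nat_lit 4) (nat_lit 530) (nat_lit 366) (nat_lit 304)) (XT.lf (nat_lit 0) (nat_lit 3440849788) (nat_lit 76) (nat_lit 21385625011) (nat_lit 76) (nat_lit 13185027734) (nat_lit 26) (nat_lit 4) (nat_lit 27) (nat_lit 5) (nat_lit 27) (nat_lit 4) (nat_lit 531) (nat_lit 366) (nat_lit 303))) (XT.nd (nat_lit 78) (nat_lit 76) (nat_lit 0) (XT.lf (nat_lit 0) (nat_lit 20807976304) (nat_lit 76) (nat_lit 13163785230) (nat_lit 76) (nat_lit 4919264427)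 (nat_lit 26) (nat_lit 4) (nat_lit 27) (nat_lit 5) (nat_lit 27) (nat_lit 4) (nat_lit 532) (nat_lit 366) (nat_lit 302)) (XT.lf (nat_lit 0) (nat_lit 3464406945) (nat_lit 152) (nat_lit 1254418903) (nat_lit 76) (nat_lit 35078870847) (nat_lit 25) (nat_lit 5) (nat_lit 27) (nat_lit 5) (nat_lit 26) (nat_lit 4) (nat_lit 533) (nat_lit 366) (nat_lit 301)))) (XT.nd (nat_lit 156) (nat_lit 76) (nat_lit 0) (XT.nd (nat_lit 78) (nat_lit 0) (nat_lit 0) (XT.lf (nat_lit 0) (nat_lit 12138293515) (nat_lit 152) (nat_lit 24535379991) (nat_lit 0) (nat_lit 4052306001) (nat_lit 24) (nat_lit 5) (nat_lit 26) (nat_lit 4) (nat_lit 24) (nat_lit 4) (nat_lit 534) (nat_lit 366) (nat_lit 300)) (XT.lf (nat_lit 0) (nat_lit 21073779697) (nat_lit 152) (nat_lit 7659523347) (nat_lit 0) (nat_lit 12948766699) (nat_lit 24) (nat_lit 5) (nat_lit 26) (nat_lit 4) (nat_lit 24) (nat_lit 4) (nat_lit 535) (nat_lit 366) (nat_lit 299))) (XT.nd (nat_lit 78) (nat_lit 0)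 (nat_lit 0) (XT.lf (nat_lit 0) (nat_lit 9801612654) (nat_lit 76) (nat_lit 20513499410) (nat_lit 76) (nat_lit 12350597593) (nat_lit 23) (nat_lit 4) (nat_lit 24) (nat_lit 5) (nat_lit 24) (nat_lit 4) (nat_lit 536) (nat_lit 366) (nat_lit 298)) (XT.lf (nat_lit 0) (nat_lit 27832434947) (nat_lit 76) (nat_lit 12022733395) (nat_lit 76) (nat_lit 3823046316) (nat_lit 23) (nat_lit 4) (nat_lit 24) (nat_lit 5) (nat_lit 24) (nat_lit 4) (nat_lit 537) (nat_lit 366) (nat_lit 297)))))) (XT.nd (nat_lit 546) (nat_lit 228) (nat_lit 0) (XT.nd (nat_lit 234) (nat_lit 228) (nat_lit 0) (XT.nd (nat_lit 78) (nat_lit 0) (nat_lit 0) (XT.lf (nat_lit 0) (nat_lit 1556770264) (nat_lit 76) (nat_lit 3266959385) (nat_lit 152) (nat_lit 39897129328) (nat_lit 21) (nat_lit 5) (nat_lit 22) (nat_lit 5) (nat_lit 23) (nat_lit 4) (nat_lit 538) (nat_lit 366) (nat_lit 296)) (XT.nd (nat_lit 78) (nat_lit 0) (nat_lit 0) (XT.lf (nat_lit 0) (nat_lit 13815220507) (nat_lit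 152) (nat_lit 26187540499) (nat_lit 0) (nat_lit 5786021903) (nat_lit 21) (nat_lit 5) (nat_lit 23) (nat_lit 4) (nat_lit 21) (nat_lit 4) (nat_lit 539) (nat_lit 366) (nat_lit 295)) (XT.lf (nat_lit 0) (nat_lit 23055665003) (nat_lit 152) (nat_lit 8839920480) (nat_lit 0) (nat_lit 14993783170) (nat_lit 21) (nat_lit 5) (nat_lit 23) (nat_lit 4) (nat_lit 21) (nat_lit 4) (nat_lit 540) (nat_lit 366) (nat_lit 294)))) (XT.nd (nat_lit 156) (nat_lit 152) (nat_lit 0) (XT.nd (nat_lit 78) (nat_lit 0) (nat_lit 0) (XT.lf (nat_lit 0) (nat_lit 9102965104) (nat_lit 76) (nat_lit 23506271463) (nat_lit 76) (nat_lit 15412658340) (nat_lit 20) (nat_lit 4) (nat_lit 21) (nat_lit 5) (nat_lit 21) (nat_lit 4) (nat_lit 541) (nat_lit 366) (nat_lit 293)) (XT.lf (nat_lit 0) (nat_lit 27663560080) (nat_lit 76) (nat_lit 14824055698) (nat_lit 76) (nat_lit 6699635498) (nat_lit 20) (nat_lit 4) (nat_lit 21) (nat_lit 5) (nat_lit 21) (nat_lit 4) (nat_lit 542)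 (nat_lit 366) (nat_lit 292))) (XT.nd (nat_lit 78) (nat_lit 76) (nat_lit 0) (XT.lf (nat_lit 0) (nat_lit 2180319697) (nat_lit 152) (nat_lit 3728280998) (nat_lit 76) (nat_lit 44479814041) (nat_lit 19) (nat_lit 5) (nat_lit 21) (nat_lit 5) (nat_lit 20) (nat_lit 4) (nat_lit 543) (nat_lit 366) (nat_lit 291)) (XT.lf (nat_lit 0) (nat_lit 11318021817) (nat_lit 152) (nat_lit 36928817726) (nat_lit 0) (nat_lit 3373003750) (nat_lit 18) (nat_lit 5) (nat_lit 20) (nat_lit 4) (nat_lit 18) (nat_lit 4) (nat_lit 544) (nat_lit 366) (nat_lit 290))))) (XT.nd (nat_lit 312) (nat_lit 152) (nat_lit 0) (XT.nd (nat_lit 156) (nat_lit 76) (nat_lit 0) (XT.nd (nat_lit 78) (nat_lit 0) (nat_lit 0) (XT.lf (nat_lit 0) (nat_lit 20777799691) (nat_lit 152) (nat_lit 19303567041) (nat_lit 0) (nat_lit 12805409935) (nat_lit 18) (nat_lit 5) (nat_lit 20) (nat_lit 4) (nat_lit 18) (nat_lit 4) (nat_lit 545) (nat_lit 366) (nat_lit 289)) (XT.lf (nat_lit 0) (nat_lit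 30474208388) (nat_lit 152) (nat_lit 1243680647) (nat_lit 0) (nat_lit 22475244176) (nat_lit 18) (nat_lit 5) (nat_lit 20) (nat_lit 4) (nat_lit 18) (nat_lit 4) (nat_lit 546) (nat_lit 366) (nat_lit 288))) (XT.nd (nat_lit 78) (nat_lit 0) (nat_lit 0) (XT.lf (nat_lit 0) (nat_lit 17610261569) (nat_lit 76) (nat_lit 22974739536) (nat_lit 76) (nat_lit 14949974882) (nat_lit 17) (nat_lit 4) (nat_lit 18) (nat_lit 5) (nat_lit 18) (nat_lit 4) (nat_lit 547) (nat_lit 366) (nat_lit 287)) (XT.lf (nat_lit 0) (nat_lit 36964831772) (nat_lit 76) (nat_lit 14001519582) (nat_lit 76) (nat_lit 5951705955) (nat_lit 17) (nat_lit 4) (nat_lit 18) (nat_lit 5) (nat_lit 18) (nat_lit 4) (nat_lit 548) (nat_lit 366) (nat_lit 286)))) (XT.nd (nat_lit 156) (nat_lit 0) (nat_lit 0) (XT.nd (nat_lit 78) (nat_lit 76) (nat_lit 0) (XT.lf (nat_lit 0) (nat_lit 3207353168) (nat_lit 152) (nat_lit 1563206086) (nat_lit 76) (nat_lit 53572448892) (nat_lit 16) (nat_lit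 5) (nat_lit 18) (nat_lit 5) (nat_lit 17) (nat_lit 4) (nat_lit 549) (nat_lit 366) (nat_lit 285)) (XT.lf (nat_lit 0) (nat_lit 12694750540) (nat_lit 152) (nat_lit 42276130606) (nat_lit 0) (nat_lit 4832863085) (nat_lit 15) (nat_lit 5) (nat_lit 17) (nat_lit 4) (nat_lit 15) (nat_lit 4) (nat_lit 550) (nat_lit 366) (nat_lit 284))) (XT.nd (nat_lit 78) (nat_lit 0) (nat_lit 0) (XT.lf (nat_lit 0) (nat_lit 22486825539) (nat_lit 152) (nat_lit 24218193041) (nat_lit 0) (nat_lit 14602682395) (nat_lit 15) (nat_lit 5) (nat_lit 17) (nat_lit 4) (nat_lit 15) (nat_lit 4) (nat_lit 551) (nat_lit 366) (nat_lit 283)) (XT.lf (nat_lit 0) (nat_lit 32530799523) (nat_lit 152) (nat_lit 5702184119) (nat_lit 0) (nat_lit 24625048916) (nat_lit 15) (nat_lit 5) (nat_lit 17) (nat_lit 4) (nat_lit 15) (nat_lit 4) (nat_lit 552) (nat_lit 366) (nat_lit 282))))))) (XT.nd (nat_lit 56784) (nat_lit 0) (nat_lit 3344) (XT.nd (nat_lit 56160) (nat_lit 0) (nat_lit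 5244) (XT.nd (nat_lit 55848) (nat_lit 0) (nat_lit 6536) (XT.nd (nat_lit 55692) (nat_lit 0) (nat_lit 7144) (XT.lf (nat_lit 0) (nat_lit 13552533949) (nat_lit 76) (nat_lit 29413190080) (nat_lit 76) (nat_lit 21486461352) (nat_lit 14) (nat_lit 4) (nat_lit 15) (nat_lit 5) (nat_lit 15) (nat_lit 4) (nat_lit 553) (nat_lit 366) (nat_lit 281)) (XT.nd (nat_lit 78) (nat_lit 228) (nat_lit 0) (XT.lf (nat_lit 0) (nat_lit 905377078) (nat_lit 228) (nat_lit 3848238881) (nat_lit 0) (nat_lit 905377078) (nat_lit 111) (nat_lit 5) (nat_lit 114) (nat_lit 4) (nat_lit 111) (nat_lit 4) (nat_lit 466) (nat_lit 367) (nat_lit 367)) (XT.lf (nat_lit 0) (nat_lit 2432034006) (nat_lit 228) (nat_lit 4802468301) (nat_lit 228) (nat_lit 4244385650) (nat_lit 108) (nat_lit 4) (nat_lit 111) (nat_lit 5) (nat_lit 111) (nat_lit 4) (nat_lit 467) (nat_lit 367) (nat_lit 366)))) (XT.nd (nat_lit 156) (nat_lit 380) (nat_lit 0) (XT.nd (nat_lit 78) (nat_lit 0) (nat_lit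 0) (XT.lf (nat_lit 0) (nat_lit 1126331593) (nat_lit 228) (nat_lit 10460306321) (nat_lit 0) (nat_lit 58457354) (nat_lit 105) (nat_lit 5) (nat_lit 108) (nat_lit 4) (nat_lit 105) (nat_lit 4) (nat_lit 468) (nat_lit 367) (nat_lit 365)) (XT.lf (nat_lit 0) (nat_lit 6595780533) (nat_lit 228) (nat_lit 201384052) (nat_lit 0) (nat_lit 5017181611) (nat_lit 105) (nat_lit 5) (nat_lit 108) (nat_lit 4) (nat_lit 105) (nat_lit 4) (nat_lit 469) (nat_lit 367) (nat_lit 364))) (XT.nd (nat_lit 78) (nat_lit 152) (nat_lit 0) (XT.lf (nat_lit 0) (nat_lit 221971850) (nat_lit 228) (nat_lit 1623845271) (nat_lit 76) (nat_lit 10143212582) (nat_lit 102) (nat_lit 5) (nat_lit 105) (nat_lit 5) (nat_lit 103) (nat_lit 4) (nat_lit 470) (nat_lit 367) (nat_lit 363)) (XT.lf (nat_lit 0) (nat_lit 5728106494) (nat_lit 228) (nat_lit 3192390502) (nat_lit 0) (nat_lit 3246693751) (nat_lit 100) (nat_lit 5) (nat_lit 103) (nat_lit 4) (nat_lit 100) (nat_lit 4) (nat_lit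 471) (nat_lit 367) (nat_lit 362))))) (XT.nd (nat_lit 312) (nat_lit 532) (nat_lit 0) (XT.nd (nat_lit 156) (nat_lit 380) (nat_lit 0) (XT.nd (nat_lit 78) (nat_lit 228) (nat_lit 0) (XT.lf (nat_lit 0) (nat_lit 7501387248) (nat_lit 152) (nat_lit 3892335242) (nat_lit 152) (nat_lit 957150233) (nat_lit 98) (nat_lit 4) (nat_lit 100) (nat_lit 5) (nat_lit 100) (nat_lit 4) (nat_lit 472) (nat_lit 367) (nat_lit 361)) (XT.lf (nat_lit 0) (nat_lit 4587573054) (nat_lit 228) (nat_lit 6641294511) (nat_lit 0) (nat_lit 1310154989) (nat_lit 95) (nat_lit 5) (nat_lit 98) (nat_lit 4) (nat_lit 95) (nat_lit 4) (nat_lit 473) (nat_lit 367) (nat_lit 360))) (XT.nd (nat_lit 78) (nat_lit 228) (nat_lit 0) (XT.lf (nat_lit 0) (nat_lit 4166396688) (nat_lit 152) (nat_lit 6129169735) (nat_lit 152) (nat_lit 2436485766) (nat_lit 93) (nat_lit 4) (nat_lit 95) (nat_lit 5) (nat_lit 95) (nat_lit 4) (nat_lit 474) (nat_lit 367) (nat_lit 359)) (XT.lf (nat_lit 0)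 (nat_lit 2316889588) (nat_lit 152) (nat_lit 842097770) (nat_lit 228) (nat_lit 9771603370) (nat_lit 90) (nat_lit 5) (nat_lit 92) (nat_lit 5) (nat_lit 93) (nat_lit 4) (nat_lit 475) (nat_lit 367) (nat_lit 358)))) (XT.nd (nat_lit 156) (nat_lit 304) (nat_lit 0) (XT.nd (nat_lit 78) (nat_lit 76) (nat_lit 0) (XT.lf (nat_lit 0) (nat_lit 303149168) (nat_lit 152) (nat_lit 8593550752) (nat_lit 152) (nat_lit 4236965613) (nat_lit 88) (nat_lit 4) (nat_lit 90) (nat_lit 5) (nat_lit 90) (nat_lit 4) (nat_lit 476) (nat_lit 367) (nat_lit 357)) (XT.lf (nat_lit 0) (nat_lit 1440770688) (nat_lit 228) (nat_lit 1800779017) (nat_lit 76) (nat_lit 10100696086) (nat_lit 87) (nat_lit 5) (nat_lit 90) (nat_lit 5) (nat_lit 88) (nat_lit 4) (nat_lit 477) (nat_lit 367) (nat_lit 356))) (XT.nd (nat_lit 78) (nat_lit 152) (nat_lit 0) (XT.lf (nat_lit 0) (nat_lit 7209633649) (nat_lit 228) (nat_lit 4072067882) (nat_lit 0) (nat_lit 2273948666) (nat_lit 85)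 (nat_lit 5) (nat_lit 88) (nat_lit 4) (nat_lit 85) (nat_lit 4) (nat_lit 478) (nat_lit 367) (nat_lit 355)) (XT.lf (nat_lit 0) (nat_lit 7281001948) (nat_lit 152) (nat_lit 5883699263) (nat_lit 152) (nat_lit 610365098) (nat_lit 83) (nat_lit 4) (nat_lit 85) (nat_lit 5) (nat_lit 85) (nat_lit 4) (nat_lit 479) (nat_lit 367) (nat_lit 354)))))) (XT.nd (nat_lit 624) (nat_lit 912) (nat_lit 0) (XT.nd (nat_lit 312) (nat_lit 532) (nat_lit 0) (XT.nd (nat_lit 156) (nat_lit 152) (nat_lit 0) (XT.nd (nat_lit 78) (nat_lit 152) (nat_lit 0) (XT.lf (nat_lit 0) (nat_lit 4905215093) (nat_lit 76) (nat_lit 270333674) (nat_lit 152) (nat_lit 8824545116) (nat_lit 81) (nat_lit 5) (nat_lit 82) (nat_lit 5) (nat_lit 83) (nat_lit 4) (nat_lit 480) (nat_lit 367) (nat_lit 353)) (XT.lf (nat_lit 0) (nat_lit 2337774179) (nat_lit 152) (nat_lit 8819938742) (nat_lit 152) (nat_lit 3072933264) (nat_lit 79) (nat_lit 4) (nat_lit 81) (nat_lit 5) (nat_lit 81) (nat_lit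 4) (nat_lit 481) (nat_lit 367) (nat_lit 352))) (XT.nd (nat_lit 78) (nat_lit 76) (nat_lit 0) (XT.lf (nat_lit 0) (nat_lit 2784455792) (nat_lit 228) (nat_lit 394557143) (nat_lit 76) (nat_lit 11288617115) (nat_lit 78) (nat_lit 5) (nat_lit 81) (nat_lit 5) (nat_lit 79) (nat_lit 4) (nat_lit 482) (nat_lit 367) (nat_lit 351)) (XT.lf (nat_lit 0) (nat_lit 8788235633) (nat_lit 152) (nat_lit 3287021572) (nat_lit 0) (nat_lit 2634583641) (nat_lit 77) (nat_lit 5) (nat_lit 79) (nat_lit 4) (nat_lit 77) (nat_lit 4) (nat_lit 483) (nat_lit 367) (nat_lit 350)))) (XT.nd (nat_lit 156) (nat_lit 228) (nat_lit 0) (XT.nd (nat_lit 78) (nat_lit 76) (nat_lit 0) (XT.lf (nat_lit 0) (nat_lit 27628595) (nat_lit 228) (nat_lit 6372105627) (nat_lit 76) (nat_lit 8559130966) (nat_lit 74) (nat_lit 5) (nat_lit 77) (nat_lit 5) (nat_lit 75) (nat_lit 4) (nat_lit 484) (nat_lit 367) (nat_lit 349)) (XT.lf (nat_lit 0) (nat_lit 5525860551) (nat_lit 76) (nat_lit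 494137285) (nat_lit 152) (nat_lit 9194096091) (nat_lit 73) (nat_lit 5) (nat_lit 74) (nat_lit 5) (nat_lit 75) (nat_lit 4) (nat_lit 485) (nat_lit 367) (nat_lit 348))) (XT.nd (nat_lit 78) (nat_lit 76) (nat_lit 0) (XT.lf (nat_lit 0) (nat_lit 2232452096) (nat_lit 152) (nat_lit 9997195206) (nat_lit 152) (nat_lit 3246209730) (nat_lit 71) (nat_lit 4) (nat_lit 73) (nat_lit 5) (nat_lit 73) (nat_lit 4) (nat_lit 486) (nat_lit 367) (nat_lit 347)) (XT.lf (nat_lit 0) (nat_lit 2825094776) (nat_lit 228) (nat_lit 1259968033) (nat_lit 76) (nat_lit 11659546791) (nat_lit 70) (nat_lit 5) (nat_lit 73) (nat_lit 5) (nat_lit 71) (nat_lit 4) (nat_lit 487) (nat_lit 367) (nat_lit 346))))) (XT.nd (nat_lit 312) (nat_lit 532) (nat_lit 0) (XT.nd (nat_lit 156) (nat_lit 152) (nat_lit 0) (XT.nd (nat_lit 78) (nat_lit 152) (nat_lit 0) (XT.lf (nat_lit 0) (nat_lit 9040064178) (nat_lit 152) (nat_lit 4960629405) (nat_lit 0) (nat_lit 2018966342) (nat_lit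 69) (nat_lit 5) (nat_lit 71) (nat_lit 4) (nat_lit 69) (nat_lit 4) (nat_lit 488) (nat_lit 367) (nat_lit 345)) (XT.lf (nat_lit 0) (nat_lit 7386524410) (nat_lit 152) (nat_lit 8080006055) (nat_lit 152) (nat_lit 835682332) (nat_lit 67) (nat_lit 4) (nat_lit 69) (nat_lit 5) (nat_lit 69) (nat_lit 4) (nat_lit 489) (nat_lit 367) (nat_lit 344))) (XT.nd (nat_lit 78) (nat_lit 0) (nat_lit 0) (XT.lf (nat_lit 0) (nat_lit 3439850319) (nat_lit 76) (nat_lit 1930050273) (nat_lit 152) (nat_lit 11222224113) (nat_lit 65) (nat_lit 5) (nat_lit 66) (nat_lit 5) (nat_lit 67) (nat_lit 4) (nat_lit 490) (nat_lit 367) (nat_lit 343)) (XT.lf (nat_lit 0) (nat_lit 11779241830) (nat_lit 152) (nat_lit 778991847) (nat_lit 0) (nat_lit 4331222713) (nat_lit 65) (nat_lit 5) (nat_lit 67) (nat_lit 4) (nat_lit 65) (nat_lit 4) (nat_lit 491) (nat_lit 367) (nat_lit 342)))) (XT.nd (nat_lit 156) (nat_lit 228) (nat_lit 0) (XT.nd (nat_lit 78) (nat_lit 76) (nat_lit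 0) (XT.lf (nat_lit 0) (nat_lit 1200852662) (nat_lit 228) (nat_lit 5208621520) (nat_lit 76) (nat_lit 10784729480) (nat_lit 62) (nat_lit 5) (nat_lit 65) (nat_lit 5) (nat_lit 63) (nat_lit 4) (nat_lit 492) (nat_lit 367) (nat_lit 341)) (XT.lf (nat_lit 0) (nat_lit 7555048643) (nat_lit 76) (nat_lit 28181740) (nat_lit 152) (nat_lit 9923806490) (nat_lit 61) (nat_lit 5) (nat_lit 62) (nat_lit 5) (nat_lit 63) (nat_lit 4) (nat_lit 493) (nat_lit 367) (nat_lit 340))) (XT.nd (nat_lit 78) (nat_lit 76) (nat_lit 0) (XT.lf (nat_lit 0) (nat_lit 2788575314) (nat_lit 152) (nat_lit 11415680428) (nat_lit 152) (nat_lit 3623586057) (nat_lit 59) (nat_lit 4) (nat_lit 61) (nat_lit 5) (nat_lit 61) (nat_lit 4) (nat_lit 494) (nat_lit 367) (nat_lit 339)) (XT.lf (nat_lit 0) (nat_lit 2815938909) (nat_lit 228) (nat_lit 2251954959) (nat_lit 76) (nat_lit 13089366000) (nat_lit 58) (nat_lit 5) (nat_lit 61) (nat_lit 5) (nat_lit 59) (nat_lit 4) (nat_lit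 495) (nat_lit 367) (nat_lit 338))))))))
noncomputable def xc32 : XT := (XT.nd (nat_lit 2340) (nat_lit 1216) (nat_lit 0) (XT.nd (nat_lit 1170) (nat_lit 912) (nat_lit 0) (XT.nd (nat_lit 546) (nat_lit 608) (nat_lit 0) (XT.nd (nat_lit 234) (nat_lit 304) (nat_lit 0) (XT.nd (nat_lit 78) (nat_lit 152) (nat_lit 0) (XT.lf (nat_lit 0) (nat_lit 9402712092) (nat_lit 152) (nat_lit 7591580275) (nat_lit 0) (nat_lit 1500386849) (nat_lit 57) (nat_lit 5) (nat_lit 59) (nat_lit 4) (nat_lit 57) (nat_lit 4) (nat_lit 496) (nat_lit 367) (nat_lit 337)) (XT.nd (nat_lit 78) (nat_lit 76) (nat_lit 0) (XT.lf (nat_lit 0) (nat_lit 5536969828) (nat_lit 76) (nat_lit 10683913809) (nat_lit 76) (nat_lit 2620325436) (nat_lit 56) (nat_lit 4) (nat_lit 57) (nat_lit 5) (nat_lit 57) (nat_lit 4) (nat_lit 497) (nat_lit 367) (nat_lit 336)) (XT.lf (nat_lit 0) (nat_lit 3951463452) (nat_lit 152) (nat_lit 198683710) (nat_lit 76) (nat_lit 15047274535) (nat_lit 55)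 (nat_lit 5) (nat_lit 57) (nat_lit 5) (nat_lit 56) (nat_lit 4) (nat_lit 498) (nat_lit 367) (nat_lit 335)))) (XT.nd (nat_lit 156) (nat_lit 152) (nat_lit 0) (XT.nd (nat_lit 78) (nat_lit 76) (nat_lit 0) (XT.lf (nat_lit 0) (nat_lit 10731921723) (nat_lit 152) (nat_lit 6226086271) (nat_lit 0) (nat_lit 2603610573) (nat_lit 54) (nat_lit 5) (nat_lit 56) (nat_lit 4) (nat_lit 54) (nat_lit 4) (nat_lit 499) (nat_lit 367) (nat_lit 334)) (XT.lf (nat_lit 0) (nat_lit 7270749237) (nat_lit 76) (nat_lit 10468441565) (nat_lit 76) (nat_lit 2196850213) (nat_lit 53) (nat_lit 4) (nat_lit 54) (nat_lit 5) (nat_lit 54) (nat_lit 4) (nat_lit 500) (nat_lit 367) (nat_lit 333))) (XT.nd (nat_lit 78) (nat_lit 0) (nat_lit 0) (XT.lf (nat_lit 0) (nat_lit 777023561) (nat_lit 76) (nat_lit 3748947820) (nat_lit 152) (nat_lit 15794946579) (nat_lit 51) (nat_lit 5) (nat_lit 52) (nat_lit 5) (nat_lit 53) (nat_lit 4) (nat_lit 501) (nat_lit 367) (nat_lit 332))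 (XT.lf (nat_lit 0) (nat_lit 11476608743) (nat_lit 152) (nat_lit 6058212309) (nat_lit 0) (nat_lit 3179760513) (nat_lit 51) (nat_lit 5) (nat_lit 53) (nat_lit 4) (nat_lit 51) (nat_lit 4) (nat_lit 502) (nat_lit 367) (nat_lit 331))))) (XT.nd (nat_lit 312) (nat_lit 304) (nat_lit 0) (XT.nd (nat_lit 156) (nat_lit 76) (nat_lit 0) (XT.nd (nat_lit 78) (nat_lit 152) (nat_lit 0) (XT.lf (nat_lit 0) (nat_lit 7778323878) (nat_lit 76) (nat_lit 10882564869) (nat_lit 76) (nat_lit 2458414035) (nat_lit 50) (nat_lit 4) (nat_lit 51) (nat_lit 5) (nat_lit 51) (nat_lit 4) (nat_lit 503) (nat_lit 367) (nat_lit 330)) (XT.lf (nat_lit 0) (nat_lit 415363122) (nat_lit 76) (nat_lit 3999961368) (nat_lit 152) (nat_lit 17120165208) (nat_lit 48) (nat_lit 5) (nat_lit 49) (nat_lit 5) (nat_lit 50) (nat_lit 4) (nat_lit 504) (nat_lit 367) (nat_lit 329))) (XT.nd (nat_lit 78) (nat_lit 76) (nat_lit 0) (XT.lf (nat_lit 0) (nat_lit 11525060554) (nat_lit 152) (nat_lit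 7326218316) (nat_lit 0) (nat_lit 3109778507) (nat_lit 48) (nat_lit 5) (nat_lit 50) (nat_lit 4) (nat_lit 48) (nat_lit 4) (nat_lit 505) (nat_lit 367) (nat_lit 328)) (XT.lf (nat_lit 0) (nat_lit 6811122924) (nat_lit 76) (nat_lit 12058013865) (nat_lit 76) (nat_lit 3529625105) (nat_lit 47) (nat_lit 4) (nat_lit 48) (nat_lit 5) (nat_lit 48) (nat_lit 4) (nat_lit 506) (nat_lit 367) (nat_lit 327)))) (XT.nd (nat_lit 156) (nat_lit 152) (nat_lit 0) (XT.nd (nat_lit 78) (nat_lit 76) (nat_lit 0) (XT.lf (nat_lit 0) (nat_lit 3504751993) (nat_lit 152) (nat_lit 1523554558) (nat_lit 76) (nat_lit 17820536152) (nat_lit 46) (nat_lit 5) (nat_lit 48) (nat_lit 5) (nat_lit 47) (nat_lit 4) (nat_lit 507) (nat_lit 367) (nat_lit 326)) (XT.lf (nat_lit 0) (nat_lit 10744988992) (nat_lit 152) (nat_lit 10309539258) (nat_lit 0) (nat_lit 2254877311) (nat_lit 45) (nat_lit 5) (nat_lit 47) (nat_lit 4) (nat_lit 45) (nat_lit 4) (nat_lit 508) (nat_lit 367)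 (nat_lit 325))) (XT.nd (nat_lit 78) (nat_lit 76) (nat_lit 0) (XT.lf (nat_lit 0) (nat_lit 4077412763) (nat_lit 76) (nat_lit 14148142757) (nat_lit 76) (nat_lit 5557537225) (nat_lit 44) (nat_lit 4) (nat_lit 45) (nat_lit 5) (nat_lit 45) (nat_lit 4) (nat_lit 509) (nat_lit 367) (nat_lit 324)) (XT.lf (nat_lit 0) (nat_lit 1650964757) (nat_lit 152) (nat_lit 5336713919) (nat_lit 76) (nat_lit 17282120335) (nat_lit 43) (nat_lit 5) (nat_lit 45) (nat_lit 5) (nat_lit 44) (nat_lit 4) (nat_lit 510) (nat_lit 367) (nat_lit 323)))))) (XT.nd (nat_lit 546) (nat_lit 456) (nat_lit 0) (XT.nd (nat_lit 234) (nat_lit 304) (nat_lit 0) (XT.nd (nat_lit 78) (nat_lit 76) (nat_lit 0) (XT.lf (nat_lit 0) (nat_lit 8980218604) (nat_lit 152) (nat_lit 15335618511) (nat_lit 0) (nat_lit 453133682) (nat_lit 42) (nat_lit 5) (nat_lit 44) (nat_lit 4) (nat_lit 42) (nat_lit 4) (nat_lit 511) (nat_lit 367) (nat_lit 322)) (XT.nd (nat_lit 78) (nat_lit 76) (nat_lit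 0) (XT.lf (nat_lit 0) (nat_lit 16574100384) (nat_lit 152) (nat_lit 749947853) (nat_lit 0) (nat_lit 7957727977) (nat_lit 42) (nat_lit 5) (nat_lit 44) (nat_lit 4) (nat_lit 42) (nat_lit 4) (nat_lit 512) (nat_lit 367) (nat_lit 321)) (XT.lf (nat_lit 0) (nat_lit 14404229376) (nat_lit 76) (nat_lit 10053469822) (nat_lit 76) (nat_lit 1350410536) (nat_lit 41) (nat_lit 4) (nat_lit 42) (nat_lit 5) (nat_lit 42) (nat_lit 4) (nat_lit 513) (nat_lit 367) (nat_lit 320)))) (XT.nd (nat_lit 156) (nat_lit 152) (nat_lit 0) (XT.nd (nat_lit 78) (nat_lit 0) (nat_lit 0) (XT.lf (nat_lit 0) (nat_lit 3537292540) (nat_lit 76) (nat_lit 2533896545) (nat_lit 152) (nat_lit 20278295021) (nat_lit 39) (nat_lit 5) (nat_lit 40) (nat_lit 5) (nat_lit 41) (nat_lit 4) (nat_lit 514) (nat_lit 367) (nat_lit 319)) (XT.lf (nat_lit 0) (nat_lit 13778270881) (nat_lit 152) (nat_lit 7958072021) (nat_lit 0) (nat_lit 5167657288) (nat_lit 39) (nat_lit 5) (nat_lit 41)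 (nat_lit 4) (nat_lit 39) (nat_lit 4) (nat_lit 515) (nat_lit 367) (nat_lit 318))) (XT.nd (nat_lit 78) (nat_lit 76) (nat_lit 0) (XT.lf (nat_lit 0) (nat_lit 7313379235) (nat_lit 76) (nat_lit 14424385573) (nat_lit 76) (nat_lit 5736751811) (nat_lit 38) (nat_lit 4) (nat_lit 39) (nat_lit 5) (nat_lit 39) (nat_lit 4) (nat_lit 516) (nat_lit 367) (nat_lit 317)) (XT.lf (nat_lit 0) (nat_lit 1844340333) (nat_lit 152) (nat_lit 5018399748) (nat_lit 76) (nat_lit 21198658519) (nat_lit 37) (nat_lit 5) (nat_lit 39) (nat_lit 5) (nat_lit 38) (nat_lit 4) (nat_lit 517) (nat_lit 367) (nat_lit 316))))) (XT.nd (nat_lit 312) (nat_lit 228) (nat_lit 0) (XT.nd (nat_lit 156) (nat_lit 152) (nat_lit 0) (XT.nd (nat_lit 78) (nat_lit 0) (nat_lit 0) (XT.lf (nat_lit 0) (nat_lit 9577141405) (nat_lit 152) (nat_lit 18086392795) (nat_lit 0) (nat_lit 999462258) (nat_lit 36) (nat_lit 5) (nat_lit 38) (nat_lit 4) (nat_lit 36) (nat_lit 4) (nat_lit 518) (nat_lit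 367) (nat_lit 315)) (XT.lf (nat_lit 0) (nat_lit 17589150677) (nat_lit 152) (nat_lit 2749035499) (nat_lit 0) (nat_lit 8943040108) (nat_lit 36) (nat_lit 5) (nat_lit 38) (nat_lit 4) (nat_lit 36) (nat_lit 4) (nat_lit 519) (nat_lit 367) (nat_lit 314))) (XT.nd (nat_lit 78) (nat_lit 76) (nat_lit 0) (XT.lf (nat_lit 0) (nat_lit 13167728921) (nat_lit 76) (nat_lit 12730560297) (nat_lit 76) (nat_lit 4018011453) (nat_lit 35) (nat_lit 4) (nat_lit 36) (nat_lit 5) (nat_lit 36) (nat_lit 4) (nat_lit 520) (nat_lit 367) (nat_lit 313)) (XT.lf (nat_lit 0) (nat_lit 3768705039) (nat_lit 152) (nat_lit 1126580792) (nat_lit 76) (nat_lit 25675273464) (nat_lit 34) (nat_lit 5) (nat_lit 36) (nat_lit 5) (nat_lit 35) (nat_lit 4) (nat_lit 521) (nat_lit 367) (nat_lit 312)))) (XT.nd (nat_lit 156) (nat_lit 152) (nat_lit 0) (XT.nd (nat_lit 78) (nat_lit 0) (nat_lit 0) (XT.lf (nat_lit 0) (nat_lit 11817249908) (nat_lit 152) (nat_lit 16187693680) (nat_lit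 0) (nat_lit 3235039745) (nat_lit 33) (nat_lit 5) (nat_lit 35) (nat_lit 4) (nat_lit 33) (nat_lit 4) (nat_lit 522) (nat_lit 367) (nat_lit 311)) (XT.lf (nat_lit 0) (nat_lit 20099543468) (nat_lit 152) (nat_lit 371874749) (nat_lit 0) (nat_lit 11458303759) (nat_lit 33) (nat_lit 5) (nat_lit 35) (nat_lit 4) (nat_lit 33) (nat_lit 4) (nat_lit 523) (nat_lit 367) (nat_lit 310))) (XT.nd (nat_lit 78) (nat_lit 76) (nat_lit 0) (XT.lf (nat_lit 0) (nat_lit 16102772772) (nat_lit 76) (nat_lit 12616628857) (nat_lit 76) (nat_lit 3918078909) (nat_lit 32) (nat_lit 4) (nat_lit 33) (nat_lit 5) (nat_lit 33) (nat_lit 4) (nat_lit 524) (nat_lit 367) (nat_lit 309)) (XT.lf (nat_lit 0) (nat_lit 4086945559) (nat_lit 152) (nat_lit 457691470) (nat_lit 76) (nat_lit 28822471243) (nat_lit 31) (nat_lit 5) (nat_lit 33) (nat_lit 5) (nat_lit 32) (nat_lit 4) (nat_lit 525) (nat_lit 367) (nat_lit 308))))))) (XT.nd (nat_lit 1170) (nat_lit 456) (nat_lit 0) (XT.nd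 (nat_lit 546) (nat_lit 380) (nat_lit 0) (XT.nd (nat_lit 234) (nat_lit 228) (nat_lit 0) (XT.nd (nat_lit 78) (nat_lit 76) (nat_lit 0) (XT.lf (nat_lit 0) (nat_lit 12383431497) (nat_lit 152) (nat_lit 17898358341) (nat_lit 0) (nat_lit 3831769988) (nat_lit 30) (nat_lit 5) (nat_lit 32) (nat_lit 4) (nat_lit 30) (nat_lit 4) (nat_lit 526) (nat_lit 367) (nat_lit 307)) (XT.nd (nat_lit 78) (nat_lit 76) (nat_lit 0) (XT.lf (nat_lit 0) (nat_lit 20914789779) (nat_lit 152) (nat_lit 1655827511) (nat_lit 0) (nat_lit 12312208866) (nat_lit 30) (nat_lit 5) (nat_lit 32) (nat_lit 4) (nat_lit 30) (nat_lit 4) (nat_lit 527) (nat_lit 367) (nat_lit 306)) (XT.lf (nat_lit 0) (nat_lit 15249035543) (nat_lit 76) (nat_lit 14537805077) (nat_lit 76) (nat_lit 5885787849) (nat_lit 29) (nat_lit 4) (nat_lit 30) (nat_lit 5) (nat_lit 30) (nat_lit 4) (nat_lit 528) (nat_lit 367) (nat_lit 305)))) (XT.nd (nat_lit 156) (nat_lit 76) (nat_lit 0) (XT.nd (nat_lit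 78) (nat_lit 76) (nat_lit 0) (XT.lf (nat_lit 0) (nat_lit 2346419190) (nat_lit 152) (nat_lit 3936782694) (nat_lit 76) (nat_lit 30203567648) (nat_lit 28) (nat_lit 5) (nat_lit 30) (nat_lit 5) (nat_lit 29) (nat_lit 4) (nat_lit 529) (nat_lit 367) (nat_lit 304)) (XT.lf (nat_lit 0) (nat_lit 10796032011) (nat_lit 152) (nat_lit 24220717337) (nat_lit 0) (nat_lit 2304175584) (nat_lit 27) (nat_lit 5) (nat_lit 29) (nat_lit 4) (nat_lit 27) (nat_lit 4) (nat_lit 530) (nat_lit 367) (nat_lit 303))) (XT.nd (nat_lit 78) (nat_lit 76) (nat_lit 0) (XT.lf (nat_lit 0) (nat_lit 19541541537) (nat_lit 152) (nat_lit 7631530109) (nat_lit 0) (nat_lit 11005761584) (nat_lit 27) (nat_lit 5) (nat_lit 29) (nat_lit 4) (nat_lit 27) (nat_lit 4) (nat_lit 531) (nat_lit 367) (nat_lit 302)) (XT.lf (nat_lit 0) (nat_lit 9525657291) (nat_lit 76) (nat_lit 19057122603) (nat_lit 76) (nat_lit 10478698449) (nat_lit 26) (nat_lit 4) (nat_lit 27) (nat_lit 5) (nat_lit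 27) (nat_lit 4) (nat_lit 532) (nat_lit 367) (nat_lit 301))))) (XT.nd (nat_lit 312) (nat_lit 228) (nat_lit 0) (XT.nd (nat_lit 156) (nat_lit 0) (nat_lit 0) (XT.nd (nat_lit 78) (nat_lit 152) (nat_lit 0) (XT.lf (nat_lit 0) (nat_lit 27239576767) (nat_lit 76) (nat_lit 10675134555) (nat_lit 76) (nat_lit 2055308266) (nat_lit 26) (nat_lit 4) (nat_lit 27) (nat_lit 5) (nat_lit 27) (nat_lit 4) (nat_lit 533) (nat_lit 367) (nat_lit 300)) (XT.lf (nat_lit 0) (nat_lit 4490872519) (nat_lit 76) (nat_lit 1987400908) (nat_lit 152) (nat_lit 34426034232) (nat_lit 24) (nat_lit 5) (nat_lit 25) (nat_lit 5) (nat_lit 26) (nat_lit 4) (nat_lit 534) (nat_lit 367) (nat_lit 299))) (XT.nd (nat_lit 78) (nat_lit 0) (nat_lit 0) (XT.lf (nat_lit 0) (nat_lit 15366853773) (nat_lit 152) (nat_lit 19573775422) (nat_lit 0) (nat_lit 6921176082) (nat_lit 24) (nat_lit 5) (nat_lit 26) (nat_lit 4) (nat_lit 24) (nat_lit 4) (nat_lit 535) (nat_lit 367) (nat_lit 298))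 (XT.lf (nat_lit 0) (nat_lit 24486975081) (nat_lit 152) (nat_lit 2357594515) (nat_lit 0) (nat_lit 16004512128) (nat_lit 24) (nat_lit 5) (nat_lit 26) (nat_lit 4) (nat_lit 24) (nat_lit 4) (nat_lit 536) (nat_lit 367) (nat_lit 297)))) (XT.nd (nat_lit 156) (nat_lit 152) (nat_lit 0) (XT.nd (nat_lit 78) (nat_lit 0) (nat_lit 0) (XT.lf (nat_lit 0) (nat_lit 15573143071) (nat_lit 76) (nat_lit 18404057781) (nat_lit 76) (nat_lit 9885880982) (nat_lit 23) (nat_lit 4) (nat_lit 24) (nat_lit 5) (nat_lit 24) (nat_lit 4) (nat_lit 537) (nat_lit 367) (nat_lit 296)) (XT.lf (nat_lit 0) (nat_lit 33985351721) (nat_lit 76) (nat_lit 9737933250) (nat_lit 76) (nat_lit 1185082814) (nat_lit 23) (nat_lit 4) (nat_lit 24) (nat_lit 5) (nat_lit 24) (nat_lit 4) (nat_lit 538) (nat_lit 367) (nat_lit 295))) (XT.nd (nat_lit 78) (nat_lit 0) (nat_lit 0) (XT.lf (nat_lit 0) (nat_lit 6922486710) (nat_lit 76) (nat_lit 717415196) (nat_lit 152) (nat_lit 38342420681)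 (nat_lit 21) (nat_lit 5) (nat_lit 22) (nat_lit 5) (nat_lit 23) (nat_lit 4) (nat_lit 539) (nat_lit 367) (nat_lit 294)) (XT.lf (nat_lit 0) (nat_lit 16848036605) (nat_lit 152) (nat_lit 21755957394) (nat_lit 0) (nat_lit 8479883799) (nat_lit 21) (nat_lit 5) (nat_lit 23) (nat_lit 4) (nat_lit 21) (nat_lit 4) (nat_lit 540) (nat_lit 367) (nat_lit 293)))))) (XT.nd (nat_lit 546) (nat_lit 152) (nat_lit 0) (XT.nd (nat_lit 234) (nat_lit 228) (nat_lit 0) (XT.nd (nat_lit 78) (nat_lit 76) (nat_lit 0) (XT.lf (nat_lit 0) (nat_lit 26289431537) (nat_lit 152) (nat_lit 4039866328) (nat_lit 0) (nat_lit 17890471654) (nat_lit 21) (nat_lit 5) (nat_lit 23) (nat_lit 4) (nat_lit 21) (nat_lit 4) (nat_lit 541) (nat_lit 367) (nat_lit 292)) (XT.nd (nat_lit 78) (nat_lit 0) (nat_lit 0) (XT.lf (nat_lit 0) (nat_lit 14391646493) (nat_lit 76) (nat_lit 21712135051) (nat_lit 76) (nat_lit 13283265383) (nat_lit 20) (nat_lit 4) (nat_lit 21) (nat_lit 5) (nat_lit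 21) (nat_lit 4) (nat_lit 542) (nat_lit 367) (nat_lit 291)) (XT.lf (nat_lit 0) (nat_lit 33362974102) (nat_lit 76) (nat_lit 12842248673) (nat_lit 76) (nat_lit 4384340381) (nat_lit 20) (nat_lit 4) (nat_lit 21) (nat_lit 5) (nat_lit 21) (nat_lit 4) (nat_lit 543) (nat_lit 367) (nat_lit 290)))) (XT.nd (nat_lit 156) (nat_lit 76) (nat_lit 0) (XT.nd (nat_lit 78) (nat_lit 0) (nat_lit 0) (XT.lf (nat_lit 0) (nat_lit 953847468) (nat_lit 76) (nat_lit 3696373517) (nat_lit 152) (nat_lit 47177696076) (nat_lit 18) (nat_lit 5) (nat_lit 19) (nat_lit 5) (nat_lit 20) (nat_lit 4) (nat_lit 544) (nat_lit 367) (nat_lit 289)) (XT.lf (nat_lit 0) (nat_lit 14051234291) (nat_lit 152) (nat_lit 33259652529) (nat_lit 0) (nat_lit 5785726697) (nat_lit 18) (nat_lit 5) (nat_lit 20) (nat_lit 4) (nat_lit 18) (nat_lit 4) (nat_lit 545) (nat_lit 367) (nat_lit 288))) (XT.nd (nat_lit 78) (nat_lit 76) (nat_lit 0) (XT.lf (nat_lit 0) (nat_lit 23725086905) (nat_lit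 152) (nat_lit 15244781111) (nat_lit 0) (nat_lit 15433778869) (nat_lit 18) (nat_lit 5) (nat_lit 20) (nat_lit 4) (nat_lit 18) (nat_lit 4) (nat_lit 546) (nat_lit 367) (nat_lit 287)) (XT.lf (nat_lit 0) (nat_lit 3285938100) (nat_lit 76) (nat_lit 30390348252) (nat_lit 76) (nat_lit 22073991242) (nat_lit 17) (nat_lit 4) (nat_lit 18) (nat_lit 5) (nat_lit 18) (nat_lit 4) (nat_lit 547) (nat_lit 367) (nat_lit 286))))) (XT.nd (nat_lit 312) (nat_lit 0) (nat_lit 0) (XT.nd (nat_lit 156) (nat_lit 152) (nat_lit 0) (XT.nd (nat_lit 78) (nat_lit 0) (nat_lit 0) (XT.lf (nat_lit 0) (nat_lit 22597232913) (nat_lit 76) (nat_lit 21438726427) (nat_lit 76) (nat_lit 13098050027) (nat_lit 17) (nat_lit 4) (nat_lit 18) (nat_lit 5) (nat_lit 18) (nat_lit 4) (nat_lit 548) (nat_lit 367) (nat_lit 285)) (XT.lf (nat_lit 0) (nat_lit 42402576237) (nat_lit 76) (nat_lit 12261123136) (nat_lit 76) (nat_lit 3896835675) (nat_lit 17) (nat_lit 4) (nat_lit 18) (nat_lit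 5) (nat_lit 18) (nat_lit 4) (nat_lit 549) (nat_lit 367) (nat_lit 284))) (XT.nd (nat_lit 78) (nat_lit 0) (nat_lit 0) (XT.lf (nat_lit 0) (nat_lit 2687381404) (nat_lit 76) (nat_lit 2768082744) (nat_lit 152) (nat_lit 54573265035) (nat_lit 15) (nat_lit 5) (nat_lit 16) (nat_lit 5) (nat_lit 17) (nat_lit 4) (nat_lit 550) (nat_lit 367) (nat_lit 283)) (XT.lf (nat_lit 0) (nat_lit 15200308346) (nat_lit 152) (nat_lit 39298016868) (nat_lit 0) (nat_lit 7035777756) (nat_lit 15) (nat_lit 5) (nat_lit 17) (nat_lit 4) (nat_lit 15) (nat_lit 4) (nat_lit 551) (nat_lit 367) (nat_lit 282)))) (XT.nd (nat_lit 55614) (nat_lit 0) (nat_lit 7524) (XT.nd (nat_lit 78) (nat_lit 0) (nat_lit 0) (XT.lf (nat_lit 0) (nat_lit 25224260683) (nat_lit 152) (nat_lit 20822022661) (nat_lit 0) (nat_lit 17038751972) (nat_lit 15) (nat_lit 5) (nat_lit 17) (nat_lit 4) (nat_lit 15) (nat_lit 4) (nat_lit 552) (nat_lit 367) (nat_lit 281)) (XT.lf (nat_lit 0) (nat_lit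 35509471449) (nat_lit 152) (nat_lit 1870612583) (nat_lit 0) (nat_lit 27303595631) (nat_lit 15) (nat_lit 5) (nat_lit 17) (nat_lit 4) (nat_lit 15) (nat_lit 4) (nat_lit 553) (nat_lit 367) (nat_lit 280))) (XT.nd (nat_lit 78) (nat_lit 228) (nat_lit 0) (XT.lf (nat_lit 0) (nat_lit 1453968131) (nat_lit 228) (nat_lit 2595170879) (nat_lit 0) (nat_lit 1453968131) (nat_lit 117) (nat_lit 5) (nat_lit 120) (nat_lit 4) (nat_lit 117) (nat_lit 4) (nat_lit 464) (nat_lit 368) (nat_lit 368)) (XT.lf (nat_lit 0) (nat_lit 4706025934) (nat_lit 228) (nat_lit 3523396592) (nat_lit 228) (nat_lit 2931326708) (nat_lit 114) (nat_lit 4) (nat_lit 117) (nat_lit 5) (nat_lit 117) (nat_lit 4) (nat_lit 465) (nat_lit 368) (nat_lit 367))))))))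
noncomputable def xc33 : XT := (XT.nd (nat_lit 2340) (nat_lit 2128) (nat_lit 0) (XT.nd (nat_lit 1170) (nat_lit 1748) (nat_lit 0) (XT.nd (nat_lit 546) (nat_lit 1292) (nat_lit 0) (XT.nd (nat_lit 234) (nat_lit 532) (nat_lit 0) (XT.nd (nat_lit 78) (nat_lit 456) (nat_lit 0) (XT.lf (nat_lit 0) (nat_lit 2327531518) (nat_lit 228) (nat_lit 7797575296) (nat_lit 0) (nat_lit 1194623738) (nat_lit 111) (nat_lit 5) (nat_lit 114) (nat_lit 4) (nat_lit 111) (nat_lit 4) (nat_lit 466) (nat_lit 368) (nat_lit 366)) (XT.nd (nat_lit 78) (nat_lit 228) (nat_lit 0) (XT.lf (nat_lit 0) (nat_lit 2228818053) (nat_lit 228) (nat_lit 5464151121) (nat_lit 228) (nat_lit 3789415524) (nat_lit 108) (nat_lit 4) (nat_lit 111) (nat_lit 5) (nat_lit 111) (nat_lit 4) (nat_lit 467) (nat_lit 368) (nat_lit 365)) (XT.lf (nat_lit 0) (nat_lit 869823470) (nat_lit 152) (nat_lit 642790071) (nat_lit 228) (nat_lit 10137644350) (nat_lit 105) (nat_lit 5) (nat_lit 107)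 (nat_lit 5) (nat_lit 108) (nat_lit 4) (nat_lit 468) (nat_lit 368) (nat_lit 364)))) (XT.nd (nat_lit 156) (nat_lit 304) (nat_lit 0) (XT.nd (nat_lit 78) (nat_lit 228) (nat_lit 0) (XT.lf (nat_lit 0) (nat_lit 6919978928) (nat_lit 228) (nat_lit 613946951) (nat_lit 0) (nat_lit 4287448148) (nat_lit 105) (nat_lit 5) (nat_lit 108) (nat_lit 4) (nat_lit 105) (nat_lit 4) (nat_lit 469) (nat_lit 368) (nat_lit 363)) (XT.lf (nat_lit 0) (nat_lit 473104224) (nat_lit 228) (nat_lit 2153536200) (nat_lit 76) (nat_lit 9371123664) (nat_lit 102) (nat_lit 5) (nat_lit 105) (nat_lit 5) (nat_lit 103) (nat_lit 4) (nat_lit 470) (nat_lit 368) (nat_lit 362))) (XT.nd (nat_lit 78) (nat_lit 152) (nat_lit 0) (XT.lf (nat_lit 0) (nat_lit 5910997995) (nat_lit 228) (nat_lit 3832991666) (nat_lit 0) (nat_lit 2433985170) (nat_lit 100) (nat_lit 5) (nat_lit 103) (nat_lit 4) (nat_lit 100) (nat_lit 4) (nat_lit 471) (nat_lit 368) (nat_lit 361)) (XT.lf (nat_lit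 0) (nat_lit 6749972460) (nat_lit 152) (nat_lit 4765544047) (nat_lit 152) (nat_lit 847975624) (nat_lit 98) (nat_lit 4) (nat_lit 100) (nat_lit 5) (nat_lit 100) (nat_lit 4) (nat_lit 472) (nat_lit 368) (nat_lit 360))))) (XT.nd (nat_lit 312) (nat_lit 684) (nat_lit 0) (XT.nd (nat_lit 156) (nat_lit 228) (nat_lit 0) (XT.nd (nat_lit 78) (nat_lit 152) (nat_lit 0) (XT.lf (nat_lit 0) (nat_lit 4623546977) (nat_lit 228) (nat_lit 7525381289) (nat_lit 0) (nat_lit 404816585) (nat_lit 95) (nat_lit 5) (nat_lit 98) (nat_lit 4) (nat_lit 95) (nat_lit 4) (nat_lit 473) (nat_lit 368) (nat_lit 359)) (XT.lf (nat_lit 0) (nat_lit 3166268361) (nat_lit 152) (nat_lit 7102151554) (nat_lit 152) (nat_lit 2480250380) (nat_lit 93) (nat_lit 4) (nat_lit 95) (nat_lit 5) (nat_lit 95) (nat_lit 4) (nat_lit 474) (nat_lit 368) (nat_lit 358))) (XT.nd (nat_lit 78) (nat_lit 0) (nat_lit 0) (XT.lf (nat_lit 0) (nat_lit 1181769770) (nat_lit 152) (nat_lit 1870003079)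 (nat_lit 228) (nat_lit 9897379794) (nat_lit 90) (nat_lit 5) (nat_lit 92) (nat_lit 5) (nat_lit 93) (nat_lit 4) (nat_lit 475) (nat_lit 368) (nat_lit 357)) (XT.lf (nat_lit 0) (nat_lit 8723520540) (nat_lit 228) (nat_lit 943435522) (nat_lit 0) (nat_lit 3487252342) (nat_lit 90) (nat_lit 5) (nat_lit 93) (nat_lit 4) (nat_lit 90) (nat_lit 4) (nat_lit 476) (nat_lit 368) (nat_lit 356)))) (XT.nd (nat_lit 156) (nat_lit 304) (nat_lit 0) (XT.nd (nat_lit 78) (nat_lit 152) (nat_lit 0) (XT.lf (nat_lit 0) (nat_lit 1188422215) (nat_lit 228) (nat_lit 3181983118) (nat_lit 76) (nat_lit 8994313284) (nat_lit 87) (nat_lit 5) (nat_lit 90) (nat_lit 5) (nat_lit 88) (nat_lit 4) (nat_lit 477) (nat_lit 368) (nat_lit 355)) (XT.lf (nat_lit 0) (nat_lit 6879896733) (nat_lit 228) (nat_lit 5589836420) (nat_lit 0) (nat_lit 1110713362) (nat_lit 85) (nat_lit 5) (nat_lit 88) (nat_lit 4) (nat_lit 85) (nat_lit 4) (nat_lit 478) (nat_lit 368) (nat_lit 354)))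 (XT.nd (nat_lit 78) (nat_lit 152) (nat_lit 0) (XT.lf (nat_lit 0) (nat_lit 5636797578) (nat_lit 152) (nat_lit 7131039383) (nat_lit 152) (nat_lit 1034041272) (nat_lit 83) (nat_lit 4) (nat_lit 85) (nat_lit 5) (nat_lit 85) (nat_lit 4) (nat_lit 479) (nat_lit 368) (nat_lit 353)) (XT.lf (nat_lit 0) (nat_lit 3108768573) (nat_lit 76) (nat_lit 1582873506) (nat_lit 152) (nat_lit 9337442530) (nat_lit 81) (nat_lit 5) (nat_lit 82) (nat_lit 5) (nat_lit 83) (nat_lit 4) (nat_lit 480) (nat_lit 368) (nat_lit 352)))))) (XT.nd (nat_lit 546) (nat_lit 912) (nat_lit 0) (XT.nd (nat_lit 234) (nat_lit 532) (nat_lit 0) (XT.nd (nat_lit 78) (nat_lit 152) (nat_lit 0) (XT.lf (nat_lit 0) (nat_lit 392361620) (nat_lit 152) (nat_lit 10199078651) (nat_lit 152) (nat_lit 3670669253) (nat_lit 79) (nat_lit 4) (nat_lit 81) (nat_lit 5) (nat_lit 81) (nat_lit 4) (nat_lit 481) (nat_lit 368) (nat_lit 351)) (XT.nd (nat_lit 78) (nat_lit 76) (nat_lit 0) (XT.lf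 (nat_lit 0) (nat_lit 2147420197) (nat_lit 228) (nat_lit 2460405548) (nat_lit 76) (nat_lit 9892970468) (nat_lit 78) (nat_lit 5) (nat_lit 81) (nat_lit 5) (nat_lit 79) (nat_lit 4) (nat_lit 482) (nat_lit 368) (nat_lit 350)) (XT.lf (nat_lit 0) (nat_lit 8066213421) (nat_lit 152) (nat_lit 5508708369) (nat_lit 0) (nat_lit 1170636312) (nat_lit 77) (nat_lit 5) (nat_lit 79) (nat_lit 4) (nat_lit 77) (nat_lit 4) (nat_lit 483) (nat_lit 368) (nat_lit 349)))) (XT.nd (nat_lit 156) (nat_lit 228) (nat_lit 0) (XT.nd (nat_lit 78) (nat_lit 152) (nat_lit 0) (XT.lf (nat_lit 0) (nat_lit 6227180738) (nat_lit 152) (nat_lit 7965845932) (nat_lit 152) (nat_lit 803725440) (nat_lit 75) (nat_lit 4) (nat_lit 77) (nat_lit 5) (nat_lit 77) (nat_lit 4) (nat_lit 484) (nat_lit 368) (nat_lit 348)) (XT.lf (nat_lit 0) (nat_lit 2994525294) (nat_lit 76) (nat_lit 2136226315) (nat_lit 152) (nat_lit 10123669659) (nat_lit 73) (nat_lit 5) (nat_lit 74) (nat_lit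 5) (nat_lit 75) (nat_lit 4) (nat_lit 485) (nat_lit 368) (nat_lit 347))) (XT.nd (nat_lit 78) (nat_lit 228) (nat_lit 0) (XT.lf (nat_lit 0) (nat_lit 11254060670) (nat_lit 152) (nat_lit 459337269) (nat_lit 0) (nat_lit 3805377975) (nat_lit 73) (nat_lit 5) (nat_lit 75) (nat_lit 4) (nat_lit 73) (nat_lit 4) (nat_lit 486) (nat_lit 368) (nat_lit 346)) (XT.lf (nat_lit 0) (nat_lit 1772889196) (nat_lit 228) (nat_lit 4086537967) (nat_lit 76) (nat_lit 9930003529) (nat_lit 70) (nat_lit 5) (nat_lit 73) (nat_lit 5) (nat_lit 71) (nat_lit 4) (nat_lit 487) (nat_lit 368) (nat_lit 345))))) (XT.nd (nat_lit 312) (nat_lit 532) (nat_lit 0) (XT.nd (nat_lit 156) (nat_lit 152) (nat_lit 0) (XT.nd (nat_lit 78) (nat_lit 152) (nat_lit 0) (XT.lf (nat_lit 0) (nat_lit 7893924199) (nat_lit 152) (nat_lit 7964331189) (nat_lit 0) (nat_lit 209044879) (nat_lit 69) (nat_lit 5) (nat_lit 71) (nat_lit 4) (nat_lit 69) (nat_lit 4) (nat_lit 488) (nat_lit 368) (nat_lit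 344)) (XT.lf (nat_lit 0) (nat_lit 4231394706) (nat_lit 152) (nat_lit 10011198507) (nat_lit 152) (nat_lit 2109595025) (nat_lit 67) (nat_lit 4) (nat_lit 69) (nat_lit 5) (nat_lit 69) (nat_lit 4) (nat_lit 489) (nat_lit 368) (nat_lit 343))) (XT.nd (nat_lit 78) (nat_lit 0) (nat_lit 0) (XT.lf (nat_lit 0) (nat_lit 91733383) (nat_lit 76) (nat_lit 3949522119) (nat_lit 152) (nat_lit 12603600856) (nat_lit 65) (nat_lit 5) (nat_lit 66) (nat_lit 5) (nat_lit 67) (nat_lit 4) (nat_lit 490) (nat_lit 368) (nat_lit 342)) (XT.lf (nat_lit 0) (nat_lit 10383897059) (nat_lit 152) (nat_lit 4250472305) (nat_lit 0) (nat_lit 2309820751) (nat_lit 65) (nat_lit 5) (nat_lit 67) (nat_lit 4) (nat_lit 65) (nat_lit 4) (nat_lit 491) (nat_lit 368) (nat_lit 341)))) (XT.nd (nat_lit 156) (nat_lit 228) (nat_lit 0) (XT.nd (nat_lit 78) (nat_lit 152) (nat_lit 0) (XT.lf (nat_lit 0) (nat_lit 8367977193) (nat_lit 152) (nat_lit 8575185694) (nat_lit 152) (nat_lit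 308552777) (nat_lit 63) (nat_lit 4) (nat_lit 65) (nat_lit 5) (nat_lit 65) (nat_lit 4) (nat_lit 492) (nat_lit 368) (nat_lit 340)) (XT.lf (nat_lit 0) (nat_lit 3720595551) (nat_lit 76) (nat_lit 2276535795) (nat_lit 152) (nat_lit 11569988934) (nat_lit 61) (nat_lit 5) (nat_lit 62) (nat_lit 5) (nat_lit 63) (nat_lit 4) (nat_lit 493) (nat_lit 368) (nat_lit 339))) (XT.nd (nat_lit 78) (nat_lit 228) (nat_lit 0) (XT.lf (nat_lit 0) (nat_lit 12523989448) (nat_lit 152) (nat_lit 1226349138) (nat_lit 0) (nat_lit 4140412598) (nat_lit 61) (nat_lit 5) (nat_lit 63) (nat_lit 4) (nat_lit 61) (nat_lit 4) (nat_lit 494) (nat_lit 368) (nat_lit 338)) (XT.lf (nat_lit 0) (nat_lit 1048937478) (nat_lit 228) (nat_lit 6425317822) (nat_lit 76) (nat_lit 10748152794) (nat_lit 58) (nat_lit 5) (nat_lit 61) (nat_lit 5) (nat_lit 59) (nat_lit 4) (nat_lit 495) (nat_lit 368) (nat_lit 337))))))) (XT.nd (nat_lit 1170) (nat_lit 1064) (nat_lit 0) (XT.nd (nat_lit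 546) (nat_lit 532) (nat_lit 0) (XT.nd (nat_lit 234) (nat_lit 304) (nat_lit 0) (XT.nd (nat_lit 78) (nat_lit 152) (nat_lit 0) (XT.lf (nat_lit 0) (nat_lit 6575051035) (nat_lit 76) (nat_lit 959832197) (nat_lit 152) (nat_lit 11027969912) (nat_lit 57) (nat_lit 5) (nat_lit 58) (nat_lit 5) (nat_lit 59) (nat_lit 4) (nat_lit 496) (nat_lit 368) (nat_lit 336)) (XT.nd (nat_lit 78) (nat_lit 76) (nat_lit 0) (XT.lf (nat_lit 0) (nat_lit 975789620) (nat_lit 76) (nat_lit 13279919945) (nat_lit 76) (nat_lit 4656594646) (nat_lit 56) (nat_lit 4) (nat_lit 57) (nat_lit 5) (nat_lit 57) (nat_lit 4) (nat_lit 497) (nat_lit 368) (nat_lit 335)) (XT.lf (nat_lit 0) (nat_lit 1910699654) (nat_lit 152) (nat_lit 4896610966) (nat_lit 76) (nat_lit 12463121120) (nat_lit 55) (nat_lit 5) (nat_lit 57) (nat_lit 5) (nat_lit 56) (nat_lit 4) (nat_lit 498) (nat_lit 368) (nat_lit 334)))) (XT.nd (nat_lit 156) (nat_lit 152) (nat_lit 0) (XT.nd (nat_lit 78) (nat_lit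 76) (nat_lit 0) (XT.lf (nat_lit 0) (nat_lit 8486008209) (nat_lit 76) (nat_lit 89813506) (nat_lit 152) (nat_lit 11062267762) (nat_lit 54) (nat_lit 5) (nat_lit 55) (nat_lit 5) (nat_lit 56) (nat_lit 4) (nat_lit 499) (nat_lit 368) (nat_lit 333)) (XT.lf (nat_lit 0) (nat_lit 2163121257) (nat_lit 76) (nat_lit 13327151133) (nat_lit 76) (nat_lit 4525024846) (nat_lit 53) (nat_lit 4) (nat_lit 54) (nat_lit 5) (nat_lit 54) (nat_lit 4) (nat_lit 500) (nat_lit 368) (nat_lit 332))) (XT.nd (nat_lit 78) (nat_lit 76) (nat_lit 0) (XT.lf (nat_lit 0) (nat_lit 2192940564) (nat_lit 152) (nat_lit 4485512273) (nat_lit 76) (nat_lit 13723902072) (nat_lit 52) (nat_lit 5) (nat_lit 54) (nat_lit 5) (nat_lit 53) (nat_lit 4) (nat_lit 501) (nat_lit 368) (nat_lit 331)) (XT.lf (nat_lit 0) (nat_lit 9028265447) (nat_lit 152) (nat_lit 11547125650) (nat_lit 0) (nat_lit 224087485) (nat_lit 51) (nat_lit 5) (nat_lit 53) (nat_lit 4) (nat_lit 51) (nat_lit 4)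 (nat_lit 502) (nat_lit 368) (nat_lit 330))))) (XT.nd (nat_lit 312) (nat_lit 228) (nat_lit 0) (XT.nd (nat_lit 156) (nat_lit 152) (nat_lit 0) (XT.nd (nat_lit 78) (nat_lit 76) (nat_lit 0) (XT.lf (nat_lit 0) (nat_lit 2098037201) (nat_lit 76) (nat_lit 14018409478) (nat_lit 76) (nat_lit 5090636755) (nat_lit 50) (nat_lit 4) (nat_lit 51) (nat_lit 5) (nat_lit 51) (nat_lit 4) (nat_lit 503) (nat_lit 368) (nat_lit 329)) (XT.lf (nat_lit 0) (nat_lit 1789011807) (nat_lit 152) (nat_lit 5416073667) (nat_lit 76) (nat_lit 14420308211) (nat_lit 49) (nat_lit 5) (nat_lit 51) (nat_lit 5) (nat_lit 50) (nat_lit 4) (nat_lit 504) (nat_lit 368) (nat_lit 328))) (XT.nd (nat_lit 78) (nat_lit 76) (nat_lit 0) (XT.lf (nat_lit 0) (nat_lit 8647237555) (nat_lit 76) (nat_lit 126902891) (nat_lit 152) (nat_lit 13280559756) (nat_lit 48) (nat_lit 5) (nat_lit 49) (nat_lit 5) (nat_lit 50) (nat_lit 4) (nat_lit 505) (nat_lit 368) (nat_lit 327)) (XT.lf (nat_lit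 0) (nat_lit 530249014) (nat_lit 76) (nat_lit 15486184639) (nat_lit 76) (nat_lit 6479025156) (nat_lit 47) (nat_lit 4) (nat_lit 48) (nat_lit 5) (nat_lit 48) (nat_lit 4) (nat_lit 506) (nat_lit 368) (nat_lit 326)))) (XT.nd (nat_lit 156) (nat_lit 76) (nat_lit 0) (XT.nd (nat_lit 78) (nat_lit 76) (nat_lit 0) (XT.lf (nat_lit 0) (nat_lit 572748893) (nat_lit 152) (nat_lit 7951093155) (nat_lit 76) (nat_lit 14423753371) (nat_lit 46) (nat_lit 5) (nat_lit 48) (nat_lit 5) (nat_lit 47) (nat_lit 4) (nat_lit 507) (nat_lit 368) (nat_lit 325)) (XT.lf (nat_lit 0) (nat_lit 6389625550) (nat_lit 76) (nat_lit 1298506284) (nat_lit 152) (nat_lit 15723772612) (nat_lit 45) (nat_lit 5) (nat_lit 46) (nat_lit 5) (nat_lit 47) (nat_lit 4) (nat_lit 508) (nat_lit 368) (nat_lit 324))) (XT.nd (nat_lit 78) (nat_lit 76) (nat_lit 0) (XT.lf (nat_lit 0) (nat_lit 15078093709) (nat_lit 152) (nat_lit 2778507277) (nat_lit 0) (nat_lit 6031709315) (nat_lit 45)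 (nat_lit 5) (nat_lit 47) (nat_lit 4) (nat_lit 45) (nat_lit 4) (nat_lit 509) (nat_lit 368) (nat_lit 323)) (XT.lf (nat_lit 0) (nat_lit 11963187440) (nat_lit 76) (nat_lit 10777698737) (nat_lit 76) (nat_lit 1636589250) (nat_lit 44) (nat_lit 4) (nat_lit 45) (nat_lit 5) (nat_lit 45) (nat_lit 4) (nat_lit 510) (nat_lit 368) (nat_lit 322)))))) (XT.nd (nat_lit 624) (nat_lit 456) (nat_lit 0) (XT.nd (nat_lit 312) (nat_lit 304) (nat_lit 0) (XT.nd (nat_lit 156) (nat_lit 152) (nat_lit 0) (XT.nd (nat_lit 78) (nat_lit 0) (nat_lit 0) (XT.lf (nat_lit 0) (nat_lit 2160161633) (nat_lit 76) (nat_lit 3452270499) (nat_lit 152) (nat_lit 19268052570) (nat_lit 42) (nat_lit 5) (nat_lit 43) (nat_lit 5) (nat_lit 44) (nat_lit 4) (nat_lit 511) (nat_lit 368) (nat_lit 321)) (XT.lf (nat_lit 0) (nat_lit 13135413462) (nat_lit 152) (nat_lit 8175428624) (nat_lit 0) (nat_lit 4084575519) (nat_lit 42) (nat_lit 5) (nat_lit 44) (nat_lit 4) (nat_lit 42) (nat_lit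 4) (nat_lit 512) (nat_lit 368) (nat_lit 320))) (XT.nd (nat_lit 78) (nat_lit 76) (nat_lit 0) (XT.lf (nat_lit 0) (nat_lit 6757730541) (nat_lit 76) (nat_lit 14151162294) (nat_lit 76) (nat_lit 5016162333) (nat_lit 41) (nat_lit 4) (nat_lit 42) (nat_lit 5) (nat_lit 42) (nat_lit 4) (nat_lit 513) (nat_lit 368) (nat_lit 319)) (XT.lf (nat_lit 0) (nat_lit 2406373903) (nat_lit 152) (nat_lit 4331771633) (nat_lit 76) (nat_lit 19731459420) (nat_lit 40) (nat_lit 5) (nat_lit 42) (nat_lit 5) (nat_lit 41) (nat_lit 4) (nat_lit 514) (nat_lit 368) (nat_lit 318)))) (XT.nd (nat_lit 156) (nat_lit 228) (nat_lit 0) (XT.nd (nat_lit 78) (nat_lit 0) (nat_lit 0) (XT.lf (nat_lit 0) (nat_lit 9993606712) (nat_lit 152) (nat_lit 16065786450) (nat_lit 0) (nat_lit 968323768) (nat_lit 39) (nat_lit 5) (nat_lit 41) (nat_lit 4) (nat_lit 39) (nat_lit 4) (nat_lit 515) (nat_lit 368) (nat_lit 317)) (XT.lf (nat_lit 0) (nat_lit 17847318075) (nat_lit 152) (nat_lit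 1006830901) (nat_lit 0) (nat_lit 8747258268) (nat_lit 39) (nat_lit 5) (nat_lit 41) (nat_lit 4) (nat_lit 39) (nat_lit 4) (nat_lit 516) (nat_lit 368) (nat_lit 316))) (XT.nd (nat_lit 78) (nat_lit 152) (nat_lit 0) (XT.lf (nat_lit 0) (nat_lit 14652273860) (nat_lit 76) (nat_lit 11355283211) (nat_lit 76) (nat_lit 2182624508) (nat_lit 38) (nat_lit 4) (nat_lit 39) (nat_lit 5) (nat_lit 39) (nat_lit 4) (nat_lit 517) (nat_lit 368) (nat_lit 315)) (XT.lf (nat_lit 0) (nat_lit 1849908763) (nat_lit 76) (nat_lit 3614648788) (nat_lit 152) (nat_lit 23331697978) (nat_lit 36) (nat_lit 5) (nat_lit 37) (nat_lit 5) (nat_lit 38) (nat_lit 4) (nat_lit 518) (nat_lit 368) (nat_lit 314))))) (XT.nd (nat_lit 312) (nat_lit 228) (nat_lit 0) (XT.nd (nat_lit 156) (nat_lit 152) (nat_lit 0) (XT.nd (nat_lit 78) (nat_lit 76) (nat_lit 0) (XT.lf (nat_lit 0) (nat_lit 13407432789) (nat_lit 152) (nat_lit 11642057744) (nat_lit 0) (nat_lit 4367069206) (nat_lit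 36) (nat_lit 5) (nat_lit 38) (nat_lit 4) (nat_lit 36) (nat_lit 4) (nat_lit 519) (nat_lit 368) (nat_lit 313)) (XT.lf (nat_lit 0) (nat_lit 4030568454) (nat_lit 76) (nat_lit 17564784665) (nat_lit 76) (nat_lit 8459917903) (nat_lit 35) (nat_lit 4) (nat_lit 36) (nat_lit 5) (nat_lit 36) (nat_lit 4) (nat_lit 520) (nat_lit 368) (nat_lit 312))) (XT.nd (nat_lit 78) (nat_lit 152) (nat_lit 0) (XT.lf (nat_lit 0) (nat_lit 20279680742) (nat_lit 76) (nat_lit 9799720056) (nat_lit 76) (nat_lit 632228849) (nat_lit 35) (nat_lit 4) (nat_lit 36) (nat_lit 5) (nat_lit 36) (nat_lit 4) (nat_lit 521) (nat_lit 368) (nat_lit 311)) (XT.lf (nat_lit 0) (nat_lit 5535379774) (nat_lit 76) (nat_lit 1737364764) (nat_lit 152) (nat_lit 24113169046) (nat_lit 33) (nat_lit 5) (nat_lit 34) (nat_lit 5) (nat_lit 35) (nat_lit 4) (nat_lit 522) (nat_lit 368) (nat_lit 310)))) (XT.nd (nat_lit 156) (nat_lit 152) (nat_lit 0) (XT.nd (nat_lit 78) (nat_lit 76) (nat_lit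 0) (XT.lf (nat_lit 0) (nat_lit 15505975954) (nat_lit 152) (nat_lit 10081989179) (nat_lit 0) (nat_lit 6489159269) (nat_lit 33) (nat_lit 5) (nat_lit 35) (nat_lit 4) (nat_lit 33) (nat_lit 4) (nat_lit 523) (nat_lit 368) (nat_lit 309)) (XT.lf (nat_lit 0) (nat_lit 6136060317) (nat_lit 76) (nat_lit 17862548699) (nat_lit 76) (nat_lit 8790091005) (nat_lit 32) (nat_lit 4) (nat_lit 33) (nat_lit 5) (nat_lit 33) (nat_lit 4) (nat_lit 524) (nat_lit 368) (nat_lit 308))) (XT.nd (nat_lit 78) (nat_lit 152) (nat_lit 0) (XT.lf (nat_lit 0) (nat_lit 22922471855) (nat_lit 76) (nat_lit 9862234589) (nat_lit 76) (nat_lit 735756499) (nat_lit 32) (nat_lit 4) (nat_lit 33) (nat_lit 5) (nat_lit 33) (nat_lit 4) (nat_lit 525) (nat_lit 368) (nat_lit 307)) (XT.lf (nat_lit 0) (nat_lit 5857477880) (nat_lit 76) (nat_lit 1549617172) (nat_lit 152) (nat_lit 26865071647) (nat_lit 30) (nat_lit 5) (nat_lit 31) (nat_lit 5) (nat_lit 32) (nat_lit 4) (nat_lit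 526) (nat_lit 368) (nat_lit 306))))))))
noncomputable def xc34 : XT := (XT.nd (nat_lit 57642) (nat_lit 0) (nat_lit 3344) (XT.nd (nat_lit 1170) (nat_lit 456) (nat_lit 0) (XT.nd (nat_lit 546) (nat_lit 380) (nat_lit 0) (XT.nd (nat_lit 234) (nat_lit 228) (nat_lit 0) (XT.nd (nat_lit 78) (nat_lit 76) (nat_lit 0) (XT.lf (nat_lit 0) (nat_lit 15893098725) (nat_lit 152) (nat_lit 12217610550) (nat_lit 0) (nat_lit 6932084663) (nat_lit 30) (nat_lit 5) (nat_lit 32) (nat_lit 4) (nat_lit 30) (nat_lit 4) (nat_lit 527) (nat_lit 368) (nat_lit 305)) (XT.nd (nat_lit 78) (nat_lit 0) (nat_lit 0) (XT.lf (nat_lit 0) (nat_lit 4417295535) (nat_lit 76) (nat_lit 20214161124) (nat_lit 76) (nat_lit 11205150640) (nat_lit 29) (nat_lit 4) (nat_lit 30) (nat_lit 5) (nat_lit 30) (nat_lit 4) (nat_lit 528) (nat_lit 368) (nat_lit 304)) (XT.lf (nat_lit 0) (nat_lit 21683924776) (nat_lit 76) (nat_lit 12012000478) (nat_lit 76) (nat_lit 2956391525) (nat_lit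 29) (nat_lit 4) (nat_lit 30) (nat_lit 5) (nat_lit 30) (nat_lit 4) (nat_lit 529) (nat_lit 368) (nat_lit 303)))) (XT.nd (nat_lit 156) (nat_lit 76) (nat_lit 0) (XT.nd (nat_lit 78) (nat_lit 0) (nat_lit 0) (XT.lf (nat_lit 0) (nat_lit 1843269276) (nat_lit 76) (nat_lit 3547922576) (nat_lit 152) (nat_lit 32100924705) (nat_lit 27) (nat_lit 5) (nat_lit 28) (nat_lit 5) (nat_lit 29) (nat_lit 4) (nat_lit 530) (nat_lit 368) (nat_lit 302)) (XT.lf (nat_lit 0) (nat_lit 14073925197) (nat_lit 152) (nat_lit 19082479058) (nat_lit 0) (nat_lit 5195504118) (nat_lit 27) (nat_lit 5) (nat_lit 29) (nat_lit 4) (nat_lit 27) (nat_lit 4) (nat_lit 531) (nat_lit 368) (nat_lit 301))) (XT.nd (nat_lit 78) (nat_lit 76) (nat_lit 0) (XT.lf (nat_lit 0) (nat_lit 22995760817) (nat_lit 152) (nat_lit 2166437372) (nat_lit 0) (nat_lit 14075937603) (nat_lit 27) (nat_lit 5) (nat_lit 29) (nat_lit 4) (nat_lit 27) (nat_lit 4) (nat_lit 532) (nat_lit 368) (nat_lit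 300)) (XT.lf (nat_lit 0) (nat_lit 15449641742) (nat_lit 76) (nat_lit 16829259357) (nat_lit 76) (nat_lit 7869239894) (nat_lit 26) (nat_lit 4) (nat_lit 27) (nat_lit 5) (nat_lit 27) (nat_lit 4) (nat_lit 533) (nat_lit 368) (nat_lit 299))))) (XT.nd (nat_lit 312) (nat_lit 152) (nat_lit 0) (XT.nd (nat_lit 156) (nat_lit 76) (nat_lit 0) (XT.nd (nat_lit 78) (nat_lit 76) (nat_lit 0) (XT.lf (nat_lit 0) (nat_lit 707609388) (nat_lit 152) (nat_lit 7562597888) (nat_lit 76) (nat_lit 32816004100) (nat_lit 25) (nat_lit 5) (nat_lit 27) (nat_lit 5) (nat_lit 26) (nat_lit 4) (nat_lit 534) (nat_lit 368) (nat_lit 298)) (XT.lf (nat_lit 0) (nat_lit 9433926386) (nat_lit 152) (nat_lit 31954446426) (nat_lit 0) (nat_lit 660204283) (nat_lit 24) (nat_lit 5) (nat_lit 26) (nat_lit 4) (nat_lit 24) (nat_lit 4) (nat_lit 535) (nat_lit 368) (nat_lit 297))) (XT.nd (nat_lit 78) (nat_lit 76) (nat_lit 0) (XT.lf (nat_lit 0) (nat_lit 18527841904) (nat_lit 152)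 (nat_lit 14790392051) (nat_lit 0) (nat_lit 9718405954) (nat_lit 24) (nat_lit 5) (nat_lit 26) (nat_lit 4) (nat_lit 24) (nat_lit 4) (nat_lit 536) (nat_lit 368) (nat_lit 296)) (XT.lf (nat_lit 0) (nat_lit 2841292998) (nat_lit 76) (nat_lit 25028945831) (nat_lit 76) (nat_lit 16184836245) (nat_lit 23) (nat_lit 4) (nat_lit 24) (nat_lit 5) (nat_lit 24) (nat_lit 4) (nat_lit 537) (nat_lit 368) (nat_lit 295)))) (XT.nd (nat_lit 156) (nat_lit 76) (nat_lit 0) (XT.nd (nat_lit 78) (nat_lit 76) (nat_lit 0) (XT.lf (nat_lit 0) (nat_lit 21203389523) (nat_lit 76) (nat_lit 16387750246) (nat_lit 76) (nat_lit 7509976934) (nat_lit 23) (nat_lit 4) (nat_lit 24) (nat_lit 5) (nat_lit 24) (nat_lit 4) (nat_lit 538) (nat_lit 368) (nat_lit 294)) (XT.lf (nat_lit 0) (nat_lit 1347194136) (nat_lit 152) (nat_lit 6175652442) (nat_lit 76) (nat_lit 38656786117) (nat_lit 22) (nat_lit 5) (nat_lit 24) (nat_lit 5) (nat_lit 23) (nat_lit 4) (nat_lit 539) (nat_lit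 368) (nat_lit 293))) (XT.nd (nat_lit 78) (nat_lit 0) (nat_lit 0) (XT.lf (nat_lit 0) (nat_lit 10404092428) (nat_lit 152) (nat_lit 35159276067) (nat_lit 0) (nat_lit 1722356671) (nat_lit 21) (nat_lit 5) (nat_lit 23) (nat_lit 4) (nat_lit 21) (nat_lit 4) (nat_lit 540) (nat_lit 368) (nat_lit 292)) (XT.lf (nat_lit 0) (nat_lit 19821532639) (nat_lit 152) (nat_lit 17490915954) (nat_lit 0) (nat_lit 11109887098) (nat_lit 21) (nat_lit 5) (nat_lit 23) (nat_lit 4) (nat_lit 21) (nat_lit 4) (nat_lit 541) (nat_lit 368) (nat_lit 291)))))) (XT.nd (nat_lit 546) (nat_lit 152) (nat_lit 0) (XT.nd (nat_lit 234) (nat_lit 228) (nat_lit 0) (XT.nd (nat_lit 78) (nat_lit 0) (nat_lit 0) (XT.lf (nat_lit 0) (nat_lit 625631601) (nat_lit 76) (nat_lit 28854666677) (nat_lit 76) (nat_lit 20113982510) (nat_lit 20) (nat_lit 4) (nat_lit 21) (nat_lit 5) (nat_lit 21) (nat_lit 4) (nat_lit 542) (nat_lit 368) (nat_lit 290)) (XT.nd (nat_lit 78) (nat_lit 0) (nat_lit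 0) (XT.lf (nat_lit 0) (nat_lit 19551072799) (nat_lit 76) (nat_lit 20007646000) (nat_lit 76) (nat_lit 11238768993) (nat_lit 20) (nat_lit 4) (nat_lit 21) (nat_lit 5) (nat_lit 21) (nat_lit 4) (nat_lit 543) (nat_lit 368) (nat_lit 289)) (XT.lf (nat_lit 0) (nat_lit 38953840909) (nat_lit 76) (nat_lit 10940280112) (nat_lit 76) (nat_lit 2144031416) (nat_lit 20) (nat_lit 4) (nat_lit 21) (nat_lit 5) (nat_lit 21) (nat_lit 4) (nat_lit 544) (nat_lit 368) (nat_lit 288)))) (XT.nd (nat_lit 156) (nat_lit 76) (nat_lit 0) (XT.nd (nat_lit 78) (nat_lit 0) (nat_lit 0) (XT.lf (nat_lit 0) (nat_lit 5573284838) (nat_lit 76) (nat_lit 1518393974) (nat_lit 152) (nat_lit 46222002740) (nat_lit 18) (nat_lit 5) (nat_lit 19) (nat_lit 5) (nat_lit 20) (nat_lit 4) (nat_lit 545) (nat_lit 368) (nat_lit 287)) (XT.lf (nat_lit 0) (nat_lit 16729036585) (nat_lit 152) (nat_lit 29754633424) (nat_lit 0) (nat_lit 8138139892) (nat_lit 18) (nat_lit 5) (nat_lit 20)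 (nat_lit 4) (nat_lit 18) (nat_lit 4) (nat_lit 546) (nat_lit 368) (nat_lit 286))) (XT.nd (nat_lit 78) (nat_lit 76) (nat_lit 0) (XT.lf (nat_lit 0) (nat_lit 26627388314) (nat_lit 152) (nat_lit 11330465632) (nat_lit 0) (nat_lit 18012172229) (nat_lit 18) (nat_lit 5) (nat_lit 20) (nat_lit 4) (nat_lit 18) (nat_lit 4) (nat_lit 547) (nat_lit 368) (nat_lit 285)) (XT.lf (nat_lit 0) (nat_lit 7713315755) (nat_lit 76) (nat_lit 29141616666) (nat_lit 76) (nat_lit 20502789522) (nat_lit 17) (nat_lit 4) (nat_lit 18) (nat_lit 5) (nat_lit 18) (nat_lit 4) (nat_lit 548) (nat_lit 368) (nat_lit 284))))) (XT.nd (nat_lit 312) (nat_lit 0) (nat_lit 0) (XT.nd (nat_lit 156) (nat_lit 152) (nat_lit 0) (XT.nd (nat_lit 78) (nat_lit 0) (nat_lit 0) (XT.lf (nat_lit 0) (nat_lit 27477867873) (nat_lit 76) (nat_lit 19984371683) (nat_lit 76) (nat_lit 11322621180) (nat_lit 17) (nat_lit 4) (nat_lit 18) (nat_lit 5) (nat_lit 18) (nat_lit 4) (nat_lit 549) (nat_lit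 368) (nat_lit 283)) (XT.lf (nat_lit 0) (nat_lit 47754962236) (nat_lit 76) (nat_lit 10592533007) (nat_lit 76) (nat_lit 1908526816) (nat_lit 17) (nat_lit 4) (nat_lit 18) (nat_lit 5) (nat_lit 18) (nat_lit 4) (nat_lit 550) (nat_lit 368) (nat_lit 282))) (XT.nd (nat_lit 78) (nat_lit 0) (nat_lit 0) (XT.lf (nat_lit 0) (nat_lit 6848998101) (nat_lit 76) (nat_lit 813372221) (nat_lit 152) (nat_lit 54105911692) (nat_lit 15) (nat_lit 5) (nat_lit 16) (nat_lit 5) (nat_lit 17) (nat_lit 4) (nat_lit 551) (nat_lit 368) (nat_lit 281)) (XT.lf (nat_lit 0) (nat_lit 17659065536) (nat_lit 152) (nat_lit 36474320314) (nat_lit 0) (nat_lit 9186646336) (nat_lit 15) (nat_lit 5) (nat_lit 17) (nat_lit 4) (nat_lit 15) (nat_lit 4) (nat_lit 552) (nat_lit 368) (nat_lit 280)))) (XT.nd (nat_lit 55458) (nat_lit 0) (nat_lit 7752) (XT.nd (nat_lit 55380) (nat_lit 0) (nat_lit 8208) (XT.lf (nat_lit 0) (nat_lit 27925403978) (nat_lit 152) (nat_lit 17560627943)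 (nat_lit 0) (nat_lit 19433210888) (nat_lit 15) (nat_lit 5) (nat_lit 17) (nat_lit 4) (nat_lit 15) (nat_lit 4) (nat_lit 553) (nat_lit 368) (nat_lit 279)) (XT.lf (nat_lit 0) (nat_lit 1973626908) (nat_lit 304) (nat_lit 1406491258) (nat_lit 0) (nat_lit 1973626908) (nat_lit 123) (nat_lit 5) (nat_lit 127) (nat_lit 4) (nat_lit 123) (nat_lit 4) (nat_lit 462) (nat_lit 369) (nat_lit 369))) (XT.nd (nat_lit 78) (nat_lit 228) (nat_lit 0) (XT.lf (nat_lit 0) (nat_lit 6851995921) (nat_lit 228) (nat_lit 2316008819) (nat_lit 228) (nat_lit 1687881880) (nat_lit 120) (nat_lit 4) (nat_lit 123) (nat_lit 5) (nat_lit 123) (nat_lit 4) (nat_lit 463) (nat_lit 369) (nat_lit 368)) (XT.lf (nat_lit 0) (nat_lit 3460916841) (nat_lit 228) (nat_lit 5287991234) (nat_lit 0) (nat_lit 2259014976) (nat_lit 117) (nat_lit 5) (nat_lit 120) (nat_lit 4) (nat_lit 117) (nat_lit 4) (nat_lit 464) (nat_lit 369) (nat_lit 367))))))) (XT.nd (nat_lit 1170) (nat_lit 1824)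 (nat_lit 0) (XT.nd (nat_lit 546) (nat_lit 1292) (nat_lit 0) (XT.nd (nat_lit 234) (nat_lit 608) (nat_lit 0) (XT.nd (nat_lit 78) (nat_lit 456) (nat_lit 0) (XT.lf (nat_lit 0) (nat_lit 4509740916) (nat_lit 228) (nat_lit 4215579841) (nat_lit 228) (nat_lit 2438852847) (nat_lit 114) (nat_lit 4) (nat_lit 117) (nat_lit 5) (nat_lit 117) (nat_lit 4) (nat_lit 465) (nat_lit 369) (nat_lit 366)) (XT.nd (nat_lit 78) (nat_lit 228) (nat_lit 0) (XT.lf (nat_lit 0) (nat_lit 2745407373) (nat_lit 228) (nat_lit 8100956232) (nat_lit 0) (nat_lit 478601893) (nat_lit 111) (nat_lit 5) (nat_lit 114) (nat_lit 4) (nat_lit 111) (nat_lit 4) (nat_lit 466) (nat_lit 369) (nat_lit 365)) (XT.lf (nat_lit 0) (nat_lit 1822208580) (nat_lit 228) (nat_lit 6230012280) (nat_lit 228) (nat_lit 3437160376) (nat_lit 108) (nat_lit 4) (nat_lit 111) (nat_lit 5) (nat_lit 111) (nat_lit 4) (nat_lit 467) (nat_lit 369) (nat_lit 364)))) (XT.nd (nat_lit 156) (nat_lit 380)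 (nat_lit 0) (XT.nd (nat_lit 78) (nat_lit 0) (nat_lit 0) (XT.lf (nat_lit 0) (nat_lit 347184244) (nat_lit 152) (nat_lit 1451220105) (nat_lit 228) (nat_lit 9860538916) (nat_lit 105) (nat_lit 5) (nat_lit 107) (nat_lit 5) (nat_lit 108) (nat_lit 4) (nat_lit 468) (nat_lit 369) (nat_lit 363)) (XT.lf (nat_lit 0) (nat_lit 7143722240) (nat_lit 228) (nat_lit 1233241876) (nat_lit 0) (nat_lit 3454959334) (nat_lit 105) (nat_lit 5) (nat_lit 108) (nat_lit 4) (nat_lit 105) (nat_lit 4) (nat_lit 469) (nat_lit 369) (nat_lit 362))) (XT.nd (nat_lit 78) (nat_lit 152) (nat_lit 0) (XT.lf (nat_lit 0) (nat_lit 621866234) (nat_lit 228) (nat_lit 2893759883) (nat_lit 76) (nat_lit 8494436536) (nat_lit 102) (nat_lit 5) (nat_lit 105) (nat_lit 5) (nat_lit 103) (nat_lit 4) (nat_lit 470) (nat_lit 369) (nat_lit 361)) (XT.lf (nat_lit 0) (nat_lit 5990011159) (nat_lit 228) (nat_lit 4687997018) (nat_lit 0) (nat_lit 1514360085) (nat_lit 100) (nat_lit 5)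 (nat_lit 103) (nat_lit 4) (nat_lit 100) (nat_lit 4) (nat_lit 471) (nat_lit 369) (nat_lit 360))))) (XT.nd (nat_lit 312) (nat_lit 684) (nat_lit 0) (XT.nd (nat_lit 156) (nat_lit 228) (nat_lit 0) (XT.nd (nat_lit 78) (nat_lit 228) (nat_lit 0) (XT.lf (nat_lit 0) (nat_lit 5782742665) (nat_lit 152) (nat_lit 5750184134) (nat_lit 152) (nat_lit 846809180) (nat_lit 98) (nat_lit 4) (nat_lit 100) (nat_lit 5) (nat_lit 100) (nat_lit 4) (nat_lit 472) (nat_lit 369) (nat_lit 359)) (XT.lf (nat_lit 0) (nat_lit 3934057061) (nat_lit 152) (nat_lit 623922209) (nat_lit 228) (nat_lit 8014012632) (nat_lit 95) (nat_lit 5) (nat_lit 97) (nat_lit 5) (nat_lit 98) (nat_lit 4) (nat_lit 473) (nat_lit 369) (nat_lit 358))) (XT.nd (nat_lit 78) (nat_lit 76) (nat_lit 0) (XT.lf (nat_lit 0) (nat_lit 1942110580) (nat_lit 152) (nat_lit 8191028610) (nat_lit 152) (nat_lit 2635871679) (nat_lit 93) (nat_lit 4) (nat_lit 95) (nat_lit 5) (nat_lit 95) (nat_lit 4)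 (nat_lit 474) (nat_lit 369) (nat_lit 357)) (XT.lf (nat_lit 0) (nat_lit 2835991077) (nat_lit 228) (nat_lit 178122174) (nat_lit 76) (nat_lit 9957322772) (nat_lit 92) (nat_lit 5) (nat_lit 95) (nat_lit 5) (nat_lit 93) (nat_lit 4) (nat_lit 475) (nat_lit 369) (nat_lit 356)))) (XT.nd (nat_lit 156) (nat_lit 304) (nat_lit 0) (XT.nd (nat_lit 78) (nat_lit 228) (nat_lit 0) (XT.lf (nat_lit 0) (nat_lit 8443355972) (nat_lit 228) (nat_lit 2412239914) (nat_lit 0) (nat_lit 2322829333) (nat_lit 90) (nat_lit 5) (nat_lit 93) (nat_lit 4) (nat_lit 90) (nat_lit 4) (nat_lit 476) (nat_lit 369) (nat_lit 355)) (XT.lf (nat_lit 0) (nat_lit 823917893) (nat_lit 228) (nat_lit 4795751971) (nat_lit 76) (nat_lit 7771337058) (nat_lit 87) (nat_lit 5) (nat_lit 90) (nat_lit 5) (nat_lit 88) (nat_lit 4) (nat_lit 477) (nat_lit 369) (nat_lit 354))) (XT.nd (nat_lit 78) (nat_lit 152) (nat_lit 0) (XT.lf (nat_lit 0) (nat_lit 6262711131) (nat_lit 152) (nat_lit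 175055178) (nat_lit 228) (nat_lit 7171299083) (nat_lit 85) (nat_lit 5) (nat_lit 87) (nat_lit 5) (nat_lit 88) (nat_lit 4) (nat_lit 478) (nat_lit 369) (nat_lit 353)) (XT.lf (nat_lit 0) (nat_lit 3753611347) (nat_lit 152) (nat_lit 8502482702) (nat_lit 152) (nat_lit 1576493171) (nat_lit 83) (nat_lit 4) (nat_lit 85) (nat_lit 5) (nat_lit 85) (nat_lit 4) (nat_lit 479) (nat_lit 369) (nat_lit 352)))))) (XT.nd (nat_lit 624) (nat_lit 836) (nat_lit 0) (XT.nd (nat_lit 312) (nat_lit 532) (nat_lit 0) (XT.nd (nat_lit 156) (nat_lit 304) (nat_lit 0) (XT.nd (nat_lit 78) (nat_lit 0) (nat_lit 0) (XT.lf (nat_lit 0) (nat_lit 1068579484) (nat_lit 76) (nat_lit 3021847041) (nat_lit 152) (nat_lit 9971605599) (nat_lit 81) (nat_lit 5) (nat_lit 82) (nat_lit 5) (nat_lit 83) (nat_lit 4) (nat_lit 480) (nat_lit 369) (nat_lit 351)) (XT.lf (nat_lit 0) (nat_lit 9923059126) (nat_lit 152) (nat_lit 1766473099) (nat_lit 0) (nat_lit 2607541371) (nat_lit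 81) (nat_lit 5) (nat_lit 83) (nat_lit 4) (nat_lit 81) (nat_lit 4) (nat_lit 481) (nat_lit 369) (nat_lit 350))) (XT.nd (nat_lit 78) (nat_lit 76) (nat_lit 0) (XT.lf (nat_lit 0) (nat_lit 1390830733) (nat_lit 228) (nat_lit 4774907240) (nat_lit 76) (nat_lit 8372235707) (nat_lit 78) (nat_lit 5) (nat_lit 81) (nat_lit 5) (nat_lit 79) (nat_lit 4) (nat_lit 482) (nat_lit 369) (nat_lit 349)) (XT.lf (nat_lit 0) (nat_lit 6797048090) (nat_lit 76) (nat_lit 429494472) (nat_lit 152) (nat_lit 7558686902) (nat_lit 77) (nat_lit 5) (nat_lit 78) (nat_lit 5) (nat_lit 79) (nat_lit 4) (nat_lit 483) (nat_lit 369) (nat_lit 348)))) (XT.nd (nat_lit 156) (nat_lit 228) (nat_lit 0) (XT.nd (nat_lit 78) (nat_lit 152) (nat_lit 0) (XT.lf (nat_lit 0) (nat_lit 3611353547) (nat_lit 152) (nat_lit 9664846736) (nat_lit 152) (nat_lit 1762539266) (nat_lit 75) (nat_lit 4) (nat_lit 77) (nat_lit 5) (nat_lit 77) (nat_lit 4) (nat_lit 484) (nat_lit 369) (nat_lit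 347)) (XT.lf (nat_lit 0) (nat_lit 201919056) (nat_lit 76) (nat_lit 3914075637) (nat_lit 152) (nat_lit 11182931434) (nat_lit 73) (nat_lit 5) (nat_lit 74) (nat_lit 5) (nat_lit 75) (nat_lit 4) (nat_lit 485) (nat_lit 369) (nat_lit 346))) (XT.nd (nat_lit 78) (nat_lit 228) (nat_lit 0) (XT.lf (nat_lit 0) (nat_lit 10174548011) (nat_lit 152) (nat_lit 3369017185) (nat_lit 0) (nat_lit 2021659540) (nat_lit 73) (nat_lit 5) (nat_lit 75) (nat_lit 4) (nat_lit 73) (nat_lit 4) (nat_lit 486) (nat_lit 369) (nat_lit 345)) (XT.lf (nat_lit 0) (nat_lit 592491654) (nat_lit 228) (nat_lit 7180053075) (nat_lit 76) (nat_lit 8065952934) (nat_lit 70) (nat_lit 5) (nat_lit 73) (nat_lit 5) (nat_lit 71) (nat_lit 4) (nat_lit 487) (nat_lit 369) (nat_lit 344))))) (XT.nd (nat_lit 312) (nat_lit 456) (nat_lit 0) (XT.nd (nat_lit 156) (nat_lit 152) (nat_lit 0) (XT.nd (nat_lit 78) (nat_lit 152) (nat_lit 0) (XT.lf (nat_lit 0) (nat_lit 4861149469) (nat_lit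 76) (nat_lit 1772932544) (nat_lit 152) (nat_lit 9484669744) (nat_lit 69) (nat_lit 5) (nat_lit 70) (nat_lit 5) (nat_lit 71) (nat_lit 4) (nat_lit 488) (nat_lit 369) (nat_lit 343)) (XT.lf (nat_lit 0) (nat_lit 800983751) (nat_lit 152) (nat_lit 12085663890) (nat_lit 152) (nat_lit 3519876335) (nat_lit 67) (nat_lit 4) (nat_lit 69) (nat_lit 5) (nat_lit 69) (nat_lit 4) (nat_lit 489) (nat_lit 369) (nat_lit 342))) (XT.nd (nat_lit 78) (nat_lit 76) (nat_lit 0) (XT.lf (nat_lit 0) (nat_lit 2611585973) (nat_lit 228) (nat_lit 3468551335) (nat_lit 76) (nat_lit 10620869800) (nat_lit 66) (nat_lit 5) (nat_lit 69) (nat_lit 5) (nat_lit 67) (nat_lit 4) (nat_lit 490) (nat_lit 369) (nat_lit 341)) (XT.lf (nat_lit 0) (nat_lit 8853494676) (nat_lit 152) (nat_lit 8003563064) (nat_lit 0) (nat_lit 146306160) (nat_lit 65) (nat_lit 5) (nat_lit 67) (nat_lit 4) (nat_lit 65) (nat_lit 4) (nat_lit 491) (nat_lit 369) (nat_lit 340)))) (XT.nd (nat_lit 156)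 (nat_lit 228) (nat_lit 0) (XT.nd (nat_lit 78) (nat_lit 76) (nat_lit 0) (XT.lf (nat_lit 0) (nat_lit 4453628025) (nat_lit 152) (nat_lit 10876932561) (nat_lit 152) (nat_lit 1982795880) (nat_lit 63) (nat_lit 4) (nat_lit 65) (nat_lit 5) (nat_lit 65) (nat_lit 4) (nat_lit 492) (nat_lit 369) (nat_lit 339)) (XT.lf (nat_lit 0) (nat_lit 4275274248) (nat_lit 228) (nat_lit 396833028) (nat_lit 76) (nat_lit 12959546116) (nat_lit 62) (nat_lit 5) (nat_lit 65) (nat_lit 5) (nat_lit 63) (nat_lit 4) (nat_lit 493) (nat_lit 369) (nat_lit 338))) (XT.nd (nat_lit 78) (nat_lit 152) (nat_lit 0) (XT.lf (nat_lit 0) (nat_lit 10730758902) (nat_lit 152) (nat_lit 5478293414) (nat_lit 0) (nat_lit 1748374116) (nat_lit 61) (nat_lit 5) (nat_lit 63) (nat_lit 4) (nat_lit 61) (nat_lit 4) (nat_lit 494) (nat_lit 369) (nat_lit 337)) (XT.lf (nat_lit 0) (nat_lit 7386915520) (nat_lit 152) (nat_lit 10026765796) (nat_lit 152) (nat_lit 878279986) (nat_lit 59) (nat_lit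 4) (nat_lit 61) (nat_lit 5) (nat_lit 61) (nat_lit 4) (nat_lit 495) (nat_lit 369) (nat_lit 336))))))))
noncomputable def xc35 : XT := (XT.nd (nat_lit 2340) (nat_lit 1292) (nat_lit 0) (XT.nd (nat_lit 1170) (nat_lit 912) (nat_lit 0) (XT.nd (nat_lit 546) (nat_lit 532) (nat_lit 0) (XT.nd (nat_lit 234) (nat_lit 380) (nat_lit 0) (XT.nd (nat_lit 78) (nat_lit 76) (nat_lit 0) (XT.lf (nat_lit 0) (nat_lit 1930527899) (nat_lit 76) (nat_lit 3606554286) (nat_lit 152) (nat_lit 13098209956) (nat_lit 57) (nat_lit 5) (nat_lit 58) (nat_lit 5) (nat_lit 59) (nat_lit 4) (nat_lit 496) (nat_lit 369) (nat_lit 335)) (XT.nd (nat_lit 78) (nat_lit 76) (nat_lit 0) (XT.lf (nat_lit 0) (nat_lit 12180102386) (nat_lit 152) (nat_lit 3817470618) (nat_lit 0) (nat_lit 2989505217) (nat_lit 57) (nat_lit 5) (nat_lit 59) (nat_lit 4) (nat_lit 57) (nat_lit 4) (nat_lit 497) (nat_lit 369) (nat_lit 334)) (XT.lf (nat_lit 0) (nat_lit 9441991631) (nat_lit 76) (nat_lit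 9622175521) (nat_lit 76) (nat_lit 283999743) (nat_lit 56) (nat_lit 4) (nat_lit 57) (nat_lit 5) (nat_lit 57) (nat_lit 4) (nat_lit 498) (nat_lit 369) (nat_lit 333)))) (XT.nd (nat_lit 156) (nat_lit 228) (nat_lit 0) (XT.nd (nat_lit 78) (nat_lit 0) (nat_lit 0) (XT.lf (nat_lit 0) (nat_lit 3297595808) (nat_lit 76) (nat_lit 2997503594) (nat_lit 152) (nat_lit 13423554831) (nat_lit 54) (nat_lit 5) (nat_lit 55) (nat_lit 5) (nat_lit 56) (nat_lit 4) (nat_lit 499) (nat_lit 369) (nat_lit 332)) (XT.lf (nat_lit 0) (nat_lit 13119197193) (nat_lit 152) (nat_lit 3200531328) (nat_lit 0) (nat_lit 3778844793) (nat_lit 54) (nat_lit 5) (nat_lit 56) (nat_lit 4) (nat_lit 54) (nat_lit 4) (nat_lit 500) (nat_lit 369) (nat_lit 331))) (XT.nd (nat_lit 78) (nat_lit 152) (nat_lit 0) (XT.lf (nat_lit 0) (nat_lit 10432010352) (nat_lit 76) (nat_lit 9763958313) (nat_lit 76) (nat_lit 292484231) (nat_lit 53) (nat_lit 4) (nat_lit 54) (nat_lit 5) (nat_lit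 54) (nat_lit 4) (nat_lit 501) (nat_lit 369) (nat_lit 330)) (XT.lf (nat_lit 0) (nat_lit 3496014054) (nat_lit 76) (nat_lit 2954621778) (nat_lit 152) (nat_lit 14437963125) (nat_lit 51) (nat_lit 5) (nat_lit 52) (nat_lit 5) (nat_lit 53) (nat_lit 4) (nat_lit 502) (nat_lit 369) (nat_lit 329))))) (XT.nd (nat_lit 312) (nat_lit 304) (nat_lit 0) (XT.nd (nat_lit 156) (nat_lit 152) (nat_lit 0) (XT.nd (nat_lit 78) (nat_lit 76) (nat_lit 0) (XT.lf (nat_lit 0) (nat_lit 13449960068) (nat_lit 152) (nat_lit 3838145616) (nat_lit 0) (nat_lit 4010764489) (nat_lit 51) (nat_lit 5) (nat_lit 53) (nat_lit 4) (nat_lit 51) (nat_lit 4) (nat_lit 503) (nat_lit 369) (nat_lit 328)) (XT.lf (nat_lit 0) (nat_lit 10137397673) (nat_lit 76) (nat_lit 10569164841) (nat_lit 76) (nat_lit 1013469346) (nat_lit 50) (nat_lit 4) (nat_lit 51) (nat_lit 5) (nat_lit 51) (nat_lit 4) (nat_lit 504) (nat_lit 369) (nat_lit 327))) (XT.nd (nat_lit 78) (nat_lit 0) (nat_lit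 0) (XT.lf (nat_lit 0) (nat_lit 2290433067) (nat_lit 76) (nat_lit 3600815837) (nat_lit 152) (nat_lit 16261387939) (nat_lit 48) (nat_lit 5) (nat_lit 49) (nat_lit 5) (nat_lit 50) (nat_lit 4) (nat_lit 505) (nat_lit 369) (nat_lit 326)) (XT.lf (nat_lit 0) (nat_lit 13056034609) (nat_lit 152) (nat_lit 5977452576) (nat_lit 0) (nat_lit 3562234071) (nat_lit 48) (nat_lit 5) (nat_lit 50) (nat_lit 4) (nat_lit 48) (nat_lit 4) (nat_lit 506) (nat_lit 369) (nat_lit 325)))) (XT.nd (nat_lit 156) (nat_lit 152) (nat_lit 0) (XT.nd (nat_lit 78) (nat_lit 76) (nat_lit 0) (XT.lf (nat_lit 0) (nat_lit 8300359682) (nat_lit 76) (nat_lit 12173946302) (nat_lit 76) (nat_lit 2576637098) (nat_lit 47) (nat_lit 4) (nat_lit 48) (nat_lit 5) (nat_lit 48) (nat_lit 4) (nat_lit 507) (nat_lit 369) (nat_lit 324)) (XT.lf (nat_lit 0) (nat_lit 4489753003) (nat_lit 152) (nat_lit 583604458) (nat_lit 76) (nat_lit 18445616397) (nat_lit 46) (nat_lit 5) (nat_lit 48)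 (nat_lit 5) (nat_lit 47) (nat_lit 4) (nat_lit 508) (nat_lit 369) (nat_lit 323))) (XT.nd (nat_lit 78) (nat_lit 76) (nat_lit 0) (XT.lf (nat_lit 0) (nat_lit 11799856231) (nat_lit 152) (nat_lit 9908131389) (nat_lit 0) (nat_lit 2289788367) (nat_lit 45) (nat_lit 5) (nat_lit 47) (nat_lit 4) (nat_lit 45) (nat_lit 4) (nat_lit 509) (nat_lit 369) (nat_lit 322)) (XT.lf (nat_lit 0) (nat_lit 4618513152) (nat_lit 76) (nat_lit 14736840641) (nat_lit 76) (nat_lit 5134806667) (nat_lit 44) (nat_lit 4) (nat_lit 45) (nat_lit 5) (nat_lit 45) (nat_lit 4) (nat_lit 510) (nat_lit 369) (nat_lit 321)))))) (XT.nd (nat_lit 546) (nat_lit 456) (nat_lit 0) (XT.nd (nat_lit 234) (nat_lit 304) (nat_lit 0) (XT.nd (nat_lit 78) (nat_lit 76) (nat_lit 0) (XT.lf (nat_lit 0) (nat_lit 2125045378) (nat_lit 152) (nat_lit 5377479340) (nat_lit 76) (nat_lit 17493377265) (nat_lit 43) (nat_lit 5) (nat_lit 45) (nat_lit 5) (nat_lit 44) (nat_lit 4) (nat_lit 511) (nat_lit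 369) (nat_lit 320)) (XT.nd (nat_lit 78) (nat_lit 0) (nat_lit 0) (XT.lf (nat_lit 0) (nat_lit 9519234200) (nat_lit 152) (nat_lit 15969442698) (nat_lit 0) (nat_lit 26022222) (nat_lit 42) (nat_lit 5) (nat_lit 44) (nat_lit 4) (nat_lit 42) (nat_lit 4) (nat_lit 512) (nat_lit 369) (nat_lit 319)) (XT.lf (nat_lit 0) (nat_lit 17192204020) (nat_lit 152) (nat_lit 1237867049) (nat_lit 0) (nat_lit 7617281345) (nat_lit 42) (nat_lit 5) (nat_lit 44) (nat_lit 4) (nat_lit 42) (nat_lit 4) (nat_lit 513) (nat_lit 369) (nat_lit 318)))) (XT.nd (nat_lit 156) (nat_lit 76) (nat_lit 0) (XT.nd (nat_lit 78) (nat_lit 152) (nat_lit 0) (XT.lf (nat_lit 0) (nat_lit 14072867044) (nat_lit 76) (nat_lit 11087708112) (nat_lit 76) (nat_lit 1433454663) (nat_lit 41) (nat_lit 4) (nat_lit 42) (nat_lit 5) (nat_lit 42) (nat_lit 4) (nat_lit 514) (nat_lit 369) (nat_lit 317)) (XT.lf (nat_lit 0) (nat_lit 2564329928) (nat_lit 76) (nat_lit 3492617631) (nat_lit 152)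 (nat_lit 21099352092) (nat_lit 39) (nat_lit 5) (nat_lit 40) (nat_lit 5) (nat_lit 41) (nat_lit 4) (nat_lit 515) (nat_lit 369) (nat_lit 316))) (XT.nd (nat_lit 78) (nat_lit 76) (nat_lit 0) (XT.lf (nat_lit 0) (nat_lit 13842637308) (nat_lit 152) (nat_lit 9567193752) (nat_lit 0) (nat_lit 4322199948) (nat_lit 39) (nat_lit 5) (nat_lit 41) (nat_lit 4) (nat_lit 39) (nat_lit 4) (nat_lit 516) (nat_lit 369) (nat_lit 315)) (XT.lf (nat_lit 0) (nat_lit 5854454492) (nat_lit 76) (nat_lit 16030406707) (nat_lit 76) (nat_lit 6439484982) (nat_lit 38) (nat_lit 4) (nat_lit 39) (nat_lit 5) (nat_lit 39) (nat_lit 4) (nat_lit 517) (nat_lit 369) (nat_lit 314))))) (XT.nd (nat_lit 312) (nat_lit 228) (nat_lit 0) (XT.nd (nat_lit 156) (nat_lit 76) (nat_lit 0) (XT.nd (nat_lit 78) (nat_lit 76) (nat_lit 0) (XT.lf (nat_lit 0) (nat_lit 1239556177) (nat_lit 152) (nat_lit 7143054107) (nat_lit 76) (nat_lit 20550574023) (nat_lit 37) (nat_lit 5) (nat_lit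 39) (nat_lit 5) (nat_lit 38) (nat_lit 4) (nat_lit 518) (nat_lit 369) (nat_lit 313)) (XT.lf (nat_lit 0) (nat_lit 8618322210) (nat_lit 76) (nat_lit 418186967) (nat_lit 152) (nat_lit 20521357358) (nat_lit 36) (nat_lit 5) (nat_lit 37) (nat_lit 5) (nat_lit 38) (nat_lit 4) (nat_lit 519) (nat_lit 369) (nat_lit 312))) (XT.nd (nat_lit 78) (nat_lit 76) (nat_lit 0) (XT.lf (nat_lit 0) (nat_lit 17149251532) (nat_lit 152) (nat_lit 5405470825) (nat_lit 0) (nat_lit 7644111143) (nat_lit 36) (nat_lit 5) (nat_lit 38) (nat_lit 4) (nat_lit 36) (nat_lit 4) (nat_lit 520) (nat_lit 369) (nat_lit 311)) (XT.lf (nat_lit 0) (nat_lit 10672767016) (nat_lit 76) (nat_lit 14875459225) (nat_lit 76) (nat_lit 5309518403) (nat_lit 35) (nat_lit 4) (nat_lit 36) (nat_lit 5) (nat_lit 36) (nat_lit 4) (nat_lit 521) (nat_lit 369) (nat_lit 310)))) (XT.nd (nat_lit 156) (nat_lit 76) (nat_lit 0) (XT.nd (nat_lit 78) (nat_lit 76) (nat_lit 0) (XT.lf (nat_lit 0) (nat_lit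 2602063781) (nat_lit 152) (nat_lit 4342780890) (nat_lit 76) (nat_lit 24591072910) (nat_lit 34) (nat_lit 5) (nat_lit 36) (nat_lit 5) (nat_lit 35) (nat_lit 4) (nat_lit 522) (nat_lit 369) (nat_lit 309)) (XT.lf (nat_lit 0) (nat_lit 10710820922) (nat_lit 152) (nat_lit 20209493522) (nat_lit 0) (nat_lit 1310548488) (nat_lit 33) (nat_lit 5) (nat_lit 35) (nat_lit 4) (nat_lit 33) (nat_lit 4) (nat_lit 523) (nat_lit 369) (nat_lit 308))) (XT.nd (nat_lit 78) (nat_lit 76) (nat_lit 0) (XT.lf (nat_lit 0) (nat_lit 19113966571) (nat_lit 152) (nat_lit 4171483154) (nat_lit 0) (nat_lit 9659673741) (nat_lit 33) (nat_lit 5) (nat_lit 35) (nat_lit 4) (nat_lit 33) (nat_lit 4) (nat_lit 524) (nat_lit 369) (nat_lit 307)) (XT.lf (nat_lit 0) (nat_lit 12472196398) (nat_lit 76) (nat_lit 15356781341) (nat_lit 76) (nat_lit 5850041524) (nat_lit 32) (nat_lit 4) (nat_lit 33) (nat_lit 5) (nat_lit 33) (nat_lit 4) (nat_lit 525) (nat_lit 369) (nat_lit 306)))))))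 (XT.nd (nat_lit 1170) (nat_lit 532) (nat_lit 0) (XT.nd (nat_lit 546) (nat_lit 380) (nat_lit 0) (XT.nd (nat_lit 234) (nat_lit 228) (nat_lit 0) (XT.nd (nat_lit 78) (nat_lit 76) (nat_lit 0) (XT.lf (nat_lit 0) (nat_lit 2306701953) (nat_lit 152) (nat_lit 4875054255) (nat_lit 76) (nat_lit 27253019115) (nat_lit 31) (nat_lit 5) (nat_lit 33) (nat_lit 5) (nat_lit 32) (nat_lit 4) (nat_lit 526) (nat_lit 369) (nat_lit 305)) (XT.nd (nat_lit 78) (nat_lit 0) (nat_lit 0) (XT.lf (nat_lit 0) (nat_lit 10660726600) (nat_lit 152) (nat_lit 23215186215) (nat_lit 0) (nat_lit 1333449379) (nat_lit 30) (nat_lit 5) (nat_lit 32) (nat_lit 4) (nat_lit 30) (nat_lit 4) (nat_lit 527) (nat_lit 369) (nat_lit 304)) (XT.lf (nat_lit 0) (nat_lit 19327912502) (nat_lit 152) (nat_lit 6723361657) (nat_lit 0) (nat_lit 9954036812) (nat_lit 30) (nat_lit 5) (nat_lit 32) (nat_lit 4) (nat_lit 30) (nat_lit 4) (nat_lit 528) (nat_lit 369) (nat_lit 303)))) (XT.nd (nat_lit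 156) (nat_lit 152) (nat_lit 0) (XT.nd (nat_lit 78) (nat_lit 0) (nat_lit 0) (XT.lf (nat_lit 0) (nat_lit 10353133010) (nat_lit 76) (nat_lit 17944917267) (nat_lit 76) (nat_lit 8525800345) (nat_lit 29) (nat_lit 4) (nat_lit 30) (nat_lit 5) (nat_lit 30) (nat_lit 4) (nat_lit 529) (nat_lit 369) (nat_lit 302)) (XT.lf (nat_lit 0) (nat_lit 27968732431) (nat_lit 76) (nat_lit 9580449142) (nat_lit 76) (nat_lit 117408694) (nat_lit 29) (nat_lit 4) (nat_lit 30) (nat_lit 5) (nat_lit 30) (nat_lit 4) (nat_lit 530) (nat_lit 369) (nat_lit 301))) (XT.nd (nat_lit 78) (nat_lit 0) (nat_lit 0) (XT.lf (nat_lit 0) (nat_lit 7534212219) (nat_lit 76) (nat_lit 859825646) (nat_lit 152) (nat_lit 30137585637) (nat_lit 27) (nat_lit 5) (nat_lit 28) (nat_lit 5) (nat_lit 29) (nat_lit 4) (nat_lit 531) (nat_lit 369) (nat_lit 300)) (XT.lf (nat_lit 0) (nat_lit 17280582791) (nat_lit 152) (nat_lit 14126760575) (nat_lit 0) (nat_lit 8011566496) (nat_lit 27) (nat_lit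 5) (nat_lit 29) (nat_lit 4) (nat_lit 27) (nat_lit 4) (nat_lit 532) (nat_lit 369) (nat_lit 299))))) (XT.nd (nat_lit 312) (nat_lit 152) (nat_lit 0) (XT.nd (nat_lit 156) (nat_lit 152) (nat_lit 0) (XT.nd (nat_lit 78) (nat_lit 0) (nat_lit 0) (XT.lf (nat_lit 0) (nat_lit 3198154549) (nat_lit 76) (nat_lit 23221561360) (nat_lit 76) (nat_lit 13913519580) (nat_lit 26) (nat_lit 4) (nat_lit 27) (nat_lit 5) (nat_lit 27) (nat_lit 4) (nat_lit 533) (nat_lit 369) (nat_lit 298)) (XT.lf (nat_lit 0) (nat_lit 21227689135) (nat_lit 76) (nat_lit 14695267381) (nat_lit 76) (nat_lit 5349336783) (nat_lit 26) (nat_lit 4) (nat_lit 27) (nat_lit 5) (nat_lit 27) (nat_lit 4) (nat_lit 534) (nat_lit 369) (nat_lit 297))) (XT.nd (nat_lit 78) (nat_lit 76) (nat_lit 0) (XT.lf (nat_lit 0) (nat_lit 3352333986) (nat_lit 152) (nat_lit 2577477868) (nat_lit 76) (nat_lit 36310260923) (nat_lit 25) (nat_lit 5) (nat_lit 27) (nat_lit 5) (nat_lit 26) (nat_lit 4) (nat_lit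 535) (nat_lit 369) (nat_lit 296)) (XT.lf (nat_lit 0) (nat_lit 12338286427) (nat_lit 152) (nat_lit 27698908329) (nat_lit 0) (nat_lit 3194179916) (nat_lit 24) (nat_lit 5) (nat_lit 26) (nat_lit 4) (nat_lit 24) (nat_lit 4) (nat_lit 536) (nat_lit 369) (nat_lit 295)))) (XT.nd (nat_lit 156) (nat_lit 76) (nat_lit 0) (XT.nd (nat_lit 78) (nat_lit 76) (nat_lit 0) (XT.lf (nat_lit 0) (nat_lit 21628669637) (nat_lit 152) (nat_lit 10171801396) (nat_lit 0) (nat_lit 12450899400) (nat_lit 24) (nat_lit 5) (nat_lit 26) (nat_lit 4) (nat_lit 24) (nat_lit 4) (nat_lit 537) (nat_lit 369) (nat_lit 294)) (XT.lf (nat_lit 0) (nat_lit 7939203788) (nat_lit 76) (nat_lit 23286193557) (nat_lit 76) (nat_lit 14075740092) (nat_lit 23) (nat_lit 4) (nat_lit 24) (nat_lit 5) (nat_lit 24) (nat_lit 4) (nat_lit 538) (nat_lit 369) (nat_lit 293))) (XT.nd (nat_lit 78) (nat_lit 76) (nat_lit 0) (XT.lf (nat_lit 0) (nat_lit 26706163054) (nat_lit 76) (nat_lit 14458391831)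 (nat_lit 76) (nat_lit 5216207077) (nat_lit 23) (nat_lit 4) (nat_lit 24) (nat_lit 5) (nat_lit 24) (nat_lit 4) (nat_lit 539) (nat_lit 369) (nat_lit 292)) (XT.lf (nat_lit 0) (nat_lit 3785583798) (nat_lit 152) (nat_lit 1588256720) (nat_lit 76) (nat_lit 42119225150) (nat_lit 22) (nat_lit 5) (nat_lit 24) (nat_lit 5) (nat_lit 23) (nat_lit 4) (nat_lit 540) (nat_lit 369) (nat_lit 291)))))) (XT.nd (nat_lit 624) (nat_lit 228) (nat_lit 0) (XT.nd (nat_lit 312) (nat_lit 152) (nat_lit 0) (XT.nd (nat_lit 156) (nat_lit 76) (nat_lit 0) (XT.nd (nat_lit 78) (nat_lit 0) (nat_lit 0) (XT.lf (nat_lit 0) (nat_lit 13112385042) (nat_lit 152) (nat_lit 31439568755) (nat_lit 0) (nat_lit 4080441725) (nat_lit 21) (nat_lit 5) (nat_lit 23) (nat_lit 4) (nat_lit 21) (nat_lit 4) (nat_lit 541) (nat_lit 369) (nat_lit 290)) (XT.lf (nat_lit 0) (nat_lit 22742557105) (nat_lit 152) (nat_lit 13380220526) (nat_lit 0) (nat_lit 13682420948) (nat_lit 21) (nat_lit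 5) (nat_lit 23) (nat_lit 4) (nat_lit 21) (nat_lit 4) (nat_lit 542) (nat_lit 369) (nat_lit 289))) (XT.nd (nat_lit 78) (nat_lit 0) (nat_lit 0) (XT.lf (nat_lit 0) (nat_lit 5234378133) (nat_lit 76) (nat_lit 27433070656) (nat_lit 76) (nat_lit 18345562810) (nat_lit 20) (nat_lit 4) (nat_lit 21) (nat_lit 5) (nat_lit 21) (nat_lit 4) (nat_lit 543) (nat_lit 369) (nat_lit 288)) (XT.lf (nat_lit 0) (nat_lit 24593893899) (nat_lit 76) (nat_lit 18387257883) (nat_lit 76) (nat_lit 9273175582) (nat_lit 20) (nat_lit 4) (nat_lit 21) (nat_lit 5) (nat_lit 21) (nat_lit 4) (nat_lit 544) (nat_lit 369) (nat_lit 287)))) (XT.nd (nat_lit 156) (nat_lit 0) (nat_lit 0) (XT.nd (nat_lit 78) (nat_lit 76) (nat_lit 0) (XT.lf (nat_lit 0) (nat_lit 26800169) (nat_lit 152) (nat_lit 9085478399) (nat_lit 76) (nat_lit 44421879431) (nat_lit 19) (nat_lit 5) (nat_lit 21) (nat_lit 5) (nat_lit 20) (nat_lit 4) (nat_lit 545) (nat_lit 369) (nat_lit 286)) (XT.lf (nat_lit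 0) (nat_lit 9479944374) (nat_lit 152) (nat_lit 44785916099) (nat_lit 0) (nat_lit 581952416) (nat_lit 18) (nat_lit 5) (nat_lit 20) (nat_lit 4) (nat_lit 18) (nat_lit 4) (nat_lit 546) (nat_lit 369) (nat_lit 285))) (XT.nd (nat_lit 78) (nat_lit 0) (nat_lit 0) (XT.lf (nat_lit 0) (nat_lit 19357654092) (nat_lit 152) (nat_lit 26402943385) (nat_lit 0) (nat_lit 10436051074) (nat_lit 18) (nat_lit 5) (nat_lit 20) (nat_lit 4) (nat_lit 18) (nat_lit 4) (nat_lit 547) (nat_lit 369) (nat_lit 284)) (XT.lf (nat_lit 0) (nat_lit 29491012302) (nat_lit 152) (nat_lit 7549671793) (nat_lit 0) (nat_lit 20546485925) (nat_lit 18) (nat_lit 5) (nat_lit 20) (nat_lit 4) (nat_lit 18) (nat_lit 4) (nat_lit 548) (nat_lit 369) (nat_lit 283))))) (XT.nd (nat_lit 312) (nat_lit 0) (nat_lit 0) (XT.nd (nat_lit 156) (nat_lit 152) (nat_lit 0) (XT.nd (nat_lit 78) (nat_lit 0) (nat_lit 0) (XT.lf (nat_lit 0) (nat_lit 12025023939) (nat_lit 76) (nat_lit 27979441343)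 (nat_lit 76) (nat_lit 19012659278) (nat_lit 17) (nat_lit 4) (nat_lit 18) (nat_lit 5) (nat_lit 18) (nat_lit 4) (nat_lit 549) (nat_lit 369) (nat_lit 282)) (XT.lf (nat_lit 0) (nat_lit 32263668678) (nat_lit 76) (nat_lit 18606792325) (nat_lit 76) (nat_lit 9618402796) (nat_lit 17) (nat_lit 4) (nat_lit 18) (nat_lit 5) (nat_lit 18) (nat_lit 4) (nat_lit 550) (nat_lit 369) (nat_lit 281))) (XT.nd (nat_lit 78) (nat_lit 76) (nat_lit 0) (XT.lf (nat_lit 0) (nat_lit 18220787) (nat_lit 152) (nat_lit 8972379450) (nat_lit 76) (nat_lit 53015288620) (nat_lit 16) (nat_lit 5) (nat_lit 18) (nat_lit 5) (nat_lit 17) (nat_lit 4) (nat_lit 551) (nat_lit 369) (nat_lit 280)) (XT.lf (nat_lit 0) (nat_lit 9828603718) (nat_lit 152) (nat_lit 52672753843) (nat_lit 0) (nat_lit 1061870944) (nat_lit 15) (nat_lit 5) (nat_lit 17) (nat_lit 4) (nat_lit 15) (nat_lit 4) (nat_lit 552) (nat_lit 369) (nat_lit 279)))) (XT.nd (nat_lit 55302) (nat_lit 0) (nat_lit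 8208) (XT.nd (nat_lit 55224) (nat_lit 0) (nat_lit 8740) (XT.lf (nat_lit 0) (nat_lit 20076619517) (nat_lit 152) (nat_lit 33795680606) (nat_lit 0) (nat_lit 11290688790) (nat_lit 15) (nat_lit 5) (nat_lit 17) (nat_lit 4) (nat_lit 15) (nat_lit 4) (nat_lit 553) (nat_lit 369) (nat_lit 278)) (XT.lf (nat_lit 0) (nat_lit 2469756375) (nat_lit 304) (nat_lit 271164393) (nat_lit 0) (nat_lit 2469756375) (nat_lit 130) (nat_lit 5) (nat_lit 134) (nat_lit 4) (nat_lit 130) (nat_lit 4) (nat_lit 460) (nat_lit 370) (nat_lit 370))) (XT.nd (nat_lit 78) (nat_lit 304) (nat_lit 0) (XT.lf (nat_lit 0) (nat_lit 8892724144) (nat_lit 228) (nat_lit 1168738103) (nat_lit 228) (nat_lit 502358232) (nat_lit 127) (nat_lit 4) (nat_lit 130) (nat_lit 5) (nat_lit 130) (nat_lit 4) (nat_lit 461) (nat_lit 370) (nat_lit 369)) (XT.lf (nat_lit 0) (nat_lit 4538504580) (nat_lit 304) (nat_lit 2907253702) (nat_lit 0) (nat_lit 3263406892) (nat_lit 123) (nat_lit 5) (nat_lit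 127) (nat_lit 4) (nat_lit 123) (nat_lit 4) (nat_lit 462) (nat_lit 370) (nat_lit 368))))))))
noncomputable def xc36 : XT := (XT.nd (nat_lit 2340) (nat_lit 2128) (nat_lit 0) (XT.nd (nat_lit 1170) (nat_lit 1824) (nat_lit 0) (XT.nd (nat_lit 546) (nat_lit 1368) (nat_lit 0) (XT.nd (nat_lit 234) (nat_lit 684) (nat_lit 0) (XT.nd (nat_lit 78) (nat_lit 456) (nat_lit 0) (XT.lf (nat_lit 0) (nat_lit 6662501598) (nat_lit 228) (nat_lit 3040835297) (nat_lit 228) (nat_lit 1155905628) (nat_lit 120) (nat_lit 4) (nat_lit 123) (nat_lit 5) (nat_lit 123) (nat_lit 4) (nat_lit 463) (nat_lit 370) (nat_lit 367)) (XT.nd (nat_lit 78) (nat_lit 228) (nat_lit 0) (XT.lf (nat_lit 0) (nat_lit 3918439900) (nat_lit 228) (nat_lit 5581024983) (nat_lit 0) (nat_lit 1513585966) (nat_lit 117) (nat_lit 5) (nat_lit 120) (nat_lit 4) (nat_lit 117) (nat_lit 4) (nat_lit 464) (nat_lit 370) (nat_lit 366)) (XT.lf (nat_lit 0) (nat_lit 4116999369) (nat_lit 228) (nat_lit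 5008481277) (nat_lit 228) (nat_lit 2045544692) (nat_lit 114) (nat_lit 4) (nat_lit 117) (nat_lit 5) (nat_lit 117) (nat_lit 4) (nat_lit 465) (nat_lit 370) (nat_lit 365)))) (XT.nd (nat_lit 156) (nat_lit 228) (nat_lit 0) (XT.nd (nat_lit 78) (nat_lit 228) (nat_lit 0) (XT.lf (nat_lit 0) (nat_lit 2723397328) (nat_lit 152) (nat_lit 344662636) (nat_lit 228) (nat_lit 8265536134) (nat_lit 111) (nat_lit 5) (nat_lit 113) (nat_lit 5) (nat_lit 114) (nat_lit 4) (nat_lit 466) (nat_lit 370) (nat_lit 364)) (XT.lf (nat_lit 0) (nat_lit 1211850298) (nat_lit 228) (nat_lit 7100720977) (nat_lit 228) (nat_lit 3187312410) (nat_lit 108) (nat_lit 4) (nat_lit 111) (nat_lit 5) (nat_lit 111) (nat_lit 4) (nat_lit 467) (nat_lit 370) (nat_lit 363))) (XT.nd (nat_lit 78) (nat_lit 152) (nat_lit 0) (XT.lf (nat_lit 0) (nat_lit 1987062209) (nat_lit 304) (nat_lit 375521488) (nat_lit 76) (nat_lit 9308482029) (nat_lit 107) (nat_lit 5) (nat_lit 111) (nat_lit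 5) (nat_lit 108) (nat_lit 4) (nat_lit 468) (nat_lit 370) (nat_lit 362)) (XT.lf (nat_lit 0) (nat_lit 7267205974) (nat_lit 228) (nat_lit 2059809956) (nat_lit 0) (nat_lit 2518987751) (nat_lit 105) (nat_lit 5) (nat_lit 108) (nat_lit 4) (nat_lit 105) (nat_lit 4) (nat_lit 469) (nat_lit 370) (nat_lit 361))))) (XT.nd (nat_lit 312) (nat_lit 608) (nat_lit 0) (XT.nd (nat_lit 156) (nat_lit 380) (nat_lit 0) (XT.nd (nat_lit 78) (nat_lit 152) (nat_lit 0) (XT.lf (nat_lit 0) (nat_lit 668387866) (nat_lit 228) (nat_lit 3845163119) (nat_lit 76) (nat_lit 7512385161) (nat_lit 102) (nat_lit 5) (nat_lit 105) (nat_lit 5) (nat_lit 103) (nat_lit 4) (nat_lit 470) (nat_lit 370) (nat_lit 360)) (XT.lf (nat_lit 0) (nat_lit 5965215026) (nat_lit 228) (nat_lit 5758153651) (nat_lit 0) (nat_lit 487014942) (nat_lit 100) (nat_lit 5) (nat_lit 103) (nat_lit 4) (nat_lit 100) (nat_lit 4) (nat_lit 471) (nat_lit 370) (nat_lit 359))) (XT.nd (nat_lit 78) (nat_lit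 228) (nat_lit 0) (XT.lf (nat_lit 0) (nat_lit 4598852711) (nat_lit 152) (nat_lit 6847115869) (nat_lit 152) (nat_lit 953649880) (nat_lit 98) (nat_lit 4) (nat_lit 100) (nat_lit 5) (nat_lit 100) (nat_lit 4) (nat_lit 472) (nat_lit 370) (nat_lit 358)) (XT.lf (nat_lit 0) (nat_lit 2614815211) (nat_lit 152) (nat_lit 1775062611) (nat_lit 228) (nat_lit 8203929873) (nat_lit 95) (nat_lit 5) (nat_lit 97) (nat_lit 5) (nat_lit 98) (nat_lit 4) (nat_lit 473) (nat_lit 370) (nat_lit 357)))) (XT.nd (nat_lit 156) (nat_lit 380) (nat_lit 0) (XT.nd (nat_lit 78) (nat_lit 76) (nat_lit 0) (XT.lf (nat_lit 0) (nat_lit 492853693) (nat_lit 152) (nat_lit 9396752351) (nat_lit 152) (nat_lit 2903485640) (nat_lit 93) (nat_lit 4) (nat_lit 95) (nat_lit 5) (nat_lit 95) (nat_lit 4) (nat_lit 474) (nat_lit 370) (nat_lit 356)) (XT.lf (nat_lit 0) (nat_lit 2523271739) (nat_lit 228) (nat_lit 1739983457) (nat_lit 76) (nat_lit 8733850591) (nat_lit 92) (nat_lit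 5) (nat_lit 95) (nat_lit 5) (nat_lit 93) (nat_lit 4) (nat_lit 475) (nat_lit 370) (nat_lit 355))) (XT.nd (nat_lit 78) (nat_lit 228) (nat_lit 0) (XT.lf (nat_lit 0) (nat_lit 8053047356) (nat_lit 228) (nat_lit 4110462958) (nat_lit 0) (nat_lit 1042914244) (nat_lit 90) (nat_lit 5) (nat_lit 93) (nat_lit 4) (nat_lit 90) (nat_lit 4) (nat_lit 476) (nat_lit 370) (nat_lit 354)) (XT.lf (nat_lit 0) (nat_lit 346939225) (nat_lit 228) (nat_lit 6643495666) (nat_lit 76) (nat_lit 6430698791) (nat_lit 87) (nat_lit 5) (nat_lit 90) (nat_lit 5) (nat_lit 88) (nat_lit 4) (nat_lit 477) (nat_lit 370) (nat_lit 353)))))) (XT.nd (nat_lit 546) (nat_lit 912) (nat_lit 0) (XT.nd (nat_lit 234) (nat_lit 532) (nat_lit 0) (XT.nd (nat_lit 78) (nat_lit 228) (nat_lit 0) (XT.lf (nat_lit 0) (nat_lit 4287680146) (nat_lit 152) (nat_lit 1605559843) (nat_lit 228) (nat_lit 7747980325) (nat_lit 85) (nat_lit 5) (nat_lit 87) (nat_lit 5) (nat_lit 88) (nat_lit 4) (nat_lit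 478) (nat_lit 370) (nat_lit 352)) (XT.nd (nat_lit 78) (nat_lit 76) (nat_lit 0) (XT.lf (nat_lit 0) (nat_lit 1629797751) (nat_lit 152) (nat_lit 9999227567) (nat_lit 152) (nat_lit 2238194780) (nat_lit 83) (nat_lit 4) (nat_lit 85) (nat_lit 5) (nat_lit 85) (nat_lit 4) (nat_lit 479) (nat_lit 370) (nat_lit 351)) (XT.lf (nat_lit 0) (nat_lit 3383076618) (nat_lit 228) (nat_lit 1193384175) (nat_lit 76) (nat_lit 9522153432) (nat_lit 82) (nat_lit 5) (nat_lit 85) (nat_lit 5) (nat_lit 83) (nat_lit 4) (nat_lit 480) (nat_lit 370) (nat_lit 350)))) (XT.nd (nat_lit 156) (nat_lit 228) (nat_lit 0) (XT.nd (nat_lit 78) (nat_lit 228) (nat_lit 0) (XT.lf (nat_lit 0) (nat_lit 9140831500) (nat_lit 152) (nat_lit 4163258881) (nat_lit 0) (nat_lit 1031813188) (nat_lit 81) (nat_lit 5) (nat_lit 83) (nat_lit 4) (nat_lit 81) (nat_lit 4) (nat_lit 481) (nat_lit 370) (nat_lit 349)) (XT.lf (nat_lit 0) (nat_lit 514026303) (nat_lit 228) (nat_lit 7340084600)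 (nat_lit 76) (nat_lit 6725084037) (nat_lit 78) (nat_lit 5) (nat_lit 81) (nat_lit 5) (nat_lit 79) (nat_lit 4) (nat_lit 482) (nat_lit 370) (nat_lit 348))) (XT.nd (nat_lit 78) (nat_lit 152) (nat_lit 0) (XT.lf (nat_lit 0) (nat_lit 4092412883) (nat_lit 76) (nat_lit 2184687737) (nat_lit 152) (nat_lit 8551530638) (nat_lit 77) (nat_lit 5) (nat_lit 78) (nat_lit 5) (nat_lit 79) (nat_lit 4) (nat_lit 483) (nat_lit 370) (nat_lit 347)) (XT.lf (nat_lit 0) (nat_lit 737271308) (nat_lit 152) (nat_lit 11498500194) (nat_lit 152) (nat_lit 2849100815) (nat_lit 75) (nat_lit 4) (nat_lit 77) (nat_lit 5) (nat_lit 77) (nat_lit 4) (nat_lit 484) (nat_lit 370) (nat_lit 346))))) (XT.nd (nat_lit 312) (nat_lit 456) (nat_lit 0) (XT.nd (nat_lit 156) (nat_lit 304) (nat_lit 0) (XT.nd (nat_lit 78) (nat_lit 76) (nat_lit 0) (XT.lf (nat_lit 0) (nat_lit 3002278629) (nat_lit 228) (nat_lit 2798698714) (nat_lit 76) (nat_lit 9545846901) (nat_lit 74) (nat_lit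 5) (nat_lit 77) (nat_lit 5) (nat_lit 75) (nat_lit 4) (nat_lit 485) (nat_lit 370) (nat_lit 345)) (XT.lf (nat_lit 0) (nat_lit 8968706367) (nat_lit 152) (nat_lit 6542693270) (nat_lit 0) (nat_lit 104488236) (nat_lit 73) (nat_lit 5) (nat_lit 75) (nat_lit 4) (nat_lit 73) (nat_lit 4) (nat_lit 486) (nat_lit 370) (nat_lit 344))) (XT.nd (nat_lit 78) (nat_lit 152) (nat_lit 0) (XT.lf (nat_lit 0) (nat_lit 5341395355) (nat_lit 152) (nat_lit 9818845562) (nat_lit 152) (nat_lit 731401545) (nat_lit 71) (nat_lit 4) (nat_lit 73) (nat_lit 5) (nat_lit 73) (nat_lit 4) (nat_lit 487) (nat_lit 370) (nat_lit 343)) (XT.lf (nat_lit 0) (nat_lit 1344791961) (nat_lit 76) (nat_lit 3901001210) (nat_lit 152) (nat_lit 10928675490) (nat_lit 69) (nat_lit 5) (nat_lit 70) (nat_lit 5) (nat_lit 71) (nat_lit 4) (nat_lit 488) (nat_lit 370) (nat_lit 342)))) (XT.nd (nat_lit 156) (nat_lit 228) (nat_lit 0) (XT.nd (nat_lit 78) (nat_lit 228) (nat_lit 0) (XT.lf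 (nat_lit 0) (nat_lit 11425459590) (nat_lit 152) (nat_lit 2850966085) (nat_lit 0) (nat_lit 2188003294) (nat_lit 69) (nat_lit 5) (nat_lit 71) (nat_lit 4) (nat_lit 69) (nat_lit 4) (nat_lit 489) (nat_lit 370) (nat_lit 341)) (XT.lf (nat_lit 0) (nat_lit 1049222994) (nat_lit 228) (nat_lit 7305866924) (nat_lit 76) (nat_lit 8406448693) (nat_lit 66) (nat_lit 5) (nat_lit 69) (nat_lit 5) (nat_lit 67) (nat_lit 4) (nat_lit 490) (nat_lit 370) (nat_lit 340))) (XT.nd (nat_lit 78) (nat_lit 152) (nat_lit 0) (XT.lf (nat_lit 0) (nat_lit 5003661928) (nat_lit 76) (nat_lit 2204223856) (nat_lit 152) (nat_lit 9858508015) (nat_lit 65) (nat_lit 5) (nat_lit 66) (nat_lit 5) (nat_lit 67) (nat_lit 4) (nat_lit 491) (nat_lit 370) (nat_lit 339)) (XT.lf (nat_lit 0) (nat_lit 251240590) (nat_lit 152) (nat_lit 13328852274) (nat_lit 152) (nat_lit 3799440254) (nat_lit 63) (nat_lit 4) (nat_lit 65) (nat_lit 5) (nat_lit 65) (nat_lit 4) (nat_lit 492) (nat_lit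 370) (nat_lit 338))))))) (XT.nd (nat_lit 1170) (nat_lit 912) (nat_lit 0) (XT.nd (nat_lit 546) (nat_lit 608) (nat_lit 0) (XT.nd (nat_lit 234) (nat_lit 304) (nat_lit 0) (XT.nd (nat_lit 78) (nat_lit 228) (nat_lit 0) (XT.lf (nat_lit 0) (nat_lit 2450855976) (nat_lit 228) (nat_lit 4730390963) (nat_lit 76) (nat_lit 10518404615) (nat_lit 62) (nat_lit 5) (nat_lit 65) (nat_lit 5) (nat_lit 63) (nat_lit 4) (nat_lit 493) (nat_lit 370) (nat_lit 337)) (XT.nd (nat_lit 78) (nat_lit 152) (nat_lit 0) (XT.lf (nat_lit 0) (nat_lit 7995335788) (nat_lit 76) (nat_lit 808628959) (nat_lit 152) (nat_lit 9224532028) (nat_lit 61) (nat_lit 5) (nat_lit 62) (nat_lit 5) (nat_lit 63) (nat_lit 4) (nat_lit 494) (nat_lit 370) (nat_lit 336)) (XT.lf (nat_lit 0) (nat_lit 2667576671) (nat_lit 152) (nat_lit 12724305273) (nat_lit 152) (nat_lit 2974000736) (nat_lit 59) (nat_lit 4) (nat_lit 61) (nat_lit 5) (nat_lit 61) (nat_lit 4) (nat_lit 495) (nat_lit 370)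 (nat_lit 335)))) (XT.nd (nat_lit 156) (nat_lit 152) (nat_lit 0) (XT.nd (nat_lit 78) (nat_lit 76) (nat_lit 0) (XT.lf (nat_lit 0) (nat_lit 3421877733) (nat_lit 228) (nat_lit 2960458883) (nat_lit 76) (nat_lit 12329293456) (nat_lit 58) (nat_lit 5) (nat_lit 61) (nat_lit 5) (nat_lit 59) (nat_lit 4) (nat_lit 496) (nat_lit 370) (nat_lit 334)) (XT.lf (nat_lit 0) (nat_lit 9967171578) (nat_lit 152) (nat_lit 8897905249) (nat_lit 0) (nat_lit 201271919) (nat_lit 57) (nat_lit 5) (nat_lit 59) (nat_lit 4) (nat_lit 57) (nat_lit 4) (nat_lit 497) (nat_lit 370) (nat_lit 333))) (XT.nd (nat_lit 78) (nat_lit 76) (nat_lit 0) (XT.lf (nat_lit 0) (nat_lit 4180943404) (nat_lit 76) (nat_lit 12579203668) (nat_lit 76) (nat_lit 2670023807) (nat_lit 56) (nat_lit 4) (nat_lit 57) (nat_lit 5) (nat_lit 57) (nat_lit 4) (nat_lit 498) (nat_lit 370) (nat_lit 332)) (XT.lf (nat_lit 0) (nat_lit 3883460465) (nat_lit 152) (nat_lit 2164862108) (nat_lit 76) (nat_lit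 13755189701) (nat_lit 55) (nat_lit 5) (nat_lit 57) (nat_lit 5) (nat_lit 56) (nat_lit 4) (nat_lit 499) (nat_lit 370) (nat_lit 331))))) (XT.nd (nat_lit 312) (nat_lit 304) (nat_lit 0) (XT.nd (nat_lit 156) (nat_lit 152) (nat_lit 0) (XT.nd (nat_lit 78) (nat_lit 76) (nat_lit 0) (XT.lf (nat_lit 0) (nat_lit 10616400412) (nat_lit 152) (nat_lit 8840105967) (nat_lit 0) (nat_lit 729660426) (nat_lit 54) (nat_lit 5) (nat_lit 56) (nat_lit 4) (nat_lit 54) (nat_lit 4) (nat_lit 500) (nat_lit 370) (nat_lit 330)) (XT.lf (nat_lit 0) (nat_lit 4602889111) (nat_lit 76) (nat_lit 12995029085) (nat_lit 76) (nat_lit 2980986496) (nat_lit 53) (nat_lit 4) (nat_lit 54) (nat_lit 5) (nat_lit 54) (nat_lit 4) (nat_lit 501) (nat_lit 370) (nat_lit 329))) (XT.nd (nat_lit 78) (nat_lit 76) (nat_lit 0) (XT.lf (nat_lit 0) (nat_lit 3741805540) (nat_lit 152) (nat_lit 2541772103) (nat_lit 76) (nat_lit 14698432781) (nat_lit 52) (nat_lit 5) (nat_lit 54) (nat_lit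 5) (nat_lit 53) (nat_lit 4) (nat_lit 502) (nat_lit 370) (nat_lit 328)) (XT.lf (nat_lit 0) (nat_lit 10644849437) (nat_lit 152) (nat_lit 10064338086) (nat_lit 0) (nat_lit 685983162) (nat_lit 51) (nat_lit 5) (nat_lit 53) (nat_lit 4) (nat_lit 51) (nat_lit 4) (nat_lit 503) (nat_lit 370) (nat_lit 327)))) (XT.nd (nat_lit 156) (nat_lit 152) (nat_lit 0) (XT.nd (nat_lit 78) (nat_lit 76) (nat_lit 0) (XT.lf (nat_lit 0) (nat_lit 3712128254) (nat_lit 76) (nat_lit 14089584942) (nat_lit 76) (nat_lit 4017611952) (nat_lit 50) (nat_lit 4) (nat_lit 51) (nat_lit 5) (nat_lit 51) (nat_lit 4) (nat_lit 504) (nat_lit 370) (nat_lit 326)) (XT.lf (nat_lit 0) (nat_lit 2885767856) (nat_lit 152) (nat_lit 4323676586) (nat_lit 76) (nat_lit 15045151403) (nat_lit 49) (nat_lit 5) (nat_lit 51) (nat_lit 5) (nat_lit 50) (nat_lit 4) (nat_lit 505) (nat_lit 370) (nat_lit 325))) (XT.nd (nat_lit 78) (nat_lit 76) (nat_lit 0) (XT.lf (nat_lit 0) (nat_lit 9881073804)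 (nat_lit 76) (nat_lit 54627212) (nat_lit 152) (nat_lit 12765425381) (nat_lit 48) (nat_lit 5) (nat_lit 49) (nat_lit 5) (nat_lit 50) (nat_lit 4) (nat_lit 506) (nat_lit 370) (nat_lit 324)) (XT.lf (nat_lit 0) (nat_lit 1249044548) (nat_lit 76) (nat_lit 15999843870) (nat_lit 76) (nat_lit 5910612873) (nat_lit 47) (nat_lit 4) (nat_lit 48) (nat_lit 5) (nat_lit 48) (nat_lit 4) (nat_lit 507) (nat_lit 370) (nat_lit 323)))))) (XT.nd (nat_lit 546) (nat_lit 456) (nat_lit 0) (XT.nd (nat_lit 234) (nat_lit 304) (nat_lit 0) (XT.nd (nat_lit 78) (nat_lit 76) (nat_lit 0) (XT.lf (nat_lit 0) (nat_lit 1184086248) (nat_lit 152) (nat_lit 7783102758) (nat_lit 76) (nat_lit 14662407488) (nat_lit 46) (nat_lit 5) (nat_lit 48) (nat_lit 5) (nat_lit 47) (nat_lit 4) (nat_lit 508) (nat_lit 370) (nat_lit 322)) (XT.nd (nat_lit 78) (nat_lit 0) (nat_lit 0) (XT.lf (nat_lit 0) (nat_lit 6699014044) (nat_lit 76) (nat_lit 1665782497) (nat_lit 152) (nat_lit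 15747484373) (nat_lit 45) (nat_lit 5) (nat_lit 46) (nat_lit 5) (nat_lit 47) (nat_lit 4) (nat_lit 509) (nat_lit 370) (nat_lit 321)) (XT.lf (nat_lit 0) (nat_lit 15824260947) (nat_lit 152) (nat_lit 3030373562) (nat_lit 0) (nat_lit 5752912360) (nat_lit 45) (nat_lit 5) (nat_lit 47) (nat_lit 4) (nat_lit 45) (nat_lit 4) (nat_lit 510) (nat_lit 370) (nat_lit 320)))) (XT.nd (nat_lit 156) (nat_lit 76) (nat_lit 0) (XT.nd (nat_lit 78) (nat_lit 152) (nat_lit 0) (XT.lf (nat_lit 0) (nat_lit 11861727161) (nat_lit 76) (nat_lit 11706085482) (nat_lit 76) (nat_lit 1548050016) (nat_lit 44) (nat_lit 4) (nat_lit 45) (nat_lit 5) (nat_lit 45) (nat_lit 4) (nat_lit 511) (nat_lit 370) (nat_lit 319)) (XT.lf (nat_lit 0) (nat_lit 1458295957) (nat_lit 76) (nat_lit 4305493915) (nat_lit 152) (nat_lit 19874693504) (nat_lit 42) (nat_lit 5) (nat_lit 43) (nat_lit 5) (nat_lit 44) (nat_lit 4) (nat_lit 512) (nat_lit 370) (nat_lit 318))) (XT.nd (nat_lit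 78) (nat_lit 76) (nat_lit 0) (XT.lf (nat_lit 0) (nat_lit 13360857978) (nat_lit 152) (nat_lit 9474910024) (nat_lit 0) (nat_lit 3337646152) (nat_lit 42) (nat_lit 5) (nat_lit 44) (nat_lit 4) (nat_lit 42) (nat_lit 4) (nat_lit 513) (nat_lit 370) (nat_lit 317)) (XT.lf (nat_lit 0) (nat_lit 5604869049) (nat_lit 76) (nat_lit 15609451096) (nat_lit 76) (nat_lit 5509219101) (nat_lit 41) (nat_lit 4) (nat_lit 42) (nat_lit 5) (nat_lit 42) (nat_lit 4) (nat_lit 514) (nat_lit 370) (nat_lit 316))))) (XT.nd (nat_lit 312) (nat_lit 228) (nat_lit 0) (XT.nd (nat_lit 156) (nat_lit 76) (nat_lit 0) (XT.nd (nat_lit 78) (nat_lit 76) (nat_lit 0) (XT.lf (nat_lit 0) (nat_lit 2002578474) (nat_lit 152) (nat_lit 6109774555) (nat_lit 76) (nat_lit 19176375933) (nat_lit 40) (nat_lit 5) (nat_lit 42) (nat_lit 5) (nat_lit 41) (nat_lit 4) (nat_lit 515) (nat_lit 370) (nat_lit 315)) (XT.lf (nat_lit 0) (nat_lit 9347690010) (nat_lit 76) (nat_lit 305166031)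 (nat_lit 152) (nat_lit 18215667027) (nat_lit 39) (nat_lit 5) (nat_lit 40) (nat_lit 5) (nat_lit 41) (nat_lit 4) (nat_lit 516) (nat_lit 370) (nat_lit 314))) (XT.nd (nat_lit 78) (nat_lit 76) (nat_lit 0) (XT.lf (nat_lit 0) (nat_lit 17603398938) (nat_lit 152) (nat_lit 3274356334) (nat_lit 0) (nat_lit 7585833773) (nat_lit 39) (nat_lit 5) (nat_lit 41) (nat_lit 4) (nat_lit 39) (nat_lit 4) (nat_lit 517) (nat_lit 370) (nat_lit 313)) (XT.lf (nat_lit 0) (nat_lit 12545432992) (nat_lit 76) (nat_lit 13306644796) (nat_lit 76) (nat_lit 3222641357) (nat_lit 38) (nat_lit 4) (nat_lit 39) (nat_lit 5) (nat_lit 39) (nat_lit 4) (nat_lit 518) (nat_lit 370) (nat_lit 312)))) (XT.nd (nat_lit 156) (nat_lit 76) (nat_lit 0) (XT.nd (nat_lit 78) (nat_lit 76) (nat_lit 0) (XT.lf (nat_lit 0) (nat_lit 4522846010) (nat_lit 152) (nat_lit 967129216) (nat_lit 76) (nat_lit 24213786358) (nat_lit 37) (nat_lit 5) (nat_lit 39) (nat_lit 5) (nat_lit 38) (nat_lit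 4) (nat_lit 519) (nat_lit 370) (nat_lit 311)) (XT.lf (nat_lit 0) (nat_lit 12545789968) (nat_lit 152) (nat_lit 15169562373) (nat_lit 0) (nat_lit 2632070490) (nat_lit 36) (nat_lit 5) (nat_lit 38) (nat_lit 4) (nat_lit 36) (nat_lit 4) (nat_lit 520) (nat_lit 370) (nat_lit 310))) (XT.nd (nat_lit 78) (nat_lit 0) (nat_lit 0) (XT.lf (nat_lit 0) (nat_lit 652899466) (nat_lit 76) (nat_lit 20164994981) (nat_lit 76) (nat_lit 10192245956) (nat_lit 35) (nat_lit 4) (nat_lit 36) (nat_lit 5) (nat_lit 36) (nat_lit 4) (nat_lit 521) (nat_lit 370) (nat_lit 309)) (XT.lf (nat_lit 0) (nat_lit 17139883298) (nat_lit 76) (nat_lit 12290081018) (nat_lit 76) (nat_lit 2260021754) (nat_lit 35) (nat_lit 4) (nat_lit 36) (nat_lit 5) (nat_lit 36) (nat_lit 4) (nat_lit 522) (nat_lit 370) (nat_lit 308))))))))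
noncomputable def xc37 : XT := (XT.nd (nat_lit 2340) (nat_lit 76) (nat_lit 0) (XT.nd (nat_lit 1170) (nat_lit 608) (nat_lit 0) (XT.nd (nat_lit 546) (nat_lit 456) (nat_lit 0) (XT.nd (nat_lit 234) (nat_lit 152) (nat_lit 0) (XT.nd (nat_lit 78) (nat_lit 76) (nat_lit 0) (XT.lf (nat_lit 0) (nat_lit 1586614109) (nat_lit 76) (nat_lit 4163294452) (nat_lit 152) (nat_lit 26639962733) (nat_lit 33) (nat_lit 5) (nat_lit 34) (nat_lit 5) (nat_lit 35) (nat_lit 4) (nat_lit 523) (nat_lit 370) (nat_lit 307)) (XT.nd (nat_lit 78) (nat_lit 76) (nat_lit 0) (XT.lf (nat_lit 0) (nat_lit 14083418693) (nat_lit 152) (nat_lit 14783772794) (nat_lit 0) (nat_lit 4239029694) (nat_lit 33) (nat_lit 5) (nat_lit 35) (nat_lit 4) (nat_lit 33) (nat_lit 4) (nat_lit 524) (nat_lit 370) (nat_lit 306)) (XT.lf (nat_lit 0) (nat_lit 1590729260) (nat_lit 76) (nat_lit 21074348481) (nat_lit 76) (nat_lit 11179040077) (nat_lit 32) (nat_lit 4) (nat_lit 33) (nat_lit 5)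 (nat_lit 33) (nat_lit 4) (nat_lit 525) (nat_lit 370) (nat_lit 305)))) (XT.nd (nat_lit 156) (nat_lit 0) (nat_lit 0) (XT.nd (nat_lit 78) (nat_lit 152) (nat_lit 0) (XT.lf (nat_lit 0) (nat_lit 18645263479) (nat_lit 76) (nat_lit 12950443761) (nat_lit 76) (nat_lit 3005699041) (nat_lit 32) (nat_lit 4) (nat_lit 33) (nat_lit 5) (nat_lit 33) (nat_lit 4) (nat_lit 526) (nat_lit 370) (nat_lit 304)) (XT.lf (nat_lit 0) (nat_lit 679186484) (nat_lit 76) (nat_lit 4577920720) (nat_lit 152) (nat_lit 30124249092) (nat_lit 30) (nat_lit 5) (nat_lit 31) (nat_lit 5) (nat_lit 32) (nat_lit 4) (nat_lit 527) (nat_lit 370) (nat_lit 303))) (XT.nd (nat_lit 78) (nat_lit 0) (nat_lit 0) (XT.lf (nat_lit 0) (nat_lit 13852413268) (nat_lit 152) (nat_lit 18221566841) (nat_lit 0) (nat_lit 4105481606) (nat_lit 30) (nat_lit 5) (nat_lit 32) (nat_lit 4) (nat_lit 30) (nat_lit 4) (nat_lit 528) (nat_lit 370) (nat_lit 302)) (XT.lf (nat_lit 0) (nat_lit 22695968196)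 (nat_lit 152) (nat_lit 1400717885) (nat_lit 0) (nat_lit 12905113009) (nat_lit 30) (nat_lit 5) (nat_lit 32) (nat_lit 4) (nat_lit 30) (nat_lit 4) (nat_lit 529) (nat_lit 370) (nat_lit 301))))) (XT.nd (nat_lit 312) (nat_lit 228) (nat_lit 0) (XT.nd (nat_lit 156) (nat_lit 76) (nat_lit 0) (XT.nd (nat_lit 78) (nat_lit 76) (nat_lit 0) (XT.lf (nat_lit 0) (nat_lit 16133911380) (nat_lit 76) (nat_lit 15772671241) (nat_lit 76) (nat_lit 5939171853) (nat_lit 29) (nat_lit 4) (nat_lit 30) (nat_lit 5) (nat_lit 30) (nat_lit 4) (nat_lit 530) (nat_lit 370) (nat_lit 300)) (XT.lf (nat_lit 0) (nat_lit 2587192912) (nat_lit 152) (nat_lit 4622899910) (nat_lit 76) (nat_lit 31505334537) (nat_lit 28) (nat_lit 5) (nat_lit 30) (nat_lit 5) (nat_lit 29) (nat_lit 4) (nat_lit 531) (nat_lit 370) (nat_lit 299))) (XT.nd (nat_lit 78) (nat_lit 0) (nat_lit 0) (XT.lf (nat_lit 0) (nat_lit 11340685525) (nat_lit 152) (nat_lit 26551642968) (nat_lit 0) (nat_lit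 1714377009) (nat_lit 27) (nat_lit 5) (nat_lit 29) (nat_lit 4) (nat_lit 27) (nat_lit 4) (nat_lit 532) (nat_lit 370) (nat_lit 298)) (XT.lf (nat_lit 0) (nat_lit 20423601876) (nat_lit 152) (nat_lit 9339711423) (nat_lit 0) (nat_lit 10759404540) (nat_lit 27) (nat_lit 5) (nat_lit 29) (nat_lit 4) (nat_lit 27) (nat_lit 4) (nat_lit 533) (nat_lit 370) (nat_lit 297)))) (XT.nd (nat_lit 156) (nat_lit 152) (nat_lit 0) (XT.nd (nat_lit 78) (nat_lit 0) (nat_lit 0) (XT.lf (nat_lit 0) (nat_lit 8453864371) (nat_lit 76) (nat_lit 21356198728) (nat_lit 76) (nat_lit 11655216131) (nat_lit 26) (nat_lit 4) (nat_lit 27) (nat_lit 5) (nat_lit 27) (nat_lit 4) (nat_lit 534) (nat_lit 370) (nat_lit 296)) (XT.lf (nat_lit 0) (nat_lit 26874000572) (nat_lit 76) (nat_lit 12648737566) (nat_lit 76) (nat_lit 2912041122) (nat_lit 26) (nat_lit 4) (nat_lit 27) (nat_lit 5) (nat_lit 27) (nat_lit 4) (nat_lit 535) (nat_lit 370) (nat_lit 295))) (XT.nd (nat_lit 78)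 (nat_lit 0) (nat_lit 0) (XT.lf (nat_lit 0) (nat_lit 2302944489) (nat_lit 76) (nat_lit 3644993722) (nat_lit 152) (nat_lit 37484466823) (nat_lit 24) (nat_lit 5) (nat_lit 25) (nat_lit 5) (nat_lit 26) (nat_lit 4) (nat_lit 536) (nat_lit 370) (nat_lit 294)) (XT.lf (nat_lit 0) (nat_lit 15179301502) (nat_lit 152) (nat_lit 23615018864) (nat_lit 0) (nat_lit 5659851204) (nat_lit 24) (nat_lit 5) (nat_lit 26) (nat_lit 4) (nat_lit 24) (nat_lit 4) (nat_lit 537) (nat_lit 370) (nat_lit 293)))))) (XT.nd (nat_lit 546) (nat_lit 304) (nat_lit 0) (XT.nd (nat_lit 234) (nat_lit 228) (nat_lit 0) (XT.nd (nat_lit 78) (nat_lit 76) (nat_lit 0) (XT.lf (nat_lit 0) (nat_lit 24676429222) (nat_lit 152) (nat_lit 5705249890) (nat_lit 0) (nat_lit 15125247635) (nat_lit 24) (nat_lit 5) (nat_lit 26) (nat_lit 4) (nat_lit 24) (nat_lit 4) (nat_lit 538) (nat_lit 370) (nat_lit 292)) (XT.nd (nat_lit 78) (nat_lit 0) (nat_lit 0) (XT.lf (nat_lit 0) (nat_lit 12902304023)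 (nat_lit 76) (nat_lit 21634302740) (nat_lit 76) (nat_lit 12052314076) (nat_lit 23) (nat_lit 4) (nat_lit 24) (nat_lit 5) (nat_lit 24) (nat_lit 4) (nat_lit 539) (nat_lit 370) (nat_lit 291)) (XT.lf (nat_lit 0) (nat_lit 32094652918) (nat_lit 76) (nat_lit 12610127447) (nat_lit 76) (nat_lit 2998228999) (nat_lit 23) (nat_lit 4) (nat_lit 24) (nat_lit 5) (nat_lit 24) (nat_lit 4) (nat_lit 540) (nat_lit 370) (nat_lit 290)))) (XT.nd (nat_lit 156) (nat_lit 76) (nat_lit 0) (XT.nd (nat_lit 78) (nat_lit 0) (nat_lit 0) (XT.lf (nat_lit 0) (nat_lit 2919765501) (nat_lit 76) (nat_lit 3267772712) (nat_lit 152) (nat_lit 42661651991) (nat_lit 21) (nat_lit 5) (nat_lit 22) (nat_lit 5) (nat_lit 23) (nat_lit 4) (nat_lit 541) (nat_lit 370) (nat_lit 289)) (XT.lf (nat_lit 0) (nat_lit 15764376483) (nat_lit 152) (nat_lit 27882345229) (nat_lit 0) (nat_lit 6376871713) (nat_lit 21) (nat_lit 5) (nat_lit 23) (nat_lit 4) (nat_lit 21) (nat_lit 4) (nat_lit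 542) (nat_lit 370) (nat_lit 288))) (XT.nd (nat_lit 78) (nat_lit 76) (nat_lit 0) (XT.lf (nat_lit 0) (nat_lit 25617668663) (nat_lit 152) (nat_lit 9412296473) (nat_lit 0) (nat_lit 16203589437) (nat_lit 21) (nat_lit 5) (nat_lit 23) (nat_lit 4) (nat_lit 21) (nat_lit 4) (nat_lit 543) (nat_lit 370) (nat_lit 287)) (XT.lf (nat_lit 0) (nat_lit 9717903571) (nat_lit 76) (nat_lit 26100123458) (nat_lit 76) (nat_lit 16660243790) (nat_lit 20) (nat_lit 4) (nat_lit 21) (nat_lit 5) (nat_lit 21) (nat_lit 4) (nat_lit 544) (nat_lit 370) (nat_lit 286))))) (XT.nd (nat_lit 312) (nat_lit 152) (nat_lit 0) (XT.nd (nat_lit 156) (nat_lit 76) (nat_lit 0) (XT.nd (nat_lit 78) (nat_lit 76) (nat_lit 0) (XT.lf (nat_lit 0) (nat_lit 29532190419) (nat_lit 76) (nat_lit 16845730651) (nat_lit 76) (nat_lit 7380802010) (nat_lit 20) (nat_lit 4) (nat_lit 21) (nat_lit 5) (nat_lit 21) (nat_lit 4) (nat_lit 545) (nat_lit 370) (nat_lit 285)) (XT.lf (nat_lit 0) (nat_lit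 2093830604) (nat_lit 152) (nat_lit 5238771905) (nat_lit 76) (nat_lit 47745580182) (nat_lit 19) (nat_lit 5) (nat_lit 21) (nat_lit 5) (nat_lit 20) (nat_lit 4) (nat_lit 546) (nat_lit 370) (nat_lit 284))) (XT.nd (nat_lit 78) (nat_lit 0) (nat_lit 0) (XT.lf (nat_lit 0) (nat_lit 11829145044) (nat_lit 152) (nat_lit 42008785774) (nat_lit 0) (nat_lit 2593359518) (nat_lit 18) (nat_lit 5) (nat_lit 20) (nat_lit 4) (nat_lit 18) (nat_lit 4) (nat_lit 547) (nat_lit 370) (nat_lit 283)) (XT.lf (nat_lit 0) (nat_lit 21943046179) (nat_lit 152) (nat_lit 23194344495) (nat_lit 0) (nat_lit 12685004964) (nat_lit 18) (nat_lit 5) (nat_lit 20) (nat_lit 4) (nat_lit 18) (nat_lit 4) (nat_lit 548) (nat_lit 370) (nat_lit 282)))) (XT.nd (nat_lit 156) (nat_lit 76) (nat_lit 0) (XT.nd (nat_lit 78) (nat_lit 76) (nat_lit 0) (XT.lf (nat_lit 0) (nat_lit 32322016909) (nat_lit 152) (nat_lit 3891999625) (nat_lit 0) (nat_lit 23042368229) (nat_lit 18) (nat_lit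 5) (nat_lit 20) (nat_lit 4) (nat_lit 18) (nat_lit 4) (nat_lit 549) (nat_lit 370) (nat_lit 281)) (XT.lf (nat_lit 0) (nat_lit 16231856957) (nat_lit 76) (nat_lit 26899299818) (nat_lit 76) (nat_lit 17598673018) (nat_lit 17) (nat_lit 4) (nat_lit 18) (nat_lit 5) (nat_lit 18) (nat_lit 4) (nat_lit 550) (nat_lit 370) (nat_lit 280))) (XT.nd (nat_lit 78) (nat_lit 76) (nat_lit 0) (XT.lf (nat_lit 0) (nat_lit 36965639223) (nat_lit 76) (nat_lit 17301379819) (nat_lit 76) (nat_lit 7980385911) (nat_lit 17) (nat_lit 4) (nat_lit 18) (nat_lit 5) (nat_lit 18) (nat_lit 4) (nat_lit 551) (nat_lit 370) (nat_lit 279)) (XT.lf (nat_lit 0) (nat_lit 1852723400) (nat_lit 152) (nat_lit 5579739294) (nat_lit 76) (nat_lit 56378573371) (nat_lit 16) (nat_lit 5) (nat_lit 18) (nat_lit 5) (nat_lit 17) (nat_lit 4) (nat_lit 552) (nat_lit 370) (nat_lit 278))))))) (XT.nd (nat_lit 56160) (nat_lit 0) (nat_lit 4256) (XT.nd (nat_lit 55536) (nat_lit 0) (nat_lit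 6460) (XT.nd (nat_lit 55224) (nat_lit 0) (nat_lit 7980) (XT.nd (nat_lit 55068) (nat_lit 0) (nat_lit 8740) (XT.lf (nat_lit 0) (nat_lit 11956259902) (nat_lit 152) (nat_lit 50589956538) (nat_lit 0) (nat_lit 2868914514) (nat_lit 15) (nat_lit 5) (nat_lit 17) (nat_lit 4) (nat_lit 15) (nat_lit 4) (nat_lit 553) (nat_lit 370) (nat_lit 277)) (XT.nd (nat_lit 78) (nat_lit 304) (nat_lit 0) (XT.lf (nat_lit 0) (nat_lit 837207815) (nat_lit 228) (nat_lit 2118123285) (nat_lit 228) (nat_lit 2118123285) (nat_lit 134) (nat_lit 4) (nat_lit 137) (nat_lit 5) (nat_lit 137) (nat_lit 4) (nat_lit 458) (nat_lit 371) (nat_lit 371)) (XT.lf (nat_lit 0) (nat_lit 569833225) (nat_lit 228) (nat_lit 59130139) (nat_lit 304) (nat_lit 9654806013) (nat_lit 130) (nat_lit 5) (nat_lit 133) (nat_lit 5) (nat_lit 134) (nat_lit 4) (nat_lit 459) (nat_lit 371) (nat_lit 370)))) (XT.nd (nat_lit 156) (nat_lit 456) (nat_lit 0) (XT.nd (nat_lit 78) (nat_lit 304) (nat_lit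 0) (XT.lf (nat_lit 0) (nat_lit 5571230555) (nat_lit 304) (nat_lit 633287548) (nat_lit 0) (nat_lit 4218479418) (nat_lit 130) (nat_lit 5) (nat_lit 134) (nat_lit 4) (nat_lit 130) (nat_lit 4) (nat_lit 460) (nat_lit 371) (nat_lit 369)) (XT.lf (nat_lit 0) (nat_lit 69858766) (nat_lit 304) (nat_lit 1857908589) (nat_lit 76) (nat_lit 8639323912) (nat_lit 126) (nat_lit 5) (nat_lit 130) (nat_lit 5) (nat_lit 127) (nat_lit 4) (nat_lit 461) (nat_lit 371) (nat_lit 368))) (XT.nd (nat_lit 78) (nat_lit 228) (nat_lit 0) (XT.lf (nat_lit 0) (nat_lit 5037675808) (nat_lit 304) (nat_lit 3190149627) (nat_lit 0) (nat_lit 2486366269) (nat_lit 123) (nat_lit 5) (nat_lit 127) (nat_lit 4) (nat_lit 123) (nat_lit 4) (nat_lit 462) (nat_lit 371) (nat_lit 367)) (XT.lf (nat_lit 0) (nat_lit 6283347375) (nat_lit 228) (nat_lit 3862994655) (nat_lit 228) (nat_lit 719615232) (nat_lit 120) (nat_lit 4) (nat_lit 123) (nat_lit 5) (nat_lit 123) (nat_lit 4) (nat_lit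 463) (nat_lit 371) (nat_lit 366))))) (XT.nd (nat_lit 312) (nat_lit 608) (nat_lit 0) (XT.nd (nat_lit 156) (nat_lit 456) (nat_lit 0) (XT.nd (nat_lit 78) (nat_lit 228) (nat_lit 0) (XT.lf (nat_lit 0) (nat_lit 4280905217) (nat_lit 228) (nat_lit 6069699056) (nat_lit 0) (nat_lit 670997884) (nat_lit 117) (nat_lit 5) (nat_lit 120) (nat_lit 4) (nat_lit 117) (nat_lit 4) (nat_lit 464) (nat_lit 371) (nat_lit 365)) (XT.lf (nat_lit 0) (nat_lit 3527458121) (nat_lit 228) (nat_lit 5902793725) (nat_lit 228) (nat_lit 1751058576) (nat_lit 114) (nat_lit 4) (nat_lit 117) (nat_lit 5) (nat_lit 117) (nat_lit 4) (nat_lit 465) (nat_lit 371) (nat_lit 364))) (XT.nd (nat_lit 78) (nat_lit 228) (nat_lit 0) (XT.lf (nat_lit 0) (nat_lit 2017442326) (nat_lit 152) (nat_lit 1280697524) (nat_lit 228) (nat_lit 8047418983) (nat_lit 111) (nat_lit 5) (nat_lit 113) (nat_lit 5) (nat_lit 114) (nat_lit 4) (nat_lit 466) (nat_lit 371) (nat_lit 363)) (XT.lf (nat_lit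 0) (nat_lit 397209882) (nat_lit 228) (nat_lit 8077038025) (nat_lit 228) (nat_lit 3039653312) (nat_lit 108) (nat_lit 4) (nat_lit 111) (nat_lit 5) (nat_lit 111) (nat_lit 4) (nat_lit 467) (nat_lit 371) (nat_lit 362)))) (XT.nd (nat_lit 156) (nat_lit 380) (nat_lit 0) (XT.nd (nat_lit 78) (nat_lit 152) (nat_lit 0) (XT.lf (nat_lit 0) (nat_lit 2080405649) (nat_lit 304) (nat_lit 1295568241) (nat_lit 76) (nat_lit 8310612366) (nat_lit 107) (nat_lit 5) (nat_lit 111) (nat_lit 5) (nat_lit 108) (nat_lit 4) (nat_lit 468) (nat_lit 371) (nat_lit 361)) (XT.lf (nat_lit 0) (nat_lit 7290538029) (nat_lit 228) (nat_lit 3094373438) (nat_lit 0) (nat_lit 1478715559) (nat_lit 105) (nat_lit 5) (nat_lit 108) (nat_lit 4) (nat_lit 105) (nat_lit 4) (nat_lit 469) (nat_lit 371) (nat_lit 360))) (XT.nd (nat_lit 78) (nat_lit 152) (nat_lit 0) (XT.lf (nat_lit 0) (nat_lit 612709772) (nat_lit 228) (nat_lit 5008577230) (nat_lit 76) (nat_lit 6424111436) (nat_lit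 102) (nat_lit 5) (nat_lit 105) (nat_lit 5) (nat_lit 103) (nat_lit 4) (nat_lit 470) (nat_lit 371) (nat_lit 359)) (XT.lf (nat_lit 0) (nat_lit 5181086889) (nat_lit 152) (nat_lit 661863277) (nat_lit 228) (nat_lit 6388895609) (nat_lit 100) (nat_lit 5) (nat_lit 102) (nat_lit 5) (nat_lit 103) (nat_lit 4) (nat_lit 471) (nat_lit 371) (nat_lit 358)))))) (XT.nd (nat_lit 624) (nat_lit 1064) (nat_lit 0) (XT.nd (nat_lit 312) (nat_lit 532) (nat_lit 0) (XT.nd (nat_lit 156) (nat_lit 228) (nat_lit 0) (XT.nd (nat_lit 78) (nat_lit 228) (nat_lit 0) (XT.lf (nat_lit 0) (nat_lit 3197268131) (nat_lit 152) (nat_lit 8057297736) (nat_lit 152) (nat_lit 1168591082) (nat_lit 98) (nat_lit 4) (nat_lit 100) (nat_lit 5) (nat_lit 100) (nat_lit 4) (nat_lit 472) (nat_lit 371) (nat_lit 357)) (XT.lf (nat_lit 0) (nat_lit 1073573131) (nat_lit 152) (nat_lit 3041553827) (nat_lit 228) (nat_lit 8504203398) (nat_lit 95) (nat_lit 5) (nat_lit 97) (nat_lit 5) (nat_lit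 98) (nat_lit 4) (nat_lit 473) (nat_lit 371) (nat_lit 356))) (XT.nd (nat_lit 78) (nat_lit 228) (nat_lit 0) (XT.lf (nat_lit 0) (nat_lit 9548977176) (nat_lit 228) (nat_lit 1159688564) (nat_lit 0) (nat_lit 2111926957) (nat_lit 95) (nat_lit 5) (nat_lit 98) (nat_lit 4) (nat_lit 95) (nat_lit 4) (nat_lit 474) (nat_lit 371) (nat_lit 355)) (XT.lf (nat_lit 0) (nat_lit 2101981693) (nat_lit 228) (nat_lit 3528239398) (nat_lit 76) (nat_lit 7396304076) (nat_lit 92) (nat_lit 5) (nat_lit 95) (nat_lit 5) (nat_lit 93) (nat_lit 4) (nat_lit 475) (nat_lit 371) (nat_lit 354)))) (XT.nd (nat_lit 156) (nat_lit 228) (nat_lit 0) (XT.nd (nat_lit 78) (nat_lit 152) (nat_lit 0) (XT.lf (nat_lit 0) (nat_lit 7195071568) (nat_lit 152) (nat_lit 360648855) (nat_lit 228) (nat_lit 5682406461) (nat_lit 90) (nat_lit 5) (nat_lit 92) (nat_lit 5) (nat_lit 93) (nat_lit 4) (nat_lit 476) (nat_lit 371) (nat_lit 353)) (XT.lf (nat_lit 0) (nat_lit 4725843359) (nat_lit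 152) (nat_lit 8481445045) (nat_lit 152) (nat_lit 247765362) (nat_lit 88) (nat_lit 4) (nat_lit 90) (nat_lit 5) (nat_lit 90) (nat_lit 4) (nat_lit 477) (nat_lit 371) (nat_lit 352))) (XT.nd (nat_lit 78) (nat_lit 0) (nat_lit 0) (XT.lf (nat_lit 0) (nat_lit 2075007413) (nat_lit 152) (nat_lit 3159945214) (nat_lit 228) (nat_lit 8442313433) (nat_lit 85) (nat_lit 5) (nat_lit 87) (nat_lit 5) (nat_lit 88) (nat_lit 4) (nat_lit 478) (nat_lit 371) (nat_lit 351)) (XT.lf (nat_lit 0) (nat_lit 10893162524) (nat_lit 228) (nat_lit 722127220) (nat_lit 0) (nat_lit 2290304996) (nat_lit 85) (nat_lit 5) (nat_lit 88) (nat_lit 4) (nat_lit 85) (nat_lit 4) (nat_lit 479) (nat_lit 371) (nat_lit 350))))) (XT.nd (nat_lit 312) (nat_lit 456) (nat_lit 0) (XT.nd (nat_lit 156) (nat_lit 304) (nat_lit 0) (XT.nd (nat_lit 78) (nat_lit 76) (nat_lit 0) (XT.lf (nat_lit 0) (nat_lit 2569915392) (nat_lit 228) (nat_lit 3677188430) (nat_lit 76) (nat_lit 7891730819)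 (nat_lit 82) (nat_lit 5) (nat_lit 85) (nat_lit 5) (nat_lit 83) (nat_lit 4) (nat_lit 480) (nat_lit 371) (nat_lit 349)) (XT.lf (nat_lit 0) (nat_lit 7564241490) (nat_lit 76) (nat_lit 682622569) (nat_lit 152) (nat_lit 6131685608) (nat_lit 81) (nat_lit 5) (nat_lit 82) (nat_lit 5) (nat_lit 83) (nat_lit 4) (nat_lit 481) (nat_lit 371) (nat_lit 348))) (XT.nd (nat_lit 78) (nat_lit 152) (nat_lit 0) (XT.lf (nat_lit 0) (nat_lit 4461431944) (nat_lit 152) (nat_lit 9669534791) (nat_lit 152) (nat_lit 493386990) (nat_lit 79) (nat_lit 4) (nat_lit 81) (nat_lit 5) (nat_lit 81) (nat_lit 4) (nat_lit 482) (nat_lit 371) (nat_lit 347)) (XT.lf (nat_lit 0) (nat_lit 1132401972) (nat_lit 76) (nat_lit 4073179188) (nat_lit 152) (nat_lit 9670564554) (nat_lit 77) (nat_lit 5) (nat_lit 78) (nat_lit 5) (nat_lit 79) (nat_lit 4) (nat_lit 483) (nat_lit 371) (nat_lit 346)))) (XT.nd (nat_lit 156) (nat_lit 228) (nat_lit 0) (XT.nd (nat_lit 78) (nat_lit 228)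 (nat_lit 0) (XT.lf (nat_lit 0) (nat_lit 11093878195) (nat_lit 152) (nat_lit 2350791942) (nat_lit 0) (nat_lit 1689829180) (nat_lit 77) (nat_lit 5) (nat_lit 79) (nat_lit 4) (nat_lit 77) (nat_lit 4) (nat_lit 484) (nat_lit 371) (nat_lit 345)) (XT.lf (nat_lit 0) (nat_lit 1765669662) (nat_lit 228) (nat_lit 6056559941) (nat_lit 76) (nat_lit 7576616687) (nat_lit 74) (nat_lit 5) (nat_lit 77) (nat_lit 5) (nat_lit 75) (nat_lit 4) (nat_lit 485) (nat_lit 371) (nat_lit 344))) (XT.nd (nat_lit 78) (nat_lit 152) (nat_lit 0) (XT.lf (nat_lit 0) (nat_lit 5668001883) (nat_lit 76) (nat_lit 1986576394) (nat_lit 152) (nat_lit 8015658433) (nat_lit 73) (nat_lit 5) (nat_lit 74) (nat_lit 5) (nat_lit 75) (nat_lit 4) (nat_lit 486) (nat_lit 371) (nat_lit 343)) (XT.lf (nat_lit 0) (nat_lit 1748795099) (nat_lit 152) (nat_lit 12000066156) (nat_lit 152) (nat_lit 2200048771) (nat_lit 71) (nat_lit 4) (nat_lit 73) (nat_lit 5) (nat_lit 73) (nat_lit 4)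 (nat_lit 487) (nat_lit 371) (nat_lit 342))))))))
noncomputable def xc38 : XT := (XT.nd (nat_lit 2340) (nat_lit 1596) (nat_lit 0) (XT.nd (nat_lit 1170) (nat_lit 988) (nat_lit 0) (XT.nd (nat_lit 546) (nat_lit 684) (nat_lit 0) (XT.nd (nat_lit 234) (nat_lit 456) (nat_lit 0) (XT.nd (nat_lit 78) (nat_lit 228) (nat_lit 0) (XT.lf (nat_lit 0) (nat_lit 3749317830) (nat_lit 228) (nat_lit 2399313995) (nat_lit 76) (nat_lit 10085223642) (nat_lit 70) (nat_lit 5) (nat_lit 73) (nat_lit 5) (nat_lit 71) (nat_lit 4) (nat_lit 488) (nat_lit 371) (nat_lit 341)) (XT.nd (nat_lit 78) (nat_lit 152) (nat_lit 0) (XT.lf (nat_lit 0) (nat_lit 9762391520) (nat_lit 76) (nat_lit 78546420) (nat_lit 152) (nat_lit 6685520305) (nat_lit 69) (nat_lit 5) (nat_lit 70) (nat_lit 5) (nat_lit 71) (nat_lit 4) (nat_lit 489) (nat_lit 371) (nat_lit 340)) (XT.lf (nat_lit 0) (nat_lit 5394629445) (nat_lit 152) (nat_lit 10770731684) (nat_lit 152) (nat_lit 660978473)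 (nat_lit 67) (nat_lit 4) (nat_lit 69) (nat_lit 5) (nat_lit 69) (nat_lit 4) (nat_lit 490) (nat_lit 371) (nat_lit 339)))) (XT.nd (nat_lit 156) (nat_lit 304) (nat_lit 0) (XT.nd (nat_lit 78) (nat_lit 0) (nat_lit 0) (XT.lf (nat_lit 0) (nat_lit 720700468) (nat_lit 76) (nat_lit 4706591081) (nat_lit 152) (nat_lit 11706593567) (nat_lit 65) (nat_lit 5) (nat_lit 66) (nat_lit 5) (nat_lit 67) (nat_lit 4) (nat_lit 491) (nat_lit 371) (nat_lit 338)) (XT.lf (nat_lit 0) (nat_lit 11731015127) (nat_lit 152) (nat_lit 4160063676) (nat_lit 0) (nat_lit 1558001097) (nat_lit 65) (nat_lit 5) (nat_lit 67) (nat_lit 4) (nat_lit 65) (nat_lit 4) (nat_lit 492) (nat_lit 371) (nat_lit 337))) (XT.nd (nat_lit 78) (nat_lit 76) (nat_lit 0) (XT.lf (nat_lit 0) (nat_lit 486517737) (nat_lit 228) (nat_lit 9356467076) (nat_lit 76) (nat_lit 7929262307) (nat_lit 62) (nat_lit 5) (nat_lit 65) (nat_lit 5) (nat_lit 63) (nat_lit 4) (nat_lit 493) (nat_lit 371) (nat_lit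 336)) (XT.lf (nat_lit 0) (nat_lit 3197921644) (nat_lit 76) (nat_lit 3554847198) (nat_lit 152) (nat_lit 11350930107) (nat_lit 61) (nat_lit 5) (nat_lit 62) (nat_lit 5) (nat_lit 63) (nat_lit 4) (nat_lit 494) (nat_lit 371) (nat_lit 335))))) (XT.nd (nat_lit 312) (nat_lit 380) (nat_lit 0) (XT.nd (nat_lit 156) (nat_lit 76) (nat_lit 0) (XT.nd (nat_lit 78) (nat_lit 228) (nat_lit 0) (XT.lf (nat_lit 0) (nat_lit 13247997751) (nat_lit 152) (nat_lit 2308513804) (nat_lit 0) (nat_lit 2887354803) (nat_lit 61) (nat_lit 5) (nat_lit 63) (nat_lit 4) (nat_lit 61) (nat_lit 4) (nat_lit 495) (nat_lit 371) (nat_lit 334)) (XT.lf (nat_lit 0) (nat_lit 1179906683) (nat_lit 228) (nat_lit 8117438346) (nat_lit 76) (nat_lit 9494814057) (nat_lit 58) (nat_lit 5) (nat_lit 61) (nat_lit 5) (nat_lit 59) (nat_lit 4) (nat_lit 496) (nat_lit 371) (nat_lit 333))) (XT.nd (nat_lit 78) (nat_lit 0) (nat_lit 0) (XT.lf (nat_lit 0) (nat_lit 4833761439) (nat_lit 76)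 (nat_lit 2798745438) (nat_lit 152) (nat_lit 11517152473) (nat_lit 57) (nat_lit 5) (nat_lit 58) (nat_lit 5) (nat_lit 59) (nat_lit 4) (nat_lit 497) (nat_lit 371) (nat_lit 332)) (XT.lf (nat_lit 0) (nat_lit 14319052578) (nat_lit 152) (nat_lit 1367412430) (nat_lit 0) (nat_lit 3830210127) (nat_lit 57) (nat_lit 5) (nat_lit 59) (nat_lit 4) (nat_lit 57) (nat_lit 4) (nat_lit 498) (nat_lit 371) (nat_lit 331)))) (XT.nd (nat_lit 156) (nat_lit 152) (nat_lit 0) (XT.nd (nat_lit 78) (nat_lit 76) (nat_lit 0) (XT.lf (nat_lit 0) (nat_lit 1352348165) (nat_lit 152) (nat_lit 7878631007) (nat_lit 76) (nat_lit 10661352061) (nat_lit 55) (nat_lit 5) (nat_lit 57) (nat_lit 5) (nat_lit 56) (nat_lit 4) (nat_lit 499) (nat_lit 371) (nat_lit 330)) (XT.lf (nat_lit 0) (nat_lit 5450965249) (nat_lit 76) (nat_lit 2532278452) (nat_lit 152) (nat_lit 12294804089) (nat_lit 54) (nat_lit 5) (nat_lit 55) (nat_lit 5) (nat_lit 56) (nat_lit 4) (nat_lit 500) (nat_lit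 371) (nat_lit 329))) (XT.nd (nat_lit 78) (nat_lit 152) (nat_lit 0) (XT.lf (nat_lit 0) (nat_lit 14858095630) (nat_lit 152) (nat_lit 1523156298) (nat_lit 0) (nat_lit 4292734398) (nat_lit 54) (nat_lit 5) (nat_lit 56) (nat_lit 4) (nat_lit 54) (nat_lit 4) (nat_lit 501) (nat_lit 371) (nat_lit 328)) (XT.lf (nat_lit 0) (nat_lit 909096510) (nat_lit 152) (nat_lit 8839890229) (nat_lit 76) (nat_lit 11330517199) (nat_lit 52) (nat_lit 5) (nat_lit 54) (nat_lit 5) (nat_lit 53) (nat_lit 4) (nat_lit 502) (nat_lit 371) (nat_lit 327)))))) (XT.nd (nat_lit 546) (nat_lit 532) (nat_lit 0) (XT.nd (nat_lit 234) (nat_lit 304) (nat_lit 0) (XT.nd (nat_lit 78) (nat_lit 76) (nat_lit 0) (XT.lf (nat_lit 0) (nat_lit 4841390517) (nat_lit 76) (nat_lit 2864642279) (nat_lit 152) (nat_lit 13789815247) (nat_lit 51) (nat_lit 5) (nat_lit 52) (nat_lit 5) (nat_lit 53) (nat_lit 4) (nat_lit 503) (nat_lit 371) (nat_lit 326)) (XT.nd (nat_lit 78) (nat_lit 76)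 (nat_lit 0) (XT.lf (nat_lit 0) (nat_lit 14762807619) (nat_lit 152) (nat_lit 2994441775) (nat_lit 0) (nat_lit 4165756380) (nat_lit 51) (nat_lit 5) (nat_lit 53) (nat_lit 4) (nat_lit 51) (nat_lit 4) (nat_lit 504) (nat_lit 371) (nat_lit 325)) (XT.lf (nat_lit 0) (nat_lit 11123045746) (nat_lit 76) (nat_lit 10970860115) (nat_lit 76) (nat_lit 267194950) (nat_lit 50) (nat_lit 4) (nat_lit 51) (nat_lit 5) (nat_lit 51) (nat_lit 4) (nat_lit 505) (nat_lit 371) (nat_lit 324)))) (XT.nd (nat_lit 156) (nat_lit 152) (nat_lit 0) (XT.nd (nat_lit 78) (nat_lit 0) (nat_lit 0) (XT.lf (nat_lit 0) (nat_lit 2760824456) (nat_lit 76) (nat_lit 3922918542) (nat_lit 152) (nat_lit 16127092241) (nat_lit 48) (nat_lit 5) (nat_lit 49) (nat_lit 5) (nat_lit 50) (nat_lit 4) (nat_lit 506) (nat_lit 371) (nat_lit 323)) (XT.lf (nat_lit 0) (nat_lit 13912033312) (nat_lit 152) (nat_lit 6037659577) (nat_lit 0) (nat_lit 3322064688) (nat_lit 48) (nat_lit 5) (nat_lit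 50) (nat_lit 4) (nat_lit 48) (nat_lit 4) (nat_lit 507) (nat_lit 371) (nat_lit 322))) (XT.nd (nat_lit 78) (nat_lit 76) (nat_lit 0) (XT.lf (nat_lit 0) (nat_lit 8382710266) (nat_lit 76) (nat_lit 13023510318) (nat_lit 76) (nat_lit 2338816601) (nat_lit 47) (nat_lit 4) (nat_lit 48) (nat_lit 5) (nat_lit 48) (nat_lit 4) (nat_lit 508) (nat_lit 371) (nat_lit 321)) (XT.lf (nat_lit 0) (nat_lit 4788498085) (nat_lit 152) (nat_lit 1056008712) (nat_lit 76) (nat_lit 18386860788) (nat_lit 46) (nat_lit 5) (nat_lit 48) (nat_lit 5) (nat_lit 47) (nat_lit 4) (nat_lit 509) (nat_lit 371) (nat_lit 320))))) (XT.nd (nat_lit 312) (nat_lit 228) (nat_lit 0) (XT.nd (nat_lit 156) (nat_lit 152) (nat_lit 0) (XT.nd (nat_lit 78) (nat_lit 76) (nat_lit 0) (XT.lf (nat_lit 0) (nat_lit 12162751453) (nat_lit 152) (nat_lit 10953150845) (nat_lit 0) (nat_lit 1613288045) (nat_lit 45) (nat_lit 5) (nat_lit 47) (nat_lit 4) (nat_lit 45) (nat_lit 4) (nat_lit 510)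 (nat_lit 371) (nat_lit 319)) (XT.lf (nat_lit 0) (nat_lit 3714322353) (nat_lit 76) (nat_lit 16080083296) (nat_lit 76) (nat_lit 5446457869) (nat_lit 44) (nat_lit 4) (nat_lit 45) (nat_lit 5) (nat_lit 45) (nat_lit 4) (nat_lit 511) (nat_lit 371) (nat_lit 318))) (XT.nd (nat_lit 78) (nat_lit 76) (nat_lit 0) (XT.lf (nat_lit 0) (nat_lit 1893880133) (nat_lit 152) (nat_lit 6870759452) (nat_lit 76) (nat_lit 17001396513) (nat_lit 43) (nat_lit 5) (nat_lit 45) (nat_lit 5) (nat_lit 44) (nat_lit 4) (nat_lit 512) (nat_lit 371) (nat_lit 317)) (XT.lf (nat_lit 0) (nat_lit 8201387593) (nat_lit 76) (nat_lit 1156274717) (nat_lit 152) (nat_lit 16947303564) (nat_lit 42) (nat_lit 5) (nat_lit 43) (nat_lit 5) (nat_lit 44) (nat_lit 4) (nat_lit 513) (nat_lit 371) (nat_lit 316)))) (XT.nd (nat_lit 156) (nat_lit 152) (nat_lit 0) (XT.nd (nat_lit 78) (nat_lit 76) (nat_lit 0) (XT.lf (nat_lit 0) (nat_lit 17113598839) (nat_lit 152) (nat_lit 3185855453)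 (nat_lit 0) (nat_lit 6558562852) (nat_lit 42) (nat_lit 5) (nat_lit 44) (nat_lit 4) (nat_lit 42) (nat_lit 4) (nat_lit 514) (nat_lit 371) (nat_lit 315)) (XT.lf (nat_lit 0) (nat_lit 12281872856) (nat_lit 76) (nat_lit 12885730542) (nat_lit 76) (nat_lit 2258095659) (nat_lit 41) (nat_lit 4) (nat_lit 42) (nat_lit 5) (nat_lit 42) (nat_lit 4) (nat_lit 515) (nat_lit 371) (nat_lit 314))) (XT.nd (nat_lit 78) (nat_lit 0) (nat_lit 0) (XT.lf (nat_lit 0) (nat_lit 92785086) (nat_lit 76) (nat_lit 5222931334) (nat_lit 152) (nat_lit 22694044174) (nat_lit 39) (nat_lit 5) (nat_lit 40) (nat_lit 5) (nat_lit 41) (nat_lit 4) (nat_lit 516) (nat_lit 371) (nat_lit 313)) (XT.lf (nat_lit 0) (nat_lit 13187461549) (nat_lit 152) (nat_lit 12685229584) (nat_lit 0) (nat_lit 2734499733) (nat_lit 39) (nat_lit 5) (nat_lit 41) (nat_lit 4) (nat_lit 39) (nat_lit 4) (nat_lit 517) (nat_lit 371) (nat_lit 312))))))) (XT.nd (nat_lit 1170) (nat_lit 684) (nat_lit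 0) (XT.nd (nat_lit 546) (nat_lit 456) (nat_lit 0) (XT.nd (nat_lit 234) (nat_lit 228) (nat_lit 0) (XT.nd (nat_lit 78) (nat_lit 152) (nat_lit 0) (XT.lf (nat_lit 0) (nat_lit 2885869419) (nat_lit 76) (nat_lit 18426810356) (nat_lit 76) (nat_lit 7909345361) (nat_lit 38) (nat_lit 4) (nat_lit 39) (nat_lit 5) (nat_lit 39) (nat_lit 4) (nat_lit 518) (nat_lit 371) (nat_lit 311)) (XT.nd (nat_lit 78) (nat_lit 152) (nat_lit 0) (XT.lf (nat_lit 0) (nat_lit 19063133399) (nat_lit 76) (nat_lit 10685131431) (nat_lit 76) (nat_lit 105041991) (nat_lit 38) (nat_lit 4) (nat_lit 39) (nat_lit 5) (nat_lit 39) (nat_lit 4) (nat_lit 519) (nat_lit 371) (nat_lit 310)) (XT.lf (nat_lit 0) (nat_lit 5127300962) (nat_lit 76) (nat_lit 2640280729) (nat_lit 152) (nat_lit 22733988091) (nat_lit 36) (nat_lit 5) (nat_lit 37) (nat_lit 5) (nat_lit 38) (nat_lit 4) (nat_lit 520) (nat_lit 371) (nat_lit 309)))) (XT.nd (nat_lit 156) (nat_lit 152) (nat_lit 0) (XT.nd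 (nat_lit 78) (nat_lit 76) (nat_lit 0) (XT.lf (nat_lit 0) (nat_lit 15978366872) (nat_lit 152) (nat_lit 9597664781) (nat_lit 0) (nat_lit 5590095592) (nat_lit 36) (nat_lit 5) (nat_lit 38) (nat_lit 4) (nat_lit 36) (nat_lit 4) (nat_lit 521) (nat_lit 371) (nat_lit 308)) (XT.lf (nat_lit 0) (nat_lit 6640382830) (nat_lit 76) (nat_lit 17826603099) (nat_lit 76) (nat_lit 7382690809) (nat_lit 35) (nat_lit 4) (nat_lit 36) (nat_lit 5) (nat_lit 36) (nat_lit 4) (nat_lit 522) (nat_lit 371) (nat_lit 307))) (XT.nd (nat_lit 78) (nat_lit 76) (nat_lit 0) (XT.lf (nat_lit 0) (nat_lit 683166221) (nat_lit 152) (nat_lit 9111105255) (nat_lit 76) (nat_lit 22758089091) (nat_lit 34) (nat_lit 5) (nat_lit 36) (nat_lit 5) (nat_lit 35) (nat_lit 4) (nat_lit 523) (nat_lit 371) (nat_lit 306)) (XT.lf (nat_lit 0) (nat_lit 7429953110) (nat_lit 76) (nat_lit 1427353679) (nat_lit 152) (nat_lit 24416185029) (nat_lit 33) (nat_lit 5) (nat_lit 34) (nat_lit 5)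 (nat_lit 35) (nat_lit 4) (nat_lit 524) (nat_lit 371) (nat_lit 305))))) (XT.nd (nat_lit 312) (nat_lit 228) (nat_lit 0) (XT.nd (nat_lit 156) (nat_lit 152) (nat_lit 0) (XT.nd (nat_lit 78) (nat_lit 76) (nat_lit 0) (XT.lf (nat_lit 0) (nat_lit 17382038837) (nat_lit 152) (nat_lit 9541542237) (nat_lit 0) (nat_lit 7089515460) (nat_lit 33) (nat_lit 5) (nat_lit 35) (nat_lit 4) (nat_lit 33) (nat_lit 4) (nat_lit 525) (nat_lit 371) (nat_lit 304)) (XT.lf (nat_lit 0) (nat_lit 7268452292) (nat_lit 76) (nat_lit 18923043965) (nat_lit 76) (nat_lit 8582524165) (nat_lit 32) (nat_lit 4) (nat_lit 33) (nat_lit 5) (nat_lit 33) (nat_lit 4) (nat_lit 526) (nat_lit 371) (nat_lit 303))) (XT.nd (nat_lit 78) (nat_lit 152) (nat_lit 0) (XT.lf (nat_lit 0) (nat_lit 24670641922) (nat_lit 76) (nat_lit 10636495937) (nat_lit 76) (nat_lit 249377668) (nat_lit 32) (nat_lit 4) (nat_lit 33) (nat_lit 5) (nat_lit 33) (nat_lit 4) (nat_lit 527) (nat_lit 371) (nat_lit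 302)) (XT.lf (nat_lit 0) (nat_lit 6167020087) (nat_lit 76) (nat_lit 2010014192) (nat_lit 152) (nat_lit 28182871632) (nat_lit 30) (nat_lit 5) (nat_lit 31) (nat_lit 5) (nat_lit 32) (nat_lit 4) (nat_lit 528) (nat_lit 371) (nat_lit 301)))) (XT.nd (nat_lit 156) (nat_lit 152) (nat_lit 0) (XT.nd (nat_lit 78) (nat_lit 76) (nat_lit 0) (XT.lf (nat_lit 0) (nat_lit 16974993743) (nat_lit 152) (nat_lit 13404772466) (nat_lit 0) (nat_lit 6803845174) (nat_lit 30) (nat_lit 5) (nat_lit 32) (nat_lit 4) (nat_lit 30) (nat_lit 4) (nat_lit 529) (nat_lit 371) (nat_lit 300)) (XT.lf (nat_lit 0) (nat_lit 3839405855) (nat_lit 76) (nat_lit 22202511286) (nat_lit 76) (nat_lit 11989960581) (nat_lit 29) (nat_lit 4) (nat_lit 30) (nat_lit 5) (nat_lit 30) (nat_lit 4) (nat_lit 530) (nat_lit 371) (nat_lit 299))) (XT.nd (nat_lit 78) (nat_lit 152) (nat_lit 0) (XT.lf (nat_lit 0) (nat_lit 21774102141) (nat_lit 76) (nat_lit 13690856992) (nat_lit 76) (nat_lit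 3438110038) (nat_lit 29) (nat_lit 4) (nat_lit 30) (nat_lit 5) (nat_lit 30) (nat_lit 4) (nat_lit 531) (nat_lit 371) (nat_lit 298)) (XT.lf (nat_lit 0) (nat_lit 301061569) (nat_lit 76) (nat_lit 4917083261) (nat_lit 152) (nat_lit 34582123995) (nat_lit 27) (nat_lit 5) (nat_lit 28) (nat_lit 5) (nat_lit 29) (nat_lit 4) (nat_lit 532) (nat_lit 371) (nat_lit 297)))))) (XT.nd (nat_lit 624) (nat_lit 380) (nat_lit 0) (XT.nd (nat_lit 312) (nat_lit 228) (nat_lit 0) (XT.nd (nat_lit 156) (nat_lit 76) (nat_lit 0) (XT.nd (nat_lit 78) (nat_lit 0) (nat_lit 0) (XT.lf (nat_lit 0) (nat_lit 14229062985) (nat_lit 152) (nat_lit 22289112675) (nat_lit 0) (nat_lit 4200265648) (nat_lit 27) (nat_lit 5) (nat_lit 29) (nat_lit 4) (nat_lit 27) (nat_lit 4) (nat_lit 533) (nat_lit 371) (nat_lit 296)) (XT.lf (nat_lit 0) (nat_lit 23510248664) (nat_lit 152) (nat_lit 4708175016) (nat_lit 0) (nat_lit 13445737481) (nat_lit 27) (nat_lit 5) (nat_lit 29) (nat_lit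 4) (nat_lit 27) (nat_lit 4) (nat_lit 534) (nat_lit 371) (nat_lit 295))) (XT.nd (nat_lit 78) (nat_lit 0) (nat_lit 0) (XT.lf (nat_lit 0) (nat_lit 13571053858) (nat_lit 76) (nat_lit 19581945043) (nat_lit 76) (nat_lit 9482760223) (nat_lit 26) (nat_lit 4) (nat_lit 27) (nat_lit 5) (nat_lit 27) (nat_lit 4) (nat_lit 535) (nat_lit 371) (nat_lit 294)) (XT.lf (nat_lit 0) (nat_lit 32402136662) (nat_lit 76) (nat_lit 10683598094) (nat_lit 76) (nat_lit 550749548) (nat_lit 26) (nat_lit 4) (nat_lit 27) (nat_lit 5) (nat_lit 27) (nat_lit 4) (nat_lit 536) (nat_lit 371) (nat_lit 293)))) (XT.nd (nat_lit 156) (nat_lit 76) (nat_lit 0) (XT.nd (nat_lit 78) (nat_lit 0) (nat_lit 0) (XT.lf (nat_lit 0) (nat_lit 7094987357) (nat_lit 76) (nat_lit 1407731426) (nat_lit 152) (nat_lit 36161350316) (nat_lit 24) (nat_lit 5) (nat_lit 25) (nat_lit 5) (nat_lit 26) (nat_lit 4) (nat_lit 537) (nat_lit 371) (nat_lit 292)) (XT.lf (nat_lit 0) (nat_lit 17963709184)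 (nat_lit 152) (nat_lit 19690745597) (nat_lit 0) (nat_lit 8063453782) (nat_lit 24) (nat_lit 5) (nat_lit 26) (nat_lit 4) (nat_lit 24) (nat_lit 4) (nat_lit 538) (nat_lit 371) (nat_lit 291))) (XT.nd (nat_lit 78) (nat_lit 76) (nat_lit 0) (XT.lf (nat_lit 0) (nat_lit 27677914950) (nat_lit 152) (nat_lit 1378617257) (nat_lit 0) (nat_lit 17747749765) (nat_lit 24) (nat_lit 5) (nat_lit 26) (nat_lit 4) (nat_lit 24) (nat_lit 4) (nat_lit 539) (nat_lit 371) (nat_lit 290)) (XT.lf (nat_lit 0) (nat_lit 17743067292) (nat_lit 76) (nat_lit 20067782173) (nat_lit 76) (nat_lit 10108578362) (nat_lit 23) (nat_lit 4) (nat_lit 24) (nat_lit 5) (nat_lit 24) (nat_lit 4) (nat_lit 540) (nat_lit 371) (nat_lit 289))))) (XT.nd (nat_lit 312) (nat_lit 228) (nat_lit 0) (XT.nd (nat_lit 156) (nat_lit 0) (nat_lit 0) (XT.nd (nat_lit 78) (nat_lit 152) (nat_lit 0) (XT.lf (nat_lit 0) (nat_lit 37381467407) (nat_lit 76) (nat_lit 10837412193) (nat_lit 76) (nat_lit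 850015542) (nat_lit 23) (nat_lit 4) (nat_lit 24) (nat_lit 5) (nat_lit 24) (nat_lit 4) (nat_lit 541) (nat_lit 371) (nat_lit 288)) (XT.lf (nat_lit 0) (nat_lit 7332203060) (nat_lit 76) (nat_lit 1213103048) (nat_lit 152) (nat_lit 41704180631) (nat_lit 21) (nat_lit 5) (nat_lit 22) (nat_lit 5) (nat_lit 23) (nat_lit 4) (nat_lit 542) (nat_lit 371) (nat_lit 287))) (XT.nd (nat_lit 78) (nat_lit 0) (nat_lit 0) (XT.lf (nat_lit 0) (nat_lit 18366273646) (nat_lit 152) (nat_lit 24476746975) (nat_lit 0) (nat_lit 8617397145) (nat_lit 21) (nat_lit 5) (nat_lit 23) (nat_lit 4) (nat_lit 21) (nat_lit 4) (nat_lit 543) (nat_lit 371) (nat_lit 286)) (XT.lf (nat_lit 0) (nat_lit 28453155876) (nat_lit 152) (nat_lit 5576152154) (nat_lit 0) (nat_lit 18679230402) (nat_lit 21) (nat_lit 5) (nat_lit 23) (nat_lit 4) (nat_lit 21) (nat_lit 4) (nat_lit 544) (nat_lit 371) (nat_lit 285)))) (XT.nd (nat_lit 156) (nat_lit 152) (nat_lit 0) (XT.nd (nat_lit 78)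 (nat_lit 0) (nat_lit 0) (XT.lf (nat_lit 0) (nat_lit 14087576311) (nat_lit 76) (nat_lit 24850947581) (nat_lit 76) (nat_lit 15052702716) (nat_lit 20) (nat_lit 4) (nat_lit 21) (nat_lit 5) (nat_lit 21) (nat_lit 4) (nat_lit 545) (nat_lit 371) (nat_lit 284)) (XT.lf (nat_lit 0) (nat_lit 34377511116) (nat_lit 76) (nat_lit 15378112687) (nat_lit 76) (nat_lit 5556256762) (nat_lit 20) (nat_lit 4) (nat_lit 21) (nat_lit 5) (nat_lit 21) (nat_lit 4) (nat_lit 546) (nat_lit 371) (nat_lit 283))) (XT.nd (nat_lit 78) (nat_lit 76) (nat_lit 0) (XT.lf (nat_lit 0) (nat_lit 4104262103) (nat_lit 152) (nat_lit 1513127213) (nat_lit 76) (nat_lit 51054697863) (nat_lit 19) (nat_lit 5) (nat_lit 21) (nat_lit 5) (nat_lit 20) (nat_lit 4) (nat_lit 547) (nat_lit 371) (nat_lit 282)) (XT.lf (nat_lit 0) (nat_lit 14130293634) (nat_lit 152) (nat_lit 39384887025) (nat_lit 0) (nat_lit 4550648029) (nat_lit 18) (nat_lit 5) (nat_lit 20) (nat_lit 4) (nat_lit 18)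 (nat_lit 4) (nat_lit 548) (nat_lit 371) (nat_lit 281))))))))
noncomputable def xc39 : XT := (XT.nd (nat_lit 57174) (nat_lit 0) (nat_lit 2204) (XT.nd (nat_lit 56004) (nat_lit 0) (nat_lit 5016) (XT.nd (nat_lit 55380) (nat_lit 0) (nat_lit 7448) (XT.nd (nat_lit 234) (nat_lit 76) (nat_lit 0) (XT.nd (nat_lit 78) (nat_lit 76) (nat_lit 0) (XT.lf (nat_lit 0) (nat_lit 24490924203) (nat_lit 152) (nat_lit 20119143449) (nat_lit 0) (nat_lit 14890300479) (nat_lit 18) (nat_lit 5) (nat_lit 20) (nat_lit 4) (nat_lit 18) (nat_lit 4) (nat_lit 549) (nat_lit 371) (nat_lit 280)) (XT.nd (nat_lit 78) (nat_lit 76) (nat_lit 0) (XT.lf (nat_lit 0) (nat_lit 35126227551) (nat_lit 152) (nat_lit 347564098) (nat_lit 0) (nat_lit 25505236719) (nat_lit 18) (nat_lit 5) (nat_lit 20) (nat_lit 4) (nat_lit 18) (nat_lit 4) (nat_lit 550) (nat_lit 371) (nat_lit 279)) (XT.lf (nat_lit 0) (nat_lit 20344114107) (nat_lit 76) (nat_lit 25896942622) (nat_lit 76) (nat_lit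 16256177899) (nat_lit 17) (nat_lit 4) (nat_lit 18) (nat_lit 5) (nat_lit 18) (nat_lit 4) (nat_lit 551) (nat_lit 371) (nat_lit 278)))) (XT.nd (nat_lit 54990) (nat_lit 0) (nat_lit 9196) (XT.nd (nat_lit 78) (nat_lit 76) (nat_lit 0) (XT.lf (nat_lit 0) (nat_lit 41594318537) (nat_lit 76) (nat_lit 16063784135) (nat_lit 76) (nat_lit 6403821460) (nat_lit 17) (nat_lit 4) (nat_lit 18) (nat_lit 5) (nat_lit 18) (nat_lit 4) (nat_lit 552) (nat_lit 371) (nat_lit 277)) (XT.lf (nat_lit 0) (nat_lit 3636984515) (nat_lit 152) (nat_lit 2295522896) (nat_lit 76) (nat_lit 59740989195) (nat_lit 16) (nat_lit 5) (nat_lit 18) (nat_lit 5) (nat_lit 17) (nat_lit 4) (nat_lit 553) (nat_lit 371) (nat_lit 276))) (XT.nd (nat_lit 78) (nat_lit 304) (nat_lit 0) (XT.lf (nat_lit 0) (nat_lit 1916217182) (nat_lit 304) (nat_lit 1512922131) (nat_lit 304) (nat_lit 1512922131) (nat_lit 141) (nat_lit 4) (nat_lit 145) (nat_lit 5) (nat_lit 145) (nat_lit 4) (nat_lit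 456) (nat_lit 372) (nat_lit 372)) (XT.lf (nat_lit 0) (nat_lit 1739173498) (nat_lit 304) (nat_lit 7264615113) (nat_lit 0) (nat_lit 1011002221) (nat_lit 137) (nat_lit 5) (nat_lit 141) (nat_lit 4) (nat_lit 137) (nat_lit 4) (nat_lit 457) (nat_lit 372) (nat_lit 371))))) (XT.nd (nat_lit 312) (nat_lit 912) (nat_lit 0) (XT.nd (nat_lit 156) (nat_lit 304) (nat_lit 0) (XT.nd (nat_lit 78) (nat_lit 304) (nat_lit 0) (XT.lf (nat_lit 0) (nat_lit 1584961754) (nat_lit 228) (nat_lit 4999359952) (nat_lit 228) (nat_lit 3564226270) (nat_lit 134) (nat_lit 4) (nat_lit 137) (nat_lit 5) (nat_lit 137) (nat_lit 4) (nat_lit 458) (nat_lit 372) (nat_lit 370)) (XT.lf (nat_lit 0) (nat_lit 380673233) (nat_lit 228) (nat_lit 851926855) (nat_lit 304) (nat_lit 9054276430) (nat_lit 130) (nat_lit 5) (nat_lit 133) (nat_lit 5) (nat_lit 134) (nat_lit 4) (nat_lit 459) (nat_lit 372) (nat_lit 369))) (XT.nd (nat_lit 78) (nat_lit 304) (nat_lit 0) (XT.lf (nat_lit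 0) (nat_lit 6114184820) (nat_lit 304) (nat_lit 906243313) (nat_lit 0) (nat_lit 3407500530) (nat_lit 130) (nat_lit 5) (nat_lit 134) (nat_lit 4) (nat_lit 130) (nat_lit 4) (nat_lit 460) (nat_lit 372) (nat_lit 368)) (XT.lf (nat_lit 0) (nat_lit 541802158) (nat_lit 304) (nat_lit 2234952848) (nat_lit 76) (nat_lit 7796783000) (nat_lit 126) (nat_lit 5) (nat_lit 130) (nat_lit 5) (nat_lit 127) (nat_lit 4) (nat_lit 461) (nat_lit 372) (nat_lit 367)))) (XT.nd (nat_lit 156) (nat_lit 456) (nat_lit 0) (XT.nd (nat_lit 78) (nat_lit 228) (nat_lit 0) (XT.lf (nat_lit 0) (nat_lit 5445203669) (nat_lit 304) (nat_lit 3661917485) (nat_lit 0) (nat_lit 1615452980) (nat_lit 123) (nat_lit 5) (nat_lit 127) (nat_lit 4) (nat_lit 123) (nat_lit 4) (nat_lit 462) (nat_lit 372) (nat_lit 366)) (XT.lf (nat_lit 0) (nat_lit 5714201952) (nat_lit 228) (nat_lit 4783205286) (nat_lit 228) (nat_lit 378629467) (nat_lit 120) (nat_lit 4) (nat_lit 123) (nat_lit 5)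 (nat_lit 123) (nat_lit 4) (nat_lit 463) (nat_lit 372) (nat_lit 365))) (XT.nd (nat_lit 78) (nat_lit 228) (nat_lit 0) (XT.lf (nat_lit 0) (nat_lit 4276422725) (nat_lit 152) (nat_lit 274848799) (nat_lit 228) (nat_lit 6482233664) (nat_lit 117) (nat_lit 5) (nat_lit 119) (nat_lit 5) (nat_lit 120) (nat_lit 4) (nat_lit 464) (nat_lit 372) (nat_lit 364)) (XT.lf (nat_lit 0) (nat_lit 2740602038) (nat_lit 228) (nat_lit 6899298624) (nat_lit 228) (nat_lit 1555137181) (nat_lit 114) (nat_lit 4) (nat_lit 117) (nat_lit 5) (nat_lit 117) (nat_lit 4) (nat_lit 465) (nat_lit 372) (nat_lit 363)))))) (XT.nd (nat_lit 546) (nat_lit 1216) (nat_lit 0) (XT.nd (nat_lit 234) (nat_lit 684) (nat_lit 0) (XT.nd (nat_lit 78) (nat_lit 304) (nat_lit 0) (XT.lf (nat_lit 0) (nat_lit 1110360347) (nat_lit 152) (nat_lit 2320795550) (nat_lit 228) (nat_lit 7929849027) (nat_lit 111) (nat_lit 5) (nat_lit 113) (nat_lit 5) (nat_lit 114) (nat_lit 4) (nat_lit 466) (nat_lit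 372) (nat_lit 362)) (XT.nd (nat_lit 78) (nat_lit 304) (nat_lit 0) (XT.lf (nat_lit 0) (nat_lit 8543375156) (nat_lit 228) (nat_lit 610278743) (nat_lit 0) (nat_lit 2377612698) (nat_lit 111) (nat_lit 5) (nat_lit 114) (nat_lit 4) (nat_lit 111) (nat_lit 4) (nat_lit 467) (nat_lit 372) (nat_lit 361)) (XT.lf (nat_lit 0) (nat_lit 2075178885) (nat_lit 304) (nat_lit 2420534754) (nat_lit 76) (nat_lit 7209904897) (nat_lit 107) (nat_lit 5) (nat_lit 111) (nat_lit 5) (nat_lit 108) (nat_lit 4) (nat_lit 468) (nat_lit 372) (nat_lit 360)))) (XT.nd (nat_lit 156) (nat_lit 304) (nat_lit 0) (XT.nd (nat_lit 78) (nat_lit 228) (nat_lit 0) (XT.lf (nat_lit 0) (nat_lit 7213738790) (nat_lit 228) (nat_lit 4337836307) (nat_lit 0) (nat_lit 333233782) (nat_lit 105) (nat_lit 5) (nat_lit 108) (nat_lit 4) (nat_lit 105) (nat_lit 4) (nat_lit 469) (nat_lit 372) (nat_lit 359)) (XT.lf (nat_lit 0) (nat_lit 454783299) (nat_lit 228) (nat_lit 6385018791) (nat_lit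 76) (nat_lit 5228664441) (nat_lit 102) (nat_lit 5) (nat_lit 105) (nat_lit 5) (nat_lit 103) (nat_lit 4) (nat_lit 470) (nat_lit 372) (nat_lit 358))) (XT.nd (nat_lit 78) (nat_lit 152) (nat_lit 0) (XT.lf (nat_lit 0) (nat_lit 3690365380) (nat_lit 152) (nat_lit 1932225837) (nat_lit 228) (nat_lit 6634197822) (nat_lit 100) (nat_lit 5) (nat_lit 102) (nat_lit 5) (nat_lit 103) (nat_lit 4) (nat_lit 471) (nat_lit 372) (nat_lit 357)) (XT.lf (nat_lit 0) (nat_lit 1576764239) (nat_lit 152) (nat_lit 9381787175) (nat_lit 152) (nat_lit 1491820598) (nat_lit 98) (nat_lit 4) (nat_lit 100) (nat_lit 5) (nat_lit 100) (nat_lit 4) (nat_lit 472) (nat_lit 372) (nat_lit 356))))) (XT.nd (nat_lit 312) (nat_lit 608) (nat_lit 0) (XT.nd (nat_lit 156) (nat_lit 380) (nat_lit 0) (XT.nd (nat_lit 78) (nat_lit 152) (nat_lit 0) (XT.lf (nat_lit 0) (nat_lit 3740129074) (nat_lit 228) (nat_lit 677531684) (nat_lit 76) (nat_lit 8230722157) (nat_lit 97) (nat_lit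 5) (nat_lit 100) (nat_lit 5) (nat_lit 98) (nat_lit 4) (nat_lit 473) (nat_lit 372) (nat_lit 355)) (XT.lf (nat_lit 0) (nat_lit 9106503165) (nat_lit 228) (nat_lit 3025997279) (nat_lit 0) (nat_lit 719171046) (nat_lit 95) (nat_lit 5) (nat_lit 98) (nat_lit 4) (nat_lit 95) (nat_lit 4) (nat_lit 474) (nat_lit 372) (nat_lit 354))) (XT.nd (nat_lit 78) (nat_lit 152) (nat_lit 0) (XT.lf (nat_lit 0) (nat_lit 1571752821) (nat_lit 228) (nat_lit 5544452549) (nat_lit 76) (nat_lit 5943514497) (nat_lit 92) (nat_lit 5) (nat_lit 95) (nat_lit 5) (nat_lit 93) (nat_lit 4) (nat_lit 475) (nat_lit 372) (nat_lit 353)) (XT.lf (nat_lit 0) (nat_lit 5053706888) (nat_lit 152) (nat_lit 1905143774) (nat_lit 228) (nat_lit 6314471934) (nat_lit 90) (nat_lit 5) (nat_lit 92) (nat_lit 5) (nat_lit 93) (nat_lit 4) (nat_lit 476) (nat_lit 372) (nat_lit 352)))) (XT.nd (nat_lit 156) (nat_lit 380) (nat_lit 0) (XT.nd (nat_lit 78) (nat_lit 76) (nat_lit 0) (XT.lf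 (nat_lit 0) (nat_lit 2435884827) (nat_lit 152) (nat_lit 10091809828) (nat_lit 152) (nat_lit 965038277) (nat_lit 88) (nat_lit 4) (nat_lit 90) (nat_lit 5) (nat_lit 90) (nat_lit 4) (nat_lit 477) (nat_lit 372) (nat_lit 351)) (XT.lf (nat_lit 0) (nat_lit 4465955287) (nat_lit 228) (nat_lit 369879149) (nat_lit 76) (nat_lit 8881290900) (nat_lit 87) (nat_lit 5) (nat_lit 90) (nat_lit 5) (nat_lit 88) (nat_lit 4) (nat_lit 478) (nat_lit 372) (nat_lit 350))) (XT.nd (nat_lit 78) (nat_lit 228) (nat_lit 0) (XT.lf (nat_lit 0) (nat_lit 10058794200) (nat_lit 228) (nat_lit 3282027663) (nat_lit 0) (nat_lit 606594871) (nat_lit 85) (nat_lit 5) (nat_lit 88) (nat_lit 4) (nat_lit 85) (nat_lit 4) (nat_lit 479) (nat_lit 372) (nat_lit 349)) (XT.lf (nat_lit 0) (nat_lit 1639960479) (nat_lit 228) (nat_lit 6405855428) (nat_lit 76) (nat_lit 6137220764) (nat_lit 82) (nat_lit 5) (nat_lit 85) (nat_lit 5) (nat_lit 83) (nat_lit 4) (nat_lit 480) (nat_lit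 372) (nat_lit 348))))))) (XT.nd (nat_lit 1170) (nat_lit 1216) (nat_lit 0) (XT.nd (nat_lit 546) (nat_lit 912) (nat_lit 0) (XT.nd (nat_lit 234) (nat_lit 380) (nat_lit 0) (XT.nd (nat_lit 78) (nat_lit 228) (nat_lit 0) (XT.lf (nat_lit 0) (nat_lit 4698175797) (nat_lit 76) (nat_lit 2546992026) (nat_lit 152) (nat_lit 7179737567) (nat_lit 81) (nat_lit 5) (nat_lit 82) (nat_lit 5) (nat_lit 83) (nat_lit 4) (nat_lit 481) (nat_lit 372) (nat_lit 347)) (XT.nd (nat_lit 78) (nat_lit 76) (nat_lit 0) (XT.lf (nat_lit 0) (nat_lit 1426072310) (nat_lit 152) (nat_lit 11612064085) (nat_lit 152) (nat_lit 1635308486) (nat_lit 79) (nat_lit 4) (nat_lit 81) (nat_lit 5) (nat_lit 81) (nat_lit 4) (nat_lit 482) (nat_lit 372) (nat_lit 346)) (XT.lf (nat_lit 0) (nat_lit 4031095686) (nat_lit 228) (nat_lit 2044874057) (nat_lit 76) (nat_lit 8851243171) (nat_lit 78) (nat_lit 5) (nat_lit 81) (nat_lit 5) (nat_lit 79) (nat_lit 4) (nat_lit 483) (nat_lit 372)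 (nat_lit 345)))) (XT.nd (nat_lit 156) (nat_lit 76) (nat_lit 0) (XT.nd (nat_lit 78) (nat_lit 228) (nat_lit 0) (XT.lf (nat_lit 0) (nat_lit 9501894485) (nat_lit 76) (nat_lit 337424598) (nat_lit 152) (nat_lit 5348650934) (nat_lit 77) (nat_lit 5) (nat_lit 78) (nat_lit 5) (nat_lit 79) (nat_lit 4) (nat_lit 484) (nat_lit 372) (nat_lit 344)) (XT.lf (nat_lit 0) (nat_lit 403146292) (nat_lit 228) (nat_lit 9578451470) (nat_lit 76) (nat_lit 5473498190) (nat_lit 74) (nat_lit 5) (nat_lit 77) (nat_lit 5) (nat_lit 75) (nat_lit 4) (nat_lit 485) (nat_lit 372) (nat_lit 343))) (XT.nd (nat_lit 78) (nat_lit 0) (nat_lit 0) (XT.lf (nat_lit 0) (nat_lit 1994902475) (nat_lit 76) (nat_lit 4219366886) (nat_lit 152) (nat_lit 9514551758) (nat_lit 73) (nat_lit 5) (nat_lit 74) (nat_lit 5) (nat_lit 75) (nat_lit 4) (nat_lit 486) (nat_lit 372) (nat_lit 342)) (XT.lf (nat_lit 0) (nat_lit 12227928309) (nat_lit 152) (nat_lit 2075211559) (nat_lit 0) (nat_lit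 1706774434) (nat_lit 73) (nat_lit 5) (nat_lit 75) (nat_lit 4) (nat_lit 73) (nat_lit 4) (nat_lit 487) (nat_lit 372) (nat_lit 341))))) (XT.nd (nat_lit 312) (nat_lit 380) (nat_lit 0) (XT.nd (nat_lit 156) (nat_lit 228) (nat_lit 0) (XT.nd (nat_lit 78) (nat_lit 76) (nat_lit 0) (XT.lf (nat_lit 0) (nat_lit 2135412233) (nat_lit 228) (nat_lit 6390550348) (nat_lit 76) (nat_lit 7771239569) (nat_lit 70) (nat_lit 5) (nat_lit 73) (nat_lit 5) (nat_lit 71) (nat_lit 4) (nat_lit 488) (nat_lit 372) (nat_lit 340)) (XT.lf (nat_lit 0) (nat_lit 5612781058) (nat_lit 76) (nat_lit 2533303448) (nat_lit 152) (nat_lit 8446149906) (nat_lit 69) (nat_lit 5) (nat_lit 70) (nat_lit 5) (nat_lit 71) (nat_lit 4) (nat_lit 489) (nat_lit 372) (nat_lit 339))) (XT.nd (nat_lit 78) (nat_lit 76) (nat_lit 0) (XT.lf (nat_lit 0) (nat_lit 1040357917) (nat_lit 152) (nat_lit 13323750713) (nat_lit 152) (nat_lit 2531200130) (nat_lit 67) (nat_lit 4) (nat_lit 69) (nat_lit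 5) (nat_lit 69) (nat_lit 4) (nat_lit 490) (nat_lit 372) (nat_lit 338)) (XT.lf (nat_lit 0) (nat_lit 3545743254) (nat_lit 228) (nat_lit 3776194850) (nat_lit 76) (nat_lit 9882891103) (nat_lit 66) (nat_lit 5) (nat_lit 69) (nat_lit 5) (nat_lit 67) (nat_lit 4) (nat_lit 491) (nat_lit 372) (nat_lit 337)))) (XT.nd (nat_lit 156) (nat_lit 152) (nat_lit 0) (XT.nd (nat_lit 78) (nat_lit 152) (nat_lit 0) (XT.lf (nat_lit 0) (nat_lit 8655891574) (nat_lit 76) (nat_lit 1100838379) (nat_lit 152) (nat_lit 7766077077) (nat_lit 65) (nat_lit 5) (nat_lit 66) (nat_lit 5) (nat_lit 67) (nat_lit 4) (nat_lit 492) (nat_lit 372) (nat_lit 336)) (XT.lf (nat_lit 0) (nat_lit 3554046616) (nat_lit 152) (nat_lit 12643293351) (nat_lit 152) (nat_lit 1651687247) (nat_lit 63) (nat_lit 4) (nat_lit 65) (nat_lit 5) (nat_lit 65) (nat_lit 4) (nat_lit 493) (nat_lit 372) (nat_lit 335))) (XT.nd (nat_lit 78) (nat_lit 76) (nat_lit 0) (XT.lf (nat_lit 0) (nat_lit 4576498520)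 (nat_lit 228) (nat_lit 1862577236) (nat_lit 76) (nat_lit 11743989322) (nat_lit 62) (nat_lit 5) (nat_lit 65) (nat_lit 5) (nat_lit 63) (nat_lit 4) (nat_lit 494) (nat_lit 372) (nat_lit 334)) (XT.lf (nat_lit 0) (nat_lit 10986097429) (nat_lit 152) (nat_lit 7533641705) (nat_lit 0) (nat_lit 6063081) (nat_lit 61) (nat_lit 5) (nat_lit 63) (nat_lit 4) (nat_lit 61) (nat_lit 4) (nat_lit 495) (nat_lit 372) (nat_lit 333)))))) (XT.nd (nat_lit 624) (nat_lit 532) (nat_lit 0) (XT.nd (nat_lit 312) (nat_lit 304) (nat_lit 0) (XT.nd (nat_lit 156) (nat_lit 152) (nat_lit 0) (XT.nd (nat_lit 78) (nat_lit 76) (nat_lit 0) (XT.lf (nat_lit 0) (nat_lit 5282706097) (nat_lit 152) (nat_lit 12361028720) (nat_lit 152) (nat_lit 1233415764) (nat_lit 59) (nat_lit 4) (nat_lit 61) (nat_lit 5) (nat_lit 61) (nat_lit 4) (nat_lit 496) (nat_lit 372) (nat_lit 332)) (XT.lf (nat_lit 0) (nat_lit 5158515282) (nat_lit 228) (nat_lit 799107134) (nat_lit 76) (nat_lit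 13279927004) (nat_lit 58) (nat_lit 5) (nat_lit 61) (nat_lit 5) (nat_lit 59) (nat_lit 4) (nat_lit 497) (nat_lit 372) (nat_lit 331))) (XT.nd (nat_lit 78) (nat_lit 76) (nat_lit 0) (XT.lf (nat_lit 0) (nat_lit 11768592949) (nat_lit 152) (nat_lit 7147344132) (nat_lit 0) (nat_lit 690922900) (nat_lit 57) (nat_lit 5) (nat_lit 59) (nat_lit 4) (nat_lit 57) (nat_lit 4) (nat_lit 498) (nat_lit 372) (nat_lit 330)) (XT.lf (nat_lit 0) (nat_lit 6059636121) (nat_lit 76) (nat_lit 12567451737) (nat_lit 76) (nat_lit 1358660007) (nat_lit 56) (nat_lit 4) (nat_lit 57) (nat_lit 5) (nat_lit 57) (nat_lit 4) (nat_lit 499) (nat_lit 372) (nat_lit 329)))) (XT.nd (nat_lit 156) (nat_lit 152) (nat_lit 0) (XT.nd (nat_lit 78) (nat_lit 76) (nat_lit 0) (XT.lf (nat_lit 0) (nat_lit 5209308328) (nat_lit 152) (nat_lit 761198427) (nat_lit 76) (nat_lit 14404033335) (nat_lit 55) (nat_lit 5) (nat_lit 57) (nat_lit 5) (nat_lit 56) (nat_lit 4) (nat_lit 500) (nat_lit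 372) (nat_lit 328)) (XT.lf (nat_lit 0) (nat_lit 12006604099) (nat_lit 152) (nat_lit 7885509509) (nat_lit 0) (nat_lit 880692356) (nat_lit 54) (nat_lit 5) (nat_lit 56) (nat_lit 4) (nat_lit 54) (nat_lit 4) (nat_lit 501) (nat_lit 372) (nat_lit 327))) (XT.nd (nat_lit 78) (nat_lit 76) (nat_lit 0) (XT.lf (nat_lit 0) (nat_lit 5689069507) (nat_lit 76) (nat_lit 13367451100) (nat_lit 76) (nat_lit 2125039441) (nat_lit 53) (nat_lit 4) (nat_lit 54) (nat_lit 5) (nat_lit 54) (nat_lit 4) (nat_lit 502) (nat_lit 372) (nat_lit 326)) (XT.lf (nat_lit 0) (nat_lit 4630966185) (nat_lit 152) (nat_lit 1954657017) (nat_lit 76) (nat_lit 15015366300) (nat_lit 52) (nat_lit 5) (nat_lit 54) (nat_lit 5) (nat_lit 53) (nat_lit 4) (nat_lit 503) (nat_lit 372) (nat_lit 325))))) (XT.nd (nat_lit 312) (nat_lit 228) (nat_lit 0) (XT.nd (nat_lit 156) (nat_lit 152) (nat_lit 0) (XT.nd (nat_lit 78) (nat_lit 76) (nat_lit 0) (XT.lf (nat_lit 0) (nat_lit 11596824479)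 (nat_lit 152) (nat_lit 9968615397) (nat_lit 0) (nat_lit 465435433) (nat_lit 51) (nat_lit 5) (nat_lit 53) (nat_lit 4) (nat_lit 51) (nat_lit 4) (nat_lit 504) (nat_lit 372) (nat_lit 324)) (XT.lf (nat_lit 0) (nat_lit 3941287135) (nat_lit 76) (nat_lit 14882847564) (nat_lit 76) (nat_lit 3647949851) (nat_lit 50) (nat_lit 4) (nat_lit 51) (nat_lit 5) (nat_lit 51) (nat_lit 4) (nat_lit 505) (nat_lit 372) (nat_lit 323))) (XT.nd (nat_lit 78) (nat_lit 76) (nat_lit 0) (XT.lf (nat_lit 0) (nat_lit 3307696811) (nat_lit 152) (nat_lit 4620767037) (nat_lit 76) (nat_lit 14996168459) (nat_lit 49) (nat_lit 5) (nat_lit 51) (nat_lit 5) (nat_lit 50) (nat_lit 4) (nat_lit 506) (nat_lit 372) (nat_lit 322)) (XT.lf (nat_lit 0) (nat_lit 9727278628) (nat_lit 76) (nat_lit 696483459) (nat_lit 152) (nat_lit 12965159825) (nat_lit 48) (nat_lit 5) (nat_lit 49) (nat_lit 5) (nat_lit 50) (nat_lit 4) (nat_lit 507) (nat_lit 372) (nat_lit 321)))) (XT.nd (nat_lit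 156) (nat_lit 76) (nat_lit 0) (XT.nd (nat_lit 78) (nat_lit 76) (nat_lit 0) (XT.lf (nat_lit 0) (nat_lit 546953641) (nat_lit 76) (nat_lit 17255322158) (nat_lit 76) (nat_lit 6063396428) (nat_lit 47) (nat_lit 4) (nat_lit 48) (nat_lit 5) (nat_lit 48) (nat_lit 4) (nat_lit 508) (nat_lit 372) (nat_lit 320)) (XT.lf (nat_lit 0) (nat_lit 1102967817) (nat_lit 152) (nat_lit 9042188545) (nat_lit 76) (nat_lit 14208929739) (nat_lit 46) (nat_lit 5) (nat_lit 48) (nat_lit 5) (nat_lit 47) (nat_lit 4) (nat_lit 509) (nat_lit 372) (nat_lit 319))) (XT.nd (nat_lit 78) (nat_lit 0) (nat_lit 0) (XT.lf (nat_lit 0) (nat_lit 5582262018) (nat_lit 76) (nat_lit 2767571534) (nat_lit 152) (nat_lit 16505897395) (nat_lit 45) (nat_lit 5) (nat_lit 46) (nat_lit 5) (nat_lit 47) (nat_lit 4) (nat_lit 510) (nat_lit 372) (nat_lit 318)) (XT.lf (nat_lit 0) (nat_lit 15886578206) (nat_lit 152) (nat_lit 4715602346) (nat_lit 0) (nat_lit 4768071302) (nat_lit 45) (nat_lit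 5) (nat_lit 47) (nat_lit 4) (nat_lit 45) (nat_lit 4) (nat_lit 511) (nat_lit 372) (nat_lit 317))))))))
noncomputable def xc40 : XT := (XT.nd (nat_lit 2340) (nat_lit 456) (nat_lit 0) (XT.nd (nat_lit 1170) (nat_lit 760) (nat_lit 0) (XT.nd (nat_lit 546) (nat_lit 456) (nat_lit 0) (XT.nd (nat_lit 234) (nat_lit 228) (nat_lit 0) (XT.nd (nat_lit 78) (nat_lit 152) (nat_lit 0) (XT.lf (nat_lit 0) (nat_lit 10327521098) (nat_lit 76) (nat_lit 13384326586) (nat_lit 76) (nat_lit 2186488907) (nat_lit 44) (nat_lit 4) (nat_lit 45) (nat_lit 5) (nat_lit 45) (nat_lit 4) (nat_lit 512) (nat_lit 372) (nat_lit 316)) (XT.nd (nat_lit 78) (nat_lit 76) (nat_lit 0) (XT.lf (nat_lit 0) (nat_lit 5209493198) (nat_lit 152) (nat_lit 699586653) (nat_lit 76) (nat_lit 20532131449) (nat_lit 43) (nat_lit 5) (nat_lit 45) (nat_lit 5) (nat_lit 44) (nat_lit 4) (nat_lit 513) (nat_lit 372) (nat_lit 315)) (XT.lf (nat_lit 0) (nat_lit 12881230441) (nat_lit 152) (nat_lit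 12253390888) (nat_lit 0) (nat_lit 1862167615) (nat_lit 42) (nat_lit 5) (nat_lit 44) (nat_lit 4) (nat_lit 42) (nat_lit 4) (nat_lit 514) (nat_lit 372) (nat_lit 314)))) (XT.nd (nat_lit 156) (nat_lit 76) (nat_lit 0) (XT.nd (nat_lit 78) (nat_lit 76) (nat_lit 0) (XT.lf (nat_lit 0) (nat_lit 2972541324) (nat_lit 76) (nat_lit 17842540846) (nat_lit 76) (nat_lit 6752993656) (nat_lit 41) (nat_lit 4) (nat_lit 42) (nat_lit 5) (nat_lit 42) (nat_lit 4) (nat_lit 515) (nat_lit 372) (nat_lit 313)) (XT.lf (nat_lit 0) (nat_lit 876992283) (nat_lit 152) (nat_lit 9377684277) (nat_lit 76) (nat_lit 17899703530) (nat_lit 40) (nat_lit 5) (nat_lit 42) (nat_lit 5) (nat_lit 41) (nat_lit 4) (nat_lit 516) (nat_lit 372) (nat_lit 312))) (XT.nd (nat_lit 78) (nat_lit 0) (nat_lit 0) (XT.lf (nat_lit 0) (nat_lit 6232902286) (nat_lit 76) (nat_lit 2366762331) (nat_lit 152) (nat_lit 20156618281) (nat_lit 39) (nat_lit 5) (nat_lit 40) (nat_lit 5) (nat_lit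 41) (nat_lit 4) (nat_lit 517) (nat_lit 372) (nat_lit 311)) (XT.lf (nat_lit 0) (nat_lit 16644675811) (nat_lit 152) (nat_lit 7044288668) (nat_lit 0) (nat_lit 5684559242) (nat_lit 39) (nat_lit 5) (nat_lit 41) (nat_lit 4) (nat_lit 39) (nat_lit 4) (nat_lit 518) (nat_lit 372) (nat_lit 310))))) (XT.nd (nat_lit 312) (nat_lit 228) (nat_lit 0) (XT.nd (nat_lit 156) (nat_lit 76) (nat_lit 0) (XT.nd (nat_lit 78) (nat_lit 76) (nat_lit 0) (XT.lf (nat_lit 0) (nat_lit 8934909013) (nat_lit 76) (nat_lit 16046883882) (nat_lit 76) (nat_lit 5025966880) (nat_lit 38) (nat_lit 4) (nat_lit 39) (nat_lit 5) (nat_lit 39) (nat_lit 4) (nat_lit 519) (nat_lit 372) (nat_lit 309)) (XT.lf (nat_lit 0) (nat_lit 2864562210) (nat_lit 152) (nat_lit 5264885260) (nat_lit 76) (nat_lit 22530338254) (nat_lit 37) (nat_lit 5) (nat_lit 39) (nat_lit 5) (nat_lit 38) (nat_lit 4) (nat_lit 520) (nat_lit 372) (nat_lit 308))) (XT.nd (nat_lit 78) (nat_lit 0) (nat_lit 0)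 (XT.lf (nat_lit 0) (nat_lit 10941655327) (nat_lit 152) (nat_lit 20257914266) (nat_lit 0) (nat_lit 128784660) (nat_lit 36) (nat_lit 5) (nat_lit 38) (nat_lit 4) (nat_lit 36) (nat_lit 4) (nat_lit 521) (nat_lit 372) (nat_lit 307)) (XT.lf (nat_lit 0) (nat_lit 19338482517) (nat_lit 152) (nat_lit 4204583825) (nat_lit 0) (nat_lit 8471591454) (nat_lit 36) (nat_lit 5) (nat_lit 38) (nat_lit 4) (nat_lit 36) (nat_lit 4) (nat_lit 522) (nat_lit 372) (nat_lit 306)))) (XT.nd (nat_lit 156) (nat_lit 76) (nat_lit 0) (XT.nd (nat_lit 78) (nat_lit 76) (nat_lit 0) (XT.lf (nat_lit 0) (nat_lit 12464909030) (nat_lit 76) (nat_lit 15587019316) (nat_lit 76) (nat_lit 4667681266) (nat_lit 35) (nat_lit 4) (nat_lit 36) (nat_lit 5) (nat_lit 36) (nat_lit 4) (nat_lit 523) (nat_lit 372) (nat_lit 305)) (XT.lf (nat_lit 0) (nat_lit 3498990107) (nat_lit 152) (nat_lit 3867307536) (nat_lit 76) (nat_lit 26078746120) (nat_lit 34) (nat_lit 5) (nat_lit 36) (nat_lit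 5) (nat_lit 35) (nat_lit 4) (nat_lit 524) (nat_lit 372) (nat_lit 304))) (XT.nd (nat_lit 78) (nat_lit 0) (nat_lit 0) (XT.lf (nat_lit 0) (nat_lit 11901240946) (nat_lit 152) (nat_lit 21084573102) (nat_lit 0) (nat_lit 1202509130) (nat_lit 33) (nat_lit 5) (nat_lit 35) (nat_lit 4) (nat_lit 33) (nat_lit 4) (nat_lit 525) (nat_lit 372) (nat_lit 303)) (XT.lf (nat_lit 0) (nat_lit 20614516670) (nat_lit 152) (nat_lit 4468429714) (nat_lit 0) (nat_lit 9869186385) (nat_lit 33) (nat_lit 5) (nat_lit 35) (nat_lit 4) (nat_lit 33) (nat_lit 4) (nat_lit 526) (nat_lit 372) (nat_lit 302)))))) (XT.nd (nat_lit 546) (nat_lit 304) (nat_lit 0) (XT.nd (nat_lit 234) (nat_lit 228) (nat_lit 0) (XT.nd (nat_lit 78) (nat_lit 152) (nat_lit 0) (XT.lf (nat_lit 0) (nat_lit 12793321918) (nat_lit 76) (nat_lit 16866986607) (nat_lit 76) (nat_lit 6076415089) (nat_lit 32) (nat_lit 4) (nat_lit 33) (nat_lit 5) (nat_lit 33) (nat_lit 4) (nat_lit 527) (nat_lit 372)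 (nat_lit 301)) (XT.nd (nat_lit 78) (nat_lit 76) (nat_lit 0) (XT.lf (nat_lit 0) (nat_lit 2378888494) (nat_lit 152) (nat_lit 6005351398) (nat_lit 76) (nat_lit 28160099175) (nat_lit 31) (nat_lit 5) (nat_lit 33) (nat_lit 5) (nat_lit 32) (nat_lit 4) (nat_lit 528) (nat_lit 372) (nat_lit 300)) (XT.lf (nat_lit 0) (nat_lit 11030607359) (nat_lit 152) (nat_lit 25871546627) (nat_lit 0) (nat_lit 470277996) (nat_lit 30) (nat_lit 5) (nat_lit 32) (nat_lit 4) (nat_lit 30) (nat_lit 4) (nat_lit 529) (nat_lit 372) (nat_lit 299)))) (XT.nd (nat_lit 156) (nat_lit 152) (nat_lit 0) (XT.nd (nat_lit 78) (nat_lit 76) (nat_lit 0) (XT.lf (nat_lit 0) (nat_lit 20035858295) (nat_lit 152) (nat_lit 8751357737) (nat_lit 0) (nat_lit 9435332684) (nat_lit 30) (nat_lit 5) (nat_lit 32) (nat_lit 4) (nat_lit 30) (nat_lit 4) (nat_lit 530) (nat_lit 372) (nat_lit 298)) (XT.lf (nat_lit 0) (nat_lit 8960581642) (nat_lit 76) (nat_lit 20388009551) (nat_lit 76) (nat_lit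 9748458456) (nat_lit 29) (nat_lit 4) (nat_lit 30) (nat_lit 5) (nat_lit 30) (nat_lit 4) (nat_lit 531) (nat_lit 372) (nat_lit 297))) (XT.nd (nat_lit 78) (nat_lit 152) (nat_lit 0) (XT.lf (nat_lit 0) (nat_lit 27287513177) (nat_lit 76) (nat_lit 11693255445) (nat_lit 76) (nat_lit 1015815531) (nat_lit 29) (nat_lit 4) (nat_lit 30) (nat_lit 5) (nat_lit 30) (nat_lit 4) (nat_lit 532) (nat_lit 372) (nat_lit 296)) (XT.lf (nat_lit 0) (nat_lit 5171450182) (nat_lit 76) (nat_lit 2654005659) (nat_lit 152) (nat_lit 33095277999) (nat_lit 27) (nat_lit 5) (nat_lit 28) (nat_lit 5) (nat_lit 29) (nat_lit 4) (nat_lit 533) (nat_lit 372) (nat_lit 295))))) (XT.nd (nat_lit 312) (nat_lit 152) (nat_lit 0) (XT.nd (nat_lit 156) (nat_lit 152) (nat_lit 0) (XT.nd (nat_lit 78) (nat_lit 0) (nat_lit 0) (XT.lf (nat_lit 0) (nat_lit 17057817139) (nat_lit 152) (nat_lit 18189118337) (nat_lit 0) (nat_lit 6620983137) (nat_lit 27) (nat_lit 5) (nat_lit 29) (nat_lit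 4) (nat_lit 27) (nat_lit 4) (nat_lit 534) (nat_lit 372) (nat_lit 294)) (XT.lf (nat_lit 0) (nat_lit 26547480653) (nat_lit 152) (nat_lit 219645783) (nat_lit 0) (nat_lit 16076982925) (nat_lit 27) (nat_lit 5) (nat_lit 29) (nat_lit 4) (nat_lit 27) (nat_lit 4) (nat_lit 535) (nat_lit 372) (nat_lit 293))) (XT.nd (nat_lit 78) (nat_lit 76) (nat_lit 0) (XT.lf (nat_lit 0) (nat_lit 18562570011) (nat_lit 76) (nat_lit 17893091162) (nat_lit 76) (nat_lit 7389910206) (nat_lit 26) (nat_lit 4) (nat_lit 27) (nat_lit 5) (nat_lit 27) (nat_lit 4) (nat_lit 536) (nat_lit 372) (nat_lit 292)) (XT.lf (nat_lit 0) (nat_lit 1706848453) (nat_lit 152) (nat_lit 7070009884) (nat_lit 76) (nat_lit 36100975260) (nat_lit 25) (nat_lit 5) (nat_lit 27) (nat_lit 5) (nat_lit 26) (nat_lit 4) (nat_lit 537) (nat_lit 372) (nat_lit 291)))) (XT.nd (nat_lit 156) (nat_lit 76) (nat_lit 0) (XT.nd (nat_lit 78) (nat_lit 0) (nat_lit 0) (XT.lf (nat_lit 0) (nat_lit 11005055264)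 (nat_lit 152) (nat_lit 34184426130) (nat_lit 0) (nat_lit 747075338) (nat_lit 24) (nat_lit 5) (nat_lit 26) (nat_lit 4) (nat_lit 24) (nat_lit 4) (nat_lit 538) (nat_lit 372) (nat_lit 290)) (XT.lf (nat_lit 0) (nat_lit 20697953325) (nat_lit 152) (nat_lit 15914681431) (nat_lit 0) (nat_lit 10410934775) (nat_lit 24) (nat_lit 5) (nat_lit 26) (nat_lit 4) (nat_lit 24) (nat_lit 4) (nat_lit 539) (nat_lit 372) (nat_lit 289))) (XT.nd (nat_lit 78) (nat_lit 0) (nat_lit 0) (XT.lf (nat_lit 0) (nat_lit 2875738823) (nat_lit 76) (nat_lit 27791548068) (nat_lit 76) (nat_lit 17476336677) (nat_lit 23) (nat_lit 4) (nat_lit 24) (nat_lit 5) (nat_lit 24) (nat_lit 4) (nat_lit 540) (nat_lit 372) (nat_lit 288)) (XT.lf (nat_lit 0) (nat_lit 22473393195) (nat_lit 76) (nat_lit 18581447602) (nat_lit 76) (nat_lit 8238864522) (nat_lit 23) (nat_lit 4) (nat_lit 24) (nat_lit 5) (nat_lit 24) (nat_lit 4) (nat_lit 541) (nat_lit 372) (nat_lit 287))))))) (XT.nd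 (nat_lit 55848) (nat_lit 0) (nat_lit 6308) (XT.nd (nat_lit 546) (nat_lit 76) (nat_lit 0) (XT.nd (nat_lit 234) (nat_lit 228) (nat_lit 0) (XT.nd (nat_lit 78) (nat_lit 76) (nat_lit 0) (XT.lf (nat_lit 0) (nat_lit 1210081758) (nat_lit 152) (nat_lit 7912691565) (nat_lit 76) (nat_lit 41356371270) (nat_lit 22) (nat_lit 5) (nat_lit 24) (nat_lit 5) (nat_lit 23) (nat_lit 4) (nat_lit 542) (nat_lit 372) (nat_lit 286)) (XT.nd (nat_lit 78) (nat_lit 0) (nat_lit 0) (XT.lf (nat_lit 0) (nat_lit 10856611524) (nat_lit 152) (nat_lit 40074278054) (nat_lit 0) (nat_lit 764419313) (nat_lit 21) (nat_lit 5) (nat_lit 23) (nat_lit 4) (nat_lit 21) (nat_lit 4) (nat_lit 543) (nat_lit 372) (nat_lit 285)) (XT.lf (nat_lit 0) (nat_lit 20924016374) (nat_lit 152) (nat_lit 21212492866) (nat_lit 0) (nat_lit 10807504771) (nat_lit 21) (nat_lit 5) (nat_lit 23) (nat_lit 4) (nat_lit 21) (nat_lit 4) (nat_lit 544) (nat_lit 372) (nat_lit 284)))) (XT.nd (nat_lit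 156) (nat_lit 152) (nat_lit 0) (XT.nd (nat_lit 78) (nat_lit 76) (nat_lit 0) (XT.lf (nat_lit 0) (nat_lit 31255055910) (nat_lit 152) (nat_lit 1861343011) (nat_lit 0) (nat_lit 21114933248) (nat_lit 21) (nat_lit 5) (nat_lit 23) (nat_lit 4) (nat_lit 21) (nat_lit 4) (nat_lit 545) (nat_lit 372) (nat_lit 283)) (XT.lf (nat_lit 0) (nat_lit 18354237566) (nat_lit 76) (nat_lit 23680951849) (nat_lit 76) (nat_lit 13517905828) (nat_lit 20) (nat_lit 4) (nat_lit 21) (nat_lit 5) (nat_lit 21) (nat_lit 4) (nat_lit 546) (nat_lit 372) (nat_lit 282))) (XT.nd (nat_lit 78) (nat_lit 152) (nat_lit 0) (XT.lf (nat_lit 0) (nat_lit 39140908260) (nat_lit 76) (nat_lit 13979723874) (nat_lit 76) (nat_lit 3794422164) (nat_lit 20) (nat_lit 4) (nat_lit 21) (nat_lit 5) (nat_lit 21) (nat_lit 4) (nat_lit 547) (nat_lit 372) (nat_lit 281)) (XT.lf (nat_lit 0) (nat_lit 2143219699) (nat_lit 76) (nat_lit 3940587627) (nat_lit 152) (nat_lit 52232738171) (nat_lit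 18) (nat_lit 5) (nat_lit 19) (nat_lit 5) (nat_lit 20) (nat_lit 4) (nat_lit 548) (nat_lit 372) (nat_lit 280))))) (XT.nd (nat_lit 312) (nat_lit 0) (nat_lit 0) (XT.nd (nat_lit 156) (nat_lit 76) (nat_lit 0) (XT.nd (nat_lit 78) (nat_lit 0) (nat_lit 0) (XT.lf (nat_lit 0) (nat_lit 16388752577) (nat_lit 152) (nat_lit 36905238121) (nat_lit 0) (nat_lit 6458764913) (nat_lit 18) (nat_lit 5) (nat_lit 20) (nat_lit 4) (nat_lit 18) (nat_lit 4) (nat_lit 549) (nat_lit 372) (nat_lit 279)) (XT.lf (nat_lit 0) (nat_lit 27006768565) (nat_lit 152) (nat_lit 17168159000) (nat_lit 0) (nat_lit 17057007010) (nat_lit 18) (nat_lit 5) (nat_lit 20) (nat_lit 4) (nat_lit 18) (nat_lit 4) (nat_lit 550) (nat_lit 372) (nat_lit 278))) (XT.nd (nat_lit 78) (nat_lit 0) (nat_lit 0) (XT.lf (nat_lit 0) (nat_lit 3154594392) (nat_lit 76) (nat_lit 34784983328) (nat_lit 76) (nat_lit 24816023821) (nat_lit 17) (nat_lit 4) (nat_lit 18) (nat_lit 5) (nat_lit 18) (nat_lit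 4) (nat_lit 551) (nat_lit 372) (nat_lit 277)) (XT.lf (nat_lit 0) (nat_lit 24371631838) (nat_lit 76) (nat_lit 24968378009) (nat_lit 76) (nat_lit 14980779713) (nat_lit 17) (nat_lit 4) (nat_lit 18) (nat_lit 5) (nat_lit 18) (nat_lit 4) (nat_lit 552) (nat_lit 372) (nat_lit 276)))) (XT.nd (nat_lit 54834) (nat_lit 0) (nat_lit 9424) (XT.nd (nat_lit 54756) (nat_lit 0) (nat_lit 10032) (XT.lf (nat_lit 0) (nat_lit 46159812470) (nat_lit 76) (nat_lit 14889898735) (nat_lit 76) (nat_lit 4884204528) (nat_lit 17) (nat_lit 4) (nat_lit 18) (nat_lit 5) (nat_lit 18) (nat_lit 4) (nat_lit 553) (nat_lit 372) (nat_lit 275)) (XT.lf (nat_lit 0) (nat_lit 2969105880) (nat_lit 304) (nat_lit 923650813) (nat_lit 304) (nat_lit 923650813) (nat_lit 149) (nat_lit 4) (nat_lit 153) (nat_lit 5) (nat_lit 153) (nat_lit 4) (nat_lit 454) (nat_lit 373) (nat_lit 373))) (XT.nd (nat_lit 78) (nat_lit 304) (nat_lit 0) (XT.lf (nat_lit 0) (nat_lit 2821031147) (nat_lit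 304) (nat_lit 4887903956) (nat_lit 0) (nat_lit 2048514240) (nat_lit 145) (nat_lit 5) (nat_lit 149) (nat_lit 4) (nat_lit 145) (nat_lit 4) (nat_lit 455) (nat_lit 373) (nat_lit 372)) (XT.lf (nat_lit 0) (nat_lit 3746236415) (nat_lit 304) (nat_lit 3831015103) (nat_lit 304) (nat_lit 2308481780) (nat_lit 141) (nat_lit 4) (nat_lit 145) (nat_lit 5) (nat_lit 145) (nat_lit 4) (nat_lit 456) (nat_lit 373) (nat_lit 371)))))) (XT.nd (nat_lit 546) (nat_lit 1520) (nat_lit 0) (XT.nd (nat_lit 234) (nat_lit 760) (nat_lit 0) (XT.nd (nat_lit 78) (nat_lit 532) (nat_lit 0) (XT.lf (nat_lit 0) (nat_lit 2380276585) (nat_lit 304) (nat_lit 7442662979) (nat_lit 0) (nat_lit 195126489) (nat_lit 137) (nat_lit 5) (nat_lit 141) (nat_lit 4) (nat_lit 137) (nat_lit 4) (nat_lit 457) (nat_lit 373) (nat_lit 370)) (XT.nd (nat_lit 78) (nat_lit 304) (nat_lit 0) (XT.lf (nat_lit 0) (nat_lit 1316521964) (nat_lit 228) (nat_lit 5854233212) (nat_lit 228) (nat_lit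 2982711849) (nat_lit 134) (nat_lit 4) (nat_lit 137) (nat_lit 5) (nat_lit 137) (nat_lit 4) (nat_lit 458) (nat_lit 373) (nat_lit 369)) (XT.lf (nat_lit 0) (nat_lit 9118967) (nat_lit 228) (nat_lit 1738181623) (nat_lit 304) (nat_lit 8545994800) (nat_lit 130) (nat_lit 5) (nat_lit 133) (nat_lit 5) (nat_lit 134) (nat_lit 4) (nat_lit 459) (nat_lit 373) (nat_lit 368)))) (XT.nd (nat_lit 156) (nat_lit 456) (nat_lit 0) (XT.nd (nat_lit 78) (nat_lit 304) (nat_lit 0) (XT.lf (nat_lit 0) (nat_lit 6568849970) (nat_lit 304) (nat_lit 1361434585) (nat_lit 0) (nat_lit 2505867464) (nat_lit 130) (nat_lit 5) (nat_lit 134) (nat_lit 4) (nat_lit 130) (nat_lit 4) (nat_lit 460) (nat_lit 373) (nat_lit 367)) (XT.lf (nat_lit 0) (nat_lit 923687139) (nat_lit 304) (nat_lit 2797729594) (nat_lit 76) (nat_lit 6861894464) (nat_lit 126) (nat_lit 5) (nat_lit 130) (nat_lit 5) (nat_lit 127) (nat_lit 4) (nat_lit 461) (nat_lit 373) (nat_lit 366))) (XT.nd (nat_lit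 78) (nat_lit 228) (nat_lit 0) (XT.lf (nat_lit 0) (nat_lit 5761444257) (nat_lit 304) (nat_lit 4322969499) (nat_lit 0) (nat_lit 649906033) (nat_lit 123) (nat_lit 5) (nat_lit 127) (nat_lit 4) (nat_lit 123) (nat_lit 4) (nat_lit 462) (nat_lit 373) (nat_lit 365)) (XT.lf (nat_lit 0) (nat_lit 4954568018) (nat_lit 228) (nat_lit 5802271257) (nat_lit 228) (nat_lit 132650383) (nat_lit 120) (nat_lit 4) (nat_lit 123) (nat_lit 5) (nat_lit 123) (nat_lit 4) (nat_lit 463) (nat_lit 373) (nat_lit 364))))) (XT.nd (nat_lit 312) (nat_lit 836) (nat_lit 0) (XT.nd (nat_lit 156) (nat_lit 228) (nat_lit 0) (XT.nd (nat_lit 78) (nat_lit 228) (nat_lit 0) (XT.lf (nat_lit 0) (nat_lit 3399945549) (nat_lit 152) (nat_lit 1334731415) (nat_lit 228) (nat_lit 6313946318) (nat_lit 117) (nat_lit 5) (nat_lit 119) (nat_lit 5) (nat_lit 120) (nat_lit 4) (nat_lit 464) (nat_lit 373) (nat_lit 363)) (XT.lf (nat_lit 0) (nat_lit 1755743577) (nat_lit 228) (nat_lit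 7998866705) (nat_lit 228) (nat_lit 1457609313) (nat_lit 114) (nat_lit 4) (nat_lit 117) (nat_lit 5) (nat_lit 117) (nat_lit 4) (nat_lit 465) (nat_lit 373) (nat_lit 362))) (XT.nd (nat_lit 78) (nat_lit 0) (nat_lit 0) (XT.lf (nat_lit 0) (nat_lit 1358795) (nat_lit 152) (nat_lit 3465865536) (nat_lit 228) (nat_lit 7912723533) (nat_lit 111) (nat_lit 5) (nat_lit 113) (nat_lit 5) (nat_lit 114) (nat_lit 4) (nat_lit 466) (nat_lit 373) (nat_lit 361)) (XT.lf (nat_lit 0) (nat_lit 8519822384) (nat_lit 228) (nat_lit 1811883714) (nat_lit 0) (nat_lit 1220294622) (nat_lit 111) (nat_lit 5) (nat_lit 114) (nat_lit 4) (nat_lit 111) (nat_lit 4) (nat_lit 467) (nat_lit 373) (nat_lit 360)))) (XT.nd (nat_lit 156) (nat_lit 380) (nat_lit 0) (XT.nd (nat_lit 78) (nat_lit 152) (nat_lit 0) (XT.lf (nat_lit 0) (nat_lit 1971377350) (nat_lit 304) (nat_lit 3751404007) (nat_lit 76) (nat_lit 6005397840) (nat_lit 107) (nat_lit 5) (nat_lit 111) (nat_lit 5)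 (nat_lit 108) (nat_lit 4) (nat_lit 468) (nat_lit 373) (nat_lit 359)) (XT.lf (nat_lit 0) (nat_lit 6109008039) (nat_lit 152) (nat_lit 936737608) (nat_lit 228) (nat_lit 4863551972) (nat_lit 105) (nat_lit 5) (nat_lit 107) (nat_lit 5) (nat_lit 108) (nat_lit 4) (nat_lit 469) (nat_lit 373) (nat_lit 358))) (XT.nd (nat_lit 78) (nat_lit 152) (nat_lit 0) (XT.lf (nat_lit 0) (nat_lit 194470453) (nat_lit 228) (nat_lit 7975690520) (nat_lit 76) (nat_lit 3924999611) (nat_lit 102) (nat_lit 5) (nat_lit 105) (nat_lit 5) (nat_lit 103) (nat_lit 4) (nat_lit 470) (nat_lit 373) (nat_lit 357)) (XT.lf (nat_lit 0) (nat_lit 1983680767) (nat_lit 152) (nat_lit 3315490212) (nat_lit 228) (nat_lit 6986207469) (nat_lit 100) (nat_lit 5) (nat_lit 102) (nat_lit 5) (nat_lit 103) (nat_lit 4) (nat_lit 471) (nat_lit 373) (nat_lit 356))))))))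
noncomputable def xc41 : XT := (XT.nd (nat_lit 2340) (nat_lit 1900) (nat_lit 0) (XT.nd (nat_lit 1170) (nat_lit 1520) (nat_lit 0) (XT.nd (nat_lit 546) (nat_lit 988) (nat_lit 0) (XT.nd (nat_lit 234) (nat_lit 608) (nat_lit 0) (XT.nd (nat_lit 78) (nat_lit 380) (nat_lit 0) (XT.lf (nat_lit 0) (nat_lit 10560205018) (nat_lit 228) (nat_lit 258921884) (nat_lit 0) (nat_lit 1662084373) (nat_lit 100) (nat_lit 5) (nat_lit 103) (nat_lit 4) (nat_lit 100) (nat_lit 4) (nat_lit 472) (nat_lit 373) (nat_lit 355)) (XT.nd (nat_lit 78) (nat_lit 152) (nat_lit 0) (XT.lf (nat_lit 0) (nat_lit 3270389838) (nat_lit 228) (nat_lit 2628187651) (nat_lit 76) (nat_lit 6782238266) (nat_lit 97) (nat_lit 5) (nat_lit 100) (nat_lit 5) (nat_lit 98) (nat_lit 4) (nat_lit 473) (nat_lit 373) (nat_lit 354)) (XT.lf (nat_lit 0) (nat_lit 7761220721) (nat_lit 152) (nat_lit 803563397) (nat_lit 228) (nat_lit 4321481502) (nat_lit 95) (nat_lit 5) (nat_lit 97) (nat_lit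 5) (nat_lit 98) (nat_lit 4) (nat_lit 474) (nat_lit 373) (nat_lit 353)))) (XT.nd (nat_lit 156) (nat_lit 228) (nat_lit 0) (XT.nd (nat_lit 78) (nat_lit 152) (nat_lit 0) (XT.lf (nat_lit 0) (nat_lit 932121816) (nat_lit 228) (nat_lit 7790384650) (nat_lit 76) (nat_lit 4374212425) (nat_lit 92) (nat_lit 5) (nat_lit 95) (nat_lit 5) (nat_lit 93) (nat_lit 4) (nat_lit 475) (nat_lit 373) (nat_lit 352)) (XT.lf (nat_lit 0) (nat_lit 2680527855) (nat_lit 152) (nat_lit 3571164032) (nat_lit 228) (nat_lit 7060657301) (nat_lit 90) (nat_lit 5) (nat_lit 92) (nat_lit 5) (nat_lit 93) (nat_lit 4) (nat_lit 476) (nat_lit 373) (nat_lit 351))) (XT.nd (nat_lit 78) (nat_lit 228) (nat_lit 0) (XT.lf (nat_lit 0) (nat_lit 11736576854) (nat_lit 228) (nat_lit 88964538) (nat_lit 0) (nat_lit 1708738586) (nat_lit 90) (nat_lit 5) (nat_lit 93) (nat_lit 4) (nat_lit 90) (nat_lit 4) (nat_lit 477) (nat_lit 373) (nat_lit 350)) (XT.lf (nat_lit 0) (nat_lit 3604216375)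 (nat_lit 228) (nat_lit 3011275949) (nat_lit 76) (nat_lit 7144781439) (nat_lit 87) (nat_lit 5) (nat_lit 90) (nat_lit 5) (nat_lit 88) (nat_lit 4) (nat_lit 478) (nat_lit 373) (nat_lit 349))))) (XT.nd (nat_lit 312) (nat_lit 532) (nat_lit 0) (XT.nd (nat_lit 156) (nat_lit 76) (nat_lit 0) (XT.nd (nat_lit 78) (nat_lit 228) (nat_lit 0) (XT.lf (nat_lit 0) (nat_lit 7897128582) (nat_lit 152) (nat_lit 1224163498) (nat_lit 228) (nat_lit 4871547518) (nat_lit 85) (nat_lit 5) (nat_lit 87) (nat_lit 5) (nat_lit 88) (nat_lit 4) (nat_lit 479) (nat_lit 373) (nat_lit 348)) (XT.lf (nat_lit 0) (nat_lit 592399297) (nat_lit 228) (nat_lit 9381769441) (nat_lit 76) (nat_lit 4257090202) (nat_lit 82) (nat_lit 5) (nat_lit 85) (nat_lit 5) (nat_lit 83) (nat_lit 4) (nat_lit 480) (nat_lit 373) (nat_lit 347))) (XT.nd (nat_lit 78) (nat_lit 0) (nat_lit 0) (XT.lf (nat_lit 0) (nat_lit 1582362568) (nat_lit 76) (nat_lit 4542389138) (nat_lit 152) (nat_lit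 8350563010) (nat_lit 81) (nat_lit 5) (nat_lit 82) (nat_lit 5) (nat_lit 83) (nat_lit 4) (nat_lit 481) (nat_lit 373) (nat_lit 346)) (XT.lf (nat_lit 0) (nat_lit 11842078683) (nat_lit 152) (nat_lit 1828048411) (nat_lit 0) (nat_lit 1055997731) (nat_lit 81) (nat_lit 5) (nat_lit 83) (nat_lit 4) (nat_lit 81) (nat_lit 4) (nat_lit 482) (nat_lit 373) (nat_lit 345)))) (XT.nd (nat_lit 156) (nat_lit 228) (nat_lit 0) (XT.nd (nat_lit 78) (nat_lit 76) (nat_lit 0) (XT.lf (nat_lit 0) (nat_lit 2745944706) (nat_lit 228) (nat_lit 5455738150) (nat_lit 76) (nat_lit 6780394822) (nat_lit 78) (nat_lit 5) (nat_lit 81) (nat_lit 5) (nat_lit 79) (nat_lit 4) (nat_lit 483) (nat_lit 373) (nat_lit 344)) (XT.lf (nat_lit 0) (nat_lit 5944600112) (nat_lit 76) (nat_lit 2533935040) (nat_lit 152) (nat_lit 6766569870) (nat_lit 77) (nat_lit 5) (nat_lit 78) (nat_lit 5) (nat_lit 79) (nat_lit 4) (nat_lit 484) (nat_lit 373) (nat_lit 343))) (XT.nd (nat_lit 78)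 (nat_lit 76) (nat_lit 0) (XT.lf (nat_lit 0) (nat_lit 2137200361) (nat_lit 152) (nat_lit 12269997305) (nat_lit 152) (nat_lit 1108105159) (nat_lit 75) (nat_lit 4) (nat_lit 77) (nat_lit 5) (nat_lit 77) (nat_lit 4) (nat_lit 485) (nat_lit 373) (nat_lit 342)) (XT.lf (nat_lit 0) (nat_lit 4664224550) (nat_lit 228) (nat_lit 1910240468) (nat_lit 76) (nat_lit 9216696168) (nat_lit 74) (nat_lit 5) (nat_lit 77) (nat_lit 5) (nat_lit 75) (nat_lit 4) (nat_lit 486) (nat_lit 373) (nat_lit 341)))))) (XT.nd (nat_lit 546) (nat_lit 836) (nat_lit 0) (XT.nd (nat_lit 234) (nat_lit 304) (nat_lit 0) (XT.nd (nat_lit 78) (nat_lit 304) (nat_lit 0) (XT.lf (nat_lit 0) (nat_lit 9932318364) (nat_lit 76) (nat_lit 669330147) (nat_lit 152) (nat_lit 5472894022) (nat_lit 73) (nat_lit 5) (nat_lit 74) (nat_lit 5) (nat_lit 75) (nat_lit 4) (nat_lit 487) (nat_lit 373) (nat_lit 340)) (XT.nd (nat_lit 78) (nat_lit 76) (nat_lit 0) (XT.lf (nat_lit 0) (nat_lit 389739207)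 (nat_lit 228) (nat_lit 10658646323) (nat_lit 76) (nat_lit 5316566342) (nat_lit 70) (nat_lit 5) (nat_lit 73) (nat_lit 5) (nat_lit 71) (nat_lit 4) (nat_lit 488) (nat_lit 373) (nat_lit 339)) (XT.lf (nat_lit 0) (nat_lit 1183100170) (nat_lit 76) (nat_lit 5134867166) (nat_lit 152) (nat_lit 10344491140) (nat_lit 69) (nat_lit 5) (nat_lit 70) (nat_lit 5) (nat_lit 71) (nat_lit 4) (nat_lit 489) (nat_lit 373) (nat_lit 338)))) (XT.nd (nat_lit 156) (nat_lit 76) (nat_lit 0) (XT.nd (nat_lit 78) (nat_lit 228) (nat_lit 0) (XT.lf (nat_lit 0) (nat_lit 12461229182) (nat_lit 152) (nat_lit 3530096658) (nat_lit 0) (nat_lit 976450842) (nat_lit 69) (nat_lit 5) (nat_lit 71) (nat_lit 4) (nat_lit 69) (nat_lit 4) (nat_lit 490) (nat_lit 373) (nat_lit 337)) (XT.lf (nat_lit 0) (nat_lit 1534288063) (nat_lit 228) (nat_lit 8546390146) (nat_lit 76) (nat_lit 7199429119) (nat_lit 66) (nat_lit 5) (nat_lit 69) (nat_lit 5) (nat_lit 67) (nat_lit 4) (nat_lit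 491) (nat_lit 373) (nat_lit 336))) (XT.nd (nat_lit 78) (nat_lit 0) (nat_lit 0) (XT.lf (nat_lit 0) (nat_lit 3716188770) (nat_lit 76) (nat_lit 3943056421) (nat_lit 152) (nat_lit 9941421751) (nat_lit 65) (nat_lit 5) (nat_lit 66) (nat_lit 5) (nat_lit 67) (nat_lit 4) (nat_lit 492) (nat_lit 373) (nat_lit 335)) (XT.lf (nat_lit 0) (nat_lit 13999921507) (nat_lit 152) (nat_lit 1578761441) (nat_lit 0) (nat_lit 2351203067) (nat_lit 65) (nat_lit 5) (nat_lit 67) (nat_lit 4) (nat_lit 65) (nat_lit 4) (nat_lit 493) (nat_lit 373) (nat_lit 334))))) (XT.nd (nat_lit 312) (nat_lit 304) (nat_lit 0) (XT.nd (nat_lit 156) (nat_lit 228) (nat_lit 0) (XT.nd (nat_lit 78) (nat_lit 76) (nat_lit 0) (XT.lf (nat_lit 0) (nat_lit 2288644123) (nat_lit 228) (nat_lit 7159337015) (nat_lit 76) (nat_lit 8818221613) (nat_lit 62) (nat_lit 5) (nat_lit 65) (nat_lit 5) (nat_lit 63) (nat_lit 4) (nat_lit 494) (nat_lit 373) (nat_lit 333)) (XT.lf (nat_lit 0) (nat_lit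 5517502731) (nat_lit 76) (nat_lit 3090769821) (nat_lit 152) (nat_lit 10003367253) (nat_lit 61) (nat_lit 5) (nat_lit 62) (nat_lit 5) (nat_lit 63) (nat_lit 4) (nat_lit 495) (nat_lit 373) (nat_lit 332))) (XT.nd (nat_lit 78) (nat_lit 228) (nat_lit 0) (XT.lf (nat_lit 0) (nat_lit 15148220674) (nat_lit 152) (nat_lit 422378439) (nat_lit 0) (nat_lit 3395920519) (nat_lit 61) (nat_lit 5) (nat_lit 63) (nat_lit 4) (nat_lit 61) (nat_lit 4) (nat_lit 496) (nat_lit 373) (nat_lit 331)) (XT.lf (nat_lit 0) (nat_lit 2582732779) (nat_lit 228) (nat_lit 6648459605) (nat_lit 76) (nat_lit 10097712437) (nat_lit 58) (nat_lit 5) (nat_lit 61) (nat_lit 5) (nat_lit 59) (nat_lit 4) (nat_lit 497) (nat_lit 373) (nat_lit 330)))) (XT.nd (nat_lit 156) (nat_lit 228) (nat_lit 0) (XT.nd (nat_lit 78) (nat_lit 0) (nat_lit 0) (XT.lf (nat_lit 0) (nat_lit 6430168384) (nat_lit 76) (nat_lit 2661768001) (nat_lit 152) (nat_lit 10609305934) (nat_lit 57) (nat_lit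 5) (nat_lit 58) (nat_lit 5) (nat_lit 59) (nat_lit 4) (nat_lit 498) (nat_lit 373) (nat_lit 329)) (XT.lf (nat_lit 0) (nat_lit 15830597120) (nat_lit 152) (nat_lit 226011449) (nat_lit 0) (nat_lit 4027117352) (nat_lit 57) (nat_lit 5) (nat_lit 59) (nat_lit 4) (nat_lit 57) (nat_lit 4) (nat_lit 499) (nat_lit 373) (nat_lit 328))) (XT.nd (nat_lit 78) (nat_lit 76) (nat_lit 0) (XT.lf (nat_lit 0) (nat_lit 2333120649) (nat_lit 152) (nat_lit 7190839609) (nat_lit 76) (nat_lit 10950539256) (nat_lit 55) (nat_lit 5) (nat_lit 57) (nat_lit 5) (nat_lit 56) (nat_lit 4) (nat_lit 500) (nat_lit 373) (nat_lit 327)) (XT.lf (nat_lit 0) (nat_lit 6269969095) (nat_lit 76) (nat_lit 2753202598) (nat_lit 152) (nat_lit 11852811672) (nat_lit 54) (nat_lit 5) (nat_lit 55) (nat_lit 5) (nat_lit 56) (nat_lit 4) (nat_lit 501) (nat_lit 373) (nat_lit 326))))))) (XT.nd (nat_lit 1170) (nat_lit 912) (nat_lit 0) (XT.nd (nat_lit 546) (nat_lit 532) (nat_lit 0) (XT.nd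 (nat_lit 234) (nat_lit 228) (nat_lit 0) (XT.nd (nat_lit 78) (nat_lit 228) (nat_lit 0) (XT.lf (nat_lit 0) (nat_lit 15957088914) (nat_lit 152) (nat_lit 1183330855) (nat_lit 0) (nat_lit 4147798274) (nat_lit 54) (nat_lit 5) (nat_lit 56) (nat_lit 4) (nat_lit 54) (nat_lit 4) (nat_lit 502) (nat_lit 373) (nat_lit 325)) (XT.nd (nat_lit 78) (nat_lit 76) (nat_lit 0) (XT.lf (nat_lit 0) (nat_lit 1440907729) (nat_lit 152) (nat_lit 8994060292) (nat_lit 76) (nat_lit 11275000558) (nat_lit 52) (nat_lit 5) (nat_lit 54) (nat_lit 5) (nat_lit 53) (nat_lit 4) (nat_lit 503) (nat_lit 373) (nat_lit 324)) (XT.lf (nat_lit 0) (nat_lit 4820739249) (nat_lit 76) (nat_lit 3478007627) (nat_lit 152) (nat_lit 13844348649) (nat_lit 51) (nat_lit 5) (nat_lit 52) (nat_lit 5) (nat_lit 53) (nat_lit 4) (nat_lit 504) (nat_lit 373) (nat_lit 323)))) (XT.nd (nat_lit 156) (nat_lit 152) (nat_lit 0) (XT.nd (nat_lit 78) (nat_lit 76) (nat_lit 0) (XT.lf (nat_lit 0)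 (nat_lit 15420997942) (nat_lit 152) (nat_lit 3521408366) (nat_lit 0) (nat_lit 3645050780) (nat_lit 51) (nat_lit 5) (nat_lit 53) (nat_lit 4) (nat_lit 51) (nat_lit 4) (nat_lit 505) (nat_lit 373) (nat_lit 322)) (XT.lf (nat_lit 0) (nat_lit 10739651384) (nat_lit 76) (nat_lit 12088438993) (nat_lit 76) (nat_lit 214924986) (nat_lit 50) (nat_lit 4) (nat_lit 51) (nat_lit 5) (nat_lit 51) (nat_lit 4) (nat_lit 506) (nat_lit 373) (nat_lit 321))) (XT.nd (nat_lit 78) (nat_lit 0) (nat_lit 0) (XT.lf (nat_lit 0) (nat_lit 1829024134) (nat_lit 76) (nat_lit 4967657261) (nat_lit 152) (nat_lit 16713945639) (nat_lit 48) (nat_lit 5) (nat_lit 49) (nat_lit 5) (nat_lit 50) (nat_lit 4) (nat_lit 507) (nat_lit 373) (nat_lit 320)) (XT.lf (nat_lit 0) (nat_lit 14096204157) (nat_lit 152) (nat_lit 7506276347) (nat_lit 0) (nat_lit 2387267061) (nat_lit 48) (nat_lit 5) (nat_lit 50) (nat_lit 4) (nat_lit 48) (nat_lit 4) (nat_lit 508) (nat_lit 373) (nat_lit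 319))))) (XT.nd (nat_lit 312) (nat_lit 228) (nat_lit 0) (XT.nd (nat_lit 156) (nat_lit 152) (nat_lit 0) (XT.nd (nat_lit 78) (nat_lit 76) (nat_lit 0) (XT.lf (nat_lit 0) (nat_lit 7057385352) (nat_lit 76) (nat_lit 14609951287) (nat_lit 76) (nat_lit 2814327312) (nat_lit 47) (nat_lit 4) (nat_lit 48) (nat_lit 5) (nat_lit 48) (nat_lit 4) (nat_lit 509) (nat_lit 373) (nat_lit 318)) (XT.lf (nat_lit 0) (nat_lit 4402096082) (nat_lit 152) (nat_lit 2943530945) (nat_lit 76) (nat_lit 17641054606) (nat_lit 46) (nat_lit 5) (nat_lit 48) (nat_lit 5) (nat_lit 47) (nat_lit 4) (nat_lit 510) (nat_lit 373) (nat_lit 317))) (XT.nd (nat_lit 78) (nat_lit 76) (nat_lit 0) (XT.lf (nat_lit 0) (nat_lit 11834037743) (nat_lit 152) (nat_lit 13449375158) (nat_lit 0) (nat_lit 220934161) (nat_lit 45) (nat_lit 5) (nat_lit 47) (nat_lit 4) (nat_lit 45) (nat_lit 4) (nat_lit 511) (nat_lit 373) (nat_lit 316)) (XT.lf (nat_lit 0) (nat_lit 1358661517) (nat_lit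 76) (nat_lit 18183701391) (nat_lit 76) (nat_lit 6493577640) (nat_lit 44) (nat_lit 4) (nat_lit 45) (nat_lit 5) (nat_lit 45) (nat_lit 4) (nat_lit 512) (nat_lit 373) (nat_lit 315)))) (XT.nd (nat_lit 156) (nat_lit 76) (nat_lit 0) (XT.nd (nat_lit 78) (nat_lit 76) (nat_lit 0) (XT.lf (nat_lit 0) (nat_lit 955742941) (nat_lit 152) (nat_lit 9824742443) (nat_lit 76) (nat_lit 15800493591) (nat_lit 43) (nat_lit 5) (nat_lit 45) (nat_lit 5) (nat_lit 44) (nat_lit 4) (nat_lit 513) (nat_lit 373) (nat_lit 314)) (XT.lf (nat_lit 0) (nat_lit 5395932554) (nat_lit 76) (nat_lit 3093442847) (nat_lit 152) (nat_lit 18651324746) (nat_lit 42) (nat_lit 5) (nat_lit 43) (nat_lit 5) (nat_lit 44) (nat_lit 4) (nat_lit 514) (nat_lit 373) (nat_lit 313))) (XT.nd (nat_lit 78) (nat_lit 76) (nat_lit 0) (XT.lf (nat_lit 0) (nat_lit 16335144520) (nat_lit 152) (nat_lit 6605490233) (nat_lit 0) (nat_lit 4773995126) (nat_lit 42) (nat_lit 5) (nat_lit 44) (nat_lit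 4) (nat_lit 42) (nat_lit 4) (nat_lit 515) (nat_lit 373) (nat_lit 312)) (XT.lf (nat_lit 0) (nat_lit 9018244432) (nat_lit 76) (nat_lit 15456681154) (nat_lit 76) (nat_lit 3829093486) (nat_lit 41) (nat_lit 4) (nat_lit 42) (nat_lit 5) (nat_lit 42) (nat_lit 4) (nat_lit 516) (nat_lit 373) (nat_lit 311)))))) (XT.nd (nat_lit 624) (nat_lit 456) (nat_lit 0) (XT.nd (nat_lit 312) (nat_lit 228) (nat_lit 0) (XT.nd (nat_lit 156) (nat_lit 76) (nat_lit 0) (XT.nd (nat_lit 78) (nat_lit 76) (nat_lit 0) (XT.lf (nat_lit 0) (nat_lit 3879497099) (nat_lit 152) (nat_lit 3816711735) (nat_lit 76) (nat_lit 21213481650) (nat_lit 40) (nat_lit 5) (nat_lit 42) (nat_lit 5) (nat_lit 41) (nat_lit 4) (nat_lit 517) (nat_lit 373) (nat_lit 310)) (XT.lf (nat_lit 0) (nat_lit 11806639144) (nat_lit 152) (nat_lit 17329534368) (nat_lit 0) (nat_lit 394294200) (nat_lit 39) (nat_lit 5) (nat_lit 41) (nat_lit 4) (nat_lit 39) (nat_lit 4) (nat_lit 518) (nat_lit 373)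 (nat_lit 309))) (XT.nd (nat_lit 78) (nat_lit 76) (nat_lit 0) (XT.lf (nat_lit 0) (nat_lit 20029858686) (nat_lit 152) (nat_lit 1579778132) (nat_lit 0) (nat_lit 8558484196) (nat_lit 39) (nat_lit 5) (nat_lit 41) (nat_lit 4) (nat_lit 39) (nat_lit 4) (nat_lit 519) (nat_lit 373) (nat_lit 308)) (XT.lf (nat_lit 0) (nat_lit 14823149998) (nat_lit 76) (nat_lit 13763910357) (nat_lit 76) (nat_lit 2235225628) (nat_lit 38) (nat_lit 4) (nat_lit 39) (nat_lit 5) (nat_lit 39) (nat_lit 4) (nat_lit 520) (nat_lit 373) (nat_lit 307)))) (XT.nd (nat_lit 156) (nat_lit 76) (nat_lit 0) (XT.nd (nat_lit 78) (nat_lit 0) (nat_lit 0) (XT.lf (nat_lit 0) (nat_lit 91204815) (nat_lit 76) (nat_lit 5660288067) (nat_lit 152) (nat_lit 25744026271) (nat_lit 36) (nat_lit 5) (nat_lit 37) (nat_lit 5) (nat_lit 38) (nat_lit 4) (nat_lit 521) (nat_lit 373) (nat_lit 306)) (XT.lf (nat_lit 0) (nat_lit 14066763859) (nat_lit 152) (nat_lit 15350107131) (nat_lit 0) (nat_lit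 2767398680) (nat_lit 36) (nat_lit 5) (nat_lit 38) (nat_lit 4) (nat_lit 36) (nat_lit 4) (nat_lit 522) (nat_lit 373) (nat_lit 305))) (XT.nd (nat_lit 78) (nat_lit 0) (nat_lit 0) (XT.lf (nat_lit 0) (nat_lit 1044559409) (nat_lit 76) (nat_lit 21599515491) (nat_lit 76) (nat_lit 10249230906) (nat_lit 35) (nat_lit 4) (nat_lit 36) (nat_lit 5) (nat_lit 36) (nat_lit 4) (nat_lit 523) (nat_lit 373) (nat_lit 304)) (XT.lf (nat_lit 0) (nat_lit 18141254938) (nat_lit 76) (nat_lit 13439508889) (nat_lit 76) (nat_lit 2039787989) (nat_lit 35) (nat_lit 4) (nat_lit 36) (nat_lit 5) (nat_lit 36) (nat_lit 4) (nat_lit 524) (nat_lit 373) (nat_lit 303))))) (XT.nd (nat_lit 312) (nat_lit 228) (nat_lit 0) (XT.nd (nat_lit 156) (nat_lit 76) (nat_lit 0) (XT.nd (nat_lit 78) (nat_lit 0) (nat_lit 0) (XT.lf (nat_lit 0) (nat_lit 1241320873) (nat_lit 76) (nat_lit 5009436858) (nat_lit 152) (nat_lit 28118207247) (nat_lit 33) (nat_lit 5) (nat_lit 34) (nat_lit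 5) (nat_lit 35) (nat_lit 4) (nat_lit 525) (nat_lit 373) (nat_lit 302)) (XT.lf (nat_lit 0) (nat_lit 14890333192) (nat_lit 152) (nat_lit 16513849334) (nat_lit 0) (nat_lit 3730803298) (nat_lit 33) (nat_lit 5) (nat_lit 35) (nat_lit 4) (nat_lit 33) (nat_lit 4) (nat_lit 526) (nat_lit 373) (nat_lit 301))) (XT.nd (nat_lit 78) (nat_lit 0) (nat_lit 0) (XT.lf (nat_lit 0) (nat_lit 458167564) (nat_lit 76) (nat_lit 23334582014) (nat_lit 76) (nat_lit 12131128593) (nat_lit 32) (nat_lit 4) (nat_lit 33) (nat_lit 5) (nat_lit 33) (nat_lit 4) (nat_lit 527) (nat_lit 373) (nat_lit 300)) (XT.lf (nat_lit 0) (nat_lit 18179304681) (nat_lit 76) (nat_lit 14899861435) (nat_lit 76) (nat_lit 3653763815) (nat_lit 32) (nat_lit 4) (nat_lit 33) (nat_lit 5) (nat_lit 33) (nat_lit 4) (nat_lit 528) (nat_lit 373) (nat_lit 299)))) (XT.nd (nat_lit 156) (nat_lit 76) (nat_lit 0) (XT.nd (nat_lit 78) (nat_lit 76) (nat_lit 0) (XT.lf (nat_lit 0) (nat_lit 4929975433)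 (nat_lit 152) (nat_lit 1279649625) (nat_lit 76) (nat_lit 31356630005) (nat_lit 31) (nat_lit 5) (nat_lit 33) (nat_lit 5) (nat_lit 32) (nat_lit 4) (nat_lit 529) (nat_lit 373) (nat_lit 298)) (XT.lf (nat_lit 0) (nat_lit 13838821444) (nat_lit 152) (nat_lit 21739384382) (nat_lit 0) (nat_lit 2841058332) (nat_lit 30) (nat_lit 5) (nat_lit 32) (nat_lit 4) (nat_lit 30) (nat_lit 4) (nat_lit 530) (nat_lit 373) (nat_lit 297))) (XT.nd (nat_lit 78) (nat_lit 76) (nat_lit 0) (XT.lf (nat_lit 0) (nat_lit 23042075659) (nat_lit 152) (nat_lit 4248550270) (nat_lit 0) (nat_lit 12006423728) (nat_lit 30) (nat_lit 5) (nat_lit 32) (nat_lit 4) (nat_lit 30) (nat_lit 4) (nat_lit 531) (nat_lit 373) (nat_lit 296)) (XT.lf (nat_lit 0) (nat_lit 13948028189) (nat_lit 76) (nat_lit 18661468036) (nat_lit 76) (nat_lit 7589030843) (nat_lit 29) (nat_lit 4) (nat_lit 30) (nat_lit 5) (nat_lit 30) (nat_lit 4) (nat_lit 532) (nat_lit 373) (nat_lit 295))))))))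
noncomputable def xc42 : XT := (XT.nd (nat_lit 56862) (nat_lit 0) (nat_lit 3800) (XT.nd (nat_lit 1170) (nat_lit 228) (nat_lit 0) (XT.nd (nat_lit 546) (nat_lit 304) (nat_lit 0) (XT.nd (nat_lit 234) (nat_lit 228) (nat_lit 0) (XT.nd (nat_lit 78) (nat_lit 76) (nat_lit 0) (XT.lf (nat_lit 0) (nat_lit 1308142743) (nat_lit 152) (nat_lit 8452621269) (nat_lit 76) (nat_lit 31365979451) (nat_lit 28) (nat_lit 5) (nat_lit 30) (nat_lit 5) (nat_lit 29) (nat_lit 4) (nat_lit 533) (nat_lit 373) (nat_lit 294)) (XT.nd (nat_lit 78) (nat_lit 0) (nat_lit 0) (XT.lf (nat_lit 0) (nat_lit 9908888688) (nat_lit 76) (nat_lit 461413461) (nat_lit 152) (nat_lit 31708732328) (nat_lit 27) (nat_lit 5) (nat_lit 28) (nat_lit 5) (nat_lit 29) (nat_lit 4) (nat_lit 534) (nat_lit 373) (nat_lit 293)) (XT.lf (nat_lit 0) (nat_lit 19833556050) (nat_lit 152) (nat_lit 14239865204) (nat_lit 0) (nat_lit 8982596437) (nat_lit 27) (nat_lit 5) (nat_lit 29) (nat_lit 4)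 (nat_lit 27) (nat_lit 4) (nat_lit 535) (nat_lit 373) (nat_lit 292)))) (XT.nd (nat_lit 156) (nat_lit 152) (nat_lit 0) (XT.nd (nat_lit 78) (nat_lit 0) (nat_lit 0) (XT.lf (nat_lit 0) (nat_lit 4220121094) (nat_lit 76) (nat_lit 25362412884) (nat_lit 76) (nat_lit 14479721982) (nat_lit 26) (nat_lit 4) (nat_lit 27) (nat_lit 5) (nat_lit 27) (nat_lit 4) (nat_lit 536) (nat_lit 373) (nat_lit 291)) (XT.lf (nat_lit 0) (nat_lit 23440669223) (nat_lit 76) (nat_lit 16284241299) (nat_lit 76) (nat_lit 5370743318) (nat_lit 26) (nat_lit 4) (nat_lit 27) (nat_lit 5) (nat_lit 27) (nat_lit 4) (nat_lit 537) (nat_lit 373) (nat_lit 290))) (XT.nd (nat_lit 78) (nat_lit 76) (nat_lit 0) (XT.lf (nat_lit 0) (nat_lit 3891196492) (nat_lit 152) (nat_lit 3044278885) (nat_lit 76) (nat_lit 39224682649) (nat_lit 25) (nat_lit 5) (nat_lit 27) (nat_lit 5) (nat_lit 26) (nat_lit 4) (nat_lit 538) (nat_lit 373) (nat_lit 289)) (XT.lf (nat_lit 0) (nat_lit 13466598053)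 (nat_lit 152) (nat_lit 30970360338) (nat_lit 0) (nat_lit 2813737481) (nat_lit 24) (nat_lit 5) (nat_lit 26) (nat_lit 4) (nat_lit 24) (nat_lit 4) (nat_lit 539) (nat_lit 373) (nat_lit 288))))) (XT.nd (nat_lit 312) (nat_lit 152) (nat_lit 0) (XT.nd (nat_lit 156) (nat_lit 76) (nat_lit 0) (XT.nd (nat_lit 78) (nat_lit 76) (nat_lit 0) (XT.lf (nat_lit 0) (nat_lit 23388203703) (nat_lit 152) (nat_lit 12276006751) (nat_lit 0) (nat_lit 12707971442) (nat_lit 24) (nat_lit 5) (nat_lit 26) (nat_lit 4) (nat_lit 24) (nat_lit 4) (nat_lit 540) (nat_lit 373) (nat_lit 287)) (XT.lf (nat_lit 0) (nat_lit 7037772041) (nat_lit 76) (nat_lit 26597752727) (nat_lit 76) (nat_lit 15890946010) (nat_lit 23) (nat_lit 4) (nat_lit 24) (nat_lit 5) (nat_lit 24) (nat_lit 4) (nat_lit 541) (nat_lit 373) (nat_lit 286))) (XT.nd (nat_lit 78) (nat_lit 76) (nat_lit 0) (XT.lf (nat_lit 0) (nat_lit 27104644557) (nat_lit 76) (nat_lit 17170403863) (nat_lit 76) (nat_lit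 6437796703) (nat_lit 23) (nat_lit 4) (nat_lit 24) (nat_lit 5) (nat_lit 24) (nat_lit 4) (nat_lit 542) (nat_lit 373) (nat_lit 285)) (XT.lf (nat_lit 0) (nat_lit 3196156383) (nat_lit 152) (nat_lit 4269458674) (nat_lit 76) (nat_lit 44469397056) (nat_lit 22) (nat_lit 5) (nat_lit 24) (nat_lit 5) (nat_lit 23) (nat_lit 4) (nat_lit 543) (nat_lit 373) (nat_lit 284)))) (XT.nd (nat_lit 156) (nat_lit 76) (nat_lit 0) (XT.nd (nat_lit 78) (nat_lit 0) (nat_lit 0) (XT.lf (nat_lit 0) (nat_lit 13130615227) (nat_lit 152) (nat_lit 37394412689) (nat_lit 0) (nat_lit 2662677825) (nat_lit 21) (nat_lit 5) (nat_lit 23) (nat_lit 4) (nat_lit 21) (nat_lit 4) (nat_lit 544) (nat_lit 373) (nat_lit 283)) (XT.lf (nat_lit 0) (nat_lit 23443295465) (nat_lit 152) (nat_lit 18079844635) (nat_lit 0) (nat_lit 12952434704) (nat_lit 21) (nat_lit 5) (nat_lit 23) (nat_lit 4) (nat_lit 21) (nat_lit 4) (nat_lit 545) (nat_lit 373) (nat_lit 282))) (XT.nd (nat_lit 78)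 (nat_lit 0) (nat_lit 0) (XT.lf (nat_lit 0) (nat_lit 1776732802) (nat_lit 76) (nat_lit 32269518488) (nat_lit 76) (nat_lit 21756402039) (nat_lit 20) (nat_lit 4) (nat_lit 21) (nat_lit 5) (nat_lit 21) (nat_lit 4) (nat_lit 546) (nat_lit 373) (nat_lit 281)) (XT.lf (nat_lit 0) (nat_lit 22528235383) (nat_lit 76) (nat_lit 22585815168) (nat_lit 76) (nat_lit 12051091255) (nat_lit 20) (nat_lit 4) (nat_lit 21) (nat_lit 5) (nat_lit 21) (nat_lit 4) (nat_lit 547) (nat_lit 373) (nat_lit 280)))))) (XT.nd (nat_lit 55068) (nat_lit 0) (nat_lit 8588) (XT.nd (nat_lit 234) (nat_lit 76) (nat_lit 0) (XT.nd (nat_lit 78) (nat_lit 152) (nat_lit 0) (XT.lf (nat_lit 0) (nat_lit 43832971129) (nat_lit 76) (nat_lit 12646139632) (nat_lit 76) (nat_lit 2090437598) (nat_lit 20) (nat_lit 4) (nat_lit 21) (nat_lit 5) (nat_lit 21) (nat_lit 4) (nat_lit 548) (nat_lit 373) (nat_lit 279)) (XT.nd (nat_lit 78) (nat_lit 0) (nat_lit 0) (XT.lf (nat_lit 0) (nat_lit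 5725999045) (nat_lit 76) (nat_lit 2304576416) (nat_lit 152) (nat_lit 51982527682) (nat_lit 18) (nat_lit 5) (nat_lit 19) (nat_lit 5) (nat_lit 20) (nat_lit 4) (nat_lit 549) (nat_lit 373) (nat_lit 278)) (XT.lf (nat_lit 0) (nat_lit 18609654606) (nat_lit 152) (nat_lit 34561367349) (nat_lit 0) (nat_lit 8322428362) (nat_lit 18) (nat_lit 5) (nat_lit 20) (nat_lit 4) (nat_lit 18) (nat_lit 4) (nat_lit 550) (nat_lit 373) (nat_lit 277)))) (XT.nd (nat_lit 156) (nat_lit 0) (nat_lit 0) (XT.nd (nat_lit 78) (nat_lit 76) (nat_lit 0) (XT.lf (nat_lit 0) (nat_lit 29495844876) (nat_lit 152) (nat_lit 14332691231) (nat_lit 0) (nat_lit 19189979843) (nat_lit 18) (nat_lit 5) (nat_lit 20) (nat_lit 4) (nat_lit 18) (nat_lit 4) (nat_lit 551) (nat_lit 373) (nat_lit 276)) (XT.lf (nat_lit 0) (nat_lit 6566896600) (nat_lit 76) (nat_lit 34172733904) (nat_lit 76) (nat_lit 23848772959) (nat_lit 17) (nat_lit 4) (nat_lit 18) (nat_lit 5) (nat_lit 18) (nat_lit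 4) (nat_lit 552) (nat_lit 373) (nat_lit 275))) (XT.nd (nat_lit 54600) (nat_lit 0) (nat_lit 10716) (XT.lf (nat_lit 0) (nat_lit 28323814169) (nat_lit 76) (nat_lit 24109857578) (nat_lit 76) (nat_lit 13768327788) (nat_lit 17) (nat_lit 4) (nat_lit 18) (nat_lit 5) (nat_lit 18) (nat_lit 4) (nat_lit 553) (nat_lit 373) (nat_lit 274)) (XT.lf (nat_lit 0) (nat_lit 4003859415) (nat_lit 304) (nat_lit 346240225) (nat_lit 304) (nat_lit 346240225) (nat_lit 158) (nat_lit 4) (nat_lit 162) (nat_lit 5) (nat_lit 162) (nat_lit 4) (nat_lit 452) (nat_lit 374) (nat_lit 374))))) (XT.nd (nat_lit 312) (nat_lit 836) (nat_lit 0) (XT.nd (nat_lit 156) (nat_lit 608) (nat_lit 0) (XT.nd (nat_lit 78) (nat_lit 304) (nat_lit 0) (XT.lf (nat_lit 0) (nat_lit 3882304322) (nat_lit 380) (nat_lit 2566391106) (nat_lit 0) (nat_lit 3062741135) (nat_lit 153) (nat_lit 5) (nat_lit 158) (nat_lit 4) (nat_lit 153) (nat_lit 4) (nat_lit 453) (nat_lit 374) (nat_lit 373))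 (XT.lf (nat_lit 0) (nat_lit 5855214519) (nat_lit 304) (nat_lit 2697219850) (nat_lit 304) (nat_lit 1081964248) (nat_lit 149) (nat_lit 4) (nat_lit 153) (nat_lit 5) (nat_lit 153) (nat_lit 4) (nat_lit 454) (nat_lit 374) (nat_lit 372))) (XT.nd (nat_lit 78) (nat_lit 304) (nat_lit 0) (XT.lf (nat_lit 0) (nat_lit 3509711240) (nat_lit 304) (nat_lit 5059471268) (nat_lit 0) (nat_lit 1191485502) (nat_lit 145) (nat_lit 5) (nat_lit 149) (nat_lit 4) (nat_lit 145) (nat_lit 4) (nat_lit 455) (nat_lit 374) (nat_lit 371)) (XT.lf (nat_lit 0) (nat_lit 3487567248) (nat_lit 304) (nat_lit 4724697846) (nat_lit 304) (nat_lit 1678300832) (nat_lit 141) (nat_lit 4) (nat_lit 145) (nat_lit 5) (nat_lit 145) (nat_lit 4) (nat_lit 456) (nat_lit 374) (nat_lit 370)))) (XT.nd (nat_lit 156) (nat_lit 304) (nat_lit 0) (XT.nd (nat_lit 78) (nat_lit 228) (nat_lit 0) (XT.lf (nat_lit 0) (nat_lit 2218543876) (nat_lit 228) (nat_lit 723280406) (nat_lit 304) (nat_lit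 7082586494) (nat_lit 137) (nat_lit 5) (nat_lit 140) (nat_lit 5) (nat_lit 141) (nat_lit 4) (nat_lit 457) (nat_lit 374) (nat_lit 369)) (XT.lf (nat_lit 0) (nat_lit 868861699) (nat_lit 228) (nat_lit 6801613328) (nat_lit 228) (nat_lit 2491195187) (nat_lit 134) (nat_lit 4) (nat_lit 137) (nat_lit 5) (nat_lit 137) (nat_lit 4) (nat_lit 458) (nat_lit 374) (nat_lit 368))) (XT.nd (nat_lit 78) (nat_lit 228) (nat_lit 0) (XT.lf (nat_lit 0) (nat_lit 2178754965) (nat_lit 304) (nat_lit 534516308) (nat_lit 76) (nat_lit 7589603118) (nat_lit 133) (nat_lit 5) (nat_lit 137) (nat_lit 5) (nat_lit 134) (nat_lit 4) (nat_lit 459) (nat_lit 374) (nat_lit 367)) (XT.lf (nat_lit 0) (nat_lit 6935623286) (nat_lit 304) (nat_lit 1999259104) (nat_lit 0) (nat_lit 1512792384) (nat_lit 130) (nat_lit 5) (nat_lit 134) (nat_lit 4) (nat_lit 130) (nat_lit 4) (nat_lit 460) (nat_lit 374) (nat_lit 366))))))) (XT.nd (nat_lit 1170) (nat_lit 1900) (nat_lit 0) (XT.nd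 (nat_lit 546) (nat_lit 1444) (nat_lit 0) (XT.nd (nat_lit 234) (nat_lit 608) (nat_lit 0) (XT.nd (nat_lit 78) (nat_lit 532) (nat_lit 0) (XT.lf (nat_lit 0) (nat_lit 1215847395) (nat_lit 304) (nat_lit 3546730573) (nat_lit 76) (nat_lit 5833841412) (nat_lit 126) (nat_lit 5) (nat_lit 130) (nat_lit 5) (nat_lit 127) (nat_lit 4) (nat_lit 461) (nat_lit 374) (nat_lit 365)) (XT.nd (nat_lit 78) (nat_lit 304) (nat_lit 0) (XT.lf (nat_lit 0) (nat_lit 5571404157) (nat_lit 228) (nat_lit 419300311) (nat_lit 304) (nat_lit 4758613547) (nat_lit 123) (nat_lit 5) (nat_lit 126) (nat_lit 5) (nat_lit 127) (nat_lit 4) (nat_lit 462) (nat_lit 374) (nat_lit 364)) (XT.lf (nat_lit 0) (nat_lit 18175229) (nat_lit 304) (nat_lit 6902724250) (nat_lit 76) (nat_lit 3985423050) (nat_lit 119) (nat_lit 5) (nat_lit 123) (nat_lit 5) (nat_lit 120) (nat_lit 4) (nat_lit 463) (nat_lit 374) (nat_lit 363)))) (XT.nd (nat_lit 156) (nat_lit 228) (nat_lit 0) (XT.nd (nat_lit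 78) (nat_lit 228) (nat_lit 0) (XT.lf (nat_lit 0) (nat_lit 2328481486) (nat_lit 152) (nat_lit 2496221901) (nat_lit 228) (nat_lit 6242463619) (nat_lit 117) (nat_lit 5) (nat_lit 119) (nat_lit 5) (nat_lit 120) (nat_lit 4) (nat_lit 464) (nat_lit 374) (nat_lit 362)) (XT.lf (nat_lit 0) (nat_lit 572022182) (nat_lit 228) (nat_lit 9202458758) (nat_lit 228) (nat_lit 1458389755) (nat_lit 114) (nat_lit 4) (nat_lit 117) (nat_lit 5) (nat_lit 117) (nat_lit 4) (nat_lit 465) (nat_lit 374) (nat_lit 361))) (XT.nd (nat_lit 78) (nat_lit 152) (nat_lit 0) (XT.lf (nat_lit 0) (nat_lit 3418974299) (nat_lit 304) (nat_lit 1284958172) (nat_lit 76) (nat_lit 6698093808) (nat_lit 113) (nat_lit 5) (nat_lit 117) (nat_lit 5) (nat_lit 114) (nat_lit 4) (nat_lit 466) (nat_lit 374) (nat_lit 360)) (XT.lf (nat_lit 0) (nat_lit 8359427162) (nat_lit 152) (nat_lit 40715002) (nat_lit 228) (nat_lit 3176082348) (nat_lit 111) (nat_lit 5) (nat_lit 113) (nat_lit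 5) (nat_lit 114) (nat_lit 4) (nat_lit 467) (nat_lit 374) (nat_lit 359))))) (XT.nd (nat_lit 312) (nat_lit 608) (nat_lit 0) (XT.nd (nat_lit 156) (nat_lit 380) (nat_lit 0) (XT.nd (nat_lit 78) (nat_lit 152) (nat_lit 0) (XT.lf (nat_lit 0) (nat_lit 1768910342) (nat_lit 304) (nat_lit 5289338896) (nat_lit 76) (nat_lit 4696038712) (nat_lit 107) (nat_lit 5) (nat_lit 111) (nat_lit 5) (nat_lit 108) (nat_lit 4) (nat_lit 468) (nat_lit 374) (nat_lit 358)) (XT.lf (nat_lit 0) (nat_lit 4458937676) (nat_lit 152) (nat_lit 2322780771) (nat_lit 228) (nat_lit 5155536995) (nat_lit 105) (nat_lit 5) (nat_lit 107) (nat_lit 5) (nat_lit 108) (nat_lit 4) (nat_lit 469) (nat_lit 374) (nat_lit 357))) (XT.nd (nat_lit 78) (nat_lit 228) (nat_lit 0) (XT.lf (nat_lit 0) (nat_lit 2341820523) (nat_lit 152) (nat_lit 9611825023) (nat_lit 152) (nat_lit 171808830) (nat_lit 103) (nat_lit 4) (nat_lit 105) (nat_lit 5) (nat_lit 105) (nat_lit 4) (nat_lit 470) (nat_lit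 374) (nat_lit 356)) (XT.lf (nat_lit 0) (nat_lit 59541771) (nat_lit 152) (nat_lit 4812865079) (nat_lit 228) (nat_lit 7445232131) (nat_lit 100) (nat_lit 5) (nat_lit 102) (nat_lit 5) (nat_lit 103) (nat_lit 4) (nat_lit 471) (nat_lit 374) (nat_lit 355)))) (XT.nd (nat_lit 156) (nat_lit 380) (nat_lit 0) (XT.nd (nat_lit 78) (nat_lit 228) (nat_lit 0) (XT.lf (nat_lit 0) (nat_lit 10073928223) (nat_lit 228) (nat_lit 2281452523) (nat_lit 0) (nat_lit 159878453) (nat_lit 100) (nat_lit 5) (nat_lit 103) (nat_lit 4) (nat_lit 100) (nat_lit 4) (nat_lit 472) (nat_lit 374) (nat_lit 354)) (XT.lf (nat_lit 0) (nat_lit 2695178957) (nat_lit 228) (nat_lit 4801048503) (nat_lit 76) (nat_lit 5220739350) (nat_lit 97) (nat_lit 5) (nat_lit 100) (nat_lit 5) (nat_lit 98) (nat_lit 4) (nat_lit 473) (nat_lit 374) (nat_lit 353))) (XT.nd (nat_lit 78) (nat_lit 228) (nat_lit 0) (XT.lf (nat_lit 0) (nat_lit 5465273091) (nat_lit 152) (nat_lit 2458526680) (nat_lit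 228) (nat_lit 5000591948) (nat_lit 95) (nat_lit 5) (nat_lit 97) (nat_lit 5) (nat_lit 98) (nat_lit 4) (nat_lit 474) (nat_lit 374) (nat_lit 352)) (XT.lf (nat_lit 0) (nat_lit 182529778) (nat_lit 228) (nat_lit 10267998166) (nat_lit 76) (nat_lit 2687026625) (nat_lit 92) (nat_lit 5) (nat_lit 95) (nat_lit 5) (nat_lit 93) (nat_lit 4) (nat_lit 475) (nat_lit 374) (nat_lit 351)))))) (XT.nd (nat_lit 624) (nat_lit 836) (nat_lit 0) (XT.nd (nat_lit 312) (nat_lit 532) (nat_lit 0) (XT.nd (nat_lit 156) (nat_lit 380) (nat_lit 0) (XT.nd (nat_lit 78) (nat_lit 0) (nat_lit 0) (XT.lf (nat_lit 0) (nat_lit 73460817) (nat_lit 152) (nat_lit 5360165375) (nat_lit 228) (nat_lit 7921614568) (nat_lit 90) (nat_lit 5) (nat_lit 92) (nat_lit 5) (nat_lit 93) (nat_lit 4) (nat_lit 476) (nat_lit 374) (nat_lit 350)) (XT.lf (nat_lit 0) (nat_lit 10777693453) (nat_lit 152) (nat_lit 81168931) (nat_lit 228) (nat_lit 2720100265) (nat_lit 90) (nat_lit 5) (nat_lit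 92) (nat_lit 5) (nat_lit 93) (nat_lit 4) (nat_lit 477) (nat_lit 374) (nat_lit 349))) (XT.nd (nat_lit 78) (nat_lit 152) (nat_lit 0) (XT.lf (nat_lit 0) (nat_lit 2629036675) (nat_lit 228) (nat_lit 5891981871) (nat_lit 76) (nat_lit 5286328883) (nat_lit 87) (nat_lit 5) (nat_lit 90) (nat_lit 5) (nat_lit 88) (nat_lit 4) (nat_lit 478) (nat_lit 374) (nat_lit 348)) (XT.lf (nat_lit 0) (nat_lit 4881013166) (nat_lit 152) (nat_lit 3194216076) (nat_lit 228) (nat_lit 5966812013) (nat_lit 85) (nat_lit 5) (nat_lit 87) (nat_lit 5) (nat_lit 88) (nat_lit 4) (nat_lit 479) (nat_lit 374) (nat_lit 347)))) (XT.nd (nat_lit 156) (nat_lit 304) (nat_lit 0) (XT.nd (nat_lit 78) (nat_lit 76) (nat_lit 0) (XT.lf (nat_lit 0) (nat_lit 1670219723) (nat_lit 152) (nat_lit 12028054206) (nat_lit 152) (nat_lit 585100924) (nat_lit 83) (nat_lit 4) (nat_lit 85) (nat_lit 5) (nat_lit 85) (nat_lit 4) (nat_lit 480) (nat_lit 374) (nat_lit 346)) (XT.lf (nat_lit 0)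 (nat_lit 4901804069) (nat_lit 228) (nat_lit 1751071003) (nat_lit 76) (nat_lit 7876431602) (nat_lit 82) (nat_lit 5) (nat_lit 85) (nat_lit 5) (nat_lit 83) (nat_lit 4) (nat_lit 481) (nat_lit 374) (nat_lit 345))) (XT.nd (nat_lit 78) (nat_lit 228) (nat_lit 0) (XT.lf (nat_lit 0) (nat_lit 9464414853) (nat_lit 76) (nat_lit 1086023973) (nat_lit 152) (nat_lit 4231740052) (nat_lit 81) (nat_lit 5) (nat_lit 82) (nat_lit 5) (nat_lit 83) (nat_lit 4) (nat_lit 482) (nat_lit 374) (nat_lit 344)) (XT.lf (nat_lit 0) (nat_lit 1338119932) (nat_lit 228) (nat_lit 9125267914) (nat_lit 76) (nat_lit 4577726660) (nat_lit 78) (nat_lit 5) (nat_lit 81) (nat_lit 5) (nat_lit 79) (nat_lit 4) (nat_lit 483) (nat_lit 374) (nat_lit 343))))) (XT.nd (nat_lit 312) (nat_lit 456) (nat_lit 0) (XT.nd (nat_lit 156) (nat_lit 304) (nat_lit 0) (XT.nd (nat_lit 78) (nat_lit 0) (nat_lit 0) (XT.lf (nat_lit 0) (nat_lit 2125779901) (nat_lit 76) (nat_lit 4867990512) (nat_lit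 152) (nat_lit 8312680851) (nat_lit 77) (nat_lit 5) (nat_lit 78) (nat_lit 5) (nat_lit 79) (nat_lit 4) (nat_lit 484) (nat_lit 374) (nat_lit 342)) (XT.lf (nat_lit 0) (nat_lit 12839352032) (nat_lit 152) (nat_lit 1837137568) (nat_lit 0) (nat_lit 902653075) (nat_lit 77) (nat_lit 5) (nat_lit 79) (nat_lit 4) (nat_lit 77) (nat_lit 4) (nat_lit 485) (nat_lit 374) (nat_lit 341))) (XT.nd (nat_lit 78) (nat_lit 76) (nat_lit 0) (XT.lf (nat_lit 0) (nat_lit 3006150560) (nat_lit 228) (nat_lit 6044625126) (nat_lit 76) (nat_lit 6806443864) (nat_lit 74) (nat_lit 5) (nat_lit 77) (nat_lit 5) (nat_lit 75) (nat_lit 4) (nat_lit 486) (nat_lit 374) (nat_lit 340)) (XT.lf (nat_lit 0) (nat_lit 5641419324) (nat_lit 76) (nat_lit 3222035550) (nat_lit 152) (nat_lit 7279550693) (nat_lit 73) (nat_lit 5) (nat_lit 74) (nat_lit 5) (nat_lit 75) (nat_lit 4) (nat_lit 487) (nat_lit 374) (nat_lit 339)))) (XT.nd (nat_lit 156) (nat_lit 228) (nat_lit 0) (XT.nd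 (nat_lit 78) (nat_lit 76) (nat_lit 0) (XT.lf (nat_lit 0) (nat_lit 1214794240) (nat_lit 152) (nat_lit 13703066462) (nat_lit 152) (nat_lit 1518865121) (nat_lit 71) (nat_lit 4) (nat_lit 73) (nat_lit 5) (nat_lit 73) (nat_lit 4) (nat_lit 488) (nat_lit 374) (nat_lit 338)) (XT.lf (nat_lit 0) (nat_lit 4388926582) (nat_lit 228) (nat_lit 3461628544) (nat_lit 76) (nat_lit 8885618548) (nat_lit 70) (nat_lit 5) (nat_lit 73) (nat_lit 5) (nat_lit 71) (nat_lit 4) (nat_lit 489) (nat_lit 374) (nat_lit 337))) (XT.nd (nat_lit 78) (nat_lit 152) (nat_lit 0) (XT.lf (nat_lit 0) (nat_lit 8661676451) (nat_lit 76) (nat_lit 1788731938) (nat_lit 152) (nat_lit 6593537852) (nat_lit 69) (nat_lit 5) (nat_lit 70) (nat_lit 5) (nat_lit 71) (nat_lit 4) (nat_lit 490) (nat_lit 374) (nat_lit 336)) (XT.lf (nat_lit 0) (nat_lit 3745658115) (nat_lit 152) (nat_lit 12986139631) (nat_lit 152) (nat_lit 628014238) (nat_lit 67) (nat_lit 4) (nat_lit 69) (nat_lit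 5) (nat_lit 69) (nat_lit 4) (nat_lit 491) (nat_lit 374) (nat_lit 335))))))))
noncomputable def xc43 : XT := (XT.nd (nat_lit 2340) (nat_lit 1444) (nat_lit 0) (XT.nd (nat_lit 1170) (nat_lit 988) (nat_lit 0) (XT.nd (nat_lit 546) (nat_lit 532) (nat_lit 0) (XT.nd (nat_lit 234) (nat_lit 456) (nat_lit 0) (XT.nd (nat_lit 78) (nat_lit 228) (nat_lit 0) (XT.lf (nat_lit 0) (nat_lit 5436052007) (nat_lit 228) (nat_lit 1489040842) (nat_lit 76) (nat_lit 10757655105) (nat_lit 66) (nat_lit 5) (nat_lit 69) (nat_lit 5) (nat_lit 67) (nat_lit 4) (nat_lit 492) (nat_lit 374) (nat_lit 334)) (XT.nd (nat_lit 78) (nat_lit 152) (nat_lit 0) (XT.lf (nat_lit 0) (nat_lit 11069712098) (nat_lit 76) (nat_lit 632357676) (nat_lit 152) (nat_lit 6312137861) (nat_lit 65) (nat_lit 5) (nat_lit 66) (nat_lit 5) (nat_lit 67) (nat_lit 4) (nat_lit 493) (nat_lit 374) (nat_lit 333)) (XT.lf (nat_lit 0) (nat_lit 5593268517) (nat_lit 152) (nat_lit 12614405662) (nat_lit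 152) (nat_lit 146390428) (nat_lit 63) (nat_lit 4) (nat_lit 65) (nat_lit 5) (nat_lit 65) (nat_lit 4) (nat_lit 494) (nat_lit 374) (nat_lit 332)))) (XT.nd (nat_lit 156) (nat_lit 304) (nat_lit 0) (XT.nd (nat_lit 78) (nat_lit 76) (nat_lit 0) (XT.lf (nat_lit 0) (nat_lit 6086858267) (nat_lit 228) (nat_lit 259271558) (nat_lit 76) (nat_lit 12356091923) (nat_lit 62) (nat_lit 5) (nat_lit 65) (nat_lit 5) (nat_lit 63) (nat_lit 4) (nat_lit 495) (nat_lit 374) (nat_lit 331)) (XT.lf (nat_lit 0) (nat_lit 12556831982) (nat_lit 152) (nat_lit 6332793955) (nat_lit 0) (nat_lit 169575628) (nat_lit 61) (nat_lit 5) (nat_lit 63) (nat_lit 4) (nat_lit 61) (nat_lit 4) (nat_lit 496) (nat_lit 374) (nat_lit 330))) (XT.nd (nat_lit 78) (nat_lit 152) (nat_lit 0) (XT.lf (nat_lit 0) (nat_lit 6610018536) (nat_lit 152) (nat_lit 12668725129) (nat_lit 152) (nat_lit 146413442) (nat_lit 59) (nat_lit 4) (nat_lit 61) (nat_lit 5) (nat_lit 61) (nat_lit 4) (nat_lit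 497) (nat_lit 374) (nat_lit 329)) (XT.lf (nat_lit 0) (nat_lit 73692562) (nat_lit 76) (nat_lit 6195827600) (nat_lit 152) (nat_lit 13530901172) (nat_lit 57) (nat_lit 5) (nat_lit 58) (nat_lit 5) (nat_lit 59) (nat_lit 4) (nat_lit 498) (nat_lit 374) (nat_lit 328))))) (XT.nd (nat_lit 312) (nat_lit 304) (nat_lit 0) (XT.nd (nat_lit 156) (nat_lit 152) (nat_lit 0) (XT.nd (nat_lit 78) (nat_lit 76) (nat_lit 0) (XT.lf (nat_lit 0) (nat_lit 12939259157) (nat_lit 152) (nat_lit 6714936474) (nat_lit 0) (nat_lit 530777631) (nat_lit 57) (nat_lit 5) (nat_lit 59) (nat_lit 4) (nat_lit 57) (nat_lit 4) (nat_lit 499) (nat_lit 374) (nat_lit 327)) (XT.lf (nat_lit 0) (nat_lit 6622569995) (nat_lit 76) (nat_lit 13242642920) (nat_lit 76) (nat_lit 714166481) (nat_lit 56) (nat_lit 4) (nat_lit 57) (nat_lit 5) (nat_lit 57) (nat_lit 4) (nat_lit 500) (nat_lit 374) (nat_lit 326))) (XT.nd (nat_lit 78) (nat_lit 76) (nat_lit 0) (XT.lf (nat_lit 0) (nat_lit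 5895651489) (nat_lit 152) (nat_lit 676803832) (nat_lit 76) (nat_lit 14411439563) (nat_lit 55) (nat_lit 5) (nat_lit 57) (nat_lit 5) (nat_lit 56) (nat_lit 4) (nat_lit 501) (nat_lit 374) (nat_lit 325)) (XT.lf (nat_lit 0) (nat_lit 12752322646) (nat_lit 152) (nat_lit 8280290666) (nat_lit 0) (nat_lit 365834229) (nat_lit 54) (nat_lit 5) (nat_lit 56) (nat_lit 4) (nat_lit 54) (nat_lit 4) (nat_lit 502) (nat_lit 374) (nat_lit 324)))) (XT.nd (nat_lit 156) (nat_lit 152) (nat_lit 0) (XT.nd (nat_lit 78) (nat_lit 76) (nat_lit 0) (XT.lf (nat_lit 0) (nat_lit 5427511162) (nat_lit 76) (nat_lit 14444652524) (nat_lit 76) (nat_lit 1951550180) (nat_lit 53) (nat_lit 4) (nat_lit 54) (nat_lit 5) (nat_lit 54) (nat_lit 4) (nat_lit 503) (nat_lit 374) (nat_lit 323)) (XT.lf (nat_lit 0) (nat_lit 4865214389) (nat_lit 152) (nat_lit 2720225800) (nat_lit 76) (nat_lit 14674338647) (nat_lit 52) (nat_lit 5) (nat_lit 54) (nat_lit 5) (nat_lit 53) (nat_lit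 4) (nat_lit 504) (nat_lit 374) (nat_lit 322))) (XT.nd (nat_lit 78) (nat_lit 76) (nat_lit 0) (XT.lf (nat_lit 0) (nat_lit 11444864235) (nat_lit 76) (nat_lit 447731378) (nat_lit 152) (nat_lit 10814391412) (nat_lit 51) (nat_lit 5) (nat_lit 52) (nat_lit 5) (nat_lit 53) (nat_lit 4) (nat_lit 505) (nat_lit 374) (nat_lit 321)) (XT.lf (nat_lit 0) (nat_lit 2786322831) (nat_lit 76) (nat_lit 16400805570) (nat_lit 76) (nat_lit 3978794204) (nat_lit 50) (nat_lit 4) (nat_lit 51) (nat_lit 5) (nat_lit 51) (nat_lit 4) (nat_lit 506) (nat_lit 374) (nat_lit 320)))))) (XT.nd (nat_lit 546) (nat_lit 532) (nat_lit 0) (XT.nd (nat_lit 234) (nat_lit 304) (nat_lit 0) (XT.nd (nat_lit 78) (nat_lit 76) (nat_lit 0) (XT.lf (nat_lit 0) (nat_lit 3056900424) (nat_lit 152) (nat_lit 6308469613) (nat_lit 76) (nat_lit 14270730897) (nat_lit 49) (nat_lit 5) (nat_lit 51) (nat_lit 5) (nat_lit 50) (nat_lit 4) (nat_lit 507) (nat_lit 374) (nat_lit 319)) (XT.nd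 (nat_lit 78) (nat_lit 0) (nat_lit 0) (XT.lf (nat_lit 0) (nat_lit 8183390925) (nat_lit 76) (nat_lit 2056341037) (nat_lit 152) (nat_lit 13878990712) (nat_lit 48) (nat_lit 5) (nat_lit 49) (nat_lit 5) (nat_lit 50) (nat_lit 4) (nat_lit 508) (nat_lit 374) (nat_lit 318)) (XT.lf (nat_lit 0) (nat_lit 17692457314) (nat_lit 152) (nat_lit 1549618696) (nat_lit 0) (nat_lit 5372115723) (nat_lit 48) (nat_lit 5) (nat_lit 50) (nat_lit 4) (nat_lit 48) (nat_lit 4) (nat_lit 509) (nat_lit 374) (nat_lit 317)))) (XT.nd (nat_lit 156) (nat_lit 76) (nat_lit 0) (XT.nd (nat_lit 78) (nat_lit 76) (nat_lit 0) (XT.lf (nat_lit 0) (nat_lit 328719934) (nat_lit 152) (nat_lit 11734750820) (nat_lit 76) (nat_lit 13058307160) (nat_lit 46) (nat_lit 5) (nat_lit 48) (nat_lit 5) (nat_lit 47) (nat_lit 4) (nat_lit 510) (nat_lit 374) (nat_lit 316)) (XT.lf (nat_lit 0) (nat_lit 3031583848) (nat_lit 76) (nat_lit 4610271772) (nat_lit 152) (nat_lit 18001152322) (nat_lit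 45) (nat_lit 5) (nat_lit 46) (nat_lit 5) (nat_lit 47) (nat_lit 4) (nat_lit 511) (nat_lit 374) (nat_lit 315))) (XT.nd (nat_lit 78) (nat_lit 76) (nat_lit 0) (XT.lf (nat_lit 0) (nat_lit 15262968653) (nat_lit 152) (nat_lit 7843905389) (nat_lit 0) (nat_lit 3070344157) (nat_lit 45) (nat_lit 5) (nat_lit 47) (nat_lit 4) (nat_lit 45) (nat_lit 4) (nat_lit 512) (nat_lit 374) (nat_lit 314)) (XT.lf (nat_lit 0) (nat_lit 7349461101) (nat_lit 76) (nat_lit 15820746541) (nat_lit 76) (nat_lit 3555523149) (nat_lit 44) (nat_lit 4) (nat_lit 45) (nat_lit 5) (nat_lit 45) (nat_lit 4) (nat_lit 513) (nat_lit 374) (nat_lit 313))))) (XT.nd (nat_lit 312) (nat_lit 304) (nat_lit 0) (XT.nd (nat_lit 156) (nat_lit 76) (nat_lit 0) (XT.nd (nat_lit 78) (nat_lit 76) (nat_lit 0) (XT.lf (nat_lit 0) (nat_lit 3966675813) (nat_lit 152) (nat_lit 4283355855) (nat_lit 76) (nat_lit 19038870440) (nat_lit 43) (nat_lit 5) (nat_lit 45) (nat_lit 5) (nat_lit 44) (nat_lit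 4) (nat_lit 514) (nat_lit 374) (nat_lit 312)) (XT.lf (nat_lit 0) (nat_lit 11336722443) (nat_lit 76) (nat_lit 358283282) (nat_lit 152) (nat_lit 16171349655) (nat_lit 42) (nat_lit 5) (nat_lit 43) (nat_lit 5) (nat_lit 44) (nat_lit 4) (nat_lit 515) (nat_lit 374) (nat_lit 311))) (XT.nd (nat_lit 78) (nat_lit 76) (nat_lit 0) (XT.lf (nat_lit 0) (nat_lit 19716590284) (nat_lit 152) (nat_lit 1133467003) (nat_lit 0) (nat_lit 7609233533) (nat_lit 42) (nat_lit 5) (nat_lit 44) (nat_lit 4) (nat_lit 42) (nat_lit 4) (nat_lit 516) (nat_lit 374) (nat_lit 310)) (XT.lf (nat_lit 0) (nat_lit 14903389624) (nat_lit 76) (nat_lit 13166930823) (nat_lit 76) (nat_lit 996949627) (nat_lit 41) (nat_lit 4) (nat_lit 42) (nat_lit 5) (nat_lit 42) (nat_lit 4) (nat_lit 517) (nat_lit 374) (nat_lit 309)))) (XT.nd (nat_lit 156) (nat_lit 152) (nat_lit 0) (XT.nd (nat_lit 78) (nat_lit 0) (nat_lit 0) (XT.lf (nat_lit 0) (nat_lit 1607077761) (nat_lit 76) (nat_lit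 5209601741) (nat_lit 152) (nat_lit 22875644632) (nat_lit 39) (nat_lit 5) (nat_lit 40) (nat_lit 5) (nat_lit 41) (nat_lit 4) (nat_lit 518) (nat_lit 374) (nat_lit 308)) (XT.lf (nat_lit 0) (nat_lit 14962627252) (nat_lit 152) (nat_lit 12338896908) (nat_lit 0) (nat_lit 3030771742) (nat_lit 39) (nat_lit 5) (nat_lit 41) (nat_lit 4) (nat_lit 39) (nat_lit 4) (nat_lit 519) (nat_lit 374) (nat_lit 307))) (XT.nd (nat_lit 78) (nat_lit 76) (nat_lit 0) (XT.lf (nat_lit 0) (nat_lit 3796943371) (nat_lit 76) (nat_lit 19590493048) (nat_lit 76) (nat_lit 7602996529) (nat_lit 38) (nat_lit 4) (nat_lit 39) (nat_lit 5) (nat_lit 39) (nat_lit 4) (nat_lit 520) (nat_lit 374) (nat_lit 306)) (XT.lf (nat_lit 0) (nat_lit 461203706) (nat_lit 152) (nat_lit 11105273391) (nat_lit 76) (nat_lit 20099555141) (nat_lit 37) (nat_lit 5) (nat_lit 39) (nat_lit 5) (nat_lit 38) (nat_lit 4) (nat_lit 521) (nat_lit 374) (nat_lit 305))))))) (XT.nd (nat_lit 1170) (nat_lit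 684) (nat_lit 0) (XT.nd (nat_lit 546) (nat_lit 380) (nat_lit 0) (XT.nd (nat_lit 234) (nat_lit 228) (nat_lit 0) (XT.nd (nat_lit 78) (nat_lit 76) (nat_lit 0) (XT.lf (nat_lit 0) (nat_lit 5393178985) (nat_lit 76) (nat_lit 3221177117) (nat_lit 152) (nat_lit 23745290487) (nat_lit 36) (nat_lit 5) (nat_lit 37) (nat_lit 5) (nat_lit 38) (nat_lit 4) (nat_lit 522) (nat_lit 374) (nat_lit 304)) (XT.nd (nat_lit 78) (nat_lit 76) (nat_lit 0) (XT.lf (nat_lit 0) (nat_lit 17125074506) (nat_lit 152) (nat_lit 10611680604) (nat_lit 0) (nat_lit 5333925664) (nat_lit 36) (nat_lit 5) (nat_lit 38) (nat_lit 4) (nat_lit 36) (nat_lit 4) (nat_lit 523) (nat_lit 374) (nat_lit 303)) (XT.lf (nat_lit 0) (nat_lit 6223856033) (nat_lit 76) (nat_lit 19708548522) (nat_lit 76) (nat_lit 7869403257) (nat_lit 35) (nat_lit 4) (nat_lit 36) (nat_lit 5) (nat_lit 36) (nat_lit 4) (nat_lit 524) (nat_lit 374) (nat_lit 302)))) (XT.nd (nat_lit 156) (nat_lit 76) (nat_lit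 0) (XT.nd (nat_lit 78) (nat_lit 76) (nat_lit 0) (XT.lf (nat_lit 0) (nat_lit 498138016) (nat_lit 152) (nat_lit 10874523560) (nat_lit 76) (nat_lit 23180343616) (nat_lit 34) (nat_lit 5) (nat_lit 36) (nat_lit 5) (nat_lit 35) (nat_lit 4) (nat_lit 525) (nat_lit 374) (nat_lit 301)) (XT.lf (nat_lit 0) (nat_lit 6278017232) (nat_lit 76) (nat_lit 2691934589) (nat_lit 152) (nat_lit 26354107306) (nat_lit 33) (nat_lit 5) (nat_lit 34) (nat_lit 5) (nat_lit 35) (nat_lit 4) (nat_lit 526) (nat_lit 374) (nat_lit 300))) (XT.nd (nat_lit 78) (nat_lit 76) (nat_lit 0) (XT.lf (nat_lit 0) (nat_lit 17818007480) (nat_lit 152) (nat_lit 12104692317) (nat_lit 0) (nat_lit 6191882731) (nat_lit 33) (nat_lit 5) (nat_lit 35) (nat_lit 4) (nat_lit 33) (nat_lit 4) (nat_lit 527) (nat_lit 374) (nat_lit 299)) (XT.lf (nat_lit 0) (nat_lit 5328401043) (nat_lit 76) (nat_lit 21633517757) (nat_lit 76) (nat_lit 9965990871) (nat_lit 32) (nat_lit 4) (nat_lit 33)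 (nat_lit 5) (nat_lit 33) (nat_lit 4) (nat_lit 528) (nat_lit 374) (nat_lit 298))))) (XT.nd (nat_lit 312) (nat_lit 152) (nat_lit 0) (XT.nd (nat_lit 156) (nat_lit 76) (nat_lit 0) (XT.nd (nat_lit 78) (nat_lit 152) (nat_lit 0) (XT.lf (nat_lit 0) (nat_lit 23439721154) (nat_lit 76) (nat_lit 13015690562) (nat_lit 76) (nat_lit 1307967428) (nat_lit 32) (nat_lit 4) (nat_lit 33) (nat_lit 5) (nat_lit 33) (nat_lit 4) (nat_lit 529) (nat_lit 374) (nat_lit 297)) (XT.lf (nat_lit 0) (nat_lit 3372006628) (nat_lit 76) (nat_lit 4075656054) (nat_lit 152) (nat_lit 31174465123) (nat_lit 30) (nat_lit 5) (nat_lit 31) (nat_lit 5) (nat_lit 32) (nat_lit 4) (nat_lit 530) (nat_lit 374) (nat_lit 296))) (XT.nd (nat_lit 78) (nat_lit 76) (nat_lit 0) (XT.lf (nat_lit 0) (nat_lit 16589075034) (nat_lit 152) (nat_lit 17765014264) (nat_lit 0) (nat_lit 5147679464) (nat_lit 30) (nat_lit 5) (nat_lit 32) (nat_lit 4) (nat_lit 30) (nat_lit 4) (nat_lit 531) (nat_lit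 374) (nat_lit 295)) (XT.lf (nat_lit 0) (nat_lit 118095405) (nat_lit 76) (nat_lit 25883454376) (nat_lit 76) (nat_lit 14406344960) (nat_lit 29) (nat_lit 4) (nat_lit 30) (nat_lit 5) (nat_lit 30) (nat_lit 4) (nat_lit 532) (nat_lit 374) (nat_lit 294)))) (XT.nd (nat_lit 156) (nat_lit 76) (nat_lit 0) (XT.nd (nat_lit 78) (nat_lit 76) (nat_lit 0) (XT.lf (nat_lit 0) (nat_lit 18814229520) (nat_lit 76) (nat_lit 17017351475) (nat_lit 76) (nat_lit 5505568422) (nat_lit 29) (nat_lit 4) (nat_lit 30) (nat_lit 5) (nat_lit 30) (nat_lit 4) (nat_lit 533) (nat_lit 374) (nat_lit 293)) (XT.lf (nat_lit 0) (nat_lit 3547420822) (nat_lit 152) (nat_lit 4344182509) (nat_lit 76) (nat_lit 34402923074) (nat_lit 28) (nat_lit 5) (nat_lit 30) (nat_lit 5) (nat_lit 29) (nat_lit 4) (nat_lit 534) (nat_lit 374) (nat_lit 292))) (XT.nd (nat_lit 78) (nat_lit 0) (nat_lit 0) (XT.lf (nat_lit 0) (nat_lit 12874905285) (nat_lit 152) (nat_lit 28766675225) (nat_lit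 0) (nat_lit 1634002365) (nat_lit 27) (nat_lit 5) (nat_lit 29) (nat_lit 4) (nat_lit 27) (nat_lit 4) (nat_lit 535) (nat_lit 374) (nat_lit 291)) (XT.lf (nat_lit 0) (nat_lit 22562604014) (nat_lit 152) (nat_lit 10430161657) (nat_lit 0) (nat_lit 11290894017) (nat_lit 27) (nat_lit 5) (nat_lit 29) (nat_lit 4) (nat_lit 27) (nat_lit 4) (nat_lit 536) (nat_lit 374) (nat_lit 290)))))) (XT.nd (nat_lit 624) (nat_lit 304) (nat_lit 0) (XT.nd (nat_lit 312) (nat_lit 152) (nat_lit 0) (XT.nd (nat_lit 156) (nat_lit 152) (nat_lit 0) (XT.nd (nat_lit 78) (nat_lit 0) (nat_lit 0) (XT.lf (nat_lit 0) (nat_lit 8542086000) (nat_lit 76) (nat_lit 24040137118) (nat_lit 76) (nat_lit 12738517336) (nat_lit 26) (nat_lit 4) (nat_lit 27) (nat_lit 5) (nat_lit 27) (nat_lit 4) (nat_lit 537) (nat_lit 374) (nat_lit 289)) (XT.lf (nat_lit 0) (nat_lit 28217055584) (nat_lit 76) (nat_lit 14750294602) (nat_lit 76) (nat_lit 3419636196) (nat_lit 26) (nat_lit 4) (nat_lit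 27) (nat_lit 5) (nat_lit 27) (nat_lit 4) (nat_lit 538) (nat_lit 374) (nat_lit 288))) (XT.nd (nat_lit 78) (nat_lit 0) (nat_lit 0) (XT.lf (nat_lit 0) (nat_lit 876050083) (nat_lit 76) (nat_lit 5150994906) (nat_lit 152) (nat_lit 41457329032) (nat_lit 24) (nat_lit 5) (nat_lit 25) (nat_lit 5) (nat_lit 26) (nat_lit 4) (nat_lit 539) (nat_lit 374) (nat_lit 287)) (XT.lf (nat_lit 0) (nat_lit 15879636557) (nat_lit 152) (nat_lit 27903242874) (nat_lit 0) (nat_lit 4825051182) (nat_lit 24) (nat_lit 5) (nat_lit 26) (nat_lit 4) (nat_lit 24) (nat_lit 4) (nat_lit 540) (nat_lit 374) (nat_lit 286)))) (XT.nd (nat_lit 156) (nat_lit 76) (nat_lit 0) (XT.nd (nat_lit 78) (nat_lit 76) (nat_lit 0) (XT.lf (nat_lit 0) (nat_lit 26040374631) (nat_lit 152) (nat_lit 8764453678) (nat_lit 0) (nat_lit 14959988815) (nat_lit 24) (nat_lit 5) (nat_lit 26) (nat_lit 4) (nat_lit 24) (nat_lit 4) (nat_lit 541) (nat_lit 374) (nat_lit 285)) (XT.lf (nat_lit 0) (nat_lit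 11090700897) (nat_lit 76) (nat_lit 25484532719) (nat_lit 76) (nat_lit 14379097929) (nat_lit 23) (nat_lit 4) (nat_lit 24) (nat_lit 5) (nat_lit 24) (nat_lit 4) (nat_lit 542) (nat_lit 374) (nat_lit 284))) (XT.nd (nat_lit 78) (nat_lit 76) (nat_lit 0) (XT.lf (nat_lit 0) (nat_lit 31647682627) (nat_lit 76) (nat_lit 15830028027) (nat_lit 76) (nat_lit 4700273846) (nat_lit 23) (nat_lit 4) (nat_lit 24) (nat_lit 5) (nat_lit 24) (nat_lit 4) (nat_lit 543) (nat_lit 374) (nat_lit 283)) (XT.lf (nat_lit 0) (nat_lit 5129888347) (nat_lit 152) (nat_lit 739691895) (nat_lit 76) (nat_lit 47568333946) (nat_lit 22) (nat_lit 5) (nat_lit 24) (nat_lit 5) (nat_lit 23) (nat_lit 4) (nat_lit 544) (nat_lit 374) (nat_lit 282))))) (XT.nd (nat_lit 312) (nat_lit 152) (nat_lit 0) (XT.nd (nat_lit 156) (nat_lit 76) (nat_lit 0) (XT.nd (nat_lit 78) (nat_lit 0) (nat_lit 0) (XT.lf (nat_lit 0) (nat_lit 15360998344) (nat_lit 152) (nat_lit 34856999422) (nat_lit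 0) (nat_lit 4510232713) (nat_lit 21) (nat_lit 5) (nat_lit 23) (nat_lit 4) (nat_lit 21) (nat_lit 4) (nat_lit 545) (nat_lit 374) (nat_lit 281)) (XT.lf (nat_lit 0) (nat_lit 25929569727) (nat_lit 152) (nat_lit 15069574297) (nat_lit 0) (nat_lit 15057196631) (nat_lit 21) (nat_lit 5) (nat_lit 23) (nat_lit 4) (nat_lit 21) (nat_lit 4) (nat_lit 546) (nat_lit 374) (nat_lit 280))) (XT.nd (nat_lit 78) (nat_lit 0) (nat_lit 0) (XT.lf (nat_lit 0) (nat_lit 5347870407) (nat_lit 76) (nat_lit 31484628085) (nat_lit 76) (nat_lit 20591276869) (nat_lit 20) (nat_lit 4) (nat_lit 21) (nat_lit 5) (nat_lit 21) (nat_lit 4) (nat_lit 547) (nat_lit 374) (nat_lit 279)) (XT.lf (nat_lit 0) (nat_lit 26619456834) (nat_lit 76) (nat_lit 21561471217) (nat_lit 76) (nat_lit 10647752894) (nat_lit 20) (nat_lit 4) (nat_lit 21) (nat_lit 5) (nat_lit 21) (nat_lit 4) (nat_lit 548) (nat_lit 374) (nat_lit 278)))) (XT.nd (nat_lit 156) (nat_lit 0) (nat_lit 0) (XT.nd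 (nat_lit 78) (nat_lit 152) (nat_lit 0) (XT.lf (nat_lit 0) (nat_lit 48463857729) (nat_lit 76) (nat_lit 11373175855) (nat_lit 76) (nat_lit 439683641) (nat_lit 20) (nat_lit 4) (nat_lit 21) (nat_lit 5) (nat_lit 21) (nat_lit 4) (nat_lit 549) (nat_lit 374) (nat_lit 277)) (XT.lf (nat_lit 0) (nat_lit 9214286467) (nat_lit 76) (nat_lit 720184780) (nat_lit 152) (nat_lit 51829125170) (nat_lit 18) (nat_lit 5) (nat_lit 19) (nat_lit 5) (nat_lit 20) (nat_lit 4) (nat_lit 550) (nat_lit 374) (nat_lit 276))) (XT.nd (nat_lit 78) (nat_lit 0) (nat_lit 0) (XT.lf (nat_lit 0) (nat_lit 20797918278) (nat_lit 152) (nat_lit 32345283575) (nat_lit 0) (nat_lit 10146142594) (nat_lit 18) (nat_lit 5) (nat_lit 20) (nat_lit 4) (nat_lit 18) (nat_lit 4) (nat_lit 551) (nat_lit 374) (nat_lit 275)) (XT.lf (nat_lit 0) (nat_lit 31963219284) (nat_lit 152) (nat_lit 11604492556) (nat_lit 0) (nat_lit 21293874754) (nat_lit 18) (nat_lit 5) (nat_lit 20) (nat_lit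 4) (nat_lit 18) (nat_lit 4) (nat_lit 552) (nat_lit 374) (nat_lit 274))))))))
noncomputable def xc44 : XT := (XT.nd (nat_lit 56706) (nat_lit 0) (nat_lit 2432) (XT.nd (nat_lit 55536) (nat_lit 0) (nat_lit 5320) (XT.nd (nat_lit 54912) (nat_lit 0) (nat_lit 7752) (XT.nd (nat_lit 54600) (nat_lit 0) (nat_lit 9728) (XT.nd (nat_lit 54444) (nat_lit 0) (nat_lit 11020) (XT.lf (nat_lit 0) (nat_lit 9891120368) (nat_lit 76) (nat_lit 33637166629) (nat_lit 76) (nat_lit 22950764967) (nat_lit 17) (nat_lit 4) (nat_lit 18) (nat_lit 5) (nat_lit 18) (nat_lit 4) (nat_lit 553) (nat_lit 374) (nat_lit 273)) (XT.nd (nat_lit 78) (nat_lit 0) (nat_lit 0) (XT.lf (nat_lit 0) (nat_lit 225298086) (nat_lit 380) (nat_lit 4130865146) (nat_lit 0) (nat_lit 225298086) (nat_lit 162) (nat_lit 5) (nat_lit 167) (nat_lit 4) (nat_lit 162) (nat_lit 4) (nat_lit 450) (nat_lit 375) (nat_lit 375)) (XT.lf (nat_lit 0) (nat_lit 4930730631) (nat_lit 380) (nat_lit 284475125)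 (nat_lit 0) (nat_lit 4061256045) (nat_lit 162) (nat_lit 5) (nat_lit 167) (nat_lit 4) (nat_lit 162) (nat_lit 4) (nat_lit 451) (nat_lit 375) (nat_lit 374)))) (XT.nd (nat_lit 156) (nat_lit 608) (nat_lit 0) (XT.nd (nat_lit 78) (nat_lit 304) (nat_lit 0) (XT.lf (nat_lit 0) (nat_lit 121216175) (nat_lit 380) (nat_lit 1467555831) (nat_lit 76) (nat_lit 7805430876) (nat_lit 157) (nat_lit 5) (nat_lit 162) (nat_lit 5) (nat_lit 158) (nat_lit 4) (nat_lit 452) (nat_lit 375) (nat_lit 373)) (XT.lf (nat_lit 0) (nat_lit 4621210301) (nat_lit 380) (nat_lit 2731587770) (nat_lit 0) (nat_lit 2161804617) (nat_lit 153) (nat_lit 5) (nat_lit 158) (nat_lit 4) (nat_lit 153) (nat_lit 4) (nat_lit 453) (nat_lit 375) (nat_lit 372))) (XT.nd (nat_lit 78) (nat_lit 304) (nat_lit 0) (XT.lf (nat_lit 0) (nat_lit 5606150270) (nat_lit 304) (nat_lit 3632461564) (nat_lit 304) (nat_lit 400538972) (nat_lit 149) (nat_lit 4) (nat_lit 153) (nat_lit 5) (nat_lit 153)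 (nat_lit 4) (nat_lit 454) (nat_lit 375) (nat_lit 371)) (XT.lf (nat_lit 0) (nat_lit 4115156276) (nat_lit 304) (nat_lit 5402755804) (nat_lit 0) (nat_lit 249196075) (nat_lit 145) (nat_lit 5) (nat_lit 149) (nat_lit 4) (nat_lit 145) (nat_lit 4) (nat_lit 455) (nat_lit 375) (nat_lit 370))))) (XT.nd (nat_lit 312) (nat_lit 1064) (nat_lit 0) (XT.nd (nat_lit 156) (nat_lit 304) (nat_lit 0) (XT.nd (nat_lit 78) (nat_lit 304) (nat_lit 0) (XT.lf (nat_lit 0) (nat_lit 3056200842) (nat_lit 304) (nat_lit 5707673382) (nat_lit 304) (nat_lit 1134750777) (nat_lit 141) (nat_lit 4) (nat_lit 145) (nat_lit 5) (nat_lit 145) (nat_lit 4) (nat_lit 456) (nat_lit 375) (nat_lit 369)) (XT.lf (nat_lit 0) (nat_lit 1683582540) (nat_lit 228) (nat_lit 1736553623) (nat_lit 304) (nat_lit 6613819517) (nat_lit 137) (nat_lit 5) (nat_lit 140) (nat_lit 5) (nat_lit 141) (nat_lit 4) (nat_lit 457) (nat_lit 375) (nat_lit 368))) (XT.nd (nat_lit 78) (nat_lit 76) (nat_lit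 0) (XT.lf (nat_lit 0) (nat_lit 241589801) (nat_lit 228) (nat_lit 7842328108) (nat_lit 228) (nat_lit 2089246804) (nat_lit 134) (nat_lit 4) (nat_lit 137) (nat_lit 5) (nat_lit 137) (nat_lit 4) (nat_lit 458) (nat_lit 375) (nat_lit 367)) (XT.lf (nat_lit 0) (nat_lit 2523943994) (nat_lit 304) (nat_lit 1257601933) (nat_lit 76) (nat_lit 6534177849) (nat_lit 133) (nat_lit 5) (nat_lit 137) (nat_lit 5) (nat_lit 134) (nat_lit 4) (nat_lit 459) (nat_lit 375) (nat_lit 366)))) (XT.nd (nat_lit 156) (nat_lit 532) (nat_lit 0) (XT.nd (nat_lit 78) (nat_lit 304) (nat_lit 0) (XT.lf (nat_lit 0) (nat_lit 7214825249) (nat_lit 304) (nat_lit 2820274193) (nat_lit 0) (nat_lit 427407556) (nat_lit 130) (nat_lit 5) (nat_lit 134) (nat_lit 4) (nat_lit 130) (nat_lit 4) (nat_lit 460) (nat_lit 375) (nat_lit 365)) (XT.lf (nat_lit 0) (nat_lit 1418538211) (nat_lit 304) (nat_lit 4482610253) (nat_lit 76) (nat_lit 4711725546) (nat_lit 126) (nat_lit 5) (nat_lit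 130) (nat_lit 5) (nat_lit 127) (nat_lit 4) (nat_lit 461) (nat_lit 375) (nat_lit 364))) (XT.nd (nat_lit 78) (nat_lit 304) (nat_lit 0) (XT.lf (nat_lit 0) (nat_lit 4536703158) (nat_lit 228) (nat_lit 1599764147) (nat_lit 304) (nat_lit 4631016131) (nat_lit 123) (nat_lit 5) (nat_lit 126) (nat_lit 5) (nat_lit 127) (nat_lit 4) (nat_lit 462) (nat_lit 375) (nat_lit 363)) (XT.lf (nat_lit 0) (nat_lit 73599863) (nat_lit 304) (nat_lit 8066275083) (nat_lit 76) (nat_lit 2786669480) (nat_lit 119) (nat_lit 5) (nat_lit 123) (nat_lit 5) (nat_lit 120) (nat_lit 4) (nat_lit 463) (nat_lit 375) (nat_lit 362)))))) (XT.nd (nat_lit 546) (nat_lit 1216) (nat_lit 0) (XT.nd (nat_lit 234) (nat_lit 760) (nat_lit 0) (XT.nd (nat_lit 78) (nat_lit 304) (nat_lit 0) (XT.lf (nat_lit 0) (nat_lit 1061094303) (nat_lit 152) (nat_lit 3760335150) (nat_lit 228) (nat_lit 6267723107) (nat_lit 117) (nat_lit 5) (nat_lit 119) (nat_lit 5) (nat_lit 120) (nat_lit 4)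 (nat_lit 464) (nat_lit 375) (nat_lit 361)) (XT.nd (nat_lit 78) (nat_lit 304) (nat_lit 0) (XT.lf (nat_lit 0) (nat_lit 9707331558) (nat_lit 228) (nat_lit 795759296) (nat_lit 0) (nat_lit 753684281) (nat_lit 117) (nat_lit 5) (nat_lit 120) (nat_lit 4) (nat_lit 117) (nat_lit 4) (nat_lit 465) (nat_lit 375) (nat_lit 360)) (XT.lf (nat_lit 0) (nat_lit 3275729371) (nat_lit 304) (nat_lit 2771302085) (nat_lit 76) (nat_lit 5380547030) (nat_lit 113) (nat_lit 5) (nat_lit 117) (nat_lit 5) (nat_lit 114) (nat_lit 4) (nat_lit 466) (nat_lit 375) (nat_lit 359)))) (XT.nd (nat_lit 156) (nat_lit 304) (nat_lit 0) (XT.nd (nat_lit 78) (nat_lit 304) (nat_lit 0) (XT.lf (nat_lit 0) (nat_lit 6764742605) (nat_lit 152) (nat_lit 1432078863) (nat_lit 228) (nat_lit 3406759927) (nat_lit 111) (nat_lit 5) (nat_lit 113) (nat_lit 5) (nat_lit 114) (nat_lit 4) (nat_lit 467) (nat_lit 375) (nat_lit 358)) (XT.lf (nat_lit 0) (nat_lit 1467600951) (nat_lit 304)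 (nat_lit 7035683247) (nat_lit 76) (nat_lit 3280683415) (nat_lit 107) (nat_lit 5) (nat_lit 111) (nat_lit 5) (nat_lit 108) (nat_lit 4) (nat_lit 468) (nat_lit 375) (nat_lit 357))) (XT.nd (nat_lit 78) (nat_lit 152) (nat_lit 0) (XT.lf (nat_lit 0) (nat_lit 2598684683) (nat_lit 152) (nat_lit 3819474807) (nat_lit 228) (nat_lit 5550645299) (nat_lit 105) (nat_lit 5) (nat_lit 107) (nat_lit 5) (nat_lit 108) (nat_lit 4) (nat_lit 469) (nat_lit 375) (nat_lit 356)) (XT.lf (nat_lit 0) (nat_lit 347645222) (nat_lit 152) (nat_lit 11164753338) (nat_lit 152) (nat_lit 646937936) (nat_lit 103) (nat_lit 4) (nat_lit 105) (nat_lit 5) (nat_lit 105) (nat_lit 4) (nat_lit 470) (nat_lit 375) (nat_lit 355))))) (XT.nd (nat_lit 312) (nat_lit 608) (nat_lit 0) (XT.nd (nat_lit 156) (nat_lit 380) (nat_lit 0) (XT.nd (nat_lit 78) (nat_lit 152) (nat_lit 0) (XT.lf (nat_lit 0) (nat_lit 4361956044) (nat_lit 228) (nat_lit 2043071760) (nat_lit 76) (nat_lit 5947970119)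 (nat_lit 102) (nat_lit 5) (nat_lit 105) (nat_lit 5) (nat_lit 103) (nat_lit 4) (nat_lit 471) (nat_lit 375) (nat_lit 354)) (XT.lf (nat_lit 0) (nat_lit 8014949330) (nat_lit 152) (nat_lit 1483449801) (nat_lit 228) (nat_lit 3054173311) (nat_lit 100) (nat_lit 5) (nat_lit 102) (nat_lit 5) (nat_lit 103) (nat_lit 4) (nat_lit 472) (nat_lit 375) (nat_lit 353))) (XT.nd (nat_lit 78) (nat_lit 152) (nat_lit 0) (XT.lf (nat_lit 0) (nat_lit 2013993821) (nat_lit 228) (nat_lit 7198012858) (nat_lit 76) (nat_lit 3544860992) (nat_lit 97) (nat_lit 5) (nat_lit 100) (nat_lit 5) (nat_lit 98) (nat_lit 4) (nat_lit 473) (nat_lit 375) (nat_lit 352)) (XT.lf (nat_lit 0) (nat_lit 2943087372) (nat_lit 152) (nat_lit 4232851971) (nat_lit 228) (nat_lit 5790355280) (nat_lit 95) (nat_lit 5) (nat_lit 97) (nat_lit 5) (nat_lit 98) (nat_lit 4) (nat_lit 474) (nat_lit 375) (nat_lit 351)))) (XT.nd (nat_lit 156) (nat_lit 380) (nat_lit 0) (XT.nd (nat_lit 78) (nat_lit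 76) (nat_lit 0) (XT.lf (nat_lit 0) (nat_lit 195961360) (nat_lit 152) (nat_lit 12294936505) (nat_lit 152) (nat_lit 691165402) (nat_lit 93) (nat_lit 4) (nat_lit 95) (nat_lit 5) (nat_lit 95) (nat_lit 4) (nat_lit 475) (nat_lit 375) (nat_lit 350)) (XT.lf (nat_lit 0) (nat_lit 4530563508) (nat_lit 228) (nat_lit 2715724012) (nat_lit 76) (nat_lit 6154948528) (nat_lit 92) (nat_lit 5) (nat_lit 95) (nat_lit 5) (nat_lit 93) (nat_lit 4) (nat_lit 476) (nat_lit 375) (nat_lit 349))) (XT.nd (nat_lit 78) (nat_lit 228) (nat_lit 0) (XT.lf (nat_lit 0) (nat_lit 7858916838) (nat_lit 152) (nat_lit 2028611092) (nat_lit 228) (nat_lit 3739479748) (nat_lit 90) (nat_lit 5) (nat_lit 92) (nat_lit 5) (nat_lit 93) (nat_lit 4) (nat_lit 477) (nat_lit 375) (nat_lit 348)) (XT.lf (nat_lit 0) (nat_lit 1539564088) (nat_lit 228) (nat_lit 9014514036) (nat_lit 76) (nat_lit 3304309343) (nat_lit 87) (nat_lit 5) (nat_lit 90) (nat_lit 5) (nat_lit 88) (nat_lit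 4) (nat_lit 478) (nat_lit 375) (nat_lit 347))))))) (XT.nd (nat_lit 1170) (nat_lit 1216) (nat_lit 0) (XT.nd (nat_lit 546) (nat_lit 912) (nat_lit 0) (XT.nd (nat_lit 234) (nat_lit 380) (nat_lit 0) (XT.nd (nat_lit 78) (nat_lit 228) (nat_lit 0) (XT.lf (nat_lit 0) (nat_lit 1620532800) (nat_lit 152) (nat_lit 5293211840) (nat_lit 228) (nat_lit 7181498466) (nat_lit 85) (nat_lit 5) (nat_lit 87) (nat_lit 5) (nat_lit 88) (nat_lit 4) (nat_lit 479) (nat_lit 375) (nat_lit 346)) (XT.nd (nat_lit 78) (nat_lit 228) (nat_lit 0) (XT.lf (nat_lit 0) (nat_lit 12460043074) (nat_lit 228) (nat_lit 1730359596) (nat_lit 0) (nat_lit 148477830) (nat_lit 85) (nat_lit 5) (nat_lit 88) (nat_lit 4) (nat_lit 85) (nat_lit 4) (nat_lit 480) (nat_lit 375) (nat_lit 345)) (XT.lf (nat_lit 0) (nat_lit 3575739776) (nat_lit 228) (nat_lit 5304056200) (nat_lit 76) (nat_lit 5707117958) (nat_lit 82) (nat_lit 5) (nat_lit 85) (nat_lit 5) (nat_lit 83) (nat_lit 4) (nat_lit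 481) (nat_lit 375) (nat_lit 344)))) (XT.nd (nat_lit 156) (nat_lit 152) (nat_lit 0) (XT.nd (nat_lit 78) (nat_lit 152) (nat_lit 0) (XT.lf (nat_lit 0) (nat_lit 5766891344) (nat_lit 76) (nat_lit 3382677248) (nat_lit 152) (nat_lit 5692463015) (nat_lit 81) (nat_lit 5) (nat_lit 82) (nat_lit 5) (nat_lit 83) (nat_lit 4) (nat_lit 482) (nat_lit 375) (nat_lit 343)) (XT.lf (nat_lit 0) (nat_lit 2045750181) (nat_lit 152) (nat_lit 12861105891) (nat_lit 152) (nat_lit 197461967) (nat_lit 79) (nat_lit 4) (nat_lit 81) (nat_lit 5) (nat_lit 81) (nat_lit 4) (nat_lit 483) (nat_lit 375) (nat_lit 342))) (XT.nd (nat_lit 78) (nat_lit 76) (nat_lit 0) (XT.lf (nat_lit 0) (nat_lit 5402548064) (nat_lit 228) (nat_lit 1919697239) (nat_lit 76) (nat_lit 8049252430) (nat_lit 78) (nat_lit 5) (nat_lit 81) (nat_lit 5) (nat_lit 79) (nat_lit 4) (nat_lit 484) (nat_lit 375) (nat_lit 341)) (XT.lf (nat_lit 0) (nat_lit 9595555259) (nat_lit 76) (nat_lit 1586291652)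 (nat_lit 152) (nat_lit 4464331862) (nat_lit 77) (nat_lit 5) (nat_lit 78) (nat_lit 5) (nat_lit 79) (nat_lit 4) (nat_lit 485) (nat_lit 375) (nat_lit 340))))) (XT.nd (nat_lit 312) (nat_lit 380) (nat_lit 0) (XT.nd (nat_lit 156) (nat_lit 228) (nat_lit 0) (XT.nd (nat_lit 78) (nat_lit 76) (nat_lit 0) (XT.lf (nat_lit 0) (nat_lit 1219422364) (nat_lit 228) (nat_lit 10450791802) (nat_lit 76) (nat_lit 4257415053) (nat_lit 74) (nat_lit 5) (nat_lit 77) (nat_lit 5) (nat_lit 75) (nat_lit 4) (nat_lit 486) (nat_lit 375) (nat_lit 339)) (XT.lf (nat_lit 0) (nat_lit 1075491369) (nat_lit 76) (nat_lit 5919604137) (nat_lit 152) (nat_lit 9220769713) (nat_lit 73) (nat_lit 5) (nat_lit 74) (nat_lit 5) (nat_lit 75) (nat_lit 4) (nat_lit 487) (nat_lit 375) (nat_lit 338))) (XT.nd (nat_lit 78) (nat_lit 228) (nat_lit 0) (XT.lf (nat_lit 0) (nat_lit 12974265355) (nat_lit 152) (nat_lit 3492545020) (nat_lit 0) (nat_lit 45033198) (nat_lit 73) (nat_lit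 5) (nat_lit 75) (nat_lit 4) (nat_lit 73) (nat_lit 4) (nat_lit 488) (nat_lit 375) (nat_lit 337)) (XT.lf (nat_lit 0) (nat_lit 2337451171) (nat_lit 228) (nat_lit 8365709350) (nat_lit 76) (nat_lit 6110878656) (nat_lit 70) (nat_lit 5) (nat_lit 73) (nat_lit 5) (nat_lit 71) (nat_lit 4) (nat_lit 489) (nat_lit 375) (nat_lit 336)))) (XT.nd (nat_lit 156) (nat_lit 304) (nat_lit 0) (XT.nd (nat_lit 78) (nat_lit 0) (nat_lit 0) (XT.lf (nat_lit 0) (nat_lit 3589857050) (nat_lit 76) (nat_lit 4723841893) (nat_lit 152) (nat_lit 8810670755) (nat_lit 69) (nat_lit 5) (nat_lit 70) (nat_lit 5) (nat_lit 71) (nat_lit 4) (nat_lit 490) (nat_lit 375) (nat_lit 335)) (XT.lf (nat_lit 0) (nat_lit 14494488220) (nat_lit 152) (nat_lit 1520332140) (nat_lit 0) (nat_lit 1428433988) (nat_lit 69) (nat_lit 5) (nat_lit 71) (nat_lit 4) (nat_lit 69) (nat_lit 4) (nat_lit 491) (nat_lit 375) (nat_lit 334))) (XT.nd (nat_lit 78) (nat_lit 76) (nat_lit 0) (XT.lf (nat_lit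 0) (nat_lit 3109200130) (nat_lit 228) (nat_lit 6915641096) (nat_lit 76) (nat_lit 7743560786) (nat_lit 66) (nat_lit 5) (nat_lit 69) (nat_lit 5) (nat_lit 67) (nat_lit 4) (nat_lit 492) (nat_lit 375) (nat_lit 333)) (XT.lf (nat_lit 0) (nat_lit 5466868584) (nat_lit 76) (nat_lit 3819216189) (nat_lit 152) (nat_lit 8816451744) (nat_lit 65) (nat_lit 5) (nat_lit 66) (nat_lit 5) (nat_lit 67) (nat_lit 4) (nat_lit 493) (nat_lit 375) (nat_lit 332)))))) (XT.nd (nat_lit 546) (nat_lit 608) (nat_lit 0) (XT.nd (nat_lit 234) (nat_lit 304) (nat_lit 0) (XT.nd (nat_lit 78) (nat_lit 304) (nat_lit 0) (XT.lf (nat_lit 0) (nat_lit 15672103046) (nat_lit 152) (nat_lit 243416051) (nat_lit 0) (nat_lit 2530462780) (nat_lit 65) (nat_lit 5) (nat_lit 67) (nat_lit 4) (nat_lit 65) (nat_lit 4) (nat_lit 494) (nat_lit 375) (nat_lit 331)) (XT.nd (nat_lit 78) (nat_lit 76) (nat_lit 0) (XT.lf (nat_lit 0) (nat_lit 3473087171) (nat_lit 228) (nat_lit 6234553508)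 (nat_lit 76) (nat_lit 9088383441) (nat_lit 62) (nat_lit 5) (nat_lit 65) (nat_lit 5) (nat_lit 63) (nat_lit 4) (nat_lit 495) (nat_lit 375) (nat_lit 330)) (XT.lf (nat_lit 0) (nat_lit 6567530801) (nat_lit 76) (nat_lit 3280527455) (nat_lit 152) (nat_lit 9307796496) (nat_lit 61) (nat_lit 5) (nat_lit 62) (nat_lit 5) (nat_lit 63) (nat_lit 4) (nat_lit 496) (nat_lit 375) (nat_lit 329)))) (XT.nd (nat_lit 156) (nat_lit 76) (nat_lit 0) (XT.nd (nat_lit 78) (nat_lit 76) (nat_lit 0) (XT.lf (nat_lit 0) (nat_lit 195684481) (nat_lit 152) (nat_lit 16247050809) (nat_lit 152) (nat_lit 3082892758) (nat_lit 59) (nat_lit 4) (nat_lit 61) (nat_lit 5) (nat_lit 61) (nat_lit 4) (nat_lit 497) (nat_lit 375) (nat_lit 328)) (XT.lf (nat_lit 0) (nat_lit 3355629173) (nat_lit 228) (nat_lit 6479533431) (nat_lit 76) (nat_lit 10067618549) (nat_lit 58) (nat_lit 5) (nat_lit 61) (nat_lit 5) (nat_lit 59) (nat_lit 4) (nat_lit 498) (nat_lit 375) (nat_lit 327)))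 (XT.nd (nat_lit 78) (nat_lit 0) (nat_lit 0) (XT.lf (nat_lit 0) (nat_lit 6728644276) (nat_lit 76) (nat_lit 3194360497) (nat_lit 152) (nat_lit 10367399864) (nat_lit 57) (nat_lit 5) (nat_lit 58) (nat_lit 5) (nat_lit 59) (nat_lit 4) (nat_lit 499) (nat_lit 375) (nat_lit 326)) (XT.lf (nat_lit 0) (nat_lit 16721648278) (nat_lit 152) (nat_lit 386159720) (nat_lit 0) (nat_lit 3580822716) (nat_lit 57) (nat_lit 5) (nat_lit 59) (nat_lit 4) (nat_lit 57) (nat_lit 4) (nat_lit 500) (nat_lit 375) (nat_lit 325))))) (XT.nd (nat_lit 312) (nat_lit 228) (nat_lit 0) (XT.nd (nat_lit 156) (nat_lit 152) (nat_lit 0) (XT.nd (nat_lit 78) (nat_lit 76) (nat_lit 0) (XT.lf (nat_lit 0) (nat_lit 2669575398) (nat_lit 152) (nat_lit 7834694218) (nat_lit 76) (nat_lit 10590917255) (nat_lit 55) (nat_lit 5) (nat_lit 57) (nat_lit 5) (nat_lit 56) (nat_lit 4) (nat_lit 501) (nat_lit 375) (nat_lit 324)) (XT.lf (nat_lit 0) (nat_lit 5758710389) (nat_lit 76) (nat_lit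 3661218186) (nat_lit 152) (nat_lit 12093001073) (nat_lit 54) (nat_lit 5) (nat_lit 55) (nat_lit 5) (nat_lit 56) (nat_lit 4) (nat_lit 502) (nat_lit 375) (nat_lit 323))) (XT.nd (nat_lit 78) (nat_lit 152) (nat_lit 0) (XT.lf (nat_lit 0) (nat_lit 16420513246) (nat_lit 152) (nat_lit 2178765744) (nat_lit 0) (nat_lit 3342495239) (nat_lit 54) (nat_lit 5) (nat_lit 56) (nat_lit 4) (nat_lit 54) (nat_lit 4) (nat_lit 503) (nat_lit 375) (nat_lit 322)) (XT.lf (nat_lit 0) (nat_lit 1311728926) (nat_lit 152) (nat_lit 10515702136) (nat_lit 76) (nat_lit 10553041071) (nat_lit 52) (nat_lit 5) (nat_lit 54) (nat_lit 5) (nat_lit 53) (nat_lit 4) (nat_lit 504) (nat_lit 375) (nat_lit 321)))) (XT.nd (nat_lit 156) (nat_lit 152) (nat_lit 0) (XT.nd (nat_lit 78) (nat_lit 0) (nat_lit 0) (XT.lf (nat_lit 0) (nat_lit 3433184889) (nat_lit 76) (nat_lit 4797979441) (nat_lit 152) (nat_lit 14599754884) (nat_lit 51) (nat_lit 5) (nat_lit 52) (nat_lit 5) (nat_lit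 53) (nat_lit 4) (nat_lit 505) (nat_lit 375) (nat_lit 320)) (XT.lf (nat_lit 0) (nat_lit 15426218830) (nat_lit 152) (nat_lit 5421764894) (nat_lit 0) (nat_lit 2444855921) (nat_lit 51) (nat_lit 5) (nat_lit 53) (nat_lit 4) (nat_lit 51) (nat_lit 4) (nat_lit 506) (nat_lit 375) (nat_lit 319))) (XT.nd (nat_lit 78) (nat_lit 76) (nat_lit 0) (XT.lf (nat_lit 0) (nat_lit 8983173774) (nat_lit 76) (nat_lit 13926952626) (nat_lit 76) (nat_lit 856302232) (nat_lit 50) (nat_lit 4) (nat_lit 51) (nat_lit 5) (nat_lit 51) (nat_lit 4) (nat_lit 507) (nat_lit 375) (nat_lit 318)) (XT.lf (nat_lit 0) (nat_lit 6234622500) (nat_lit 152) (nat_lit 501053596) (nat_lit 76) (nat_lit 17516880164) (nat_lit 49) (nat_lit 5) (nat_lit 51) (nat_lit 5) (nat_lit 50) (nat_lit 4) (nat_lit 508) (nat_lit 375) (nat_lit 317))))))))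
noncomputable def xc45 : XT := (XT.nd (nat_lit 2340) (nat_lit 608) (nat_lit 0) (XT.nd (nat_lit 1170) (nat_lit 760) (nat_lit 0) (XT.nd (nat_lit 546) (nat_lit 456) (nat_lit 0) (XT.nd (nat_lit 234) (nat_lit 304) (nat_lit 0) (XT.nd (nat_lit 78) (nat_lit 152) (nat_lit 0) (XT.lf (nat_lit 0) (nat_lit 13607502975) (nat_lit 152) (nat_lit 10391239713) (nat_lit 0) (nat_lit 751678421) (nat_lit 48) (nat_lit 5) (nat_lit 50) (nat_lit 4) (nat_lit 48) (nat_lit 4) (nat_lit 509) (nat_lit 375) (nat_lit 316)) (XT.nd (nat_lit 78) (nat_lit 76) (nat_lit 0) (XT.lf (nat_lit 0) (nat_lit 4315078156) (nat_lit 76) (nat_lit 16940834830) (nat_lit 76) (nat_lit 4005679502) (nat_lit 47) (nat_lit 4) (nat_lit 48) (nat_lit 5) (nat_lit 48) (nat_lit 4) (nat_lit 510) (nat_lit 375) (nat_lit 315)) (XT.lf (nat_lit 0) (nat_lit 3327470093) (nat_lit 152) (nat_lit 6257411206) (nat_lit 76) (nat_lit 16200841315) (nat_lit 46) (nat_lit 5) (nat_lit 48) (nat_lit 5)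 (nat_lit 47) (nat_lit 4) (nat_lit 511) (nat_lit 375) (nat_lit 314)))) (XT.nd (nat_lit 156) (nat_lit 228) (nat_lit 0) (XT.nd (nat_lit 78) (nat_lit 0) (nat_lit 0) (XT.lf (nat_lit 0) (nat_lit 8894762696) (nat_lit 76) (nat_lit 1933668365) (nat_lit 152) (nat_lit 15495106768) (nat_lit 45) (nat_lit 5) (nat_lit 46) (nat_lit 5) (nat_lit 47) (nat_lit 4) (nat_lit 512) (nat_lit 375) (nat_lit 313)) (XT.lf (nat_lit 0) (nat_lit 18618312494) (nat_lit 152) (nat_lit 2415209898) (nat_lit 0) (nat_lit 5842049139) (nat_lit 45) (nat_lit 5) (nat_lit 47) (nat_lit 4) (nat_lit 45) (nat_lit 4) (nat_lit 513) (nat_lit 375) (nat_lit 312))) (XT.nd (nat_lit 78) (nat_lit 152) (nat_lit 0) (XT.lf (nat_lit 0) (nat_lit 13178428051) (nat_lit 76) (nat_lit 13553860885) (nat_lit 76) (nat_lit 709166108) (nat_lit 44) (nat_lit 4) (nat_lit 45) (nat_lit 5) (nat_lit 45) (nat_lit 4) (nat_lit 514) (nat_lit 375) (nat_lit 311)) (XT.lf (nat_lit 0) (nat_lit 1110932963)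 (nat_lit 76) (nat_lit 5796488718) (nat_lit 152) (nat_lit 21115458910) (nat_lit 42) (nat_lit 5) (nat_lit 43) (nat_lit 5) (nat_lit 44) (nat_lit 4) (nat_lit 515) (nat_lit 375) (nat_lit 310))))) (XT.nd (nat_lit 312) (nat_lit 228) (nat_lit 0) (XT.nd (nat_lit 156) (nat_lit 152) (nat_lit 0) (XT.nd (nat_lit 78) (nat_lit 76) (nat_lit 0) (XT.lf (nat_lit 0) (nat_lit 14849484681) (nat_lit 152) (nat_lit 11516937734) (nat_lit 0) (nat_lit 2251779604) (nat_lit 42) (nat_lit 5) (nat_lit 44) (nat_lit 4) (nat_lit 42) (nat_lit 4) (nat_lit 516) (nat_lit 375) (nat_lit 309)) (XT.lf (nat_lit 0) (nat_lit 4260359906) (nat_lit 76) (nat_lit 18814095004) (nat_lit 76) (nat_lit 6155589493) (nat_lit 41) (nat_lit 4) (nat_lit 42) (nat_lit 5) (nat_lit 42) (nat_lit 4) (nat_lit 517) (nat_lit 375) (nat_lit 308))) (XT.nd (nat_lit 78) (nat_lit 76) (nat_lit 0) (XT.lf (nat_lit 0) (nat_lit 1716819658) (nat_lit 152) (nat_lit 9232391150) (nat_lit 76) (nat_lit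 18908632115) (nat_lit 40) (nat_lit 5) (nat_lit 42) (nat_lit 5) (nat_lit 41) (nat_lit 4) (nat_lit 518) (nat_lit 375) (nat_lit 307)) (XT.lf (nat_lit 0) (nat_lit 6949408011) (nat_lit 76) (nat_lit 2766972928) (nat_lit 152) (nat_lit 20785825650) (nat_lit 39) (nat_lit 5) (nat_lit 40) (nat_lit 5) (nat_lit 41) (nat_lit 4) (nat_lit 519) (nat_lit 375) (nat_lit 306)))) (XT.nd (nat_lit 156) (nat_lit 152) (nat_lit 0) (XT.nd (nat_lit 78) (nat_lit 76) (nat_lit 0) (XT.lf (nat_lit 0) (nat_lit 18052460856) (nat_lit 152) (nat_lit 7514866915) (nat_lit 0) (nat_lit 5595678036) (nat_lit 39) (nat_lit 5) (nat_lit 41) (nat_lit 4) (nat_lit 39) (nat_lit 4) (nat_lit 520) (nat_lit 375) (nat_lit 305)) (XT.lf (nat_lit 0) (nat_lit 9054125074) (nat_lit 76) (nat_lit 17648408502) (nat_lit 76) (nat_lit 5139178695) (nat_lit 38) (nat_lit 4) (nat_lit 39) (nat_lit 5) (nat_lit 39) (nat_lit 4) (nat_lit 521) (nat_lit 375) (nat_lit 304))) (XT.nd (nat_lit 78)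 (nat_lit 76) (nat_lit 0) (XT.lf (nat_lit 0) (nat_lit 3037543618) (nat_lit 152) (nat_lit 6393935666) (nat_lit 76) (nat_lit 23107631053) (nat_lit 37) (nat_lit 5) (nat_lit 39) (nat_lit 5) (nat_lit 38) (nat_lit 4) (nat_lit 522) (nat_lit 375) (nat_lit 303)) (XT.lf (nat_lit 0) (nat_lit 10550014438) (nat_lit 76) (nat_lit 858655495) (nat_lit 152) (nat_lit 21845662613) (nat_lit 36) (nat_lit 5) (nat_lit 37) (nat_lit 5) (nat_lit 38) (nat_lit 4) (nat_lit 523) (nat_lit 375) (nat_lit 302)))))) (XT.nd (nat_lit 546) (nat_lit 380) (nat_lit 0) (XT.nd (nat_lit 234) (nat_lit 228) (nat_lit 0) (XT.nd (nat_lit 78) (nat_lit 152) (nat_lit 0) (XT.lf (nat_lit 0) (nat_lit 20123799624) (nat_lit 152) (nat_lit 6029541116) (nat_lit 0) (nat_lit 7834885109) (nat_lit 36) (nat_lit 5) (nat_lit 38) (nat_lit 4) (nat_lit 36) (nat_lit 4) (nat_lit 524) (nat_lit 375) (nat_lit 301)) (XT.nd (nat_lit 78) (nat_lit 76) (nat_lit 0) (XT.lf (nat_lit 0) (nat_lit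 11263017601) (nat_lit 76) (nat_lit 17906598801) (nat_lit 76) (nat_lit 5572443054) (nat_lit 35) (nat_lit 4) (nat_lit 36) (nat_lit 5) (nat_lit 36) (nat_lit 4) (nat_lit 525) (nat_lit 375) (nat_lit 300)) (XT.lf (nat_lit 0) (nat_lit 2924357420) (nat_lit 152) (nat_lit 6441633708) (nat_lit 76) (nat_lit 26151242020) (nat_lit 34) (nat_lit 5) (nat_lit 36) (nat_lit 5) (nat_lit 35) (nat_lit 4) (nat_lit 526) (nat_lit 375) (nat_lit 299)))) (XT.nd (nat_lit 156) (nat_lit 152) (nat_lit 0) (XT.nd (nat_lit 78) (nat_lit 0) (nat_lit 0) (XT.lf (nat_lit 0) (nat_lit 11178825215) (nat_lit 76) (nat_lit 446568227) (nat_lit 152) (nat_lit 24686773924) (nat_lit 33) (nat_lit 5) (nat_lit 34) (nat_lit 5) (nat_lit 35) (nat_lit 4) (nat_lit 527) (nat_lit 375) (nat_lit 298)) (XT.lf (nat_lit 0) (nat_lit 20691094497) (nat_lit 152) (nat_lit 7844803116) (nat_lit 0) (nat_lit 8591943421) (nat_lit 33) (nat_lit 5) (nat_lit 35) (nat_lit 4) (nat_lit 33) (nat_lit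 4) (nat_lit 528) (nat_lit 375) (nat_lit 297))) (XT.nd (nat_lit 78) (nat_lit 76) (nat_lit 0) (XT.lf (nat_lit 0) (nat_lit 10065959222) (nat_lit 76) (nat_lit 20019254633) (nat_lit 76) (nat_lit 7881078072) (nat_lit 32) (nat_lit 4) (nat_lit 33) (nat_lit 5) (nat_lit 33) (nat_lit 4) (nat_lit 529) (nat_lit 375) (nat_lit 296)) (XT.lf (nat_lit 0) (nat_lit 948377734) (nat_lit 152) (nat_lit 10250858579) (nat_lit 76) (nat_lit 27629333199) (nat_lit 31) (nat_lit 5) (nat_lit 33) (nat_lit 5) (nat_lit 32) (nat_lit 4) (nat_lit 530) (nat_lit 375) (nat_lit 295))))) (XT.nd (nat_lit 312) (nat_lit 228) (nat_lit 0) (XT.nd (nat_lit 156) (nat_lit 76) (nat_lit 0) (XT.nd (nat_lit 78) (nat_lit 0) (nat_lit 0) (XT.lf (nat_lit 0) (nat_lit 7918710522) (nat_lit 76) (nat_lit 1998314681) (nat_lit 152) (nat_lit 29796368406) (nat_lit 30) (nat_lit 5) (nat_lit 31) (nat_lit 5) (nat_lit 32) (nat_lit 4) (nat_lit 531) (nat_lit 375) (nat_lit 294)) (XT.lf (nat_lit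 0) (nat_lit 19287792574) (nat_lit 152) (nat_lit 13936996034) (nat_lit 0) (nat_lit 7395982392) (nat_lit 30) (nat_lit 5) (nat_lit 32) (nat_lit 4) (nat_lit 30) (nat_lit 4) (nat_lit 532) (nat_lit 375) (nat_lit 293))) (XT.nd (nat_lit 78) (nat_lit 0) (nat_lit 0) (XT.lf (nat_lit 0) (nat_lit 4439852330) (nat_lit 76) (nat_lit 24520190433) (nat_lit 76) (nat_lit 12594716526) (nat_lit 29) (nat_lit 4) (nat_lit 30) (nat_lit 5) (nat_lit 30) (nat_lit 4) (nat_lit 533) (nat_lit 375) (nat_lit 292)) (XT.lf (nat_lit 0) (nat_lit 23571097244) (nat_lit 76) (nat_lit 15450427773) (nat_lit 76) (nat_lit 3492270637) (nat_lit 29) (nat_lit 4) (nat_lit 30) (nat_lit 5) (nat_lit 30) (nat_lit 4) (nat_lit 534) (nat_lit 375) (nat_lit 291)))) (XT.nd (nat_lit 156) (nat_lit 76) (nat_lit 0) (XT.nd (nat_lit 78) (nat_lit 76) (nat_lit 0) (XT.lf (nat_lit 0) (nat_lit 5727586303) (nat_lit 152) (nat_lit 362888229) (nat_lit 76) (nat_lit 37410658083) (nat_lit 28)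 (nat_lit 5) (nat_lit 30) (nat_lit 5) (nat_lit 29) (nat_lit 4) (nat_lit 535) (nat_lit 375) (nat_lit 290)) (XT.lf (nat_lit 0) (nat_lit 15333037184) (nat_lit 152) (nat_lit 25516180818) (nat_lit 0) (nat_lit 3662459025) (nat_lit 27) (nat_lit 5) (nat_lit 29) (nat_lit 4) (nat_lit 27) (nat_lit 4) (nat_lit 536) (nat_lit 375) (nat_lit 289))) (XT.nd (nat_lit 78) (nat_lit 76) (nat_lit 0) (XT.lf (nat_lit 0) (nat_lit 25251020717) (nat_lit 152) (nat_lit 6749382368) (nat_lit 0) (nat_lit 13551403933) (nat_lit 27) (nat_lit 5) (nat_lit 29) (nat_lit 4) (nat_lit 27) (nat_lit 4) (nat_lit 537) (nat_lit 375) (nat_lit 288)) (XT.lf (nat_lit 0) (nat_lit 12752878953) (nat_lit 76) (nat_lit 22797774303) (nat_lit 76) (nat_lit 11069964680) (nat_lit 26) (nat_lit 4) (nat_lit 27) (nat_lit 5) (nat_lit 27) (nat_lit 4) (nat_lit 538) (nat_lit 375) (nat_lit 287))))))) (XT.nd (nat_lit 55380) (nat_lit 0) (nat_lit 7676) (XT.nd (nat_lit 546) (nat_lit 228)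 (nat_lit 0) (XT.nd (nat_lit 234) (nat_lit 228) (nat_lit 0) (XT.nd (nat_lit 78) (nat_lit 152) (nat_lit 0) (XT.lf (nat_lit 0) (nat_lit 32902917128) (nat_lit 76) (nat_lit 13286427782) (nat_lit 76) (nat_lit 1531246470) (nat_lit 26) (nat_lit 4) (nat_lit 27) (nat_lit 5) (nat_lit 27) (nat_lit 4) (nat_lit 539) (nat_lit 375) (nat_lit 286)) (XT.nd (nat_lit 78) (nat_lit 0) (nat_lit 0) (XT.lf (nat_lit 0) (nat_lit 4742525824) (nat_lit 76) (nat_lit 3397514368) (nat_lit 152) (nat_lit 40710885049) (nat_lit 24) (nat_lit 5) (nat_lit 25) (nat_lit 5) (nat_lit 26) (nat_lit 4) (nat_lit 540) (nat_lit 375) (nat_lit 285)) (XT.lf (nat_lit 0) (nat_lit 18249739068) (nat_lit 152) (nat_lit 24973511736) (nat_lit 0) (nat_lit 6786092261) (nat_lit 24) (nat_lit 5) (nat_lit 26) (nat_lit 4) (nat_lit 24) (nat_lit 4) (nat_lit 541) (nat_lit 375) (nat_lit 284)))) (XT.nd (nat_lit 156) (nat_lit 152) (nat_lit 0) (XT.nd (nat_lit 78) (nat_lit 76) (nat_lit 0)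 (XT.lf (nat_lit 0) (nat_lit 28660142584) (nat_lit 152) (nat_lit 5370272314) (nat_lit 0) (nat_lit 17172176386) (nat_lit 24) (nat_lit 5) (nat_lit 26) (nat_lit 4) (nat_lit 24) (nat_lit 4) (nat_lit 542) (nat_lit 375) (nat_lit 283)) (XT.lf (nat_lit 0) (nat_lit 15044682830) (nat_lit 76) (nat_lit 24447624088) (nat_lit 76) (nat_lit 12936046830) (nat_lit 23) (nat_lit 4) (nat_lit 24) (nat_lit 5) (nat_lit 24) (nat_lit 4) (nat_lit 543) (nat_lit 375) (nat_lit 282))) (XT.nd (nat_lit 78) (nat_lit 152) (nat_lit 0) (XT.lf (nat_lit 0) (nat_lit 36112900393) (nat_lit 76) (nat_lit 14555953516) (nat_lit 76) (nat_lit 3021452899) (nat_lit 23) (nat_lit 4) (nat_lit 24) (nat_lit 5) (nat_lit 24) (nat_lit 4) (nat_lit 544) (nat_lit 375) (nat_lit 281)) (XT.lf (nat_lit 0) (nat_lit 2739448816) (nat_lit 76) (nat_lit 4303016760) (nat_lit 152) (nat_lit 47945813490) (nat_lit 21) (nat_lit 5) (nat_lit 22) (nat_lit 5) (nat_lit 23) (nat_lit 4) (nat_lit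 545) (nat_lit 375) (nat_lit 280))))) (XT.nd (nat_lit 312) (nat_lit 152) (nat_lit 0) (XT.nd (nat_lit 156) (nat_lit 76) (nat_lit 0) (XT.nd (nat_lit 78) (nat_lit 0) (nat_lit 0) (XT.lf (nat_lit 0) (nat_lit 17552872370) (nat_lit 152) (nat_lit 32453519427) (nat_lit 0) (nat_lit 6311742497) (nat_lit 21) (nat_lit 5) (nat_lit 23) (nat_lit 4) (nat_lit 21) (nat_lit 4) (nat_lit 546) (nat_lit 375) (nat_lit 279)) (XT.lf (nat_lit 0) (nat_lit 28388082134) (nat_lit 152) (nat_lit 12172933392) (nat_lit 0) (nat_lit 17126585154) (nat_lit 21) (nat_lit 5) (nat_lit 23) (nat_lit 4) (nat_lit 21) (nat_lit 4) (nat_lit 547) (nat_lit 375) (nat_lit 278))) (XT.nd (nat_lit 78) (nat_lit 0) (nat_lit 0) (XT.lf (nat_lit 0) (nat_lit 8824203985) (nat_lit 76) (nat_lit 30776818961) (nat_lit 76) (nat_lit 19495548090) (nat_lit 20) (nat_lit 4) (nat_lit 21) (nat_lit 5) (nat_lit 21) (nat_lit 4) (nat_lit 548) (nat_lit 375) (nat_lit 277)) (XT.lf (nat_lit 0) (nat_lit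 30637358467) (nat_lit 76) (nat_lit 20604094027) (nat_lit 76) (nat_lit 9303625204) (nat_lit 20) (nat_lit 4) (nat_lit 21) (nat_lit 5) (nat_lit 21) (nat_lit 4) (nat_lit 549) (nat_lit 375) (nat_lit 276)))) (XT.nd (nat_lit 156) (nat_lit 0) (nat_lit 0) (XT.nd (nat_lit 78) (nat_lit 76) (nat_lit 0) (XT.lf (nat_lit 0) (nat_lit 1139553564) (nat_lit 152) (nat_lit 9005813875) (nat_lit 76) (nat_lit 51892264026) (nat_lit 19) (nat_lit 5) (nat_lit 21) (nat_lit 5) (nat_lit 20) (nat_lit 4) (nat_lit 550) (nat_lit 375) (nat_lit 275)) (XT.lf (nat_lit 0) (nat_lit 11807873904) (nat_lit 152) (nat_lit 50960479295) (nat_lit 0) (nat_lit 800880192) (nat_lit 18) (nat_lit 5) (nat_lit 20) (nat_lit 4) (nat_lit 18) (nat_lit 4) (nat_lit 551) (nat_lit 375) (nat_lit 274))) (XT.nd (nat_lit 78) (nat_lit 0) (nat_lit 0) (XT.lf (nat_lit 0) (nat_lit 22958262682) (nat_lit 152) (nat_lit 30249448477) (nat_lit 0) (nat_lit 11934211839) (nat_lit 18) (nat_lit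 5) (nat_lit 20) (nat_lit 4) (nat_lit 18) (nat_lit 4) (nat_lit 552) (nat_lit 375) (nat_lit 273)) (XT.lf (nat_lit 0) (nat_lit 34413773004) (nat_lit 152) (nat_lit 8975740337) (nat_lit 0) (nat_lit 23373161839) (nat_lit 18) (nat_lit 5) (nat_lit 20) (nat_lit 4) (nat_lit 18) (nat_lit 4) (nat_lit 553) (nat_lit 375) (nat_lit 272)))))) (XT.nd (nat_lit 624) (nat_lit 1976) (nat_lit 0) (XT.nd (nat_lit 312) (nat_lit 1292) (nat_lit 0) (XT.nd (nat_lit 156) (nat_lit 380) (nat_lit 0) (XT.nd (nat_lit 78) (nat_lit 304) (nat_lit 0) (XT.lf (nat_lit 0) (nat_lit 795670155) (nat_lit 380) (nat_lit 2880172385) (nat_lit 0) (nat_lit 795670155) (nat_lit 171) (nat_lit 5) (nat_lit 176) (nat_lit 4) (nat_lit 171) (nat_lit 4) (nat_lit 448) (nat_lit 376) (nat_lit 376)) (XT.lf (nat_lit 0) (nat_lit 2011632197) (nat_lit 304) (nat_lit 3981240076) (nat_lit 304) (nat_lit 3058814489) (nat_lit 167) (nat_lit 4) (nat_lit 171) (nat_lit 5) (nat_lit 171) (nat_lit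 4) (nat_lit 449) (nat_lit 376) (nat_lit 375))) (XT.nd (nat_lit 78) (nat_lit 0) (nat_lit 0) (XT.lf (nat_lit 0) (nat_lit 817375182) (nat_lit 304) (nat_lit 480831513) (nat_lit 380) (nat_lit 7866159131) (nat_lit 162) (nat_lit 5) (nat_lit 166) (nat_lit 5) (nat_lit 167) (nat_lit 4) (nat_lit 450) (nat_lit 376) (nat_lit 374)) (XT.lf (nat_lit 0) (nat_lit 5722679935) (nat_lit 380) (nat_lit 443403045) (nat_lit 0) (nat_lit 3113496444) (nat_lit 162) (nat_lit 5) (nat_lit 167) (nat_lit 4) (nat_lit 162) (nat_lit 4) (nat_lit 451) (nat_lit 376) (nat_lit 373)))) (XT.nd (nat_lit 156) (nat_lit 608) (nat_lit 0) (XT.nd (nat_lit 78) (nat_lit 304) (nat_lit 0) (XT.lf (nat_lit 0) (nat_lit 842281205) (nat_lit 380) (nat_lit 1718915831) (nat_lit 76) (nat_lit 6837471534) (nat_lit 157) (nat_lit 5) (nat_lit 162) (nat_lit 5) (nat_lit 158) (nat_lit 4) (nat_lit 452) (nat_lit 376) (nat_lit 372)) (XT.lf (nat_lit 0) (nat_lit 5280104718) (nat_lit 380)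 (nat_lit 3062125445) (nat_lit 0) (nat_lit 1178707541) (nat_lit 153) (nat_lit 5) (nat_lit 158) (nat_lit 4) (nat_lit 153) (nat_lit 4) (nat_lit 453) (nat_lit 376) (nat_lit 371))) (XT.nd (nat_lit 78) (nat_lit 228) (nat_lit 0) (XT.lf (nat_lit 0) (nat_lit 193714325) (nat_lit 380) (nat_lit 4458173510) (nat_lit 76) (nat_lit 4995130926) (nat_lit 148) (nat_lit 5) (nat_lit 153) (nat_lit 5) (nat_lit 149) (nat_lit 4) (nat_lit 454) (nat_lit 376) (nat_lit 370)) (XT.lf (nat_lit 0) (nat_lit 3850849719) (nat_lit 228) (nat_lit 794684560) (nat_lit 304) (nat_lit 5131011955) (nat_lit 145) (nat_lit 5) (nat_lit 148) (nat_lit 5) (nat_lit 149) (nat_lit 4) (nat_lit 455) (nat_lit 376) (nat_lit 369))))) (XT.nd (nat_lit 312) (nat_lit 1064) (nat_lit 0) (XT.nd (nat_lit 156) (nat_lit 304) (nat_lit 0) (XT.nd (nat_lit 78) (nat_lit 304) (nat_lit 0) (XT.lf (nat_lit 0) (nat_lit 2451760275) (nat_lit 304) (nat_lit 6780800621) (nat_lit 304) (nat_lit 677356666)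 (nat_lit 141) (nat_lit 4) (nat_lit 145) (nat_lit 5) (nat_lit 145) (nat_lit 4) (nat_lit 456) (nat_lit 376) (nat_lit 368)) (XT.lf (nat_lit 0) (nat_lit 972022021) (nat_lit 228) (nat_lit 2841695144) (nat_lit 304) (nat_lit 6233049329) (nat_lit 137) (nat_lit 5) (nat_lit 140) (nat_lit 5) (nat_lit 141) (nat_lit 4) (nat_lit 457) (nat_lit 376) (nat_lit 367))) (XT.nd (nat_lit 78) (nat_lit 304) (nat_lit 0) (XT.lf (nat_lit 0) (nat_lit 8416884300) (nat_lit 304) (nat_lit 554800219) (nat_lit 0) (nat_lit 1216112870) (nat_lit 137) (nat_lit 5) (nat_lit 141) (nat_lit 4) (nat_lit 137) (nat_lit 4) (nat_lit 458) (nat_lit 376) (nat_lit 366)) (XT.lf (nat_lit 0) (nat_lit 2783081642) (nat_lit 304) (nat_lit 2160947675) (nat_lit 76) (nat_lit 5387828087) (nat_lit 133) (nat_lit 5) (nat_lit 137) (nat_lit 5) (nat_lit 134) (nat_lit 4) (nat_lit 459) (nat_lit 376) (nat_lit 365)))) (XT.nd (nat_lit 156) (nat_lit 532) (nat_lit 0) (XT.nd (nat_lit 78)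 (nat_lit 304) (nat_lit 0) (XT.lf (nat_lit 0) (nat_lit 6647878403) (nat_lit 228) (nat_lit 766186472) (nat_lit 304) (nat_lit 3066375823) (nat_lit 130) (nat_lit 5) (nat_lit 133) (nat_lit 5) (nat_lit 134) (nat_lit 4) (nat_lit 460) (nat_lit 376) (nat_lit 364)) (XT.lf (nat_lit 0) (nat_lit 1531936697) (nat_lit 304) (nat_lit 5606186392) (nat_lit 76) (nat_lit 3494566375) (nat_lit 126) (nat_lit 5) (nat_lit 130) (nat_lit 5) (nat_lit 127) (nat_lit 4) (nat_lit 461) (nat_lit 376) (nat_lit 363))) (XT.nd (nat_lit 78) (nat_lit 304) (nat_lit 0) (XT.lf (nat_lit 0) (nat_lit 3312905963) (nat_lit 228) (nat_lit 2879582542) (nat_lit 304) (nat_lit 4596534570) (nat_lit 123) (nat_lit 5) (nat_lit 126) (nat_lit 5) (nat_lit 127) (nat_lit 4) (nat_lit 462) (nat_lit 376) (nat_lit 362)) (XT.lf (nat_lit 0) (nat_lit 36260433) (nat_lit 304) (nat_lit 9425315715) (nat_lit 76) (nat_lit 1488635118) (nat_lit 119) (nat_lit 5) (nat_lit 123) (nat_lit 5) (nat_lit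 120) (nat_lit 4) (nat_lit 463) (nat_lit 376) (nat_lit 361))))))))
noncomputable def xc46 : XT := (XT.nd (nat_lit 2340) (nat_lit 2280) (nat_lit 0) (XT.nd (nat_lit 1170) (nat_lit 1596) (nat_lit 0) (XT.nd (nat_lit 546) (nat_lit 1368) (nat_lit 0) (XT.nd (nat_lit 234) (nat_lit 608) (nat_lit 0) (XT.nd (nat_lit 78) (nat_lit 456) (nat_lit 0) (XT.lf (nat_lit 0) (nat_lit 4728729295) (nat_lit 304) (nat_lit 395453131) (nat_lit 76) (nat_lit 5990300419) (nat_lit 119) (nat_lit 5) (nat_lit 123) (nat_lit 5) (nat_lit 120) (nat_lit 4) (nat_lit 464) (nat_lit 376) (nat_lit 360)) (XT.nd (nat_lit 78) (nat_lit 304) (nat_lit 0) (XT.lf (nat_lit 0) (nat_lit 8928160765) (nat_lit 152) (nat_lit 630628084) (nat_lit 228) (nat_lit 1724994396) (nat_lit 117) (nat_lit 5) (nat_lit 119) (nat_lit 5) (nat_lit 120) (nat_lit 4) (nat_lit 465) (nat_lit 376) (nat_lit 359)) (XT.lf (nat_lit 0) (nat_lit 3037351323) (nat_lit 304) (nat_lit 4458998204) (nat_lit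 76) (nat_lit 3960277681) (nat_lit 113) (nat_lit 5) (nat_lit 117) (nat_lit 5) (nat_lit 114) (nat_lit 4) (nat_lit 466) (nat_lit 376) (nat_lit 358)))) (XT.nd (nat_lit 156) (nat_lit 152) (nat_lit 0) (XT.nd (nat_lit 78) (nat_lit 304) (nat_lit 0) (XT.lf (nat_lit 0) (nat_lit 4966992503) (nat_lit 152) (nat_lit 2930726458) (nat_lit 228) (nat_lit 3736735219) (nat_lit 111) (nat_lit 5) (nat_lit 113) (nat_lit 5) (nat_lit 114) (nat_lit 4) (nat_lit 467) (nat_lit 376) (nat_lit 357)) (XT.lf (nat_lit 0) (nat_lit 1067185894) (nat_lit 304) (nat_lit 8991962993) (nat_lit 76) (nat_lit 1758095229) (nat_lit 107) (nat_lit 5) (nat_lit 111) (nat_lit 5) (nat_lit 108) (nat_lit 4) (nat_lit 468) (nat_lit 376) (nat_lit 356))) (XT.nd (nat_lit 78) (nat_lit 0) (nat_lit 0) (XT.lf (nat_lit 0) (nat_lit 526623595) (nat_lit 152) (nat_lit 5428127505) (nat_lit 228) (nat_lit 6049222123) (nat_lit 105) (nat_lit 5) (nat_lit 107) (nat_lit 5) (nat_lit 108) (nat_lit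 4) (nat_lit 469) (nat_lit 376) (nat_lit 355)) (XT.lf (nat_lit 0) (nat_lit 10363637408) (nat_lit 152) (nat_lit 629754951) (nat_lit 228) (nat_lit 1202782577) (nat_lit 105) (nat_lit 5) (nat_lit 107) (nat_lit 5) (nat_lit 108) (nat_lit 4) (nat_lit 470) (nat_lit 376) (nat_lit 354))))) (XT.nd (nat_lit 312) (nat_lit 608) (nat_lit 0) (XT.nd (nat_lit 156) (nat_lit 380) (nat_lit 0) (XT.nd (nat_lit 78) (nat_lit 152) (nat_lit 0) (XT.lf (nat_lit 0) (nat_lit 3750021739) (nat_lit 228) (nat_lit 4361219180) (nat_lit 76) (nat_lit 4280765776) (nat_lit 102) (nat_lit 5) (nat_lit 105) (nat_lit 5) (nat_lit 103) (nat_lit 4) (nat_lit 471) (nat_lit 376) (nat_lit 353)) (XT.lf (nat_lit 0) (nat_lit 5575717551) (nat_lit 152) (nat_lit 3245806034) (nat_lit 228) (nat_lit 3772007761) (nat_lit 100) (nat_lit 5) (nat_lit 102) (nat_lit 5) (nat_lit 103) (nat_lit 4) (nat_lit 472) (nat_lit 376) (nat_lit 352))) (XT.nd (nat_lit 78) (nat_lit 152) (nat_lit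 0) (XT.lf (nat_lit 0) (nat_lit 1226239218) (nat_lit 228) (nat_lit 9821175149) (nat_lit 76) (nat_lit 1753138832) (nat_lit 97) (nat_lit 5) (nat_lit 100) (nat_lit 5) (nat_lit 98) (nat_lit 4) (nat_lit 473) (nat_lit 376) (nat_lit 351)) (XT.lf (nat_lit 0) (nat_lit 192459713) (nat_lit 152) (nat_lit 6128089654) (nat_lit 228) (nat_lit 6691461582) (nat_lit 95) (nat_lit 5) (nat_lit 97) (nat_lit 5) (nat_lit 98) (nat_lit 4) (nat_lit 474) (nat_lit 376) (nat_lit 350)))) (XT.nd (nat_lit 156) (nat_lit 380) (nat_lit 0) (XT.nd (nat_lit 78) (nat_lit 228) (nat_lit 0) (XT.lf (nat_lit 0) (nat_lit 10559501512) (nat_lit 152) (nat_lit 1024746641) (nat_lit 228) (nat_lit 1645070915) (nat_lit 95) (nat_lit 5) (nat_lit 97) (nat_lit 5) (nat_lit 98) (nat_lit 4) (nat_lit 475) (nat_lit 376) (nat_lit 349)) (XT.lf (nat_lit 0) (nat_lit 3518066945) (nat_lit 228) (nat_lit 5737468831) (nat_lit 76) (nat_lit 4195548902) (nat_lit 92) (nat_lit 5) (nat_lit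 95) (nat_lit 5) (nat_lit 93) (nat_lit 4) (nat_lit 476) (nat_lit 376) (nat_lit 348))) (XT.nd (nat_lit 78) (nat_lit 228) (nat_lit 0) (XT.lf (nat_lit 0) (nat_lit 4703690117) (nat_lit 152) (nat_lit 4101282295) (nat_lit 228) (nat_lit 4873987204) (nat_lit 90) (nat_lit 5) (nat_lit 92) (nat_lit 5) (nat_lit 93) (nat_lit 4) (nat_lit 477) (nat_lit 376) (nat_lit 347)) (XT.lf (nat_lit 0) (nat_lit 334846648) (nat_lit 228) (nat_lit 12381600871) (nat_lit 76) (nat_lit 1196990956) (nat_lit 87) (nat_lit 5) (nat_lit 90) (nat_lit 5) (nat_lit 88) (nat_lit 4) (nat_lit 478) (nat_lit 376) (nat_lit 346)))))) (XT.nd (nat_lit 546) (nat_lit 836) (nat_lit 0) (XT.nd (nat_lit 234) (nat_lit 380) (nat_lit 0) (XT.nd (nat_lit 78) (nat_lit 380) (nat_lit 0) (XT.lf (nat_lit 0) (nat_lit 5653963935) (nat_lit 228) (nat_lit 1850336160) (nat_lit 76) (nat_lit 6647647325) (nat_lit 87) (nat_lit 5) (nat_lit 90) (nat_lit 5) (nat_lit 88) (nat_lit 4) (nat_lit 479)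 (nat_lit 376) (nat_lit 345)) (XT.nd (nat_lit 78) (nat_lit 228) (nat_lit 0) (XT.lf (nat_lit 0) (nat_lit 9030873715) (nat_lit 152) (nat_lit 2110769953) (nat_lit 228) (nat_lit 3255701078) (nat_lit 85) (nat_lit 5) (nat_lit 87) (nat_lit 5) (nat_lit 88) (nat_lit 4) (nat_lit 480) (nat_lit 376) (nat_lit 344)) (XT.lf (nat_lit 0) (nat_lit 2130189494) (nat_lit 228) (nat_lit 9110575164) (nat_lit 76) (nat_lit 3407878495) (nat_lit 82) (nat_lit 5) (nat_lit 85) (nat_lit 5) (nat_lit 83) (nat_lit 4) (nat_lit 481) (nat_lit 376) (nat_lit 343)))) (XT.nd (nat_lit 156) (nat_lit 304) (nat_lit 0) (XT.nd (nat_lit 78) (nat_lit 0) (nat_lit 0) (XT.lf (nat_lit 0) (nat_lit 1812938547) (nat_lit 76) (nat_lit 5814952452) (nat_lit 152) (nat_lit 7278154901) (nat_lit 81) (nat_lit 5) (nat_lit 82) (nat_lit 5) (nat_lit 83) (nat_lit 4) (nat_lit 482) (nat_lit 376) (nat_lit 342)) (XT.lf (nat_lit 0) (nat_lit 13109649915) (nat_lit 76) (nat_lit 196385926) (nat_lit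 152) (nat_lit 1864671986) (nat_lit 81) (nat_lit 5) (nat_lit 82) (nat_lit 5) (nat_lit 83) (nat_lit 4) (nat_lit 483) (nat_lit 376) (nat_lit 341))) (XT.nd (nat_lit 78) (nat_lit 76) (nat_lit 0) (XT.lf (nat_lit 0) (nat_lit 3707655326) (nat_lit 228) (nat_lit 6186885639) (nat_lit 76) (nat_lit 5545634969) (nat_lit 78) (nat_lit 5) (nat_lit 81) (nat_lit 5) (nat_lit 79) (nat_lit 4) (nat_lit 484) (nat_lit 376) (nat_lit 340)) (XT.lf (nat_lit 0) (nat_lit 5173653098) (nat_lit 76) (nat_lit 4233977865) (nat_lit 152) (nat_lit 6309606821) (nat_lit 77) (nat_lit 5) (nat_lit 78) (nat_lit 5) (nat_lit 79) (nat_lit 4) (nat_lit 485) (nat_lit 376) (nat_lit 339))))) (XT.nd (nat_lit 312) (nat_lit 304) (nat_lit 0) (XT.nd (nat_lit 156) (nat_lit 304) (nat_lit 0) (XT.nd (nat_lit 78) (nat_lit 76) (nat_lit 0) (XT.lf (nat_lit 0) (nat_lit 862817575) (nat_lit 152) (nat_lit 14428025690) (nat_lit 152) (nat_lit 711403296) (nat_lit 75) (nat_lit 4) (nat_lit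 77) (nat_lit 5) (nat_lit 77) (nat_lit 4) (nat_lit 486) (nat_lit 376) (nat_lit 338)) (XT.lf (nat_lit 0) (nat_lit 5031172170) (nat_lit 228) (nat_lit 3695899498) (nat_lit 76) (nat_lit 7565026457) (nat_lit 74) (nat_lit 5) (nat_lit 77) (nat_lit 5) (nat_lit 75) (nat_lit 4) (nat_lit 487) (nat_lit 376) (nat_lit 337))) (XT.nd (nat_lit 78) (nat_lit 228) (nat_lit 0) (XT.lf (nat_lit 0) (nat_lit 8106873972) (nat_lit 76) (nat_lit 2830565014) (nat_lit 152) (nat_lit 5652825574) (nat_lit 73) (nat_lit 5) (nat_lit 74) (nat_lit 5) (nat_lit 75) (nat_lit 4) (nat_lit 488) (nat_lit 376) (nat_lit 336)) (XT.lf (nat_lit 0) (nat_lit 150375872) (nat_lit 228) (nat_lit 13556513914) (nat_lit 76) (nat_lit 3189574423) (nat_lit 70) (nat_lit 5) (nat_lit 73) (nat_lit 5) (nat_lit 71) (nat_lit 4) (nat_lit 489) (nat_lit 376) (nat_lit 335)))) (XT.nd (nat_lit 156) (nat_lit 228) (nat_lit 0) (XT.nd (nat_lit 78) (nat_lit 76) (nat_lit 0) (XT.lf (nat_lit 0)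 (nat_lit 6056697679) (nat_lit 228) (nat_lit 1737764699) (nat_lit 76) (nat_lit 9414431034) (nat_lit 70) (nat_lit 5) (nat_lit 73) (nat_lit 5) (nat_lit 71) (nat_lit 4) (nat_lit 490) (nat_lit 376) (nat_lit 334)) (XT.lf (nat_lit 0) (nat_lit 10509028341) (nat_lit 76) (nat_lit 1662395478) (nat_lit 152) (nat_lit 5358337017) (nat_lit 69) (nat_lit 5) (nat_lit 70) (nat_lit 5) (nat_lit 71) (nat_lit 4) (nat_lit 491) (nat_lit 376) (nat_lit 333))) (XT.nd (nat_lit 78) (nat_lit 0) (nat_lit 0) (XT.lf (nat_lit 0) (nat_lit 640934111) (nat_lit 228) (nat_lit 12640869911) (nat_lit 76) (nat_lit 4576971611) (nat_lit 66) (nat_lit 5) (nat_lit 69) (nat_lit 5) (nat_lit 67) (nat_lit 4) (nat_lit 492) (nat_lit 376) (nat_lit 332)) (XT.lf (nat_lit 0) (nat_lit 6731020136) (nat_lit 228) (nat_lit 430001247) (nat_lit 76) (nat_lit 11034493517) (nat_lit 66) (nat_lit 5) (nat_lit 69) (nat_lit 5) (nat_lit 67) (nat_lit 4) (nat_lit 493) (nat_lit 376) (nat_lit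 331))))))) (XT.nd (nat_lit 1170) (nat_lit 988) (nat_lit 0) (XT.nd (nat_lit 546) (nat_lit 608) (nat_lit 0) (XT.nd (nat_lit 234) (nat_lit 304) (nat_lit 0) (XT.nd (nat_lit 78) (nat_lit 304) (nat_lit 0) (XT.lf (nat_lit 0) (nat_lit 12258365008) (nat_lit 76) (nat_lit 795780676) (nat_lit 152) (nat_lit 5486702138) (nat_lit 65) (nat_lit 5) (nat_lit 66) (nat_lit 5) (nat_lit 67) (nat_lit 4) (nat_lit 494) (nat_lit 376) (nat_lit 330)) (XT.nd (nat_lit 78) (nat_lit 76) (nat_lit 0) (XT.lf (nat_lit 0) (nat_lit 711637776) (nat_lit 228) (nat_lit 12521230589) (nat_lit 76) (nat_lit 5661851648) (nat_lit 62) (nat_lit 5) (nat_lit 65) (nat_lit 5) (nat_lit 63) (nat_lit 4) (nat_lit 495) (nat_lit 376) (nat_lit 329)) (XT.lf (nat_lit 0) (nat_lit 91282718) (nat_lit 76) (nat_lit 6899945521) (nat_lit 152) (nat_lit 12266184538) (nat_lit 61) (nat_lit 5) (nat_lit 62) (nat_lit 5) (nat_lit 63) (nat_lit 4) (nat_lit 496) (nat_lit 376) (nat_lit 328))))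 (XT.nd (nat_lit 156) (nat_lit 76) (nat_lit 0) (XT.nd (nat_lit 78) (nat_lit 228) (nat_lit 0) (XT.lf (nat_lit 0) (nat_lit 13211814072) (nat_lit 76) (nat_lit 307322066) (nat_lit 152) (nat_lit 6110053703) (nat_lit 61) (nat_lit 5) (nat_lit 62) (nat_lit 5) (nat_lit 63) (nat_lit 4) (nat_lit 497) (nat_lit 376) (nat_lit 327)) (XT.lf (nat_lit 0) (nat_lit 288032341) (nat_lit 228) (nat_lit 13356396184) (nat_lit 76) (nat_lit 6365773244) (nat_lit 58) (nat_lit 5) (nat_lit 61) (nat_lit 5) (nat_lit 59) (nat_lit 4) (nat_lit 498) (nat_lit 376) (nat_lit 326))) (XT.nd (nat_lit 78) (nat_lit 76) (nat_lit 0) (XT.lf (nat_lit 0) (nat_lit 6758675515) (nat_lit 228) (nat_lit 340985455) (nat_lit 76) (nat_lit 13301066890) (nat_lit 58) (nat_lit 5) (nat_lit 61) (nat_lit 5) (nat_lit 59) (nat_lit 4) (nat_lit 499) (nat_lit 376) (nat_lit 325)) (XT.lf (nat_lit 0) (nat_lit 13201349996) (nat_lit 76) (nat_lit 285815848) (nat_lit 152) (nat_lit 7313893305)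 (nat_lit 57) (nat_lit 5) (nat_lit 58) (nat_lit 5) (nat_lit 59) (nat_lit 4) (nat_lit 500) (nat_lit 376) (nat_lit 324))))) (XT.nd (nat_lit 312) (nat_lit 304) (nat_lit 0) (XT.nd (nat_lit 156) (nat_lit 152) (nat_lit 0) (XT.nd (nat_lit 78) (nat_lit 76) (nat_lit 0) (XT.lf (nat_lit 0) (nat_lit 5872206617) (nat_lit 76) (nat_lit 14606908081) (nat_lit 76) (nat_lit 732438777) (nat_lit 56) (nat_lit 4) (nat_lit 57) (nat_lit 5) (nat_lit 57) (nat_lit 4) (nat_lit 501) (nat_lit 376) (nat_lit 323)) (XT.lf (nat_lit 0) (nat_lit 5945828966) (nat_lit 152) (nat_lit 1911050427) (nat_lit 76) (nat_lit 13775219983) (nat_lit 55) (nat_lit 5) (nat_lit 57) (nat_lit 5) (nat_lit 56) (nat_lit 4) (nat_lit 502) (nat_lit 376) (nat_lit 322))) (XT.nd (nat_lit 78) (nat_lit 76) (nat_lit 0) (XT.lf (nat_lit 0) (nat_lit 12029777057) (nat_lit 76) (nat_lit 834444101) (nat_lit 152) (nat_lit 9199189119) (nat_lit 54) (nat_lit 5) (nat_lit 55) (nat_lit 5) (nat_lit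 56) (nat_lit 4) (nat_lit 503) (nat_lit 376) (nat_lit 321)) (XT.lf (nat_lit 0) (nat_lit 3815751819) (nat_lit 76) (nat_lit 16231069003) (nat_lit 76) (nat_lit 2459141093) (nat_lit 53) (nat_lit 4) (nat_lit 54) (nat_lit 5) (nat_lit 54) (nat_lit 4) (nat_lit 504) (nat_lit 376) (nat_lit 320)))) (XT.nd (nat_lit 156) (nat_lit 152) (nat_lit 0) (XT.nd (nat_lit 78) (nat_lit 76) (nat_lit 0) (XT.lf (nat_lit 0) (nat_lit 4445247432) (nat_lit 152) (nat_lit 4842800714) (nat_lit 76) (nat_lit 13670961521) (nat_lit 52) (nat_lit 5) (nat_lit 54) (nat_lit 5) (nat_lit 53) (nat_lit 4) (nat_lit 505) (nat_lit 376) (nat_lit 319)) (XT.lf (nat_lit 0) (nat_lit 9465843388) (nat_lit 76) (nat_lit 2073300700) (nat_lit 152) (nat_lit 11884821231) (nat_lit 51) (nat_lit 5) (nat_lit 52) (nat_lit 5) (nat_lit 53) (nat_lit 4) (nat_lit 506) (nat_lit 376) (nat_lit 318))) (XT.nd (nat_lit 78) (nat_lit 76) (nat_lit 0) (XT.lf (nat_lit 0) (nat_lit 239646399) (nat_lit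 76) (nat_lit 18650322565) (nat_lit 76) (nat_lit 5011578296) (nat_lit 50) (nat_lit 4) (nat_lit 51) (nat_lit 5) (nat_lit 51) (nat_lit 4) (nat_lit 507) (nat_lit 376) (nat_lit 317)) (XT.lf (nat_lit 0) (nat_lit 2131350657) (nat_lit 152) (nat_lit 9396264453) (nat_lit 76) (nat_lit 12862130921) (nat_lit 49) (nat_lit 5) (nat_lit 51) (nat_lit 5) (nat_lit 50) (nat_lit 4) (nat_lit 508) (nat_lit 376) (nat_lit 316)))))) (XT.nd (nat_lit 624) (nat_lit 456) (nat_lit 0) (XT.nd (nat_lit 312) (nat_lit 304) (nat_lit 0) (XT.nd (nat_lit 156) (nat_lit 152) (nat_lit 0) (XT.nd (nat_lit 78) (nat_lit 0) (nat_lit 0) (XT.lf (nat_lit 0) (nat_lit 5238574971) (nat_lit 76) (nat_lit 4142307765) (nat_lit 152) (nat_lit 15510429028) (nat_lit 48) (nat_lit 5) (nat_lit 49) (nat_lit 5) (nat_lit 50) (nat_lit 4) (nat_lit 509) (nat_lit 376) (nat_lit 315)) (XT.lf (nat_lit 0) (nat_lit 16919808435) (nat_lit 152) (nat_lit 5045712152) (nat_lit 0) (nat_lit 3440247505)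 (nat_lit 48) (nat_lit 5) (nat_lit 50) (nat_lit 4) (nat_lit 48) (nat_lit 4) (nat_lit 510) (nat_lit 376) (nat_lit 314))) (XT.nd (nat_lit 78) (nat_lit 76) (nat_lit 0) (XT.lf (nat_lit 0) (nat_lit 10046331874) (nat_lit 76) (nat_lit 14720601949) (nat_lit 76) (nat_lit 1166264156) (nat_lit 47) (nat_lit 4) (nat_lit 48) (nat_lit 5) (nat_lit 48) (nat_lit 4) (nat_lit 511) (nat_lit 376) (nat_lit 313)) (XT.lf (nat_lit 0) (nat_lit 6244608326) (nat_lit 152) (nat_lit 950381786) (nat_lit 76) (nat_lit 19279745186) (nat_lit 46) (nat_lit 5) (nat_lit 48) (nat_lit 5) (nat_lit 47) (nat_lit 4) (nat_lit 512) (nat_lit 376) (nat_lit 312)))) (XT.nd (nat_lit 156) (nat_lit 152) (nat_lit 0) (XT.nd (nat_lit 78) (nat_lit 76) (nat_lit 0) (XT.lf (nat_lit 0) (nat_lit 13947201657) (nat_lit 152) (nat_lit 12433451746) (nat_lit 0) (nat_lit 648734614) (nat_lit 45) (nat_lit 5) (nat_lit 47) (nat_lit 4) (nat_lit 45) (nat_lit 4) (nat_lit 513) (nat_lit 376)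 (nat_lit 311)) (XT.lf (nat_lit 0) (nat_lit 2907953608) (nat_lit 76) (nat_lit 19027990313) (nat_lit 76) (nat_lit 5663084995) (nat_lit 44) (nat_lit 4) (nat_lit 45) (nat_lit 5) (nat_lit 45) (nat_lit 4) (nat_lit 514) (nat_lit 376) (nat_lit 310))) (XT.nd (nat_lit 78) (nat_lit 76) (nat_lit 0) (XT.lf (nat_lit 0) (nat_lit 2013003344) (nat_lit 152) (nat_lit 9343011706) (nat_lit 76) (nat_lit 16826983404) (nat_lit 43) (nat_lit 5) (nat_lit 45) (nat_lit 5) (nat_lit 44) (nat_lit 4) (nat_lit 515) (nat_lit 376) (nat_lit 309)) (XT.lf (nat_lit 0) (nat_lit 6432783988) (nat_lit 76) (nat_lit 3382396764) (nat_lit 152) (nat_lit 18967336029) (nat_lit 42) (nat_lit 5) (nat_lit 43) (nat_lit 5) (nat_lit 44) (nat_lit 4) (nat_lit 516) (nat_lit 376) (nat_lit 308))))) (XT.nd (nat_lit 312) (nat_lit 228) (nat_lit 0) (XT.nd (nat_lit 156) (nat_lit 152) (nat_lit 0) (XT.nd (nat_lit 78) (nat_lit 76) (nat_lit 0) (XT.lf (nat_lit 0) (nat_lit 17941001971)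 (nat_lit 152) (nat_lit 6673420669) (nat_lit 0) (nat_lit 4782911317) (nat_lit 42) (nat_lit 5) (nat_lit 44) (nat_lit 4) (nat_lit 42) (nat_lit 4) (nat_lit 517) (nat_lit 376) (nat_lit 307)) (XT.lf (nat_lit 0) (nat_lit 9526323104) (nat_lit 76) (nat_lit 16858720351) (nat_lit 76) (nat_lit 3643319458) (nat_lit 41) (nat_lit 4) (nat_lit 42) (nat_lit 5) (nat_lit 42) (nat_lit 4) (nat_lit 518) (nat_lit 376) (nat_lit 306))) (XT.nd (nat_lit 78) (nat_lit 76) (nat_lit 0) (XT.lf (nat_lit 0) (nat_lit 4335616239) (nat_lit 152) (nat_lit 4469740935) (nat_lit 76) (nat_lit 21871171949) (nat_lit 40) (nat_lit 5) (nat_lit 42) (nat_lit 5) (nat_lit 41) (nat_lit 4) (nat_lit 519) (nat_lit 376) (nat_lit 305)) (XT.lf (nat_lit 0) (nat_lit 12148104142) (nat_lit 76) (nat_lit 400253710) (nat_lit 152) (nat_lit 18792670925) (nat_lit 39) (nat_lit 5) (nat_lit 40) (nat_lit 5) (nat_lit 41) (nat_lit 4) (nat_lit 520) (nat_lit 376) (nat_lit 304)))) (XT.nd (nat_lit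 156) (nat_lit 152) (nat_lit 0) (XT.nd (nat_lit 78) (nat_lit 76) (nat_lit 0) (XT.lf (nat_lit 0) (nat_lit 21083387860) (nat_lit 152) (nat_lit 2844284173) (nat_lit 0) (nat_lit 8095514767) (nat_lit 39) (nat_lit 5) (nat_lit 41) (nat_lit 4) (nat_lit 39) (nat_lit 4) (nat_lit 521) (nat_lit 376) (nat_lit 303)) (XT.lf (nat_lit 0) (nat_lit 14173777294) (nat_lit 76) (nat_lit 15793282250) (nat_lit 76) (nat_lit 2755972841) (nat_lit 38) (nat_lit 4) (nat_lit 39) (nat_lit 5) (nat_lit 39) (nat_lit 4) (nat_lit 522) (nat_lit 376) (nat_lit 302))) (XT.nd (nat_lit 78) (nat_lit 76) (nat_lit 0) (XT.lf (nat_lit 0) (nat_lit 5544075526) (nat_lit 152) (nat_lit 1830832513) (nat_lit 76) (nat_lit 26067887280) (nat_lit 37) (nat_lit 5) (nat_lit 39) (nat_lit 5) (nat_lit 38) (nat_lit 4) (nat_lit 523) (nat_lit 376) (nat_lit 301)) (XT.lf (nat_lit 0) (nat_lit 14155023524) (nat_lit 152) (nat_lit 18619188922) (nat_lit 0) (nat_lit 1405601873) (nat_lit 36)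 (nat_lit 5) (nat_lit 38) (nat_lit 4) (nat_lit 36) (nat_lit 4) (nat_lit 524) (nat_lit 376) (nat_lit 300))))))))
noncomputable def xc47 : XT := (XT.nd (nat_lit 56472) (nat_lit 0) (nat_lit 5472) (XT.nd (nat_lit 1170) (nat_lit 608) (nat_lit 0) (XT.nd (nat_lit 546) (nat_lit 380) (nat_lit 0) (XT.nd (nat_lit 234) (nat_lit 228) (nat_lit 0) (XT.nd (nat_lit 78) (nat_lit 152) (nat_lit 0) (XT.lf (nat_lit 0) (nat_lit 23069838886) (nat_lit 152) (nat_lit 1591245611) (nat_lit 0) (nat_lit 10276493709) (nat_lit 36) (nat_lit 5) (nat_lit 38) (nat_lit 4) (nat_lit 36) (nat_lit 4) (nat_lit 525) (nat_lit 376) (nat_lit 299)) (XT.nd (nat_lit 78) (nat_lit 76) (nat_lit 0) (XT.lf (nat_lit 0) (nat_lit 16174803772) (nat_lit 76) (nat_lit 16187970412) (nat_lit 76) (nat_lit 3351981035) (nat_lit 35) (nat_lit 4) (nat_lit 36) (nat_lit 5) (nat_lit 36) (nat_lit 4) (nat_lit 526) (nat_lit 376) (nat_lit 298)) (XT.lf (nat_lit 0) (nat_lit 5284946343) (nat_lit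 152) (nat_lit 2148950436) (nat_lit 76) (nat_lit 29080645051) (nat_lit 34) (nat_lit 5) (nat_lit 36) (nat_lit 5) (nat_lit 35) (nat_lit 4) (nat_lit 527) (nat_lit 376) (nat_lit 297)))) (XT.nd (nat_lit 156) (nat_lit 152) (nat_lit 0) (XT.nd (nat_lit 78) (nat_lit 0) (nat_lit 0) (XT.lf (nat_lit 0) (nat_lit 14240167557) (nat_lit 152) (nat_lit 21394542335) (nat_lit 0) (nat_lit 1698820215) (nat_lit 33) (nat_lit 5) (nat_lit 35) (nat_lit 4) (nat_lit 33) (nat_lit 4) (nat_lit 528) (nat_lit 376) (nat_lit 296)) (XT.lf (nat_lit 0) (nat_lit 23516131972) (nat_lit 152) (nat_lit 3722498071) (nat_lit 0) (nat_lit 10936895811) (nat_lit 33) (nat_lit 5) (nat_lit 35) (nat_lit 4) (nat_lit 33) (nat_lit 4) (nat_lit 529) (nat_lit 376) (nat_lit 295))) (XT.nd (nat_lit 78) (nat_lit 76) (nat_lit 0) (XT.lf (nat_lit 0) (nat_lit 14682865087) (nat_lit 76) (nat_lit 18486484495) (nat_lit 76) (nat_lit 5870463072) (nat_lit 32) (nat_lit 4) (nat_lit 33) (nat_lit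 5) (nat_lit 33) (nat_lit 4) (nat_lit 530) (nat_lit 376) (nat_lit 294)) (XT.lf (nat_lit 0) (nat_lit 3115857566) (nat_lit 152) (nat_lit 6326544408) (nat_lit 76) (nat_lit 30486834302) (nat_lit 31) (nat_lit 5) (nat_lit 33) (nat_lit 5) (nat_lit 32) (nat_lit 4) (nat_lit 531) (nat_lit 376) (nat_lit 293))))) (XT.nd (nat_lit 312) (nat_lit 228) (nat_lit 0) (XT.nd (nat_lit 156) (nat_lit 76) (nat_lit 0) (XT.nd (nat_lit 78) (nat_lit 0) (nat_lit 0) (XT.lf (nat_lit 0) (nat_lit 12331687840) (nat_lit 152) (nat_lit 28494788133) (nat_lit 0) (nat_lit 14785989) (nat_lit 30) (nat_lit 5) (nat_lit 32) (nat_lit 4) (nat_lit 30) (nat_lit 4) (nat_lit 532) (nat_lit 376) (nat_lit 292)) (XT.lf (nat_lit 0) (nat_lit 21941122636) (nat_lit 152) (nat_lit 10244474698) (nat_lit 0) (nat_lit 9591537558) (nat_lit 30) (nat_lit 5) (nat_lit 32) (nat_lit 4) (nat_lit 30) (nat_lit 4) (nat_lit 533) (nat_lit 376) (nat_lit 291))) (XT.nd (nat_lit 78) (nat_lit 0)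 (nat_lit 0) (XT.lf (nat_lit 0) (nat_lit 8643378811) (nat_lit 76) (nat_lit 23238859984) (nat_lit 76) (nat_lit 10857543616) (nat_lit 29) (nat_lit 4) (nat_lit 30) (nat_lit 5) (nat_lit 30) (nat_lit 4) (nat_lit 534) (nat_lit 376) (nat_lit 290)) (XT.lf (nat_lit 0) (nat_lit 28230007744) (nat_lit 76) (nat_lit 13955750157) (nat_lit 76) (nat_lit 1543626711) (nat_lit 29) (nat_lit 4) (nat_lit 30) (nat_lit 5) (nat_lit 30) (nat_lit 4) (nat_lit 535) (nat_lit 376) (nat_lit 289)))) (XT.nd (nat_lit 156) (nat_lit 76) (nat_lit 0) (XT.nd (nat_lit 78) (nat_lit 0) (nat_lit 0) (XT.lf (nat_lit 0) (nat_lit 3571514191) (nat_lit 76) (nat_lit 4316932814) (nat_lit 152) (nat_lit 36858032293) (nat_lit 27) (nat_lit 5) (nat_lit 28) (nat_lit 5) (nat_lit 29) (nat_lit 4) (nat_lit 536) (nat_lit 376) (nat_lit 288)) (XT.lf (nat_lit 0) (nat_lit 17745978380) (nat_lit 152) (nat_lit 22404303001) (nat_lit 0) (nat_lit 5638141627) (nat_lit 27) (nat_lit 5) (nat_lit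 29) (nat_lit 4) (nat_lit 27) (nat_lit 4) (nat_lit 537) (nat_lit 376) (nat_lit 287))) (XT.nd (nat_lit 78) (nat_lit 76) (nat_lit 0) (XT.lf (nat_lit 0) (nat_lit 27904619378) (nat_lit 152) (nat_lit 3187433507) (nat_lit 0) (nat_lit 15769410936) (nat_lit 27) (nat_lit 5) (nat_lit 29) (nat_lit 4) (nat_lit 27) (nat_lit 4) (nat_lit 538) (nat_lit 376) (nat_lit 286)) (XT.lf (nat_lit 0) (nat_lit 16862989473) (nat_lit 76) (nat_lit 21630857379) (nat_lit 76) (nat_lit 9469074482) (nat_lit 26) (nat_lit 4) (nat_lit 27) (nat_lit 5) (nat_lit 27) (nat_lit 4) (nat_lit 539) (nat_lit 376) (nat_lit 285)))))) (XT.nd (nat_lit 546) (nat_lit 228) (nat_lit 0) (XT.nd (nat_lit 234) (nat_lit 228) (nat_lit 0) (XT.nd (nat_lit 78) (nat_lit 76) (nat_lit 0) (XT.lf (nat_lit 0) (nat_lit 293660205) (nat_lit 152) (nat_lit 11591453122) (nat_lit 76) (nat_lit 37212334531) (nat_lit 25) (nat_lit 5) (nat_lit 27) (nat_lit 5) (nat_lit 26) (nat_lit 4) (nat_lit 540)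 (nat_lit 376) (nat_lit 284)) (XT.nd (nat_lit 78) (nat_lit 0) (nat_lit 0) (XT.lf (nat_lit 0) (nat_lit 8504552979) (nat_lit 76) (nat_lit 1700957016) (nat_lit 152) (nat_lit 40056291292) (nat_lit 24) (nat_lit 5) (nat_lit 25) (nat_lit 5) (nat_lit 26) (nat_lit 4) (nat_lit 541) (nat_lit 376) (nat_lit 283)) (XT.lf (nat_lit 0) (nat_lit 20582237758) (nat_lit 152) (nat_lit 22172120026) (nat_lit 0) (nat_lit 8701702123) (nat_lit 24) (nat_lit 5) (nat_lit 26) (nat_lit 4) (nat_lit 24) (nat_lit 4) (nat_lit 542) (nat_lit 376) (nat_lit 282)))) (XT.nd (nat_lit 156) (nat_lit 152) (nat_lit 0) (XT.nd (nat_lit 78) (nat_lit 76) (nat_lit 0) (XT.lf (nat_lit 0) (nat_lit 31252962898) (nat_lit 152) (nat_lit 2084198870) (nat_lit 0) (nat_lit 19349503904) (nat_lit 24) (nat_lit 5) (nat_lit 26) (nat_lit 4) (nat_lit 24) (nat_lit 4) (nat_lit 543) (nat_lit 376) (nat_lit 281)) (XT.lf (nat_lit 0) (nat_lit 18909409030) (nat_lit 76) (nat_lit 23483018488)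 (nat_lit 76) (nat_lit 11557303805) (nat_lit 23) (nat_lit 4) (nat_lit 24) (nat_lit 5) (nat_lit 24) (nat_lit 4) (nat_lit 544) (nat_lit 376) (nat_lit 280))) (XT.nd (nat_lit 78) (nat_lit 152) (nat_lit 0) (XT.lf (nat_lit 0) (nat_lit 40510254119) (nat_lit 76) (nat_lit 13344055109) (nat_lit 76) (nat_lit 1396732962) (nat_lit 23) (nat_lit 4) (nat_lit 24) (nat_lit 5) (nat_lit 24) (nat_lit 4) (nat_lit 545) (nat_lit 376) (nat_lit 279)) (XT.lf (nat_lit 0) (nat_lit 6136265542) (nat_lit 76) (nat_lit 2782239782) (nat_lit 152) (nat_lit 47669467706) (nat_lit 21) (nat_lit 5) (nat_lit 22) (nat_lit 5) (nat_lit 23) (nat_lit 4) (nat_lit 546) (nat_lit 376) (nat_lit 278))))) (XT.nd (nat_lit 312) (nat_lit 152) (nat_lit 0) (XT.nd (nat_lit 156) (nat_lit 76) (nat_lit 0) (XT.nd (nat_lit 78) (nat_lit 0) (nat_lit 0) (XT.lf (nat_lit 0) (nat_lit 19711133605) (nat_lit 152) (nat_lit 30175932647) (nat_lit 0) (nat_lit 8071650717) (nat_lit 21) (nat_lit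 5) (nat_lit 23) (nat_lit 4) (nat_lit 21) (nat_lit 4) (nat_lit 547) (nat_lit 376) (nat_lit 277)) (XT.lf (nat_lit 0) (nat_lit 30823875146) (nat_lit 152) (nat_lit 9381623954) (nat_lit 0) (nat_lit 19165194306) (nat_lit 21) (nat_lit 5) (nat_lit 23) (nat_lit 4) (nat_lit 21) (nat_lit 4) (nat_lit 548) (nat_lit 376) (nat_lit 276))) (XT.nd (nat_lit 78) (nat_lit 0) (nat_lit 0) (XT.lf (nat_lit 0) (nat_lit 12214481491) (nat_lit 76) (nat_lit 30142627096) (nat_lit 76) (nat_lit 18465307467) (nat_lit 20) (nat_lit 4) (nat_lit 21) (nat_lit 5) (nat_lit 21) (nat_lit 4) (nat_lit 549) (nat_lit 376) (nat_lit 275)) (XT.lf (nat_lit 0) (nat_lit 34590995130) (nat_lit 76) (nat_lit 19710084388) (nat_lit 76) (nat_lit 8014668848) (nat_lit 20) (nat_lit 4) (nat_lit 21) (nat_lit 5) (nat_lit 21) (nat_lit 4) (nat_lit 550) (nat_lit 376) (nat_lit 274)))) (XT.nd (nat_lit 54288) (nat_lit 0) (nat_lit 12008) (XT.nd (nat_lit 78) (nat_lit 76) (nat_lit 0) (XT.lf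 (nat_lit 0) (nat_lit 2666426106) (nat_lit 152) (nat_lit 6300139388) (nat_lit 76) (nat_lit 54887404761) (nat_lit 19) (nat_lit 5) (nat_lit 21) (nat_lit 5) (nat_lit 20) (nat_lit 4) (nat_lit 551) (nat_lit 376) (nat_lit 273)) (XT.lf (nat_lit 0) (nat_lit 13653767263) (nat_lit 152) (nat_lit 49512406679) (nat_lit 0) (nat_lit 2265377440) (nat_lit 18) (nat_lit 5) (nat_lit 20) (nat_lit 4) (nat_lit 18) (nat_lit 4) (nat_lit 552) (nat_lit 376) (nat_lit 272))) (XT.nd (nat_lit 78) (nat_lit 380) (nat_lit 0) (XT.lf (nat_lit 0) (nat_lit 1364802127) (nat_lit 380) (nat_lit 1637185744) (nat_lit 0) (nat_lit 1364802127) (nat_lit 181) (nat_lit 5) (nat_lit 186) (nat_lit 4) (nat_lit 181) (nat_lit 4) (nat_lit 446) (nat_lit 377) (nat_lit 377)) (XT.lf (nat_lit 0) (nat_lit 4301734371) (nat_lit 380) (nat_lit 2757125312) (nat_lit 380) (nat_lit 1778524006) (nat_lit 176) (nat_lit 4) (nat_lit 181) (nat_lit 5) (nat_lit 181) (nat_lit 4) (nat_lit 447)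 (nat_lit 377) (nat_lit 376))))))) (XT.nd (nat_lit 1170) (nat_lit 2508) (nat_lit 0) (XT.nd (nat_lit 546) (nat_lit 1900) (nat_lit 0) (XT.nd (nat_lit 234) (nat_lit 1064) (nat_lit 0) (XT.nd (nat_lit 78) (nat_lit 684) (nat_lit 0) (XT.lf (nat_lit 0) (nat_lit 2489629321) (nat_lit 380) (nat_lit 5837849997) (nat_lit 0) (nat_lit 617105379) (nat_lit 171) (nat_lit 5) (nat_lit 176) (nat_lit 4) (nat_lit 171) (nat_lit 4) (nat_lit 448) (nat_lit 377) (nat_lit 375)) (XT.nd (nat_lit 78) (nat_lit 380) (nat_lit 0) (XT.lf (nat_lit 0) (nat_lit 1855839093) (nat_lit 304) (nat_lit 4983524279) (nat_lit 304) (nat_lit 2215441514) (nat_lit 167) (nat_lit 4) (nat_lit 171) (nat_lit 5) (nat_lit 171) (nat_lit 4) (nat_lit 449) (nat_lit 377) (nat_lit 374)) (XT.lf (nat_lit 0) (nat_lit 570019437) (nat_lit 304) (nat_lit 1502678487) (nat_lit 380) (nat_lit 7096120150) (nat_lit 162) (nat_lit 5) (nat_lit 166) (nat_lit 5) (nat_lit 167) (nat_lit 4) (nat_lit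 450) (nat_lit 377) (nat_lit 373)))) (XT.nd (nat_lit 156) (nat_lit 684) (nat_lit 0) (XT.nd (nat_lit 78) (nat_lit 380) (nat_lit 0) (XT.lf (nat_lit 0) (nat_lit 6437795952) (nat_lit 380) (nat_lit 761397756) (nat_lit 0) (nat_lit 2086623686) (nat_lit 162) (nat_lit 5) (nat_lit 167) (nat_lit 4) (nat_lit 162) (nat_lit 4) (nat_lit 451) (nat_lit 377) (nat_lit 372)) (XT.lf (nat_lit 0) (nat_lit 1484857481) (nat_lit 380) (nat_lit 2132603992) (nat_lit 76) (nat_lit 5788818922) (nat_lit 157) (nat_lit 5) (nat_lit 162) (nat_lit 5) (nat_lit 158) (nat_lit 4) (nat_lit 452) (nat_lit 377) (nat_lit 371))) (XT.nd (nat_lit 78) (nat_lit 380) (nat_lit 0) (XT.lf (nat_lit 0) (nat_lit 5859563306) (nat_lit 380) (nat_lit 3558292950) (nat_lit 0) (nat_lit 112590891) (nat_lit 153) (nat_lit 5) (nat_lit 158) (nat_lit 4) (nat_lit 153) (nat_lit 4) (nat_lit 453) (nat_lit 377) (nat_lit 370)) (XT.lf (nat_lit 0) (nat_lit 698973213) (nat_lit 380) (nat_lit 5056228068)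 (nat_lit 76) (nat_lit 3902773469) (nat_lit 148) (nat_lit 5) (nat_lit 153) (nat_lit 5) (nat_lit 149) (nat_lit 4) (nat_lit 454) (nat_lit 377) (nat_lit 369))))) (XT.nd (nat_lit 312) (nat_lit 1064) (nat_lit 0) (XT.nd (nat_lit 156) (nat_lit 304) (nat_lit 0) (XT.nd (nat_lit 78) (nat_lit 304) (nat_lit 0) (XT.lf (nat_lit 0) (nat_lit 3164720449) (nat_lit 228) (nat_lit 1932238440) (nat_lit 304) (nat_lit 4692162103) (nat_lit 145) (nat_lit 5) (nat_lit 148) (nat_lit 5) (nat_lit 149) (nat_lit 4) (nat_lit 455) (nat_lit 377) (nat_lit 368)) (XT.lf (nat_lit 0) (nat_lit 1673717395) (nat_lit 304) (nat_lit 7945017246) (nat_lit 304) (nat_lit 305718835) (nat_lit 141) (nat_lit 4) (nat_lit 145) (nat_lit 5) (nat_lit 145) (nat_lit 4) (nat_lit 456) (nat_lit 377) (nat_lit 367))) (XT.nd (nat_lit 78) (nat_lit 0) (nat_lit 0) (XT.lf (nat_lit 0) (nat_lit 83240565) (nat_lit 228) (nat_lit 4039670628) (nat_lit 304) (nat_lit 5939943220) (nat_lit 137)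 (nat_lit 5) (nat_lit 140) (nat_lit 5) (nat_lit 141) (nat_lit 4) (nat_lit 457) (nat_lit 377) (nat_lit 366)) (XT.lf (nat_lit 0) (nat_lit 8668282068) (nat_lit 304) (nat_lit 1523811877) (nat_lit 0) (nat_lit 13528574) (nat_lit 137) (nat_lit 5) (nat_lit 141) (nat_lit 4) (nat_lit 137) (nat_lit 4) (nat_lit 458) (nat_lit 377) (nat_lit 365)))) (XT.nd (nat_lit 156) (nat_lit 532) (nat_lit 0) (XT.nd (nat_lit 78) (nat_lit 228) (nat_lit 0) (XT.lf (nat_lit 0) (nat_lit 2956394341) (nat_lit 304) (nat_lit 3245342865) (nat_lit 76) (nat_lit 4149552167) (nat_lit 133) (nat_lit 5) (nat_lit 137) (nat_lit 5) (nat_lit 134) (nat_lit 4) (nat_lit 459) (nat_lit 377) (nat_lit 364)) (XT.lf (nat_lit 0) (nat_lit 5466808140) (nat_lit 228) (nat_lit 2064451292) (nat_lit 304) (nat_lit 2970299820) (nat_lit 130) (nat_lit 5) (nat_lit 133) (nat_lit 5) (nat_lit 134) (nat_lit 4) (nat_lit 460) (nat_lit 377) (nat_lit 363))) (XT.nd (nat_lit 78) (nat_lit 228)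 (nat_lit 0) (XT.lf (nat_lit 0) (nat_lit 1556141938) (nat_lit 304) (nat_lit 6918440757) (nat_lit 76) (nat_lit 2181300362) (nat_lit 126) (nat_lit 5) (nat_lit 130) (nat_lit 5) (nat_lit 127) (nat_lit 4) (nat_lit 461) (nat_lit 377) (nat_lit 362)) (XT.lf (nat_lit 0) (nat_lit 1898943234) (nat_lit 228) (nat_lit 4259873785) (nat_lit 304) (nat_lit 4655138734) (nat_lit 123) (nat_lit 5) (nat_lit 126) (nat_lit 5) (nat_lit 127) (nat_lit 4) (nat_lit 462) (nat_lit 377) (nat_lit 361)))))) (XT.nd (nat_lit 624) (nat_lit 1140) (nat_lit 0) (XT.nd (nat_lit 312) (nat_lit 608) (nat_lit 0) (XT.nd (nat_lit 156) (nat_lit 456) (nat_lit 0) (XT.nd (nat_lit 78) (nat_lit 304) (nat_lit 0) (XT.lf (nat_lit 0) (nat_lit 10881616709) (nat_lit 304) (nat_lit 4547384) (nat_lit 0) (nat_lit 91150692) (nat_lit 123) (nat_lit 5) (nat_lit 127) (nat_lit 4) (nat_lit 123) (nat_lit 4) (nat_lit 463) (nat_lit 377) (nat_lit 360)) (XT.lf (nat_lit 0) (nat_lit 4554747699)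 (nat_lit 304) (nat_lit 2025735183) (nat_lit 76) (nat_lit 4562450341) (nat_lit 119) (nat_lit 5) (nat_lit 123) (nat_lit 5) (nat_lit 120) (nat_lit 4) (nat_lit 464) (nat_lit 377) (nat_lit 359))) (XT.nd (nat_lit 78) (nat_lit 304) (nat_lit 0) (XT.lf (nat_lit 0) (nat_lit 7191599817) (nat_lit 152) (nat_lit 2133946125) (nat_lit 228) (nat_lit 1988467991) (nat_lit 117) (nat_lit 5) (nat_lit 119) (nat_lit 5) (nat_lit 120) (nat_lit 4) (nat_lit 465) (nat_lit 377) (nat_lit 358)) (XT.lf (nat_lit 0) (nat_lit 2703631862) (nat_lit 304) (nat_lit 6349521215) (nat_lit 76) (nat_lit 2436044746) (nat_lit 113) (nat_lit 5) (nat_lit 117) (nat_lit 5) (nat_lit 114) (nat_lit 4) (nat_lit 466) (nat_lit 377) (nat_lit 357)))) (XT.nd (nat_lit 156) (nat_lit 152) (nat_lit 0) (XT.nd (nat_lit 78) (nat_lit 304) (nat_lit 0) (XT.lf (nat_lit 0) (nat_lit 2964606008) (nat_lit 152) (nat_lit 4537967285) (nat_lit 228) (nat_lit 4166296552) (nat_lit 111) (nat_lit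 5) (nat_lit 113) (nat_lit 5) (nat_lit 114) (nat_lit 4) (nat_lit 467) (nat_lit 377) (nat_lit 356)) (XT.lf (nat_lit 0) (nat_lit 567315296) (nat_lit 304) (nat_lit 11159887503) (nat_lit 76) (nat_lit 126943737) (nat_lit 107) (nat_lit 5) (nat_lit 111) (nat_lit 5) (nat_lit 108) (nat_lit 4) (nat_lit 468) (nat_lit 377) (nat_lit 355))) (XT.nd (nat_lit 78) (nat_lit 152) (nat_lit 0) (XT.lf (nat_lit 0) (nat_lit 5407997484) (nat_lit 304) (nat_lit 1724730603) (nat_lit 76) (nat_lit 4909556119) (nat_lit 107) (nat_lit 5) (nat_lit 111) (nat_lit 5) (nat_lit 108) (nat_lit 4) (nat_lit 469) (nat_lit 377) (nat_lit 354)) (XT.lf (nat_lit 0) (nat_lit 8005521512) (nat_lit 152) (nat_lit 2382909098) (nat_lit 228) (nat_lit 1847803564) (nat_lit 105) (nat_lit 5) (nat_lit 107) (nat_lit 5) (nat_lit 108) (nat_lit 4) (nat_lit 470) (nat_lit 377) (nat_lit 353))))) (XT.nd (nat_lit 312) (nat_lit 532) (nat_lit 0) (XT.nd (nat_lit 156) (nat_lit 228) (nat_lit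 0) (XT.nd (nat_lit 78) (nat_lit 152) (nat_lit 0) (XT.lf (nat_lit 0) (nat_lit 3035496885) (nat_lit 228) (nat_lit 6898087929) (nat_lit 76) (nat_lit 2501131740) (nat_lit 102) (nat_lit 5) (nat_lit 105) (nat_lit 5) (nat_lit 103) (nat_lit 4) (nat_lit 471) (nat_lit 377) (nat_lit 352)) (XT.lf (nat_lit 0) (nat_lit 2915594432) (nat_lit 152) (nat_lit 5125548274) (nat_lit 228) (nat_lit 4597076019) (nat_lit 100) (nat_lit 5) (nat_lit 102) (nat_lit 5) (nat_lit 103) (nat_lit 4) (nat_lit 472) (nat_lit 377) (nat_lit 351))) (XT.nd (nat_lit 78) (nat_lit 0) (nat_lit 0) (XT.lf (nat_lit 0) (nat_lit 173658890) (nat_lit 152) (nat_lit 159097271) (nat_lit 228) (nat_lit 12515259529) (nat_lit 97) (nat_lit 5) (nat_lit 99) (nat_lit 5) (nat_lit 100) (nat_lit 5) (nat_lit 473) (nat_lit 377) (nat_lit 350)) (XT.lf (nat_lit 0) (nat_lit 5383692115) (nat_lit 228) (nat_lit 2734589651) (nat_lit 76) (nat_lit 4942494583) (nat_lit 97) (nat_lit 5) (nat_lit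 100) (nat_lit 5) (nat_lit 98) (nat_lit 4) (nat_lit 474) (nat_lit 377) (nat_lit 349)))) (XT.nd (nat_lit 156) (nat_lit 152) (nat_lit 0) (XT.nd (nat_lit 78) (nat_lit 228) (nat_lit 0) (XT.lf (nat_lit 0) (nat_lit 7507089347) (nat_lit 152) (nat_lit 3073980024) (nat_lit 228) (nat_lit 2699006378) (nat_lit 95) (nat_lit 5) (nat_lit 97) (nat_lit 5) (nat_lit 98) (nat_lit 4) (nat_lit 475) (nat_lit 377) (nat_lit 348)) (XT.lf (nat_lit 0) (nat_lit 2394545646) (nat_lit 228) (nat_lit 8995847484) (nat_lit 76) (nat_lit 2114458258) (nat_lit 92) (nat_lit 5) (nat_lit 95) (nat_lit 5) (nat_lit 93) (nat_lit 4) (nat_lit 476) (nat_lit 377) (nat_lit 347))) (XT.nd (nat_lit 78) (nat_lit 0) (nat_lit 0) (XT.lf (nat_lit 0) (nat_lit 1309256297) (nat_lit 152) (nat_lit 6300993613) (nat_lit 228) (nat_lit 6124613949) (nat_lit 90) (nat_lit 5) (nat_lit 92) (nat_lit 5) (nat_lit 93) (nat_lit 4) (nat_lit 477) (nat_lit 377) (nat_lit 346)) (XT.lf (nat_lit 0)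 (nat_lit 11967579151) (nat_lit 152) (nat_lit 1028317329) (nat_lit 228) (nat_lit 975479036) (nat_lit 90) (nat_lit 5) (nat_lit 92) (nat_lit 5) (nat_lit 93) (nat_lit 4) (nat_lit 478) (nat_lit 377) (nat_lit 345))))))))
noncomputable def xc48 : XT := (XT.nd (nat_lit 2340) (nat_lit 1748) (nat_lit 0) (XT.nd (nat_lit 1170) (nat_lit 1216) (nat_lit 0) (XT.nd (nat_lit 546) (nat_lit 836) (nat_lit 0) (XT.nd (nat_lit 234) (nat_lit 380) (nat_lit 0) (XT.nd (nat_lit 78) (nat_lit 380) (nat_lit 0) (XT.lf (nat_lit 0) (nat_lit 4294613333) (nat_lit 228) (nat_lit 5534977735) (nat_lit 76) (nat_lit 4382617871) (nat_lit 87) (nat_lit 5) (nat_lit 90) (nat_lit 5) (nat_lit 88) (nat_lit 4) (nat_lit 479) (nat_lit 377) (nat_lit 344)) (XT.nd (nat_lit 78) (nat_lit 228) (nat_lit 0) (XT.lf (nat_lit 0) (nat_lit 5203529435) (nat_lit 152) (nat_lit 4504753785) (nat_lit 228) (nat_lit 4751544668) (nat_lit 85) (nat_lit 5) (nat_lit 87) (nat_lit 5) (nat_lit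 88) (nat_lit 4) (nat_lit 480) (nat_lit 377) (nat_lit 343)) (XT.lf (nat_lit 0) (nat_lit 563890122) (nat_lit 228) (nat_lit 13173953981) (nat_lit 76) (nat_lit 976704168) (nat_lit 82) (nat_lit 5) (nat_lit 85) (nat_lit 5) (nat_lit 83) (nat_lit 4) (nat_lit 481) (nat_lit 377) (nat_lit 342)))) (XT.nd (nat_lit 156) (nat_lit 304) (nat_lit 0) (XT.nd (nat_lit 78) (nat_lit 76) (nat_lit 0) (XT.lf (nat_lit 0) (nat_lit 6007155330) (nat_lit 228) (nat_lit 2354048271) (nat_lit 76) (nat_lit 6612381720) (nat_lit 82) (nat_lit 5) (nat_lit 85) (nat_lit 5) (nat_lit 83) (nat_lit 4) (nat_lit 482) (nat_lit 377) (nat_lit 341)) (XT.lf (nat_lit 0) (nat_lit 8828250810) (nat_lit 76) (nat_lit 2797389725) (nat_lit 152) (nat_lit 3614397684) (nat_lit 81) (nat_lit 5) (nat_lit 82) (nat_lit 5) (nat_lit 83) (nat_lit 4) (nat_lit 483) (nat_lit 377) (nat_lit 340))) (XT.nd (nat_lit 78) (nat_lit 76) (nat_lit 0) (XT.lf (nat_lit 0) (nat_lit 1887176928) (nat_lit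 228) (nat_lit 10720995533) (nat_lit 76) (nat_lit 2904986446) (nat_lit 78) (nat_lit 5) (nat_lit 81) (nat_lit 5) (nat_lit 79) (nat_lit 4) (nat_lit 484) (nat_lit 377) (nat_lit 339)) (XT.lf (nat_lit 0) (nat_lit 481549852) (nat_lit 76) (nat_lit 7024754511) (nat_lit 152) (nat_lit 8286342921) (nat_lit 77) (nat_lit 5) (nat_lit 78) (nat_lit 5) (nat_lit 79) (nat_lit 4) (nat_lit 485) (nat_lit 377) (nat_lit 338))))) (XT.nd (nat_lit 312) (nat_lit 532) (nat_lit 0) (XT.nd (nat_lit 156) (nat_lit 76) (nat_lit 0) (XT.nd (nat_lit 78) (nat_lit 228) (nat_lit 0) (XT.lf (nat_lit 0) (nat_lit 12106403614) (nat_lit 76) (nat_lit 1224130833) (nat_lit 152) (nat_lit 2748892129) (nat_lit 77) (nat_lit 5) (nat_lit 78) (nat_lit 5) (nat_lit 79) (nat_lit 4) (nat_lit 486) (nat_lit 377) (nat_lit 337)) (XT.lf (nat_lit 0) (nat_lit 2946763917) (nat_lit 228) (nat_lit 8724028397) (nat_lit 76) (nat_lit 4701674728) (nat_lit 74) (nat_lit 5) (nat_lit 77) (nat_lit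 5) (nat_lit 75) (nat_lit 4) (nat_lit 487) (nat_lit 377) (nat_lit 336))) (XT.nd (nat_lit 78) (nat_lit 0) (nat_lit 0) (XT.lf (nat_lit 0) (nat_lit 2912721260) (nat_lit 76) (nat_lit 5855842032) (nat_lit 152) (nat_lit 7904605168) (nat_lit 73) (nat_lit 5) (nat_lit 74) (nat_lit 5) (nat_lit 75) (nat_lit 4) (nat_lit 488) (nat_lit 377) (nat_lit 335)) (XT.lf (nat_lit 0) (nat_lit 14785365426) (nat_lit 152) (nat_lit 2036482369) (nat_lit 0) (nat_lit 160434553) (nat_lit 73) (nat_lit 5) (nat_lit 75) (nat_lit 4) (nat_lit 73) (nat_lit 4) (nat_lit 489) (nat_lit 377) (nat_lit 334)))) (XT.nd (nat_lit 156) (nat_lit 228) (nat_lit 0) (XT.nd (nat_lit 78) (nat_lit 76) (nat_lit 0) (XT.lf (nat_lit 0) (nat_lit 3697724986) (nat_lit 228) (nat_lit 7284650175) (nat_lit 76) (nat_lit 6314607304) (nat_lit 70) (nat_lit 5) (nat_lit 73) (nat_lit 5) (nat_lit 71) (nat_lit 4) (nat_lit 490) (nat_lit 377) (nat_lit 333)) (XT.lf (nat_lit 0) (nat_lit 4787562973)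 (nat_lit 76) (nat_lit 4936505006) (nat_lit 152) (nat_lit 7896434256) (nat_lit 69) (nat_lit 5) (nat_lit 70) (nat_lit 5) (nat_lit 71) (nat_lit 4) (nat_lit 491) (nat_lit 377) (nat_lit 332))) (XT.nd (nat_lit 78) (nat_lit 228) (nat_lit 0) (XT.lf (nat_lit 0) (nat_lit 15950312336) (nat_lit 152) (nat_lit 721328531) (nat_lit 0) (nat_lit 1281515081) (nat_lit 69) (nat_lit 5) (nat_lit 71) (nat_lit 4) (nat_lit 69) (nat_lit 4) (nat_lit 492) (nat_lit 377) (nat_lit 331)) (XT.lf (nat_lit 0) (nat_lit 4085933010) (nat_lit 228) (nat_lit 6521931851) (nat_lit 76) (nat_lit 7683820475) (nat_lit 66) (nat_lit 5) (nat_lit 69) (nat_lit 5) (nat_lit 67) (nat_lit 4) (nat_lit 493) (nat_lit 377) (nat_lit 330)))))) (XT.nd (nat_lit 546) (nat_lit 532) (nat_lit 0) (XT.nd (nat_lit 234) (nat_lit 380) (nat_lit 0) (XT.nd (nat_lit 78) (nat_lit 228) (nat_lit 0) (XT.lf (nat_lit 0) (nat_lit 5982740777) (nat_lit 76) (nat_lit 4333710868) (nat_lit 152) (nat_lit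 8323345578) (nat_lit 65) (nat_lit 5) (nat_lit 66) (nat_lit 5) (nat_lit 67) (nat_lit 4) (nat_lit 494) (nat_lit 377) (nat_lit 329)) (XT.nd (nat_lit 78) (nat_lit 228) (nat_lit 0) (XT.lf (nat_lit 0) (nat_lit 16755491998) (nat_lit 152) (nat_lit 145715039) (nat_lit 0) (nat_lit 2096498739) (nat_lit 65) (nat_lit 5) (nat_lit 67) (nat_lit 4) (nat_lit 65) (nat_lit 4) (nat_lit 495) (nat_lit 377) (nat_lit 328)) (XT.lf (nat_lit 0) (nat_lit 4046648062) (nat_lit 228) (nat_lit 6575419373) (nat_lit 76) (nat_lit 8740012874) (nat_lit 62) (nat_lit 5) (nat_lit 65) (nat_lit 5) (nat_lit 63) (nat_lit 4) (nat_lit 496) (nat_lit 377) (nat_lit 327)))) (XT.nd (nat_lit 156) (nat_lit 304) (nat_lit 0) (XT.nd (nat_lit 78) (nat_lit 0) (nat_lit 0) (XT.lf (nat_lit 0) (nat_lit 6353494352) (nat_lit 76) (nat_lit 4124787369) (nat_lit 152) (nat_lit 9258464552) (nat_lit 61) (nat_lit 5) (nat_lit 62) (nat_lit 5) (nat_lit 63) (nat_lit 4) (nat_lit 497) (nat_lit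 377) (nat_lit 326)) (XT.lf (nat_lit 0) (nat_lit 17131359613) (nat_lit 152) (nat_lit 462004030) (nat_lit 0) (nat_lit 2528435045) (nat_lit 61) (nat_lit 5) (nat_lit 63) (nat_lit 4) (nat_lit 61) (nat_lit 4) (nat_lit 498) (nat_lit 377) (nat_lit 325))) (XT.nd (nat_lit 78) (nat_lit 76) (nat_lit 0) (XT.lf (nat_lit 0) (nat_lit 3502865027) (nat_lit 228) (nat_lit 7608608478) (nat_lit 76) (nat_lit 9402785066) (nat_lit 58) (nat_lit 5) (nat_lit 61) (nat_lit 5) (nat_lit 59) (nat_lit 4) (nat_lit 499) (nat_lit 377) (nat_lit 324)) (XT.lf (nat_lit 0) (nat_lit 5729995494) (nat_lit 76) (nat_lit 4399327999) (nat_lit 152) (nat_lit 10788327921) (nat_lit 57) (nat_lit 5) (nat_lit 58) (nat_lit 5) (nat_lit 59) (nat_lit 4) (nat_lit 500) (nat_lit 377) (nat_lit 323))))) (XT.nd (nat_lit 312) (nat_lit 304) (nat_lit 0) (XT.nd (nat_lit 156) (nat_lit 76) (nat_lit 0) (XT.nd (nat_lit 78) (nat_lit 152) (nat_lit 0) (XT.lf (nat_lit 0) (nat_lit 16995135163)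 (nat_lit 152) (nat_lit 1848789764) (nat_lit 0) (nat_lit 2488005510) (nat_lit 57) (nat_lit 5) (nat_lit 59) (nat_lit 4) (nat_lit 57) (nat_lit 4) (nat_lit 501) (nat_lit 377) (nat_lit 322)) (XT.lf (nat_lit 0) (nat_lit 2363383437) (nat_lit 152) (nat_lit 9812969942) (nat_lit 76) (nat_lit 9578615616) (nat_lit 55) (nat_lit 5) (nat_lit 57) (nat_lit 5) (nat_lit 56) (nat_lit 4) (nat_lit 502) (nat_lit 377) (nat_lit 321))) (XT.nd (nat_lit 78) (nat_lit 0) (nat_lit 0) (XT.lf (nat_lit 0) (nat_lit 3913128211) (nat_lit 76) (nat_lit 5261384292) (nat_lit 152) (nat_lit 13014985820) (nat_lit 54) (nat_lit 5) (nat_lit 55) (nat_lit 5) (nat_lit 56) (nat_lit 4) (nat_lit 503) (nat_lit 377) (nat_lit 320)) (XT.lf (nat_lit 0) (nat_lit 16248694552) (nat_lit 152) (nat_lit 4515291585) (nat_lit 0) (nat_lit 1871316867) (nat_lit 54) (nat_lit 5) (nat_lit 56) (nat_lit 4) (nat_lit 54) (nat_lit 4) (nat_lit 504) (nat_lit 377) (nat_lit 319)))) (XT.nd (nat_lit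 156) (nat_lit 76) (nat_lit 0) (XT.nd (nat_lit 78) (nat_lit 76) (nat_lit 0) (XT.lf (nat_lit 0) (nat_lit 520556254) (nat_lit 152) (nat_lit 13412614597) (nat_lit 76) (nat_lit 9158528873) (nat_lit 52) (nat_lit 5) (nat_lit 54) (nat_lit 5) (nat_lit 53) (nat_lit 4) (nat_lit 505) (nat_lit 377) (nat_lit 318)) (XT.lf (nat_lit 0) (nat_lit 669596919) (nat_lit 76) (nat_lit 6831993326) (nat_lit 152) (nat_lit 16058451484) (nat_lit 51) (nat_lit 5) (nat_lit 52) (nat_lit 5) (nat_lit 53) (nat_lit 4) (nat_lit 506) (nat_lit 377) (nat_lit 317))) (XT.nd (nat_lit 78) (nat_lit 76) (nat_lit 0) (XT.lf (nat_lit 0) (nat_lit 14776111013) (nat_lit 152) (nat_lit 8706446719) (nat_lit 0) (nat_lit 557355519) (nat_lit 51) (nat_lit 5) (nat_lit 53) (nat_lit 4) (nat_lit 51) (nat_lit 4) (nat_lit 507) (nat_lit 377) (nat_lit 316)) (XT.lf (nat_lit 0) (nat_lit 5841335842) (nat_lit 76) (nat_lit 16495634541) (nat_lit 76) (nat_lit 2195168350) (nat_lit 50) (nat_lit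 4) (nat_lit 51) (nat_lit 5) (nat_lit 51) (nat_lit 4) (nat_lit 508) (nat_lit 377) (nat_lit 315))))))) (XT.nd (nat_lit 1170) (nat_lit 836) (nat_lit 0) (XT.nd (nat_lit 546) (nat_lit 456) (nat_lit 0) (XT.nd (nat_lit 234) (nat_lit 228) (nat_lit 0) (XT.nd (nat_lit 78) (nat_lit 152) (nat_lit 0) (XT.lf (nat_lit 0) (nat_lit 5019432122) (nat_lit 152) (nat_lit 4190349755) (nat_lit 76) (nat_lit 15826889065) (nat_lit 49) (nat_lit 5) (nat_lit 51) (nat_lit 5) (nat_lit 50) (nat_lit 4) (nat_lit 509) (nat_lit 377) (nat_lit 314)) (XT.nd (nat_lit 78) (nat_lit 76) (nat_lit 0) (XT.lf (nat_lit 0) (nat_lit 10829732864) (nat_lit 76) (nat_lit 1626695705) (nat_lit 152) (nat_lit 13097756985) (nat_lit 48) (nat_lit 5) (nat_lit 49) (nat_lit 5) (nat_lit 50) (nat_lit 4) (nat_lit 510) (nat_lit 377) (nat_lit 313)) (XT.lf (nat_lit 0) (nat_lit 138126441) (nat_lit 76) (nat_lit 20027978280) (nat_lit 76) (nat_lit 5919634594) (nat_lit 47) (nat_lit 4) (nat_lit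 48) (nat_lit 5) (nat_lit 48) (nat_lit 4) (nat_lit 511) (nat_lit 377) (nat_lit 312)))) (XT.nd (nat_lit 156) (nat_lit 76) (nat_lit 0) (XT.nd (nat_lit 78) (nat_lit 76) (nat_lit 0) (XT.lf (nat_lit 0) (nat_lit 1557445110) (nat_lit 152) (nat_lit 11017214475) (nat_lit 76) (nat_lit 14054784635) (nat_lit 46) (nat_lit 5) (nat_lit 48) (nat_lit 5) (nat_lit 47) (nat_lit 4) (nat_lit 512) (nat_lit 377) (nat_lit 311)) (XT.lf (nat_lit 0) (nat_lit 4284034225) (nat_lit 76) (nat_lit 4844681882) (nat_lit 152) (nat_lit 18059320864) (nat_lit 45) (nat_lit 5) (nat_lit 46) (nat_lit 5) (nat_lit 47) (nat_lit 4) (nat_lit 513) (nat_lit 377) (nat_lit 310))) (XT.nd (nat_lit 78) (nat_lit 76) (nat_lit 0) (XT.lf (nat_lit 0) (nat_lit 17017199283) (nat_lit 152) (nat_lit 7623081360) (nat_lit 0) (nat_lit 3120405353) (nat_lit 45) (nat_lit 5) (nat_lit 47) (nat_lit 4) (nat_lit 45) (nat_lit 4) (nat_lit 514) (nat_lit 377) (nat_lit 309)) (XT.lf (nat_lit 0)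 (nat_lit 8127748763) (nat_lit 76) (nat_lit 17089961794) (nat_lit 76) (nat_lit 3130543419) (nat_lit 44) (nat_lit 4) (nat_lit 45) (nat_lit 5) (nat_lit 45) (nat_lit 4) (nat_lit 515) (nat_lit 377) (nat_lit 308))))) (XT.nd (nat_lit 312) (nat_lit 228) (nat_lit 0) (XT.nd (nat_lit 156) (nat_lit 76) (nat_lit 0) (XT.nd (nat_lit 78) (nat_lit 76) (nat_lit 0) (XT.lf (nat_lit 0) (nat_lit 4645917622) (nat_lit 152) (nat_lit 4589006034) (nat_lit 76) (nat_lit 19716355887) (nat_lit 43) (nat_lit 5) (nat_lit 45) (nat_lit 5) (nat_lit 44) (nat_lit 4) (nat_lit 516) (nat_lit 377) (nat_lit 307)) (XT.lf (nat_lit 0) (nat_lit 11610707688) (nat_lit 76) (nat_lit 1044443071) (nat_lit 152) (nat_lit 16914443914) (nat_lit 42) (nat_lit 5) (nat_lit 43) (nat_lit 5) (nat_lit 44) (nat_lit 4) (nat_lit 517) (nat_lit 377) (nat_lit 306))) (XT.nd (nat_lit 78) (nat_lit 76) (nat_lit 0) (XT.lf (nat_lit 0) (nat_lit 20973371676) (nat_lit 152) (nat_lit 1982469366)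 (nat_lit 0) (nat_lit 7248557508) (nat_lit 42) (nat_lit 5) (nat_lit 44) (nat_lit 4) (nat_lit 42) (nat_lit 4) (nat_lit 518) (nat_lit 377) (nat_lit 305)) (XT.lf (nat_lit 0) (nat_lit 14655314231) (nat_lit 76) (nat_lit 14989331144) (nat_lit 76) (nat_lit 1210496579) (nat_lit 41) (nat_lit 4) (nat_lit 42) (nat_lit 5) (nat_lit 42) (nat_lit 4) (nat_lit 519) (nat_lit 377) (nat_lit 304)))) (XT.nd (nat_lit 156) (nat_lit 76) (nat_lit 0) (XT.nd (nat_lit 78) (nat_lit 0) (nat_lit 0) (XT.lf (nat_lit 0) (nat_lit 149409384) (nat_lit 76) (nat_lit 6737630485) (nat_lit 152) (nat_lit 24637115887) (nat_lit 39) (nat_lit 5) (nat_lit 40) (nat_lit 5) (nat_lit 41) (nat_lit 4) (nat_lit 520) (nat_lit 377) (nat_lit 303)) (XT.lf (nat_lit 0) (nat_lit 15337693426) (nat_lit 152) (nat_lit 15011323496) (nat_lit 0) (nat_lit 1859828419) (nat_lit 39) (nat_lit 5) (nat_lit 41) (nat_lit 4) (nat_lit 39) (nat_lit 4) (nat_lit 521) (nat_lit 377) (nat_lit 302)))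 (XT.nd (nat_lit 78) (nat_lit 0) (nat_lit 0) (XT.lf (nat_lit 0) (nat_lit 1718906019) (nat_lit 76) (nat_lit 22359960774) (nat_lit 76) (nat_lit 8834099345) (nat_lit 38) (nat_lit 4) (nat_lit 39) (nat_lit 5) (nat_lit 39) (nat_lit 4) (nat_lit 522) (nat_lit 377) (nat_lit 301)) (XT.lf (nat_lit 0) (nat_lit 19168722414) (nat_lit 76) (nat_lit 14019386772) (nat_lit 76) (nat_lit 446926874) (nat_lit 38) (nat_lit 4) (nat_lit 39) (nat_lit 5) (nat_lit 39) (nat_lit 4) (nat_lit 523) (nat_lit 377) (nat_lit 300)))))) (XT.nd (nat_lit 546) (nat_lit 380) (nat_lit 0) (XT.nd (nat_lit 234) (nat_lit 228) (nat_lit 0) (XT.nd (nat_lit 78) (nat_lit 76) (nat_lit 0) (XT.lf (nat_lit 0) (nat_lit 2647881510) (nat_lit 76) (nat_lit 5364720775) (nat_lit 152) (nat_lit 26364386099) (nat_lit 36) (nat_lit 5) (nat_lit 37) (nat_lit 5) (nat_lit 38) (nat_lit 4) (nat_lit 524) (nat_lit 377) (nat_lit 299)) (XT.nd (nat_lit 78) (nat_lit 76) (nat_lit 0) (XT.lf (nat_lit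 0) (nat_lit 16853776437) (nat_lit 152) (nat_lit 14693122126) (nat_lit 0) (nat_lit 3590063178) (nat_lit 36) (nat_lit 5) (nat_lit 38) (nat_lit 4) (nat_lit 36) (nat_lit 4) (nat_lit 525) (nat_lit 377) (nat_lit 298)) (XT.lf (nat_lit 0) (nat_lit 2769073426) (nat_lit 76) (nat_lit 23227344875) (nat_lit 76) (nat_lit 9922229481) (nat_lit 35) (nat_lit 4) (nat_lit 36) (nat_lit 5) (nat_lit 36) (nat_lit 4) (nat_lit 526) (nat_lit 377) (nat_lit 297)))) (XT.nd (nat_lit 156) (nat_lit 76) (nat_lit 0) (XT.nd (nat_lit 78) (nat_lit 152) (nat_lit 0) (XT.lf (nat_lit 0) (nat_lit 20971383207) (nat_lit 76) (nat_lit 14547276833) (nat_lit 76) (nat_lit 1201965190) (nat_lit 35) (nat_lit 4) (nat_lit 36) (nat_lit 5) (nat_lit 36) (nat_lit 4) (nat_lit 527) (nat_lit 377) (nat_lit 296)) (XT.lf (nat_lit 0) (nat_lit 2055104968) (nat_lit 76) (nat_lit 5550531531) (nat_lit 152) (nat_lit 29939456061) (nat_lit 33) (nat_lit 5) (nat_lit 34) (nat_lit 5) (nat_lit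 35) (nat_lit 4) (nat_lit 528) (nat_lit 377) (nat_lit 295))) (XT.nd (nat_lit 78) (nat_lit 76) (nat_lit 0) (XT.lf (nat_lit 0) (nat_lit 16807474175) (nat_lit 152) (nat_lit 17805651286) (nat_lit 0) (nat_lit 3776186849) (nat_lit 33) (nat_lit 5) (nat_lit 35) (nat_lit 4) (nat_lit 33) (nat_lit 4) (nat_lit 529) (nat_lit 377) (nat_lit 294)) (XT.lf (nat_lit 0) (nat_lit 278769025) (nat_lit 76) (nat_lit 26023295140) (nat_lit 76) (nat_lit 12956293968) (nat_lit 32) (nat_lit 4) (nat_lit 33) (nat_lit 5) (nat_lit 33) (nat_lit 4) (nat_lit 530) (nat_lit 377) (nat_lit 293))))) (XT.nd (nat_lit 312) (nat_lit 228) (nat_lit 0) (XT.nd (nat_lit 156) (nat_lit 76) (nat_lit 0) (XT.nd (nat_lit 78) (nat_lit 76) (nat_lit 0) (XT.lf (nat_lit 0) (nat_lit 19190583661) (nat_lit 76) (nat_lit 17030194142) (nat_lit 76) (nat_lit 3928519332) (nat_lit 32) (nat_lit 4) (nat_lit 33) (nat_lit 5) (nat_lit 33) (nat_lit 4) (nat_lit 531) (nat_lit 377) (nat_lit 292))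 (XT.lf (nat_lit 0) (nat_lit 5225572806) (nat_lit 152) (nat_lit 2527425737) (nat_lit 76) (nat_lit 33313609287) (nat_lit 31) (nat_lit 5) (nat_lit 33) (nat_lit 5) (nat_lit 32) (nat_lit 4) (nat_lit 532) (nat_lit 377) (nat_lit 291))) (XT.nd (nat_lit 78) (nat_lit 0) (nat_lit 0) (XT.lf (nat_lit 0) (nat_lit 14715906713) (nat_lit 152) (nat_lit 25358727683) (nat_lit 0) (nat_lit 1931419564) (nat_lit 30) (nat_lit 5) (nat_lit 32) (nat_lit 4) (nat_lit 30) (nat_lit 4) (nat_lit 533) (nat_lit 377) (nat_lit 290)) (XT.lf (nat_lit 0) (nat_lit 24554956546) (nat_lit 152) (nat_lit 6677144771) (nat_lit 0) (nat_lit 11739662320) (nat_lit 30) (nat_lit 5) (nat_lit 32) (nat_lit 4) (nat_lit 30) (nat_lit 4) (nat_lit 534) (nat_lit 377) (nat_lit 289)))) (XT.nd (nat_lit 156) (nat_lit 76) (nat_lit 0) (XT.nd (nat_lit 78) (nat_lit 76) (nat_lit 0) (XT.lf (nat_lit 0) (nat_lit 12739357441) (nat_lit 76) (nat_lit 22034870009) (nat_lit 76) (nat_lit 9189665998)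 (nat_lit 29) (nat_lit 4) (nat_lit 30) (nat_lit 5) (nat_lit 30) (nat_lit 4) (nat_lit 535) (nat_lit 377) (nat_lit 288)) (XT.lf (nat_lit 0) (nat_lit 338858334) (nat_lit 152) (nat_lit 12186360217) (nat_lit 76) (nat_lit 32459557222) (nat_lit 28) (nat_lit 5) (nat_lit 30) (nat_lit 5) (nat_lit 29) (nat_lit 4) (nat_lit 536) (nat_lit 377) (nat_lit 287))) (XT.nd (nat_lit 78) (nat_lit 0) (nat_lit 0) (XT.lf (nat_lit 0) (nat_lit 7404484784) (nat_lit 76) (nat_lit 2598924210) (nat_lit 152) (nat_lit 36029100058) (nat_lit 27) (nat_lit 5) (nat_lit 28) (nat_lit 5) (nat_lit 29) (nat_lit 4) (nat_lit 537) (nat_lit 377) (nat_lit 286)) (XT.lf (nat_lit 0) (nat_lit 20119200487) (nat_lit 152) (nat_lit 19421645360) (nat_lit 0) (nat_lit 7565989648) (nat_lit 27) (nat_lit 5) (nat_lit 29) (nat_lit 4) (nat_lit 27) (nat_lit 4) (nat_lit 538) (nat_lit 377) (nat_lit 285))))))))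
noncomputable def xc49 : XT := (XT.nd (nat_lit 56316) (nat_lit 0) (nat_lit 3876) (XT.nd (nat_lit 55146) (nat_lit 0) (nat_lit 8664) (XT.nd (nat_lit 546) (nat_lit 304) (nat_lit 0) (XT.nd (nat_lit 234) (nat_lit 152) (nat_lit 0) (XT.nd (nat_lit 78) (nat_lit 76) (nat_lit 0) (XT.lf (nat_lit 0) (nat_lit 270559713) (nat_lit 76) (nat_lit 30261025009) (nat_lit 76) (nat_lit 17682013726) (nat_lit 26) (nat_lit 4) (nat_lit 27) (nat_lit 5) (nat_lit 27) (nat_lit 4) (nat_lit 539) (nat_lit 377) (nat_lit 284)) (XT.nd (nat_lit 78) (nat_lit 76) (nat_lit 0) (XT.lf (nat_lit 0) (nat_lit 20882428175) (nat_lit 76) (nat_lit 20535179318) (nat_lit 76) (nat_lit 7931119062) (nat_lit 26) (nat_lit 4) (nat_lit 27) (nat_lit 5) (nat_lit 27) (nat_lit 4) (nat_lit 540) (nat_lit 377) (nat_lit 283)) (XT.lf (nat_lit 0) (nat_lit 2036910139) (nat_lit 152) (nat_lit 8493452062) (nat_lit 76) (nat_lit 39987962633) (nat_lit 25) (nat_lit 5) (nat_lit 27) (nat_lit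 5) (nat_lit 26) (nat_lit 4) (nat_lit 541) (nat_lit 377) (nat_lit 282)))) (XT.nd (nat_lit 156) (nat_lit 76) (nat_lit 0) (XT.nd (nat_lit 78) (nat_lit 0) (nat_lit 0) (XT.lf (nat_lit 0) (nat_lit 12171652411) (nat_lit 76) (nat_lit 56743213) (nat_lit 152) (nat_lit 39489745223) (nat_lit 24) (nat_lit 5) (nat_lit 25) (nat_lit 5) (nat_lit 26) (nat_lit 4) (nat_lit 542) (nat_lit 377) (nat_lit 281)) (XT.lf (nat_lit 0) (nat_lit 22882244732) (nat_lit 152) (nat_lit 19490505361) (nat_lit 0) (nat_lit 10576502921) (nat_lit 24) (nat_lit 5) (nat_lit 26) (nat_lit 4) (nat_lit 24) (nat_lit 4) (nat_lit 543) (nat_lit 377) (nat_lit 280))) (XT.nd (nat_lit 78) (nat_lit 0) (nat_lit 0) (XT.lf (nat_lit 0) (nat_lit 1124517844) (nat_lit 76) (nat_lit 32710377320) (nat_lit 76) (nat_lit 20383028045) (nat_lit 23) (nat_lit 4) (nat_lit 24) (nat_lit 5) (nat_lit 24) (nat_lit 4) (nat_lit 544) (nat_lit 377) (nat_lit 279)) (XT.lf (nat_lit 0) (nat_lit 22694134713)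 (nat_lit 76) (nat_lit 22586948836) (nat_lit 76) (nat_lit 10238621440) (nat_lit 23) (nat_lit 4) (nat_lit 24) (nat_lit 5) (nat_lit 24) (nat_lit 4) (nat_lit 545) (nat_lit 377) (nat_lit 278))))) (XT.nd (nat_lit 312) (nat_lit 152) (nat_lit 0) (XT.nd (nat_lit 156) (nat_lit 0) (nat_lit 0) (XT.nd (nat_lit 78) (nat_lit 76) (nat_lit 0) (XT.lf (nat_lit 0) (nat_lit 174781200) (nat_lit 152) (nat_lit 12013888667) (nat_lit 76) (nat_lit 44672747063) (nat_lit 22) (nat_lit 5) (nat_lit 24) (nat_lit 5) (nat_lit 23) (nat_lit 4) (nat_lit 546) (nat_lit 377) (nat_lit 277)) (XT.lf (nat_lit 0) (nat_lit 9444713261) (nat_lit 76) (nat_lit 1310548637) (nat_lit 152) (nat_lit 47483263502) (nat_lit 21) (nat_lit 5) (nat_lit 22) (nat_lit 5) (nat_lit 23) (nat_lit 4) (nat_lit 547) (nat_lit 377) (nat_lit 276))) (XT.nd (nat_lit 78) (nat_lit 0) (nat_lit 0) (XT.lf (nat_lit 0) (nat_lit 21840477854) (nat_lit 152) (nat_lit 28016650005) (nat_lit 0) (nat_lit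 9794199848) (nat_lit 21) (nat_lit 5) (nat_lit 23) (nat_lit 4) (nat_lit 21) (nat_lit 4) (nat_lit 548) (nat_lit 377) (nat_lit 275)) (XT.lf (nat_lit 0) (nat_lit 33241805226) (nat_lit 152) (nat_lit 6687771099) (nat_lit 0) (nat_lit 21177431309) (nat_lit 21) (nat_lit 5) (nat_lit 23) (nat_lit 4) (nat_lit 21) (nat_lit 4) (nat_lit 549) (nat_lit 377) (nat_lit 274)))) (XT.nd (nat_lit 156) (nat_lit 76) (nat_lit 0) (XT.nd (nat_lit 78) (nat_lit 0) (nat_lit 0) (XT.lf (nat_lit 0) (nat_lit 15527047886) (nat_lit 76) (nat_lit 29578816142) (nat_lit 76) (nat_lit 17496873379) (nat_lit 20) (nat_lit 4) (nat_lit 21) (nat_lit 5) (nat_lit 21) (nat_lit 4) (nat_lit 550) (nat_lit 377) (nat_lit 273)) (XT.lf (nat_lit 0) (nat_lit 38489047266) (nat_lit 76) (nat_lit 18876057049) (nat_lit 76) (nat_lit 6777057154) (nat_lit 20) (nat_lit 4) (nat_lit 21) (nat_lit 5) (nat_lit 21) (nat_lit 4) (nat_lit 551) (nat_lit 377) (nat_lit 272))) (XT.nd (nat_lit 54054)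 (nat_lit 0) (nat_lit 13072) (XT.lf (nat_lit 0) (nat_lit 4153418546) (nat_lit 152) (nat_lit 3684120567) (nat_lit 76) (nat_lit 57889831234) (nat_lit 19) (nat_lit 5) (nat_lit 21) (nat_lit 5) (nat_lit 20) (nat_lit 4) (nat_lit 552) (nat_lit 377) (nat_lit 271)) (XT.lf (nat_lit 0) (nat_lit 1935870105) (nat_lit 456) (nat_lit 395457928) (nat_lit 0) (nat_lit 1935870105) (nat_lit 191) (nat_lit 5) (nat_lit 197) (nat_lit 4) (nat_lit 191) (nat_lit 4) (nat_lit 444) (nat_lit 378) (nat_lit 378)))))) (XT.nd (nat_lit 546) (nat_lit 2204) (nat_lit 0) (XT.nd (nat_lit 234) (nat_lit 1064) (nat_lit 0) (XT.nd (nat_lit 78) (nat_lit 760) (nat_lit 0) (XT.lf (nat_lit 0) (nat_lit 6593281141) (nat_lit 380) (nat_lit 1539175434) (nat_lit 380) (nat_lit 500977309) (nat_lit 186) (nat_lit 4) (nat_lit 191) (nat_lit 5) (nat_lit 191) (nat_lit 4) (nat_lit 445) (nat_lit 378) (nat_lit 377)) (XT.nd (nat_lit 78) (nat_lit 380) (nat_lit 0) (XT.lf (nat_lit 0)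 (nat_lit 3686446190) (nat_lit 380) (nat_lit 3348787122) (nat_lit 0) (nat_lit 1699885539) (nat_lit 181) (nat_lit 5) (nat_lit 186) (nat_lit 4) (nat_lit 181) (nat_lit 4) (nat_lit 446) (nat_lit 378) (nat_lit 376)) (XT.lf (nat_lit 0) (nat_lit 4152151651) (nat_lit 380) (nat_lit 3812483534) (nat_lit 380) (nat_lit 875824528) (nat_lit 176) (nat_lit 4) (nat_lit 181) (nat_lit 5) (nat_lit 181) (nat_lit 4) (nat_lit 447) (nat_lit 378) (nat_lit 375)))) (XT.nd (nat_lit 156) (nat_lit 380) (nat_lit 0) (XT.nd (nat_lit 78) (nat_lit 304) (nat_lit 0) (XT.lf (nat_lit 0) (nat_lit 2874448771) (nat_lit 304) (nat_lit 442562738) (nat_lit 380) (nat_lit 5632124845) (nat_lit 171) (nat_lit 5) (nat_lit 175) (nat_lit 5) (nat_lit 176) (nat_lit 4) (nat_lit 448) (nat_lit 378) (nat_lit 374)) (XT.lf (nat_lit 0) (nat_lit 1544116754) (nat_lit 304) (nat_lit 6066542880) (nat_lit 304) (nat_lit 1450384224) (nat_lit 167) (nat_lit 4) (nat_lit 171) (nat_lit 5)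 (nat_lit 171) (nat_lit 4) (nat_lit 449) (nat_lit 378) (nat_lit 373))) (XT.nd (nat_lit 78) (nat_lit 0) (nat_lit 0) (XT.lf (nat_lit 0) (nat_lit 163459114) (nat_lit 304) (nat_lit 2606869877) (nat_lit 380) (nat_lit 6406086812) (nat_lit 162) (nat_lit 5) (nat_lit 166) (nat_lit 5) (nat_lit 167) (nat_lit 4) (nat_lit 450) (nat_lit 378) (nat_lit 372)) (XT.lf (nat_lit 0) (nat_lit 7076703541) (nat_lit 380) (nat_lit 1238737116) (nat_lit 0) (nat_lit 979740506) (nat_lit 162) (nat_lit 5) (nat_lit 167) (nat_lit 4) (nat_lit 162) (nat_lit 4) (nat_lit 451) (nat_lit 378) (nat_lit 371))))) (XT.nd (nat_lit 312) (nat_lit 912) (nat_lit 0) (XT.nd (nat_lit 156) (nat_lit 608) (nat_lit 0) (XT.nd (nat_lit 78) (nat_lit 304) (nat_lit 0) (XT.lf (nat_lit 0) (nat_lit 2049506479) (nat_lit 380) (nat_lit 2708981789) (nat_lit 76) (nat_lit 4658556740) (nat_lit 157) (nat_lit 5) (nat_lit 162) (nat_lit 5) (nat_lit 158) (nat_lit 4) (nat_lit 452) (nat_lit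 378) (nat_lit 370)) (XT.lf (nat_lit 0) (nat_lit 5312139015) (nat_lit 304) (nat_lit 1058124715) (nat_lit 380) (nat_lit 3172570456) (nat_lit 153) (nat_lit 5) (nat_lit 157) (nat_lit 5) (nat_lit 158) (nat_lit 4) (nat_lit 453) (nat_lit 378) (nat_lit 369))) (XT.nd (nat_lit 78) (nat_lit 228) (nat_lit 0) (XT.lf (nat_lit 0) (nat_lit 1123495136) (nat_lit 380) (nat_lit 5823836556) (nat_lit 76) (nat_lit 2724812161) (nat_lit 148) (nat_lit 5) (nat_lit 153) (nat_lit 5) (nat_lit 149) (nat_lit 4) (nat_lit 454) (nat_lit 378) (nat_lit 368)) (XT.lf (nat_lit 0) (nat_lit 2307881401) (nat_lit 228) (nat_lit 3159500052) (nat_lit 304) (nat_lit 4337535253) (nat_lit 145) (nat_lit 5) (nat_lit 148) (nat_lit 5) (nat_lit 149) (nat_lit 4) (nat_lit 455) (nat_lit 378) (nat_lit 367)))) (XT.nd (nat_lit 156) (nat_lit 532) (nat_lit 0) (XT.nd (nat_lit 78) (nat_lit 76) (nat_lit 0) (XT.lf (nat_lit 0) (nat_lit 721392358) (nat_lit 304) (nat_lit 9201340534)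 (nat_lit 304) (nat_lit 19512553) (nat_lit 141) (nat_lit 4) (nat_lit 145) (nat_lit 5) (nat_lit 145) (nat_lit 4) (nat_lit 456) (nat_lit 378) (nat_lit 366)) (XT.lf (nat_lit 0) (nat_lit 4357442791) (nat_lit 380) (nat_lit 964346054) (nat_lit 76) (nat_lit 4760161018) (nat_lit 140) (nat_lit 5) (nat_lit 145) (nat_lit 5) (nat_lit 141) (nat_lit 4) (nat_lit 457) (nat_lit 378) (nat_lit 365))) (XT.nd (nat_lit 78) (nat_lit 304) (nat_lit 0) (XT.lf (nat_lit 0) (nat_lit 7542790765) (nat_lit 228) (nat_lit 1305769661) (nat_lit 304) (nat_lit 1377788366) (nat_lit 137) (nat_lit 5) (nat_lit 140) (nat_lit 5) (nat_lit 141) (nat_lit 4) (nat_lit 458) (nat_lit 378) (nat_lit 364)) (XT.lf (nat_lit 0) (nat_lit 3044033527) (nat_lit 304) (nat_lit 4511735032) (nat_lit 76) (nat_lit 2818268101) (nat_lit 133) (nat_lit 5) (nat_lit 137) (nat_lit 5) (nat_lit 134) (nat_lit 4) (nat_lit 459) (nat_lit 378) (nat_lit 363))))))) (XT.nd (nat_lit 1170) (nat_lit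 2052) (nat_lit 0) (XT.nd (nat_lit 546) (nat_lit 1216) (nat_lit 0) (XT.nd (nat_lit 234) (nat_lit 760) (nat_lit 0) (XT.nd (nat_lit 78) (nat_lit 532) (nat_lit 0) (XT.lf (nat_lit 0) (nat_lit 4102305992) (nat_lit 228) (nat_lit 3460015059) (nat_lit 304) (nat_lit 2963685766) (nat_lit 130) (nat_lit 5) (nat_lit 133) (nat_lit 5) (nat_lit 134) (nat_lit 4) (nat_lit 460) (nat_lit 378) (nat_lit 362)) (XT.nd (nat_lit 78) (nat_lit 228) (nat_lit 0) (XT.lf (nat_lit 0) (nat_lit 1491175084) (nat_lit 304) (nat_lit 8420519976) (nat_lit 76) (nat_lit 770779993) (nat_lit 126) (nat_lit 5) (nat_lit 130) (nat_lit 5) (nat_lit 127) (nat_lit 4) (nat_lit 461) (nat_lit 378) (nat_lit 361)) (XT.lf (nat_lit 0) (nat_lit 293579470) (nat_lit 228) (nat_lit 5741843953) (nat_lit 304) (nat_lit 4806879831) (nat_lit 123) (nat_lit 5) (nat_lit 126) (nat_lit 5) (nat_lit 127) (nat_lit 4) (nat_lit 462) (nat_lit 378) (nat_lit 360)))) (XT.nd (nat_lit 156) (nat_lit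 456) (nat_lit 0) (XT.nd (nat_lit 78) (nat_lit 304) (nat_lit 0) (XT.lf (nat_lit 0) (nat_lit 9297071436) (nat_lit 228) (nat_lit 1417830397) (nat_lit 304) (nat_lit 292062714) (nat_lit 123) (nat_lit 5) (nat_lit 126) (nat_lit 5) (nat_lit 127) (nat_lit 4) (nat_lit 463) (nat_lit 378) (nat_lit 359)) (XT.lf (nat_lit 0) (nat_lit 4289132755) (nat_lit 304) (nat_lit 3851882141) (nat_lit 76) (nat_lit 3033819653) (nat_lit 119) (nat_lit 5) (nat_lit 123) (nat_lit 5) (nat_lit 120) (nat_lit 4) (nat_lit 464) (nat_lit 378) (nat_lit 358))) (XT.nd (nat_lit 78) (nat_lit 304) (nat_lit 0) (XT.lf (nat_lit 0) (nat_lit 5257426345) (nat_lit 152) (nat_lit 3742583628) (nat_lit 228) (nat_lit 2347705318) (nat_lit 117) (nat_lit 5) (nat_lit 119) (nat_lit 5) (nat_lit 120) (nat_lit 4) (nat_lit 465) (nat_lit 378) (nat_lit 357)) (XT.lf (nat_lit 0) (nat_lit 2274279389) (nat_lit 304) (nat_lit 8444523031) (nat_lit 76) (nat_lit 806516374) (nat_lit 113) (nat_lit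 5) (nat_lit 117) (nat_lit 5) (nat_lit 114) (nat_lit 4) (nat_lit 466) (nat_lit 378) (nat_lit 356))))) (XT.nd (nat_lit 312) (nat_lit 608) (nat_lit 0) (XT.nd (nat_lit 156) (nat_lit 456) (nat_lit 0) (XT.nd (nat_lit 78) (nat_lit 0) (nat_lit 0) (XT.lf (nat_lit 0) (nat_lit 755833460) (nat_lit 152) (nat_lit 6255205730) (nat_lit 228) (nat_lit 4695819271) (nat_lit 111) (nat_lit 5) (nat_lit 113) (nat_lit 5) (nat_lit 114) (nat_lit 4) (nat_lit 467) (nat_lit 378) (nat_lit 355)) (XT.lf (nat_lit 0) (nat_lit 10263252219) (nat_lit 152) (nat_lit 1629850784) (nat_lit 228) (nat_lit 649609) (nat_lit 111) (nat_lit 5) (nat_lit 113) (nat_lit 5) (nat_lit 114) (nat_lit 4) (nat_lit 468) (nat_lit 378) (nat_lit 354))) (XT.nd (nat_lit 78) (nat_lit 152) (nat_lit 0) (XT.lf (nat_lit 0) (nat_lit 4767631855) (nat_lit 304) (nat_lit 4177216867) (nat_lit 76) (nat_lit 3139216159) (nat_lit 107) (nat_lit 5) (nat_lit 111) (nat_lit 5) (nat_lit 108) (nat_lit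 4) (nat_lit 469) (nat_lit 378) (nat_lit 353)) (XT.lf (nat_lit 0) (nat_lit 5433899578) (nat_lit 152) (nat_lit 4250025293) (nat_lit 228) (nat_lit 2596016132) (nat_lit 105) (nat_lit 5) (nat_lit 107) (nat_lit 5) (nat_lit 108) (nat_lit 4) (nat_lit 470) (nat_lit 378) (nat_lit 352)))) (XT.nd (nat_lit 156) (nat_lit 228) (nat_lit 0) (XT.nd (nat_lit 78) (nat_lit 152) (nat_lit 0) (XT.lf (nat_lit 0) (nat_lit 2217757137) (nat_lit 228) (nat_lit 9655894688) (nat_lit 76) (nat_lit 607512991) (nat_lit 102) (nat_lit 5) (nat_lit 105) (nat_lit 5) (nat_lit 103) (nat_lit 4) (nat_lit 471) (nat_lit 378) (nat_lit 351)) (XT.lf (nat_lit 0) (nat_lit 32255592) (nat_lit 152) (nat_lit 7124319014) (nat_lit 228) (nat_lit 5530099019) (nat_lit 100) (nat_lit 5) (nat_lit 102) (nat_lit 5) (nat_lit 103) (nat_lit 4) (nat_lit 472) (nat_lit 378) (nat_lit 350))) (XT.nd (nat_lit 78) (nat_lit 228) (nat_lit 0) (XT.lf (nat_lit 0) (nat_lit 10069751779) (nat_lit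 152) (nat_lit 2192887323) (nat_lit 228) (nat_lit 635139642) (nat_lit 100) (nat_lit 5) (nat_lit 102) (nat_lit 5) (nat_lit 103) (nat_lit 4) (nat_lit 473) (nat_lit 378) (nat_lit 349)) (XT.lf (nat_lit 0) (nat_lit 4341809955) (nat_lit 228) (nat_lit 5886778544) (nat_lit 76) (nat_lit 2884727105) (nat_lit 97) (nat_lit 5) (nat_lit 100) (nat_lit 5) (nat_lit 98) (nat_lit 4) (nat_lit 474) (nat_lit 378) (nat_lit 348)))))) (XT.nd (nat_lit 624) (nat_lit 912) (nat_lit 0) (XT.nd (nat_lit 312) (nat_lit 608) (nat_lit 0) (XT.nd (nat_lit 156) (nat_lit 152) (nat_lit 0) (XT.nd (nat_lit 78) (nat_lit 228) (nat_lit 0) (XT.lf (nat_lit 0) (nat_lit 4223292798) (nat_lit 152) (nat_lit 5246629603) (nat_lit 228) (nat_lit 3864772134) (nat_lit 95) (nat_lit 5) (nat_lit 97) (nat_lit 5) (nat_lit 98) (nat_lit 4) (nat_lit 475) (nat_lit 378) (nat_lit 347)) (XT.lf (nat_lit 0) (nat_lit 1067965809) (nat_lit 152) (nat_lit 91935829) (nat_lit 228) (nat_lit 12402655012)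 (nat_lit 92) (nat_lit 5) (nat_lit 94) (nat_lit 5) (nat_lit 95) (nat_lit 5) (nat_lit 476) (nat_lit 378) (nat_lit 346))) (XT.nd (nat_lit 78) (nat_lit 152) (nat_lit 0) (XT.lf (nat_lit 0) (nat_lit 6324688408) (nat_lit 228) (nat_lit 2281935639) (nat_lit 76) (nat_lit 5187474050) (nat_lit 92) (nat_lit 5) (nat_lit 95) (nat_lit 5) (nat_lit 93) (nat_lit 4) (nat_lit 477) (nat_lit 378) (nat_lit 345)) (XT.lf (nat_lit 0) (nat_lit 8263852753) (nat_lit 152) (nat_lit 3387107465) (nat_lit 228) (nat_lit 2381432189) (nat_lit 90) (nat_lit 5) (nat_lit 92) (nat_lit 5) (nat_lit 93) (nat_lit 4) (nat_lit 478) (nat_lit 378) (nat_lit 344)))) (XT.nd (nat_lit 156) (nat_lit 228) (nat_lit 0) (XT.nd (nat_lit 78) (nat_lit 152) (nat_lit 0) (XT.lf (nat_lit 0) (nat_lit 2818927500) (nat_lit 228) (nat_lit 9468233945) (nat_lit 76) (nat_lit 1989386198) (nat_lit 87) (nat_lit 5) (nat_lit 90) (nat_lit 5) (nat_lit 88) (nat_lit 4) (nat_lit 479) (nat_lit 378)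 (nat_lit 343)) (XT.lf (nat_lit 0) (nat_lit 1124643119) (nat_lit 152) (nat_lit 7032610497) (nat_lit 228) (nat_lit 6369174580) (nat_lit 85) (nat_lit 5) (nat_lit 87) (nat_lit 5) (nat_lit 88) (nat_lit 4) (nat_lit 480) (nat_lit 378) (nat_lit 342))) (XT.nd (nat_lit 78) (nat_lit 228) (nat_lit 0) (XT.lf (nat_lit 0) (nat_lit 12096656488) (nat_lit 152) (nat_lit 1582190090) (nat_lit 228) (nat_lit 1104267620) (nat_lit 85) (nat_lit 5) (nat_lit 87) (nat_lit 5) (nat_lit 88) (nat_lit 4) (nat_lit 481) (nat_lit 378) (nat_lit 341)) (XT.lf (nat_lit 0) (nat_lit 4282806972) (nat_lit 228) (nat_lit 6744081195) (nat_lit 76) (nat_lit 4017914876) (nat_lit 82) (nat_lit 5) (nat_lit 85) (nat_lit 5) (nat_lit 83) (nat_lit 4) (nat_lit 482) (nat_lit 378) (nat_lit 340))))) (XT.nd (nat_lit 312) (nat_lit 532) (nat_lit 0) (XT.nd (nat_lit 156) (nat_lit 152) (nat_lit 0) (XT.nd (nat_lit 78) (nat_lit 152) (nat_lit 0) (XT.lf (nat_lit 0) (nat_lit 4285253343)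 (nat_lit 76) (nat_lit 5537484022) (nat_lit 152) (nat_lit 5490876366) (nat_lit 81) (nat_lit 5) (nat_lit 82) (nat_lit 5) (nat_lit 83) (nat_lit 4) (nat_lit 483) (nat_lit 378) (nat_lit 339)) (XT.lf (nat_lit 0) (nat_lit 63910953) (nat_lit 152) (nat_lit 15464900219) (nat_lit 152) (nat_lit 61681464) (nat_lit 79) (nat_lit 4) (nat_lit 81) (nat_lit 5) (nat_lit 81) (nat_lit 4) (nat_lit 484) (nat_lit 378) (nat_lit 338))) (XT.nd (nat_lit 78) (nat_lit 76) (nat_lit 0) (XT.lf (nat_lit 0) (nat_lit 5519316922) (nat_lit 228) (nat_lit 4397338710) (nat_lit 76) (nat_lit 5954524197) (nat_lit 78) (nat_lit 5) (nat_lit 81) (nat_lit 5) (nat_lit 79) (nat_lit 4) (nat_lit 485) (nat_lit 378) (nat_lit 337)) (XT.lf (nat_lit 0) (nat_lit 7076133166) (nat_lit 76) (nat_lit 4189995818) (nat_lit 152) (nat_lit 4894153698) (nat_lit 77) (nat_lit 5) (nat_lit 78) (nat_lit 5) (nat_lit 79) (nat_lit 4) (nat_lit 486) (nat_lit 378) (nat_lit 336)))) (XT.nd (nat_lit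 156) (nat_lit 304) (nat_lit 0) (XT.nd (nat_lit 78) (nat_lit 0) (nat_lit 0) (XT.lf (nat_lit 0) (nat_lit 729711140) (nat_lit 228) (nat_lit 14034275548) (nat_lit 76) (nat_lit 1693365657) (nat_lit 74) (nat_lit 5) (nat_lit 77) (nat_lit 5) (nat_lit 75) (nat_lit 4) (nat_lit 487) (nat_lit 378) (nat_lit 335)) (XT.lf (nat_lit 0) (nat_lit 6489979551) (nat_lit 228) (nat_lit 2517147249) (nat_lit 76) (nat_lit 7752773823) (nat_lit 74) (nat_lit 5) (nat_lit 77) (nat_lit 5) (nat_lit 75) (nat_lit 4) (nat_lit 488) (nat_lit 378) (nat_lit 334))) (XT.nd (nat_lit 78) (nat_lit 228) (nat_lit 0) (XT.lf (nat_lit 0) (nat_lit 9405287231) (nat_lit 76) (nat_lit 3042090613) (nat_lit 152) (nat_lit 4623419689) (nat_lit 73) (nat_lit 5) (nat_lit 74) (nat_lit 5) (nat_lit 75) (nat_lit 4) (nat_lit 489) (nat_lit 378) (nat_lit 333)) (XT.lf (nat_lit 0) (nat_lit 1200211722) (nat_lit 228) (nat_lit 13125697210) (nat_lit 76) (nat_lit 3063840130) (nat_lit 70)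 (nat_lit 5) (nat_lit 73) (nat_lit 5) (nat_lit 71) (nat_lit 4) (nat_lit 490) (nat_lit 378) (nat_lit 332))))))))
noncomputable def xc50 : XT := (XT.nd (nat_lit 2340) (nat_lit 1520) (nat_lit 0) (XT.nd (nat_lit 1170) (nat_lit 988) (nat_lit 0) (XT.nd (nat_lit 546) (nat_lit 684) (nat_lit 0) (XT.nd (nat_lit 234) (nat_lit 304) (nat_lit 0) (XT.nd (nat_lit 78) (nat_lit 304) (nat_lit 0) (XT.lf (nat_lit 0) (nat_lit 7148121188) (nat_lit 228) (nat_lit 1208007140) (nat_lit 76) (nat_lit 9359494339) (nat_lit 70) (nat_lit 5) (nat_lit 73) (nat_lit 5) (nat_lit 71) (nat_lit 4) (nat_lit 491) (nat_lit 378) (nat_lit 331)) (XT.nd (nat_lit 78) (nat_lit 228) (nat_lit 0) (XT.lf (nat_lit 0) (nat_lit 11164654926) (nat_lit 76) (nat_lit 2153253469) (nat_lit 152) (nat_lit 4732062502) (nat_lit 69) (nat_lit 5) (nat_lit 70) (nat_lit 5) (nat_lit 71) (nat_lit 4) (nat_lit 492) (nat_lit 378) (nat_lit 330)) (XT.lf (nat_lit 0) (nat_lit 1295961270) (nat_lit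 228) (nat_lit 12920924569) (nat_lit 76) (nat_lit 4175822545) (nat_lit 66) (nat_lit 5) (nat_lit 69) (nat_lit 5) (nat_lit 67) (nat_lit 4) (nat_lit 493) (nat_lit 378) (nat_lit 329)))) (XT.nd (nat_lit 156) (nat_lit 228) (nat_lit 0) (XT.nd (nat_lit 78) (nat_lit 76) (nat_lit 0) (XT.lf (nat_lit 0) (nat_lit 7437628613) (nat_lit 228) (nat_lit 592446854) (nat_lit 76) (nat_lit 10713411078) (nat_lit 66) (nat_lit 5) (nat_lit 69) (nat_lit 5) (nat_lit 67) (nat_lit 4) (nat_lit 494) (nat_lit 378) (nat_lit 328)) (XT.lf (nat_lit 0) (nat_lit 12227315531) (nat_lit 76) (nat_lit 1591996687) (nat_lit 152) (nat_lit 5283804298) (nat_lit 65) (nat_lit 5) (nat_lit 66) (nat_lit 5) (nat_lit 67) (nat_lit 4) (nat_lit 495) (nat_lit 378) (nat_lit 327))) (XT.nd (nat_lit 78) (nat_lit 0) (nat_lit 0) (XT.lf (nat_lit 0) (nat_lit 951246829) (nat_lit 228) (nat_lit 13561211609) (nat_lit 76) (nat_lit 4959305305) (nat_lit 62) (nat_lit 5) (nat_lit 65) (nat_lit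 5) (nat_lit 63) (nat_lit 4) (nat_lit 496) (nat_lit 378) (nat_lit 326)) (XT.lf (nat_lit 0) (nat_lit 7291490951) (nat_lit 228) (nat_lit 814110803) (nat_lit 76) (nat_lit 11743570294) (nat_lit 62) (nat_lit 5) (nat_lit 65) (nat_lit 5) (nat_lit 63) (nat_lit 4) (nat_lit 497) (nat_lit 378) (nat_lit 325))))) (XT.nd (nat_lit 312) (nat_lit 304) (nat_lit 0) (XT.nd (nat_lit 156) (nat_lit 76) (nat_lit 0) (XT.nd (nat_lit 78) (nat_lit 228) (nat_lit 0) (XT.lf (nat_lit 0) (nat_lit 12444252970) (nat_lit 76) (nat_lit 1437562457) (nat_lit 152) (nat_lit 6354292272) (nat_lit 61) (nat_lit 5) (nat_lit 62) (nat_lit 5) (nat_lit 63) (nat_lit 4) (nat_lit 498) (nat_lit 378) (nat_lit 324)) (XT.lf (nat_lit 0) (nat_lit 88048581) (nat_lit 228) (nat_lit 15211875229) (nat_lit 76) (nat_lit 5333112559) (nat_lit 58) (nat_lit 5) (nat_lit 61) (nat_lit 5) (nat_lit 59) (nat_lit 4) (nat_lit 499) (nat_lit 378) (nat_lit 323))) (XT.nd (nat_lit 78) (nat_lit 76)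 (nat_lit 0) (XT.lf (nat_lit 0) (nat_lit 6630094173) (nat_lit 228) (nat_lit 2041335021) (nat_lit 76) (nat_lit 12367532984) (nat_lit 58) (nat_lit 5) (nat_lit 61) (nat_lit 5) (nat_lit 59) (nat_lit 4) (nat_lit 500) (nat_lit 378) (nat_lit 322)) (XT.lf (nat_lit 0) (nat_lit 11640608131) (nat_lit 76) (nat_lit 1781878691) (nat_lit 152) (nat_lit 8032957514) (nat_lit 57) (nat_lit 5) (nat_lit 58) (nat_lit 5) (nat_lit 59) (nat_lit 4) (nat_lit 501) (nat_lit 378) (nat_lit 321)))) (XT.nd (nat_lit 156) (nat_lit 152) (nat_lit 0) (XT.nd (nat_lit 78) (nat_lit 76) (nat_lit 0) (XT.lf (nat_lit 0) (nat_lit 3802985811) (nat_lit 76) (nat_lit 16666436557) (nat_lit 76) (nat_lit 1413476570) (nat_lit 56) (nat_lit 4) (nat_lit 57) (nat_lit 5) (nat_lit 57) (nat_lit 4) (nat_lit 502) (nat_lit 378) (nat_lit 320)) (XT.lf (nat_lit 0) (nat_lit 5359229877) (nat_lit 152) (nat_lit 4471290180) (nat_lit 76) (nat_lit 12489296479) (nat_lit 55) (nat_lit 5) (nat_lit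 57) (nat_lit 5) (nat_lit 56) (nat_lit 4) (nat_lit 503) (nat_lit 378) (nat_lit 319))) (XT.nd (nat_lit 78) (nat_lit 76) (nat_lit 0) (XT.lf (nat_lit 0) (nat_lit 9611335340) (nat_lit 76) (nat_lit 2731811095) (nat_lit 152) (nat_lit 10425183249) (nat_lit 54) (nat_lit 5) (nat_lit 55) (nat_lit 5) (nat_lit 56) (nat_lit 4) (nat_lit 504) (nat_lit 378) (nat_lit 318)) (XT.lf (nat_lit 0) (nat_lit 843212316) (nat_lit 76) (nat_lit 18735254013) (nat_lit 76) (nat_lit 3650576309) (nat_lit 53) (nat_lit 4) (nat_lit 54) (nat_lit 5) (nat_lit 54) (nat_lit 4) (nat_lit 505) (nat_lit 378) (nat_lit 317)))))) (XT.nd (nat_lit 546) (nat_lit 532) (nat_lit 0) (XT.nd (nat_lit 234) (nat_lit 304) (nat_lit 0) (XT.nd (nat_lit 78) (nat_lit 76) (nat_lit 0) (XT.lf (nat_lit 0) (nat_lit 3367773733) (nat_lit 152) (nat_lit 8334783902) (nat_lit 76) (nat_lit 11996897808) (nat_lit 52) (nat_lit 5) (nat_lit 54) (nat_lit 5) (nat_lit 53) (nat_lit 4) (nat_lit 506)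 (nat_lit 378) (nat_lit 316)) (XT.nd (nat_lit 78) (nat_lit 0) (nat_lit 0) (XT.lf (nat_lit 0) (nat_lit 6116166420) (nat_lit 76) (nat_lit 4411761175) (nat_lit 152) (nat_lit 13654830822) (nat_lit 51) (nat_lit 5) (nat_lit 52) (nat_lit 5) (nat_lit 53) (nat_lit 4) (nat_lit 507) (nat_lit 378) (nat_lit 315)) (XT.lf (nat_lit 0) (nat_lit 17963592978) (nat_lit 152) (nat_lit 3642075843) (nat_lit 0) (nat_lit 3073071330) (nat_lit 51) (nat_lit 5) (nat_lit 53) (nat_lit 4) (nat_lit 51) (nat_lit 4) (nat_lit 508) (nat_lit 378) (nat_lit 314)))) (XT.nd (nat_lit 156) (nat_lit 76) (nat_lit 0) (XT.nd (nat_lit 78) (nat_lit 76) (nat_lit 0) (XT.lf (nat_lit 0) (nat_lit 524981722) (nat_lit 152) (nat_lit 13901828919) (nat_lit 76) (nat_lit 10759645771) (nat_lit 49) (nat_lit 5) (nat_lit 51) (nat_lit 5) (nat_lit 50) (nat_lit 4) (nat_lit 509) (nat_lit 378) (nat_lit 313)) (XT.lf (nat_lit 0) (nat_lit 873770470) (nat_lit 76) (nat_lit 6966667534) (nat_lit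 152) (nat_lit 17867179621) (nat_lit 48) (nat_lit 5) (nat_lit 49) (nat_lit 5) (nat_lit 50) (nat_lit 4) (nat_lit 510) (nat_lit 378) (nat_lit 312))) (XT.nd (nat_lit 78) (nat_lit 76) (nat_lit 0) (XT.lf (nat_lit 0) (nat_lit 15471660459) (nat_lit 152) (nat_lit 9972881720) (nat_lit 0) (nat_lit 796983201) (nat_lit 48) (nat_lit 5) (nat_lit 50) (nat_lit 4) (nat_lit 48) (nat_lit 4) (nat_lit 511) (nat_lit 378) (nat_lit 311)) (XT.lf (nat_lit 0) (nat_lit 5268712038) (nat_lit 76) (nat_lit 18131892115) (nat_lit 76) (nat_lit 3388783435) (nat_lit 47) (nat_lit 4) (nat_lit 48) (nat_lit 5) (nat_lit 48) (nat_lit 4) (nat_lit 512) (nat_lit 378) (nat_lit 310))))) (XT.nd (nat_lit 312) (nat_lit 304) (nat_lit 0) (XT.nd (nat_lit 156) (nat_lit 76) (nat_lit 0) (XT.nd (nat_lit 78) (nat_lit 76) (nat_lit 0) (XT.lf (nat_lit 0) (nat_lit 4182409992) (nat_lit 152) (nat_lit 6319254669) (nat_lit 76) (nat_lit 16849279428) (nat_lit 46) (nat_lit 5) (nat_lit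 48) (nat_lit 5) (nat_lit 47) (nat_lit 4) (nat_lit 513) (nat_lit 378) (nat_lit 309)) (XT.lf (nat_lit 0) (nat_lit 9391732705) (nat_lit 76) (nat_lit 2561854899) (nat_lit 152) (nat_lit 15973525017) (nat_lit 45) (nat_lit 5) (nat_lit 46) (nat_lit 5) (nat_lit 47) (nat_lit 4) (nat_lit 514) (nat_lit 378) (nat_lit 308))) (XT.nd (nat_lit 78) (nat_lit 76) (nat_lit 0) (XT.lf (nat_lit 0) (nat_lit 20027085208) (nat_lit 152) (nat_lit 2965946732) (nat_lit 0) (nat_lit 5525459403) (nat_lit 45) (nat_lit 5) (nat_lit 47) (nat_lit 4) (nat_lit 45) (nat_lit 4) (nat_lit 515) (nat_lit 378) (nat_lit 307)) (XT.lf (nat_lit 0) (nat_lit 13209508029) (nat_lit 76) (nat_lit 15237811720) (nat_lit 76) (nat_lit 677156370) (nat_lit 44) (nat_lit 4) (nat_lit 45) (nat_lit 5) (nat_lit 45) (nat_lit 4) (nat_lit 516) (nat_lit 378) (nat_lit 306)))) (XT.nd (nat_lit 156) (nat_lit 152) (nat_lit 0) (XT.nd (nat_lit 78) (nat_lit 0) (nat_lit 0) (XT.lf (nat_lit 0) (nat_lit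 19001407) (nat_lit 76) (nat_lit 7191327162) (nat_lit 152) (nat_lit 22536707120) (nat_lit 42) (nat_lit 5) (nat_lit 43) (nat_lit 5) (nat_lit 44) (nat_lit 4) (nat_lit 517) (nat_lit 378) (nat_lit 305)) (XT.lf (nat_lit 0) (nat_lit 15445959063) (nat_lit 152) (nat_lit 13738619445) (nat_lit 0) (nat_lit 1199739064) (nat_lit 42) (nat_lit 5) (nat_lit 44) (nat_lit 4) (nat_lit 42) (nat_lit 4) (nat_lit 518) (nat_lit 378) (nat_lit 304))) (XT.nd (nat_lit 78) (nat_lit 76) (nat_lit 0) (XT.lf (nat_lit 0) (nat_lit 2619555188) (nat_lit 76) (nat_lit 21359164230) (nat_lit 76) (nat_lit 7060497245) (nat_lit 41) (nat_lit 4) (nat_lit 42) (nat_lit 5) (nat_lit 42) (nat_lit 4) (nat_lit 519) (nat_lit 378) (nat_lit 303)) (XT.lf (nat_lit 0) (nat_lit 1126954158) (nat_lit 152) (nat_lit 12061869447) (nat_lit 76) (nat_lit 18521821331) (nat_lit 40) (nat_lit 5) (nat_lit 42) (nat_lit 5) (nat_lit 41) (nat_lit 4) (nat_lit 520) (nat_lit 378) (nat_lit 302)))))))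 (XT.nd (nat_lit 1170) (nat_lit 760) (nat_lit 0) (XT.nd (nat_lit 546) (nat_lit 380) (nat_lit 0) (XT.nd (nat_lit 234) (nat_lit 228) (nat_lit 0) (XT.nd (nat_lit 78) (nat_lit 76) (nat_lit 0) (XT.lf (nat_lit 0) (nat_lit 4720644286) (nat_lit 76) (nat_lit 4697910881) (nat_lit 152) (nat_lit 22981551191) (nat_lit 39) (nat_lit 5) (nat_lit 40) (nat_lit 5) (nat_lit 41) (nat_lit 4) (nat_lit 521) (nat_lit 378) (nat_lit 301)) (XT.nd (nat_lit 78) (nat_lit 76) (nat_lit 0) (XT.lf (nat_lit 0) (nat_lit 18075935027) (nat_lit 152) (nat_lit 10981103327) (nat_lit 0) (nat_lit 4049702863) (nat_lit 39) (nat_lit 5) (nat_lit 41) (nat_lit 4) (nat_lit 39) (nat_lit 4) (nat_lit 522) (nat_lit 378) (nat_lit 300)) (XT.lf (nat_lit 0) (nat_lit 6207106016) (nat_lit 76) (nat_lit 20848532466) (nat_lit 76) (nat_lit 6777059070) (nat_lit 38) (nat_lit 4) (nat_lit 39) (nat_lit 5) (nat_lit 39) (nat_lit 4) (nat_lit 523) (nat_lit 378) (nat_lit 299)))) (XT.nd (nat_lit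 156) (nat_lit 76) (nat_lit 0) (XT.nd (nat_lit 78) (nat_lit 76) (nat_lit 0) (XT.lf (nat_lit 0) (nat_lit 1759086395) (nat_lit 152) (nat_lit 10544451539) (nat_lit 76) (nat_lit 22274344869) (nat_lit 37) (nat_lit 5) (nat_lit 39) (nat_lit 5) (nat_lit 38) (nat_lit 4) (nat_lit 524) (nat_lit 378) (nat_lit 298)) (XT.lf (nat_lit 0) (nat_lit 7036083410) (nat_lit 76) (nat_lit 3404372024) (nat_lit 152) (nat_lit 24902195105) (nat_lit 36) (nat_lit 5) (nat_lit 37) (nat_lit 5) (nat_lit 38) (nat_lit 4) (nat_lit 525) (nat_lit 378) (nat_lit 297))) (XT.nd (nat_lit 78) (nat_lit 76) (nat_lit 0) (XT.lf (nat_lit 0) (nat_lit 19502949168) (nat_lit 152) (nat_lit 10906710149) (nat_lit 0) (nat_lit 5717081927) (nat_lit 36) (nat_lit 5) (nat_lit 38) (nat_lit 4) (nat_lit 36) (nat_lit 4) (nat_lit 526) (nat_lit 378) (nat_lit 296)) (XT.lf (nat_lit 0) (nat_lit 7037908077) (nat_lit 76) (nat_lit 21859764550) (nat_lit 76) (nat_lit 8034871826) (nat_lit 35)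 (nat_lit 4) (nat_lit 36) (nat_lit 5) (nat_lit 36) (nat_lit 4) (nat_lit 527) (nat_lit 378) (nat_lit 295))))) (XT.nd (nat_lit 312) (nat_lit 152) (nat_lit 0) (XT.nd (nat_lit 156) (nat_lit 76) (nat_lit 0) (XT.nd (nat_lit 78) (nat_lit 76) (nat_lit 0) (XT.lf (nat_lit 0) (nat_lit 866121387) (nat_lit 152) (nat_lit 12104555127) (nat_lit 76) (nat_lit 24789504225) (nat_lit 34) (nat_lit 5) (nat_lit 36) (nat_lit 5) (nat_lit 35) (nat_lit 4) (nat_lit 528) (nat_lit 378) (nat_lit 294)) (XT.lf (nat_lit 0) (nat_lit 6181773949) (nat_lit 76) (nat_lit 3710512136) (nat_lit 152) (nat_lit 28717384787) (nat_lit 33) (nat_lit 5) (nat_lit 34) (nat_lit 5) (nat_lit 35) (nat_lit 4) (nat_lit 529) (nat_lit 378) (nat_lit 293))) (XT.nd (nat_lit 78) (nat_lit 76) (nat_lit 0) (XT.lf (nat_lit 0) (nat_lit 19328949407) (nat_lit 152) (nat_lit 14351954562) (nat_lit 0) (nat_lit 5799550715) (nat_lit 33) (nat_lit 5) (nat_lit 35) (nat_lit 4) (nat_lit 33) (nat_lit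 4) (nat_lit 530) (nat_lit 378) (nat_lit 292)) (XT.lf (nat_lit 0) (nat_lit 4235901631) (nat_lit 76) (nat_lit 24851678570) (nat_lit 76) (nat_lit 11288616153) (nat_lit 32) (nat_lit 4) (nat_lit 33) (nat_lit 5) (nat_lit 33) (nat_lit 4) (nat_lit 531) (nat_lit 378) (nat_lit 291)))) (XT.nd (nat_lit 156) (nat_lit 0) (nat_lit 0) (XT.nd (nat_lit 78) (nat_lit 152) (nat_lit 0) (XT.lf (nat_lit 0) (nat_lit 23600058001) (nat_lit 76) (nat_lit 15645648098) (nat_lit 76) (nat_lit 2049902453) (nat_lit 32) (nat_lit 4) (nat_lit 33) (nat_lit 5) (nat_lit 33) (nat_lit 4) (nat_lit 532) (nat_lit 378) (nat_lit 290)) (XT.lf (nat_lit 0) (nat_lit 1179706783) (nat_lit 76) (nat_lit 6114472387) (nat_lit 152) (nat_lit 34947054423) (nat_lit 30) (nat_lit 5) (nat_lit 31) (nat_lit 5) (nat_lit 32) (nat_lit 4) (nat_lit 533) (nat_lit 378) (nat_lit 289))) (XT.nd (nat_lit 78) (nat_lit 0) (nat_lit 0) (XT.lf (nat_lit 0) (nat_lit 17056024915) (nat_lit 152) (nat_lit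 22357679641) (nat_lit 0) (nat_lit 3795555000) (nat_lit 30) (nat_lit 5) (nat_lit 32) (nat_lit 4) (nat_lit 30) (nat_lit 4) (nat_lit 534) (nat_lit 378) (nat_lit 288)) (XT.lf (nat_lit 0) (nat_lit 27134946020) (nat_lit 152) (nat_lit 3225216519) (nat_lit 0) (nat_lit 13845437480) (nat_lit 30) (nat_lit 5) (nat_lit 32) (nat_lit 4) (nat_lit 30) (nat_lit 4) (nat_lit 535) (nat_lit 378) (nat_lit 287)))))) (XT.nd (nat_lit 624) (nat_lit 304) (nat_lit 0) (XT.nd (nat_lit 312) (nat_lit 228) (nat_lit 0) (XT.nd (nat_lit 156) (nat_lit 76) (nat_lit 0) (XT.nd (nat_lit 78) (nat_lit 76) (nat_lit 0) (XT.lf (nat_lit 0) (nat_lit 16737974459) (nat_lit 76) (nat_lit 20903894452) (nat_lit 76) (nat_lit 7586193072) (nat_lit 29) (nat_lit 4) (nat_lit 30) (nat_lit 5) (nat_lit 30) (nat_lit 4) (nat_lit 536) (nat_lit 378) (nat_lit 286)) (XT.lf (nat_lit 0) (nat_lit 2137852888) (nat_lit 152) (nat_lit 9005231705) (nat_lit 76) (nat_lit 35137554669) (nat_lit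 28) (nat_lit 5) (nat_lit 30) (nat_lit 5) (nat_lit 29) (nat_lit 4) (nat_lit 537) (nat_lit 378) (nat_lit 285))) (XT.nd (nat_lit 78) (nat_lit 0) (nat_lit 0) (XT.lf (nat_lit 0) (nat_lit 11138566888) (nat_lit 76) (nat_lit 935430359) (nat_lit 152) (nat_lit 35286358013) (nat_lit 27) (nat_lit 5) (nat_lit 28) (nat_lit 5) (nat_lit 29) (nat_lit 4) (nat_lit 538) (nat_lit 378) (nat_lit 284)) (XT.lf (nat_lit 0) (nat_lit 22457947354) (nat_lit 152) (nat_lit 16559307701) (nat_lit 0) (nat_lit 9450716318) (nat_lit 27) (nat_lit 5) (nat_lit 29) (nat_lit 4) (nat_lit 27) (nat_lit 4) (nat_lit 539) (nat_lit 378) (nat_lit 283)))) (XT.nd (nat_lit 156) (nat_lit 152) (nat_lit 0) (XT.nd (nat_lit 78) (nat_lit 0) (nat_lit 0) (XT.lf (nat_lit 0) (nat_lit 3689889142) (nat_lit 76) (nat_lit 29475065678) (nat_lit 76) (nat_lit 16443515251) (nat_lit 26) (nat_lit 4) (nat_lit 27) (nat_lit 5) (nat_lit 27) (nat_lit 4) (nat_lit 540) (nat_lit 378) (nat_lit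 282)) (XT.lf (nat_lit 0) (nat_lit 24820757950) (nat_lit 76) (nat_lit 19506778308) (nat_lit 76) (nat_lit 6451616821) (nat_lit 26) (nat_lit 4) (nat_lit 27) (nat_lit 5) (nat_lit 27) (nat_lit 4) (nat_lit 541) (nat_lit 378) (nat_lit 281))) (XT.nd (nat_lit 78) (nat_lit 76) (nat_lit 0) (XT.lf (nat_lit 0) (nat_lit 3732893613) (nat_lit 152) (nat_lit 5500310810) (nat_lit 76) (nat_lit 42751611377) (nat_lit 25) (nat_lit 5) (nat_lit 27) (nat_lit 5) (nat_lit 26) (nat_lit 4) (nat_lit 542) (nat_lit 378) (nat_lit 280)) (XT.lf (nat_lit 0) (nat_lit 14228219505) (nat_lit 152) (nat_lit 37483021988) (nat_lit 0) (nat_lit 1509442288) (nat_lit 24) (nat_lit 5) (nat_lit 26) (nat_lit 4) (nat_lit 24) (nat_lit 4) (nat_lit 543) (nat_lit 378) (nat_lit 279))))) (XT.nd (nat_lit 312) (nat_lit 152) (nat_lit 0) (XT.nd (nat_lit 156) (nat_lit 76) (nat_lit 0) (XT.nd (nat_lit 78) (nat_lit 76) (nat_lit 0) (XT.lf (nat_lit 0) (nat_lit 25154667245) (nat_lit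 152) (nat_lit 16920561020) (nat_lit 0) (nat_lit 12414911907) (nat_lit 24) (nat_lit 5) (nat_lit 26) (nat_lit 4) (nat_lit 24) (nat_lit 4) (nat_lit 544) (nat_lit 378) (nat_lit 278)) (XT.lf (nat_lit 0) (nat_lit 4281984847) (nat_lit 76) (nat_lit 32137746692) (nat_lit 76) (nat_lit 19377624246) (nat_lit 23) (nat_lit 4) (nat_lit 24) (nat_lit 5) (nat_lit 24) (nat_lit 4) (nat_lit 545) (nat_lit 378) (nat_lit 277))) (XT.nd (nat_lit 78) (nat_lit 76) (nat_lit 0) (XT.lf (nat_lit 0) (nat_lit 26407707753) (nat_lit 76) (nat_lit 21755875798) (nat_lit 76) (nat_lit 8975979462) (nat_lit 23) (nat_lit 4) (nat_lit 24) (nat_lit 5) (nat_lit 24) (nat_lit 4) (nat_lit 546) (nat_lit 378) (nat_lit 276)) (XT.lf (nat_lit 0) (nat_lit 1674362652) (nat_lit 152) (nat_lit 9400138103) (nat_lit 76) (nat_lit 47447918077) (nat_lit 22) (nat_lit 5) (nat_lit 24) (nat_lit 5) (nat_lit 23) (nat_lit 4) (nat_lit 547) (nat_lit 378) (nat_lit 275)))) (XT.nd (nat_lit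 156) (nat_lit 76) (nat_lit 0) (XT.nd (nat_lit 78) (nat_lit 0) (nat_lit 0) (XT.lf (nat_lit 0) (nat_lit 12558157852) (nat_lit 152) (nat_lit 47269349202) (nat_lit 0) (nat_lit 113756806) (nat_lit 21) (nat_lit 5) (nat_lit 23) (nat_lit 4) (nat_lit 21) (nat_lit 4) (nat_lit 548) (nat_lit 378) (nat_lit 274)) (XT.lf (nat_lit 0) (nat_lit 23945414351) (nat_lit 152) (nat_lit 25968507201) (nat_lit 0) (nat_lit 11483444459) (nat_lit 21) (nat_lit 5) (nat_lit 23) (nat_lit 4) (nat_lit 21) (nat_lit 4) (nat_lit 549) (nat_lit 378) (nat_lit 273))) (XT.nd (nat_lit 78) (nat_lit 76) (nat_lit 0) (XT.lf (nat_lit 0) (nat_lit 35646556627) (nat_lit 152) (nat_lit 4083897140) (nat_lit 0) (nat_lit 23167529603) (nat_lit 21) (nat_lit 5) (nat_lit 23) (nat_lit 4) (nat_lit 21) (nat_lit 4) (nat_lit 550) (nat_lit 378) (nat_lit 272)) (XT.lf (nat_lit 0) (nat_lit 18769871247) (nat_lit 76) (nat_lit 29082365217) (nat_lit 76) (nat_lit 16586777872) (nat_lit 20)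 (nat_lit 4) (nat_lit 21) (nat_lit 5) (nat_lit 21) (nat_lit 4) (nat_lit 551) (nat_lit 378) (nat_lit 271))))))))
noncomputable def xc51 : XT := (XT.nd (nat_lit 56160) (nat_lit 0) (nat_lit 2812) (XT.nd (nat_lit 54990) (nat_lit 0) (nat_lit 6460) (XT.nd (nat_lit 54366) (nat_lit 0) (nat_lit 9500) (XT.nd (nat_lit 54054) (nat_lit 0) (nat_lit 11856) (XT.nd (nat_lit 53898) (nat_lit 0) (nat_lit 12996) (XT.lf (nat_lit 0) (nat_lit 42339846766) (nat_lit 76) (nat_lit 18098828655) (nat_lit 76) (nat_lit 5587163327) (nat_lit 20) (nat_lit 4) (nat_lit 21) (nat_lit 5) (nat_lit 21) (nat_lit 4) (nat_lit 552) (nat_lit 378) (nat_lit 270)) (XT.nd (nat_lit 78) (nat_lit 456) (nat_lit 0) (XT.lf (nat_lit 0) (nat_lit 868090238) (nat_lit 456) (nat_lit 1652157533) (nat_lit 456) (nat_lit 1652157533) (nat_lit 197) (nat_lit 4) (nat_lit 203) (nat_lit 5) (nat_lit 203) (nat_lit 4) (nat_lit 442) (nat_lit 379) (nat_lit 379)) (XT.lf (nat_lit 0) (nat_lit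 460555755) (nat_lit 380) (nat_lit 308892592) (nat_lit 456) (nat_lit 7669856604) (nat_lit 191) (nat_lit 5) (nat_lit 196) (nat_lit 5) (nat_lit 197) (nat_lit 4) (nat_lit 443) (nat_lit 379) (nat_lit 378)))) (XT.nd (nat_lit 156) (nat_lit 684) (nat_lit 0) (XT.nd (nat_lit 78) (nat_lit 456) (nat_lit 0) (XT.lf (nat_lit 0) (nat_lit 4890588891) (nat_lit 456) (nat_lit 862281207) (nat_lit 0) (nat_lit 2783046697) (nat_lit 191) (nat_lit 5) (nat_lit 197) (nat_lit 4) (nat_lit 191) (nat_lit 4) (nat_lit 444) (nat_lit 379) (nat_lit 377)) (XT.lf (nat_lit 0) (nat_lit 455366966) (nat_lit 456) (nat_lit 2191106597) (nat_lit 76) (nat_lit 5989864509) (nat_lit 185) (nat_lit 5) (nat_lit 191) (nat_lit 5) (nat_lit 186) (nat_lit 4) (nat_lit 445) (nat_lit 379) (nat_lit 376))) (XT.nd (nat_lit 78) (nat_lit 380) (nat_lit 0) (XT.lf (nat_lit 0) (nat_lit 4571247422) (nat_lit 380) (nat_lit 3572099048) (nat_lit 0) (nat_lit 596390290) (nat_lit 181) (nat_lit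 5) (nat_lit 186) (nat_lit 4) (nat_lit 181) (nat_lit 4) (nat_lit 446) (nat_lit 379) (nat_lit 375)) (XT.lf (nat_lit 0) (nat_lit 3852855507) (nat_lit 380) (nat_lit 4945520831) (nat_lit 380) (nat_lit 48238112) (nat_lit 176) (nat_lit 4) (nat_lit 181) (nat_lit 5) (nat_lit 181) (nat_lit 4) (nat_lit 447) (nat_lit 379) (nat_lit 374))))) (XT.nd (nat_lit 312) (nat_lit 1292) (nat_lit 0) (XT.nd (nat_lit 156) (nat_lit 380) (nat_lit 0) (XT.nd (nat_lit 78) (nat_lit 304) (nat_lit 0) (XT.lf (nat_lit 0) (nat_lit 2482989171) (nat_lit 304) (nat_lit 1593774726) (nat_lit 380) (nat_lit 4879843819) (nat_lit 171) (nat_lit 5) (nat_lit 175) (nat_lit 5) (nat_lit 176) (nat_lit 4) (nat_lit 448) (nat_lit 379) (nat_lit 373)) (XT.lf (nat_lit 0) (nat_lit 1076192803) (nat_lit 304) (nat_lit 7231242206) (nat_lit 304) (nat_lit 762974122) (nat_lit 167) (nat_lit 4) (nat_lit 171) (nat_lit 5) (nat_lit 171) (nat_lit 4) (nat_lit 449) (nat_lit 379) (nat_lit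 372))) (XT.nd (nat_lit 78) (nat_lit 304) (nat_lit 0) (XT.lf (nat_lit 0) (nat_lit 3395580101) (nat_lit 380) (nat_lit 394803666) (nat_lit 76) (nat_lit 5396665765) (nat_lit 166) (nat_lit 5) (nat_lit 171) (nat_lit 5) (nat_lit 167) (nat_lit 4) (nat_lit 450) (nat_lit 379) (nat_lit 371)) (XT.lf (nat_lit 0) (nat_lit 7429739086) (nat_lit 304) (nat_lit 212262279) (nat_lit 380) (nat_lit 1665616334) (nat_lit 162) (nat_lit 5) (nat_lit 166) (nat_lit 5) (nat_lit 167) (nat_lit 4) (nat_lit 451) (nat_lit 379) (nat_lit 370)))) (XT.nd (nat_lit 156) (nat_lit 608) (nat_lit 0) (XT.nd (nat_lit 78) (nat_lit 304) (nat_lit 0) (XT.lf (nat_lit 0) (nat_lit 2536721580) (nat_lit 380) (nat_lit 3448552854) (nat_lit 76) (nat_lit 3445697381) (nat_lit 157) (nat_lit 5) (nat_lit 162) (nat_lit 5) (nat_lit 158) (nat_lit 4) (nat_lit 452) (nat_lit 379) (nat_lit 369)) (XT.lf (nat_lit 0) (nat_lit 4486680798) (nat_lit 304) (nat_lit 2317727939) (nat_lit 380)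 (nat_lit 2753948210) (nat_lit 153) (nat_lit 5) (nat_lit 157) (nat_lit 5) (nat_lit 158) (nat_lit 4) (nat_lit 453) (nat_lit 379) (nat_lit 368))) (XT.nd (nat_lit 78) (nat_lit 228) (nat_lit 0) (XT.lf (nat_lit 0) (nat_lit 1467651036) (nat_lit 380) (nat_lit 6761669702) (nat_lit 76) (nat_lit 1460217713) (nat_lit 148) (nat_lit 5) (nat_lit 153) (nat_lit 5) (nat_lit 149) (nat_lit 4) (nat_lit 454) (nat_lit 379) (nat_lit 367)) (XT.lf (nat_lit 0) (nat_lit 1279583882) (nat_lit 228) (nat_lit 4477541762) (nat_lit 304) (nat_lit 4066821536) (nat_lit 145) (nat_lit 5) (nat_lit 148) (nat_lit 5) (nat_lit 149) (nat_lit 4) (nat_lit 455) (nat_lit 379) (nat_lit 366)))))) (XT.nd (nat_lit 546) (nat_lit 1596) (nat_lit 0) (XT.nd (nat_lit 234) (nat_lit 836) (nat_lit 0) (XT.nd (nat_lit 78) (nat_lit 532) (nat_lit 0) (XT.lf (nat_lit 0) (nat_lit 187690896) (nat_lit 304) (nat_lit 405685749) (nat_lit 76) (nat_lit 9369588410) (nat_lit 144) (nat_lit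 5) (nat_lit 148) (nat_lit 5) (nat_lit 145) (nat_lit 5) (nat_lit 456) (nat_lit 379) (nat_lit 365)) (XT.nd (nat_lit 78) (nat_lit 228) (nat_lit 0) (XT.lf (nat_lit 0) (nat_lit 4510574395) (nat_lit 380) (nat_lit 2185746466) (nat_lit 76) (nat_lit 3407956942) (nat_lit 140) (nat_lit 5) (nat_lit 145) (nat_lit 5) (nat_lit 141) (nat_lit 4) (nat_lit 457) (nat_lit 379) (nat_lit 364)) (XT.lf (nat_lit 0) (nat_lit 6226812680) (nat_lit 228) (nat_lit 2719539562) (nat_lit 304) (nat_lit 1303987816) (nat_lit 137) (nat_lit 5) (nat_lit 140) (nat_lit 5) (nat_lit 141) (nat_lit 4) (nat_lit 458) (nat_lit 379) (nat_lit 363)))) (XT.nd (nat_lit 156) (nat_lit 304) (nat_lit 0) (XT.nd (nat_lit 78) (nat_lit 228) (nat_lit 0) (XT.lf (nat_lit 0) (nat_lit 3046075780) (nat_lit 304) (nat_lit 5961230732) (nat_lit 76) (nat_lit 1392812630) (nat_lit 133) (nat_lit 5) (nat_lit 137) (nat_lit 5) (nat_lit 134) (nat_lit 4) (nat_lit 459) (nat_lit 379) (nat_lit 362))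 (XT.lf (nat_lit 0) (nat_lit 2553179675) (nat_lit 228) (nat_lit 4954097200) (nat_lit 304) (nat_lit 3046527884) (nat_lit 130) (nat_lit 5) (nat_lit 133) (nat_lit 5) (nat_lit 134) (nat_lit 4) (nat_lit 460) (nat_lit 379) (nat_lit 361))) (XT.nd (nat_lit 78) (nat_lit 0) (nat_lit 0) (XT.lf (nat_lit 0) (nat_lit 591297497) (nat_lit 228) (nat_lit 752919392) (nat_lit 304) (nat_lit 9368054675) (nat_lit 126) (nat_lit 5) (nat_lit 129) (nat_lit 5) (nat_lit 130) (nat_lit 5) (nat_lit 461) (nat_lit 379) (nat_lit 360)) (XT.lf (nat_lit 0) (nat_lit 5836662921) (nat_lit 304) (nat_lit 1475228141) (nat_lit 76) (nat_lit 3561765396) (nat_lit 126) (nat_lit 5) (nat_lit 130) (nat_lit 5) (nat_lit 127) (nat_lit 4) (nat_lit 462) (nat_lit 379) (nat_lit 359))))) (XT.nd (nat_lit 312) (nat_lit 608) (nat_lit 0) (XT.nd (nat_lit 156) (nat_lit 456) (nat_lit 0) (XT.nd (nat_lit 78) (nat_lit 304) (nat_lit 0) (XT.lf (nat_lit 0) (nat_lit 7429726568) (nat_lit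 228) (nat_lit 3030759854) (nat_lit 304) (nat_lit 579503524) (nat_lit 123) (nat_lit 5) (nat_lit 126) (nat_lit 5) (nat_lit 127) (nat_lit 4) (nat_lit 463) (nat_lit 379) (nat_lit 358)) (XT.lf (nat_lit 0) (nat_lit 3931652371) (nat_lit 304) (nat_lit 5875489669) (nat_lit 76) (nat_lit 1403072657) (nat_lit 119) (nat_lit 5) (nat_lit 123) (nat_lit 5) (nat_lit 120) (nat_lit 4) (nat_lit 464) (nat_lit 379) (nat_lit 357))) (XT.nd (nat_lit 78) (nat_lit 304) (nat_lit 0) (XT.lf (nat_lit 0) (nat_lit 3123950294) (nat_lit 152) (nat_lit 5457946195) (nat_lit 228) (nat_lit 2803020273) (nat_lit 117) (nat_lit 5) (nat_lit 119) (nat_lit 5) (nat_lit 120) (nat_lit 4) (nat_lit 465) (nat_lit 379) (nat_lit 356)) (XT.lf (nat_lit 0) (nat_lit 809798982) (nat_lit 228) (nat_lit 948234772) (nat_lit 304) (nat_lit 9806714477) (nat_lit 113) (nat_lit 5) (nat_lit 116) (nat_lit 5) (nat_lit 117) (nat_lit 5) (nat_lit 466) (nat_lit 379) (nat_lit 355)))) (XT.nd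 (nat_lit 156) (nat_lit 456) (nat_lit 0) (XT.nd (nat_lit 78) (nat_lit 152) (nat_lit 0) (XT.lf (nat_lit 0) (nat_lit 6438656158) (nat_lit 304) (nat_lit 1628838063) (nat_lit 76) (nat_lit 3680479932) (nat_lit 113) (nat_lit 5) (nat_lit 117) (nat_lit 5) (nat_lit 114) (nat_lit 4) (nat_lit 467) (nat_lit 379) (nat_lit 354)) (XT.lf (nat_lit 0) (nat_lit 7778224999) (nat_lit 152) (nat_lit 3487274018) (nat_lit 228) (nat_lit 671027985) (nat_lit 111) (nat_lit 5) (nat_lit 113) (nat_lit 5) (nat_lit 114) (nat_lit 4) (nat_lit 468) (nat_lit 379) (nat_lit 353))) (XT.nd (nat_lit 78) (nat_lit 152) (nat_lit 0) (XT.lf (nat_lit 0) (nat_lit 4028032442) (nat_lit 304) (nat_lit 6843254467) (nat_lit 76) (nat_lit 1258216713) (nat_lit 107) (nat_lit 5) (nat_lit 111) (nat_lit 5) (nat_lit 108) (nat_lit 4) (nat_lit 469) (nat_lit 379) (nat_lit 352)) (XT.lf (nat_lit 0) (nat_lit 2646524559) (nat_lit 152) (nat_lit 6232734998) (nat_lit 228) (nat_lit 3448074060)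 (nat_lit 105) (nat_lit 5) (nat_lit 107) (nat_lit 5) (nat_lit 108) (nat_lit 4) (nat_lit 470) (nat_lit 379) (nat_lit 351))))))) (XT.nd (nat_lit 1170) (nat_lit 1596) (nat_lit 0) (XT.nd (nat_lit 546) (nat_lit 1064) (nat_lit 0) (XT.nd (nat_lit 234) (nat_lit 608) (nat_lit 0) (XT.nd (nat_lit 78) (nat_lit 304) (nat_lit 0) (XT.lf (nat_lit 0) (nat_lit 1310982273) (nat_lit 228) (nat_lit 117474033) (nat_lit 76) (nat_lit 11102488935) (nat_lit 104) (nat_lit 5) (nat_lit 107) (nat_lit 5) (nat_lit 105) (nat_lit 5) (nat_lit 471) (nat_lit 379) (nat_lit 350)) (XT.nd (nat_lit 78) (nat_lit 152) (nat_lit 0) (XT.lf (nat_lit 0) (nat_lit 6196622623) (nat_lit 228) (nat_lit 3016778580) (nat_lit 76) (nat_lit 3524649895) (nat_lit 102) (nat_lit 5) (nat_lit 105) (nat_lit 5) (nat_lit 103) (nat_lit 4) (nat_lit 472) (nat_lit 379) (nat_lit 349)) (XT.lf (nat_lit 0) (nat_lit 6894086866) (nat_lit 152) (nat_lit 4341517128) (nat_lit 228) (nat_lit 1715566399)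 (nat_lit 100) (nat_lit 5) (nat_lit 102) (nat_lit 5) (nat_lit 103) (nat_lit 4) (nat_lit 473) (nat_lit 379) (nat_lit 348)))) (XT.nd (nat_lit 156) (nat_lit 228) (nat_lit 0) (XT.nd (nat_lit 78) (nat_lit 152) (nat_lit 0) (XT.lf (nat_lit 0) (nat_lit 3192142466) (nat_lit 228) (nat_lit 9270616887) (nat_lit 76) (nat_lit 706970773) (nat_lit 97) (nat_lit 5) (nat_lit 100) (nat_lit 5) (nat_lit 98) (nat_lit 4) (nat_lit 474) (nat_lit 379) (nat_lit 347)) (XT.lf (nat_lit 0) (nat_lit 705242528) (nat_lit 152) (nat_lit 7544593812) (nat_lit 228) (nat_lit 5143386815) (nat_lit 95) (nat_lit 5) (nat_lit 97) (nat_lit 5) (nat_lit 98) (nat_lit 4) (nat_lit 475) (nat_lit 379) (nat_lit 346))) (XT.nd (nat_lit 78) (nat_lit 228) (nat_lit 0) (XT.lf (nat_lit 0) (nat_lit 11038630047) (nat_lit 152) (nat_lit 2440843433) (nat_lit 228) (nat_lit 143344160) (nat_lit 95) (nat_lit 5) (nat_lit 97) (nat_lit 5) (nat_lit 98) (nat_lit 4) (nat_lit 476) (nat_lit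 379) (nat_lit 345)) (XT.lf (nat_lit 0) (nat_lit 4939716969) (nat_lit 228) (nat_lit 6088142320) (nat_lit 76) (nat_lit 2829078229) (nat_lit 92) (nat_lit 5) (nat_lit 95) (nat_lit 5) (nat_lit 93) (nat_lit 4) (nat_lit 477) (nat_lit 379) (nat_lit 344))))) (XT.nd (nat_lit 312) (nat_lit 532) (nat_lit 0) (XT.nd (nat_lit 156) (nat_lit 152) (nat_lit 0) (XT.nd (nat_lit 78) (nat_lit 228) (nat_lit 0) (XT.lf (nat_lit 0) (nat_lit 4316730563) (nat_lit 152) (nat_lit 5876017374) (nat_lit 228) (nat_lit 3904682485) (nat_lit 90) (nat_lit 5) (nat_lit 92) (nat_lit 5) (nat_lit 93) (nat_lit 4) (nat_lit 478) (nat_lit 379) (nat_lit 343)) (XT.lf (nat_lit 0) (nat_lit 686084378) (nat_lit 152) (nat_lit 544769277) (nat_lit 228) (nat_lit 13114008995) (nat_lit 87) (nat_lit 5) (nat_lit 89) (nat_lit 5) (nat_lit 90) (nat_lit 5) (nat_lit 479) (nat_lit 379) (nat_lit 342))) (XT.nd (nat_lit 78) (nat_lit 152) (nat_lit 0) (XT.lf (nat_lit 0) (nat_lit 6518049816)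 (nat_lit 228) (nat_lit 3146723343) (nat_lit 76) (nat_lit 4931505196) (nat_lit 87) (nat_lit 5) (nat_lit 90) (nat_lit 5) (nat_lit 88) (nat_lit 4) (nat_lit 480) (nat_lit 379) (nat_lit 341)) (XT.lf (nat_lit 0) (nat_lit 7699179665) (nat_lit 152) (nat_lit 4274941910) (nat_lit 228) (nat_lit 2880809635) (nat_lit 85) (nat_lit 5) (nat_lit 87) (nat_lit 5) (nat_lit 88) (nat_lit 4) (nat_lit 481) (nat_lit 379) (nat_lit 340)))) (XT.nd (nat_lit 156) (nat_lit 304) (nat_lit 0) (XT.nd (nat_lit 78) (nat_lit 0) (nat_lit 0) (XT.lf (nat_lit 0) (nat_lit 2435912138) (nat_lit 228) (nat_lit 11396373135) (nat_lit 76) (nat_lit 1287998830) (nat_lit 82) (nat_lit 5) (nat_lit 85) (nat_lit 5) (nat_lit 83) (nat_lit 4) (nat_lit 482) (nat_lit 379) (nat_lit 339)) (XT.lf (nat_lit 0) (nat_lit 7900781374) (nat_lit 228) (nat_lit 513100392) (nat_lit 76) (nat_lit 6977465973) (nat_lit 82) (nat_lit 5) (nat_lit 85) (nat_lit 5) (nat_lit 83) (nat_lit 4) (nat_lit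 483) (nat_lit 379) (nat_lit 338))) (XT.nd (nat_lit 78) (nat_lit 228) (nat_lit 0) (XT.lf (nat_lit 0) (nat_lit 10784042581) (nat_lit 76) (nat_lit 2782466025) (nat_lit 152) (nat_lit 2102929516) (nat_lit 81) (nat_lit 5) (nat_lit 82) (nat_lit 5) (nat_lit 83) (nat_lit 4) (nat_lit 484) (nat_lit 379) (nat_lit 337)) (XT.lf (nat_lit 0) (nat_lit 3409091017) (nat_lit 228) (nat_lit 9540033778) (nat_lit 76) (nat_lit 3004854491) (nat_lit 78) (nat_lit 5) (nat_lit 81) (nat_lit 5) (nat_lit 79) (nat_lit 4) (nat_lit 485) (nat_lit 379) (nat_lit 336)))))) (XT.nd (nat_lit 624) (nat_lit 912) (nat_lit 0) (XT.nd (nat_lit 312) (nat_lit 304) (nat_lit 0) (XT.nd (nat_lit 156) (nat_lit 304) (nat_lit 0) (XT.nd (nat_lit 78) (nat_lit 0) (nat_lit 0) (XT.lf (nat_lit 0) (nat_lit 1769082343) (nat_lit 76) (nat_lit 7303094529) (nat_lit 152) (nat_lit 7173418040) (nat_lit 77) (nat_lit 5) (nat_lit 78) (nat_lit 5) (nat_lit 79) (nat_lit 4) (nat_lit 486) (nat_lit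 379) (nat_lit 335)) (XT.lf (nat_lit 0) (nat_lit 13490827208) (nat_lit 76) (nat_lit 1445018599) (nat_lit 152) (nat_lit 1609194436) (nat_lit 77) (nat_lit 5) (nat_lit 78) (nat_lit 5) (nat_lit 79) (nat_lit 4) (nat_lit 487) (nat_lit 379) (nat_lit 334))) (XT.nd (nat_lit 78) (nat_lit 76) (nat_lit 0) (XT.lf (nat_lit 0) (nat_lit 4105789577) (nat_lit 228) (nat_lit 8175107698) (nat_lit 76) (nat_lit 4569456775) (nat_lit 74) (nat_lit 5) (nat_lit 77) (nat_lit 5) (nat_lit 75) (nat_lit 4) (nat_lit 488) (nat_lit 379) (nat_lit 333)) (XT.lf (nat_lit 0) (nat_lit 3574364849) (nat_lit 76) (nat_lit 6401165404) (nat_lit 152) (nat_lit 7188351315) (nat_lit 73) (nat_lit 5) (nat_lit 74) (nat_lit 5) (nat_lit 75) (nat_lit 4) (nat_lit 489) (nat_lit 379) (nat_lit 332)))) (XT.nd (nat_lit 156) (nat_lit 76) (nat_lit 0) (XT.nd (nat_lit 78) (nat_lit 228) (nat_lit 0) (XT.lf (nat_lit 0) (nat_lit 15724946398) (nat_lit 76) (nat_lit 315531972) (nat_lit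 152) (nat_lit 1445764814) (nat_lit 73) (nat_lit 5) (nat_lit 74) (nat_lit 5) (nat_lit 75) (nat_lit 4) (nat_lit 490) (nat_lit 379) (nat_lit 331)) (XT.lf (nat_lit 0) (nat_lit 4478416571) (nat_lit 228) (nat_lit 7407640417) (nat_lit 76) (nat_lit 5928035737) (nat_lit 70) (nat_lit 5) (nat_lit 73) (nat_lit 5) (nat_lit 71) (nat_lit 4) (nat_lit 491) (nat_lit 379) (nat_lit 330))) (XT.nd (nat_lit 78) (nat_lit 0) (nat_lit 0) (XT.lf (nat_lit 0) (nat_lit 4782897513) (nat_lit 76) (nat_lit 5773408979) (nat_lit 152) (nat_lit 7594892165) (nat_lit 69) (nat_lit 5) (nat_lit 70) (nat_lit 5) (nat_lit 71) (nat_lit 4) (nat_lit 492) (nat_lit 379) (nat_lit 329)) (XT.lf (nat_lit 0) (nat_lit 16835249952) (nat_lit 152) (nat_lit 1128022817) (nat_lit 0) (nat_lit 534585031) (nat_lit 69) (nat_lit 5) (nat_lit 71) (nat_lit 4) (nat_lit 69) (nat_lit 4) (nat_lit 493) (nat_lit 379) (nat_lit 328))))) (XT.nd (nat_lit 312) (nat_lit 380) (nat_lit 0) (XT.nd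 (nat_lit 156) (nat_lit 228) (nat_lit 0) (XT.nd (nat_lit 78) (nat_lit 76) (nat_lit 0) (XT.lf (nat_lit 0) (nat_lit 4469905751) (nat_lit 228) (nat_lit 7361811576) (nat_lit 76) (nat_lit 7018646725) (nat_lit 66) (nat_lit 5) (nat_lit 69) (nat_lit 5) (nat_lit 67) (nat_lit 4) (nat_lit 494) (nat_lit 379) (nat_lit 327)) (XT.lf (nat_lit 0) (nat_lit 5266074510) (nat_lit 76) (nat_lit 5489056743) (nat_lit 152) (nat_lit 8457757206) (nat_lit 65) (nat_lit 5) (nat_lit 66) (nat_lit 5) (nat_lit 67) (nat_lit 4) (nat_lit 495) (nat_lit 379) (nat_lit 326))) (XT.nd (nat_lit 78) (nat_lit 228) (nat_lit 0) (XT.lf (nat_lit 0) (nat_lit 17254204089) (nat_lit 152) (nat_lit 1285030389) (nat_lit 0) (nat_lit 1046296770) (nat_lit 65) (nat_lit 5) (nat_lit 67) (nat_lit 4) (nat_lit 65) (nat_lit 4) (nat_lit 496) (nat_lit 379) (nat_lit 325)) (XT.lf (nat_lit 0) (nat_lit 4012253600) (nat_lit 228) (nat_lit 8183027422) (nat_lit 76) (nat_lit 7769596148) (nat_lit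 62) (nat_lit 5) (nat_lit 65) (nat_lit 5) (nat_lit 63) (nat_lit 4) (nat_lit 497) (nat_lit 379) (nat_lit 324)))) (XT.nd (nat_lit 156) (nat_lit 304) (nat_lit 0) (XT.nd (nat_lit 78) (nat_lit 0) (nat_lit 0) (XT.lf (nat_lit 0) (nat_lit 4873082046) (nat_lit 76) (nat_lit 5628141694) (nat_lit 152) (nat_lit 9853630327) (nat_lit 61) (nat_lit 5) (nat_lit 62) (nat_lit 5) (nat_lit 63) (nat_lit 4) (nat_lit 498) (nat_lit 379) (nat_lit 323)) (XT.lf (nat_lit 0) (nat_lit 17221359629) (nat_lit 152) (nat_lit 2387968653) (nat_lit 0) (nat_lit 1146108306) (nat_lit 61) (nat_lit 5) (nat_lit 63) (nat_lit 4) (nat_lit 61) (nat_lit 4) (nat_lit 499) (nat_lit 379) (nat_lit 322))) (XT.nd (nat_lit 78) (nat_lit 76) (nat_lit 0) (XT.lf (nat_lit 0) (nat_lit 3024809645) (nat_lit 228) (nat_lit 10041501669) (nat_lit 76) (nat_lit 8097634446) (nat_lit 58) (nat_lit 5) (nat_lit 61) (nat_lit 5) (nat_lit 59) (nat_lit 4) (nat_lit 500) (nat_lit 379) (nat_lit 321))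 (XT.lf (nat_lit 0) (nat_lit 3427145359) (nat_lit 76) (nat_lit 6283455269) (nat_lit 152) (nat_lit 11873025888) (nat_lit 57) (nat_lit 5) (nat_lit 58) (nat_lit 5) (nat_lit 59) (nat_lit 4) (nat_lit 501) (nat_lit 379) (nat_lit 320))))))))
noncomputable def xc52 : XT := (XT.nd (nat_lit 2340) (nat_lit 988) (nat_lit 0) (XT.nd (nat_lit 1170) (nat_lit 836) (nat_lit 0) (XT.nd (nat_lit 546) (nat_lit 532) (nat_lit 0) (XT.nd (nat_lit 234) (nat_lit 228) (nat_lit 0) (XT.nd (nat_lit 78) (nat_lit 228) (nat_lit 0) (XT.lf (nat_lit 0) (nat_lit 16650117631) (nat_lit 152) (nat_lit 4622678426) (nat_lit 0) (nat_lit 741508148) (nat_lit 57) (nat_lit 5) (nat_lit 59) (nat_lit 4) (nat_lit 57) (nat_lit 4) (nat_lit 502) (nat_lit 379) (nat_lit 319)) (XT.nd (nat_lit 78) (nat_lit 76) (nat_lit 0) (XT.lf (nat_lit 0) (nat_lit 1412280978) (nat_lit 152) (nat_lit 13136404189) (nat_lit 76) (nat_lit 7905876382) (nat_lit 55) (nat_lit 5) (nat_lit 57) (nat_lit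 5) (nat_lit 56) (nat_lit 4) (nat_lit 503) (nat_lit 379) (nat_lit 318)) (XT.lf (nat_lit 0) (nat_lit 721179372) (nat_lit 76) (nat_lit 7562800951) (nat_lit 152) (nat_lit 14622461376) (nat_lit 54) (nat_lit 5) (nat_lit 55) (nat_lit 5) (nat_lit 56) (nat_lit 4) (nat_lit 504) (nat_lit 379) (nat_lit 317)))) (XT.nd (nat_lit 156) (nat_lit 152) (nat_lit 0) (XT.nd (nat_lit 78) (nat_lit 76) (nat_lit 0) (XT.lf (nat_lit 0) (nat_lit 15160127170) (nat_lit 76) (nat_lit 280619302) (nat_lit 152) (nat_lit 7928765266) (nat_lit 54) (nat_lit 5) (nat_lit 55) (nat_lit 5) (nat_lit 56) (nat_lit 4) (nat_lit 505) (nat_lit 379) (nat_lit 316)) (XT.lf (nat_lit 0) (nat_lit 6134341187) (nat_lit 76) (nat_lit 16753608015) (nat_lit 76) (nat_lit 956253599) (nat_lit 53) (nat_lit 4) (nat_lit 54) (nat_lit 5) (nat_lit 54) (nat_lit 4) (nat_lit 506) (nat_lit 379) (nat_lit 315))) (XT.nd (nat_lit 78) (nat_lit 76) (nat_lit 0) (XT.lf (nat_lit 0) (nat_lit 6137862268)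 (nat_lit 152) (nat_lit 3419204708) (nat_lit 76) (nat_lit 14773255933) (nat_lit 52) (nat_lit 5) (nat_lit 54) (nat_lit 5) (nat_lit 53) (nat_lit 4) (nat_lit 507) (nat_lit 379) (nat_lit 314)) (XT.lf (nat_lit 0) (nat_lit 11414630763) (nat_lit 76) (nat_lit 2069618817) (nat_lit 152) (nat_lit 11344733825) (nat_lit 51) (nat_lit 5) (nat_lit 52) (nat_lit 5) (nat_lit 53) (nat_lit 4) (nat_lit 508) (nat_lit 379) (nat_lit 313))))) (XT.nd (nat_lit 312) (nat_lit 304) (nat_lit 0) (XT.nd (nat_lit 156) (nat_lit 76) (nat_lit 0) (XT.nd (nat_lit 78) (nat_lit 76) (nat_lit 0) (XT.lf (nat_lit 0) (nat_lit 1293762957) (nat_lit 76) (nat_lit 19807844658) (nat_lit 76) (nat_lit 4239479555) (nat_lit 50) (nat_lit 4) (nat_lit 51) (nat_lit 5) (nat_lit 51) (nat_lit 4) (nat_lit 509) (nat_lit 379) (nat_lit 312)) (XT.lf (nat_lit 0) (nat_lit 3125220205) (nat_lit 152) (nat_lit 9296766980) (nat_lit 76) (nat_lit 13442488677) (nat_lit 49) (nat_lit 5) (nat_lit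 51) (nat_lit 5) (nat_lit 50) (nat_lit 4) (nat_lit 510) (nat_lit 379) (nat_lit 311))) (XT.nd (nat_lit 78) (nat_lit 0) (nat_lit 0) (XT.lf (nat_lit 0) (nat_lit 5872863951) (nat_lit 76) (nat_lit 4759802213) (nat_lit 152) (nat_lit 15769431121) (nat_lit 48) (nat_lit 5) (nat_lit 49) (nat_lit 5) (nat_lit 50) (nat_lit 4) (nat_lit 511) (nat_lit 379) (nat_lit 310)) (XT.lf (nat_lit 0) (nat_lit 18440895511) (nat_lit 152) (nat_lit 5392061900) (nat_lit 0) (nat_lit 3120623874) (nat_lit 48) (nat_lit 5) (nat_lit 50) (nat_lit 4) (nat_lit 48) (nat_lit 4) (nat_lit 512) (nat_lit 379) (nat_lit 309)))) (XT.nd (nat_lit 156) (nat_lit 152) (nat_lit 0) (XT.nd (nat_lit 78) (nat_lit 76) (nat_lit 0) (XT.lf (nat_lit 0) (nat_lit 10258936472) (nat_lit 76) (nat_lit 16322257103) (nat_lit 76) (nat_lit 937482287) (nat_lit 47) (nat_lit 4) (nat_lit 48) (nat_lit 5) (nat_lit 48) (nat_lit 4) (nat_lit 513) (nat_lit 379) (nat_lit 308)) (XT.lf (nat_lit 0) (nat_lit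 6738122209) (nat_lit 152) (nat_lit 1769011177) (nat_lit 76) (nat_lit 19591397695) (nat_lit 46) (nat_lit 5) (nat_lit 48) (nat_lit 5) (nat_lit 47) (nat_lit 4) (nat_lit 514) (nat_lit 379) (nat_lit 307))) (XT.nd (nat_lit 78) (nat_lit 76) (nat_lit 0) (XT.lf (nat_lit 0) (nat_lit 14366836985) (nat_lit 76) (nat_lit 349929851) (nat_lit 152) (nat_lit 13975988876) (nat_lit 45) (nat_lit 5) (nat_lit 46) (nat_lit 5) (nat_lit 47) (nat_lit 4) (nat_lit 515) (nat_lit 379) (nat_lit 306)) (XT.lf (nat_lit 0) (nat_lit 1581292179) (nat_lit 76) (nat_lit 21417701819) (nat_lit 76) (nat_lit 6303887023) (nat_lit 44) (nat_lit 4) (nat_lit 45) (nat_lit 5) (nat_lit 45) (nat_lit 4) (nat_lit 516) (nat_lit 379) (nat_lit 305)))))) (XT.nd (nat_lit 546) (nat_lit 456) (nat_lit 0) (XT.nd (nat_lit 234) (nat_lit 228) (nat_lit 0) (XT.nd (nat_lit 78) (nat_lit 76) (nat_lit 0) (XT.lf (nat_lit 0) (nat_lit 1670363155) (nat_lit 152) (nat_lit 11778618598) (nat_lit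 76) (nat_lit 16478772736) (nat_lit 43) (nat_lit 5) (nat_lit 45) (nat_lit 5) (nat_lit 44) (nat_lit 4) (nat_lit 517) (nat_lit 379) (nat_lit 304)) (XT.nd (nat_lit 78) (nat_lit 0) (nat_lit 0) (XT.lf (nat_lit 0) (nat_lit 4581497877) (nat_lit 76) (nat_lit 5174646989) (nat_lit 152) (nat_lit 20813387256) (nat_lit 42) (nat_lit 5) (nat_lit 43) (nat_lit 5) (nat_lit 44) (nat_lit 4) (nat_lit 518) (nat_lit 379) (nat_lit 303)) (XT.lf (nat_lit 0) (nat_lit 18191828928) (nat_lit 152) (nat_lit 9674679311) (nat_lit 0) (nat_lit 3360835541) (nat_lit 42) (nat_lit 5) (nat_lit 44) (nat_lit 4) (nat_lit 42) (nat_lit 4) (nat_lit 519) (nat_lit 379) (nat_lit 302)))) (XT.nd (nat_lit 156) (nat_lit 76) (nat_lit 0) (XT.nd (nat_lit 78) (nat_lit 76) (nat_lit 0) (XT.lf (nat_lit 0) (nat_lit 7130357241) (nat_lit 76) (nat_lit 19826339696) (nat_lit 76) (nat_lit 4945909994) (nat_lit 41) (nat_lit 4) (nat_lit 42) (nat_lit 5) (nat_lit 42) (nat_lit 4) (nat_lit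 520) (nat_lit 379) (nat_lit 301)) (XT.lf (nat_lit 0) (nat_lit 3375331407) (nat_lit 152) (nat_lit 8076503367) (nat_lit 76) (nat_lit 21143666290) (nat_lit 40) (nat_lit 5) (nat_lit 42) (nat_lit 5) (nat_lit 41) (nat_lit 4) (nat_lit 521) (nat_lit 379) (nat_lit 300))) (XT.nd (nat_lit 78) (nat_lit 0) (nat_lit 0) (XT.lf (nat_lit 0) (nat_lit 9166865953) (nat_lit 76) (nat_lit 2725690966) (nat_lit 152) (nat_lit 21413783879) (nat_lit 39) (nat_lit 5) (nat_lit 40) (nat_lit 5) (nat_lit 41) (nat_lit 4) (nat_lit 522) (nat_lit 379) (nat_lit 299)) (XT.lf (nat_lit 0) (nat_lit 20765550996) (nat_lit 152) (nat_lit 7087179019) (nat_lit 0) (nat_lit 6182768641) (nat_lit 39) (nat_lit 5) (nat_lit 41) (nat_lit 4) (nat_lit 39) (nat_lit 4) (nat_lit 523) (nat_lit 379) (nat_lit 298))))) (XT.nd (nat_lit 312) (nat_lit 228) (nat_lit 0) (XT.nd (nat_lit 156) (nat_lit 76) (nat_lit 0) (XT.nd (nat_lit 78) (nat_lit 76) (nat_lit 0) (XT.lf (nat_lit 0) (nat_lit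 10575271140) (nat_lit 76) (nat_lit 19417030073) (nat_lit 76) (nat_lit 4791603518) (nat_lit 38) (nat_lit 4) (nat_lit 39) (nat_lit 5) (nat_lit 39) (nat_lit 4) (nat_lit 524) (nat_lit 379) (nat_lit 297)) (XT.lf (nat_lit 0) (nat_lit 3895409074) (nat_lit 152) (nat_lit 6759148269) (nat_lit 76) (nat_lit 24898132874) (nat_lit 37) (nat_lit 5) (nat_lit 39) (nat_lit 5) (nat_lit 38) (nat_lit 4) (nat_lit 525) (nat_lit 379) (nat_lit 296))) (XT.nd (nat_lit 78) (nat_lit 0) (nat_lit 0) (XT.lf (nat_lit 0) (nat_lit 11308590603) (nat_lit 76) (nat_lit 1506983556) (nat_lit 152) (nat_lit 23525476836) (nat_lit 36) (nat_lit 5) (nat_lit 37) (nat_lit 5) (nat_lit 38) (nat_lit 4) (nat_lit 526) (nat_lit 379) (nat_lit 295)) (XT.lf (nat_lit 0) (nat_lit 22108548000) (nat_lit 152) (nat_lit 7249364709) (nat_lit 0) (nat_lit 7791994190) (nat_lit 36) (nat_lit 5) (nat_lit 38) (nat_lit 4) (nat_lit 36) (nat_lit 4) (nat_lit 527) (nat_lit 379) (nat_lit 294))))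 (XT.nd (nat_lit 156) (nat_lit 76) (nat_lit 0) (XT.nd (nat_lit 78) (nat_lit 76) (nat_lit 0) (XT.lf (nat_lit 0) (nat_lit 11194527879) (nat_lit 76) (nat_lit 20569661860) (nat_lit 76) (nat_lit 6216322788) (nat_lit 35) (nat_lit 4) (nat_lit 36) (nat_lit 5) (nat_lit 36) (nat_lit 4) (nat_lit 528) (nat_lit 379) (nat_lit 293)) (XT.lf (nat_lit 0) (nat_lit 2852692477) (nat_lit 152) (nat_lit 8598087187) (nat_lit 76) (nat_lit 27383369407) (nat_lit 34) (nat_lit 5) (nat_lit 36) (nat_lit 5) (nat_lit 35) (nat_lit 4) (nat_lit 529) (nat_lit 379) (nat_lit 292))) (XT.nd (nat_lit 78) (nat_lit 0) (nat_lit 0) (XT.lf (nat_lit 0) (nat_lit 10198894461) (nat_lit 76) (nat_lit 1930475497) (nat_lit 152) (nat_lit 27580362683) (nat_lit 33) (nat_lit 5) (nat_lit 34) (nat_lit 5) (nat_lit 35) (nat_lit 4) (nat_lit 530) (nat_lit 379) (nat_lit 291)) (XT.lf (nat_lit 0) (nat_lit 21810270435) (nat_lit 152) (nat_lit 11023566772) (nat_lit 0) (nat_lit 7773969192)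 (nat_lit 33) (nat_lit 5) (nat_lit 35) (nat_lit 4) (nat_lit 33) (nat_lit 4) (nat_lit 531) (nat_lit 379) (nat_lit 290))))))) (XT.nd (nat_lit 1170) (nat_lit 228) (nat_lit 0) (XT.nd (nat_lit 546) (nat_lit 380) (nat_lit 0) (XT.nd (nat_lit 234) (nat_lit 152) (nat_lit 0) (XT.nd (nat_lit 78) (nat_lit 152) (nat_lit 0) (XT.lf (nat_lit 0) (nat_lit 8085072690) (nat_lit 76) (nat_lit 23756984394) (nat_lit 76) (nat_lit 9688951862) (nat_lit 32) (nat_lit 4) (nat_lit 33) (nat_lit 5) (nat_lit 33) (nat_lit 4) (nat_lit 532) (nat_lit 379) (nat_lit 289)) (XT.nd (nat_lit 78) (nat_lit 152) (nat_lit 0) (XT.lf (nat_lit 0) (nat_lit 27921743246) (nat_lit 76) (nat_lit 14328372363) (nat_lit 76) (nat_lit 229532753) (nat_lit 32) (nat_lit 4) (nat_lit 33) (nat_lit 5) (nat_lit 33) (nat_lit 4) (nat_lit 533) (nat_lit 379) (nat_lit 288)) (XT.lf (nat_lit 0) (nat_lit 4829731829) (nat_lit 76) (nat_lit 4509421482) (nat_lit 152) (nat_lit 34114516525) (nat_lit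 30) (nat_lit 5) (nat_lit 31) (nat_lit 5) (nat_lit 32) (nat_lit 4) (nat_lit 534) (nat_lit 379) (nat_lit 287)))) (XT.nd (nat_lit 156) (nat_lit 76) (nat_lit 0) (XT.nd (nat_lit 78) (nat_lit 76) (nat_lit 0) (XT.lf (nat_lit 0) (nat_lit 19357356903) (nat_lit 152) (nat_lit 19482543433) (nat_lit 0) (nat_lit 5611931642) (nat_lit 30) (nat_lit 5) (nat_lit 32) (nat_lit 4) (nat_lit 30) (nat_lit 4) (nat_lit 535) (nat_lit 379) (nat_lit 286)) (XT.lf (nat_lit 0) (nat_lit 123016407) (nat_lit 76) (nat_lit 29564685979) (nat_lit 76) (nat_lit 15791889028) (nat_lit 29) (nat_lit 4) (nat_lit 30) (nat_lit 5) (nat_lit 30) (nat_lit 4) (nat_lit 536) (nat_lit 379) (nat_lit 285))) (XT.nd (nat_lit 78) (nat_lit 76) (nat_lit 0) (XT.lf (nat_lit 0) (nat_lit 20648951750) (nat_lit 76) (nat_lit 19841859004) (nat_lit 76) (nat_lit 6042487597) (nat_lit 29) (nat_lit 4) (nat_lit 30) (nat_lit 5) (nat_lit 30) (nat_lit 4) (nat_lit 537) (nat_lit 379) (nat_lit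 284)) (XT.lf (nat_lit 0) (nat_lit 3888131188) (nat_lit 152) (nat_lit 5932265535) (nat_lit 76) (nat_lit 37798063373) (nat_lit 28) (nat_lit 5) (nat_lit 30) (nat_lit 5) (nat_lit 29) (nat_lit 4) (nat_lit 538) (nat_lit 379) (nat_lit 283))))) (XT.nd (nat_lit 312) (nat_lit 228) (nat_lit 0) (XT.nd (nat_lit 156) (nat_lit 76) (nat_lit 0) (XT.nd (nat_lit 78) (nat_lit 0) (nat_lit 0) (XT.lf (nat_lit 0) (nat_lit 14111587373) (nat_lit 152) (nat_lit 33954532744) (nat_lit 0) (nat_lit 664771041) (nat_lit 27) (nat_lit 5) (nat_lit 29) (nat_lit 4) (nat_lit 27) (nat_lit 4) (nat_lit 539) (nat_lit 379) (nat_lit 282)) (XT.lf (nat_lit 0) (nat_lit 24767250721) (nat_lit 152) (nat_lit 13808856259) (nat_lit 0) (nat_lit 11296823329) (nat_lit 27) (nat_lit 5) (nat_lit 29) (nat_lit 4) (nat_lit 27) (nat_lit 4) (nat_lit 540) (nat_lit 379) (nat_lit 281))) (XT.nd (nat_lit 78) (nat_lit 0) (nat_lit 0) (XT.lf (nat_lit 0) (nat_lit 7015980894) (nat_lit 76)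 (nat_lit 28762758048) (nat_lit 76) (nat_lit 15269407298) (nat_lit 26) (nat_lit 4) (nat_lit 27) (nat_lit 5) (nat_lit 27) (nat_lit 4) (nat_lit 541) (nat_lit 379) (nat_lit 280)) (XT.lf (nat_lit 0) (nat_lit 28687123483) (nat_lit 76) (nat_lit 18541923793) (nat_lit 76) (nat_lit 5026317354) (nat_lit 26) (nat_lit 4) (nat_lit 27) (nat_lit 5) (nat_lit 27) (nat_lit 4) (nat_lit 542) (nat_lit 379) (nat_lit 279)))) (XT.nd (nat_lit 156) (nat_lit 76) (nat_lit 0) (XT.nd (nat_lit 78) (nat_lit 76) (nat_lit 0) (XT.lf (nat_lit 0) (nat_lit 5385908010) (nat_lit 152) (nat_lit 2603820640) (nat_lit 76) (nat_lit 45508389018) (nat_lit 25) (nat_lit 5) (nat_lit 27) (nat_lit 5) (nat_lit 26) (nat_lit 4) (nat_lit 543) (nat_lit 379) (nat_lit 278)) (XT.lf (nat_lit 0) (nat_lit 16194828393) (nat_lit 152) (nat_lit 35544736432) (nat_lit 0) (nat_lit 3031535166) (nat_lit 24) (nat_lit 5) (nat_lit 26) (nat_lit 4) (nat_lit 24) (nat_lit 4) (nat_lit 544) (nat_lit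 379) (nat_lit 277))) (XT.nd (nat_lit 78) (nat_lit 76) (nat_lit 0) (XT.lf (nat_lit 0) (nat_lit 27404222119) (nat_lit 152) (nat_lit 14454608709) (nat_lit 0) (nat_lit 14221155002) (nat_lit 24) (nat_lit 5) (nat_lit 26) (nat_lit 4) (nat_lit 24) (nat_lit 4) (nat_lit 545) (nat_lit 379) (nat_lit 276)) (XT.lf (nat_lit 0) (nat_lit 7354860896) (nat_lit 76) (nat_lit 31637139770) (nat_lit 76) (nat_lit 18434874700) (nat_lit 23) (nat_lit 4) (nat_lit 24) (nat_lit 5) (nat_lit 24) (nat_lit 4) (nat_lit 546) (nat_lit 379) (nat_lit 275)))))) (XT.nd (nat_lit 54210) (nat_lit 0) (nat_lit 11476) (XT.nd (nat_lit 234) (nat_lit 76) (nat_lit 0) (XT.nd (nat_lit 78) (nat_lit 152) (nat_lit 0) (XT.lf (nat_lit 0) (nat_lit 30058595784) (nat_lit 76) (nat_lit 20986475060) (nat_lit 76) (nat_lit 7765571202) (nat_lit 23) (nat_lit 4) (nat_lit 24) (nat_lit 5) (nat_lit 24) (nat_lit 4) (nat_lit 547) (nat_lit 379) (nat_lit 274)) (XT.nd (nat_lit 78) (nat_lit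 76) (nat_lit 0) (XT.lf (nat_lit 0) (nat_lit 3133150433) (nat_lit 152) (nat_lit 6878704388) (nat_lit 76) (nat_lit 50223970005) (nat_lit 22) (nat_lit 5) (nat_lit 24) (nat_lit 5) (nat_lit 23) (nat_lit 4) (nat_lit 548) (nat_lit 379) (nat_lit 273)) (XT.lf (nat_lit 0) (nat_lit 14342399831) (nat_lit 152) (nat_lit 45882922586) (nat_lit 0) (nat_lit 1471944865) (nat_lit 21) (nat_lit 5) (nat_lit 23) (nat_lit 4) (nat_lit 21) (nat_lit 4) (nat_lit 549) (nat_lit 379) (nat_lit 272)))) (XT.nd (nat_lit 156) (nat_lit 76) (nat_lit 0) (XT.nd (nat_lit 78) (nat_lit 0) (nat_lit 0) (XT.lf (nat_lit 0) (nat_lit 26030278959) (nat_lit 152) (nat_lit 24024739997) (nat_lit 0) (nat_lit 13143263671) (nat_lit 21) (nat_lit 5) (nat_lit 23) (nat_lit 4) (nat_lit 21) (nat_lit 4) (nat_lit 550) (nat_lit 379) (nat_lit 271)) (XT.lf (nat_lit 0) (nat_lit 38042654470) (nat_lit 152) (nat_lit 1562897143) (nat_lit 0) (nat_lit 25139561199) (nat_lit 21) (nat_lit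 5) (nat_lit 23) (nat_lit 4) (nat_lit 21) (nat_lit 4) (nat_lit 551) (nat_lit 379) (nat_lit 270))) (XT.nd (nat_lit 53742) (nat_lit 0) (nat_lit 14364) (XT.lf (nat_lit 0) (nat_lit 21950567464) (nat_lit 76) (nat_lit 28650457431) (nat_lit 76) (nat_lit 15731754468) (nat_lit 20) (nat_lit 4) (nat_lit 21) (nat_lit 5) (nat_lit 21) (nat_lit 4) (nat_lit 552) (nat_lit 379) (nat_lit 269)) (XT.lf (nat_lit 0) (nat_lit 2150493131) (nat_lit 456) (nat_lit 965990410) (nat_lit 456) (nat_lit 965990410) (nat_lit 209) (nat_lit 4) (nat_lit 215) (nat_lit 5) (nat_lit 215) (nat_lit 4) (nat_lit 440) (nat_lit 380) (nat_lit 380))))) (XT.nd (nat_lit 312) (nat_lit 1520) (nat_lit 0) (XT.nd (nat_lit 156) (nat_lit 456) (nat_lit 0) (XT.nd (nat_lit 78) (nat_lit 456) (nat_lit 0) (XT.lf (nat_lit 0) (nat_lit 2069001683) (nat_lit 456) (nat_lit 5250645049) (nat_lit 0) (nat_lit 934534560) (nat_lit 203) (nat_lit 5) (nat_lit 209) (nat_lit 4) (nat_lit 203) (nat_lit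 4) (nat_lit 441) (nat_lit 380) (nat_lit 379)) (XT.lf (nat_lit 0) (nat_lit 1666470028) (nat_lit 456) (nat_lit 4457878265) (nat_lit 456) (nat_lit 2221986751) (nat_lit 197) (nat_lit 4) (nat_lit 203) (nat_lit 5) (nat_lit 203) (nat_lit 4) (nat_lit 442) (nat_lit 380) (nat_lit 378))) (XT.nd (nat_lit 78) (nat_lit 0) (nat_lit 0) (XT.lf (nat_lit 0) (nat_lit 307251874) (nat_lit 380) (nat_lit 1472298597) (nat_lit 456) (nat_lit 6662505632) (nat_lit 191) (nat_lit 5) (nat_lit 196) (nat_lit 5) (nat_lit 197) (nat_lit 4) (nat_lit 443) (nat_lit 380) (nat_lit 377)) (XT.lf (nat_lit 0) (nat_lit 5840482996) (nat_lit 456) (nat_lit 1076439619) (nat_lit 0) (nat_lit 1623557065) (nat_lit 191) (nat_lit 5) (nat_lit 197) (nat_lit 4) (nat_lit 191) (nat_lit 4) (nat_lit 444) (nat_lit 380) (nat_lit 376)))) (XT.nd (nat_lit 156) (nat_lit 760) (nat_lit 0) (XT.nd (nat_lit 78) (nat_lit 304) (nat_lit 0) (XT.lf (nat_lit 0) (nat_lit 1331391732) (nat_lit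 456) (nat_lit 2492802019) (nat_lit 76) (nat_lit 4817965560) (nat_lit 185) (nat_lit 5) (nat_lit 191) (nat_lit 5) (nat_lit 186) (nat_lit 4) (nat_lit 445) (nat_lit 380) (nat_lit 375)) (XT.lf (nat_lit 0) (nat_lit 4797059866) (nat_lit 304) (nat_lit 593425580) (nat_lit 380) (nat_lit 3356781181) (nat_lit 181) (nat_lit 5) (nat_lit 185) (nat_lit 5) (nat_lit 186) (nat_lit 4) (nat_lit 446) (nat_lit 380) (nat_lit 374))) (XT.nd (nat_lit 78) (nat_lit 304) (nat_lit 0) (XT.lf (nat_lit 0) (nat_lit 691202098) (nat_lit 456) (nat_lit 5459045351) (nat_lit 76) (nat_lit 2705402535) (nat_lit 175) (nat_lit 5) (nat_lit 181) (nat_lit 5) (nat_lit 176) (nat_lit 4) (nat_lit 447) (nat_lit 380) (nat_lit 373)) (XT.lf (nat_lit 0) (nat_lit 1938245405) (nat_lit 304) (nat_lit 2825254890) (nat_lit 380) (nat_lit 4203686518) (nat_lit 171) (nat_lit 5) (nat_lit 175) (nat_lit 5) (nat_lit 176) (nat_lit 4) (nat_lit 448) (nat_lit 380) (nat_lit 372))))))))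
noncomputable def xc53 : XT := (XT.nd (nat_lit 2340) (nat_lit 2964) (nat_lit 0) (XT.nd (nat_lit 1170) (nat_lit 2508) (nat_lit 0) (XT.nd (nat_lit 546) (nat_lit 1672) (nat_lit 0) (XT.nd (nat_lit 234) (nat_lit 1292) (nat_lit 0) (XT.nd (nat_lit 78) (nat_lit 380) (nat_lit 0) (XT.lf (nat_lit 0) (nat_lit 451658374) (nat_lit 304) (nat_lit 8478639955) (nat_lit 304) (nat_lit 152610558) (nat_lit 167) (nat_lit 4) (nat_lit 171) (nat_lit 5) (nat_lit 171) (nat_lit 4) (nat_lit 449) (nat_lit 380) (nat_lit 371)) (XT.nd (nat_lit 78) (nat_lit 304) (nat_lit 0) (XT.lf (nat_lit 0) (nat_lit 3948233392) (nat_lit 380) (nat_lit 1106808024) (nat_lit 76) (nat_lit 4145710061) (nat_lit 166) (nat_lit 5) (nat_lit 171) (nat_lit 5) (nat_lit 167) (nat_lit 4) (nat_lit 450) (nat_lit 380) (nat_lit 370)) (XT.lf (nat_lit 0) (nat_lit 6635138940) (nat_lit 304) (nat_lit 1507411630) (nat_lit 380) (nat_lit 1180336285) (nat_lit 162) (nat_lit 5) (nat_lit 166)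 (nat_lit 5) (nat_lit 167) (nat_lit 4) (nat_lit 451) (nat_lit 380) (nat_lit 369)))) (XT.nd (nat_lit 156) (nat_lit 608) (nat_lit 0) (XT.nd (nat_lit 78) (nat_lit 304) (nat_lit 0) (XT.lf (nat_lit 0) (nat_lit 2946928508) (nat_lit 380) (nat_lit 4351963413) (nat_lit 76) (nat_lit 2149181065) (nat_lit 157) (nat_lit 5) (nat_lit 162) (nat_lit 5) (nat_lit 158) (nat_lit 4) (nat_lit 452) (nat_lit 380) (nat_lit 368)) (XT.lf (nat_lit 0) (nat_lit 3496195222) (nat_lit 304) (nat_lit 3665078626) (nat_lit 380) (nat_lit 2415788265) (nat_lit 153) (nat_lit 5) (nat_lit 157) (nat_lit 5) (nat_lit 158) (nat_lit 4) (nat_lit 453) (nat_lit 380) (nat_lit 367))) (XT.nd (nat_lit 78) (nat_lit 228) (nat_lit 0) (XT.lf (nat_lit 0) (nat_lit 1731741631) (nat_lit 380) (nat_lit 7870546970) (nat_lit 76) (nat_lit 107885141) (nat_lit 148) (nat_lit 5) (nat_lit 153) (nat_lit 5) (nat_lit 149) (nat_lit 4) (nat_lit 454) (nat_lit 380) (nat_lit 366)) (XT.lf (nat_lit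 0) (nat_lit 78929379) (nat_lit 228) (nat_lit 5887515255) (nat_lit 304) (nat_lit 3879784408) (nat_lit 145) (nat_lit 5) (nat_lit 148) (nat_lit 5) (nat_lit 149) (nat_lit 4) (nat_lit 455) (nat_lit 380) (nat_lit 365))))) (XT.nd (nat_lit 312) (nat_lit 760) (nat_lit 0) (XT.nd (nat_lit 156) (nat_lit 532) (nat_lit 0) (XT.nd (nat_lit 78) (nat_lit 304) (nat_lit 0) (XT.lf (nat_lit 0) (nat_lit 328031391) (nat_lit 304) (nat_lit 1698958033) (nat_lit 76) (nat_lit 7959498187) (nat_lit 144) (nat_lit 5) (nat_lit 148) (nat_lit 5) (nat_lit 145) (nat_lit 5) (nat_lit 456) (nat_lit 380) (nat_lit 364)) (XT.lf (nat_lit 0) (nat_lit 4581639650) (nat_lit 380) (nat_lit 3583652238) (nat_lit 76) (nat_lit 1964589862) (nat_lit 140) (nat_lit 5) (nat_lit 145) (nat_lit 5) (nat_lit 141) (nat_lit 4) (nat_lit 457) (nat_lit 380) (nat_lit 363))) (XT.nd (nat_lit 78) (nat_lit 304) (nat_lit 0) (XT.lf (nat_lit 0) (nat_lit 4732863115) (nat_lit 228) (nat_lit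 4228747216) (nat_lit 304) (nat_lit 1316010930) (nat_lit 137) (nat_lit 5) (nat_lit 140) (nat_lit 5) (nat_lit 141) (nat_lit 4) (nat_lit 458) (nat_lit 380) (nat_lit 362)) (XT.lf (nat_lit 0) (nat_lit 2833169942) (nat_lit 228) (nat_lit 130608429) (nat_lit 304) (nat_lit 7465743573) (nat_lit 133) (nat_lit 5) (nat_lit 136) (nat_lit 5) (nat_lit 137) (nat_lit 5) (nat_lit 459) (nat_lit 380) (nat_lit 361)))) (XT.nd (nat_lit 156) (nat_lit 456) (nat_lit 0) (XT.nd (nat_lit 78) (nat_lit 76) (nat_lit 0) (XT.lf (nat_lit 0) (nat_lit 818075584) (nat_lit 228) (nat_lit 6548003222) (nat_lit 304) (nat_lit 3218898559) (nat_lit 130) (nat_lit 5) (nat_lit 133) (nat_lit 5) (nat_lit 134) (nat_lit 4) (nat_lit 460) (nat_lit 380) (nat_lit 360)) (XT.lf (nat_lit 0) (nat_lit 1128708636) (nat_lit 304) (nat_lit 1252395163) (nat_lit 76) (nat_lit 8363787738) (nat_lit 129) (nat_lit 5) (nat_lit 133) (nat_lit 5) (nat_lit 130) (nat_lit 5) (nat_lit 461) (nat_lit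 380) (nat_lit 359))) (XT.nd (nat_lit 78) (nat_lit 228) (nat_lit 0) (XT.lf (nat_lit 0) (nat_lit 5552576696) (nat_lit 304) (nat_lit 3428888998) (nat_lit 76) (nat_lit 1926870622) (nat_lit 126) (nat_lit 5) (nat_lit 130) (nat_lit 5) (nat_lit 127) (nat_lit 4) (nat_lit 462) (nat_lit 380) (nat_lit 358)) (XT.lf (nat_lit 0) (nat_lit 5370021578) (nat_lit 228) (nat_lit 4747232955) (nat_lit 304) (nat_lit 959192113) (nat_lit 123) (nat_lit 5) (nat_lit 126) (nat_lit 5) (nat_lit 127) (nat_lit 4) (nat_lit 463) (nat_lit 380) (nat_lit 357)))))) (XT.nd (nat_lit 546) (nat_lit 1292) (nat_lit 0) (XT.nd (nat_lit 234) (nat_lit 684) (nat_lit 0) (XT.nd (nat_lit 78) (nat_lit 228) (nat_lit 0) (XT.lf (nat_lit 0) (nat_lit 3147433989) (nat_lit 228) (nat_lit 337807409) (nat_lit 304) (nat_lit 7763765768) (nat_lit 119) (nat_lit 5) (nat_lit 122) (nat_lit 5) (nat_lit 123) (nat_lit 5) (nat_lit 464) (nat_lit 380) (nat_lit 356)) (XT.nd (nat_lit 78) (nat_lit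 76) (nat_lit 0) (XT.lf (nat_lit 0) (nat_lit 789307463) (nat_lit 152) (nat_lit 7281532689) (nat_lit 228) (nat_lit 3354810703) (nat_lit 117) (nat_lit 5) (nat_lit 119) (nat_lit 5) (nat_lit 120) (nat_lit 4) (nat_lit 465) (nat_lit 380) (nat_lit 355)) (XT.lf (nat_lit 0) (nat_lit 1170391514) (nat_lit 228) (nat_lit 1642450655) (nat_lit 76) (nat_lit 8794199989) (nat_lit 116) (nat_lit 5) (nat_lit 119) (nat_lit 5) (nat_lit 117) (nat_lit 5) (nat_lit 466) (nat_lit 380) (nat_lit 354)))) (XT.nd (nat_lit 156) (nat_lit 304) (nat_lit 0) (XT.nd (nat_lit 78) (nat_lit 152) (nat_lit 0) (XT.lf (nat_lit 0) (nat_lit 5778229398) (nat_lit 304) (nat_lit 4205082411) (nat_lit 76) (nat_lit 1809141877) (nat_lit 113) (nat_lit 5) (nat_lit 117) (nat_lit 5) (nat_lit 114) (nat_lit 4) (nat_lit 467) (nat_lit 380) (nat_lit 353)) (XT.lf (nat_lit 0) (nat_lit 5084748507) (nat_lit 152) (nat_lit 5456957761) (nat_lit 228) (nat_lit 1441203258) (nat_lit 111)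 (nat_lit 5) (nat_lit 113) (nat_lit 5) (nat_lit 114) (nat_lit 4) (nat_lit 468) (nat_lit 380) (nat_lit 352))) (XT.nd (nat_lit 78) (nat_lit 0) (nat_lit 0) (XT.lf (nat_lit 0) (nat_lit 2446044259) (nat_lit 228) (nat_lit 749715458) (nat_lit 304) (nat_lit 8982664216) (nat_lit 107) (nat_lit 5) (nat_lit 110) (nat_lit 5) (nat_lit 111) (nat_lit 5) (nat_lit 469) (nat_lit 380) (nat_lit 351)) (XT.lf (nat_lit 0) (nat_lit 7977182866) (nat_lit 304) (nat_lit 352032969) (nat_lit 76) (nat_lit 4049134052) (nat_lit 107) (nat_lit 5) (nat_lit 111) (nat_lit 5) (nat_lit 108) (nat_lit 4) (nat_lit 470) (nat_lit 380) (nat_lit 350))))) (XT.nd (nat_lit 312) (nat_lit 532) (nat_lit 0) (XT.nd (nat_lit 156) (nat_lit 380) (nat_lit 0) (XT.nd (nat_lit 78) (nat_lit 152) (nat_lit 0) (XT.lf (nat_lit 0) (nat_lit 335943423) (nat_lit 228) (nat_lit 3230059512) (nat_lit 76) (nat_lit 9017451486) (nat_lit 104) (nat_lit 5) (nat_lit 107) (nat_lit 5) (nat_lit 105)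 (nat_lit 5) (nat_lit 471) (nat_lit 380) (nat_lit 349)) (XT.lf (nat_lit 0) (nat_lit 5133351939) (nat_lit 228) (nat_lit 6289177221) (nat_lit 76) (nat_lit 1370679757) (nat_lit 102) (nat_lit 5) (nat_lit 105) (nat_lit 5) (nat_lit 103) (nat_lit 4) (nat_lit 472) (nat_lit 380) (nat_lit 348))) (XT.nd (nat_lit 78) (nat_lit 228) (nat_lit 0) (XT.lf (nat_lit 0) (nat_lit 3491909686) (nat_lit 152) (nat_lit 6611926854) (nat_lit 228) (nat_lit 2904548211) (nat_lit 100) (nat_lit 5) (nat_lit 102) (nat_lit 5) (nat_lit 103) (nat_lit 4) (nat_lit 473) (nat_lit 380) (nat_lit 347)) (XT.lf (nat_lit 0) (nat_lit 324924856) (nat_lit 152) (nat_lit 1624374709) (nat_lit 228) (nat_lit 11280301207) (nat_lit 97) (nat_lit 5) (nat_lit 99) (nat_lit 5) (nat_lit 100) (nat_lit 5) (nat_lit 474) (nat_lit 380) (nat_lit 346)))) (XT.nd (nat_lit 156) (nat_lit 380) (nat_lit 0) (XT.nd (nat_lit 78) (nat_lit 152) (nat_lit 0) (XT.lf (nat_lit 0) (nat_lit 6949064860)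 (nat_lit 228) (nat_lit 2990616358) (nat_lit 76) (nat_lit 3515151937) (nat_lit 97) (nat_lit 5) (nat_lit 100) (nat_lit 5) (nat_lit 98) (nat_lit 4) (nat_lit 475) (nat_lit 380) (nat_lit 345)) (XT.lf (nat_lit 0) (nat_lit 7220223556) (nat_lit 152) (nat_lit 4894052929) (nat_lit 228) (nat_lit 1572085373) (nat_lit 95) (nat_lit 5) (nat_lit 97) (nat_lit 5) (nat_lit 98) (nat_lit 4) (nat_lit 476) (nat_lit 380) (nat_lit 344))) (XT.nd (nat_lit 78) (nat_lit 152) (nat_lit 0) (XT.lf (nat_lit 0) (nat_lit 3441540049) (nat_lit 228) (nat_lit 10138237865) (nat_lit 76) (nat_lit 344036677) (nat_lit 92) (nat_lit 5) (nat_lit 95) (nat_lit 5) (nat_lit 93) (nat_lit 4) (nat_lit 477) (nat_lit 380) (nat_lit 343)) (XT.lf (nat_lit 0) (nat_lit 122763640) (nat_lit 152) (nat_lit 8497221831) (nat_lit 228) (nat_lit 5546560920) (nat_lit 90) (nat_lit 5) (nat_lit 92) (nat_lit 5) (nat_lit 93) (nat_lit 4) (nat_lit 478) (nat_lit 380) (nat_lit 342))))))) (XT.nd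 (nat_lit 1170) (nat_lit 1368) (nat_lit 0) (XT.nd (nat_lit 546) (nat_lit 684) (nat_lit 0) (XT.nd (nat_lit 234) (nat_lit 532) (nat_lit 0) (XT.nd (nat_lit 78) (nat_lit 380) (nat_lit 0) (XT.lf (nat_lit 0) (nat_lit 10774728772) (nat_lit 152) (nat_lit 3212690238) (nat_lit 228) (nat_lit 428134712) (nat_lit 90) (nat_lit 5) (nat_lit 92) (nat_lit 5) (nat_lit 93) (nat_lit 4) (nat_lit 479) (nat_lit 380) (nat_lit 341)) (XT.nd (nat_lit 78) (nat_lit 152) (nat_lit 0) (XT.lf (nat_lit 0) (nat_lit 4771661715) (nat_lit 228) (nat_lit 7649985127) (nat_lit 76) (nat_lit 2248319892) (nat_lit 87) (nat_lit 5) (nat_lit 90) (nat_lit 5) (nat_lit 88) (nat_lit 4) (nat_lit 480) (nat_lit 380) (nat_lit 340)) (XT.lf (nat_lit 0) (nat_lit 3044658806) (nat_lit 152) (nat_lit 7105263904) (nat_lit 228) (nat_lit 4781032382) (nat_lit 85) (nat_lit 5) (nat_lit 87) (nat_lit 5) (nat_lit 88) (nat_lit 4) (nat_lit 481) (nat_lit 380) (nat_lit 339)))) (XT.nd (nat_lit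 156) (nat_lit 304) (nat_lit 0) (XT.nd (nat_lit 78) (nat_lit 152) (nat_lit 0) (XT.lf (nat_lit 0) (nat_lit 491215194) (nat_lit 228) (nat_lit 1108780237) (nat_lit 76) (nat_lit 13599308282) (nat_lit 84) (nat_lit 5) (nat_lit 87) (nat_lit 5) (nat_lit 85) (nat_lit 5) (nat_lit 482) (nat_lit 380) (nat_lit 338)) (XT.lf (nat_lit 0) (nat_lit 5896844059) (nat_lit 228) (nat_lit 5492338855) (nat_lit 76) (nat_lit 4082962728) (nat_lit 82) (nat_lit 5) (nat_lit 85) (nat_lit 5) (nat_lit 83) (nat_lit 4) (nat_lit 483) (nat_lit 380) (nat_lit 337))) (XT.nd (nat_lit 78) (nat_lit 228) (nat_lit 0) (XT.lf (nat_lit 0) (nat_lit 5645679450) (nat_lit 76) (nat_lit 5835574271) (nat_lit 152) (nat_lit 4271422880) (nat_lit 81) (nat_lit 5) (nat_lit 82) (nat_lit 5) (nat_lit 83) (nat_lit 4) (nat_lit 484) (nat_lit 380) (nat_lit 336)) (XT.lf (nat_lit 0) (nat_lit 1079939245) (nat_lit 152) (nat_lit 90080474) (nat_lit 228) (nat_lit 14871211172) (nat_lit 78)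 (nat_lit 5) (nat_lit 80) (nat_lit 5) (nat_lit 81) (nat_lit 5) (nat_lit 485) (nat_lit 380) (nat_lit 335))))) (XT.nd (nat_lit 312) (nat_lit 380) (nat_lit 0) (XT.nd (nat_lit 156) (nat_lit 228) (nat_lit 0) (XT.nd (nat_lit 78) (nat_lit 76) (nat_lit 0) (XT.lf (nat_lit 0) (nat_lit 6783475341) (nat_lit 228) (nat_lit 3744856104) (nat_lit 76) (nat_lit 5806004940) (nat_lit 78) (nat_lit 5) (nat_lit 81) (nat_lit 5) (nat_lit 79) (nat_lit 4) (nat_lit 486) (nat_lit 380) (nat_lit 334)) (XT.lf (nat_lit 0) (nat_lit 7843912140) (nat_lit 76) (nat_lit 4735122226) (nat_lit 152) (nat_lit 4056791579) (nat_lit 77) (nat_lit 5) (nat_lit 78) (nat_lit 5) (nat_lit 79) (nat_lit 4) (nat_lit 487) (nat_lit 380) (nat_lit 333))) (XT.nd (nat_lit 78) (nat_lit 0) (nat_lit 0) (XT.lf (nat_lit 0) (nat_lit 1585911239) (nat_lit 228) (nat_lit 14122941620) (nat_lit 76) (nat_lit 1236594886) (nat_lit 74) (nat_lit 5) (nat_lit 77) (nat_lit 5) (nat_lit 75) (nat_lit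 4) (nat_lit 488) (nat_lit 380) (nat_lit 332)) (XT.lf (nat_lit 0) (nat_lit 7390606307) (nat_lit 228) (nat_lit 2500673761) (nat_lit 76) (nat_lit 7369647415) (nat_lit 74) (nat_lit 5) (nat_lit 77) (nat_lit 5) (nat_lit 75) (nat_lit 4) (nat_lit 489) (nat_lit 380) (nat_lit 331)))) (XT.nd (nat_lit 156) (nat_lit 76) (nat_lit 0) (XT.nd (nat_lit 78) (nat_lit 228) (nat_lit 0) (XT.lf (nat_lit 0) (nat_lit 9543246814) (nat_lit 76) (nat_lit 3857451473) (nat_lit 152) (nat_lit 4184237325) (nat_lit 73) (nat_lit 5) (nat_lit 74) (nat_lit 5) (nat_lit 75) (nat_lit 4) (nat_lit 490) (nat_lit 380) (nat_lit 330)) (XT.lf (nat_lit 0) (nat_lit 1666600395) (nat_lit 228) (nat_lit 13910176611) (nat_lit 76) (nat_lit 2340602078) (nat_lit 70) (nat_lit 5) (nat_lit 73) (nat_lit 5) (nat_lit 71) (nat_lit 4) (nat_lit 491) (nat_lit 380) (nat_lit 329))) (XT.nd (nat_lit 78) (nat_lit 76) (nat_lit 0) (XT.lf (nat_lit 0) (nat_lit 7668852109) (nat_lit 228) (nat_lit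 1868885834) (nat_lit 76) (nat_lit 8719016977) (nat_lit 70) (nat_lit 5) (nat_lit 73) (nat_lit 5) (nat_lit 71) (nat_lit 4) (nat_lit 492) (nat_lit 380) (nat_lit 328)) (XT.lf (nat_lit 0) (nat_lit 10630888000) (nat_lit 76) (nat_lit 3264013777) (nat_lit 152) (nat_lit 4710099834) (nat_lit 69) (nat_lit 5) (nat_lit 70) (nat_lit 5) (nat_lit 71) (nat_lit 4) (nat_lit 493) (nat_lit 380) (nat_lit 327)))))) (XT.nd (nat_lit 624) (nat_lit 532) (nat_lit 0) (XT.nd (nat_lit 312) (nat_lit 304) (nat_lit 0) (XT.nd (nat_lit 156) (nat_lit 304) (nat_lit 0) (XT.nd (nat_lit 78) (nat_lit 0) (nat_lit 0) (XT.lf (nat_lit 0) (nat_lit 1353180140) (nat_lit 228) (nat_lit 14448013189) (nat_lit 76) (nat_lit 3161055095) (nat_lit 66) (nat_lit 5) (nat_lit 69) (nat_lit 5) (nat_lit 67) (nat_lit 4) (nat_lit 494) (nat_lit 380) (nat_lit 326)) (XT.lf (nat_lit 0) (nat_lit 7559102975) (nat_lit 228) (nat_lit 1977292439) (nat_lit 76) (nat_lit 9790757171) (nat_lit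 66) (nat_lit 5) (nat_lit 69) (nat_lit 5) (nat_lit 67) (nat_lit 4) (nat_lit 495) (nat_lit 380) (nat_lit 325))) (XT.nd (nat_lit 78) (nat_lit 228) (nat_lit 0) (XT.lf (nat_lit 0) (nat_lit 10974475588) (nat_lit 76) (nat_lit 3025692799) (nat_lit 152) (nat_lit 5701367863) (nat_lit 65) (nat_lit 5) (nat_lit 66) (nat_lit 5) (nat_lit 67) (nat_lit 4) (nat_lit 496) (nat_lit 380) (nat_lit 324)) (XT.lf (nat_lit 0) (nat_lit 576630642) (nat_lit 228) (nat_lit 15883673924) (nat_lit 76) (nat_lit 3625490386) (nat_lit 62) (nat_lit 5) (nat_lit 65) (nat_lit 5) (nat_lit 63) (nat_lit 4) (nat_lit 497) (nat_lit 380) (nat_lit 323)))) (XT.nd (nat_lit 156) (nat_lit 228) (nat_lit 0) (XT.nd (nat_lit 78) (nat_lit 76) (nat_lit 0) (XT.lf (nat_lit 0) (nat_lit 6991014427) (nat_lit 228) (nat_lit 2975581555) (nat_lit 76) (nat_lit 10511414057) (nat_lit 62) (nat_lit 5) (nat_lit 65) (nat_lit 5) (nat_lit 63) (nat_lit 4) (nat_lit 498) (nat_lit 380) (nat_lit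 322)) (XT.lf (nat_lit 0) (nat_lit 10418751035) (nat_lit 76) (nat_lit 3224551537) (nat_lit 152) (nat_lit 7237326000) (nat_lit 61) (nat_lit 5) (nat_lit 62) (nat_lit 5) (nat_lit 63) (nat_lit 4) (nat_lit 499) (nat_lit 380) (nat_lit 321))) (XT.nd (nat_lit 78) (nat_lit 76) (nat_lit 0) (XT.lf (nat_lit 0) (nat_lit 2897535417) (nat_lit 152) (nat_lit 17637026555) (nat_lit 152) (nat_lit 759582755) (nat_lit 59) (nat_lit 4) (nat_lit 61) (nat_lit 5) (nat_lit 61) (nat_lit 4) (nat_lit 500) (nat_lit 380) (nat_lit 320)) (XT.lf (nat_lit 0) (nat_lit 5881243072) (nat_lit 228) (nat_lit 5039014213) (nat_lit 76) (nat_lit 10795581398) (nat_lit 58) (nat_lit 5) (nat_lit 61) (nat_lit 5) (nat_lit 59) (nat_lit 4) (nat_lit 501) (nat_lit 380) (nat_lit 319))))) (XT.nd (nat_lit 312) (nat_lit 228) (nat_lit 0) (XT.nd (nat_lit 156) (nat_lit 152) (nat_lit 0) (XT.nd (nat_lit 78) (nat_lit 76) (nat_lit 0) (XT.lf (nat_lit 0) (nat_lit 8781694849) (nat_lit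 76) (nat_lit 3955841774) (nat_lit 152) (nat_lit 9411476969) (nat_lit 57) (nat_lit 5) (nat_lit 58) (nat_lit 5) (nat_lit 59) (nat_lit 4) (nat_lit 502) (nat_lit 380) (nat_lit 318)) (XT.lf (nat_lit 0) (nat_lit 401495644) (nat_lit 76) (nat_lit 19431406718) (nat_lit 76) (nat_lit 2761280903) (nat_lit 56) (nat_lit 4) (nat_lit 57) (nat_lit 5) (nat_lit 57) (nat_lit 4) (nat_lit 503) (nat_lit 380) (nat_lit 317))) (XT.nd (nat_lit 78) (nat_lit 76) (nat_lit 0) (XT.lf (nat_lit 0) (nat_lit 4131388371) (nat_lit 152) (nat_lit 8372694906) (nat_lit 76) (nat_lit 10543764282) (nat_lit 55) (nat_lit 5) (nat_lit 57) (nat_lit 5) (nat_lit 56) (nat_lit 4) (nat_lit 504) (nat_lit 380) (nat_lit 316)) (XT.lf (nat_lit 0) (nat_lit 5850049481) (nat_lit 76) (nat_lit 5330319809) (nat_lit 152) (nat_lit 12333782324) (nat_lit 54) (nat_lit 5) (nat_lit 55) (nat_lit 5) (nat_lit 56) (nat_lit 4) (nat_lit 505) (nat_lit 380) (nat_lit 315)))) (XT.nd (nat_lit 156)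 (nat_lit 76) (nat_lit 0) (XT.nd (nat_lit 78) (nat_lit 152) (nat_lit 0) (XT.lf (nat_lit 0) (nat_lit 18494889953) (nat_lit 152) (nat_lit 3440191441) (nat_lit 0) (nat_lit 2057742189) (nat_lit 54) (nat_lit 5) (nat_lit 56) (nat_lit 4) (nat_lit 54) (nat_lit 4) (nat_lit 506) (nat_lit 380) (nat_lit 314)) (XT.lf (nat_lit 0) (nat_lit 1625594389) (nat_lit 152) (nat_lit 13216521925) (nat_lit 76) (nat_lit 9639913890) (nat_lit 52) (nat_lit 5) (nat_lit 54) (nat_lit 5) (nat_lit 53) (nat_lit 4) (nat_lit 507) (nat_lit 380) (nat_lit 313))) (XT.nd (nat_lit 78) (nat_lit 0) (nat_lit 0) (XT.lf (nat_lit 0) (nat_lit 1374128175) (nat_lit 76) (nat_lit 7476919549) (nat_lit 152) (nat_lit 16133271404) (nat_lit 51) (nat_lit 5) (nat_lit 52) (nat_lit 5) (nat_lit 53) (nat_lit 4) (nat_lit 508) (nat_lit 380) (nat_lit 312)) (XT.lf (nat_lit 0) (nat_lit 16379616285) (nat_lit 152) (nat_lit 8922646217) (nat_lit 0) (nat_lit 196824471) (nat_lit 51) (nat_lit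 5) (nat_lit 53) (nat_lit 4) (nat_lit 51) (nat_lit 4) (nat_lit 509) (nat_lit 380) (nat_lit 311))))))))
noncomputable def xc54 : XT := (XT.nd (nat_lit 2340) (nat_lit 608) (nat_lit 0) (XT.nd (nat_lit 1170) (nat_lit 836) (nat_lit 0) (XT.nd (nat_lit 546) (nat_lit 456) (nat_lit 0) (XT.nd (nat_lit 234) (nat_lit 228) (nat_lit 0) (XT.nd (nat_lit 78) (nat_lit 152) (nat_lit 0) (XT.lf (nat_lit 0) (nat_lit 6158440734) (nat_lit 76) (nat_lit 18060789218) (nat_lit 76) (nat_lit 1807513038) (nat_lit 50) (nat_lit 4) (nat_lit 51) (nat_lit 5) (nat_lit 51) (nat_lit 4) (nat_lit 510) (nat_lit 380) (nat_lit 310)) (XT.nd (nat_lit 78) (nat_lit 76) (nat_lit 0) (XT.lf (nat_lit 0) (nat_lit 5655105600) (nat_lit 152) (nat_lit 4841843234) (nat_lit 76) (nat_lit 16070340142) (nat_lit 49) (nat_lit 5) (nat_lit 51) (nat_lit 5) (nat_lit 50) (nat_lit 4) (nat_lit 511) (nat_lit 380) (nat_lit 309)) (XT.lf (nat_lit 0) (nat_lit 10736466559) (nat_lit 76) (nat_lit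 2625411487) (nat_lit 152) (nat_lit 13759938987) (nat_lit 48) (nat_lit 5) (nat_lit 49) (nat_lit 5) (nat_lit 50) (nat_lit 4) (nat_lit 512) (nat_lit 380) (nat_lit 308)))) (XT.nd (nat_lit 156) (nat_lit 76) (nat_lit 0) (XT.nd (nat_lit 78) (nat_lit 152) (nat_lit 0) (XT.lf (nat_lit 0) (nat_lit 21355405474) (nat_lit 152) (nat_lit 953949809) (nat_lit 0) (nat_lit 5381959789) (nat_lit 48) (nat_lit 5) (nat_lit 50) (nat_lit 4) (nat_lit 48) (nat_lit 4) (nat_lit 513) (nat_lit 380) (nat_lit 307)) (XT.lf (nat_lit 0) (nat_lit 1412691939) (nat_lit 152) (nat_lit 13166481480) (nat_lit 76) (nat_lit 13694524353) (nat_lit 46) (nat_lit 5) (nat_lit 48) (nat_lit 5) (nat_lit 47) (nat_lit 4) (nat_lit 514) (nat_lit 380) (nat_lit 306))) (XT.nd (nat_lit 78) (nat_lit 0) (nat_lit 0) (XT.lf (nat_lit 0) (nat_lit 2698308209) (nat_lit 76) (nat_lit 6558629658) (nat_lit 152) (nat_lit 19615016810) (nat_lit 45) (nat_lit 5) (nat_lit 46) (nat_lit 5) (nat_lit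 47) (nat_lit 4) (nat_lit 515) (nat_lit 380) (nat_lit 305)) (XT.lf (nat_lit 0) (nat_lit 17442082750) (nat_lit 152) (nat_lit 10281007747) (nat_lit 0) (nat_lit 1761902262) (nat_lit 45) (nat_lit 5) (nat_lit 47) (nat_lit 4) (nat_lit 45) (nat_lit 4) (nat_lit 516) (nat_lit 380) (nat_lit 304))))) (XT.nd (nat_lit 312) (nat_lit 228) (nat_lit 0) (XT.nd (nat_lit 156) (nat_lit 76) (nat_lit 0) (XT.nd (nat_lit 78) (nat_lit 76) (nat_lit 0) (XT.lf (nat_lit 0) (nat_lit 6056119308) (nat_lit 76) (nat_lit 19896061102) (nat_lit 76) (nat_lit 4161860217) (nat_lit 44) (nat_lit 4) (nat_lit 45) (nat_lit 5) (nat_lit 45) (nat_lit 4) (nat_lit 517) (nat_lit 380) (nat_lit 303)) (XT.lf (nat_lit 0) (nat_lit 3939556003) (nat_lit 152) (nat_lit 7789349183) (nat_lit 76) (nat_lit 19030080892) (nat_lit 43) (nat_lit 5) (nat_lit 45) (nat_lit 5) (nat_lit 44) (nat_lit 4) (nat_lit 518) (nat_lit 380) (nat_lit 302))) (XT.nd (nat_lit 78) (nat_lit 0) (nat_lit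 0) (XT.lf (nat_lit 0) (nat_lit 9018996002) (nat_lit 76) (nat_lit 3225616450) (nat_lit 152) (nat_lit 19176104382) (nat_lit 42) (nat_lit 5) (nat_lit 43) (nat_lit 5) (nat_lit 44) (nat_lit 4) (nat_lit 519) (nat_lit 380) (nat_lit 301)) (XT.lf (nat_lit 0) (nat_lit 20889050563) (nat_lit 152) (nat_lit 5745767350) (nat_lit 0) (nat_lit 5464775231) (nat_lit 42) (nat_lit 5) (nat_lit 44) (nat_lit 4) (nat_lit 42) (nat_lit 4) (nat_lit 520) (nat_lit 380) (nat_lit 300)))) (XT.nd (nat_lit 156) (nat_lit 76) (nat_lit 0) (XT.nd (nat_lit 78) (nat_lit 76) (nat_lit 0) (XT.lf (nat_lit 0) (nat_lit 11522056060) (nat_lit 76) (nat_lit 18372303927) (nat_lit 76) (nat_lit 2901430126) (nat_lit 41) (nat_lit 4) (nat_lit 42) (nat_lit 5) (nat_lit 42) (nat_lit 4) (nat_lit 521) (nat_lit 380) (nat_lit 299)) (XT.lf (nat_lit 0) (nat_lit 5564034675) (nat_lit 152) (nat_lit 4221124641) (nat_lit 76) (nat_lit 23725558822) (nat_lit 40) (nat_lit 5) (nat_lit 42)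 (nat_lit 5) (nat_lit 41) (nat_lit 4) (nat_lit 522) (nat_lit 380) (nat_lit 298))) (XT.nd (nat_lit 78) (nat_lit 0) (nat_lit 0) (XT.lf (nat_lit 0) (nat_lit 13499372487) (nat_lit 76) (nat_lit 815608323) (nat_lit 152) (nat_lit 19928556856) (nat_lit 39) (nat_lit 5) (nat_lit 40) (nat_lit 5) (nat_lit 41) (nat_lit 4) (nat_lit 523) (nat_lit 380) (nat_lit 297)) (XT.lf (nat_lit 0) (nat_lit 23412589464) (nat_lit 152) (nat_lit 3318874974) (nat_lit 0) (nat_lit 8264353776) (nat_lit 39) (nat_lit 5) (nat_lit 41) (nat_lit 4) (nat_lit 39) (nat_lit 4) (nat_lit 524) (nat_lit 380) (nat_lit 296)))))) (XT.nd (nat_lit 546) (nat_lit 380) (nat_lit 0) (XT.nd (nat_lit 234) (nat_lit 228) (nat_lit 0) (XT.nd (nat_lit 78) (nat_lit 152) (nat_lit 0) (XT.lf (nat_lit 0) (nat_lit 14834420068) (nat_lit 76) (nat_lit 18060660434) (nat_lit 76) (nat_lit 2872228497) (nat_lit 38) (nat_lit 4) (nat_lit 39) (nat_lit 5) (nat_lit 39) (nat_lit 4) (nat_lit 525) (nat_lit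 380) (nat_lit 295)) (XT.nd (nat_lit 78) (nat_lit 76) (nat_lit 0) (XT.lf (nat_lit 0) (nat_lit 5976217136) (nat_lit 152) (nat_lit 3095736633) (nat_lit 76) (nat_lit 27488377510) (nat_lit 37) (nat_lit 5) (nat_lit 39) (nat_lit 5) (nat_lit 38) (nat_lit 4) (nat_lit 526) (nat_lit 380) (nat_lit 294)) (XT.lf (nat_lit 0) (nat_lit 15146781295) (nat_lit 152) (nat_lit 21900021590) (nat_lit 0) (nat_lit 326056790) (nat_lit 36) (nat_lit 5) (nat_lit 38) (nat_lit 4) (nat_lit 36) (nat_lit 4) (nat_lit 527) (nat_lit 380) (nat_lit 293)))) (XT.nd (nat_lit 156) (nat_lit 152) (nat_lit 0) (XT.nd (nat_lit 78) (nat_lit 76) (nat_lit 0) (XT.lf (nat_lit 0) (nat_lit 24676329236) (nat_lit 152) (nat_lit 3711028190) (nat_lit 0) (nat_lit 9819890885) (nat_lit 36) (nat_lit 5) (nat_lit 38) (nat_lit 4) (nat_lit 36) (nat_lit 4) (nat_lit 528) (nat_lit 380) (nat_lit 292)) (XT.lf (nat_lit 0) (nat_lit 15249359436) (nat_lit 76) (nat_lit 19352558457) (nat_lit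 76) (nat_lit 4461446469) (nat_lit 35) (nat_lit 4) (nat_lit 36) (nat_lit 5) (nat_lit 36) (nat_lit 4) (nat_lit 529) (nat_lit 380) (nat_lit 291))) (XT.nd (nat_lit 78) (nat_lit 76) (nat_lit 0) (XT.lf (nat_lit 0) (nat_lit 4786314960) (nat_lit 152) (nat_lit 5208556343) (nat_lit 76) (nat_lit 29948842640) (nat_lit 34) (nat_lit 5) (nat_lit 36) (nat_lit 5) (nat_lit 35) (nat_lit 4) (nat_lit 530) (nat_lit 380) (nat_lit 290)) (XT.lf (nat_lit 0) (nat_lit 14116575210) (nat_lit 76) (nat_lit 205609100) (nat_lit 152) (nat_lit 26523954497) (nat_lit 33) (nat_lit 5) (nat_lit 34) (nat_lit 5) (nat_lit 35) (nat_lit 4) (nat_lit 531) (nat_lit 380) (nat_lit 289))))) (XT.nd (nat_lit 312) (nat_lit 152) (nat_lit 0) (XT.nd (nat_lit 156) (nat_lit 152) (nat_lit 0) (XT.nd (nat_lit 78) (nat_lit 76) (nat_lit 0) (XT.lf (nat_lit 0) (nat_lit 24256879939) (nat_lit 152) (nat_lit 7811106252) (nat_lit 0) (nat_lit 9704268063) (nat_lit 33) (nat_lit 5) (nat_lit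 35) (nat_lit 4) (nat_lit 33) (nat_lit 4) (nat_lit 532) (nat_lit 380) (nat_lit 288)) (XT.lf (nat_lit 0) (nat_lit 11836055458) (nat_lit 76) (nat_lit 22735086958) (nat_lit 76) (nat_lit 8152565298) (nat_lit 32) (nat_lit 4) (nat_lit 33) (nat_lit 5) (nat_lit 33) (nat_lit 4) (nat_lit 533) (nat_lit 380) (nat_lit 287))) (XT.nd (nat_lit 78) (nat_lit 76) (nat_lit 0) (XT.lf (nat_lit 0) (nat_lit 1507420560) (nat_lit 152) (nat_lit 11551496546) (nat_lit 76) (nat_lit 30642996280) (nat_lit 31) (nat_lit 5) (nat_lit 33) (nat_lit 5) (nat_lit 32) (nat_lit 4) (nat_lit 534) (nat_lit 380) (nat_lit 286)) (XT.lf (nat_lit 0) (nat_lit 8381762856) (nat_lit 76) (nat_lit 2958885410) (nat_lit 152) (nat_lit 33364976688) (nat_lit 30) (nat_lit 5) (nat_lit 31) (nat_lit 5) (nat_lit 32) (nat_lit 4) (nat_lit 535) (nat_lit 380) (nat_lit 285)))) (XT.nd (nat_lit 156) (nat_lit 76) (nat_lit 0) (XT.nd (nat_lit 78) (nat_lit 76) (nat_lit 0) (XT.lf (nat_lit 0)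 (nat_lit 21624995548) (nat_lit 152) (nat_lit 16724700388) (nat_lit 0) (nat_lit 7385068544) (nat_lit 30) (nat_lit 5) (nat_lit 32) (nat_lit 4) (nat_lit 30) (nat_lit 4) (nat_lit 536) (nat_lit 380) (nat_lit 284)) (XT.lf (nat_lit 0) (nat_lit 3436258411) (nat_lit 76) (nat_lit 28811672886) (nat_lit 76) (nat_lit 14545945439) (nat_lit 29) (nat_lit 4) (nat_lit 30) (nat_lit 5) (nat_lit 30) (nat_lit 4) (nat_lit 537) (nat_lit 380) (nat_lit 283))) (XT.nd (nat_lit 78) (nat_lit 76) (nat_lit 0) (XT.lf (nat_lit 0) (nat_lit 24481577110) (nat_lit 76) (nat_lit 18844926742) (nat_lit 76) (nat_lit 4554150323) (nat_lit 29) (nat_lit 4) (nat_lit 30) (nat_lit 5) (nat_lit 30) (nat_lit 4) (nat_lit 538) (nat_lit 380) (nat_lit 282)) (XT.lf (nat_lit 0) (nat_lit 5594126348) (nat_lit 152) (nat_lit 2959019324) (nat_lit 76) (nat_lit 40446174435) (nat_lit 28) (nat_lit 5) (nat_lit 30) (nat_lit 5) (nat_lit 29) (nat_lit 4) (nat_lit 539) (nat_lit 380) (nat_lit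 281))))))) (XT.nd (nat_lit 54678) (nat_lit 0) (nat_lit 9728) (XT.nd (nat_lit 546) (nat_lit 304) (nat_lit 0) (XT.nd (nat_lit 234) (nat_lit 152) (nat_lit 0) (XT.nd (nat_lit 78) (nat_lit 76) (nat_lit 0) (XT.lf (nat_lit 0) (nat_lit 16122862127) (nat_lit 152) (nat_lit 31820517588) (nat_lit 0) (nat_lit 2201787495) (nat_lit 27) (nat_lit 5) (nat_lit 29) (nat_lit 4) (nat_lit 27) (nat_lit 4) (nat_lit 540) (nat_lit 380) (nat_lit 280)) (XT.nd (nat_lit 78) (nat_lit 76) (nat_lit 0) (XT.lf (nat_lit 0) (nat_lit 27051945070) (nat_lit 152) (nat_lit 11162295599) (nat_lit 0) (nat_lit 13108614750) (nat_lit 27) (nat_lit 5) (nat_lit 29) (nat_lit 4) (nat_lit 27) (nat_lit 4) (nat_lit 541) (nat_lit 380) (nat_lit 279)) (XT.lf (nat_lit 0) (nat_lit 10257278567) (nat_lit 76) (nat_lit 28120730241) (nat_lit 76) (nat_lit 14155792457) (nat_lit 26) (nat_lit 4) (nat_lit 27) (nat_lit 5) (nat_lit 27) (nat_lit 4) (nat_lit 542) (nat_lit 380) (nat_lit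 278)))) (XT.nd (nat_lit 156) (nat_lit 0) (nat_lit 0) (XT.nd (nat_lit 78) (nat_lit 152) (nat_lit 0) (XT.lf (nat_lit 0) (nat_lit 32490279174) (nat_lit 76) (nat_lit 17637103304) (nat_lit 76) (nat_lit 3651187399) (nat_lit 26) (nat_lit 4) (nat_lit 27) (nat_lit 5) (nat_lit 27) (nat_lit 4) (nat_lit 543) (nat_lit 380) (nat_lit 277)) (XT.lf (nat_lit 0) (nat_lit 207878089) (nat_lit 76) (nat_lit 6794171714) (nat_lit 152) (nat_lit 48057363358) (nat_lit 24) (nat_lit 5) (nat_lit 25) (nat_lit 5) (nat_lit 26) (nat_lit 4) (nat_lit 544) (nat_lit 380) (nat_lit 276))) (XT.nd (nat_lit 78) (nat_lit 0) (nat_lit 0) (XT.lf (nat_lit 0) (nat_lit 18132046892) (nat_lit 152) (nat_lit 33724118194) (nat_lit 0) (nat_lit 4514515918) (nat_lit 24) (nat_lit 5) (nat_lit 26) (nat_lit 4) (nat_lit 24) (nat_lit 4) (nat_lit 545) (nat_lit 380) (nat_lit 275)) (XT.lf (nat_lit 0) (nat_lit 29635449411) (nat_lit 152) (nat_lit 12085372862) (nat_lit 0) (nat_lit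 15999279649) (nat_lit 24) (nat_lit 5) (nat_lit 26) (nat_lit 4) (nat_lit 24) (nat_lit 4) (nat_lit 546) (nat_lit 380) (nat_lit 274))))) (XT.nd (nat_lit 312) (nat_lit 76) (nat_lit 0) (XT.nd (nat_lit 156) (nat_lit 152) (nat_lit 0) (XT.nd (nat_lit 78) (nat_lit 0) (nat_lit 0) (XT.lf (nat_lit 0) (nat_lit 10350901673) (nat_lit 76) (nat_lit 31205596669) (nat_lit 76) (nat_lit 17551330996) (nat_lit 23) (nat_lit 4) (nat_lit 24) (nat_lit 5) (nat_lit 24) (nat_lit 4) (nat_lit 547) (nat_lit 380) (nat_lit 273)) (XT.lf (nat_lit 0) (nat_lit 33654911862) (nat_lit 76) (nat_lit 20275625337) (nat_lit 76) (nat_lit 6603790818) (nat_lit 23) (nat_lit 4) (nat_lit 24) (nat_lit 5) (nat_lit 24) (nat_lit 4) (nat_lit 548) (nat_lit 380) (nat_lit 272))) (XT.nd (nat_lit 78) (nat_lit 76) (nat_lit 0) (XT.lf (nat_lit 0) (nat_lit 4554844919) (nat_lit 152) (nat_lit 4442556463) (nat_lit 76) (nat_lit 53005657893) (nat_lit 22) (nat_lit 5) (nat_lit 24) (nat_lit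 5) (nat_lit 23) (nat_lit 4) (nat_lit 549) (nat_lit 380) (nat_lit 271)) (XT.lf (nat_lit 0) (nat_lit 16099372970) (nat_lit 152) (nat_lit 44615893351) (nat_lit 0) (nat_lit 2793108919) (nat_lit 21) (nat_lit 5) (nat_lit 23) (nat_lit 4) (nat_lit 21) (nat_lit 4) (nat_lit 550) (nat_lit 380) (nat_lit 270)))) (XT.nd (nat_lit 53664) (nat_lit 0) (nat_lit 14820) (XT.nd (nat_lit 78) (nat_lit 76) (nat_lit 0) (XT.lf (nat_lit 0) (nat_lit 28099246691) (nat_lit 152) (nat_lit 22178960924) (nat_lit 0) (nat_lit 14777372948) (nat_lit 21) (nat_lit 5) (nat_lit 23) (nat_lit 4) (nat_lit 21) (nat_lit 4) (nat_lit 551) (nat_lit 380) (nat_lit 269)) (XT.lf (nat_lit 0) (nat_lit 899537383) (nat_lit 76) (nat_lit 39543586694) (nat_lit 76) (nat_lit 26206557910) (nat_lit 20) (nat_lit 4) (nat_lit 21) (nat_lit 5) (nat_lit 21) (nat_lit 4) (nat_lit 552) (nat_lit 380) (nat_lit 268))) (XT.nd (nat_lit 78) (nat_lit 532) (nat_lit 0) (XT.lf (nat_lit 0) (nat_lit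 3449684803) (nat_lit 456) (nat_lit 273889053) (nat_lit 456) (nat_lit 273889053) (nat_lit 222) (nat_lit 4) (nat_lit 228) (nat_lit 5) (nat_lit 228) (nat_lit 4) (nat_lit 438) (nat_lit 381) (nat_lit 381)) (XT.lf (nat_lit 0) (nat_lit 3387355180) (nat_lit 532) (nat_lit 2507706580) (nat_lit 0) (nat_lit 2183799009) (nat_lit 215) (nat_lit 5) (nat_lit 222) (nat_lit 4) (nat_lit 215) (nat_lit 4) (nat_lit 439) (nat_lit 381) (nat_lit 380)))))) (XT.nd (nat_lit 624) (nat_lit 2052) (nat_lit 0) (XT.nd (nat_lit 312) (nat_lit 1216) (nat_lit 0) (XT.nd (nat_lit 156) (nat_lit 912) (nat_lit 0) (XT.nd (nat_lit 78) (nat_lit 456) (nat_lit 0) (XT.lf (nat_lit 0) (nat_lit 4234319632) (nat_lit 456) (nat_lit 3152097563) (nat_lit 456) (nat_lit 780040256) (nat_lit 209) (nat_lit 4) (nat_lit 215) (nat_lit 5) (nat_lit 215) (nat_lit 4) (nat_lit 440) (nat_lit 381) (nat_lit 379)) (XT.lf (nat_lit 0) (nat_lit 2865130167) (nat_lit 380) (nat_lit 273615939)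 (nat_lit 456) (nat_lit 5118410070) (nat_lit 203) (nat_lit 5) (nat_lit 208) (nat_lit 5) (nat_lit 209) (nat_lit 4) (nat_lit 441) (nat_lit 381) (nat_lit 378))) (XT.nd (nat_lit 78) (nat_lit 456) (nat_lit 0) (XT.lf (nat_lit 0) (nat_lit 1457277770) (nat_lit 456) (nat_lit 5683684311) (nat_lit 456) (nat_lit 1209947592) (nat_lit 197) (nat_lit 4) (nat_lit 203) (nat_lit 5) (nat_lit 203) (nat_lit 4) (nat_lit 442) (nat_lit 381) (nat_lit 377)) (XT.lf (nat_lit 0) (nat_lit 11308436) (nat_lit 380) (nat_lit 2709501061) (nat_lit 456) (nat_lit 5727065827) (nat_lit 191) (nat_lit 5) (nat_lit 196) (nat_lit 5) (nat_lit 197) (nat_lit 4) (nat_lit 443) (nat_lit 381) (nat_lit 376)))) (XT.nd (nat_lit 156) (nat_lit 760) (nat_lit 0) (XT.nd (nat_lit 78) (nat_lit 456) (nat_lit 0) (XT.lf (nat_lit 0) (nat_lit 6722252529) (nat_lit 456) (nat_lit 1433578219) (nat_lit 0) (nat_lit 392258170) (nat_lit 191) (nat_lit 5) (nat_lit 197) (nat_lit 4) (nat_lit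 191) (nat_lit 4) (nat_lit 444) (nat_lit 381) (nat_lit 375)) (XT.lf (nat_lit 0) (nat_lit 2137638319) (nat_lit 456) (nat_lit 2940686924) (nat_lit 76) (nat_lit 3572721913) (nat_lit 185) (nat_lit 5) (nat_lit 191) (nat_lit 5) (nat_lit 186) (nat_lit 4) (nat_lit 445) (nat_lit 381) (nat_lit 374))) (XT.nd (nat_lit 78) (nat_lit 456) (nat_lit 0) (XT.lf (nat_lit 0) (nat_lit 4273367514) (nat_lit 304) (nat_lit 1872389045) (nat_lit 380) (nat_lit 2611932059) (nat_lit 181) (nat_lit 5) (nat_lit 185) (nat_lit 5) (nat_lit 186) (nat_lit 4) (nat_lit 446) (nat_lit 381) (nat_lit 373)) (XT.lf (nat_lit 0) (nat_lit 1357407987) (nat_lit 456) (nat_lit 6077546372) (nat_lit 76) (nat_lit 1432830674) (nat_lit 175) (nat_lit 5) (nat_lit 181) (nat_lit 5) (nat_lit 176) (nat_lit 4) (nat_lit 447) (nat_lit 381) (nat_lit 372))))) (XT.nd (nat_lit 312) (nat_lit 1064) (nat_lit 0) (XT.nd (nat_lit 156) (nat_lit 608) (nat_lit 0) (XT.nd (nat_lit 78) (nat_lit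 76) (nat_lit 0) (XT.lf (nat_lit 0) (nat_lit 1239741482) (nat_lit 304) (nat_lit 4138079281) (nat_lit 380) (nat_lit 3603062127) (nat_lit 171) (nat_lit 5) (nat_lit 175) (nat_lit 5) (nat_lit 176) (nat_lit 4) (nat_lit 448) (nat_lit 381) (nat_lit 371)) (XT.lf (nat_lit 0) (nat_lit 384015201) (nat_lit 380) (nat_lit 334299132) (nat_lit 76) (nat_lit 8379823331) (nat_lit 170) (nat_lit 5) (nat_lit 175) (nat_lit 5) (nat_lit 171) (nat_lit 5) (nat_lit 449) (nat_lit 381) (nat_lit 370))) (XT.nd (nat_lit 78) (nat_lit 304) (nat_lit 0) (XT.lf (nat_lit 0) (nat_lit 4427200497) (nat_lit 380) (nat_lit 1976365777) (nat_lit 76) (nat_lit 2814014478) (nat_lit 166) (nat_lit 5) (nat_lit 171) (nat_lit 5) (nat_lit 167) (nat_lit 4) (nat_lit 450) (nat_lit 381) (nat_lit 369)) (XT.lf (nat_lit 0) (nat_lit 5681842754) (nat_lit 304) (nat_lit 2887340475) (nat_lit 380) (nat_lit 772106901) (nat_lit 162) (nat_lit 5) (nat_lit 166) (nat_lit 5) (nat_lit 167)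 (nat_lit 4) (nat_lit 451) (nat_lit 381) (nat_lit 368)))) (XT.nd (nat_lit 156) (nat_lit 380) (nat_lit 0) (XT.nd (nat_lit 78) (nat_lit 304) (nat_lit 0) (XT.lf (nat_lit 0) (nat_lit 3280485695) (nat_lit 380) (nat_lit 5420002854) (nat_lit 76) (nat_lit 767874914) (nat_lit 157) (nat_lit 5) (nat_lit 162) (nat_lit 5) (nat_lit 158) (nat_lit 4) (nat_lit 452) (nat_lit 381) (nat_lit 367)) (XT.lf (nat_lit 0) (nat_lit 2339816812) (nat_lit 304) (nat_lit 5101354071) (nat_lit 380) (nat_lit 2157795142) (nat_lit 153) (nat_lit 5) (nat_lit 157) (nat_lit 5) (nat_lit 158) (nat_lit 4) (nat_lit 453) (nat_lit 381) (nat_lit 366))) (XT.nd (nat_lit 78) (nat_lit 0) (nat_lit 0) (XT.lf (nat_lit 0) (nat_lit 569166082) (nat_lit 304) (nat_lit 1359903825) (nat_lit 380) (nat_lit 7804605684) (nat_lit 148) (nat_lit 5) (nat_lit 152) (nat_lit 5) (nat_lit 153) (nat_lit 5) (nat_lit 454) (nat_lit 381) (nat_lit 365)) (XT.lf (nat_lit 0) (nat_lit 6107970919)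 (nat_lit 380) (nat_lit 1269858547) (nat_lit 76) (nat_lit 2493578808) (nat_lit 148) (nat_lit 5) (nat_lit 153) (nat_lit 5) (nat_lit 149) (nat_lit 4) (nat_lit 455) (nat_lit 381) (nat_lit 364))))))))
noncomputable def xc55 : XT := (XT.nd (nat_lit 2340) (nat_lit 2736) (nat_lit 0) (XT.nd (nat_lit 1170) (nat_lit 1976) (nat_lit 0) (XT.nd (nat_lit 546) (nat_lit 1444) (nat_lit 0) (XT.nd (nat_lit 234) (nat_lit 836) (nat_lit 0) (XT.nd (nat_lit 78) (nat_lit 532) (nat_lit 0) (XT.lf (nat_lit 0) (nat_lit 387742164) (nat_lit 304) (nat_lit 3166108243) (nat_lit 76) (nat_lit 6459416994) (nat_lit 144) (nat_lit 5) (nat_lit 148) (nat_lit 5) (nat_lit 145) (nat_lit 5) (nat_lit 456) (nat_lit 381) (nat_lit 363)) (XT.nd (nat_lit 78) (nat_lit 228) (nat_lit 0) (XT.lf (nat_lit 0) (nat_lit 4570700652) (nat_lit 380) (nat_lit 5159284839) (nat_lit 76) (nat_lit 428798583) (nat_lit 140) (nat_lit 5) (nat_lit 145) (nat_lit 5) (nat_lit 141) (nat_lit 4)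 (nat_lit 457) (nat_lit 381) (nat_lit 362)) (XT.lf (nat_lit 0) (nat_lit 3059636677) (nat_lit 228) (nat_lit 5834711347) (nat_lit 304) (nat_lit 1413868212) (nat_lit 137) (nat_lit 5) (nat_lit 140) (nat_lit 5) (nat_lit 141) (nat_lit 4) (nat_lit 458) (nat_lit 381) (nat_lit 361)))) (XT.nd (nat_lit 156) (nat_lit 532) (nat_lit 0) (XT.nd (nat_lit 78) (nat_lit 0) (nat_lit 0) (XT.lf (nat_lit 0) (nat_lit 1029995831) (nat_lit 228) (nat_lit 1780420490) (nat_lit 304) (nat_lit 7651454032) (nat_lit 133) (nat_lit 5) (nat_lit 136) (nat_lit 5) (nat_lit 137) (nat_lit 5) (nat_lit 459) (nat_lit 381) (nat_lit 360)) (XT.lf (nat_lit 0) (nat_lit 7149220813) (nat_lit 304) (nat_lit 1082969180) (nat_lit 76) (nat_lit 2387043361) (nat_lit 133) (nat_lit 5) (nat_lit 137) (nat_lit 5) (nat_lit 134) (nat_lit 4) (nat_lit 460) (nat_lit 381) (nat_lit 359))) (XT.nd (nat_lit 78) (nat_lit 228) (nat_lit 0) (XT.lf (nat_lit 0) (nat_lit 832143937) (nat_lit 304)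 (nat_lit 3272616191) (nat_lit 76) (nat_lit 6675972885) (nat_lit 129) (nat_lit 5) (nat_lit 133) (nat_lit 5) (nat_lit 130) (nat_lit 5) (nat_lit 461) (nat_lit 381) (nat_lit 358)) (XT.lf (nat_lit 0) (nat_lit 5180094451) (nat_lit 304) (nat_lit 5574838976) (nat_lit 76) (nat_lit 191524365) (nat_lit 126) (nat_lit 5) (nat_lit 130) (nat_lit 5) (nat_lit 127) (nat_lit 4) (nat_lit 462) (nat_lit 381) (nat_lit 357))))) (XT.nd (nat_lit 312) (nat_lit 684) (nat_lit 0) (XT.nd (nat_lit 156) (nat_lit 228) (nat_lit 0) (XT.nd (nat_lit 78) (nat_lit 304) (nat_lit 0) (XT.lf (nat_lit 0) (nat_lit 3116156726) (nat_lit 228) (nat_lit 6568749532) (nat_lit 304) (nat_lit 1431460246) (nat_lit 123) (nat_lit 5) (nat_lit 126) (nat_lit 5) (nat_lit 127) (nat_lit 4) (nat_lit 463) (nat_lit 381) (nat_lit 356)) (XT.lf (nat_lit 0) (nat_lit 747286466) (nat_lit 228) (nat_lit 2213758834) (nat_lit 304) (nat_lit 8329854486) (nat_lit 119) (nat_lit 5) (nat_lit 122)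 (nat_lit 5) (nat_lit 123) (nat_lit 5) (nat_lit 464) (nat_lit 381) (nat_lit 355))) (XT.nd (nat_lit 78) (nat_lit 228) (nat_lit 0) (XT.lf (nat_lit 0) (nat_lit 7483202463) (nat_lit 304) (nat_lit 1714421773) (nat_lit 76) (nat_lit 2271824684) (nat_lit 119) (nat_lit 5) (nat_lit 123) (nat_lit 5) (nat_lit 120) (nat_lit 4) (nat_lit 465) (nat_lit 381) (nat_lit 354)) (XT.lf (nat_lit 0) (nat_lit 496599041) (nat_lit 228) (nat_lit 4282807911) (nat_lit 76) (nat_lit 6873257783) (nat_lit 116) (nat_lit 5) (nat_lit 119) (nat_lit 5) (nat_lit 117) (nat_lit 5) (nat_lit 466) (nat_lit 381) (nat_lit 353)))) (XT.nd (nat_lit 156) (nat_lit 304) (nat_lit 0) (XT.nd (nat_lit 78) (nat_lit 152) (nat_lit 0) (XT.lf (nat_lit 0) (nat_lit 4848924779) (nat_lit 228) (nat_lit 174670566) (nat_lit 304) (nat_lit 6816908176) (nat_lit 113) (nat_lit 5) (nat_lit 116) (nat_lit 5) (nat_lit 117) (nat_lit 5) (nat_lit 467) (nat_lit 381) (nat_lit 352)) (XT.lf (nat_lit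 0) (nat_lit 2180469220) (nat_lit 152) (nat_lit 7540623095) (nat_lit 228) (nat_lit 2311848395) (nat_lit 111) (nat_lit 5) (nat_lit 113) (nat_lit 5) (nat_lit 114) (nat_lit 4) (nat_lit 468) (nat_lit 381) (nat_lit 351))) (XT.nd (nat_lit 78) (nat_lit 228) (nat_lit 0) (XT.lf (nat_lit 0) (nat_lit 2282312520) (nat_lit 228) (nat_lit 610525492) (nat_lit 76) (nat_lit 9337663765) (nat_lit 110) (nat_lit 5) (nat_lit 113) (nat_lit 5) (nat_lit 111) (nat_lit 5) (nat_lit 469) (nat_lit 381) (nat_lit 350)) (XT.lf (nat_lit 0) (nat_lit 7001014875) (nat_lit 304) (nat_lit 3515453254) (nat_lit 76) (nat_lit 1915843011) (nat_lit 107) (nat_lit 5) (nat_lit 111) (nat_lit 5) (nat_lit 108) (nat_lit 4) (nat_lit 470) (nat_lit 381) (nat_lit 349)))))) (XT.nd (nat_lit 546) (nat_lit 988) (nat_lit 0) (XT.nd (nat_lit 234) (nat_lit 608) (nat_lit 0) (XT.nd (nat_lit 78) (nat_lit 228) (nat_lit 0) (XT.lf (nat_lit 0) (nat_lit 6067924646) (nat_lit 152) (nat_lit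 5815451135) (nat_lit 228) (nat_lit 756139599) (nat_lit 105) (nat_lit 5) (nat_lit 107) (nat_lit 5) (nat_lit 108) (nat_lit 4) (nat_lit 471) (nat_lit 381) (nat_lit 348)) (XT.nd (nat_lit 78) (nat_lit 0) (nat_lit 0) (XT.lf (nat_lit 0) (nat_lit 3054669562) (nat_lit 152) (nat_lit 919694525) (nat_lit 228) (nat_lit 8877575273) (nat_lit 102) (nat_lit 5) (nat_lit 104) (nat_lit 5) (nat_lit 105) (nat_lit 5) (nat_lit 472) (nat_lit 381) (nat_lit 347)) (XT.lf (nat_lit 0) (nat_lit 8867691202) (nat_lit 228) (nat_lit 137025462) (nat_lit 76) (nat_lit 4064714842) (nat_lit 102) (nat_lit 5) (nat_lit 105) (nat_lit 5) (nat_lit 103) (nat_lit 4) (nat_lit 473) (nat_lit 381) (nat_lit 346)))) (XT.nd (nat_lit 156) (nat_lit 228) (nat_lit 0) (XT.nd (nat_lit 78) (nat_lit 152) (nat_lit 0) (XT.lf (nat_lit 0) (nat_lit 638274851) (nat_lit 228) (nat_lit 3423313714) (nat_lit 76) (nat_lit 9230608905) (nat_lit 99) (nat_lit 5) (nat_lit 102) (nat_lit 5) (nat_lit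 100) (nat_lit 5) (nat_lit 474) (nat_lit 381) (nat_lit 345)) (XT.lf (nat_lit 0) (nat_lit 5546218082) (nat_lit 228) (nat_lit 6908627415) (nat_lit 76) (nat_lit 1065340471) (nat_lit 97) (nat_lit 5) (nat_lit 100) (nat_lit 5) (nat_lit 98) (nat_lit 4) (nat_lit 475) (nat_lit 381) (nat_lit 344))) (XT.nd (nat_lit 78) (nat_lit 76) (nat_lit 0) (XT.lf (nat_lit 0) (nat_lit 3163043701) (nat_lit 152) (nat_lit 7475890883) (nat_lit 228) (nat_lit 3114956350) (nat_lit 95) (nat_lit 5) (nat_lit 97) (nat_lit 5) (nat_lit 98) (nat_lit 4) (nat_lit 476) (nat_lit 381) (nat_lit 343)) (XT.lf (nat_lit 0) (nat_lit 1855560955) (nat_lit 228) (nat_lit 454841942) (nat_lit 76) (nat_lit 11683583483) (nat_lit 94) (nat_lit 5) (nat_lit 97) (nat_lit 5) (nat_lit 95) (nat_lit 5) (nat_lit 477) (nat_lit 381) (nat_lit 342))))) (XT.nd (nat_lit 312) (nat_lit 456) (nat_lit 0) (XT.nd (nat_lit 156) (nat_lit 228) (nat_lit 0) (XT.nd (nat_lit 78) (nat_lit 152) (nat_lit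 0) (XT.lf (nat_lit 0) (nat_lit 6972841507) (nat_lit 228) (nat_lit 4237380466) (nat_lit 76) (nat_lit 3028332443) (nat_lit 92) (nat_lit 5) (nat_lit 95) (nat_lit 5) (nat_lit 93) (nat_lit 4) (nat_lit 478) (nat_lit 381) (nat_lit 341)) (XT.lf (nat_lit 0) (nat_lit 6270617706) (nat_lit 152) (nat_lit 5995237848) (nat_lit 228) (nat_lit 2223940031) (nat_lit 90) (nat_lit 5) (nat_lit 92) (nat_lit 5) (nat_lit 93) (nat_lit 4) (nat_lit 479) (nat_lit 381) (nat_lit 340))) (XT.nd (nat_lit 78) (nat_lit 0) (nat_lit 0) (XT.lf (nat_lit 0) (nat_lit 2331114376) (nat_lit 152) (nat_lit 580215598) (nat_lit 228) (nat_lit 11836384747) (nat_lit 87) (nat_lit 5) (nat_lit 89) (nat_lit 5) (nat_lit 90) (nat_lit 5) (nat_lit 480) (nat_lit 381) (nat_lit 339)) (XT.lf (nat_lit 0) (nat_lit 8222640962) (nat_lit 228) (nat_lit 1834463719) (nat_lit 76) (nat_lit 4953608045) (nat_lit 87) (nat_lit 5) (nat_lit 90) (nat_lit 5) (nat_lit 88) (nat_lit 4) (nat_lit 481)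 (nat_lit 381) (nat_lit 338)))) (XT.nd (nat_lit 156) (nat_lit 76) (nat_lit 0) (XT.nd (nat_lit 78) (nat_lit 228) (nat_lit 0) (XT.lf (nat_lit 0) (nat_lit 9121754621) (nat_lit 152) (nat_lit 4601689369) (nat_lit 228) (nat_lit 1557254359) (nat_lit 85) (nat_lit 5) (nat_lit 87) (nat_lit 5) (nat_lit 88) (nat_lit 4) (nat_lit 482) (nat_lit 381) (nat_lit 337)) (XT.lf (nat_lit 0) (nat_lit 3767981929) (nat_lit 228) (nat_lit 10740433564) (nat_lit 76) (nat_lit 1048898319) (nat_lit 82) (nat_lit 5) (nat_lit 85) (nat_lit 5) (nat_lit 83) (nat_lit 4) (nat_lit 483) (nat_lit 381) (nat_lit 336))) (XT.nd (nat_lit 78) (nat_lit 0) (nat_lit 0) (XT.lf (nat_lit 0) (nat_lit 234857698) (nat_lit 76) (nat_lit 9034527124) (nat_lit 152) (nat_lit 6570951171) (nat_lit 81) (nat_lit 5) (nat_lit 82) (nat_lit 5) (nat_lit 83) (nat_lit 4) (nat_lit 484) (nat_lit 381) (nat_lit 335)) (XT.lf (nat_lit 0) (nat_lit 11644714186) (nat_lit 76) (nat_lit 3337382288)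 (nat_lit 152) (nat_lit 1148366373) (nat_lit 81) (nat_lit 5) (nat_lit 82) (nat_lit 5) (nat_lit 83) (nat_lit 4) (nat_lit 485) (nat_lit 381) (nat_lit 334))))))) (XT.nd (nat_lit 1170) (nat_lit 1216) (nat_lit 0) (XT.nd (nat_lit 546) (nat_lit 684) (nat_lit 0) (XT.nd (nat_lit 234) (nat_lit 532) (nat_lit 0) (XT.nd (nat_lit 78) (nat_lit 76) (nat_lit 0) (XT.lf (nat_lit 0) (nat_lit 4381035798) (nat_lit 228) (nat_lit 9504987358) (nat_lit 76) (nat_lit 2541071148) (nat_lit 78) (nat_lit 5) (nat_lit 81) (nat_lit 5) (nat_lit 79) (nat_lit 4) (nat_lit 486) (nat_lit 381) (nat_lit 333)) (XT.nd (nat_lit 78) (nat_lit 0) (nat_lit 0) (XT.lf (nat_lit 0) (nat_lit 1912398670) (nat_lit 76) (nat_lit 8177243080) (nat_lit 152) (nat_lit 6641551611) (nat_lit 77) (nat_lit 5) (nat_lit 78) (nat_lit 5) (nat_lit 79) (nat_lit 4) (nat_lit 487) (nat_lit 381) (nat_lit 332)) (XT.lf (nat_lit 0) (nat_lit 13755313327) (nat_lit 76) (nat_lit 2250099694) (nat_lit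 152) (nat_lit 1037926939) (nat_lit 77) (nat_lit 5) (nat_lit 78) (nat_lit 5) (nat_lit 79) (nat_lit 4) (nat_lit 488) (nat_lit 381) (nat_lit 331)))) (XT.nd (nat_lit 156) (nat_lit 228) (nat_lit 0) (XT.nd (nat_lit 78) (nat_lit 76) (nat_lit 0) (XT.lf (nat_lit 0) (nat_lit 4703044927) (nat_lit 228) (nat_lit 8799360773) (nat_lit 76) (nat_lit 3859233448) (nat_lit 74) (nat_lit 5) (nat_lit 77) (nat_lit 5) (nat_lit 75) (nat_lit 4) (nat_lit 489) (nat_lit 381) (nat_lit 330)) (XT.lf (nat_lit 0) (nat_lit 3063967985) (nat_lit 76) (nat_lit 7557961043) (nat_lit 152) (nat_lit 7066455290) (nat_lit 73) (nat_lit 5) (nat_lit 74) (nat_lit 5) (nat_lit 75) (nat_lit 4) (nat_lit 490) (nat_lit 381) (nat_lit 329))) (XT.nd (nat_lit 78) (nat_lit 228) (nat_lit 0) (XT.lf (nat_lit 0) (nat_lit 15354712490) (nat_lit 76) (nat_lit 1394469303) (nat_lit 152) (nat_lit 1274827571) (nat_lit 73) (nat_lit 5) (nat_lit 74) (nat_lit 5) (nat_lit 75) (nat_lit 4) (nat_lit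 491) (nat_lit 381) (nat_lit 328)) (XT.lf (nat_lit 0) (nat_lit 4683669320) (nat_lit 228) (nat_lit 8734293758) (nat_lit 76) (nat_lit 4947849429) (nat_lit 70) (nat_lit 5) (nat_lit 73) (nat_lit 5) (nat_lit 71) (nat_lit 4) (nat_lit 492) (nat_lit 381) (nat_lit 327))))) (XT.nd (nat_lit 312) (nat_lit 304) (nat_lit 0) (XT.nd (nat_lit 156) (nat_lit 304) (nat_lit 0) (XT.nd (nat_lit 78) (nat_lit 0) (nat_lit 0) (XT.lf (nat_lit 0) (nat_lit 3575090236) (nat_lit 76) (nat_lit 7238844762) (nat_lit 152) (nat_lit 7902998435) (nat_lit 69) (nat_lit 5) (nat_lit 70) (nat_lit 5) (nat_lit 71) (nat_lit 4) (nat_lit 493) (nat_lit 381) (nat_lit 326)) (XT.lf (nat_lit 0) (nat_lit 16326856362) (nat_lit 76) (nat_lit 833328788) (nat_lit 152) (nat_lit 1917441951) (nat_lit 69) (nat_lit 5) (nat_lit 70) (nat_lit 5) (nat_lit 71) (nat_lit 4) (nat_lit 494) (nat_lit 381) (nat_lit 325))) (XT.nd (nat_lit 78) (nat_lit 76) (nat_lit 0) (XT.lf (nat_lit 0) (nat_lit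 4262804720) (nat_lit 228) (nat_lit 9439343405) (nat_lit 76) (nat_lit 5742829510) (nat_lit 66) (nat_lit 5) (nat_lit 69) (nat_lit 5) (nat_lit 67) (nat_lit 4) (nat_lit 495) (nat_lit 381) (nat_lit 324)) (XT.lf (nat_lit 0) (nat_lit 3311612389) (nat_lit 76) (nat_lit 7291562137) (nat_lit 152) (nat_lit 9219208277) (nat_lit 65) (nat_lit 5) (nat_lit 66) (nat_lit 5) (nat_lit 67) (nat_lit 4) (nat_lit 496) (nat_lit 381) (nat_lit 323)))) (XT.nd (nat_lit 156) (nat_lit 76) (nat_lit 0) (XT.nd (nat_lit 78) (nat_lit 228) (nat_lit 0) (XT.lf (nat_lit 0) (nat_lit 16535511951) (nat_lit 76) (nat_lit 639287934) (nat_lit 152) (nat_lit 3035080160) (nat_lit 65) (nat_lit 5) (nat_lit 66) (nat_lit 5) (nat_lit 67) (nat_lit 4) (nat_lit 497) (nat_lit 381) (nat_lit 322)) (XT.lf (nat_lit 0) (nat_lit 3369068609) (nat_lit 228) (nat_lit 11066070850) (nat_lit 76) (nat_lit 6169915316) (nat_lit 62) (nat_lit 5) (nat_lit 65) (nat_lit 5) (nat_lit 63) (nat_lit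 4) (nat_lit 498) (nat_lit 381) (nat_lit 321))) (XT.nd (nat_lit 78) (nat_lit 0) (nat_lit 0) (XT.lf (nat_lit 0) (nat_lit 2116364714) (nat_lit 76) (nat_lit 7799033693) (nat_lit 152) (nat_lit 11095454215) (nat_lit 61) (nat_lit 5) (nat_lit 62) (nat_lit 5) (nat_lit 63) (nat_lit 4) (nat_lit 499) (nat_lit 381) (nat_lit 320)) (XT.lf (nat_lit 0) (nat_lit 15820838051) (nat_lit 76) (nat_lit 896521934) (nat_lit 152) (nat_lit 4709688275) (nat_lit 61) (nat_lit 5) (nat_lit 62) (nat_lit 5) (nat_lit 63) (nat_lit 4) (nat_lit 500) (nat_lit 381) (nat_lit 319)))))) (XT.nd (nat_lit 624) (nat_lit 532) (nat_lit 0) (XT.nd (nat_lit 312) (nat_lit 304) (nat_lit 0) (XT.nd (nat_lit 156) (nat_lit 152) (nat_lit 0) (XT.nd (nat_lit 78) (nat_lit 0) (nat_lit 0) (XT.lf (nat_lit 0) (nat_lit 1918031708) (nat_lit 228) (nat_lit 13791732108) (nat_lit 76) (nat_lit 6142823639) (nat_lit 58) (nat_lit 5) (nat_lit 61) (nat_lit 5) (nat_lit 59) (nat_lit 4) (nat_lit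 501) (nat_lit 381) (nat_lit 318)) (XT.lf (nat_lit 0) (nat_lit 8664607632) (nat_lit 228) (nat_lit 190908075) (nat_lit 76) (nat_lit 13433538687) (nat_lit 58) (nat_lit 5) (nat_lit 61) (nat_lit 5) (nat_lit 59) (nat_lit 4) (nat_lit 502) (nat_lit 381) (nat_lit 317))) (XT.nd (nat_lit 78) (nat_lit 76) (nat_lit 0) (XT.lf (nat_lit 0) (nat_lit 13995409743) (nat_lit 76) (nat_lit 1702835292) (nat_lit 152) (nat_lit 7037831368) (nat_lit 57) (nat_lit 5) (nat_lit 58) (nat_lit 5) (nat_lit 59) (nat_lit 4) (nat_lit 503) (nat_lit 381) (nat_lit 316)) (XT.lf (nat_lit 0) (nat_lit 5369346715) (nat_lit 76) (nat_lit 17631792967) (nat_lit 76) (nat_lit 193622905) (nat_lit 56) (nat_lit 4) (nat_lit 57) (nat_lit 5) (nat_lit 57) (nat_lit 4) (nat_lit 504) (nat_lit 381) (nat_lit 315)))) (XT.nd (nat_lit 156) (nat_lit 152) (nat_lit 0) (XT.nd (nat_lit 78) (nat_lit 76) (nat_lit 0) (XT.lf (nat_lit 0) (nat_lit 6778413219) (nat_lit 152) (nat_lit 3762153245)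 (nat_lit 76) (nat_lit 13122978152) (nat_lit 55) (nat_lit 5) (nat_lit 57) (nat_lit 5) (nat_lit 56) (nat_lit 4) (nat_lit 505) (nat_lit 381) (nat_lit 314)) (XT.lf (nat_lit 0) (nat_lit 10839609527) (nat_lit 76) (nat_lit 3172041854) (nat_lit 152) (nat_lit 10133004113) (nat_lit 54) (nat_lit 5) (nat_lit 55) (nat_lit 5) (nat_lit 56) (nat_lit 4) (nat_lit 506) (nat_lit 381) (nat_lit 313))) (XT.nd (nat_lit 78) (nat_lit 76) (nat_lit 0) (XT.lf (nat_lit 0) (nat_lit 1205064955) (nat_lit 76) (nat_lit 20301066051) (nat_lit 76) (nat_lit 3132742214) (nat_lit 53) (nat_lit 4) (nat_lit 54) (nat_lit 5) (nat_lit 54) (nat_lit 4) (nat_lit 507) (nat_lit 381) (nat_lit 312)) (XT.lf (nat_lit 0) (nat_lit 4116925938) (nat_lit 152) (nat_lit 8885741044) (nat_lit 76) (nat_lit 12140506460) (nat_lit 52) (nat_lit 5) (nat_lit 54) (nat_lit 5) (nat_lit 53) (nat_lit 4) (nat_lit 508) (nat_lit 381) (nat_lit 311))))) (XT.nd (nat_lit 312) (nat_lit 304) (nat_lit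 0) (XT.nd (nat_lit 156) (nat_lit 152) (nat_lit 0) (XT.nd (nat_lit 78) (nat_lit 0) (nat_lit 0) (XT.lf (nat_lit 0) (nat_lit 6096282711) (nat_lit 76) (nat_lit 5436713498) (nat_lit 152) (nat_lit 14128320410) (nat_lit 51) (nat_lit 5) (nat_lit 52) (nat_lit 5) (nat_lit 53) (nat_lit 4) (nat_lit 509) (nat_lit 381) (nat_lit 310)) (XT.lf (nat_lit 0) (nat_lit 19238174622) (nat_lit 152) (nat_lit 4596447077) (nat_lit 0) (nat_lit 2358384369) (nat_lit 51) (nat_lit 5) (nat_lit 53) (nat_lit 4) (nat_lit 51) (nat_lit 4) (nat_lit 510) (nat_lit 381) (nat_lit 309))) (XT.nd (nat_lit 78) (nat_lit 0) (nat_lit 0) (XT.lf (nat_lit 0) (nat_lit 539764373) (nat_lit 152) (nat_lit 15850506849) (nat_lit 76) (nat_lit 10346819524) (nat_lit 49) (nat_lit 5) (nat_lit 51) (nat_lit 5) (nat_lit 50) (nat_lit 4) (nat_lit 511) (nat_lit 381) (nat_lit 308)) (XT.lf (nat_lit 0) (nat_lit 8121043797) (nat_lit 152) (nat_lit 525012796) (nat_lit 76) (nat_lit 18649327343)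 (nat_lit 49) (nat_lit 5) (nat_lit 51) (nat_lit 5) (nat_lit 50) (nat_lit 4) (nat_lit 512) (nat_lit 381) (nat_lit 307)))) (XT.nd (nat_lit 156) (nat_lit 152) (nat_lit 0) (XT.nd (nat_lit 78) (nat_lit 76) (nat_lit 0) (XT.lf (nat_lit 0) (nat_lit 15476900353) (nat_lit 76) (nat_lit 557708762) (nat_lit 152) (nat_lit 11832672054) (nat_lit 48) (nat_lit 5) (nat_lit 49) (nat_lit 5) (nat_lit 50) (nat_lit 4) (nat_lit 513) (nat_lit 381) (nat_lit 306)) (XT.lf (nat_lit 0) (nat_lit 3419990393) (nat_lit 76) (nat_lit 20834688073) (nat_lit 76) (nat_lit 4199584593) (nat_lit 47) (nat_lit 4) (nat_lit 48) (nat_lit 5) (nat_lit 48) (nat_lit 4) (nat_lit 514) (nat_lit 381) (nat_lit 305))) (XT.nd (nat_lit 78) (nat_lit 76) (nat_lit 0) (XT.lf (nat_lit 0) (nat_lit 3679086487) (nat_lit 152) (nat_lit 9223868147) (nat_lit 76) (nat_lit 16152202419) (nat_lit 46) (nat_lit 5) (nat_lit 48) (nat_lit 5) (nat_lit 47) (nat_lit 4) (nat_lit 515) (nat_lit 381)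 (nat_lit 304)) (XT.lf (nat_lit 0) (nat_lit 7074339666) (nat_lit 76) (nat_lit 4660829985) (nat_lit 152) (nat_lit 17936897630) (nat_lit 45) (nat_lit 5) (nat_lit 46) (nat_lit 5) (nat_lit 47) (nat_lit 4) (nat_lit 516) (nat_lit 381) (nat_lit 303))))))))
noncomputable def xc56 : XT := (XT.nd (nat_lit 2340) (nat_lit 228) (nat_lit 0) (XT.nd (nat_lit 1170) (nat_lit 760) (nat_lit 0) (XT.nd (nat_lit 546) (nat_lit 456) (nat_lit 0) (XT.nd (nat_lit 234) (nat_lit 228) (nat_lit 0) (XT.nd (nat_lit 78) (nat_lit 152) (nat_lit 0) (XT.lf (nat_lit 0) (nat_lit 20121323704) (nat_lit 152) (nat_lit 6374880630) (nat_lit 0) (nat_lit 3808629409) (nat_lit 45) (nat_lit 5) (nat_lit 47) (nat_lit 4) (nat_lit 45) (nat_lit 4) (nat_lit 517) (nat_lit 381) (nat_lit 302)) (XT.nd (nat_lit 78) (nat_lit 76) (nat_lit 0) (XT.lf (nat_lit 0) (nat_lit 10411041046) (nat_lit 76) (nat_lit 18453003476) (nat_lit 76) (nat_lit 2089389776) (nat_lit 44) (nat_lit 4) (nat_lit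 45) (nat_lit 5) (nat_lit 45) (nat_lit 4) (nat_lit 518) (nat_lit 381) (nat_lit 301)) (XT.lf (nat_lit 0) (nat_lit 6149440255) (nat_lit 152) (nat_lit 3929686297) (nat_lit 76) (nat_lit 21539851236) (nat_lit 43) (nat_lit 5) (nat_lit 45) (nat_lit 5) (nat_lit 44) (nat_lit 4) (nat_lit 519) (nat_lit 381) (nat_lit 300)))) (XT.nd (nat_lit 156) (nat_lit 152) (nat_lit 0) (XT.nd (nat_lit 78) (nat_lit 0) (nat_lit 0) (XT.lf (nat_lit 0) (nat_lit 13342778427) (nat_lit 76) (nat_lit 1338908698) (nat_lit 152) (nat_lit 17619532964) (nat_lit 42) (nat_lit 5) (nat_lit 43) (nat_lit 5) (nat_lit 44) (nat_lit 4) (nat_lit 520) (nat_lit 381) (nat_lit 299)) (XT.lf (nat_lit 0) (nat_lit 23543685853) (nat_lit 152) (nat_lit 1941184635) (nat_lit 0) (nat_lit 7516846138) (nat_lit 42) (nat_lit 5) (nat_lit 44) (nat_lit 4) (nat_lit 42) (nat_lit 4) (nat_lit 521) (nat_lit 381) (nat_lit 298))) (XT.nd (nat_lit 78) (nat_lit 76) (nat_lit 0) (XT.lf (nat_lit 0)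 (nat_lit 15805683715) (nat_lit 76) (nat_lit 16992258077) (nat_lit 76) (nat_lit 921494835) (nat_lit 41) (nat_lit 4) (nat_lit 42) (nat_lit 5) (nat_lit 42) (nat_lit 4) (nat_lit 522) (nat_lit 381) (nat_lit 297)) (XT.lf (nat_lit 0) (nat_lit 7698571255) (nat_lit 152) (nat_lit 485307794) (nat_lit 76) (nat_lit 26273108924) (nat_lit 40) (nat_lit 5) (nat_lit 42) (nat_lit 5) (nat_lit 41) (nat_lit 4) (nat_lit 523) (nat_lit 381) (nat_lit 296))))) (XT.nd (nat_lit 312) (nat_lit 152) (nat_lit 0) (XT.nd (nat_lit 156) (nat_lit 152) (nat_lit 0) (XT.nd (nat_lit 78) (nat_lit 76) (nat_lit 0) (XT.lf (nat_lit 0) (nat_lit 16701473291) (nat_lit 152) (nat_lit 17493444499) (nat_lit 0) (nat_lit 1017192147) (nat_lit 39) (nat_lit 5) (nat_lit 41) (nat_lit 4) (nat_lit 39) (nat_lit 4) (nat_lit 524) (nat_lit 381) (nat_lit 295)) (XT.lf (nat_lit 0) (nat_lit 340603533) (nat_lit 76) (nat_lit 25685519632) (nat_lit 76) (nat_lit 9962213004) (nat_lit 38)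 (nat_lit 4) (nat_lit 39) (nat_lit 5) (nat_lit 39) (nat_lit 4) (nat_lit 525) (nat_lit 381) (nat_lit 294))) (XT.nd (nat_lit 78) (nat_lit 152) (nat_lit 0) (XT.lf (nat_lit 0) (nat_lit 18995062806) (nat_lit 76) (nat_lit 16774899380) (nat_lit 76) (nat_lit 1013703933) (nat_lit 38) (nat_lit 4) (nat_lit 39) (nat_lit 5) (nat_lit 39) (nat_lit 4) (nat_lit 526) (nat_lit 381) (nat_lit 293)) (XT.lf (nat_lit 0) (nat_lit 464710632) (nat_lit 76) (nat_lit 7546467368) (nat_lit 152) (nat_lit 29590272937) (nat_lit 36) (nat_lit 5) (nat_lit 37) (nat_lit 5) (nat_lit 38) (nat_lit 4) (nat_lit 527) (nat_lit 381) (nat_lit 292)))) (XT.nd (nat_lit 156) (nat_lit 152) (nat_lit 0) (XT.nd (nat_lit 78) (nat_lit 0) (nat_lit 0) (XT.lf (nat_lit 0) (nat_lit 17450237935) (nat_lit 152) (nat_lit 18910597518) (nat_lit 0) (nat_lit 2077718950) (nat_lit 36) (nat_lit 5) (nat_lit 38) (nat_lit 4) (nat_lit 36) (nat_lit 4) (nat_lit 528) (nat_lit 381) (nat_lit 291))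 (XT.lf (nat_lit 0) (nat_lit 27211816396) (nat_lit 152) (nat_lit 282140862) (nat_lit 0) (nat_lit 11805633685) (nat_lit 36) (nat_lit 5) (nat_lit 38) (nat_lit 4) (nat_lit 36) (nat_lit 4) (nat_lit 529) (nat_lit 381) (nat_lit 290))) (XT.nd (nat_lit 78) (nat_lit 76) (nat_lit 0) (XT.lf (nat_lit 0) (nat_lit 19212350372) (nat_lit 76) (nat_lit 18204232149) (nat_lit 76) (nat_lit 2765366210) (nat_lit 35) (nat_lit 4) (nat_lit 36) (nat_lit 5) (nat_lit 36) (nat_lit 4) (nat_lit 530) (nat_lit 381) (nat_lit 289)) (XT.lf (nat_lit 0) (nat_lit 6671860963) (nat_lit 152) (nat_lit 1926719472) (nat_lit 76) (nat_lit 32491168934) (nat_lit 34) (nat_lit 5) (nat_lit 36) (nat_lit 5) (nat_lit 35) (nat_lit 4) (nat_lit 531) (nat_lit 381) (nat_lit 288)))))) (XT.nd (nat_lit 546) (nat_lit 380) (nat_lit 0) (XT.nd (nat_lit 234) (nat_lit 228) (nat_lit 0) (XT.nd (nat_lit 78) (nat_lit 76) (nat_lit 0) (XT.lf (nat_lit 0) (nat_lit 16489912545) (nat_lit 152)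 (nat_lit 24089446303) (nat_lit 0) (nat_lit 1440005452) (nat_lit 33) (nat_lit 5) (nat_lit 35) (nat_lit 4) (nat_lit 33) (nat_lit 4) (nat_lit 532) (nat_lit 381) (nat_lit 287)) (XT.nd (nat_lit 78) (nat_lit 76) (nat_lit 0) (XT.lf (nat_lit 0) (nat_lit 26674002296) (nat_lit 152) (nat_lit 4705664226) (nat_lit 0) (nat_lit 11595056578) (nat_lit 33) (nat_lit 5) (nat_lit 35) (nat_lit 4) (nat_lit 33) (nat_lit 4) (nat_lit 533) (nat_lit 381) (nat_lit 286)) (XT.lf (nat_lit 0) (nat_lit 15498169441) (nat_lit 76) (nat_lit 21782106134) (nat_lit 76) (nat_lit 6674967576) (nat_lit 32) (nat_lit 4) (nat_lit 33) (nat_lit 5) (nat_lit 33) (nat_lit 4) (nat_lit 534) (nat_lit 381) (nat_lit 285)))) (XT.nd (nat_lit 156) (nat_lit 76) (nat_lit 0) (XT.nd (nat_lit 78) (nat_lit 76) (nat_lit 0) (XT.lf (nat_lit 0) (nat_lit 3192030410) (nat_lit 152) (nat_lit 8654688514) (nat_lit 76) (nat_lit 33117055328) (nat_lit 31) (nat_lit 5) (nat_lit 33) (nat_lit 5)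 (nat_lit 32) (nat_lit 4) (nat_lit 535) (nat_lit 381) (nat_lit 284)) (XT.lf (nat_lit 0) (nat_lit 11844771093) (nat_lit 76) (nat_lit 1458606146) (nat_lit 152) (nat_lit 32694726693) (nat_lit 30) (nat_lit 5) (nat_lit 31) (nat_lit 5) (nat_lit 32) (nat_lit 4) (nat_lit 536) (nat_lit 381) (nat_lit 283))) (XT.nd (nat_lit 78) (nat_lit 76) (nat_lit 0) (XT.lf (nat_lit 0) (nat_lit 23863827362) (nat_lit 152) (nat_lit 14075984854) (nat_lit 0) (nat_lit 9119278677) (nat_lit 30) (nat_lit 5) (nat_lit 32) (nat_lit 4) (nat_lit 30) (nat_lit 4) (nat_lit 537) (nat_lit 381) (nat_lit 282)) (XT.lf (nat_lit 0) (nat_lit 6658915879) (nat_lit 76) (nat_lit 28130209450) (nat_lit 76) (nat_lit 13361341373) (nat_lit 29) (nat_lit 4) (nat_lit 30) (nat_lit 5) (nat_lit 30) (nat_lit 4) (nat_lit 538) (nat_lit 381) (nat_lit 281))))) (XT.nd (nat_lit 312) (nat_lit 228) (nat_lit 0) (XT.nd (nat_lit 156) (nat_lit 76) (nat_lit 0) (XT.nd (nat_lit 78) (nat_lit 76)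 (nat_lit 0) (XT.lf (nat_lit 0) (nat_lit 28244732885) (nat_lit 76) (nat_lit 17909484620) (nat_lit 76) (nat_lit 3117005483) (nat_lit 29) (nat_lit 4) (nat_lit 30) (nat_lit 5) (nat_lit 30) (nat_lit 4) (nat_lit 539) (nat_lit 381) (nat_lit 280)) (XT.lf (nat_lit 0) (nat_lit 7260066100) (nat_lit 152) (nat_lit 77468311) (nat_lit 76) (nat_lit 43086809325) (nat_lit 28) (nat_lit 5) (nat_lit 30) (nat_lit 5) (nat_lit 29) (nat_lit 4) (nat_lit 540) (nat_lit 381) (nat_lit 279))) (XT.nd (nat_lit 78) (nat_lit 0) (nat_lit 0) (XT.lf (nat_lit 0) (nat_lit 18103321609) (nat_lit 152) (nat_lit 29803457050) (nat_lit 0) (nat_lit 3697828227) (nat_lit 27) (nat_lit 5) (nat_lit 29) (nat_lit 4) (nat_lit 27) (nat_lit 4) (nat_lit 541) (nat_lit 381) (nat_lit 278)) (XT.lf (nat_lit 0) (nat_lit 29316681693) (nat_lit 152) (nat_lit 8612042073) (nat_lit 0) (nat_lit 14890210190) (nat_lit 27) (nat_lit 5) (nat_lit 29) (nat_lit 4) (nat_lit 27) (nat_lit 4) (nat_lit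 542) (nat_lit 381) (nat_lit 277)))) (XT.nd (nat_lit 156) (nat_lit 152) (nat_lit 0) (XT.nd (nat_lit 78) (nat_lit 0) (nat_lit 0) (XT.lf (nat_lit 0) (nat_lit 13421833805) (nat_lit 76) (nat_lit 27545829622) (nat_lit 76) (nat_lit 13098991012) (nat_lit 26) (nat_lit 4) (nat_lit 27) (nat_lit 5) (nat_lit 27) (nat_lit 4) (nat_lit 543) (nat_lit 381) (nat_lit 276)) (XT.lf (nat_lit 0) (nat_lit 36238615588) (nat_lit 76) (nat_lit 16789010067) (nat_lit 76) (nat_lit 2322397566) (nat_lit 26) (nat_lit 4) (nat_lit 27) (nat_lit 5) (nat_lit 27) (nat_lit 4) (nat_lit 544) (nat_lit 381) (nat_lit 275))) (XT.nd (nat_lit 78) (nat_lit 0) (nat_lit 0) (XT.lf (nat_lit 0) (nat_lit 2988352456) (nat_lit 76) (nat_lit 5619609567) (nat_lit 152) (nat_lit 48061347546) (nat_lit 24) (nat_lit 5) (nat_lit 25) (nat_lit 5) (nat_lit 26) (nat_lit 4) (nat_lit 545) (nat_lit 381) (nat_lit 274)) (XT.lf (nat_lit 0) (nat_lit 20044067161) (nat_lit 152) (nat_lit 32014604741)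 (nat_lit 0) (nat_lit 5962077606) (nat_lit 24) (nat_lit 5) (nat_lit 26) (nat_lit 4) (nat_lit 24) (nat_lit 4) (nat_lit 546) (nat_lit 381) (nat_lit 273))))))) (XT.nd (nat_lit 54522) (nat_lit 0) (nat_lit 8740) (XT.nd (nat_lit 53898) (nat_lit 0) (nat_lit 12920) (XT.nd (nat_lit 234) (nat_lit 152) (nat_lit 0) (XT.nd (nat_lit 78) (nat_lit 76) (nat_lit 0) (XT.lf (nat_lit 0) (nat_lit 31852725381) (nat_lit 152) (nat_lit 9805956379) (nat_lit 0) (nat_lit 17753166981) (nat_lit 24) (nat_lit 5) (nat_lit 26) (nat_lit 4) (nat_lit 24) (nat_lit 4) (nat_lit 547) (nat_lit 381) (nat_lit 272)) (XT.nd (nat_lit 78) (nat_lit 0) (nat_lit 0) (XT.lf (nat_lit 0) (nat_lit 13277504650) (nat_lit 76) (nat_lit 30840362652) (nat_lit 76) (nat_lit 16723747120) (nat_lit 23) (nat_lit 4) (nat_lit 24) (nat_lit 5) (nat_lit 24) (nat_lit 4) (nat_lit 548) (nat_lit 381) (nat_lit 271)) (XT.lf (nat_lit 0) (nat_lit 37204438758) (nat_lit 76) (nat_lit 19620397090)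 (nat_lit 76) (nat_lit 5487221236) (nat_lit 23) (nat_lit 4) (nat_lit 24) (nat_lit 5) (nat_lit 24) (nat_lit 4) (nat_lit 549) (nat_lit 381) (nat_lit 270)))) (XT.nd (nat_lit 156) (nat_lit 0) (nat_lit 0) (XT.nd (nat_lit 78) (nat_lit 76) (nat_lit 0) (XT.lf (nat_lit 0) (nat_lit 5942974830) (nat_lit 152) (nat_lit 2085014931) (nat_lit 76) (nat_lit 55797607992) (nat_lit 22) (nat_lit 5) (nat_lit 24) (nat_lit 5) (nat_lit 23) (nat_lit 4) (nat_lit 550) (nat_lit 381) (nat_lit 269)) (XT.lf (nat_lit 0) (nat_lit 17832897230) (nat_lit 152) (nat_lit 43462601925) (nat_lit 0) (nat_lit 4080602542) (nat_lit 21) (nat_lit 5) (nat_lit 23) (nat_lit 4) (nat_lit 21) (nat_lit 4) (nat_lit 551) (nat_lit 381) (nat_lit 268))) (XT.nd (nat_lit 53430) (nat_lit 0) (nat_lit 15732) (XT.lf (nat_lit 0) (nat_lit 30156343578) (nat_lit 152) (nat_lit 20425137298) (nat_lit 0) (nat_lit 16389335258) (nat_lit 21) (nat_lit 5) (nat_lit 23) (nat_lit 4) (nat_lit 21)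 (nat_lit 4) (nat_lit 552) (nat_lit 381) (nat_lit 267)) (XT.lf (nat_lit 0) (nat_lit 431222555) (nat_lit 532) (nat_lit 3054381933) (nat_lit 0) (nat_lit 431222555) (nat_lit 228) (nat_lit 5) (nat_lit 235) (nat_lit 4) (nat_lit 228) (nat_lit 4) (nat_lit 436) (nat_lit 382) (nat_lit 382))))) (XT.nd (nat_lit 312) (nat_lit 1292) (nat_lit 0) (XT.nd (nat_lit 156) (nat_lit 988) (nat_lit 0) (XT.nd (nat_lit 78) (nat_lit 76) (nat_lit 0) (XT.lf (nat_lit 0) (nat_lit 269792313) (nat_lit 456) (nat_lit 4460155416) (nat_lit 456) (nat_lit 3183302675) (nat_lit 222) (nat_lit 4) (nat_lit 228) (nat_lit 5) (nat_lit 228) (nat_lit 4) (nat_lit 437) (nat_lit 382) (nat_lit 381)) (XT.lf (nat_lit 0) (nat_lit 664677974) (nat_lit 532) (nat_lit 1167219309) (nat_lit 76) (nat_lit 6164329937) (nat_lit 221) (nat_lit 5) (nat_lit 228) (nat_lit 5) (nat_lit 222) (nat_lit 4) (nat_lit 438) (nat_lit 382) (nat_lit 380))) (XT.nd (nat_lit 78) (nat_lit 532) (nat_lit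 0) (XT.lf (nat_lit 0) (nat_lit 4526603644) (nat_lit 532) (nat_lit 2640399001) (nat_lit 0) (nat_lit 914883481) (nat_lit 215) (nat_lit 5) (nat_lit 222) (nat_lit 4) (nat_lit 215) (nat_lit 4) (nat_lit 439) (nat_lit 382) (nat_lit 379)) (XT.lf (nat_lit 0) (nat_lit 298784284) (nat_lit 532) (nat_lit 4139655187) (nat_lit 76) (nat_lit 3732460068) (nat_lit 208) (nat_lit 5) (nat_lit 215) (nat_lit 5) (nat_lit 209) (nat_lit 4) (nat_lit 440) (nat_lit 382) (nat_lit 378)))) (XT.nd (nat_lit 156) (nat_lit 456) (nat_lit 0) (XT.nd (nat_lit 78) (nat_lit 456) (nat_lit 0) (XT.lf (nat_lit 0) (nat_lit 2580770791) (nat_lit 380) (nat_lit 1571141754) (nat_lit 456) (nat_lit 4110979700) (nat_lit 203) (nat_lit 5) (nat_lit 208) (nat_lit 5) (nat_lit 209) (nat_lit 4) (nat_lit 441) (nat_lit 382) (nat_lit 377)) (XT.lf (nat_lit 0) (nat_lit 1108420915) (nat_lit 456) (nat_lit 6982804300) (nat_lit 456) (nat_lit 267313285) (nat_lit 197) (nat_lit 4) (nat_lit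 203) (nat_lit 5) (nat_lit 203) (nat_lit 4) (nat_lit 442) (nat_lit 382) (nat_lit 376))) (XT.nd (nat_lit 78) (nat_lit 380) (nat_lit 0) (XT.lf (nat_lit 0) (nat_lit 3598157596) (nat_lit 532) (nat_lit 419190439) (nat_lit 76) (nat_lit 4439296372) (nat_lit 196) (nat_lit 5) (nat_lit 203) (nat_lit 5) (nat_lit 197) (nat_lit 4) (nat_lit 443) (nat_lit 382) (nat_lit 375)) (XT.lf (nat_lit 0) (nat_lit 6615533425) (nat_lit 380) (nat_lit 930074994) (nat_lit 456) (nat_lit 1012874527) (nat_lit 191) (nat_lit 5) (nat_lit 196) (nat_lit 5) (nat_lit 197) (nat_lit 4) (nat_lit 444) (nat_lit 382) (nat_lit 374)))))) (XT.nd (nat_lit 546) (nat_lit 1976) (nat_lit 0) (XT.nd (nat_lit 234) (nat_lit 988) (nat_lit 0) (XT.nd (nat_lit 78) (nat_lit 760) (nat_lit 0) (XT.lf (nat_lit 0) (nat_lit 2874811215) (nat_lit 456) (nat_lit 3535152671) (nat_lit 76) (nat_lit 2253045492) (nat_lit 185) (nat_lit 5) (nat_lit 191) (nat_lit 5) (nat_lit 186) (nat_lit 4) (nat_lit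 445) (nat_lit 382) (nat_lit 373)) (XT.nd (nat_lit 78) (nat_lit 456) (nat_lit 0) (XT.lf (nat_lit 0) (nat_lit 3602125434) (nat_lit 304) (nat_lit 3229748306) (nat_lit 380) (nat_lit 1939313507) (nat_lit 181) (nat_lit 5) (nat_lit 185) (nat_lit 5) (nat_lit 186) (nat_lit 4) (nat_lit 446) (nat_lit 382) (nat_lit 372)) (XT.lf (nat_lit 0) (nat_lit 1951902976) (nat_lit 456) (nat_lit 6849338750) (nat_lit 76) (nat_lit 81802384) (nat_lit 175) (nat_lit 5) (nat_lit 181) (nat_lit 5) (nat_lit 176) (nat_lit 4) (nat_lit 447) (nat_lit 382) (nat_lit 371)))) (XT.nd (nat_lit 156) (nat_lit 608) (nat_lit 0) (XT.nd (nat_lit 78) (nat_lit 76) (nat_lit 0) (XT.lf (nat_lit 0) (nat_lit 386867059) (nat_lit 304) (nat_lit 5533395028) (nat_lit 380) (nat_lit 3077445827) (nat_lit 171) (nat_lit 5) (nat_lit 175) (nat_lit 5) (nat_lit 176) (nat_lit 4) (nat_lit 448) (nat_lit 382) (nat_lit 370)) (XT.lf (nat_lit 0) (nat_lit 855751736) (nat_lit 380) (nat_lit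 1273731031) (nat_lit 76) (nat_lit 6986641124) (nat_lit 170) (nat_lit 5) (nat_lit 175) (nat_lit 5) (nat_lit 171) (nat_lit 5) (nat_lit 449) (nat_lit 382) (nat_lit 369))) (XT.nd (nat_lit 78) (nat_lit 304) (nat_lit 0) (XT.lf (nat_lit 0) (nat_lit 4832899932) (nat_lit 380) (nat_lit 3004236730) (nat_lit 76) (nat_lit 1400415397) (nat_lit 166) (nat_lit 5) (nat_lit 171) (nat_lit 5) (nat_lit 167) (nat_lit 4) (nat_lit 450) (nat_lit 382) (nat_lit 368)) (XT.lf (nat_lit 0) (nat_lit 4569017552) (nat_lit 304) (nat_lit 4353254577) (nat_lit 380) (nat_lit 440571478) (nat_lit 162) (nat_lit 5) (nat_lit 166) (nat_lit 5) (nat_lit 167) (nat_lit 4) (nat_lit 451) (nat_lit 382) (nat_lit 367))))) (XT.nd (nat_lit 312) (nat_lit 912) (nat_lit 0) (XT.nd (nat_lit 156) (nat_lit 380) (nat_lit 0) (XT.nd (nat_lit 78) (nat_lit 304) (nat_lit 0) (XT.lf (nat_lit 0) (nat_lit 2831193707) (nat_lit 304) (nat_lit 713348028) (nat_lit 380) (nat_lit 5947113525)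 (nat_lit 157) (nat_lit 5) (nat_lit 161) (nat_lit 5) (nat_lit 162) (nat_lit 5) (nat_lit 452) (nat_lit 382) (nat_lit 366)) (XT.lf (nat_lit 0) (nat_lit 1016535141) (nat_lit 304) (nat_lit 6627809273) (nat_lit 380) (nat_lit 1979743408) (nat_lit 153) (nat_lit 5) (nat_lit 157) (nat_lit 5) (nat_lit 158) (nat_lit 4) (nat_lit 453) (nat_lit 382) (nat_lit 365))) (XT.nd (nat_lit 78) (nat_lit 304) (nat_lit 0) (XT.lf (nat_lit 0) (nat_lit 2057059673) (nat_lit 380) (nat_lit 856109085) (nat_lit 76) (nat_lit 6846978235) (nat_lit 152) (nat_lit 5) (nat_lit 157) (nat_lit 5) (nat_lit 153) (nat_lit 5) (nat_lit 454) (nat_lit 382) (nat_lit 364)) (XT.lf (nat_lit 0) (nat_lit 6171804834) (nat_lit 380) (nat_lit 2788305807) (nat_lit 76) (nat_lit 939696937) (nat_lit 148) (nat_lit 5) (nat_lit 153) (nat_lit 5) (nat_lit 149) (nat_lit 4) (nat_lit 455) (nat_lit 382) (nat_lit 363)))) (XT.nd (nat_lit 156) (nat_lit 304) (nat_lit 0) (XT.nd (nat_lit 78)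 (nat_lit 304) (nat_lit 0) (XT.lf (nat_lit 0) (nat_lit 366875389) (nat_lit 304) (nat_lit 4808418354) (nat_lit 76) (nat_lit 4868034082) (nat_lit 144) (nat_lit 5) (nat_lit 148) (nat_lit 5) (nat_lit 145) (nat_lit 5) (nat_lit 456) (nat_lit 382) (nat_lit 362)) (XT.lf (nat_lit 0) (nat_lit 3264863685) (nat_lit 304) (nat_lit 1224656303) (nat_lit 380) (nat_lit 5701136878) (nat_lit 140) (nat_lit 5) (nat_lit 144) (nat_lit 5) (nat_lit 145) (nat_lit 5) (nat_lit 457) (nat_lit 382) (nat_lit 361))) (XT.nd (nat_lit 78) (nat_lit 76) (nat_lit 0) (XT.lf (nat_lit 0) (nat_lit 1205671325) (nat_lit 228) (nat_lit 7538835226) (nat_lit 304) (nat_lit 1597645168) (nat_lit 137) (nat_lit 5) (nat_lit 140) (nat_lit 5) (nat_lit 141) (nat_lit 4) (nat_lit 458) (nat_lit 382) (nat_lit 360)) (XT.lf (nat_lit 0) (nat_lit 2581410872) (nat_lit 304) (nat_lit 939447976) (nat_lit 76) (nat_lit 6976467126) (nat_lit 136) (nat_lit 5) (nat_lit 140) (nat_lit 5) (nat_lit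 137) (nat_lit 5) (nat_lit 459) (nat_lit 382) (nat_lit 359))))))))
noncomputable def xc57 : XT := (XT.nd (nat_lit 2340) (nat_lit 2356) (nat_lit 0) (XT.nd (nat_lit 1170) (nat_lit 1976) (nat_lit 0) (XT.nd (nat_lit 546) (nat_lit 1292) (nat_lit 0) (XT.nd (nat_lit 234) (nat_lit 684) (nat_lit 0) (XT.nd (nat_lit 78) (nat_lit 532) (nat_lit 0) (XT.lf (nat_lit 0) (nat_lit 6855569082) (nat_lit 304) (nat_lit 3153532705) (nat_lit 76) (nat_lit 647529199) (nat_lit 133) (nat_lit 5) (nat_lit 137) (nat_lit 5) (nat_lit 134) (nat_lit 4) (nat_lit 460) (nat_lit 382) (nat_lit 358)) (XT.nd (nat_lit 78) (nat_lit 228) (nat_lit 0) (XT.lf (nat_lit 0) (nat_lit 448579747) (nat_lit 304) (nat_lit 5482669171) (nat_lit 76) (nat_lit 4888748912) (nat_lit 129) (nat_lit 5) (nat_lit 133) (nat_lit 5) (nat_lit 130) (nat_lit 5) (nat_lit 461) (nat_lit 382) (nat_lit 357)) (XT.lf (nat_lit 0) (nat_lit 3056481772) (nat_lit 228) (nat_lit 1678544139) (nat_lit 304)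 (nat_lit 6252544230) (nat_lit 126) (nat_lit 5) (nat_lit 129) (nat_lit 5) (nat_lit 130) (nat_lit 5) (nat_lit 462) (nat_lit 382) (nat_lit 356)))) (XT.nd (nat_lit 156) (nat_lit 380) (nat_lit 0) (XT.nd (nat_lit 78) (nat_lit 76) (nat_lit 0) (XT.lf (nat_lit 0) (nat_lit 666162613) (nat_lit 228) (nat_lit 8496901201) (nat_lit 304) (nat_lit 1996720584) (nat_lit 123) (nat_lit 5) (nat_lit 126) (nat_lit 5) (nat_lit 127) (nat_lit 4) (nat_lit 463) (nat_lit 382) (nat_lit 355)) (XT.lf (nat_lit 0) (nat_lit 2362668813) (nat_lit 304) (nat_lit 1817475154) (nat_lit 76) (nat_lit 7155663313) (nat_lit 122) (nat_lit 5) (nat_lit 126) (nat_lit 5) (nat_lit 123) (nat_lit 5) (nat_lit 464) (nat_lit 382) (nat_lit 354))) (XT.nd (nat_lit 78) (nat_lit 152) (nat_lit 0) (XT.lf (nat_lit 0) (nat_lit 6811209179) (nat_lit 304) (nat_lit 4404164509) (nat_lit 76) (nat_lit 301193364) (nat_lit 119) (nat_lit 5) (nat_lit 123) (nat_lit 5) (nat_lit 120) (nat_lit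 4) (nat_lit 465) (nat_lit 382) (nat_lit 353)) (XT.lf (nat_lit 0) (nat_lit 4569763564) (nat_lit 152) (nat_lit 6854921484) (nat_lit 228) (nat_lit 277124391) (nat_lit 117) (nat_lit 5) (nat_lit 119) (nat_lit 5) (nat_lit 120) (nat_lit 4) (nat_lit 466) (nat_lit 382) (nat_lit 352))))) (XT.nd (nat_lit 312) (nat_lit 532) (nat_lit 0) (XT.nd (nat_lit 156) (nat_lit 456) (nat_lit 0) (XT.nd (nat_lit 78) (nat_lit 0) (nat_lit 0) (XT.lf (nat_lit 0) (nat_lit 1883747092) (nat_lit 228) (nat_lit 2307489936) (nat_lit 304) (nat_lit 7700414344) (nat_lit 113) (nat_lit 5) (nat_lit 116) (nat_lit 5) (nat_lit 117) (nat_lit 5) (nat_lit 467) (nat_lit 382) (nat_lit 351)) (XT.lf (nat_lit 0) (nat_lit 8811948583) (nat_lit 304) (nat_lit 918863397) (nat_lit 76) (nat_lit 2355582038) (nat_lit 113) (nat_lit 5) (nat_lit 117) (nat_lit 5) (nat_lit 114) (nat_lit 4) (nat_lit 468) (nat_lit 382) (nat_lit 350))) (XT.nd (nat_lit 78) (nat_lit 228) (nat_lit 0) (XT.lf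 (nat_lit 0) (nat_lit 1294179606) (nat_lit 228) (nat_lit 3833591951) (nat_lit 76) (nat_lit 7157792494) (nat_lit 110) (nat_lit 5) (nat_lit 113) (nat_lit 5) (nat_lit 111) (nat_lit 5) (nat_lit 469) (nat_lit 382) (nat_lit 349)) (XT.lf (nat_lit 0) (nat_lit 5588525663) (nat_lit 228) (nat_lit 339197521) (nat_lit 304) (nat_lit 6562206728) (nat_lit 107) (nat_lit 5) (nat_lit 110) (nat_lit 5) (nat_lit 111) (nat_lit 5) (nat_lit 470) (nat_lit 382) (nat_lit 348)))) (XT.nd (nat_lit 156) (nat_lit 304) (nat_lit 0) (XT.nd (nat_lit 78) (nat_lit 76) (nat_lit 0) (XT.lf (nat_lit 0) (nat_lit 2557247895) (nat_lit 152) (nat_lit 8181824719) (nat_lit 228) (nat_lit 1960193566) (nat_lit 105) (nat_lit 5) (nat_lit 107) (nat_lit 5) (nat_lit 108) (nat_lit 4) (nat_lit 471) (nat_lit 382) (nat_lit 347)) (XT.lf (nat_lit 0) (nat_lit 2730528247) (nat_lit 228) (nat_lit 623365271) (nat_lit 76) (nat_lit 9560043772) (nat_lit 104) (nat_lit 5) (nat_lit 107)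 (nat_lit 5) (nat_lit 105) (nat_lit 5) (nat_lit 472) (nat_lit 382) (nat_lit 346))) (XT.nd (nat_lit 78) (nat_lit 152) (nat_lit 0) (XT.lf (nat_lit 0) (nat_lit 7560546119) (nat_lit 228) (nat_lit 3925939213) (nat_lit 76) (nat_lit 1646844921) (nat_lit 102) (nat_lit 5) (nat_lit 105) (nat_lit 5) (nat_lit 103) (nat_lit 4) (nat_lit 473) (nat_lit 382) (nat_lit 345)) (XT.lf (nat_lit 0) (nat_lit 5951843337) (nat_lit 152) (nat_lit 6613903976) (nat_lit 228) (nat_lit 792652246) (nat_lit 100) (nat_lit 5) (nat_lit 102) (nat_lit 5) (nat_lit 103) (nat_lit 4) (nat_lit 474) (nat_lit 382) (nat_lit 344)))))) (XT.nd (nat_lit 546) (nat_lit 988) (nat_lit 0) (XT.nd (nat_lit 234) (nat_lit 532) (nat_lit 0) (XT.nd (nat_lit 78) (nat_lit 228) (nat_lit 0) (XT.lf (nat_lit 0) (nat_lit 2508320843) (nat_lit 152) (nat_lit 1539771376) (nat_lit 228) (nat_lit 9541005820) (nat_lit 97) (nat_lit 5) (nat_lit 99) (nat_lit 5) (nat_lit 100) (nat_lit 5) (nat_lit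 475) (nat_lit 382) (nat_lit 343)) (XT.nd (nat_lit 78) (nat_lit 228) (nat_lit 0) (XT.lf (nat_lit 0) (nat_lit 9063082942) (nat_lit 228) (nat_lit 1114278301) (nat_lit 76) (nat_lit 3647774903) (nat_lit 97) (nat_lit 5) (nat_lit 100) (nat_lit 5) (nat_lit 98) (nat_lit 4) (nat_lit 476) (nat_lit 382) (nat_lit 342)) (XT.lf (nat_lit 0) (nat_lit 197126313) (nat_lit 228) (nat_lit 4868299161) (nat_lit 76) (nat_lit 9001586753) (nat_lit 94) (nat_lit 5) (nat_lit 97) (nat_lit 5) (nat_lit 95) (nat_lit 5) (nat_lit 477) (nat_lit 382) (nat_lit 341)))) (XT.nd (nat_lit 156) (nat_lit 228) (nat_lit 0) (XT.nd (nat_lit 78) (nat_lit 152) (nat_lit 0) (XT.lf (nat_lit 0) (nat_lit 5211923007) (nat_lit 228) (nat_lit 8844557779) (nat_lit 76) (nat_lit 258175247) (nat_lit 92) (nat_lit 5) (nat_lit 95) (nat_lit 5) (nat_lit 93) (nat_lit 4) (nat_lit 478) (nat_lit 382) (nat_lit 340)) (XT.lf (nat_lit 0) (nat_lit 1513850689) (nat_lit 152) (nat_lit 8913998984)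 (nat_lit 228) (nat_lit 4140361367) (nat_lit 90) (nat_lit 5) (nat_lit 92) (nat_lit 5) (nat_lit 93) (nat_lit 4) (nat_lit 479) (nat_lit 382) (nat_lit 339))) (XT.nd (nat_lit 78) (nat_lit 152) (nat_lit 0) (XT.lf (nat_lit 0) (nat_lit 978599544) (nat_lit 228) (nat_lit 2587970239) (nat_lit 76) (nat_lit 11261725354) (nat_lit 89) (nat_lit 5) (nat_lit 92) (nat_lit 5) (nat_lit 90) (nat_lit 5) (nat_lit 480) (nat_lit 382) (nat_lit 338)) (XT.lf (nat_lit 0) (nat_lit 6204410015) (nat_lit 228) (nat_lit 6914401256) (nat_lit 76) (nat_lit 1975048000) (nat_lit 87) (nat_lit 5) (nat_lit 90) (nat_lit 5) (nat_lit 88) (nat_lit 4) (nat_lit 481) (nat_lit 382) (nat_lit 337))))) (XT.nd (nat_lit 312) (nat_lit 532) (nat_lit 0) (XT.nd (nat_lit 156) (nat_lit 228) (nat_lit 0) (XT.nd (nat_lit 78) (nat_lit 76) (nat_lit 0) (XT.lf (nat_lit 0) (nat_lit 3884311302) (nat_lit 152) (nat_lit 7740293720) (nat_lit 228) (nat_lit 3741659192) (nat_lit 85) (nat_lit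 5) (nat_lit 87) (nat_lit 5) (nat_lit 88) (nat_lit 4) (nat_lit 482) (nat_lit 382) (nat_lit 336)) (XT.lf (nat_lit 0) (nat_lit 1539310142) (nat_lit 228) (nat_lit 624104998) (nat_lit 76) (nat_lit 13482702269) (nat_lit 84) (nat_lit 5) (nat_lit 87) (nat_lit 5) (nat_lit 85) (nat_lit 5) (nat_lit 483) (nat_lit 382) (nat_lit 335))) (XT.nd (nat_lit 78) (nat_lit 76) (nat_lit 0) (XT.lf (nat_lit 0) (nat_lit 6981388228) (nat_lit 228) (nat_lit 5346739968) (nat_lit 76) (nat_lit 3602792127) (nat_lit 82) (nat_lit 5) (nat_lit 85) (nat_lit 5) (nat_lit 83) (nat_lit 4) (nat_lit 484) (nat_lit 382) (nat_lit 334)) (XT.lf (nat_lit 0) (nat_lit 5901771732) (nat_lit 76) (nat_lit 6710165645) (nat_lit 152) (nat_lit 3611575635) (nat_lit 81) (nat_lit 5) (nat_lit 82) (nat_lit 5) (nat_lit 83) (nat_lit 4) (nat_lit 485) (nat_lit 382) (nat_lit 333)))) (XT.nd (nat_lit 156) (nat_lit 304) (nat_lit 0) (XT.nd (nat_lit 78) (nat_lit 0) (nat_lit 0) (XT.lf (nat_lit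 0) (nat_lit 964787075) (nat_lit 152) (nat_lit 889517028) (nat_lit 228) (nat_lit 14669899263) (nat_lit 78) (nat_lit 5) (nat_lit 80) (nat_lit 5) (nat_lit 81) (nat_lit 5) (nat_lit 486) (nat_lit 382) (nat_lit 332)) (XT.lf (nat_lit 0) (nat_lit 7506912506) (nat_lit 228) (nat_lit 4224813996) (nat_lit 76) (nat_lit 5098256727) (nat_lit 78) (nat_lit 5) (nat_lit 81) (nat_lit 5) (nat_lit 79) (nat_lit 4) (nat_lit 487) (nat_lit 382) (nat_lit 331))) (XT.nd (nat_lit 78) (nat_lit 228) (nat_lit 0) (XT.lf (nat_lit 0) (nat_lit 7480531623) (nat_lit 76) (nat_lit 5872000956) (nat_lit 152) (nat_lit 3791702637) (nat_lit 77) (nat_lit 5) (nat_lit 78) (nat_lit 5) (nat_lit 79) (nat_lit 4) (nat_lit 488) (nat_lit 382) (nat_lit 330)) (XT.lf (nat_lit 0) (nat_lit 1876138778) (nat_lit 228) (nat_lit 15396948627) (nat_lit 76) (nat_lit 194047929) (nat_lit 74) (nat_lit 5) (nat_lit 77) (nat_lit 5) (nat_lit 75) (nat_lit 4) (nat_lit 489) (nat_lit 382) (nat_lit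 329))))))) (XT.nd (nat_lit 1170) (nat_lit 1064) (nat_lit 0) (XT.nd (nat_lit 546) (nat_lit 684) (nat_lit 0) (XT.nd (nat_lit 234) (nat_lit 304) (nat_lit 0) (XT.nd (nat_lit 78) (nat_lit 304) (nat_lit 0) (XT.lf (nat_lit 0) (nat_lit 7737487535) (nat_lit 228) (nat_lit 3645989258) (nat_lit 76) (nat_lit 6412130552) (nat_lit 74) (nat_lit 5) (nat_lit 77) (nat_lit 5) (nat_lit 75) (nat_lit 4) (nat_lit 490) (nat_lit 382) (nat_lit 328)) (XT.nd (nat_lit 78) (nat_lit 228) (nat_lit 0) (XT.lf (nat_lit 0) (nat_lit 8520128065) (nat_lit 76) (nat_lit 5281102093) (nat_lit 152) (nat_lit 4331908295) (nat_lit 73) (nat_lit 5) (nat_lit 74) (nat_lit 5) (nat_lit 75) (nat_lit 4) (nat_lit 491) (nat_lit 382) (nat_lit 327)) (XT.lf (nat_lit 0) (nat_lit 1552173576) (nat_lit 228) (nat_lit 15912656718) (nat_lit 76) (nat_lit 1015015703) (nat_lit 70) (nat_lit 5) (nat_lit 73) (nat_lit 5) (nat_lit 71) (nat_lit 4) (nat_lit 492) (nat_lit 382) (nat_lit 326))))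 (XT.nd (nat_lit 156) (nat_lit 228) (nat_lit 0) (XT.nd (nat_lit 78) (nat_lit 76) (nat_lit 0) (XT.lf (nat_lit 0) (nat_lit 7620928304) (nat_lit 228) (nat_lit 3724206301) (nat_lit 76) (nat_lit 7487678341) (nat_lit 70) (nat_lit 5) (nat_lit 73) (nat_lit 5) (nat_lit 71) (nat_lit 4) (nat_lit 493) (nat_lit 382) (nat_lit 325)) (XT.lf (nat_lit 0) (nat_lit 8902771799) (nat_lit 76) (nat_lit 5001053403) (nat_lit 152) (nat_lit 5291582681) (nat_lit 69) (nat_lit 5) (nat_lit 70) (nat_lit 5) (nat_lit 71) (nat_lit 4) (nat_lit 494) (nat_lit 382) (nat_lit 324))) (XT.nd (nat_lit 78) (nat_lit 0) (nat_lit 0) (XT.lf (nat_lit 0) (nat_lit 812735498) (nat_lit 228) (nat_lit 17229358709) (nat_lit 76) (nat_lit 1525890979) (nat_lit 66) (nat_lit 5) (nat_lit 69) (nat_lit 5) (nat_lit 67) (nat_lit 4) (nat_lit 495) (nat_lit 382) (nat_lit 323)) (XT.lf (nat_lit 0) (nat_lit 7095024025) (nat_lit 228) (nat_lit 4592812915) (nat_lit 76) (nat_lit 8259296469)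 (nat_lit 66) (nat_lit 5) (nat_lit 69) (nat_lit 5) (nat_lit 67) (nat_lit 4) (nat_lit 496) (nat_lit 382) (nat_lit 322))))) (XT.nd (nat_lit 312) (nat_lit 304) (nat_lit 0) (XT.nd (nat_lit 156) (nat_lit 152) (nat_lit 0) (XT.nd (nat_lit 78) (nat_lit 152) (nat_lit 0) (XT.lf (nat_lit 0) (nat_lit 8490380270) (nat_lit 76) (nat_lit 5105284099) (nat_lit 152) (nat_lit 6741096429) (nat_lit 65) (nat_lit 5) (nat_lit 66) (nat_lit 5) (nat_lit 67) (nat_lit 4) (nat_lit 497) (nat_lit 382) (nat_lit 321)) (XT.lf (nat_lit 0) (nat_lit 1232771132) (nat_lit 152) (nat_lit 19081738150) (nat_lit 152) (nat_lit 422873348) (nat_lit 63) (nat_lit 4) (nat_lit 65) (nat_lit 5) (nat_lit 65) (nat_lit 4) (nat_lit 498) (nat_lit 382) (nat_lit 320))) (XT.nd (nat_lit 78) (nat_lit 76) (nat_lit 0) (XT.lf (nat_lit 0) (nat_lit 6085975381) (nat_lit 228) (nat_lit 6407843444) (nat_lit 76) (nat_lit 8650856133) (nat_lit 62) (nat_lit 5) (nat_lit 65) (nat_lit 5) (nat_lit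 63) (nat_lit 4) (nat_lit 499) (nat_lit 382) (nat_lit 319)) (XT.lf (nat_lit 0) (nat_lit 7121141563) (nat_lit 76) (nat_lit 5678862812) (nat_lit 152) (nat_lit 8763504730) (nat_lit 61) (nat_lit 5) (nat_lit 62) (nat_lit 5) (nat_lit 63) (nat_lit 4) (nat_lit 500) (nat_lit 382) (nat_lit 318)))) (XT.nd (nat_lit 156) (nat_lit 76) (nat_lit 0) (XT.nd (nat_lit 78) (nat_lit 228) (nat_lit 0) (XT.lf (nat_lit 0) (nat_lit 19743764979) (nat_lit 152) (nat_lit 914718554) (nat_lit 0) (nat_lit 1335576469) (nat_lit 61) (nat_lit 5) (nat_lit 63) (nat_lit 4) (nat_lit 61) (nat_lit 4) (nat_lit 501) (nat_lit 382) (nat_lit 317)) (XT.lf (nat_lit 0) (nat_lit 4506570006) (nat_lit 228) (nat_lit 9351817505) (nat_lit 76) (nat_lit 8573797521) (nat_lit 58) (nat_lit 5) (nat_lit 61) (nat_lit 5) (nat_lit 59) (nat_lit 4) (nat_lit 502) (nat_lit 382) (nat_lit 316))) (XT.nd (nat_lit 78) (nat_lit 0) (nat_lit 0) (XT.lf (nat_lit 0) (nat_lit 4605532854) (nat_lit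 76) (nat_lit 6820563184) (nat_lit 152) (nat_lit 11456534816) (nat_lit 57) (nat_lit 5) (nat_lit 58) (nat_lit 5) (nat_lit 59) (nat_lit 4) (nat_lit 503) (nat_lit 382) (nat_lit 315)) (XT.lf (nat_lit 0) (nat_lit 18604383125) (nat_lit 152) (nat_lit 4268453534) (nat_lit 0) (nat_lit 472219064) (nat_lit 57) (nat_lit 5) (nat_lit 59) (nat_lit 4) (nat_lit 57) (nat_lit 4) (nat_lit 504) (nat_lit 382) (nat_lit 314)))))) (XT.nd (nat_lit 624) (nat_lit 456) (nat_lit 0) (XT.nd (nat_lit 312) (nat_lit 304) (nat_lit 0) (XT.nd (nat_lit 156) (nat_lit 76) (nat_lit 0) (XT.nd (nat_lit 78) (nat_lit 76) (nat_lit 0) (XT.lf (nat_lit 0) (nat_lit 2254055372) (nat_lit 152) (nat_lit 13638142351) (nat_lit 76) (nat_lit 7924932856) (nat_lit 55) (nat_lit 5) (nat_lit 57) (nat_lit 5) (nat_lit 56) (nat_lit 4) (nat_lit 505) (nat_lit 382) (nat_lit 313)) (XT.lf (nat_lit 0) (nat_lit 721704967) (nat_lit 76) (nat_lit 8645246017) (nat_lit 152) (nat_lit 14934901169)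 (nat_lit 54) (nat_lit 5) (nat_lit 55) (nat_lit 5) (nat_lit 56) (nat_lit 4) (nat_lit 506) (nat_lit 382) (nat_lit 312))) (XT.nd (nat_lit 78) (nat_lit 76) (nat_lit 0) (XT.lf (nat_lit 0) (nat_lit 15702509720) (nat_lit 76) (nat_lit 1082089009) (nat_lit 152) (nat_lit 8013776515) (nat_lit 54) (nat_lit 5) (nat_lit 55) (nat_lit 5) (nat_lit 56) (nat_lit 4) (nat_lit 507) (nat_lit 382) (nat_lit 311)) (XT.lf (nat_lit 0) (nat_lit 5783570277) (nat_lit 76) (nat_lit 18715876946) (nat_lit 76) (nat_lit 808107467) (nat_lit 53) (nat_lit 4) (nat_lit 54) (nat_lit 5) (nat_lit 54) (nat_lit 4) (nat_lit 508) (nat_lit 382) (nat_lit 310)))) (XT.nd (nat_lit 156) (nat_lit 152) (nat_lit 0) (XT.nd (nat_lit 78) (nat_lit 76) (nat_lit 0) (XT.lf (nat_lit 0) (nat_lit 6542784283) (nat_lit 152) (nat_lit 4696401748) (nat_lit 76) (nat_lit 14589173678) (nat_lit 52) (nat_lit 5) (nat_lit 54) (nat_lit 5) (nat_lit 53) (nat_lit 4) (nat_lit 509) (nat_lit 382)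 (nat_lit 309)) (XT.lf (nat_lit 0) (nat_lit 10691397312) (nat_lit 76) (nat_lit 3465293613) (nat_lit 152) (nat_lit 12206096749) (nat_lit 51) (nat_lit 5) (nat_lit 52) (nat_lit 5) (nat_lit 53) (nat_lit 4) (nat_lit 510) (nat_lit 382) (nat_lit 308))) (XT.nd (nat_lit 78) (nat_lit 152) (nat_lit 0) (XT.lf (nat_lit 0) (nat_lit 22046604476) (nat_lit 152) (nat_lit 404169382) (nat_lit 0) (nat_lit 4461047640) (nat_lit 51) (nat_lit 5) (nat_lit 53) (nat_lit 4) (nat_lit 51) (nat_lit 4) (nat_lit 511) (nat_lit 382) (nat_lit 307)) (XT.lf (nat_lit 0) (nat_lit 2785360245) (nat_lit 152) (nat_lit 11993899982) (nat_lit 76) (nat_lit 12693027018) (nat_lit 49) (nat_lit 5) (nat_lit 51) (nat_lit 5) (nat_lit 50) (nat_lit 4) (nat_lit 512) (nat_lit 382) (nat_lit 306))))) (XT.nd (nat_lit 312) (nat_lit 228) (nat_lit 0) (XT.nd (nat_lit 156) (nat_lit 152) (nat_lit 0) (XT.nd (nat_lit 78) (nat_lit 0) (nat_lit 0) (XT.lf (nat_lit 0) (nat_lit 3738124860)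 (nat_lit 76) (nat_lit 6826952269) (nat_lit 152) (nat_lit 17483123124) (nat_lit 48) (nat_lit 5) (nat_lit 49) (nat_lit 5) (nat_lit 50) (nat_lit 4) (nat_lit 513) (nat_lit 382) (nat_lit 305)) (XT.lf (nat_lit 0) (nat_lit 18671034052) (nat_lit 152) (nat_lit 8547034094) (nat_lit 0) (nat_lit 1420537683) (nat_lit 48) (nat_lit 5) (nat_lit 50) (nat_lit 4) (nat_lit 48) (nat_lit 4) (nat_lit 514) (nat_lit 382) (nat_lit 304))) (XT.nd (nat_lit 78) (nat_lit 76) (nat_lit 0) (XT.lf (nat_lit 0) (nat_lit 7690856419) (nat_lit 76) (nat_lit 19429499775) (nat_lit 76) (nat_lit 2123362398) (nat_lit 47) (nat_lit 4) (nat_lit 48) (nat_lit 5) (nat_lit 48) (nat_lit 4) (nat_lit 515) (nat_lit 382) (nat_lit 303)) (XT.lf (nat_lit 0) (nat_lit 5885805383) (nat_lit 152) (nat_lit 5411972846) (nat_lit 76) (nat_lit 18566113703) (nat_lit 46) (nat_lit 5) (nat_lit 48) (nat_lit 5) (nat_lit 47) (nat_lit 4) (nat_lit 516) (nat_lit 382) (nat_lit 302)))) (XT.nd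 (nat_lit 156) (nat_lit 152) (nat_lit 0) (XT.nd (nat_lit 78) (nat_lit 0) (nat_lit 0) (XT.lf (nat_lit 0) (nat_lit 11335096777) (nat_lit 76) (nat_lit 2826332552) (nat_lit 152) (nat_lit 16338545246) (nat_lit 45) (nat_lit 5) (nat_lit 46) (nat_lit 5) (nat_lit 47) (nat_lit 4) (nat_lit 517) (nat_lit 382) (nat_lit 301)) (XT.lf (nat_lit 0) (nat_lit 22757179902) (nat_lit 152) (nat_lit 2593502533) (nat_lit 0) (nat_lit 5802302071) (nat_lit 45) (nat_lit 5) (nat_lit 47) (nat_lit 4) (nat_lit 45) (nat_lit 4) (nat_lit 518) (nat_lit 382) (nat_lit 300))) (XT.nd (nat_lit 78) (nat_lit 76) (nat_lit 0) (XT.lf (nat_lit 0) (nat_lit 14657049494) (nat_lit 76) (nat_lit 17083754991) (nat_lit 76) (nat_lit 80880737) (nat_lit 44) (nat_lit 4) (nat_lit 45) (nat_lit 5) (nat_lit 45) (nat_lit 4) (nat_lit 519) (nat_lit 382) (nat_lit 299)) (XT.lf (nat_lit 0) (nat_lit 8305549036) (nat_lit 152) (nat_lit 189208178) (nat_lit 76) (nat_lit 24013615741) (nat_lit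 43) (nat_lit 5) (nat_lit 45) (nat_lit 5) (nat_lit 44) (nat_lit 4) (nat_lit 520) (nat_lit 382) (nat_lit 298))))))))
noncomputable def xc58 : XT := (XT.nd (nat_lit 2340) (nat_lit 152) (nat_lit 0) (XT.nd (nat_lit 1170) (nat_lit 684) (nat_lit 0) (XT.nd (nat_lit 546) (nat_lit 380) (nat_lit 0) (XT.nd (nat_lit 234) (nat_lit 228) (nat_lit 0) (XT.nd (nat_lit 78) (nat_lit 152) (nat_lit 0) (XT.lf (nat_lit 0) (nat_lit 17077778085) (nat_lit 152) (nat_lit 15652816317) (nat_lit 0) (nat_lit 480968420) (nat_lit 42) (nat_lit 5) (nat_lit 44) (nat_lit 4) (nat_lit 42) (nat_lit 4) (nat_lit 521) (nat_lit 382) (nat_lit 297)) (XT.nd (nat_lit 78) (nat_lit 76) (nat_lit 0) (XT.lf (nat_lit 0) (nat_lit 1784055379) (nat_lit 76) (nat_lit 24394640838) (nat_lit 76) (nat_lit 7755186973) (nat_lit 41) (nat_lit 4) (nat_lit 42) (nat_lit 5) (nat_lit 42) (nat_lit 4) (nat_lit 522) (nat_lit 382) (nat_lit 296)) (XT.lf (nat_lit 0) (nat_lit 979687801) (nat_lit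 152) (nat_lit 14692089763) (nat_lit 76) (nat_lit 19002184116) (nat_lit 40) (nat_lit 5) (nat_lit 42) (nat_lit 5) (nat_lit 41) (nat_lit 4) (nat_lit 523) (nat_lit 382) (nat_lit 295)))) (XT.nd (nat_lit 156) (nat_lit 152) (nat_lit 0) (XT.nd (nat_lit 78) (nat_lit 0) (nat_lit 0) (XT.lf (nat_lit 0) (nat_lit 3203372428) (nat_lit 76) (nat_lit 6611615097) (nat_lit 152) (nat_lit 25619124402) (nat_lit 39) (nat_lit 5) (nat_lit 40) (nat_lit 5) (nat_lit 41) (nat_lit 4) (nat_lit 524) (nat_lit 382) (nat_lit 294)) (XT.lf (nat_lit 0) (nat_lit 19054830042) (nat_lit 152) (nat_lit 14375142634) (nat_lit 0) (nat_lit 2782909912) (nat_lit 39) (nat_lit 5) (nat_lit 41) (nat_lit 4) (nat_lit 39) (nat_lit 4) (nat_lit 525) (nat_lit 382) (nat_lit 293))) (XT.nd (nat_lit 78) (nat_lit 76) (nat_lit 0) (XT.lf (nat_lit 0) (nat_lit 3958210122) (nat_lit 76) (nat_lit 24681734865) (nat_lit 76) (nat_lit 8373029473) (nat_lit 38) (nat_lit 4) (nat_lit 39) (nat_lit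 5) (nat_lit 39) (nat_lit 4) (nat_lit 526) (nat_lit 382) (nat_lit 292)) (XT.lf (nat_lit 0) (nat_lit 773548002) (nat_lit 152) (nat_lit 14774116792) (nat_lit 76) (nat_lit 22285874284) (nat_lit 37) (nat_lit 5) (nat_lit 39) (nat_lit 5) (nat_lit 38) (nat_lit 4) (nat_lit 527) (nat_lit 382) (nat_lit 291))))) (XT.nd (nat_lit 312) (nat_lit 228) (nat_lit 0) (XT.nd (nat_lit 156) (nat_lit 76) (nat_lit 0) (XT.nd (nat_lit 78) (nat_lit 0) (nat_lit 0) (XT.lf (nat_lit 0) (nat_lit 3982072566) (nat_lit 76) (nat_lit 6048058192) (nat_lit 152) (nat_lit 28645986285) (nat_lit 36) (nat_lit 5) (nat_lit 37) (nat_lit 5) (nat_lit 38) (nat_lit 4) (nat_lit 528) (nat_lit 382) (nat_lit 290)) (XT.lf (nat_lit 0) (nat_lit 19716655056) (nat_lit 152) (nat_lit 16040810421) (nat_lit 0) (nat_lit 3781939910) (nat_lit 36) (nat_lit 5) (nat_lit 38) (nat_lit 4) (nat_lit 36) (nat_lit 4) (nat_lit 529) (nat_lit 382) (nat_lit 289))) (XT.nd (nat_lit 78) (nat_lit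 0) (nat_lit 0) (XT.lf (nat_lit 0) (nat_lit 3107019216) (nat_lit 76) (nat_lit 26643163856) (nat_lit 76) (nat_lit 10676717420) (nat_lit 35) (nat_lit 4) (nat_lit 36) (nat_lit 5) (nat_lit 36) (nat_lit 4) (nat_lit 530) (nat_lit 382) (nat_lit 288)) (XT.lf (nat_lit 0) (nat_lit 23093000412) (nat_lit 76) (nat_lit 17120702161) (nat_lit 76) (nat_lit 1123448648) (nat_lit 35) (nat_lit 4) (nat_lit 36) (nat_lit 5) (nat_lit 36) (nat_lit 4) (nat_lit 531) (nat_lit 382) (nat_lit 287)))) (XT.nd (nat_lit 156) (nat_lit 76) (nat_lit 0) (XT.nd (nat_lit 78) (nat_lit 0) (nat_lit 0) (XT.lf (nat_lit 0) (nat_lit 1281212949) (nat_lit 76) (nat_lit 7245080767) (nat_lit 152) (nat_lit 33746503524) (nat_lit 33) (nat_lit 5) (nat_lit 34) (nat_lit 5) (nat_lit 35) (nat_lit 4) (nat_lit 532) (nat_lit 382) (nat_lit 286)) (XT.lf (nat_lit 0) (nat_lit 18624819591) (nat_lit 152) (nat_lit 21569629484) (nat_lit 0) (nat_lit 3036274035) (nat_lit 33) (nat_lit 5)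 (nat_lit 35) (nat_lit 4) (nat_lit 33) (nat_lit 4) (nat_lit 533) (nat_lit 382) (nat_lit 285))) (XT.nd (nat_lit 78) (nat_lit 76) (nat_lit 0) (XT.lf (nat_lit 0) (nat_lit 29066658937) (nat_lit 152) (nat_lit 1698775699) (nat_lit 0) (nat_lit 13450741693) (nat_lit 33) (nat_lit 5) (nat_lit 35) (nat_lit 4) (nat_lit 33) (nat_lit 4) (nat_lit 534) (nat_lit 382) (nat_lit 284)) (XT.lf (nat_lit 0) (nat_lit 19080309660) (nat_lit 76) (nat_lit 20894393494) (nat_lit 76) (nat_lit 5251901794) (nat_lit 32) (nat_lit 4) (nat_lit 33) (nat_lit 5) (nat_lit 33) (nat_lit 4) (nat_lit 535) (nat_lit 382) (nat_lit 283)))))) (XT.nd (nat_lit 546) (nat_lit 304) (nat_lit 0) (XT.nd (nat_lit 234) (nat_lit 228) (nat_lit 0) (XT.nd (nat_lit 78) (nat_lit 76) (nat_lit 0) (XT.lf (nat_lit 0) (nat_lit 4833071022) (nat_lit 152) (nat_lit 5857157966) (nat_lit 76) (nat_lit 35576086037) (nat_lit 31) (nat_lit 5) (nat_lit 33) (nat_lit 5) (nat_lit 32) (nat_lit 4) (nat_lit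 536) (nat_lit 382) (nat_lit 282)) (XT.nd (nat_lit 78) (nat_lit 0) (nat_lit 0) (XT.lf (nat_lit 0) (nat_lit 15227313162) (nat_lit 76) (nat_lit 4536235) (nat_lit 152) (nat_lit 32100302874) (nat_lit 30) (nat_lit 5) (nat_lit 31) (nat_lit 5) (nat_lit 32) (nat_lit 4) (nat_lit 537) (nat_lit 382) (nat_lit 281)) (XT.lf (nat_lit 0) (nat_lit 26078546922) (nat_lit 152) (nat_lit 11528656949) (nat_lit 0) (nat_lit 10818682352) (nat_lit 30) (nat_lit 5) (nat_lit 32) (nat_lit 4) (nat_lit 30) (nat_lit 4) (nat_lit 538) (nat_lit 382) (nat_lit 280)))) (XT.nd (nat_lit 156) (nat_lit 152) (nat_lit 0) (XT.nd (nat_lit 78) (nat_lit 0) (nat_lit 0) (XT.lf (nat_lit 0) (nat_lit 9799177008) (nat_lit 76) (nat_lit 27517038136) (nat_lit 76) (nat_lit 12234250207) (nat_lit 29) (nat_lit 4) (nat_lit 30) (nat_lit 5) (nat_lit 30) (nat_lit 4) (nat_lit 539) (nat_lit 382) (nat_lit 279)) (XT.lf (nat_lit 0) (nat_lit 31946923079) (nat_lit 76) (nat_lit 17032130715)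 (nat_lit 76) (nat_lit 1727087098) (nat_lit 29) (nat_lit 4) (nat_lit 30) (nat_lit 5) (nat_lit 30) (nat_lit 4) (nat_lit 540) (nat_lit 382) (nat_lit 278))) (XT.nd (nat_lit 78) (nat_lit 0) (nat_lit 0) (XT.lf (nat_lit 0) (nat_lit 2774154365) (nat_lit 76) (nat_lit 6142498564) (nat_lit 152) (nat_lit 42977245797) (nat_lit 27) (nat_lit 5) (nat_lit 28) (nat_lit 5) (nat_lit 29) (nat_lit 4) (nat_lit 541) (nat_lit 382) (nat_lit 277)) (XT.lf (nat_lit 0) (nat_lit 20057273948) (nat_lit 152) (nat_lit 27896471058) (nat_lit 0) (nat_lit 5156663072) (nat_lit 27) (nat_lit 5) (nat_lit 29) (nat_lit 4) (nat_lit 27) (nat_lit 4) (nat_lit 542) (nat_lit 382) (nat_lit 276))))) (XT.nd (nat_lit 312) (nat_lit 76) (nat_lit 0) (XT.nd (nat_lit 156) (nat_lit 152) (nat_lit 0) (XT.nd (nat_lit 78) (nat_lit 76) (nat_lit 0) (XT.lf (nat_lit 0) (nat_lit 31565942037) (nat_lit 152) (nat_lit 6150898769) (nat_lit 0) (nat_lit 16645557271) (nat_lit 27) (nat_lit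 5) (nat_lit 29) (nat_lit 4) (nat_lit 27) (nat_lit 4) (nat_lit 543) (nat_lit 382) (nat_lit 275)) (XT.lf (nat_lit 0) (nat_lit 16517331576) (nat_lit 76) (nat_lit 27035110980) (nat_lit 76) (nat_lit 12095528261) (nat_lit 26) (nat_lit 4) (nat_lit 27) (nat_lit 5) (nat_lit 27) (nat_lit 4) (nat_lit 544) (nat_lit 382) (nat_lit 274))) (XT.nd (nat_lit 78) (nat_lit 152) (nat_lit 0) (XT.lf (nat_lit 0) (nat_lit 39940184499) (nat_lit 76) (nat_lit 15994531310) (nat_lit 76) (nat_lit 1036309803) (nat_lit 26) (nat_lit 4) (nat_lit 27) (nat_lit 5) (nat_lit 27) (nat_lit 4) (nat_lit 545) (nat_lit 382) (nat_lit 273)) (XT.lf (nat_lit 0) (nat_lit 5692988443) (nat_lit 76) (nat_lit 4488935626) (nat_lit 152) (nat_lit 48147983229) (nat_lit 24) (nat_lit 5) (nat_lit 25) (nat_lit 5) (nat_lit 26) (nat_lit 4) (nat_lit 546) (nat_lit 382) (nat_lit 272)))) (XT.nd (nat_lit 156) (nat_lit 76) (nat_lit 0) (XT.nd (nat_lit 78) (nat_lit 0) (nat_lit 0) (XT.lf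 (nat_lit 0) (nat_lit 21934915863) (nat_lit 152) (nat_lit 30410016021) (nat_lit 0) (nat_lit 7377744733) (nat_lit 24) (nat_lit 5) (nat_lit 26) (nat_lit 4) (nat_lit 24) (nat_lit 4) (nat_lit 547) (nat_lit 382) (nat_lit 271)) (XT.lf (nat_lit 0) (nat_lit 34060274800) (nat_lit 152) (nat_lit 7609817728) (nat_lit 0) (nat_lit 19486543348) (nat_lit 24) (nat_lit 5) (nat_lit 26) (nat_lit 4) (nat_lit 24) (nat_lit 4) (nat_lit 548) (nat_lit 382) (nat_lit 270))) (XT.nd (nat_lit 78) (nat_lit 0) (nat_lit 0) (XT.lf (nat_lit 0) (nat_lit 16141732255) (nat_lit 76) (nat_lit 30538877409) (nat_lit 76) (nat_lit 15949067974) (nat_lit 23) (nat_lit 4) (nat_lit 24) (nat_lit 5) (nat_lit 24) (nat_lit 4) (nat_lit 549) (nat_lit 382) (nat_lit 269)) (XT.lf (nat_lit 0) (nat_lit 40714651985) (nat_lit 76) (nat_lit 19018041893) (nat_lit 76) (nat_lit 4412622766) (nat_lit 23) (nat_lit 4) (nat_lit 24) (nat_lit 5) (nat_lit 24) (nat_lit 4) (nat_lit 550) (nat_lit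 382) (nat_lit 268))))))) (XT.nd (nat_lit 54366) (nat_lit 0) (nat_lit 7980) (XT.nd (nat_lit 53742) (nat_lit 0) (nat_lit 12160) (XT.nd (nat_lit 53430) (nat_lit 0) (nat_lit 15200) (XT.nd (nat_lit 78) (nat_lit 0) (nat_lit 0) (XT.lf (nat_lit 0) (nat_lit 204255450) (nat_lit 76) (nat_lit 7098616282) (nat_lit 152) (nat_lit 58402037463) (nat_lit 21) (nat_lit 5) (nat_lit 22) (nat_lit 5) (nat_lit 23) (nat_lit 4) (nat_lit 551) (nat_lit 382) (nat_lit 267)) (XT.nd (nat_lit 53274) (nat_lit 0) (nat_lit 16796) (XT.lf (nat_lit 0) (nat_lit 19546640930) (nat_lit 152) (nat_lit 42417749446) (nat_lit 0) (nat_lit 5337623649) (nat_lit 21) (nat_lit 5) (nat_lit 23) (nat_lit 4) (nat_lit 21) (nat_lit 4) (nat_lit 552) (nat_lit 382) (nat_lit 266)) (XT.lf (nat_lit 0) (nat_lit 1150731578) (nat_lit 608) (nat_lit 1539235685) (nat_lit 0) (nat_lit 1150731578) (nat_lit 242) (nat_lit 5) (nat_lit 250) (nat_lit 4) (nat_lit 242) (nat_lit 4) (nat_lit 434)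 (nat_lit 383) (nat_lit 383)))) (XT.nd (nat_lit 156) (nat_lit 532) (nat_lit 0) (XT.nd (nat_lit 78) (nat_lit 532) (nat_lit 0) (XT.lf (nat_lit 0) (nat_lit 3138510961) (nat_lit 532) (nat_lit 2986350328) (nat_lit 532) (nat_lit 1631737255) (nat_lit 235) (nat_lit 4) (nat_lit 242) (nat_lit 5) (nat_lit 242) (nat_lit 4) (nat_lit 435) (nat_lit 383) (nat_lit 382)) (XT.lf (nat_lit 0) (nat_lit 1657438201) (nat_lit 456) (nat_lit 474192142) (nat_lit 532) (nat_lit 5703409894) (nat_lit 228) (nat_lit 5) (nat_lit 234) (nat_lit 5) (nat_lit 235) (nat_lit 4) (nat_lit 436) (nat_lit 383) (nat_lit 381))) (XT.nd (nat_lit 78) (nat_lit 76) (nat_lit 0) (XT.lf (nat_lit 0) (nat_lit 140583320) (nat_lit 456) (nat_lit 5803689852) (nat_lit 456) (nat_lit 1972015931) (nat_lit 222) (nat_lit 4) (nat_lit 228) (nat_lit 5) (nat_lit 228) (nat_lit 4) (nat_lit 437) (nat_lit 383) (nat_lit 380)) (XT.lf (nat_lit 0) (nat_lit 1803619617) (nat_lit 532) (nat_lit 1373882267)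 (nat_lit 76) (nat_lit 4822882349) (nat_lit 221) (nat_lit 5) (nat_lit 228) (nat_lit 5) (nat_lit 222) (nat_lit 4) (nat_lit 438) (nat_lit 383) (nat_lit 379))))) (XT.nd (nat_lit 312) (nat_lit 1140) (nat_lit 0) (XT.nd (nat_lit 156) (nat_lit 912) (nat_lit 0) (XT.nd (nat_lit 78) (nat_lit 532) (nat_lit 0) (XT.lf (nat_lit 0) (nat_lit 5177793471) (nat_lit 456) (nat_lit 428868942) (nat_lit 532) (nat_lit 2481153395) (nat_lit 215) (nat_lit 5) (nat_lit 221) (nat_lit 5) (nat_lit 222) (nat_lit 4) (nat_lit 439) (nat_lit 383) (nat_lit 378)) (XT.lf (nat_lit 0) (nat_lit 1297457885) (nat_lit 532) (nat_lit 4490624911) (nat_lit 76) (nat_lit 2390077357) (nat_lit 208) (nat_lit 5) (nat_lit 215) (nat_lit 5) (nat_lit 209) (nat_lit 4) (nat_lit 440) (nat_lit 383) (nat_lit 377))) (XT.nd (nat_lit 78) (nat_lit 532) (nat_lit 0) (XT.lf (nat_lit 0) (nat_lit 2159646613) (nat_lit 380) (nat_lit 2940577574) (nat_lit 456) (nat_lit 3171445188) (nat_lit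 203) (nat_lit 5) (nat_lit 208) (nat_lit 5) (nat_lit 209) (nat_lit 4) (nat_lit 441) (nat_lit 383) (nat_lit 376)) (XT.lf (nat_lit 0) (nat_lit 594900151) (nat_lit 532) (nat_lit 7755465907) (nat_lit 76) (nat_lit 18687157) (nat_lit 196) (nat_lit 5) (nat_lit 203) (nat_lit 5) (nat_lit 197) (nat_lit 4) (nat_lit 442) (nat_lit 383) (nat_lit 375)))) (XT.nd (nat_lit 156) (nat_lit 760) (nat_lit 0) (XT.nd (nat_lit 78) (nat_lit 380) (nat_lit 0) (XT.lf (nat_lit 0) (nat_lit 4409734095) (nat_lit 532) (nat_lit 989954308) (nat_lit 76) (nat_lit 3068761431) (nat_lit 196) (nat_lit 5) (nat_lit 203) (nat_lit 5) (nat_lit 197) (nat_lit 4) (nat_lit 443) (nat_lit 383) (nat_lit 374)) (XT.lf (nat_lit 0) (nat_lit 5971180404) (nat_lit 380) (nat_lit 2335712837) (nat_lit 456) (nat_lit 264908908) (nat_lit 191) (nat_lit 5) (nat_lit 196) (nat_lit 5) (nat_lit 197) (nat_lit 4) (nat_lit 444) (nat_lit 383) (nat_lit 373))) (XT.nd (nat_lit 78) (nat_lit 304)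 (nat_lit 0) (XT.lf (nat_lit 0) (nat_lit 3543554550) (nat_lit 456) (nat_lit 4276718694) (nat_lit 76) (nat_lit 857783181) (nat_lit 185) (nat_lit 5) (nat_lit 191) (nat_lit 5) (nat_lit 186) (nat_lit 4) (nat_lit 445) (nat_lit 383) (nat_lit 372)) (XT.lf (nat_lit 0) (nat_lit 2782747105) (nat_lit 304) (nat_lit 4666689408) (nat_lit 380) (nat_lit 1338337799) (nat_lit 181) (nat_lit 5) (nat_lit 185) (nat_lit 5) (nat_lit 186) (nat_lit 4) (nat_lit 446) (nat_lit 383) (nat_lit 371)))))) (XT.nd (nat_lit 624) (nat_lit 1976) (nat_lit 0) (XT.nd (nat_lit 312) (nat_lit 1064) (nat_lit 0) (XT.nd (nat_lit 156) (nat_lit 684) (nat_lit 0) (XT.nd (nat_lit 78) (nat_lit 0) (nat_lit 0) (XT.lf (nat_lit 0) (nat_lit 1112722814) (nat_lit 380) (nat_lit 1375707857) (nat_lit 456) (nat_lit 6412613155) (nat_lit 175) (nat_lit 5) (nat_lit 180) (nat_lit 5) (nat_lit 181) (nat_lit 5) (nat_lit 447) (nat_lit 383) (nat_lit 370)) (XT.lf (nat_lit 0) (nat_lit 6397268860)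 (nat_lit 456) (nat_lit 609002744) (nat_lit 76) (nat_lit 2011225863) (nat_lit 175) (nat_lit 5) (nat_lit 181) (nat_lit 5) (nat_lit 176) (nat_lit 4) (nat_lit 448) (nat_lit 383) (nat_lit 369))) (XT.nd (nat_lit 78) (nat_lit 304) (nat_lit 0) (XT.lf (nat_lit 0) (nat_lit 1255664748) (nat_lit 380) (nat_lit 2368821817) (nat_lit 76) (nat_lit 5512750463) (nat_lit 170) (nat_lit 5) (nat_lit 175) (nat_lit 5) (nat_lit 171) (nat_lit 5) (nat_lit 449) (nat_lit 383) (nat_lit 368)) (XT.lf (nat_lit 0) (nat_lit 5068391161) (nat_lit 304) (nat_lit 98239367) (nat_lit 380) (nat_lit 4094023994) (nat_lit 166) (nat_lit 5) (nat_lit 170) (nat_lit 5) (nat_lit 171) (nat_lit 5) (nat_lit 450) (nat_lit 383) (nat_lit 367)))) (XT.nd (nat_lit 156) (nat_lit 380) (nat_lit 0) (XT.nd (nat_lit 78) (nat_lit 380) (nat_lit 0) (XT.lf (nat_lit 0) (nat_lit 3295690962) (nat_lit 304) (nat_lit 5906434831) (nat_lit 380) (nat_lit 185440324) (nat_lit 162) (nat_lit 5)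 (nat_lit 166) (nat_lit 5) (nat_lit 167) (nat_lit 4) (nat_lit 451) (nat_lit 383) (nat_lit 366)) (XT.lf (nat_lit 0) (nat_lit 1441978971) (nat_lit 304) (nat_lit 2298869120) (nat_lit 380) (nat_lit 5777075018) (nat_lit 157) (nat_lit 5) (nat_lit 161) (nat_lit 5) (nat_lit 162) (nat_lit 5) (nat_lit 452) (nat_lit 383) (nat_lit 365))) (XT.nd (nat_lit 78) (nat_lit 380) (nat_lit 0) (XT.lf (nat_lit 0) (nat_lit 7775536099) (nat_lit 380) (nat_lit 465540878) (nat_lit 76) (nat_lit 1411235558) (nat_lit 157) (nat_lit 5) (nat_lit 162) (nat_lit 5) (nat_lit 158) (nat_lit 4) (nat_lit 453) (nat_lit 383) (nat_lit 364)) (XT.lf (nat_lit 0) (nat_lit 2113489271) (nat_lit 380) (nat_lit 2438944545) (nat_lit 76) (nat_lit 5237247264) (nat_lit 152) (nat_lit 5) (nat_lit 157) (nat_lit 5) (nat_lit 153) (nat_lit 5) (nat_lit 454) (nat_lit 383) (nat_lit 363))))) (XT.nd (nat_lit 312) (nat_lit 1064) (nat_lit 0) (XT.nd (nat_lit 156) (nat_lit 304) (nat_lit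 0) (XT.nd (nat_lit 78) (nat_lit 304) (nat_lit 0) (XT.lf (nat_lit 0) (nat_lit 5445075529) (nat_lit 304) (nat_lit 719080146) (nat_lit 380) (nat_lit 3767111485) (nat_lit 148) (nat_lit 5) (nat_lit 152) (nat_lit 5) (nat_lit 153) (nat_lit 5) (nat_lit 455) (nat_lit 383) (nat_lit 362)) (XT.lf (nat_lit 0) (nat_lit 265412832) (nat_lit 304) (nat_lit 6627323394) (nat_lit 76) (nat_lit 3183958921) (nat_lit 144) (nat_lit 5) (nat_lit 148) (nat_lit 5) (nat_lit 145) (nat_lit 5) (nat_lit 456) (nat_lit 383) (nat_lit 361))) (XT.nd (nat_lit 78) (nat_lit 0) (nat_lit 0) (XT.lf (nat_lit 0) (nat_lit 1347651806) (nat_lit 304) (nat_lit 2983729630) (nat_lit 380) (nat_lit 5894345899) (nat_lit 140) (nat_lit 5) (nat_lit 144) (nat_lit 5) (nat_lit 145) (nat_lit 5) (nat_lit 457) (nat_lit 383) (nat_lit 360)) (XT.lf (nat_lit 0) (nat_lit 8519939725) (nat_lit 380) (nat_lit 814443881) (nat_lit 76) (nat_lit 1044834214) (nat_lit 140) (nat_lit 5) (nat_lit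 145) (nat_lit 5) (nat_lit 141) (nat_lit 4) (nat_lit 458) (nat_lit 383) (nat_lit 359)))) (XT.nd (nat_lit 156) (nat_lit 532) (nat_lit 0) (XT.nd (nat_lit 78) (nat_lit 228) (nat_lit 0) (XT.lf (nat_lit 0) (nat_lit 2279039260) (nat_lit 304) (nat_lit 3071853359) (nat_lit 76) (nat_lit 5184952850) (nat_lit 136) (nat_lit 5) (nat_lit 140) (nat_lit 5) (nat_lit 137) (nat_lit 5) (nat_lit 459) (nat_lit 383) (nat_lit 358)) (XT.lf (nat_lit 0) (nat_lit 5274024754) (nat_lit 228) (nat_lit 1214654430) (nat_lit 304) (nat_lit 4208409393) (nat_lit 133) (nat_lit 5) (nat_lit 136) (nat_lit 5) (nat_lit 137) (nat_lit 5) (nat_lit 460) (nat_lit 383) (nat_lit 357))) (XT.nd (nat_lit 78) (nat_lit 304) (nat_lit 0) (XT.lf (nat_lit 0) (nat_lit 2978009701) (nat_lit 228) (nat_lit 7861940752) (nat_lit 304) (nat_lit 22763280) (nat_lit 130) (nat_lit 5) (nat_lit 133) (nat_lit 5) (nat_lit 134) (nat_lit 4) (nat_lit 461) (nat_lit 383) (nat_lit 356)) (XT.lf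 (nat_lit 0) (nat_lit 545667112) (nat_lit 228) (nat_lit 3658058889) (nat_lit 304) (nat_lit 6828380968) (nat_lit 126) (nat_lit 5) (nat_lit 129) (nat_lit 5) (nat_lit 130) (nat_lit 5) (nat_lit 462) (nat_lit 383) (nat_lit 355))))))))
noncomputable def xc59 : XT := (XT.nd (nat_lit 2340) (nat_lit 2432) (nat_lit 0) (XT.nd (nat_lit 1170) (nat_lit 1672) (nat_lit 0) (XT.nd (nat_lit 546) (nat_lit 1140) (nat_lit 0) (XT.nd (nat_lit 234) (nat_lit 684) (nat_lit 0) (XT.nd (nat_lit 78) (nat_lit 532) (nat_lit 0) (XT.lf (nat_lit 0) (nat_lit 8570324398) (nat_lit 304) (nat_lit 1943423589) (nat_lit 76) (nat_lit 692418689) (nat_lit 126) (nat_lit 5) (nat_lit 130) (nat_lit 5) (nat_lit 127) (nat_lit 4) (nat_lit 463) (nat_lit 383) (nat_lit 354)) (XT.nd (nat_lit 78) (nat_lit 228) (nat_lit 0) (XT.lf (nat_lit 0) (nat_lit 1680890422) (nat_lit 304) (nat_lit 4566750207) (nat_lit 76) (nat_lit 5136389219) (nat_lit 122) (nat_lit 5) (nat_lit 126) (nat_lit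 5) (nat_lit 123) (nat_lit 5) (nat_lit 464) (nat_lit 383) (nat_lit 353)) (XT.lf (nat_lit 0) (nat_lit 4251655729) (nat_lit 228) (nat_lit 1812452487) (nat_lit 304) (nat_lit 5502643150) (nat_lit 119) (nat_lit 5) (nat_lit 122) (nat_lit 5) (nat_lit 123) (nat_lit 5) (nat_lit 465) (nat_lit 383) (nat_lit 352)))) (XT.nd (nat_lit 156) (nat_lit 456) (nat_lit 0) (XT.nd (nat_lit 78) (nat_lit 76) (nat_lit 0) (XT.lf (nat_lit 0) (nat_lit 1558635284) (nat_lit 152) (nat_lit 9037969569) (nat_lit 228) (nat_lit 1157820289) (nat_lit 117) (nat_lit 5) (nat_lit 119) (nat_lit 5) (nat_lit 120) (nat_lit 4) (nat_lit 466) (nat_lit 383) (nat_lit 351)) (XT.lf (nat_lit 0) (nat_lit 3275114604) (nat_lit 228) (nat_lit 1267262912) (nat_lit 76) (nat_lit 7403723789) (nat_lit 116) (nat_lit 5) (nat_lit 119) (nat_lit 5) (nat_lit 117) (nat_lit 5) (nat_lit 467) (nat_lit 383) (nat_lit 350))) (XT.nd (nat_lit 78) (nat_lit 228) (nat_lit 0) (XT.lf (nat_lit 0) (nat_lit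 7827501285) (nat_lit 304) (nat_lit 4187495656) (nat_lit 76) (nat_lit 127898596) (nat_lit 113) (nat_lit 5) (nat_lit 117) (nat_lit 5) (nat_lit 114) (nat_lit 4) (nat_lit 468) (nat_lit 383) (nat_lit 349)) (XT.lf (nat_lit 0) (nat_lit 206984686) (nat_lit 228) (nat_lit 7273702523) (nat_lit 76) (nat_lit 4863677047) (nat_lit 110) (nat_lit 5) (nat_lit 113) (nat_lit 5) (nat_lit 111) (nat_lit 5) (nat_lit 469) (nat_lit 383) (nat_lit 348))))) (XT.nd (nat_lit 312) (nat_lit 532) (nat_lit 0) (XT.nd (nat_lit 156) (nat_lit 380) (nat_lit 0) (XT.nd (nat_lit 78) (nat_lit 0) (nat_lit 0) (XT.lf (nat_lit 0) (nat_lit 2021244631) (nat_lit 228) (nat_lit 2751792678) (nat_lit 304) (nat_lit 7777719219) (nat_lit 107) (nat_lit 5) (nat_lit 110) (nat_lit 5) (nat_lit 111) (nat_lit 5) (nat_lit 470) (nat_lit 383) (nat_lit 347)) (XT.lf (nat_lit 0) (nat_lit 9503599851) (nat_lit 304) (nat_lit 1155317471) (nat_lit 76) (nat_lit 2103600716) (nat_lit 107)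 (nat_lit 5) (nat_lit 111) (nat_lit 5) (nat_lit 108) (nat_lit 4) (nat_lit 471) (nat_lit 383) (nat_lit 346))) (XT.nd (nat_lit 78) (nat_lit 152) (nat_lit 0) (XT.lf (nat_lit 0) (nat_lit 1412781467) (nat_lit 228) (nat_lit 4467757720) (nat_lit 76) (nat_lit 7098356973) (nat_lit 104) (nat_lit 5) (nat_lit 107) (nat_lit 5) (nat_lit 105) (nat_lit 5) (nat_lit 472) (nat_lit 383) (nat_lit 345)) (XT.lf (nat_lit 0) (nat_lit 5245845972) (nat_lit 152) (nat_lit 910600026) (nat_lit 228) (nat_lit 7044435223) (nat_lit 102) (nat_lit 5) (nat_lit 104) (nat_lit 5) (nat_lit 105) (nat_lit 5) (nat_lit 473) (nat_lit 383) (nat_lit 344)))) (XT.nd (nat_lit 156) (nat_lit 304) (nat_lit 0) (XT.nd (nat_lit 78) (nat_lit 76) (nat_lit 0) (XT.lf (nat_lit 0) (nat_lit 1794045919) (nat_lit 152) (nat_lit 9287079153) (nat_lit 228) (nat_lit 2347242570) (nat_lit 100) (nat_lit 5) (nat_lit 102) (nat_lit 5) (nat_lit 103) (nat_lit 4) (nat_lit 474) (nat_lit 383) (nat_lit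 343)) (XT.lf (nat_lit 0) (nat_lit 2468002243) (nat_lit 228) (nat_lit 1809848949) (nat_lit 76) (nat_lit 9383339668) (nat_lit 99) (nat_lit 5) (nat_lit 102) (nat_lit 5) (nat_lit 100) (nat_lit 5) (nat_lit 475) (nat_lit 383) (nat_lit 342))) (XT.nd (nat_lit 78) (nat_lit 152) (nat_lit 0) (XT.lf (nat_lit 0) (nat_lit 7407181295) (nat_lit 228) (nat_lit 5571151428) (nat_lit 76) (nat_lit 921171924) (nat_lit 97) (nat_lit 5) (nat_lit 100) (nat_lit 5) (nat_lit 98) (nat_lit 4) (nat_lit 476) (nat_lit 383) (nat_lit 341)) (XT.lf (nat_lit 0) (nat_lit 4599130031) (nat_lit 152) (nat_lit 7938202206) (nat_lit 228) (nat_lit 1606354335) (nat_lit 95) (nat_lit 5) (nat_lit 97) (nat_lit 5) (nat_lit 98) (nat_lit 4) (nat_lit 477) (nat_lit 383) (nat_lit 340)))))) (XT.nd (nat_lit 546) (nat_lit 684) (nat_lit 0) (XT.nd (nat_lit 234) (nat_lit 608) (nat_lit 0) (XT.nd (nat_lit 78) (nat_lit 152) (nat_lit 0) (XT.lf (nat_lit 0) (nat_lit 663056827) (nat_lit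 152) (nat_lit 2697383296) (nat_lit 228) (nat_lit 11033735149) (nat_lit 92) (nat_lit 5) (nat_lit 94) (nat_lit 5) (nat_lit 95) (nat_lit 5) (nat_lit 478) (nat_lit 383) (nat_lit 339)) (XT.nd (nat_lit 78) (nat_lit 152) (nat_lit 0) (XT.lf (nat_lit 0) (nat_lit 8505436873) (nat_lit 228) (nat_lit 3431436366) (nat_lit 76) (nat_lit 2712986116) (nat_lit 92) (nat_lit 5) (nat_lit 95) (nat_lit 5) (nat_lit 93) (nat_lit 4) (nat_lit 479) (nat_lit 383) (nat_lit 338)) (XT.lf (nat_lit 0) (nat_lit 7182053197) (nat_lit 152) (nat_lit 6658464329) (nat_lit 228) (nat_lit 1071626745) (nat_lit 90) (nat_lit 5) (nat_lit 92) (nat_lit 5) (nat_lit 93) (nat_lit 4) (nat_lit 480) (nat_lit 383) (nat_lit 337)))) (XT.nd (nat_lit 156) (nat_lit 380) (nat_lit 0) (XT.nd (nat_lit 78) (nat_lit 0) (nat_lit 0) (XT.lf (nat_lit 0) (nat_lit 2910810013) (nat_lit 152) (nat_lit 1164583922) (nat_lit 228) (nat_lit 11105615617) (nat_lit 87) (nat_lit 5) (nat_lit 89) (nat_lit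 5) (nat_lit 90) (nat_lit 5) (nat_lit 481) (nat_lit 383) (nat_lit 336)) (XT.lf (nat_lit 0) (nat_lit 9417674797) (nat_lit 228) (nat_lit 1589782780) (nat_lit 76) (nat_lit 4448295394) (nat_lit 87) (nat_lit 5) (nat_lit 90) (nat_lit 5) (nat_lit 88) (nat_lit 4) (nat_lit 482) (nat_lit 383) (nat_lit 335))) (XT.nd (nat_lit 78) (nat_lit 228) (nat_lit 0) (XT.lf (nat_lit 0) (nat_lit 9478655366) (nat_lit 152) (nat_lit 5486307488) (nat_lit 228) (nat_lit 772435742) (nat_lit 85) (nat_lit 5) (nat_lit 87) (nat_lit 5) (nat_lit 88) (nat_lit 4) (nat_lit 483) (nat_lit 383) (nat_lit 334)) (XT.lf (nat_lit 0) (nat_lit 4567769753) (nat_lit 228) (nat_lit 11200405452) (nat_lit 76) (nat_lit 257758386) (nat_lit 82) (nat_lit 5) (nat_lit 85) (nat_lit 5) (nat_lit 83) (nat_lit 4) (nat_lit 484) (nat_lit 383) (nat_lit 333))))) (XT.nd (nat_lit 312) (nat_lit 304) (nat_lit 0) (XT.nd (nat_lit 156) (nat_lit 304) (nat_lit 0) (XT.nd (nat_lit 78) (nat_lit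 76) (nat_lit 0) (XT.lf (nat_lit 0) (nat_lit 10113222976) (nat_lit 228) (nat_lit 119351986) (nat_lit 76) (nat_lit 6088505128) (nat_lit 82) (nat_lit 5) (nat_lit 85) (nat_lit 5) (nat_lit 83) (nat_lit 4) (nat_lit 485) (nat_lit 383) (nat_lit 332)) (XT.lf (nat_lit 0) (nat_lit 11413793592) (nat_lit 76) (nat_lit 4465059745) (nat_lit 152) (nat_lit 744615079) (nat_lit 81) (nat_lit 5) (nat_lit 82) (nat_lit 5) (nat_lit 83) (nat_lit 4) (nat_lit 486) (nat_lit 383) (nat_lit 331))) (XT.nd (nat_lit 78) (nat_lit 76) (nat_lit 0) (XT.lf (nat_lit 0) (nat_lit 4808354898) (nat_lit 228) (nat_lit 10614165484) (nat_lit 76) (nat_lit 1510368536) (nat_lit 78) (nat_lit 5) (nat_lit 81) (nat_lit 5) (nat_lit 79) (nat_lit 4) (nat_lit 487) (nat_lit 383) (nat_lit 330)) (XT.lf (nat_lit 0) (nat_lit 912090429) (nat_lit 76) (nat_lit 9651349227) (nat_lit 152) (nat_lit 6686418138) (nat_lit 77) (nat_lit 5) (nat_lit 78) (nat_lit 5) (nat_lit 79) (nat_lit 4)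 (nat_lit 488) (nat_lit 383) (nat_lit 329)))) (XT.nd (nat_lit 156) (nat_lit 76) (nat_lit 0) (XT.nd (nat_lit 78) (nat_lit 228) (nat_lit 0) (XT.lf (nat_lit 0) (nat_lit 12899368339) (nat_lit 76) (nat_lit 3644014113) (nat_lit 152) (nat_lit 1031388751) (nat_lit 77) (nat_lit 5) (nat_lit 78) (nat_lit 5) (nat_lit 79) (nat_lit 4) (nat_lit 489) (nat_lit 383) (nat_lit 328)) (XT.lf (nat_lit 0) (nat_lit 4741501835) (nat_lit 228) (nat_lit 10599291709) (nat_lit 76) (nat_lit 2566005387) (nat_lit 74) (nat_lit 5) (nat_lit 77) (nat_lit 5) (nat_lit 75) (nat_lit 4) (nat_lit 490) (nat_lit 383) (nat_lit 327))) (XT.nd (nat_lit 78) (nat_lit 0) (nat_lit 0) (XT.lf (nat_lit 0) (nat_lit 1377892868) (nat_lit 76) (nat_lit 9332225503) (nat_lit 152) (nat_lit 7537066186) (nat_lit 73) (nat_lit 5) (nat_lit 74) (nat_lit 5) (nat_lit 75) (nat_lit 4) (nat_lit 491) (nat_lit 383) (nat_lit 326)) (XT.lf (nat_lit 0) (nat_lit 13832043568) (nat_lit 76) (nat_lit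 3079654130) (nat_lit 152) (nat_lit 1684468377) (nat_lit 73) (nat_lit 5) (nat_lit 74) (nat_lit 5) (nat_lit 75) (nat_lit 4) (nat_lit 492) (nat_lit 383) (nat_lit 325))))))) (XT.nd (nat_lit 1170) (nat_lit 988) (nat_lit 0) (XT.nd (nat_lit 546) (nat_lit 608) (nat_lit 0) (XT.nd (nat_lit 234) (nat_lit 532) (nat_lit 0) (XT.nd (nat_lit 78) (nat_lit 76) (nat_lit 0) (XT.lf (nat_lit 0) (nat_lit 4314028982) (nat_lit 228) (nat_lit 11271476934) (nat_lit 76) (nat_lit 3367207368) (nat_lit 70) (nat_lit 5) (nat_lit 73) (nat_lit 5) (nat_lit 71) (nat_lit 4) (nat_lit 493) (nat_lit 383) (nat_lit 324)) (XT.nd (nat_lit 78) (nat_lit 0) (nat_lit 0) (XT.lf (nat_lit 0) (nat_lit 1156102461) (nat_lit 76) (nat_lit 9340770932) (nat_lit 152) (nat_lit 8821437056) (nat_lit 69) (nat_lit 5) (nat_lit 70) (nat_lit 5) (nat_lit 71) (nat_lit 4) (nat_lit 494) (nat_lit 383) (nat_lit 323)) (XT.lf (nat_lit 0) (nat_lit 14090609837) (nat_lit 76) (nat_lit 2837052862)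 (nat_lit 152) (nat_lit 2765340335) (nat_lit 69) (nat_lit 5) (nat_lit 70) (nat_lit 5) (nat_lit 71) (nat_lit 4) (nat_lit 495) (nat_lit 383) (nat_lit 322)))) (XT.nd (nat_lit 156) (nat_lit 228) (nat_lit 0) (XT.nd (nat_lit 78) (nat_lit 76) (nat_lit 0) (XT.lf (nat_lit 0) (nat_lit 3462685683) (nat_lit 228) (nat_lit 12765937730) (nat_lit 76) (nat_lit 3847572634) (nat_lit 66) (nat_lit 5) (nat_lit 69) (nat_lit 5) (nat_lit 67) (nat_lit 4) (nat_lit 496) (nat_lit 383) (nat_lit 321)) (XT.lf (nat_lit 0) (nat_lit 106729787) (nat_lit 76) (nat_lit 9751266173) (nat_lit 152) (nat_lit 10610987961) (nat_lit 65) (nat_lit 5) (nat_lit 66) (nat_lit 5) (nat_lit 67) (nat_lit 4) (nat_lit 497) (nat_lit 383) (nat_lit 320))) (XT.nd (nat_lit 78) (nat_lit 228) (nat_lit 0) (XT.lf (nat_lit 0) (nat_lit 13532931729) (nat_lit 76) (nat_lit 2991475988) (nat_lit 152) (nat_lit 4346771591) (nat_lit 65) (nat_lit 5) (nat_lit 66) (nat_lit 5) (nat_lit 67) (nat_lit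 4) (nat_lit 498) (nat_lit 383) (nat_lit 319)) (XT.lf (nat_lit 0) (nat_lit 2112585140) (nat_lit 228) (nat_lit 15240699355) (nat_lit 76) (nat_lit 3930101084) (nat_lit 62) (nat_lit 5) (nat_lit 65) (nat_lit 5) (nat_lit 63) (nat_lit 4) (nat_lit 499) (nat_lit 383) (nat_lit 318))))) (XT.nd (nat_lit 312) (nat_lit 304) (nat_lit 0) (XT.nd (nat_lit 156) (nat_lit 228) (nat_lit 0) (XT.nd (nat_lit 78) (nat_lit 76) (nat_lit 0) (XT.lf (nat_lit 0) (nat_lit 8734229742) (nat_lit 228) (nat_lit 1896327657) (nat_lit 76) (nat_lit 11074434374) (nat_lit 62) (nat_lit 5) (nat_lit 65) (nat_lit 5) (nat_lit 63) (nat_lit 4) (nat_lit 500) (nat_lit 383) (nat_lit 317)) (XT.lf (nat_lit 0) (nat_lit 11992411694) (nat_lit 76) (nat_lit 3630224178) (nat_lit 152) (nat_lit 6514567934) (nat_lit 61) (nat_lit 5) (nat_lit 62) (nat_lit 5) (nat_lit 63) (nat_lit 4) (nat_lit 501) (nat_lit 383) (nat_lit 316))) (XT.nd (nat_lit 78) (nat_lit 0) (nat_lit 0) (XT.lf (nat_lit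 0) (nat_lit 175375487) (nat_lit 228) (nat_lit 18880400613) (nat_lit 76) (nat_lit 3525286920) (nat_lit 58) (nat_lit 5) (nat_lit 61) (nat_lit 5) (nat_lit 59) (nat_lit 4) (nat_lit 502) (nat_lit 383) (nat_lit 315)) (XT.lf (nat_lit 0) (nat_lit 7027474852) (nat_lit 228) (nat_lit 5057325779) (nat_lit 76) (nat_lit 10948731469) (nat_lit 58) (nat_lit 5) (nat_lit 61) (nat_lit 5) (nat_lit 59) (nat_lit 4) (nat_lit 503) (nat_lit 383) (nat_lit 314)))) (XT.nd (nat_lit 156) (nat_lit 152) (nat_lit 0) (XT.nd (nat_lit 78) (nat_lit 76) (nat_lit 0) (XT.lf (nat_lit 0) (nat_lit 9273891695) (nat_lit 76) (nat_lit 4854755321) (nat_lit 152) (nat_lit 9369623847) (nat_lit 57) (nat_lit 5) (nat_lit 58) (nat_lit 5) (nat_lit 59) (nat_lit 4) (nat_lit 504) (nat_lit 383) (nat_lit 313)) (XT.lf (nat_lit 0) (nat_lit 51258457) (nat_lit 76) (nat_lit 21423041654) (nat_lit 76) (nat_lit 2501709182) (nat_lit 56) (nat_lit 4) (nat_lit 57) (nat_lit 5) (nat_lit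 57) (nat_lit 4) (nat_lit 505) (nat_lit 383) (nat_lit 312))) (XT.nd (nat_lit 78) (nat_lit 76) (nat_lit 0) (XT.lf (nat_lit 0) (nat_lit 4630655577) (nat_lit 152) (nat_lit 9598121818) (nat_lit 76) (nat_lit 10233555764) (nat_lit 55) (nat_lit 5) (nat_lit 57) (nat_lit 5) (nat_lit 56) (nat_lit 4) (nat_lit 506) (nat_lit 383) (nat_lit 311)) (XT.lf (nat_lit 0) (nat_lit 5148901657) (nat_lit 76) (nat_lit 6783133397) (nat_lit 152) (nat_lit 13030309640) (nat_lit 54) (nat_lit 5) (nat_lit 55) (nat_lit 5) (nat_lit 56) (nat_lit 4) (nat_lit 507) (nat_lit 383) (nat_lit 310)))))) (XT.nd (nat_lit 624) (nat_lit 532) (nat_lit 0) (XT.nd (nat_lit 312) (nat_lit 228) (nat_lit 0) (XT.nd (nat_lit 156) (nat_lit 76) (nat_lit 0) (XT.nd (nat_lit 78) (nat_lit 152) (nat_lit 0) (XT.lf (nat_lit 0) (nat_lit 19514770907) (nat_lit 152) (nat_lit 5034031915) (nat_lit 0) (nat_lit 926685082) (nat_lit 54) (nat_lit 5) (nat_lit 56) (nat_lit 4) (nat_lit 54) (nat_lit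 4) (nat_lit 508) (nat_lit 383) (nat_lit 309)) (XT.lf (nat_lit 0) (nat_lit 1419183280) (nat_lit 152) (nat_lit 15775575186) (nat_lit 76) (nat_lit 8805166842) (nat_lit 52) (nat_lit 5) (nat_lit 54) (nat_lit 5) (nat_lit 53) (nat_lit 4) (nat_lit 509) (nat_lit 383) (nat_lit 308))) (XT.nd (nat_lit 78) (nat_lit 76) (nat_lit 0) (XT.lf (nat_lit 0) (nat_lit 8909254037) (nat_lit 152) (nat_lit 637169824) (nat_lit 76) (nat_lit 16991644840) (nat_lit 52) (nat_lit 5) (nat_lit 54) (nat_lit 5) (nat_lit 53) (nat_lit 4) (nat_lit 510) (nat_lit 383) (nat_lit 307)) (XT.lf (nat_lit 0) (nat_lit 15171085523) (nat_lit 76) (nat_lit 1557261384) (nat_lit 152) (nat_lit 10360880581) (nat_lit 51) (nat_lit 5) (nat_lit 52) (nat_lit 5) (nat_lit 53) (nat_lit 4) (nat_lit 511) (nat_lit 383) (nat_lit 306)))) (XT.nd (nat_lit 156) (nat_lit 76) (nat_lit 0) (XT.nd (nat_lit 78) (nat_lit 76) (nat_lit 0) (XT.lf (nat_lit 0) (nat_lit 3738253904) (nat_lit 76) (nat_lit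 21108882839) (nat_lit 76) (nat_lit 2807831242) (nat_lit 50) (nat_lit 4) (nat_lit 51) (nat_lit 5) (nat_lit 51) (nat_lit 4) (nat_lit 512) (nat_lit 383) (nat_lit 305)) (XT.lf (nat_lit 0) (nat_lit 4970347145) (nat_lit 152) (nat_lit 8270276438) (nat_lit 76) (nat_lit 14992757322) (nat_lit 49) (nat_lit 5) (nat_lit 51) (nat_lit 5) (nat_lit 50) (nat_lit 4) (nat_lit 513) (nat_lit 383) (nat_lit 304))) (XT.nd (nat_lit 78) (nat_lit 0) (nat_lit 0) (XT.lf (nat_lit 0) (nat_lit 7893675419) (nat_lit 76) (nat_lit 5067441232) (nat_lit 152) (nat_lit 15866125757) (nat_lit 48) (nat_lit 5) (nat_lit 49) (nat_lit 5) (nat_lit 50) (nat_lit 4) (nat_lit 514) (nat_lit 383) (nat_lit 303)) (XT.lf (nat_lit 0) (nat_lit 21268028616) (nat_lit 152) (nat_lit 4835553442) (nat_lit 0) (nat_lit 3333045712) (nat_lit 48) (nat_lit 5) (nat_lit 50) (nat_lit 4) (nat_lit 48) (nat_lit 4) (nat_lit 515) (nat_lit 383) (nat_lit 302))))) (XT.nd (nat_lit 312) (nat_lit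 228) (nat_lit 0) (XT.nd (nat_lit 156) (nat_lit 152) (nat_lit 0) (XT.nd (nat_lit 78) (nat_lit 76) (nat_lit 0) (XT.lf (nat_lit 0) (nat_lit 11850572888) (nat_lit 76) (nat_lit 18098699275) (nat_lit 76) (nat_lit 111269384) (nat_lit 47) (nat_lit 4) (nat_lit 48) (nat_lit 5) (nat_lit 48) (nat_lit 4) (nat_lit 516) (nat_lit 383) (nat_lit 301)) (XT.lf (nat_lit 0) (nat_lit 8038386991) (nat_lit 152) (nat_lit 1720423703) (nat_lit 76) (nat_lit 20941690018) (nat_lit 46) (nat_lit 5) (nat_lit 48) (nat_lit 5) (nat_lit 47) (nat_lit 4) (nat_lit 517) (nat_lit 383) (nat_lit 300))) (XT.nd (nat_lit 78) (nat_lit 76) (nat_lit 0) (XT.lf (nat_lit 0) (nat_lit 15491274593) (nat_lit 76) (nat_lit 1050134374) (nat_lit 152) (nat_lit 14814883796) (nat_lit 45) (nat_lit 5) (nat_lit 46) (nat_lit 5) (nat_lit 47) (nat_lit 4) (nat_lit 518) (nat_lit 383) (nat_lit 299)) (XT.lf (nat_lit 0) (nat_lit 1094632224) (nat_lit 76) (nat_lit 24271344297) (nat_lit 76)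 (nat_lit 6663788923) (nat_lit 44) (nat_lit 4) (nat_lit 45) (nat_lit 5) (nat_lit 45) (nat_lit 4) (nat_lit 519) (nat_lit 383) (nat_lit 298)))) (XT.nd (nat_lit 156) (nat_lit 76) (nat_lit 0) (XT.nd (nat_lit 78) (nat_lit 76) (nat_lit 0) (XT.lf (nat_lit 0) (nat_lit 1832518049) (nat_lit 152) (nat_lit 13932784964) (nat_lit 76) (nat_lit 16953606142) (nat_lit 43) (nat_lit 5) (nat_lit 45) (nat_lit 5) (nat_lit 44) (nat_lit 4) (nat_lit 520) (nat_lit 383) (nat_lit 297)) (XT.lf (nat_lit 0) (nat_lit 3510500648) (nat_lit 76) (nat_lit 6936406139) (nat_lit 152) (nat_lit 22979927677) (nat_lit 42) (nat_lit 5) (nat_lit 43) (nat_lit 5) (nat_lit 44) (nat_lit 4) (nat_lit 521) (nat_lit 383) (nat_lit 296))) (XT.nd (nat_lit 78) (nat_lit 76) (nat_lit 0) (XT.lf (nat_lit 0) (nat_lit 19445985560) (nat_lit 152) (nat_lit 12482922935) (nat_lit 0) (nat_lit 2223301743) (nat_lit 42) (nat_lit 5) (nat_lit 44) (nat_lit 4) (nat_lit 42) (nat_lit 4) (nat_lit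 522) (nat_lit 383) (nat_lit 295)) (XT.lf (nat_lit 0) (nat_lit 5441373756) (nat_lit 76) (nat_lit 23359144793) (nat_lit 76) (nat_lit 6096264727) (nat_lit 41) (nat_lit 4) (nat_lit 42) (nat_lit 5) (nat_lit 42) (nat_lit 4) (nat_lit 523) (nat_lit 383) (nat_lit 294))))))))
noncomputable def xc60 : XT := (XT.nd (nat_lit 55380) (nat_lit 0) (nat_lit 8208) (XT.nd (nat_lit 1170) (nat_lit 684) (nat_lit 0) (XT.nd (nat_lit 546) (nat_lit 456) (nat_lit 0) (XT.nd (nat_lit 234) (nat_lit 228) (nat_lit 0) (XT.nd (nat_lit 78) (nat_lit 76) (nat_lit 0) (XT.lf (nat_lit 0) (nat_lit 2809725385) (nat_lit 152) (nat_lit 11598163017) (nat_lit 76) (nat_lit 21252251449) (nat_lit 40) (nat_lit 5) (nat_lit 42) (nat_lit 5) (nat_lit 41) (nat_lit 4) (nat_lit 524) (nat_lit 383) (nat_lit 293)) (XT.nd (nat_lit 78) (nat_lit 0) (nat_lit 0) (XT.lf (nat_lit 0) (nat_lit 6799509222) (nat_lit 76) (nat_lit 5091773335) (nat_lit 152) (nat_lit 24552376715) (nat_lit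 39) (nat_lit 5) (nat_lit 40) (nat_lit 5) (nat_lit 41) (nat_lit 4) (nat_lit 525) (nat_lit 383) (nat_lit 292)) (XT.lf (nat_lit 0) (nat_lit 21372457177) (nat_lit 152) (nat_lit 11372420855) (nat_lit 0) (nat_lit 4501991516) (nat_lit 39) (nat_lit 5) (nat_lit 41) (nat_lit 4) (nat_lit 39) (nat_lit 4) (nat_lit 526) (nat_lit 383) (nat_lit 291)))) (XT.nd (nat_lit 156) (nat_lit 76) (nat_lit 0) (XT.nd (nat_lit 78) (nat_lit 76) (nat_lit 0) (XT.lf (nat_lit 0) (nat_lit 7477266051) (nat_lit 76) (nat_lit 23749691523) (nat_lit 76) (nat_lit 6844552225) (nat_lit 38) (nat_lit 4) (nat_lit 39) (nat_lit 5) (nat_lit 39) (nat_lit 4) (nat_lit 527) (nat_lit 383) (nat_lit 290)) (XT.lf (nat_lit 0) (nat_lit 2490871332) (nat_lit 152) (nat_lit 11882334217) (nat_lit 76) (nat_lit 24544497846) (nat_lit 37) (nat_lit 5) (nat_lit 39) (nat_lit 5) (nat_lit 38) (nat_lit 4) (nat_lit 528) (nat_lit 383) (nat_lit 289))) (XT.nd (nat_lit 78) (nat_lit 0) (nat_lit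 0) (XT.lf (nat_lit 0) (nat_lit 7403844683) (nat_lit 76) (nat_lit 4603707501) (nat_lit 152) (nat_lit 27778535031) (nat_lit 36) (nat_lit 5) (nat_lit 37) (nat_lit 5) (nat_lit 38) (nat_lit 4) (nat_lit 529) (nat_lit 383) (nat_lit 288)) (XT.lf (nat_lit 0) (nat_lit 21951014527) (nat_lit 152) (nat_lit 13282233599) (nat_lit 0) (nat_lit 5443036332) (nat_lit 36) (nat_lit 5) (nat_lit 38) (nat_lit 4) (nat_lit 36) (nat_lit 4) (nat_lit 530) (nat_lit 383) (nat_lit 287))))) (XT.nd (nat_lit 312) (nat_lit 228) (nat_lit 0) (XT.nd (nat_lit 156) (nat_lit 76) (nat_lit 0) (XT.nd (nat_lit 78) (nat_lit 76) (nat_lit 0) (XT.lf (nat_lit 0) (nat_lit 6408268170) (nat_lit 76) (nat_lit 25860267555) (nat_lit 76) (nat_lit 9322379575) (nat_lit 35) (nat_lit 4) (nat_lit 36) (nat_lit 5) (nat_lit 36) (nat_lit 4) (nat_lit 531) (nat_lit 383) (nat_lit 286)) (XT.lf (nat_lit 0) (nat_lit 459565109) (nat_lit 152) (nat_lit 15634009432) (nat_lit 76) (nat_lit 26436184976)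 (nat_lit 34) (nat_lit 5) (nat_lit 36) (nat_lit 5) (nat_lit 35) (nat_lit 4) (nat_lit 532) (nat_lit 383) (nat_lit 285))) (XT.nd (nat_lit 78) (nat_lit 0) (nat_lit 0) (XT.lf (nat_lit 0) (nat_lit 4435145488) (nat_lit 76) (nat_lit 5924590931) (nat_lit 152) (nat_lit 33133899754) (nat_lit 33) (nat_lit 5) (nat_lit 34) (nat_lit 5) (nat_lit 35) (nat_lit 4) (nat_lit 533) (nat_lit 383) (nat_lit 284)) (XT.lf (nat_lit 0) (nat_lit 20729619103) (nat_lit 152) (nat_lit 19160350938) (nat_lit 0) (nat_lit 4591278196) (nat_lit 33) (nat_lit 5) (nat_lit 35) (nat_lit 4) (nat_lit 33) (nat_lit 4) (nat_lit 534) (nat_lit 383) (nat_lit 283)))) (XT.nd (nat_lit 156) (nat_lit 152) (nat_lit 0) (XT.nd (nat_lit 78) (nat_lit 0) (nat_lit 0) (XT.lf (nat_lit 0) (nat_lit 1241840837) (nat_lit 76) (nat_lit 30209779400) (nat_lit 76) (nat_lit 14045638051) (nat_lit 32) (nat_lit 4) (nat_lit 33) (nat_lit 5) (nat_lit 33) (nat_lit 4) (nat_lit 535) (nat_lit 383)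 (nat_lit 282)) (XT.lf (nat_lit 0) (nat_lit 22590974332) (nat_lit 76) (nat_lit 20068519271) (nat_lit 76) (nat_lit 3879328949) (nat_lit 32) (nat_lit 4) (nat_lit 33) (nat_lit 5) (nat_lit 33) (nat_lit 4) (nat_lit 536) (nat_lit 383) (nat_lit 281))) (XT.nd (nat_lit 78) (nat_lit 76) (nat_lit 0) (XT.lf (nat_lit 0) (nat_lit 6434637476) (nat_lit 152) (nat_lit 3151195636) (nat_lit 76) (nat_lit 38024760879) (nat_lit 31) (nat_lit 5) (nat_lit 33) (nat_lit 5) (nat_lit 32) (nat_lit 4) (nat_lit 537) (nat_lit 383) (nat_lit 280)) (XT.lf (nat_lit 0) (nat_lit 17143910198) (nat_lit 152) (nat_lit 30184825340) (nat_lit 0) (nat_lit 1379715273) (nat_lit 30) (nat_lit 5) (nat_lit 32) (nat_lit 4) (nat_lit 30) (nat_lit 4) (nat_lit 538) (nat_lit 383) (nat_lit 279)))))) (XT.nd (nat_lit 546) (nat_lit 380) (nat_lit 0) (XT.nd (nat_lit 234) (nat_lit 228) (nat_lit 0) (XT.nd (nat_lit 78) (nat_lit 76) (nat_lit 0) (XT.lf (nat_lit 0) (nat_lit 28273670545)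 (nat_lit 152) (nat_lit 9075376822) (nat_lit 0) (nat_lit 12487219931) (nat_lit 30) (nat_lit 5) (nat_lit 32) (nat_lit 4) (nat_lit 30) (nat_lit 4) (nat_lit 539) (nat_lit 383) (nat_lit 278)) (XT.nd (nat_lit 78) (nat_lit 0) (nat_lit 0) (XT.lf (nat_lit 0) (nat_lit 12864849607) (nat_lit 76) (nat_lit 26969113898) (nat_lit 76) (nat_lit 11161055820) (nat_lit 29) (nat_lit 4) (nat_lit 30) (nat_lit 5) (nat_lit 30) (nat_lit 4) (nat_lit 540) (nat_lit 383) (nat_lit 277)) (XT.lf (nat_lit 0) (nat_lit 35596299012) (nat_lit 76) (nat_lit 16209662226) (nat_lit 76) (nat_lit 380626027) (nat_lit 29) (nat_lit 4) (nat_lit 30) (nat_lit 5) (nat_lit 30) (nat_lit 4) (nat_lit 541) (nat_lit 383) (nat_lit 276)))) (XT.nd (nat_lit 156) (nat_lit 76) (nat_lit 0) (XT.nd (nat_lit 78) (nat_lit 0) (nat_lit 0) (XT.lf (nat_lit 0) (nat_lit 5548994369) (nat_lit 76) (nat_lit 4992088229) (nat_lit 152) (nat_lit 42868914085) (nat_lit 27) (nat_lit 5) (nat_lit 28)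 (nat_lit 5) (nat_lit 29) (nat_lit 4) (nat_lit 542) (nat_lit 383) (nat_lit 275)) (XT.lf (nat_lit 0) (nat_lit 21988856141) (nat_lit 152) (nat_lit 26093069494) (nat_lit 0) (nat_lit 6581887988) (nat_lit 27) (nat_lit 5) (nat_lit 29) (nat_lit 4) (nat_lit 27) (nat_lit 4) (nat_lit 543) (nat_lit 383) (nat_lit 274))) (XT.nd (nat_lit 78) (nat_lit 76) (nat_lit 0) (XT.lf (nat_lit 0) (nat_lit 33804050370) (nat_lit 152) (nat_lit 3772031853) (nat_lit 0) (nat_lit 18378443429) (nat_lit 27) (nat_lit 5) (nat_lit 29) (nat_lit 4) (nat_lit 27) (nat_lit 4) (nat_lit 544) (nat_lit 383) (nat_lit 273)) (XT.lf (nat_lit 0) (nat_lit 19551114089) (nat_lit 76) (nat_lit 26585825417) (nat_lit 76) (nat_lit 11142122565) (nat_lit 26) (nat_lit 4) (nat_lit 27) (nat_lit 5) (nat_lit 27) (nat_lit 4) (nat_lit 545) (nat_lit 383) (nat_lit 272))))) (XT.nd (nat_lit 312) (nat_lit 228) (nat_lit 0) (XT.nd (nat_lit 156) (nat_lit 0) (nat_lit 0) (XT.nd (nat_lit 78)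 (nat_lit 76) (nat_lit 0) (XT.lf (nat_lit 0) (nat_lit 206426154) (nat_lit 152) (nat_lit 15042226603) (nat_lit 76) (nat_lit 43394211969) (nat_lit 25) (nat_lit 5) (nat_lit 27) (nat_lit 5) (nat_lit 26) (nat_lit 4) (nat_lit 546) (nat_lit 383) (nat_lit 271)) (XT.lf (nat_lit 0) (nat_lit 8328652649) (nat_lit 76) (nat_lit 3398924434) (nat_lit 152) (nat_lit 48315012279) (nat_lit 24) (nat_lit 5) (nat_lit 25) (nat_lit 5) (nat_lit 26) (nat_lit 4) (nat_lit 547) (nat_lit 383) (nat_lit 270))) (XT.nd (nat_lit 78) (nat_lit 0) (nat_lit 0) (XT.lf (nat_lit 0) (nat_lit 23808465919) (nat_lit 152) (nat_lit 28904532674) (nat_lit 0) (nat_lit 8764884218) (nat_lit 24) (nat_lit 5) (nat_lit 26) (nat_lit 4) (nat_lit 24) (nat_lit 4) (nat_lit 548) (nat_lit 383) (nat_lit 269)) (XT.lf (nat_lit 0) (nat_lit 36262182637) (nat_lit 152) (nat_lit 5490749321) (nat_lit 0) (nat_lit 21202991244) (nat_lit 24) (nat_lit 5) (nat_lit 26) (nat_lit 4) (nat_lit 24)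 (nat_lit 4) (nat_lit 549) (nat_lit 383) (nat_lit 268)))) (XT.nd (nat_lit 156) (nat_lit 152) (nat_lit 0) (XT.nd (nat_lit 78) (nat_lit 0) (nat_lit 0) (XT.lf (nat_lit 0) (nat_lit 18950333800) (nat_lit 76) (nat_lit 30298764984) (nat_lit 76) (nat_lit 15224418550) (nat_lit 23) (nat_lit 4) (nat_lit 24) (nat_lit 5) (nat_lit 24) (nat_lit 4) (nat_lit 550) (nat_lit 383) (nat_lit 267)) (XT.lf (nat_lit 0) (nat_lit 44192741620) (nat_lit 76) (nat_lit 18465982424) (nat_lit 76) (nat_lit 3376922359) (nat_lit 23) (nat_lit 4) (nat_lit 24) (nat_lit 5) (nat_lit 24) (nat_lit 4) (nat_lit 551) (nat_lit 383) (nat_lit 266))) (XT.nd (nat_lit 53118) (nat_lit 0) (nat_lit 17404) (XT.lf (nat_lit 0) (nat_lit 2467487075) (nat_lit 76) (nat_lit 6188095299) (nat_lit 152) (nat_lit 58986457577) (nat_lit 21) (nat_lit 5) (nat_lit 22) (nat_lit 5) (nat_lit 23) (nat_lit 4) (nat_lit 552) (nat_lit 383) (nat_lit 265)) (XT.lf (nat_lit 0) (nat_lit 32766) (nat_lit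 532) (nat_lit 1884670755) (nat_lit 532) (nat_lit 1884670755) (nat_lit 250) (nat_lit 4) (nat_lit 257) (nat_lit 5) (nat_lit 257) (nat_lit 4) (nat_lit 432) (nat_lit 384) (nat_lit 384))))))) (XT.nd (nat_lit 1170) (nat_lit 3496) (nat_lit 0) (XT.nd (nat_lit 546) (nat_lit 3040) (nat_lit 0) (XT.nd (nat_lit 234) (nat_lit 1520) (nat_lit 0) (XT.nd (nat_lit 78) (nat_lit 1140) (nat_lit 0) (XT.lf (nat_lit 0) (nat_lit 6059774299) (nat_lit 532) (nat_lit 1493458992) (nat_lit 532) (nat_lit 56349982) (nat_lit 250) (nat_lit 4) (nat_lit 257) (nat_lit 5) (nat_lit 257) (nat_lit 4) (nat_lit 433) (nat_lit 384) (nat_lit 383)) (XT.nd (nat_lit 78) (nat_lit 532) (nat_lit 0) (XT.lf (nat_lit 0) (nat_lit 3646524069) (nat_lit 608) (nat_lit 3139727182) (nat_lit 0) (nat_lit 896659530) (nat_lit 242) (nat_lit 5) (nat_lit 250) (nat_lit 4) (nat_lit 242) (nat_lit 4) (nat_lit 434) (nat_lit 384) (nat_lit 382)) (XT.lf (nat_lit 0) (nat_lit 3015380774) (nat_lit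 532) (nat_lit 4404629133) (nat_lit 532) (nat_lit 339606271) (nat_lit 235) (nat_lit 4) (nat_lit 242) (nat_lit 5) (nat_lit 242) (nat_lit 4) (nat_lit 435) (nat_lit 384) (nat_lit 381)))) (XT.nd (nat_lit 156) (nat_lit 988) (nat_lit 0) (XT.nd (nat_lit 78) (nat_lit 0) (nat_lit 0) (XT.lf (nat_lit 0) (nat_lit 1455062807) (nat_lit 456) (nat_lit 1893182715) (nat_lit 532) (nat_lit 4490955531) (nat_lit 228) (nat_lit 5) (nat_lit 234) (nat_lit 5) (nat_lit 235) (nat_lit 4) (nat_lit 436) (nat_lit 384) (nat_lit 380)) (XT.lf (nat_lit 0) (nat_lit 7098266161) (nat_lit 532) (nat_lit 115645984) (nat_lit 0) (nat_lit 708422997) (nat_lit 228) (nat_lit 5) (nat_lit 235) (nat_lit 4) (nat_lit 228) (nat_lit 4) (nat_lit 437) (nat_lit 384) (nat_lit 379))) (XT.nd (nat_lit 78) (nat_lit 456) (nat_lit 0) (XT.lf (nat_lit 0) (nat_lit 2880731139) (nat_lit 532) (nat_lit 1710460087) (nat_lit 76) (nat_lit 3416367231) (nat_lit 221) (nat_lit 5) (nat_lit 228)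 (nat_lit 5) (nat_lit 222) (nat_lit 4) (nat_lit 438) (nat_lit 384) (nat_lit 378)) (XT.lf (nat_lit 0) (nat_lit 4774171239) (nat_lit 456) (nat_lit 1859810368) (nat_lit 532) (nat_lit 1462508195) (nat_lit 215) (nat_lit 5) (nat_lit 221) (nat_lit 5) (nat_lit 222) (nat_lit 4) (nat_lit 439) (nat_lit 384) (nat_lit 377))))) (XT.nd (nat_lit 312) (nat_lit 1596) (nat_lit 0) (XT.nd (nat_lit 156) (nat_lit 532) (nat_lit 0) (XT.nd (nat_lit 78) (nat_lit 380) (nat_lit 0) (XT.lf (nat_lit 0) (nat_lit 2232074566) (nat_lit 532) (nat_lit 4977855440) (nat_lit 76) (nat_lit 978540576) (nat_lit 208) (nat_lit 5) (nat_lit 215) (nat_lit 5) (nat_lit 209) (nat_lit 4) (nat_lit 440) (nat_lit 384) (nat_lit 376)) (XT.lf (nat_lit 0) (nat_lit 1601389660) (nat_lit 380) (nat_lit 4383119993) (nat_lit 456) (nat_lit 2298985581) (nat_lit 203) (nat_lit 5) (nat_lit 208) (nat_lit 5) (nat_lit 209) (nat_lit 4) (nat_lit 441) (nat_lit 384) (nat_lit 375))) (XT.nd (nat_lit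 78) (nat_lit 456) (nat_lit 0) (XT.lf (nat_lit 0) (nat_lit 1399580989) (nat_lit 456) (nat_lit 37107889) (nat_lit 76) (nat_lit 6945466394) (nat_lit 202) (nat_lit 5) (nat_lit 208) (nat_lit 5) (nat_lit 203) (nat_lit 5) (nat_lit 442) (nat_lit 384) (nat_lit 374)) (XT.lf (nat_lit 0) (nat_lit 5156139434) (nat_lit 532) (nat_lit 1701702565) (nat_lit 76) (nat_lit 1625463181) (nat_lit 196) (nat_lit 5) (nat_lit 203) (nat_lit 5) (nat_lit 197) (nat_lit 4) (nat_lit 443) (nat_lit 384) (nat_lit 373)))) (XT.nd (nat_lit 156) (nat_lit 760) (nat_lit 0) (XT.nd (nat_lit 78) (nat_lit 380) (nat_lit 0) (XT.lf (nat_lit 0) (nat_lit 406659666) (nat_lit 456) (nat_lit 3407310748) (nat_lit 76) (nat_lit 4774083517) (nat_lit 190) (nat_lit 5) (nat_lit 196) (nat_lit 5) (nat_lit 191) (nat_lit 5) (nat_lit 444) (nat_lit 384) (nat_lit 372)) (XT.lf (nat_lit 0) (nat_lit 3523965418) (nat_lit 380) (nat_lit 626509639) (nat_lit 456) (nat_lit 4545545719) (nat_lit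 185) (nat_lit 5) (nat_lit 190) (nat_lit 5) (nat_lit 191) (nat_lit 5) (nat_lit 445) (nat_lit 384) (nat_lit 371))) (XT.nd (nat_lit 78) (nat_lit 456) (nat_lit 0) (XT.lf (nat_lit 0) (nat_lit 1814516564) (nat_lit 304) (nat_lit 6184467928) (nat_lit 380) (nat_lit 808479813) (nat_lit 181) (nat_lit 5) (nat_lit 185) (nat_lit 5) (nat_lit 186) (nat_lit 4) (nat_lit 446) (nat_lit 384) (nat_lit 370)) (XT.lf (nat_lit 0) (nat_lit 38476207) (nat_lit 380) (nat_lit 2917342971) (nat_lit 456) (nat_lit 5966329952) (nat_lit 175) (nat_lit 5) (nat_lit 180) (nat_lit 5) (nat_lit 181) (nat_lit 5) (nat_lit 447) (nat_lit 384) (nat_lit 369)))))) (XT.nd (nat_lit 546) (nat_lit 1748) (nat_lit 0) (XT.nd (nat_lit 234) (nat_lit 1064) (nat_lit 0) (XT.nd (nat_lit 78) (nat_lit 684) (nat_lit 0) (XT.lf (nat_lit 0) (nat_lit 6808500386) (nat_lit 456) (nat_lit 1750275823) (nat_lit 76) (nat_lit 481515357) (nat_lit 175) (nat_lit 5) (nat_lit 181) (nat_lit 5) (nat_lit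 176) (nat_lit 4) (nat_lit 448) (nat_lit 384) (nat_lit 368)) (XT.nd (nat_lit 78) (nat_lit 304) (nat_lit 0) (XT.lf (nat_lit 0) (nat_lit 1584103675) (nat_lit 380) (nat_lit 3620528368) (nat_lit 76) (nat_lit 3956863481) (nat_lit 170) (nat_lit 5) (nat_lit 175) (nat_lit 5) (nat_lit 171) (nat_lit 5) (nat_lit 449) (nat_lit 384) (nat_lit 367)) (XT.lf (nat_lit 0) (nat_lit 3731403896) (nat_lit 304) (nat_lit 1710892305) (nat_lit 380) (nat_lit 3844203754) (nat_lit 166) (nat_lit 5) (nat_lit 170) (nat_lit 5) (nat_lit 171) (nat_lit 5) (nat_lit 450) (nat_lit 384) (nat_lit 366)))) (XT.nd (nat_lit 156) (nat_lit 684) (nat_lit 0) (XT.nd (nat_lit 78) (nat_lit 76) (nat_lit 0) (XT.lf (nat_lit 0) (nat_lit 1860750369) (nat_lit 304) (nat_lit 7548238384) (nat_lit 380) (nat_lit 6490509) (nat_lit 162) (nat_lit 5) (nat_lit 166) (nat_lit 5) (nat_lit 167) (nat_lit 4) (nat_lit 451) (nat_lit 384) (nat_lit 365)) (XT.lf (nat_lit 0) (nat_lit 3863131865)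 (nat_lit 380) (nat_lit 110543414) (nat_lit 76) (nat_lit 5573708016) (nat_lit 161) (nat_lit 5) (nat_lit 166) (nat_lit 5) (nat_lit 162) (nat_lit 5) (nat_lit 452) (nat_lit 384) (nat_lit 364))) (XT.nd (nat_lit 78) (nat_lit 380) (nat_lit 0) (XT.lf (nat_lit 0) (nat_lit 7587076059) (nat_lit 304) (nat_lit 257087250) (nat_lit 380) (nat_lit 1839222431) (nat_lit 157) (nat_lit 5) (nat_lit 161) (nat_lit 5) (nat_lit 162) (nat_lit 5) (nat_lit 453) (nat_lit 384) (nat_lit 363)) (XT.lf (nat_lit 0) (nat_lit 2092936839) (nat_lit 380) (nat_lit 4191829838) (nat_lit 76) (nat_lit 3537701120) (nat_lit 152) (nat_lit 5) (nat_lit 157) (nat_lit 5) (nat_lit 153) (nat_lit 5) (nat_lit 454) (nat_lit 384) (nat_lit 362))))) (XT.nd (nat_lit 312) (nat_lit 836) (nat_lit 0) (XT.nd (nat_lit 156) (nat_lit 304) (nat_lit 0) (XT.nd (nat_lit 78) (nat_lit 304) (nat_lit 0) (XT.lf (nat_lit 0) (nat_lit 3597519577) (nat_lit 304) (nat_lit 2490696529) (nat_lit 380)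 (nat_lit 3877502426) (nat_lit 148) (nat_lit 5) (nat_lit 152) (nat_lit 5) (nat_lit 153) (nat_lit 5) (nat_lit 455) (nat_lit 384) (nat_lit 361)) (XT.lf (nat_lit 0) (nat_lit 83265837) (nat_lit 304) (nat_lit 8624412697) (nat_lit 76) (nat_lit 1405719991) (nat_lit 144) (nat_lit 5) (nat_lit 148) (nat_lit 5) (nat_lit 145) (nat_lit 5) (nat_lit 456) (nat_lit 384) (nat_lit 360))) (XT.nd (nat_lit 78) (nat_lit 304) (nat_lit 0) (XT.lf (nat_lit 0) (nat_lit 4099147385) (nat_lit 304) (nat_lit 734856522) (nat_lit 76) (nat_lit 5429932202) (nat_lit 144) (nat_lit 5) (nat_lit 148) (nat_lit 5) (nat_lit 145) (nat_lit 5) (nat_lit 457) (nat_lit 384) (nat_lit 359)) (XT.lf (nat_lit 0) (nat_lit 7419649439) (nat_lit 304) (nat_lit 813994473) (nat_lit 380) (nat_lit 2185407235) (nat_lit 140) (nat_lit 5) (nat_lit 144) (nat_lit 5) (nat_lit 145) (nat_lit 5) (nat_lit 458) (nat_lit 384) (nat_lit 358)))) (XT.nd (nat_lit 156) (nat_lit 304) (nat_lit 0)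 (XT.nd (nat_lit 78) (nat_lit 228) (nat_lit 0) (XT.lf (nat_lit 0) (nat_lit 1893136328) (nat_lit 304) (nat_lit 5389182510) (nat_lit 76) (nat_lit 3295440686) (nat_lit 136) (nat_lit 5) (nat_lit 140) (nat_lit 5) (nat_lit 137) (nat_lit 5) (nat_lit 459) (nat_lit 384) (nat_lit 357)) (XT.lf (nat_lit 0) (nat_lit 2851578274) (nat_lit 228) (nat_lit 3192300399) (nat_lit 304) (nat_lit 4696893359) (nat_lit 133) (nat_lit 5) (nat_lit 136) (nat_lit 5) (nat_lit 137) (nat_lit 5) (nat_lit 460) (nat_lit 384) (nat_lit 356))) (XT.nd (nat_lit 78) (nat_lit 76) (nat_lit 0) (XT.lf (nat_lit 0) (nat_lit 422908141) (nat_lit 228) (nat_lit 9893332376) (nat_lit 304) (nat_lit 592526354) (nat_lit 130) (nat_lit 5) (nat_lit 133) (nat_lit 5) (nat_lit 134) (nat_lit 4) (nat_lit 461) (nat_lit 384) (nat_lit 355)) (XT.lf (nat_lit 0) (nat_lit 3604626462) (nat_lit 304) (nat_lit 2118914504) (nat_lit 76) (nat_lit 5355999350) (nat_lit 129) (nat_lit 5) (nat_lit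 133) (nat_lit 5) (nat_lit 130) (nat_lit 5) (nat_lit 462) (nat_lit 384) (nat_lit 354))))))))
noncomputable def xc61 : XT := (XT.nd (nat_lit 2340) (nat_lit 2356) (nat_lit 0) (XT.nd (nat_lit 1170) (nat_lit 1824) (nat_lit 0) (XT.nd (nat_lit 546) (nat_lit 1064) (nat_lit 0) (XT.nd (nat_lit 234) (nat_lit 608) (nat_lit 0) (XT.nd (nat_lit 78) (nat_lit 532) (nat_lit 0) (XT.lf (nat_lit 0) (nat_lit 6505298226) (nat_lit 228) (nat_lit 1403626246) (nat_lit 304) (nat_lit 3346546760) (nat_lit 126) (nat_lit 5) (nat_lit 129) (nat_lit 5) (nat_lit 130) (nat_lit 5) (nat_lit 463) (nat_lit 384) (nat_lit 353)) (XT.nd (nat_lit 78) (nat_lit 228) (nat_lit 0) (XT.lf (nat_lit 0) (nat_lit 907931023) (nat_lit 304) (nat_lit 7517523222) (nat_lit 76) (nat_lit 3010370880) (nat_lit 122) (nat_lit 5) (nat_lit 126) (nat_lit 5) (nat_lit 123) (nat_lit 5) (nat_lit 464) (nat_lit 384) (nat_lit 352)) (XT.lf (nat_lit 0) (nat_lit 1184100954) (nat_lit 228) (nat_lit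 4043734233) (nat_lit 304) (nat_lit 6392612875) (nat_lit 119) (nat_lit 5) (nat_lit 122) (nat_lit 5) (nat_lit 123) (nat_lit 5) (nat_lit 465) (nat_lit 384) (nat_lit 351)))) (XT.nd (nat_lit 156) (nat_lit 380) (nat_lit 0) (XT.nd (nat_lit 78) (nat_lit 228) (nat_lit 0) (XT.lf (nat_lit 0) (nat_lit 9690296917) (nat_lit 304) (nat_lit 1628729510) (nat_lit 76) (nat_lit 491198411) (nat_lit 119) (nat_lit 5) (nat_lit 123) (nat_lit 5) (nat_lit 120) (nat_lit 4) (nat_lit 466) (nat_lit 384) (nat_lit 350)) (XT.lf (nat_lit 0) (nat_lit 2282155757) (nat_lit 228) (nat_lit 4591170342) (nat_lit 76) (nat_lit 5130342955) (nat_lit 116) (nat_lit 5) (nat_lit 119) (nat_lit 5) (nat_lit 117) (nat_lit 5) (nat_lit 467) (nat_lit 384) (nat_lit 349))) (XT.nd (nat_lit 78) (nat_lit 152) (nat_lit 0) (XT.lf (nat_lit 0) (nat_lit 4509937573) (nat_lit 228) (nat_lit 2257694994) (nat_lit 304) (nat_lit 5434839801) (nat_lit 113) (nat_lit 5) (nat_lit 116) (nat_lit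 5) (nat_lit 117) (nat_lit 5) (nat_lit 468) (nat_lit 384) (nat_lit 348)) (XT.lf (nat_lit 0) (nat_lit 1463192317) (nat_lit 152) (nat_lit 9943742588) (nat_lit 228) (nat_lit 999730561) (nat_lit 111) (nat_lit 5) (nat_lit 113) (nat_lit 5) (nat_lit 114) (nat_lit 4) (nat_lit 469) (nat_lit 384) (nat_lit 347))))) (XT.nd (nat_lit 312) (nat_lit 380) (nat_lit 0) (XT.nd (nat_lit 156) (nat_lit 380) (nat_lit 0) (XT.nd (nat_lit 78) (nat_lit 228) (nat_lit 0) (XT.lf (nat_lit 0) (nat_lit 3534167892) (nat_lit 228) (nat_lit 1734241192) (nat_lit 76) (nat_lit 7346488467) (nat_lit 110) (nat_lit 5) (nat_lit 113) (nat_lit 5) (nat_lit 111) (nat_lit 5) (nat_lit 470) (nat_lit 384) (nat_lit 346)) (XT.lf (nat_lit 0) (nat_lit 7783106608) (nat_lit 228) (nat_lit 412171757) (nat_lit 304) (nat_lit 4633465844) (nat_lit 107) (nat_lit 5) (nat_lit 110) (nat_lit 5) (nat_lit 111) (nat_lit 5) (nat_lit 471) (nat_lit 384) (nat_lit 345))) (XT.nd (nat_lit 78)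 (nat_lit 228) (nat_lit 0) (XT.lf (nat_lit 0) (nat_lit 4506184237) (nat_lit 152) (nat_lit 8531988702) (nat_lit 228) (nat_lit 9577932) (nat_lit 105) (nat_lit 5) (nat_lit 107) (nat_lit 5) (nat_lit 108) (nat_lit 4) (nat_lit 472) (nat_lit 384) (nat_lit 344)) (XT.lf (nat_lit 0) (nat_lit 1035450699) (nat_lit 152) (nat_lit 3627313833) (nat_lit 228) (nat_lit 8609120883) (nat_lit 102) (nat_lit 5) (nat_lit 104) (nat_lit 5) (nat_lit 105) (nat_lit 5) (nat_lit 473) (nat_lit 384) (nat_lit 343)))) (XT.nd (nat_lit 156) (nat_lit 152) (nat_lit 0) (XT.nd (nat_lit 78) (nat_lit 228) (nat_lit 0) (XT.lf (nat_lit 0) (nat_lit 9513208102) (nat_lit 228) (nat_lit 2550927735) (nat_lit 76) (nat_lit 1437464476) (nat_lit 102) (nat_lit 5) (nat_lit 105) (nat_lit 5) (nat_lit 103) (nat_lit 4) (nat_lit 474) (nat_lit 384) (nat_lit 342)) (XT.lf (nat_lit 0) (nat_lit 802820833) (nat_lit 228) (nat_lit 6318309488) (nat_lit 76) (nat_lit 6615449506) (nat_lit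 99) (nat_lit 5) (nat_lit 102) (nat_lit 5) (nat_lit 100) (nat_lit 5) (nat_lit 475) (nat_lit 384) (nat_lit 341))) (XT.nd (nat_lit 78) (nat_lit 0) (nat_lit 0) (XT.lf (nat_lit 0) (nat_lit 3685245531) (nat_lit 152) (nat_lit 1973098729) (nat_lit 228) (nat_lit 8319060313) (nat_lit 97) (nat_lit 5) (nat_lit 99) (nat_lit 5) (nat_lit 100) (nat_lit 5) (nat_lit 476) (nat_lit 384) (nat_lit 340)) (XT.lf (nat_lit 0) (nat_lit 10695559022) (nat_lit 228) (nat_lit 245964525) (nat_lit 76) (nat_lit 3282852290) (nat_lit 97) (nat_lit 5) (nat_lit 100) (nat_lit 5) (nat_lit 98) (nat_lit 4) (nat_lit 477) (nat_lit 384) (nat_lit 339)))))) (XT.nd (nat_lit 546) (nat_lit 836) (nat_lit 0) (XT.nd (nat_lit 234) (nat_lit 456) (nat_lit 0) (XT.nd (nat_lit 78) (nat_lit 304) (nat_lit 0) (XT.lf (nat_lit 0) (nat_lit 1436990014) (nat_lit 228) (nat_lit 4315506859) (nat_lit 76) (nat_lit 8724078294) (nat_lit 94) (nat_lit 5) (nat_lit 97) (nat_lit 5) (nat_lit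 95) (nat_lit 5) (nat_lit 478) (nat_lit 384) (nat_lit 338)) (XT.nd (nat_lit 78) (nat_lit 152) (nat_lit 0) (XT.lf (nat_lit 0) (nat_lit 6128513923) (nat_lit 152) (nat_lit 355230022) (nat_lit 228) (nat_lit 8251463738) (nat_lit 92) (nat_lit 5) (nat_lit 94) (nat_lit 5) (nat_lit 95) (nat_lit 5) (nat_lit 479) (nat_lit 384) (nat_lit 337)) (XT.lf (nat_lit 0) (nat_lit 1854295953) (nat_lit 152) (nat_lit 9881199231) (nat_lit 228) (nat_lit 3264498409) (nat_lit 90) (nat_lit 5) (nat_lit 92) (nat_lit 5) (nat_lit 93) (nat_lit 4) (nat_lit 480) (nat_lit 384) (nat_lit 336)))) (XT.nd (nat_lit 156) (nat_lit 228) (nat_lit 0) (XT.nd (nat_lit 78) (nat_lit 152) (nat_lit 0) (XT.lf (nat_lit 0) (nat_lit 1868691165) (nat_lit 228) (nat_lit 2592530269) (nat_lit 76) (nat_lit 10809969524) (nat_lit 89) (nat_lit 5) (nat_lit 92) (nat_lit 5) (nat_lit 90) (nat_lit 5) (nat_lit 481) (nat_lit 384) (nat_lit 335)) (XT.lf (nat_lit 0) (nat_lit 7125088794) (nat_lit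 228) (nat_lit 7255852163) (nat_lit 76) (nat_lit 1167570935) (nat_lit 87) (nat_lit 5) (nat_lit 90) (nat_lit 5) (nat_lit 88) (nat_lit 4) (nat_lit 482) (nat_lit 384) (nat_lit 334))) (XT.nd (nat_lit 78) (nat_lit 76) (nat_lit 0) (XT.lf (nat_lit 0) (nat_lit 3648201470) (nat_lit 152) (nat_lit 8940435008) (nat_lit 228) (nat_lit 3244034240) (nat_lit 85) (nat_lit 5) (nat_lit 87) (nat_lit 5) (nat_lit 88) (nat_lit 4) (nat_lit 483) (nat_lit 384) (nat_lit 333)) (XT.lf (nat_lit 0) (nat_lit 2067821539) (nat_lit 228) (nat_lit 1218716952) (nat_lit 76) (nat_lit 12837678295) (nat_lit 84) (nat_lit 5) (nat_lit 87) (nat_lit 5) (nat_lit 85) (nat_lit 5) (nat_lit 484) (nat_lit 384) (nat_lit 332))))) (XT.nd (nat_lit 312) (nat_lit 380) (nat_lit 0) (XT.nd (nat_lit 156) (nat_lit 228) (nat_lit 0) (XT.nd (nat_lit 78) (nat_lit 76) (nat_lit 0) (XT.lf (nat_lit 0) (nat_lit 7542077701) (nat_lit 228) (nat_lit 6305553362) (nat_lit 76) (nat_lit 2573869038)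 (nat_lit 82) (nat_lit 5) (nat_lit 85) (nat_lit 5) (nat_lit 83) (nat_lit 4) (nat_lit 485) (nat_lit 384) (nat_lit 331)) (XT.lf (nat_lit 0) (nat_lit 5054202125) (nat_lit 76) (nat_lit 8165637405) (nat_lit 152) (nat_lit 3506685833) (nat_lit 81) (nat_lit 5) (nat_lit 82) (nat_lit 5) (nat_lit 83) (nat_lit 4) (nat_lit 486) (nat_lit 384) (nat_lit 330))) (XT.nd (nat_lit 78) (nat_lit 152) (nat_lit 0) (XT.lf (nat_lit 0) (nat_lit 1997799328) (nat_lit 152) (nat_lit 275061474) (nat_lit 76) (nat_lit 14766953895) (nat_lit 80) (nat_lit 5) (nat_lit 82) (nat_lit 5) (nat_lit 81) (nat_lit 5) (nat_lit 487) (nat_lit 384) (nat_lit 329)) (XT.lf (nat_lit 0) (nat_lit 7692947491) (nat_lit 228) (nat_lit 5839531539) (nat_lit 76) (nat_lit 3826103444) (nat_lit 78) (nat_lit 5) (nat_lit 81) (nat_lit 5) (nat_lit 79) (nat_lit 4) (nat_lit 488) (nat_lit 384) (nat_lit 328)))) (XT.nd (nat_lit 156) (nat_lit 76) (nat_lit 0) (XT.nd (nat_lit 78) (nat_lit 228)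 (nat_lit 0) (XT.lf (nat_lit 0) (nat_lit 5982580101) (nat_lit 76) (nat_lit 7606766527) (nat_lit 152) (nat_lit 4096656346) (nat_lit 77) (nat_lit 5) (nat_lit 78) (nat_lit 5) (nat_lit 79) (nat_lit 4) (nat_lit 489) (nat_lit 384) (nat_lit 327)) (XT.lf (nat_lit 0) (nat_lit 146586788) (nat_lit 152) (nat_lit 1469439706) (nat_lit 228) (nat_lit 16406489566) (nat_lit 74) (nat_lit 5) (nat_lit 76) (nat_lit 5) (nat_lit 77) (nat_lit 5) (nat_lit 490) (nat_lit 384) (nat_lit 326))) (XT.nd (nat_lit 78) (nat_lit 76) (nat_lit 0) (XT.lf (nat_lit 0) (nat_lit 7531573163) (nat_lit 228) (nat_lit 5959625652) (nat_lit 76) (nat_lit 4873295682) (nat_lit 74) (nat_lit 5) (nat_lit 77) (nat_lit 5) (nat_lit 75) (nat_lit 4) (nat_lit 491) (nat_lit 384) (nat_lit 325)) (XT.lf (nat_lit 0) (nat_lit 6328270101) (nat_lit 76) (nat_lit 7321045641) (nat_lit 152) (nat_lit 5066676068) (nat_lit 73) (nat_lit 5) (nat_lit 74) (nat_lit 5) (nat_lit 75) (nat_lit 4) (nat_lit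 492) (nat_lit 384) (nat_lit 324))))))) (XT.nd (nat_lit 1170) (nat_lit 988) (nat_lit 0) (XT.nd (nat_lit 546) (nat_lit 760) (nat_lit 0) (XT.nd (nat_lit 234) (nat_lit 304) (nat_lit 0) (XT.nd (nat_lit 78) (nat_lit 228) (nat_lit 0) (XT.lf (nat_lit 0) (nat_lit 865731033) (nat_lit 152) (nat_lit 73156333) (nat_lit 76) (nat_lit 18138590342) (nat_lit 72) (nat_lit 5) (nat_lit 74) (nat_lit 5) (nat_lit 73) (nat_lit 5) (nat_lit 493) (nat_lit 384) (nat_lit 323)) (XT.nd (nat_lit 78) (nat_lit 76) (nat_lit 0) (XT.lf (nat_lit 0) (nat_lit 7002871285) (nat_lit 228) (nat_lit 6784888010) (nat_lit 76) (nat_lit 5656687339) (nat_lit 70) (nat_lit 5) (nat_lit 73) (nat_lit 5) (nat_lit 71) (nat_lit 4) (nat_lit 494) (nat_lit 384) (nat_lit 322)) (XT.lf (nat_lit 0) (nat_lit 5968217461) (nat_lit 76) (nat_lit 7374360911) (nat_lit 152) (nat_lit 6479293929) (nat_lit 69) (nat_lit 5) (nat_lit 70) (nat_lit 5) (nat_lit 71) (nat_lit 4) (nat_lit 495) (nat_lit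 384) (nat_lit 321)))) (XT.nd (nat_lit 156) (nat_lit 76) (nat_lit 0) (XT.nd (nat_lit 78) (nat_lit 228) (nat_lit 0) (XT.lf (nat_lit 0) (nat_lit 19151611555) (nat_lit 76) (nat_lit 740967215) (nat_lit 152) (nat_lit 317440119) (nat_lit 69) (nat_lit 5) (nat_lit 70) (nat_lit 5) (nat_lit 71) (nat_lit 4) (nat_lit 496) (nat_lit 384) (nat_lit 320)) (XT.lf (nat_lit 0) (nat_lit 6041416023) (nat_lit 228) (nat_lit 8454503815) (nat_lit 76) (nat_lit 6108258486) (nat_lit 66) (nat_lit 5) (nat_lit 69) (nat_lit 5) (nat_lit 67) (nat_lit 4) (nat_lit 497) (nat_lit 384) (nat_lit 319))) (XT.nd (nat_lit 78) (nat_lit 0) (nat_lit 0) (XT.lf (nat_lit 0) (nat_lit 4758320079) (nat_lit 76) (nat_lit 7842865678) (nat_lit 152) (nat_lit 8408387764) (nat_lit 65) (nat_lit 5) (nat_lit 66) (nat_lit 5) (nat_lit 67) (nat_lit 4) (nat_lit 498) (nat_lit 384) (nat_lit 318)) (XT.lf (nat_lit 0) (nat_lit 18451918127) (nat_lit 76) (nat_lit 944386793) (nat_lit 152)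 (nat_lit 2029670045) (nat_lit 65) (nat_lit 5) (nat_lit 66) (nat_lit 5) (nat_lit 67) (nat_lit 4) (nat_lit 499) (nat_lit 384) (nat_lit 317))))) (XT.nd (nat_lit 312) (nat_lit 228) (nat_lit 0) (XT.nd (nat_lit 156) (nat_lit 228) (nat_lit 0) (XT.nd (nat_lit 78) (nat_lit 76) (nat_lit 0) (XT.lf (nat_lit 0) (nat_lit 4569822014) (nat_lit 228) (nat_lit 11131171705) (nat_lit 76) (nat_lit 6149026016) (nat_lit 62) (nat_lit 5) (nat_lit 65) (nat_lit 5) (nat_lit 63) (nat_lit 4) (nat_lit 500) (nat_lit 384) (nat_lit 316)) (XT.lf (nat_lit 0) (nat_lit 2529886240) (nat_lit 76) (nat_lit 8814824471) (nat_lit 152) (nat_lit 10940927066) (nat_lit 61) (nat_lit 5) (nat_lit 62) (nat_lit 5) (nat_lit 63) (nat_lit 4) (nat_lit 501) (nat_lit 384) (nat_lit 315))) (XT.nd (nat_lit 78) (nat_lit 228) (nat_lit 0) (XT.lf (nat_lit 0) (nat_lit 16742452574) (nat_lit 76) (nat_lit 1647506323) (nat_lit 152) (nat_lit 4342353037) (nat_lit 61) (nat_lit 5) (nat_lit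 62) (nat_lit 5) (nat_lit 63) (nat_lit 4) (nat_lit 502) (nat_lit 384) (nat_lit 314)) (XT.lf (nat_lit 0) (nat_lit 2496857863) (nat_lit 228) (nat_lit 15005020155) (nat_lit 76) (nat_lit 5687084385) (nat_lit 58) (nat_lit 5) (nat_lit 61) (nat_lit 5) (nat_lit 59) (nat_lit 4) (nat_lit 503) (nat_lit 384) (nat_lit 313)))) (XT.nd (nat_lit 156) (nat_lit 152) (nat_lit 0) (XT.nd (nat_lit 78) (nat_lit 76) (nat_lit 0) (XT.lf (nat_lit 0) (nat_lit 9487057459) (nat_lit 228) (nat_lit 896625673) (nat_lit 76) (nat_lit 13273347643) (nat_lit 58) (nat_lit 5) (nat_lit 61) (nat_lit 5) (nat_lit 59) (nat_lit 4) (nat_lit 504) (nat_lit 384) (nat_lit 312)) (XT.lf (nat_lit 0) (nat_lit 13822249699) (nat_lit 76) (nat_lit 2954564482) (nat_lit 152) (nat_lit 7359632335) (nat_lit 57) (nat_lit 5) (nat_lit 58) (nat_lit 5) (nat_lit 59) (nat_lit 4) (nat_lit 505) (nat_lit 384) (nat_lit 311))) (XT.nd (nat_lit 78) (nat_lit 76) (nat_lit 0) (XT.lf (nat_lit 0)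 (nat_lit 4327718174) (nat_lit 76) (nat_lit 20010519210) (nat_lit 76) (nat_lit 290418959) (nat_lit 56) (nat_lit 4) (nat_lit 57) (nat_lit 5) (nat_lit 57) (nat_lit 4) (nat_lit 506) (nat_lit 384) (nat_lit 310)) (XT.lf (nat_lit 0) (nat_lit 6946008973) (nat_lit 152) (nat_lit 5692300930) (nat_lit 76) (nat_lit 12492560668) (nat_lit 55) (nat_lit 5) (nat_lit 57) (nat_lit 5) (nat_lit 56) (nat_lit 4) (nat_lit 507) (nat_lit 384) (nat_lit 309)))))) (XT.nd (nat_lit 624) (nat_lit 456) (nat_lit 0) (XT.nd (nat_lit 312) (nat_lit 228) (nat_lit 0) (XT.nd (nat_lit 156) (nat_lit 228) (nat_lit 0) (XT.nd (nat_lit 78) (nat_lit 0) (nat_lit 0) (XT.lf (nat_lit 0) (nat_lit 9456017910) (nat_lit 76) (nat_lit 4986938455) (nat_lit 152) (nat_lit 11203631443) (nat_lit 54) (nat_lit 5) (nat_lit 55) (nat_lit 5) (nat_lit 56) (nat_lit 4) (nat_lit 508) (nat_lit 384) (nat_lit 308)) (XT.lf (nat_lit 0) (nat_lit 22209129076) (nat_lit 152) (nat_lit 1109272099)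 (nat_lit 0) (nat_lit 2858046615) (nat_lit 54) (nat_lit 5) (nat_lit 56) (nat_lit 4) (nat_lit 54) (nat_lit 4) (nat_lit 509) (nat_lit 384) (nat_lit 307))) (XT.nd (nat_lit 78) (nat_lit 76) (nat_lit 0) (XT.lf (nat_lit 0) (nat_lit 3568735697) (nat_lit 152) (nat_lit 12171052173) (nat_lit 76) (nat_lit 10976890732) (nat_lit 52) (nat_lit 5) (nat_lit 54) (nat_lit 5) (nat_lit 53) (nat_lit 4) (nat_lit 510) (nat_lit 384) (nat_lit 306)) (XT.lf (nat_lit 0) (nat_lit 3368465656) (nat_lit 76) (nat_lit 7886054413) (nat_lit 152) (nat_lit 16017316907) (nat_lit 51) (nat_lit 5) (nat_lit 52) (nat_lit 5) (nat_lit 53) (nat_lit 4) (nat_lit 511) (nat_lit 384) (nat_lit 305)))) (XT.nd (nat_lit 156) (nat_lit 152) (nat_lit 0) (XT.nd (nat_lit 78) (nat_lit 76) (nat_lit 0) (XT.lf (nat_lit 0) (nat_lit 19256720390) (nat_lit 152) (nat_lit 8297547824) (nat_lit 0) (nat_lit 286807266) (nat_lit 51) (nat_lit 5) (nat_lit 53) (nat_lit 4) (nat_lit 51) (nat_lit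 4) (nat_lit 512) (nat_lit 384) (nat_lit 304)) (XT.lf (nat_lit 0) (nat_lit 7774271298) (nat_lit 76) (nat_lit 19838465666) (nat_lit 76) (nat_lit 811242303) (nat_lit 50) (nat_lit 4) (nat_lit 51) (nat_lit 5) (nat_lit 51) (nat_lit 4) (nat_lit 513) (nat_lit 384) (nat_lit 303))) (XT.nd (nat_lit 78) (nat_lit 76) (nat_lit 0) (XT.lf (nat_lit 0) (nat_lit 7100253198) (nat_lit 152) (nat_lit 4669350379) (nat_lit 76) (nat_lit 17251324559) (nat_lit 49) (nat_lit 5) (nat_lit 51) (nat_lit 5) (nat_lit 50) (nat_lit 4) (nat_lit 514) (nat_lit 384) (nat_lit 302)) (XT.lf (nat_lit 0) (nat_lit 11941784402) (nat_lit 76) (nat_lit 3367904844) (nat_lit 152) (nat_lit 14323548816) (nat_lit 48) (nat_lit 5) (nat_lit 49) (nat_lit 5) (nat_lit 50) (nat_lit 4) (nat_lit 515) (nat_lit 384) (nat_lit 301))))) (XT.nd (nat_lit 312) (nat_lit 228) (nat_lit 0) (XT.nd (nat_lit 156) (nat_lit 76) (nat_lit 0) (XT.nd (nat_lit 78) (nat_lit 152) (nat_lit 0) (XT.lf (nat_lit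 0) (nat_lit 23826008717) (nat_lit 152) (nat_lit 1240501585) (nat_lit 0) (nat_lit 5195589537) (nat_lit 48) (nat_lit 5) (nat_lit 50) (nat_lit 4) (nat_lit 48) (nat_lit 4) (nat_lit 516) (nat_lit 384) (nat_lit 300)) (XT.lf (nat_lit 0) (nat_lit 1806082770) (nat_lit 152) (nat_lit 15013507471) (nat_lit 76) (nat_lit 14085220042) (nat_lit 46) (nat_lit 5) (nat_lit 48) (nat_lit 5) (nat_lit 47) (nat_lit 4) (nat_lit 517) (nat_lit 384) (nat_lit 299))) (XT.nd (nat_lit 78) (nat_lit 0) (nat_lit 0) (XT.lf (nat_lit 0) (nat_lit 1897672230) (nat_lit 76) (nat_lit 8262684493) (nat_lit 152) (nat_lit 21404708306) (nat_lit 45) (nat_lit 5) (nat_lit 46) (nat_lit 5) (nat_lit 47) (nat_lit 4) (nat_lit 518) (nat_lit 384) (nat_lit 298)) (XT.lf (nat_lit 0) (nat_lit 18887019835) (nat_lit 152) (nat_lit 12695057154) (nat_lit 0) (nat_lit 659398100) (nat_lit 45) (nat_lit 5) (nat_lit 47) (nat_lit 4) (nat_lit 45) (nat_lit 4) (nat_lit 519) (nat_lit 384)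 (nat_lit 297)))) (XT.nd (nat_lit 156) (nat_lit 76) (nat_lit 0) (XT.nd (nat_lit 78) (nat_lit 76) (nat_lit 0) (XT.lf (nat_lit 0) (nat_lit 4727343086) (nat_lit 76) (nat_lit 23239814929) (nat_lit 76) (nat_lit 4968269667) (nat_lit 44) (nat_lit 4) (nat_lit 45) (nat_lit 5) (nat_lit 45) (nat_lit 4) (nat_lit 520) (nat_lit 384) (nat_lit 296)) (XT.lf (nat_lit 0) (nat_lit 3691810290) (nat_lit 152) (nat_lit 10819814572) (nat_lit 76) (nat_lit 19134698824) (nat_lit 43) (nat_lit 5) (nat_lit 45) (nat_lit 5) (nat_lit 44) (nat_lit 4) (nat_lit 521) (nat_lit 384) (nat_lit 295))) (XT.nd (nat_lit 78) (nat_lit 0) (nat_lit 0) (XT.lf (nat_lit 0) (nat_lit 7112152413) (nat_lit 76) (nat_lit 5433534291) (nat_lit 152) (nat_lit 21830369046) (nat_lit 42) (nat_lit 5) (nat_lit 43) (nat_lit 5) (nat_lit 44) (nat_lit 4) (nat_lit 522) (nat_lit 384) (nat_lit 294)) (XT.lf (nat_lit 0) (nat_lit 21778704493) (nat_lit 152) (nat_lit 9426853671) (nat_lit 0)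 (nat_lit 3918716292) (nat_lit 42) (nat_lit 5) (nat_lit 44) (nat_lit 4) (nat_lit 42) (nat_lit 4) (nat_lit 523) (nat_lit 384) (nat_lit 293))))))))
noncomputable def xc62 : XT := (XT.nd (nat_lit 55224) (nat_lit 0) (nat_lit 8360) (XT.nd (nat_lit 1170) (nat_lit 608) (nat_lit 0) (XT.nd (nat_lit 546) (nat_lit 380) (nat_lit 0) (XT.nd (nat_lit 234) (nat_lit 228) (nat_lit 0) (XT.nd (nat_lit 78) (nat_lit 152) (nat_lit 0) (XT.lf (nat_lit 0) (nat_lit 9001539010) (nat_lit 76) (nat_lit 22394036140) (nat_lit 76) (nat_lit 4496159121) (nat_lit 41) (nat_lit 4) (nat_lit 42) (nat_lit 5) (nat_lit 42) (nat_lit 4) (nat_lit 524) (nat_lit 384) (nat_lit 292)) (XT.nd (nat_lit 78) (nat_lit 76) (nat_lit 0) (XT.lf (nat_lit 0) (nat_lit 4591299595) (nat_lit 152) (nat_lit 8614324102) (nat_lit 76) (nat_lit 23473381826) (nat_lit 40) (nat_lit 5) (nat_lit 42) (nat_lit 5) (nat_lit 41) (nat_lit 4) (nat_lit 525) (nat_lit 384) (nat_lit 291)) (XT.lf (nat_lit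 0) (nat_lit 10302613757) (nat_lit 76) (nat_lit 3624967466) (nat_lit 152) (nat_lit 23558981555) (nat_lit 39) (nat_lit 5) (nat_lit 40) (nat_lit 5) (nat_lit 41) (nat_lit 4) (nat_lit 526) (nat_lit 384) (nat_lit 290)))) (XT.nd (nat_lit 156) (nat_lit 152) (nat_lit 0) (XT.nd (nat_lit 78) (nat_lit 76) (nat_lit 0) (XT.lf (nat_lit 0) (nat_lit 23659386603) (nat_lit 152) (nat_lit 8476741697) (nat_lit 0) (nat_lit 6178755764) (nat_lit 39) (nat_lit 5) (nat_lit 41) (nat_lit 4) (nat_lit 39) (nat_lit 4) (nat_lit 527) (nat_lit 384) (nat_lit 289)) (XT.lf (nat_lit 0) (nat_lit 10906701976) (nat_lit 76) (nat_lit 22885694959) (nat_lit 76) (nat_lit 5372380891) (nat_lit 38) (nat_lit 4) (nat_lit 39) (nat_lit 5) (nat_lit 39) (nat_lit 4) (nat_lit 528) (nat_lit 384) (nat_lit 288))) (XT.nd (nat_lit 78) (nat_lit 76) (nat_lit 0) (XT.lf (nat_lit 0) (nat_lit 4162465122) (nat_lit 152) (nat_lit 9095241158) (nat_lit 76) (nat_lit 26779604892) (nat_lit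 37) (nat_lit 5) (nat_lit 39) (nat_lit 5) (nat_lit 38) (nat_lit 4) (nat_lit 529) (nat_lit 384) (nat_lit 287)) (XT.lf (nat_lit 0) (nat_lit 10738703864) (nat_lit 76) (nat_lit 3209353425) (nat_lit 152) (nat_lit 26984187394) (nat_lit 36) (nat_lit 5) (nat_lit 37) (nat_lit 5) (nat_lit 38) (nat_lit 4) (nat_lit 530) (nat_lit 384) (nat_lit 286))))) (XT.nd (nat_lit 312) (nat_lit 152) (nat_lit 0) (XT.nd (nat_lit 156) (nat_lit 152) (nat_lit 0) (XT.nd (nat_lit 78) (nat_lit 76) (nat_lit 0) (XT.lf (nat_lit 0) (nat_lit 24158097909) (nat_lit 152) (nat_lit 10626877312) (nat_lit 0) (nat_lit 7065124880) (nat_lit 36) (nat_lit 5) (nat_lit 38) (nat_lit 4) (nat_lit 36) (nat_lit 4) (nat_lit 531) (nat_lit 384) (nat_lit 285)) (XT.lf (nat_lit 0) (nat_lit 9624400066) (nat_lit 76) (nat_lit 25144708613) (nat_lit 76) (nat_lit 8023542745) (nat_lit 35) (nat_lit 4) (nat_lit 36) (nat_lit 5) (nat_lit 36) (nat_lit 4) (nat_lit 532) (nat_lit 384) (nat_lit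 284))) (XT.nd (nat_lit 78) (nat_lit 76) (nat_lit 0) (XT.lf (nat_lit 0) (nat_lit 1975979088) (nat_lit 152) (nat_lit 13137300007) (nat_lit 76) (nat_lit 28647279477) (nat_lit 34) (nat_lit 5) (nat_lit 36) (nat_lit 5) (nat_lit 35) (nat_lit 4) (nat_lit 533) (nat_lit 384) (nat_lit 283)) (XT.lf (nat_lit 0) (nat_lit 7504853779) (nat_lit 76) (nat_lit 4652764837) (nat_lit 152) (nat_lit 32596199455) (nat_lit 33) (nat_lit 5) (nat_lit 34) (nat_lit 5) (nat_lit 35) (nat_lit 4) (nat_lit 534) (nat_lit 384) (nat_lit 282)))) (XT.nd (nat_lit 156) (nat_lit 76) (nat_lit 0) (XT.nd (nat_lit 78) (nat_lit 76) (nat_lit 0) (XT.lf (nat_lit 0) (nat_lit 22808812723) (nat_lit 152) (nat_lit 16854242030) (nat_lit 0) (nat_lit 6108897717) (nat_lit 33) (nat_lit 5) (nat_lit 35) (nat_lit 4) (nat_lit 33) (nat_lit 4) (nat_lit 535) (nat_lit 384) (nat_lit 281)) (XT.lf (nat_lit 0) (nat_lit 4131771190) (nat_lit 76) (nat_lit 29705678581) (nat_lit 76) (nat_lit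 12981444184) (nat_lit 32) (nat_lit 4) (nat_lit 33) (nat_lit 5) (nat_lit 33) (nat_lit 4) (nat_lit 536) (nat_lit 384) (nat_lit 280))) (XT.nd (nat_lit 78) (nat_lit 76) (nat_lit 0) (XT.lf (nat_lit 0) (nat_lit 26038291066) (nat_lit 76) (nat_lit 19301260091) (nat_lit 76) (nat_lit 2553414634) (nat_lit 32) (nat_lit 4) (nat_lit 33) (nat_lit 5) (nat_lit 33) (nat_lit 4) (nat_lit 537) (nat_lit 384) (nat_lit 279)) (XT.lf (nat_lit 0) (nat_lit 8000637599) (nat_lit 152) (nat_lit 529474488) (nat_lit 76) (nat_lit 40467598399) (nat_lit 31) (nat_lit 5) (nat_lit 33) (nat_lit 5) (nat_lit 32) (nat_lit 4) (nat_lit 538) (nat_lit 384) (nat_lit 278)))))) (XT.nd (nat_lit 546) (nat_lit 304) (nat_lit 0) (XT.nd (nat_lit 234) (nat_lit 152) (nat_lit 0) (XT.nd (nat_lit 78) (nat_lit 76) (nat_lit 0) (XT.lf (nat_lit 0) (nat_lit 19029846160) (nat_lit 152) (nat_lit 28372758610) (nat_lit 0) (nat_lit 2725938875) (nat_lit 30) (nat_lit 5) (nat_lit 32) (nat_lit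 4) (nat_lit 30) (nat_lit 4) (nat_lit 539) (nat_lit 384) (nat_lit 277)) (XT.nd (nat_lit 78) (nat_lit 76) (nat_lit 0) (XT.lf (nat_lit 0) (nat_lit 30453549259) (nat_lit 152) (nat_lit 6709180369) (nat_lit 0) (nat_lit 14128663854) (nat_lit 30) (nat_lit 5) (nat_lit 32) (nat_lit 4) (nat_lit 30) (nat_lit 4) (nat_lit 540) (nat_lit 384) (nat_lit 276)) (XT.lf (nat_lit 0) (nat_lit 15863385620) (nat_lit 76) (nat_lit 26483592743) (nat_lit 76) (nat_lit 10138340230) (nat_lit 29) (nat_lit 4) (nat_lit 30) (nat_lit 5) (nat_lit 30) (nat_lit 4) (nat_lit 541) (nat_lit 384) (nat_lit 275)))) (XT.nd (nat_lit 156) (nat_lit 0) (nat_lit 0) (XT.nd (nat_lit 78) (nat_lit 76) (nat_lit 0) (XT.lf (nat_lit 0) (nat_lit 907893386) (nat_lit 152) (nat_lit 14522002829) (nat_lit 76) (nat_lit 38283622308) (nat_lit 28) (nat_lit 5) (nat_lit 30) (nat_lit 5) (nat_lit 29) (nat_lit 4) (nat_lit 542) (nat_lit 384) (nat_lit 274)) (XT.lf (nat_lit 0) (nat_lit 8252569841)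 (nat_lit 76) (nat_lit 3883781980) (nat_lit 152) (nat_lit 42837563197) (nat_lit 27) (nat_lit 5) (nat_lit 28) (nat_lit 5) (nat_lit 29) (nat_lit 4) (nat_lit 543) (nat_lit 384) (nat_lit 273))) (XT.nd (nat_lit 78) (nat_lit 0) (nat_lit 0) (XT.lf (nat_lit 0) (nat_lit 23902046167) (nat_lit 152) (nat_lit 24387129658) (nat_lit 0) (nat_lit 7976936318) (nat_lit 27) (nat_lit 5) (nat_lit 29) (nat_lit 4) (nat_lit 27) (nat_lit 4) (nat_lit 544) (nat_lit 384) (nat_lit 272)) (XT.lf (nat_lit 0) (nat_lit 36035185805) (nat_lit 152) (nat_lit 1468948225) (nat_lit 0) (nat_lit 20092507111) (nat_lit 27) (nat_lit 5) (nat_lit 29) (nat_lit 4) (nat_lit 27) (nat_lit 4) (nat_lit 545) (nat_lit 384) (nat_lit 271))))) (XT.nd (nat_lit 312) (nat_lit 76) (nat_lit 0) (XT.nd (nat_lit 156) (nat_lit 76) (nat_lit 0) (XT.nd (nat_lit 78) (nat_lit 76) (nat_lit 0) (XT.lf (nat_lit 0) (nat_lit 22530203423) (nat_lit 76) (nat_lit 26195409896) (nat_lit 76) (nat_lit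 10235674069) (nat_lit 26) (nat_lit 4) (nat_lit 27) (nat_lit 5) (nat_lit 27) (nat_lit 4) (nat_lit 546) (nat_lit 384) (nat_lit 270)) (XT.lf (nat_lit 0) (nat_lit 1393688268) (nat_lit 152) (nat_lit 13147108962) (nat_lit 76) (nat_lit 45825912331) (nat_lit 25) (nat_lit 5) (nat_lit 27) (nat_lit 5) (nat_lit 26) (nat_lit 4) (nat_lit 547) (nat_lit 384) (nat_lit 269))) (XT.nd (nat_lit 78) (nat_lit 0) (nat_lit 0) (XT.lf (nat_lit 0) (nat_lit 10901892898) (nat_lit 76) (nat_lit 2346514505) (nat_lit 152) (nat_lit 48560380786) (nat_lit 24) (nat_lit 5) (nat_lit 25) (nat_lit 5) (nat_lit 26) (nat_lit 4) (nat_lit 548) (nat_lit 384) (nat_lit 268)) (XT.lf (nat_lit 0) (nat_lit 25668447656) (nat_lit 152) (nat_lit 27492675510) (nat_lit 0) (nat_lit 10126715789) (nat_lit 24) (nat_lit 5) (nat_lit 26) (nat_lit 4) (nat_lit 24) (nat_lit 4) (nat_lit 549) (nat_lit 384) (nat_lit 267)))) (XT.nd (nat_lit 156) (nat_lit 0) (nat_lit 0) (XT.nd (nat_lit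 78) (nat_lit 76) (nat_lit 0) (XT.lf (nat_lit 0) (nat_lit 38462405164) (nat_lit 152) (nat_lit 3442857097) (nat_lit 0) (nat_lit 22905959665) (nat_lit 24) (nat_lit 5) (nat_lit 26) (nat_lit 4) (nat_lit 24) (nat_lit 4) (nat_lit 550) (nat_lit 384) (nat_lit 266)) (XT.lf (nat_lit 0) (nat_lit 21709766217) (nat_lit 76) (nat_lit 30117824316) (nat_lit 76) (nat_lit 14547093737) (nat_lit 23) (nat_lit 4) (nat_lit 24) (nat_lit 5) (nat_lit 24) (nat_lit 4) (nat_lit 551) (nat_lit 384) (nat_lit 265))) (XT.nd (nat_lit 52962) (nat_lit 0) (nat_lit 18392) (XT.lf (nat_lit 0) (nat_lit 47645632997) (nat_lit 76) (nat_lit 17961803046) (nat_lit 76) (nat_lit 2377203458) (nat_lit 23) (nat_lit 4) (nat_lit 24) (nat_lit 5) (nat_lit 24) (nat_lit 4) (nat_lit 552) (nat_lit 384) (nat_lit 264)) (XT.lf (nat_lit 0) (nat_lit 1600175086) (nat_lit 608) (nat_lit 1051101888) (nat_lit 608) (nat_lit 1051101888) (nat_lit 265) (nat_lit 4) (nat_lit 273) (nat_lit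 5) (nat_lit 273) (nat_lit 4) (nat_lit 430) (nat_lit 385) (nat_lit 385))))))) (XT.nd (nat_lit 1170) (nat_lit 3952) (nat_lit 0) (XT.nd (nat_lit 546) (nat_lit 3192) (nat_lit 0) (XT.nd (nat_lit 234) (nat_lit 1672) (nat_lit 0) (XT.nd (nat_lit 78) (nat_lit 608) (nat_lit 0) (XT.lf (nat_lit 0) (nat_lit 1534161054) (nat_lit 608) (nat_lit 5883148105) (nat_lit 0) (nat_lit 53938774) (nat_lit 257) (nat_lit 5) (nat_lit 265) (nat_lit 4) (nat_lit 257) (nat_lit 4) (nat_lit 431) (nat_lit 385) (nat_lit 384)) (XT.nd (nat_lit 78) (nat_lit 608) (nat_lit 0) (XT.lf (nat_lit 0) (nat_lit 5199700098) (nat_lit 608) (nat_lit 58185355) (nat_lit 0) (nat_lit 2282368809) (nat_lit 257) (nat_lit 5) (nat_lit 265) (nat_lit 4) (nat_lit 257) (nat_lit 4) (nat_lit 432) (nat_lit 385) (nat_lit 383)) (XT.lf (nat_lit 0) (nat_lit 1295558381) (nat_lit 608) (nat_lit 1682599239) (nat_lit 76) (nat_lit 4634045894) (nat_lit 249) (nat_lit 5) (nat_lit 257) (nat_lit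 5) (nat_lit 250) (nat_lit 4) (nat_lit 433) (nat_lit 385) (nat_lit 382)))) (XT.nd (nat_lit 156) (nat_lit 532) (nat_lit 0) (XT.nd (nat_lit 78) (nat_lit 608) (nat_lit 0) (XT.lf (nat_lit 0) (nat_lit 4358156316) (nat_lit 532) (nat_lit 580440799) (nat_lit 608) (nat_lit 2748686895) (nat_lit 242) (nat_lit 5) (nat_lit 249) (nat_lit 5) (nat_lit 250) (nat_lit 4) (nat_lit 434) (nat_lit 385) (nat_lit 381)) (XT.lf (nat_lit 0) (nat_lit 873781701) (nat_lit 608) (nat_lit 5005207759) (nat_lit 76) (nat_lit 1886407626) (nat_lit 234) (nat_lit 5) (nat_lit 242) (nat_lit 5) (nat_lit 235) (nat_lit 4) (nat_lit 435) (nat_lit 385) (nat_lit 380))) (XT.nd (nat_lit 78) (nat_lit 76) (nat_lit 0) (XT.lf (nat_lit 0) (nat_lit 1126296210) (nat_lit 456) (nat_lit 3378602153) (nat_lit 532) (nat_lit 3341495466) (nat_lit 228) (nat_lit 5) (nat_lit 234) (nat_lit 5) (nat_lit 235) (nat_lit 4) (nat_lit 436) (nat_lit 385) (nat_lit 379)) (XT.lf (nat_lit 0) (nat_lit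 265430807) (nat_lit 532) (nat_lit 506197242) (nat_lit 76) (nat_lit 7159420538) (nat_lit 227) (nat_lit 5) (nat_lit 234) (nat_lit 5) (nat_lit 228) (nat_lit 5) (nat_lit 437) (nat_lit 385) (nat_lit 378))))) (XT.nd (nat_lit 312) (nat_lit 1368) (nat_lit 0) (XT.nd (nat_lit 156) (nat_lit 912) (nat_lit 0) (XT.nd (nat_lit 78) (nat_lit 456) (nat_lit 0) (XT.lf (nat_lit 0) (nat_lit 3896953706) (nat_lit 532) (nat_lit 2177246865) (nat_lit 76) (nat_lit 1943555589) (nat_lit 221) (nat_lit 5) (nat_lit 228) (nat_lit 5) (nat_lit 222) (nat_lit 4) (nat_lit 438) (nat_lit 385) (nat_lit 377)) (XT.lf (nat_lit 0) (nat_lit 4239506282) (nat_lit 456) (nat_lit 3360983157) (nat_lit 532) (nat_lit 507695335) (nat_lit 215) (nat_lit 5) (nat_lit 221) (nat_lit 5) (nat_lit 222) (nat_lit 4) (nat_lit 439) (nat_lit 385) (nat_lit 376))) (XT.nd (nat_lit 78) (nat_lit 380) (nat_lit 0) (XT.lf (nat_lit 0) (nat_lit 2594984141) (nat_lit 456) (nat_lit 513401977)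 (nat_lit 532) (nat_lit 5093305666) (nat_lit 208) (nat_lit 5) (nat_lit 214) (nat_lit 5) (nat_lit 215) (nat_lit 5) (nat_lit 440) (nat_lit 385) (nat_lit 375)) (XT.lf (nat_lit 0) (nat_lit 905512135) (nat_lit 380) (nat_lit 5900029485) (nat_lit 456) (nat_lit 1492838534) (nat_lit 203) (nat_lit 5) (nat_lit 208) (nat_lit 5) (nat_lit 209) (nat_lit 4) (nat_lit 441) (nat_lit 385) (nat_lit 374)))) (XT.nd (nat_lit 156) (nat_lit 836) (nat_lit 0) (XT.nd (nat_lit 78) (nat_lit 456) (nat_lit 0) (XT.lf (nat_lit 0) (nat_lit 2146627549) (nat_lit 456) (nat_lit 814296693) (nat_lit 76) (nat_lit 5437189591) (nat_lit 202) (nat_lit 5) (nat_lit 208) (nat_lit 5) (nat_lit 203) (nat_lit 5) (nat_lit 442) (nat_lit 385) (nat_lit 373)) (XT.lf (nat_lit 0) (nat_lit 5838025814) (nat_lit 532) (nat_lit 2555057126) (nat_lit 76) (nat_lit 108140488) (nat_lit 196) (nat_lit 5) (nat_lit 203) (nat_lit 5) (nat_lit 197) (nat_lit 4) (nat_lit 443) (nat_lit 385) (nat_lit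 372))) (XT.nd (nat_lit 78) (nat_lit 380) (nat_lit 0) (XT.lf (nat_lit 0) (nat_lit 1006670336) (nat_lit 456) (nat_lit 4361626659) (nat_lit 76) (nat_lit 3239018341) (nat_lit 190) (nat_lit 5) (nat_lit 196) (nat_lit 5) (nat_lit 191) (nat_lit 5) (nat_lit 444) (nat_lit 385) (nat_lit 371)) (XT.lf (nat_lit 0) (nat_lit 2491731119) (nat_lit 380) (nat_lit 2207519521) (nat_lit 456) (nat_lit 4017573059) (nat_lit 185) (nat_lit 5) (nat_lit 190) (nat_lit 5) (nat_lit 191) (nat_lit 5) (nat_lit 445) (nat_lit 385) (nat_lit 370)))))) (XT.nd (nat_lit 624) (nat_lit 1824) (nat_lit 0) (XT.nd (nat_lit 312) (nat_lit 988) (nat_lit 0) (XT.nd (nat_lit 156) (nat_lit 760) (nat_lit 0) (XT.nd (nat_lit 78) (nat_lit 76) (nat_lit 0) (XT.lf (nat_lit 0) (nat_lit 696587784) (nat_lit 304) (nat_lit 7784410081) (nat_lit 380) (nat_lit 349276564) (nat_lit 181) (nat_lit 5) (nat_lit 185) (nat_lit 5) (nat_lit 186) (nat_lit 4) (nat_lit 446) (nat_lit 385) (nat_lit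 369)) (XT.lf (nat_lit 0) (nat_lit 3365105718) (nat_lit 380) (nat_lit 1165942536) (nat_lit 76) (nat_lit 4415011343) (nat_lit 180) (nat_lit 5) (nat_lit 185) (nat_lit 5) (nat_lit 181) (nat_lit 5) (nat_lit 447) (nat_lit 385) (nat_lit 368))) (XT.nd (nat_lit 78) (nat_lit 380) (nat_lit 0) (XT.lf (nat_lit 0) (nat_lit 6009313606) (nat_lit 380) (nat_lit 1152360783) (nat_lit 456) (nat_lit 1904214989) (nat_lit 175) (nat_lit 5) (nat_lit 180) (nat_lit 5) (nat_lit 181) (nat_lit 5) (nat_lit 448) (nat_lit 385) (nat_lit 367)) (XT.lf (nat_lit 0) (nat_lit 1841355502) (nat_lit 380) (nat_lit 5029944407) (nat_lit 76) (nat_lit 2317620665) (nat_lit 170) (nat_lit 5) (nat_lit 175) (nat_lit 5) (nat_lit 171) (nat_lit 5) (nat_lit 449) (nat_lit 385) (nat_lit 366)))) (XT.nd (nat_lit 156) (nat_lit 304) (nat_lit 0) (XT.nd (nat_lit 78) (nat_lit 380) (nat_lit 0) (XT.lf (nat_lit 0) (nat_lit 2235326744) (nat_lit 304) (nat_lit 3411081518) (nat_lit 380)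 (nat_lit 3669114567) (nat_lit 166) (nat_lit 5) (nat_lit 170) (nat_lit 5) (nat_lit 171) (nat_lit 5) (nat_lit 450) (nat_lit 385) (nat_lit 365)) (XT.lf (nat_lit 0) (nat_lit 94552548) (nat_lit 380) (nat_lit 9184592480) (nat_lit 76) (nat_lit 167434597) (nat_lit 161) (nat_lit 5) (nat_lit 166) (nat_lit 5) (nat_lit 162) (nat_lit 5) (nat_lit 451) (nat_lit 385) (nat_lit 364))) (XT.nd (nat_lit 78) (nat_lit 304) (nat_lit 0) (XT.lf (nat_lit 0) (nat_lit 3925880405) (nat_lit 380) (nat_lit 1798537612) (nat_lit 76) (nat_lit 3855212127) (nat_lit 161) (nat_lit 5) (nat_lit 166) (nat_lit 5) (nat_lit 162) (nat_lit 5) (nat_lit 452) (nat_lit 385) (nat_lit 363)) (XT.lf (nat_lit 0) (nat_lit 5807988541) (nat_lit 304) (nat_lit 2044765450) (nat_lit 380) (nat_lit 1864506561) (nat_lit 157) (nat_lit 5) (nat_lit 161) (nat_lit 5) (nat_lit 162) (nat_lit 5) (nat_lit 453) (nat_lit 385) (nat_lit 362))))) (XT.nd (nat_lit 312) (nat_lit 836) (nat_lit 0)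 (XT.nd (nat_lit 156) (nat_lit 304) (nat_lit 0) (XT.nd (nat_lit 78) (nat_lit 304) (nat_lit 0) (XT.lf (nat_lit 0) (nat_lit 1995384417) (nat_lit 380) (nat_lit 6116296611) (nat_lit 76) (nat_lit 1746854763) (nat_lit 152) (nat_lit 5) (nat_lit 157) (nat_lit 5) (nat_lit 153) (nat_lit 5) (nat_lit 454) (nat_lit 385) (nat_lit 361)) (XT.lf (nat_lit 0) (nat_lit 1576708642) (nat_lit 304) (nat_lit 4357998413) (nat_lit 380) (nat_lit 4068761123) (nat_lit 148) (nat_lit 5) (nat_lit 152) (nat_lit 5) (nat_lit 153) (nat_lit 5) (nat_lit 455) (nat_lit 385) (nat_lit 360))) (XT.nd (nat_lit 78) (nat_lit 304) (nat_lit 0) (XT.lf (nat_lit 0) (nat_lit 9511485726) (nat_lit 304) (nat_lit 469387906) (nat_lit 380) (nat_lit 172220795) (nat_lit 148) (nat_lit 5) (nat_lit 152) (nat_lit 5) (nat_lit 153) (nat_lit 5) (nat_lit 456) (nat_lit 385) (nat_lit 359)) (XT.lf (nat_lit 0) (nat_lit 3800105723) (nat_lit 304) (nat_lit 2969274618) (nat_lit 76) (nat_lit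 3535711506) (nat_lit 144) (nat_lit 5) (nat_lit 148) (nat_lit 5) (nat_lit 145) (nat_lit 5) (nat_lit 457) (nat_lit 385) (nat_lit 358)))) (XT.nd (nat_lit 156) (nat_lit 228) (nat_lit 0) (XT.nd (nat_lit 78) (nat_lit 304) (nat_lit 0) (XT.lf (nat_lit 0) (nat_lit 5083925281) (nat_lit 304) (nat_lit 2793223519) (nat_lit 380) (nat_lit 2584784312) (nat_lit 140) (nat_lit 5) (nat_lit 144) (nat_lit 5) (nat_lit 145) (nat_lit 5) (nat_lit 458) (nat_lit 385) (nat_lit 357)) (XT.lf (nat_lit 0) (nat_lit 1423364879) (nat_lit 304) (nat_lit 7893460281) (nat_lit 76) (nat_lit 1306279604) (nat_lit 136) (nat_lit 5) (nat_lit 140) (nat_lit 5) (nat_lit 137) (nat_lit 5) (nat_lit 459) (nat_lit 385) (nat_lit 356))) (XT.nd (nat_lit 78) (nat_lit 0) (nat_lit 0) (XT.lf (nat_lit 0) (nat_lit 240180916) (nat_lit 228) (nat_lit 5274249646) (nat_lit 304) (nat_lit 5273479409) (nat_lit 133) (nat_lit 5) (nat_lit 136) (nat_lit 5) (nat_lit 137) (nat_lit 5) (nat_lit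 460) (nat_lit 385) (nat_lit 355)) (XT.lf (nat_lit 0) (nat_lit 8666748787) (nat_lit 228) (nat_lit 1071961121) (nat_lit 304) (nat_lit 1218639708) (nat_lit 133) (nat_lit 5) (nat_lit 136) (nat_lit 5) (nat_lit 137) (nat_lit 5) (nat_lit 461) (nat_lit 385) (nat_lit 354))))))))
noncomputable def xc63 : XT := (XT.nd (nat_lit 2340) (nat_lit 2356) (nat_lit 0) (XT.nd (nat_lit 1170) (nat_lit 1900) (nat_lit 0) (XT.nd (nat_lit 546) (nat_lit 1064) (nat_lit 0) (XT.nd (nat_lit 234) (nat_lit 684) (nat_lit 0) (XT.nd (nat_lit 78) (nat_lit 532) (nat_lit 0) (XT.lf (nat_lit 0) (nat_lit 2923563477) (nat_lit 304) (nat_lit 4967281224) (nat_lit 76) (nat_lit 3239476135) (nat_lit 129) (nat_lit 5) (nat_lit 133) (nat_lit 5) (nat_lit 130) (nat_lit 5) (nat_lit 462) (nat_lit 385) (nat_lit 353)) (XT.nd (nat_lit 78) (nat_lit 304) (nat_lit 0) (XT.lf (nat_lit 0) (nat_lit 3544238799) (nat_lit 228) (nat_lit 3621971022) (nat_lit 304) (nat_lit 4141893614)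 (nat_lit 126) (nat_lit 5) (nat_lit 129) (nat_lit 5) (nat_lit 130) (nat_lit 5) (nat_lit 463) (nat_lit 385) (nat_lit 352)) (XT.lf (nat_lit 0) (nat_lit 43115216) (nat_lit 304) (nat_lit 10672372544) (nat_lit 76) (nat_lit 775750611) (nat_lit 122) (nat_lit 5) (nat_lit 126) (nat_lit 5) (nat_lit 123) (nat_lit 5) (nat_lit 464) (nat_lit 385) (nat_lit 351)))) (XT.nd (nat_lit 156) (nat_lit 456) (nat_lit 0) (XT.nd (nat_lit 78) (nat_lit 228) (nat_lit 0) (XT.lf (nat_lit 0) (nat_lit 4318795896) (nat_lit 304) (nat_lit 2049119216) (nat_lit 76) (nat_lit 5309274853) (nat_lit 122) (nat_lit 5) (nat_lit 126) (nat_lit 5) (nat_lit 123) (nat_lit 5) (nat_lit 465) (nat_lit 385) (nat_lit 350)) (XT.lf (nat_lit 0) (nat_lit 6857730845) (nat_lit 228) (nat_lit 1866211032) (nat_lit 304) (nat_lit 3144746231) (nat_lit 119) (nat_lit 5) (nat_lit 122) (nat_lit 5) (nat_lit 123) (nat_lit 5) (nat_lit 466) (nat_lit 385) (nat_lit 349))) (XT.nd (nat_lit 78)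 (nat_lit 228) (nat_lit 0) (XT.lf (nat_lit 0) (nat_lit 1193385123) (nat_lit 228) (nat_lit 8127638273) (nat_lit 76) (nat_lit 2743924756) (nat_lit 116) (nat_lit 5) (nat_lit 119) (nat_lit 5) (nat_lit 117) (nat_lit 5) (nat_lit 467) (nat_lit 385) (nat_lit 348)) (XT.lf (nat_lit 0) (nat_lit 848044154) (nat_lit 228) (nat_lit 4764041055) (nat_lit 304) (nat_lit 6653671294) (nat_lit 113) (nat_lit 5) (nat_lit 116) (nat_lit 5) (nat_lit 117) (nat_lit 5) (nat_lit 468) (nat_lit 385) (nat_lit 347))))) (XT.nd (nat_lit 312) (nat_lit 456) (nat_lit 0) (XT.nd (nat_lit 156) (nat_lit 380) (nat_lit 0) (XT.nd (nat_lit 78) (nat_lit 228) (nat_lit 0) (XT.lf (nat_lit 0) (nat_lit 10151123175) (nat_lit 228) (nat_lit 31020503) (nat_lit 304) (nat_lit 2289884922) (nat_lit 113) (nat_lit 5) (nat_lit 116) (nat_lit 5) (nat_lit 117) (nat_lit 5) (nat_lit 469) (nat_lit 385) (nat_lit 346)) (XT.lf (nat_lit 0) (nat_lit 2214617393) (nat_lit 228) (nat_lit 5671905811)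 (nat_lit 76) (nat_lit 4795748271) (nat_lit 110) (nat_lit 5) (nat_lit 113) (nat_lit 5) (nat_lit 111) (nat_lit 5) (nat_lit 470) (nat_lit 385) (nat_lit 345))) (XT.nd (nat_lit 78) (nat_lit 152) (nat_lit 0) (XT.lf (nat_lit 0) (nat_lit 3713350879) (nat_lit 228) (nat_lit 3092873241) (nat_lit 304) (nat_lit 6091980667) (nat_lit 107) (nat_lit 5) (nat_lit 110) (nat_lit 5) (nat_lit 111) (nat_lit 5) (nat_lit 471) (nat_lit 385) (nat_lit 344)) (XT.lf (nat_lit 0) (nat_lit 256971479) (nat_lit 152) (nat_lit 11295320412) (nat_lit 228) (nat_lit 1567825859) (nat_lit 105) (nat_lit 5) (nat_lit 107) (nat_lit 5) (nat_lit 108) (nat_lit 4) (nat_lit 472) (nat_lit 385) (nat_lit 343)))) (XT.nd (nat_lit 156) (nat_lit 228) (nat_lit 0) (XT.nd (nat_lit 78) (nat_lit 152) (nat_lit 0) (XT.lf (nat_lit 0) (nat_lit 3094838144) (nat_lit 228) (nat_lit 3344286009) (nat_lit 76) (nat_lit 6906781480) (nat_lit 104) (nat_lit 5) (nat_lit 107) (nat_lit 5) (nat_lit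 105) (nat_lit 5) (nat_lit 473) (nat_lit 385) (nat_lit 342)) (XT.lf (nat_lit 0) (nat_lit 6466481987) (nat_lit 152) (nat_lit 1402161535) (nat_lit 228) (nat_lit 5709277523) (nat_lit 102) (nat_lit 5) (nat_lit 104) (nat_lit 5) (nat_lit 105) (nat_lit 5) (nat_lit 474) (nat_lit 385) (nat_lit 341))) (XT.nd (nat_lit 78) (nat_lit 76) (nat_lit 0) (XT.lf (nat_lit 0) (nat_lit 2736282001) (nat_lit 152) (nat_lit 10087102459) (nat_lit 228) (nat_lit 992383515) (nat_lit 100) (nat_lit 5) (nat_lit 102) (nat_lit 5) (nat_lit 103) (nat_lit 4) (nat_lit 475) (nat_lit 385) (nat_lit 340)) (XT.lf (nat_lit 0) (nat_lit 3818048288) (nat_lit 228) (nat_lit 1189919417) (nat_lit 76) (nat_lit 9050846149) (nat_lit 99) (nat_lit 5) (nat_lit 102) (nat_lit 5) (nat_lit 100) (nat_lit 5) (nat_lit 476) (nat_lit 385) (nat_lit 339)))))) (XT.nd (nat_lit 546) (nat_lit 988) (nat_lit 0) (XT.nd (nat_lit 234) (nat_lit 380) (nat_lit 0) (XT.nd (nat_lit 78) (nat_lit 380)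 (nat_lit 0) (XT.lf (nat_lit 0) (nat_lit 8785415547) (nat_lit 228) (nat_lit 5249037264) (nat_lit 76) (nat_lit 273428949) (nat_lit 97) (nat_lit 5) (nat_lit 100) (nat_lit 5) (nat_lit 98) (nat_lit 4) (nat_lit 477) (nat_lit 385) (nat_lit 338)) (XT.nd (nat_lit 78) (nat_lit 228) (nat_lit 0) (XT.lf (nat_lit 0) (nat_lit 5021687476) (nat_lit 152) (nat_lit 8933161877) (nat_lit 228) (nat_lit 607983380) (nat_lit 95) (nat_lit 5) (nat_lit 97) (nat_lit 5) (nat_lit 98) (nat_lit 4) (nat_lit 478) (nat_lit 385) (nat_lit 337)) (XT.lf (nat_lit 0) (nat_lit 753520965) (nat_lit 152) (nat_lit 3617457502) (nat_lit 228) (nat_lit 10453052905) (nat_lit 92) (nat_lit 5) (nat_lit 94) (nat_lit 5) (nat_lit 95) (nat_lit 5) (nat_lit 479) (nat_lit 385) (nat_lit 336)))) (XT.nd (nat_lit 156) (nat_lit 228) (nat_lit 0) (XT.nd (nat_lit 78) (nat_lit 152) (nat_lit 0) (XT.lf (nat_lit 0) (nat_lit 9545681443) (nat_lit 228) (nat_lit 3664783834) (nat_lit 76) (nat_lit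 1880664534) (nat_lit 92) (nat_lit 5) (nat_lit 95) (nat_lit 5) (nat_lit 93) (nat_lit 4) (nat_lit 480) (nat_lit 385) (nat_lit 335)) (XT.lf (nat_lit 0) (nat_lit 7055571446) (nat_lit 152) (nat_lit 7868774327) (nat_lit 228) (nat_lit 440435952) (nat_lit 90) (nat_lit 5) (nat_lit 92) (nat_lit 5) (nat_lit 93) (nat_lit 4) (nat_lit 481) (nat_lit 385) (nat_lit 334))) (XT.nd (nat_lit 78) (nat_lit 0) (nat_lit 0) (XT.lf (nat_lit 0) (nat_lit 2428312205) (nat_lit 152) (nat_lit 2301314850) (nat_lit 228) (nat_lit 10915451479) (nat_lit 87) (nat_lit 5) (nat_lit 89) (nat_lit 5) (nat_lit 90) (nat_lit 5) (nat_lit 482) (nat_lit 385) (nat_lit 333)) (XT.lf (nat_lit 0) (nat_lit 10109096500) (nat_lit 228) (nat_lit 2410917841) (nat_lit 76) (nat_lit 3411746326) (nat_lit 87) (nat_lit 5) (nat_lit 90) (nat_lit 5) (nat_lit 88) (nat_lit 4) (nat_lit 483) (nat_lit 385) (nat_lit 332))))) (XT.nd (nat_lit 312) (nat_lit 532) (nat_lit 0) (XT.nd (nat_lit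 156) (nat_lit 76) (nat_lit 0) (XT.nd (nat_lit 78) (nat_lit 228) (nat_lit 0) (XT.lf (nat_lit 0) (nat_lit 8770623971) (nat_lit 152) (nat_lit 6933427400) (nat_lit 228) (nat_lit 521370746) (nat_lit 85) (nat_lit 5) (nat_lit 87) (nat_lit 5) (nat_lit 88) (nat_lit 4) (nat_lit 484) (nat_lit 385) (nat_lit 331)) (XT.lf (nat_lit 0) (nat_lit 3738149566) (nat_lit 152) (nat_lit 1112063753) (nat_lit 228) (nat_lit 11676028722) (nat_lit 82) (nat_lit 5) (nat_lit 84) (nat_lit 5) (nat_lit 85) (nat_lit 5) (nat_lit 485) (nat_lit 385) (nat_lit 330))) (XT.nd (nat_lit 78) (nat_lit 76) (nat_lit 0) (XT.lf (nat_lit 0) (nat_lit 10442743704) (nat_lit 228) (nat_lit 1564128717) (nat_lit 76) (nat_lit 4826952675) (nat_lit 82) (nat_lit 5) (nat_lit 85) (nat_lit 5) (nat_lit 83) (nat_lit 4) (nat_lit 486) (nat_lit 385) (nat_lit 329)) (XT.lf (nat_lit 0) (nat_lit 10088080305) (nat_lit 76) (nat_lit 6171794024) (nat_lit 152) (nat_lit 889058268) (nat_lit 81)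 (nat_lit 5) (nat_lit 82) (nat_lit 5) (nat_lit 83) (nat_lit 4) (nat_lit 487) (nat_lit 385) (nat_lit 328)))) (XT.nd (nat_lit 156) (nat_lit 304) (nat_lit 0) (XT.nd (nat_lit 78) (nat_lit 0) (nat_lit 0) (XT.lf (nat_lit 0) (nat_lit 4598128410) (nat_lit 152) (nat_lit 95742741) (nat_lit 228) (nat_lit 12777973412) (nat_lit 78) (nat_lit 5) (nat_lit 80) (nat_lit 5) (nat_lit 81) (nat_lit 5) (nat_lit 488) (nat_lit 385) (nat_lit 327)) (XT.lf (nat_lit 0) (nat_lit 10506771024) (nat_lit 228) (nat_lit 1214020993) (nat_lit 76) (nat_lit 6080978783) (nat_lit 78) (nat_lit 5) (nat_lit 81) (nat_lit 5) (nat_lit 79) (nat_lit 4) (nat_lit 489) (nat_lit 385) (nat_lit 326))) (XT.nd (nat_lit 78) (nat_lit 228) (nat_lit 0) (XT.lf (nat_lit 0) (nat_lit 10915688345) (nat_lit 76) (nat_lit 5634834565) (nat_lit 152) (nat_lit 1589379455) (nat_lit 77) (nat_lit 5) (nat_lit 78) (nat_lit 5) (nat_lit 79) (nat_lit 4) (nat_lit 490) (nat_lit 385) (nat_lit 325))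 (XT.lf (nat_lit 0) (nat_lit 4220663501) (nat_lit 228) (nat_lit 13584410856) (nat_lit 76) (nat_lit 681361029) (nat_lit 74) (nat_lit 5) (nat_lit 77) (nat_lit 5) (nat_lit 75) (nat_lit 4) (nat_lit 491) (nat_lit 385) (nat_lit 324))))))) (XT.nd (nat_lit 1170) (nat_lit 1064) (nat_lit 0) (XT.nd (nat_lit 546) (nat_lit 684) (nat_lit 0) (XT.nd (nat_lit 234) (nat_lit 304) (nat_lit 0) (XT.nd (nat_lit 78) (nat_lit 304) (nat_lit 0) (XT.lf (nat_lit 0) (nat_lit 10253350571) (nat_lit 228) (nat_lit 1465358707) (nat_lit 76) (nat_lit 7121775759) (nat_lit 74) (nat_lit 5) (nat_lit 77) (nat_lit 5) (nat_lit 75) (nat_lit 4) (nat_lit 492) (nat_lit 385) (nat_lit 323)) (XT.nd (nat_lit 78) (nat_lit 228) (nat_lit 0) (XT.lf (nat_lit 0) (nat_lit 11145359647) (nat_lit 76) (nat_lit 5381051571) (nat_lit 152) (nat_lit 2676964498) (nat_lit 73) (nat_lit 5) (nat_lit 74) (nat_lit 5) (nat_lit 75) (nat_lit 4) (nat_lit 493) (nat_lit 385) (nat_lit 322)) (XT.lf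 (nat_lit 0) (nat_lit 3366536178) (nat_lit 228) (nat_lit 15033164608) (nat_lit 76) (nat_lit 1175792757) (nat_lit 70) (nat_lit 5) (nat_lit 73) (nat_lit 5) (nat_lit 71) (nat_lit 4) (nat_lit 494) (nat_lit 385) (nat_lit 321)))) (XT.nd (nat_lit 156) (nat_lit 228) (nat_lit 0) (XT.nd (nat_lit 78) (nat_lit 76) (nat_lit 0) (XT.lf (nat_lit 0) (nat_lit 9625457596) (nat_lit 228) (nat_lit 2440660843) (nat_lit 76) (nat_lit 7889224938) (nat_lit 70) (nat_lit 5) (nat_lit 73) (nat_lit 5) (nat_lit 71) (nat_lit 4) (nat_lit 495) (nat_lit 385) (nat_lit 320)) (XT.lf (nat_lit 0) (nat_lit 10650451774) (nat_lit 76) (nat_lit 5477924522) (nat_lit 152) (nat_lit 4216526701) (nat_lit 69) (nat_lit 5) (nat_lit 70) (nat_lit 5) (nat_lit 71) (nat_lit 4) (nat_lit 496) (nat_lit 385) (nat_lit 319))) (XT.nd (nat_lit 78) (nat_lit 0) (nat_lit 0) (XT.lf (nat_lit 0) (nat_lit 2064053707) (nat_lit 228) (nat_lit 17360229260) (nat_lit 76) (nat_lit 1320535255)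 (nat_lit 66) (nat_lit 5) (nat_lit 69) (nat_lit 5) (nat_lit 67) (nat_lit 4) (nat_lit 497) (nat_lit 385) (nat_lit 318)) (XT.lf (nat_lit 0) (nat_lit 8555441772) (nat_lit 228) (nat_lit 4283205339) (nat_lit 76) (nat_lit 8313618290) (nat_lit 66) (nat_lit 5) (nat_lit 69) (nat_lit 5) (nat_lit 67) (nat_lit 4) (nat_lit 498) (nat_lit 385) (nat_lit 317))))) (XT.nd (nat_lit 312) (nat_lit 304) (nat_lit 0) (XT.nd (nat_lit 156) (nat_lit 76) (nat_lit 0) (XT.nd (nat_lit 78) (nat_lit 228) (nat_lit 0) (XT.lf (nat_lit 0) (nat_lit 9282621571) (nat_lit 76) (nat_lit 6003556041) (nat_lit 152) (nat_lit 6284421247) (nat_lit 65) (nat_lit 5) (nat_lit 66) (nat_lit 5) (nat_lit 67) (nat_lit 4) (nat_lit 499) (nat_lit 385) (nat_lit 316)) (XT.lf (nat_lit 0) (nat_lit 234689619) (nat_lit 228) (nat_lit 20730418981) (nat_lit 76) (nat_lit 1035664696) (nat_lit 62) (nat_lit 5) (nat_lit 65) (nat_lit 5) (nat_lit 63) (nat_lit 4) (nat_lit 500) (nat_lit 385)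 (nat_lit 315))) (XT.nd (nat_lit 78) (nat_lit 76) (nat_lit 0) (XT.lf (nat_lit 0) (nat_lit 6963358677) (nat_lit 228) (nat_lit 7160508278) (nat_lit 76) (nat_lit 8313911444) (nat_lit 62) (nat_lit 5) (nat_lit 65) (nat_lit 5) (nat_lit 63) (nat_lit 4) (nat_lit 501) (nat_lit 385) (nat_lit 314)) (XT.lf (nat_lit 0) (nat_lit 6868179458) (nat_lit 76) (nat_lit 7048565728) (nat_lit 152) (nat_lit 8970463679) (nat_lit 61) (nat_lit 5) (nat_lit 62) (nat_lit 5) (nat_lit 63) (nat_lit 4) (nat_lit 502) (nat_lit 385) (nat_lit 313)))) (XT.nd (nat_lit 156) (nat_lit 76) (nat_lit 0) (XT.nd (nat_lit 78) (nat_lit 228) (nat_lit 0) (XT.lf (nat_lit 0) (nat_lit 21110989914) (nat_lit 152) (nat_lit 1968899206) (nat_lit 0) (nat_lit 269266331) (nat_lit 61) (nat_lit 5) (nat_lit 63) (nat_lit 4) (nat_lit 61) (nat_lit 4) (nat_lit 503) (nat_lit 385) (nat_lit 312)) (XT.lf (nat_lit 0) (nat_lit 4755024144) (nat_lit 228) (nat_lit 11268355343) (nat_lit 76) (nat_lit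 7795710732) (nat_lit 58) (nat_lit 5) (nat_lit 61) (nat_lit 5) (nat_lit 59) (nat_lit 4) (nat_lit 504) (nat_lit 385) (nat_lit 311))) (XT.nd (nat_lit 78) (nat_lit 0) (nat_lit 0) (XT.lf (nat_lit 0) (nat_lit 3203863816) (nat_lit 76) (nat_lit 8718273298) (nat_lit 152) (nat_lit 12380048567) (nat_lit 57) (nat_lit 5) (nat_lit 58) (nat_lit 5) (nat_lit 59) (nat_lit 4) (nat_lit 505) (nat_lit 385) (nat_lit 310)) (XT.lf (nat_lit 0) (nat_lit 18261934867) (nat_lit 76) (nat_lit 1114807130) (nat_lit 152) (nat_lit 5420858455) (nat_lit 57) (nat_lit 5) (nat_lit 58) (nat_lit 5) (nat_lit 59) (nat_lit 4) (nat_lit 506) (nat_lit 385) (nat_lit 309)))))) (XT.nd (nat_lit 624) (nat_lit 456) (nat_lit 0) (XT.nd (nat_lit 312) (nat_lit 304) (nat_lit 0) (XT.nd (nat_lit 156) (nat_lit 152) (nat_lit 0) (XT.nd (nat_lit 78) (nat_lit 0) (nat_lit 0) (XT.lf (nat_lit 0) (nat_lit 1819748061) (nat_lit 152) (nat_lit 16835474818) (nat_lit 76) (nat_lit 6648949725)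 (nat_lit 55) (nat_lit 5) (nat_lit 57) (nat_lit 5) (nat_lit 56) (nat_lit 4) (nat_lit 507) (nat_lit 385) (nat_lit 308)) (XT.lf (nat_lit 0) (nat_lit 9205886772) (nat_lit 152) (nat_lit 1910044656) (nat_lit 76) (nat_lit 14707283035) (nat_lit 55) (nat_lit 5) (nat_lit 57) (nat_lit 5) (nat_lit 56) (nat_lit 4) (nat_lit 508) (nat_lit 385) (nat_lit 307))) (XT.nd (nat_lit 78) (nat_lit 76) (nat_lit 0) (XT.lf (nat_lit 0) (nat_lit 13653968599) (nat_lit 76) (nat_lit 3251647990) (nat_lit 152) (nat_lit 9449451493) (nat_lit 54) (nat_lit 5) (nat_lit 55) (nat_lit 5) (nat_lit 56) (nat_lit 4) (nat_lit 509) (nat_lit 385) (nat_lit 306)) (XT.lf (nat_lit 0) (nat_lit 2752984668) (nat_lit 76) (nat_lit 22136736345) (nat_lit 76) (nat_lit 2011555511) (nat_lit 53) (nat_lit 4) (nat_lit 54) (nat_lit 5) (nat_lit 54) (nat_lit 4) (nat_lit 510) (nat_lit 385) (nat_lit 305)))) (XT.nd (nat_lit 156) (nat_lit 152) (nat_lit 0) (XT.nd (nat_lit 78) (nat_lit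 76) (nat_lit 0) (XT.lf (nat_lit 0) (nat_lit 5661825592) (nat_lit 152) (nat_lit 8692475313) (nat_lit 76) (nat_lit 13104264081) (nat_lit 52) (nat_lit 5) (nat_lit 54) (nat_lit 5) (nat_lit 53) (nat_lit 4) (nat_lit 511) (nat_lit 385) (nat_lit 304)) (XT.lf (nat_lit 0) (nat_lit 7275544636) (nat_lit 76) (nat_lit 6281379229) (nat_lit 152) (nat_lit 14474092999) (nat_lit 51) (nat_lit 5) (nat_lit 52) (nat_lit 5) (nat_lit 53) (nat_lit 4) (nat_lit 512) (nat_lit 385) (nat_lit 303))) (XT.nd (nat_lit 78) (nat_lit 152) (nat_lit 0) (XT.lf (nat_lit 0) (nat_lit 21759147712) (nat_lit 152) (nat_lit 4811230624) (nat_lit 0) (nat_lit 2048156400) (nat_lit 51) (nat_lit 5) (nat_lit 53) (nat_lit 4) (nat_lit 51) (nat_lit 4) (nat_lit 513) (nat_lit 385) (nat_lit 302)) (XT.lf (nat_lit 0) (nat_lit 1103828155) (nat_lit 152) (nat_lit 17524240552) (nat_lit 76) (nat_lit 10591148380) (nat_lit 49) (nat_lit 5) (nat_lit 51) (nat_lit 5) (nat_lit 50) (nat_lit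 4) (nat_lit 514) (nat_lit 385) (nat_lit 301))))) (XT.nd (nat_lit 312) (nat_lit 228) (nat_lit 0) (XT.nd (nat_lit 156) (nat_lit 152) (nat_lit 0) (XT.nd (nat_lit 78) (nat_lit 76) (nat_lit 0) (XT.lf (nat_lit 0) (nat_lit 9180350659) (nat_lit 152) (nat_lit 1181346856) (nat_lit 76) (nat_lit 19473817181) (nat_lit 49) (nat_lit 5) (nat_lit 51) (nat_lit 5) (nat_lit 50) (nat_lit 4) (nat_lit 515) (nat_lit 385) (nat_lit 300)) (XT.lf (nat_lit 0) (nat_lit 15892552517) (nat_lit 76) (nat_lit 1723669462) (nat_lit 152) (nat_lit 12850568209) (nat_lit 48) (nat_lit 5) (nat_lit 49) (nat_lit 5) (nat_lit 50) (nat_lit 4) (nat_lit 516) (nat_lit 385) (nat_lit 299))) (XT.nd (nat_lit 78) (nat_lit 76) (nat_lit 0) (XT.lf (nat_lit 0) (nat_lit 2292437439) (nat_lit 76) (nat_lit 24080114726) (nat_lit 76) (nat_lit 4742430827) (nat_lit 47) (nat_lit 4) (nat_lit 48) (nat_lit 5) (nat_lit 48) (nat_lit 4) (nat_lit 517) (nat_lit 385) (nat_lit 298)) (XT.lf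 (nat_lit 0) (nat_lit 3668591987) (nat_lit 152) (nat_lit 11937040632) (nat_lit 76) (nat_lit 16172046771) (nat_lit 46) (nat_lit 5) (nat_lit 48) (nat_lit 5) (nat_lit 47) (nat_lit 4) (nat_lit 518) (nat_lit 385) (nat_lit 297)))) (XT.nd (nat_lit 156) (nat_lit 152) (nat_lit 0) (XT.nd (nat_lit 78) (nat_lit 0) (nat_lit 0) (XT.lf (nat_lit 0) (nat_lit 5446897283) (nat_lit 76) (nat_lit 6807497240) (nat_lit 152) (nat_lit 20203920985) (nat_lit 45) (nat_lit 5) (nat_lit 46) (nat_lit 5) (nat_lit 47) (nat_lit 4) (nat_lit 519) (nat_lit 385) (nat_lit 296)) (XT.lf (nat_lit 0) (nat_lit 21206638224) (nat_lit 152) (nat_lit 9649088064) (nat_lit 0) (nat_lit 2300378879) (nat_lit 45) (nat_lit 5) (nat_lit 47) (nat_lit 4) (nat_lit 45) (nat_lit 4) (nat_lit 520) (nat_lit 385) (nat_lit 295))) (XT.nd (nat_lit 78) (nat_lit 76) (nat_lit 0) (XT.lf (nat_lit 0) (nat_lit 8262387901) (nat_lit 76) (nat_lit 22278351919) (nat_lit 76) (nat_lit 3330690437)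 (nat_lit 44) (nat_lit 4) (nat_lit 45) (nat_lit 5) (nat_lit 45) (nat_lit 4) (nat_lit 521) (nat_lit 385) (nat_lit 294)) (XT.lf (nat_lit 0) (nat_lit 5503306138) (nat_lit 152) (nat_lit 7816146268) (nat_lit 76) (nat_lit 21285216834) (nat_lit 43) (nat_lit 5) (nat_lit 45) (nat_lit 5) (nat_lit 44) (nat_lit 4) (nat_lit 522) (nat_lit 385) (nat_lit 293))))))))
noncomputable def xc64 : XT := (XT.nd (nat_lit 55068) (nat_lit 0) (nat_lit 9196) (XT.nd (nat_lit 1170) (nat_lit 684) (nat_lit 0) (XT.nd (nat_lit 546) (nat_lit 456) (nat_lit 0) (XT.nd (nat_lit 234) (nat_lit 228) (nat_lit 0) (XT.nd (nat_lit 78) (nat_lit 76) (nat_lit 0) (XT.lf (nat_lit 0) (nat_lit 10621149700) (nat_lit 76) (nat_lit 3983792622) (nat_lit 152) (nat_lit 20751887280) (nat_lit 42) (nat_lit 5) (nat_lit 43) (nat_lit 5) (nat_lit 44) (nat_lit 4) (nat_lit 523) (nat_lit 385) (nat_lit 292)) (XT.nd (nat_lit 78) (nat_lit 76) (nat_lit 0) (XT.lf (nat_lit 0) (nat_lit 24080985757)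 (nat_lit 152) (nat_lit 6476030331) (nat_lit 0) (nat_lit 5571498346) (nat_lit 42) (nat_lit 5) (nat_lit 44) (nat_lit 4) (nat_lit 42) (nat_lit 4) (nat_lit 524) (nat_lit 385) (nat_lit 291)) (XT.lf (nat_lit 0) (nat_lit 12473511885) (nat_lit 76) (nat_lit 21495602727) (nat_lit 76) (nat_lit 2950401470) (nat_lit 41) (nat_lit 4) (nat_lit 42) (nat_lit 5) (nat_lit 42) (nat_lit 4) (nat_lit 525) (nat_lit 385) (nat_lit 290)))) (XT.nd (nat_lit 156) (nat_lit 76) (nat_lit 0) (XT.nd (nat_lit 78) (nat_lit 76) (nat_lit 0) (XT.lf (nat_lit 0) (nat_lit 6328890075) (nat_lit 152) (nat_lit 5732228040) (nat_lit 76) (nat_lit 25670243129) (nat_lit 40) (nat_lit 5) (nat_lit 42) (nat_lit 5) (nat_lit 41) (nat_lit 4) (nat_lit 526) (nat_lit 385) (nat_lit 289)) (XT.lf (nat_lit 0) (nat_lit 13721428486) (nat_lit 76) (nat_lit 2207126738) (nat_lit 152) (nat_lit 22635091692) (nat_lit 39) (nat_lit 5) (nat_lit 40) (nat_lit 5) (nat_lit 41) (nat_lit 4) (nat_lit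 527) (nat_lit 385) (nat_lit 288))) (XT.nd (nat_lit 78) (nat_lit 76) (nat_lit 0) (XT.lf (nat_lit 0) (nat_lit 25920450802) (nat_lit 152) (nat_lit 5680000698) (nat_lit 0) (nat_lit 7817322794) (nat_lit 39) (nat_lit 5) (nat_lit 41) (nat_lit 4) (nat_lit 39) (nat_lit 4) (nat_lit 528) (nat_lit 385) (nat_lit 287)) (XT.lf (nat_lit 0) (nat_lit 14255034096) (nat_lit 76) (nat_lit 22086275319) (nat_lit 76) (nat_lit 3952340233) (nat_lit 38) (nat_lit 4) (nat_lit 39) (nat_lit 5) (nat_lit 39) (nat_lit 4) (nat_lit 529) (nat_lit 385) (nat_lit 286))))) (XT.nd (nat_lit 312) (nat_lit 228) (nat_lit 0) (XT.nd (nat_lit 156) (nat_lit 76) (nat_lit 0) (XT.nd (nat_lit 78) (nat_lit 76) (nat_lit 0) (XT.lf (nat_lit 0) (nat_lit 5792539990) (nat_lit 152) (nat_lit 6404988687) (nat_lit 76) (nat_lit 28995729499) (nat_lit 37) (nat_lit 5) (nat_lit 39) (nat_lit 5) (nat_lit 38) (nat_lit 4) (nat_lit 530) (nat_lit 385) (nat_lit 285)) (XT.lf (nat_lit 0) (nat_lit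 13994924590) (nat_lit 76) (nat_lit 1861138505) (nat_lit 152) (nat_lit 26259446178) (nat_lit 36) (nat_lit 5) (nat_lit 37) (nat_lit 5) (nat_lit 38) (nat_lit 4) (nat_lit 531) (nat_lit 385) (nat_lit 284))) (XT.nd (nat_lit 78) (nat_lit 76) (nat_lit 0) (XT.lf (nat_lit 0) (nat_lit 26342500517) (nat_lit 152) (nat_lit 8067162286) (nat_lit 0) (nat_lit 8652135144) (nat_lit 36) (nat_lit 5) (nat_lit 38) (nat_lit 4) (nat_lit 36) (nat_lit 4) (nat_lit 532) (nat_lit 385) (nat_lit 283)) (XT.lf (nat_lit 0) (nat_lit 12763432616) (nat_lit 76) (nat_lit 24493293468) (nat_lit 76) (nat_lit 6776353639) (nat_lit 35) (nat_lit 4) (nat_lit 36) (nat_lit 5) (nat_lit 36) (nat_lit 4) (nat_lit 533) (nat_lit 385) (nat_lit 282)))) (XT.nd (nat_lit 156) (nat_lit 76) (nat_lit 0) (XT.nd (nat_lit 78) (nat_lit 76) (nat_lit 0) (XT.lf (nat_lit 0) (nat_lit 3451628548) (nat_lit 152) (nat_lit 10735934317) (nat_lit 76) (nat_lit 30843307299) (nat_lit 34) (nat_lit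 5) (nat_lit 36) (nat_lit 5) (nat_lit 35) (nat_lit 4) (nat_lit 534) (nat_lit 385) (nat_lit 281)) (XT.lf (nat_lit 0) (nat_lit 10498077370) (nat_lit 76) (nat_lit 3425994853) (nat_lit 152) (nat_lit 32130294985) (nat_lit 33) (nat_lit 5) (nat_lit 34) (nat_lit 5) (nat_lit 35) (nat_lit 4) (nat_lit 535) (nat_lit 385) (nat_lit 280))) (XT.nd (nat_lit 78) (nat_lit 76) (nat_lit 0) (XT.lf (nat_lit 0) (nat_lit 24866726880) (nat_lit 152) (nat_lit 14644326415) (nat_lit 0) (nat_lit 7592835000) (nat_lit 33) (nat_lit 5) (nat_lit 35) (nat_lit 4) (nat_lit 33) (nat_lit 4) (nat_lit 536) (nat_lit 385) (nat_lit 279)) (XT.lf (nat_lit 0) (nat_lit 6944644232) (nat_lit 76) (nat_lit 29267417134) (nat_lit 76) (nat_lit 11970601895) (nat_lit 32) (nat_lit 4) (nat_lit 33) (nat_lit 5) (nat_lit 33) (nat_lit 4) (nat_lit 537) (nat_lit 385) (nat_lit 278)))))) (XT.nd (nat_lit 546) (nat_lit 304) (nat_lit 0) (XT.nd (nat_lit 234) (nat_lit 228) (nat_lit 0)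 (XT.nd (nat_lit 78) (nat_lit 152) (nat_lit 0) (XT.lf (nat_lit 0) (nat_lit 29430041649) (nat_lit 76) (nat_lit 18589587404) (nat_lit 76) (nat_lit 1270516477) (nat_lit 32) (nat_lit 4) (nat_lit 33) (nat_lit 5) (nat_lit 33) (nat_lit 4) (nat_lit 538) (nat_lit 385) (nat_lit 277)) (XT.nd (nat_lit 78) (nat_lit 0) (nat_lit 0) (XT.lf (nat_lit 0) (nat_lit 2055075963) (nat_lit 76) (nat_lit 7499482831) (nat_lit 152) (nat_lit 40873654167) (nat_lit 30) (nat_lit 5) (nat_lit 31) (nat_lit 5) (nat_lit 32) (nat_lit 4) (nat_lit 539) (nat_lit 385) (nat_lit 276)) (XT.lf (nat_lit 0) (nat_lit 20893623678) (nat_lit 152) (nat_lit 26662331894) (nat_lit 0) (nat_lit 4037646483) (nat_lit 30) (nat_lit 5) (nat_lit 32) (nat_lit 4) (nat_lit 30) (nat_lit 4) (nat_lit 540) (nat_lit 385) (nat_lit 275)))) (XT.nd (nat_lit 156) (nat_lit 152) (nat_lit 0) (XT.nd (nat_lit 78) (nat_lit 76) (nat_lit 0) (XT.lf (nat_lit 0) (nat_lit 32622381109) (nat_lit 152) (nat_lit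 4423456291) (nat_lit 0) (nat_lit 15746630023) (nat_lit 30) (nat_lit 5) (nat_lit 32) (nat_lit 4) (nat_lit 30) (nat_lit 4) (nat_lit 541) (nat_lit 385) (nat_lit 274)) (XT.lf (nat_lit 0) (nat_lit 18801904329) (nat_lit 76) (nat_lit 26057820977) (nat_lit 76) (nat_lit 9162871938) (nat_lit 29) (nat_lit 4) (nat_lit 30) (nat_lit 5) (nat_lit 30) (nat_lit 4) (nat_lit 542) (nat_lit 385) (nat_lit 273))) (XT.nd (nat_lit 78) (nat_lit 76) (nat_lit 0) (XT.lf (nat_lit 0) (nat_lit 2153235559) (nat_lit 152) (nat_lit 12542519641) (nat_lit 76) (nat_lit 40592615558) (nat_lit 28) (nat_lit 5) (nat_lit 30) (nat_lit 5) (nat_lit 29) (nat_lit 4) (nat_lit 543) (nat_lit 385) (nat_lit 272)) (XT.lf (nat_lit 0) (nat_lit 10891612333) (nat_lit 76) (nat_lit 2814444844) (nat_lit 152) (nat_lit 42880896983) (nat_lit 27) (nat_lit 5) (nat_lit 28) (nat_lit 5) (nat_lit 29) (nat_lit 4) (nat_lit 544) (nat_lit 385) (nat_lit 271))))) (XT.nd (nat_lit 312) (nat_lit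 152) (nat_lit 0) (XT.nd (nat_lit 156) (nat_lit 76) (nat_lit 0) (XT.nd (nat_lit 78) (nat_lit 76) (nat_lit 0) (XT.lf (nat_lit 0) (nat_lit 25800674468) (nat_lit 152) (nat_lit 22772875020) (nat_lit 0) (nat_lit 9345089435) (nat_lit 27) (nat_lit 5) (nat_lit 29) (nat_lit 4) (nat_lit 27) (nat_lit 4) (nat_lit 545) (nat_lit 385) (nat_lit 270)) (XT.lf (nat_lit 0) (nat_lit 779741145) (nat_lit 76) (nat_lit 37491147929) (nat_lit 76) (nat_lit 21019002574) (nat_lit 26) (nat_lit 4) (nat_lit 27) (nat_lit 5) (nat_lit 27) (nat_lit 4) (nat_lit 546) (nat_lit 385) (nat_lit 269))) (XT.nd (nat_lit 78) (nat_lit 76) (nat_lit 0) (XT.lf (nat_lit 0) (nat_lit 25461322940) (nat_lit 76) (nat_lit 25861477411) (nat_lit 76) (nat_lit 9373254073) (nat_lit 26) (nat_lit 4) (nat_lit 27) (nat_lit 5) (nat_lit 27) (nat_lit 4) (nat_lit 547) (nat_lit 385) (nat_lit 268)) (XT.lf (nat_lit 0) (nat_lit 2548770035) (nat_lit 152) (nat_lit 11329829858) (nat_lit 76)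 (nat_lit 48265704314) (nat_lit 25) (nat_lit 5) (nat_lit 27) (nat_lit 5) (nat_lit 26) (nat_lit 4) (nat_lit 548) (nat_lit 385) (nat_lit 267)))) (XT.nd (nat_lit 156) (nat_lit 76) (nat_lit 0) (XT.nd (nat_lit 78) (nat_lit 0) (nat_lit 0) (XT.lf (nat_lit 0) (nat_lit 13418958799) (nat_lit 76) (nat_lit 1328798279) (nat_lit 152) (nat_lit 48882229572) (nat_lit 24) (nat_lit 5) (nat_lit 25) (nat_lit 5) (nat_lit 26) (nat_lit 4) (nat_lit 549) (nat_lit 385) (nat_lit 266)) (XT.lf (nat_lit 0) (nat_lit 27518459385) (nat_lit 152) (nat_lit 26169286160) (nat_lit 0) (nat_lit 11466321810) (nat_lit 24) (nat_lit 5) (nat_lit 26) (nat_lit 4) (nat_lit 24) (nat_lit 4) (nat_lit 550) (nat_lit 385) (nat_lit 265))) (XT.nd (nat_lit 78) (nat_lit 76) (nat_lit 0) (XT.lf (nat_lit 0) (nat_lit 40664780522) (nat_lit 152) (nat_lit 1460541242) (nat_lit 0) (nat_lit 24598773938) (nat_lit 24) (nat_lit 5) (nat_lit 26) (nat_lit 4) (nat_lit 24) (nat_lit 4) (nat_lit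 551) (nat_lit 385) (nat_lit 264)) (XT.lf (nat_lit 0) (nat_lit 24426213697) (nat_lit 76) (nat_lit 29994020355) (nat_lit 76) (nat_lit 13914548713) (nat_lit 23) (nat_lit 4) (nat_lit 24) (nat_lit 5) (nat_lit 24) (nat_lit 4) (nat_lit 552) (nat_lit 385) (nat_lit 263))))))) (XT.nd (nat_lit 1170) (nat_lit 4408) (nat_lit 0) (XT.nd (nat_lit 546) (nat_lit 3040) (nat_lit 0) (XT.nd (nat_lit 234) (nat_lit 1748) (nat_lit 0) (XT.nd (nat_lit 78) (nat_lit 1292) (nat_lit 0) (XT.lf (nat_lit 0) (nat_lit 3236182760) (nat_lit 760) (nat_lit 201989697) (nat_lit 760) (nat_lit 201989697) (nat_lit 282) (nat_lit 4) (nat_lit 292) (nat_lit 5) (nat_lit 292) (nat_lit 4) (nat_lit 428) (nat_lit 386) (nat_lit 386)) (XT.nd (nat_lit 78) (nat_lit 608) (nat_lit 0) (XT.lf (nat_lit 0) (nat_lit 3188758245) (nat_lit 684) (nat_lit 2534406057) (nat_lit 0) (nat_lit 1618390428) (nat_lit 273) (nat_lit 5) (nat_lit 282) (nat_lit 4) (nat_lit 273) (nat_lit 4) (nat_lit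 429) (nat_lit 386) (nat_lit 385)) (XT.lf (nat_lit 0) (nat_lit 3143993916) (nat_lit 608) (nat_lit 3678638777) (nat_lit 608) (nat_lit 583642012) (nat_lit 265) (nat_lit 4) (nat_lit 273) (nat_lit 5) (nat_lit 273) (nat_lit 4) (nat_lit 430) (nat_lit 386) (nat_lit 384)))) (XT.nd (nat_lit 156) (nat_lit 1140) (nat_lit 0) (XT.nd (nat_lit 78) (nat_lit 0) (nat_lit 0) (XT.lf (nat_lit 0) (nat_lit 1457918876) (nat_lit 532) (nat_lit 1514070247) (nat_lit 608) (nat_lit 4501878733) (nat_lit 257) (nat_lit 5) (nat_lit 264) (nat_lit 5) (nat_lit 265) (nat_lit 4) (nat_lit 431) (nat_lit 386) (nat_lit 383)) (XT.lf (nat_lit 0) (nat_lit 6574499634) (nat_lit 608) (nat_lit 232985079) (nat_lit 0) (nat_lit 737287931) (nat_lit 257) (nat_lit 5) (nat_lit 265) (nat_lit 4) (nat_lit 257) (nat_lit 4) (nat_lit 432) (nat_lit 386) (nat_lit 382))) (XT.nd (nat_lit 78) (nat_lit 532) (nat_lit 0) (XT.lf (nat_lit 0) (nat_lit 2589290410) (nat_lit 608) (nat_lit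 1935565243) (nat_lit 76) (nat_lit 3092972550) (nat_lit 249) (nat_lit 5) (nat_lit 257) (nat_lit 5) (nat_lit 250) (nat_lit 4) (nat_lit 433) (nat_lit 386) (nat_lit 381)) (XT.lf (nat_lit 0) (nat_lit 4043751633) (nat_lit 532) (nat_lit 2138876313) (nat_lit 608) (nat_lit 1511778745) (nat_lit 242) (nat_lit 5) (nat_lit 249) (nat_lit 5) (nat_lit 250) (nat_lit 4) (nat_lit 434) (nat_lit 386) (nat_lit 380))))) (XT.nd (nat_lit 312) (nat_lit 1444) (nat_lit 0) (XT.nd (nat_lit 156) (nat_lit 532) (nat_lit 0) (XT.nd (nat_lit 78) (nat_lit 456) (nat_lit 0) (XT.lf (nat_lit 0) (nat_lit 2021441360) (nat_lit 608) (nat_lit 5395343788) (nat_lit 76) (nat_lit 357337841) (nat_lit 234) (nat_lit 5) (nat_lit 242) (nat_lit 5) (nat_lit 235) (nat_lit 4) (nat_lit 435) (nat_lit 386) (nat_lit 379)) (XT.lf (nat_lit 0) (nat_lit 670851141) (nat_lit 456) (nat_lit 4931748396) (nat_lit 532) (nat_lit 2254025317) (nat_lit 228) (nat_lit 5) (nat_lit 234) (nat_lit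 5) (nat_lit 235) (nat_lit 4) (nat_lit 436) (nat_lit 386) (nat_lit 378))) (XT.nd (nat_lit 78) (nat_lit 456) (nat_lit 0) (XT.lf (nat_lit 0) (nat_lit 1286441045) (nat_lit 532) (nat_lit 1039101634) (nat_lit 76) (nat_lit 5616786514) (nat_lit 227) (nat_lit 5) (nat_lit 234) (nat_lit 5) (nat_lit 228) (nat_lit 5) (nat_lit 437) (nat_lit 386) (nat_lit 377)) (XT.lf (nat_lit 0) (nat_lit 4853175278) (nat_lit 532) (nat_lit 2774650475) (nat_lit 76) (nat_lit 403160500) (nat_lit 221) (nat_lit 5) (nat_lit 228) (nat_lit 5) (nat_lit 222) (nat_lit 4) (nat_lit 438) (nat_lit 386) (nat_lit 376)))) (XT.nd (nat_lit 156) (nat_lit 456) (nat_lit 0) (XT.nd (nat_lit 78) (nat_lit 456) (nat_lit 0) (XT.lf (nat_lit 0) (nat_lit 376623932) (nat_lit 532) (nat_lit 4553271919) (nat_lit 76) (nat_lit 3192904319) (nat_lit 214) (nat_lit 5) (nat_lit 221) (nat_lit 5) (nat_lit 215) (nat_lit 5) (nat_lit 439) (nat_lit 386) (nat_lit 375)) (XT.lf (nat_lit 0) (nat_lit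 1834586744) (nat_lit 456) (nat_lit 2097928363) (nat_lit 532) (nat_lit 4285159496) (nat_lit 208) (nat_lit 5) (nat_lit 214) (nat_lit 5) (nat_lit 215) (nat_lit 5) (nat_lit 440) (nat_lit 386) (nat_lit 374))) (XT.nd (nat_lit 78) (nat_lit 76) (nat_lit 0) (XT.lf (nat_lit 0) (nat_lit 71405990) (nat_lit 380) (nat_lit 7492631505) (nat_lit 456) (nat_lit 752299649) (nat_lit 203) (nat_lit 5) (nat_lit 208) (nat_lit 5) (nat_lit 209) (nat_lit 4) (nat_lit 441) (nat_lit 386) (nat_lit 373)) (XT.lf (nat_lit 0) (nat_lit 2830609394) (nat_lit 456) (nat_lit 1730446476) (nat_lit 76) (nat_lit 3856069471) (nat_lit 202) (nat_lit 5) (nat_lit 208) (nat_lit 5) (nat_lit 203) (nat_lit 5) (nat_lit 442) (nat_lit 386) (nat_lit 372)))))) (XT.nd (nat_lit 546) (nat_lit 1976) (nat_lit 0) (XT.nd (nat_lit 234) (nat_lit 1140) (nat_lit 0) (XT.nd (nat_lit 78) (nat_lit 836) (nat_lit 0) (XT.lf (nat_lit 0) (nat_lit 4956465724) (nat_lit 456) (nat_lit 1514077571)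 (nat_lit 532) (nat_lit 2051240310) (nat_lit 196) (nat_lit 5) (nat_lit 202) (nat_lit 5) (nat_lit 203) (nat_lit 5) (nat_lit 443) (nat_lit 386) (nat_lit 371)) (XT.nd (nat_lit 78) (nat_lit 380) (nat_lit 0) (XT.lf (nat_lit 0) (nat_lit 1540816709) (nat_lit 456) (nat_lit 5461856879) (nat_lit 76) (nat_lit 1627005998) (nat_lit 190) (nat_lit 5) (nat_lit 196) (nat_lit 5) (nat_lit 191) (nat_lit 5) (nat_lit 444) (nat_lit 386) (nat_lit 370)) (XT.lf (nat_lit 0) (nat_lit 1312394810) (nat_lit 380) (nat_lit 3869556362) (nat_lit 456) (nat_lit 3558784488) (nat_lit 185) (nat_lit 5) (nat_lit 190) (nat_lit 5) (nat_lit 191) (nat_lit 5) (nat_lit 445) (nat_lit 386) (nat_lit 369)))) (XT.nd (nat_lit 156) (nat_lit 760) (nat_lit 0) (XT.nd (nat_lit 78) (nat_lit 304) (nat_lit 0) (XT.lf (nat_lit 0) (nat_lit 50453923) (nat_lit 456) (nat_lit 567291662) (nat_lit 76) (nat_lit 8238120945) (nat_lit 184) (nat_lit 5) (nat_lit 190) (nat_lit 5) (nat_lit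 185) (nat_lit 5) (nat_lit 446) (nat_lit 386) (nat_lit 368)) (XT.lf (nat_lit 0) (nat_lit 3707061642) (nat_lit 380) (nat_lit 2521045967) (nat_lit 76) (nat_lit 2744976100) (nat_lit 180) (nat_lit 5) (nat_lit 185) (nat_lit 5) (nat_lit 181) (nat_lit 5) (nat_lit 447) (nat_lit 386) (nat_lit 367))) (XT.nd (nat_lit 78) (nat_lit 380) (nat_lit 0) (XT.lf (nat_lit 0) (nat_lit 4570987356) (nat_lit 380) (nat_lit 2880560554) (nat_lit 456) (nat_lit 1642931905) (nat_lit 175) (nat_lit 5) (nat_lit 180) (nat_lit 5) (nat_lit 181) (nat_lit 5) (nat_lit 448) (nat_lit 386) (nat_lit 366)) (XT.lf (nat_lit 0) (nat_lit 2027645013) (nat_lit 380) (nat_lit 6598301463) (nat_lit 76) (nat_lit 593589668) (nat_lit 170) (nat_lit 5) (nat_lit 175) (nat_lit 5) (nat_lit 171) (nat_lit 5) (nat_lit 449) (nat_lit 386) (nat_lit 365))))) (XT.nd (nat_lit 312) (nat_lit 988) (nat_lit 0) (XT.nd (nat_lit 156) (nat_lit 608) (nat_lit 0) (XT.nd (nat_lit 78) (nat_lit 76)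 (nat_lit 0) (XT.lf (nat_lit 0) (nat_lit 578852453) (nat_lit 304) (nat_lit 5200292609) (nat_lit 380) (nat_lit 3568603444) (nat_lit 166) (nat_lit 5) (nat_lit 170) (nat_lit 5) (nat_lit 171) (nat_lit 5) (nat_lit 450) (nat_lit 386) (nat_lit 364)) (XT.lf (nat_lit 0) (nat_lit 151491135) (nat_lit 380) (nat_lit 1487128354) (nat_lit 76) (nat_lit 7841408486) (nat_lit 165) (nat_lit 5) (nat_lit 170) (nat_lit 5) (nat_lit 166) (nat_lit 5) (nat_lit 451) (nat_lit 386) (nat_lit 363))) (XT.nd (nat_lit 78) (nat_lit 304) (nat_lit 0) (XT.lf (nat_lit 0) (nat_lit 3915287356) (nat_lit 380) (nat_lit 3651616772) (nat_lit 76) (nat_lit 2048203542) (nat_lit 161) (nat_lit 5) (nat_lit 166) (nat_lit 5) (nat_lit 162) (nat_lit 5) (nat_lit 452) (nat_lit 386) (nat_lit 362)) (XT.lf (nat_lit 0) (nat_lit 3862205273) (nat_lit 304) (nat_lit 3925274736) (nat_lit 380) (nat_lit 1966901629) (nat_lit 157) (nat_lit 5) (nat_lit 161) (nat_lit 5) (nat_lit 162) (nat_lit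 5) (nat_lit 453) (nat_lit 386) (nat_lit 361)))) (XT.nd (nat_lit 156) (nat_lit 608) (nat_lit 0) (XT.nd (nat_lit 78) (nat_lit 0) (nat_lit 0) (XT.lf (nat_lit 0) (nat_lit 1682508158) (nat_lit 304) (nat_lit 139580338) (nat_lit 380) (nat_lit 8075787830) (nat_lit 152) (nat_lit 5) (nat_lit 156) (nat_lit 5) (nat_lit 157) (nat_lit 5) (nat_lit 454) (nat_lit 386) (nat_lit 360)) (XT.lf (nat_lit 0) (nat_lit 5709445778) (nat_lit 380) (nat_lit 607041712) (nat_lit 76) (nat_lit 3727883050) (nat_lit 152) (nat_lit 5) (nat_lit 157) (nat_lit 5) (nat_lit 153) (nat_lit 5) (nat_lit 455) (nat_lit 386) (nat_lit 359))) (XT.nd (nat_lit 78) (nat_lit 304) (nat_lit 0) (XT.lf (nat_lit 0) (nat_lit 7260942485) (nat_lit 304) (nat_lit 2453758250) (nat_lit 380) (nat_lit 480526186) (nat_lit 148) (nat_lit 5) (nat_lit 152) (nat_lit 5) (nat_lit 153) (nat_lit 5) (nat_lit 456) (nat_lit 386) (nat_lit 358)) (XT.lf (nat_lit 0) (nat_lit 3421040699) (nat_lit 304)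 (nat_lit 5383852427) (nat_lit 76) (nat_lit 1544726020) (nat_lit 144) (nat_lit 5) (nat_lit 148) (nat_lit 5) (nat_lit 145) (nat_lit 5) (nat_lit 457) (nat_lit 386) (nat_lit 357))))))))
noncomputable def xc65 : XT := (XT.nd (nat_lit 2340) (nat_lit 2584) (nat_lit 0) (XT.nd (nat_lit 1170) (nat_lit 1976) (nat_lit 0) (XT.nd (nat_lit 546) (nat_lit 1444) (nat_lit 0) (XT.nd (nat_lit 234) (nat_lit 760) (nat_lit 0) (XT.nd (nat_lit 78) (nat_lit 304) (nat_lit 0) (XT.lf (nat_lit 0) (nat_lit 2566111320) (nat_lit 304) (nat_lit 4873788096) (nat_lit 380) (nat_lit 3068309074) (nat_lit 140) (nat_lit 5) (nat_lit 144) (nat_lit 5) (nat_lit 145) (nat_lit 5) (nat_lit 458) (nat_lit 386) (nat_lit 356)) (XT.nd (nat_lit 78) (nat_lit 0) (nat_lit 0) (XT.lf (nat_lit 0) (nat_lit 77126360) (nat_lit 228) (nat_lit 799876979) (nat_lit 304) (nat_lit 9794686803) (nat_lit 136) (nat_lit 5) (nat_lit 139) (nat_lit 5) (nat_lit 140) (nat_lit 5) (nat_lit 459)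 (nat_lit 386) (nat_lit 355)) (XT.lf (nat_lit 0) (nat_lit 4924504058) (nat_lit 304) (nat_lit 2512446509) (nat_lit 76) (nat_lit 3400854063) (nat_lit 136) (nat_lit 5) (nat_lit 140) (nat_lit 5) (nat_lit 137) (nat_lit 5) (nat_lit 460) (nat_lit 386) (nat_lit 354)))) (XT.nd (nat_lit 156) (nat_lit 228) (nat_lit 0) (XT.nd (nat_lit 78) (nat_lit 304) (nat_lit 0) (XT.lf (nat_lit 0) (nat_lit 5810127281) (nat_lit 228) (nat_lit 3280915689) (nat_lit 304) (nat_lit 1917935780) (nat_lit 133) (nat_lit 5) (nat_lit 136) (nat_lit 5) (nat_lit 137) (nat_lit 5) (nat_lit 461) (nat_lit 386) (nat_lit 353)) (XT.lf (nat_lit 0) (nat_lit 2154696656) (nat_lit 304) (nat_lit 8012569844) (nat_lit 76) (nat_lit 1017383761) (nat_lit 129) (nat_lit 5) (nat_lit 133) (nat_lit 5) (nat_lit 130) (nat_lit 5) (nat_lit 462) (nat_lit 386) (nat_lit 352))) (XT.nd (nat_lit 78) (nat_lit 0) (nat_lit 0) (XT.lf (nat_lit 0) (nat_lit 383969543) (nat_lit 228) (nat_lit 5950773510)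 (nat_lit 304) (nat_lit 5029569875) (nat_lit 126) (nat_lit 5) (nat_lit 129) (nat_lit 5) (nat_lit 130) (nat_lit 5) (nat_lit 463) (nat_lit 386) (nat_lit 351)) (XT.lf (nat_lit 0) (nat_lit 9089491789) (nat_lit 228) (nat_lit 1567075660) (nat_lit 304) (nat_lit 892310810) (nat_lit 126) (nat_lit 5) (nat_lit 129) (nat_lit 5) (nat_lit 130) (nat_lit 5) (nat_lit 464) (nat_lit 386) (nat_lit 350))))) (XT.nd (nat_lit 312) (nat_lit 684) (nat_lit 0) (XT.nd (nat_lit 156) (nat_lit 228) (nat_lit 0) (XT.nd (nat_lit 78) (nat_lit 228) (nat_lit 0) (XT.lf (nat_lit 0) (nat_lit 3329483374) (nat_lit 304) (nat_lit 5464456630) (nat_lit 76) (nat_lit 2943288028) (nat_lit 122) (nat_lit 5) (nat_lit 126) (nat_lit 5) (nat_lit 123) (nat_lit 5) (nat_lit 465) (nat_lit 386) (nat_lit 349)) (XT.lf (nat_lit 0) (nat_lit 3321292429) (nat_lit 228) (nat_lit 4348386552) (nat_lit 304) (nat_lit 4260997545) (nat_lit 119) (nat_lit 5) (nat_lit 122) (nat_lit 5) (nat_lit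 123) (nat_lit 5) (nat_lit 466) (nat_lit 386) (nat_lit 348))) (XT.nd (nat_lit 78) (nat_lit 0) (nat_lit 0) (XT.lf (nat_lit 0) (nat_lit 7851349) (nat_lit 228) (nat_lit 11879756822) (nat_lit 76) (nat_lit 242383973) (nat_lit 116) (nat_lit 5) (nat_lit 119) (nat_lit 5) (nat_lit 117) (nat_lit 5) (nat_lit 467) (nat_lit 386) (nat_lit 347)) (XT.lf (nat_lit 0) (nat_lit 4387742852) (nat_lit 228) (nat_lit 2973019643) (nat_lit 76) (nat_lit 4971203941) (nat_lit 116) (nat_lit 5) (nat_lit 119) (nat_lit 5) (nat_lit 117) (nat_lit 5) (nat_lit 468) (nat_lit 386) (nat_lit 346)))) (XT.nd (nat_lit 156) (nat_lit 228) (nat_lit 0) (XT.nd (nat_lit 78) (nat_lit 228) (nat_lit 0) (XT.lf (nat_lit 0) (nat_lit 6219007298) (nat_lit 228) (nat_lit 2679384286) (nat_lit 304) (nat_lit 3641630876) (nat_lit 113) (nat_lit 5) (nat_lit 116) (nat_lit 5) (nat_lit 117) (nat_lit 5) (nat_lit 469) (nat_lit 386) (nat_lit 345)) (XT.lf (nat_lit 0) (nat_lit 793803367)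 (nat_lit 228) (nat_lit 9834631668) (nat_lit 76) (nat_lit 2125085020) (nat_lit 110) (nat_lit 5) (nat_lit 113) (nat_lit 5) (nat_lit 111) (nat_lit 5) (nat_lit 470) (nat_lit 386) (nat_lit 344))) (XT.nd (nat_lit 78) (nat_lit 228) (nat_lit 0) (XT.lf (nat_lit 0) (nat_lit 5320217265) (nat_lit 228) (nat_lit 572977105) (nat_lit 76) (nat_lit 7078216277) (nat_lit 110) (nat_lit 5) (nat_lit 113) (nat_lit 5) (nat_lit 111) (nat_lit 5) (nat_lit 471) (nat_lit 386) (nat_lit 343)) (XT.lf (nat_lit 0) (nat_lit 9042179581) (nat_lit 228) (nat_lit 969026462) (nat_lit 304) (nat_lit 3183771390) (nat_lit 107) (nat_lit 5) (nat_lit 110) (nat_lit 5) (nat_lit 111) (nat_lit 5) (nat_lit 472) (nat_lit 386) (nat_lit 342)))))) (XT.nd (nat_lit 546) (nat_lit 988) (nat_lit 0) (XT.nd (nat_lit 234) (nat_lit 608) (nat_lit 0) (XT.nd (nat_lit 78) (nat_lit 152) (nat_lit 0) (XT.lf (nat_lit 0) (nat_lit 1430739372) (nat_lit 228) (nat_lit 7938922684) (nat_lit 76)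 (nat_lit 4053961217) (nat_lit 104) (nat_lit 5) (nat_lit 107) (nat_lit 5) (nat_lit 105) (nat_lit 5) (nat_lit 473) (nat_lit 386) (nat_lit 341)) (XT.nd (nat_lit 78) (nat_lit 0) (nat_lit 0) (XT.lf (nat_lit 0) (nat_lit 1729517978) (nat_lit 152) (nat_lit 4401089776) (nat_lit 228) (nat_lit 7527250370) (nat_lit 102) (nat_lit 5) (nat_lit 104) (nat_lit 5) (nat_lit 105) (nat_lit 5) (nat_lit 474) (nat_lit 386) (nat_lit 340)) (XT.lf (nat_lit 0) (nat_lit 11001963049) (nat_lit 228) (nat_lit 2155226771) (nat_lit 76) (nat_lit 741018094) (nat_lit 102) (nat_lit 5) (nat_lit 105) (nat_lit 5) (nat_lit 103) (nat_lit 4) (nat_lit 475) (nat_lit 386) (nat_lit 339)))) (XT.nd (nat_lit 156) (nat_lit 228) (nat_lit 0) (XT.nd (nat_lit 78) (nat_lit 152) (nat_lit 0) (XT.lf (nat_lit 0) (nat_lit 1901813070) (nat_lit 228) (nat_lit 6238997057) (nat_lit 76) (nat_lit 6002479667) (nat_lit 99) (nat_lit 5) (nat_lit 102) (nat_lit 5) (nat_lit 100) (nat_lit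 5) (nat_lit 476) (nat_lit 386) (nat_lit 338)) (XT.lf (nat_lit 0) (nat_lit 3862420619) (nat_lit 152) (nat_lit 2926736063) (nat_lit 228) (nat_lit 7605602907) (nat_lit 97) (nat_lit 5) (nat_lit 99) (nat_lit 5) (nat_lit 100) (nat_lit 5) (nat_lit 477) (nat_lit 386) (nat_lit 337))) (XT.nd (nat_lit 78) (nat_lit 228) (nat_lit 0) (XT.lf (nat_lit 0) (nat_lit 11854950857) (nat_lit 228) (nat_lit 380256219) (nat_lit 76) (nat_lit 2417613822) (nat_lit 97) (nat_lit 5) (nat_lit 100) (nat_lit 5) (nat_lit 98) (nat_lit 4) (nat_lit 478) (nat_lit 386) (nat_lit 336)) (XT.lf (nat_lit 0) (nat_lit 2185643049) (nat_lit 228) (nat_lit 4788555004) (nat_lit 76) (nat_lit 7941599522) (nat_lit 94) (nat_lit 5) (nat_lit 97) (nat_lit 5) (nat_lit 95) (nat_lit 5) (nat_lit 479) (nat_lit 386) (nat_lit 335))))) (XT.nd (nat_lit 312) (nat_lit 456) (nat_lit 0) (XT.nd (nat_lit 156) (nat_lit 228) (nat_lit 0) (XT.nd (nat_lit 78) (nat_lit 152) (nat_lit 0) (XT.lf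 (nat_lit 0) (nat_lit 5759590343) (nat_lit 152) (nat_lit 1508524558) (nat_lit 228) (nat_lit 7917549096) (nat_lit 92) (nat_lit 5) (nat_lit 94) (nat_lit 5) (nat_lit 95) (nat_lit 5) (nat_lit 480) (nat_lit 386) (nat_lit 334)) (XT.lf (nat_lit 0) (nat_lit 1145921586) (nat_lit 152) (nat_lit 11403284075) (nat_lit 228) (nat_lit 2913038475) (nat_lit 90) (nat_lit 5) (nat_lit 92) (nat_lit 5) (nat_lit 93) (nat_lit 4) (nat_lit 481) (nat_lit 386) (nat_lit 333))) (XT.nd (nat_lit 78) (nat_lit 152) (nat_lit 0) (XT.lf (nat_lit 0) (nat_lit 2255720511) (nat_lit 228) (nat_lit 3650015869) (nat_lit 76) (nat_lit 9839005172) (nat_lit 89) (nat_lit 5) (nat_lit 92) (nat_lit 5) (nat_lit 90) (nat_lit 5) (nat_lit 482) (nat_lit 386) (nat_lit 332)) (XT.lf (nat_lit 0) (nat_lit 7357192028) (nat_lit 152) (nat_lit 182864348) (nat_lit 228) (nat_lit 8494222248) (nat_lit 87) (nat_lit 5) (nat_lit 89) (nat_lit 5) (nat_lit 90) (nat_lit 5) (nat_lit 483) (nat_lit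 386) (nat_lit 331)))) (XT.nd (nat_lit 156) (nat_lit 228) (nat_lit 0) (XT.nd (nat_lit 78) (nat_lit 76) (nat_lit 0) (XT.lf (nat_lit 0) (nat_lit 2334300605) (nat_lit 152) (nat_lit 10711738585) (nat_lit 228) (nat_lit 3284570951) (nat_lit 85) (nat_lit 5) (nat_lit 87) (nat_lit 5) (nat_lit 88) (nat_lit 4) (nat_lit 484) (nat_lit 386) (nat_lit 330)) (XT.lf (nat_lit 0) (nat_lit 2079703821) (nat_lit 228) (nat_lit 2896111785) (nat_lit 76) (nat_lit 11658249038) (nat_lit 84) (nat_lit 5) (nat_lit 87) (nat_lit 5) (nat_lit 85) (nat_lit 5) (nat_lit 485) (nat_lit 386) (nat_lit 329))) (XT.nd (nat_lit 78) (nat_lit 76) (nat_lit 0) (XT.lf (nat_lit 0) (nat_lit 7581217606) (nat_lit 228) (nat_lit 8373742925) (nat_lit 76) (nat_lit 989418496) (nat_lit 82) (nat_lit 5) (nat_lit 85) (nat_lit 5) (nat_lit 83) (nat_lit 4) (nat_lit 486) (nat_lit 386) (nat_lit 328)) (XT.lf (nat_lit 0) (nat_lit 3096934913) (nat_lit 76) (nat_lit 10209742694) (nat_lit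 152) (nat_lit 3955559841) (nat_lit 81) (nat_lit 5) (nat_lit 82) (nat_lit 5) (nat_lit 83) (nat_lit 4) (nat_lit 487) (nat_lit 386) (nat_lit 327))))))) (XT.nd (nat_lit 1170) (nat_lit 1140) (nat_lit 0) (XT.nd (nat_lit 546) (nat_lit 836) (nat_lit 0) (XT.nd (nat_lit 234) (nat_lit 304) (nat_lit 0) (XT.nd (nat_lit 78) (nat_lit 228) (nat_lit 0) (XT.lf (nat_lit 0) (nat_lit 1618583661) (nat_lit 152) (nat_lit 2611724155) (nat_lit 76) (nat_lit 13357785403) (nat_lit 80) (nat_lit 5) (nat_lit 82) (nat_lit 5) (nat_lit 81) (nat_lit 5) (nat_lit 488) (nat_lit 386) (nat_lit 326)) (XT.nd (nat_lit 78) (nat_lit 76) (nat_lit 0) (XT.lf (nat_lit 0) (nat_lit 7341540414) (nat_lit 228) (nat_lit 8598109309) (nat_lit 76) (nat_lit 1981068761) (nat_lit 78) (nat_lit 5) (nat_lit 81) (nat_lit 5) (nat_lit 79) (nat_lit 4) (nat_lit 489) (nat_lit 386) (nat_lit 325)) (XT.lf (nat_lit 0) (nat_lit 3339847710) (nat_lit 76) (nat_lit 9948989429) (nat_lit 152)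 (nat_lit 4972907281) (nat_lit 77) (nat_lit 5) (nat_lit 78) (nat_lit 5) (nat_lit 79) (nat_lit 4) (nat_lit 490) (nat_lit 386) (nat_lit 324)))) (XT.nd (nat_lit 156) (nat_lit 76) (nat_lit 0) (XT.nd (nat_lit 78) (nat_lit 152) (nat_lit 0) (XT.lf (nat_lit 0) (nat_lit 825699802) (nat_lit 152) (nat_lit 2896003641) (nat_lit 76) (nat_lit 14889874228) (nat_lit 76) (nat_lit 5) (nat_lit 78) (nat_lit 5) (nat_lit 77) (nat_lit 5) (nat_lit 491) (nat_lit 386) (nat_lit 323)) (XT.lf (nat_lit 0) (nat_lit 6770419535) (nat_lit 228) (nat_lit 9454995886) (nat_lit 76) (nat_lit 2742851576) (nat_lit 74) (nat_lit 5) (nat_lit 77) (nat_lit 5) (nat_lit 75) (nat_lit 4) (nat_lit 492) (nat_lit 386) (nat_lit 322))) (XT.nd (nat_lit 78) (nat_lit 0) (nat_lit 0) (XT.lf (nat_lit 0) (nat_lit 2953109534) (nat_lit 76) (nat_lit 9988787997) (nat_lit 152) (nat_lit 6392308259) (nat_lit 73) (nat_lit 5) (nat_lit 74) (nat_lit 5) (nat_lit 75) (nat_lit 4) (nat_lit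 493) (nat_lit 386) (nat_lit 321)) (XT.lf (nat_lit 0) (nat_lit 15841339292) (nat_lit 76) (nat_lit 3506829015) (nat_lit 152) (nat_lit 361466240) (nat_lit 73) (nat_lit 5) (nat_lit 74) (nat_lit 5) (nat_lit 75) (nat_lit 4) (nat_lit 494) (nat_lit 386) (nat_lit 320))))) (XT.nd (nat_lit 312) (nat_lit 304) (nat_lit 0) (XT.nd (nat_lit 156) (nat_lit 228) (nat_lit 0) (XT.nd (nat_lit 78) (nat_lit 76) (nat_lit 0) (XT.lf (nat_lit 0) (nat_lit 5809765441) (nat_lit 228) (nat_lit 11068845170) (nat_lit 76) (nat_lit 3213820888) (nat_lit 70) (nat_lit 5) (nat_lit 73) (nat_lit 5) (nat_lit 71) (nat_lit 4) (nat_lit 495) (nat_lit 386) (nat_lit 319)) (XT.lf (nat_lit 0) (nat_lit 1808115156) (nat_lit 76) (nat_lit 10397499670) (nat_lit 152) (nat_lit 8279588936) (nat_lit 69) (nat_lit 5) (nat_lit 70) (nat_lit 5) (nat_lit 71) (nat_lit 4) (nat_lit 496) (nat_lit 386) (nat_lit 318))) (XT.nd (nat_lit 78) (nat_lit 228) (nat_lit 0) (XT.lf (nat_lit 0)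 (nat_lit 15214651716) (nat_lit 76) (nat_lit 3646157803) (nat_lit 152) (nat_lit 2026926692) (nat_lit 69) (nat_lit 5) (nat_lit 70) (nat_lit 5) (nat_lit 71) (nat_lit 4) (nat_lit 497) (nat_lit 386) (nat_lit 317)) (XT.lf (nat_lit 0) (nat_lit 4390813443) (nat_lit 228) (nat_lit 13584984108) (nat_lit 76) (nat_lit 3323366894) (nat_lit 66) (nat_lit 5) (nat_lit 69) (nat_lit 5) (nat_lit 67) (nat_lit 4) (nat_lit 498) (nat_lit 386) (nat_lit 316)))) (XT.nd (nat_lit 156) (nat_lit 228) (nat_lit 0) (XT.nd (nat_lit 78) (nat_lit 76) (nat_lit 0) (XT.lf (nat_lit 0) (nat_lit 11010976991) (nat_lit 228) (nat_lit 240777198) (nat_lit 76) (nat_lit 10469061384) (nat_lit 66) (nat_lit 5) (nat_lit 69) (nat_lit 5) (nat_lit 67) (nat_lit 4) (nat_lit 499) (nat_lit 386) (nat_lit 315)) (XT.lf (nat_lit 0) (nat_lit 13691133104) (nat_lit 76) (nat_lit 4228157390) (nat_lit 152) (nat_lit 4233140377) (nat_lit 65) (nat_lit 5) (nat_lit 66) (nat_lit 5) (nat_lit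 67) (nat_lit 4) (nat_lit 500) (nat_lit 386) (nat_lit 314))) (XT.nd (nat_lit 78) (nat_lit 0) (nat_lit 0) (XT.lf (nat_lit 0) (nat_lit 2432450698) (nat_lit 228) (nat_lit 17173109630) (nat_lit 76) (nat_lit 2989467305) (nat_lit 62) (nat_lit 5) (nat_lit 65) (nat_lit 5) (nat_lit 63) (nat_lit 4) (nat_lit 501) (nat_lit 386) (nat_lit 313)) (XT.lf (nat_lit 0) (nat_lit 9299172438) (nat_lit 228) (nat_lit 3317826517) (nat_lit 76) (nat_lit 10430059533) (nat_lit 62) (nat_lit 5) (nat_lit 65) (nat_lit 5) (nat_lit 63) (nat_lit 4) (nat_lit 502) (nat_lit 386) (nat_lit 312)))))) (XT.nd (nat_lit 624) (nat_lit 532) (nat_lit 0) (XT.nd (nat_lit 312) (nat_lit 228) (nat_lit 0) (XT.nd (nat_lit 156) (nat_lit 152) (nat_lit 0) (XT.nd (nat_lit 78) (nat_lit 152) (nat_lit 0) (XT.lf (nat_lit 0) (nat_lit 11091942469) (nat_lit 76) (nat_lit 5345889911) (nat_lit 152) (nat_lit 7072840669) (nat_lit 61) (nat_lit 5) (nat_lit 62) (nat_lit 5) (nat_lit 63) (nat_lit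 4) (nat_lit 503) (nat_lit 386) (nat_lit 311)) (XT.lf (nat_lit 0) (nat_lit 1954315071) (nat_lit 152) (nat_lit 21868969887) (nat_lit 152) (nat_lit 163932956) (nat_lit 59) (nat_lit 4) (nat_lit 61) (nat_lit 5) (nat_lit 61) (nat_lit 4) (nat_lit 504) (nat_lit 386) (nat_lit 310))) (XT.nd (nat_lit 78) (nat_lit 76) (nat_lit 0) (XT.lf (nat_lit 0) (nat_lit 6955607327) (nat_lit 228) (nat_lit 7659930919) (nat_lit 76) (nat_lit 9856345949) (nat_lit 58) (nat_lit 5) (nat_lit 61) (nat_lit 5) (nat_lit 59) (nat_lit 4) (nat_lit 505) (nat_lit 386) (nat_lit 309)) (XT.lf (nat_lit 0) (nat_lit 7207763882) (nat_lit 76) (nat_lit 7107594034) (nat_lit 152) (nat_lit 10654787062) (nat_lit 57) (nat_lit 5) (nat_lit 58) (nat_lit 5) (nat_lit 59) (nat_lit 4) (nat_lit 506) (nat_lit 386) (nat_lit 308)))) (XT.nd (nat_lit 156) (nat_lit 76) (nat_lit 0) (XT.nd (nat_lit 78) (nat_lit 152) (nat_lit 0) (XT.lf (nat_lit 0) (nat_lit 21940748005) (nat_lit 152) (nat_lit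 2884878996) (nat_lit 0) (nat_lit 656381933) (nat_lit 57) (nat_lit 5) (nat_lit 59) (nat_lit 4) (nat_lit 57) (nat_lit 4) (nat_lit 507) (nat_lit 386) (nat_lit 307)) (XT.lf (nat_lit 0) (nat_lit 3866085677) (nat_lit 152) (nat_lit 13502650420) (nat_lit 76) (nat_lit 8634773116) (nat_lit 55) (nat_lit 5) (nat_lit 57) (nat_lit 5) (nat_lit 56) (nat_lit 4) (nat_lit 508) (nat_lit 386) (nat_lit 306))) (XT.nd (nat_lit 78) (nat_lit 0) (nat_lit 0) (XT.lf (nat_lit 0) (nat_lit 1793762243) (nat_lit 76) (nat_lit 9639277051) (nat_lit 152) (nat_lit 15106307167) (nat_lit 54) (nat_lit 5) (nat_lit 55) (nat_lit 5) (nat_lit 56) (nat_lit 4) (nat_lit 509) (nat_lit 386) (nat_lit 305)) (XT.lf (nat_lit 0) (nat_lit 17753162690) (nat_lit 76) (nat_lit 1572499704) (nat_lit 152) (nat_lit 7762637279) (nat_lit 54) (nat_lit 5) (nat_lit 55) (nat_lit 5) (nat_lit 56) (nat_lit 4) (nat_lit 510) (nat_lit 386) (nat_lit 304))))) (XT.nd (nat_lit 312) (nat_lit 304)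 (nat_lit 0) (XT.nd (nat_lit 156) (nat_lit 76) (nat_lit 0) (XT.nd (nat_lit 78) (nat_lit 76) (nat_lit 0) (XT.lf (nat_lit 0) (nat_lit 6528923176) (nat_lit 76) (nat_lit 21016735896) (nat_lit 76) (nat_lit 105345214) (nat_lit 53) (nat_lit 4) (nat_lit 54) (nat_lit 5) (nat_lit 54) (nat_lit 4) (nat_lit 511) (nat_lit 386) (nat_lit 303)) (XT.lf (nat_lit 0) (nat_lit 7703702062) (nat_lit 152) (nat_lit 5330185734) (nat_lit 76) (nat_lit 15192242251) (nat_lit 52) (nat_lit 5) (nat_lit 54) (nat_lit 5) (nat_lit 53) (nat_lit 4) (nat_lit 512) (nat_lit 386) (nat_lit 302))) (XT.nd (nat_lit 78) (nat_lit 0) (nat_lit 0) (XT.lf (nat_lit 0) (nat_lit 11081354579) (nat_lit 76) (nat_lit 4734259464) (nat_lit 152) (nat_lit 13000743525) (nat_lit 51) (nat_lit 5) (nat_lit 52) (nat_lit 5) (nat_lit 53) (nat_lit 4) (nat_lit 513) (nat_lit 386) (nat_lit 301)) (XT.lf (nat_lit 0) (nat_lit 24226160723) (nat_lit 152) (nat_lit 1434742173) (nat_lit 0) (nat_lit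 3761731280) (nat_lit 51) (nat_lit 5) (nat_lit 53) (nat_lit 4) (nat_lit 51) (nat_lit 4) (nat_lit 514) (nat_lit 386) (nat_lit 300)))) (XT.nd (nat_lit 156) (nat_lit 76) (nat_lit 0) (XT.nd (nat_lit 78) (nat_lit 76) (nat_lit 0) (XT.lf (nat_lit 0) (nat_lit 2949651607) (nat_lit 152) (nat_lit 14527556085) (nat_lit 76) (nat_lit 12564176895) (nat_lit 49) (nat_lit 5) (nat_lit 51) (nat_lit 5) (nat_lit 50) (nat_lit 4) (nat_lit 515) (nat_lit 386) (nat_lit 299)) (XT.lf (nat_lit 0) (nat_lit 2246874520) (nat_lit 76) (nat_lit 8990396260) (nat_lit 152) (nat_lit 19439837124) (nat_lit 48) (nat_lit 5) (nat_lit 49) (nat_lit 5) (nat_lit 50) (nat_lit 4) (nat_lit 516) (nat_lit 386) (nat_lit 298))) (XT.nd (nat_lit 78) (nat_lit 76) (nat_lit 0) (XT.lf (nat_lit 0) (nat_lit 19755618642) (nat_lit 76) (nat_lit 130292800) (nat_lit 152) (nat_lit 11442620206) (nat_lit 48) (nat_lit 5) (nat_lit 49) (nat_lit 5) (nat_lit 50) (nat_lit 4) (nat_lit 517)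 (nat_lit 386) (nat_lit 297)) (XT.lf (nat_lit 0) (nat_lit 5750392519) (nat_lit 76) (nat_lit 23151756251) (nat_lit 76) (nat_lit 3094105712) (nat_lit 47) (nat_lit 4) (nat_lit 48) (nat_lit 5) (nat_lit 48) (nat_lit 4) (nat_lit 518) (nat_lit 386) (nat_lit 296))))))))
noncomputable def xc66 : XT := (XT.nd (nat_lit 2340) (nat_lit 228) (nat_lit 0) (XT.nd (nat_lit 1170) (nat_lit 760) (nat_lit 0) (XT.nd (nat_lit 546) (nat_lit 456) (nat_lit 0) (XT.nd (nat_lit 234) (nat_lit 228) (nat_lit 0) (XT.nd (nat_lit 78) (nat_lit 76) (nat_lit 0) (XT.lf (nat_lit 0) (nat_lit 5483171129) (nat_lit 152) (nat_lit 8970736673) (nat_lit 76) (nat_lit 18225942388) (nat_lit 46) (nat_lit 5) (nat_lit 48) (nat_lit 5) (nat_lit 47) (nat_lit 4) (nat_lit 519) (nat_lit 386) (nat_lit 295)) (XT.nd (nat_lit 78) (nat_lit 0) (nat_lit 0) (XT.lf (nat_lit 0) (nat_lit 8902127074) (nat_lit 76) (nat_lit 5406417428) (nat_lit 152) (nat_lit 19072901683) (nat_lit 45) (nat_lit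 5) (nat_lit 46) (nat_lit 5) (nat_lit 47) (nat_lit 4) (nat_lit 520) (nat_lit 386) (nat_lit 294)) (XT.lf (nat_lit 0) (nat_lit 23495215346) (nat_lit 152) (nat_lit 6708453435) (nat_lit 0) (nat_lit 3897525635) (nat_lit 45) (nat_lit 5) (nat_lit 47) (nat_lit 4) (nat_lit 45) (nat_lit 4) (nat_lit 521) (nat_lit 386) (nat_lit 293)))) (XT.nd (nat_lit 156) (nat_lit 76) (nat_lit 0) (XT.nd (nat_lit 78) (nat_lit 76) (nat_lit 0) (XT.lf (nat_lit 0) (nat_lit 11708699091) (nat_lit 76) (nat_lit 21383258742) (nat_lit 76) (nat_lit 1746543547) (nat_lit 44) (nat_lit 4) (nat_lit 45) (nat_lit 5) (nat_lit 45) (nat_lit 4) (nat_lit 522) (nat_lit 386) (nat_lit 292)) (XT.lf (nat_lit 0) (nat_lit 7271517340) (nat_lit 152) (nat_lit 4913423812) (nat_lit 76) (nat_lit 23409754153) (nat_lit 43) (nat_lit 5) (nat_lit 45) (nat_lit 5) (nat_lit 44) (nat_lit 4) (nat_lit 523) (nat_lit 386) (nat_lit 291))) (XT.nd (nat_lit 78) (nat_lit 0) (nat_lit 0) (XT.lf (nat_lit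 0) (nat_lit 14046234105) (nat_lit 76) (nat_lit 2583137018) (nat_lit 152) (nat_lit 19740554900) (nat_lit 42) (nat_lit 5) (nat_lit 43) (nat_lit 5) (nat_lit 44) (nat_lit 4) (nat_lit 524) (nat_lit 386) (nat_lit 290)) (XT.lf (nat_lit 0) (nat_lit 26357680698) (nat_lit 152) (nat_lit 3622305821) (nat_lit 0) (nat_lit 7185735920) (nat_lit 42) (nat_lit 5) (nat_lit 44) (nat_lit 4) (nat_lit 42) (nat_lit 4) (nat_lit 525) (nat_lit 386) (nat_lit 289))))) (XT.nd (nat_lit 312) (nat_lit 228) (nat_lit 0) (XT.nd (nat_lit 156) (nat_lit 76) (nat_lit 0) (XT.nd (nat_lit 78) (nat_lit 76) (nat_lit 0) (XT.lf (nat_lit 0) (nat_lit 15865840255) (nat_lit 76) (nat_lit 20660355344) (nat_lit 76) (nat_lit 1454746840) (nat_lit 41) (nat_lit 4) (nat_lit 42) (nat_lit 5) (nat_lit 42) (nat_lit 4) (nat_lit 526) (nat_lit 386) (nat_lit 288)) (XT.lf (nat_lit 0) (nat_lit 8026770250) (nat_lit 152) (nat_lit 2943948124) (nat_lit 76) (nat_lit 27847325489) (nat_lit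 40) (nat_lit 5) (nat_lit 42) (nat_lit 5) (nat_lit 41) (nat_lit 4) (nat_lit 527) (nat_lit 386) (nat_lit 287))) (XT.nd (nat_lit 78) (nat_lit 0) (nat_lit 0) (XT.lf (nat_lit 0) (nat_lit 17064296071) (nat_lit 76) (nat_lit 834383284) (nat_lit 152) (nat_lit 21777091648) (nat_lit 39) (nat_lit 5) (nat_lit 40) (nat_lit 5) (nat_lit 41) (nat_lit 4) (nat_lit 528) (nat_lit 386) (nat_lit 286)) (XT.lf (nat_lit 0) (nat_lit 28160296959) (nat_lit 152) (nat_lit 2974499832) (nat_lit 0) (nat_lit 9421626960) (nat_lit 39) (nat_lit 5) (nat_lit 41) (nat_lit 4) (nat_lit 39) (nat_lit 4) (nat_lit 529) (nat_lit 386) (nat_lit 285)))) (XT.nd (nat_lit 156) (nat_lit 76) (nat_lit 0) (XT.nd (nat_lit 78) (nat_lit 76) (nat_lit 0) (XT.lf (nat_lit 0) (nat_lit 17530390899) (nat_lit 76) (nat_lit 21348175022) (nat_lit 76) (nat_lit 2580466397) (nat_lit 38) (nat_lit 4) (nat_lit 39) (nat_lit 5) (nat_lit 39) (nat_lit 4) (nat_lit 530) (nat_lit 386) (nat_lit 284))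 (XT.lf (nat_lit 0) (nat_lit 7385112414) (nat_lit 152) (nat_lit 3804123262) (nat_lit 76) (nat_lit 31197240993) (nat_lit 37) (nat_lit 5) (nat_lit 39) (nat_lit 5) (nat_lit 38) (nat_lit 4) (nat_lit 531) (nat_lit 386) (nat_lit 283))) (XT.nd (nat_lit 78) (nat_lit 0) (nat_lit 0) (XT.lf (nat_lit 0) (nat_lit 17180404913) (nat_lit 76) (nat_lit 555397089) (nat_lit 152) (nat_lit 25601035919) (nat_lit 36) (nat_lit 5) (nat_lit 37) (nat_lit 5) (nat_lit 38) (nat_lit 4) (nat_lit 532) (nat_lit 386) (nat_lit 282)) (XT.lf (nat_lit 0) (nat_lit 28508644768) (nat_lit 152) (nat_lit 5595894710) (nat_lit 0) (nat_lit 10207821846) (nat_lit 36) (nat_lit 5) (nat_lit 38) (nat_lit 4) (nat_lit 36) (nat_lit 4) (nat_lit 533) (nat_lit 386) (nat_lit 281)))))) (XT.nd (nat_lit 546) (nat_lit 304) (nat_lit 0) (XT.nd (nat_lit 234) (nat_lit 228) (nat_lit 0) (XT.nd (nat_lit 78) (nat_lit 152) (nat_lit 0) (XT.lf (nat_lit 0) (nat_lit 15833017231) (nat_lit 76)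 (nat_lit 23903032037) (nat_lit 76) (nat_lit 5577160142) (nat_lit 35) (nat_lit 4) (nat_lit 36) (nat_lit 5) (nat_lit 36) (nat_lit 4) (nat_lit 534) (nat_lit 386) (nat_lit 280)) (XT.nd (nat_lit 78) (nat_lit 76) (nat_lit 0) (XT.lf (nat_lit 0) (nat_lit 4890242055) (nat_lit 152) (nat_lit 8422999914) (nat_lit 76) (nat_lit 33028489105) (nat_lit 34) (nat_lit 5) (nat_lit 36) (nat_lit 5) (nat_lit 35) (nat_lit 4) (nat_lit 535) (nat_lit 386) (nat_lit 279)) (XT.lf (nat_lit 0) (nat_lit 13422198669) (nat_lit 76) (nat_lit 2240856018) (nat_lit 152) (nat_lit 31733292860) (nat_lit 33) (nat_lit 5) (nat_lit 34) (nat_lit 5) (nat_lit 35) (nat_lit 4) (nat_lit 536) (nat_lit 386) (nat_lit 278)))) (XT.nd (nat_lit 156) (nat_lit 152) (nat_lit 0) (XT.nd (nat_lit 78) (nat_lit 76) (nat_lit 0) (XT.lf (nat_lit 0) (nat_lit 26907525345) (nat_lit 152) (nat_lit 12523996601) (nat_lit 0) (nat_lit 9046626603) (nat_lit 33) (nat_lit 5) (nat_lit 35) (nat_lit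 4) (nat_lit 33) (nat_lit 4) (nat_lit 537) (nat_lit 386) (nat_lit 277)) (XT.lf (nat_lit 0) (nat_lit 9687548463) (nat_lit 76) (nat_lit 28892322668) (nat_lit 76) (nat_lit 11009816461) (nat_lit 32) (nat_lit 4) (nat_lit 33) (nat_lit 5) (nat_lit 33) (nat_lit 4) (nat_lit 538) (nat_lit 386) (nat_lit 276))) (XT.nd (nat_lit 78) (nat_lit 152) (nat_lit 0) (XT.lf (nat_lit 0) (nat_lit 32773685523) (nat_lit 76) (nat_lit 17930656598) (nat_lit 76) (nat_lit 27172271) (nat_lit 32) (nat_lit 4) (nat_lit 33) (nat_lit 5) (nat_lit 33) (nat_lit 4) (nat_lit 539) (nat_lit 386) (nat_lit 275)) (XT.lf (nat_lit 0) (nat_lit 4578118000) (nat_lit 76) (nat_lit 6506596007) (nat_lit 152) (nat_lit 40819028688) (nat_lit 30) (nat_lit 5) (nat_lit 31) (nat_lit 5) (nat_lit 32) (nat_lit 4) (nat_lit 540) (nat_lit 386) (nat_lit 274))))) (XT.nd (nat_lit 312) (nat_lit 152) (nat_lit 0) (XT.nd (nat_lit 156) (nat_lit 152) (nat_lit 0) (XT.nd (nat_lit 78) (nat_lit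 0) (nat_lit 0) (XT.lf (nat_lit 0) (nat_lit 22739097799) (nat_lit 152) (nat_lit 25047639240) (nat_lit 0) (nat_lit 5318102337) (nat_lit 30) (nat_lit 5) (nat_lit 32) (nat_lit 4) (nat_lit 30) (nat_lit 4) (nat_lit 541) (nat_lit 386) (nat_lit 273)) (XT.lf (nat_lit 0) (nat_lit 34784222844) (nat_lit 152) (nat_lit 2211924435) (nat_lit 0) (nat_lit 17344588594) (nat_lit 30) (nat_lit 5) (nat_lit 32) (nat_lit 4) (nat_lit 30) (nat_lit 4) (nat_lit 542) (nat_lit 386) (nat_lit 272))) (XT.nd (nat_lit 78) (nat_lit 76) (nat_lit 0) (XT.lf (nat_lit 0) (nat_lit 21687214302) (nat_lit 76) (nat_lit 25689325096) (nat_lit 76) (nat_lit 8231594934) (nat_lit 29) (nat_lit 4) (nat_lit 30) (nat_lit 5) (nat_lit 30) (nat_lit 4) (nat_lit 543) (nat_lit 386) (nat_lit 271)) (XT.lf (nat_lit 0) (nat_lit 3366013766) (nat_lit 152) (nat_lit 10642291062) (nat_lit 76) (nat_lit 42904262043) (nat_lit 28) (nat_lit 5) (nat_lit 30) (nat_lit 5) (nat_lit 29) (nat_lit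 4) (nat_lit 544) (nat_lit 386) (nat_lit 270)))) (XT.nd (nat_lit 156) (nat_lit 76) (nat_lit 0) (XT.nd (nat_lit 78) (nat_lit 0) (nat_lit 0) (XT.lf (nat_lit 0) (nat_lit 13472546204) (nat_lit 76) (nat_lit 1781100270) (nat_lit 152) (nat_lit 42996814787) (nat_lit 27) (nat_lit 5) (nat_lit 28) (nat_lit 5) (nat_lit 29) (nat_lit 4) (nat_lit 545) (nat_lit 386) (nat_lit 269)) (XT.lf (nat_lit 0) (nat_lit 27688434844) (nat_lit 152) (nat_lit 21244855193) (nat_lit 0) (nat_lit 10689486823) (nat_lit 27) (nat_lit 5) (nat_lit 29) (nat_lit 4) (nat_lit 27) (nat_lit 4) (nat_lit 546) (nat_lit 386) (nat_lit 268))) (XT.nd (nat_lit 78) (nat_lit 0) (nat_lit 0) (XT.lf (nat_lit 0) (nat_lit 2992660967) (nat_lit 76) (nat_lit 37528702967) (nat_lit 76) (nat_lit 20514145254) (nat_lit 26) (nat_lit 4) (nat_lit 27) (nat_lit 5) (nat_lit 27) (nat_lit 4) (nat_lit 547) (nat_lit 386) (nat_lit 267)) (XT.lf (nat_lit 0) (nat_lit 28350917567) (nat_lit 76) (nat_lit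 25581807754) (nat_lit 76) (nat_lit 8552095000) (nat_lit 26) (nat_lit 4) (nat_lit 27) (nat_lit 5) (nat_lit 27) (nat_lit 4) (nat_lit 548) (nat_lit 386) (nat_lit 266))))))) (XT.nd (nat_lit 53742) (nat_lit 0) (nat_lit 10488) (XT.nd (nat_lit 53118) (nat_lit 0) (nat_lit 15580) (XT.nd (nat_lit 234) (nat_lit 76) (nat_lit 0) (XT.nd (nat_lit 78) (nat_lit 76) (nat_lit 0) (XT.lf (nat_lit 0) (nat_lit 3674597937) (nat_lit 152) (nat_lit 9584992571) (nat_lit 76) (nat_lit 50717553861) (nat_lit 25) (nat_lit 5) (nat_lit 27) (nat_lit 5) (nat_lit 26) (nat_lit 4) (nat_lit 549) (nat_lit 386) (nat_lit 265)) (XT.nd (nat_lit 78) (nat_lit 0) (nat_lit 0) (XT.lf (nat_lit 0) (nat_lit 15885821196) (nat_lit 76) (nat_lit 343012626) (nat_lit 152) (nat_lit 49278885320) (nat_lit 24) (nat_lit 5) (nat_lit 25) (nat_lit 5) (nat_lit 26) (nat_lit 4) (nat_lit 550) (nat_lit 386) (nat_lit 264)) (XT.lf (nat_lit 0) (nat_lit 29361977442) (nat_lit 152) (nat_lit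 24929508853) (nat_lit 0) (nat_lit 12786656593) (nat_lit 24) (nat_lit 5) (nat_lit 26) (nat_lit 4) (nat_lit 24) (nat_lit 4) (nat_lit 551) (nat_lit 386) (nat_lit 263)))) (XT.nd (nat_lit 52728) (nat_lit 0) (nat_lit 19608) (XT.nd (nat_lit 52650) (nat_lit 0) (nat_lit 20444) (XT.lf (nat_lit 0) (nat_lit 470707220) (nat_lit 76) (nat_lit 42406856273) (nat_lit 76) (nat_lit 25818462554) (nat_lit 23) (nat_lit 4) (nat_lit 24) (nat_lit 5) (nat_lit 24) (nat_lit 4) (nat_lit 552) (nat_lit 386) (nat_lit 262)) (XT.lf (nat_lit 0) (nat_lit 672074650) (nat_lit 1292) (nat_lit 2237804010) (nat_lit 0) (nat_lit 672074650) (nat_lit 292) (nat_lit 5) (nat_lit 309) (nat_lit 4) (nat_lit 292) (nat_lit 4) (nat_lit 426) (nat_lit 387) (nat_lit 387))) (XT.nd (nat_lit 78) (nat_lit 76) (nat_lit 0) (XT.lf (nat_lit 0) (nat_lit 899337462) (nat_lit 760) (nat_lit 3993910441) (nat_lit 760) (nat_lit 2327907225) (nat_lit 282) (nat_lit 4) (nat_lit 292) (nat_lit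 5) (nat_lit 292) (nat_lit 4) (nat_lit 427) (nat_lit 387) (nat_lit 386)) (XT.lf (nat_lit 0) (nat_lit 1186730544) (nat_lit 836) (nat_lit 874419062) (nat_lit 76) (nat_lit 5220339319) (nat_lit 281) (nat_lit 5) (nat_lit 292) (nat_lit 5) (nat_lit 282) (nat_lit 4) (nat_lit 428) (nat_lit 387) (nat_lit 385))))) (XT.nd (nat_lit 312) (nat_lit 2128) (nat_lit 0) (XT.nd (nat_lit 156) (nat_lit 608) (nat_lit 0) (XT.nd (nat_lit 78) (nat_lit 684) (nat_lit 0) (XT.lf (nat_lit 0) (nat_lit 4697951406) (nat_lit 608) (nat_lit 7369426) (nat_lit 684) (nat_lit 2639278250) (nat_lit 273) (nat_lit 5) (nat_lit 281) (nat_lit 5) (nat_lit 282) (nat_lit 4) (nat_lit 429) (nat_lit 387) (nat_lit 384)) (XT.lf (nat_lit 0) (nat_lit 861233186) (nat_lit 684) (nat_lit 4444394527) (nat_lit 76) (nat_lit 2104945954) (nat_lit 264) (nat_lit 5) (nat_lit 273) (nat_lit 5) (nat_lit 265) (nat_lit 4) (nat_lit 430) (nat_lit 387) (nat_lit 383))) (XT.nd (nat_lit 78) (nat_lit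 76) (nat_lit 0) (XT.lf (nat_lit 0) (nat_lit 1211300736) (nat_lit 532) (nat_lit 3143924702) (nat_lit 608) (nat_lit 3124288170) (nat_lit 257) (nat_lit 5) (nat_lit 264) (nat_lit 5) (nat_lit 265) (nat_lit 4) (nat_lit 431) (nat_lit 387) (nat_lit 382)) (XT.lf (nat_lit 0) (nat_lit 344597352) (nat_lit 608) (nat_lit 536367888) (nat_lit 76) (nat_lit 6670986020) (nat_lit 256) (nat_lit 5) (nat_lit 264) (nat_lit 5) (nat_lit 257) (nat_lit 5) (nat_lit 432) (nat_lit 387) (nat_lit 381)))) (XT.nd (nat_lit 156) (nat_lit 1064) (nat_lit 0) (XT.nd (nat_lit 78) (nat_lit 532) (nat_lit 0) (XT.lf (nat_lit 0) (nat_lit 3827076139) (nat_lit 608) (nat_lit 2308386354) (nat_lit 76) (nat_lit 1491016012) (nat_lit 249) (nat_lit 5) (nat_lit 257) (nat_lit 5) (nat_lit 250) (nat_lit 4) (nat_lit 433) (nat_lit 387) (nat_lit 380)) (XT.lf (nat_lit 0) (nat_lit 3608749333) (nat_lit 532) (nat_lit 3762163470) (nat_lit 608) (nat_lit 333635971) (nat_lit 242) (nat_lit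 5) (nat_lit 249) (nat_lit 5) (nat_lit 250) (nat_lit 4) (nat_lit 434) (nat_lit 387) (nat_lit 379))) (XT.nd (nat_lit 78) (nat_lit 456) (nat_lit 0) (XT.lf (nat_lit 0) (nat_lit 1861690075) (nat_lit 532) (nat_lit 1261438095) (nat_lit 608) (nat_lit 4662407502) (nat_lit 234) (nat_lit 5) (nat_lit 241) (nat_lit 5) (nat_lit 242) (nat_lit 5) (nat_lit 435) (nat_lit 387) (nat_lit 378)) (XT.lf (nat_lit 0) (nat_lit 88329635) (nat_lit 456) (nat_lit 6553978561) (nat_lit 532) (nat_lit 1227594867) (nat_lit 228) (nat_lit 5) (nat_lit 234) (nat_lit 5) (nat_lit 235) (nat_lit 4) (nat_lit 436) (nat_lit 387) (nat_lit 377)))))) (XT.nd (nat_lit 624) (nat_lit 2204) (nat_lit 0) (XT.nd (nat_lit 312) (nat_lit 1368) (nat_lit 0) (XT.nd (nat_lit 156) (nat_lit 988) (nat_lit 0) (XT.nd (nat_lit 78) (nat_lit 456) (nat_lit 0) (XT.lf (nat_lit 0) (nat_lit 2248920343) (nat_lit 532) (nat_lit 1699889259) (nat_lit 76) (nat_lit 4007825282) (nat_lit 227) (nat_lit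 5) (nat_lit 234) (nat_lit 5) (nat_lit 228) (nat_lit 5) (nat_lit 437) (nat_lit 387) (nat_lit 376)) (XT.lf (nat_lit 0) (nat_lit 4531887486) (nat_lit 456) (nat_lit 1230169039) (nat_lit 532) (nat_lit 2284849016) (nat_lit 221) (nat_lit 5) (nat_lit 227) (nat_lit 5) (nat_lit 228) (nat_lit 5) (nat_lit 438) (nat_lit 387) (nat_lit 375))) (XT.nd (nat_lit 78) (nat_lit 456) (nat_lit 0) (XT.lf (nat_lit 0) (nat_lit 1190031568) (nat_lit 532) (nat_lit 5377283605) (nat_lit 76) (nat_lit 1573015990) (nat_lit 214) (nat_lit 5) (nat_lit 221) (nat_lit 5) (nat_lit 215) (nat_lit 5) (nat_lit 439) (nat_lit 387) (nat_lit 374)) (XT.lf (nat_lit 0) (nat_lit 938639867) (nat_lit 456) (nat_lit 3756948243) (nat_lit 532) (nat_lit 3541132702) (nat_lit 208) (nat_lit 5) (nat_lit 214) (nat_lit 5) (nat_lit 215) (nat_lit 5) (nat_lit 440) (nat_lit 387) (nat_lit 373)))) (XT.nd (nat_lit 156) (nat_lit 912) (nat_lit 0) (XT.nd (nat_lit 78) (nat_lit 456) (nat_lit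 0) (XT.lf (nat_lit 0) (nat_lit 7444816147) (nat_lit 456) (nat_lit 832513810) (nat_lit 532) (nat_lit 59551838) (nat_lit 208) (nat_lit 5) (nat_lit 214) (nat_lit 5) (nat_lit 215) (nat_lit 5) (nat_lit 441) (nat_lit 387) (nat_lit 372)) (XT.lf (nat_lit 0) (nat_lit 3452124177) (nat_lit 456) (nat_lit 2786357758) (nat_lit 76) (nat_lit 2200724473) (nat_lit 202) (nat_lit 5) (nat_lit 208) (nat_lit 5) (nat_lit 203) (nat_lit 5) (nat_lit 442) (nat_lit 387) (nat_lit 371))) (XT.nd (nat_lit 78) (nat_lit 456) (nat_lit 0) (XT.lf (nat_lit 0) (nat_lit 3824773112) (nat_lit 456) (nat_lit 3216717068) (nat_lit 532) (nat_lit 1503896128) (nat_lit 196) (nat_lit 5) (nat_lit 202) (nat_lit 5) (nat_lit 203) (nat_lit 5) (nat_lit 443) (nat_lit 387) (nat_lit 370)) (XT.lf (nat_lit 0) (nat_lit 1945563618) (nat_lit 380) (nat_lit 64623093) (nat_lit 456) (nat_lit 6644960877) (nat_lit 190) (nat_lit 5) (nat_lit 195) (nat_lit 5) (nat_lit 196) (nat_lit 5)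 (nat_lit 444) (nat_lit 387) (nat_lit 369))))) (XT.nd (nat_lit 312) (nat_lit 1064) (nat_lit 0) (XT.nd (nat_lit 156) (nat_lit 684) (nat_lit 0) (XT.nd (nat_lit 78) (nat_lit 456) (nat_lit 0) (XT.lf (nat_lit 0) (nat_lit 5599143332) (nat_lit 456) (nat_lit 14779847) (nat_lit 76) (nat_lit 3153850029) (nat_lit 190) (nat_lit 5) (nat_lit 196) (nat_lit 5) (nat_lit 191) (nat_lit 5) (nat_lit 445) (nat_lit 387) (nat_lit 368)) (XT.lf (nat_lit 0) (nat_lit 394140151) (nat_lit 456) (nat_lit 1980250980) (nat_lit 76) (nat_lit 6509570054) (nat_lit 184) (nat_lit 5) (nat_lit 190) (nat_lit 5) (nat_lit 185) (nat_lit 5) (nat_lit 446) (nat_lit 387) (nat_lit 367))) (XT.nd (nat_lit 78) (nat_lit 380) (nat_lit 0) (XT.lf (nat_lit 0) (nat_lit 3981615890) (nat_lit 380) (nat_lit 4028768965) (nat_lit 76) (nat_lit 992871321) (nat_lit 180) (nat_lit 5) (nat_lit 185) (nat_lit 5) (nat_lit 181) (nat_lit 5) (nat_lit 447) (nat_lit 387) (nat_lit 366)) (XT.lf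 (nat_lit 0) (nat_lit 2978642563) (nat_lit 380) (nat_lit 4695010932) (nat_lit 456) (nat_lit 1452575986) (nat_lit 175) (nat_lit 5) (nat_lit 180) (nat_lit 5) (nat_lit 181) (nat_lit 5) (nat_lit 448) (nat_lit 387) (nat_lit 365)))) (XT.nd (nat_lit 156) (nat_lit 684) (nat_lit 0) (XT.nd (nat_lit 78) (nat_lit 0) (nat_lit 0) (XT.lf (nat_lit 0) (nat_lit 914112392) (nat_lit 304) (nat_lit 1240951376) (nat_lit 380) (nat_lit 7097947352) (nat_lit 170) (nat_lit 5) (nat_lit 174) (nat_lit 5) (nat_lit 175) (nat_lit 5) (nat_lit 449) (nat_lit 387) (nat_lit 364)) (XT.lf (nat_lit 0) (nat_lit 5852537093) (nat_lit 380) (nat_lit 1215279927) (nat_lit 76) (nat_lit 2315030687) (nat_lit 170) (nat_lit 5) (nat_lit 175) (nat_lit 5) (nat_lit 171) (nat_lit 5) (nat_lit 450) (nat_lit 387) (nat_lit 363))) (XT.nd (nat_lit 78) (nat_lit 304) (nat_lit 0) (XT.lf (nat_lit 0) (nat_lit 140659547) (nat_lit 380) (nat_lit 3395517852) (nat_lit 76) (nat_lit 5980393276)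 (nat_lit 165) (nat_lit 5) (nat_lit 170) (nat_lit 5) (nat_lit 166) (nat_lit 5) (nat_lit 451) (nat_lit 387) (nat_lit 362)) (XT.lf (nat_lit 0) (nat_lit 3831343461) (nat_lit 380) (nat_lit 5671400089) (nat_lit 76) (nat_lit 151103321) (nat_lit 161) (nat_lit 5) (nat_lit 166) (nat_lit 5) (nat_lit 162) (nat_lit 5) (nat_lit 452) (nat_lit 387) (nat_lit 361))))))))
noncomputable def xc67 : XT := (XT.nd (nat_lit 2340) (nat_lit 2888) (nat_lit 0) (XT.nd (nat_lit 1170) (nat_lit 2204) (nat_lit 0) (XT.nd (nat_lit 546) (nat_lit 1520) (nat_lit 0) (XT.nd (nat_lit 234) (nat_lit 988) (nat_lit 0) (XT.nd (nat_lit 78) (nat_lit 380) (nat_lit 0) (XT.lf (nat_lit 0) (nat_lit 1748026056) (nat_lit 304) (nat_lit 5900258271) (nat_lit 380) (nat_lit 2146497107) (nat_lit 157) (nat_lit 5) (nat_lit 161) (nat_lit 5) (nat_lit 162) (nat_lit 5) (nat_lit 453) (nat_lit 387) (nat_lit 360)) (XT.nd (nat_lit 78) (nat_lit 304) (nat_lit 0) (XT.lf (nat_lit 0) (nat_lit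 1595063147) (nat_lit 380) (nat_lit 556490611) (nat_lit 76) (nat_lit 7788305056) (nat_lit 156) (nat_lit 5) (nat_lit 161) (nat_lit 5) (nat_lit 157) (nat_lit 5) (nat_lit 454) (nat_lit 387) (nat_lit 359)) (XT.lf (nat_lit 0) (nat_lit 5423135992) (nat_lit 380) (nat_lit 2933511505) (nat_lit 76) (nat_lit 1731486846) (nat_lit 152) (nat_lit 5) (nat_lit 157) (nat_lit 5) (nat_lit 153) (nat_lit 5) (nat_lit 455) (nat_lit 387) (nat_lit 358)))) (XT.nd (nat_lit 156) (nat_lit 380) (nat_lit 0) (XT.nd (nat_lit 78) (nat_lit 304) (nat_lit 0) (XT.lf (nat_lit 0) (nat_lit 4835053357) (nat_lit 304) (nat_lit 4536587094) (nat_lit 380) (nat_lit 869055489) (nat_lit 148) (nat_lit 5) (nat_lit 152) (nat_lit 5) (nat_lit 153) (nat_lit 5) (nat_lit 456) (nat_lit 387) (nat_lit 357)) (XT.lf (nat_lit 0) (nat_lit 2411356092) (nat_lit 228) (nat_lit 555605822) (nat_lit 304) (nat_lit 7430434774) (nat_lit 144) (nat_lit 5) (nat_lit 147) (nat_lit 5) (nat_lit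 148) (nat_lit 5) (nat_lit 457) (nat_lit 387) (nat_lit 356))) (XT.nd (nat_lit 78) (nat_lit 380) (nat_lit 0) (XT.lf (nat_lit 0) (nat_lit 6922820939) (nat_lit 304) (nat_lit 133338774) (nat_lit 76) (nat_lit 3501718782) (nat_lit 144) (nat_lit 5) (nat_lit 148) (nat_lit 5) (nat_lit 145) (nat_lit 5) (nat_lit 458) (nat_lit 387) (nat_lit 355)) (XT.lf (nat_lit 0) (nat_lit 286397250) (nat_lit 380) (nat_lit 2723400700) (nat_lit 76) (nat_lit 7712775474) (nat_lit 139) (nat_lit 5) (nat_lit 144) (nat_lit 5) (nat_lit 140) (nat_lit 5) (nat_lit 459) (nat_lit 387) (nat_lit 354))))) (XT.nd (nat_lit 312) (nat_lit 760) (nat_lit 0) (XT.nd (nat_lit 156) (nat_lit 304) (nat_lit 0) (XT.nd (nat_lit 78) (nat_lit 228) (nat_lit 0) (XT.lf (nat_lit 0) (nat_lit 4253100887) (nat_lit 304) (nat_lit 5450289297) (nat_lit 76) (nat_lit 1187723903) (nat_lit 136) (nat_lit 5) (nat_lit 140) (nat_lit 5) (nat_lit 137) (nat_lit 5) (nat_lit 460) (nat_lit 387) (nat_lit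 353)) (XT.lf (nat_lit 0) (nat_lit 2761396761) (nat_lit 228) (nat_lit 5597296382) (nat_lit 304) (nat_lit 2705425660) (nat_lit 133) (nat_lit 5) (nat_lit 136) (nat_lit 5) (nat_lit 137) (nat_lit 5) (nat_lit 461) (nat_lit 387) (nat_lit 352))) (XT.nd (nat_lit 78) (nat_lit 228) (nat_lit 0) (XT.lf (nat_lit 0) (nat_lit 1310489339) (nat_lit 304) (nat_lit 27567429) (nat_lit 76) (nat_lit 9904125238) (nat_lit 132) (nat_lit 5) (nat_lit 136) (nat_lit 5) (nat_lit 133) (nat_lit 5) (nat_lit 462) (nat_lit 387) (nat_lit 351)) (XT.lf (nat_lit 0) (nat_lit 5442426607) (nat_lit 304) (nat_lit 2920154146) (nat_lit 76) (nat_lit 3060709205) (nat_lit 129) (nat_lit 5) (nat_lit 133) (nat_lit 5) (nat_lit 130) (nat_lit 5) (nat_lit 463) (nat_lit 387) (nat_lit 350)))) (XT.nd (nat_lit 156) (nat_lit 228) (nat_lit 0) (XT.nd (nat_lit 78) (nat_lit 304) (nat_lit 0) (XT.lf (nat_lit 0) (nat_lit 5675999140) (nat_lit 228) (nat_lit 4028758373) (nat_lit 304)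 (nat_lit 1904884533) (nat_lit 126) (nat_lit 5) (nat_lit 129) (nat_lit 5) (nat_lit 130) (nat_lit 5) (nat_lit 464) (nat_lit 387) (nat_lit 349)) (XT.lf (nat_lit 0) (nat_lit 2247650870) (nat_lit 304) (nat_lit 9088001638) (nat_lit 76) (nat_lit 465303688) (nat_lit 122) (nat_lit 5) (nat_lit 126) (nat_lit 5) (nat_lit 123) (nat_lit 5) (nat_lit 465) (nat_lit 387) (nat_lit 348))) (XT.nd (nat_lit 78) (nat_lit 228) (nat_lit 0) (XT.lf (nat_lit 0) (nat_lit 6525865850) (nat_lit 304) (nat_lit 417638053) (nat_lit 76) (nat_lit 5052761992) (nat_lit 122) (nat_lit 5) (nat_lit 126) (nat_lit 5) (nat_lit 123) (nat_lit 5) (nat_lit 466) (nat_lit 387) (nat_lit 347)) (XT.lf (nat_lit 0) (nat_lit 8580597672) (nat_lit 228) (nat_lit 2375078263) (nat_lit 304) (nat_lit 1241065010) (nat_lit 119) (nat_lit 5) (nat_lit 122) (nat_lit 5) (nat_lit 123) (nat_lit 5) (nat_lit 467) (nat_lit 387) (nat_lit 346)))))) (XT.nd (nat_lit 546) (nat_lit 1064) (nat_lit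 0) (XT.nd (nat_lit 234) (nat_lit 684) (nat_lit 0) (XT.nd (nat_lit 78) (nat_lit 228) (nat_lit 0) (XT.lf (nat_lit 0) (nat_lit 3074646283) (nat_lit 228) (nat_lit 6994938091) (nat_lit 76) (nat_lit 2332142329) (nat_lit 116) (nat_lit 5) (nat_lit 119) (nat_lit 5) (nat_lit 117) (nat_lit 5) (nat_lit 468) (nat_lit 387) (nat_lit 345)) (XT.nd (nat_lit 78) (nat_lit 0) (nat_lit 0) (XT.lf (nat_lit 0) (nat_lit 2066672788) (nat_lit 228) (nat_lit 5449810602) (nat_lit 304) (nat_lit 5095365274) (nat_lit 113) (nat_lit 5) (nat_lit 116) (nat_lit 5) (nat_lit 117) (nat_lit 5) (nat_lit 469) (nat_lit 387) (nat_lit 344)) (XT.lf (nat_lit 0) (nat_lit 11444244516) (nat_lit 228) (nat_lit 660059905) (nat_lit 304) (nat_lit 723591126) (nat_lit 113) (nat_lit 5) (nat_lit 116) (nat_lit 5) (nat_lit 117) (nat_lit 5) (nat_lit 470) (nat_lit 387) (nat_lit 343)))) (XT.nd (nat_lit 156) (nat_lit 228) (nat_lit 0) (XT.nd (nat_lit 78) (nat_lit 228) (nat_lit 0)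 (XT.lf (nat_lit 0) (nat_lit 3768259556) (nat_lit 228) (nat_lit 5014053259) (nat_lit 76) (nat_lit 4265143938) (nat_lit 110) (nat_lit 5) (nat_lit 113) (nat_lit 5) (nat_lit 111) (nat_lit 5) (nat_lit 471) (nat_lit 387) (nat_lit 342)) (XT.lf (nat_lit 0) (nat_lit 4463552360) (nat_lit 228) (nat_lit 3923878875) (nat_lit 304) (nat_lit 4885748226) (nat_lit 107) (nat_lit 5) (nat_lit 110) (nat_lit 5) (nat_lit 111) (nat_lit 5) (nat_lit 472) (nat_lit 387) (nat_lit 341))) (XT.nd (nat_lit 78) (nat_lit 76) (nat_lit 0) (XT.lf (nat_lit 0) (nat_lit 729282600) (nat_lit 152) (nat_lit 12428297379) (nat_lit 228) (nat_lit 347724593) (nat_lit 105) (nat_lit 5) (nat_lit 107) (nat_lit 5) (nat_lit 108) (nat_lit 4) (nat_lit 473) (nat_lit 387) (nat_lit 340)) (XT.lf (nat_lit 0) (nat_lit 4314728818) (nat_lit 228) (nat_lit 3186426828) (nat_lit 76) (nat_lit 6239811354) (nat_lit 104) (nat_lit 5) (nat_lit 107) (nat_lit 5) (nat_lit 105) (nat_lit 5) (nat_lit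 474) (nat_lit 387) (nat_lit 339))))) (XT.nd (nat_lit 312) (nat_lit 532) (nat_lit 0) (XT.nd (nat_lit 156) (nat_lit 228) (nat_lit 0) (XT.nd (nat_lit 78) (nat_lit 152) (nat_lit 0) (XT.lf (nat_lit 0) (nat_lit 6723138981) (nat_lit 152) (nat_lit 2397207723) (nat_lit 228) (nat_lit 4862943461) (nat_lit 102) (nat_lit 5) (nat_lit 104) (nat_lit 5) (nat_lit 105) (nat_lit 5) (nat_lit 475) (nat_lit 387) (nat_lit 338)) (XT.lf (nat_lit 0) (nat_lit 2692370233) (nat_lit 152) (nat_lit 11409563907) (nat_lit 228) (nat_lit 129997323) (nat_lit 100) (nat_lit 5) (nat_lit 102) (nat_lit 5) (nat_lit 103) (nat_lit 4) (nat_lit 476) (nat_lit 387) (nat_lit 337))) (XT.nd (nat_lit 78) (nat_lit 152) (nat_lit 0) (XT.lf (nat_lit 0) (nat_lit 4696186876) (nat_lit 228) (nat_lit 1559499123) (nat_lit 76) (nat_lit 8229664779) (nat_lit 99) (nat_lit 5) (nat_lit 102) (nat_lit 5) (nat_lit 100) (nat_lit 5) (nat_lit 477) (nat_lit 387) (nat_lit 336)) (XT.lf (nat_lit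 0) (nat_lit 8797248654) (nat_lit 152) (nat_lit 899497140) (nat_lit 228) (nat_lit 5048624463) (nat_lit 97) (nat_lit 5) (nat_lit 99) (nat_lit 5) (nat_lit 100) (nat_lit 5) (nat_lit 478) (nat_lit 387) (nat_lit 335)))) (XT.nd (nat_lit 156) (nat_lit 304) (nat_lit 0) (XT.nd (nat_lit 78) (nat_lit 76) (nat_lit 0) (XT.lf (nat_lit 0) (nat_lit 4432555951) (nat_lit 152) (nat_lit 10465550394) (nat_lit 228) (nat_lit 113562624) (nat_lit 95) (nat_lit 5) (nat_lit 97) (nat_lit 5) (nat_lit 98) (nat_lit 4) (nat_lit 479) (nat_lit 387) (nat_lit 334)) (XT.lf (nat_lit 0) (nat_lit 4890147270) (nat_lit 228) (nat_lit 188310274) (nat_lit 76) (nat_lit 10205540954) (nat_lit 94) (nat_lit 5) (nat_lit 97) (nat_lit 5) (nat_lit 95) (nat_lit 5) (nat_lit 480) (nat_lit 387) (nat_lit 333))) (XT.nd (nat_lit 78) (nat_lit 152) (nat_lit 0) (XT.lf (nat_lit 0) (nat_lit 10098541370) (nat_lit 228) (nat_lit 4938300678) (nat_lit 76) (nat_lit 525918480) (nat_lit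 92) (nat_lit 5) (nat_lit 95) (nat_lit 5) (nat_lit 93) (nat_lit 4) (nat_lit 481) (nat_lit 387) (nat_lit 332)) (XT.lf (nat_lit 0) (nat_lit 5889294815) (nat_lit 152) (nat_lit 9632447819) (nat_lit 228) (nat_lit 326388072) (nat_lit 90) (nat_lit 5) (nat_lit 92) (nat_lit 5) (nat_lit 93) (nat_lit 4) (nat_lit 482) (nat_lit 387) (nat_lit 331))))))) (XT.nd (nat_lit 1170) (nat_lit 1292) (nat_lit 0) (XT.nd (nat_lit 546) (nat_lit 684) (nat_lit 0) (XT.nd (nat_lit 234) (nat_lit 532) (nat_lit 0) (XT.nd (nat_lit 78) (nat_lit 152) (nat_lit 0) (XT.lf (nat_lit 0) (nat_lit 880254584) (nat_lit 152) (nat_lit 3997095568) (nat_lit 228) (nat_lit 11263021654) (nat_lit 87) (nat_lit 5) (nat_lit 89) (nat_lit 5) (nat_lit 90) (nat_lit 5) (nat_lit 483) (nat_lit 387) (nat_lit 330)) (XT.nd (nat_lit 78) (nat_lit 152) (nat_lit 0) (XT.lf (nat_lit 0) (nat_lit 10299623327) (nat_lit 228) (nat_lit 4302583445) (nat_lit 76) (nat_lit 1837008720) (nat_lit 87)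 (nat_lit 5) (nat_lit 90) (nat_lit 5) (nat_lit 88) (nat_lit 4) (nat_lit 484) (nat_lit 387) (nat_lit 329)) (XT.lf (nat_lit 0) (nat_lit 6991913216) (nat_lit 152) (nat_lit 8950941534) (nat_lit 228) (nat_lit 802422765) (nat_lit 85) (nat_lit 5) (nat_lit 87) (nat_lit 5) (nat_lit 88) (nat_lit 4) (nat_lit 485) (nat_lit 387) (nat_lit 328)))) (XT.nd (nat_lit 156) (nat_lit 304) (nat_lit 0) (XT.nd (nat_lit 78) (nat_lit 0) (nat_lit 0) (XT.lf (nat_lit 0) (nat_lit 1550193948) (nat_lit 152) (nat_lit 3063430408) (nat_lit 228) (nat_lit 12445233492) (nat_lit 82) (nat_lit 5) (nat_lit 84) (nat_lit 5) (nat_lit 85) (nat_lit 5) (nat_lit 486) (nat_lit 387) (nat_lit 327)) (XT.lf (nat_lit 0) (nat_lit 10256112348) (nat_lit 228) (nat_lit 4112765758) (nat_lit 76) (nat_lit 3010328106) (nat_lit 82) (nat_lit 5) (nat_lit 85) (nat_lit 5) (nat_lit 83) (nat_lit 4) (nat_lit 487) (nat_lit 387) (nat_lit 326))) (XT.nd (nat_lit 78) (nat_lit 228) (nat_lit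 0) (XT.lf (nat_lit 0) (nat_lit 7657795264) (nat_lit 76) (nat_lit 8467204386) (nat_lit 152) (nat_lit 1582453174) (nat_lit 81) (nat_lit 5) (nat_lit 82) (nat_lit 5) (nat_lit 83) (nat_lit 4) (nat_lit 488) (nat_lit 387) (nat_lit 325)) (XT.lf (nat_lit 0) (nat_lit 1728757037) (nat_lit 152) (nat_lit 2326992282) (nat_lit 228) (nat_lit 13988254839) (nat_lit 78) (nat_lit 5) (nat_lit 80) (nat_lit 5) (nat_lit 81) (nat_lit 5) (nat_lit 489) (nat_lit 387) (nat_lit 324))))) (XT.nd (nat_lit 312) (nat_lit 380) (nat_lit 0) (XT.nd (nat_lit 156) (nat_lit 228) (nat_lit 0) (XT.nd (nat_lit 78) (nat_lit 76) (nat_lit 0) (XT.lf (nat_lit 0) (nat_lit 9925629662) (nat_lit 228) (nat_lit 4462735234) (nat_lit 76) (nat_lit 3998988383) (nat_lit 78) (nat_lit 5) (nat_lit 81) (nat_lit 5) (nat_lit 79) (nat_lit 4) (nat_lit 490) (nat_lit 387) (nat_lit 323)) (XT.lf (nat_lit 0) (nat_lit 7790288757) (nat_lit 76) (nat_lit 8234023956) (nat_lit 152) (nat_lit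 2715110338) (nat_lit 77) (nat_lit 5) (nat_lit 78) (nat_lit 5) (nat_lit 79) (nat_lit 4) (nat_lit 491) (nat_lit 387) (nat_lit 322))) (XT.nd (nat_lit 78) (nat_lit 0) (nat_lit 0) (XT.lf (nat_lit 0) (nat_lit 1311922320) (nat_lit 152) (nat_lit 1842436399) (nat_lit 228) (nat_lit 15946384240) (nat_lit 74) (nat_lit 5) (nat_lit 76) (nat_lit 5) (nat_lit 77) (nat_lit 5) (nat_lit 492) (nat_lit 387) (nat_lit 321)) (XT.lf (nat_lit 0) (nat_lit 9257570324) (nat_lit 228) (nat_lit 5462137801) (nat_lit 76) (nat_lit 4749022236) (nat_lit 74) (nat_lit 5) (nat_lit 77) (nat_lit 5) (nat_lit 75) (nat_lit 4) (nat_lit 493) (nat_lit 387) (nat_lit 320)))) (XT.nd (nat_lit 156) (nat_lit 76) (nat_lit 0) (XT.nd (nat_lit 78) (nat_lit 228) (nat_lit 0) (XT.lf (nat_lit 0) (nat_lit 7276284233) (nat_lit 76) (nat_lit 8312088430) (nat_lit 152) (nat_lit 4258051105) (nat_lit 73) (nat_lit 5) (nat_lit 74) (nat_lit 5) (nat_lit 75) (nat_lit 4) (nat_lit 494) (nat_lit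 387) (nat_lit 319)) (XT.lf (nat_lit 0) (nat_lit 178079064) (nat_lit 152) (nat_lit 1672798547) (nat_lit 228) (nat_lit 18383617545) (nat_lit 70) (nat_lit 5) (nat_lit 72) (nat_lit 5) (nat_lit 73) (nat_lit 5) (nat_lit 495) (nat_lit 387) (nat_lit 318))) (XT.nd (nat_lit 78) (nat_lit 76) (nat_lit 0) (XT.lf (nat_lit 0) (nat_lit 8191837815) (nat_lit 228) (nat_lit 7239053257) (nat_lit 76) (nat_lit 5198023570) (nat_lit 70) (nat_lit 5) (nat_lit 73) (nat_lit 5) (nat_lit 71) (nat_lit 4) (nat_lit 496) (nat_lit 387) (nat_lit 317)) (XT.lf (nat_lit 0) (nat_lit 5983413357) (nat_lit 76) (nat_lit 8771459170) (nat_lit 152) (nat_lit 6279339895) (nat_lit 69) (nat_lit 5) (nat_lit 70) (nat_lit 5) (nat_lit 71) (nat_lit 4) (nat_lit 497) (nat_lit 387) (nat_lit 316)))))) (XT.nd (nat_lit 624) (nat_lit 456) (nat_lit 0) (XT.nd (nat_lit 312) (nat_lit 532) (nat_lit 0) (XT.nd (nat_lit 156) (nat_lit 76) (nat_lit 0) (XT.nd (nat_lit 78) (nat_lit 152)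 (nat_lit 0) (XT.lf (nat_lit 0) (nat_lit 93546190) (nat_lit 152) (nat_lit 1779531821) (nat_lit 76) (nat_lit 19577624469) (nat_lit 68) (nat_lit 5) (nat_lit 70) (nat_lit 5) (nat_lit 69) (nat_lit 5) (nat_lit 498) (nat_lit 387) (nat_lit 315)) (XT.lf (nat_lit 0) (nat_lit 6657364997) (nat_lit 228) (nat_lit 9943092562) (nat_lit 76) (nat_lit 5273586877) (nat_lit 66) (nat_lit 5) (nat_lit 69) (nat_lit 5) (nat_lit 67) (nat_lit 4) (nat_lit 499) (nat_lit 387) (nat_lit 314))) (XT.nd (nat_lit 78) (nat_lit 0) (nat_lit 0) (XT.lf (nat_lit 0) (nat_lit 3756804454) (nat_lit 76) (nat_lit 9693262268) (nat_lit 152) (nat_lit 8859061838) (nat_lit 65) (nat_lit 5) (nat_lit 66) (nat_lit 5) (nat_lit 67) (nat_lit 4) (nat_lit 500) (nat_lit 387) (nat_lit 313)) (XT.lf (nat_lit 0) (nat_lit 17994819200) (nat_lit 76) (nat_lit 2511750785) (nat_lit 152) (nat_lit 2248895539) (nat_lit 65) (nat_lit 5) (nat_lit 66) (nat_lit 5) (nat_lit 67) (nat_lit 4) (nat_lit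 501) (nat_lit 387) (nat_lit 312)))) (XT.nd (nat_lit 156) (nat_lit 228) (nat_lit 0) (XT.nd (nat_lit 78) (nat_lit 76) (nat_lit 0) (XT.lf (nat_lit 0) (nat_lit 4570388298) (nat_lit 228) (nat_lit 13748985434) (nat_lit 76) (nat_lit 4891511271) (nat_lit 62) (nat_lit 5) (nat_lit 65) (nat_lit 5) (nat_lit 63) (nat_lit 4) (nat_lit 502) (nat_lit 387) (nat_lit 311)) (XT.lf (nat_lit 0) (nat_lit 415323222) (nat_lit 76) (nat_lit 11171636223) (nat_lit 152) (nat_lit 12091203202) (nat_lit 61) (nat_lit 5) (nat_lit 62) (nat_lit 5) (nat_lit 63) (nat_lit 4) (nat_lit 503) (nat_lit 387) (nat_lit 310))) (XT.nd (nat_lit 78) (nat_lit 228) (nat_lit 0) (XT.lf (nat_lit 0) (nat_lit 15211784943) (nat_lit 76) (nat_lit 3702012872) (nat_lit 152) (nat_lit 5242668532) (nat_lit 61) (nat_lit 5) (nat_lit 62) (nat_lit 5) (nat_lit 63) (nat_lit 4) (nat_lit 504) (nat_lit 387) (nat_lit 309)) (XT.lf (nat_lit 0) (nat_lit 1832436622) (nat_lit 228) (nat_lit 18860737622)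 (nat_lit 76) (nat_lit 3953729550) (nat_lit 58) (nat_lit 5) (nat_lit 61) (nat_lit 5) (nat_lit 59) (nat_lit 4) (nat_lit 505) (nat_lit 387) (nat_lit 308))))) (XT.nd (nat_lit 312) (nat_lit 228) (nat_lit 0) (XT.nd (nat_lit 156) (nat_lit 152) (nat_lit 0) (XT.nd (nat_lit 78) (nat_lit 76) (nat_lit 0) (XT.lf (nat_lit 0) (nat_lit 9104074263) (nat_lit 228) (nat_lit 4169797576) (nat_lit 76) (nat_lit 11873936501) (nat_lit 58) (nat_lit 5) (nat_lit 61) (nat_lit 5) (nat_lit 59) (nat_lit 4) (nat_lit 506) (nat_lit 387) (nat_lit 307)) (XT.lf (nat_lit 0) (nat_lit 11107458155) (nat_lit 76) (nat_lit 5556067908) (nat_lit 152) (nat_lit 8998124744) (nat_lit 57) (nat_lit 5) (nat_lit 58) (nat_lit 5) (nat_lit 59) (nat_lit 4) (nat_lit 507) (nat_lit 387) (nat_lit 306))) (XT.nd (nat_lit 78) (nat_lit 76) (nat_lit 0) (XT.lf (nat_lit 0) (nat_lit 657022680) (nat_lit 76) (nat_lit 23827555996) (nat_lit 76) (nat_lit 1705286066) (nat_lit 56) (nat_lit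 4) (nat_lit 57) (nat_lit 5) (nat_lit 57) (nat_lit 4) (nat_lit 508) (nat_lit 387) (nat_lit 305)) (XT.lf (nat_lit 0) (nat_lit 5859479101) (nat_lit 152) (nat_lit 10290151799) (nat_lit 76) (nat_lit 10577627131) (nat_lit 55) (nat_lit 5) (nat_lit 57) (nat_lit 5) (nat_lit 56) (nat_lit 4) (nat_lit 509) (nat_lit 387) (nat_lit 304)))) (XT.nd (nat_lit 156) (nat_lit 152) (nat_lit 0) (XT.nd (nat_lit 78) (nat_lit 0) (nat_lit 0) (XT.lf (nat_lit 0) (nat_lit 5429686792) (nat_lit 76) (nat_lit 8203506113) (nat_lit 152) (nat_lit 13646585936) (nat_lit 54) (nat_lit 5) (nat_lit 55) (nat_lit 5) (nat_lit 56) (nat_lit 4) (nat_lit 510) (nat_lit 387) (nat_lit 303)) (XT.lf (nat_lit 0) (nat_lit 21709031603) (nat_lit 152) (nat_lit 6083817490) (nat_lit 0) (nat_lit 53959415) (nat_lit 54) (nat_lit 5) (nat_lit 56) (nat_lit 4) (nat_lit 54) (nat_lit 4) (nat_lit 511) (nat_lit 387) (nat_lit 302))) (XT.nd (nat_lit 78) (nat_lit 0) (nat_lit 0) (XT.lf (nat_lit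 0) (nat_lit 1711108562) (nat_lit 152) (nat_lit 18237162815) (nat_lit 76) (nat_lit 8477739097) (nat_lit 52) (nat_lit 5) (nat_lit 54) (nat_lit 5) (nat_lit 53) (nat_lit 4) (nat_lit 512) (nat_lit 387) (nat_lit 301)) (XT.lf (nat_lit 0) (nat_lit 9699373122) (nat_lit 152) (nat_lit 2075006154) (nat_lit 76) (nat_lit 17245568428) (nat_lit 52) (nat_lit 5) (nat_lit 54) (nat_lit 5) (nat_lit 53) (nat_lit 4) (nat_lit 513) (nat_lit 387) (nat_lit 300))))))))
noncomputable def xc68 : XT := (XT.nd (nat_lit 2340) (nat_lit 456) (nat_lit 0) (XT.nd (nat_lit 1170) (nat_lit 760) (nat_lit 0) (XT.nd (nat_lit 546) (nat_lit 456) (nat_lit 0) (XT.nd (nat_lit 234) (nat_lit 228) (nat_lit 0) (XT.nd (nat_lit 78) (nat_lit 152) (nat_lit 0) (XT.lf (nat_lit 0) (nat_lit 14795399142) (nat_lit 76) (nat_lit 3240354415) (nat_lit 152) (nat_lit 11592696019) (nat_lit 51) (nat_lit 5) (nat_lit 52) (nat_lit 5) (nat_lit 53) (nat_lit 4) (nat_lit 514) (nat_lit 387)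 (nat_lit 299)) (XT.nd (nat_lit 78) (nat_lit 76) (nat_lit 0) (XT.lf (nat_lit 0) (nat_lit 1877569290) (nat_lit 76) (nat_lit 24803518463) (nat_lit 76) (nat_lit 3572353428) (nat_lit 50) (nat_lit 4) (nat_lit 51) (nat_lit 5) (nat_lit 51) (nat_lit 4) (nat_lit 515) (nat_lit 387) (nat_lit 298)) (XT.lf (nat_lit 0) (nat_lit 4746792873) (nat_lit 152) (nat_lit 11643171924) (nat_lit 76) (nat_lit 14501375615) (nat_lit 49) (nat_lit 5) (nat_lit 51) (nat_lit 5) (nat_lit 50) (nat_lit 4) (nat_lit 516) (nat_lit 387) (nat_lit 297)))) (XT.nd (nat_lit 156) (nat_lit 152) (nat_lit 0) (XT.nd (nat_lit 78) (nat_lit 0) (nat_lit 0) (XT.lf (nat_lit 0) (nat_lit 5601940512) (nat_lit 76) (nat_lit 7662936550) (nat_lit 152) (nat_lit 18281804034) (nat_lit 48) (nat_lit 5) (nat_lit 49) (nat_lit 5) (nat_lit 50) (nat_lit 4) (nat_lit 517) (nat_lit 387) (nat_lit 296)) (XT.lf (nat_lit 0) (nat_lit 22137355214) (nat_lit 152) (nat_lit 8692551331) (nat_lit 0)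 (nat_lit 1388810400) (nat_lit 48) (nat_lit 5) (nat_lit 50) (nat_lit 4) (nat_lit 48) (nat_lit 4) (nat_lit 518) (nat_lit 387) (nat_lit 295))) (XT.nd (nat_lit 78) (nat_lit 76) (nat_lit 0) (XT.lf (nat_lit 0) (nat_lit 9117533343) (nat_lit 76) (nat_lit 22290307509) (nat_lit 76) (nat_lit 1499118495) (nat_lit 47) (nat_lit 4) (nat_lit 48) (nat_lit 5) (nat_lit 48) (nat_lit 4) (nat_lit 519) (nat_lit 387) (nat_lit 294)) (XT.lf (nat_lit 0) (nat_lit 7254341144) (nat_lit 152) (nat_lit 6106278626) (nat_lit 76) (nat_lit 20251403112) (nat_lit 46) (nat_lit 5) (nat_lit 48) (nat_lit 5) (nat_lit 47) (nat_lit 4) (nat_lit 520) (nat_lit 387) (nat_lit 293))))) (XT.nd (nat_lit 312) (nat_lit 228) (nat_lit 0) (XT.nd (nat_lit 156) (nat_lit 152) (nat_lit 0) (XT.nd (nat_lit 78) (nat_lit 0) (nat_lit 0) (XT.lf (nat_lit 0) (nat_lit 12272049660) (nat_lit 76) (nat_lit 4055456280) (nat_lit 152) (nat_lit 18007670568) (nat_lit 45) (nat_lit 5) (nat_lit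 46) (nat_lit 5) (nat_lit 47) (nat_lit 4) (nat_lit 521) (nat_lit 387) (nat_lit 292)) (XT.lf (nat_lit 0) (nat_lit 25757596526) (nat_lit 152) (nat_lit 3865021137) (nat_lit 0) (nat_lit 5454865572) (nat_lit 45) (nat_lit 5) (nat_lit 47) (nat_lit 4) (nat_lit 45) (nat_lit 4) (nat_lit 522) (nat_lit 387) (nat_lit 291))) (XT.nd (nat_lit 78) (nat_lit 76) (nat_lit 0) (XT.lf (nat_lit 0) (nat_lit 15074796103) (nat_lit 76) (nat_lit 20551060836) (nat_lit 76) (nat_lit 211544621) (nat_lit 44) (nat_lit 4) (nat_lit 45) (nat_lit 5) (nat_lit 45) (nat_lit 4) (nat_lit 523) (nat_lit 387) (nat_lit 290)) (XT.lf (nat_lit 0) (nat_lit 9000749690) (nat_lit 152) (nat_lit 2103708189) (nat_lit 76) (nat_lit 25512726214) (nat_lit 43) (nat_lit 5) (nat_lit 45) (nat_lit 5) (nat_lit 44) (nat_lit 4) (nat_lit 524) (nat_lit 387) (nat_lit 289)))) (XT.nd (nat_lit 156) (nat_lit 152) (nat_lit 0) (XT.nd (nat_lit 78) (nat_lit 0) (nat_lit 0) (XT.lf (nat_lit 0) (nat_lit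 17395748109) (nat_lit 76) (nat_lit 1227725687) (nat_lit 152) (nat_lit 18792674462) (nat_lit 42) (nat_lit 5) (nat_lit 43) (nat_lit 5) (nat_lit 44) (nat_lit 4) (nat_lit 525) (nat_lit 387) (nat_lit 288)) (XT.lf (nat_lit 0) (nat_lit 28613455297) (nat_lit 152) (nat_lit 857937556) (nat_lit 0) (nat_lit 8765331585) (nat_lit 42) (nat_lit 5) (nat_lit 44) (nat_lit 4) (nat_lit 42) (nat_lit 4) (nat_lit 526) (nat_lit 387) (nat_lit 287))) (XT.nd (nat_lit 78) (nat_lit 76) (nat_lit 0) (XT.lf (nat_lit 0) (nat_lit 19186685869) (nat_lit 76) (nat_lit 19885015222) (nat_lit 76) (nat_lit 5160219) (nat_lit 41) (nat_lit 4) (nat_lit 42) (nat_lit 5) (nat_lit 42) (nat_lit 4) (nat_lit 527) (nat_lit 387) (nat_lit 286)) (XT.lf (nat_lit 0) (nat_lit 9689020687) (nat_lit 152) (nat_lit 241950084) (nat_lit 76) (nat_lit 30008954196) (nat_lit 40) (nat_lit 5) (nat_lit 42) (nat_lit 5) (nat_lit 41) (nat_lit 4) (nat_lit 528) (nat_lit 387) (nat_lit 285))))))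 (XT.nd (nat_lit 546) (nat_lit 380) (nat_lit 0) (XT.nd (nat_lit 234) (nat_lit 228) (nat_lit 0) (XT.nd (nat_lit 78) (nat_lit 76) (nat_lit 0) (XT.lf (nat_lit 0) (nat_lit 19847021849) (nat_lit 152) (nat_lit 20489421177) (nat_lit 0) (nat_lit 487243341) (nat_lit 39) (nat_lit 5) (nat_lit 41) (nat_lit 4) (nat_lit 39) (nat_lit 4) (nat_lit 529) (nat_lit 387) (nat_lit 284)) (XT.nd (nat_lit 78) (nat_lit 76) (nat_lit 0) (XT.lf (nat_lit 0) (nat_lit 30383400366) (nat_lit 152) (nat_lit 352922417) (nat_lit 0) (nat_lit 10995429018) (nat_lit 39) (nat_lit 5) (nat_lit 41) (nat_lit 4) (nat_lit 39) (nat_lit 4) (nat_lit 530) (nat_lit 387) (nat_lit 283)) (XT.lf (nat_lit 0) (nat_lit 20740538444) (nat_lit 76) (nat_lit 20668336970) (nat_lit 76) (nat_lit 1252993932) (nat_lit 38) (nat_lit 4) (nat_lit 39) (nat_lit 5) (nat_lit 39) (nat_lit 4) (nat_lit 531) (nat_lit 387) (nat_lit 282)))) (XT.nd (nat_lit 156) (nat_lit 76) (nat_lit 0) (XT.nd (nat_lit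 78) (nat_lit 76) (nat_lit 0) (XT.lf (nat_lit 0) (nat_lit 8944017304) (nat_lit 152) (nat_lit 1285562365) (nat_lit 76) (nat_lit 33388356270) (nat_lit 37) (nat_lit 5) (nat_lit 39) (nat_lit 5) (nat_lit 38) (nat_lit 4) (nat_lit 532) (nat_lit 387) (nat_lit 281)) (XT.lf (nat_lit 0) (nat_lit 19598172456) (nat_lit 152) (nat_lit 24301372218) (nat_lit 0) (nat_lit 697475431) (nat_lit 36) (nat_lit 5) (nat_lit 38) (nat_lit 4) (nat_lit 36) (nat_lit 4) (nat_lit 533) (nat_lit 387) (nat_lit 280))) (XT.nd (nat_lit 78) (nat_lit 76) (nat_lit 0) (XT.lf (nat_lit 0) (nat_lit 30660792823) (nat_lit 152) (nat_lit 3206242618) (nat_lit 0) (nat_lit 11735776407) (nat_lit 36) (nat_lit 5) (nat_lit 38) (nat_lit 4) (nat_lit 36) (nat_lit 4) (nat_lit 534) (nat_lit 387) (nat_lit 279)) (XT.lf (nat_lit 0) (nat_lit 18840462868) (nat_lit 76) (nat_lit 23371126641) (nat_lit 76) (nat_lit 4422499165) (nat_lit 35) (nat_lit 4) (nat_lit 36) (nat_lit 5) (nat_lit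 36) (nat_lit 4) (nat_lit 535) (nat_lit 387) (nat_lit 278))))) (XT.nd (nat_lit 312) (nat_lit 152) (nat_lit 0) (XT.nd (nat_lit 156) (nat_lit 76) (nat_lit 0) (XT.nd (nat_lit 78) (nat_lit 76) (nat_lit 0) (XT.lf (nat_lit 0) (nat_lit 6295375794) (nat_lit 152) (nat_lit 6191937971) (nat_lit 76) (nat_lit 35206903952) (nat_lit 34) (nat_lit 5) (nat_lit 36) (nat_lit 5) (nat_lit 35) (nat_lit 4) (nat_lit 536) (nat_lit 387) (nat_lit 277)) (XT.lf (nat_lit 0) (nat_lit 16284266060) (nat_lit 76) (nat_lit 1094094818) (nat_lit 152) (nat_lit 31402502528) (nat_lit 33) (nat_lit 5) (nat_lit 34) (nat_lit 5) (nat_lit 35) (nat_lit 4) (nat_lit 537) (nat_lit 387) (nat_lit 276))) (XT.nd (nat_lit 78) (nat_lit 76) (nat_lit 0) (XT.lf (nat_lit 0) (nat_lit 28935221140) (nat_lit 152) (nat_lit 10486991826) (nat_lit 0) (nat_lit 10473654162) (nat_lit 33) (nat_lit 5) (nat_lit 35) (nat_lit 4) (nat_lit 33) (nat_lit 4) (nat_lit 538) (nat_lit 387) (nat_lit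 275)) (XT.lf (nat_lit 0) (nat_lit 12367245427) (nat_lit 76) (nat_lit 28577909408) (nat_lit 76) (nat_lit 10095975323) (nat_lit 32) (nat_lit 4) (nat_lit 33) (nat_lit 5) (nat_lit 33) (nat_lit 4) (nat_lit 539) (nat_lit 387) (nat_lit 274)))) (XT.nd (nat_lit 156) (nat_lit 0) (nat_lit 0) (XT.nd (nat_lit 78) (nat_lit 76) (nat_lit 0) (XT.lf (nat_lit 0) (nat_lit 1156886914) (nat_lit 152) (nat_lit 16153227539) (nat_lit 76) (nat_lit 34907812817) (nat_lit 31) (nat_lit 5) (nat_lit 33) (nat_lit 5) (nat_lit 32) (nat_lit 4) (nat_lit 540) (nat_lit 387) (nat_lit 273)) (XT.lf (nat_lit 0) (nat_lit 7035557457) (nat_lit 76) (nat_lit 5553833373) (nat_lit 152) (nat_lit 40836289620) (nat_lit 30) (nat_lit 5) (nat_lit 31) (nat_lit 5) (nat_lit 32) (nat_lit 4) (nat_lit 541) (nat_lit 387) (nat_lit 272))) (XT.nd (nat_lit 78) (nat_lit 0) (nat_lit 0) (XT.lf (nat_lit 0) (nat_lit 24569979764) (nat_lit 152) (nat_lit 23523111579) (nat_lit 0) (nat_lit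 6570421786) (nat_lit 30) (nat_lit 5) (nat_lit 32) (nat_lit 4) (nat_lit 30) (nat_lit 4) (nat_lit 542) (nat_lit 387) (nat_lit 271)) (XT.lf (nat_lit 0) (nat_lit 36943001015) (nat_lit 152) (nat_lit 68615334) (nat_lit 0) (nat_lit 18925874192) (nat_lit 30) (nat_lit 5) (nat_lit 32) (nat_lit 4) (nat_lit 30) (nat_lit 4) (nat_lit 543) (nat_lit 387) (nat_lit 270))))))) (XT.nd (nat_lit 53586) (nat_lit 0) (nat_lit 12616) (XT.nd (nat_lit 546) (nat_lit 76) (nat_lit 0) (XT.nd (nat_lit 234) (nat_lit 152) (nat_lit 0) (XT.nd (nat_lit 78) (nat_lit 152) (nat_lit 0) (XT.lf (nat_lit 0) (nat_lit 24525834165) (nat_lit 76) (nat_lit 25375802275) (nat_lit 76) (nat_lit 7341618320) (nat_lit 29) (nat_lit 4) (nat_lit 30) (nat_lit 5) (nat_lit 30) (nat_lit 4) (nat_lit 544) (nat_lit 387) (nat_lit 269)) (XT.nd (nat_lit 78) (nat_lit 76) (nat_lit 0) (XT.lf (nat_lit 0) (nat_lit 4549265024) (nat_lit 152) (nat_lit 8815736277) (nat_lit 76) (nat_lit 45222465424)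 (nat_lit 28) (nat_lit 5) (nat_lit 30) (nat_lit 5) (nat_lit 29) (nat_lit 4) (nat_lit 545) (nat_lit 387) (nat_lit 268)) (XT.lf (nat_lit 0) (nat_lit 16001508622) (nat_lit 76) (nat_lit 780920383) (nat_lit 152) (nat_lit 43183402136) (nat_lit 27) (nat_lit 5) (nat_lit 28) (nat_lit 5) (nat_lit 29) (nat_lit 4) (nat_lit 546) (nat_lit 387) (nat_lit 267)))) (XT.nd (nat_lit 156) (nat_lit 76) (nat_lit 0) (XT.nd (nat_lit 78) (nat_lit 76) (nat_lit 0) (XT.lf (nat_lit 0) (nat_lit 29568894791) (nat_lit 152) (nat_lit 19797927046) (nat_lit 0) (nat_lit 12013135614) (nat_lit 27) (nat_lit 5) (nat_lit 29) (nat_lit 4) (nat_lit 27) (nat_lit 4) (nat_lit 547) (nat_lit 387) (nat_lit 266)) (XT.lf (nat_lit 0) (nat_lit 5146280542) (nat_lit 76) (nat_lit 37629793202) (nat_lit 76) (nat_lit 20059320393) (nat_lit 26) (nat_lit 4) (nat_lit 27) (nat_lit 5) (nat_lit 27) (nat_lit 4) (nat_lit 548) (nat_lit 387) (nat_lit 265))) (XT.nd (nat_lit 78) (nat_lit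 76) (nat_lit 0) (XT.lf (nat_lit 0) (nat_lit 31205173003) (nat_lit 76) (nat_lit 25354338826) (nat_lit 76) (nat_lit 7769580938) (nat_lit 26) (nat_lit 4) (nat_lit 27) (nat_lit 5) (nat_lit 27) (nat_lit 4) (nat_lit 549) (nat_lit 387) (nat_lit 264)) (XT.lf (nat_lit 0) (nat_lit 4773962845) (nat_lit 152) (nat_lit 7907482320) (nat_lit 76) (nat_lit 53185332167) (nat_lit 25) (nat_lit 5) (nat_lit 27) (nat_lit 5) (nat_lit 26) (nat_lit 4) (nat_lit 550) (nat_lit 387) (nat_lit 263))))) (XT.nd (nat_lit 52728) (nat_lit 0) (nat_lit 18924) (XT.nd (nat_lit 52572) (nat_lit 0) (nat_lit 21660) (XT.nd (nat_lit 78) (nat_lit 0) (nat_lit 0) (XT.lf (nat_lit 0) (nat_lit 17700617503) (nat_lit 152) (nat_lit 49141279215) (nat_lit 0) (nat_lit 601499100) (nat_lit 24) (nat_lit 5) (nat_lit 26) (nat_lit 4) (nat_lit 24) (nat_lit 4) (nat_lit 551) (nat_lit 387) (nat_lit 262)) (XT.lf (nat_lit 0) (nat_lit 31202365726) (nat_lit 152) (nat_lit 23768773239)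 (nat_lit 0) (nat_lit 14090555216) (nat_lit 24) (nat_lit 5) (nat_lit 26) (nat_lit 4) (nat_lit 24) (nat_lit 4) (nat_lit 552) (nat_lit 387) (nat_lit 261))) (XT.nd (nat_lit 78) (nat_lit 1140) (nat_lit 0) (XT.lf (nat_lit 0) (nat_lit 1569554577) (nat_lit 1140) (nat_lit 389180829) (nat_lit 0) (nat_lit 1569554577) (nat_lit 324) (nat_lit 5) (nat_lit 339) (nat_lit 4) (nat_lit 324) (nat_lit 4) (nat_lit 424) (nat_lit 388) (nat_lit 388)) (XT.lf (nat_lit 0) (nat_lit 4463802286) (nat_lit 1140) (nat_lit 2206613467) (nat_lit 1140) (nat_lit 439150655) (nat_lit 309) (nat_lit 4) (nat_lit 324) (nat_lit 5) (nat_lit 324) (nat_lit 4) (nat_lit 425) (nat_lit 388) (nat_lit 387)))) (XT.nd (nat_lit 156) (nat_lit 684) (nat_lit 0) (XT.nd (nat_lit 78) (nat_lit 760) (nat_lit 0) (XT.lf (nat_lit 0) (nat_lit 2632235492) (nat_lit 1216) (nat_lit 380415550) (nat_lit 1292) (nat_lit 4152689103) (nat_lit 292) (nat_lit 5) (nat_lit 308) (nat_lit 5) (nat_lit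 309) (nat_lit 4) (nat_lit 426) (nat_lit 388) (nat_lit 386)) (XT.lf (nat_lit 0) (nat_lit 791114091) (nat_lit 760) (nat_lit 5716289568) (nat_lit 760) (nat_lit 716824187) (nat_lit 282) (nat_lit 4) (nat_lit 292) (nat_lit 5) (nat_lit 292) (nat_lit 4) (nat_lit 427) (nat_lit 388) (nat_lit 385))) (XT.nd (nat_lit 78) (nat_lit 608) (nat_lit 0) (XT.lf (nat_lit 0) (nat_lit 2717184629) (nat_lit 836) (nat_lit 1053948400) (nat_lit 76) (nat_lit 3514448049) (nat_lit 281) (nat_lit 5) (nat_lit 292) (nat_lit 5) (nat_lit 282) (nat_lit 4) (nat_lit 428) (nat_lit 388) (nat_lit 384)) (XT.lf (nat_lit 0) (nat_lit 4462619674) (nat_lit 608) (nat_lit 1723134917) (nat_lit 684) (nat_lit 1164445320) (nat_lit 273) (nat_lit 5) (nat_lit 281) (nat_lit 5) (nat_lit 282) (nat_lit 4) (nat_lit 429) (nat_lit 388) (nat_lit 383)))))) (XT.nd (nat_lit 546) (nat_lit 3344) (nat_lit 0) (XT.nd (nat_lit 234) (nat_lit 1672) (nat_lit 0) (XT.nd (nat_lit 78) (nat_lit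 608) (nat_lit 0) (XT.lf (nat_lit 0) (nat_lit 2240529074) (nat_lit 684) (nat_lit 4747536101) (nat_lit 76) (nat_lit 429694345) (nat_lit 264) (nat_lit 5) (nat_lit 273) (nat_lit 5) (nat_lit 265) (nat_lit 4) (nat_lit 430) (nat_lit 388) (nat_lit 382)) (XT.nd (nat_lit 78) (nat_lit 76) (nat_lit 0) (XT.lf (nat_lit 0) (nat_lit 848574593) (nat_lit 532) (nat_lit 4835975249) (nat_lit 608) (nat_lit 1803656145) (nat_lit 257) (nat_lit 5) (nat_lit 264) (nat_lit 5) (nat_lit 265) (nat_lit 4) (nat_lit 431) (nat_lit 388) (nat_lit 381)) (XT.lf (nat_lit 0) (nat_lit 1593369684) (nat_lit 608) (nat_lit 973397067) (nat_lit 76) (nat_lit 4994885687) (nat_lit 256) (nat_lit 5) (nat_lit 264) (nat_lit 5) (nat_lit 257) (nat_lit 5) (nat_lit 432) (nat_lit 388) (nat_lit 380)))) (XT.nd (nat_lit 156) (nat_lit 532) (nat_lit 0) (XT.nd (nat_lit 78) (nat_lit 608) (nat_lit 0) (XT.lf (nat_lit 0) (nat_lit 4835024423) (nat_lit 532) (nat_lit 176670974) (nat_lit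 608) (nat_lit 2626415631) (nat_lit 249) (nat_lit 5) (nat_lit 256) (nat_lit 5) (nat_lit 257) (nat_lit 5) (nat_lit 433) (nat_lit 388) (nat_lit 379)) (XT.lf (nat_lit 0) (nat_lit 771418136) (nat_lit 608) (nat_lit 4672512728) (nat_lit 76) (nat_lit 2273561367) (nat_lit 241) (nat_lit 5) (nat_lit 249) (nat_lit 5) (nat_lit 242) (nat_lit 5) (nat_lit 434) (nat_lit 388) (nat_lit 378))) (XT.nd (nat_lit 78) (nat_lit 0) (nat_lit 0) (XT.lf (nat_lit 0) (nat_lit 1216690755) (nat_lit 532) (nat_lit 2955132821) (nat_lit 608) (nat_lit 3628060969) (nat_lit 234) (nat_lit 5) (nat_lit 241) (nat_lit 5) (nat_lit 242) (nat_lit 5) (nat_lit 435) (nat_lit 388) (nat_lit 377)) (XT.lf (nat_lit 0) (nat_lit 7272836879) (nat_lit 532) (nat_lit 361548274) (nat_lit 608) (nat_lit 251571338) (nat_lit 234) (nat_lit 5) (nat_lit 241) (nat_lit 5) (nat_lit 242) (nat_lit 5) (nat_lit 436) (nat_lit 388) (nat_lit 376))))) (XT.nd (nat_lit 312) (nat_lit 1824) (nat_lit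 0) (XT.nd (nat_lit 156) (nat_lit 532) (nat_lit 0) (XT.nd (nat_lit 78) (nat_lit 456) (nat_lit 0) (XT.lf (nat_lit 0) (nat_lit 3153709702) (nat_lit 532) (nat_lit 2489137505) (nat_lit 76) (nat_lit 2331130952) (nat_lit 227) (nat_lit 5) (nat_lit 234) (nat_lit 5) (nat_lit 228) (nat_lit 5) (nat_lit 437) (nat_lit 388) (nat_lit 375)) (XT.lf (nat_lit 0) (nat_lit 3673940557) (nat_lit 456) (nat_lit 2943257710) (nat_lit 532) (nat_lit 1448545470) (nat_lit 221) (nat_lit 5) (nat_lit 227) (nat_lit 5) (nat_lit 228) (nat_lit 5) (nat_lit 438) (nat_lit 388) (nat_lit 374))) (XT.nd (nat_lit 78) (nat_lit 0) (nat_lit 0) (XT.lf (nat_lit 0) (nat_lit 1823186964) (nat_lit 456) (nat_lit 121122620) (nat_lit 532) (nat_lit 6216594967) (nat_lit 214) (nat_lit 5) (nat_lit 220) (nat_lit 5) (nat_lit 221) (nat_lit 5) (nat_lit 439) (nat_lit 388) (nat_lit 373)) (XT.lf (nat_lit 0) (nat_lit 5399172010) (nat_lit 532) (nat_lit 91812113) (nat_lit 76) (nat_lit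 2767835927) (nat_lit 214) (nat_lit 5) (nat_lit 221) (nat_lit 5) (nat_lit 215) (nat_lit 5) (nat_lit 440) (nat_lit 388) (nat_lit 372)))) (XT.nd (nat_lit 156) (nat_lit 912) (nat_lit 0) (XT.nd (nat_lit 78) (nat_lit 380) (nat_lit 0) (XT.lf (nat_lit 0) (nat_lit 568658083) (nat_lit 532) (nat_lit 2005593748) (nat_lit 76) (nat_lit 5785788747) (nat_lit 207) (nat_lit 5) (nat_lit 214) (nat_lit 5) (nat_lit 208) (nat_lit 5) (nat_lit 441) (nat_lit 388) (nat_lit 371)) (XT.lf (nat_lit 0) (nat_lit 4011714970) (nat_lit 456) (nat_lit 3982953179) (nat_lit 76) (nat_lit 469708179) (nat_lit 202) (nat_lit 5) (nat_lit 208) (nat_lit 5) (nat_lit 203) (nat_lit 5) (nat_lit 442) (nat_lit 388) (nat_lit 370))) (XT.nd (nat_lit 78) (nat_lit 456) (nat_lit 0) (XT.lf (nat_lit 0) (nat_lit 2551191614) (nat_lit 456) (nat_lit 4999113539) (nat_lit 532) (nat_lit 1021778815) (nat_lit 196) (nat_lit 5) (nat_lit 202) (nat_lit 5) (nat_lit 203) (nat_lit 5) (nat_lit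 443) (nat_lit 388) (nat_lit 369)) (XT.lf (nat_lit 0) (nat_lit 561248082) (nat_lit 380) (nat_lit 1870054365) (nat_lit 456) (nat_lit 6251955791) (nat_lit 190) (nat_lit 5) (nat_lit 195) (nat_lit 5) (nat_lit 196) (nat_lit 5) (nat_lit 444) (nat_lit 388) (nat_lit 368))))))))
noncomputable def xc69 : XT := (XT.nd (nat_lit 2340) (nat_lit 3268) (nat_lit 0) (XT.nd (nat_lit 1170) (nat_lit 2736) (nat_lit 0) (XT.nd (nat_lit 546) (nat_lit 1900) (nat_lit 0) (XT.nd (nat_lit 234) (nat_lit 1140) (nat_lit 0) (XT.nd (nat_lit 78) (nat_lit 760) (nat_lit 0) (XT.lf (nat_lit 0) (nat_lit 5965097259) (nat_lit 456) (nat_lit 1462724145) (nat_lit 76) (nat_lit 1369721394) (nat_lit 190) (nat_lit 5) (nat_lit 196) (nat_lit 5) (nat_lit 191) (nat_lit 5) (nat_lit 445) (nat_lit 388) (nat_lit 367)) (XT.nd (nat_lit 78) (nat_lit 304) (nat_lit 0) (XT.lf (nat_lit 0) (nat_lit 671846950) (nat_lit 456) (nat_lit 3543405177) (nat_lit 76) (nat_lit 4699943073)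 (nat_lit 184) (nat_lit 5) (nat_lit 190) (nat_lit 5) (nat_lit 185) (nat_lit 5) (nat_lit 446) (nat_lit 388) (nat_lit 366)) (XT.lf (nat_lit 0) (nat_lit 3337663432) (nat_lit 304) (nat_lit 859608009) (nat_lit 380) (nat_lit 4839084028) (nat_lit 180) (nat_lit 5) (nat_lit 184) (nat_lit 5) (nat_lit 185) (nat_lit 5) (nat_lit 447) (nat_lit 388) (nat_lit 365)))) (XT.nd (nat_lit 156) (nat_lit 684) (nat_lit 0) (XT.nd (nat_lit 78) (nat_lit 76) (nat_lit 0) (XT.lf (nat_lit 0) (nat_lit 1230887861) (nat_lit 380) (nat_lit 6597297359) (nat_lit 456) (nat_lit 1332980901) (nat_lit 175) (nat_lit 5) (nat_lit 180) (nat_lit 5) (nat_lit 181) (nat_lit 5) (nat_lit 448) (nat_lit 388) (nat_lit 364)) (XT.lf (nat_lit 0) (nat_lit 2227678306) (nat_lit 456) (nat_lit 939763315) (nat_lit 76) (nat_lit 6121814478) (nat_lit 174) (nat_lit 5) (nat_lit 180) (nat_lit 5) (nat_lit 175) (nat_lit 5) (nat_lit 449) (nat_lit 388) (nat_lit 363))) (XT.nd (nat_lit 78)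 (nat_lit 380) (nat_lit 0) (XT.lf (nat_lit 0) (nat_lit 5861858869) (nat_lit 380) (nat_lit 3158361004) (nat_lit 76) (nat_lit 400774916) (nat_lit 170) (nat_lit 5) (nat_lit 175) (nat_lit 5) (nat_lit 171) (nat_lit 5) (nat_lit 450) (nat_lit 388) (nat_lit 362)) (XT.lf (nat_lit 0) (nat_lit 57872170) (nat_lit 380) (nat_lit 5468303415) (nat_lit 76) (nat_lit 4030189354) (nat_lit 165) (nat_lit 5) (nat_lit 170) (nat_lit 5) (nat_lit 166) (nat_lit 5) (nat_lit 451) (nat_lit 388) (nat_lit 361))))) (XT.nd (nat_lit 312) (nat_lit 912) (nat_lit 0) (XT.nd (nat_lit 156) (nat_lit 684) (nat_lit 0) (XT.nd (nat_lit 78) (nat_lit 0) (nat_lit 0) (XT.lf (nat_lit 0) (nat_lit 1817671542) (nat_lit 304) (nat_lit 1874320948) (nat_lit 380) (nat_lit 6003348594) (nat_lit 161) (nat_lit 5) (nat_lit 165) (nat_lit 5) (nat_lit 166) (nat_lit 5) (nat_lit 452) (nat_lit 388) (nat_lit 360)) (XT.lf (nat_lit 0) (nat_lit 7440201487) (nat_lit 380) (nat_lit 525929425)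 (nat_lit 76) (nat_lit 1872209643) (nat_lit 161) (nat_lit 5) (nat_lit 166) (nat_lit 5) (nat_lit 162) (nat_lit 5) (nat_lit 453) (nat_lit 388) (nat_lit 359))) (XT.nd (nat_lit 78) (nat_lit 304) (nat_lit 0) (XT.lf (nat_lit 0) (nat_lit 1309375736) (nat_lit 380) (nat_lit 2933918437) (nat_lit 76) (nat_lit 5741367790) (nat_lit 156) (nat_lit 5) (nat_lit 161) (nat_lit 5) (nat_lit 157) (nat_lit 5) (nat_lit 454) (nat_lit 388) (nat_lit 358)) (XT.lf (nat_lit 0) (nat_lit 4696110127) (nat_lit 304) (nat_lit 367796595) (nat_lit 380) (nat_lit 5071239729) (nat_lit 152) (nat_lit 5) (nat_lit 156) (nat_lit 5) (nat_lit 157) (nat_lit 5) (nat_lit 455) (nat_lit 388) (nat_lit 357)))) (XT.nd (nat_lit 156) (nat_lit 532) (nat_lit 0) (XT.nd (nat_lit 78) (nat_lit 76) (nat_lit 0) (XT.lf (nat_lit 0) (nat_lit 2231698633) (nat_lit 304) (nat_lit 6719694386) (nat_lit 380) (nat_lit 1338148197) (nat_lit 148) (nat_lit 5) (nat_lit 152) (nat_lit 5) (nat_lit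 153) (nat_lit 5) (nat_lit 456) (nat_lit 388) (nat_lit 356)) (XT.lf (nat_lit 0) (nat_lit 2451530637) (nat_lit 380) (nat_lit 334103337) (nat_lit 76) (nat_lit 7662410506) (nat_lit 147) (nat_lit 5) (nat_lit 152) (nat_lit 5) (nat_lit 148) (nat_lit 5) (nat_lit 457) (nat_lit 388) (nat_lit 355))) (XT.nd (nat_lit 78) (nat_lit 304) (nat_lit 0) (XT.lf (nat_lit 0) (nat_lit 6350614403) (nat_lit 304) (nat_lit 2965723460) (nat_lit 76) (nat_lit 1293894083) (nat_lit 144) (nat_lit 5) (nat_lit 148) (nat_lit 5) (nat_lit 145) (nat_lit 5) (nat_lit 458) (nat_lit 388) (nat_lit 354)) (XT.lf (nat_lit 0) (nat_lit 5062811356) (nat_lit 304) (nat_lit 5320385011) (nat_lit 380) (nat_lit 393597628) (nat_lit 140) (nat_lit 5) (nat_lit 144) (nat_lit 5) (nat_lit 145) (nat_lit 5) (nat_lit 459) (nat_lit 388) (nat_lit 353)))))) (XT.nd (nat_lit 546) (nat_lit 1368) (nat_lit 0) (XT.nd (nat_lit 234) (nat_lit 760) (nat_lit 0) (XT.nd (nat_lit 78) (nat_lit 304)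 (nat_lit 0) (XT.lf (nat_lit 0) (nat_lit 2355942392) (nat_lit 228) (nat_lit 1152461395) (nat_lit 304) (nat_lit 7439218056) (nat_lit 136) (nat_lit 5) (nat_lit 139) (nat_lit 5) (nat_lit 140) (nat_lit 5) (nat_lit 460) (nat_lit 388) (nat_lit 352)) (XT.nd (nat_lit 78) (nat_lit 304) (nat_lit 0) (XT.lf (nat_lit 0) (nat_lit 7545654816) (nat_lit 304) (nat_lit 472699073) (nat_lit 76) (nat_lit 3104325039) (nat_lit 136) (nat_lit 5) (nat_lit 140) (nat_lit 5) (nat_lit 137) (nat_lit 5) (nat_lit 461) (nat_lit 388) (nat_lit 351)) (XT.lf (nat_lit 0) (nat_lit 420617639) (nat_lit 304) (nat_lit 3371366708) (nat_lit 76) (nat_lit 7510069583) (nat_lit 132) (nat_lit 5) (nat_lit 136) (nat_lit 5) (nat_lit 133) (nat_lit 5) (nat_lit 462) (nat_lit 388) (nat_lit 350)))) (XT.nd (nat_lit 156) (nat_lit 304) (nat_lit 0) (XT.nd (nat_lit 78) (nat_lit 228) (nat_lit 0) (XT.lf (nat_lit 0) (nat_lit 4465487470) (nat_lit 304) (nat_lit 6417695802) (nat_lit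 76) (nat_lit 602592585) (nat_lit 129) (nat_lit 5) (nat_lit 133) (nat_lit 5) (nat_lit 130) (nat_lit 5) (nat_lit 463) (nat_lit 388) (nat_lit 349)) (XT.lf (nat_lit 0) (nat_lit 2059090165) (nat_lit 228) (nat_lit 6604473028) (nat_lit 304) (nat_lit 3010494303) (nat_lit 126) (nat_lit 5) (nat_lit 129) (nat_lit 5) (nat_lit 130) (nat_lit 5) (nat_lit 464) (nat_lit 388) (nat_lit 348))) (XT.nd (nat_lit 78) (nat_lit 228) (nat_lit 0) (XT.lf (nat_lit 0) (nat_lit 1103547355) (nat_lit 304) (nat_lit 1054971256) (nat_lit 76) (nat_lit 9708975700) (nat_lit 125) (nat_lit 5) (nat_lit 129) (nat_lit 5) (nat_lit 126) (nat_lit 5) (nat_lit 465) (nat_lit 388) (nat_lit 347)) (XT.lf (nat_lit 0) (nat_lit 5321389109) (nat_lit 304) (nat_lit 4301658895) (nat_lit 76) (nat_lit 2441568936) (nat_lit 122) (nat_lit 5) (nat_lit 126) (nat_lit 5) (nat_lit 123) (nat_lit 5) (nat_lit 466) (nat_lit 388) (nat_lit 346))))) (XT.nd (nat_lit 312) (nat_lit 684) (nat_lit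 0) (XT.nd (nat_lit 156) (nat_lit 228) (nat_lit 0) (XT.nd (nat_lit 78) (nat_lit 228) (nat_lit 0) (XT.lf (nat_lit 0) (nat_lit 4570656556) (nat_lit 228) (nat_lit 5113667540) (nat_lit 304) (nat_lit 2582775832) (nat_lit 119) (nat_lit 5) (nat_lit 122) (nat_lit 5) (nat_lit 123) (nat_lit 5) (nat_lit 467) (nat_lit 388) (nat_lit 345)) (XT.lf (nat_lit 0) (nat_lit 1233267906) (nat_lit 152) (nat_lit 434404070) (nat_lit 228) (nat_lit 10807545571) (nat_lit 116) (nat_lit 5) (nat_lit 118) (nat_lit 5) (nat_lit 119) (nat_lit 5) (nat_lit 468) (nat_lit 388) (nat_lit 344))) (XT.nd (nat_lit 78) (nat_lit 228) (nat_lit 0) (XT.lf (nat_lit 0) (nat_lit 6057412012) (nat_lit 228) (nat_lit 2264441776) (nat_lit 76) (nat_lit 4365050172) (nat_lit 116) (nat_lit 5) (nat_lit 119) (nat_lit 5) (nat_lit 117) (nat_lit 5) (nat_lit 469) (nat_lit 388) (nat_lit 343)) (XT.lf (nat_lit 0) (nat_lit 7020582680) (nat_lit 228) (nat_lit 3574755492) (nat_lit 304) (nat_lit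 2309111013) (nat_lit 113) (nat_lit 5) (nat_lit 116) (nat_lit 5) (nat_lit 117) (nat_lit 5) (nat_lit 470) (nat_lit 388) (nat_lit 342)))) (XT.nd (nat_lit 156) (nat_lit 456) (nat_lit 0) (XT.nd (nat_lit 78) (nat_lit 0) (nat_lit 0) (XT.lf (nat_lit 0) (nat_lit 2113299914) (nat_lit 228) (nat_lit 9686218982) (nat_lit 76) (nat_lit 1327961503) (nat_lit 110) (nat_lit 5) (nat_lit 113) (nat_lit 5) (nat_lit 111) (nat_lit 5) (nat_lit 471) (nat_lit 388) (nat_lit 341)) (XT.lf (nat_lit 0) (nat_lit 6662570505) (nat_lit 228) (nat_lit 342514861) (nat_lit 76) (nat_lit 6350216144) (nat_lit 110) (nat_lit 5) (nat_lit 113) (nat_lit 5) (nat_lit 111) (nat_lit 5) (nat_lit 472) (nat_lit 388) (nat_lit 340))) (XT.nd (nat_lit 78) (nat_lit 228) (nat_lit 0) (XT.lf (nat_lit 0) (nat_lit 9372144809) (nat_lit 228) (nat_lit 2013062062) (nat_lit 304) (nat_lit 2203646450) (nat_lit 107) (nat_lit 5) (nat_lit 110) (nat_lit 5) (nat_lit 111) (nat_lit 5) (nat_lit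 473) (nat_lit 388) (nat_lit 339)) (XT.lf (nat_lit 0) (nat_lit 2407150321) (nat_lit 228) (nat_lit 8310555409) (nat_lit 76) (nat_lit 3109982650) (nat_lit 104) (nat_lit 5) (nat_lit 107) (nat_lit 5) (nat_lit 105) (nat_lit 5) (nat_lit 474) (nat_lit 388) (nat_lit 338))))))) (XT.nd (nat_lit 1170) (nat_lit 1444) (nat_lit 0) (XT.nd (nat_lit 546) (nat_lit 912) (nat_lit 0) (XT.nd (nat_lit 234) (nat_lit 532) (nat_lit 0) (XT.nd (nat_lit 78) (nat_lit 228) (nat_lit 0) (XT.lf (nat_lit 0) (nat_lit 1450463161) (nat_lit 152) (nat_lit 5685628641) (nat_lit 228) (nat_lit 6936221252) (nat_lit 102) (nat_lit 5) (nat_lit 104) (nat_lit 5) (nat_lit 105) (nat_lit 5) (nat_lit 475) (nat_lit 388) (nat_lit 337)) (XT.nd (nat_lit 78) (nat_lit 228) (nat_lit 0) (XT.lf (nat_lit 0) (nat_lit 11582892782) (nat_lit 152) (nat_lit 455819452) (nat_lit 228) (nat_lit 2284612310) (nat_lit 102) (nat_lit 5) (nat_lit 104) (nat_lit 5) (nat_lit 105) (nat_lit 5) (nat_lit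 476) (nat_lit 388) (nat_lit 336)) (XT.lf (nat_lit 0) (nat_lit 2526307237) (nat_lit 228) (nat_lit 7159540727) (nat_lit 76) (nat_lit 4893237619) (nat_lit 99) (nat_lit 5) (nat_lit 102) (nat_lit 5) (nat_lit 100) (nat_lit 5) (nat_lit 477) (nat_lit 388) (nat_lit 335)))) (XT.nd (nat_lit 156) (nat_lit 380) (nat_lit 0) (XT.nd (nat_lit 78) (nat_lit 0) (nat_lit 0) (XT.lf (nat_lit 0) (nat_lit 3040345191) (nat_lit 152) (nat_lit 4406139030) (nat_lit 228) (nat_lit 7395033381) (nat_lit 97) (nat_lit 5) (nat_lit 99) (nat_lit 5) (nat_lit 100) (nat_lit 5) (nat_lit 478) (nat_lit 388) (nat_lit 334)) (XT.lf (nat_lit 0) (nat_lit 12546604900) (nat_lit 228) (nat_lit 1517926596) (nat_lit 76) (nat_lit 1046323063) (nat_lit 97) (nat_lit 5) (nat_lit 100) (nat_lit 5) (nat_lit 98) (nat_lit 4) (nat_lit 479) (nat_lit 388) (nat_lit 333))) (XT.nd (nat_lit 78) (nat_lit 152) (nat_lit 0) (XT.lf (nat_lit 0) (nat_lit 2447385740) (nat_lit 228) (nat_lit 6289632532)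 (nat_lit 76) (nat_lit 6648070418) (nat_lit 94) (nat_lit 5) (nat_lit 97) (nat_lit 5) (nat_lit 95) (nat_lit 5) (nat_lit 480) (nat_lit 388) (nat_lit 332)) (XT.lf (nat_lit 0) (nat_lit 4362755524) (nat_lit 152) (nat_lit 3203482907) (nat_lit 228) (nat_lit 8100299488) (nat_lit 92) (nat_lit 5) (nat_lit 94) (nat_lit 5) (nat_lit 95) (nat_lit 5) (nat_lit 481) (nat_lit 388) (nat_lit 331))))) (XT.nd (nat_lit 312) (nat_lit 532) (nat_lit 0) (XT.nd (nat_lit 156) (nat_lit 152) (nat_lit 0) (XT.nd (nat_lit 78) (nat_lit 228) (nat_lit 0) (XT.lf (nat_lit 0) (nat_lit 12877997666) (nat_lit 228) (nat_lit 603822401) (nat_lit 76) (nat_lit 2473432226) (nat_lit 92) (nat_lit 5) (nat_lit 95) (nat_lit 5) (nat_lit 93) (nat_lit 4) (nat_lit 482) (nat_lit 388) (nat_lit 330)) (XT.lf (nat_lit 0) (nat_lit 2141736168) (nat_lit 228) (nat_lit 5766414071) (nat_lit 76) (nat_lit 8341290125) (nat_lit 89) (nat_lit 5) (nat_lit 92) (nat_lit 5) (nat_lit 90) (nat_lit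 5) (nat_lit 483) (nat_lit 388) (nat_lit 329))) (XT.nd (nat_lit 78) (nat_lit 0) (nat_lit 0) (XT.lf (nat_lit 0) (nat_lit 5350617992) (nat_lit 152) (nat_lit 2115145256) (nat_lit 228) (nat_lit 9085469037) (nat_lit 87) (nat_lit 5) (nat_lit 89) (nat_lit 5) (nat_lit 90) (nat_lit 5) (nat_lit 484) (nat_lit 388) (nat_lit 328)) (XT.lf (nat_lit 0) (nat_lit 12998258361) (nat_lit 228) (nat_lit 64609188) (nat_lit 76) (nat_lit 3797749679) (nat_lit 87) (nat_lit 5) (nat_lit 90) (nat_lit 5) (nat_lit 88) (nat_lit 4) (nat_lit 485) (nat_lit 388) (nat_lit 327)))) (XT.nd (nat_lit 156) (nat_lit 152) (nat_lit 0) (XT.nd (nat_lit 78) (nat_lit 152) (nat_lit 0) (XT.lf (nat_lit 0) (nat_lit 1574708190) (nat_lit 228) (nat_lit 5666234799) (nat_lit 76) (nat_lit 9935298484) (nat_lit 84) (nat_lit 5) (nat_lit 87) (nat_lit 5) (nat_lit 85) (nat_lit 5) (nat_lit 486) (nat_lit 388) (nat_lit 326)) (XT.lf (nat_lit 0) (nat_lit 5925624774) (nat_lit 152) (nat_lit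 1183628099) (nat_lit 228) (nat_lit 10390576020) (nat_lit 82) (nat_lit 5) (nat_lit 84) (nat_lit 5) (nat_lit 85) (nat_lit 5) (nat_lit 487) (nat_lit 388) (nat_lit 325))) (XT.nd (nat_lit 78) (nat_lit 76) (nat_lit 0) (XT.lf (nat_lit 0) (nat_lit 17361373) (nat_lit 76) (nat_lit 12853565334) (nat_lit 152) (nat_lit 4960365940) (nat_lit 81) (nat_lit 5) (nat_lit 82) (nat_lit 5) (nat_lit 83) (nat_lit 4) (nat_lit 488) (nat_lit 388) (nat_lit 324)) (XT.lf (nat_lit 0) (nat_lit 704782155) (nat_lit 152) (nat_lit 6078102113) (nat_lit 76) (nat_lit 11387103612) (nat_lit 80) (nat_lit 5) (nat_lit 82) (nat_lit 5) (nat_lit 81) (nat_lit 5) (nat_lit 489) (nat_lit 388) (nat_lit 323)))))) (XT.nd (nat_lit 624) (nat_lit 684) (nat_lit 0) (XT.nd (nat_lit 312) (nat_lit 304) (nat_lit 0) (XT.nd (nat_lit 156) (nat_lit 304) (nat_lit 0) (XT.nd (nat_lit 78) (nat_lit 0) (nat_lit 0) (XT.lf (nat_lit 0) (nat_lit 5996258076) (nat_lit 152) (nat_lit 457515350)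 (nat_lit 228) (nat_lit 12063190920) (nat_lit 78) (nat_lit 5) (nat_lit 80) (nat_lit 5) (nat_lit 81) (nat_lit 5) (nat_lit 490) (nat_lit 388) (nat_lit 322)) (XT.lf (nat_lit 0) (nat_lit 12451547326) (nat_lit 228) (nat_lit 455494325) (nat_lit 76) (nat_lit 5965020396) (nat_lit 78) (nat_lit 5) (nat_lit 81) (nat_lit 5) (nat_lit 79) (nat_lit 4) (nat_lit 491) (nat_lit 388) (nat_lit 321))) (XT.nd (nat_lit 78) (nat_lit 228) (nat_lit 0) (XT.lf (nat_lit 0) (nat_lit 12124521141) (nat_lit 76) (nat_lit 6583188934) (nat_lit 152) (nat_lit 527750224) (nat_lit 77) (nat_lit 5) (nat_lit 78) (nat_lit 5) (nat_lit 79) (nat_lit 4) (nat_lit 492) (nat_lit 388) (nat_lit 320)) (XT.lf (nat_lit 0) (nat_lit 5448260354) (nat_lit 228) (nat_lit 14152293837) (nat_lit 76) (nat_lit 7171280) (nat_lit 74) (nat_lit 5) (nat_lit 77) (nat_lit 5) (nat_lit 75) (nat_lit 4) (nat_lit 493) (nat_lit 388) (nat_lit 319)))) (XT.nd (nat_lit 156) (nat_lit 228) (nat_lit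 0) (XT.nd (nat_lit 78) (nat_lit 76) (nat_lit 0) (XT.lf (nat_lit 0) (nat_lit 11688222500) (nat_lit 228) (nat_lit 1594983025) (nat_lit 76) (nat_lit 6704939140) (nat_lit 74) (nat_lit 5) (nat_lit 77) (nat_lit 5) (nat_lit 75) (nat_lit 4) (nat_lit 494) (nat_lit 388) (nat_lit 318)) (XT.lf (nat_lit 0) (nat_lit 11486071876) (nat_lit 76) (nat_lit 6698539209) (nat_lit 152) (nat_lit 2193289667) (nat_lit 73) (nat_lit 5) (nat_lit 74) (nat_lit 5) (nat_lit 75) (nat_lit 4) (nat_lit 495) (nat_lit 388) (nat_lit 317))) (XT.nd (nat_lit 78) (nat_lit 0) (nat_lit 0) (XT.lf (nat_lit 0) (nat_lit 4033316735) (nat_lit 228) (nat_lit 16600908089) (nat_lit 76) (nat_lit 143443028) (nat_lit 70) (nat_lit 5) (nat_lit 73) (nat_lit 5) (nat_lit 71) (nat_lit 4) (nat_lit 496) (nat_lit 388) (nat_lit 316)) (XT.lf (nat_lit 0) (nat_lit 10518636791) (nat_lit 228) (nat_lit 3533275220) (nat_lit 76) (nat_lit 7133385576) (nat_lit 70) (nat_lit 5) (nat_lit 73) (nat_lit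 5) (nat_lit 71) (nat_lit 4) (nat_lit 497) (nat_lit 388) (nat_lit 315))))) (XT.nd (nat_lit 312) (nat_lit 304) (nat_lit 0) (XT.nd (nat_lit 156) (nat_lit 76) (nat_lit 0) (XT.nd (nat_lit 78) (nat_lit 228) (nat_lit 0) (XT.lf (nat_lit 0) (nat_lit 10047405103) (nat_lit 76) (nat_lit 7207884603) (nat_lit 152) (nat_lit 4348164329) (nat_lit 69) (nat_lit 5) (nat_lit 70) (nat_lit 5) (nat_lit 71) (nat_lit 4) (nat_lit 498) (nat_lit 388) (nat_lit 314)) (XT.lf (nat_lit 0) (nat_lit 2018013993) (nat_lit 152) (nat_lit 115402594) (nat_lit 228) (nat_lit 19899646379) (nat_lit 66) (nat_lit 5) (nat_lit 68) (nat_lit 5) (nat_lit 69) (nat_lit 5) (nat_lit 499) (nat_lit 388) (nat_lit 313))) (XT.nd (nat_lit 78) (nat_lit 76) (nat_lit 0) (XT.lf (nat_lit 0) (nat_lit 8869365286) (nat_lit 228) (nat_lit 6424398754) (nat_lit 76) (nat_lit 7176086100) (nat_lit 66) (nat_lit 5) (nat_lit 69) (nat_lit 5) (nat_lit 67) (nat_lit 4) (nat_lit 500) (nat_lit 388)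 (nat_lit 312)) (XT.lf (nat_lit 0) (nat_lit 7649073736) (nat_lit 76) (nat_lit 8194495741) (nat_lit 152) (nat_lit 7075087043) (nat_lit 65) (nat_lit 5) (nat_lit 66) (nat_lit 5) (nat_lit 67) (nat_lit 4) (nat_lit 501) (nat_lit 388) (nat_lit 311)))) (XT.nd (nat_lit 156) (nat_lit 76) (nat_lit 0) (XT.nd (nat_lit 78) (nat_lit 228) (nat_lit 0) (XT.lf (nat_lit 0) (nat_lit 22204144503) (nat_lit 76) (nat_lit 849662149) (nat_lit 152) (nat_lit 326317114) (nat_lit 65) (nat_lit 5) (nat_lit 66) (nat_lit 5) (nat_lit 67) (nat_lit 4) (nat_lit 502) (nat_lit 388) (nat_lit 310)) (XT.lf (nat_lit 0) (nat_lit 6653926639) (nat_lit 228) (nat_lit 10448270450) (nat_lit 76) (nat_lit 6746579681) (nat_lit 62) (nat_lit 5) (nat_lit 65) (nat_lit 5) (nat_lit 63) (nat_lit 4) (nat_lit 503) (nat_lit 388) (nat_lit 309))) (XT.nd (nat_lit 78) (nat_lit 0) (nat_lit 0) (XT.lf (nat_lit 0) (nat_lit 4104563695) (nat_lit 76) (nat_lit 9755082653) (nat_lit 152) (nat_lit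 10471068078) (nat_lit 61) (nat_lit 5) (nat_lit 62) (nat_lit 5) (nat_lit 63) (nat_lit 4) (nat_lit 504) (nat_lit 388) (nat_lit 308)) (XT.lf (nat_lit 0) (nat_lit 19237828565) (nat_lit 76) (nat_lit 2112391066) (nat_lit 152) (nat_lit 3474830897) (nat_lit 61) (nat_lit 5) (nat_lit 62) (nat_lit 5) (nat_lit 63) (nat_lit 4) (nat_lit 505) (nat_lit 388) (nat_lit 307))))))))
noncomputable def xc70 : XT := (XT.nd (nat_lit 2340) (nat_lit 912) (nat_lit 0) (XT.nd (nat_lit 1170) (nat_lit 760) (nat_lit 0) (XT.nd (nat_lit 546) (nat_lit 608) (nat_lit 0) (XT.nd (nat_lit 234) (nat_lit 228) (nat_lit 0) (XT.nd (nat_lit 78) (nat_lit 76) (nat_lit 0) (XT.lf (nat_lit 0) (nat_lit 3770709445) (nat_lit 228) (nat_lit 15814975993) (nat_lit 76) (nat_lit 5744089178) (nat_lit 58) (nat_lit 5) (nat_lit 61) (nat_lit 5) (nat_lit 59) (nat_lit 4) (nat_lit 506) (nat_lit 388) (nat_lit 306)) (XT.nd (nat_lit 78) (nat_lit 76) (nat_lit 0) (XT.lf (nat_lit 0) (nat_lit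 11205642825) (nat_lit 228) (nat_lit 788499506) (nat_lit 76) (nat_lit 13853210656) (nat_lit 58) (nat_lit 5) (nat_lit 61) (nat_lit 5) (nat_lit 59) (nat_lit 4) (nat_lit 507) (nat_lit 388) (nat_lit 305)) (XT.lf (nat_lit 0) (nat_lit 14912697505) (nat_lit 76) (nat_lit 4059300094) (nat_lit 152) (nat_lit 7405210601) (nat_lit 57) (nat_lit 5) (nat_lit 58) (nat_lit 5) (nat_lit 59) (nat_lit 4) (nat_lit 508) (nat_lit 388) (nat_lit 304)))) (XT.nd (nat_lit 156) (nat_lit 76) (nat_lit 0) (XT.nd (nat_lit 78) (nat_lit 0) (nat_lit 0) (XT.lf (nat_lit 0) (nat_lit 100558896) (nat_lit 152) (nat_lit 22769731524) (nat_lit 76) (nat_lit 4051061776) (nat_lit 55) (nat_lit 5) (nat_lit 57) (nat_lit 5) (nat_lit 56) (nat_lit 4) (nat_lit 509) (nat_lit 388) (nat_lit 303)) (XT.lf (nat_lit 0) (nat_lit 7804903264) (nat_lit 152) (nat_lit 7188942003) (nat_lit 76) (nat_lit 12482109136) (nat_lit 55) (nat_lit 5) (nat_lit 57) (nat_lit 5) (nat_lit 56) (nat_lit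 4) (nat_lit 510) (nat_lit 388) (nat_lit 302))) (XT.nd (nat_lit 78) (nat_lit 0) (nat_lit 0) (XT.lf (nat_lit 0) (nat_lit 8969061213) (nat_lit 76) (nat_lit 6823681191) (nat_lit 152) (nat_lit 12252881954) (nat_lit 54) (nat_lit 5) (nat_lit 55) (nat_lit 5) (nat_lit 56) (nat_lit 4) (nat_lit 511) (nat_lit 388) (nat_lit 301)) (XT.lf (nat_lit 0) (nat_lit 24075043470) (nat_lit 152) (nat_lit 2952349266) (nat_lit 0) (nat_lit 1603347472) (nat_lit 54) (nat_lit 5) (nat_lit 56) (nat_lit 4) (nat_lit 54) (nat_lit 4) (nat_lit 512) (nat_lit 388) (nat_lit 300))))) (XT.nd (nat_lit 312) (nat_lit 304) (nat_lit 0) (XT.nd (nat_lit 156) (nat_lit 76) (nat_lit 0) (XT.nd (nat_lit 78) (nat_lit 76) (nat_lit 0) (XT.lf (nat_lit 0) (nat_lit 3475606865) (nat_lit 152) (nat_lit 15468661047) (nat_lit 76) (nat_lit 10283099337) (nat_lit 52) (nat_lit 5) (nat_lit 54) (nat_lit 5) (nat_lit 53) (nat_lit 4) (nat_lit 513) (nat_lit 388) (nat_lit 299)) (XT.lf (nat_lit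 0) (nat_lit 1103318675) (nat_lit 76) (nat_lit 10560908450) (nat_lit 152) (nat_lit 18176075071) (nat_lit 51) (nat_lit 5) (nat_lit 52) (nat_lit 5) (nat_lit 53) (nat_lit 4) (nat_lit 514) (nat_lit 388) (nat_lit 298))) (XT.nd (nat_lit 78) (nat_lit 76) (nat_lit 0) (XT.lf (nat_lit 0) (nat_lit 18426747142) (nat_lit 76) (nat_lit 1795541452) (nat_lit 152) (nat_lit 10245623650) (nat_lit 51) (nat_lit 5) (nat_lit 52) (nat_lit 5) (nat_lit 53) (nat_lit 4) (nat_lit 515) (nat_lit 388) (nat_lit 297)) (XT.lf (nat_lit 0) (nat_lit 5124361575) (nat_lit 76) (nat_lit 23999754994) (nat_lit 76) (nat_lit 1987623801) (nat_lit 50) (nat_lit 4) (nat_lit 51) (nat_lit 5) (nat_lit 51) (nat_lit 4) (nat_lit 516) (nat_lit 388) (nat_lit 296)))) (XT.nd (nat_lit 156) (nat_lit 152) (nat_lit 0) (XT.nd (nat_lit 78) (nat_lit 76) (nat_lit 0) (XT.lf (nat_lit 0) (nat_lit 6499764778) (nat_lit 152) (nat_lit 8862849923) (nat_lit 76) (nat_lit 16407124219) (nat_lit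 49) (nat_lit 5) (nat_lit 51) (nat_lit 5) (nat_lit 50) (nat_lit 4) (nat_lit 517) (nat_lit 388) (nat_lit 295)) (XT.lf (nat_lit 0) (nat_lit 8868933365) (nat_lit 76) (nat_lit 6387337233) (nat_lit 152) (nat_lit 17188983574) (nat_lit 48) (nat_lit 5) (nat_lit 49) (nat_lit 5) (nat_lit 50) (nat_lit 4) (nat_lit 518) (nat_lit 388) (nat_lit 294))) (XT.nd (nat_lit 78) (nat_lit 152) (nat_lit 0) (XT.lf (nat_lit 0) (nat_lit 24362562171) (nat_lit 152) (nat_lit 5912269299) (nat_lit 0) (nat_lit 2863591151) (nat_lit 48) (nat_lit 5) (nat_lit 50) (nat_lit 4) (nat_lit 48) (nat_lit 4) (nat_lit 519) (nat_lit 388) (nat_lit 293)) (XT.lf (nat_lit 0) (nat_lit 45917272) (nat_lit 152) (nat_lit 21445955204) (nat_lit 76) (nat_lit 12355922668) (nat_lit 46) (nat_lit 5) (nat_lit 48) (nat_lit 5) (nat_lit 47) (nat_lit 4) (nat_lit 520) (nat_lit 388) (nat_lit 292)))))) (XT.nd (nat_lit 546) (nat_lit 380) (nat_lit 0) (XT.nd (nat_lit 234) (nat_lit 304) (nat_lit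 0) (XT.nd (nat_lit 78) (nat_lit 76) (nat_lit 0) (XT.lf (nat_lit 0) (nat_lit 8986416549) (nat_lit 152) (nat_lit 3335767156) (nat_lit 76) (nat_lit 22252745236) (nat_lit 46) (nat_lit 5) (nat_lit 48) (nat_lit 5) (nat_lit 47) (nat_lit 4) (nat_lit 521) (nat_lit 388) (nat_lit 291)) (XT.nd (nat_lit 78) (nat_lit 0) (nat_lit 0) (XT.lf (nat_lit 0) (nat_lit 15564953136) (nat_lit 76) (nat_lit 2750827508) (nat_lit 152) (nat_lit 17004477022) (nat_lit 45) (nat_lit 5) (nat_lit 46) (nat_lit 5) (nat_lit 47) (nat_lit 4) (nat_lit 522) (nat_lit 388) (nat_lit 290)) (XT.lf (nat_lit 0) (nat_lit 27998440851) (nat_lit 152) (nat_lit 1111063297) (nat_lit 0) (nat_lit 6976240041) (nat_lit 45) (nat_lit 5) (nat_lit 47) (nat_lit 4) (nat_lit 45) (nat_lit 4) (nat_lit 523) (nat_lit 388) (nat_lit 289)))) (XT.nd (nat_lit 156) (nat_lit 76) (nat_lit 0) (XT.nd (nat_lit 78) (nat_lit 76) (nat_lit 0) (XT.lf (nat_lit 0) (nat_lit 1253435469) (nat_lit 152) (nat_lit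 18512400443) (nat_lit 76) (nat_lit 17102719392) (nat_lit 43) (nat_lit 5) (nat_lit 45) (nat_lit 5) (nat_lit 44) (nat_lit 4) (nat_lit 524) (nat_lit 388) (nat_lit 288)) (XT.lf (nat_lit 0) (nat_lit 632898337) (nat_lit 76) (nat_lit 10068301913) (nat_lit 152) (nat_lit 26971568175) (nat_lit 42) (nat_lit 5) (nat_lit 43) (nat_lit 5) (nat_lit 44) (nat_lit 4) (nat_lit 525) (nat_lit 388) (nat_lit 287))) (XT.nd (nat_lit 78) (nat_lit 76) (nat_lit 0) (XT.lf (nat_lit 0) (nat_lit 20592395299) (nat_lit 152) (nat_lit 17819499717) (nat_lit 0) (nat_lit 84413357) (nat_lit 42) (nat_lit 5) (nat_lit 44) (nat_lit 4) (nat_lit 42) (nat_lit 4) (nat_lit 526) (nat_lit 388) (nat_lit 286)) (XT.lf (nat_lit 0) (nat_lit 1860747540) (nat_lit 76) (nat_lit 29009942709) (nat_lit 76) (nat_lit 8471153689) (nat_lit 41) (nat_lit 4) (nat_lit 42) (nat_lit 5) (nat_lit 42) (nat_lit 4) (nat_lit 527) (nat_lit 388) (nat_lit 285))))) (XT.nd (nat_lit 312) (nat_lit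 152) (nat_lit 0) (XT.nd (nat_lit 156) (nat_lit 76) (nat_lit 0) (XT.nd (nat_lit 78) (nat_lit 76) (nat_lit 0) (XT.lf (nat_lit 0) (nat_lit 1374834640) (nat_lit 152) (nat_lit 17777784483) (nat_lit 76) (nat_lit 21055131877) (nat_lit 40) (nat_lit 5) (nat_lit 42) (nat_lit 5) (nat_lit 41) (nat_lit 4) (nat_lit 528) (nat_lit 388) (nat_lit 284)) (XT.lf (nat_lit 0) (nat_lit 2428317536) (nat_lit 76) (nat_lit 8914566682) (nat_lit 152) (nat_lit 29754326883) (nat_lit 39) (nat_lit 5) (nat_lit 40) (nat_lit 5) (nat_lit 41) (nat_lit 4) (nat_lit 529) (nat_lit 388) (nat_lit 283))) (XT.nd (nat_lit 78) (nat_lit 76) (nat_lit 0) (XT.lf (nat_lit 0) (nat_lit 21780582503) (nat_lit 152) (nat_lit 18472247104) (nat_lit 0) (nat_lit 1755407485) (nat_lit 39) (nat_lit 5) (nat_lit 41) (nat_lit 4) (nat_lit 39) (nat_lit 4) (nat_lit 530) (nat_lit 388) (nat_lit 282)) (XT.lf (nat_lit 0) (nat_lit 2235309538) (nat_lit 76) (nat_lit 30380254757) (nat_lit 76)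 (nat_lit 10328505283) (nat_lit 38) (nat_lit 4) (nat_lit 39) (nat_lit 5) (nat_lit 39) (nat_lit 4) (nat_lit 531) (nat_lit 388) (nat_lit 281)))) (XT.nd (nat_lit 156) (nat_lit 0) (nat_lit 0) (XT.nd (nat_lit 78) (nat_lit 76) (nat_lit 0) (XT.lf (nat_lit 0) (nat_lit 32999718) (nat_lit 152) (nat_lit 20010560488) (nat_lit 76) (nat_lit 23859571348) (nat_lit 37) (nat_lit 5) (nat_lit 39) (nat_lit 5) (nat_lit 38) (nat_lit 4) (nat_lit 532) (nat_lit 388) (nat_lit 280)) (XT.lf (nat_lit 0) (nat_lit 1180463588) (nat_lit 76) (nat_lit 9303803641) (nat_lit 152) (nat_lit 34404035252) (nat_lit 36) (nat_lit 5) (nat_lit 37) (nat_lit 5) (nat_lit 38) (nat_lit 4) (nat_lit 533) (nat_lit 388) (nat_lit 279))) (XT.nd (nat_lit 78) (nat_lit 0) (nat_lit 0) (XT.lf (nat_lit 0) (nat_lit 21445232885) (nat_lit 152) (nat_lit 22547375586) (nat_lit 0) (nat_lit 1904535525) (nat_lit 36) (nat_lit 5) (nat_lit 38) (nat_lit 4) (nat_lit 36) (nat_lit 4) (nat_lit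 534) (nat_lit 388) (nat_lit 278)) (XT.lf (nat_lit 0) (nat_lit 32803058603) (nat_lit 152) (nat_lit 891713587) (nat_lit 0) (nat_lit 13239437884) (nat_lit 36) (nat_lit 5) (nat_lit 38) (nat_lit 4) (nat_lit 36) (nat_lit 4) (nat_lit 535) (nat_lit 388) (nat_lit 277))))))) (XT.nd (nat_lit 1170) (nat_lit 152) (nat_lit 0) (XT.nd (nat_lit 546) (nat_lit 304) (nat_lit 0) (XT.nd (nat_lit 234) (nat_lit 228) (nat_lit 0) (XT.nd (nat_lit 78) (nat_lit 152) (nat_lit 0) (XT.lf (nat_lit 0) (nat_lit 21792758589) (nat_lit 76) (nat_lit 22894961584) (nat_lit 76) (nat_lit 3309085177) (nat_lit 35) (nat_lit 4) (nat_lit 36) (nat_lit 5) (nat_lit 36) (nat_lit 4) (nat_lit 536) (nat_lit 388) (nat_lit 276)) (XT.nd (nat_lit 78) (nat_lit 76) (nat_lit 0) (XT.lf (nat_lit 0) (nat_lit 7670424718) (nat_lit 152) (nat_lit 4036521693) (nat_lit 76) (nat_lit 37382500431) (nat_lit 34) (nat_lit 5) (nat_lit 36) (nat_lit 5) (nat_lit 35) (nat_lit 4) (nat_lit 537)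 (nat_lit 388) (nat_lit 275)) (XT.lf (nat_lit 0) (nat_lit 19073801445) (nat_lit 152) (nat_lit 31118211506) (nat_lit 0) (nat_lit 17042230) (nat_lit 33) (nat_lit 5) (nat_lit 35) (nat_lit 4) (nat_lit 33) (nat_lit 4) (nat_lit 538) (nat_lit 388) (nat_lit 274)))) (XT.nd (nat_lit 156) (nat_lit 152) (nat_lit 0) (XT.nd (nat_lit 78) (nat_lit 76) (nat_lit 0) (XT.lf (nat_lit 0) (nat_lit 30953687835) (nat_lit 152) (nat_lit 8527377174) (nat_lit 0) (nat_lit 11877154729) (nat_lit 33) (nat_lit 5) (nat_lit 35) (nat_lit 4) (nat_lit 33) (nat_lit 4) (nat_lit 539) (nat_lit 388) (nat_lit 273)) (XT.lf (nat_lit 0) (nat_lit 14990190879) (nat_lit 76) (nat_lit 28321868484) (nat_lit 76) (nat_lit 9226137425) (nat_lit 32) (nat_lit 4) (nat_lit 33) (nat_lit 5) (nat_lit 33) (nat_lit 4) (nat_lit 540) (nat_lit 388) (nat_lit 272))) (XT.nd (nat_lit 78) (nat_lit 76) (nat_lit 0) (XT.lf (nat_lit 0) (nat_lit 2307936455) (nat_lit 152) (nat_lit 14429258842)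 (nat_lit 76) (nat_lit 37013769344) (nat_lit 31) (nat_lit 5) (nat_lit 33) (nat_lit 5) (nat_lit 32) (nat_lit 4) (nat_lit 541) (nat_lit 388) (nat_lit 271)) (XT.lf (nat_lit 0) (nat_lit 9433537101) (nat_lit 76) (nat_lit 4638385489) (nat_lit 152) (nat_lit 40923372909) (nat_lit 30) (nat_lit 5) (nat_lit 31) (nat_lit 5) (nat_lit 32) (nat_lit 4) (nat_lit 542) (nat_lit 388) (nat_lit 270))))) (XT.nd (nat_lit 312) (nat_lit 152) (nat_lit 0) (XT.nd (nat_lit 156) (nat_lit 76) (nat_lit 0) (XT.nd (nat_lit 78) (nat_lit 76) (nat_lit 0) (XT.lf (nat_lit 0) (nat_lit 26389847589) (nat_lit 152) (nat_lit 22083497320) (nat_lit 0) (nat_lit 7797580983) (nat_lit 30) (nat_lit 5) (nat_lit 32) (nat_lit 4) (nat_lit 30) (nat_lit 4) (nat_lit 543) (nat_lit 388) (nat_lit 269)) (XT.lf (nat_lit 0) (nat_lit 2052194836) (nat_lit 76) (nat_lit 37070054650) (nat_lit 76) (nat_lit 18461227722) (nat_lit 29) (nat_lit 4) (nat_lit 30) (nat_lit 5) (nat_lit 30) (nat_lit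 4) (nat_lit 544) (nat_lit 388) (nat_lit 268))) (XT.nd (nat_lit 78) (nat_lit 76) (nat_lit 0) (XT.lf (nat_lit 0) (nat_lit 27324012276) (nat_lit 76) (nat_lit 25115111433) (nat_lit 76) (nat_lit 6490206522) (nat_lit 29) (nat_lit 4) (nat_lit 30) (nat_lit 5) (nat_lit 30) (nat_lit 4) (nat_lit 545) (nat_lit 388) (nat_lit 267)) (XT.lf (nat_lit 0) (nat_lit 5705887047) (nat_lit 152) (nat_lit 7057563896) (nat_lit 76) (nat_lit 47551026953) (nat_lit 28) (nat_lit 5) (nat_lit 30) (nat_lit 5) (nat_lit 29) (nat_lit 4) (nat_lit 546) (nat_lit 388) (nat_lit 266)))) (XT.nd (nat_lit 156) (nat_lit 76) (nat_lit 0) (XT.nd (nat_lit 78) (nat_lit 0) (nat_lit 0) (XT.lf (nat_lit 0) (nat_lit 18297399992) (nat_lit 152) (nat_lit 43251953511) (nat_lit 0) (nat_lit 185099368) (nat_lit 27) (nat_lit 5) (nat_lit 29) (nat_lit 4) (nat_lit 27) (nat_lit 4) (nat_lit 547) (nat_lit 388) (nat_lit 265)) (XT.lf (nat_lit 0) (nat_lit 31445505326) (nat_lit 152) (nat_lit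 18427236897) (nat_lit 0) (nat_lit 13318919622) (nat_lit 27) (nat_lit 5) (nat_lit 29) (nat_lit 4) (nat_lit 27) (nat_lit 4) (nat_lit 548) (nat_lit 388) (nat_lit 264))) (XT.nd (nat_lit 78) (nat_lit 0) (nat_lit 0) (XT.lf (nat_lit 0) (nat_lit 7246035860) (nat_lit 76) (nat_lit 37792742182) (nat_lit 76) (nat_lit 19652287469) (nat_lit 26) (nat_lit 4) (nat_lit 27) (nat_lit 5) (nat_lit 27) (nat_lit 4) (nat_lit 549) (nat_lit 388) (nat_lit 263)) (XT.lf (nat_lit 0) (nat_lit 34030033923) (nat_lit 76) (nat_lit 25177158491) (nat_lit 76) (nat_lit 7023238721) (nat_lit 26) (nat_lit 4) (nat_lit 27) (nat_lit 5) (nat_lit 27) (nat_lit 4) (nat_lit 550) (nat_lit 388) (nat_lit 262)))))) (XT.nd (nat_lit 52884) (nat_lit 0) (nat_lit 15960) (XT.nd (nat_lit 52572) (nat_lit 0) (nat_lit 19532) (XT.nd (nat_lit 52416) (nat_lit 0) (nat_lit 22800) (XT.nd (nat_lit 78) (nat_lit 76) (nat_lit 0) (XT.lf (nat_lit 0) (nat_lit 5849528765) (nat_lit 152) (nat_lit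 6292449247) (nat_lit 76) (nat_lit 55672825103) (nat_lit 25) (nat_lit 5) (nat_lit 27) (nat_lit 5) (nat_lit 26) (nat_lit 4) (nat_lit 551) (nat_lit 388) (nat_lit 261)) (XT.lf (nat_lit 0) (nat_lit 19163217543) (nat_lit 152) (nat_lit 48762487611) (nat_lit 0) (nat_lit 1513038175) (nat_lit 24) (nat_lit 5) (nat_lit 26) (nat_lit 4) (nat_lit 24) (nat_lit 4) (nat_lit 552) (nat_lit 388) (nat_lit 260))) (XT.nd (nat_lit 78) (nat_lit 1140) (nat_lit 0) (XT.lf (nat_lit 0) (nat_lit 1533201979) (nat_lit 988) (nat_lit 972896276) (nat_lit 988) (nat_lit 972896276) (nat_lit 339) (nat_lit 4) (nat_lit 352) (nat_lit 5) (nat_lit 352) (nat_lit 4) (nat_lit 422) (nat_lit 389) (nat_lit 389)) (XT.lf (nat_lit 0) (nat_lit 1120078090) (nat_lit 1064) (nat_lit 355379736) (nat_lit 1140) (nat_lit 5531368531) (nat_lit 324) (nat_lit 5) (nat_lit 338) (nat_lit 5) (nat_lit 339) (nat_lit 4) (nat_lit 423) (nat_lit 389) (nat_lit 388)))) (XT.nd (nat_lit 156)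 (nat_lit 2052) (nat_lit 0) (XT.nd (nat_lit 78) (nat_lit 1216) (nat_lit 0) (XT.lf (nat_lit 0) (nat_lit 4908471233) (nat_lit 1140) (nat_lit 829130383) (nat_lit 0) (nat_lit 1320521723) (nat_lit 324) (nat_lit 5) (nat_lit 339) (nat_lit 4) (nat_lit 324) (nat_lit 4) (nat_lit 424) (nat_lit 389) (nat_lit 387)) (XT.lf (nat_lit 0) (nat_lit 1251614109) (nat_lit 1216) (nat_lit 2763156179) (nat_lit 76) (nat_lit 3097499213) (nat_lit 308) (nat_lit 5) (nat_lit 324) (nat_lit 5) (nat_lit 309) (nat_lit 4) (nat_lit 425) (nat_lit 389) (nat_lit 386))) (XT.nd (nat_lit 78) (nat_lit 836) (nat_lit 0) (XT.lf (nat_lit 0) (nat_lit 2457416934) (nat_lit 1216) (nat_lit 2186599308) (nat_lit 1292) (nat_lit 2525434074) (nat_lit 292) (nat_lit 5) (nat_lit 308) (nat_lit 5) (nat_lit 309) (nat_lit 4) (nat_lit 426) (nat_lit 389) (nat_lit 385)) (XT.lf (nat_lit 0) (nat_lit 563642341) (nat_lit 760) (nat_lit 263228393) (nat_lit 836) (nat_lit 6403186873) (nat_lit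 281) (nat_lit 5) (nat_lit 291) (nat_lit 5) (nat_lit 292) (nat_lit 5) (nat_lit 427) (nat_lit 389) (nat_lit 384))))) (XT.nd (nat_lit 312) (nat_lit 1748) (nat_lit 0) (XT.nd (nat_lit 156) (nat_lit 1140) (nat_lit 0) (XT.nd (nat_lit 78) (nat_lit 684) (nat_lit 0) (XT.lf (nat_lit 0) (nat_lit 4196603242) (nat_lit 836) (nat_lit 1342820375) (nat_lit 76) (nat_lit 1753297223) (nat_lit 281) (nat_lit 5) (nat_lit 292) (nat_lit 5) (nat_lit 282) (nat_lit 4) (nat_lit 428) (nat_lit 389) (nat_lit 383)) (XT.lf (nat_lit 0) (nat_lit 251640288) (nat_lit 684) (nat_lit 3244014752) (nat_lit 76) (nat_lit 3863109054) (nat_lit 272) (nat_lit 5) (nat_lit 281) (nat_lit 5) (nat_lit 273) (nat_lit 5) (nat_lit 429) (nat_lit 389) (nat_lit 382))) (XT.nd (nat_lit 78) (nat_lit 532) (nat_lit 0) (XT.lf (nat_lit 0) (nat_lit 2248466895) (nat_lit 608) (nat_lit 1331168933) (nat_lit 684) (nat_lit 3847987145) (nat_lit 264) (nat_lit 5) (nat_lit 272) (nat_lit 5)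 (nat_lit 273) (nat_lit 5) (nat_lit 430) (nat_lit 389) (nat_lit 381)) (XT.lf (nat_lit 0) (nat_lit 369423501) (nat_lit 532) (nat_lit 6591700378) (nat_lit 608) (nat_lit 538828709) (nat_lit 257) (nat_lit 5) (nat_lit 264) (nat_lit 5) (nat_lit 265) (nat_lit 4) (nat_lit 431) (nat_lit 389) (nat_lit 380)))) (XT.nd (nat_lit 156) (nat_lit 1140) (nat_lit 0) (XT.nd (nat_lit 78) (nat_lit 532) (nat_lit 0) (XT.lf (nat_lit 0) (nat_lit 2788768785) (nat_lit 608) (nat_lit 1527827747) (nat_lit 76) (nat_lit 3257786921) (nat_lit 256) (nat_lit 5) (nat_lit 264) (nat_lit 5) (nat_lit 257) (nat_lit 5) (nat_lit 432) (nat_lit 389) (nat_lit 379)) (XT.lf (nat_lit 0) (nat_lit 4218688466) (nat_lit 532) (nat_lit 1939037751) (nat_lit 608) (nat_lit 1494603436) (nat_lit 249) (nat_lit 5) (nat_lit 256) (nat_lit 5) (nat_lit 257) (nat_lit 5) (nat_lit 433) (nat_lit 389) (nat_lit 378))) (XT.nd (nat_lit 78) (nat_lit 532) (nat_lit 0) (XT.lf (nat_lit 0) (nat_lit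 1814312402) (nat_lit 608) (nat_lit 5376390840) (nat_lit 76) (nat_lit 542692370) (nat_lit 241) (nat_lit 5) (nat_lit 249) (nat_lit 5) (nat_lit 242) (nat_lit 5) (nat_lit 434) (nat_lit 389) (nat_lit 377)) (XT.lf (nat_lit 0) (nat_lit 446826061) (nat_lit 532) (nat_lit 4718114540) (nat_lit 608) (nat_lit 2652346643) (nat_lit 234) (nat_lit 5) (nat_lit 241) (nat_lit 5) (nat_lit 242) (nat_lit 5) (nat_lit 435) (nat_lit 389) (nat_lit 376))))))))
noncomputable def xc71 : XT := (XT.nd (nat_lit 2340) (nat_lit 4028) (nat_lit 0) (XT.nd (nat_lit 1170) (nat_lit 3344) (nat_lit 0) (XT.nd (nat_lit 546) (nat_lit 2432) (nat_lit 0) (XT.nd (nat_lit 234) (nat_lit 1444) (nat_lit 0) (XT.nd (nat_lit 78) (nat_lit 912) (nat_lit 0) (XT.lf (nat_lit 0) (nat_lit 667966836) (nat_lit 608) (nat_lit 1458654461) (nat_lit 76) (nat_lit 5777796090) (nat_lit 233) (nat_lit 5) (nat_lit 241) (nat_lit 5) (nat_lit 234) (nat_lit 5) (nat_lit 436) (nat_lit 389) (nat_lit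 375)) (XT.nd (nat_lit 78) (nat_lit 456) (nat_lit 0) (XT.lf (nat_lit 0) (nat_lit 4001599714) (nat_lit 532) (nat_lit 3407536006) (nat_lit 76) (nat_lit 585238452) (nat_lit 227) (nat_lit 5) (nat_lit 234) (nat_lit 5) (nat_lit 228) (nat_lit 5) (nat_lit 437) (nat_lit 389) (nat_lit 374)) (XT.lf (nat_lit 0) (nat_lit 2685816460) (nat_lit 456) (nat_lit 4729578700) (nat_lit 532) (nat_lit 672240717) (nat_lit 221) (nat_lit 5) (nat_lit 227) (nat_lit 5) (nat_lit 228) (nat_lit 5) (nat_lit 438) (nat_lit 389) (nat_lit 373)))) (XT.nd (nat_lit 156) (nat_lit 912) (nat_lit 0) (XT.nd (nat_lit 78) (nat_lit 0) (nat_lit 0) (XT.lf (nat_lit 0) (nat_lit 733700292) (nat_lit 456) (nat_lit 1921392436) (nat_lit 532) (nat_lit 5528996313) (nat_lit 214) (nat_lit 5) (nat_lit 220) (nat_lit 5) (nat_lit 221) (nat_lit 5) (nat_lit 439) (nat_lit 389) (nat_lit 372)) (XT.lf (nat_lit 0) (nat_lit 6053322643) (nat_lit 532) (nat_lit 1238504250) (nat_lit 76) (nat_lit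 991881501) (nat_lit 214) (nat_lit 5) (nat_lit 221) (nat_lit 5) (nat_lit 215) (nat_lit 5) (nat_lit 440) (nat_lit 389) (nat_lit 371))) (XT.nd (nat_lit 78) (nat_lit 380) (nat_lit 0) (XT.lf (nat_lit 0) (nat_lit 1135229985) (nat_lit 532) (nat_lit 3257875459) (nat_lit 76) (nat_lit 3993158948) (nat_lit 207) (nat_lit 5) (nat_lit 214) (nat_lit 5) (nat_lit 208) (nat_lit 5) (nat_lit 441) (nat_lit 389) (nat_lit 370)) (XT.lf (nat_lit 0) (nat_lit 3157862641) (nat_lit 380) (nat_lit 1365130564) (nat_lit 456) (nat_lit 3969270214) (nat_lit 202) (nat_lit 5) (nat_lit 207) (nat_lit 5) (nat_lit 208) (nat_lit 5) (nat_lit 442) (nat_lit 389) (nat_lit 369))))) (XT.nd (nat_lit 312) (nat_lit 1064) (nat_lit 0) (XT.nd (nat_lit 156) (nat_lit 836) (nat_lit 0) (XT.nd (nat_lit 78) (nat_lit 76) (nat_lit 0) (XT.lf (nat_lit 0) (nat_lit 1134608394) (nat_lit 456) (nat_lit 6862824416) (nat_lit 532) (nat_lit 604467102) (nat_lit 196) (nat_lit 5) (nat_lit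 202) (nat_lit 5) (nat_lit 203) (nat_lit 5) (nat_lit 443) (nat_lit 389) (nat_lit 368)) (XT.lf (nat_lit 0) (nat_lit 2797904152) (nat_lit 532) (nat_lit 950977606) (nat_lit 76) (nat_lit 4965353169) (nat_lit 195) (nat_lit 5) (nat_lit 202) (nat_lit 5) (nat_lit 196) (nat_lit 5) (nat_lit 444) (nat_lit 389) (nat_lit 367))) (XT.nd (nat_lit 78) (nat_lit 456) (nat_lit 0) (XT.lf (nat_lit 0) (nat_lit 5767133706) (nat_lit 380) (nat_lit 505240149) (nat_lit 456) (nat_lit 2557929354) (nat_lit 190) (nat_lit 5) (nat_lit 195) (nat_lit 5) (nat_lit 196) (nat_lit 5) (nat_lit 445) (nat_lit 389) (nat_lit 366)) (XT.lf (nat_lit 0) (nat_lit 883816978) (nat_lit 456) (nat_lit 5258120117) (nat_lit 76) (nat_lit 2807658773) (nat_lit 184) (nat_lit 5) (nat_lit 190) (nat_lit 5) (nat_lit 185) (nat_lit 5) (nat_lit 446) (nat_lit 389) (nat_lit 365)))) (XT.nd (nat_lit 156) (nat_lit 760) (nat_lit 0) (XT.nd (nat_lit 78) (nat_lit 0) (nat_lit 0) (XT.lf (nat_lit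 0) (nat_lit 1537768127) (nat_lit 304) (nat_lit 2818747679) (nat_lit 380) (nat_lit 4715825732) (nat_lit 180) (nat_lit 5) (nat_lit 184) (nat_lit 5) (nat_lit 185) (nat_lit 5) (nat_lit 447) (nat_lit 389) (nat_lit 364)) (XT.lf (nat_lit 0) (nat_lit 7921755125) (nat_lit 380) (nat_lit 660655575) (nat_lit 76) (nat_lit 616715248) (nat_lit 180) (nat_lit 5) (nat_lit 185) (nat_lit 5) (nat_lit 181) (nat_lit 5) (nat_lit 448) (nat_lit 389) (nat_lit 363))) (XT.nd (nat_lit 78) (nat_lit 304) (nat_lit 0) (XT.lf (nat_lit 0) (nat_lit 2240846736) (nat_lit 456) (nat_lit 2933756475) (nat_lit 76) (nat_lit 4153840695) (nat_lit 174) (nat_lit 5) (nat_lit 180) (nat_lit 5) (nat_lit 175) (nat_lit 5) (nat_lit 449) (nat_lit 389) (nat_lit 362)) (XT.lf (nat_lit 0) (nat_lit 4182823308) (nat_lit 304) (nat_lit 1634442202) (nat_lit 380) (nat_lit 3644653168) (nat_lit 170) (nat_lit 5) (nat_lit 174) (nat_lit 5) (nat_lit 175) (nat_lit 5) (nat_lit 450) (nat_lit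 389) (nat_lit 361)))))) (XT.nd (nat_lit 546) (nat_lit 1596) (nat_lit 0) (XT.nd (nat_lit 234) (nat_lit 1064) (nat_lit 0) (XT.nd (nat_lit 78) (nat_lit 380) (nat_lit 0) (XT.lf (nat_lit 0) (nat_lit 1891170388) (nat_lit 304) (nat_lit 7609373946) (nat_lit 380) (nat_lit 98872694) (nat_lit 166) (nat_lit 5) (nat_lit 170) (nat_lit 5) (nat_lit 171) (nat_lit 5) (nat_lit 451) (nat_lit 389) (nat_lit 360)) (XT.nd (nat_lit 78) (nat_lit 304) (nat_lit 0) (XT.lf (nat_lit 0) (nat_lit 3486443857) (nat_lit 380) (nat_lit 506541243) (nat_lit 76) (nat_lit 5746961531) (nat_lit 165) (nat_lit 5) (nat_lit 170) (nat_lit 5) (nat_lit 166) (nat_lit 5) (nat_lit 452) (nat_lit 389) (nat_lit 359)) (XT.lf (nat_lit 0) (nat_lit 6947759911) (nat_lit 304) (nat_lit 230806504) (nat_lit 380) (nat_lit 2706065148) (nat_lit 161) (nat_lit 5) (nat_lit 165) (nat_lit 5) (nat_lit 166) (nat_lit 5) (nat_lit 453) (nat_lit 389) (nat_lit 358)))) (XT.nd (nat_lit 156) (nat_lit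 380) (nat_lit 0) (XT.nd (nat_lit 78) (nat_lit 304) (nat_lit 0) (XT.lf (nat_lit 0) (nat_lit 948603338) (nat_lit 380) (nat_lit 5484684477) (nat_lit 76) (nat_lit 3599522308) (nat_lit 156) (nat_lit 5) (nat_lit 161) (nat_lit 5) (nat_lit 157) (nat_lit 5) (nat_lit 454) (nat_lit 389) (nat_lit 357)) (XT.lf (nat_lit 0) (nat_lit 2044817644) (nat_lit 304) (nat_lit 2601019477) (nat_lit 380) (nat_lit 5539179028) (nat_lit 152) (nat_lit 5) (nat_lit 156) (nat_lit 5) (nat_lit 157) (nat_lit 5) (nat_lit 455) (nat_lit 389) (nat_lit 356))) (XT.nd (nat_lit 78) (nat_lit 380) (nat_lit 0) (XT.lf (nat_lit 0) (nat_lit 8458891591) (nat_lit 380) (nat_lit 540636732) (nat_lit 76) (nat_lit 1342118093) (nat_lit 152) (nat_lit 5) (nat_lit 157) (nat_lit 5) (nat_lit 153) (nat_lit 5) (nat_lit 456) (nat_lit 389) (nat_lit 355)) (XT.lf (nat_lit 0) (nat_lit 1880826729) (nat_lit 380) (nat_lit 3213412350) (nat_lit 76) (nat_lit 5407171791) (nat_lit 147) (nat_lit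 5) (nat_lit 152) (nat_lit 5) (nat_lit 148) (nat_lit 5) (nat_lit 457) (nat_lit 389) (nat_lit 354))))) (XT.nd (nat_lit 312) (nat_lit 760) (nat_lit 0) (XT.nd (nat_lit 156) (nat_lit 304) (nat_lit 0) (XT.nd (nat_lit 78) (nat_lit 304) (nat_lit 0) (XT.lf (nat_lit 0) (nat_lit 4672206814) (nat_lit 228) (nat_lit 1035863327) (nat_lit 304) (nat_lit 4957685735) (nat_lit 144) (nat_lit 5) (nat_lit 147) (nat_lit 5) (nat_lit 148) (nat_lit 5) (nat_lit 458) (nat_lit 389) (nat_lit 353)) (XT.lf (nat_lit 0) (nat_lit 1935853721) (nat_lit 304) (nat_lit 7734590598) (nat_lit 380) (nat_lit 1163982104) (nat_lit 140) (nat_lit 5) (nat_lit 144) (nat_lit 5) (nat_lit 145) (nat_lit 5) (nat_lit 459) (nat_lit 389) (nat_lit 352))) (XT.nd (nat_lit 78) (nat_lit 228) (nat_lit 0) (XT.lf (nat_lit 0) (nat_lit 2700338238) (nat_lit 380) (nat_lit 915415607) (nat_lit 76) (nat_lit 7391306141) (nat_lit 139) (nat_lit 5) (nat_lit 144) (nat_lit 5) (nat_lit 140) (nat_lit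 5) (nat_lit 460) (nat_lit 389) (nat_lit 351)) (XT.lf (nat_lit 0) (nat_lit 6675022967) (nat_lit 304) (nat_lit 3846661168) (nat_lit 76) (nat_lit 662311998) (nat_lit 136) (nat_lit 5) (nat_lit 140) (nat_lit 5) (nat_lit 137) (nat_lit 5) (nat_lit 461) (nat_lit 389) (nat_lit 350)))) (XT.nd (nat_lit 156) (nat_lit 228) (nat_lit 0) (XT.nd (nat_lit 78) (nat_lit 304) (nat_lit 0) (XT.lf (nat_lit 0) (nat_lit 4445853360) (nat_lit 228) (nat_lit 6352186562) (nat_lit 304) (nat_lit 567331773) (nat_lit 133) (nat_lit 5) (nat_lit 136) (nat_lit 5) (nat_lit 137) (nat_lit 5) (nat_lit 462) (nat_lit 389) (nat_lit 349)) (XT.lf (nat_lit 0) (nat_lit 1412872497) (nat_lit 228) (nat_lit 2005789436) (nat_lit 304) (nat_lit 8132695594) (nat_lit 129) (nat_lit 5) (nat_lit 132) (nat_lit 5) (nat_lit 133) (nat_lit 5) (nat_lit 463) (nat_lit 389) (nat_lit 348))) (XT.nd (nat_lit 78) (nat_lit 228) (nat_lit 0) (XT.lf (nat_lit 0) (nat_lit 7549035156) (nat_lit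 304) (nat_lit 1729965831) (nat_lit 76) (nat_lit 2462671093) (nat_lit 129) (nat_lit 5) (nat_lit 133) (nat_lit 5) (nat_lit 130) (nat_lit 5) (nat_lit 464) (nat_lit 389) (nat_lit 347)) (XT.lf (nat_lit 0) (nat_lit 6953278021) (nat_lit 228) (nat_lit 4880317075) (nat_lit 304) (nat_lit 103196335) (nat_lit 126) (nat_lit 5) (nat_lit 129) (nat_lit 5) (nat_lit 130) (nat_lit 5) (nat_lit 465) (nat_lit 389) (nat_lit 346))))))) (XT.nd (nat_lit 1170) (nat_lit 1672) (nat_lit 0) (XT.nd (nat_lit 546) (nat_lit 1140) (nat_lit 0) (XT.nd (nat_lit 234) (nat_lit 608) (nat_lit 0) (XT.nd (nat_lit 78) (nat_lit 304) (nat_lit 0) (XT.lf (nat_lit 0) (nat_lit 3734889939) (nat_lit 228) (nat_lit 291179062) (nat_lit 304) (nat_lit 8110594207) (nat_lit 122) (nat_lit 5) (nat_lit 125) (nat_lit 5) (nat_lit 126) (nat_lit 5) (nat_lit 466) (nat_lit 389) (nat_lit 345)) (XT.nd (nat_lit 78) (nat_lit 76) (nat_lit 0) (XT.lf (nat_lit 0) (nat_lit 344592054) (nat_lit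 228) (nat_lit 7973485453) (nat_lit 304) (nat_lit 4023198118) (nat_lit 119) (nat_lit 5) (nat_lit 122) (nat_lit 5) (nat_lit 123) (nat_lit 5) (nat_lit 467) (nat_lit 389) (nat_lit 344)) (XT.lf (nat_lit 0) (nat_lit 216088861) (nat_lit 304) (nat_lit 3123568318) (nat_lit 76) (nat_lit 9211331051) (nat_lit 118) (nat_lit 5) (nat_lit 122) (nat_lit 5) (nat_lit 119) (nat_lit 5) (nat_lit 468) (nat_lit 389) (nat_lit 343)))) (XT.nd (nat_lit 156) (nat_lit 228) (nat_lit 0) (XT.nd (nat_lit 78) (nat_lit 228) (nat_lit 0) (XT.lf (nat_lit 0) (nat_lit 4519737357) (nat_lit 228) (nat_lit 6778456170) (nat_lit 76) (nat_lit 1467065358) (nat_lit 116) (nat_lit 5) (nat_lit 119) (nat_lit 5) (nat_lit 117) (nat_lit 5) (nat_lit 469) (nat_lit 389) (nat_lit 342)) (XT.lf (nat_lit 0) (nat_lit 2370633034) (nat_lit 228) (nat_lit 6615887615) (nat_lit 304) (nat_lit 3998419200) (nat_lit 113) (nat_lit 5) (nat_lit 116) (nat_lit 5) (nat_lit 117) (nat_lit 5) (nat_lit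 470) (nat_lit 389) (nat_lit 341))) (XT.nd (nat_lit 78) (nat_lit 152) (nat_lit 0) (XT.lf (nat_lit 0) (nat_lit 384364040) (nat_lit 304) (nat_lit 1372224442) (nat_lit 76) (nat_lit 11454048875) (nat_lit 112) (nat_lit 5) (nat_lit 116) (nat_lit 5) (nat_lit 113) (nat_lit 5) (nat_lit 471) (nat_lit 389) (nat_lit 340)) (XT.lf (nat_lit 0) (nat_lit 4876954408) (nat_lit 228) (nat_lit 5295290993) (nat_lit 76) (nat_lit 3267914802) (nat_lit 110) (nat_lit 5) (nat_lit 113) (nat_lit 5) (nat_lit 111) (nat_lit 5) (nat_lit 472) (nat_lit 389) (nat_lit 339))))) (XT.nd (nat_lit 312) (nat_lit 532) (nat_lit 0) (XT.nd (nat_lit 156) (nat_lit 152) (nat_lit 0) (XT.nd (nat_lit 78) (nat_lit 228) (nat_lit 0) (XT.lf (nat_lit 0) (nat_lit 4275805831) (nat_lit 228) (nat_lit 5249350728) (nat_lit 304) (nat_lit 4150789773) (nat_lit 107) (nat_lit 5) (nat_lit 110) (nat_lit 5) (nat_lit 111) (nat_lit 5) (nat_lit 473) (nat_lit 389) (nat_lit 338)) (XT.lf (nat_lit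 0) (nat_lit 235966827) (nat_lit 152) (nat_lit 155104394) (nat_lit 228) (nat_lit 13527480847) (nat_lit 104) (nat_lit 5) (nat_lit 106) (nat_lit 5) (nat_lit 107) (nat_lit 5) (nat_lit 474) (nat_lit 389) (nat_lit 337))) (XT.nd (nat_lit 78) (nat_lit 152) (nat_lit 0) (XT.lf (nat_lit 0) (nat_lit 5079343841) (nat_lit 228) (nat_lit 3992707961) (nat_lit 76) (nat_lit 5092346187) (nat_lit 104) (nat_lit 5) (nat_lit 107) (nat_lit 5) (nat_lit 105) (nat_lit 5) (nat_lit 475) (nat_lit 389) (nat_lit 336)) (XT.lf (nat_lit 0) (nat_lit 6016365047) (nat_lit 152) (nat_lit 3901532935) (nat_lit 228) (nat_lit 4499434632) (nat_lit 102) (nat_lit 5) (nat_lit 104) (nat_lit 5) (nat_lit 105) (nat_lit 5) (nat_lit 476) (nat_lit 389) (nat_lit 335)))) (XT.nd (nat_lit 156) (nat_lit 304) (nat_lit 0) (XT.nd (nat_lit 78) (nat_lit 0) (nat_lit 0) (XT.lf (nat_lit 0) (nat_lit 240493805) (nat_lit 228) (nat_lit 13017967171) (nat_lit 76) (nat_lit 1418698774) (nat_lit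 99) (nat_lit 5) (nat_lit 102) (nat_lit 5) (nat_lit 100) (nat_lit 5) (nat_lit 477) (nat_lit 389) (nat_lit 334)) (XT.lf (nat_lit 0) (nat_lit 5107131485) (nat_lit 228) (nat_lit 2920636461) (nat_lit 76) (nat_lit 6913431051) (nat_lit 99) (nat_lit 5) (nat_lit 102) (nat_lit 5) (nat_lit 100) (nat_lit 5) (nat_lit 478) (nat_lit 389) (nat_lit 333))) (XT.nd (nat_lit 78) (nat_lit 152) (nat_lit 0) (XT.lf (nat_lit 0) (nat_lit 7541582402) (nat_lit 152) (nat_lit 2602761066) (nat_lit 228) (nat_lit 5068080764) (nat_lit 97) (nat_lit 5) (nat_lit 99) (nat_lit 5) (nat_lit 100) (nat_lit 5) (nat_lit 479) (nat_lit 389) (nat_lit 332)) (XT.lf (nat_lit 0) (nat_lit 2827397583) (nat_lit 152) (nat_lit 12543240962) (nat_lit 228) (nat_lit 120010687) (nat_lit 95) (nat_lit 5) (nat_lit 97) (nat_lit 5) (nat_lit 98) (nat_lit 4) (nat_lit 480) (nat_lit 389) (nat_lit 331)))))) (XT.nd (nat_lit 624) (nat_lit 684) (nat_lit 0) (XT.nd (nat_lit 312) (nat_lit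 532) (nat_lit 0) (XT.nd (nat_lit 156) (nat_lit 228) (nat_lit 0) (XT.nd (nat_lit 78) (nat_lit 152) (nat_lit 0) (XT.lf (nat_lit 0) (nat_lit 4935806602) (nat_lit 228) (nat_lit 2136979727) (nat_lit 76) (nat_lit 8701308992) (nat_lit 94) (nat_lit 5) (nat_lit 97) (nat_lit 5) (nat_lit 95) (nat_lit 5) (nat_lit 481) (nat_lit 389) (nat_lit 330)) (XT.lf (nat_lit 0) (nat_lit 8792417796) (nat_lit 152) (nat_lit 1386789793) (nat_lit 228) (nat_lit 5885653757) (nat_lit 92) (nat_lit 5) (nat_lit 94) (nat_lit 5) (nat_lit 95) (nat_lit 5) (nat_lit 482) (nat_lit 389) (nat_lit 329))) (XT.nd (nat_lit 78) (nat_lit 76) (nat_lit 0) (XT.lf (nat_lit 0) (nat_lit 3675083189) (nat_lit 152) (nat_lit 11958920375) (nat_lit 228) (nat_lit 728725783) (nat_lit 90) (nat_lit 5) (nat_lit 92) (nat_lit 5) (nat_lit 93) (nat_lit 4) (nat_lit 483) (nat_lit 389) (nat_lit 328)) (XT.lf (nat_lit 0) (nat_lit 4535478127) (nat_lit 228) (nat_lit 1709078156) (nat_lit 76)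 (nat_lit 10422397258) (nat_lit 89) (nat_lit 5) (nat_lit 92) (nat_lit 5) (nat_lit 90) (nat_lit 5) (nat_lit 484) (nat_lit 389) (nat_lit 327)))) (XT.nd (nat_lit 156) (nat_lit 228) (nat_lit 0) (XT.nd (nat_lit 78) (nat_lit 152) (nat_lit 0) (XT.lf (nat_lit 0) (nat_lit 9699991061) (nat_lit 152) (nat_lit 291651570) (nat_lit 228) (nat_lit 6986986574) (nat_lit 87) (nat_lit 5) (nat_lit 89) (nat_lit 5) (nat_lit 90) (nat_lit 5) (nat_lit 485) (nat_lit 389) (nat_lit 326)) (XT.lf (nat_lit 0) (nat_lit 4130416972) (nat_lit 152) (nat_lit 11549964092) (nat_lit 228) (nat_lit 1617208991) (nat_lit 85) (nat_lit 5) (nat_lit 87) (nat_lit 5) (nat_lit 88) (nat_lit 4) (nat_lit 486) (nat_lit 389) (nat_lit 325))) (XT.nd (nat_lit 78) (nat_lit 152) (nat_lit 0) (XT.lf (nat_lit 0) (nat_lit 3870112068) (nat_lit 228) (nat_lit 1715394573) (nat_lit 76) (nat_lit 12038501376) (nat_lit 84) (nat_lit 5) (nat_lit 87) (nat_lit 5) (nat_lit 85) (nat_lit 5) (nat_lit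 487) (nat_lit 389) (nat_lit 324)) (XT.lf (nat_lit 0) (nat_lit 9550582341) (nat_lit 228) (nat_lit 7780418608) (nat_lit 76) (nat_lit 626907641) (nat_lit 82) (nat_lit 5) (nat_lit 85) (nat_lit 5) (nat_lit 83) (nat_lit 4) (nat_lit 488) (nat_lit 389) (nat_lit 323))))) (XT.nd (nat_lit 312) (nat_lit 304) (nat_lit 0) (XT.nd (nat_lit 156) (nat_lit 228) (nat_lit 0) (XT.nd (nat_lit 78) (nat_lit 76) (nat_lit 0) (XT.lf (nat_lit 0) (nat_lit 4106691498) (nat_lit 76) (nat_lit 11364202069) (nat_lit 152) (nat_lit 2828851217) (nat_lit 81) (nat_lit 5) (nat_lit 82) (nat_lit 5) (nat_lit 83) (nat_lit 4) (nat_lit 489) (nat_lit 389) (nat_lit 322)) (XT.lf (nat_lit 0) (nat_lit 2896632739) (nat_lit 152) (nat_lit 2247458729) (nat_lit 76) (nat_lit 13505807467) (nat_lit 80) (nat_lit 5) (nat_lit 82) (nat_lit 5) (nat_lit 81) (nat_lit 5) (nat_lit 490) (nat_lit 389) (nat_lit 321))) (XT.nd (nat_lit 78) (nat_lit 76) (nat_lit 0) (XT.lf (nat_lit 0) (nat_lit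 8806108012) (nat_lit 228) (nat_lit 8871289870) (nat_lit 76) (nat_lit 1330248349) (nat_lit 78) (nat_lit 5) (nat_lit 81) (nat_lit 5) (nat_lit 79) (nat_lit 4) (nat_lit 491) (nat_lit 389) (nat_lit 320)) (XT.lf (nat_lit 0) (nat_lit 3502594649) (nat_lit 76) (nat_lit 11456412099) (nat_lit 152) (nat_lit 4415136271) (nat_lit 77) (nat_lit 5) (nat_lit 78) (nat_lit 5) (nat_lit 79) (nat_lit 4) (nat_lit 492) (nat_lit 389) (nat_lit 319)))) (XT.nd (nat_lit 156) (nat_lit 76) (nat_lit 0) (XT.nd (nat_lit 78) (nat_lit 152) (nat_lit 0) (XT.lf (nat_lit 0) (nat_lit 1563867491) (nat_lit 152) (nat_lit 3412114057) (nat_lit 76) (nat_lit 14773734173) (nat_lit 76) (nat_lit 5) (nat_lit 78) (nat_lit 5) (nat_lit 77) (nat_lit 5) (nat_lit 493) (nat_lit 389) (nat_lit 318)) (XT.lf (nat_lit 0) (nat_lit 7701926676) (nat_lit 228) (nat_lit 10663252060) (nat_lit 76) (nat_lit 1768013833) (nat_lit 74) (nat_lit 5) (nat_lit 77) (nat_lit 5) (nat_lit 75) (nat_lit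 4) (nat_lit 494) (nat_lit 389) (nat_lit 317))) (XT.nd (nat_lit 78) (nat_lit 0) (nat_lit 0) (XT.lf (nat_lit 0) (nat_lit 2199713755) (nat_lit 76) (nat_lit 11889638773) (nat_lit 152) (nat_lit 6436865557) (nat_lit 73) (nat_lit 5) (nat_lit 74) (nat_lit 5) (nat_lit 75) (nat_lit 4) (nat_lit 495) (nat_lit 389) (nat_lit 316)) (XT.lf (nat_lit 0) (nat_lit 15593024771) (nat_lit 76) (nat_lit 5143522273) (nat_lit 152) (nat_lit 192444026) (nat_lit 73) (nat_lit 5) (nat_lit 74) (nat_lit 5) (nat_lit 75) (nat_lit 4) (nat_lit 496) (nat_lit 389) (nat_lit 315))))))))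
noncomputable def xc72 : XT := (XT.nd (nat_lit 2340) (nat_lit 1292) (nat_lit 0) (XT.nd (nat_lit 1170) (nat_lit 988) (nat_lit 0) (XT.nd (nat_lit 546) (nat_lit 532) (nat_lit 0) (XT.nd (nat_lit 234) (nat_lit 532) (nat_lit 0) (XT.nd (nat_lit 78) (nat_lit 76) (nat_lit 0) (XT.lf (nat_lit 0) (nat_lit 6174747151) (nat_lit 228) (nat_lit 13290246365) (nat_lit 76) (nat_lit 1875339812) (nat_lit 70) (nat_lit 5) (nat_lit 73) (nat_lit 5) (nat_lit 71) (nat_lit 4) (nat_lit 497) (nat_lit 389) (nat_lit 314)) (XT.nd (nat_lit 78) (nat_lit 0) (nat_lit 0) (XT.lf (nat_lit 0) (nat_lit 59646723) (nat_lit 76) (nat_lit 12736705944) (nat_lit 152) (nat_lit 8965589017) (nat_lit 69) (nat_lit 5) (nat_lit 70) (nat_lit 5) (nat_lit 71) (nat_lit 4) (nat_lit 498) (nat_lit 389) (nat_lit 313)) (XT.lf (nat_lit 0) (nat_lit 14010331021) (nat_lit 76) (nat_lit 5702263904) (nat_lit 152) (nat_lit 2480724667) (nat_lit 69) (nat_lit 5) (nat_lit 70) (nat_lit 5)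 (nat_lit 71) (nat_lit 4) (nat_lit 499) (nat_lit 389) (nat_lit 312)))) (XT.nd (nat_lit 156) (nat_lit 304) (nat_lit 0) (XT.nd (nat_lit 78) (nat_lit 0) (nat_lit 0) (XT.lf (nat_lit 0) (nat_lit 4149945747) (nat_lit 228) (nat_lit 16908545624) (nat_lit 76) (nat_lit 1576941811) (nat_lit 66) (nat_lit 5) (nat_lit 69) (nat_lit 5) (nat_lit 67) (nat_lit 4) (nat_lit 500) (nat_lit 389) (nat_lit 311)) (XT.lf (nat_lit 0) (nat_lit 11032212518) (nat_lit 228) (nat_lit 3019254775) (nat_lit 76) (nat_lit 9035530825) (nat_lit 66) (nat_lit 5) (nat_lit 69) (nat_lit 5) (nat_lit 67) (nat_lit 4) (nat_lit 501) (nat_lit 389) (nat_lit 310))) (XT.nd (nat_lit 78) (nat_lit 228) (nat_lit 0) (XT.lf (nat_lit 0) (nat_lit 11441148596) (nat_lit 76) (nat_lit 6753494536) (nat_lit 152) (nat_lit 5355256848) (nat_lit 65) (nat_lit 5) (nat_lit 66) (nat_lit 5) (nat_lit 67) (nat_lit 4) (nat_lit 502) (nat_lit 389) (nat_lit 309)) (XT.lf (nat_lit 0) (nat_lit 1539781520)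 (nat_lit 228) (nat_lit 21700454321) (nat_lit 76) (nat_lit 785267921) (nat_lit 62) (nat_lit 5) (nat_lit 65) (nat_lit 5) (nat_lit 63) (nat_lit 4) (nat_lit 503) (nat_lit 389) (nat_lit 308))))) (XT.nd (nat_lit 312) (nat_lit 228) (nat_lit 0) (XT.nd (nat_lit 156) (nat_lit 228) (nat_lit 0) (XT.nd (nat_lit 78) (nat_lit 76) (nat_lit 0) (XT.lf (nat_lit 0) (nat_lit 8688238276) (nat_lit 228) (nat_lit 7261686001) (nat_lit 76) (nat_lit 8559235411) (nat_lit 62) (nat_lit 5) (nat_lit 65) (nat_lit 5) (nat_lit 63) (nat_lit 4) (nat_lit 504) (nat_lit 389) (nat_lit 307)) (XT.lf (nat_lit 0) (nat_lit 7693419124) (nat_lit 76) (nat_lit 8396587374) (nat_lit 152) (nat_lit 8916153819) (nat_lit 61) (nat_lit 5) (nat_lit 62) (nat_lit 5) (nat_lit 63) (nat_lit 4) (nat_lit 505) (nat_lit 389) (nat_lit 306))) (XT.nd (nat_lit 78) (nat_lit 228) (nat_lit 0) (XT.lf (nat_lit 0) (nat_lit 23179738683) (nat_lit 76) (nat_lit 572706722) (nat_lit 152) (nat_lit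 1764467765) (nat_lit 61) (nat_lit 5) (nat_lit 62) (nat_lit 5) (nat_lit 63) (nat_lit 4) (nat_lit 506) (nat_lit 389) (nat_lit 305)) (XT.lf (nat_lit 0) (nat_lit 5659021345) (nat_lit 228) (nat_lit 12885161198) (nat_lit 76) (nat_lit 7492194435) (nat_lit 58) (nat_lit 5) (nat_lit 61) (nat_lit 5) (nat_lit 59) (nat_lit 4) (nat_lit 507) (nat_lit 389) (nat_lit 304)))) (XT.nd (nat_lit 156) (nat_lit 152) (nat_lit 0) (XT.nd (nat_lit 78) (nat_lit 0) (nat_lit 0) (XT.lf (nat_lit 0) (nat_lit 2542570978) (nat_lit 76) (nat_lit 10747167914) (nat_lit 152) (nat_lit 13280562746) (nat_lit 57) (nat_lit 5) (nat_lit 58) (nat_lit 5) (nat_lit 59) (nat_lit 4) (nat_lit 508) (nat_lit 389) (nat_lit 303)) (XT.lf (nat_lit 0) (nat_lit 18632786136) (nat_lit 76) (nat_lit 2613118072) (nat_lit 152) (nat_lit 5871444698) (nat_lit 57) (nat_lit 5) (nat_lit 58) (nat_lit 5) (nat_lit 59) (nat_lit 4) (nat_lit 509) (nat_lit 389) (nat_lit 302))) (XT.nd (nat_lit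 78) (nat_lit 0) (nat_lit 0) (XT.lf (nat_lit 0) (nat_lit 1821672547) (nat_lit 152) (nat_lit 20142227013) (nat_lit 76) (nat_lit 5713519058) (nat_lit 55) (nat_lit 5) (nat_lit 57) (nat_lit 5) (nat_lit 56) (nat_lit 4) (nat_lit 510) (nat_lit 389) (nat_lit 301)) (XT.lf (nat_lit 0) (nat_lit 9707105589) (nat_lit 152) (nat_lit 4190438946) (nat_lit 76) (nat_lit 14352616516) (nat_lit 55) (nat_lit 5) (nat_lit 57) (nat_lit 5) (nat_lit 56) (nat_lit 4) (nat_lit 511) (nat_lit 389) (nat_lit 300)))))) (XT.nd (nat_lit 546) (nat_lit 532) (nat_lit 0) (XT.nd (nat_lit 234) (nat_lit 228) (nat_lit 0) (XT.nd (nat_lit 78) (nat_lit 152) (nat_lit 0) (XT.lf (nat_lit 0) (nat_lit 12420792883) (nat_lit 76) (nat_lit 5495796561) (nat_lit 152) (nat_lit 10920872257) (nat_lit 54) (nat_lit 5) (nat_lit 55) (nat_lit 5) (nat_lit 56) (nat_lit 4) (nat_lit 512) (nat_lit 389) (nat_lit 299)) (XT.nd (nat_lit 78) (nat_lit 76) (nat_lit 0) (XT.lf (nat_lit 0) (nat_lit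 84475254) (nat_lit 76) (nat_lit 26329939323) (nat_lit 76) (nat_lit 3026705656) (nat_lit 53) (nat_lit 4) (nat_lit 54) (nat_lit 5) (nat_lit 54) (nat_lit 4) (nat_lit 513) (nat_lit 389) (nat_lit 298)) (XT.lf (nat_lit 0) (nat_lit 5194697436) (nat_lit 152) (nat_lit 12807434185) (nat_lit 76) (nat_lit 12053585029) (nat_lit 52) (nat_lit 5) (nat_lit 54) (nat_lit 5) (nat_lit 53) (nat_lit 4) (nat_lit 514) (nat_lit 389) (nat_lit 297)))) (XT.nd (nat_lit 156) (nat_lit 152) (nat_lit 0) (XT.nd (nat_lit 78) (nat_lit 0) (nat_lit 0) (XT.lf (nat_lit 0) (nat_lit 4231064863) (nat_lit 76) (nat_lit 9380625416) (nat_lit 152) (nat_lit 17075868732) (nat_lit 51) (nat_lit 5) (nat_lit 52) (nat_lit 5) (nat_lit 53) (nat_lit 4) (nat_lit 515) (nat_lit 389) (nat_lit 296)) (XT.lf (nat_lit 0) (nat_lit 21984060845) (nat_lit 76) (nat_lit 395902563) (nat_lit 152) (nat_lit 8955430620) (nat_lit 51) (nat_lit 5) (nat_lit 52) (nat_lit 5) (nat_lit 53) (nat_lit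 4) (nat_lit 516) (nat_lit 389) (nat_lit 295))) (XT.nd (nat_lit 78) (nat_lit 76) (nat_lit 0) (XT.lf (nat_lit 0) (nat_lit 8285411875) (nat_lit 76) (nat_lit 23260732635) (nat_lit 76) (nat_lit 452474279) (nat_lit 50) (nat_lit 4) (nat_lit 51) (nat_lit 5) (nat_lit 51) (nat_lit 4) (nat_lit 517) (nat_lit 389) (nat_lit 294)) (XT.lf (nat_lit 0) (nat_lit 8212872642) (nat_lit 152) (nat_lit 6178771091) (nat_lit 76) (nat_lit 18285620665) (nat_lit 49) (nat_lit 5) (nat_lit 51) (nat_lit 5) (nat_lit 50) (nat_lit 4) (nat_lit 518) (nat_lit 389) (nat_lit 293))))) (XT.nd (nat_lit 312) (nat_lit 304) (nat_lit 0) (XT.nd (nat_lit 156) (nat_lit 152) (nat_lit 0) (XT.nd (nat_lit 78) (nat_lit 0) (nat_lit 0) (XT.lf (nat_lit 0) (nat_lit 12056044478) (nat_lit 76) (nat_lit 5159891073) (nat_lit 152) (nat_lit 16157594375) (nat_lit 48) (nat_lit 5) (nat_lit 49) (nat_lit 5) (nat_lit 50) (nat_lit 4) (nat_lit 519) (nat_lit 389) (nat_lit 292)) (XT.lf (nat_lit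 0) (nat_lit 26564912597) (nat_lit 152) (nat_lit 3223148009) (nat_lit 0) (nat_lit 4300348578) (nat_lit 48) (nat_lit 5) (nat_lit 50) (nat_lit 4) (nat_lit 48) (nat_lit 4) (nat_lit 520) (nat_lit 389) (nat_lit 291))) (XT.nd (nat_lit 78) (nat_lit 0) (nat_lit 0) (XT.lf (nat_lit 0) (nat_lit 1517629908) (nat_lit 152) (nat_lit 19221664125) (nat_lit 76) (nat_lit 14079804261) (nat_lit 46) (nat_lit 5) (nat_lit 48) (nat_lit 5) (nat_lit 47) (nat_lit 4) (nat_lit 521) (nat_lit 389) (nat_lit 290)) (XT.lf (nat_lit 0) (nat_lit 10683518868) (nat_lit 152) (nat_lit 651694797) (nat_lit 76) (nat_lit 24234117801) (nat_lit 46) (nat_lit 5) (nat_lit 48) (nat_lit 5) (nat_lit 47) (nat_lit 4) (nat_lit 522) (nat_lit 389) (nat_lit 289)))) (XT.nd (nat_lit 156) (nat_lit 152) (nat_lit 0) (XT.nd (nat_lit 78) (nat_lit 76) (nat_lit 0) (XT.lf (nat_lit 0) (nat_lit 18788751562) (nat_lit 76) (nat_lit 1488934895) (nat_lit 152) (nat_lit 16059786501) (nat_lit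 45) (nat_lit 5) (nat_lit 46) (nat_lit 5) (nat_lit 47) (nat_lit 4) (nat_lit 523) (nat_lit 389) (nat_lit 288)) (XT.lf (nat_lit 0) (nat_lit 1591831149) (nat_lit 76) (nat_lit 28645705122) (nat_lit 76) (nat_lit 6888787079) (nat_lit 44) (nat_lit 4) (nat_lit 45) (nat_lit 5) (nat_lit 45) (nat_lit 4) (nat_lit 524) (nat_lit 389) (nat_lit 287))) (XT.nd (nat_lit 78) (nat_lit 76) (nat_lit 0) (XT.lf (nat_lit 0) (nat_lit 2673897042) (nat_lit 152) (nat_lit 16361590274) (nat_lit 76) (nat_lit 18897621077) (nat_lit 43) (nat_lit 5) (nat_lit 45) (nat_lit 5) (nat_lit 44) (nat_lit 4) (nat_lit 525) (nat_lit 389) (nat_lit 286)) (XT.lf (nat_lit 0) (nat_lit 3331536272) (nat_lit 76) (nat_lit 9059039507) (nat_lit 152) (nat_lit 26371308219) (nat_lit 42) (nat_lit 5) (nat_lit 43) (nat_lit 5) (nat_lit 44) (nat_lit 4) (nat_lit 526) (nat_lit 389) (nat_lit 285))))))) (XT.nd (nat_lit 1170) (nat_lit 532) (nat_lit 0) (XT.nd (nat_lit 546) (nat_lit 380)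 (nat_lit 0) (XT.nd (nat_lit 234) (nat_lit 228) (nat_lit 0) (XT.nd (nat_lit 78) (nat_lit 152) (nat_lit 0) (XT.lf (nat_lit 0) (nat_lit 22550890118) (nat_lit 152) (nat_lit 15724848458) (nat_lit 0) (nat_lit 1335220567) (nat_lit 42) (nat_lit 5) (nat_lit 44) (nat_lit 4) (nat_lit 42) (nat_lit 4) (nat_lit 527) (nat_lit 389) (nat_lit 284)) (XT.nd (nat_lit 78) (nat_lit 76) (nat_lit 0) (XT.lf (nat_lit 0) (nat_lit 4520029390) (nat_lit 76) (nat_lit 28603480387) (nat_lit 76) (nat_lit 7358772211) (nat_lit 41) (nat_lit 4) (nat_lit 42) (nat_lit 5) (nat_lit 42) (nat_lit 4) (nat_lit 528) (nat_lit 389) (nat_lit 283)) (XT.lf (nat_lit 0) (nat_lit 2716905347) (nat_lit 152) (nat_lit 15757583161) (nat_lit 76) (nat_lit 22900454886) (nat_lit 40) (nat_lit 5) (nat_lit 42) (nat_lit 5) (nat_lit 41) (nat_lit 4) (nat_lit 529) (nat_lit 389) (nat_lit 282)))) (XT.nd (nat_lit 156) (nat_lit 152) (nat_lit 0) (XT.nd (nat_lit 78) (nat_lit 0) (nat_lit 0)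 (XT.lf (nat_lit 0) (nat_lit 5029667264) (nat_lit 76) (nat_lit 7940746514) (nat_lit 152) (nat_lit 29321081447) (nat_lit 39) (nat_lit 5) (nat_lit 40) (nat_lit 5) (nat_lit 41) (nat_lit 4) (nat_lit 530) (nat_lit 389) (nat_lit 281)) (XT.lf (nat_lit 0) (nat_lit 23695334692) (nat_lit 152) (nat_lit 16545637149) (nat_lit 0) (nat_lit 2989657836) (nat_lit 39) (nat_lit 5) (nat_lit 41) (nat_lit 4) (nat_lit 39) (nat_lit 4) (nat_lit 531) (nat_lit 389) (nat_lit 280))) (XT.nd (nat_lit 78) (nat_lit 76) (nat_lit 0) (XT.lf (nat_lit 0) (nat_lit 4758824845) (nat_lit 76) (nat_lit 30083416147) (nat_lit 76) (nat_lit 9352690318) (nat_lit 38) (nat_lit 4) (nat_lit 39) (nat_lit 5) (nat_lit 39) (nat_lit 4) (nat_lit 532) (nat_lit 389) (nat_lit 279)) (XT.lf (nat_lit 0) (nat_lit 1257855796) (nat_lit 152) (nat_lit 18201597954) (nat_lit 76) (nat_lit 25724042512) (nat_lit 37) (nat_lit 5) (nat_lit 39) (nat_lit 5) (nat_lit 38) (nat_lit 4) (nat_lit 533)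 (nat_lit 389) (nat_lit 278))))) (XT.nd (nat_lit 312) (nat_lit 228) (nat_lit 0) (XT.nd (nat_lit 156) (nat_lit 76) (nat_lit 0) (XT.nd (nat_lit 78) (nat_lit 0) (nat_lit 0) (XT.lf (nat_lit 0) (nat_lit 3601536459) (nat_lit 76) (nat_lit 8408410703) (nat_lit 152) (nat_lit 34188656968) (nat_lit 36) (nat_lit 5) (nat_lit 37) (nat_lit 5) (nat_lit 38) (nat_lit 4) (nat_lit 534) (nat_lit 389) (nat_lit 277)) (XT.lf (nat_lit 0) (nat_lit 23275426760) (nat_lit 152) (nat_lit 20883295582) (nat_lit 0) (nat_lit 3079718372) (nat_lit 36) (nat_lit 5) (nat_lit 38) (nat_lit 4) (nat_lit 36) (nat_lit 4) (nat_lit 535) (nat_lit 389) (nat_lit 276))) (XT.nd (nat_lit 78) (nat_lit 0) (nat_lit 0) (XT.lf (nat_lit 0) (nat_lit 1380810930) (nat_lit 76) (nat_lit 33571881454) (nat_lit 76) (nat_lit 13354565602) (nat_lit 35) (nat_lit 4) (nat_lit 36) (nat_lit 5) (nat_lit 36) (nat_lit 4) (nat_lit 536) (nat_lit 389) (nat_lit 275)) (XT.lf (nat_lit 0) (nat_lit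 24696594920) (nat_lit 76) (nat_lit 22472093345) (nat_lit 76) (nat_lit 2233799373) (nat_lit 35) (nat_lit 4) (nat_lit 36) (nat_lit 5) (nat_lit 36) (nat_lit 4) (nat_lit 537) (nat_lit 389) (nat_lit 274)))) (XT.nd (nat_lit 156) (nat_lit 76) (nat_lit 0) (XT.nd (nat_lit 78) (nat_lit 76) (nat_lit 0) (XT.lf (nat_lit 0) (nat_lit 9018633086) (nat_lit 152) (nat_lit 1950835915) (nat_lit 76) (nat_lit 39559107277) (nat_lit 34) (nat_lit 5) (nat_lit 36) (nat_lit 5) (nat_lit 35) (nat_lit 4) (nat_lit 538) (nat_lit 389) (nat_lit 273)) (XT.lf (nat_lit 0) (nat_lit 20762918461) (nat_lit 152) (nat_lit 29843772990) (nat_lit 0) (nat_lit 1075117518) (nat_lit 33) (nat_lit 5) (nat_lit 35) (nat_lit 4) (nat_lit 33) (nat_lit 4) (nat_lit 539) (nat_lit 389) (nat_lit 272))) (XT.nd (nat_lit 78) (nat_lit 76) (nat_lit 0) (XT.lf (nat_lit 0) (nat_lit 32966670288) (nat_lit 152) (nat_lit 6639523867) (nat_lit 0) (nat_lit 13260230557) (nat_lit 33) (nat_lit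 5) (nat_lit 35) (nat_lit 4) (nat_lit 33) (nat_lit 4) (nat_lit 540) (nat_lit 389) (nat_lit 271)) (XT.lf (nat_lit 0) (nat_lit 17562554810) (nat_lit 76) (nat_lit 28122058795) (nat_lit 76) (nat_lit 8397523153) (nat_lit 32) (nat_lit 4) (nat_lit 33) (nat_lit 5) (nat_lit 33) (nat_lit 4) (nat_lit 541) (nat_lit 389) (nat_lit 270)))))) (XT.nd (nat_lit 546) (nat_lit 152) (nat_lit 0) (XT.nd (nat_lit 234) (nat_lit 228) (nat_lit 0) (XT.nd (nat_lit 78) (nat_lit 76) (nat_lit 0) (XT.lf (nat_lit 0) (nat_lit 3429434831) (nat_lit 152) (nat_lit 12780351780) (nat_lit 76) (nat_lit 39122129585) (nat_lit 31) (nat_lit 5) (nat_lit 33) (nat_lit 5) (nat_lit 32) (nat_lit 4) (nat_lit 542) (nat_lit 389) (nat_lit 269)) (XT.nd (nat_lit 78) (nat_lit 0) (nat_lit 0) (XT.lf (nat_lit 0) (nat_lit 11777918386) (nat_lit 76) (nat_lit 3757589005) (nat_lit 152) (nat_lit 41078394862) (nat_lit 30) (nat_lit 5) (nat_lit 31) (nat_lit 5) (nat_lit 32) (nat_lit 4)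 (nat_lit 543) (nat_lit 389) (nat_lit 268)) (XT.lf (nat_lit 0) (nat_lit 28202156112) (nat_lit 152) (nat_lit 20723844066) (nat_lit 0) (nat_lit 9002426072) (nat_lit 30) (nat_lit 5) (nat_lit 32) (nat_lit 4) (nat_lit 30) (nat_lit 4) (nat_lit 544) (nat_lit 389) (nat_lit 267)))) (XT.nd (nat_lit 156) (nat_lit 152) (nat_lit 0) (XT.nd (nat_lit 78) (nat_lit 0) (nat_lit 0) (XT.lf (nat_lit 0) (nat_lit 4116093774) (nat_lit 76) (nat_lit 37189957347) (nat_lit 76) (nat_lit 17974617614) (nat_lit 29) (nat_lit 4) (nat_lit 30) (nat_lit 5) (nat_lit 30) (nat_lit 4) (nat_lit 545) (nat_lit 389) (nat_lit 266)) (XT.lf (nat_lit 0) (nat_lit 30087745356) (nat_lit 76) (nat_lit 24905264832) (nat_lit 76) (nat_lit 5674770059) (nat_lit 29) (nat_lit 4) (nat_lit 30) (nat_lit 5) (nat_lit 30) (nat_lit 4) (nat_lit 546) (nat_lit 389) (nat_lit 265))) (XT.nd (nat_lit 78) (nat_lit 76) (nat_lit 0) (XT.lf (nat_lit 0) (nat_lit 6838647287) (nat_lit 152) (nat_lit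 5362754412) (nat_lit 76) (nat_lit 49893655006) (nat_lit 28) (nat_lit 5) (nat_lit 30) (nat_lit 5) (nat_lit 29) (nat_lit 4) (nat_lit 547) (nat_lit 389) (nat_lit 264)) (XT.lf (nat_lit 0) (nat_lit 19807044022) (nat_lit 152) (nat_lit 42642106330) (nat_lit 0) (nat_lit 1108506658) (nat_lit 27) (nat_lit 5) (nat_lit 29) (nat_lit 4) (nat_lit 27) (nat_lit 4) (nat_lit 548) (nat_lit 389) (nat_lit 263))))) (XT.nd (nat_lit 52416) (nat_lit 0) (nat_lit 22724) (XT.nd (nat_lit 156) (nat_lit 76) (nat_lit 0) (XT.nd (nat_lit 78) (nat_lit 76) (nat_lit 0) (XT.lf (nat_lit 0) (nat_lit 33321610320) (nat_lit 152) (nat_lit 17128203725) (nat_lit 0) (nat_lit 14609607899) (nat_lit 27) (nat_lit 5) (nat_lit 29) (nat_lit 4) (nat_lit 27) (nat_lit 4) (nat_lit 549) (nat_lit 389) (nat_lit 262)) (XT.lf (nat_lit 0) (nat_lit 9297111819) (nat_lit 76) (nat_lit 38016028817) (nat_lit 76) (nat_lit 19290953524) (nat_lit 26) (nat_lit 4) (nat_lit 27) (nat_lit 5)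 (nat_lit 27) (nat_lit 4) (nat_lit 550) (nat_lit 389) (nat_lit 261))) (XT.nd (nat_lit 78) (nat_lit 76) (nat_lit 0) (XT.lf (nat_lit 0) (nat_lit 36831221236) (nat_lit 76) (nat_lit 25048496905) (nat_lit 76) (nat_lit 6310729504) (nat_lit 26) (nat_lit 4) (nat_lit 27) (nat_lit 5) (nat_lit 27) (nat_lit 4) (nat_lit 551) (nat_lit 389) (nat_lit 260)) (XT.lf (nat_lit 0) (nat_lit 6903841129) (nat_lit 152) (nat_lit 4735292341) (nat_lit 76) (nat_lit 58183742227) (nat_lit 25) (nat_lit 5) (nat_lit 27) (nat_lit 5) (nat_lit 26) (nat_lit 4) (nat_lit 552) (nat_lit 389) (nat_lit 259)))) (XT.nd (nat_lit 156) (nat_lit 2128) (nat_lit 0) (XT.nd (nat_lit 78) (nat_lit 0) (nat_lit 0) (XT.lf (nat_lit 0) (nat_lit 40210358) (nat_lit 988) (nat_lit 3353952309) (nat_lit 0) (nat_lit 40210358) (nat_lit 352) (nat_lit 5) (nat_lit 365) (nat_lit 4) (nat_lit 352) (nat_lit 4) (nat_lit 420) (nat_lit 390) (nat_lit 390)) (XT.lf (nat_lit 0) (nat_lit 3472731638)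 (nat_lit 988) (nat_lit 1898250244) (nat_lit 0) (nat_lit 1541377301) (nat_lit 352) (nat_lit 5) (nat_lit 365) (nat_lit 4) (nat_lit 352) (nat_lit 4) (nat_lit 421) (nat_lit 390) (nat_lit 389))) (XT.nd (nat_lit 78) (nat_lit 1140) (nat_lit 0) (XT.lf (nat_lit 0) (nat_lit 3017759203) (nat_lit 988) (nat_lit 3874122889) (nat_lit 988) (nat_lit 67667254) (nat_lit 339) (nat_lit 4) (nat_lit 352) (nat_lit 5) (nat_lit 352) (nat_lit 4) (nat_lit 422) (nat_lit 390) (nat_lit 388)) (XT.lf (nat_lit 0) (nat_lit 1001254706) (nat_lit 1064) (nat_lit 2263866987) (nat_lit 1140) (nat_lit 3744287338) (nat_lit 324) (nat_lit 5) (nat_lit 338) (nat_lit 5) (nat_lit 339) (nat_lit 4) (nat_lit 423) (nat_lit 390) (nat_lit 387))))))))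
noncomputable def xc73 : XT := (XT.nd (nat_lit 2340) (nat_lit 5472) (nat_lit 0) (XT.nd (nat_lit 1170) (nat_lit 4484) (nat_lit 0) (XT.nd (nat_lit 546) (nat_lit 3344) (nat_lit 0) (XT.nd (nat_lit 234) (nat_lit 2128) (nat_lit 0) (XT.nd (nat_lit 78) (nat_lit 2432) (nat_lit 0) (XT.lf (nat_lit 0) (nat_lit 6075731265) (nat_lit 1064) (nat_lit 559803911) (nat_lit 1140) (nat_lit 427058184) (nat_lit 324) (nat_lit 5) (nat_lit 338) (nat_lit 5) (nat_lit 339) (nat_lit 4) (nat_lit 424) (nat_lit 390) (nat_lit 386)) (XT.nd (nat_lit 78) (nat_lit 1216) (nat_lit 0) (XT.lf (nat_lit 0) (nat_lit 2884501450) (nat_lit 1216) (nat_lit 2989499392) (nat_lit 76) (nat_lit 1243933513) (nat_lit 308) (nat_lit 5) (nat_lit 324) (nat_lit 5) (nat_lit 309) (nat_lit 4) (nat_lit 425) (nat_lit 390) (nat_lit 385)) (XT.lf (nat_lit 0) (nat_lit 2177263444) (nat_lit 1216) (nat_lit 4049228985) (nat_lit 1292) (nat_lit 950143633) (nat_lit 292) (nat_lit 5) (nat_lit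 308) (nat_lit 5) (nat_lit 309) (nat_lit 4) (nat_lit 426) (nat_lit 390) (nat_lit 384)))) (XT.nd (nat_lit 156) (nat_lit 1292) (nat_lit 0) (XT.nd (nat_lit 78) (nat_lit 0) (nat_lit 0) (XT.lf (nat_lit 0) (nat_lit 205350743) (nat_lit 760) (nat_lit 2115366876) (nat_lit 836) (nat_lit 4917600638) (nat_lit 281) (nat_lit 5) (nat_lit 291) (nat_lit 5) (nat_lit 292) (nat_lit 5) (nat_lit 427) (nat_lit 390) (nat_lit 383)) (XT.lf (nat_lit 0) (nat_lit 5560974195) (nat_lit 760) (nat_lit 65938729) (nat_lit 836) (nat_lit 1675982515) (nat_lit 281) (nat_lit 5) (nat_lit 291) (nat_lit 5) (nat_lit 292) (nat_lit 5) (nat_lit 428) (nat_lit 390) (nat_lit 382))) (XT.nd (nat_lit 78) (nat_lit 608) (nat_lit 0) (XT.lf (nat_lit 0) (nat_lit 1593530334) (nat_lit 684) (nat_lit 3724482173) (nat_lit 76) (nat_lit 2052040021) (nat_lit 272) (nat_lit 5) (nat_lit 281) (nat_lit 5) (nat_lit 273) (nat_lit 5) (nat_lit 429) (nat_lit 390) (nat_lit 381)) (XT.lf (nat_lit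 0) (nat_lit 1708775867) (nat_lit 608) (nat_lit 3162952701) (nat_lit 684) (nat_lit 2568683926) (nat_lit 264) (nat_lit 5) (nat_lit 272) (nat_lit 5) (nat_lit 273) (nat_lit 5) (nat_lit 430) (nat_lit 390) (nat_lit 380))))) (XT.nd (nat_lit 312) (nat_lit 1596) (nat_lit 0) (XT.nd (nat_lit 156) (nat_lit 1140) (nat_lit 0) (XT.nd (nat_lit 78) (nat_lit 532) (nat_lit 0) (XT.lf (nat_lit 0) (nat_lit 669267607) (nat_lit 684) (nat_lit 237492740) (nat_lit 76) (nat_lit 6607477708) (nat_lit 263) (nat_lit 5) (nat_lit 272) (nat_lit 5) (nat_lit 264) (nat_lit 5) (nat_lit 431) (nat_lit 390) (nat_lit 379)) (XT.lf (nat_lit 0) (nat_lit 3931839180) (nat_lit 608) (nat_lit 2200144384) (nat_lit 76) (nat_lit 1458171871) (nat_lit 256) (nat_lit 5) (nat_lit 264) (nat_lit 5) (nat_lit 257) (nat_lit 5) (nat_lit 432) (nat_lit 390) (nat_lit 378))) (XT.nd (nat_lit 78) (nat_lit 608) (nat_lit 0) (XT.lf (nat_lit 0) (nat_lit 3483602071) (nat_lit 532) (nat_lit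 3767950106) (nat_lit 608) (nat_lit 418033157) (nat_lit 249) (nat_lit 5) (nat_lit 256) (nat_lit 5) (nat_lit 257) (nat_lit 5) (nat_lit 433) (nat_lit 390) (nat_lit 377)) (XT.lf (nat_lit 0) (nat_lit 1534854877) (nat_lit 532) (nat_lit 1279916999) (nat_lit 608) (nat_lit 4937228051) (nat_lit 241) (nat_lit 5) (nat_lit 248) (nat_lit 5) (nat_lit 249) (nat_lit 5) (nat_lit 434) (nat_lit 390) (nat_lit 376)))) (XT.nd (nat_lit 156) (nat_lit 988) (nat_lit 0) (XT.nd (nat_lit 78) (nat_lit 608) (nat_lit 0) (XT.lf (nat_lit 0) (nat_lit 6107659013) (nat_lit 608) (nat_lit 439823355) (nat_lit 76) (nat_lit 1290147250) (nat_lit 241) (nat_lit 5) (nat_lit 249) (nat_lit 5) (nat_lit 242) (nat_lit 5) (nat_lit 435) (nat_lit 390) (nat_lit 375)) (XT.lf (nat_lit 0) (nat_lit 1527168422) (nat_lit 608) (nat_lit 2433164892) (nat_lit 76) (nat_lit 3965521213) (nat_lit 233) (nat_lit 5) (nat_lit 241) (nat_lit 5) (nat_lit 234) (nat_lit 5) (nat_lit 436) (nat_lit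 390) (nat_lit 374))) (XT.nd (nat_lit 78) (nat_lit 532) (nat_lit 0) (XT.lf (nat_lit 0) (nat_lit 3549518998) (nat_lit 456) (nat_lit 1255884586) (nat_lit 532) (nat_lit 3212074991) (nat_lit 227) (nat_lit 5) (nat_lit 233) (nat_lit 5) (nat_lit 234) (nat_lit 5) (nat_lit 437) (nat_lit 390) (nat_lit 373)) (XT.lf (nat_lit 0) (nat_lit 43870458) (nat_lit 532) (nat_lit 6546379408) (nat_lit 76) (nat_lit 1522338320) (nat_lit 220) (nat_lit 5) (nat_lit 227) (nat_lit 5) (nat_lit 221) (nat_lit 5) (nat_lit 438) (nat_lit 390) (nat_lit 372)))))) (XT.nd (nat_lit 546) (nat_lit 2204) (nat_lit 0) (XT.nd (nat_lit 234) (nat_lit 1292) (nat_lit 0) (XT.nd (nat_lit 78) (nat_lit 988) (nat_lit 0) (XT.lf (nat_lit 0) (nat_lit 3312295139) (nat_lit 532) (nat_lit 480909026) (nat_lit 76) (nat_lit 4417021932) (nat_lit 220) (nat_lit 5) (nat_lit 227) (nat_lit 5) (nat_lit 221) (nat_lit 5) (nat_lit 439) (nat_lit 390) (nat_lit 371)) (XT.nd (nat_lit 78) (nat_lit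 532) (nat_lit 0) (XT.lf (nat_lit 0) (nat_lit 5782252689) (nat_lit 456) (nat_lit 875754415) (nat_lit 532) (nat_lit 1653418624) (nat_lit 214) (nat_lit 5) (nat_lit 220) (nat_lit 5) (nat_lit 221) (nat_lit 5) (nat_lit 440) (nat_lit 390) (nat_lit 370)) (XT.lf (nat_lit 0) (nat_lit 1641821002) (nat_lit 532) (nat_lit 4649432561) (nat_lit 76) (nat_lit 2124339766) (nat_lit 207) (nat_lit 5) (nat_lit 214) (nat_lit 5) (nat_lit 208) (nat_lit 5) (nat_lit 441) (nat_lit 390) (nat_lit 369)))) (XT.nd (nat_lit 156) (nat_lit 912) (nat_lit 0) (XT.nd (nat_lit 78) (nat_lit 0) (nat_lit 0) (XT.lf (nat_lit 0) (nat_lit 1689000079) (nat_lit 380) (nat_lit 3289648791) (nat_lit 456) (nat_lit 3544475881) (nat_lit 202) (nat_lit 5) (nat_lit 207) (nat_lit 5) (nat_lit 208) (nat_lit 5) (nat_lit 442) (nat_lit 390) (nat_lit 368)) (XT.lf (nat_lit 0) (nat_lit 8215117991) (nat_lit 380) (nat_lit 173914660) (nat_lit 456) (nat_lit 245654478) (nat_lit 202) (nat_lit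 5) (nat_lit 207) (nat_lit 5) (nat_lit 208) (nat_lit 5) (nat_lit 443) (nat_lit 390) (nat_lit 367))) (XT.nd (nat_lit 78) (nat_lit 380) (nat_lit 0) (XT.lf (nat_lit 0) (nat_lit 3107800103) (nat_lit 532) (nat_lit 2597534280) (nat_lit 76) (nat_lit 3042845704) (nat_lit 195) (nat_lit 5) (nat_lit 202) (nat_lit 5) (nat_lit 196) (nat_lit 5) (nat_lit 444) (nat_lit 390) (nat_lit 366)) (XT.lf (nat_lit 0) (nat_lit 4038909812) (nat_lit 380) (nat_lit 2491709362) (nat_lit 456) (nat_lit 2335182565) (nat_lit 190) (nat_lit 5) (nat_lit 195) (nat_lit 5) (nat_lit 196) (nat_lit 5) (nat_lit 445) (nat_lit 390) (nat_lit 365))))) (XT.nd (nat_lit 312) (nat_lit 988) (nat_lit 0) (XT.nd (nat_lit 156) (nat_lit 760) (nat_lit 0) (XT.nd (nat_lit 78) (nat_lit 0) (nat_lit 0) (XT.lf (nat_lit 0) (nat_lit 1030235450) (nat_lit 456) (nat_lit 7125894093) (nat_lit 76) (nat_lit 831063702) (nat_lit 184) (nat_lit 5) (nat_lit 190) (nat_lit 5) (nat_lit 185) (nat_lit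 5) (nat_lit 446) (nat_lit 390) (nat_lit 364)) (XT.lf (nat_lit 0) (nat_lit 4453760108) (nat_lit 456) (nat_lit 408613172) (nat_lit 76) (nat_lit 4249044387) (nat_lit 184) (nat_lit 5) (nat_lit 190) (nat_lit 5) (nat_lit 185) (nat_lit 5) (nat_lit 447) (nat_lit 390) (nat_lit 363))) (XT.nd (nat_lit 78) (nat_lit 456) (nat_lit 0) (XT.lf (nat_lit 0) (nat_lit 6542061028) (nat_lit 304) (nat_lit 1433033079) (nat_lit 380) (nat_lit 1264428552) (nat_lit 180) (nat_lit 5) (nat_lit 184) (nat_lit 5) (nat_lit 185) (nat_lit 5) (nat_lit 448) (nat_lit 390) (nat_lit 362)) (XT.lf (nat_lit 0) (nat_lit 2185793560) (nat_lit 456) (nat_lit 5087447038) (nat_lit 76) (nat_lit 2097631800) (nat_lit 174) (nat_lit 5) (nat_lit 180) (nat_lit 5) (nat_lit 175) (nat_lit 5) (nat_lit 449) (nat_lit 390) (nat_lit 361)))) (XT.nd (nat_lit 156) (nat_lit 684) (nat_lit 0) (XT.nd (nat_lit 78) (nat_lit 0) (nat_lit 0) (XT.lf (nat_lit 0) (nat_lit 1937551649) (nat_lit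 304) (nat_lit 3770260953) (nat_lit 380) (nat_lit 3798169692) (nat_lit 170) (nat_lit 5) (nat_lit 174) (nat_lit 5) (nat_lit 175) (nat_lit 5) (nat_lit 450) (nat_lit 390) (nat_lit 360)) (XT.lf (nat_lit 0) (nat_lit 9181570097) (nat_lit 304) (nat_lit 139694595) (nat_lit 380) (nat_lit 324313795) (nat_lit 170) (nat_lit 5) (nat_lit 174) (nat_lit 5) (nat_lit 175) (nat_lit 5) (nat_lit 451) (nat_lit 390) (nat_lit 359))) (XT.nd (nat_lit 78) (nat_lit 304) (nat_lit 0) (XT.lf (nat_lit 0) (nat_lit 3227173146) (nat_lit 380) (nat_lit 2961999302) (nat_lit 76) (nat_lit 3598150385) (nat_lit 165) (nat_lit 5) (nat_lit 170) (nat_lit 5) (nat_lit 166) (nat_lit 5) (nat_lit 452) (nat_lit 390) (nat_lit 358)) (XT.lf (nat_lit 0) (nat_lit 4395605349) (nat_lit 304) (nat_lit 2467806216) (nat_lit 380) (nat_lit 3070275506) (nat_lit 161) (nat_lit 5) (nat_lit 165) (nat_lit 5) (nat_lit 166) (nat_lit 5) (nat_lit 453) (nat_lit 390) (nat_lit 357))))))) (XT.nd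 (nat_lit 1170) (nat_lit 2280) (nat_lit 0) (XT.nd (nat_lit 546) (nat_lit 1520) (nat_lit 0) (XT.nd (nat_lit 234) (nat_lit 988) (nat_lit 0) (XT.nd (nat_lit 78) (nat_lit 304) (nat_lit 0) (XT.lf (nat_lit 0) (nat_lit 512430714) (nat_lit 380) (nat_lit 8211017557) (nat_lit 76) (nat_lit 1360897094) (nat_lit 156) (nat_lit 5) (nat_lit 161) (nat_lit 5) (nat_lit 157) (nat_lit 5) (nat_lit 454) (nat_lit 390) (nat_lit 356)) (XT.nd (nat_lit 78) (nat_lit 304) (nat_lit 0) (XT.lf (nat_lit 0) (nat_lit 4159123647) (nat_lit 380) (nat_lit 768786295) (nat_lit 76) (nat_lit 5310160221) (nat_lit 156) (nat_lit 5) (nat_lit 161) (nat_lit 5) (nat_lit 157) (nat_lit 5) (nat_lit 455) (nat_lit 390) (nat_lit 355)) (XT.lf (nat_lit 0) (nat_lit 6938753451) (nat_lit 304) (nat_lit 982293393) (nat_lit 380) (nat_lit 2475189997) (nat_lit 152) (nat_lit 5) (nat_lit 156) (nat_lit 5) (nat_lit 157) (nat_lit 5) (nat_lit 456) (nat_lit 390) (nat_lit 354)))) (XT.nd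 (nat_lit 156) (nat_lit 380) (nat_lit 0) (XT.nd (nat_lit 78) (nat_lit 228) (nat_lit 0) (XT.lf (nat_lit 0) (nat_lit 1231172088) (nat_lit 380) (nat_lit 6276141090) (nat_lit 76) (nat_lit 3050924694) (nat_lit 147) (nat_lit 5) (nat_lit 152) (nat_lit 5) (nat_lit 148) (nat_lit 5) (nat_lit 457) (nat_lit 390) (nat_lit 353)) (XT.lf (nat_lit 0) (nat_lit 1501189246) (nat_lit 228) (nat_lit 3497173678) (nat_lit 304) (nat_lit 5726023794) (nat_lit 144) (nat_lit 5) (nat_lit 147) (nat_lit 5) (nat_lit 148) (nat_lit 5) (nat_lit 458) (nat_lit 390) (nat_lit 352))) (XT.nd (nat_lit 78) (nat_lit 380) (nat_lit 0) (XT.lf (nat_lit 0) (nat_lit 8889156051) (nat_lit 304) (nat_lit 1354581592) (nat_lit 76) (nat_lit 651469250) (nat_lit 144) (nat_lit 5) (nat_lit 148) (nat_lit 5) (nat_lit 145) (nat_lit 5) (nat_lit 459) (nat_lit 390) (nat_lit 351)) (XT.lf (nat_lit 0) (nat_lit 1832098051) (nat_lit 380) (nat_lit 4332559186) (nat_lit 76) (nat_lit 4904706221)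 (nat_lit 139) (nat_lit 5) (nat_lit 144) (nat_lit 5) (nat_lit 140) (nat_lit 5) (nat_lit 460) (nat_lit 390) (nat_lit 350))))) (XT.nd (nat_lit 312) (nat_lit 760) (nat_lit 0) (XT.nd (nat_lit 156) (nat_lit 304) (nat_lit 0) (XT.nd (nat_lit 78) (nat_lit 228) (nat_lit 0) (XT.lf (nat_lit 0) (nat_lit 3812533844) (nat_lit 228) (nat_lit 1925467542) (nat_lit 304) (nat_lit 5510363671) (nat_lit 136) (nat_lit 5) (nat_lit 139) (nat_lit 5) (nat_lit 140) (nat_lit 5) (nat_lit 461) (nat_lit 390) (nat_lit 349)) (XT.lf (nat_lit 0) (nat_lit 757555411) (nat_lit 228) (nat_lit 9021387902) (nat_lit 304) (nat_lit 1653261508) (nat_lit 133) (nat_lit 5) (nat_lit 136) (nat_lit 5) (nat_lit 137) (nat_lit 5) (nat_lit 462) (nat_lit 390) (nat_lit 348))) (XT.nd (nat_lit 78) (nat_lit 228) (nat_lit 0) (XT.lf (nat_lit 0) (nat_lit 2312336877) (nat_lit 304) (nat_lit 2405166374) (nat_lit 76) (nat_lit 6902249974) (nat_lit 132) (nat_lit 5) (nat_lit 136) (nat_lit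 5) (nat_lit 133) (nat_lit 5) (nat_lit 463) (nat_lit 390) (nat_lit 347)) (XT.lf (nat_lit 0) (nat_lit 6125340602) (nat_lit 228) (nat_lit 242021220) (nat_lit 304) (nat_lit 5444968191) (nat_lit 129) (nat_lit 5) (nat_lit 132) (nat_lit 5) (nat_lit 133) (nat_lit 5) (nat_lit 464) (nat_lit 390) (nat_lit 346)))) (XT.nd (nat_lit 156) (nat_lit 456) (nat_lit 0) (XT.nd (nat_lit 78) (nat_lit 76) (nat_lit 0) (XT.lf (nat_lit 0) (nat_lit 2874337785) (nat_lit 228) (nat_lit 7709063247) (nat_lit 304) (nat_lit 1426105686) (nat_lit 126) (nat_lit 5) (nat_lit 129) (nat_lit 5) (nat_lit 130) (nat_lit 5) (nat_lit 465) (nat_lit 390) (nat_lit 345)) (XT.lf (nat_lit 0) (nat_lit 2666183063) (nat_lit 304) (nat_lit 521677476) (nat_lit 76) (nat_lit 9023784829) (nat_lit 125) (nat_lit 5) (nat_lit 129) (nat_lit 5) (nat_lit 126) (nat_lit 5) (nat_lit 466) (nat_lit 390) (nat_lit 344))) (XT.nd (nat_lit 78) (nat_lit 228) (nat_lit 0) (XT.lf (nat_lit 0) (nat_lit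 6895166455) (nat_lit 304) (nat_lit 4021257599) (nat_lit 76) (nat_lit 1501726071) (nat_lit 122) (nat_lit 5) (nat_lit 126) (nat_lit 5) (nat_lit 123) (nat_lit 5) (nat_lit 467) (nat_lit 390) (nat_lit 343)) (XT.lf (nat_lit 0) (nat_lit 4939226645) (nat_lit 228) (nat_lit 6343526606) (nat_lit 304) (nat_lit 1347147885) (nat_lit 119) (nat_lit 5) (nat_lit 122) (nat_lit 5) (nat_lit 123) (nat_lit 5) (nat_lit 468) (nat_lit 390) (nat_lit 342)))))) (XT.nd (nat_lit 624) (nat_lit 988) (nat_lit 0) (XT.nd (nat_lit 312) (nat_lit 608) (nat_lit 0) (XT.nd (nat_lit 156) (nat_lit 456) (nat_lit 0) (XT.nd (nat_lit 78) (nat_lit 0) (nat_lit 0) (XT.lf (nat_lit 0) (nat_lit 1312239453) (nat_lit 152) (nat_lit 1585248632) (nat_lit 228) (nat_lit 9949632654) (nat_lit 116) (nat_lit 5) (nat_lit 118) (nat_lit 5) (nat_lit 119) (nat_lit 5) (nat_lit 469) (nat_lit 390) (nat_lit 341)) (XT.lf (nat_lit 0) (nat_lit 7300570549) (nat_lit 228) (nat_lit 2460694831)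 (nat_lit 76) (nat_lit 3307448758) (nat_lit 116) (nat_lit 5) (nat_lit 119) (nat_lit 5) (nat_lit 117) (nat_lit 5) (nat_lit 470) (nat_lit 390) (nat_lit 340))) (XT.nd (nat_lit 78) (nat_lit 228) (nat_lit 0) (XT.lf (nat_lit 0) (nat_lit 6918542393) (nat_lit 228) (nat_lit 4948802738) (nat_lit 304) (nat_lit 1428664997) (nat_lit 113) (nat_lit 5) (nat_lit 116) (nat_lit 5) (nat_lit 117) (nat_lit 5) (nat_lit 471) (nat_lit 390) (nat_lit 339)) (XT.lf (nat_lit 0) (nat_lit 2986116303) (nat_lit 228) (nat_lit 10486203687) (nat_lit 76) (nat_lit 56796893) (nat_lit 110) (nat_lit 5) (nat_lit 113) (nat_lit 5) (nat_lit 111) (nat_lit 5) (nat_lit 472) (nat_lit 390) (nat_lit 338)))) (XT.nd (nat_lit 156) (nat_lit 380) (nat_lit 0) (XT.nd (nat_lit 78) (nat_lit 228) (nat_lit 0) (XT.lf (nat_lit 0) (nat_lit 7568512825) (nat_lit 228) (nat_lit 1041373251) (nat_lit 76) (nat_lit 5156992358) (nat_lit 110) (nat_lit 5) (nat_lit 113) (nat_lit 5) (nat_lit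 111) (nat_lit 5) (nat_lit 473) (nat_lit 390) (nat_lit 337)) (XT.lf (nat_lit 0) (nat_lit 8773593964) (nat_lit 228) (nat_lit 3550436030) (nat_lit 304) (nat_lit 1686675844) (nat_lit 107) (nat_lit 5) (nat_lit 110) (nat_lit 5) (nat_lit 111) (nat_lit 5) (nat_lit 474) (nat_lit 390) (nat_lit 336))) (XT.nd (nat_lit 78) (nat_lit 152) (nat_lit 0) (XT.lf (nat_lit 0) (nat_lit 2925519137) (nat_lit 228) (nat_lit 9657387198) (nat_lit 76) (nat_lit 1677402693) (nat_lit 104) (nat_lit 5) (nat_lit 107) (nat_lit 5) (nat_lit 105) (nat_lit 5) (nat_lit 475) (nat_lit 390) (nat_lit 335)) (XT.lf (nat_lit 0) (nat_lit 196332154) (nat_lit 152) (nat_lit 7488008845) (nat_lit 228) (nat_lit 6831295736) (nat_lit 102) (nat_lit 5) (nat_lit 104) (nat_lit 5) (nat_lit 105) (nat_lit 5) (nat_lit 476) (nat_lit 390) (nat_lit 334))))) (XT.nd (nat_lit 312) (nat_lit 608) (nat_lit 0) (XT.nd (nat_lit 156) (nat_lit 152) (nat_lit 0) (XT.nd (nat_lit 78) (nat_lit 228)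 (nat_lit 0) (XT.lf (nat_lit 0) (nat_lit 10459640419) (nat_lit 152) (nat_lit 2176120100) (nat_lit 228) (nat_lit 2141370959) (nat_lit 102) (nat_lit 5) (nat_lit 104) (nat_lit 5) (nat_lit 105) (nat_lit 5) (nat_lit 477) (nat_lit 390) (nat_lit 333)) (XT.lf (nat_lit 0) (nat_lit 2679781464) (nat_lit 228) (nat_lit 9084534839) (nat_lit 76) (nat_lit 3280091099) (nat_lit 99) (nat_lit 5) (nat_lit 102) (nat_lit 5) (nat_lit 100) (nat_lit 5) (nat_lit 478) (nat_lit 390) (nat_lit 332))) (XT.nd (nat_lit 78) (nat_lit 0) (nat_lit 0) (XT.lf (nat_lit 0) (nat_lit 1213453732) (nat_lit 152) (nat_lit 6419791928) (nat_lit 228) (nat_lit 7684900401) (nat_lit 97) (nat_lit 5) (nat_lit 99) (nat_lit 5) (nat_lit 100) (nat_lit 5) (nat_lit 479) (nat_lit 390) (nat_lit 331)) (XT.lf (nat_lit 0) (nat_lit 11924703148) (nat_lit 152) (nat_lit 856390948) (nat_lit 228) (nat_lit 2817631324) (nat_lit 97) (nat_lit 5) (nat_lit 99) (nat_lit 5) (nat_lit 100) (nat_lit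 5) (nat_lit 480) (nat_lit 390) (nat_lit 330)))) (XT.nd (nat_lit 156) (nat_lit 228) (nat_lit 0) (XT.nd (nat_lit 78) (nat_lit 152) (nat_lit 0) (XT.lf (nat_lit 0) (nat_lit 2223460593) (nat_lit 228) (nat_lit 8827066042) (nat_lit 76) (nat_lit 4834444685) (nat_lit 94) (nat_lit 5) (nat_lit 97) (nat_lit 5) (nat_lit 95) (nat_lit 5) (nat_lit 481) (nat_lit 390) (nat_lit 329)) (XT.lf (nat_lit 0) (nat_lit 1928677323) (nat_lit 152) (nat_lit 5450111554) (nat_lit 228) (nat_lit 8799591526) (nat_lit 92) (nat_lit 5) (nat_lit 94) (nat_lit 5) (nat_lit 95) (nat_lit 5) (nat_lit 482) (nat_lit 390) (nat_lit 328))) (XT.nd (nat_lit 78) (nat_lit 228) (nat_lit 0) (XT.lf (nat_lit 0) (nat_lit 12737201595) (nat_lit 228) (nat_lit 3374647282) (nat_lit 76) (nat_lit 367291877) (nat_lit 92) (nat_lit 5) (nat_lit 95) (nat_lit 5) (nat_lit 93) (nat_lit 4) (nat_lit 483) (nat_lit 390) (nat_lit 327)) (XT.lf (nat_lit 0) (nat_lit 1525699763) (nat_lit 228) (nat_lit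 8953945546) (nat_lit 76) (nat_lit 6306250298) (nat_lit 89) (nat_lit 5) (nat_lit 92) (nat_lit 5) (nat_lit 90) (nat_lit 5) (nat_lit 484) (nat_lit 390) (nat_lit 326))))))))
noncomputable def xc74 : XT := (XT.nd (nat_lit 2340) (nat_lit 1748) (nat_lit 0) (XT.nd (nat_lit 1170) (nat_lit 1216) (nat_lit 0) (XT.nd (nat_lit 546) (nat_lit 684) (nat_lit 0) (XT.nd (nat_lit 234) (nat_lit 456) (nat_lit 0) (XT.nd (nat_lit 78) (nat_lit 228) (nat_lit 0) (XT.lf (nat_lit 0) (nat_lit 2271464130) (nat_lit 152) (nat_lit 4617680668) (nat_lit 228) (nat_lit 10211208840) (nat_lit 87) (nat_lit 5) (nat_lit 89) (nat_lit 5) (nat_lit 90) (nat_lit 5) (nat_lit 485) (nat_lit 390) (nat_lit 325)) (XT.nd (nat_lit 78) (nat_lit 228) (nat_lit 0) (XT.lf (nat_lit 0) (nat_lit 12475369183) (nat_lit 228) (nat_lit 3497638655) (nat_lit 76) (nat_lit 1449382828) (nat_lit 87) (nat_lit 5) (nat_lit 90) (nat_lit 5) (nat_lit 88) (nat_lit 4) (nat_lit 486) (nat_lit 390)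 (nat_lit 324)) (XT.lf (nat_lit 0) (nat_lit 549461205) (nat_lit 228) (nat_lit 9545373131) (nat_lit 76) (nat_lit 7656609701) (nat_lit 84) (nat_lit 5) (nat_lit 87) (nat_lit 5) (nat_lit 85) (nat_lit 5) (nat_lit 487) (nat_lit 390) (nat_lit 323)))) (XT.nd (nat_lit 156) (nat_lit 304) (nat_lit 0) (XT.nd (nat_lit 78) (nat_lit 0) (nat_lit 0) (XT.lf (nat_lit 0) (nat_lit 2159559297) (nat_lit 152) (nat_lit 3966524038) (nat_lit 228) (nat_lit 11962377415) (nat_lit 82) (nat_lit 5) (nat_lit 84) (nat_lit 5) (nat_lit 85) (nat_lit 5) (nat_lit 488) (nat_lit 390) (nat_lit 322)) (XT.lf (nat_lit 0) (nat_lit 11948298766) (nat_lit 228) (nat_lit 4121576906) (nat_lit 76) (nat_lit 2363364819) (nat_lit 82) (nat_lit 5) (nat_lit 85) (nat_lit 5) (nat_lit 83) (nat_lit 4) (nat_lit 489) (nat_lit 390) (nat_lit 321))) (XT.nd (nat_lit 78) (nat_lit 228) (nat_lit 0) (XT.lf (nat_lit 0) (nat_lit 8083987148) (nat_lit 76) (nat_lit 9937788867) (nat_lit 152)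 (nat_lit 764291077) (nat_lit 81) (nat_lit 5) (nat_lit 82) (nat_lit 5) (nat_lit 83) (nat_lit 4) (nat_lit 490) (nat_lit 390) (nat_lit 320)) (XT.lf (nat_lit 0) (nat_lit 1496953062) (nat_lit 152) (nat_lit 3547067938) (nat_lit 228) (nat_lit 14103496726) (nat_lit 78) (nat_lit 5) (nat_lit 80) (nat_lit 5) (nat_lit 81) (nat_lit 5) (nat_lit 491) (nat_lit 390) (nat_lit 319))))) (XT.nd (nat_lit 312) (nat_lit 380) (nat_lit 0) (XT.nd (nat_lit 156) (nat_lit 228) (nat_lit 0) (XT.nd (nat_lit 78) (nat_lit 76) (nat_lit 0) (XT.lf (nat_lit 0) (nat_lit 11109363019) (nat_lit 228) (nat_lit 5347714423) (nat_lit 76) (nat_lit 3059564372) (nat_lit 78) (nat_lit 5) (nat_lit 81) (nat_lit 5) (nat_lit 79) (nat_lit 4) (nat_lit 492) (nat_lit 390) (nat_lit 318)) (XT.lf (nat_lit 0) (nat_lit 7360232570) (nat_lit 76) (nat_lit 10063297610) (nat_lit 152) (nat_lit 2471304677) (nat_lit 77) (nat_lit 5) (nat_lit 78) (nat_lit 5) (nat_lit 79) (nat_lit 4) (nat_lit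 493) (nat_lit 390) (nat_lit 317))) (XT.nd (nat_lit 78) (nat_lit 0) (nat_lit 0) (XT.lf (nat_lit 0) (nat_lit 171523944) (nat_lit 152) (nat_lit 3417383965) (nat_lit 228) (nat_lit 16693899133) (nat_lit 74) (nat_lit 5) (nat_lit 76) (nat_lit 5) (nat_lit 77) (nat_lit 5) (nat_lit 494) (nat_lit 390) (nat_lit 316)) (XT.lf (nat_lit 0) (nat_lit 9903215893) (nat_lit 228) (nat_lit 7294196288) (nat_lit 76) (nat_lit 3480614446) (nat_lit 74) (nat_lit 5) (nat_lit 77) (nat_lit 5) (nat_lit 75) (nat_lit 4) (nat_lit 495) (nat_lit 390) (nat_lit 315)))) (XT.nd (nat_lit 156) (nat_lit 228) (nat_lit 0) (XT.nd (nat_lit 78) (nat_lit 76) (nat_lit 0) (XT.lf (nat_lit 0) (nat_lit 5918492292) (nat_lit 76) (nat_lit 10541499673) (nat_lit 152) (nat_lit 4623520717) (nat_lit 73) (nat_lit 5) (nat_lit 74) (nat_lit 5) (nat_lit 75) (nat_lit 4) (nat_lit 496) (nat_lit 390) (nat_lit 314)) (XT.lf (nat_lit 0) (nat_lit 1715648377) (nat_lit 152) (nat_lit 1909681808)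 (nat_lit 76) (nat_lit 17874237719) (nat_lit 72) (nat_lit 5) (nat_lit 74) (nat_lit 5) (nat_lit 73) (nat_lit 5) (nat_lit 497) (nat_lit 390) (nat_lit 313))) (XT.nd (nat_lit 78) (nat_lit 76) (nat_lit 0) (XT.lf (nat_lit 0) (nat_lit 8264439480) (nat_lit 228) (nat_lit 10098899118) (nat_lit 76) (nat_lit 3560022566) (nat_lit 70) (nat_lit 5) (nat_lit 73) (nat_lit 5) (nat_lit 71) (nat_lit 4) (nat_lit 498) (nat_lit 390) (nat_lit 312)) (XT.lf (nat_lit 0) (nat_lit 3616294150) (nat_lit 76) (nat_lit 11447101067) (nat_lit 152) (nat_lit 7294862909) (nat_lit 69) (nat_lit 5) (nat_lit 70) (nat_lit 5) (nat_lit 71) (nat_lit 4) (nat_lit 499) (nat_lit 390) (nat_lit 311)))))) (XT.nd (nat_lit 546) (nat_lit 608) (nat_lit 0) (XT.nd (nat_lit 234) (nat_lit 304) (nat_lit 0) (XT.nd (nat_lit 78) (nat_lit 304) (nat_lit 0) (XT.lf (nat_lit 0) (nat_lit 17881959423) (nat_lit 76) (nat_lit 4250316233) (nat_lit 152) (nat_lit 671948564) (nat_lit 69) (nat_lit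 5) (nat_lit 70) (nat_lit 5) (nat_lit 71) (nat_lit 4) (nat_lit 500) (nat_lit 390) (nat_lit 310)) (XT.nd (nat_lit 78) (nat_lit 76) (nat_lit 0) (XT.lf (nat_lit 0) (nat_lit 6115964773) (nat_lit 228) (nat_lit 13922718555) (nat_lit 76) (nat_lit 3220523990) (nat_lit 66) (nat_lit 5) (nat_lit 69) (nat_lit 5) (nat_lit 67) (nat_lit 4) (nat_lit 501) (nat_lit 390) (nat_lit 309)) (XT.lf (nat_lit 0) (nat_lit 287113339) (nat_lit 76) (nat_lit 12866709593) (nat_lit 152) (nat_lit 10572023828) (nat_lit 65) (nat_lit 5) (nat_lit 66) (nat_lit 5) (nat_lit 67) (nat_lit 4) (nat_lit 502) (nat_lit 390) (nat_lit 308)))) (XT.nd (nat_lit 156) (nat_lit 76) (nat_lit 0) (XT.nd (nat_lit 78) (nat_lit 228) (nat_lit 0) (XT.lf (nat_lit 0) (nat_lit 15142477735) (nat_lit 76) (nat_lit 5366094585) (nat_lit 152) (nat_lit 3694741203) (nat_lit 65) (nat_lit 5) (nat_lit 66) (nat_lit 5) (nat_lit 67) (nat_lit 4) (nat_lit 503) (nat_lit 390) (nat_lit 307)) (XT.lf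 (nat_lit 0) (nat_lit 3367231119) (nat_lit 228) (nat_lit 18953378083) (nat_lit 76) (nat_lit 2372183569) (nat_lit 62) (nat_lit 5) (nat_lit 65) (nat_lit 5) (nat_lit 63) (nat_lit 4) (nat_lit 504) (nat_lit 390) (nat_lit 306))) (XT.nd (nat_lit 78) (nat_lit 76) (nat_lit 0) (XT.lf (nat_lit 0) (nat_lit 10678260331) (nat_lit 228) (nat_lit 4180420205) (nat_lit 76) (nat_lit 10333835396) (nat_lit 62) (nat_lit 5) (nat_lit 65) (nat_lit 5) (nat_lit 63) (nat_lit 4) (nat_lit 505) (nat_lit 390) (nat_lit 305)) (XT.lf (nat_lit 0) (nat_lit 11190993795) (nat_lit 76) (nat_lit 7092119873) (nat_lit 152) (nat_lit 7421883036) (nat_lit 61) (nat_lit 5) (nat_lit 62) (nat_lit 5) (nat_lit 63) (nat_lit 4) (nat_lit 506) (nat_lit 390) (nat_lit 304))))) (XT.nd (nat_lit 312) (nat_lit 304) (nat_lit 0) (XT.nd (nat_lit 156) (nat_lit 76) (nat_lit 0) (XT.nd (nat_lit 78) (nat_lit 76) (nat_lit 0) (XT.lf (nat_lit 0) (nat_lit 821359573) (nat_lit 152) (nat_lit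 25320998522) (nat_lit 152) (nat_lit 89707132) (nat_lit 59) (nat_lit 4) (nat_lit 61) (nat_lit 5) (nat_lit 61) (nat_lit 4) (nat_lit 507) (nat_lit 390) (nat_lit 303)) (XT.lf (nat_lit 0) (nat_lit 7502079398) (nat_lit 228) (nat_lit 10062870643) (nat_lit 76) (nat_lit 9202286484) (nat_lit 58) (nat_lit 5) (nat_lit 61) (nat_lit 5) (nat_lit 59) (nat_lit 4) (nat_lit 508) (nat_lit 390) (nat_lit 302))) (XT.nd (nat_lit 78) (nat_lit 0) (nat_lit 0) (XT.lf (nat_lit 0) (nat_lit 5796234230) (nat_lit 76) (nat_lit 9547290694) (nat_lit 152) (nat_lit 11974200773) (nat_lit 57) (nat_lit 5) (nat_lit 58) (nat_lit 5) (nat_lit 59) (nat_lit 4) (nat_lit 509) (nat_lit 390) (nat_lit 301)) (XT.lf (nat_lit 0) (nat_lit 22276610615) (nat_lit 76) (nat_lit 1213557966) (nat_lit 152) (nat_lit 4392462936) (nat_lit 57) (nat_lit 5) (nat_lit 58) (nat_lit 5) (nat_lit 59) (nat_lit 4) (nat_lit 510) (nat_lit 390) (nat_lit 300)))) (XT.nd (nat_lit 156) (nat_lit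 152) (nat_lit 0) (XT.nd (nat_lit 78) (nat_lit 0) (nat_lit 0) (XT.lf (nat_lit 0) (nat_lit 3495793817) (nat_lit 152) (nat_lit 17625939147) (nat_lit 76) (nat_lit 7337394635) (nat_lit 55) (nat_lit 5) (nat_lit 57) (nat_lit 5) (nat_lit 56) (nat_lit 4) (nat_lit 511) (nat_lit 390) (nat_lit 299)) (XT.lf (nat_lit 0) (nat_lit 11570620790) (nat_lit 152) (nat_lit 1286487379) (nat_lit 76) (nat_lit 16193360065) (nat_lit 55) (nat_lit 5) (nat_lit 57) (nat_lit 5) (nat_lit 56) (nat_lit 4) (nat_lit 512) (nat_lit 390) (nat_lit 298))) (XT.nd (nat_lit 78) (nat_lit 76) (nat_lit 0) (XT.lf (nat_lit 0) (nat_lit 15793378809) (nat_lit 76) (nat_lit 4216052618) (nat_lit 152) (nat_lit 9646466042) (nat_lit 54) (nat_lit 5) (nat_lit 55) (nat_lit 5) (nat_lit 56) (nat_lit 4) (nat_lit 513) (nat_lit 390) (nat_lit 297)) (XT.lf (nat_lit 0) (nat_lit 3090040206) (nat_lit 76) (nat_lit 25669198873) (nat_lit 76) (nat_lit 1518516053) (nat_lit 53) (nat_lit 4)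 (nat_lit 54) (nat_lit 5) (nat_lit 54) (nat_lit 4) (nat_lit 514) (nat_lit 390) (nat_lit 296))))))) (XT.nd (nat_lit 1170) (nat_lit 836) (nat_lit 0) (XT.nd (nat_lit 546) (nat_lit 532) (nat_lit 0) (XT.nd (nat_lit 234) (nat_lit 228) (nat_lit 0) (XT.nd (nat_lit 78) (nat_lit 76) (nat_lit 0) (XT.lf (nat_lit 0) (nat_lit 6872663315) (nat_lit 152) (nat_lit 10245774759) (nat_lit 76) (nat_lit 13793260928) (nat_lit 52) (nat_lit 5) (nat_lit 54) (nat_lit 5) (nat_lit 53) (nat_lit 4) (nat_lit 515) (nat_lit 390) (nat_lit 295)) (XT.nd (nat_lit 78) (nat_lit 0) (nat_lit 0) (XT.lf (nat_lit 0) (nat_lit 7274998060) (nat_lit 76) (nat_lit 8250874147) (nat_lit 152) (nat_lit 16037113979) (nat_lit 51) (nat_lit 5) (nat_lit 52) (nat_lit 5) (nat_lit 53) (nat_lit 4) (nat_lit 516) (nat_lit 390) (nat_lit 294)) (XT.lf (nat_lit 0) (nat_lit 24522584472) (nat_lit 152) (nat_lit 6765200131) (nat_lit 0) (nat_lit 943510640) (nat_lit 51) (nat_lit 5) (nat_lit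 53) (nat_lit 4) (nat_lit 51) (nat_lit 4) (nat_lit 517) (nat_lit 390) (nat_lit 293)))) (XT.nd (nat_lit 156) (nat_lit 76) (nat_lit 0) (XT.nd (nat_lit 78) (nat_lit 0) (nat_lit 0) (XT.lf (nat_lit 0) (nat_lit 1016943758) (nat_lit 152) (nat_lit 21556080139) (nat_lit 76) (nat_lit 10341448348) (nat_lit 49) (nat_lit 5) (nat_lit 51) (nat_lit 5) (nat_lit 50) (nat_lit 4) (nat_lit 518) (nat_lit 390) (nat_lit 292)) (XT.lf (nat_lit 0) (nat_lit 9890227735) (nat_lit 152) (nat_lit 3583509913) (nat_lit 76) (nat_lit 20140893704) (nat_lit 49) (nat_lit 5) (nat_lit 51) (nat_lit 5) (nat_lit 50) (nat_lit 4) (nat_lit 519) (nat_lit 390) (nat_lit 291))) (XT.nd (nat_lit 78) (nat_lit 0) (nat_lit 0) (XT.lf (nat_lit 0) (nat_lit 15171089099) (nat_lit 76) (nat_lit 3977081737) (nat_lit 152) (nat_lit 15184070998) (nat_lit 48) (nat_lit 5) (nat_lit 49) (nat_lit 5) (nat_lit 50) (nat_lit 4) (nat_lit 520) (nat_lit 390) (nat_lit 290)) (XT.lf (nat_lit 0)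 (nat_lit 28748864934) (nat_lit 152) (nat_lit 617901296) (nat_lit 0) (nat_lit 5702664429) (nat_lit 48) (nat_lit 5) (nat_lit 50) (nat_lit 4) (nat_lit 48) (nat_lit 4) (nat_lit 521) (nat_lit 390) (nat_lit 289))))) (XT.nd (nat_lit 312) (nat_lit 228) (nat_lit 0) (XT.nd (nat_lit 156) (nat_lit 76) (nat_lit 0) (XT.nd (nat_lit 78) (nat_lit 76) (nat_lit 0) (XT.lf (nat_lit 0) (nat_lit 2949090671) (nat_lit 152) (nat_lit 17095260287) (nat_lit 76) (nat_lit 15777722862) (nat_lit 46) (nat_lit 5) (nat_lit 48) (nat_lit 5) (nat_lit 47) (nat_lit 4) (nat_lit 522) (nat_lit 390) (nat_lit 288)) (XT.lf (nat_lit 0) (nat_lit 1991948489) (nat_lit 76) (nat_lit 10376788691) (nat_lit 152) (nat_lit 24226713948) (nat_lit 45) (nat_lit 5) (nat_lit 46) (nat_lit 5) (nat_lit 47) (nat_lit 4) (nat_lit 523) (nat_lit 390) (nat_lit 287))) (XT.nd (nat_lit 78) (nat_lit 76) (nat_lit 0) (XT.lf (nat_lit 0) (nat_lit 21951009482) (nat_lit 76) (nat_lit 266360564)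 (nat_lit 152) (nat_lit 15170268161) (nat_lit 45) (nat_lit 5) (nat_lit 46) (nat_lit 5) (nat_lit 47) (nat_lit 4) (nat_lit 524) (nat_lit 390) (nat_lit 286)) (XT.lf (nat_lit 0) (nat_lit 4240210134) (nat_lit 76) (nat_lit 28233853446) (nat_lit 76) (nat_lit 5726149619) (nat_lit 44) (nat_lit 4) (nat_lit 45) (nat_lit 5) (nat_lit 45) (nat_lit 4) (nat_lit 525) (nat_lit 390) (nat_lit 285)))) (XT.nd (nat_lit 156) (nat_lit 76) (nat_lit 0) (XT.nd (nat_lit 78) (nat_lit 76) (nat_lit 0) (XT.lf (nat_lit 0) (nat_lit 4057590727) (nat_lit 152) (nat_lit 14301601728) (nat_lit 76) (nat_lit 20672788095) (nat_lit 43) (nat_lit 5) (nat_lit 45) (nat_lit 5) (nat_lit 44) (nat_lit 4) (nat_lit 526) (nat_lit 390) (nat_lit 284)) (XT.lf (nat_lit 0) (nat_lit 5957310415) (nat_lit 76) (nat_lit 8094773872) (nat_lit 152) (nat_lit 25833946190) (nat_lit 42) (nat_lit 5) (nat_lit 43) (nat_lit 5) (nat_lit 44) (nat_lit 4) (nat_lit 527) (nat_lit 390) (nat_lit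 283))) (XT.nd (nat_lit 78) (nat_lit 76) (nat_lit 0) (XT.lf (nat_lit 0) (nat_lit 24491176799) (nat_lit 152) (nat_lit 13718286579) (nat_lit 0) (nat_lit 2551895912) (nat_lit 42) (nat_lit 5) (nat_lit 44) (nat_lit 4) (nat_lit 42) (nat_lit 4) (nat_lit 528) (nat_lit 390) (nat_lit 282)) (XT.lf (nat_lit 0) (nat_lit 7109640474) (nat_lit 76) (nat_lit 28258115478) (nat_lit 76) (nat_lit 6291462902) (nat_lit 41) (nat_lit 4) (nat_lit 42) (nat_lit 5) (nat_lit 42) (nat_lit 4) (nat_lit 529) (nat_lit 390) (nat_lit 281)))))) (XT.nd (nat_lit 624) (nat_lit 380) (nat_lit 0) (XT.nd (nat_lit 312) (nat_lit 228) (nat_lit 0) (XT.nd (nat_lit 156) (nat_lit 76) (nat_lit 0) (XT.nd (nat_lit 78) (nat_lit 76) (nat_lit 0) (XT.lf (nat_lit 0) (nat_lit 4024565461) (nat_lit 152) (nat_lit 13823359146) (nat_lit 76) (nat_lit 24731468016) (nat_lit 40) (nat_lit 5) (nat_lit 42) (nat_lit 5) (nat_lit 41) (nat_lit 4) (nat_lit 530) (nat_lit 390) (nat_lit 280))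 (XT.lf (nat_lit 0) (nat_lit 7563911228) (nat_lit 76) (nat_lit 7008964979) (nat_lit 152) (nat_lit 28950949310) (nat_lit 39) (nat_lit 5) (nat_lit 40) (nat_lit 5) (nat_lit 41) (nat_lit 4) (nat_lit 531) (nat_lit 390) (nat_lit 279))) (XT.nd (nat_lit 78) (nat_lit 76) (nat_lit 0) (XT.lf (nat_lit 0) (nat_lit 25595123675) (nat_lit 152) (nat_lit 14703635666) (nat_lit 0) (nat_lit 4193107706) (nat_lit 39) (nat_lit 5) (nat_lit 41) (nat_lit 4) (nat_lit 39) (nat_lit 4) (nat_lit 532) (nat_lit 390) (nat_lit 278)) (XT.lf (nat_lit 0) (nat_lit 7217034987) (nat_lit 76) (nat_lit 29847030656) (nat_lit 76) (nat_lit 8421403628) (nat_lit 38) (nat_lit 4) (nat_lit 39) (nat_lit 5) (nat_lit 39) (nat_lit 4) (nat_lit 533) (nat_lit 390) (nat_lit 277)))) (XT.nd (nat_lit 156) (nat_lit 76) (nat_lit 0) (XT.nd (nat_lit 78) (nat_lit 76) (nat_lit 0) (XT.lf (nat_lit 0) (nat_lit 2449202636) (nat_lit 152) (nat_lit 16476669035) (nat_lit 76) (nat_lit 27578508649)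 (nat_lit 37) (nat_lit 5) (nat_lit 39) (nat_lit 5) (nat_lit 38) (nat_lit 4) (nat_lit 534) (nat_lit 390) (nat_lit 276)) (XT.lf (nat_lit 0) (nat_lit 5958294931) (nat_lit 76) (nat_lit 7553577485) (nat_lit 152) (nat_lit 34038428901) (nat_lit 36) (nat_lit 5) (nat_lit 37) (nat_lit 5) (nat_lit 38) (nat_lit 4) (nat_lit 535) (nat_lit 390) (nat_lit 275))) (XT.nd (nat_lit 78) (nat_lit 76) (nat_lit 0) (XT.lf (nat_lit 0) (nat_lit 25092397158) (nat_lit 152) (nat_lit 19303647526) (nat_lit 0) (nat_lit 4225976246) (nat_lit 36) (nat_lit 5) (nat_lit 38) (nat_lit 4) (nat_lit 36) (nat_lit 4) (nat_lit 536) (nat_lit 390) (nat_lit 274)) (XT.lf (nat_lit 0) (nat_lit 3606753290) (nat_lit 76) (nat_lit 33501642668) (nat_lit 76) (nat_lit 12614854648) (nat_lit 35) (nat_lit 4) (nat_lit 36) (nat_lit 5) (nat_lit 36) (nat_lit 4) (nat_lit 537) (nat_lit 390) (nat_lit 273))))) (XT.nd (nat_lit 312) (nat_lit 228) (nat_lit 0) (XT.nd (nat_lit 156) (nat_lit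 0) (nat_lit 0) (XT.nd (nat_lit 78) (nat_lit 152) (nat_lit 0) (XT.lf (nat_lit 0) (nat_lit 27558384061) (nat_lit 76) (nat_lit 22100241360) (nat_lit 76) (nat_lit 1193679450) (nat_lit 35) (nat_lit 4) (nat_lit 36) (nat_lit 5) (nat_lit 36) (nat_lit 4) (nat_lit 538) (nat_lit 390) (nat_lit 272)) (XT.lf (nat_lit 0) (nat_lit 72150062) (nat_lit 76) (nat_lit 10271647930) (nat_lit 152) (nat_lit 41668986932) (nat_lit 33) (nat_lit 5) (nat_lit 34) (nat_lit 5) (nat_lit 35) (nat_lit 4) (nat_lit 539) (nat_lit 390) (nat_lit 271))) (XT.nd (nat_lit 78) (nat_lit 0) (nat_lit 0) (XT.lf (nat_lit 0) (nat_lit 22438594187) (nat_lit 152) (nat_lit 28657848682) (nat_lit 0) (nat_lit 2104226565) (nat_lit 33) (nat_lit 5) (nat_lit 35) (nat_lit 4) (nat_lit 33) (nat_lit 4) (nat_lit 540) (nat_lit 390) (nat_lit 270)) (XT.lf (nat_lit 0) (nat_lit 34977794836) (nat_lit 152) (nat_lit 4818090654) (nat_lit 0) (nat_lit 14625858367) (nat_lit 33) (nat_lit 5) (nat_lit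 35) (nat_lit 4) (nat_lit 33) (nat_lit 4) (nat_lit 541) (nat_lit 390) (nat_lit 269)))) (XT.nd (nat_lit 156) (nat_lit 76) (nat_lit 0) (XT.nd (nat_lit 78) (nat_lit 76) (nat_lit 0) (XT.lf (nat_lit 0) (nat_lit 20090240394) (nat_lit 76) (nat_lit 27976498443) (nat_lit 76) (nat_lit 7607504843) (nat_lit 32) (nat_lit 4) (nat_lit 33) (nat_lit 5) (nat_lit 33) (nat_lit 4) (nat_lit 542) (nat_lit 390) (nat_lit 268)) (XT.lf (nat_lit 0) (nat_lit 4524174113) (nat_lit 152) (nat_lit 11201480472) (nat_lit 76) (nat_lit 41236454383) (nat_lit 31) (nat_lit 5) (nat_lit 33) (nat_lit 5) (nat_lit 32) (nat_lit 4) (nat_lit 543) (nat_lit 390) (nat_lit 267))) (XT.nd (nat_lit 78) (nat_lit 0) (nat_lit 0) (XT.lf (nat_lit 0) (nat_lit 14074299742) (nat_lit 76) (nat_lit 2908917817) (nat_lit 152) (nat_lit 41299643649) (nat_lit 30) (nat_lit 5) (nat_lit 31) (nat_lit 5) (nat_lit 32) (nat_lit 4) (nat_lit 544) (nat_lit 390) (nat_lit 266)) (XT.lf (nat_lit 0)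 (nat_lit 30010246524) (nat_lit 152) (nat_lit 19439481367) (nat_lit 0) (nat_lit 10187681867) (nat_lit 30) (nat_lit 5) (nat_lit 32) (nat_lit 4) (nat_lit 30) (nat_lit 4) (nat_lit 545) (nat_lit 390) (nat_lit 265))))))))
noncomputable def xc75 : XT := (XT.nd (nat_lit 54288) (nat_lit 0) (nat_lit 6612) (XT.nd (nat_lit 53118) (nat_lit 0) (nat_lit 14288) (XT.nd (nat_lit 52494) (nat_lit 0) (nat_lit 21432) (XT.nd (nat_lit 234) (nat_lit 152) (nat_lit 0) (XT.nd (nat_lit 78) (nat_lit 76) (nat_lit 0) (XT.lf (nat_lit 0) (nat_lit 6126967569) (nat_lit 76) (nat_lit 37370413404) (nat_lit 76) (nat_lit 17533135115) (nat_lit 29) (nat_lit 4) (nat_lit 30) (nat_lit 5) (nat_lit 30) (nat_lit 4) (nat_lit 546) (nat_lit 390) (nat_lit 264)) (XT.nd (nat_lit 78) (nat_lit 76) (nat_lit 0) (XT.lf (nat_lit 0) (nat_lit 32822796146) (nat_lit 76) (nat_lit 24744420191) (nat_lit 76) (nat_lit 4892856822) (nat_lit 29) (nat_lit 4) (nat_lit 30) (nat_lit 5) (nat_lit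 30) (nat_lit 4) (nat_lit 547) (nat_lit 390) (nat_lit 263)) (XT.lf (nat_lit 0) (nat_lit 7950191500) (nat_lit 152) (nat_lit 3726543631) (nat_lit 76) (nat_lit 52253974171) (nat_lit 28) (nat_lit 5) (nat_lit 30) (nat_lit 5) (nat_lit 29) (nat_lit 4) (nat_lit 548) (nat_lit 390) (nat_lit 262)))) (XT.nd (nat_lit 156) (nat_lit 76) (nat_lit 0) (XT.nd (nat_lit 78) (nat_lit 0) (nat_lit 0) (XT.lf (nat_lit 0) (nat_lit 21306827998) (nat_lit 152) (nat_lit 42123456628) (nat_lit 0) (nat_lit 2006927576) (nat_lit 27) (nat_lit 5) (nat_lit 29) (nat_lit 4) (nat_lit 27) (nat_lit 4) (nat_lit 549) (nat_lit 390) (nat_lit 261)) (XT.lf (nat_lit 0) (nat_lit 35200455382) (nat_lit 152) (nat_lit 15896503340) (nat_lit 0) (nat_lit 15887862852) (nat_lit 27) (nat_lit 5) (nat_lit 29) (nat_lit 4) (nat_lit 27) (nat_lit 4) (nat_lit 550) (nat_lit 390) (nat_lit 260))) (XT.nd (nat_lit 78) (nat_lit 0) (nat_lit 0) (XT.lf (nat_lit 0) (nat_lit 11304458470) (nat_lit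 76) (nat_lit 38298280224) (nat_lit 76) (nat_lit 18973365259) (nat_lit 26) (nat_lit 4) (nat_lit 27) (nat_lit 5) (nat_lit 27) (nat_lit 4) (nat_lit 551) (nat_lit 390) (nat_lit 259)) (XT.lf (nat_lit 0) (nat_lit 39614248451) (nat_lit 76) (nat_lit 24966719329) (nat_lit 76) (nat_lit 5629840835) (nat_lit 26) (nat_lit 4) (nat_lit 27) (nat_lit 5) (nat_lit 27) (nat_lit 4) (nat_lit 552) (nat_lit 390) (nat_lit 258))))) (XT.nd (nat_lit 312) (nat_lit 3344) (nat_lit 0) (XT.nd (nat_lit 156) (nat_lit 988) (nat_lit 0) (XT.nd (nat_lit 78) (nat_lit 836) (nat_lit 0) (XT.lf (nat_lit 0) (nat_lit 1089195142) (nat_lit 836) (nat_lit 1215076418) (nat_lit 0) (nat_lit 1089195142) (nat_lit 376) (nat_lit 5) (nat_lit 387) (nat_lit 4) (nat_lit 376) (nat_lit 4) (nat_lit 418) (nat_lit 391) (nat_lit 391)) (XT.lf (nat_lit 0) (nat_lit 2227634677) (nat_lit 836) (nat_lit 3324094409) (nat_lit 836) (nat_lit 1275120593) (nat_lit 365) (nat_lit 4) (nat_lit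 376) (nat_lit 5) (nat_lit 376) (nat_lit 4) (nat_lit 419) (nat_lit 391) (nat_lit 390))) (XT.nd (nat_lit 78) (nat_lit 0) (nat_lit 0) (XT.lf (nat_lit 0) (nat_lit 94084343) (nat_lit 912) (nat_lit 1941557590) (nat_lit 988) (nat_lit 4834136855) (nat_lit 352) (nat_lit 5) (nat_lit 364) (nat_lit 5) (nat_lit 365) (nat_lit 4) (nat_lit 420) (nat_lit 391) (nat_lit 389)) (XT.lf (nat_lit 0) (nat_lit 4916006391) (nat_lit 912) (nat_lit 446372677) (nat_lit 988) (nat_lit 1552990283) (nat_lit 352) (nat_lit 5) (nat_lit 364) (nat_lit 5) (nat_lit 365) (nat_lit 4) (nat_lit 421) (nat_lit 391) (nat_lit 388)))) (XT.nd (nat_lit 156) (nat_lit 1216) (nat_lit 0) (XT.nd (nat_lit 78) (nat_lit 1064) (nat_lit 0) (XT.lf (nat_lit 0) (nat_lit 1727513188) (nat_lit 1064) (nat_lit 4109385525) (nat_lit 76) (nat_lit 1126824745) (nat_lit 338) (nat_lit 5) (nat_lit 352) (nat_lit 5) (nat_lit 339) (nat_lit 4) (nat_lit 422) (nat_lit 391) (nat_lit 387)) (XT.lf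 (nat_lit 0) (nat_lit 781887456) (nat_lit 1064) (nat_lit 4225791148) (nat_lit 1140) (nat_lit 2007433468) (nat_lit 324) (nat_lit 5) (nat_lit 338) (nat_lit 5) (nat_lit 339) (nat_lit 4) (nat_lit 423) (nat_lit 391) (nat_lit 386))) (XT.nd (nat_lit 78) (nat_lit 1140) (nat_lit 0) (XT.lf (nat_lit 0) (nat_lit 1235543242) (nat_lit 1140) (nat_lit 1271882397) (nat_lit 76) (nat_lit 4561962668) (nat_lit 323) (nat_lit 5) (nat_lit 338) (nat_lit 5) (nat_lit 324) (nat_lit 5) (nat_lit 424) (nat_lit 391) (nat_lit 385)) (XT.lf (nat_lit 0) (nat_lit 3799221500) (nat_lit 1140) (nat_lit 676791808) (nat_lit 1216) (nat_lit 2650484080) (nat_lit 308) (nat_lit 5) (nat_lit 323) (nat_lit 5) (nat_lit 324) (nat_lit 5) (nat_lit 425) (nat_lit 391) (nat_lit 384)))))) (XT.nd (nat_lit 546) (nat_lit 3192) (nat_lit 0) (XT.nd (nat_lit 234) (nat_lit 1900) (nat_lit 0) (XT.nd (nat_lit 78) (nat_lit 760) (nat_lit 0) (XT.lf (nat_lit 0) (nat_lit 563346977) (nat_lit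 1292) (nat_lit 5400896443) (nat_lit 76) (nat_lit 1222494551) (nat_lit 291) (nat_lit 5) (nat_lit 308) (nat_lit 5) (nat_lit 292) (nat_lit 5) (nat_lit 426) (nat_lit 391) (nat_lit 383)) (XT.nd (nat_lit 78) (nat_lit 760) (nat_lit 0) (XT.lf (nat_lit 0) (nat_lit 3767810203) (nat_lit 1292) (nat_lit 256709834) (nat_lit 76) (nat_lit 3225069678) (nat_lit 291) (nat_lit 5) (nat_lit 308) (nat_lit 5) (nat_lit 292) (nat_lit 5) (nat_lit 427) (nat_lit 391) (nat_lit 382)) (XT.lf (nat_lit 0) (nat_lit 5046872997) (nat_lit 760) (nat_lit 1979617673) (nat_lit 836) (nat_lit 289109274) (nat_lit 281) (nat_lit 5) (nat_lit 291) (nat_lit 5) (nat_lit 292) (nat_lit 5) (nat_lit 428) (nat_lit 391) (nat_lit 381)))) (XT.nd (nat_lit 156) (nat_lit 608) (nat_lit 0) (XT.nd (nat_lit 78) (nat_lit 608) (nat_lit 0) (XT.lf (nat_lit 0) (nat_lit 2885119865) (nat_lit 684) (nat_lit 4318208968) (nat_lit 76) (nat_lit 181082047) (nat_lit 272) (nat_lit 5) (nat_lit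 281) (nat_lit 5) (nat_lit 273) (nat_lit 5) (nat_lit 429) (nat_lit 391) (nat_lit 380)) (XT.lf (nat_lit 0) (nat_lit 1055017830) (nat_lit 608) (nat_lit 5058705786) (nat_lit 684) (nat_lit 1342542022) (nat_lit 264) (nat_lit 5) (nat_lit 272) (nat_lit 5) (nat_lit 273) (nat_lit 5) (nat_lit 430) (nat_lit 391) (nat_lit 379))) (XT.nd (nat_lit 78) (nat_lit 532) (nat_lit 0) (XT.lf (nat_lit 0) (nat_lit 1828556991) (nat_lit 684) (nat_lit 966561816) (nat_lit 76) (nat_lit 4735913140) (nat_lit 263) (nat_lit 5) (nat_lit 272) (nat_lit 5) (nat_lit 264) (nat_lit 5) (nat_lit 431) (nat_lit 391) (nat_lit 378)) (XT.lf (nat_lit 0) (nat_lit 4613952647) (nat_lit 532) (nat_lit 413602824) (nat_lit 608) (nat_lit 2581307417) (nat_lit 256) (nat_lit 5) (nat_lit 263) (nat_lit 5) (nat_lit 264) (nat_lit 5) (nat_lit 432) (nat_lit 391) (nat_lit 377))))) (XT.nd (nat_lit 312) (nat_lit 1444) (nat_lit 0) (XT.nd (nat_lit 156) (nat_lit 608) (nat_lit 0) (XT.nd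 (nat_lit 78) (nat_lit 532) (nat_lit 0) (XT.lf (nat_lit 0) (nat_lit 592445078) (nat_lit 608) (nat_lit 5066578507) (nat_lit 76) (nat_lit 2030695317) (nat_lit 248) (nat_lit 5) (nat_lit 256) (nat_lit 5) (nat_lit 249) (nat_lit 5) (nat_lit 433) (nat_lit 391) (nat_lit 376)) (XT.lf (nat_lit 0) (nat_lit 584324771) (nat_lit 532) (nat_lit 3183022348) (nat_lit 608) (nat_lit 4006164021) (nat_lit 241) (nat_lit 5) (nat_lit 248) (nat_lit 5) (nat_lit 249) (nat_lit 5) (nat_lit 434) (nat_lit 391) (nat_lit 375))) (XT.nd (nat_lit 78) (nat_lit 608) (nat_lit 0) (XT.lf (nat_lit 0) (nat_lit 6413400303) (nat_lit 532) (nat_lit 594308774) (nat_lit 608) (nat_lit 853013167) (nat_lit 241) (nat_lit 5) (nat_lit 248) (nat_lit 5) (nat_lit 249) (nat_lit 5) (nat_lit 435) (nat_lit 391) (nat_lit 374)) (XT.lf (nat_lit 0) (nat_lit 2331693240) (nat_lit 608) (nat_lit 3535084164) (nat_lit 76) (nat_lit 2083581786) (nat_lit 233) (nat_lit 5) (nat_lit 241) (nat_lit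 5) (nat_lit 234) (nat_lit 5) (nat_lit 436) (nat_lit 391) (nat_lit 373)))) (XT.nd (nat_lit 156) (nat_lit 456) (nat_lit 0) (XT.nd (nat_lit 78) (nat_lit 532) (nat_lit 0) (XT.lf (nat_lit 0) (nat_lit 2377782160) (nat_lit 456) (nat_lit 3182405190) (nat_lit 532) (nat_lit 2483293296) (nat_lit 227) (nat_lit 5) (nat_lit 233) (nat_lit 5) (nat_lit 234) (nat_lit 5) (nat_lit 437) (nat_lit 391) (nat_lit 372)) (XT.lf (nat_lit 0) (nat_lit 304662481) (nat_lit 456) (nat_lit 388386073) (nat_lit 532) (nat_lit 7447297892) (nat_lit 220) (nat_lit 5) (nat_lit 226) (nat_lit 5) (nat_lit 227) (nat_lit 5) (nat_lit 438) (nat_lit 391) (nat_lit 371))) (XT.nd (nat_lit 78) (nat_lit 456) (nat_lit 0) (XT.lf (nat_lit 0) (nat_lit 3920129976) (nat_lit 532) (nat_lit 1814315329) (nat_lit 76) (nat_lit 2504784088) (nat_lit 220) (nat_lit 5) (nat_lit 227) (nat_lit 5) (nat_lit 221) (nat_lit 5) (nat_lit 439) (nat_lit 391) (nat_lit 370)) (XT.lf (nat_lit 0) (nat_lit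 4374942809) (nat_lit 456) (nat_lit 2840856786) (nat_lit 532) (nat_lit 1126135299) (nat_lit 214) (nat_lit 5) (nat_lit 220) (nat_lit 5) (nat_lit 221) (nat_lit 5) (nat_lit 440) (nat_lit 391) (nat_lit 369))))))) (XT.nd (nat_lit 1170) (nat_lit 3268) (nat_lit 0) (XT.nd (nat_lit 546) (nat_lit 2128) (nat_lit 0) (XT.nd (nat_lit 234) (nat_lit 1292) (nat_lit 0) (XT.nd (nat_lit 78) (nat_lit 456) (nat_lit 0) (XT.lf (nat_lit 0) (nat_lit 2088873785) (nat_lit 532) (nat_lit 6181480977) (nat_lit 76) (nat_lit 177698252) (nat_lit 207) (nat_lit 5) (nat_lit 214) (nat_lit 5) (nat_lit 208) (nat_lit 5) (nat_lit 441) (nat_lit 391) (nat_lit 368)) (XT.nd (nat_lit 78) (nat_lit 76) (nat_lit 0) (XT.lf (nat_lit 0) (nat_lit 78295124) (nat_lit 380) (nat_lit 5296180006) (nat_lit 456) (nat_lit 3182650312) (nat_lit 202) (nat_lit 5) (nat_lit 207) (nat_lit 5) (nat_lit 208) (nat_lit 5) (nat_lit 442) (nat_lit 391) (nat_lit 367)) (XT.lf (nat_lit 0) (nat_lit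 78400244) (nat_lit 456) (nat_lit 2112864942) (nat_lit 76) (nat_lit 6478458218) (nat_lit 201) (nat_lit 5) (nat_lit 207) (nat_lit 5) (nat_lit 202) (nat_lit 5) (nat_lit 443) (nat_lit 391) (nat_lit 366)))) (XT.nd (nat_lit 156) (nat_lit 456) (nat_lit 0) (XT.nd (nat_lit 78) (nat_lit 380) (nat_lit 0) (XT.lf (nat_lit 0) (nat_lit 3355866023) (nat_lit 532) (nat_lit 4390812649) (nat_lit 76) (nat_lit 1038606556) (nat_lit 195) (nat_lit 5) (nat_lit 202) (nat_lit 5) (nat_lit 196) (nat_lit 5) (nat_lit 444) (nat_lit 391) (nat_lit 365)) (XT.lf (nat_lit 0) (nat_lit 2162468373) (nat_lit 380) (nat_lit 4564161854) (nat_lit 456) (nat_lit 2177842041) (nat_lit 190) (nat_lit 5) (nat_lit 195) (nat_lit 5) (nat_lit 196) (nat_lit 5) (nat_lit 445) (nat_lit 391) (nat_lit 364))) (XT.nd (nat_lit 78) (nat_lit 380) (nat_lit 0) (XT.lf (nat_lit 0) (nat_lit 1124580832) (nat_lit 456) (nat_lit 130184463) (nat_lit 76) (nat_lit 7772854376) (nat_lit 189)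 (nat_lit 5) (nat_lit 195) (nat_lit 5) (nat_lit 190) (nat_lit 5) (nat_lit 446) (nat_lit 391) (nat_lit 363)) (XT.lf (nat_lit 0) (nat_lit 4501364475) (nat_lit 456) (nat_lit 2478262616) (nat_lit 76) (nat_lit 2173622653) (nat_lit 184) (nat_lit 5) (nat_lit 190) (nat_lit 5) (nat_lit 185) (nat_lit 5) (nat_lit 447) (nat_lit 391) (nat_lit 362))))) (XT.nd (nat_lit 312) (nat_lit 1064) (nat_lit 0) (XT.nd (nat_lit 156) (nat_lit 304) (nat_lit 0) (XT.nd (nat_lit 78) (nat_lit 456) (nat_lit 0) (XT.lf (nat_lit 0) (nat_lit 4384499697) (nat_lit 304) (nat_lit 3585041029) (nat_lit 380) (nat_lit 1313412067) (nat_lit 180) (nat_lit 5) (nat_lit 184) (nat_lit 5) (nat_lit 185) (nat_lit 5) (nat_lit 448) (nat_lit 391) (nat_lit 361)) (XT.lf (nat_lit 0) (nat_lit 2013370924) (nat_lit 380) (nat_lit 49576305) (nat_lit 456) (nat_lit 7353617121) (nat_lit 174) (nat_lit 5) (nat_lit 179) (nat_lit 5) (nat_lit 180) (nat_lit 5) (nat_lit 449) (nat_lit 391)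 (nat_lit 360))) (XT.nd (nat_lit 78) (nat_lit 304) (nat_lit 0) (XT.lf (nat_lit 0) (nat_lit 5534003807) (nat_lit 456) (nat_lit 461903256) (nat_lit 76) (nat_lit 3557299098) (nat_lit 174) (nat_lit 5) (nat_lit 180) (nat_lit 5) (nat_lit 175) (nat_lit 5) (nat_lit 450) (nat_lit 391) (nat_lit 359)) (XT.lf (nat_lit 0) (nat_lit 6727000615) (nat_lit 304) (nat_lit 2384552401) (nat_lit 380) (nat_lit 582329376) (nat_lit 170) (nat_lit 5) (nat_lit 174) (nat_lit 5) (nat_lit 175) (nat_lit 5) (nat_lit 451) (nat_lit 391) (nat_lit 358)))) (XT.nd (nat_lit 156) (nat_lit 380) (nat_lit 0) (XT.nd (nat_lit 78) (nat_lit 304) (nat_lit 0) (XT.lf (nat_lit 0) (nat_lit 2896481239) (nat_lit 380) (nat_lit 5586317497) (nat_lit 76) (nat_lit 1355236526) (nat_lit 165) (nat_lit 5) (nat_lit 170) (nat_lit 5) (nat_lit 166) (nat_lit 5) (nat_lit 452) (nat_lit 391) (nat_lit 357)) (XT.lf (nat_lit 0) (nat_lit 1672623053) (nat_lit 304) (nat_lit 4803483509) (nat_lit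 380) (nat_lit 3509994033) (nat_lit 161) (nat_lit 5) (nat_lit 165) (nat_lit 5) (nat_lit 166) (nat_lit 5) (nat_lit 453) (nat_lit 391) (nat_lit 356))) (XT.nd (nat_lit 78) (nat_lit 304) (nat_lit 0) (XT.lf (nat_lit 0) (nat_lit 19526488) (nat_lit 380) (nat_lit 966610123) (nat_lit 76) (nat_lit 9152604615) (nat_lit 160) (nat_lit 5) (nat_lit 165) (nat_lit 5) (nat_lit 161) (nat_lit 5) (nat_lit 454) (nat_lit 391) (nat_lit 355)) (XT.lf (nat_lit 0) (nat_lit 3617184421) (nat_lit 380) (nat_lit 3719058068) (nat_lit 76) (nat_lit 2957697059) (nat_lit 156) (nat_lit 5) (nat_lit 161) (nat_lit 5) (nat_lit 157) (nat_lit 5) (nat_lit 455) (nat_lit 391) (nat_lit 354)))))) (XT.nd (nat_lit 624) (nat_lit 1444) (nat_lit 0) (XT.nd (nat_lit 312) (nat_lit 912) (nat_lit 0) (XT.nd (nat_lit 156) (nat_lit 228) (nat_lit 0) (XT.nd (nat_lit 78) (nat_lit 380) (nat_lit 0) (XT.lf (nat_lit 0) (nat_lit 3884226941) (nat_lit 304) (nat_lit 3436406801) (nat_lit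 380) (nat_lit 3133229100) (nat_lit 152) (nat_lit 5) (nat_lit 156) (nat_lit 5) (nat_lit 157) (nat_lit 5) (nat_lit 456) (nat_lit 391) (nat_lit 353)) (XT.lf (nat_lit 0) (nat_lit 501999053) (nat_lit 380) (nat_lit 9524965726) (nat_lit 76) (nat_lit 591610359) (nat_lit 147) (nat_lit 5) (nat_lit 152) (nat_lit 5) (nat_lit 148) (nat_lit 5) (nat_lit 457) (nat_lit 391) (nat_lit 352))) (XT.nd (nat_lit 78) (nat_lit 228) (nat_lit 0) (XT.lf (nat_lit 0) (nat_lit 4226050011) (nat_lit 380) (nat_lit 1821988081) (nat_lit 76) (nat_lit 4737982286) (nat_lit 147) (nat_lit 5) (nat_lit 152) (nat_lit 5) (nat_lit 148) (nat_lit 5) (nat_lit 458) (nat_lit 391) (nat_lit 351)) (XT.lf (nat_lit 0) (nat_lit 6143148073) (nat_lit 228) (nat_lit 1921143264) (nat_lit 304) (nat_lit 2894127903) (nat_lit 144) (nat_lit 5) (nat_lit 147) (nat_lit 5) (nat_lit 148) (nat_lit 5) (nat_lit 459) (nat_lit 391) (nat_lit 350)))) (XT.nd (nat_lit 156) (nat_lit 304) (nat_lit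 0) (XT.nd (nat_lit 78) (nat_lit 228) (nat_lit 0) (XT.lf (nat_lit 0) (nat_lit 880277811) (nat_lit 380) (nat_lit 7944447120) (nat_lit 76) (nat_lit 2310541170) (nat_lit 139) (nat_lit 5) (nat_lit 144) (nat_lit 5) (nat_lit 140) (nat_lit 5) (nat_lit 460) (nat_lit 391) (nat_lit 349)) (XT.lf (nat_lit 0) (nat_lit 83774164) (nat_lit 228) (nat_lit 4639048033) (nat_lit 304) (nat_lit 6593348223) (nat_lit 136) (nat_lit 5) (nat_lit 139) (nat_lit 5) (nat_lit 140) (nat_lit 5) (nat_lit 461) (nat_lit 391) (nat_lit 348))) (XT.nd (nat_lit 78) (nat_lit 304) (nat_lit 0) (XT.lf (nat_lit 0) (nat_lit 8427029610) (nat_lit 228) (nat_lit 278754107) (nat_lit 304) (nat_lit 2795967775) (nat_lit 136) (nat_lit 5) (nat_lit 139) (nat_lit 5) (nat_lit 140) (nat_lit 5) (nat_lit 462) (nat_lit 391) (nat_lit 347)) (XT.lf (nat_lit 0) (nat_lit 1131617912) (nat_lit 304) (nat_lit 6399568157) (nat_lit 76) (nat_lit 4160254475) (nat_lit 132) (nat_lit 5) (nat_lit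 136) (nat_lit 5) (nat_lit 133) (nat_lit 5) (nat_lit 463) (nat_lit 391) (nat_lit 346))))) (XT.nd (nat_lit 312) (nat_lit 684) (nat_lit 0) (XT.nd (nat_lit 156) (nat_lit 532) (nat_lit 0) (XT.nd (nat_lit 78) (nat_lit 0) (nat_lit 0) (XT.lf (nat_lit 0) (nat_lit 2007435208) (nat_lit 228) (nat_lit 3113227059) (nat_lit 304) (nat_lit 6765336216) (nat_lit 129) (nat_lit 5) (nat_lit 132) (nat_lit 5) (nat_lit 133) (nat_lit 5) (nat_lit 464) (nat_lit 391) (nat_lit 345)) (XT.lf (nat_lit 0) (nat_lit 9255272765) (nat_lit 304) (nat_lit 1389072835) (nat_lit 76) (nat_lit 1441274134) (nat_lit 129) (nat_lit 5) (nat_lit 133) (nat_lit 5) (nat_lit 130) (nat_lit 5) (nat_lit 465) (nat_lit 391) (nat_lit 344))) (XT.nd (nat_lit 78) (nat_lit 228) (nat_lit 0) (XT.lf (nat_lit 0) (nat_lit 1249484304) (nat_lit 304) (nat_lit 4919065706) (nat_lit 76) (nat_lit 6120810693) (nat_lit 125) (nat_lit 5) (nat_lit 129) (nat_lit 5) (nat_lit 126) (nat_lit 5) (nat_lit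 466) (nat_lit 391) (nat_lit 343)) (XT.lf (nat_lit 0) (nat_lit 3884134029) (nat_lit 228) (nat_lit 1510739983) (nat_lit 304) (nat_lit 7103500799) (nat_lit 122) (nat_lit 5) (nat_lit 125) (nat_lit 5) (nat_lit 126) (nat_lit 5) (nat_lit 467) (nat_lit 391) (nat_lit 342)))) (XT.nd (nat_lit 156) (nat_lit 380) (nat_lit 0) (XT.nd (nat_lit 78) (nat_lit 76) (nat_lit 0) (XT.lf (nat_lit 0) (nat_lit 226446455) (nat_lit 228) (nat_lit 9471020040) (nat_lit 304) (nat_lit 3015210652) (nat_lit 119) (nat_lit 5) (nat_lit 122) (nat_lit 5) (nat_lit 123) (nat_lit 5) (nat_lit 468) (nat_lit 391) (nat_lit 341)) (XT.lf (nat_lit 0) (nat_lit 1224273735) (nat_lit 304) (nat_lit 3535330120) (nat_lit 76) (nat_lit 8171906383) (nat_lit 118) (nat_lit 5) (nat_lit 122) (nat_lit 5) (nat_lit 119) (nat_lit 5) (nat_lit 469) (nat_lit 391) (nat_lit 340))) (XT.nd (nat_lit 78) (nat_lit 228) (nat_lit 0) (XT.lf (nat_lit 0) (nat_lit 5536912411) (nat_lit 228) (nat_lit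 7475800132) (nat_lit 76) (nat_lit 143105776) (nat_lit 116) (nat_lit 5) (nat_lit 119) (nat_lit 5) (nat_lit 117) (nat_lit 5) (nat_lit 470) (nat_lit 391) (nat_lit 339)) (XT.lf (nat_lit 0) (nat_lit 1761440907) (nat_lit 228) (nat_lit 8268472218) (nat_lit 304) (nat_lit 3355415730) (nat_lit 113) (nat_lit 5) (nat_lit 116) (nat_lit 5) (nat_lit 117) (nat_lit 5) (nat_lit 471) (nat_lit 391) (nat_lit 338))))))))
noncomputable def xc76 : XT := (XT.nd (nat_lit 2340) (nat_lit 2128) (nat_lit 0) (XT.nd (nat_lit 1170) (nat_lit 1444) (nat_lit 0) (XT.nd (nat_lit 546) (nat_lit 1064) (nat_lit 0) (XT.nd (nat_lit 234) (nat_lit 456) (nat_lit 0) (XT.nd (nat_lit 78) (nat_lit 380) (nat_lit 0) (XT.lf (nat_lit 0) (nat_lit 1043023448) (nat_lit 304) (nat_lit 2285240237) (nat_lit 76) (nat_lit 10292347011) (nat_lit 112) (nat_lit 5) (nat_lit 116) (nat_lit 5) (nat_lit 113) (nat_lit 5) (nat_lit 472) (nat_lit 391) (nat_lit 337)) (XT.nd (nat_lit 78) (nat_lit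 228) (nat_lit 0) (XT.lf (nat_lit 0) (nat_lit 5546816088) (nat_lit 228) (nat_lit 6516540796) (nat_lit 76) (nat_lit 1797374695) (nat_lit 110) (nat_lit 5) (nat_lit 113) (nat_lit 5) (nat_lit 111) (nat_lit 5) (nat_lit 473) (nat_lit 391) (nat_lit 336)) (XT.lf (nat_lit 0) (nat_lit 3148284981) (nat_lit 228) (nat_lit 7076688505) (nat_lit 304) (nat_lit 3881907471) (nat_lit 107) (nat_lit 5) (nat_lit 110) (nat_lit 5) (nat_lit 111) (nat_lit 5) (nat_lit 474) (nat_lit 391) (nat_lit 335)))) (XT.nd (nat_lit 156) (nat_lit 228) (nat_lit 0) (XT.nd (nat_lit 78) (nat_lit 152) (nat_lit 0) (XT.lf (nat_lit 0) (nat_lit 689049672) (nat_lit 304) (nat_lit 1211110847) (nat_lit 76) (nat_lit 12459480040) (nat_lit 106) (nat_lit 5) (nat_lit 110) (nat_lit 5) (nat_lit 107) (nat_lit 5) (nat_lit 475) (nat_lit 391) (nat_lit 334)) (XT.lf (nat_lit 0) (nat_lit 5392633817) (nat_lit 228) (nat_lit 5767506672) (nat_lit 76) (nat_lit 3456485990) (nat_lit 104)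 (nat_lit 5) (nat_lit 107) (nat_lit 5) (nat_lit 105) (nat_lit 5) (nat_lit 476) (nat_lit 391) (nat_lit 333))) (XT.nd (nat_lit 78) (nat_lit 76) (nat_lit 0) (XT.lf (nat_lit 0) (nat_lit 4340847769) (nat_lit 152) (nat_lit 5923854137) (nat_lit 228) (nat_lit 4615800907) (nat_lit 102) (nat_lit 5) (nat_lit 104) (nat_lit 5) (nat_lit 105) (nat_lit 5) (nat_lit 477) (nat_lit 391) (nat_lit 332)) (XT.lf (nat_lit 0) (nat_lit 141507272) (nat_lit 228) (nat_lit 361773335) (nat_lit 76) (nat_lit 14648576570) (nat_lit 101) (nat_lit 5) (nat_lit 104) (nat_lit 5) (nat_lit 102) (nat_lit 5) (nat_lit 478) (nat_lit 391) (nat_lit 331))))) (XT.nd (nat_lit 312) (nat_lit 532) (nat_lit 0) (XT.nd (nat_lit 156) (nat_lit 228) (nat_lit 0) (XT.nd (nat_lit 78) (nat_lit 152) (nat_lit 0) (XT.lf (nat_lit 0) (nat_lit 5052636822) (nat_lit 228) (nat_lit 5281313180) (nat_lit 76) (nat_lit 5092916833) (nat_lit 99) (nat_lit 5) (nat_lit 102) (nat_lit 5) (nat_lit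 100) (nat_lit 5) (nat_lit 479) (nat_lit 391) (nat_lit 330)) (XT.lf (nat_lit 0) (nat_lit 5285656638) (nat_lit 152) (nat_lit 4841072142) (nat_lit 228) (nat_lit 5582931040) (nat_lit 97) (nat_lit 5) (nat_lit 99) (nat_lit 5) (nat_lit 100) (nat_lit 5) (nat_lit 480) (nat_lit 391) (nat_lit 329))) (XT.nd (nat_lit 78) (nat_lit 76) (nat_lit 0) (XT.lf (nat_lit 0) (nat_lit 195827344) (nat_lit 152) (nat_lit 15177163742) (nat_lit 228) (nat_lit 627348919) (nat_lit 95) (nat_lit 5) (nat_lit 97) (nat_lit 5) (nat_lit 98) (nat_lit 4) (nat_lit 481) (nat_lit 391) (nat_lit 328)) (XT.lf (nat_lit 0) (nat_lit 4500230868) (nat_lit 228) (nat_lit 5118935303) (nat_lit 76) (nat_lit 6675964396) (nat_lit 94) (nat_lit 5) (nat_lit 97) (nat_lit 5) (nat_lit 95) (nat_lit 5) (nat_lit 482) (nat_lit 391) (nat_lit 327)))) (XT.nd (nat_lit 156) (nat_lit 228) (nat_lit 0) (XT.nd (nat_lit 78) (nat_lit 152) (nat_lit 0) (XT.lf (nat_lit 0) (nat_lit 5920529945) (nat_lit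 152) (nat_lit 3863134130) (nat_lit 228) (nat_lit 6814477056) (nat_lit 92) (nat_lit 5) (nat_lit 94) (nat_lit 5) (nat_lit 95) (nat_lit 5) (nat_lit 483) (nat_lit 391) (nat_lit 326)) (XT.lf (nat_lit 0) (nat_lit 398646001) (nat_lit 152) (nat_lit 14860754372) (nat_lit 228) (nat_lit 1649829269) (nat_lit 90) (nat_lit 5) (nat_lit 92) (nat_lit 5) (nat_lit 93) (nat_lit 4) (nat_lit 484) (nat_lit 391) (nat_lit 325))) (XT.nd (nat_lit 78) (nat_lit 152) (nat_lit 0) (XT.lf (nat_lit 0) (nat_lit 3703283984) (nat_lit 228) (nat_lit 5351214219) (nat_lit 76) (nat_lit 8170941779) (nat_lit 89) (nat_lit 5) (nat_lit 92) (nat_lit 5) (nat_lit 90) (nat_lit 5) (nat_lit 485) (nat_lit 391) (nat_lit 324)) (XT.lf (nat_lit 0) (nat_lit 6173003339) (nat_lit 152) (nat_lit 3029386324) (nat_lit 228) (nat_lit 8347701646) (nat_lit 87) (nat_lit 5) (nat_lit 89) (nat_lit 5) (nat_lit 90) (nat_lit 5) (nat_lit 486) (nat_lit 391) (nat_lit 323)))))) (XT.nd (nat_lit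 546) (nat_lit 760) (nat_lit 0) (XT.nd (nat_lit 234) (nat_lit 304) (nat_lit 0) (XT.nd (nat_lit 78) (nat_lit 228) (nat_lit 0) (XT.lf (nat_lit 0) (nat_lit 167763056) (nat_lit 152) (nat_lit 14744809763) (nat_lit 228) (nat_lit 2970527678) (nat_lit 85) (nat_lit 5) (nat_lit 87) (nat_lit 5) (nat_lit 88) (nat_lit 4) (nat_lit 487) (nat_lit 391) (nat_lit 322)) (XT.nd (nat_lit 78) (nat_lit 152) (nat_lit 0) (XT.lf (nat_lit 0) (nat_lit 2623332323) (nat_lit 228) (nat_lit 6060593619) (nat_lit 76) (nat_lit 9538270410) (nat_lit 84) (nat_lit 5) (nat_lit 87) (nat_lit 5) (nat_lit 85) (nat_lit 5) (nat_lit 488) (nat_lit 391) (nat_lit 321)) (XT.lf (nat_lit 0) (nat_lit 5958514814) (nat_lit 152) (nat_lit 2384709515) (nat_lit 228) (nat_lit 10226822121) (nat_lit 82) (nat_lit 5) (nat_lit 84) (nat_lit 5) (nat_lit 85) (nat_lit 5) (nat_lit 489) (nat_lit 391) (nat_lit 320)))) (XT.nd (nat_lit 156) (nat_lit 152) (nat_lit 0) (XT.nd (nat_lit 78) (nat_lit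 152) (nat_lit 0) (XT.lf (nat_lit 0) (nat_lit 14296755227) (nat_lit 228) (nat_lit 576401270) (nat_lit 76) (nat_lit 4053315579) (nat_lit 82) (nat_lit 5) (nat_lit 85) (nat_lit 5) (nat_lit 83) (nat_lit 4) (nat_lit 490) (nat_lit 391) (nat_lit 319)) (XT.lf (nat_lit 0) (nat_lit 1214646199) (nat_lit 152) (nat_lit 7343124028) (nat_lit 76) (nat_lit 10732449109) (nat_lit 80) (nat_lit 5) (nat_lit 82) (nat_lit 5) (nat_lit 81) (nat_lit 5) (nat_lit 491) (nat_lit 391) (nat_lit 318))) (XT.nd (nat_lit 78) (nat_lit 0) (nat_lit 0) (XT.lf (nat_lit 0) (nat_lit 5178308307) (nat_lit 152) (nat_lit 1980634233) (nat_lit 228) (nat_lit 12504032835) (nat_lit 78) (nat_lit 5) (nat_lit 80) (nat_lit 5) (nat_lit 81) (nat_lit 5) (nat_lit 492) (nat_lit 391) (nat_lit 317)) (XT.lf (nat_lit 0) (nat_lit 13364664615) (nat_lit 228) (nat_lit 1935976808) (nat_lit 76) (nat_lit 4743780912) (nat_lit 78) (nat_lit 5) (nat_lit 81) (nat_lit 5) (nat_lit 79) (nat_lit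 4) (nat_lit 493) (nat_lit 391) (nat_lit 316))))) (XT.nd (nat_lit 312) (nat_lit 380) (nat_lit 0) (XT.nd (nat_lit 156) (nat_lit 76) (nat_lit 0) (XT.nd (nat_lit 78) (nat_lit 228) (nat_lit 0) (XT.lf (nat_lit 0) (nat_lit 11118187330) (nat_lit 76) (nat_lit 8728089504) (nat_lit 152) (nat_lit 588345428) (nat_lit 77) (nat_lit 5) (nat_lit 78) (nat_lit 5) (nat_lit 79) (nat_lit 4) (nat_lit 494) (nat_lit 391) (nat_lit 315)) (XT.lf (nat_lit 0) (nat_lit 3717009391) (nat_lit 152) (nat_lit 1876615484) (nat_lit 228) (nat_lit 15240701707) (nat_lit 74) (nat_lit 5) (nat_lit 76) (nat_lit 5) (nat_lit 77) (nat_lit 5) (nat_lit 495) (nat_lit 391) (nat_lit 314))) (XT.nd (nat_lit 78) (nat_lit 76) (nat_lit 0) (XT.lf (nat_lit 0) (nat_lit 12057444444) (nat_lit 228) (nat_lit 4035829855) (nat_lit 76) (nat_lit 5149327533) (nat_lit 74) (nat_lit 5) (nat_lit 77) (nat_lit 5) (nat_lit 75) (nat_lit 4) (nat_lit 496) (nat_lit 391) (nat_lit 313)) (XT.lf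 (nat_lit 0) (nat_lit 9539149262) (nat_lit 76) (nat_lit 9250780516) (nat_lit 152) (nat_lit 2870954016) (nat_lit 73) (nat_lit 5) (nat_lit 74) (nat_lit 5) (nat_lit 75) (nat_lit 4) (nat_lit 497) (nat_lit 391) (nat_lit 312)))) (XT.nd (nat_lit 156) (nat_lit 152) (nat_lit 0) (XT.nd (nat_lit 78) (nat_lit 0) (nat_lit 0) (XT.lf (nat_lit 0) (nat_lit 1439819335) (nat_lit 152) (nat_lit 2141495021) (nat_lit 228) (nat_lit 18508767439) (nat_lit 70) (nat_lit 5) (nat_lit 72) (nat_lit 5) (nat_lit 73) (nat_lit 5) (nat_lit 498) (nat_lit 391) (nat_lit 311)) (XT.lf (nat_lit 0) (nat_lit 10307499362) (nat_lit 228) (nat_lit 7017895275) (nat_lit 76) (nat_lit 5201767687) (nat_lit 70) (nat_lit 5) (nat_lit 73) (nat_lit 5) (nat_lit 71) (nat_lit 4) (nat_lit 499) (nat_lit 391) (nat_lit 310))) (XT.nd (nat_lit 78) (nat_lit 76) (nat_lit 0) (XT.lf (nat_lit 0) (nat_lit 7075577606) (nat_lit 76) (nat_lit 10214770810) (nat_lit 152) (nat_lit 5685361376)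 (nat_lit 69) (nat_lit 5) (nat_lit 70) (nat_lit 5) (nat_lit 71) (nat_lit 4) (nat_lit 500) (nat_lit 391) (nat_lit 309)) (XT.lf (nat_lit 0) (nat_lit 1061854573) (nat_lit 152) (nat_lit 1775400644) (nat_lit 76) (nat_lit 20599039654) (nat_lit 68) (nat_lit 5) (nat_lit 70) (nat_lit 5) (nat_lit 69) (nat_lit 5) (nat_lit 501) (nat_lit 391) (nat_lit 308))))))) (XT.nd (nat_lit 1170) (nat_lit 912) (nat_lit 0) (XT.nd (nat_lit 546) (nat_lit 456) (nat_lit 0) (XT.nd (nat_lit 234) (nat_lit 532) (nat_lit 0) (XT.nd (nat_lit 78) (nat_lit 76) (nat_lit 0) (XT.lf (nat_lit 0) (nat_lit 8035253551) (nat_lit 228) (nat_lit 11047833953) (nat_lit 76) (nat_lit 4821780981) (nat_lit 66) (nat_lit 5) (nat_lit 69) (nat_lit 5) (nat_lit 67) (nat_lit 4) (nat_lit 502) (nat_lit 391) (nat_lit 307)) (XT.nd (nat_lit 78) (nat_lit 0) (nat_lit 0) (XT.lf (nat_lit 0) (nat_lit 3556012838) (nat_lit 76) (nat_lit 11709016913) (nat_lit 152) (nat_lit 9121055077) (nat_lit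 65) (nat_lit 5) (nat_lit 66) (nat_lit 5) (nat_lit 67) (nat_lit 4) (nat_lit 503) (nat_lit 391) (nat_lit 306)) (XT.lf (nat_lit 0) (nat_lit 18762078376) (nat_lit 76) (nat_lit 4028345416) (nat_lit 152) (nat_lit 2088952890) (nat_lit 65) (nat_lit 5) (nat_lit 66) (nat_lit 5) (nat_lit 67) (nat_lit 4) (nat_lit 504) (nat_lit 391) (nat_lit 305)))) (XT.nd (nat_lit 156) (nat_lit 304) (nat_lit 0) (XT.nd (nat_lit 78) (nat_lit 0) (nat_lit 0) (XT.lf (nat_lit 0) (nat_lit 5147252815) (nat_lit 228) (nat_lit 16318953818) (nat_lit 76) (nat_lit 3916963565) (nat_lit 62) (nat_lit 5) (nat_lit 65) (nat_lit 5) (nat_lit 63) (nat_lit 4) (nat_lit 505) (nat_lit 391) (nat_lit 304)) (XT.lf (nat_lit 0) (nat_lit 12628709853) (nat_lit 228) (nat_lit 1196099211) (nat_lit 76) (nat_lit 12074544136) (nat_lit 62) (nat_lit 5) (nat_lit 65) (nat_lit 5) (nat_lit 63) (nat_lit 4) (nat_lit 506) (nat_lit 391) (nat_lit 303))) (XT.nd (nat_lit 78) (nat_lit 228) (nat_lit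 0) (XT.lf (nat_lit 0) (nat_lit 14605969625) (nat_lit 76) (nat_lit 5837860071) (nat_lit 152) (nat_lit 5983916097) (nat_lit 61) (nat_lit 5) (nat_lit 62) (nat_lit 5) (nat_lit 63) (nat_lit 4) (nat_lit 507) (nat_lit 391) (nat_lit 302)) (XT.lf (nat_lit 0) (nat_lit 1533955563) (nat_lit 228) (nat_lit 23056754760) (nat_lit 76) (nat_lit 2379574805) (nat_lit 58) (nat_lit 5) (nat_lit 61) (nat_lit 5) (nat_lit 59) (nat_lit 4) (nat_lit 508) (nat_lit 391) (nat_lit 301))))) (XT.nd (nat_lit 312) (nat_lit 228) (nat_lit 0) (XT.nd (nat_lit 156) (nat_lit 152) (nat_lit 0) (XT.nd (nat_lit 78) (nat_lit 76) (nat_lit 0) (XT.lf (nat_lit 0) (nat_lit 9304375650) (nat_lit 228) (nat_lit 7340112223) (nat_lit 76) (nat_lit 10878417494) (nat_lit 58) (nat_lit 5) (nat_lit 61) (nat_lit 5) (nat_lit 59) (nat_lit 4) (nat_lit 509) (nat_lit 391) (nat_lit 300)) (XT.lf (nat_lit 0) (nat_lit 8965112418) (nat_lit 76) (nat_lit 8398802961) (nat_lit 152) (nat_lit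 10726509220) (nat_lit 57) (nat_lit 5) (nat_lit 58) (nat_lit 5) (nat_lit 59) (nat_lit 4) (nat_lit 510) (nat_lit 391) (nat_lit 299))) (XT.nd (nat_lit 78) (nat_lit 152) (nat_lit 0) (XT.lf (nat_lit 0) (nat_lit 25710895015) (nat_lit 152) (nat_lit 2822350346) (nat_lit 0) (nat_lit 140355016) (nat_lit 57) (nat_lit 5) (nat_lit 59) (nat_lit 4) (nat_lit 57) (nat_lit 4) (nat_lit 511) (nat_lit 391) (nat_lit 298)) (XT.lf (nat_lit 0) (nat_lit 5127174460) (nat_lit 152) (nat_lit 15213295249) (nat_lit 76) (nat_lit 8926608759) (nat_lit 55) (nat_lit 5) (nat_lit 57) (nat_lit 5) (nat_lit 56) (nat_lit 4) (nat_lit 512) (nat_lit 391) (nat_lit 297)))) (XT.nd (nat_lit 156) (nat_lit 152) (nat_lit 0) (XT.nd (nat_lit 78) (nat_lit 0) (nat_lit 0) (XT.lf (nat_lit 0) (nat_lit 1561130869) (nat_lit 76) (nat_lit 11853660553) (nat_lit 152) (nat_lit 16462252352) (nat_lit 54) (nat_lit 5) (nat_lit 55) (nat_lit 5) (nat_lit 56) (nat_lit 4) (nat_lit 513)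 (nat_lit 391) (nat_lit 296)) (XT.lf (nat_lit 0) (nat_lit 19094932213) (nat_lit 76) (nat_lit 2980843331) (nat_lit 152) (nat_lit 8425790853) (nat_lit 54) (nat_lit 5) (nat_lit 55) (nat_lit 5) (nat_lit 56) (nat_lit 4) (nat_lit 514) (nat_lit 391) (nat_lit 295))) (XT.nd (nat_lit 78) (nat_lit 76) (nat_lit 0) (XT.lf (nat_lit 0) (nat_lit 6013385861) (nat_lit 76) (nat_lit 25071908801) (nat_lit 76) (nat_lit 56869373) (nat_lit 53) (nat_lit 4) (nat_lit 54) (nat_lit 5) (nat_lit 54) (nat_lit 4) (nat_lit 515) (nat_lit 391) (nat_lit 294)) (XT.lf (nat_lit 0) (nat_lit 8513591970) (nat_lit 152) (nat_lit 7776371254) (nat_lit 76) (nat_lit 15506020344) (nat_lit 52) (nat_lit 5) (nat_lit 54) (nat_lit 5) (nat_lit 53) (nat_lit 4) (nat_lit 516) (nat_lit 391) (nat_lit 293)))))) (XT.nd (nat_lit 546) (nat_lit 456) (nat_lit 0) (XT.nd (nat_lit 234) (nat_lit 228) (nat_lit 0) (XT.nd (nat_lit 78) (nat_lit 152) (nat_lit 0) (XT.lf (nat_lit 0) (nat_lit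 10242801448) (nat_lit 76) (nat_lit 7168237272) (nat_lit 152) (nat_lit 15056232097) (nat_lit 51) (nat_lit 5) (nat_lit 52) (nat_lit 5) (nat_lit 53) (nat_lit 4) (nat_lit 517) (nat_lit 391) (nat_lit 292)) (XT.nd (nat_lit 78) (nat_lit 152) (nat_lit 0) (XT.lf (nat_lit 0) (nat_lit 26648724811) (nat_lit 152) (nat_lit 4269736660) (nat_lit 0) (nat_lit 2238036179) (nat_lit 51) (nat_lit 5) (nat_lit 53) (nat_lit 4) (nat_lit 51) (nat_lit 4) (nat_lit 518) (nat_lit 391) (nat_lit 291)) (XT.lf (nat_lit 0) (nat_lit 2436742278) (nat_lit 152) (nat_lit 19503127291) (nat_lit 76) (nat_lit 11920336866) (nat_lit 49) (nat_lit 5) (nat_lit 51) (nat_lit 5) (nat_lit 50) (nat_lit 4) (nat_lit 519) (nat_lit 391) (nat_lit 290)))) (XT.nd (nat_lit 156) (nat_lit 152) (nat_lit 0) (XT.nd (nat_lit 78) (nat_lit 76) (nat_lit 0) (XT.lf (nat_lit 0) (nat_lit 11535760011) (nat_lit 152) (nat_lit 1070010111) (nat_lit 76) (nat_lit 21976814756) (nat_lit 49) (nat_lit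 5) (nat_lit 51) (nat_lit 5) (nat_lit 50) (nat_lit 4) (nat_lit 520) (nat_lit 391) (nat_lit 289)) (XT.lf (nat_lit 0) (nat_lit 18221530743) (nat_lit 76) (nat_lit 2835572182) (nat_lit 152) (nat_lit 14265051506) (nat_lit 48) (nat_lit 5) (nat_lit 49) (nat_lit 5) (nat_lit 50) (nat_lit 4) (nat_lit 521) (nat_lit 391) (nat_lit 288))) (XT.nd (nat_lit 78) (nat_lit 76) (nat_lit 0) (XT.lf (nat_lit 0) (nat_lit 1948421054) (nat_lit 76) (nat_lit 28989024442) (nat_lit 76) (nat_lit 5144265177) (nat_lit 47) (nat_lit 4) (nat_lit 48) (nat_lit 5) (nat_lit 48) (nat_lit 4) (nat_lit 522) (nat_lit 391) (nat_lit 287)) (XT.lf (nat_lit 0) (nat_lit 4343937099) (nat_lit 152) (nat_lit 15060230677) (nat_lit 76) (nat_lit 17453358698) (nat_lit 46) (nat_lit 5) (nat_lit 48) (nat_lit 5) (nat_lit 47) (nat_lit 4) (nat_lit 523) (nat_lit 391) (nat_lit 286))))) (XT.nd (nat_lit 312) (nat_lit 228) (nat_lit 0) (XT.nd (nat_lit 156) (nat_lit 152) (nat_lit 0) (XT.nd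 (nat_lit 78) (nat_lit 0) (nat_lit 0) (XT.lf (nat_lit 0) (nat_lit 4574615073) (nat_lit 76) (nat_lit 9457759947) (nat_lit 152) (nat_lit 23622144556) (nat_lit 45) (nat_lit 5) (nat_lit 46) (nat_lit 5) (nat_lit 47) (nat_lit 4) (nat_lit 524) (nat_lit 391) (nat_lit 285)) (XT.lf (nat_lit 0) (nat_lit 24147664043) (nat_lit 152) (nat_lit 13421482094) (nat_lit 0) (nat_lit 902190734) (nat_lit 45) (nat_lit 5) (nat_lit 47) (nat_lit 4) (nat_lit 45) (nat_lit 4) (nat_lit 525) (nat_lit 391) (nat_lit 284))) (XT.nd (nat_lit 78) (nat_lit 76) (nat_lit 0) (XT.lf (nat_lit 0) (nat_lit 6818754029) (nat_lit 76) (nat_lit 27882619612) (nat_lit 76) (nat_lit 4607236518) (nat_lit 44) (nat_lit 4) (nat_lit 45) (nat_lit 5) (nat_lit 45) (nat_lit 4) (nat_lit 526) (nat_lit 391) (nat_lit 283)) (XT.lf (nat_lit 0) (nat_lit 5407970323) (nat_lit 152) (nat_lit 12326241962) (nat_lit 76) (nat_lit 22431852298) (nat_lit 43) (nat_lit 5) (nat_lit 45) (nat_lit 5)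 (nat_lit 44) (nat_lit 4) (nat_lit 527) (nat_lit 391) (nat_lit 282)))) (XT.nd (nat_lit 156) (nat_lit 152) (nat_lit 0) (XT.nd (nat_lit 78) (nat_lit 0) (nat_lit 0) (XT.lf (nat_lit 0) (nat_lit 8516864920) (nat_lit 76) (nat_lit 7172533837) (nat_lit 152) (nat_lit 25356724710) (nat_lit 42) (nat_lit 5) (nat_lit 43) (nat_lit 5) (nat_lit 44) (nat_lit 4) (nat_lit 528) (nat_lit 391) (nat_lit 281)) (XT.lf (nat_lit 0) (nat_lit 26417127088) (nat_lit 152) (nat_lit 11793792822) (nat_lit 0) (nat_lit 3737528790) (nat_lit 42) (nat_lit 5) (nat_lit 44) (nat_lit 4) (nat_lit 42) (nat_lit 4) (nat_lit 529) (nat_lit 391) (nat_lit 280))) (XT.nd (nat_lit 78) (nat_lit 76) (nat_lit 0) (XT.lf (nat_lit 0) (nat_lit 9636069666) (nat_lit 76) (nat_lit 27971473684) (nat_lit 76) (nat_lit 5266074943) (nat_lit 41) (nat_lit 4) (nat_lit 42) (nat_lit 5) (nat_lit 42) (nat_lit 4) (nat_lit 530) (nat_lit 391) (nat_lit 279)) (XT.lf (nat_lit 0) (nat_lit 5301069182)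 (nat_lit 152) (nat_lit 11969277274) (nat_lit 76) (nat_lit 26551741289) (nat_lit 40) (nat_lit 5) (nat_lit 42) (nat_lit 5) (nat_lit 41) (nat_lit 4) (nat_lit 531) (nat_lit 391) (nat_lit 278))))))))
noncomputable def xc77 : XT := (XT.nd (nat_lit 54132) (nat_lit 0) (nat_lit 9880) (XT.nd (nat_lit 1170) (nat_lit 304) (nat_lit 0) (XT.nd (nat_lit 546) (nat_lit 380) (nat_lit 0) (XT.nd (nat_lit 234) (nat_lit 228) (nat_lit 0) (XT.nd (nat_lit 78) (nat_lit 76) (nat_lit 0) (XT.lf (nat_lit 0) (nat_lit 10037368244) (nat_lit 76) (nat_lit 6116393011) (nat_lit 152) (nat_lit 28641454809) (nat_lit 39) (nat_lit 5) (nat_lit 40) (nat_lit 5) (nat_lit 41) (nat_lit 4) (nat_lit 532) (nat_lit 391) (nat_lit 277)) (XT.nd (nat_lit 78) (nat_lit 76) (nat_lit 0) (XT.lf (nat_lit 0) (nat_lit 27483656942) (nat_lit 152) (nat_lit 12940606176) (nat_lit 0) (nat_lit 5368726684) (nat_lit 39) (nat_lit 5) (nat_lit 41) (nat_lit 4) (nat_lit 39) (nat_lit 4) (nat_lit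 533) (nat_lit 391) (nat_lit 276)) (XT.lf (nat_lit 0) (nat_lit 9616075394) (nat_lit 76) (nat_lit 29668930430) (nat_lit 76) (nat_lit 7531744484) (nat_lit 38) (nat_lit 4) (nat_lit 39) (nat_lit 5) (nat_lit 39) (nat_lit 4) (nat_lit 534) (nat_lit 391) (nat_lit 275)))) (XT.nd (nat_lit 156) (nat_lit 76) (nat_lit 0) (XT.nd (nat_lit 78) (nat_lit 76) (nat_lit 0) (XT.lf (nat_lit 0) (nat_lit 3610067881) (nat_lit 152) (nat_lit 14830355610) (nat_lit 76) (nat_lit 29426454786) (nat_lit 37) (nat_lit 5) (nat_lit 39) (nat_lit 5) (nat_lit 38) (nat_lit 4) (nat_lit 535) (nat_lit 391) (nat_lit 274)) (XT.lf (nat_lit 0) (nat_lit 8256670868) (nat_lit 76) (nat_lit 6736650510) (nat_lit 152) (nat_lit 33951194760) (nat_lit 36) (nat_lit 5) (nat_lit 37) (nat_lit 5) (nat_lit 38) (nat_lit 4) (nat_lit 536) (nat_lit 391) (nat_lit 273))) (XT.nd (nat_lit 78) (nat_lit 76) (nat_lit 0) (XT.lf (nat_lit 0) (nat_lit 26899658276) (nat_lit 152) (nat_lit 17803251887)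 (nat_lit 0) (nat_lit 5346125618) (nat_lit 36) (nat_lit 5) (nat_lit 38) (nat_lit 4) (nat_lit 36) (nat_lit 4) (nat_lit 537) (nat_lit 391) (nat_lit 272)) (XT.lf (nat_lit 0) (nat_lit 5774073649) (nat_lit 76) (nat_lit 33491143613) (nat_lit 76) (nat_lit 11918413002) (nat_lit 35) (nat_lit 4) (nat_lit 36) (nat_lit 5) (nat_lit 36) (nat_lit 4) (nat_lit 538) (nat_lit 391) (nat_lit 271))))) (XT.nd (nat_lit 312) (nat_lit 228) (nat_lit 0) (XT.nd (nat_lit 156) (nat_lit 0) (nat_lit 0) (XT.nd (nat_lit 78) (nat_lit 152) (nat_lit 0) (XT.lf (nat_lit 0) (nat_lit 30384279040) (nat_lit 76) (nat_lit 21777279343) (nat_lit 76) (nat_lit 185909944) (nat_lit 35) (nat_lit 4) (nat_lit 36) (nat_lit 5) (nat_lit 36) (nat_lit 4) (nat_lit 539) (nat_lit 391) (nat_lit 270)) (XT.lf (nat_lit 0) (nat_lit 2074032990) (nat_lit 76) (nat_lit 9592714941) (nat_lit 152) (nat_lit 41876031598) (nat_lit 33) (nat_lit 5) (nat_lit 34) (nat_lit 5) (nat_lit 35) (nat_lit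 4) (nat_lit 540) (nat_lit 391) (nat_lit 269))) (XT.nd (nat_lit 78) (nat_lit 0) (nat_lit 0) (XT.lf (nat_lit 0) (nat_lit 24104105837) (nat_lit 152) (nat_lit 27555818192) (nat_lit 0) (nat_lit 3106985297) (nat_lit 33) (nat_lit 5) (nat_lit 35) (nat_lit 4) (nat_lit 33) (nat_lit 4) (nat_lit 541) (nat_lit 391) (nat_lit 268)) (XT.lf (nat_lit 0) (nat_lit 36990578996) (nat_lit 152) (nat_lit 3058006236) (nat_lit 0) (nat_lit 15976898133) (nat_lit 33) (nat_lit 5) (nat_lit 35) (nat_lit 4) (nat_lit 33) (nat_lit 4) (nat_lit 542) (nat_lit 391) (nat_lit 267)))) (XT.nd (nat_lit 156) (nat_lit 76) (nat_lit 0) (XT.nd (nat_lit 78) (nat_lit 76) (nat_lit 0) (XT.lf (nat_lit 0) (nat_lit 22578901928) (nat_lit 76) (nat_lit 27883356677) (nat_lit 76) (nat_lit 6853597832) (nat_lit 32) (nat_lit 4) (nat_lit 33) (nat_lit 5) (nat_lit 33) (nat_lit 4) (nat_lit 543) (nat_lit 391) (nat_lit 266)) (XT.lf (nat_lit 0) (nat_lit 5594818968) (nat_lit 152) (nat_lit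 9687886031) (nat_lit 76) (nat_lit 43360211141) (nat_lit 31) (nat_lit 5) (nat_lit 33) (nat_lit 5) (nat_lit 32) (nat_lit 4) (nat_lit 544) (nat_lit 391) (nat_lit 265))) (XT.nd (nat_lit 78) (nat_lit 0) (nat_lit 0) (XT.lf (nat_lit 0) (nat_lit 16328033875) (nat_lit 76) (nat_lit 2089974721) (nat_lit 152) (nat_lit 41585571352) (nat_lit 30) (nat_lit 5) (nat_lit 31) (nat_lit 5) (nat_lit 32) (nat_lit 4) (nat_lit 545) (nat_lit 391) (nat_lit 264)) (XT.lf (nat_lit 0) (nat_lit 31817355436) (nat_lit 152) (nat_lit 18226004462) (nat_lit 0) (nat_lit 11355960087) (nat_lit 30) (nat_lit 5) (nat_lit 32) (nat_lit 4) (nat_lit 30) (nat_lit 4) (nat_lit 546) (nat_lit 391) (nat_lit 263)))))) (XT.nd (nat_lit 52338) (nat_lit 0) (nat_lit 22572) (XT.nd (nat_lit 234) (nat_lit 152) (nat_lit 0) (XT.nd (nat_lit 78) (nat_lit 76) (nat_lit 0) (XT.lf (nat_lit 0) (nat_lit 8089823615) (nat_lit 76) (nat_lit 37609969897) (nat_lit 76) (nat_lit 17134705539)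 (nat_lit 29) (nat_lit 4) (nat_lit 30) (nat_lit 5) (nat_lit 30) (nat_lit 4) (nat_lit 547) (nat_lit 391) (nat_lit 262)) (XT.nd (nat_lit 78) (nat_lit 76) (nat_lit 0) (XT.lf (nat_lit 0) (nat_lit 35534710145) (nat_lit 76) (nat_lit 24630873273) (nat_lit 76) (nat_lit 4142143858) (nat_lit 29) (nat_lit 4) (nat_lit 30) (nat_lit 5) (nat_lit 30) (nat_lit 4) (nat_lit 548) (nat_lit 391) (nat_lit 261)) (XT.lf (nat_lit 0) (nat_lit 9043051845) (nat_lit 152) (nat_lit 2144407041) (nat_lit 76) (nat_lit 54635533933) (nat_lit 28) (nat_lit 5) (nat_lit 30) (nat_lit 5) (nat_lit 29) (nat_lit 4) (nat_lit 549) (nat_lit 391) (nat_lit 260)))) (XT.nd (nat_lit 156) (nat_lit 76) (nat_lit 0) (XT.nd (nat_lit 78) (nat_lit 0) (nat_lit 0) (XT.lf (nat_lit 0) (nat_lit 22799621918) (nat_lit 152) (nat_lit 41692454991) (nat_lit 0) (nat_lit 2882637069) (nat_lit 27) (nat_lit 5) (nat_lit 29) (nat_lit 4) (nat_lit 27) (nat_lit 4) (nat_lit 550) (nat_lit 391) (nat_lit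 259)) (XT.lf (nat_lit 0) (nat_lit 37085196306) (nat_lit 152) (nat_lit 14728053453) (nat_lit 0) (nat_lit 17156247928) (nat_lit 27) (nat_lit 5) (nat_lit 29) (nat_lit 4) (nat_lit 27) (nat_lit 4) (nat_lit 551) (nat_lit 391) (nat_lit 258))) (XT.nd (nat_lit 51870) (nat_lit 0) (nat_lit 27436) (XT.lf (nat_lit 0) (nat_lit 13272806378) (nat_lit 76) (nat_lit 38638265055) (nat_lit 76) (nat_lit 18697701600) (nat_lit 26) (nat_lit 4) (nat_lit 27) (nat_lit 5) (nat_lit 27) (nat_lit 4) (nat_lit 552) (nat_lit 391) (nat_lit 257)) (XT.lf (nat_lit 0) (nat_lit 997137465) (nat_lit 684) (nat_lit 1180023807) (nat_lit 684) (nat_lit 1180023807) (nat_lit 387) (nat_lit 4) (nat_lit 396) (nat_lit 5) (nat_lit 396) (nat_lit 4) (nat_lit 416) (nat_lit 392) (nat_lit 392))))) (XT.nd (nat_lit 312) (nat_lit 3116) (nat_lit 0) (XT.nd (nat_lit 156) (nat_lit 912) (nat_lit 0) (XT.nd (nat_lit 78) (nat_lit 760) (nat_lit 0) (XT.lf (nat_lit 0) (nat_lit 944341628)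 (nat_lit 760) (nat_lit 256742816) (nat_lit 76) (nat_lit 5549199465) (nat_lit 386) (nat_lit 5) (nat_lit 396) (nat_lit 5) (nat_lit 387) (nat_lit 4) (nat_lit 417) (nat_lit 392) (nat_lit 391)) (XT.lf (nat_lit 0) (nat_lit 4235921385) (nat_lit 836) (nat_lit 2476106003) (nat_lit 0) (nat_lit 76504539) (nat_lit 376) (nat_lit 5) (nat_lit 387) (nat_lit 4) (nat_lit 376) (nat_lit 4) (nat_lit 418) (nat_lit 392) (nat_lit 390))) (XT.nd (nat_lit 78) (nat_lit 0) (nat_lit 0) (XT.lf (nat_lit 0) (nat_lit 712788764) (nat_lit 912) (nat_lit 4701750620) (nat_lit 76) (nat_lit 1415277775) (nat_lit 364) (nat_lit 5) (nat_lit 376) (nat_lit 5) (nat_lit 365) (nat_lit 4) (nat_lit 419) (nat_lit 392) (nat_lit 389)) (XT.lf (nat_lit 0) (nat_lit 3946957142) (nat_lit 912) (nat_lit 67743150) (nat_lit 76) (nat_lit 2859239835) (nat_lit 364) (nat_lit 5) (nat_lit 376) (nat_lit 5) (nat_lit 365) (nat_lit 4) (nat_lit 420) (nat_lit 392) (nat_lit 388)))) (XT.nd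 (nat_lit 156) (nat_lit 1140) (nat_lit 0) (XT.nd (nat_lit 78) (nat_lit 988) (nat_lit 0) (XT.lf (nat_lit 0) (nat_lit 296321530) (nat_lit 988) (nat_lit 2215883299) (nat_lit 76) (nat_lit 4408761290) (nat_lit 351) (nat_lit 5) (nat_lit 364) (nat_lit 5) (nat_lit 352) (nat_lit 5) (nat_lit 421) (nat_lit 392) (nat_lit 387)) (XT.lf (nat_lit 0) (nat_lit 2584344924) (nat_lit 988) (nat_lit 899627194) (nat_lit 1064) (nat_lit 3486786063) (nat_lit 338) (nat_lit 5) (nat_lit 351) (nat_lit 5) (nat_lit 352) (nat_lit 5) (nat_lit 422) (nat_lit 392) (nat_lit 386))) (XT.nd (nat_lit 78) (nat_lit 76) (nat_lit 0) (XT.lf (nat_lit 0) (nat_lit 461784662) (nat_lit 1064) (nat_lit 6242866521) (nat_lit 1140) (nat_lit 319289282) (nat_lit 324) (nat_lit 5) (nat_lit 338) (nat_lit 5) (nat_lit 339) (nat_lit 4) (nat_lit 423) (nat_lit 392) (nat_lit 385)) (XT.lf (nat_lit 0) (nat_lit 2843470304) (nat_lit 1140) (nat_lit 1663021110) (nat_lit 76) (nat_lit 2572665279)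 (nat_lit 323) (nat_lit 5) (nat_lit 338) (nat_lit 5) (nat_lit 324) (nat_lit 5) (nat_lit 424) (nat_lit 392) (nat_lit 384))))))) (XT.nd (nat_lit 1170) (nat_lit 4864) (nat_lit 0) (XT.nd (nat_lit 546) (nat_lit 3268) (nat_lit 0) (XT.nd (nat_lit 234) (nat_lit 2128) (nat_lit 0) (XT.nd (nat_lit 78) (nat_lit 1292) (nat_lit 0) (XT.lf (nat_lit 0) (nat_lit 3354769094) (nat_lit 1140) (nat_lit 2679000530) (nat_lit 1216) (nat_lit 1104009581) (nat_lit 308) (nat_lit 5) (nat_lit 323) (nat_lit 5) (nat_lit 324) (nat_lit 5) (nat_lit 425) (nat_lit 392) (nat_lit 383)) (XT.nd (nat_lit 78) (nat_lit 0) (nat_lit 0) (XT.lf (nat_lit 0) (nat_lit 1272207358) (nat_lit 1216) (nat_lit 744955779) (nat_lit 1292) (nat_lit 5182292942) (nat_lit 291) (nat_lit 5) (nat_lit 307) (nat_lit 5) (nat_lit 308) (nat_lit 5) (nat_lit 426) (nat_lit 392) (nat_lit 382)) (XT.lf (nat_lit 0) (nat_lit 5169918454) (nat_lit 1292) (nat_lit 821916928) (nat_lit 76) (nat_lit 1272031281)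 (nat_lit 291) (nat_lit 5) (nat_lit 308) (nat_lit 5) (nat_lit 292) (nat_lit 5) (nat_lit 427) (nat_lit 392) (nat_lit 381)))) (XT.nd (nat_lit 156) (nat_lit 684) (nat_lit 0) (XT.nd (nat_lit 78) (nat_lit 608) (nat_lit 0) (XT.lf (nat_lit 0) (nat_lit 1027558657) (nat_lit 836) (nat_lit 2916582717) (nat_lit 76) (nat_lit 3386917538) (nat_lit 280) (nat_lit 5) (nat_lit 291) (nat_lit 5) (nat_lit 281) (nat_lit 5) (nat_lit 428) (nat_lit 392) (nat_lit 380)) (XT.lf (nat_lit 0) (nat_lit 2358452070) (nat_lit 608) (nat_lit 1786255971) (nat_lit 684) (nat_lit 3256628538) (nat_lit 272) (nat_lit 5) (nat_lit 280) (nat_lit 5) (nat_lit 281) (nat_lit 5) (nat_lit 429) (nat_lit 392) (nat_lit 379))) (XT.nd (nat_lit 78) (nat_lit 76) (nat_lit 0) (XT.lf (nat_lit 0) (nat_lit 286621540) (nat_lit 608) (nat_lit 7020084672) (nat_lit 684) (nat_lit 168490048) (nat_lit 264) (nat_lit 5) (nat_lit 272) (nat_lit 5) (nat_lit 273) (nat_lit 5) (nat_lit 430) (nat_lit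 392) (nat_lit 378)) (XT.lf (nat_lit 0) (nat_lit 2938023183) (nat_lit 684) (nat_lit 1811457412) (nat_lit 76) (nat_lit 2801400043) (nat_lit 263) (nat_lit 5) (nat_lit 272) (nat_lit 5) (nat_lit 264) (nat_lit 5) (nat_lit 431) (nat_lit 392) (nat_lit 377))))) (XT.nd (nat_lit 312) (nat_lit 1596) (nat_lit 0) (XT.nd (nat_lit 156) (nat_lit 532) (nat_lit 0) (XT.nd (nat_lit 78) (nat_lit 608) (nat_lit 0) (XT.lf (nat_lit 0) (nat_lit 3706412748) (nat_lit 532) (nat_lit 2381423144) (nat_lit 608) (nat_lit 1542357442) (nat_lit 256) (nat_lit 5) (nat_lit 263) (nat_lit 5) (nat_lit 264) (nat_lit 5) (nat_lit 432) (nat_lit 392) (nat_lit 376)) (XT.lf (nat_lit 0) (nat_lit 1542400185) (nat_lit 608) (nat_lit 6073888008) (nat_lit 76) (nat_lit 96529007) (nat_lit 248) (nat_lit 5) (nat_lit 256) (nat_lit 5) (nat_lit 249) (nat_lit 5) (nat_lit 433) (nat_lit 392) (nat_lit 375))) (XT.nd (nat_lit 78) (nat_lit 532) (nat_lit 0) (XT.lf (nat_lit 0) (nat_lit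 4672259531) (nat_lit 608) (nat_lit 480375560) (nat_lit 76) (nat_lit 2645331286) (nat_lit 248) (nat_lit 5) (nat_lit 256) (nat_lit 5) (nat_lit 249) (nat_lit 5) (nat_lit 434) (nat_lit 392) (nat_lit 374)) (XT.lf (nat_lit 0) (nat_lit 5293601873) (nat_lit 532) (nat_lit 2575594830) (nat_lit 608) (nat_lit 17289014) (nat_lit 241) (nat_lit 5) (nat_lit 248) (nat_lit 5) (nat_lit 249) (nat_lit 5) (nat_lit 435) (nat_lit 392) (nat_lit 373)))) (XT.nd (nat_lit 156) (nat_lit 532) (nat_lit 0) (XT.nd (nat_lit 78) (nat_lit 456) (nat_lit 0) (XT.lf (nat_lit 0) (nat_lit 3082244274) (nat_lit 608) (nat_lit 4765375117) (nat_lit 76) (nat_lit 130333398) (nat_lit 233) (nat_lit 5) (nat_lit 241) (nat_lit 5) (nat_lit 234) (nat_lit 5) (nat_lit 436) (nat_lit 392) (nat_lit 372)) (XT.lf (nat_lit 0) (nat_lit 1076513566) (nat_lit 456) (nat_lit 5184359336) (nat_lit 532) (nat_lit 1811702335) (nat_lit 227) (nat_lit 5) (nat_lit 233) (nat_lit 5) (nat_lit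 234) (nat_lit 5) (nat_lit 437) (nat_lit 392) (nat_lit 371))) (XT.nd (nat_lit 78) (nat_lit 456) (nat_lit 0) (XT.lf (nat_lit 0) (nat_lit 1311534851) (nat_lit 532) (nat_lit 1083982319) (nat_lit 76) (nat_lit 5774934915) (nat_lit 226) (nat_lit 5) (nat_lit 233) (nat_lit 5) (nat_lit 227) (nat_lit 5) (nat_lit 438) (nat_lit 392) (nat_lit 370)) (XT.lf (nat_lit 0) (nat_lit 4472075580) (nat_lit 532) (nat_lit 3282000863) (nat_lit 76) (nat_lit 517259412) (nat_lit 220) (nat_lit 5) (nat_lit 227) (nat_lit 5) (nat_lit 221) (nat_lit 5) (nat_lit 439) (nat_lit 392) (nat_lit 369)))))) (XT.nd (nat_lit 624) (nat_lit 2128) (nat_lit 0) (XT.nd (nat_lit 312) (nat_lit 1292) (nat_lit 0) (XT.nd (nat_lit 156) (nat_lit 456) (nat_lit 0) (XT.nd (nat_lit 78) (nat_lit 532) (nat_lit 0) (XT.lf (nat_lit 0) (nat_lit 2832060875) (nat_lit 456) (nat_lit 4885402303) (nat_lit 532) (nat_lit 658091104) (nat_lit 214) (nat_lit 5) (nat_lit 220) (nat_lit 5) (nat_lit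 221) (nat_lit 5) (nat_lit 440) (nat_lit 392) (nat_lit 368)) (XT.lf (nat_lit 0) (nat_lit 609646533) (nat_lit 456) (nat_lit 1885254651) (nat_lit 532) (nat_lit 5988226959) (nat_lit 207) (nat_lit 5) (nat_lit 213) (nat_lit 5) (nat_lit 214) (nat_lit 5) (nat_lit 441) (nat_lit 392) (nat_lit 367))) (XT.nd (nat_lit 78) (nat_lit 456) (nat_lit 0) (XT.lf (nat_lit 0) (nat_lit 5726925317) (nat_lit 532) (nat_lit 1642961482) (nat_lit 76) (nat_lit 1223925176) (nat_lit 207) (nat_lit 5) (nat_lit 214) (nat_lit 5) (nat_lit 208) (nat_lit 5) (nat_lit 442) (nat_lit 392) (nat_lit 366)) (XT.lf (nat_lit 0) (nat_lit 337265430) (nat_lit 456) (nat_lit 3952956023) (nat_lit 76) (nat_lit 4417623380) (nat_lit 201) (nat_lit 5) (nat_lit 207) (nat_lit 5) (nat_lit 202) (nat_lit 5) (nat_lit 443) (nat_lit 392) (nat_lit 365)))) (XT.nd (nat_lit 156) (nat_lit 456) (nat_lit 0) (XT.nd (nat_lit 78) (nat_lit 380) (nat_lit 0) (XT.lf (nat_lit 0) (nat_lit 2482609109)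 (nat_lit 456) (nat_lit 1069995006) (nat_lit 532) (nat_lit 5272670096) (nat_lit 195) (nat_lit 5) (nat_lit 201) (nat_lit 5) (nat_lit 202) (nat_lit 5) (nat_lit 444) (nat_lit 392) (nat_lit 364)) (XT.lf (nat_lit 0) (nat_lit 136169779) (nat_lit 380) (nat_lit 6724408503) (nat_lit 456) (nat_lit 2085770300) (nat_lit 190) (nat_lit 5) (nat_lit 195) (nat_lit 5) (nat_lit 196) (nat_lit 5) (nat_lit 445) (nat_lit 392) (nat_lit 363))) (XT.nd (nat_lit 78) (nat_lit 380) (nat_lit 0) (XT.lf (nat_lit 0) (nat_lit 1182035960) (nat_lit 456) (nat_lit 2244649177) (nat_lit 76) (nat_lit 5643772319) (nat_lit 189) (nat_lit 5) (nat_lit 195) (nat_lit 5) (nat_lit 190) (nat_lit 5) (nat_lit 446) (nat_lit 392) (nat_lit 362)) (XT.lf (nat_lit 0) (nat_lit 4484588537) (nat_lit 456) (nat_lit 4702996034) (nat_lit 76) (nat_lit 10733214) (nat_lit 184) (nat_lit 5) (nat_lit 190) (nat_lit 5) (nat_lit 185) (nat_lit 5) (nat_lit 447) (nat_lit 392) (nat_lit 361)))))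 (XT.nd (nat_lit 312) (nat_lit 1064) (nat_lit 0) (XT.nd (nat_lit 156) (nat_lit 684) (nat_lit 0) (XT.nd (nat_lit 78) (nat_lit 76) (nat_lit 0) (XT.lf (nat_lit 0) (nat_lit 2070128748) (nat_lit 304) (nat_lit 5828915152) (nat_lit 380) (nat_lit 1430591785) (nat_lit 180) (nat_lit 5) (nat_lit 184) (nat_lit 5) (nat_lit 185) (nat_lit 5) (nat_lit 448) (nat_lit 392) (nat_lit 360)) (XT.lf (nat_lit 0) (nat_lit 1897410186) (nat_lit 380) (nat_lit 430510190) (nat_lit 76) (nat_lit 7136883017) (nat_lit 179) (nat_lit 5) (nat_lit 184) (nat_lit 5) (nat_lit 180) (nat_lit 5) (nat_lit 449) (nat_lit 392) (nat_lit 359))) (XT.nd (nat_lit 78) (nat_lit 304) (nat_lit 0) (XT.lf (nat_lit 0) (nat_lit 5311370462) (nat_lit 456) (nat_lit 2985801100) (nat_lit 76) (nat_lit 1305989484) (nat_lit 174) (nat_lit 5) (nat_lit 180) (nat_lit 5) (nat_lit 175) (nat_lit 5) (nat_lit 450) (nat_lit 392) (nat_lit 358)) (XT.lf (nat_lit 0) (nat_lit 4108287990) (nat_lit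 304) (nat_lit 4725426987) (nat_lit 380) (nat_lit 911781307) (nat_lit 170) (nat_lit 5) (nat_lit 174) (nat_lit 5) (nat_lit 175) (nat_lit 5) (nat_lit 451) (nat_lit 392) (nat_lit 357)))) (XT.nd (nat_lit 156) (nat_lit 684) (nat_lit 0) (XT.nd (nat_lit 78) (nat_lit 0) (nat_lit 0) (XT.lf (nat_lit 0) (nat_lit 1500405465) (nat_lit 304) (nat_lit 1003318226) (nat_lit 380) (nat_lit 7388115204) (nat_lit 165) (nat_lit 5) (nat_lit 169) (nat_lit 5) (nat_lit 170) (nat_lit 5) (nat_lit 452) (nat_lit 392) (nat_lit 356)) (XT.lf (nat_lit 0) (nat_lit 6028074653) (nat_lit 380) (nat_lit 1199690095) (nat_lit 76) (nat_lit 2813800334) (nat_lit 165) (nat_lit 5) (nat_lit 170) (nat_lit 5) (nat_lit 166) (nat_lit 5) (nat_lit 453) (nat_lit 392) (nat_lit 355))) (XT.nd (nat_lit 78) (nat_lit 380) (nat_lit 0) (XT.lf (nat_lit 0) (nat_lit 6232369486) (nat_lit 304) (nat_lit 3437387420) (nat_lit 380) (nat_lit 525683295) (nat_lit 161) (nat_lit 5) (nat_lit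 165) (nat_lit 5) (nat_lit 166) (nat_lit 5) (nat_lit 454) (nat_lit 392) (nat_lit 354)) (XT.lf (nat_lit 0) (nat_lit 2999889865) (nat_lit 380) (nat_lit 6848477337) (nat_lit 76) (nat_lit 504895598) (nat_lit 156) (nat_lit 5) (nat_lit 161) (nat_lit 5) (nat_lit 157) (nat_lit 5) (nat_lit 455) (nat_lit 392) (nat_lit 353))))))))
noncomputable def xc78 : XT := (XT.nd (nat_lit 2340) (nat_lit 2812) (nat_lit 0) (XT.nd (nat_lit 1170) (nat_lit 2052) (nat_lit 0) (XT.nd (nat_lit 546) (nat_lit 1520) (nat_lit 0) (XT.nd (nat_lit 234) (nat_lit 836) (nat_lit 0) (XT.nd (nat_lit 78) (nat_lit 380) (nat_lit 0) (XT.lf (nat_lit 0) (nat_lit 648313913) (nat_lit 304) (nat_lit 5995655719) (nat_lit 380) (nat_lit 3870999880) (nat_lit 152) (nat_lit 5) (nat_lit 156) (nat_lit 5) (nat_lit 157) (nat_lit 5) (nat_lit 456) (nat_lit 392) (nat_lit 352)) (XT.nd (nat_lit 78) (nat_lit 380) (nat_lit 0) (XT.lf (nat_lit 0) (nat_lit 8423259350) (nat_lit 304) (nat_lit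 1986726292) (nat_lit 380) (nat_lit 271167962) (nat_lit 152) (nat_lit 5) (nat_lit 156) (nat_lit 5) (nat_lit 157) (nat_lit 5) (nat_lit 457) (nat_lit 392) (nat_lit 351)) (XT.lf (nat_lit 0) (nat_lit 3388848113) (nat_lit 380) (nat_lit 5303494076) (nat_lit 76) (nat_lit 2158416778) (nat_lit 147) (nat_lit 5) (nat_lit 152) (nat_lit 5) (nat_lit 148) (nat_lit 5) (nat_lit 458) (nat_lit 392) (nat_lit 350)))) (XT.nd (nat_lit 156) (nat_lit 608) (nat_lit 0) (XT.nd (nat_lit 78) (nat_lit 0) (nat_lit 0) (XT.lf (nat_lit 0) (nat_lit 2549035490) (nat_lit 228) (nat_lit 4616443655) (nat_lit 304) (nat_lit 3859529062) (nat_lit 144) (nat_lit 5) (nat_lit 147) (nat_lit 5) (nat_lit 148) (nat_lit 5) (nat_lit 459) (nat_lit 392) (nat_lit 349)) (XT.lf (nat_lit 0) (nat_lit 10660483472) (nat_lit 228) (nat_lit 394325093) (nat_lit 304) (nat_lit 149698459) (nat_lit 144) (nat_lit 5) (nat_lit 147) (nat_lit 5) (nat_lit 148) (nat_lit 5) (nat_lit 460) (nat_lit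 392) (nat_lit 348))) (XT.nd (nat_lit 78) (nat_lit 228) (nat_lit 0) (XT.lf (nat_lit 0) (nat_lit 3659070530) (nat_lit 380) (nat_lit 3770474328) (nat_lit 76) (nat_lit 3957012446) (nat_lit 139) (nat_lit 5) (nat_lit 144) (nat_lit 5) (nat_lit 140) (nat_lit 5) (nat_lit 461) (nat_lit 392) (nat_lit 347)) (XT.lf (nat_lit 0) (nat_lit 4455335690) (nat_lit 228) (nat_lit 3123386987) (nat_lit 304) (nat_lit 3995316820) (nat_lit 136) (nat_lit 5) (nat_lit 139) (nat_lit 5) (nat_lit 140) (nat_lit 5) (nat_lit 462) (nat_lit 392) (nat_lit 346))))) (XT.nd (nat_lit 312) (nat_lit 760) (nat_lit 0) (XT.nd (nat_lit 156) (nat_lit 456) (nat_lit 0) (XT.nd (nat_lit 78) (nat_lit 76) (nat_lit 0) (XT.lf (nat_lit 0) (nat_lit 1164101609) (nat_lit 228) (nat_lit 10461890663) (nat_lit 304) (nat_lit 140856673) (nat_lit 133) (nat_lit 5) (nat_lit 136) (nat_lit 5) (nat_lit 137) (nat_lit 5) (nat_lit 463) (nat_lit 392) (nat_lit 345)) (XT.lf (nat_lit 0) (nat_lit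 3806011681) (nat_lit 304) (nat_lit 2275453956) (nat_lit 76) (nat_lit 5881331290) (nat_lit 132) (nat_lit 5) (nat_lit 136) (nat_lit 5) (nat_lit 133) (nat_lit 5) (nat_lit 464) (nat_lit 392) (nat_lit 344))) (XT.nd (nat_lit 78) (nat_lit 228) (nat_lit 0) (XT.lf (nat_lit 0) (nat_lit 6341444791) (nat_lit 228) (nat_lit 1537458654) (nat_lit 304) (nat_lit 4285367931) (nat_lit 129) (nat_lit 5) (nat_lit 132) (nat_lit 5) (nat_lit 133) (nat_lit 5) (nat_lit 465) (nat_lit 392) (nat_lit 343)) (XT.lf (nat_lit 0) (nat_lit 2834318619) (nat_lit 228) (nat_lit 9270193792) (nat_lit 304) (nat_lit 266364954) (nat_lit 126) (nat_lit 5) (nat_lit 129) (nat_lit 5) (nat_lit 130) (nat_lit 5) (nat_lit 466) (nat_lit 392) (nat_lit 342)))) (XT.nd (nat_lit 156) (nat_lit 456) (nat_lit 0) (XT.nd (nat_lit 78) (nat_lit 228) (nat_lit 0) (XT.lf (nat_lit 0) (nat_lit 3822278333) (nat_lit 304) (nat_lit 847542158) (nat_lit 76) (nat_lit 7912007617) (nat_lit 125)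 (nat_lit 5) (nat_lit 129) (nat_lit 5) (nat_lit 126) (nat_lit 5) (nat_lit 467) (nat_lit 392) (nat_lit 341)) (XT.lf (nat_lit 0) (nat_lit 8059498630) (nat_lit 304) (nat_lit 4620891741) (nat_lit 76) (nat_lit 117702691) (nat_lit 122) (nat_lit 5) (nat_lit 126) (nat_lit 5) (nat_lit 123) (nat_lit 5) (nat_lit 468) (nat_lit 392) (nat_lit 340))) (XT.nd (nat_lit 78) (nat_lit 228) (nat_lit 0) (XT.lf (nat_lit 0) (nat_lit 4428520856) (nat_lit 228) (nat_lit 8044601336) (nat_lit 304) (nat_lit 546248035) (nat_lit 119) (nat_lit 5) (nat_lit 122) (nat_lit 5) (nat_lit 123) (nat_lit 5) (nat_lit 469) (nat_lit 392) (nat_lit 339)) (XT.lf (nat_lit 0) (nat_lit 489883484) (nat_lit 152) (nat_lit 3212211459) (nat_lit 228) (nat_lit 9543990870) (nat_lit 116) (nat_lit 5) (nat_lit 118) (nat_lit 5) (nat_lit 119) (nat_lit 5) (nat_lit 470) (nat_lit 392) (nat_lit 338)))))) (XT.nd (nat_lit 546) (nat_lit 1140) (nat_lit 0) (XT.nd (nat_lit 234) (nat_lit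 456) (nat_lit 0) (XT.nd (nat_lit 78) (nat_lit 456) (nat_lit 0) (XT.lf (nat_lit 0) (nat_lit 8123790087) (nat_lit 228) (nat_lit 3562613430) (nat_lit 76) (nat_lit 1791333289) (nat_lit 116) (nat_lit 5) (nat_lit 119) (nat_lit 5) (nat_lit 117) (nat_lit 5) (nat_lit 471) (nat_lit 392) (nat_lit 337)) (XT.nd (nat_lit 78) (nat_lit 228) (nat_lit 0) (XT.lf (nat_lit 0) (nat_lit 5911181500) (nat_lit 228) (nat_lit 6809273332) (nat_lit 304) (nat_lit 994615477) (nat_lit 113) (nat_lit 5) (nat_lit 116) (nat_lit 5) (nat_lit 117) (nat_lit 5) (nat_lit 472) (nat_lit 392) (nat_lit 336)) (XT.lf (nat_lit 0) (nat_lit 1703774271) (nat_lit 152) (nat_lit 1730054223) (nat_lit 228) (nat_lit 10524493421) (nat_lit 110) (nat_lit 5) (nat_lit 112) (nat_lit 5) (nat_lit 113) (nat_lit 5) (nat_lit 473) (nat_lit 392) (nat_lit 335)))) (XT.nd (nat_lit 156) (nat_lit 228) (nat_lit 0) (XT.nd (nat_lit 78) (nat_lit 228) (nat_lit 0) (XT.lf (nat_lit 0) (nat_lit 8042484682)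 (nat_lit 228) (nat_lit 2673721437) (nat_lit 76) (nat_lit 3490351355) (nat_lit 110) (nat_lit 5) (nat_lit 113) (nat_lit 5) (nat_lit 111) (nat_lit 5) (nat_lit 474) (nat_lit 392) (nat_lit 334)) (XT.lf (nat_lit 0) (nat_lit 7241457784) (nat_lit 228) (nat_lit 5590124558) (nat_lit 304) (nat_lit 1629394567) (nat_lit 107) (nat_lit 5) (nat_lit 110) (nat_lit 5) (nat_lit 111) (nat_lit 5) (nat_lit 475) (nat_lit 392) (nat_lit 333))) (XT.nd (nat_lit 78) (nat_lit 0) (nat_lit 0) (XT.lf (nat_lit 0) (nat_lit 2733134505) (nat_lit 152) (nat_lit 257949498) (nat_lit 228) (nat_lit 11730796784) (nat_lit 104) (nat_lit 5) (nat_lit 106) (nat_lit 5) (nat_lit 107) (nat_lit 5) (nat_lit 476) (nat_lit 392) (nat_lit 332)) (XT.lf (nat_lit 0) (nat_lit 7797177565) (nat_lit 228) (nat_lit 2000855990) (nat_lit 76) (nat_lit 5189703820) (nat_lit 104) (nat_lit 5) (nat_lit 107) (nat_lit 5) (nat_lit 105) (nat_lit 5) (nat_lit 477) (nat_lit 392) (nat_lit 331)))))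 (XT.nd (nat_lit 312) (nat_lit 608) (nat_lit 0) (XT.nd (nat_lit 156) (nat_lit 152) (nat_lit 0) (XT.nd (nat_lit 78) (nat_lit 228) (nat_lit 0) (XT.lf (nat_lit 0) (nat_lit 8372124810) (nat_lit 152) (nat_lit 4415458936) (nat_lit 228) (nat_lit 2472784029) (nat_lit 102) (nat_lit 5) (nat_lit 104) (nat_lit 5) (nat_lit 105) (nat_lit 5) (nat_lit 478) (nat_lit 392) (nat_lit 330)) (XT.lf (nat_lit 0) (nat_lit 2362771321) (nat_lit 228) (nat_lit 12024499562) (nat_lit 76) (nat_lit 1152535394) (nat_lit 99) (nat_lit 5) (nat_lit 102) (nat_lit 5) (nat_lit 100) (nat_lit 5) (nat_lit 479) (nat_lit 392) (nat_lit 329))) (XT.nd (nat_lit 78) (nat_lit 152) (nat_lit 0) (XT.lf (nat_lit 0) (nat_lit 7365081149) (nat_lit 228) (nat_lit 1597960038) (nat_lit 76) (nat_lit 6861712445) (nat_lit 99) (nat_lit 5) (nat_lit 102) (nat_lit 5) (nat_lit 100) (nat_lit 5) (nat_lit 480) (nat_lit 392) (nat_lit 328)) (XT.lf (nat_lit 0) (nat_lit 9248354243) (nat_lit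 152) (nat_lit 3316671406) (nat_lit 228) (nat_lit 3551798581) (nat_lit 97) (nat_lit 5) (nat_lit 99) (nat_lit 5) (nat_lit 100) (nat_lit 5) (nat_lit 481) (nat_lit 392) (nat_lit 327)))) (XT.nd (nat_lit 156) (nat_lit 380) (nat_lit 0) (XT.nd (nat_lit 78) (nat_lit 0) (nat_lit 0) (XT.lf (nat_lit 0) (nat_lit 1512135295) (nat_lit 228) (nat_lit 12415210724) (nat_lit 76) (nat_lit 2488734322) (nat_lit 94) (nat_lit 5) (nat_lit 97) (nat_lit 5) (nat_lit 95) (nat_lit 5) (nat_lit 482) (nat_lit 392) (nat_lit 326)) (XT.lf (nat_lit 0) (nat_lit 6718437397) (nat_lit 228) (nat_lit 1527623806) (nat_lit 76) (nat_lit 8475344440) (nat_lit 94) (nat_lit 5) (nat_lit 97) (nat_lit 5) (nat_lit 95) (nat_lit 5) (nat_lit 483) (nat_lit 392) (nat_lit 325))) (XT.nd (nat_lit 78) (nat_lit 228) (nat_lit 0) (XT.lf (nat_lit 0) (nat_lit 9806310894) (nat_lit 152) (nat_lit 2329032140) (nat_lit 228) (nat_lit 4898916821) (nat_lit 92) (nat_lit 5) (nat_lit 94) (nat_lit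 5) (nat_lit 95) (nat_lit 5) (nat_lit 484) (nat_lit 392) (nat_lit 324)) (XT.lf (nat_lit 0) (nat_lit 403557367) (nat_lit 228) (nat_lit 13230974272) (nat_lit 76) (nat_lit 3720297471) (nat_lit 89) (nat_lit 5) (nat_lit 92) (nat_lit 5) (nat_lit 90) (nat_lit 5) (nat_lit 485) (nat_lit 392) (nat_lit 323))))))) (XT.nd (nat_lit 1170) (nat_lit 1368) (nat_lit 0) (XT.nd (nat_lit 546) (nat_lit 760) (nat_lit 0) (XT.nd (nat_lit 234) (nat_lit 380) (nat_lit 0) (XT.nd (nat_lit 78) (nat_lit 304) (nat_lit 0) (XT.lf (nat_lit 0) (nat_lit 5823820932) (nat_lit 228) (nat_lit 1862632261) (nat_lit 76) (nat_lit 9995393223) (nat_lit 89) (nat_lit 5) (nat_lit 92) (nat_lit 5) (nat_lit 90) (nat_lit 5) (nat_lit 486) (nat_lit 392) (nat_lit 322)) (XT.nd (nat_lit 78) (nat_lit 152) (nat_lit 0) (XT.lf (nat_lit 0) (nat_lit 9971536153) (nat_lit 152) (nat_lit 1492569956) (nat_lit 228) (nat_lit 6552847128) (nat_lit 87) (nat_lit 5) (nat_lit 89) (nat_lit 5)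 (nat_lit 90) (nat_lit 5) (nat_lit 487) (nat_lit 392) (nat_lit 321)) (XT.lf (nat_lit 0) (nat_lit 3794276799) (nat_lit 152) (nat_lit 13543486244) (nat_lit 228) (nat_lit 1022426690) (nat_lit 85) (nat_lit 5) (nat_lit 87) (nat_lit 5) (nat_lit 88) (nat_lit 4) (nat_lit 488) (nat_lit 392) (nat_lit 320)))) (XT.nd (nat_lit 156) (nat_lit 152) (nat_lit 0) (XT.nd (nat_lit 78) (nat_lit 152) (nat_lit 0) (XT.lf (nat_lit 0) (nat_lit 4641317128) (nat_lit 228) (nat_lit 2687749626) (nat_lit 76) (nat_lit 11381551540) (nat_lit 84) (nat_lit 5) (nat_lit 87) (nat_lit 5) (nat_lit 85) (nat_lit 5) (nat_lit 489) (nat_lit 392) (nat_lit 319)) (XT.lf (nat_lit 0) (nat_lit 9657082435) (nat_lit 152) (nat_lit 853074023) (nat_lit 228) (nat_lit 8559428825) (nat_lit 82) (nat_lit 5) (nat_lit 84) (nat_lit 5) (nat_lit 85) (nat_lit 5) (nat_lit 490) (nat_lit 392) (nat_lit 318))) (XT.nd (nat_lit 78) (nat_lit 76) (nat_lit 0) (XT.lf (nat_lit 0) (nat_lit 2921533836)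 (nat_lit 76) (nat_lit 13707980545) (nat_lit 152) (nat_lit 2807574513) (nat_lit 81) (nat_lit 5) (nat_lit 82) (nat_lit 5) (nat_lit 83) (nat_lit 4) (nat_lit 491) (nat_lit 392) (nat_lit 317)) (XT.lf (nat_lit 0) (nat_lit 3123556615) (nat_lit 152) (nat_lit 4101780388) (nat_lit 76) (nat_lit 12587356671) (nat_lit 80) (nat_lit 5) (nat_lit 82) (nat_lit 5) (nat_lit 81) (nat_lit 5) (nat_lit 492) (nat_lit 392) (nat_lit 316))))) (XT.nd (nat_lit 312) (nat_lit 304) (nat_lit 0) (XT.nd (nat_lit 156) (nat_lit 228) (nat_lit 0) (XT.nd (nat_lit 78) (nat_lit 76) (nat_lit 0) (XT.lf (nat_lit 0) (nat_lit 8761357296) (nat_lit 152) (nat_lit 463235706) (nat_lit 228) (nat_lit 10972688751) (nat_lit 78) (nat_lit 5) (nat_lit 80) (nat_lit 5) (nat_lit 81) (nat_lit 5) (nat_lit 493) (nat_lit 392) (nat_lit 315)) (XT.lf (nat_lit 0) (nat_lit 1400382320) (nat_lit 76) (nat_lit 14190372419) (nat_lit 152) (nat_lit 5000190986) (nat_lit 77) (nat_lit 5) (nat_lit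 78) (nat_lit 5) (nat_lit 79) (nat_lit 4) (nat_lit 494) (nat_lit 392) (nat_lit 314))) (XT.nd (nat_lit 78) (nat_lit 152) (nat_lit 0) (XT.lf (nat_lit 0) (nat_lit 1214584530) (nat_lit 152) (nat_lit 6219952343) (nat_lit 76) (nat_lit 13558984526) (nat_lit 76) (nat_lit 5) (nat_lit 78) (nat_lit 5) (nat_lit 77) (nat_lit 5) (nat_lit 495) (nat_lit 392) (nat_lit 313)) (XT.lf (nat_lit 0) (nat_lit 7165629417) (nat_lit 152) (nat_lit 383955517) (nat_lit 228) (nat_lit 13856076779) (nat_lit 74) (nat_lit 5) (nat_lit 76) (nat_lit 5) (nat_lit 77) (nat_lit 5) (nat_lit 496) (nat_lit 392) (nat_lit 312)))) (XT.nd (nat_lit 156) (nat_lit 228) (nat_lit 0) (XT.nd (nat_lit 78) (nat_lit 76) (nat_lit 0) (XT.lf (nat_lit 0) (nat_lit 14169692874) (nat_lit 228) (nat_lit 879317493) (nat_lit 76) (nat_lit 6778305101) (nat_lit 74) (nat_lit 5) (nat_lit 77) (nat_lit 5) (nat_lit 75) (nat_lit 4) (nat_lit 497) (nat_lit 392) (nat_lit 311)) (XT.lf (nat_lit 0)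 (nat_lit 13070777789) (nat_lit 76) (nat_lit 8013586100) (nat_lit 152) (nat_lit 1174377082) (nat_lit 73) (nat_lit 5) (nat_lit 74) (nat_lit 5) (nat_lit 75) (nat_lit 4) (nat_lit 498) (nat_lit 392) (nat_lit 310))) (XT.nd (nat_lit 78) (nat_lit 0) (nat_lit 0) (XT.lf (nat_lit 0) (nat_lit 4731141169) (nat_lit 152) (nat_lit 685843903) (nat_lit 228) (nat_lit 17283907701) (nat_lit 70) (nat_lit 5) (nat_lit 72) (nat_lit 5) (nat_lit 73) (nat_lit 5) (nat_lit 499) (nat_lit 392) (nat_lit 309)) (XT.lf (nat_lit 0) (nat_lit 12308803426) (nat_lit 228) (nat_lit 4038715085) (nat_lit 76) (nat_lit 6804653070) (nat_lit 70) (nat_lit 5) (nat_lit 73) (nat_lit 5) (nat_lit 71) (nat_lit 4) (nat_lit 500) (nat_lit 392) (nat_lit 308)))))) (XT.nd (nat_lit 624) (nat_lit 684) (nat_lit 0) (XT.nd (nat_lit 312) (nat_lit 304) (nat_lit 0) (XT.nd (nat_lit 156) (nat_lit 76) (nat_lit 0) (XT.nd (nat_lit 78) (nat_lit 228) (nat_lit 0) (XT.lf (nat_lit 0) (nat_lit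 10446290247) (nat_lit 76) (nat_lit 9035924756) (nat_lit 152) (nat_lit 4132529418) (nat_lit 69) (nat_lit 5) (nat_lit 70) (nat_lit 5) (nat_lit 71) (nat_lit 4) (nat_lit 501) (nat_lit 392) (nat_lit 307)) (XT.lf (nat_lit 0) (nat_lit 1295763783) (nat_lit 152) (nat_lit 1450948895) (nat_lit 228) (nat_lit 21343041394) (nat_lit 66) (nat_lit 5) (nat_lit 68) (nat_lit 5) (nat_lit 69) (nat_lit 5) (nat_lit 502) (nat_lit 392) (nat_lit 306))) (XT.nd (nat_lit 78) (nat_lit 76) (nat_lit 0) (XT.lf (nat_lit 0) (nat_lit 9912478406) (nat_lit 228) (nat_lit 8275709580) (nat_lit 76) (nat_lit 6384703117) (nat_lit 66) (nat_lit 5) (nat_lit 69) (nat_lit 5) (nat_lit 67) (nat_lit 4) (nat_lit 503) (nat_lit 392) (nat_lit 305)) (XT.lf (nat_lit 0) (nat_lit 6735825562) (nat_lit 76) (nat_lit 10605207802) (nat_lit 152) (nat_lit 7728055128) (nat_lit 65) (nat_lit 5) (nat_lit 66) (nat_lit 5) (nat_lit 67) (nat_lit 4) (nat_lit 504) (nat_lit 392) (nat_lit 304))))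 (XT.nd (nat_lit 156) (nat_lit 76) (nat_lit 0) (XT.nd (nat_lit 78) (nat_lit 228) (nat_lit 0) (XT.lf (nat_lit 0) (nat_lit 22308564357) (nat_lit 76) (nat_lit 2736497120) (nat_lit 152) (nat_lit 533532543) (nat_lit 65) (nat_lit 5) (nat_lit 66) (nat_lit 5) (nat_lit 67) (nat_lit 4) (nat_lit 505) (nat_lit 392) (nat_lit 303)) (XT.lf (nat_lit 0) (nat_lit 6884293421) (nat_lit 228) (nat_lit 13789363598) (nat_lit 76) (nat_lit 5423495460) (nat_lit 62) (nat_lit 5) (nat_lit 65) (nat_lit 5) (nat_lit 63) (nat_lit 4) (nat_lit 506) (nat_lit 392) (nat_lit 302))) (XT.nd (nat_lit 78) (nat_lit 0) (nat_lit 0) (XT.lf (nat_lit 0) (nat_lit 1733058189) (nat_lit 76) (nat_lit 12827699380) (nat_lit 152) (nat_lit 12068947495) (nat_lit 61) (nat_lit 5) (nat_lit 62) (nat_lit 5) (nat_lit 63) (nat_lit 4) (nat_lit 507) (nat_lit 392) (nat_lit 301)) (XT.lf (nat_lit 0) (nat_lit 17946633411) (nat_lit 76) (nat_lit 4630185620) (nat_lit 152) (nat_lit 4598136727)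 (nat_lit 61) (nat_lit 5) (nat_lit 62) (nat_lit 5) (nat_lit 63) (nat_lit 4) (nat_lit 508) (nat_lit 392) (nat_lit 300))))) (XT.nd (nat_lit 312) (nat_lit 380) (nat_lit 0) (XT.nd (nat_lit 156) (nat_lit 76) (nat_lit 0) (XT.nd (nat_lit 78) (nat_lit 0) (nat_lit 0) (XT.lf (nat_lit 0) (nat_lit 3111269250) (nat_lit 228) (nat_lit 20811909307) (nat_lit 76) (nat_lit 3810245947) (nat_lit 58) (nat_lit 5) (nat_lit 61) (nat_lit 5) (nat_lit 59) (nat_lit 4) (nat_lit 509) (nat_lit 392) (nat_lit 299)) (XT.lf (nat_lit 0) (nat_lit 11070201113) (nat_lit 228) (nat_lit 4709298022) (nat_lit 76) (nat_lit 12524463123) (nat_lit 58) (nat_lit 5) (nat_lit 61) (nat_lit 5) (nat_lit 59) (nat_lit 4) (nat_lit 510) (nat_lit 392) (nat_lit 298))) (XT.nd (nat_lit 78) (nat_lit 0) (nat_lit 0) (XT.lf (nat_lit 0) (nat_lit 12057132206) (nat_lit 76) (nat_lit 7298230096) (nat_lit 152) (nat_lit 9533630564) (nat_lit 57) (nat_lit 5) (nat_lit 58) (nat_lit 5) (nat_lit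 59) (nat_lit 4) (nat_lit 511) (nat_lit 392) (nat_lit 297)) (XT.lf (nat_lit 0) (nat_lit 27922543104) (nat_lit 152) (nat_lit 135943697) (nat_lit 0) (nat_lit 1432084197) (nat_lit 57) (nat_lit 5) (nat_lit 59) (nat_lit 4) (nat_lit 57) (nat_lit 4) (nat_lit 512) (nat_lit 392) (nat_lit 296)))) (XT.nd (nat_lit 156) (nat_lit 152) (nat_lit 0) (XT.nd (nat_lit 78) (nat_lit 76) (nat_lit 0) (XT.lf (nat_lit 0) (nat_lit 6719868786) (nat_lit 152) (nat_lit 12897121693) (nat_lit 76) (nat_lit 10484907809) (nat_lit 55) (nat_lit 5) (nat_lit 57) (nat_lit 5) (nat_lit 56) (nat_lit 4) (nat_lit 513) (nat_lit 392) (nat_lit 295)) (XT.lf (nat_lit 0) (nat_lit 4353355125) (nat_lit 76) (nat_lit 10887240403) (nat_lit 152) (nat_lit 15490033350) (nat_lit 54) (nat_lit 5) (nat_lit 55) (nat_lit 5) (nat_lit 56) (nat_lit 4) (nat_lit 514) (nat_lit 392) (nat_lit 294))) (XT.nd (nat_lit 78) (nat_lit 152) (nat_lit 0) (XT.lf (nat_lit 0) (nat_lit 22333207685)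 (nat_lit 76) (nat_lit 1786744391) (nat_lit 152) (nat_lit 7255179556) (nat_lit 54) (nat_lit 5) (nat_lit 55) (nat_lit 5) (nat_lit 56) (nat_lit 4) (nat_lit 515) (nat_lit 392) (nat_lit 293)) (XT.lf (nat_lit 0) (nat_lit 1335527520) (nat_lit 152) (nat_lit 23186178702) (nat_lit 76) (nat_lit 7512927583) (nat_lit 52) (nat_lit 5) (nat_lit 54) (nat_lit 5) (nat_lit 53) (nat_lit 4) (nat_lit 516) (nat_lit 392) (nat_lit 292))))))))
noncomputable def xc79 : XT := (XT.nd (nat_lit 2340) (nat_lit 228) (nat_lit 0) (XT.nd (nat_lit 1170) (nat_lit 836) (nat_lit 0) (XT.nd (nat_lit 546) (nat_lit 456) (nat_lit 0) (XT.nd (nat_lit 234) (nat_lit 304) (nat_lit 0) (XT.nd (nat_lit 78) (nat_lit 76) (nat_lit 0) (XT.lf (nat_lit 0) (nat_lit 10121388037) (nat_lit 152) (nat_lit 5392283989) (nat_lit 76) (nat_lit 17195596834) (nat_lit 52) (nat_lit 5) (nat_lit 54) (nat_lit 5) (nat_lit 53) (nat_lit 4) (nat_lit 517) (nat_lit 392) (nat_lit 291)) (XT.nd (nat_lit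 78) (nat_lit 0) (nat_lit 0) (XT.lf (nat_lit 0) (nat_lit 13141803322) (nat_lit 76) (nat_lit 6129478094) (nat_lit 152) (nat_lit 14129848270) (nat_lit 51) (nat_lit 5) (nat_lit 52) (nat_lit 5) (nat_lit 53) (nat_lit 4) (nat_lit 518) (nat_lit 392) (nat_lit 290)) (XT.lf (nat_lit 0) (nat_lit 28758831106) (nat_lit 152) (nat_lit 1854309602) (nat_lit 0) (nat_lit 3498711263) (nat_lit 51) (nat_lit 5) (nat_lit 53) (nat_lit 4) (nat_lit 51) (nat_lit 4) (nat_lit 519) (nat_lit 392) (nat_lit 289)))) (XT.nd (nat_lit 156) (nat_lit 76) (nat_lit 0) (XT.nd (nat_lit 78) (nat_lit 76) (nat_lit 0) (XT.lf (nat_lit 0) (nat_lit 3819383812) (nat_lit 152) (nat_lit 17543555964) (nat_lit 76) (nat_lit 13473766622) (nat_lit 49) (nat_lit 5) (nat_lit 51) (nat_lit 5) (nat_lit 50) (nat_lit 4) (nat_lit 520) (nat_lit 392) (nat_lit 288)) (XT.lf (nat_lit 0) (nat_lit 1395672874) (nat_lit 76) (nat_lit 11770973344) (nat_lit 152) (nat_lit 22414852338) (nat_lit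 48) (nat_lit 5) (nat_lit 49) (nat_lit 5) (nat_lit 50) (nat_lit 4) (nat_lit 521) (nat_lit 392) (nat_lit 287))) (XT.nd (nat_lit 78) (nat_lit 76) (nat_lit 0) (XT.lf (nat_lit 0) (nat_lit 21214504285) (nat_lit 76) (nat_lit 1732193681) (nat_lit 152) (nat_lit 13397365740) (nat_lit 48) (nat_lit 5) (nat_lit 49) (nat_lit 5) (nat_lit 50) (nat_lit 4) (nat_lit 522) (nat_lit 392) (nat_lit 286)) (XT.lf (nat_lit 0) (nat_lit 4455290842) (nat_lit 76) (nat_lit 28666149644) (nat_lit 76) (nat_lit 4005027010) (nat_lit 47) (nat_lit 4) (nat_lit 48) (nat_lit 5) (nat_lit 48) (nat_lit 4) (nat_lit 523) (nat_lit 392) (nat_lit 285))))) (XT.nd (nat_lit 312) (nat_lit 228) (nat_lit 0) (XT.nd (nat_lit 156) (nat_lit 76) (nat_lit 0) (XT.nd (nat_lit 78) (nat_lit 76) (nat_lit 0) (XT.lf (nat_lit 0) (nat_lit 5705637725) (nat_lit 152) (nat_lit 13110409341) (nat_lit 76) (nat_lit 19110246433) (nat_lit 46) (nat_lit 5) (nat_lit 48) (nat_lit 5) (nat_lit 47)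 (nat_lit 4) (nat_lit 524) (nat_lit 392) (nat_lit 284)) (XT.lf (nat_lit 0) (nat_lit 7089936407) (nat_lit 76) (nat_lit 8581786453) (nat_lit 152) (nat_lit 23075864213) (nat_lit 45) (nat_lit 5) (nat_lit 46) (nat_lit 5) (nat_lit 47) (nat_lit 4) (nat_lit 525) (nat_lit 392) (nat_lit 283))) (XT.nd (nat_lit 78) (nat_lit 76) (nat_lit 0) (XT.lf (nat_lit 0) (nat_lit 26065806971) (nat_lit 152) (nat_lit 11490628338) (nat_lit 0) (nat_lit 2033213975) (nat_lit 45) (nat_lit 5) (nat_lit 47) (nat_lit 4) (nat_lit 45) (nat_lit 4) (nat_lit 526) (nat_lit 392) (nat_lit 282)) (XT.lf (nat_lit 0) (nat_lit 9333937435) (nat_lit 76) (nat_lit 27589633182) (nat_lit 76) (nat_lit 3528847346) (nat_lit 44) (nat_lit 4) (nat_lit 45) (nat_lit 5) (nat_lit 45) (nat_lit 4) (nat_lit 527) (nat_lit 392) (nat_lit 281)))) (XT.nd (nat_lit 156) (nat_lit 76) (nat_lit 0) (XT.nd (nat_lit 78) (nat_lit 76) (nat_lit 0) (XT.lf (nat_lit 0) (nat_lit 6728331663) (nat_lit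 152) (nat_lit 10429644248) (nat_lit 76) (nat_lit 24178312023) (nat_lit 43) (nat_lit 5) (nat_lit 45) (nat_lit 5) (nat_lit 44) (nat_lit 4) (nat_lit 528) (nat_lit 392) (nat_lit 280)) (XT.lf (nat_lit 0) (nat_lit 11016536381) (nat_lit 76) (nat_lit 6289507146) (nat_lit 152) (nat_lit 24937070275) (nat_lit 42) (nat_lit 5) (nat_lit 43) (nat_lit 5) (nat_lit 44) (nat_lit 4) (nat_lit 529) (nat_lit 392) (nat_lit 279))) (XT.nd (nat_lit 78) (nat_lit 76) (nat_lit 0) (XT.lf (nat_lit 0) (nat_lit 28332475273) (nat_lit 152) (nat_lit 9945662641) (nat_lit 0) (nat_lit 4895065154) (nat_lit 42) (nat_lit 5) (nat_lit 44) (nat_lit 4) (nat_lit 42) (nat_lit 4) (nat_lit 530) (nat_lit 392) (nat_lit 278)) (XT.lf (nat_lit 0) (nat_lit 12105508037) (nat_lit 76) (nat_lit 27741350991) (nat_lit 76) (nat_lit 4279621480) (nat_lit 41) (nat_lit 4) (nat_lit 42) (nat_lit 5) (nat_lit 42) (nat_lit 4) (nat_lit 531) (nat_lit 392) (nat_lit 277)))))) (XT.nd (nat_lit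 546) (nat_lit 456) (nat_lit 0) (XT.nd (nat_lit 234) (nat_lit 228) (nat_lit 0) (XT.nd (nat_lit 78) (nat_lit 76) (nat_lit 0) (XT.lf (nat_lit 0) (nat_lit 6549522275) (nat_lit 152) (nat_lit 10189810350) (nat_lit 76) (nat_lit 28364722252) (nat_lit 40) (nat_lit 5) (nat_lit 42) (nat_lit 5) (nat_lit 41) (nat_lit 4) (nat_lit 532) (nat_lit 392) (nat_lit 276)) (XT.nd (nat_lit 78) (nat_lit 0) (nat_lit 0) (XT.lf (nat_lit 0) (nat_lit 12456068403) (nat_lit 76) (nat_lit 5260351464) (nat_lit 152) (nat_lit 28390298811) (nat_lit 39) (nat_lit 5) (nat_lit 40) (nat_lit 5) (nat_lit 41) (nat_lit 4) (nat_lit 533) (nat_lit 392) (nat_lit 275)) (XT.lf (nat_lit 0) (nat_lit 29364514616) (nat_lit 152) (nat_lit 11251212372) (nat_lit 0) (nat_lit 6519349939) (nat_lit 39) (nat_lit 5) (nat_lit 41) (nat_lit 4) (nat_lit 39) (nat_lit 4) (nat_lit 534) (nat_lit 392) (nat_lit 274)))) (XT.nd (nat_lit 156) (nat_lit 76) (nat_lit 0) (XT.nd (nat_lit 78) (nat_lit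 76) (nat_lit 0) (XT.lf (nat_lit 0) (nat_lit 11961800901) (nat_lit 76) (nat_lit 29547111128) (nat_lit 76) (nat_lit 6680968330) (nat_lit 38) (nat_lit 4) (nat_lit 39) (nat_lit 5) (nat_lit 39) (nat_lit 4) (nat_lit 535) (nat_lit 392) (nat_lit 273)) (XT.lf (nat_lit 0) (nat_lit 4743338497) (nat_lit 152) (nat_lit 13257532754) (nat_lit 76) (nat_lit 31271253216) (nat_lit 37) (nat_lit 5) (nat_lit 39) (nat_lit 5) (nat_lit 38) (nat_lit 4) (nat_lit 536) (nat_lit 392) (nat_lit 272))) (XT.nd (nat_lit 78) (nat_lit 0) (nat_lit 0) (XT.lf (nat_lit 0) (nat_lit 10502322817) (nat_lit 76) (nat_lit 5955118863) (nat_lit 152) (nat_lit 33924969544) (nat_lit 36) (nat_lit 5) (nat_lit 37) (nat_lit 5) (nat_lit 38) (nat_lit 4) (nat_lit 537) (nat_lit 392) (nat_lit 271)) (XT.lf (nat_lit 0) (nat_lit 28700605234) (nat_lit 152) (nat_lit 16377216476) (nat_lit 0) (nat_lit 6442855964) (nat_lit 36) (nat_lit 5) (nat_lit 38) (nat_lit 4) (nat_lit 36) (nat_lit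 4) (nat_lit 538) (nat_lit 392) (nat_lit 270))))) (XT.nd (nat_lit 312) (nat_lit 228) (nat_lit 0) (XT.nd (nat_lit 156) (nat_lit 76) (nat_lit 0) (XT.nd (nat_lit 78) (nat_lit 76) (nat_lit 0) (XT.lf (nat_lit 0) (nat_lit 7888211836) (nat_lit 76) (nat_lit 33538626215) (nat_lit 76) (nat_lit 11262781034) (nat_lit 35) (nat_lit 4) (nat_lit 36) (nat_lit 5) (nat_lit 36) (nat_lit 4) (nat_lit 539) (nat_lit 392) (nat_lit 269)) (XT.lf (nat_lit 0) (nat_lit 776728471) (nat_lit 152) (nat_lit 20716655228) (nat_lit 76) (nat_lit 32395619949) (nat_lit 34) (nat_lit 5) (nat_lit 36) (nat_lit 5) (nat_lit 35) (nat_lit 4) (nat_lit 540) (nat_lit 392) (nat_lit 268))) (XT.nd (nat_lit 78) (nat_lit 0) (nat_lit 0) (XT.lf (nat_lit 0) (nat_lit 4021180387) (nat_lit 76) (nat_lit 8950076531) (nat_lit 152) (nat_lit 42149161502) (nat_lit 33) (nat_lit 5) (nat_lit 34) (nat_lit 5) (nat_lit 35) (nat_lit 4) (nat_lit 541) (nat_lit 392) (nat_lit 267)) (XT.lf (nat_lit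 0) (nat_lit 25762617668) (nat_lit 152) (nat_lit 26533340177) (nat_lit 0) (nat_lit 4085888075) (nat_lit 33) (nat_lit 5) (nat_lit 35) (nat_lit 4) (nat_lit 33) (nat_lit 4) (nat_lit 542) (nat_lit 392) (nat_lit 266)))) (XT.nd (nat_lit 156) (nat_lit 152) (nat_lit 0) (XT.nd (nat_lit 78) (nat_lit 76) (nat_lit 0) (XT.lf (nat_lit 0) (nat_lit 39008440691) (nat_lit 152) (nat_lit 1354452676) (nat_lit 0) (nat_lit 17316101406) (nat_lit 33) (nat_lit 5) (nat_lit 35) (nat_lit 4) (nat_lit 33) (nat_lit 4) (nat_lit 543) (nat_lit 392) (nat_lit 265)) (XT.lf (nat_lit 0) (nat_lit 25033961814) (nat_lit 76) (nat_lit 27840946340) (nat_lit 76) (nat_lit 6133452014) (nat_lit 32) (nat_lit 4) (nat_lit 33) (nat_lit 5) (nat_lit 33) (nat_lit 4) (nat_lit 544) (nat_lit 392) (nat_lit 264))) (XT.nd (nat_lit 78) (nat_lit 76) (nat_lit 0) (XT.lf (nat_lit 0) (nat_lit 6643914957) (nat_lit 152) (nat_lit 8235060593) (nat_lit 76) (nat_lit 45496782511) (nat_lit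 31) (nat_lit 5) (nat_lit 33) (nat_lit 5) (nat_lit 32) (nat_lit 4) (nat_lit 545) (nat_lit 392) (nat_lit 263)) (XT.lf (nat_lit 0) (nat_lit 18544244145) (nat_lit 76) (nat_lit 1298483530) (nat_lit 152) (nat_lit 41934786522) (nat_lit 30) (nat_lit 5) (nat_lit 31) (nat_lit 5) (nat_lit 32) (nat_lit 4) (nat_lit 546) (nat_lit 392) (nat_lit 262))))))) (XT.nd (nat_lit 52806) (nat_lit 0) (nat_lit 15124) (XT.nd (nat_lit 52182) (nat_lit 0) (nat_lit 23636) (XT.nd (nat_lit 234) (nat_lit 152) (nat_lit 0) (XT.nd (nat_lit 78) (nat_lit 76) (nat_lit 0) (XT.lf (nat_lit 0) (nat_lit 33626623498) (nat_lit 152) (nat_lit 17079258961) (nat_lit 0) (nat_lit 12509767143) (nat_lit 30) (nat_lit 5) (nat_lit 32) (nat_lit 4) (nat_lit 30) (nat_lit 4) (nat_lit 547) (nat_lit 392) (nat_lit 261)) (XT.nd (nat_lit 78) (nat_lit 0) (nat_lit 0) (XT.lf (nat_lit 0) (nat_lit 10009440766) (nat_lit 76) (nat_lit 37907318000) (nat_lit 76) (nat_lit 16777388774) (nat_lit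 29) (nat_lit 4) (nat_lit 30) (nat_lit 5) (nat_lit 30) (nat_lit 4) (nat_lit 548) (nat_lit 392) (nat_lit 260)) (XT.lf (nat_lit 0) (nat_lit 38228831491) (nat_lit 76) (nat_lit 24563050934) (nat_lit 76) (nat_lit 3420429600) (nat_lit 29) (nat_lit 4) (nat_lit 30) (nat_lit 5) (nat_lit 30) (nat_lit 4) (nat_lit 549) (nat_lit 392) (nat_lit 259)))) (XT.nd (nat_lit 156) (nat_lit 0) (nat_lit 0) (XT.nd (nat_lit 78) (nat_lit 76) (nat_lit 0) (XT.lf (nat_lit 0) (nat_lit 10119654550) (nat_lit 152) (nat_lit 612045031) (nat_lit 76) (nat_lit 57041816971) (nat_lit 28) (nat_lit 5) (nat_lit 30) (nat_lit 5) (nat_lit 29) (nat_lit 4) (nat_lit 550) (nat_lit 392) (nat_lit 258)) (XT.lf (nat_lit 0) (nat_lit 24288200151) (nat_lit 152) (nat_lit 41345806323) (nat_lit 0) (nat_lit 3737804715) (nat_lit 27) (nat_lit 5) (nat_lit 29) (nat_lit 4) (nat_lit 27) (nat_lit 4) (nat_lit 551) (nat_lit 392) (nat_lit 257))) (XT.nd (nat_lit 51714) (nat_lit 0) (nat_lit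 28728) (XT.lf (nat_lit 0) (nat_lit 38978907123) (nat_lit 152) (nat_lit 13618999603) (nat_lit 0) (nat_lit 18417234914) (nat_lit 27) (nat_lit 5) (nat_lit 29) (nat_lit 4) (nat_lit 27) (nat_lit 4) (nat_lit 552) (nat_lit 392) (nat_lit 256)) (XT.lf (nat_lit 0) (nat_lit 3295026518) (nat_lit 532) (nat_lit 15242104) (nat_lit 532) (nat_lit 15242104) (nat_lit 405) (nat_lit 4) (nat_lit 412) (nat_lit 5) (nat_lit 412) (nat_lit 4) (nat_lit 414) (nat_lit 393) (nat_lit 393))))) (XT.nd (nat_lit 312) (nat_lit 2888) (nat_lit 0) (XT.nd (nat_lit 156) (nat_lit 836) (nat_lit 0) (XT.nd (nat_lit 78) (nat_lit 684) (nat_lit 0) (XT.lf (nat_lit 0) (nat_lit 3249848813) (nat_lit 684) (nat_lit 2420984923) (nat_lit 0) (nat_lit 1010879802) (nat_lit 396) (nat_lit 5) (nat_lit 405) (nat_lit 4) (nat_lit 396) (nat_lit 4) (nat_lit 415) (nat_lit 393) (nat_lit 392)) (XT.lf (nat_lit 0) (nat_lit 1950657539) (nat_lit 684) (nat_lit 4589028975) (nat_lit 684)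 (nat_lit 176303642) (nat_lit 387) (nat_lit 4) (nat_lit 396) (nat_lit 5) (nat_lit 396) (nat_lit 4) (nat_lit 416) (nat_lit 393) (nat_lit 391))) (XT.nd (nat_lit 78) (nat_lit 760) (nat_lit 0) (XT.lf (nat_lit 0) (nat_lit 3032902599) (nat_lit 760) (nat_lit 366376085) (nat_lit 76) (nat_lit 3353583750) (nat_lit 386) (nat_lit 5) (nat_lit 396) (nat_lit 5) (nat_lit 387) (nat_lit 4) (nat_lit 417) (nat_lit 393) (nat_lit 390)) (XT.lf (nat_lit 0) (nat_lit 4158404419) (nat_lit 760) (nat_lit 2112800801) (nat_lit 836) (nat_lit 521514386) (nat_lit 376) (nat_lit 5) (nat_lit 386) (nat_lit 5) (nat_lit 387) (nat_lit 4) (nat_lit 418) (nat_lit 393) (nat_lit 389)))) (XT.nd (nat_lit 156) (nat_lit 1976) (nat_lit 0) (XT.nd (nat_lit 78) (nat_lit 0) (nat_lit 0) (XT.lf (nat_lit 0) (nat_lit 1916722824) (nat_lit 836) (nat_lit 721782793) (nat_lit 912) (nat_lit 4196896074) (nat_lit 364) (nat_lit 5) (nat_lit 375) (nat_lit 5) (nat_lit 376) (nat_lit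 5) (nat_lit 419) (nat_lit 393) (nat_lit 388)) (XT.lf (nat_lit 0) (nat_lit 5816408051) (nat_lit 912) (nat_lit 321615425) (nat_lit 76) (nat_lit 743199081) (nat_lit 364) (nat_lit 5) (nat_lit 376) (nat_lit 5) (nat_lit 365) (nat_lit 4) (nat_lit 420) (nat_lit 393) (nat_lit 387))) (XT.nd (nat_lit 78) (nat_lit 988) (nat_lit 0) (XT.lf (nat_lit 0) (nat_lit 2070842378) (nat_lit 988) (nat_lit 2544473410) (nat_lit 76) (nat_lit 2313944405) (nat_lit 351) (nat_lit 5) (nat_lit 364) (nat_lit 5) (nat_lit 352) (nat_lit 5) (nat_lit 421) (nat_lit 393) (nat_lit 386)) (XT.lf (nat_lit 0) (nat_lit 2205218317) (nat_lit 988) (nat_lit 3002255076) (nat_lit 1064) (nat_lit 1773118525) (nat_lit 338) (nat_lit 5) (nat_lit 351) (nat_lit 5) (nat_lit 352) (nat_lit 5) (nat_lit 422) (nat_lit 393) (nat_lit 385)))))) (XT.nd (nat_lit 624) (nat_lit 3420) (nat_lit 0) (XT.nd (nat_lit 312) (nat_lit 1520) (nat_lit 0) (XT.nd (nat_lit 156) (nat_lit 2432) (nat_lit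 0) (XT.nd (nat_lit 78) (nat_lit 0) (nat_lit 0) (XT.lf (nat_lit 0) (nat_lit 14774439) (nat_lit 1064) (nat_lit 1293490103) (nat_lit 1140) (nat_lit 5726883239) (nat_lit 323) (nat_lit 5) (nat_lit 337) (nat_lit 5) (nat_lit 338) (nat_lit 5) (nat_lit 423) (nat_lit 393) (nat_lit 384)) (XT.lf (nat_lit 0) (nat_lit 4406461429) (nat_lit 1140) (nat_lit 2156514861) (nat_lit 76) (nat_lit 529053917) (nat_lit 323) (nat_lit 5) (nat_lit 338) (nat_lit 5) (nat_lit 324) (nat_lit 5) (nat_lit 424) (nat_lit 393) (nat_lit 383))) (XT.nd (nat_lit 78) (nat_lit 1216) (nat_lit 0) (XT.lf (nat_lit 0) (nat_lit 387076999) (nat_lit 1216) (nat_lit 4348699719) (nat_lit 76) (nat_lit 2416264960) (nat_lit 307) (nat_lit 5) (nat_lit 323) (nat_lit 5) (nat_lit 308) (nat_lit 5) (nat_lit 425) (nat_lit 393) (nat_lit 382)) (XT.lf (nat_lit 0) (nat_lit 639762759) (nat_lit 1216) (nat_lit 2796748021) (nat_lit 1292) (nat_lit 3778402875) (nat_lit 291) (nat_lit 5) (nat_lit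 307) (nat_lit 5) (nat_lit 308) (nat_lit 5) (nat_lit 426) (nat_lit 393) (nat_lit 381)))) (XT.nd (nat_lit 156) (nat_lit 684) (nat_lit 0) (XT.nd (nat_lit 78) (nat_lit 836) (nat_lit 0) (XT.lf (nat_lit 0) (nat_lit 5778978279) (nat_lit 1216) (nat_lit 754568656) (nat_lit 1292) (nat_lit 747456260) (nat_lit 291) (nat_lit 5) (nat_lit 307) (nat_lit 5) (nat_lit 308) (nat_lit 5) (nat_lit 427) (nat_lit 393) (nat_lit 380)) (XT.lf (nat_lit 0) (nat_lit 2290946604) (nat_lit 836) (nat_lit 3678283785) (nat_lit 76) (nat_lit 1380288586) (nat_lit 280) (nat_lit 5) (nat_lit 291) (nat_lit 5) (nat_lit 281) (nat_lit 5) (nat_lit 428) (nat_lit 393) (nat_lit 379))) (XT.nd (nat_lit 78) (nat_lit 76) (nat_lit 0) (XT.lf (nat_lit 0) (nat_lit 1536936664) (nat_lit 608) (nat_lit 3821668263) (nat_lit 684) (nat_lit 2062683203) (nat_lit 272) (nat_lit 5) (nat_lit 280) (nat_lit 5) (nat_lit 281) (nat_lit 5) (nat_lit 429) (nat_lit 393) (nat_lit 378)) (XT.lf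 (nat_lit 0) (nat_lit 956973918) (nat_lit 684) (nat_lit 609970567) (nat_lit 76) (nat_lit 5929368104) (nat_lit 271) (nat_lit 5) (nat_lit 280) (nat_lit 5) (nat_lit 272) (nat_lit 5) (nat_lit 430) (nat_lit 393) (nat_lit 377))))) (XT.nd (nat_lit 312) (nat_lit 1672) (nat_lit 0) (XT.nd (nat_lit 156) (nat_lit 608) (nat_lit 0) (XT.nd (nat_lit 78) (nat_lit 532) (nat_lit 0) (XT.lf (nat_lit 0) (nat_lit 3998635618) (nat_lit 684) (nat_lit 2772917786) (nat_lit 76) (nat_lit 802248067) (nat_lit 263) (nat_lit 5) (nat_lit 272) (nat_lit 5) (nat_lit 264) (nat_lit 5) (nat_lit 431) (nat_lit 393) (nat_lit 376)) (XT.lf (nat_lit 0) (nat_lit 2681323035) (nat_lit 532) (nat_lit 4417988064) (nat_lit 608) (nat_lit 555283186) (nat_lit 256) (nat_lit 5) (nat_lit 263) (nat_lit 5) (nat_lit 264) (nat_lit 5) (nat_lit 432) (nat_lit 393) (nat_lit 375))) (XT.nd (nat_lit 78) (nat_lit 0) (nat_lit 0) (XT.lf (nat_lit 0) (nat_lit 514994773) (nat_lit 532) (nat_lit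 1944516664) (nat_lit 608) (nat_lit 5278948771) (nat_lit 248) (nat_lit 5) (nat_lit 255) (nat_lit 5) (nat_lit 256) (nat_lit 5) (nat_lit 433) (nat_lit 393) (nat_lit 374)) (XT.lf (nat_lit 0) (nat_lit 5532401414) (nat_lit 608) (nat_lit 1655910180) (nat_lit 76) (nat_lit 637012362) (nat_lit 248) (nat_lit 5) (nat_lit 256) (nat_lit 5) (nat_lit 249) (nat_lit 5) (nat_lit 434) (nat_lit 393) (nat_lit 373)))) (XT.nd (nat_lit 156) (nat_lit 532) (nat_lit 0) (XT.nd (nat_lit 78) (nat_lit 532) (nat_lit 0) (XT.lf (nat_lit 0) (nat_lit 749978106) (nat_lit 608) (nat_lit 3872214262) (nat_lit 76) (nat_lit 3292909052) (nat_lit 240) (nat_lit 5) (nat_lit 248) (nat_lit 5) (nat_lit 241) (nat_lit 5) (nat_lit 435) (nat_lit 393) (nat_lit 372)) (XT.lf (nat_lit 0) (nat_lit 1864401489) (nat_lit 532) (nat_lit 1933663411) (nat_lit 608) (nat_lit 4210036907) (nat_lit 233) (nat_lit 5) (nat_lit 240) (nat_lit 5) (nat_lit 241) (nat_lit 5) (nat_lit 436) (nat_lit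 393) (nat_lit 371))) (XT.nd (nat_lit 78) (nat_lit 532) (nat_lit 0) (XT.lf (nat_lit 0) (nat_lit 6911489037) (nat_lit 608) (nat_lit 348488217) (nat_lit 76) (nat_lit 844708016) (nat_lit 233) (nat_lit 5) (nat_lit 241) (nat_lit 5) (nat_lit 234) (nat_lit 5) (nat_lit 437) (nat_lit 393) (nat_lit 370)) (XT.lf (nat_lit 0) (nat_lit 1878530125) (nat_lit 532) (nat_lit 2598588341) (nat_lit 76) (nat_lit 3726453136) (nat_lit 226) (nat_lit 5) (nat_lit 233) (nat_lit 5) (nat_lit 227) (nat_lit 5) (nat_lit 438) (nat_lit 393) (nat_lit 369))))))))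
noncomputable def xc80 : XT := (XT.nd (nat_lit 2340) (nat_lit 3724) (nat_lit 0) (XT.nd (nat_lit 1170) (nat_lit 3268) (nat_lit 0) (XT.nd (nat_lit 546) (nat_lit 2280) (nat_lit 0) (XT.nd (nat_lit 234) (nat_lit 1368) (nat_lit 0) (XT.nd (nat_lit 78) (nat_lit 532) (nat_lit 0) (XT.lf (nat_lit 0) (nat_lit 3405700880) (nat_lit 456) (nat_lit 1578082850) (nat_lit 532) (nat_lit 3322334719) (nat_lit 220) (nat_lit 5) (nat_lit 226) (nat_lit 5) (nat_lit 227) (nat_lit 5) (nat_lit 439) (nat_lit 393) (nat_lit 368)) (XT.nd (nat_lit 78) (nat_lit 76) (nat_lit 0) (XT.lf (nat_lit 0) (nat_lit 1152258737) (nat_lit 456) (nat_lit 7011177462) (nat_lit 532) (nat_lit 248877067) (nat_lit 214) (nat_lit 5) (nat_lit 220) (nat_lit 5) (nat_lit 221) (nat_lit 5) (nat_lit 440) (nat_lit 393) (nat_lit 367)) (XT.lf (nat_lit 0) (nat_lit 2856098039) (nat_lit 532) (nat_lit 1166775535) (nat_lit 76) (nat_lit 4498100591) (nat_lit 213) (nat_lit 5) (nat_lit 220)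 (nat_lit 5) (nat_lit 214) (nat_lit 5) (nat_lit 441) (nat_lit 393) (nat_lit 366)))) (XT.nd (nat_lit 156) (nat_lit 456) (nat_lit 0) (XT.nd (nat_lit 78) (nat_lit 456) (nat_lit 0) (XT.lf (nat_lit 0) (nat_lit 5119967292) (nat_lit 456) (nat_lit 911121177) (nat_lit 532) (nat_lit 2602284507) (nat_lit 207) (nat_lit 5) (nat_lit 213) (nat_lit 5) (nat_lit 214) (nat_lit 5) (nat_lit 442) (nat_lit 393) (nat_lit 365)) (XT.lf (nat_lit 0) (nat_lit 535960878) (nat_lit 456) (nat_lit 5939088846) (nat_lit 76) (nat_lit 2274105845) (nat_lit 201) (nat_lit 5) (nat_lit 207) (nat_lit 5) (nat_lit 202) (nat_lit 5) (nat_lit 443) (nat_lit 393) (nat_lit 364))) (XT.nd (nat_lit 78) (nat_lit 0) (nat_lit 0) (XT.lf (nat_lit 0) (nat_lit 412638777) (nat_lit 456) (nat_lit 3286271839) (nat_lit 532) (nat_lit 5169249630) (nat_lit 195) (nat_lit 5) (nat_lit 201) (nat_lit 5) (nat_lit 202) (nat_lit 5) (nat_lit 444) (nat_lit 393) (nat_lit 363)) (XT.lf (nat_lit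 0) (nat_lit 6952206998) (nat_lit 532) (nat_lit 2001914496) (nat_lit 76) (nat_lit 36756982) (nat_lit 195) (nat_lit 5) (nat_lit 202) (nat_lit 5) (nat_lit 196) (nat_lit 5) (nat_lit 445) (nat_lit 393) (nat_lit 362))))) (XT.nd (nat_lit 312) (nat_lit 1064) (nat_lit 0) (XT.nd (nat_lit 156) (nat_lit 380) (nat_lit 0) (XT.nd (nat_lit 78) (nat_lit 380) (nat_lit 0) (XT.lf (nat_lit 0) (nat_lit 1176530736) (nat_lit 456) (nat_lit 4512034877) (nat_lit 76) (nat_lit 3427962027) (nat_lit 189) (nat_lit 5) (nat_lit 195) (nat_lit 5) (nat_lit 190) (nat_lit 5) (nat_lit 446) (nat_lit 393) (nat_lit 361)) (XT.lf (nat_lit 0) (nat_lit 2139268906) (nat_lit 380) (nat_lit 2286124353) (nat_lit 456) (nat_lit 4820608637) (nat_lit 184) (nat_lit 5) (nat_lit 189) (nat_lit 5) (nat_lit 190) (nat_lit 5) (nat_lit 447) (nat_lit 393) (nat_lit 360))) (XT.nd (nat_lit 78) (nat_lit 380) (nat_lit 0) (XT.lf (nat_lit 0) (nat_lit 7767416627) (nat_lit 456) (nat_lit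 395208656) (nat_lit 76) (nat_lit 1216870606) (nat_lit 184) (nat_lit 5) (nat_lit 190) (nat_lit 5) (nat_lit 185) (nat_lit 5) (nat_lit 448) (nat_lit 393) (nat_lit 359)) (XT.lf (nat_lit 0) (nat_lit 1685172419) (nat_lit 380) (nat_lit 2995271152) (nat_lit 76) (nat_lit 4835304068) (nat_lit 179) (nat_lit 5) (nat_lit 184) (nat_lit 5) (nat_lit 180) (nat_lit 5) (nat_lit 449) (nat_lit 393) (nat_lit 358)))) (XT.nd (nat_lit 156) (nat_lit 380) (nat_lit 0) (XT.nd (nat_lit 78) (nat_lit 304) (nat_lit 0) (XT.lf (nat_lit 0) (nat_lit 3971803669) (nat_lit 380) (nat_lit 1059473744) (nat_lit 456) (nat_lit 4624866404) (nat_lit 174) (nat_lit 5) (nat_lit 179) (nat_lit 5) (nat_lit 180) (nat_lit 5) (nat_lit 450) (nat_lit 393) (nat_lit 357)) (XT.lf (nat_lit 0) (nat_lit 1323144025) (nat_lit 304) (nat_lit 7164363779) (nat_lit 380) (nat_lit 1312957458) (nat_lit 170) (nat_lit 5) (nat_lit 174) (nat_lit 5) (nat_lit 175) (nat_lit 5) (nat_lit 451) (nat_lit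 393) (nat_lit 356))) (XT.nd (nat_lit 78) (nat_lit 304) (nat_lit 0) (XT.lf (nat_lit 0) (nat_lit 2066954155) (nat_lit 380) (nat_lit 1407734147) (nat_lit 76) (nat_lit 6473540538) (nat_lit 169) (nat_lit 5) (nat_lit 174) (nat_lit 5) (nat_lit 170) (nat_lit 5) (nat_lit 452) (nat_lit 393) (nat_lit 355)) (XT.lf (nat_lit 0) (nat_lit 5524919982) (nat_lit 380) (nat_lit 4211672758) (nat_lit 76) (nat_lit 363356388) (nat_lit 165) (nat_lit 5) (nat_lit 170) (nat_lit 5) (nat_lit 166) (nat_lit 5) (nat_lit 453) (nat_lit 393) (nat_lit 354)))))) (XT.nd (nat_lit 546) (nat_lit 1672) (nat_lit 0) (XT.nd (nat_lit 234) (nat_lit 912) (nat_lit 0) (XT.nd (nat_lit 78) (nat_lit 380) (nat_lit 0) (XT.lf (nat_lit 0) (nat_lit 3117947838) (nat_lit 304) (nat_lit 5990861475) (nat_lit 380) (nat_lit 1146751193) (nat_lit 161) (nat_lit 5) (nat_lit 165) (nat_lit 5) (nat_lit 166) (nat_lit 5) (nat_lit 454) (nat_lit 393) (nat_lit 353)) (XT.nd (nat_lit 78) (nat_lit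 0) (nat_lit 0) (XT.lf (nat_lit 0) (nat_lit 235608320) (nat_lit 304) (nat_lit 2091194114) (nat_lit 380) (nat_lit 8088686271) (nat_lit 156) (nat_lit 5) (nat_lit 160) (nat_lit 5) (nat_lit 161) (nat_lit 5) (nat_lit 455) (nat_lit 393) (nat_lit 352)) (XT.lf (nat_lit 0) (nat_lit 5917107619) (nat_lit 380) (nat_lit 2717725070) (nat_lit 76) (nat_lit 1943978227) (nat_lit 156) (nat_lit 5) (nat_lit 161) (nat_lit 5) (nat_lit 157) (nat_lit 5) (nat_lit 456) (nat_lit 393) (nat_lit 351)))) (XT.nd (nat_lit 156) (nat_lit 228) (nat_lit 0) (XT.nd (nat_lit 78) (nat_lit 380) (nat_lit 0) (XT.lf (nat_lit 0) (nat_lit 4961458089) (nat_lit 304) (nat_lit 4667979068) (nat_lit 380) (nat_lit 1117170643) (nat_lit 152) (nat_lit 5) (nat_lit 156) (nat_lit 5) (nat_lit 157) (nat_lit 5) (nat_lit 457) (nat_lit 393) (nat_lit 350)) (XT.lf (nat_lit 0) (nat_lit 1938094063) (nat_lit 304) (nat_lit 538679396) (nat_lit 380) (nat_lit 8442163158) (nat_lit 147) (nat_lit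 5) (nat_lit 151) (nat_lit 5) (nat_lit 152) (nat_lit 5) (nat_lit 458) (nat_lit 393) (nat_lit 349))) (XT.nd (nat_lit 78) (nat_lit 228) (nat_lit 0) (XT.lf (nat_lit 0) (nat_lit 6197450203) (nat_lit 380) (nat_lit 1214111178) (nat_lit 76) (nat_lit 3683305117) (nat_lit 147) (nat_lit 5) (nat_lit 152) (nat_lit 5) (nat_lit 148) (nat_lit 5) (nat_lit 459) (nat_lit 393) (nat_lit 348)) (XT.lf (nat_lit 0) (nat_lit 6832342435) (nat_lit 228) (nat_lit 3216633597) (nat_lit 304) (nat_lit 1226525342) (nat_lit 144) (nat_lit 5) (nat_lit 147) (nat_lit 5) (nat_lit 148) (nat_lit 5) (nat_lit 460) (nat_lit 393) (nat_lit 347))))) (XT.nd (nat_lit 312) (nat_lit 760) (nat_lit 0) (XT.nd (nat_lit 156) (nat_lit 304) (nat_lit 0) (XT.nd (nat_lit 78) (nat_lit 228) (nat_lit 0) (XT.lf (nat_lit 0) (nat_lit 2511585054) (nat_lit 380) (nat_lit 7823070057) (nat_lit 76) (nat_lit 1125959057) (nat_lit 139) (nat_lit 5) (nat_lit 144) (nat_lit 5) (nat_lit 140) (nat_lit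 5) (nat_lit 461) (nat_lit 393) (nat_lit 346)) (XT.lf (nat_lit 0) (nat_lit 280914881) (nat_lit 228) (nat_lit 6085014352) (nat_lit 304) (nat_lit 5284128153) (nat_lit 136) (nat_lit 5) (nat_lit 139) (nat_lit 5) (nat_lit 140) (nat_lit 5) (nat_lit 462) (nat_lit 393) (nat_lit 345))) (XT.nd (nat_lit 78) (nat_lit 304) (nat_lit 0) (XT.lf (nat_lit 0) (nat_lit 8707242817) (nat_lit 228) (nat_lit 1657250265) (nat_lit 304) (nat_lit 1479836660) (nat_lit 136) (nat_lit 5) (nat_lit 139) (nat_lit 5) (nat_lit 140) (nat_lit 5) (nat_lit 463) (nat_lit 393) (nat_lit 344)) (XT.lf (nat_lit 0) (nat_lit 2421287765) (nat_lit 304) (nat_lit 6729045578) (nat_lit 76) (nat_lit 2892488315) (nat_lit 132) (nat_lit 5) (nat_lit 136) (nat_lit 5) (nat_lit 133) (nat_lit 5) (nat_lit 464) (nat_lit 393) (nat_lit 343)))) (XT.nd (nat_lit 156) (nat_lit 532) (nat_lit 0) (XT.nd (nat_lit 78) (nat_lit 0) (nat_lit 0) (XT.lf (nat_lit 0) (nat_lit 1758945156) (nat_lit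 228) (nat_lit 4667027805) (nat_lit 304) (nat_lit 5820370929) (nat_lit 129) (nat_lit 5) (nat_lit 132) (nat_lit 5) (nat_lit 133) (nat_lit 5) (nat_lit 465) (nat_lit 393) (nat_lit 342)) (XT.lf (nat_lit 0) (nat_lit 10560141831) (nat_lit 228) (nat_lit 10234109) (nat_lit 304) (nat_lit 1885011660) (nat_lit 129) (nat_lit 5) (nat_lit 132) (nat_lit 5) (nat_lit 133) (nat_lit 5) (nat_lit 466) (nat_lit 393) (nat_lit 341))) (XT.nd (nat_lit 78) (nat_lit 228) (nat_lit 0) (XT.lf (nat_lit 0) (nat_lit 2192463303) (nat_lit 304) (nat_lit 5723808990) (nat_lit 76) (nat_lit 4751816904) (nat_lit 125) (nat_lit 5) (nat_lit 129) (nat_lit 5) (nat_lit 126) (nat_lit 5) (nat_lit 467) (nat_lit 393) (nat_lit 340)) (XT.lf (nat_lit 0) (nat_lit 3165708122) (nat_lit 228) (nat_lit 3191441648) (nat_lit 304) (nat_lit 6529381806) (nat_lit 122) (nat_lit 5) (nat_lit 125) (nat_lit 5) (nat_lit 126) (nat_lit 5) (nat_lit 468) (nat_lit 393) (nat_lit 339)))))))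 (XT.nd (nat_lit 1170) (nat_lit 1596) (nat_lit 0) (XT.nd (nat_lit 546) (nat_lit 988) (nat_lit 0) (XT.nd (nat_lit 234) (nat_lit 684) (nat_lit 0) (XT.nd (nat_lit 78) (nat_lit 456) (nat_lit 0) (XT.lf (nat_lit 0) (nat_lit 10674491448) (nat_lit 304) (nat_lit 765910761) (nat_lit 76) (nat_lit 1670296358) (nat_lit 122) (nat_lit 5) (nat_lit 126) (nat_lit 5) (nat_lit 123) (nat_lit 5) (nat_lit 469) (nat_lit 393) (nat_lit 338)) (XT.nd (nat_lit 78) (nat_lit 152) (nat_lit 0) (XT.lf (nat_lit 0) (nat_lit 1813764865) (nat_lit 304) (nat_lit 4841502265) (nat_lit 76) (nat_lit 6683750863) (nat_lit 118) (nat_lit 5) (nat_lit 122) (nat_lit 5) (nat_lit 119) (nat_lit 5) (nat_lit 470) (nat_lit 393) (nat_lit 337)) (XT.lf (nat_lit 0) (nat_lit 4467012179) (nat_lit 152) (nat_lit 1680760466) (nat_lit 228) (nat_lit 7425528215) (nat_lit 116) (nat_lit 5) (nat_lit 118) (nat_lit 5) (nat_lit 119) (nat_lit 5) (nat_lit 471) (nat_lit 393) (nat_lit 336))))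 (XT.nd (nat_lit 156) (nat_lit 380) (nat_lit 0) (XT.nd (nat_lit 78) (nat_lit 76) (nat_lit 0) (XT.lf (nat_lit 0) (nat_lit 235048342) (nat_lit 228) (nat_lit 10416523060) (nat_lit 304) (nat_lit 3161850157) (nat_lit 113) (nat_lit 5) (nat_lit 116) (nat_lit 5) (nat_lit 117) (nat_lit 5) (nat_lit 472) (nat_lit 393) (nat_lit 335)) (XT.lf (nat_lit 0) (nat_lit 1270426769) (nat_lit 304) (nat_lit 4121046201) (nat_lit 76) (nat_lit 8666980053) (nat_lit 112) (nat_lit 5) (nat_lit 116) (nat_lit 5) (nat_lit 113) (nat_lit 5) (nat_lit 473) (nat_lit 393) (nat_lit 334))) (XT.nd (nat_lit 78) (nat_lit 228) (nat_lit 0) (XT.lf (nat_lit 0) (nat_lit 5623694079) (nat_lit 152) (nat_lit 158969601) (nat_lit 228) (nat_lit 8526918595) (nat_lit 110) (nat_lit 5) (nat_lit 112) (nat_lit 5) (nat_lit 113) (nat_lit 5) (nat_lit 474) (nat_lit 393) (nat_lit 333)) (XT.lf (nat_lit 0) (nat_lit 1073514807) (nat_lit 228) (nat_lit 9416118519) (nat_lit 304) (nat_lit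 4076833303) (nat_lit 107) (nat_lit 5) (nat_lit 110) (nat_lit 5) (nat_lit 111) (nat_lit 5) (nat_lit 475) (nat_lit 393) (nat_lit 332))))) (XT.nd (nat_lit 312) (nat_lit 608) (nat_lit 0) (XT.nd (nat_lit 156) (nat_lit 152) (nat_lit 0) (XT.nd (nat_lit 78) (nat_lit 152) (nat_lit 0) (XT.lf (nat_lit 0) (nat_lit 543880852) (nat_lit 304) (nat_lit 3607112487) (nat_lit 76) (nat_lit 10678509658) (nat_lit 106) (nat_lit 5) (nat_lit 110) (nat_lit 5) (nat_lit 107) (nat_lit 5) (nat_lit 476) (nat_lit 393) (nat_lit 331)) (XT.lf (nat_lit 0) (nat_lit 5255704057) (nat_lit 228) (nat_lit 8520926675) (nat_lit 76) (nat_lit 1321557954) (nat_lit 104) (nat_lit 5) (nat_lit 107) (nat_lit 5) (nat_lit 105) (nat_lit 5) (nat_lit 477) (nat_lit 393) (nat_lit 330))) (XT.nd (nat_lit 78) (nat_lit 0) (nat_lit 0) (XT.lf (nat_lit 0) (nat_lit 1685531488) (nat_lit 152) (nat_lit 8475784626) (nat_lit 228) (nat_lit 5212047755) (nat_lit 102) (nat_lit 5) (nat_lit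 104) (nat_lit 5) (nat_lit 105) (nat_lit 5) (nat_lit 478) (nat_lit 393) (nat_lit 329)) (XT.lf (nat_lit 0) (nat_lit 12300403842) (nat_lit 152) (nat_lit 2958601539) (nat_lit 228) (nat_lit 396443555) (nat_lit 102) (nat_lit 5) (nat_lit 104) (nat_lit 5) (nat_lit 105) (nat_lit 5) (nat_lit 479) (nat_lit 393) (nat_lit 328)))) (XT.nd (nat_lit 156) (nat_lit 228) (nat_lit 0) (XT.nd (nat_lit 78) (nat_lit 152) (nat_lit 0) (XT.lf (nat_lit 0) (nat_lit 4531581861) (nat_lit 228) (nat_lit 8655338881) (nat_lit 76) (nat_lit 2756051366) (nat_lit 99) (nat_lit 5) (nat_lit 102) (nat_lit 5) (nat_lit 100) (nat_lit 5) (nat_lit 480) (nat_lit 393) (nat_lit 327)) (XT.lf (nat_lit 0) (nat_lit 2014672609) (nat_lit 152) (nat_lit 7627549958) (nat_lit 228) (nat_lit 6595500105) (nat_lit 97) (nat_lit 5) (nat_lit 99) (nat_lit 5) (nat_lit 100) (nat_lit 5) (nat_lit 481) (nat_lit 393) (nat_lit 326))) (XT.nd (nat_lit 78) (nat_lit 228) (nat_lit 0) (XT.lf (nat_lit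 0) (nat_lit 13111560271) (nat_lit 152) (nat_lit 1842382407) (nat_lit 228) (nat_lit 1585941953) (nat_lit 97) (nat_lit 5) (nat_lit 99) (nat_lit 5) (nat_lit 100) (nat_lit 5) (nat_lit 482) (nat_lit 393) (nat_lit 325)) (XT.lf (nat_lit 0) (nat_lit 3580023239) (nat_lit 228) (nat_lit 9151861652) (nat_lit 76) (nat_lit 4115921704) (nat_lit 94) (nat_lit 5) (nat_lit 97) (nat_lit 5) (nat_lit 95) (nat_lit 5) (nat_lit 483) (nat_lit 393) (nat_lit 324)))))) (XT.nd (nat_lit 546) (nat_lit 684) (nat_lit 0) (XT.nd (nat_lit 234) (nat_lit 532) (nat_lit 0) (XT.nd (nat_lit 78) (nat_lit 228) (nat_lit 0) (XT.lf (nat_lit 0) (nat_lit 1995392931) (nat_lit 152) (nat_lit 6907393948) (nat_lit 228) (nat_lit 8260698946) (nat_lit 92) (nat_lit 5) (nat_lit 94) (nat_lit 5) (nat_lit 95) (nat_lit 5) (nat_lit 484) (nat_lit 393) (nat_lit 323)) (XT.nd (nat_lit 78) (nat_lit 228) (nat_lit 0) (XT.lf (nat_lit 0) (nat_lit 13595801427) (nat_lit 152) (nat_lit 843623612)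 (nat_lit 228) (nat_lit 3047586138) (nat_lit 92) (nat_lit 5) (nat_lit 94) (nat_lit 5) (nat_lit 95) (nat_lit 5) (nat_lit 485) (nat_lit 393) (nat_lit 322)) (XT.lf (nat_lit 0) (nat_lit 2366575183) (nat_lit 228) (nat_lit 10085070118) (nat_lit 76) (nat_lit 5365229881) (nat_lit 89) (nat_lit 5) (nat_lit 92) (nat_lit 5) (nat_lit 90) (nat_lit 5) (nat_lit 486) (nat_lit 393) (nat_lit 321)))) (XT.nd (nat_lit 156) (nat_lit 380) (nat_lit 0) (XT.nd (nat_lit 78) (nat_lit 0) (nat_lit 0) (XT.lf (nat_lit 0) (nat_lit 1551406357) (nat_lit 152) (nat_lit 6356130711) (nat_lit 228) (nat_lit 10247425307) (nat_lit 87) (nat_lit 5) (nat_lit 89) (nat_lit 5) (nat_lit 90) (nat_lit 5) (nat_lit 487) (nat_lit 393) (nat_lit 320)) (XT.lf (nat_lit 0) (nat_lit 13676604297) (nat_lit 152) (nat_lit 3085618) (nat_lit 228) (nat_lit 4821554732) (nat_lit 87) (nat_lit 5) (nat_lit 89) (nat_lit 5) (nat_lit 90) (nat_lit 5) (nat_lit 488) (nat_lit 393) (nat_lit 319)))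 (XT.nd (nat_lit 78) (nat_lit 152) (nat_lit 0) (XT.lf (nat_lit 0) (nat_lit 850251083) (nat_lit 228) (nat_lit 11541639322) (nat_lit 76) (nat_lit 6462861186) (nat_lit 84) (nat_lit 5) (nat_lit 87) (nat_lit 5) (nat_lit 85) (nat_lit 5) (nat_lit 489) (nat_lit 393) (nat_lit 318)) (XT.lf (nat_lit 0) (nat_lit 593815028) (nat_lit 152) (nat_lit 6020411679) (nat_lit 228) (nat_lit 12602638383) (nat_lit 82) (nat_lit 5) (nat_lit 84) (nat_lit 5) (nat_lit 85) (nat_lit 5) (nat_lit 490) (nat_lit 393) (nat_lit 317))))) (XT.nd (nat_lit 312) (nat_lit 380) (nat_lit 0) (XT.nd (nat_lit 156) (nat_lit 228) (nat_lit 0) (XT.nd (nat_lit 78) (nat_lit 76) (nat_lit 0) (XT.lf (nat_lit 0) (nat_lit 12638153638) (nat_lit 228) (nat_lit 6328938940) (nat_lit 76) (nat_lit 620139633) (nat_lit 82) (nat_lit 5) (nat_lit 85) (nat_lit 5) (nat_lit 83) (nat_lit 4) (nat_lit 491) (nat_lit 393) (nat_lit 316)) (XT.lf (nat_lit 0) (nat_lit 6333755972) (nat_lit 76) (nat_lit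 12594697587) (nat_lit 152) (nat_lit 1037688278) (nat_lit 81) (nat_lit 5) (nat_lit 82) (nat_lit 5) (nat_lit 83) (nat_lit 4) (nat_lit 492) (nat_lit 393) (nat_lit 315))) (XT.nd (nat_lit 78) (nat_lit 152) (nat_lit 0) (XT.lf (nat_lit 0) (nat_lit 4982246846) (nat_lit 152) (nat_lit 961908585) (nat_lit 76) (nat_lit 14409914772) (nat_lit 80) (nat_lit 5) (nat_lit 82) (nat_lit 5) (nat_lit 81) (nat_lit 5) (nat_lit 493) (nat_lit 393) (nat_lit 314)) (XT.lf (nat_lit 0) (nat_lit 11255665518) (nat_lit 228) (nat_lit 8505374989) (nat_lit 76) (nat_lit 989476476) (nat_lit 78) (nat_lit 5) (nat_lit 81) (nat_lit 5) (nat_lit 79) (nat_lit 4) (nat_lit 494) (nat_lit 393) (nat_lit 313)))) (XT.nd (nat_lit 156) (nat_lit 228) (nat_lit 0) (XT.nd (nat_lit 78) (nat_lit 76) (nat_lit 0) (XT.lf (nat_lit 0) (nat_lit 4679385081) (nat_lit 76) (nat_lit 13117898744) (nat_lit 152) (nat_lit 3359174447) (nat_lit 77) (nat_lit 5) (nat_lit 78) (nat_lit 5) (nat_lit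 79) (nat_lit 4) (nat_lit 495) (nat_lit 393) (nat_lit 312)) (XT.lf (nat_lit 0) (nat_lit 2955947282) (nat_lit 152) (nat_lit 3229860900) (nat_lit 76) (nat_lit 15386322435) (nat_lit 76) (nat_lit 5) (nat_lit 78) (nat_lit 5) (nat_lit 77) (nat_lit 5) (nat_lit 496) (nat_lit 393) (nat_lit 311))) (XT.nd (nat_lit 78) (nat_lit 76) (nat_lit 0) (XT.lf (nat_lit 0) (nat_lit 9471809870) (nat_lit 228) (nat_lit 11481308174) (nat_lit 76) (nat_lit 1043794148) (nat_lit 74) (nat_lit 5) (nat_lit 77) (nat_lit 5) (nat_lit 75) (nat_lit 4) (nat_lit 497) (nat_lit 393) (nat_lit 310)) (XT.lf (nat_lit 0) (nat_lit 2227204096) (nat_lit 76) (nat_lit 14039026606) (nat_lit 152) (nat_lit 6165714945) (nat_lit 73) (nat_lit 5) (nat_lit 74) (nat_lit 5) (nat_lit 75) (nat_lit 4) (nat_lit 498) (nat_lit 393) (nat_lit 309))))))))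
noncomputable def xc81 : XT := (XT.nd (nat_lit 2340) (nat_lit 1292) (nat_lit 0) (XT.nd (nat_lit 1170) (nat_lit 912) (nat_lit 0) (XT.nd (nat_lit 546) (nat_lit 684) (nat_lit 0) (XT.nd (nat_lit 234) (nat_lit 380) (nat_lit 0) (XT.nd (nat_lit 78) (nat_lit 152) (nat_lit 0) (XT.lf (nat_lit 0) (nat_lit 461576293) (nat_lit 152) (nat_lit 6359989542) (nat_lit 76) (nat_lit 16055815523) (nat_lit 72) (nat_lit 5) (nat_lit 74) (nat_lit 5) (nat_lit 73) (nat_lit 5) (nat_lit 499) (nat_lit 393) (nat_lit 308)) (XT.nd (nat_lit 78) (nat_lit 0) (nat_lit 0) (XT.lf (nat_lit 0) (nat_lit 7215499316) (nat_lit 228) (nat_lit 15405240951) (nat_lit 76) (nat_lit 712057167) (nat_lit 70) (nat_lit 5) (nat_lit 73) (nat_lit 5) (nat_lit 71) (nat_lit 4) (nat_lit 500) (nat_lit 393) (nat_lit 307)) (XT.lf (nat_lit 0) (nat_lit 14273014349) (nat_lit 228) (nat_lit 1153262297) (nat_lit 76) (nat_lit 8372570920) (nat_lit 70) (nat_lit 5) (nat_lit 73) (nat_lit 5)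 (nat_lit 71) (nat_lit 4) (nat_lit 501) (nat_lit 393) (nat_lit 306)))) (XT.nd (nat_lit 156) (nat_lit 76) (nat_lit 0) (XT.nd (nat_lit 78) (nat_lit 228) (nat_lit 0) (XT.lf (nat_lit 0) (nat_lit 13736816584) (nat_lit 76) (nat_lit 7906974995) (nat_lit 152) (nat_lit 2632042299) (nat_lit 69) (nat_lit 5) (nat_lit 70) (nat_lit 5) (nat_lit 71) (nat_lit 4) (nat_lit 502) (nat_lit 393) (nat_lit 305)) (XT.lf (nat_lit 0) (nat_lit 4314013093) (nat_lit 152) (nat_lit 90113250) (nat_lit 228) (nat_lit 20361032683) (nat_lit 66) (nat_lit 5) (nat_lit 68) (nat_lit 5) (nat_lit 69) (nat_lit 5) (nat_lit 503) (nat_lit 393) (nat_lit 304))) (XT.nd (nat_lit 78) (nat_lit 76) (nat_lit 0) (XT.lf (nat_lit 0) (nat_lit 11752097314) (nat_lit 228) (nat_lit 5598578481) (nat_lit 76) (nat_lit 7913098491) (nat_lit 66) (nat_lit 5) (nat_lit 69) (nat_lit 5) (nat_lit 67) (nat_lit 4) (nat_lit 504) (nat_lit 393) (nat_lit 303)) (XT.lf (nat_lit 0) (nat_lit 9834622299)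 (nat_lit 76) (nat_lit 9551811941) (nat_lit 152) (nat_lit 6388936652) (nat_lit 65) (nat_lit 5) (nat_lit 66) (nat_lit 5) (nat_lit 67) (nat_lit 4) (nat_lit 505) (nat_lit 393) (nat_lit 302))))) (XT.nd (nat_lit 312) (nat_lit 380) (nat_lit 0) (XT.nd (nat_lit 156) (nat_lit 76) (nat_lit 0) (XT.nd (nat_lit 78) (nat_lit 152) (nat_lit 0) (XT.lf (nat_lit 0) (nat_lit 956626741) (nat_lit 152) (nat_lit 520701261) (nat_lit 76) (nat_lit 24823885920) (nat_lit 64) (nat_lit 5) (nat_lit 66) (nat_lit 5) (nat_lit 65) (nat_lit 5) (nat_lit 506) (nat_lit 393) (nat_lit 301)) (XT.lf (nat_lit 0) (nat_lit 8582596209) (nat_lit 228) (nat_lit 11357197739) (nat_lit 76) (nat_lit 6895487711) (nat_lit 62) (nat_lit 5) (nat_lit 65) (nat_lit 5) (nat_lit 63) (nat_lit 4) (nat_lit 507) (nat_lit 393) (nat_lit 300))) (XT.nd (nat_lit 78) (nat_lit 0) (nat_lit 0) (XT.lf (nat_lit 0) (nat_lit 4602996242) (nat_lit 76) (nat_lit 11869996135) (nat_lit 152) (nat_lit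 10911310238) (nat_lit 61) (nat_lit 5) (nat_lit 62) (nat_lit 5) (nat_lit 63) (nat_lit 4) (nat_lit 508) (nat_lit 393) (nat_lit 299)) (XT.lf (nat_lit 0) (nat_lit 21220902615) (nat_lit 76) (nat_lit 3465659901) (nat_lit 152) (nat_lit 3260638420) (nat_lit 61) (nat_lit 5) (nat_lit 62) (nat_lit 5) (nat_lit 63) (nat_lit 4) (nat_lit 509) (nat_lit 393) (nat_lit 298)))) (XT.nd (nat_lit 156) (nat_lit 152) (nat_lit 0) (XT.nd (nat_lit 78) (nat_lit 0) (nat_lit 0) (XT.lf (nat_lit 0) (nat_lit 4647999748) (nat_lit 228) (nat_lit 18668288364) (nat_lit 76) (nat_lit 5205808767) (nat_lit 58) (nat_lit 5) (nat_lit 61) (nat_lit 5) (nat_lit 59) (nat_lit 4) (nat_lit 510) (nat_lit 393) (nat_lit 297)) (XT.lf (nat_lit 0) (nat_lit 12803659011) (nat_lit 228) (nat_lit 2163219465) (nat_lit 76) (nat_lit 14144134339) (nat_lit 58) (nat_lit 5) (nat_lit 61) (nat_lit 5) (nat_lit 59) (nat_lit 4) (nat_lit 511) (nat_lit 393) (nat_lit 296))) (XT.nd (nat_lit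 78) (nat_lit 76) (nat_lit 0) (XT.lf (nat_lit 0) (nat_lit 15079857027) (nat_lit 76) (nat_lit 6242281200) (nat_lit 152) (nat_lit 8391914028) (nat_lit 57) (nat_lit 5) (nat_lit 58) (nat_lit 5) (nat_lit 59) (nat_lit 4) (nat_lit 512) (nat_lit 393) (nat_lit 295)) (XT.lf (nat_lit 0) (nat_lit 2521181314) (nat_lit 76) (nat_lit 27620914126) (nat_lit 76) (nat_lit 191710244) (nat_lit 56) (nat_lit 4) (nat_lit 57) (nat_lit 5) (nat_lit 57) (nat_lit 4) (nat_lit 513) (nat_lit 393) (nat_lit 294)))))) (XT.nd (nat_lit 546) (nat_lit 456) (nat_lit 0) (XT.nd (nat_lit 234) (nat_lit 304) (nat_lit 0) (XT.nd (nat_lit 78) (nat_lit 76) (nat_lit 0) (XT.lf (nat_lit 0) (nat_lit 8277746395) (nat_lit 152) (nat_lit 10670619930) (nat_lit 76) (nat_lit 12015875806) (nat_lit 55) (nat_lit 5) (nat_lit 57) (nat_lit 5) (nat_lit 56) (nat_lit 4) (nat_lit 514) (nat_lit 393) (nat_lit 293)) (XT.nd (nat_lit 78) (nat_lit 0) (nat_lit 0) (XT.lf (nat_lit 0) (nat_lit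 7071749473) (nat_lit 76) (nat_lit 9967717577) (nat_lit 152) (nat_lit 14572807144) (nat_lit 54) (nat_lit 5) (nat_lit 55) (nat_lit 5) (nat_lit 56) (nat_lit 4) (nat_lit 515) (nat_lit 393) (nat_lit 292)) (XT.lf (nat_lit 0) (nat_lit 25515624978) (nat_lit 76) (nat_lit 630502025) (nat_lit 152) (nat_lit 6131158044) (nat_lit 54) (nat_lit 5) (nat_lit 55) (nat_lit 5) (nat_lit 56) (nat_lit 4) (nat_lit 516) (nat_lit 393) (nat_lit 291)))) (XT.nd (nat_lit 156) (nat_lit 152) (nat_lit 0) (XT.nd (nat_lit 78) (nat_lit 0) (nat_lit 0) (XT.lf (nat_lit 0) (nat_lit 2688591703) (nat_lit 152) (nat_lit 21340619982) (nat_lit 76) (nat_lit 8927049274) (nat_lit 52) (nat_lit 5) (nat_lit 54) (nat_lit 5) (nat_lit 53) (nat_lit 4) (nat_lit 517) (nat_lit 393) (nat_lit 290)) (XT.lf (nat_lit 0) (nat_lit 11699785365) (nat_lit 152) (nat_lit 3086922333) (nat_lit 76) (nat_lit 18865575286) (nat_lit 52) (nat_lit 5) (nat_lit 54) (nat_lit 5) (nat_lit 53) (nat_lit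 4) (nat_lit 518) (nat_lit 393) (nat_lit 289))) (XT.nd (nat_lit 78) (nat_lit 76) (nat_lit 0) (XT.lf (nat_lit 0) (nat_lit 15979000046) (nat_lit 76) (nat_lit 5131529751) (nat_lit 152) (nat_lit 13254779829) (nat_lit 51) (nat_lit 5) (nat_lit 52) (nat_lit 5) (nat_lit 53) (nat_lit 4) (nat_lit 519) (nat_lit 393) (nat_lit 288)) (XT.lf (nat_lit 0) (nat_lit 497275498) (nat_lit 76) (nat_lit 30364508849) (nat_lit 76) (nat_lit 4236197484) (nat_lit 50) (nat_lit 4) (nat_lit 51) (nat_lit 5) (nat_lit 51) (nat_lit 4) (nat_lit 520) (nat_lit 393) (nat_lit 287))))) (XT.nd (nat_lit 312) (nat_lit 228) (nat_lit 0) (XT.nd (nat_lit 156) (nat_lit 76) (nat_lit 0) (XT.nd (nat_lit 78) (nat_lit 76) (nat_lit 0) (XT.lf (nat_lit 0) (nat_lit 5168331682) (nat_lit 152) (nat_lit 15671271687) (nat_lit 76) (nat_lit 15005154332) (nat_lit 49) (nat_lit 5) (nat_lit 51) (nat_lit 5) (nat_lit 50) (nat_lit 4) (nat_lit 521) (nat_lit 393) (nat_lit 286)) (XT.lf (nat_lit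 0) (nat_lit 3812618418) (nat_lit 76) (nat_lit 10970271801) (nat_lit 152) (nat_lit 21829397606) (nat_lit 48) (nat_lit 5) (nat_lit 49) (nat_lit 5) (nat_lit 50) (nat_lit 4) (nat_lit 522) (nat_lit 393) (nat_lit 285))) (XT.nd (nat_lit 78) (nat_lit 76) (nat_lit 0) (XT.lf (nat_lit 0) (nat_lit 24156837819) (nat_lit 76) (nat_lit 663935468) (nat_lit 152) (nat_lit 12578024284) (nat_lit 48) (nat_lit 5) (nat_lit 49) (nat_lit 5) (nat_lit 50) (nat_lit 4) (nat_lit 523) (nat_lit 393) (nat_lit 284)) (XT.lf (nat_lit 0) (nat_lit 6896817563) (nat_lit 76) (nat_lit 28402045594) (nat_lit 76) (nat_lit 2905867685) (nat_lit 47) (nat_lit 4) (nat_lit 48) (nat_lit 5) (nat_lit 48) (nat_lit 4) (nat_lit 524) (nat_lit 393) (nat_lit 283)))) (XT.nd (nat_lit 156) (nat_lit 76) (nat_lit 0) (XT.nd (nat_lit 78) (nat_lit 76) (nat_lit 0) (XT.lf (nat_lit 0) (nat_lit 7037502976) (nat_lit 152) (nat_lit 11239956650) (nat_lit 76) (nat_lit 20751785491) (nat_lit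 46) (nat_lit 5) (nat_lit 48) (nat_lit 5) (nat_lit 47) (nat_lit 4) (nat_lit 525) (nat_lit 393) (nat_lit 282)) (XT.lf (nat_lit 0) (nat_lit 9544205696) (nat_lit 76) (nat_lit 7746105640) (nat_lit 152) (nat_lit 22585234418) (nat_lit 45) (nat_lit 5) (nat_lit 46) (nat_lit 5) (nat_lit 47) (nat_lit 4) (nat_lit 526) (nat_lit 393) (nat_lit 281))) (XT.nd (nat_lit 78) (nat_lit 76) (nat_lit 0) (XT.lf (nat_lit 0) (nat_lit 27972970176) (nat_lit 152) (nat_lit 9635801313) (nat_lit 0) (nat_lit 3134796237) (nat_lit 45) (nat_lit 5) (nat_lit 47) (nat_lit 4) (nat_lit 45) (nat_lit 4) (nat_lit 527) (nat_lit 393) (nat_lit 280)) (XT.lf (nat_lit 0) (nat_lit 11791937258) (nat_lit 76) (nat_lit 27352693071) (nat_lit 76) (nat_lit 2487944676) (nat_lit 44) (nat_lit 4) (nat_lit 45) (nat_lit 5) (nat_lit 45) (nat_lit 4) (nat_lit 528) (nat_lit 393) (nat_lit 279))))))) (XT.nd (nat_lit 1170) (nat_lit 456) (nat_lit 0) (XT.nd (nat_lit 546) (nat_lit 456)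 (nat_lit 0) (XT.nd (nat_lit 234) (nat_lit 228) (nat_lit 0) (XT.nd (nat_lit 78) (nat_lit 76) (nat_lit 0) (XT.lf (nat_lit 0) (nat_lit 8021822889) (nat_lit 152) (nat_lit 8606248371) (nat_lit 76) (nat_lit 25915542011) (nat_lit 43) (nat_lit 5) (nat_lit 45) (nat_lit 5) (nat_lit 44) (nat_lit 4) (nat_lit 529) (nat_lit 393) (nat_lit 278)) (XT.nd (nat_lit 78) (nat_lit 0) (nat_lit 0) (XT.lf (nat_lit 0) (nat_lit 13462373704) (nat_lit 76) (nat_lit 5443030983) (nat_lit 152) (nat_lit 24572583481) (nat_lit 42) (nat_lit 5) (nat_lit 43) (nat_lit 5) (nat_lit 44) (nat_lit 4) (nat_lit 530) (nat_lit 393) (nat_lit 277)) (XT.lf (nat_lit 0) (nat_lit 30240828616) (nat_lit 152) (nat_lit 8168489145) (nat_lit 0) (nat_lit 6027316770) (nat_lit 42) (nat_lit 5) (nat_lit 44) (nat_lit 4) (nat_lit 42) (nat_lit 4) (nat_lit 531) (nat_lit 393) (nat_lit 276)))) (XT.nd (nat_lit 156) (nat_lit 76) (nat_lit 0) (XT.nd (nat_lit 78) (nat_lit 76) (nat_lit 0)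 (XT.lf (nat_lit 0) (nat_lit 14523868188) (nat_lit 76) (nat_lit 27565704911) (nat_lit 76) (nat_lit 3329269705) (nat_lit 41) (nat_lit 4) (nat_lit 42) (nat_lit 5) (nat_lit 42) (nat_lit 4) (nat_lit 532) (nat_lit 393) (nat_lit 275)) (XT.lf (nat_lit 0) (nat_lit 7772891738) (nat_lit 152) (nat_lit 8479720665) (nat_lit 76) (nat_lit 30173745477) (nat_lit 40) (nat_lit 5) (nat_lit 42) (nat_lit 5) (nat_lit 41) (nat_lit 4) (nat_lit 533) (nat_lit 393) (nat_lit 274))) (XT.nd (nat_lit 78) (nat_lit 0) (nat_lit 0) (XT.lf (nat_lit 0) (nat_lit 14825771864) (nat_lit 76) (nat_lit 4438302137) (nat_lit 152) (nat_lit 28195349616) (nat_lit 39) (nat_lit 5) (nat_lit 40) (nat_lit 5) (nat_lit 41) (nat_lit 4) (nat_lit 534) (nat_lit 393) (nat_lit 273)) (XT.lf (nat_lit 0) (nat_lit 31241159325) (nat_lit 152) (nat_lit 9630400181) (nat_lit 0) (nat_lit 7647687016) (nat_lit 39) (nat_lit 5) (nat_lit 41) (nat_lit 4) (nat_lit 39) (nat_lit 4) (nat_lit 535)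 (nat_lit 393) (nat_lit 272))))) (XT.nd (nat_lit 312) (nat_lit 228) (nat_lit 0) (XT.nd (nat_lit 156) (nat_lit 76) (nat_lit 0) (XT.nd (nat_lit 78) (nat_lit 76) (nat_lit 0) (XT.lf (nat_lit 0) (nat_lit 14259803994) (nat_lit 76) (nat_lit 29479723712) (nat_lit 76) (nat_lit 5866477512) (nat_lit 38) (nat_lit 4) (nat_lit 39) (nat_lit 5) (nat_lit 39) (nat_lit 4) (nat_lit 536) (nat_lit 393) (nat_lit 271)) (XT.lf (nat_lit 0) (nat_lit 5851769842) (nat_lit 152) (nat_lit 11753351371) (nat_lit 76) (nat_lit 33116172588) (nat_lit 37) (nat_lit 5) (nat_lit 39) (nat_lit 5) (nat_lit 38) (nat_lit 4) (nat_lit 537) (nat_lit 393) (nat_lit 270))) (XT.nd (nat_lit 78) (nat_lit 0) (nat_lit 0) (XT.lf (nat_lit 0) (nat_lit 12700653717) (nat_lit 76) (nat_lit 5206605720) (nat_lit 152) (nat_lit 33957931130) (nat_lit 36) (nat_lit 5) (nat_lit 37) (nat_lit 5) (nat_lit 38) (nat_lit 4) (nat_lit 538) (nat_lit 393) (nat_lit 269)) (XT.lf (nat_lit 0) (nat_lit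 30498523390) (nat_lit 152) (nat_lit 15020919654) (nat_lit 0) (nat_lit 7518738097) (nat_lit 36) (nat_lit 5) (nat_lit 38) (nat_lit 4) (nat_lit 36) (nat_lit 4) (nat_lit 539) (nat_lit 393) (nat_lit 268)))) (XT.nd (nat_lit 156) (nat_lit 76) (nat_lit 0) (XT.nd (nat_lit 78) (nat_lit 76) (nat_lit 0) (XT.lf (nat_lit 0) (nat_lit 9954357652) (nat_lit 76) (nat_lit 33642483458) (nat_lit 76) (nat_lit 10645641033) (nat_lit 35) (nat_lit 4) (nat_lit 36) (nat_lit 5) (nat_lit 36) (nat_lit 4) (nat_lit 540) (nat_lit 393) (nat_lit 267)) (XT.lf (nat_lit 0) (nat_lit 1709144388) (nat_lit 152) (nat_lit 19543839638) (nat_lit 76) (nat_lit 34225407284) (nat_lit 34) (nat_lit 5) (nat_lit 36) (nat_lit 5) (nat_lit 35) (nat_lit 4) (nat_lit 541) (nat_lit 393) (nat_lit 266))) (XT.nd (nat_lit 78) (nat_lit 0) (nat_lit 0) (XT.lf (nat_lit 0) (nat_lit 5918539720) (nat_lit 76) (nat_lit 8341568875) (nat_lit 152) (nat_lit 42486922195) (nat_lit 33) (nat_lit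 5) (nat_lit 34) (nat_lit 5) (nat_lit 35) (nat_lit 4) (nat_lit 542) (nat_lit 393) (nat_lit 265)) (XT.lf (nat_lit 0) (nat_lit 27417189718) (nat_lit 152) (nat_lit 25586336744) (nat_lit 0) (nat_lit 5043315522) (nat_lit 33) (nat_lit 5) (nat_lit 35) (nat_lit 4) (nat_lit 33) (nat_lit 4) (nat_lit 543) (nat_lit 393) (nat_lit 264)))))) (XT.nd (nat_lit 624) (nat_lit 0) (nat_lit 0) (XT.nd (nat_lit 312) (nat_lit 228) (nat_lit 0) (XT.nd (nat_lit 156) (nat_lit 152) (nat_lit 0) (XT.nd (nat_lit 78) (nat_lit 0) (nat_lit 0) (XT.lf (nat_lit 0) (nat_lit 303064158) (nat_lit 76) (nat_lit 40734556117) (nat_lit 76) (nat_lit 18345968289) (nat_lit 32) (nat_lit 4) (nat_lit 33) (nat_lit 5) (nat_lit 33) (nat_lit 4) (nat_lit 544) (nat_lit 393) (nat_lit 263)) (XT.lf (nat_lit 0) (nat_lit 27460626656) (nat_lit 76) (nat_lit 27847716781) (nat_lit 76) (nat_lit 5444843874) (nat_lit 32) (nat_lit 4) (nat_lit 33) (nat_lit 5) (nat_lit 33) (nat_lit 4) (nat_lit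 545) (nat_lit 393) (nat_lit 262))) (XT.nd (nat_lit 78) (nat_lit 76) (nat_lit 0) (XT.lf (nat_lit 0) (nat_lit 7673896389) (nat_lit 152) (nat_lit 6838732244) (nat_lit 76) (nat_lit 47649474691) (nat_lit 31) (nat_lit 5) (nat_lit 33) (nat_lit 5) (nat_lit 32) (nat_lit 4) (nat_lit 546) (nat_lit 393) (nat_lit 261)) (XT.lf (nat_lit 0) (nat_lit 20727840066) (nat_lit 76) (nat_lit 532281628) (nat_lit 152) (nat_lit 42346047224) (nat_lit 30) (nat_lit 5) (nat_lit 31) (nat_lit 5) (nat_lit 32) (nat_lit 4) (nat_lit 547) (nat_lit 393) (nat_lit 260)))) (XT.nd (nat_lit 156) (nat_lit 152) (nat_lit 0) (XT.nd (nat_lit 78) (nat_lit 76) (nat_lit 0) (XT.lf (nat_lit 0) (nat_lit 35441103606) (nat_lit 152) (nat_lit 15995326395) (nat_lit 0) (nat_lit 13651511523) (nat_lit 30) (nat_lit 5) (nat_lit 32) (nat_lit 4) (nat_lit 30) (nat_lit 4) (nat_lit 548) (nat_lit 393) (nat_lit 259)) (XT.lf (nat_lit 0) (nat_lit 11890384223) (nat_lit 76) (nat_lit 38261286533)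 (nat_lit 76) (nat_lit 16459372015) (nat_lit 29) (nat_lit 4) (nat_lit 30) (nat_lit 5) (nat_lit 30) (nat_lit 4) (nat_lit 549) (nat_lit 393) (nat_lit 258))) (XT.nd (nat_lit 78) (nat_lit 152) (nat_lit 0) (XT.lf (nat_lit 0) (nat_lit 40910318022) (nat_lit 76) (nat_lit 24539504591) (nat_lit 76) (nat_lit 2725626545) (nat_lit 29) (nat_lit 4) (nat_lit 30) (nat_lit 5) (nat_lit 30) (nat_lit 4) (nat_lit 550) (nat_lit 393) (nat_lit 257)) (XT.lf (nat_lit 0) (nat_lit 892037932) (nat_lit 76) (nat_lit 10298864065) (nat_lit 152) (nat_lit 58592783986) (nat_lit 27) (nat_lit 5) (nat_lit 28) (nat_lit 5) (nat_lit 29) (nat_lit 4) (nat_lit 551) (nat_lit 393) (nat_lit 256))))) (XT.nd (nat_lit 51792) (nat_lit 0) (nat_lit 26448) (XT.nd (nat_lit 51636) (nat_lit 0) (nat_lit 28652) (XT.nd (nat_lit 51558) (nat_lit 0) (nat_lit 29260) (XT.lf (nat_lit 0) (nat_lit 25775248997) (nat_lit 152) (nat_lit 41080456771) (nat_lit 0) (nat_lit 4574501525) (nat_lit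 27) (nat_lit 5) (nat_lit 29) (nat_lit 4) (nat_lit 27) (nat_lit 4) (nat_lit 552) (nat_lit 393) (nat_lit 255)) (XT.lf (nat_lit 0) (nat_lit 1192828933) (nat_lit 532) (nat_lit 911840871) (nat_lit 0) (nat_lit 1192828933) (nat_lit 412) (nat_lit 5) (nat_lit 419) (nat_lit 4) (nat_lit 412) (nat_lit 4) (nat_lit 412) (nat_lit 394) (nat_lit 394))) (XT.nd (nat_lit 78) (nat_lit 76) (nat_lit 0) (XT.lf (nat_lit 0) (nat_lit 2323071171) (nat_lit 532) (nat_lit 3337145556) (nat_lit 532) (nat_lit 961823333) (nat_lit 405) (nat_lit 4) (nat_lit 412) (nat_lit 5) (nat_lit 412) (nat_lit 4) (nat_lit 413) (nat_lit 394) (nat_lit 393)) (XT.lf (nat_lit 0) (nat_lit 2244585304) (nat_lit 608) (nat_lit 124952137) (nat_lit 76) (nat_lit 4282454905) (nat_lit 404) (nat_lit 5) (nat_lit 412) (nat_lit 5) (nat_lit 405) (nat_lit 4) (nat_lit 414) (nat_lit 394) (nat_lit 392)))) (XT.nd (nat_lit 156) (nat_lit 836) (nat_lit 0) (XT.nd (nat_lit 78) (nat_lit 760)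 (nat_lit 0) (XT.lf (nat_lit 0) (nat_lit 4164343140) (nat_lit 608) (nat_lit 1296135902) (nat_lit 684) (nat_lit 1224123777) (nat_lit 396) (nat_lit 5) (nat_lit 404) (nat_lit 5) (nat_lit 405) (nat_lit 4) (nat_lit 415) (nat_lit 394) (nat_lit 391)) (XT.lf (nat_lit 0) (nat_lit 1799053672) (nat_lit 684) (nat_lit 127960548) (nat_lit 760) (nat_lit 4793234031) (nat_lit 386) (nat_lit 5) (nat_lit 395) (nat_lit 5) (nat_lit 396) (nat_lit 5) (nat_lit 416) (nat_lit 394) (nat_lit 390))) (XT.nd (nat_lit 78) (nat_lit 836) (nat_lit 0) (XT.lf (nat_lit 0) (nat_lit 5080510993) (nat_lit 760) (nat_lit 564842943) (nat_lit 76) (nat_lit 1113294666) (nat_lit 386) (nat_lit 5) (nat_lit 396) (nat_lit 5) (nat_lit 387) (nat_lit 4) (nat_lit 417) (nat_lit 394) (nat_lit 389)) (XT.lf (nat_lit 0) (nat_lit 1438217582) (nat_lit 836) (nat_lit 2899912826) (nat_lit 76) (nat_lit 2461519867) (nat_lit 375) (nat_lit 5) (nat_lit 386) (nat_lit 5) (nat_lit 376) (nat_lit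 5) (nat_lit 418) (nat_lit 394) (nat_lit 388))))))))
noncomputable def xc82 : XT := (XT.nd (nat_lit 2340) (nat_lit 6232) (nat_lit 0) (XT.nd (nat_lit 1170) (nat_lit 5396) (nat_lit 0) (XT.nd (nat_lit 546) (nat_lit 3952) (nat_lit 0) (XT.nd (nat_lit 234) (nat_lit 3344) (nat_lit 0) (XT.nd (nat_lit 78) (nat_lit 988) (nat_lit 0) (XT.lf (nat_lit 0) (nat_lit 1598403924) (nat_lit 836) (nat_lit 2937608272) (nat_lit 912) (nat_lit 2307741152) (nat_lit 364) (nat_lit 5) (nat_lit 375) (nat_lit 5) (nat_lit 376) (nat_lit 5) (nat_lit 419) (nat_lit 394) (nat_lit 387)) (XT.nd (nat_lit 78) (nat_lit 912) (nat_lit 0) (XT.lf (nat_lit 0) (nat_lit 752454883) (nat_lit 912) (nat_lit 690914835) (nat_lit 76) (nat_lit 5447650116) (nat_lit 363) (nat_lit 5) (nat_lit 375) (nat_lit 5) (nat_lit 364) (nat_lit 5) (nat_lit 420) (nat_lit 394) (nat_lit 386)) (XT.lf (nat_lit 0) (nat_lit 3802427244) (nat_lit 988) (nat_lit 2970492117) (nat_lit 76) (nat_lit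 167787302) (nat_lit 351) (nat_lit 5) (nat_lit 364) (nat_lit 5) (nat_lit 352) (nat_lit 5) (nat_lit 421) (nat_lit 394) (nat_lit 385)))) (XT.nd (nat_lit 156) (nat_lit 2280) (nat_lit 0) (XT.nd (nat_lit 78) (nat_lit 76) (nat_lit 0) (XT.lf (nat_lit 0) (nat_lit 1728005557) (nat_lit 988) (nat_lit 5160470127) (nat_lit 1064) (nat_lit 105088996) (nat_lit 338) (nat_lit 5) (nat_lit 351) (nat_lit 5) (nat_lit 352) (nat_lit 5) (nat_lit 422) (nat_lit 394) (nat_lit 384)) (XT.lf (nat_lit 0) (nat_lit 2898094020) (nat_lit 1064) (nat_lit 534118832) (nat_lit 76) (nat_lit 3616804498) (nat_lit 337) (nat_lit 5) (nat_lit 351) (nat_lit 5) (nat_lit 338) (nat_lit 5) (nat_lit 423) (nat_lit 394) (nat_lit 383))) (XT.nd (nat_lit 78) (nat_lit 1216) (nat_lit 0) (XT.lf (nat_lit 0) (nat_lit 4339364684) (nat_lit 1064) (nat_lit 1601916252) (nat_lit 1140) (nat_lit 1166277206) (nat_lit 323) (nat_lit 5) (nat_lit 337) (nat_lit 5) (nat_lit 338) (nat_lit 5)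 (nat_lit 424) (nat_lit 394) (nat_lit 382)) (XT.lf (nat_lit 0) (nat_lit 1811150608) (nat_lit 1216) (nat_lit 5031207450) (nat_lit 76) (nat_lit 326748160) (nat_lit 307) (nat_lit 5) (nat_lit 323) (nat_lit 5) (nat_lit 308) (nat_lit 5) (nat_lit 425) (nat_lit 394) (nat_lit 381))))) (XT.nd (nat_lit 312) (nat_lit 1292) (nat_lit 0) (XT.nd (nat_lit 156) (nat_lit 1368) (nat_lit 0) (XT.nd (nat_lit 78) (nat_lit 1292) (nat_lit 0) (XT.lf (nat_lit 0) (nat_lit 4811603250) (nat_lit 1216) (nat_lit 97754584) (nat_lit 76) (nat_lit 2324097177) (nat_lit 307) (nat_lit 5) (nat_lit 323) (nat_lit 5) (nat_lit 308) (nat_lit 5) (nat_lit 426) (nat_lit 394) (nat_lit 380)) (XT.lf (nat_lit 0) (nat_lit 553829987) (nat_lit 1292) (nat_lit 2308863026) (nat_lit 76) (nat_lit 4437984223) (nat_lit 290) (nat_lit 5) (nat_lit 307) (nat_lit 5) (nat_lit 291) (nat_lit 5) (nat_lit 427) (nat_lit 394) (nat_lit 379))) (XT.nd (nat_lit 78) (nat_lit 608) (nat_lit 0)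 (XT.lf (nat_lit 0) (nat_lit 2812411153) (nat_lit 760) (nat_lit 702138289) (nat_lit 836) (nat_lit 3856327714) (nat_lit 280) (nat_lit 5) (nat_lit 290) (nat_lit 5) (nat_lit 291) (nat_lit 5) (nat_lit 428) (nat_lit 394) (nat_lit 378)) (XT.lf (nat_lit 0) (nat_lit 602766440) (nat_lit 608) (nat_lit 5923329454) (nat_lit 684) (nat_lit 918240330) (nat_lit 272) (nat_lit 5) (nat_lit 280) (nat_lit 5) (nat_lit 281) (nat_lit 5) (nat_lit 429) (nat_lit 394) (nat_lit 377)))) (XT.nd (nat_lit 156) (nat_lit 608) (nat_lit 0) (XT.nd (nat_lit 78) (nat_lit 608) (nat_lit 0) (XT.lf (nat_lit 0) (nat_lit 2039075068) (nat_lit 684) (nat_lit 1621084034) (nat_lit 76) (nat_lit 3860078016) (nat_lit 271) (nat_lit 5) (nat_lit 280) (nat_lit 5) (nat_lit 272) (nat_lit 5) (nat_lit 430) (nat_lit 394) (nat_lit 376)) (XT.lf (nat_lit 0) (nat_lit 3735274677) (nat_lit 608) (nat_lit 1288431560) (nat_lit 684) (nat_lit 2575736681) (nat_lit 263) (nat_lit 5) (nat_lit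 271) (nat_lit 5) (nat_lit 272) (nat_lit 5) (nat_lit 431) (nat_lit 394) (nat_lit 375))) (XT.nd (nat_lit 78) (nat_lit 0) (nat_lit 0) (XT.lf (nat_lit 0) (nat_lit 373347493) (nat_lit 608) (nat_lit 6147959535) (nat_lit 76) (nat_lit 1160670226) (nat_lit 255) (nat_lit 5) (nat_lit 263) (nat_lit 5) (nat_lit 256) (nat_lit 5) (nat_lit 432) (nat_lit 394) (nat_lit 374)) (XT.lf (nat_lit 0) (nat_lit 3334548377) (nat_lit 608) (nat_lit 717778808) (nat_lit 76) (nat_lit 3714644098) (nat_lit 255) (nat_lit 5) (nat_lit 263) (nat_lit 5) (nat_lit 256) (nat_lit 5) (nat_lit 433) (nat_lit 394) (nat_lit 373)))))) (XT.nd (nat_lit 546) (nat_lit 2660) (nat_lit 0) (XT.nd (nat_lit 234) (nat_lit 1064) (nat_lit 0) (XT.nd (nat_lit 78) (nat_lit 1140) (nat_lit 0) (XT.lf (nat_lit 0) (nat_lit 4886508002) (nat_lit 532) (nat_lit 1470535144) (nat_lit 608) (nat_lit 1498309075) (nat_lit 248) (nat_lit 5) (nat_lit 255) (nat_lit 5) (nat_lit 256) (nat_lit 5) (nat_lit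 434) (nat_lit 394) (nat_lit 372)) (XT.nd (nat_lit 78) (nat_lit 532) (nat_lit 0) (XT.lf (nat_lit 0) (nat_lit 1465091574) (nat_lit 608) (nat_lit 5278730097) (nat_lit 76) (nat_lit 1203003718) (nat_lit 240) (nat_lit 5) (nat_lit 248) (nat_lit 5) (nat_lit 241) (nat_lit 5) (nat_lit 435) (nat_lit 394) (nat_lit 371)) (XT.lf (nat_lit 0) (nat_lit 386659063) (nat_lit 532) (nat_lit 4076528710) (nat_lit 608) (nat_lit 3578142601) (nat_lit 233) (nat_lit 5) (nat_lit 240) (nat_lit 5) (nat_lit 241) (nat_lit 5) (nat_lit 436) (nat_lit 394) (nat_lit 370)))) (XT.nd (nat_lit 156) (nat_lit 532) (nat_lit 0) (XT.nd (nat_lit 78) (nat_lit 532) (nat_lit 0) (XT.lf (nat_lit 0) (nat_lit 6245009601) (nat_lit 532) (nat_lit 1288174037) (nat_lit 608) (nat_lit 606037783) (nat_lit 233) (nat_lit 5) (nat_lit 240) (nat_lit 5) (nat_lit 241) (nat_lit 5) (nat_lit 437) (nat_lit 394) (nat_lit 369)) (XT.lf (nat_lit 0) (nat_lit 2391601205) (nat_lit 532) (nat_lit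 4246424086) (nat_lit 76) (nat_lit 1601796499) (nat_lit 226) (nat_lit 5) (nat_lit 233) (nat_lit 5) (nat_lit 227) (nat_lit 5) (nat_lit 438) (nat_lit 394) (nat_lit 368))) (XT.nd (nat_lit 78) (nat_lit 76) (nat_lit 0) (XT.lf (nat_lit 0) (nat_lit 1682246897) (nat_lit 456) (nat_lit 3764115891) (nat_lit 532) (nat_lit 2897524945) (nat_lit 220) (nat_lit 5) (nat_lit 226) (nat_lit 5) (nat_lit 227) (nat_lit 5) (nat_lit 439) (nat_lit 394) (nat_lit 367)) (XT.lf (nat_lit 0) (nat_lit 113879915) (nat_lit 532) (nat_lit 661517792) (nat_lit 76) (nat_lit 7676396787) (nat_lit 219) (nat_lit 5) (nat_lit 226) (nat_lit 5) (nat_lit 220) (nat_lit 5) (nat_lit 440) (nat_lit 394) (nat_lit 366))))) (XT.nd (nat_lit 312) (nat_lit 1292) (nat_lit 0) (XT.nd (nat_lit 156) (nat_lit 456) (nat_lit 0) (XT.nd (nat_lit 78) (nat_lit 456) (nat_lit 0) (XT.lf (nat_lit 0) (nat_lit 3166818898) (nat_lit 532) (nat_lit 3071016384) (nat_lit 76) (nat_lit 2323967697)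 (nat_lit 213) (nat_lit 5) (nat_lit 220) (nat_lit 5) (nat_lit 214) (nat_lit 5) (nat_lit 441) (nat_lit 394) (nat_lit 365)) (XT.lf (nat_lit 0) (nat_lit 3135498941) (nat_lit 456) (nat_lit 3155024407) (nat_lit 532) (nat_lit 2385220873) (nat_lit 207) (nat_lit 5) (nat_lit 213) (nat_lit 5) (nat_lit 214) (nat_lit 5) (nat_lit 442) (nat_lit 394) (nat_lit 364))) (XT.nd (nat_lit 78) (nat_lit 0) (nat_lit 0) (XT.lf (nat_lit 0) (nat_lit 674660204) (nat_lit 456) (nat_lit 8072998867) (nat_lit 76) (nat_lit 46032637) (nat_lit 201) (nat_lit 5) (nat_lit 207) (nat_lit 5) (nat_lit 202) (nat_lit 5) (nat_lit 443) (nat_lit 394) (nat_lit 363)) (XT.lf (nat_lit 0) (nat_lit 3802098623) (nat_lit 456) (nat_lit 1771502858) (nat_lit 76) (nat_lit 3340163768) (nat_lit 201) (nat_lit 5) (nat_lit 207) (nat_lit 5) (nat_lit 202) (nat_lit 5) (nat_lit 444) (nat_lit 394) (nat_lit 362)))) (XT.nd (nat_lit 156) (nat_lit 380) (nat_lit 0) (XT.nd (nat_lit 78) (nat_lit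 456) (nat_lit 0) (XT.lf (nat_lit 0) (nat_lit 4728171116) (nat_lit 456) (nat_lit 2278468368) (nat_lit 532) (nat_lit 2031310083) (nat_lit 195) (nat_lit 5) (nat_lit 201) (nat_lit 5) (nat_lit 202) (nat_lit 5) (nat_lit 445) (nat_lit 394) (nat_lit 361)) (XT.lf (nat_lit 0) (nat_lit 1108060350) (nat_lit 456) (nat_lit 6934322773) (nat_lit 76) (nat_lit 1123487355) (nat_lit 189) (nat_lit 5) (nat_lit 195) (nat_lit 5) (nat_lit 190) (nat_lit 5) (nat_lit 446) (nat_lit 394) (nat_lit 360))) (XT.nd (nat_lit 78) (nat_lit 380) (nat_lit 0) (XT.lf (nat_lit 0) (nat_lit 4306323997) (nat_lit 456) (nat_lit 366315615) (nat_lit 76) (nat_lit 4624226222) (nat_lit 189) (nat_lit 5) (nat_lit 195) (nat_lit 5) (nat_lit 190) (nat_lit 5) (nat_lit 447) (nat_lit 394) (nat_lit 359)) (XT.lf (nat_lit 0) (nat_lit 6442555906) (nat_lit 380) (nat_lit 1160714408) (nat_lit 456) (nat_lit 1828444866) (nat_lit 184) (nat_lit 5) (nat_lit 189) (nat_lit 5) (nat_lit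 190) (nat_lit 5) (nat_lit 448) (nat_lit 394) (nat_lit 358))))))) (XT.nd (nat_lit 1170) (nat_lit 2584) (nat_lit 0) (XT.nd (nat_lit 546) (nat_lit 1824) (nat_lit 0) (XT.nd (nat_lit 234) (nat_lit 1064) (nat_lit 0) (XT.nd (nat_lit 78) (nat_lit 380) (nat_lit 0) (XT.lf (nat_lit 0) (nat_lit 1406694725) (nat_lit 380) (nat_lit 5722441135) (nat_lit 76) (nat_lit 2440886356) (nat_lit 179) (nat_lit 5) (nat_lit 184) (nat_lit 5) (nat_lit 180) (nat_lit 5) (nat_lit 449) (nat_lit 394) (nat_lit 357)) (XT.nd (nat_lit 78) (nat_lit 0) (nat_lit 0) (XT.lf (nat_lit 0) (nat_lit 1148668844) (nat_lit 380) (nat_lit 3548358236) (nat_lit 456) (nat_lit 5015067276) (nat_lit 174) (nat_lit 5) (nat_lit 179) (nat_lit 5) (nat_lit 180) (nat_lit 5) (nat_lit 450) (nat_lit 394) (nat_lit 356)) (XT.lf (nat_lit 0) (nat_lit 8088305857) (nat_lit 456) (nat_lit 1599040851) (nat_lit 76) (nat_lit 171020344) (nat_lit 174) (nat_lit 5) (nat_lit 180) (nat_lit 5) (nat_lit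 175) (nat_lit 5) (nat_lit 451) (nat_lit 394) (nat_lit 355)))) (XT.nd (nat_lit 156) (nat_lit 380) (nat_lit 0) (XT.nd (nat_lit 78) (nat_lit 304) (nat_lit 0) (XT.lf (nat_lit 0) (nat_lit 1574783739) (nat_lit 380) (nat_lit 4456929783) (nat_lit 76) (nat_lit 3975871065) (nat_lit 169) (nat_lit 5) (nat_lit 174) (nat_lit 5) (nat_lit 170) (nat_lit 5) (nat_lit 452) (nat_lit 394) (nat_lit 354)) (XT.lf (nat_lit 0) (nat_lit 2741106685) (nat_lit 304) (nat_lit 2230458470) (nat_lit 380) (nat_lit 5189577725) (nat_lit 165) (nat_lit 5) (nat_lit 169) (nat_lit 5) (nat_lit 170) (nat_lit 5) (nat_lit 453) (nat_lit 394) (nat_lit 353))) (XT.nd (nat_lit 78) (nat_lit 380) (nat_lit 0) (XT.lf (nat_lit 0) (nat_lit 8476998455) (nat_lit 380) (nat_lit 170269305) (nat_lit 76) (nat_lit 1671842581) (nat_lit 165) (nat_lit 5) (nat_lit 170) (nat_lit 5) (nat_lit 166) (nat_lit 5) (nat_lit 454) (nat_lit 394) (nat_lit 352)) (XT.lf (nat_lit 0) (nat_lit 1614152798)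 (nat_lit 380) (nat_lit 3158087266) (nat_lit 76) (nat_lit 5707927002) (nat_lit 160) (nat_lit 5) (nat_lit 165) (nat_lit 5) (nat_lit 161) (nat_lit 5) (nat_lit 455) (nat_lit 394) (nat_lit 351))))) (XT.nd (nat_lit 312) (nat_lit 836) (nat_lit 0) (XT.nd (nat_lit 156) (nat_lit 380) (nat_lit 0) (XT.nd (nat_lit 78) (nat_lit 304) (nat_lit 0) (XT.lf (nat_lit 0) (nat_lit 4383973441) (nat_lit 304) (nat_lit 743954331) (nat_lit 380) (nat_lit 5517859609) (nat_lit 156) (nat_lit 5) (nat_lit 160) (nat_lit 5) (nat_lit 161) (nat_lit 5) (nat_lit 456) (nat_lit 394) (nat_lit 350)) (XT.lf (nat_lit 0) (nat_lit 1313668164) (nat_lit 304) (nat_lit 7458507469) (nat_lit 380) (nat_lit 2043453214) (nat_lit 152) (nat_lit 5) (nat_lit 156) (nat_lit 5) (nat_lit 157) (nat_lit 5) (nat_lit 457) (nat_lit 394) (nat_lit 349))) (XT.nd (nat_lit 78) (nat_lit 304) (nat_lit 0) (XT.lf (nat_lit 0) (nat_lit 1524191667) (nat_lit 380) (nat_lit 1847428428) (nat_lit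 76) (nat_lit 7617937931) (nat_lit 151) (nat_lit 5) (nat_lit 156) (nat_lit 5) (nat_lit 152) (nat_lit 5) (nat_lit 458) (nat_lit 394) (nat_lit 348)) (XT.lf (nat_lit 0) (nat_lit 5173837036) (nat_lit 380) (nat_lit 5120189013) (nat_lit 76) (nat_lit 873594751) (nat_lit 147) (nat_lit 5) (nat_lit 152) (nat_lit 5) (nat_lit 148) (nat_lit 5) (nat_lit 459) (nat_lit 394) (nat_lit 347)))) (XT.nd (nat_lit 156) (nat_lit 532) (nat_lit 0) (XT.nd (nat_lit 78) (nat_lit 76) (nat_lit 0) (XT.lf (nat_lit 0) (nat_lit 2808884076) (nat_lit 228) (nat_lit 6153037754) (nat_lit 304) (nat_lit 2388238971) (nat_lit 144) (nat_lit 5) (nat_lit 147) (nat_lit 5) (nat_lit 148) (nat_lit 5) (nat_lit 460) (nat_lit 394) (nat_lit 346)) (XT.lf (nat_lit 0) (nat_lit 1301768967) (nat_lit 304) (nat_lit 548219862) (nat_lit 76) (nat_lit 9687744717) (nat_lit 143) (nat_lit 5) (nat_lit 147) (nat_lit 5) (nat_lit 144) (nat_lit 5) (nat_lit 461) (nat_lit 394) (nat_lit 345)))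 (XT.nd (nat_lit 78) (nat_lit 228) (nat_lit 0) (XT.lf (nat_lit 0) (nat_lit 5105754219) (nat_lit 380) (nat_lit 4019876937) (nat_lit 76) (nat_lit 2603058110) (nat_lit 139) (nat_lit 5) (nat_lit 144) (nat_lit 5) (nat_lit 140) (nat_lit 5) (nat_lit 462) (nat_lit 394) (nat_lit 344)) (XT.lf (nat_lit 0) (nat_lit 4287640439) (nat_lit 228) (nat_lit 4753158635) (nat_lit 304) (nat_lit 2884069799) (nat_lit 136) (nat_lit 5) (nat_lit 139) (nat_lit 5) (nat_lit 140) (nat_lit 5) (nat_lit 463) (nat_lit 394) (nat_lit 343)))))) (XT.nd (nat_lit 624) (nat_lit 1216) (nat_lit 0) (XT.nd (nat_lit 312) (nat_lit 532) (nat_lit 0) (XT.nd (nat_lit 156) (nat_lit 532) (nat_lit 0) (XT.nd (nat_lit 78) (nat_lit 0) (nat_lit 0) (XT.lf (nat_lit 0) (nat_lit 728140263) (nat_lit 228) (nat_lit 219957979) (nat_lit 304) (nat_lit 11178559827) (nat_lit 132) (nat_lit 5) (nat_lit 135) (nat_lit 5) (nat_lit 136) (nat_lit 5) (nat_lit 464) (nat_lit 394) (nat_lit 342))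 (XT.lf (nat_lit 0) (nat_lit 4910307829) (nat_lit 304) (nat_lit 2981072890) (nat_lit 76) (nat_lit 4440075391) (nat_lit 132) (nat_lit 5) (nat_lit 136) (nat_lit 5) (nat_lit 133) (nat_lit 5) (nat_lit 465) (nat_lit 394) (nat_lit 341))) (XT.nd (nat_lit 78) (nat_lit 304) (nat_lit 0) (XT.lf (nat_lit 0) (nat_lit 5722833605) (nat_lit 228) (nat_lit 3279516013) (nat_lit 304) (nat_lit 3539722534) (nat_lit 129) (nat_lit 5) (nat_lit 132) (nat_lit 5) (nat_lit 133) (nat_lit 5) (nat_lit 466) (nat_lit 394) (nat_lit 340)) (XT.lf (nat_lit 0) (nat_lit 466668139) (nat_lit 304) (nat_lit 10824720727) (nat_lit 76) (nat_lit 1466964686) (nat_lit 125) (nat_lit 5) (nat_lit 129) (nat_lit 5) (nat_lit 126) (nat_lit 5) (nat_lit 467) (nat_lit 394) (nat_lit 339)))) (XT.nd (nat_lit 156) (nat_lit 304) (nat_lit 0) (XT.nd (nat_lit 78) (nat_lit 228) (nat_lit 0) (XT.lf (nat_lit 0) (nat_lit 4578404545) (nat_lit 304) (nat_lit 2034453184) (nat_lit 76) (nat_lit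 6365528072) (nat_lit 125) (nat_lit 5) (nat_lit 129) (nat_lit 5) (nat_lit 126) (nat_lit 5) (nat_lit 468) (nat_lit 394) (nat_lit 338)) (XT.lf (nat_lit 0) (nat_lit 7083895812) (nat_lit 228) (nat_lit 1753309199) (nat_lit 304) (nat_lit 4367105346) (nat_lit 122) (nat_lit 5) (nat_lit 125) (nat_lit 5) (nat_lit 126) (nat_lit 5) (nat_lit 469) (nat_lit 394) (nat_lit 337))) (XT.nd (nat_lit 78) (nat_lit 76) (nat_lit 0) (XT.lf (nat_lit 0) (nat_lit 3034687919) (nat_lit 228) (nat_lit 10226185569) (nat_lit 304) (nat_lit 175028663) (nat_lit 119) (nat_lit 5) (nat_lit 122) (nat_lit 5) (nat_lit 123) (nat_lit 5) (nat_lit 470) (nat_lit 394) (nat_lit 336)) (XT.lf (nat_lit 0) (nat_lit 4097814250) (nat_lit 304) (nat_lit 1214795036) (nat_lit 76) (nat_lit 8359564832) (nat_lit 118) (nat_lit 5) (nat_lit 122) (nat_lit 5) (nat_lit 119) (nat_lit 5) (nat_lit 471) (nat_lit 394) (nat_lit 335))))) (XT.nd (nat_lit 312) (nat_lit 608) (nat_lit 0) (XT.nd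 (nat_lit 156) (nat_lit 228) (nat_lit 0) (XT.nd (nat_lit 78) (nat_lit 228) (nat_lit 0) (XT.lf (nat_lit 0) (nat_lit 8335994916) (nat_lit 152) (nat_lit 196809319) (nat_lit 228) (nat_lit 5381556026) (nat_lit 116) (nat_lit 5) (nat_lit 118) (nat_lit 5) (nat_lit 119) (nat_lit 5) (nat_lit 472) (nat_lit 394) (nat_lit 334)) (XT.lf (nat_lit 0) (nat_lit 3991341245) (nat_lit 228) (nat_lit 9166640361) (nat_lit 304) (nat_lit 1004118579) (nat_lit 113) (nat_lit 5) (nat_lit 116) (nat_lit 5) (nat_lit 117) (nat_lit 5) (nat_lit 473) (nat_lit 394) (nat_lit 333))) (XT.nd (nat_lit 78) (nat_lit 152) (nat_lit 0) (XT.lf (nat_lit 0) (nat_lit 3452841509) (nat_lit 304) (nat_lit 561850180) (nat_lit 76) (nat_lit 10401074518) (nat_lit 112) (nat_lit 5) (nat_lit 116) (nat_lit 5) (nat_lit 113) (nat_lit 5) (nat_lit 474) (nat_lit 394) (nat_lit 332)) (XT.lf (nat_lit 0) (nat_lit 8086176258) (nat_lit 228) (nat_lit 5249260062) (nat_lit 76) (nat_lit 1339424338)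 (nat_lit 110) (nat_lit 5) (nat_lit 113) (nat_lit 5) (nat_lit 111) (nat_lit 5) (nat_lit 475) (nat_lit 394) (nat_lit 331)))) (XT.nd (nat_lit 156) (nat_lit 304) (nat_lit 0) (XT.nd (nat_lit 78) (nat_lit 76) (nat_lit 0) (XT.lf (nat_lit 0) (nat_lit 4765119400) (nat_lit 228) (nat_lit 8143900303) (nat_lit 304) (nat_lit 2031195048) (nat_lit 107) (nat_lit 5) (nat_lit 110) (nat_lit 5) (nat_lit 111) (nat_lit 5) (nat_lit 476) (nat_lit 394) (nat_lit 330)) (XT.lf (nat_lit 0) (nat_lit 2623924338) (nat_lit 304) (nat_lit 121340009) (nat_lit 76) (nat_lit 12467112997) (nat_lit 106) (nat_lit 5) (nat_lit 110) (nat_lit 5) (nat_lit 107) (nat_lit 5) (nat_lit 477) (nat_lit 394) (nat_lit 329))) (XT.nd (nat_lit 78) (nat_lit 152) (nat_lit 0) (XT.lf (nat_lit 0) (nat_lit 7465822618) (nat_lit 228) (nat_lit 5171192952) (nat_lit 76) (nat_lit 2852449304) (nat_lit 104) (nat_lit 5) (nat_lit 107) (nat_lit 5) (nat_lit 105) (nat_lit 5) (nat_lit 478) (nat_lit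 394) (nat_lit 328)) (XT.lf (nat_lit 0) (nat_lit 5306112275) (nat_lit 152) (nat_lit 7187027907) (nat_lit 228) (nat_lit 3280521815) (nat_lit 102) (nat_lit 5) (nat_lit 104) (nat_lit 5) (nat_lit 105) (nat_lit 5) (nat_lit 479) (nat_lit 394) (nat_lit 327))))))))
noncomputable def xc83 : XT := (XT.nd (nat_lit 2340) (nat_lit 1900) (nat_lit 0) (XT.nd (nat_lit 1170) (nat_lit 1292) (nat_lit 0) (XT.nd (nat_lit 546) (nat_lit 1064) (nat_lit 0) (XT.nd (nat_lit 234) (nat_lit 380) (nat_lit 0) (XT.nd (nat_lit 78) (nat_lit 152) (nat_lit 0) (XT.lf (nat_lit 0) (nat_lit 54978833) (nat_lit 152) (nat_lit 1532700500) (nat_lit 228) (nat_lit 14477821487) (nat_lit 99) (nat_lit 5) (nat_lit 101) (nat_lit 5) (nat_lit 102) (nat_lit 5) (nat_lit 480) (nat_lit 394) (nat_lit 326)) (XT.nd (nat_lit 78) (nat_lit 152) (nat_lit 0) (XT.lf (nat_lit 0) (nat_lit 6645027102) (nat_lit 228) (nat_lit 5399214650) (nat_lit 76) (nat_lit 4317609248) (nat_lit 99) (nat_lit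 5) (nat_lit 102) (nat_lit 5) (nat_lit 100) (nat_lit 5) (nat_lit 481) (nat_lit 394) (nat_lit 325)) (XT.lf (nat_lit 0) (nat_lit 5556428711) (nat_lit 152) (nat_lit 6328425834) (nat_lit 228) (nat_lit 4781315996) (nat_lit 97) (nat_lit 5) (nat_lit 99) (nat_lit 5) (nat_lit 100) (nat_lit 5) (nat_lit 482) (nat_lit 394) (nat_lit 324)))) (XT.nd (nat_lit 156) (nat_lit 152) (nat_lit 0) (XT.nd (nat_lit 78) (nat_lit 152) (nat_lit 0) (XT.lf (nat_lit 0) (nat_lit 313682629) (nat_lit 228) (nat_lit 97356463) (nat_lit 76) (nat_lit 16567975243) (nat_lit 96) (nat_lit 5) (nat_lit 99) (nat_lit 5) (nat_lit 97) (nat_lit 5) (nat_lit 483) (nat_lit 394) (nat_lit 323)) (XT.lf (nat_lit 0) (nat_lit 5593846677) (nat_lit 228) (nat_lit 5999322211) (nat_lit 76) (nat_lit 5702803401) (nat_lit 94) (nat_lit 5) (nat_lit 97) (nat_lit 5) (nat_lit 95) (nat_lit 5) (nat_lit 484) (nat_lit 394) (nat_lit 322))) (XT.nd (nat_lit 78) (nat_lit 0) (nat_lit 0) (XT.lf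 (nat_lit 0) (nat_lit 5448751036) (nat_lit 152) (nat_lit 5604635676) (nat_lit 228) (nat_lit 6568424587) (nat_lit 92) (nat_lit 5) (nat_lit 94) (nat_lit 5) (nat_lit 95) (nat_lit 5) (nat_lit 485) (nat_lit 394) (nat_lit 321)) (XT.lf (nat_lit 0) (nat_lit 16707003703) (nat_lit 228) (nat_lit 664097639) (nat_lit 76) (nat_lit 585416823) (nat_lit 92) (nat_lit 5) (nat_lit 95) (nat_lit 5) (nat_lit 93) (nat_lit 4) (nat_lit 486) (nat_lit 394) (nat_lit 320))))) (XT.nd (nat_lit 312) (nat_lit 456) (nat_lit 0) (XT.nd (nat_lit 156) (nat_lit 228) (nat_lit 0) (XT.nd (nat_lit 78) (nat_lit 152) (nat_lit 0) (XT.lf (nat_lit 0) (nat_lit 4276493256) (nat_lit 228) (nat_lit 7048161968) (nat_lit 76) (nat_lit 6971491222) (nat_lit 89) (nat_lit 5) (nat_lit 92) (nat_lit 5) (nat_lit 90) (nat_lit 5) (nat_lit 487) (nat_lit 394) (nat_lit 319)) (XT.lf (nat_lit 0) (nat_lit 4904668995) (nat_lit 152) (nat_lit 5057240422) (nat_lit 228) (nat_lit 8683122038)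 (nat_lit 87) (nat_lit 5) (nat_lit 89) (nat_lit 5) (nat_lit 90) (nat_lit 5) (nat_lit 488) (nat_lit 394) (nat_lit 318))) (XT.nd (nat_lit 78) (nat_lit 228) (nat_lit 0) (XT.lf (nat_lit 0) (nat_lit 15868171359) (nat_lit 228) (nat_lit 1719852369) (nat_lit 76) (nat_lit 1414852037) (nat_lit 87) (nat_lit 5) (nat_lit 90) (nat_lit 5) (nat_lit 88) (nat_lit 4) (nat_lit 489) (nat_lit 394) (nat_lit 317)) (XT.lf (nat_lit 0) (nat_lit 2650478958) (nat_lit 228) (nat_lit 8634869402) (nat_lit 76) (nat_lit 8081744314) (nat_lit 84) (nat_lit 5) (nat_lit 87) (nat_lit 5) (nat_lit 85) (nat_lit 5) (nat_lit 490) (nat_lit 394) (nat_lit 316)))) (XT.nd (nat_lit 156) (nat_lit 304) (nat_lit 0) (XT.nd (nat_lit 78) (nat_lit 0) (nat_lit 0) (XT.lf (nat_lit 0) (nat_lit 3832756234) (nat_lit 152) (nat_lit 4733890173) (nat_lit 228) (nat_lit 11174046737) (nat_lit 82) (nat_lit 5) (nat_lit 84) (nat_lit 5) (nat_lit 85) (nat_lit 5) (nat_lit 491) (nat_lit 394)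 (nat_lit 315)) (XT.lf (nat_lit 0) (nat_lit 14733896196) (nat_lit 228) (nat_lit 3354048209) (nat_lit 76) (nat_lit 2035350415) (nat_lit 82) (nat_lit 5) (nat_lit 85) (nat_lit 5) (nat_lit 83) (nat_lit 4) (nat_lit 492) (nat_lit 394) (nat_lit 314))) (XT.nd (nat_lit 78) (nat_lit 152) (nat_lit 0) (XT.lf (nat_lit 0) (nat_lit 665613825) (nat_lit 152) (nat_lit 10863194742) (nat_lit 76) (nat_lit 8985165282) (nat_lit 80) (nat_lit 5) (nat_lit 82) (nat_lit 5) (nat_lit 81) (nat_lit 5) (nat_lit 493) (nat_lit 394) (nat_lit 313)) (XT.lf (nat_lit 0) (nat_lit 2126346801) (nat_lit 152) (nat_lit 4689473453) (nat_lit 228) (nat_lit 14098297243) (nat_lit 78) (nat_lit 5) (nat_lit 80) (nat_lit 5) (nat_lit 81) (nat_lit 5) (nat_lit 494) (nat_lit 394) (nat_lit 312)))))) (XT.nd (nat_lit 546) (nat_lit 684) (nat_lit 0) (XT.nd (nat_lit 234) (nat_lit 456) (nat_lit 0) (XT.nd (nat_lit 78) (nat_lit 152) (nat_lit 0) (XT.lf (nat_lit 0) (nat_lit 13251287428)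 (nat_lit 228) (nat_lit 5679151839) (nat_lit 76) (nat_lit 2392804540) (nat_lit 78) (nat_lit 5) (nat_lit 81) (nat_lit 5) (nat_lit 79) (nat_lit 4) (nat_lit 495) (nat_lit 394) (nat_lit 311)) (XT.nd (nat_lit 78) (nat_lit 76) (nat_lit 0) (XT.lf (nat_lit 0) (nat_lit 7870941382) (nat_lit 76) (nat_lit 12099252798) (nat_lit 152) (nat_lit 1771739418) (nat_lit 77) (nat_lit 5) (nat_lit 78) (nat_lit 5) (nat_lit 79) (nat_lit 4) (nat_lit 496) (nat_lit 394) (nat_lit 310)) (XT.lf (nat_lit 0) (nat_lit 4651681235) (nat_lit 152) (nat_lit 332421716) (nat_lit 76) (nat_lit 17186934046) (nat_lit 76) (nat_lit 5) (nat_lit 78) (nat_lit 5) (nat_lit 77) (nat_lit 5) (nat_lit 497) (nat_lit 394) (nat_lit 309)))) (XT.nd (nat_lit 156) (nat_lit 228) (nat_lit 0) (XT.nd (nat_lit 78) (nat_lit 76) (nat_lit 0) (XT.lf (nat_lit 0) (nat_lit 11357942608) (nat_lit 228) (nat_lit 8826290778) (nat_lit 76) (nat_lit 2424482282) (nat_lit 74) (nat_lit 5) (nat_lit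 77) (nat_lit 5) (nat_lit 75) (nat_lit 4) (nat_lit 498) (nat_lit 394) (nat_lit 308)) (XT.lf (nat_lit 0) (nat_lit 5264070422) (nat_lit 76) (nat_lit 13074016015) (nat_lit 152) (nat_lit 4719258274) (nat_lit 73) (nat_lit 5) (nat_lit 74) (nat_lit 5) (nat_lit 75) (nat_lit 4) (nat_lit 499) (nat_lit 394) (nat_lit 307))) (XT.nd (nat_lit 78) (nat_lit 152) (nat_lit 0) (XT.lf (nat_lit 0) (nat_lit 2028426572) (nat_lit 152) (nat_lit 3636296779) (nat_lit 76) (nat_lit 17852348600) (nat_lit 72) (nat_lit 5) (nat_lit 74) (nat_lit 5) (nat_lit 73) (nat_lit 5) (nat_lit 500) (nat_lit 394) (nat_lit 306)) (XT.lf (nat_lit 0) (nat_lit 8980456355) (nat_lit 228) (nat_lit 12948355228) (nat_lit 76) (nat_lit 2057475442) (nat_lit 70) (nat_lit 5) (nat_lit 73) (nat_lit 5) (nat_lit 71) (nat_lit 4) (nat_lit 501) (nat_lit 394) (nat_lit 305))))) (XT.nd (nat_lit 312) (nat_lit 380) (nat_lit 0) (XT.nd (nat_lit 156) (nat_lit 228) (nat_lit 0) (XT.nd (nat_lit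 78) (nat_lit 0) (nat_lit 0) (XT.lf (nat_lit 0) (nat_lit 1678923971) (nat_lit 76) (nat_lit 14541810002) (nat_lit 152) (nat_lit 8246454726) (nat_lit 69) (nat_lit 5) (nat_lit 70) (nat_lit 5) (nat_lit 71) (nat_lit 4) (nat_lit 502) (nat_lit 394) (nat_lit 304)) (XT.lf (nat_lit 0) (nat_lit 16955158833) (nat_lit 76) (nat_lit 6824524048) (nat_lit 152) (nat_lit 1179791388) (nat_lit 69) (nat_lit 5) (nat_lit 70) (nat_lit 5) (nat_lit 71) (nat_lit 4) (nat_lit 503) (nat_lit 394) (nat_lit 303))) (XT.nd (nat_lit 78) (nat_lit 0) (nat_lit 0) (XT.lf (nat_lit 0) (nat_lit 6032682736) (nat_lit 228) (nat_lit 18223591610) (nat_lit 76) (nat_lit 1206911316) (nat_lit 66) (nat_lit 5) (nat_lit 69) (nat_lit 5) (nat_lit 67) (nat_lit 4) (nat_lit 504) (nat_lit 394) (nat_lit 302)) (XT.lf (nat_lit 0) (nat_lit 13558373643) (nat_lit 228) (nat_lit 3009063513) (nat_lit 76) (nat_lit 9410604822) (nat_lit 66) (nat_lit 5) (nat_lit 69) (nat_lit 5) (nat_lit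 67) (nat_lit 4) (nat_lit 505) (nat_lit 394) (nat_lit 301)))) (XT.nd (nat_lit 156) (nat_lit 76) (nat_lit 0) (XT.nd (nat_lit 78) (nat_lit 228) (nat_lit 0) (XT.lf (nat_lit 0) (nat_lit 12860099248) (nat_lit 76) (nat_lit 8545546904) (nat_lit 152) (nat_lit 5099824160) (nat_lit 65) (nat_lit 5) (nat_lit 66) (nat_lit 5) (nat_lit 67) (nat_lit 4) (nat_lit 506) (nat_lit 394) (nat_lit 300)) (XT.lf (nat_lit 0) (nat_lit 2185317046) (nat_lit 152) (nat_lit 230612410) (nat_lit 228) (nat_lit 24631371528) (nat_lit 62) (nat_lit 5) (nat_lit 64) (nat_lit 5) (nat_lit 65) (nat_lit 5) (nat_lit 507) (nat_lit 394) (nat_lit 299))) (XT.nd (nat_lit 78) (nat_lit 76) (nat_lit 0) (XT.lf (nat_lit 0) (nat_lit 10246214152) (nat_lit 228) (nat_lit 9015430151) (nat_lit 76) (nat_lit 8336481277) (nat_lit 62) (nat_lit 5) (nat_lit 65) (nat_lit 5) (nat_lit 63) (nat_lit 4) (nat_lit 508) (nat_lit 394) (nat_lit 298)) (XT.lf (nat_lit 0) (nat_lit 7397270792) (nat_lit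 76) (nat_lit 10960628749) (nat_lit 152) (nat_lit 9806181187) (nat_lit 61) (nat_lit 5) (nat_lit 62) (nat_lit 5) (nat_lit 63) (nat_lit 4) (nat_lit 509) (nat_lit 394) (nat_lit 297))))))) (XT.nd (nat_lit 1170) (nat_lit 912) (nat_lit 0) (XT.nd (nat_lit 546) (nat_lit 456) (nat_lit 0) (XT.nd (nat_lit 234) (nat_lit 228) (nat_lit 0) (XT.nd (nat_lit 78) (nat_lit 304) (nat_lit 0) (XT.lf (nat_lit 0) (nat_lit 24436349754) (nat_lit 76) (nat_lit 2341020698) (nat_lit 152) (nat_lit 1967711593) (nat_lit 61) (nat_lit 5) (nat_lit 62) (nat_lit 5) (nat_lit 63) (nat_lit 4) (nat_lit 510) (nat_lit 394) (nat_lit 296)) (XT.nd (nat_lit 78) (nat_lit 76) (nat_lit 0) (XT.lf (nat_lit 0) (nat_lit 6147975532) (nat_lit 228) (nat_lit 16619252067) (nat_lit 76) (nat_lit 6569689167) (nat_lit 58) (nat_lit 5) (nat_lit 61) (nat_lit 5) (nat_lit 59) (nat_lit 4) (nat_lit 511) (nat_lit 394) (nat_lit 295)) (XT.lf (nat_lit 0) (nat_lit 311045756) (nat_lit 76)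 (nat_lit 14200621523) (nat_lit 152) (nat_lit 15432932805) (nat_lit 57) (nat_lit 5) (nat_lit 58) (nat_lit 5) (nat_lit 59) (nat_lit 4) (nat_lit 512) (nat_lit 394) (nat_lit 294)))) (XT.nd (nat_lit 156) (nat_lit 76) (nat_lit 0) (XT.nd (nat_lit 78) (nat_lit 152) (nat_lit 0) (XT.lf (nat_lit 0) (nat_lit 18040510684) (nat_lit 76) (nat_lit 5227838071) (nat_lit 152) (nat_lit 7297903277) (nat_lit 57) (nat_lit 5) (nat_lit 58) (nat_lit 5) (nat_lit 59) (nat_lit 4) (nat_lit 513) (nat_lit 394) (nat_lit 293)) (XT.lf (nat_lit 0) (nat_lit 1123169833) (nat_lit 152) (nat_lit 26107808462) (nat_lit 76) (nat_lit 3973371216) (nat_lit 55) (nat_lit 5) (nat_lit 57) (nat_lit 5) (nat_lit 56) (nat_lit 4) (nat_lit 514) (nat_lit 394) (nat_lit 292))) (XT.nd (nat_lit 78) (nat_lit 76) (nat_lit 0) (XT.lf (nat_lit 0) (nat_lit 9804504223) (nat_lit 152) (nat_lit 8527343850) (nat_lit 76) (nat_lit 13522945315) (nat_lit 55) (nat_lit 5) (nat_lit 57) (nat_lit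 5) (nat_lit 56) (nat_lit 4) (nat_lit 515) (nat_lit 394) (nat_lit 291)) (XT.lf (nat_lit 0) (nat_lit 9723145707) (nat_lit 76) (nat_lit 9092142601) (nat_lit 152) (nat_lit 13707392427) (nat_lit 54) (nat_lit 5) (nat_lit 55) (nat_lit 5) (nat_lit 56) (nat_lit 4) (nat_lit 516) (nat_lit 394) (nat_lit 290))))) (XT.nd (nat_lit 312) (nat_lit 228) (nat_lit 0) (XT.nd (nat_lit 156) (nat_lit 76) (nat_lit 0) (XT.nd (nat_lit 78) (nat_lit 152) (nat_lit 0) (XT.lf (nat_lit 0) (nat_lit 28163033543) (nat_lit 152) (nat_lit 4564175629) (nat_lit 0) (nat_lit 481396835) (nat_lit 54) (nat_lit 5) (nat_lit 56) (nat_lit 4) (nat_lit 54) (nat_lit 4) (nat_lit 517) (nat_lit 394) (nat_lit 289)) (XT.lf (nat_lit 0) (nat_lit 4006876335) (nat_lit 152) (nat_lit 19585566567) (nat_lit 76) (nat_lit 10315356428) (nat_lit 52) (nat_lit 5) (nat_lit 54) (nat_lit 5) (nat_lit 53) (nat_lit 4) (nat_lit 518) (nat_lit 394) (nat_lit 288))) (XT.nd (nat_lit 78) (nat_lit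 76) (nat_lit 0) (XT.lf (nat_lit 0) (nat_lit 13252358421) (nat_lit 152) (nat_lit 854023193) (nat_lit 76) (nat_lit 20519402424) (nat_lit 52) (nat_lit 5) (nat_lit 54) (nat_lit 5) (nat_lit 53) (nat_lit 4) (nat_lit 519) (nat_lit 394) (nat_lit 287)) (XT.lf (nat_lit 0) (nat_lit 18761077772) (nat_lit 76) (nat_lit 4171484989) (nat_lit 152) (nat_lit 12428025176) (nat_lit 51) (nat_lit 5) (nat_lit 52) (nat_lit 5) (nat_lit 53) (nat_lit 4) (nat_lit 520) (nat_lit 394) (nat_lit 286)))) (XT.nd (nat_lit 156) (nat_lit 76) (nat_lit 0) (XT.nd (nat_lit 78) (nat_lit 76) (nat_lit 0) (XT.lf (nat_lit 0) (nat_lit 2817053711) (nat_lit 76) (nat_lit 30157230599) (nat_lit 76) (nat_lit 3141018684) (nat_lit 50) (nat_lit 4) (nat_lit 51) (nat_lit 5) (nat_lit 51) (nat_lit 4) (nat_lit 521) (nat_lit 394) (nat_lit 285)) (XT.lf (nat_lit 0) (nat_lit 6486890309) (nat_lit 152) (nat_lit 13880507815) (nat_lit 76) (nat_lit 16517779233) (nat_lit 49) (nat_lit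 5) (nat_lit 51) (nat_lit 5) (nat_lit 50) (nat_lit 4) (nat_lit 522) (nat_lit 394) (nat_lit 284))) (XT.nd (nat_lit 78) (nat_lit 0) (nat_lit 0) (XT.lf (nat_lit 0) (nat_lit 6165733288) (nat_lit 76) (nat_lit 10211783815) (nat_lit 152) (nat_lit 21298587856) (nat_lit 48) (nat_lit 5) (nat_lit 49) (nat_lit 5) (nat_lit 50) (nat_lit 4) (nat_lit 523) (nat_lit 394) (nat_lit 283)) (XT.lf (nat_lit 0) (nat_lit 26686584827) (nat_lit 152) (nat_lit 11435719511) (nat_lit 0) (nat_lit 364804719) (nat_lit 48) (nat_lit 5) (nat_lit 50) (nat_lit 4) (nat_lit 48) (nat_lit 4) (nat_lit 524) (nat_lit 394) (nat_lit 282)))))) (XT.nd (nat_lit 624) (nat_lit 456) (nat_lit 0) (XT.nd (nat_lit 312) (nat_lit 228) (nat_lit 0) (XT.nd (nat_lit 156) (nat_lit 76) (nat_lit 0) (XT.nd (nat_lit 78) (nat_lit 76) (nat_lit 0) (XT.lf (nat_lit 0) (nat_lit 9279109021) (nat_lit 76) (nat_lit 28194545703) (nat_lit 76) (nat_lit 1843726971) (nat_lit 47) (nat_lit 4) (nat_lit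 48) (nat_lit 5) (nat_lit 48) (nat_lit 4) (nat_lit 525) (nat_lit 394) (nat_lit 281)) (XT.lf (nat_lit 0) (nat_lit 8342695479) (nat_lit 152) (nat_lit 9443339749) (nat_lit 76) (nat_lit 22381249853) (nat_lit 46) (nat_lit 5) (nat_lit 48) (nat_lit 5) (nat_lit 47) (nat_lit 4) (nat_lit 526) (nat_lit 394) (nat_lit 280))) (XT.nd (nat_lit 78) (nat_lit 0) (nat_lit 0) (XT.lf (nat_lit 0) (nat_lit 11943427706) (nat_lit 76) (nat_lit 6948104790) (nat_lit 152) (nat_lit 22147789357) (nat_lit 45) (nat_lit 5) (nat_lit 46) (nat_lit 5) (nat_lit 47) (nat_lit 4) (nat_lit 527) (nat_lit 394) (nat_lit 279)) (XT.lf (nat_lit 0) (nat_lit 29872757826) (nat_lit 152) (nat_lit 7851592409) (nat_lit 0) (nat_lit 4209692081) (nat_lit 45) (nat_lit 5) (nat_lit 47) (nat_lit 4) (nat_lit 45) (nat_lit 4) (nat_lit 528) (nat_lit 394) (nat_lit 278)))) (XT.nd (nat_lit 156) (nat_lit 76) (nat_lit 0) (XT.nd (nat_lit 78) (nat_lit 76) (nat_lit 0) (XT.lf (nat_lit 0)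 (nat_lit 14198652016) (nat_lit 76) (nat_lit 27169758823) (nat_lit 76) (nat_lit 1481644105) (nat_lit 44) (nat_lit 4) (nat_lit 45) (nat_lit 5) (nat_lit 45) (nat_lit 4) (nat_lit 529) (nat_lit 394) (nat_lit 277)) (XT.lf (nat_lit 0) (nat_lit 9291454178) (nat_lit 152) (nat_lit 6850782128) (nat_lit 76) (nat_lit 27646802810) (nat_lit 43) (nat_lit 5) (nat_lit 45) (nat_lit 5) (nat_lit 44) (nat_lit 4) (nat_lit 530) (nat_lit 394) (nat_lit 276))) (XT.nd (nat_lit 78) (nat_lit 0) (nat_lit 0) (XT.lf (nat_lit 0) (nat_lit 15860156906) (nat_lit 76) (nat_lit 4630583032) (nat_lit 152) (nat_lit 24261029812) (nat_lit 42) (nat_lit 5) (nat_lit 43) (nat_lit 5) (nat_lit 44) (nat_lit 4) (nat_lit 531) (nat_lit 394) (nat_lit 275)) (XT.lf (nat_lit 0) (nat_lit 32145677271) (nat_lit 152) (nat_lit 6457145125) (nat_lit 0) (nat_lit 7136969962) (nat_lit 42) (nat_lit 5) (nat_lit 44) (nat_lit 4) (nat_lit 42) (nat_lit 4) (nat_lit 532) (nat_lit 394) (nat_lit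 274))))) (XT.nd (nat_lit 312) (nat_lit 228) (nat_lit 0) (XT.nd (nat_lit 156) (nat_lit 76) (nat_lit 0) (XT.nd (nat_lit 78) (nat_lit 76) (nat_lit 0) (XT.lf (nat_lit 0) (nat_lit 16896802549) (nat_lit 76) (nat_lit 27442646263) (nat_lit 76) (nat_lit 2412331490) (nat_lit 41) (nat_lit 4) (nat_lit 42) (nat_lit 5) (nat_lit 42) (nat_lit 4) (nat_lit 533) (nat_lit 394) (nat_lit 273)) (XT.lf (nat_lit 0) (nat_lit 8974014954) (nat_lit 152) (nat_lit 6834042536) (nat_lit 76) (nat_lit 31982041597) (nat_lit 40) (nat_lit 5) (nat_lit 42) (nat_lit 5) (nat_lit 41) (nat_lit 4) (nat_lit 534) (nat_lit 394) (nat_lit 272))) (XT.nd (nat_lit 78) (nat_lit 0) (nat_lit 0) (XT.lf (nat_lit 0) (nat_lit 17151986633) (nat_lit 76) (nat_lit 3647839294) (nat_lit 152) (nat_lit 28054634404) (nat_lit 39) (nat_lit 5) (nat_lit 40) (nat_lit 5) (nat_lit 41) (nat_lit 4) (nat_lit 535) (nat_lit 394) (nat_lit 271)) (XT.lf (nat_lit 0) (nat_lit 33116945591) (nat_lit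 152) (nat_lit 8073380843) (nat_lit 0) (nat_lit 8756330161) (nat_lit 39) (nat_lit 5) (nat_lit 41) (nat_lit 4) (nat_lit 39) (nat_lit 4) (nat_lit 536) (nat_lit 394) (nat_lit 270)))) (XT.nd (nat_lit 156) (nat_lit 76) (nat_lit 0) (XT.nd (nat_lit 78) (nat_lit 76) (nat_lit 0) (XT.lf (nat_lit 0) (nat_lit 16515432091) (nat_lit 76) (nat_lit 29465066740) (nat_lit 76) (nat_lit 5085812522) (nat_lit 38) (nat_lit 4) (nat_lit 39) (nat_lit 5) (nat_lit 39) (nat_lit 4) (nat_lit 537) (nat_lit 394) (nat_lit 269)) (XT.lf (nat_lit 0) (nat_lit 6937994245) (nat_lit 152) (nat_lit 10313221810) (nat_lit 76) (nat_lit 34964386558) (nat_lit 37) (nat_lit 5) (nat_lit 39) (nat_lit 5) (nat_lit 38) (nat_lit 4) (nat_lit 538) (nat_lit 394) (nat_lit 268))) (XT.nd (nat_lit 78) (nat_lit 0) (nat_lit 0) (XT.lf (nat_lit 0) (nat_lit 14856827646) (nat_lit 76) (nat_lit 4488860344) (nat_lit 152) (nat_lit 34048412395) (nat_lit 36) (nat_lit 5) (nat_lit 37) (nat_lit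 5) (nat_lit 38) (nat_lit 4) (nat_lit 539) (nat_lit 394) (nat_lit 267)) (XT.lf (nat_lit 0) (nat_lit 32296597198) (nat_lit 152) (nat_lit 13729994489) (nat_lit 0) (nat_lit 8576232046) (nat_lit 36) (nat_lit 5) (nat_lit 38) (nat_lit 4) (nat_lit 36) (nat_lit 4) (nat_lit 540) (nat_lit 394) (nat_lit 266))))))))
noncomputable def xc84 : XT := (XT.nd (nat_lit 53742) (nat_lit 0) (nat_lit 9272) (XT.nd (nat_lit 52572) (nat_lit 0) (nat_lit 19076) (XT.nd (nat_lit 546) (nat_lit 152) (nat_lit 0) (XT.nd (nat_lit 234) (nat_lit 152) (nat_lit 0) (XT.nd (nat_lit 78) (nat_lit 152) (nat_lit 0) (XT.lf (nat_lit 0) (nat_lit 11977467089) (nat_lit 76) (nat_lit 33801252219) (nat_lit 76) (nat_lit 10064809085) (nat_lit 35) (nat_lit 4) (nat_lit 36) (nat_lit 5) (nat_lit 36) (nat_lit 4) (nat_lit 541) (nat_lit 394) (nat_lit 265)) (XT.nd (nat_lit 78) (nat_lit 76) (nat_lit 0) (XT.lf (nat_lit 0) (nat_lit 2617345916) (nat_lit 152) (nat_lit 18438840616)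 (nat_lit 76) (nat_lit 36060840194) (nat_lit 34) (nat_lit 5) (nat_lit 36) (nat_lit 5) (nat_lit 35) (nat_lit 4) (nat_lit 542) (nat_lit 394) (nat_lit 264)) (XT.lf (nat_lit 0) (nat_lit 7770828612) (nat_lit 76) (nat_lit 7765149949) (nat_lit 152) (nat_lit 42888012892) (nat_lit 33) (nat_lit 5) (nat_lit 34) (nat_lit 5) (nat_lit 35) (nat_lit 4) (nat_lit 543) (nat_lit 394) (nat_lit 263)))) (XT.nd (nat_lit 156) (nat_lit 76) (nat_lit 0) (XT.nd (nat_lit 78) (nat_lit 76) (nat_lit 0) (XT.lf (nat_lit 0) (nat_lit 29070786114) (nat_lit 152) (nat_lit 24710978747) (nat_lit 0) (nat_lit 5981541941) (nat_lit 33) (nat_lit 5) (nat_lit 35) (nat_lit 4) (nat_lit 33) (nat_lit 4) (nat_lit 544) (nat_lit 394) (nat_lit 262)) (XT.lf (nat_lit 0) (nat_lit 1938996848) (nat_lit 76) (nat_lit 41152264695) (nat_lit 76) (nat_lit 18049151513) (nat_lit 32) (nat_lit 4) (nat_lit 33) (nat_lit 5) (nat_lit 33) (nat_lit 4) (nat_lit 545) (nat_lit 394) (nat_lit 261)))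 (XT.nd (nat_lit 78) (nat_lit 76) (nat_lit 0) (XT.lf (nat_lit 0) (nat_lit 29863902509) (nat_lit 76) (nat_lit 27902247211) (nat_lit 76) (nat_lit 4785668971) (nat_lit 32) (nat_lit 4) (nat_lit 33) (nat_lit 5) (nat_lit 33) (nat_lit 4) (nat_lit 546) (nat_lit 394) (nat_lit 260)) (XT.lf (nat_lit 0) (nat_lit 8687093754) (nat_lit 152) (nat_lit 5494850790) (nat_lit 76) (nat_lit 49821525341) (nat_lit 31) (nat_lit 5) (nat_lit 33) (nat_lit 5) (nat_lit 32) (nat_lit 4) (nat_lit 547) (nat_lit 394) (nat_lit 259))))) (XT.nd (nat_lit 51714) (nat_lit 0) (nat_lit 28500) (XT.nd (nat_lit 156) (nat_lit 76) (nat_lit 0) (XT.nd (nat_lit 78) (nat_lit 0) (nat_lit 0) (XT.lf (nat_lit 0) (nat_lit 22674870183) (nat_lit 152) (nat_lit 42609592743) (nat_lit 0) (nat_lit 206575795) (nat_lit 30) (nat_lit 5) (nat_lit 32) (nat_lit 4) (nat_lit 30) (nat_lit 4) (nat_lit 548) (nat_lit 394) (nat_lit 258)) (XT.lf (nat_lit 0) (nat_lit 37263768707) (nat_lit 152)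 (nat_lit 14970510595) (nat_lit 0) (nat_lit 14783510790) (nat_lit 30) (nat_lit 5) (nat_lit 32) (nat_lit 4) (nat_lit 30) (nat_lit 4) (nat_lit 549) (nat_lit 394) (nat_lit 257))) (XT.nd (nat_lit 78) (nat_lit 0) (nat_lit 0) (XT.lf (nat_lit 0) (nat_lit 13737019619) (nat_lit 76) (nat_lit 38670835934) (nat_lit 76) (nat_lit 16178962940) (nat_lit 29) (nat_lit 4) (nat_lit 30) (nat_lit 5) (nat_lit 30) (nat_lit 4) (nat_lit 550) (nat_lit 394) (nat_lit 256)) (XT.lf (nat_lit 0) (nat_lit 43584155591) (nat_lit 76) (nat_lit 24558904102) (nat_lit 76) (nat_lit 2055754335) (nat_lit 29) (nat_lit 4) (nat_lit 30) (nat_lit 5) (nat_lit 30) (nat_lit 4) (nat_lit 551) (nat_lit 394) (nat_lit 255)))) (XT.nd (nat_lit 156) (nat_lit 608) (nat_lit 0) (XT.nd (nat_lit 78) (nat_lit 532) (nat_lit 0) (XT.lf (nat_lit 0) (nat_lit 1630108923) (nat_lit 380) (nat_lit 821993733) (nat_lit 380) (nat_lit 821993733) (nat_lit 419) (nat_lit 4) (nat_lit 424) (nat_lit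 5) (nat_lit 424) (nat_lit 4) (nat_lit 410) (nat_lit 395) (nat_lit 395)) (XT.lf (nat_lit 0) (nat_lit 676537190) (nat_lit 456) (nat_lit 898101497) (nat_lit 532) (nat_lit 4996481892) (nat_lit 412) (nat_lit 5) (nat_lit 418) (nat_lit 5) (nat_lit 419) (nat_lit 4) (nat_lit 411) (nat_lit 395) (nat_lit 394))) (XT.nd (nat_lit 78) (nat_lit 608) (nat_lit 0) (XT.lf (nat_lit 0) (nat_lit 4731784626) (nat_lit 456) (nat_lit 45725651) (nat_lit 532) (nat_lit 1819142026) (nat_lit 412) (nat_lit 5) (nat_lit 418) (nat_lit 5) (nat_lit 419) (nat_lit 4) (nat_lit 412) (nat_lit 395) (nat_lit 393)) (XT.lf (nat_lit 0) (nat_lit 1345157724) (nat_lit 608) (nat_lit 4397372015) (nat_lit 76) (nat_lit 882425751) (nat_lit 404) (nat_lit 5) (nat_lit 412) (nat_lit 5) (nat_lit 405) (nat_lit 4) (nat_lit 413) (nat_lit 395) (nat_lit 392)))))) (XT.nd (nat_lit 546) (nat_lit 6308) (nat_lit 0) (XT.nd (nat_lit 234) (nat_lit 1748) (nat_lit 0) (XT.nd (nat_lit 78)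 (nat_lit 1368) (nat_lit 0) (XT.lf (nat_lit 0) (nat_lit 4479888524) (nat_lit 608) (nat_lit 272837502) (nat_lit 76) (nat_lit 1903503501) (nat_lit 404) (nat_lit 5) (nat_lit 412) (nat_lit 5) (nat_lit 405) (nat_lit 4) (nat_lit 414) (nat_lit 395) (nat_lit 391)) (XT.nd (nat_lit 78) (nat_lit 684) (nat_lit 0) (XT.lf (nat_lit 0) (nat_lit 933554173) (nat_lit 684) (nat_lit 2725927586) (nat_lit 76) (nat_lit 3030691197) (nat_lit 395) (nat_lit 5) (nat_lit 404) (nat_lit 5) (nat_lit 396) (nat_lit 5) (nat_lit 415) (nat_lit 395) (nat_lit 390)) (XT.lf (nat_lit 0) (nat_lit 1536798611) (nat_lit 684) (nat_lit 2470733302) (nat_lit 760) (nat_lit 2719542499) (nat_lit 386) (nat_lit 5) (nat_lit 395) (nat_lit 5) (nat_lit 396) (nat_lit 5) (nat_lit 416) (nat_lit 395) (nat_lit 389)))) (XT.nd (nat_lit 156) (nat_lit 912) (nat_lit 0) (XT.nd (nat_lit 78) (nat_lit 760) (nat_lit 0) (XT.lf (nat_lit 0) (nat_lit 326658676) (nat_lit 760) (nat_lit 867025476)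 (nat_lit 76) (nat_lit 5573522056) (nat_lit 385) (nat_lit 5) (nat_lit 395) (nat_lit 5) (nat_lit 386) (nat_lit 5) (nat_lit 417) (nat_lit 395) (nat_lit 388)) (XT.lf (nat_lit 0) (nat_lit 3346812142) (nat_lit 836) (nat_lit 3262879995) (nat_lit 76) (nat_lit 199945382) (nat_lit 375) (nat_lit 5) (nat_lit 386) (nat_lit 5) (nat_lit 376) (nat_lit 5) (nat_lit 418) (nat_lit 395) (nat_lit 387))) (XT.nd (nat_lit 78) (nat_lit 76) (nat_lit 0) (XT.lf (nat_lit 0) (nat_lit 1187123228) (nat_lit 836) (nat_lit 5205968018) (nat_lit 912) (nat_lit 462204443) (nat_lit 364) (nat_lit 5) (nat_lit 375) (nat_lit 5) (nat_lit 376) (nat_lit 5) (nat_lit 419) (nat_lit 395) (nat_lit 386)) (XT.lf (nat_lit 0) (nat_lit 2514948162) (nat_lit 912) (nat_lit 1172316353) (nat_lit 76) (nat_lit 3216185436) (nat_lit 363) (nat_lit 5) (nat_lit 375) (nat_lit 5) (nat_lit 364) (nat_lit 5) (nat_lit 420) (nat_lit 395) (nat_lit 385))))) (XT.nd (nat_lit 312) (nat_lit 3192)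 (nat_lit 0) (XT.nd (nat_lit 156) (nat_lit 1140) (nat_lit 0) (XT.nd (nat_lit 78) (nat_lit 1064) (nat_lit 0) (XT.lf (nat_lit 0) (nat_lit 3440488837) (nat_lit 912) (nat_lit 2072017832) (nat_lit 988) (nat_lit 1442211340) (nat_lit 351) (nat_lit 5) (nat_lit 363) (nat_lit 5) (nat_lit 364) (nat_lit 5) (nat_lit 421) (nat_lit 395) (nat_lit 384)) (XT.lf (nat_lit 0) (nat_lit 1133699225) (nat_lit 988) (nat_lit 358874035) (nat_lit 1064) (nat_lit 5516573072) (nat_lit 337) (nat_lit 5) (nat_lit 350) (nat_lit 5) (nat_lit 351) (nat_lit 5) (nat_lit 422) (nat_lit 395) (nat_lit 383))) (XT.nd (nat_lit 78) (nat_lit 1140) (nat_lit 0) (XT.lf (nat_lit 0) (nat_lit 4446072629) (nat_lit 1064) (nat_lit 1182718084) (nat_lit 76) (nat_lit 1437215041) (nat_lit 337) (nat_lit 5) (nat_lit 351) (nat_lit 5) (nat_lit 338) (nat_lit 5) (nat_lit 423) (nat_lit 395) (nat_lit 382)) (XT.lf (nat_lit 0) (nat_lit 307450022) (nat_lit 1140) (nat_lit 3491948327) (nat_lit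 76) (nat_lit 3326555006) (nat_lit 322) (nat_lit 5) (nat_lit 337) (nat_lit 5) (nat_lit 323) (nat_lit 5) (nat_lit 424) (nat_lit 395) (nat_lit 381)))) (XT.nd (nat_lit 156) (nat_lit 2052) (nat_lit 0) (XT.nd (nat_lit 78) (nat_lit 0) (nat_lit 0) (XT.lf (nat_lit 0) (nat_lit 1350388107) (nat_lit 1140) (nat_lit 1858475483) (nat_lit 1216) (nat_lit 3979906573) (nat_lit 307) (nat_lit 5) (nat_lit 322) (nat_lit 5) (nat_lit 323) (nat_lit 5) (nat_lit 425) (nat_lit 395) (nat_lit 380)) (XT.lf (nat_lit 0) (nat_lit 6149867594) (nat_lit 1216) (nat_lit 928351317) (nat_lit 76) (nat_lit 176690671) (nat_lit 307) (nat_lit 5) (nat_lit 323) (nat_lit 5) (nat_lit 308) (nat_lit 5) (nat_lit 426) (nat_lit 395) (nat_lit 379))) (XT.nd (nat_lit 78) (nat_lit 760) (nat_lit 0) (XT.lf (nat_lit 0) (nat_lit 1795544248) (nat_lit 1292) (nat_lit 3231974878) (nat_lit 76) (nat_lit 2295721690) (nat_lit 290) (nat_lit 5) (nat_lit 307) (nat_lit 5) (nat_lit 291)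 (nat_lit 5) (nat_lit 427) (nat_lit 395) (nat_lit 378)) (XT.lf (nat_lit 0) (nat_lit 1829628075) (nat_lit 760) (nat_lit 2877211737) (nat_lit 836) (nat_lit 2688090199) (nat_lit 280) (nat_lit 5) (nat_lit 290) (nat_lit 5) (nat_lit 291) (nat_lit 5) (nat_lit 428) (nat_lit 395) (nat_lit 377))))))) (XT.nd (nat_lit 1170) (nat_lit 4180) (nat_lit 0) (XT.nd (nat_lit 546) (nat_lit 2584) (nat_lit 0) (XT.nd (nat_lit 234) (nat_lit 1748) (nat_lit 0) (XT.nd (nat_lit 78) (nat_lit 1216) (nat_lit 0) (XT.lf (nat_lit 0) (nat_lit 184673027) (nat_lit 836) (nat_lit 444066025) (nat_lit 76) (nat_lit 6841397489) (nat_lit 279) (nat_lit 5) (nat_lit 290) (nat_lit 5) (nat_lit 280) (nat_lit 5) (nat_lit 429) (nat_lit 395) (nat_lit 376)) (XT.nd (nat_lit 78) (nat_lit 608) (nat_lit 0) (XT.lf (nat_lit 0) (nat_lit 3074785537) (nat_lit 684) (nat_lit 2747069690) (nat_lit 76) (nat_lit 1725401951) (nat_lit 271) (nat_lit 5) (nat_lit 280) (nat_lit 5) (nat_lit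 272) (nat_lit 5) (nat_lit 430) (nat_lit 395) (nat_lit 375)) (XT.lf (nat_lit 0) (nat_lit 2545643258) (nat_lit 608) (nat_lit 3464625174) (nat_lit 684) (nat_lit 1617674822) (nat_lit 263) (nat_lit 5) (nat_lit 271) (nat_lit 5) (nat_lit 272) (nat_lit 5) (nat_lit 431) (nat_lit 395) (nat_lit 374)))) (XT.nd (nat_lit 156) (nat_lit 1140) (nat_lit 0) (XT.nd (nat_lit 78) (nat_lit 0) (nat_lit 0) (XT.lf (nat_lit 0) (nat_lit 252374162) (nat_lit 532) (nat_lit 999157127) (nat_lit 608) (nat_lit 6460510994) (nat_lit 255) (nat_lit 5) (nat_lit 262) (nat_lit 5) (nat_lit 263) (nat_lit 5) (nat_lit 432) (nat_lit 395) (nat_lit 373)) (XT.lf (nat_lit 0) (nat_lit 4166421139) (nat_lit 608) (nat_lit 2061337422) (nat_lit 76) (nat_lit 1570672414) (nat_lit 255) (nat_lit 5) (nat_lit 263) (nat_lit 5) (nat_lit 256) (nat_lit 5) (nat_lit 433) (nat_lit 395) (nat_lit 372))) (XT.nd (nat_lit 78) (nat_lit 608) (nat_lit 0) (XT.lf (nat_lit 0) (nat_lit 3475161818)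 (nat_lit 532) (nat_lit 3664549965) (nat_lit 608) (nat_lit 748581431) (nat_lit 248) (nat_lit 5) (nat_lit 255) (nat_lit 5) (nat_lit 256) (nat_lit 5) (nat_lit 434) (nat_lit 395) (nat_lit 371)) (XT.lf (nat_lit 0) (nat_lit 1158493806) (nat_lit 532) (nat_lit 979939587) (nat_lit 608) (nat_lit 5842974341) (nat_lit 240) (nat_lit 5) (nat_lit 247) (nat_lit 5) (nat_lit 248) (nat_lit 5) (nat_lit 435) (nat_lit 395) (nat_lit 370))))) (XT.nd (nat_lit 312) (nat_lit 1520) (nat_lit 0) (XT.nd (nat_lit 156) (nat_lit 532) (nat_lit 0) (XT.nd (nat_lit 78) (nat_lit 532) (nat_lit 0) (XT.lf (nat_lit 0) (nat_lit 5088649680) (nat_lit 608) (nat_lit 1196805939) (nat_lit 76) (nat_lit 1791898235) (nat_lit 240) (nat_lit 5) (nat_lit 248) (nat_lit 5) (nat_lit 241) (nat_lit 5) (nat_lit 436) (nat_lit 395) (nat_lit 369)) (XT.lf (nat_lit 0) (nat_lit 4596973464) (nat_lit 532) (nat_lit 3515815565) (nat_lit 608) (nat_lit 63836169) (nat_lit 233) (nat_lit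 5) (nat_lit 240) (nat_lit 5) (nat_lit 241) (nat_lit 5) (nat_lit 437) (nat_lit 395) (nat_lit 368))) (XT.nd (nat_lit 78) (nat_lit 0) (nat_lit 0) (XT.lf (nat_lit 0) (nat_lit 2244237088) (nat_lit 456) (nat_lit 612850412) (nat_lit 532) (nat_lit 5421970092) (nat_lit 226) (nat_lit 5) (nat_lit 232) (nat_lit 5) (nat_lit 233) (nat_lit 5) (nat_lit 438) (nat_lit 395) (nat_lit 367)) (XT.lf (nat_lit 0) (nat_lit 5856850187) (nat_lit 532) (nat_lit 173849631) (nat_lit 76) (nat_lit 2354077895) (nat_lit 226) (nat_lit 5) (nat_lit 233) (nat_lit 5) (nat_lit 227) (nat_lit 5) (nat_lit 439) (nat_lit 395) (nat_lit 366)))) (XT.nd (nat_lit 156) (nat_lit 532) (nat_lit 0) (XT.nd (nat_lit 78) (nat_lit 456) (nat_lit 0) (XT.lf (nat_lit 0) (nat_lit 441853715) (nat_lit 532) (nat_lit 2606570723) (nat_lit 76) (nat_lit 5445189762) (nat_lit 219) (nat_lit 5) (nat_lit 226) (nat_lit 5) (nat_lit 220) (nat_lit 5) (nat_lit 440) (nat_lit 395) (nat_lit 365))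 (XT.lf (nat_lit 0) (nat_lit 3421474969) (nat_lit 532) (nat_lit 5116636313) (nat_lit 76) (nat_lit 67714787) (nat_lit 213) (nat_lit 5) (nat_lit 220) (nat_lit 5) (nat_lit 214) (nat_lit 5) (nat_lit 441) (nat_lit 395) (nat_lit 364))) (XT.nd (nat_lit 78) (nat_lit 76) (nat_lit 0) (XT.lf (nat_lit 0) (nat_lit 1008070684) (nat_lit 456) (nat_lit 5485386694) (nat_lit 532) (nat_lit 2227865333) (nat_lit 207) (nat_lit 5) (nat_lit 213) (nat_lit 5) (nat_lit 214) (nat_lit 5) (nat_lit 442) (nat_lit 395) (nat_lit 363)) (XT.lf (nat_lit 0) (nat_lit 790509093) (nat_lit 532) (nat_lit 1507955077) (nat_lit 76) (nat_lit 6541917259) (nat_lit 206) (nat_lit 5) (nat_lit 213) (nat_lit 5) (nat_lit 207) (nat_lit 5) (nat_lit 443) (nat_lit 395) (nat_lit 362)))))) (XT.nd (nat_lit 546) (nat_lit 2128) (nat_lit 0) (XT.nd (nat_lit 234) (nat_lit 1140) (nat_lit 0) (XT.nd (nat_lit 78) (nat_lit 532) (nat_lit 0) (XT.lf (nat_lit 0) (nat_lit 3850297019) (nat_lit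 456) (nat_lit 4096005675) (nat_lit 76) (nat_lit 1016185215) (nat_lit 201) (nat_lit 5) (nat_lit 207) (nat_lit 5) (nat_lit 202) (nat_lit 5) (nat_lit 444) (nat_lit 395) (nat_lit 361)) (XT.nd (nat_lit 78) (nat_lit 76) (nat_lit 0) (XT.lf (nat_lit 0) (nat_lit 2316856600) (nat_lit 456) (nat_lit 4685068266) (nat_lit 532) (nat_lit 2086338074) (nat_lit 195) (nat_lit 5) (nat_lit 201) (nat_lit 5) (nat_lit 202) (nat_lit 5) (nat_lit 445) (nat_lit 395) (nat_lit 360)) (XT.lf (nat_lit 0) (nat_lit 991992406) (nat_lit 532) (nat_lit 301932614) (nat_lit 76) (nat_lit 7924141245) (nat_lit 194) (nat_lit 5) (nat_lit 201) (nat_lit 5) (nat_lit 195) (nat_lit 5) (nat_lit 446) (nat_lit 395) (nat_lit 359)))) (XT.nd (nat_lit 156) (nat_lit 380) (nat_lit 0) (XT.nd (nat_lit 78) (nat_lit 380) (nat_lit 0) (XT.lf (nat_lit 0) (nat_lit 4145668510) (nat_lit 456) (nat_lit 2985963807) (nat_lit 76) (nat_lit 2218769970) (nat_lit 189) (nat_lit 5) (nat_lit 195)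 (nat_lit 5) (nat_lit 190) (nat_lit 5) (nat_lit 447) (nat_lit 395) (nat_lit 358)) (XT.lf (nat_lit 0) (nat_lit 3730825546) (nat_lit 380) (nat_lit 3657411681) (nat_lit 456) (nat_lit 2098648686) (nat_lit 184) (nat_lit 5) (nat_lit 189) (nat_lit 5) (nat_lit 190) (nat_lit 5) (nat_lit 448) (nat_lit 395) (nat_lit 357))) (XT.nd (nat_lit 78) (nat_lit 0) (nat_lit 0) (XT.lf (nat_lit 0) (nat_lit 1012782071) (nat_lit 304) (nat_lit 49426822) (nat_lit 380) (nat_lit 8565451401) (nat_lit 179) (nat_lit 5) (nat_lit 183) (nat_lit 5) (nat_lit 184) (nat_lit 5) (nat_lit 449) (nat_lit 395) (nat_lit 356)) (XT.lf (nat_lit 0) (nat_lit 4313223509) (nat_lit 380) (nat_lit 1805392558) (nat_lit 76) (nat_lit 3652298600) (nat_lit 179) (nat_lit 5) (nat_lit 184) (nat_lit 5) (nat_lit 180) (nat_lit 5) (nat_lit 450) (nat_lit 395) (nat_lit 355))))) (XT.nd (nat_lit 312) (nat_lit 1064) (nat_lit 0) (XT.nd (nat_lit 156) (nat_lit 304) (nat_lit 0) (XT.nd (nat_lit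 78) (nat_lit 380) (nat_lit 0) (XT.lf (nat_lit 0) (nat_lit 5231765212) (nat_lit 380) (nat_lit 2425991565) (nat_lit 456) (nat_lit 2260835574) (nat_lit 174) (nat_lit 5) (nat_lit 179) (nat_lit 5) (nat_lit 180) (nat_lit 5) (nat_lit 451) (nat_lit 395) (nat_lit 354)) (XT.lf (nat_lit 0) (nat_lit 1012359577) (nat_lit 380) (nat_lit 7679124101) (nat_lit 76) (nat_lit 1378907007) (nat_lit 169) (nat_lit 5) (nat_lit 174) (nat_lit 5) (nat_lit 170) (nat_lit 5) (nat_lit 452) (nat_lit 395) (nat_lit 353))) (XT.nd (nat_lit 78) (nat_lit 304) (nat_lit 0) (XT.lf (nat_lit 0) (nat_lit 4356253641) (nat_lit 380) (nat_lit 573565839) (nat_lit 76) (nat_lit 5295718519) (nat_lit 169) (nat_lit 5) (nat_lit 174) (nat_lit 5) (nat_lit 170) (nat_lit 5) (nat_lit 453) (nat_lit 395) (nat_lit 352)) (XT.lf (nat_lit 0) (nat_lit 6801028666) (nat_lit 304) (nat_lit 1012508149) (nat_lit 380) (nat_lit 2571415479) (nat_lit 165) (nat_lit 5) (nat_lit 169) (nat_lit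 5) (nat_lit 170) (nat_lit 5) (nat_lit 454) (nat_lit 395) (nat_lit 351)))) (XT.nd (nat_lit 156) (nat_lit 380) (nat_lit 0) (XT.nd (nat_lit 78) (nat_lit 304) (nat_lit 0) (XT.lf (nat_lit 0) (nat_lit 829425558) (nat_lit 380) (nat_lit 6728861963) (nat_lit 76) (nat_lit 2990023660) (nat_lit 160) (nat_lit 5) (nat_lit 165) (nat_lit 5) (nat_lit 161) (nat_lit 5) (nat_lit 455) (nat_lit 395) (nat_lit 350)) (XT.lf (nat_lit 0) (nat_lit 703108997) (nat_lit 304) (nat_lit 3579346114) (nat_lit 380) (nat_lit 6433300881) (nat_lit 156) (nat_lit 5) (nat_lit 160) (nat_lit 5) (nat_lit 161) (nat_lit 5) (nat_lit 456) (nat_lit 395) (nat_lit 349))) (XT.nd (nat_lit 78) (nat_lit 380) (nat_lit 0) (XT.lf (nat_lit 0) (nat_lit 7861707492) (nat_lit 380) (nat_lit 2474059183) (nat_lit 76) (nat_lit 551782719) (nat_lit 156) (nat_lit 5) (nat_lit 161) (nat_lit 5) (nat_lit 157) (nat_lit 5) (nat_lit 457) (nat_lit 395) (nat_lit 348)) (XT.lf (nat_lit 0) (nat_lit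 511482930) (nat_lit 380) (nat_lit 5785996343) (nat_lit 76) (nat_lit 4765769249) (nat_lit 151) (nat_lit 5) (nat_lit 156) (nat_lit 5) (nat_lit 152) (nat_lit 5) (nat_lit 458) (nat_lit 395) (nat_lit 347))))))))
noncomputable def xc85 : XT := (XT.nd (nat_lit 2340) (nat_lit 2812) (nat_lit 0) (XT.nd (nat_lit 1170) (nat_lit 2052) (nat_lit 0) (XT.nd (nat_lit 546) (nat_lit 1216) (nat_lit 0) (XT.nd (nat_lit 234) (nat_lit 836) (nat_lit 0) (XT.nd (nat_lit 78) (nat_lit 304) (nat_lit 0) (XT.lf (nat_lit 0) (nat_lit 2001041835) (nat_lit 304) (nat_lit 2088274272) (nat_lit 380) (nat_lit 7154151451) (nat_lit 147) (nat_lit 5) (nat_lit 151) (nat_lit 5) (nat_lit 152) (nat_lit 5) (nat_lit 459) (nat_lit 395) (nat_lit 346)) (XT.nd (nat_lit 78) (nat_lit 304) (nat_lit 0) (XT.lf (nat_lit 0) (nat_lit 7806282642) (nat_lit 380) (nat_lit 1385826581) (nat_lit 76) (nat_lit 2236033724) (nat_lit 147) (nat_lit 5) (nat_lit 152) (nat_lit 5) (nat_lit 148)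 (nat_lit 5) (nat_lit 460) (nat_lit 395) (nat_lit 345)) (XT.lf (nat_lit 0) (nat_lit 54559879) (nat_lit 304) (nat_lit 4874752562) (nat_lit 76) (nat_lit 6687890538) (nat_lit 143) (nat_lit 5) (nat_lit 147) (nat_lit 5) (nat_lit 144) (nat_lit 5) (nat_lit 461) (nat_lit 395) (nat_lit 344)))) (XT.nd (nat_lit 156) (nat_lit 532) (nat_lit 0) (XT.nd (nat_lit 78) (nat_lit 0) (nat_lit 0) (XT.lf (nat_lit 0) (nat_lit 3284985474) (nat_lit 304) (nat_lit 482020436) (nat_lit 380) (nat_lit 8043900650) (nat_lit 139) (nat_lit 5) (nat_lit 143) (nat_lit 5) (nat_lit 144) (nat_lit 5) (nat_lit 462) (nat_lit 395) (nat_lit 343)) (XT.lf (nat_lit 0) (nat_lit 7633157794) (nat_lit 380) (nat_lit 334379153) (nat_lit 76) (nat_lit 4041617645) (nat_lit 139) (nat_lit 5) (nat_lit 144) (nat_lit 5) (nat_lit 140) (nat_lit 5) (nat_lit 463) (nat_lit 395) (nat_lit 342))) (XT.nd (nat_lit 78) (nat_lit 304) (nat_lit 0) (XT.lf (nat_lit 0) (nat_lit 8185049096) (nat_lit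 228) (nat_lit 3468280354) (nat_lit 304) (nat_lit 558882780) (nat_lit 136) (nat_lit 5) (nat_lit 139) (nat_lit 5) (nat_lit 140) (nat_lit 5) (nat_lit 464) (nat_lit 395) (nat_lit 341)) (XT.lf (nat_lit 0) (nat_lit 3320364777) (nat_lit 304) (nat_lit 7903495485) (nat_lit 76) (nat_lit 1196128711) (nat_lit 132) (nat_lit 5) (nat_lit 136) (nat_lit 5) (nat_lit 133) (nat_lit 5) (nat_lit 465) (nat_lit 395) (nat_lit 340))))) (XT.nd (nat_lit 312) (nat_lit 456) (nat_lit 0) (XT.nd (nat_lit 156) (nat_lit 532) (nat_lit 0) (XT.nd (nat_lit 78) (nat_lit 0) (nat_lit 0) (XT.lf (nat_lit 0) (nat_lit 665589825) (nat_lit 228) (nat_lit 6676096546) (nat_lit 304) (nat_lit 5291041702) (nat_lit 129) (nat_lit 5) (nat_lit 132) (nat_lit 5) (nat_lit 133) (nat_lit 5) (nat_lit 466) (nat_lit 395) (nat_lit 339)) (XT.lf (nat_lit 0) (nat_lit 9581124413) (nat_lit 228) (nat_lit 1938064915) (nat_lit 304) (nat_lit 1331596629) (nat_lit 129) (nat_lit 5) (nat_lit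 132) (nat_lit 5) (nat_lit 133) (nat_lit 5) (nat_lit 467) (nat_lit 395) (nat_lit 338))) (XT.nd (nat_lit 78) (nat_lit 228) (nat_lit 0) (XT.lf (nat_lit 0) (nat_lit 2733257837) (nat_lit 304) (nat_lit 7400850625) (nat_lit 76) (nat_lit 2939281064) (nat_lit 125) (nat_lit 5) (nat_lit 129) (nat_lit 5) (nat_lit 126) (nat_lit 5) (nat_lit 468) (nat_lit 395) (nat_lit 337)) (XT.lf (nat_lit 0) (nat_lit 1574669551) (nat_lit 228) (nat_lit 5343204063) (nat_lit 304) (nat_lit 6383667299) (nat_lit 122) (nat_lit 5) (nat_lit 125) (nat_lit 5) (nat_lit 126) (nat_lit 5) (nat_lit 469) (nat_lit 395) (nat_lit 336)))) (XT.nd (nat_lit 156) (nat_lit 152) (nat_lit 0) (XT.nd (nat_lit 78) (nat_lit 304) (nat_lit 0) (XT.lf (nat_lit 0) (nat_lit 10900160869) (nat_lit 228) (nat_lit 360083518) (nat_lit 304) (nat_lit 2275328503) (nat_lit 122) (nat_lit 5) (nat_lit 125) (nat_lit 5) (nat_lit 126) (nat_lit 5) (nat_lit 470) (nat_lit 395) (nat_lit 335)) (XT.lf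 (nat_lit 0) (nat_lit 1987933950) (nat_lit 304) (nat_lit 7049428094) (nat_lit 76) (nat_lit 4736606621) (nat_lit 118) (nat_lit 5) (nat_lit 122) (nat_lit 5) (nat_lit 119) (nat_lit 5) (nat_lit 471) (nat_lit 395) (nat_lit 334))) (XT.nd (nat_lit 78) (nat_lit 0) (nat_lit 0) (XT.lf (nat_lit 0) (nat_lit 2350045774) (nat_lit 152) (nat_lit 3994939166) (nat_lit 228) (nat_lit 7673509185) (nat_lit 116) (nat_lit 5) (nat_lit 118) (nat_lit 5) (nat_lit 119) (nat_lit 5) (nat_lit 472) (nat_lit 395) (nat_lit 333)) (XT.lf (nat_lit 0) (nat_lit 10875017484) (nat_lit 228) (nat_lit 2174757748) (nat_lit 76) (nat_lit 1219314276) (nat_lit 116) (nat_lit 5) (nat_lit 119) (nat_lit 5) (nat_lit 117) (nat_lit 5) (nat_lit 473) (nat_lit 395) (nat_lit 332)))))) (XT.nd (nat_lit 546) (nat_lit 988) (nat_lit 0) (XT.nd (nat_lit 234) (nat_lit 608) (nat_lit 0) (XT.nd (nat_lit 78) (nat_lit 152) (nat_lit 0) (XT.lf (nat_lit 0) (nat_lit 1067786192) (nat_lit 304)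 (nat_lit 6890379352) (nat_lit 76) (nat_lit 6566532399) (nat_lit 112) (nat_lit 5) (nat_lit 116) (nat_lit 5) (nat_lit 113) (nat_lit 5) (nat_lit 474) (nat_lit 395) (nat_lit 331)) (XT.nd (nat_lit 78) (nat_lit 0) (nat_lit 0) (XT.lf (nat_lit 0) (nat_lit 2950283008) (nat_lit 152) (nat_lit 2655713905) (nat_lit 228) (nat_lit 9180650221) (nat_lit 110) (nat_lit 5) (nat_lit 112) (nat_lit 5) (nat_lit 113) (nat_lit 5) (nat_lit 475) (nat_lit 395) (nat_lit 330)) (XT.lf (nat_lit 0) (nat_lit 10338005230) (nat_lit 228) (nat_lit 1923251368) (nat_lit 76) (nat_lit 2793470671) (nat_lit 110) (nat_lit 5) (nat_lit 113) (nat_lit 5) (nat_lit 111) (nat_lit 5) (nat_lit 476) (nat_lit 395) (nat_lit 329)))) (XT.nd (nat_lit 156) (nat_lit 152) (nat_lit 0) (XT.nd (nat_lit 78) (nat_lit 228) (nat_lit 0) (XT.lf (nat_lit 0) (nat_lit 8357407650) (nat_lit 228) (nat_lit 6922761783) (nat_lit 304) (nat_lit 48636456) (nat_lit 107) (nat_lit 5) (nat_lit 110)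 (nat_lit 5) (nat_lit 111) (nat_lit 5) (nat_lit 477) (nat_lit 395) (nat_lit 328)) (XT.lf (nat_lit 0) (nat_lit 3327630203) (nat_lit 152) (nat_lit 1352259767) (nat_lit 228) (nat_lit 10929448006) (nat_lit 104) (nat_lit 5) (nat_lit 106) (nat_lit 5) (nat_lit 107) (nat_lit 5) (nat_lit 478) (nat_lit 395) (nat_lit 327))) (XT.nd (nat_lit 78) (nat_lit 152) (nat_lit 0) (XT.lf (nat_lit 0) (nat_lit 9624425857) (nat_lit 228) (nat_lit 1927929718) (nat_lit 76) (nat_lit 4343663853) (nat_lit 104) (nat_lit 5) (nat_lit 107) (nat_lit 5) (nat_lit 105) (nat_lit 5) (nat_lit 479) (nat_lit 395) (nat_lit 326)) (XT.lf (nat_lit 0) (nat_lit 8830377029) (nat_lit 152) (nat_lit 5948184735) (nat_lit 228) (nat_lit 1410903373) (nat_lit 102) (nat_lit 5) (nat_lit 104) (nat_lit 5) (nat_lit 105) (nat_lit 5) (nat_lit 480) (nat_lit 395) (nat_lit 325))))) (XT.nd (nat_lit 312) (nat_lit 380) (nat_lit 0) (XT.nd (nat_lit 156) (nat_lit 380) (nat_lit 0) (XT.nd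 (nat_lit 78) (nat_lit 0) (nat_lit 0) (XT.lf (nat_lit 0) (nat_lit 3426830020) (nat_lit 152) (nat_lit 114303961) (nat_lit 228) (nat_lit 12949074281) (nat_lit 99) (nat_lit 5) (nat_lit 101) (nat_lit 5) (nat_lit 102) (nat_lit 5) (nat_lit 481) (nat_lit 395) (nat_lit 324)) (XT.lf (nat_lit 0) (nat_lit 8708359238) (nat_lit 228) (nat_lit 2247227098) (nat_lit 76) (nat_lit 5841120315) (nat_lit 99) (nat_lit 5) (nat_lit 102) (nat_lit 5) (nat_lit 100) (nat_lit 5) (nat_lit 482) (nat_lit 395) (nat_lit 323))) (XT.nd (nat_lit 78) (nat_lit 228) (nat_lit 0) (XT.lf (nat_lit 0) (nat_lit 9004595720) (nat_lit 152) (nat_lit 5078038603) (nat_lit 228) (nat_lit 3028206214) (nat_lit 97) (nat_lit 5) (nat_lit 99) (nat_lit 5) (nat_lit 100) (nat_lit 5) (nat_lit 483) (nat_lit 395) (nat_lit 322)) (XT.lf (nat_lit 0) (nat_lit 2168926435) (nat_lit 228) (nat_lit 14259330721) (nat_lit 76) (nat_lit 1004678996) (nat_lit 94) (nat_lit 5) (nat_lit 97) (nat_lit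 5) (nat_lit 95) (nat_lit 5) (nat_lit 484) (nat_lit 395) (nat_lit 321)))) (XT.nd (nat_lit 156) (nat_lit 228) (nat_lit 0) (XT.nd (nat_lit 78) (nat_lit 152) (nat_lit 0) (XT.lf (nat_lit 0) (nat_lit 7558648354) (nat_lit 228) (nat_lit 2948935876) (nat_lit 76) (nat_lit 7253286170) (nat_lit 94) (nat_lit 5) (nat_lit 97) (nat_lit 5) (nat_lit 95) (nat_lit 5) (nat_lit 485) (nat_lit 395) (nat_lit 320)) (XT.lf (nat_lit 0) (nat_lit 8810909314) (nat_lit 152) (nat_lit 4349473691) (nat_lit 228) (nat_lit 4936751405) (nat_lit 92) (nat_lit 5) (nat_lit 94) (nat_lit 5) (nat_lit 95) (nat_lit 5) (nat_lit 486) (nat_lit 395) (nat_lit 319))) (XT.nd (nat_lit 78) (nat_lit 0) (nat_lit 0) (XT.lf (nat_lit 0) (nat_lit 516701642) (nat_lit 228) (nat_lit 15938416565) (nat_lit 76) (nat_lit 1987043615) (nat_lit 89) (nat_lit 5) (nat_lit 92) (nat_lit 5) (nat_lit 90) (nat_lit 5) (nat_lit 487) (nat_lit 395) (nat_lit 318)) (XT.lf (nat_lit 0) (nat_lit 6138147293)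 (nat_lit 228) (nat_lit 4111845253) (nat_lit 76) (nat_lit 8542974016) (nat_lit 89) (nat_lit 5) (nat_lit 92) (nat_lit 5) (nat_lit 90) (nat_lit 5) (nat_lit 488) (nat_lit 395) (nat_lit 317))))))) (XT.nd (nat_lit 1170) (nat_lit 1292) (nat_lit 0) (XT.nd (nat_lit 546) (nat_lit 684) (nat_lit 0) (XT.nd (nat_lit 234) (nat_lit 456) (nat_lit 0) (XT.nd (nat_lit 78) (nat_lit 228) (nat_lit 0) (XT.lf (nat_lit 0) (nat_lit 8168710230) (nat_lit 152) (nat_lit 3804891078) (nat_lit 228) (nat_lit 7179334401) (nat_lit 87) (nat_lit 5) (nat_lit 89) (nat_lit 5) (nat_lit 90) (nat_lit 5) (nat_lit 489) (nat_lit 395) (nat_lit 316)) (XT.nd (nat_lit 78) (nat_lit 76) (nat_lit 0) (XT.lf (nat_lit 0) (nat_lit 1317217966) (nat_lit 152) (nat_lit 16715710298) (nat_lit 228) (nat_lit 1489312567) (nat_lit 85) (nat_lit 5) (nat_lit 87) (nat_lit 5) (nat_lit 88) (nat_lit 4) (nat_lit 490) (nat_lit 395) (nat_lit 315)) (XT.lf (nat_lit 0) (nat_lit 4402837461) (nat_lit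 228) (nat_lit 5827632988) (nat_lit 76) (nat_lit 9667393263) (nat_lit 84) (nat_lit 5) (nat_lit 87) (nat_lit 5) (nat_lit 85) (nat_lit 5) (nat_lit 491) (nat_lit 395) (nat_lit 314)))) (XT.nd (nat_lit 156) (nat_lit 304) (nat_lit 0) (XT.nd (nat_lit 78) (nat_lit 0) (nat_lit 0) (XT.lf (nat_lit 0) (nat_lit 6983959824) (nat_lit 152) (nat_lit 3492992506) (nat_lit 228) (nat_lit 9806307637) (nat_lit 82) (nat_lit 5) (nat_lit 84) (nat_lit 5) (nat_lit 85) (nat_lit 5) (nat_lit 492) (nat_lit 395) (nat_lit 313)) (XT.lf (nat_lit 0) (nat_lit 16793971287) (nat_lit 228) (nat_lit 471580864) (nat_lit 76) (nat_lit 3412846589) (nat_lit 82) (nat_lit 5) (nat_lit 85) (nat_lit 5) (nat_lit 83) (nat_lit 4) (nat_lit 493) (nat_lit 395) (nat_lit 312))) (XT.nd (nat_lit 78) (nat_lit 152) (nat_lit 0) (XT.lf (nat_lit 0) (nat_lit 2300792198) (nat_lit 152) (nat_lit 8203051788) (nat_lit 76) (nat_lit 10577042651) (nat_lit 80) (nat_lit 5) (nat_lit 82) (nat_lit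 5) (nat_lit 81) (nat_lit 5) (nat_lit 494) (nat_lit 395) (nat_lit 311)) (XT.lf (nat_lit 0) (nat_lit 5146901111) (nat_lit 152) (nat_lit 3469980983) (nat_lit 228) (nat_lit 12876712645) (nat_lit 78) (nat_lit 5) (nat_lit 80) (nat_lit 5) (nat_lit 81) (nat_lit 5) (nat_lit 495) (nat_lit 395) (nat_lit 310))))) (XT.nd (nat_lit 312) (nat_lit 380) (nat_lit 0) (XT.nd (nat_lit 156) (nat_lit 228) (nat_lit 0) (XT.nd (nat_lit 78) (nat_lit 76) (nat_lit 0) (XT.lf (nat_lit 0) (nat_lit 15211604771) (nat_lit 228) (nat_lit 2945026064) (nat_lit 76) (nat_lit 3759379674) (nat_lit 78) (nat_lit 5) (nat_lit 81) (nat_lit 5) (nat_lit 79) (nat_lit 4) (nat_lit 496) (nat_lit 395) (nat_lit 309)) (XT.lf (nat_lit 0) (nat_lit 10983094460) (nat_lit 76) (nat_lit 11131112549) (nat_lit 152) (nat_lit 233591513) (nat_lit 77) (nat_lit 5) (nat_lit 78) (nat_lit 5) (nat_lit 79) (nat_lit 4) (nat_lit 497) (nat_lit 395) (nat_lit 308))) (XT.nd (nat_lit 78) (nat_lit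 0) (nat_lit 0) (XT.lf (nat_lit 0) (nat_lit 2529411492) (nat_lit 152) (nat_lit 3800938402) (nat_lit 228) (nat_lit 16459601426) (nat_lit 74) (nat_lit 5) (nat_lit 76) (nat_lit 5) (nat_lit 77) (nat_lit 5) (nat_lit 498) (nat_lit 395) (nat_lit 307)) (XT.lf (nat_lit 0) (nat_lit 13208699211) (nat_lit 228) (nat_lit 6263803941) (nat_lit 76) (nat_lit 3769131455) (nat_lit 74) (nat_lit 5) (nat_lit 77) (nat_lit 5) (nat_lit 75) (nat_lit 4) (nat_lit 499) (nat_lit 395) (nat_lit 306)))) (XT.nd (nat_lit 156) (nat_lit 228) (nat_lit 0) (XT.nd (nat_lit 78) (nat_lit 76) (nat_lit 0) (XT.lf (nat_lit 0) (nat_lit 8221549707) (nat_lit 76) (nat_lit 12159627588) (nat_lit 152) (nat_lit 3323058552) (nat_lit 73) (nat_lit 5) (nat_lit 74) (nat_lit 5) (nat_lit 75) (nat_lit 4) (nat_lit 500) (nat_lit 395) (nat_lit 305)) (XT.lf (nat_lit 0) (nat_lit 3553133635) (nat_lit 152) (nat_lit 998197022) (nat_lit 76) (nat_lit 19627299407) (nat_lit 72) (nat_lit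 5) (nat_lit 74) (nat_lit 5) (nat_lit 73) (nat_lit 5) (nat_lit 501) (nat_lit 395) (nat_lit 304))) (XT.nd (nat_lit 78) (nat_lit 76) (nat_lit 0) (XT.lf (nat_lit 0) (nat_lit 10709472326) (nat_lit 228) (nat_lit 10585327939) (nat_lit 76) (nat_lit 3367250003) (nat_lit 70) (nat_lit 5) (nat_lit 73) (nat_lit 5) (nat_lit 71) (nat_lit 4) (nat_lit 502) (nat_lit 395) (nat_lit 303)) (XT.lf (nat_lit 0) (nat_lit 4453794361) (nat_lit 76) (nat_lit 13696840809) (nat_lit 152) (nat_lit 7007234601) (nat_lit 69) (nat_lit 5) (nat_lit 70) (nat_lit 5) (nat_lit 71) (nat_lit 4) (nat_lit 503) (nat_lit 395) (nat_lit 302)))))) (XT.nd (nat_lit 624) (nat_lit 684) (nat_lit 0) (XT.nd (nat_lit 312) (nat_lit 304) (nat_lit 0) (XT.nd (nat_lit 156) (nat_lit 76) (nat_lit 0) (XT.nd (nat_lit 78) (nat_lit 152) (nat_lit 0) (XT.lf (nat_lit 0) (nat_lit 223677584) (nat_lit 152) (nat_lit 5559417176) (nat_lit 76) (nat_lit 19883025533) (nat_lit 68) (nat_lit 5) (nat_lit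 70) (nat_lit 5) (nat_lit 69) (nat_lit 5) (nat_lit 504) (nat_lit 395) (nat_lit 301)) (XT.lf (nat_lit 0) (nat_lit 7625035459) (nat_lit 228) (nat_lit 16093141764) (nat_lit 76) (nat_lit 2466529700) (nat_lit 66) (nat_lit 5) (nat_lit 69) (nat_lit 5) (nat_lit 67) (nat_lit 4) (nat_lit 505) (nat_lit 395) (nat_lit 300))) (XT.nd (nat_lit 78) (nat_lit 76) (nat_lit 0) (XT.lf (nat_lit 0) (nat_lit 15335389165) (nat_lit 228) (nat_lit 500153288) (nat_lit 76) (nat_lit 10880700681) (nat_lit 66) (nat_lit 5) (nat_lit 69) (nat_lit 5) (nat_lit 67) (nat_lit 4) (nat_lit 506) (nat_lit 395) (nat_lit 299)) (XT.lf (nat_lit 0) (nat_lit 15819602178) (nat_lit 76) (nat_lit 7583307039) (nat_lit 152) (nat_lit 3857041157) (nat_lit 65) (nat_lit 5) (nat_lit 66) (nat_lit 5) (nat_lit 67) (nat_lit 4) (nat_lit 507) (nat_lit 395) (nat_lit 298)))) (XT.nd (nat_lit 156) (nat_lit 76) (nat_lit 0) (XT.nd (nat_lit 78) (nat_lit 0) (nat_lit 0) (XT.lf (nat_lit 0)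 (nat_lit 3851308570) (nat_lit 228) (nat_lit 23001207234) (nat_lit 76) (nat_lit 965287729) (nat_lit 62) (nat_lit 5) (nat_lit 65) (nat_lit 5) (nat_lit 63) (nat_lit 4) (nat_lit 508) (nat_lit 395) (nat_lit 297)) (XT.lf (nat_lit 0) (nat_lit 11879022441) (nat_lit 228) (nat_lit 6757395063) (nat_lit 76) (nat_lit 9749860600) (nat_lit 62) (nat_lit 5) (nat_lit 65) (nat_lit 5) (nat_lit 63) (nat_lit 4) (nat_lit 509) (nat_lit 395) (nat_lit 296))) (XT.nd (nat_lit 78) (nat_lit 0) (nat_lit 0) (XT.lf (nat_lit 0) (nat_lit 10122897712) (nat_lit 76) (nat_lit 10096623340) (nat_lit 152) (nat_lit 8750127808) (nat_lit 61) (nat_lit 5) (nat_lit 62) (nat_lit 5) (nat_lit 63) (nat_lit 4) (nat_lit 510) (nat_lit 395) (nat_lit 295)) (XT.lf (nat_lit 0) (nat_lit 27600225486) (nat_lit 76) (nat_lit 1253169502) (nat_lit 152) (nat_lit 715831470) (nat_lit 61) (nat_lit 5) (nat_lit 62) (nat_lit 5) (nat_lit 63) (nat_lit 4) (nat_lit 511) (nat_lit 395) (nat_lit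 294))))) (XT.nd (nat_lit 312) (nat_lit 228) (nat_lit 0) (XT.nd (nat_lit 156) (nat_lit 152) (nat_lit 0) (XT.nd (nat_lit 78) (nat_lit 76) (nat_lit 0) (XT.lf (nat_lit 0) (nat_lit 7614850269) (nat_lit 228) (nat_lit 14658516830) (nat_lit 76) (nat_lit 7905158707) (nat_lit 58) (nat_lit 5) (nat_lit 61) (nat_lit 5) (nat_lit 59) (nat_lit 4) (nat_lit 512) (nat_lit 395) (nat_lit 293)) (XT.lf (nat_lit 0) (nat_lit 2755579018) (nat_lit 76) (nat_lit 13459929911) (nat_lit 152) (nat_lit 14589349749) (nat_lit 57) (nat_lit 5) (nat_lit 58) (nat_lit 5) (nat_lit 59) (nat_lit 4) (nat_lit 513) (nat_lit 395) (nat_lit 292))) (XT.nd (nat_lit 78) (nat_lit 152) (nat_lit 0) (XT.lf (nat_lit 0) (nat_lit 20945999684) (nat_lit 76) (nat_lit 4251944808) (nat_lit 152) (nat_lit 6248324802) (nat_lit 57) (nat_lit 5) (nat_lit 58) (nat_lit 5) (nat_lit 59) (nat_lit 4) (nat_lit 514) (nat_lit 395) (nat_lit 291)) (XT.lf (nat_lit 0) (nat_lit 2398054672) (nat_lit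 152) (nat_lit 24499397398) (nat_lit 76) (nat_lit 5205769668) (nat_lit 55) (nat_lit 5) (nat_lit 57) (nat_lit 5) (nat_lit 56) (nat_lit 4) (nat_lit 515) (nat_lit 395) (nat_lit 290)))) (XT.nd (nat_lit 156) (nat_lit 152) (nat_lit 0) (XT.nd (nat_lit 78) (nat_lit 76) (nat_lit 0) (XT.lf (nat_lit 0) (nat_lit 11303677936) (nat_lit 152) (nat_lit 6461178420) (nat_lit 76) (nat_lit 15009407766) (nat_lit 55) (nat_lit 5) (nat_lit 57) (nat_lit 5) (nat_lit 56) (nat_lit 4) (nat_lit 516) (nat_lit 395) (nat_lit 289)) (XT.lf (nat_lit 0) (nat_lit 12314061258) (nat_lit 76) (nat_lit 8257727595) (nat_lit 152) (nat_lit 12890789776) (nat_lit 54) (nat_lit 5) (nat_lit 55) (nat_lit 5) (nat_lit 56) (nat_lit 4) (nat_lit 517) (nat_lit 395) (nat_lit 288))) (XT.nd (nat_lit 78) (nat_lit 152) (nat_lit 0) (XT.lf (nat_lit 0) (nat_lit 30175579676) (nat_lit 152) (nat_lit 2444439904) (nat_lit 0) (nat_lit 1549794301) (nat_lit 54) (nat_lit 5) (nat_lit 56)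 (nat_lit 4) (nat_lit 54) (nat_lit 4) (nat_lit 518) (nat_lit 395) (nat_lit 287)) (XT.lf (nat_lit 0) (nat_lit 5293664659) (nat_lit 152) (nat_lit 17915359961) (nat_lit 76) (nat_lit 11680991762) (nat_lit 52) (nat_lit 5) (nat_lit 54) (nat_lit 5) (nat_lit 53) (nat_lit 4) (nat_lit 519) (nat_lit 395) (nat_lit 286))))))))
noncomputable def xc86 : XT := (XT.nd (nat_lit 2340) (nat_lit 76) (nat_lit 0) (XT.nd (nat_lit 1170) (nat_lit 836) (nat_lit 0) (XT.nd (nat_lit 546) (nat_lit 456) (nat_lit 0) (XT.nd (nat_lit 234) (nat_lit 228) (nat_lit 0) (XT.nd (nat_lit 78) (nat_lit 76) (nat_lit 0) (XT.lf (nat_lit 0) (nat_lit 1338488040) (nat_lit 76) (nat_lit 13456911416) (nat_lit 152) (nat_lit 20834775095) (nat_lit 51) (nat_lit 5) (nat_lit 52) (nat_lit 5) (nat_lit 53) (nat_lit 4) (nat_lit 520) (nat_lit 395) (nat_lit 285)) (XT.nd (nat_lit 78) (nat_lit 76) (nat_lit 0) (XT.lf (nat_lit 0) (nat_lit 21494432986) (nat_lit 76) (nat_lit 3246586505)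 (nat_lit 152) (nat_lit 11646753340) (nat_lit 51) (nat_lit 5) (nat_lit 52) (nat_lit 5) (nat_lit 53) (nat_lit 4) (nat_lit 521) (nat_lit 395) (nat_lit 284)) (XT.lf (nat_lit 0) (nat_lit 5074116880) (nat_lit 76) (nat_lit 30007924032) (nat_lit 76) (nat_lit 2083147516) (nat_lit 50) (nat_lit 4) (nat_lit 51) (nat_lit 5) (nat_lit 51) (nat_lit 4) (nat_lit 522) (nat_lit 395) (nat_lit 283)))) (XT.nd (nat_lit 156) (nat_lit 76) (nat_lit 0) (XT.nd (nat_lit 78) (nat_lit 76) (nat_lit 0) (XT.lf (nat_lit 0) (nat_lit 7778215537) (nat_lit 152) (nat_lit 12165806052) (nat_lit 76) (nat_lit 18014792742) (nat_lit 49) (nat_lit 5) (nat_lit 51) (nat_lit 5) (nat_lit 50) (nat_lit 4) (nat_lit 523) (nat_lit 395) (nat_lit 282)) (XT.lf (nat_lit 0) (nat_lit 8460928980) (nat_lit 76) (nat_lit 9492973658) (nat_lit 152) (nat_lit 20819917367) (nat_lit 48) (nat_lit 5) (nat_lit 49) (nat_lit 5) (nat_lit 50) (nat_lit 4) (nat_lit 524) (nat_lit 395) (nat_lit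 281))) (XT.nd (nat_lit 78) (nat_lit 76) (nat_lit 0) (XT.lf (nat_lit 0) (nat_lit 28550206180) (nat_lit 152) (nat_lit 9707978187) (nat_lit 0) (nat_lit 1351631420) (nat_lit 48) (nat_lit 5) (nat_lit 50) (nat_lit 4) (nat_lit 48) (nat_lit 4) (nat_lit 525) (nat_lit 395) (nat_lit 280)) (XT.lf (nat_lit 0) (nat_lit 11607993113) (nat_lit 76) (nat_lit 28041643966) (nat_lit 76) (nat_lit 815697517) (nat_lit 47) (nat_lit 4) (nat_lit 48) (nat_lit 5) (nat_lit 48) (nat_lit 4) (nat_lit 526) (nat_lit 395) (nat_lit 279))))) (XT.nd (nat_lit 312) (nat_lit 228) (nat_lit 0) (XT.nd (nat_lit 156) (nat_lit 76) (nat_lit 0) (XT.nd (nat_lit 78) (nat_lit 76) (nat_lit 0) (XT.lf (nat_lit 0) (nat_lit 9624239811) (nat_lit 152) (nat_lit 7715314086) (nat_lit 76) (nat_lit 24001797348) (nat_lit 46) (nat_lit 5) (nat_lit 48) (nat_lit 5) (nat_lit 47) (nat_lit 4) (nat_lit 527) (nat_lit 395) (nat_lit 278)) (XT.lf (nat_lit 0) (nat_lit 14293337512) (nat_lit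 76) (nat_lit 6185312171) (nat_lit 152) (nat_lit 21761226626) (nat_lit 45) (nat_lit 5) (nat_lit 46) (nat_lit 5) (nat_lit 47) (nat_lit 4) (nat_lit 528) (nat_lit 395) (nat_lit 277))) (XT.nd (nat_lit 78) (nat_lit 76) (nat_lit 0) (XT.lf (nat_lit 0) (nat_lit 31768656411) (nat_lit 152) (nat_lit 6132872160) (nat_lit 0) (nat_lit 5260529887) (nat_lit 45) (nat_lit 5) (nat_lit 47) (nat_lit 4) (nat_lit 45) (nat_lit 4) (nat_lit 529) (nat_lit 395) (nat_lit 276)) (XT.lf (nat_lit 0) (nat_lit 16559720107) (nat_lit 76) (nat_lit 27038942417) (nat_lit 76) (nat_lit 507204833) (nat_lit 44) (nat_lit 4) (nat_lit 45) (nat_lit 5) (nat_lit 45) (nat_lit 4) (nat_lit 530) (nat_lit 395) (nat_lit 275)))) (XT.nd (nat_lit 156) (nat_lit 76) (nat_lit 0) (XT.nd (nat_lit 78) (nat_lit 76) (nat_lit 0) (XT.lf (nat_lit 0) (nat_lit 10540106938) (nat_lit 152) (nat_lit 5158243857) (nat_lit 76) (nat_lit 29375249725) (nat_lit 43) (nat_lit 5) (nat_lit 45) (nat_lit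 5) (nat_lit 44) (nat_lit 4) (nat_lit 531) (nat_lit 395) (nat_lit 274)) (XT.lf (nat_lit 0) (nat_lit 18215414899) (nat_lit 76) (nat_lit 3849773046) (nat_lit 152) (nat_lit 24000330992) (nat_lit 42) (nat_lit 5) (nat_lit 43) (nat_lit 5) (nat_lit 44) (nat_lit 4) (nat_lit 532) (nat_lit 395) (nat_lit 273))) (XT.nd (nat_lit 78) (nat_lit 76) (nat_lit 0) (XT.lf (nat_lit 0) (nat_lit 34050403699) (nat_lit 152) (nat_lit 4806766073) (nat_lit 0) (nat_lit 8226593897) (nat_lit 42) (nat_lit 5) (nat_lit 44) (nat_lit 4) (nat_lit 42) (nat_lit 4) (nat_lit 533) (nat_lit 395) (nat_lit 272)) (XT.lf (nat_lit 0) (nat_lit 19229720684) (nat_lit 76) (nat_lit 27370431453) (nat_lit 76) (nat_lit 1526254544) (nat_lit 41) (nat_lit 4) (nat_lit 42) (nat_lit 5) (nat_lit 42) (nat_lit 4) (nat_lit 534) (nat_lit 395) (nat_lit 271)))))) (XT.nd (nat_lit 546) (nat_lit 456) (nat_lit 0) (XT.nd (nat_lit 234) (nat_lit 228) (nat_lit 0) (XT.nd (nat_lit 78) (nat_lit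 76) (nat_lit 0) (XT.lf (nat_lit 0) (nat_lit 10155608354) (nat_lit 152) (nat_lit 5248065840) (nat_lit 76) (nat_lit 33792745899) (nat_lit 40) (nat_lit 5) (nat_lit 42) (nat_lit 5) (nat_lit 41) (nat_lit 4) (nat_lit 535) (nat_lit 395) (nat_lit 270)) (XT.nd (nat_lit 78) (nat_lit 0) (nat_lit 0) (XT.lf (nat_lit 0) (nat_lit 19439985401) (nat_lit 76) (nat_lit 2886681669) (nat_lit 152) (nat_lit 27966331217) (nat_lit 39) (nat_lit 5) (nat_lit 40) (nat_lit 5) (nat_lit 41) (nat_lit 4) (nat_lit 536) (nat_lit 395) (nat_lit 269)) (XT.lf (nat_lit 0) (nat_lit 34995128749) (nat_lit 152) (nat_lit 6575614935) (nat_lit 0) (nat_lit 9847762205) (nat_lit 39) (nat_lit 5) (nat_lit 41) (nat_lit 4) (nat_lit 39) (nat_lit 4) (nat_lit 537) (nat_lit 395) (nat_lit 268)))) (XT.nd (nat_lit 156) (nat_lit 76) (nat_lit 0) (XT.nd (nat_lit 78) (nat_lit 76) (nat_lit 0) (XT.lf (nat_lit 0) (nat_lit 18733803884) (nat_lit 76) (nat_lit 29501579130) (nat_lit 76)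 (nat_lit 4336643740) (nat_lit 38) (nat_lit 4) (nat_lit 39) (nat_lit 5) (nat_lit 39) (nat_lit 4) (nat_lit 538) (nat_lit 395) (nat_lit 267)) (XT.lf (nat_lit 0) (nat_lit 8004529121) (nat_lit 152) (nat_lit 8932798404) (nat_lit 76) (nat_lit 36818982018) (nat_lit 37) (nat_lit 5) (nat_lit 39) (nat_lit 5) (nat_lit 38) (nat_lit 4) (nat_lit 539) (nat_lit 395) (nat_lit 266))) (XT.nd (nat_lit 78) (nat_lit 0) (nat_lit 0) (XT.lf (nat_lit 0) (nat_lit 16975785672) (nat_lit 76) (nat_lit 3799750542) (nat_lit 152) (nat_lit 34194893829) (nat_lit 36) (nat_lit 5) (nat_lit 37) (nat_lit 5) (nat_lit 38) (nat_lit 4) (nat_lit 540) (nat_lit 395) (nat_lit 265)) (XT.lf (nat_lit 0) (nat_lit 34097918629) (nat_lit 152) (nat_lit 12500313823) (nat_lit 0) (nat_lit 9617694525) (nat_lit 36) (nat_lit 5) (nat_lit 38) (nat_lit 4) (nat_lit 36) (nat_lit 4) (nat_lit 541) (nat_lit 395) (nat_lit 264))))) (XT.nd (nat_lit 312) (nat_lit 228) (nat_lit 0) (XT.nd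 (nat_lit 156) (nat_lit 76) (nat_lit 0) (XT.nd (nat_lit 78) (nat_lit 76) (nat_lit 0) (XT.lf (nat_lit 0) (nat_lit 13962277676) (nat_lit 76) (nat_lit 34013606552) (nat_lit 76) (nat_lit 9518227408) (nat_lit 35) (nat_lit 4) (nat_lit 36) (nat_lit 5) (nat_lit 36) (nat_lit 4) (nat_lit 542) (nat_lit 395) (nat_lit 263)) (XT.lf (nat_lit 0) (nat_lit 3503602363) (nat_lit 152) (nat_lit 17397779977) (nat_lit 76) (nat_lit 37904915085) (nat_lit 34) (nat_lit 5) (nat_lit 36) (nat_lit 5) (nat_lit 35) (nat_lit 4) (nat_lit 543) (nat_lit 395) (nat_lit 262))) (XT.nd (nat_lit 78) (nat_lit 0) (nat_lit 0) (XT.lf (nat_lit 0) (nat_lit 9582549662) (nat_lit 76) (nat_lit 7218892464) (nat_lit 152) (nat_lit 43351279758) (nat_lit 33) (nat_lit 5) (nat_lit 34) (nat_lit 5) (nat_lit 35) (nat_lit 4) (nat_lit 544) (nat_lit 395) (nat_lit 261)) (XT.lf (nat_lit 0) (nat_lit 30726282970) (nat_lit 152) (nat_lit 23903671953) (nat_lit 0) (nat_lit 6902742326) (nat_lit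 33) (nat_lit 5) (nat_lit 35) (nat_lit 4) (nat_lit 33) (nat_lit 4) (nat_lit 545) (nat_lit 395) (nat_lit 260)))) (XT.nd (nat_lit 156) (nat_lit 152) (nat_lit 0) (XT.nd (nat_lit 78) (nat_lit 0) (nat_lit 0) (XT.lf (nat_lit 0) (nat_lit 3530620203) (nat_lit 76) (nat_lit 41628676255) (nat_lit 76) (nat_lit 17792062738) (nat_lit 32) (nat_lit 4) (nat_lit 33) (nat_lit 5) (nat_lit 33) (nat_lit 4) (nat_lit 546) (nat_lit 395) (nat_lit 259)) (XT.lf (nat_lit 0) (nat_lit 32248609342) (nat_lit 76) (nat_lit 28003240471) (nat_lit 76) (nat_lit 4153934847) (nat_lit 32) (nat_lit 4) (nat_lit 33) (nat_lit 5) (nat_lit 33) (nat_lit 4) (nat_lit 547) (nat_lit 395) (nat_lit 258))) (XT.nd (nat_lit 78) (nat_lit 76) (nat_lit 0) (XT.lf (nat_lit 0) (nat_lit 9685740757) (nat_lit 152) (nat_lit 4199574321) (nat_lit 76) (nat_lit 52016111161) (nat_lit 31) (nat_lit 5) (nat_lit 33) (nat_lit 5) (nat_lit 32) (nat_lit 4) (nat_lit 548) (nat_lit 395) (nat_lit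 257)) (XT.lf (nat_lit 0) (nat_lit 24092428904) (nat_lit 152) (nat_lit 42427030437) (nat_lit 0) (nat_lit 914184644) (nat_lit 30) (nat_lit 5) (nat_lit 32) (nat_lit 4) (nat_lit 30) (nat_lit 4) (nat_lit 549) (nat_lit 395) (nat_lit 256))))))) (XT.nd (nat_lit 52416) (nat_lit 0) (nat_lit 16036) (XT.nd (nat_lit 51792) (nat_lit 0) (nat_lit 25384) (XT.nd (nat_lit 51480) (nat_lit 0) (nat_lit 29032) (XT.nd (nat_lit 78) (nat_lit 76) (nat_lit 0) (XT.lf (nat_lit 0) (nat_lit 39097519259) (nat_lit 152) (nat_lit 14001324856) (nat_lit 0) (nat_lit 15907998225) (nat_lit 30) (nat_lit 5) (nat_lit 32) (nat_lit 4) (nat_lit 30) (nat_lit 4) (nat_lit 550) (nat_lit 395) (nat_lit 255)) (XT.nd (nat_lit 51324) (nat_lit 0) (nat_lit 30020) (XT.lf (nat_lit 0) (nat_lit 15553526353) (nat_lit 76) (nat_lit 39135052637) (nat_lit 76) (nat_lit 15934583279) (nat_lit 29) (nat_lit 4) (nat_lit 30) (nat_lit 5) (nat_lit 30) (nat_lit 4) (nat_lit 551) (nat_lit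 395) (nat_lit 254)) (XT.lf (nat_lit 0) (nat_lit 509401057) (nat_lit 380) (nat_lit 2236211620) (nat_lit 0) (nat_lit 509401057) (nat_lit 424) (nat_lit 5) (nat_lit 429) (nat_lit 4) (nat_lit 424) (nat_lit 4) (nat_lit 408) (nat_lit 396) (nat_lit 396)))) (XT.nd (nat_lit 156) (nat_lit 532) (nat_lit 0) (XT.nd (nat_lit 78) (nat_lit 456) (nat_lit 0) (XT.lf (nat_lit 0) (nat_lit 4224210438) (nat_lit 380) (nat_lit 675594807) (nat_lit 0) (nat_lit 1628631710) (nat_lit 424) (nat_lit 5) (nat_lit 429) (nat_lit 4) (nat_lit 424) (nat_lit 4) (nat_lit 409) (nat_lit 396) (nat_lit 395)) (XT.lf (nat_lit 0) (nat_lit 876421017) (nat_lit 456) (nat_lit 3336423408) (nat_lit 76) (nat_lit 2336785303) (nat_lit 418) (nat_lit 5) (nat_lit 424) (nat_lit 5) (nat_lit 419) (nat_lit 4) (nat_lit 410) (nat_lit 396) (nat_lit 394))) (XT.nd (nat_lit 78) (nat_lit 76) (nat_lit 0) (XT.lf (nat_lit 0) (nat_lit 572091077) (nat_lit 456) (nat_lit 3434919288) (nat_lit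 532) (nat_lit 2566764720) (nat_lit 412) (nat_lit 5) (nat_lit 418) (nat_lit 5) (nat_lit 419) (nat_lit 4) (nat_lit 411) (nat_lit 396) (nat_lit 393)) (XT.lf (nat_lit 0) (nat_lit 544401156) (nat_lit 532) (nat_lit 2016712007) (nat_lit 76) (nat_lit 4039657552) (nat_lit 411) (nat_lit 5) (nat_lit 418) (nat_lit 5) (nat_lit 412) (nat_lit 5) (nat_lit 412) (nat_lit 396) (nat_lit 392))))) (XT.nd (nat_lit 312) (nat_lit 1748) (nat_lit 0) (XT.nd (nat_lit 156) (nat_lit 1292) (nat_lit 0) (XT.nd (nat_lit 78) (nat_lit 76) (nat_lit 0) (XT.lf (nat_lit 0) (nat_lit 2025299820) (nat_lit 532) (nat_lit 1584542612) (nat_lit 608) (nat_lit 3020619527) (nat_lit 404) (nat_lit 5) (nat_lit 411) (nat_lit 5) (nat_lit 412) (nat_lit 5) (nat_lit 413) (nat_lit 396) (nat_lit 391)) (XT.lf (nat_lit 0) (nat_lit 19085886) (nat_lit 608) (nat_lit 509732999) (nat_lit 76) (nat_lit 6134768435) (nat_lit 403) (nat_lit 5) (nat_lit 411) (nat_lit 5) (nat_lit 404) (nat_lit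 5) (nat_lit 414) (nat_lit 396) (nat_lit 390))) (XT.nd (nat_lit 78) (nat_lit 684) (nat_lit 0) (XT.lf (nat_lit 0) (nat_lit 3028331744) (nat_lit 684) (nat_lit 3030481819) (nat_lit 76) (nat_lit 639845849) (nat_lit 395) (nat_lit 5) (nat_lit 404) (nat_lit 5) (nat_lit 396) (nat_lit 5) (nat_lit 415) (nat_lit 396) (nat_lit 389)) (XT.lf (nat_lit 0) (nat_lit 1186869806) (nat_lit 684) (nat_lit 4862801932) (nat_lit 760) (nat_lit 687478788) (nat_lit 386) (nat_lit 5) (nat_lit 395) (nat_lit 5) (nat_lit 396) (nat_lit 5) (nat_lit 416) (nat_lit 396) (nat_lit 388)))) (XT.nd (nat_lit 156) (nat_lit 912) (nat_lit 0) (XT.nd (nat_lit 78) (nat_lit 760) (nat_lit 0) (XT.lf (nat_lit 0) (nat_lit 2270376454) (nat_lit 760) (nat_lit 1285711138) (nat_lit 76) (nat_lit 3222079437) (nat_lit 385) (nat_lit 5) (nat_lit 395) (nat_lit 5) (nat_lit 386) (nat_lit 5) (nat_lit 417) (nat_lit 396) (nat_lit 387)) (XT.lf (nat_lit 0) (nat_lit 3082994747) (nat_lit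 760) (nat_lit 2153822737) (nat_lit 836) (nat_lit 1585401861) (nat_lit 375) (nat_lit 5) (nat_lit 385) (nat_lit 5) (nat_lit 386) (nat_lit 5) (nat_lit 418) (nat_lit 396) (nat_lit 386))) (XT.nd (nat_lit 78) (nat_lit 0) (nat_lit 0) (XT.lf (nat_lit 0) (nat_lit 662718462) (nat_lit 836) (nat_lit 658766549) (nat_lit 912) (nat_lit 5547977004) (nat_lit 363) (nat_lit 5) (nat_lit 374) (nat_lit 5) (nat_lit 375) (nat_lit 5) (nat_lit 419) (nat_lit 396) (nat_lit 385)) (XT.lf (nat_lit 0) (nat_lit 4237625331) (nat_lit 912) (nat_lit 1748646565) (nat_lit 76) (nat_lit 932779695) (nat_lit 363) (nat_lit 5) (nat_lit 375) (nat_lit 5) (nat_lit 364) (nat_lit 5) (nat_lit 420) (nat_lit 396) (nat_lit 384)))))) (XT.nd (nat_lit 624) (nat_lit 3040) (nat_lit 0) (XT.nd (nat_lit 312) (nat_lit 3192) (nat_lit 0) (XT.nd (nat_lit 156) (nat_lit 1140) (nat_lit 0) (XT.nd (nat_lit 78) (nat_lit 988) (nat_lit 0) (XT.lf (nat_lit 0) (nat_lit 208830433) (nat_lit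 988) (nat_lit 4160457672) (nat_lit 76) (nat_lit 2602489428) (nat_lit 350) (nat_lit 5) (nat_lit 363) (nat_lit 5) (nat_lit 351) (nat_lit 5) (nat_lit 421) (nat_lit 396) (nat_lit 383)) (XT.lf (nat_lit 0) (nat_lit 420697032) (nat_lit 988) (nat_lit 2644077703) (nat_lit 1064) (nat_lit 3962544213) (nat_lit 337) (nat_lit 5) (nat_lit 350) (nat_lit 5) (nat_lit 351) (nat_lit 5) (nat_lit 422) (nat_lit 396) (nat_lit 382))) (XT.nd (nat_lit 78) (nat_lit 1140) (nat_lit 0) (XT.lf (nat_lit 0) (nat_lit 5146183821) (nat_lit 988) (nat_lit 815062005) (nat_lit 1064) (nat_lit 1124651222) (nat_lit 337) (nat_lit 5) (nat_lit 350) (nat_lit 5) (nat_lit 351) (nat_lit 5) (nat_lit 423) (nat_lit 396) (nat_lit 381)) (XT.lf (nat_lit 0) (nat_lit 1715772899) (nat_lit 1140) (nat_lit 4331001092) (nat_lit 76) (nat_lit 1100380254) (nat_lit 322) (nat_lit 5) (nat_lit 337) (nat_lit 5) (nat_lit 323) (nat_lit 5) (nat_lit 424) (nat_lit 396) (nat_lit 380)))) (XT.nd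 (nat_lit 156) (nat_lit 1976) (nat_lit 0) (XT.nd (nat_lit 78) (nat_lit 76) (nat_lit 0) (XT.lf (nat_lit 0) (nat_lit 454619966) (nat_lit 1140) (nat_lit 4112741447) (nat_lit 1216) (nat_lit 2644111558) (nat_lit 307) (nat_lit 5) (nat_lit 322) (nat_lit 5) (nat_lit 323) (nat_lit 5) (nat_lit 425) (nat_lit 396) (nat_lit 379)) (XT.lf (nat_lit 0) (nat_lit 183706671) (nat_lit 1216) (nat_lit 1886960678) (nat_lit 76) (nat_lit 5208161556) (nat_lit 306) (nat_lit 5) (nat_lit 322) (nat_lit 5) (nat_lit 307) (nat_lit 5) (nat_lit 426) (nat_lit 396) (nat_lit 378))) (XT.nd (nat_lit 78) (nat_lit 760) (nat_lit 0) (XT.lf (nat_lit 0) (nat_lit 2993357078) (nat_lit 1292) (nat_lit 4264982069) (nat_lit 76) (nat_lit 90590056) (nat_lit 290) (nat_lit 5) (nat_lit 307) (nat_lit 5) (nat_lit 291) (nat_lit 5) (nat_lit 427) (nat_lit 396) (nat_lit 377)) (XT.lf (nat_lit 0) (nat_lit 735965423) (nat_lit 760) (nat_lit 5119361858) (nat_lit 836) (nat_lit 1566777244)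 (nat_lit 280) (nat_lit 5) (nat_lit 290) (nat_lit 5) (nat_lit 291) (nat_lit 5) (nat_lit 428) (nat_lit 396) (nat_lit 376))))) (XT.nd (nat_lit 312) (nat_lit 1672) (nat_lit 0) (XT.nd (nat_lit 156) (nat_lit 684) (nat_lit 0) (XT.nd (nat_lit 78) (nat_lit 608) (nat_lit 0) (XT.lf (nat_lit 0) (nat_lit 1245666118) (nat_lit 836) (nat_lit 1615381681) (nat_lit 76) (nat_lit 4637099066) (nat_lit 279) (nat_lit 5) (nat_lit 290) (nat_lit 5) (nat_lit 280) (nat_lit 5) (nat_lit 429) (nat_lit 396) (nat_lit 375)) (XT.lf (nat_lit 0) (nat_lit 3583673001) (nat_lit 608) (nat_lit 486009132) (nat_lit 684) (nat_lit 3507574091) (nat_lit 271) (nat_lit 5) (nat_lit 279) (nat_lit 5) (nat_lit 280) (nat_lit 5) (nat_lit 430) (nat_lit 396) (nat_lit 374))) (XT.nd (nat_lit 78) (nat_lit 76) (nat_lit 0) (XT.lf (nat_lit 0) (nat_lit 1239051077) (nat_lit 608) (nat_lit 5712267992) (nat_lit 684) (nat_lit 708244267) (nat_lit 263) (nat_lit 5) (nat_lit 271) (nat_lit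 5) (nat_lit 272) (nat_lit 5) (nat_lit 431) (nat_lit 396) (nat_lit 373)) (XT.lf (nat_lit 0) (nat_lit 2104506983) (nat_lit 684) (nat_lit 1139101560) (nat_lit 76) (nat_lit 4500958152) (nat_lit 262) (nat_lit 5) (nat_lit 271) (nat_lit 5) (nat_lit 263) (nat_lit 5) (nat_lit 432) (nat_lit 396) (nat_lit 372)))) (XT.nd (nat_lit 156) (nat_lit 608) (nat_lit 0) (XT.nd (nat_lit 78) (nat_lit 532) (nat_lit 0) (XT.lf (nat_lit 0) (nat_lit 4299599664) (nat_lit 532) (nat_lit 657628016) (nat_lit 608) (nat_lit 2875597959) (nat_lit 255) (nat_lit 5) (nat_lit 262) (nat_lit 5) (nat_lit 263) (nat_lit 5) (nat_lit 433) (nat_lit 396) (nat_lit 371)) (XT.lf (nat_lit 0) (nat_lit 1940574586) (nat_lit 532) (nat_lit 5934271404) (nat_lit 608) (nat_lit 49517084) (nat_lit 248) (nat_lit 5) (nat_lit 255) (nat_lit 5) (nat_lit 256) (nat_lit 5) (nat_lit 434) (nat_lit 396) (nat_lit 370))) (XT.nd (nat_lit 78) (nat_lit 532) (nat_lit 0) (XT.lf (nat_lit 0) (nat_lit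 2778415669) (nat_lit 608) (nat_lit 480868764) (nat_lit 76) (nat_lit 4759359529) (nat_lit 247) (nat_lit 5) (nat_lit 255) (nat_lit 5) (nat_lit 248) (nat_lit 5) (nat_lit 435) (nat_lit 396) (nat_lit 369)) (XT.lf (nat_lit 0) (nat_lit 5210716586) (nat_lit 532) (nat_lit 461953021) (nat_lit 608) (nat_lit 2443603944) (nat_lit 240) (nat_lit 5) (nat_lit 247) (nat_lit 5) (nat_lit 248) (nat_lit 5) (nat_lit 436) (nat_lit 396) (nat_lit 368))))))))
noncomputable def xc87 : XT := (XT.nd (nat_lit 2340) (nat_lit 4104) (nat_lit 0) (XT.nd (nat_lit 1170) (nat_lit 3192) (nat_lit 0) (XT.nd (nat_lit 546) (nat_lit 2432) (nat_lit 0) (XT.nd (nat_lit 234) (nat_lit 1520) (nat_lit 0) (XT.nd (nat_lit 78) (nat_lit 456) (nat_lit 0) (XT.lf (nat_lit 0) (nat_lit 417052323) (nat_lit 608) (nat_lit 5402087969) (nat_lit 76) (nat_lit 2397914769) (nat_lit 232) (nat_lit 5) (nat_lit 240) (nat_lit 5) (nat_lit 233) (nat_lit 5) (nat_lit 437) (nat_lit 396) (nat_lit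 367)) (XT.nd (nat_lit 78) (nat_lit 0) (nat_lit 0) (XT.lf (nat_lit 0) (nat_lit 345063746) (nat_lit 456) (nat_lit 2940923530) (nat_lit 532) (nat_lit 5035008272) (nat_lit 226) (nat_lit 5) (nat_lit 232) (nat_lit 5) (nat_lit 233) (nat_lit 5) (nat_lit 438) (nat_lit 396) (nat_lit 366)) (XT.lf (nat_lit 0) (nat_lit 6231393412) (nat_lit 532) (nat_lit 2132159257) (nat_lit 76) (nat_lit 64797782) (nat_lit 226) (nat_lit 5) (nat_lit 233) (nat_lit 5) (nat_lit 227) (nat_lit 5) (nat_lit 439) (nat_lit 396) (nat_lit 365)))) (XT.nd (nat_lit 156) (nat_lit 532) (nat_lit 0) (XT.nd (nat_lit 78) (nat_lit 456) (nat_lit 0) (XT.lf (nat_lit 0) (nat_lit 715238553) (nat_lit 532) (nat_lit 4690819344) (nat_lit 76) (nat_lit 3132571265) (nat_lit 219) (nat_lit 5) (nat_lit 226) (nat_lit 5) (nat_lit 220) (nat_lit 5) (nat_lit 440) (nat_lit 396) (nat_lit 364)) (XT.lf (nat_lit 0) (nat_lit 1324710045) (nat_lit 456) (nat_lit 2317859406) (nat_lit 532) (nat_lit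 5009844032) (nat_lit 213) (nat_lit 5) (nat_lit 219) (nat_lit 5) (nat_lit 220) (nat_lit 5) (nat_lit 441) (nat_lit 396) (nat_lit 363))) (XT.nd (nat_lit 78) (nat_lit 532) (nat_lit 0) (XT.lf (nat_lit 0) (nat_lit 6652219919) (nat_lit 532) (nat_lit 1239507761) (nat_lit 76) (nat_lit 878056035) (nat_lit 213) (nat_lit 5) (nat_lit 220) (nat_lit 5) (nat_lit 214) (nat_lit 5) (nat_lit 442) (nat_lit 396) (nat_lit 362)) (XT.lf (nat_lit 0) (nat_lit 856237772) (nat_lit 532) (nat_lit 3869308494) (nat_lit 76) (nat_lit 4164540394) (nat_lit 206) (nat_lit 5) (nat_lit 213) (nat_lit 5) (nat_lit 207) (nat_lit 5) (nat_lit 443) (nat_lit 396) (nat_lit 361))))) (XT.nd (nat_lit 312) (nat_lit 1140) (nat_lit 0) (XT.nd (nat_lit 156) (nat_lit 912) (nat_lit 0) (XT.nd (nat_lit 78) (nat_lit 0) (nat_lit 0) (XT.lf (nat_lit 0) (nat_lit 2429439622) (nat_lit 380) (nat_lit 1423828468) (nat_lit 456) (nat_lit 5160811101) (nat_lit 201) (nat_lit 5) (nat_lit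 206) (nat_lit 5) (nat_lit 207) (nat_lit 5) (nat_lit 444) (nat_lit 396) (nat_lit 360)) (XT.lf (nat_lit 0) (nat_lit 6940070241) (nat_lit 456) (nat_lit 241901060) (nat_lit 76) (nat_lit 1959830918) (nat_lit 201) (nat_lit 5) (nat_lit 207) (nat_lit 5) (nat_lit 202) (nat_lit 5) (nat_lit 445) (nat_lit 396) (nat_lit 359))) (XT.nd (nat_lit 78) (nat_lit 380) (nat_lit 0) (XT.lf (nat_lit 0) (nat_lit 847776444) (nat_lit 532) (nat_lit 2956777921) (nat_lit 76) (nat_lit 5468019712) (nat_lit 194) (nat_lit 5) (nat_lit 201) (nat_lit 5) (nat_lit 195) (nat_lit 5) (nat_lit 446) (nat_lit 396) (nat_lit 358)) (XT.lf (nat_lit 0) (nat_lit 3640746491) (nat_lit 380) (nat_lit 284712799) (nat_lit 456) (nat_lit 5481733559) (nat_lit 189) (nat_lit 5) (nat_lit 194) (nat_lit 5) (nat_lit 195) (nat_lit 5) (nat_lit 447) (nat_lit 396) (nat_lit 357)))) (XT.nd (nat_lit 156) (nat_lit 684) (nat_lit 0) (XT.nd (nat_lit 78) (nat_lit 76) (nat_lit 0) (XT.lf (nat_lit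 0) (nat_lit 859014686) (nat_lit 380) (nat_lit 6251184684) (nat_lit 456) (nat_lit 2435214832) (nat_lit 184) (nat_lit 5) (nat_lit 189) (nat_lit 5) (nat_lit 190) (nat_lit 5) (nat_lit 448) (nat_lit 396) (nat_lit 356)) (XT.lf (nat_lit 0) (nat_lit 695156782) (nat_lit 456) (nat_lit 1972284175) (nat_lit 76) (nat_lit 7019958992) (nat_lit 183) (nat_lit 5) (nat_lit 189) (nat_lit 5) (nat_lit 184) (nat_lit 5) (nat_lit 449) (nat_lit 396) (nat_lit 355))) (XT.nd (nat_lit 78) (nat_lit 380) (nat_lit 0) (XT.lf (nat_lit 0) (nat_lit 3874486701) (nat_lit 380) (nat_lit 4903202369) (nat_lit 76) (nat_lit 1055118416) (nat_lit 179) (nat_lit 5) (nat_lit 184) (nat_lit 5) (nat_lit 180) (nat_lit 5) (nat_lit 450) (nat_lit 396) (nat_lit 354)) (XT.lf (nat_lit 0) (nat_lit 2034151744) (nat_lit 380) (nat_lit 5127925783) (nat_lit 456) (nat_lit 2820118465) (nat_lit 174) (nat_lit 5) (nat_lit 179) (nat_lit 5) (nat_lit 180) (nat_lit 5) (nat_lit 451) (nat_lit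 396) (nat_lit 353)))))) (XT.nd (nat_lit 546) (nat_lit 1520) (nat_lit 0) (XT.nd (nat_lit 234) (nat_lit 988) (nat_lit 0) (XT.nd (nat_lit 78) (nat_lit 608) (nat_lit 0) (XT.lf (nat_lit 0) (nat_lit 401295776) (nat_lit 456) (nat_lit 935144962) (nat_lit 76) (nat_lit 8799598108) (nat_lit 173) (nat_lit 5) (nat_lit 179) (nat_lit 5) (nat_lit 174) (nat_lit 5) (nat_lit 452) (nat_lit 396) (nat_lit 352)) (XT.nd (nat_lit 78) (nat_lit 304) (nat_lit 0) (XT.lf (nat_lit 0) (nat_lit 3697319092) (nat_lit 380) (nat_lit 4009428079) (nat_lit 76) (nat_lit 2585877443) (nat_lit 169) (nat_lit 5) (nat_lit 174) (nat_lit 5) (nat_lit 170) (nat_lit 5) (nat_lit 453) (nat_lit 396) (nat_lit 351)) (XT.lf (nat_lit 0) (nat_lit 3259303416) (nat_lit 304) (nat_lit 3836238862) (nat_lit 380) (nat_lit 3358270694) (nat_lit 165) (nat_lit 5) (nat_lit 169) (nat_lit 5) (nat_lit 170) (nat_lit 5) (nat_lit 454) (nat_lit 396) (nat_lit 350)))) (XT.nd (nat_lit 156) (nat_lit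 608) (nat_lit 0) (XT.nd (nat_lit 78) (nat_lit 76) (nat_lit 0) (XT.lf (nat_lit 0) (nat_lit 135308835) (nat_lit 304) (nat_lit 10453797382) (nat_lit 380) (nat_lit 30933401) (nat_lit 161) (nat_lit 5) (nat_lit 165) (nat_lit 5) (nat_lit 166) (nat_lit 5) (nat_lit 455) (nat_lit 396) (nat_lit 349)) (XT.lf (nat_lit 0) (nat_lit 3391317079) (nat_lit 380) (nat_lit 3103331033) (nat_lit 76) (nat_lit 4293788790) (nat_lit 160) (nat_lit 5) (nat_lit 165) (nat_lit 5) (nat_lit 161) (nat_lit 5) (nat_lit 456) (nat_lit 396) (nat_lit 348))) (XT.nd (nat_lit 78) (nat_lit 304) (nat_lit 0) (XT.lf (nat_lit 0) (nat_lit 4514075559) (nat_lit 304) (nat_lit 2396399082) (nat_lit 380) (nat_lit 4051560517) (nat_lit 156) (nat_lit 5) (nat_lit 160) (nat_lit 5) (nat_lit 161) (nat_lit 5) (nat_lit 457) (nat_lit 396) (nat_lit 347)) (XT.lf (nat_lit 0) (nat_lit 1215895433) (nat_lit 304) (nat_lit 9332136934) (nat_lit 380) (nat_lit 592428193) (nat_lit 152) (nat_lit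 5) (nat_lit 156) (nat_lit 5) (nat_lit 157) (nat_lit 5) (nat_lit 458) (nat_lit 396) (nat_lit 346))))) (XT.nd (nat_lit 312) (nat_lit 836) (nat_lit 0) (XT.nd (nat_lit 156) (nat_lit 304) (nat_lit 0) (XT.nd (nat_lit 78) (nat_lit 304) (nat_lit 0) (XT.lf (nat_lit 0) (nat_lit 2954170576) (nat_lit 380) (nat_lit 2207298969) (nat_lit 76) (nat_lit 6160666578) (nat_lit 151) (nat_lit 5) (nat_lit 156) (nat_lit 5) (nat_lit 152) (nat_lit 5) (nat_lit 459) (nat_lit 396) (nat_lit 345)) (XT.lf (nat_lit 0) (nat_lit 5776563323) (nat_lit 304) (nat_lit 827791674) (nat_lit 380) (nat_lit 4904461765) (nat_lit 147) (nat_lit 5) (nat_lit 151) (nat_lit 5) (nat_lit 152) (nat_lit 5) (nat_lit 460) (nat_lit 396) (nat_lit 344))) (XT.nd (nat_lit 78) (nat_lit 76) (nat_lit 0) (XT.lf (nat_lit 0) (nat_lit 2281909726) (nat_lit 228) (nat_lit 8115523837) (nat_lit 304) (nat_lit 1302666120) (nat_lit 144) (nat_lit 5) (nat_lit 147) (nat_lit 5) (nat_lit 148) (nat_lit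 5) (nat_lit 461) (nat_lit 396) (nat_lit 343)) (XT.lf (nat_lit 0) (nat_lit 2381057437) (nat_lit 304) (nat_lit 1345703845) (nat_lit 76) (nat_lit 8169043542) (nat_lit 143) (nat_lit 5) (nat_lit 147) (nat_lit 5) (nat_lit 144) (nat_lit 5) (nat_lit 462) (nat_lit 396) (nat_lit 342)))) (XT.nd (nat_lit 156) (nat_lit 304) (nat_lit 0) (XT.nd (nat_lit 78) (nat_lit 228) (nat_lit 0) (XT.lf (nat_lit 0) (nat_lit 6180322199) (nat_lit 380) (nat_lit 5081689258) (nat_lit 76) (nat_lit 834049600) (nat_lit 139) (nat_lit 5) (nat_lit 144) (nat_lit 5) (nat_lit 140) (nat_lit 5) (nat_lit 463) (nat_lit 396) (nat_lit 341)) (XT.lf (nat_lit 0) (nat_lit 3307744195) (nat_lit 228) (nat_lit 6824144772) (nat_lit 304) (nat_lit 2169289415) (nat_lit 136) (nat_lit 5) (nat_lit 139) (nat_lit 5) (nat_lit 140) (nat_lit 5) (nat_lit 464) (nat_lit 396) (nat_lit 340))) (XT.nd (nat_lit 78) (nat_lit 228) (nat_lit 0) (XT.lf (nat_lit 0) (nat_lit 1664491241) (nat_lit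 304) (nat_lit 545499178) (nat_lit 76) (nat_lit 10301737316) (nat_lit 135) (nat_lit 5) (nat_lit 139) (nat_lit 5) (nat_lit 136) (nat_lit 5) (nat_lit 465) (nat_lit 396) (nat_lit 339)) (XT.lf (nat_lit 0) (nat_lit 5631307032) (nat_lit 304) (nat_lit 4525933507) (nat_lit 76) (nat_lit 2568862881) (nat_lit 132) (nat_lit 5) (nat_lit 136) (nat_lit 5) (nat_lit 133) (nat_lit 5) (nat_lit 466) (nat_lit 396) (nat_lit 338))))))) (XT.nd (nat_lit 1170) (nat_lit 1748) (nat_lit 0) (XT.nd (nat_lit 546) (nat_lit 1140) (nat_lit 0) (XT.nd (nat_lit 234) (nat_lit 684) (nat_lit 0) (XT.nd (nat_lit 78) (nat_lit 304) (nat_lit 0) (XT.lf (nat_lit 0) (nat_lit 4264786452) (nat_lit 228) (nat_lit 5478479852) (nat_lit 304) (nat_lit 3202862679) (nat_lit 129) (nat_lit 5) (nat_lit 132) (nat_lit 5) (nat_lit 133) (nat_lit 5) (nat_lit 467) (nat_lit 396) (nat_lit 337)) (XT.nd (nat_lit 78) (nat_lit 0) (nat_lit 0) (XT.lf (nat_lit 0) (nat_lit 166359777) (nat_lit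 228) (nat_lit 629356641) (nat_lit 304) (nat_lit 12376640773) (nat_lit 125) (nat_lit 5) (nat_lit 128) (nat_lit 5) (nat_lit 129) (nat_lit 5) (nat_lit 468) (nat_lit 396) (nat_lit 336)) (XT.lf (nat_lit 0) (nat_lit 4938537364) (nat_lit 304) (nat_lit 4089450069) (nat_lit 76) (nat_lit 4373776243) (nat_lit 125) (nat_lit 5) (nat_lit 129) (nat_lit 5) (nat_lit 126) (nat_lit 5) (nat_lit 469) (nat_lit 396) (nat_lit 335)))) (XT.nd (nat_lit 156) (nat_lit 228) (nat_lit 0) (XT.nd (nat_lit 78) (nat_lit 228) (nat_lit 0) (XT.lf (nat_lit 0) (nat_lit 5120694281) (nat_lit 228) (nat_lit 4099786634) (nat_lit 304) (nat_lit 4417128771) (nat_lit 122) (nat_lit 5) (nat_lit 125) (nat_lit 5) (nat_lit 126) (nat_lit 5) (nat_lit 470) (nat_lit 396) (nat_lit 334)) (XT.lf (nat_lit 0) (nat_lit 748620188) (nat_lit 228) (nat_lit 12900212489) (nat_lit 304) (nat_lit 231162299) (nat_lit 119) (nat_lit 5) (nat_lit 122) (nat_lit 5) (nat_lit 123) (nat_lit 5)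 (nat_lit 471) (nat_lit 396) (nat_lit 333))) (XT.nd (nat_lit 78) (nat_lit 152) (nat_lit 0) (XT.lf (nat_lit 0) (nat_lit 4088005159) (nat_lit 304) (nat_lit 3809040252) (nat_lit 76) (nat_lit 6228814630) (nat_lit 118) (nat_lit 5) (nat_lit 122) (nat_lit 5) (nat_lit 119) (nat_lit 5) (nat_lit 472) (nat_lit 396) (nat_lit 332)) (XT.lf (nat_lit 0) (nat_lit 5838575962) (nat_lit 152) (nat_lit 2710617807) (nat_lit 228) (nat_lit 5829328053) (nat_lit 116) (nat_lit 5) (nat_lit 118) (nat_lit 5) (nat_lit 119) (nat_lit 5) (nat_lit 473) (nat_lit 396) (nat_lit 331))))) (XT.nd (nat_lit 312) (nat_lit 456) (nat_lit 0) (XT.nd (nat_lit 156) (nat_lit 380) (nat_lit 0) (XT.nd (nat_lit 78) (nat_lit 76) (nat_lit 0) (XT.lf (nat_lit 0) (nat_lit 1146506161) (nat_lit 228) (nat_lit 12034090549) (nat_lit 304) (nat_lit 1457077517) (nat_lit 113) (nat_lit 5) (nat_lit 116) (nat_lit 5) (nat_lit 117) (nat_lit 5) (nat_lit 474) (nat_lit 396) (nat_lit 330))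 (XT.lf (nat_lit 0) (nat_lit 3062159811) (nat_lit 304) (nat_lit 3726781949) (nat_lit 76) (nat_lit 8112525023) (nat_lit 112) (nat_lit 5) (nat_lit 116) (nat_lit 5) (nat_lit 113) (nat_lit 5) (nat_lit 475) (nat_lit 396) (nat_lit 329))) (XT.nd (nat_lit 78) (nat_lit 228) (nat_lit 0) (XT.lf (nat_lit 0) (nat_lit 6376058039) (nat_lit 152) (nat_lit 1335383127) (nat_lit 228) (nat_lit 7460588521) (nat_lit 110) (nat_lit 5) (nat_lit 112) (nat_lit 5) (nat_lit 113) (nat_lit 5) (nat_lit 476) (nat_lit 396) (nat_lit 328)) (XT.lf (nat_lit 0) (nat_lit 1328494931) (nat_lit 228) (nat_lit 11226325638) (nat_lit 304) (nat_lit 2894252214) (nat_lit 107) (nat_lit 5) (nat_lit 110) (nat_lit 5) (nat_lit 111) (nat_lit 5) (nat_lit 477) (nat_lit 396) (nat_lit 327)))) (XT.nd (nat_lit 156) (nat_lit 228) (nat_lit 0) (XT.nd (nat_lit 78) (nat_lit 152) (nat_lit 0) (XT.lf (nat_lit 0) (nat_lit 1839484601) (nat_lit 304) (nat_lit 3891052460) (nat_lit 76) (nat_lit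 10001398837) (nat_lit 106) (nat_lit 5) (nat_lit 110) (nat_lit 5) (nat_lit 107) (nat_lit 5) (nat_lit 478) (nat_lit 396) (nat_lit 326)) (XT.lf (nat_lit 0) (nat_lit 6684220128) (nat_lit 152) (nat_lit 967285) (nat_lit 228) (nat_lit 9336395782) (nat_lit 104) (nat_lit 5) (nat_lit 106) (nat_lit 5) (nat_lit 107) (nat_lit 5) (nat_lit 479) (nat_lit 396) (nat_lit 325))) (XT.nd (nat_lit 78) (nat_lit 76) (nat_lit 0) (XT.lf (nat_lit 0) (nat_lit 1241781027) (nat_lit 152) (nat_lit 10506887332) (nat_lit 228) (nat_lit 4569081023) (nat_lit 102) (nat_lit 5) (nat_lit 104) (nat_lit 5) (nat_lit 105) (nat_lit 5) (nat_lit 480) (nat_lit 396) (nat_lit 324)) (XT.lf (nat_lit 0) (nat_lit 393989255) (nat_lit 228) (nat_lit 4357700105) (nat_lit 76) (nat_lit 11869232513) (nat_lit 101) (nat_lit 5) (nat_lit 104) (nat_lit 5) (nat_lit 102) (nat_lit 5) (nat_lit 481) (nat_lit 396) (nat_lit 323)))))) (XT.nd (nat_lit 624) (nat_lit 836) (nat_lit 0) (XT.nd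 (nat_lit 312) (nat_lit 380) (nat_lit 0) (XT.nd (nat_lit 156) (nat_lit 228) (nat_lit 0) (XT.nd (nat_lit 78) (nat_lit 152) (nat_lit 0) (XT.lf (nat_lit 0) (nat_lit 5455926884) (nat_lit 228) (nat_lit 10236707100) (nat_lit 76) (nat_lit 1237945664) (nat_lit 99) (nat_lit 5) (nat_lit 102) (nat_lit 5) (nat_lit 100) (nat_lit 5) (nat_lit 482) (nat_lit 396) (nat_lit 322)) (XT.lf (nat_lit 0) (nat_lit 825187367) (nat_lit 152) (nat_lit 9909336023) (nat_lit 228) (nat_lit 6513061237) (nat_lit 97) (nat_lit 5) (nat_lit 99) (nat_lit 5) (nat_lit 100) (nat_lit 5) (nat_lit 483) (nat_lit 396) (nat_lit 321))) (XT.nd (nat_lit 78) (nat_lit 228) (nat_lit 0) (XT.lf (nat_lit 0) (nat_lit 12367837700) (nat_lit 152) (nat_lit 3872815423) (nat_lit 228) (nat_lit 1331372824) (nat_lit 97) (nat_lit 5) (nat_lit 99) (nat_lit 5) (nat_lit 100) (nat_lit 5) (nat_lit 484) (nat_lit 396) (nat_lit 320)) (XT.lf (nat_lit 0) (nat_lit 3978641099) (nat_lit 228) (nat_lit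 11550832971) (nat_lit 76) (nat_lit 2374041373) (nat_lit 94) (nat_lit 5) (nat_lit 97) (nat_lit 5) (nat_lit 95) (nat_lit 5) (nat_lit 485) (nat_lit 396) (nat_lit 319)))) (XT.nd (nat_lit 156) (nat_lit 228) (nat_lit 0) (XT.nd (nat_lit 78) (nat_lit 0) (nat_lit 0) (XT.lf (nat_lit 0) (nat_lit 7675603) (nat_lit 152) (nat_lit 9471637896) (nat_lit 228) (nat_lit 8763498474) (nat_lit 92) (nat_lit 5) (nat_lit 94) (nat_lit 5) (nat_lit 95) (nat_lit 5) (nat_lit 486) (nat_lit 396) (nat_lit 318)) (XT.lf (nat_lit 0) (nat_lit 12090314118) (nat_lit 152) (nat_lit 3138360149) (nat_lit 228) (nat_lit 3361104377) (nat_lit 92) (nat_lit 5) (nat_lit 94) (nat_lit 5) (nat_lit 95) (nat_lit 5) (nat_lit 487) (nat_lit 396) (nat_lit 317))) (XT.nd (nat_lit 78) (nat_lit 0) (nat_lit 0) (XT.lf (nat_lit 0) (nat_lit 2215075739) (nat_lit 228) (nat_lit 13360489865) (nat_lit 76) (nat_lit 3369313232) (nat_lit 89) (nat_lit 5) (nat_lit 92) (nat_lit 5) (nat_lit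 90) (nat_lit 5) (nat_lit 488) (nat_lit 396) (nat_lit 316)) (XT.lf (nat_lit 0) (nat_lit 7956149040) (nat_lit 228) (nat_lit 1268133429) (nat_lit 76) (nat_lit 10083397515) (nat_lit 89) (nat_lit 5) (nat_lit 92) (nat_lit 5) (nat_lit 90) (nat_lit 5) (nat_lit 489) (nat_lit 396) (nat_lit 315))))) (XT.nd (nat_lit 312) (nat_lit 304) (nat_lit 0) (XT.nd (nat_lit 156) (nat_lit 152) (nat_lit 0) (XT.nd (nat_lit 78) (nat_lit 228) (nat_lit 0) (XT.lf (nat_lit 0) (nat_lit 11351749825) (nat_lit 152) (nat_lit 2595570417) (nat_lit 228) (nat_lit 5731710100) (nat_lit 87) (nat_lit 5) (nat_lit 89) (nat_lit 5) (nat_lit 90) (nat_lit 5) (nat_lit 490) (nat_lit 396) (nat_lit 314)) (XT.lf (nat_lit 0) (nat_lit 120062282) (nat_lit 228) (nat_lit 15759454585) (nat_lit 76) (nat_lit 4180055167) (nat_lit 84) (nat_lit 5) (nat_lit 87) (nat_lit 5) (nat_lit 85) (nat_lit 5) (nat_lit 491) (nat_lit 396) (nat_lit 313))) (XT.nd (nat_lit 78) (nat_lit 152) (nat_lit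 0) (XT.lf (nat_lit 0) (nat_lit 6111738622) (nat_lit 228) (nat_lit 3112196641) (nat_lit 76) (nat_lit 11223506699) (nat_lit 84) (nat_lit 5) (nat_lit 87) (nat_lit 5) (nat_lit 85) (nat_lit 5) (nat_lit 492) (nat_lit 396) (nat_lit 312)) (XT.lf (nat_lit 0) (nat_lit 10055408021) (nat_lit 152) (nat_lit 2294252852) (nat_lit 228) (nat_lit 8495293262) (nat_lit 82) (nat_lit 5) (nat_lit 84) (nat_lit 5) (nat_lit 85) (nat_lit 5) (nat_lit 493) (nat_lit 396) (nat_lit 311)))) (XT.nd (nat_lit 156) (nat_lit 152) (nat_lit 0) (XT.nd (nat_lit 78) (nat_lit 76) (nat_lit 0) (XT.lf (nat_lit 0) (nat_lit 2372413330) (nat_lit 76) (nat_lit 16473357227) (nat_lit 152) (nat_lit 2406490613) (nat_lit 81) (nat_lit 5) (nat_lit 82) (nat_lit 5) (nat_lit 83) (nat_lit 4) (nat_lit 494) (nat_lit 396) (nat_lit 310)) (XT.lf (nat_lit 0) (nat_lit 3892306264) (nat_lit 152) (nat_lit 5634515389) (nat_lit 76) (nat_lit 12140769626) (nat_lit 80) (nat_lit 5) (nat_lit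 82) (nat_lit 5) (nat_lit 81) (nat_lit 5) (nat_lit 495) (nat_lit 396) (nat_lit 309))) (XT.nd (nat_lit 78) (nat_lit 0) (nat_lit 0) (XT.lf (nat_lit 0) (nat_lit 8088341706) (nat_lit 152) (nat_lit 2291983444) (nat_lit 228) (nat_lit 11712883459) (nat_lit 78) (nat_lit 5) (nat_lit 80) (nat_lit 5) (nat_lit 81) (nat_lit 5) (nat_lit 496) (nat_lit 396) (nat_lit 308)) (XT.lf (nat_lit 0) (nat_lit 17141021743) (nat_lit 228) (nat_lit 295606717) (nat_lit 76) (nat_lit 5092625762) (nat_lit 78) (nat_lit 5) (nat_lit 81) (nat_lit 5) (nat_lit 79) (nat_lit 4) (nat_lit 497) (nat_lit 396) (nat_lit 307))))))))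
noncomputable def xc88 : XT := (XT.nd (nat_lit 2340) (nat_lit 1216) (nat_lit 0) (XT.nd (nat_lit 1170) (nat_lit 912) (nat_lit 0) (XT.nd (nat_lit 546) (nat_lit 836) (nat_lit 0) (XT.nd (nat_lit 234) (nat_lit 380) (nat_lit 0) (XT.nd (nat_lit 78) (nat_lit 152) (nat_lit 0) (XT.lf (nat_lit 0) (nat_lit 1234779167) (nat_lit 152) (nat_lit 8963091687) (nat_lit 76) (nat_lit 12776268523) (nat_lit 76) (nat_lit 5) (nat_lit 78) (nat_lit 5) (nat_lit 77) (nat_lit 5) (nat_lit 498) (nat_lit 396) (nat_lit 306)) (XT.nd (nat_lit 78) (nat_lit 0) (nat_lit 0) (XT.lf (nat_lit 0) (nat_lit 5318669442) (nat_lit 152) (nat_lit 2655521602) (nat_lit 228) (nat_lit 15455800138) (nat_lit 74) (nat_lit 5) (nat_lit 76) (nat_lit 5) (nat_lit 77) (nat_lit 5) (nat_lit 499) (nat_lit 396) (nat_lit 305)) (XT.lf (nat_lit 0) (nat_lit 15028297283) (nat_lit 228) (nat_lit 3786739683) (nat_lit 76) (nat_lit 5081106996) (nat_lit 74) (nat_lit 5) (nat_lit 77) (nat_lit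 5) (nat_lit 75) (nat_lit 4) (nat_lit 500) (nat_lit 396) (nat_lit 304)))) (XT.nd (nat_lit 156) (nat_lit 76) (nat_lit 0) (XT.nd (nat_lit 78) (nat_lit 228) (nat_lit 0) (XT.lf (nat_lit 0) (nat_lit 11107047336) (nat_lit 76) (nat_lit 11292812205) (nat_lit 152) (nat_lit 1973247555) (nat_lit 73) (nat_lit 5) (nat_lit 74) (nat_lit 5) (nat_lit 75) (nat_lit 4) (nat_lit 501) (nat_lit 396) (nat_lit 303)) (XT.lf (nat_lit 0) (nat_lit 1592419704) (nat_lit 152) (nat_lit 3462438295) (nat_lit 228) (nat_lit 19807240844) (nat_lit 70) (nat_lit 5) (nat_lit 72) (nat_lit 5) (nat_lit 73) (nat_lit 5) (nat_lit 502) (nat_lit 396) (nat_lit 302))) (XT.nd (nat_lit 78) (nat_lit 76) (nat_lit 0) (XT.lf (nat_lit 0) (nat_lit 12406571634) (nat_lit 228) (nat_lit 8309355922) (nat_lit 76) (nat_lit 4644674607) (nat_lit 70) (nat_lit 5) (nat_lit 73) (nat_lit 5) (nat_lit 71) (nat_lit 4) (nat_lit 503) (nat_lit 396) (nat_lit 301)) (XT.lf (nat_lit 0) (nat_lit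 7155513264) (nat_lit 76) (nat_lit 12900070011) (nat_lit 152) (nat_lit 5816175584) (nat_lit 69) (nat_lit 5) (nat_lit 70) (nat_lit 5) (nat_lit 71) (nat_lit 4) (nat_lit 504) (nat_lit 396) (nat_lit 300))))) (XT.nd (nat_lit 312) (nat_lit 532) (nat_lit 0) (XT.nd (nat_lit 156) (nat_lit 76) (nat_lit 0) (XT.nd (nat_lit 78) (nat_lit 152) (nat_lit 0) (XT.lf (nat_lit 0) (nat_lit 1564302584) (nat_lit 152) (nat_lit 3206314103) (nat_lit 76) (nat_lit 21625437600) (nat_lit 68) (nat_lit 5) (nat_lit 70) (nat_lit 5) (nat_lit 69) (nat_lit 5) (nat_lit 505) (nat_lit 396) (nat_lit 299)) (XT.lf (nat_lit 0) (nat_lit 9184140225) (nat_lit 228) (nat_lit 14052458220) (nat_lit 76) (nat_lit 3693707837) (nat_lit 66) (nat_lit 5) (nat_lit 69) (nat_lit 5) (nat_lit 67) (nat_lit 4) (nat_lit 506) (nat_lit 396) (nat_lit 298))) (XT.nd (nat_lit 78) (nat_lit 0) (nat_lit 0) (XT.lf (nat_lit 0) (nat_lit 1973327278) (nat_lit 76) (nat_lit 15132697926) (nat_lit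 152) (nat_lit 10372357665) (nat_lit 65) (nat_lit 5) (nat_lit 66) (nat_lit 5) (nat_lit 67) (nat_lit 4) (nat_lit 507) (nat_lit 396) (nat_lit 297)) (XT.lf (nat_lit 0) (nat_lit 18720149290) (nat_lit 76) (nat_lit 6662152962) (nat_lit 152) (nat_lit 2657098015) (nat_lit 65) (nat_lit 5) (nat_lit 66) (nat_lit 5) (nat_lit 67) (nat_lit 4) (nat_lit 508) (nat_lit 396) (nat_lit 296)))) (XT.nd (nat_lit 156) (nat_lit 304) (nat_lit 0) (XT.nd (nat_lit 78) (nat_lit 0) (nat_lit 0) (XT.lf (nat_lit 0) (nat_lit 5253665172) (nat_lit 228) (nat_lit 21236391031) (nat_lit 76) (nat_lit 2123649162) (nat_lit 62) (nat_lit 5) (nat_lit 65) (nat_lit 5) (nat_lit 63) (nat_lit 4) (nat_lit 509) (nat_lit 396) (nat_lit 295)) (XT.lf (nat_lit 0) (nat_lit 13484730342) (nat_lit 228) (nat_lit 4576765051) (nat_lit 76) (nat_lit 11138863992) (nat_lit 62) (nat_lit 5) (nat_lit 65) (nat_lit 5) (nat_lit 63) (nat_lit 4) (nat_lit 510) (nat_lit 396) (nat_lit 294))) (XT.nd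 (nat_lit 78) (nat_lit 228) (nat_lit 0) (XT.lf (nat_lit 0) (nat_lit 12786570313) (nat_lit 76) (nat_lit 9275170761) (nat_lit 152) (nat_lit 7739902059) (nat_lit 61) (nat_lit 5) (nat_lit 62) (nat_lit 5) (nat_lit 63) (nat_lit 4) (nat_lit 511) (nat_lit 396) (nat_lit 293)) (XT.lf (nat_lit 0) (nat_lit 300260660) (nat_lit 152) (nat_lit 191254334) (nat_lit 228) (nat_lit 29928543204) (nat_lit 58) (nat_lit 5) (nat_lit 60) (nat_lit 5) (nat_lit 61) (nat_lit 5) (nat_lit 512) (nat_lit 396) (nat_lit 292)))))) (XT.nd (nat_lit 546) (nat_lit 608) (nat_lit 0) (XT.nd (nat_lit 234) (nat_lit 228) (nat_lit 0) (XT.nd (nat_lit 78) (nat_lit 76) (nat_lit 0) (XT.lf (nat_lit 0) (nat_lit 9052114206) (nat_lit 228) (nat_lit 12780134151) (nat_lit 76) (nat_lit 9215344729) (nat_lit 58) (nat_lit 5) (nat_lit 61) (nat_lit 5) (nat_lit 59) (nat_lit 4) (nat_lit 513) (nat_lit 396) (nat_lit 291)) (XT.nd (nat_lit 78) (nat_lit 0) (nat_lit 0) (XT.lf (nat_lit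 0) (nat_lit 5133657727) (nat_lit 76) (nat_lit 12763991492) (nat_lit 152) (nat_lit 13795461724) (nat_lit 57) (nat_lit 5) (nat_lit 58) (nat_lit 5) (nat_lit 59) (nat_lit 4) (nat_lit 514) (nat_lit 396) (nat_lit 290)) (XT.lf (nat_lit 0) (nat_lit 23802934372) (nat_lit 76) (nat_lit 3311797991) (nat_lit 152) (nat_lit 5240076957) (nat_lit 57) (nat_lit 5) (nat_lit 58) (nat_lit 5) (nat_lit 59) (nat_lit 4) (nat_lit 515) (nat_lit 396) (nat_lit 289)))) (XT.nd (nat_lit 156) (nat_lit 76) (nat_lit 0) (XT.nd (nat_lit 78) (nat_lit 0) (nat_lit 0) (XT.lf (nat_lit 0) (nat_lit 3639936687) (nat_lit 152) (nat_lit 22980024227) (nat_lit 76) (nat_lit 6411237993) (nat_lit 55) (nat_lit 5) (nat_lit 57) (nat_lit 5) (nat_lit 56) (nat_lit 4) (nat_lit 516) (nat_lit 396) (nat_lit 288)) (XT.lf (nat_lit 0) (nat_lit 12778652716) (nat_lit 152) (nat_lit 4466319507) (nat_lit 76) (nat_lit 16478423238) (nat_lit 55) (nat_lit 5) (nat_lit 57) (nat_lit 5) (nat_lit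 56) (nat_lit 4) (nat_lit 517) (nat_lit 396) (nat_lit 287))) (XT.nd (nat_lit 78) (nat_lit 0) (nat_lit 0) (XT.lf (nat_lit 0) (nat_lit 14850719575) (nat_lit 76) (nat_lit 7461836759) (nat_lit 152) (nat_lit 12120171190) (nat_lit 54) (nat_lit 5) (nat_lit 55) (nat_lit 5) (nat_lit 56) (nat_lit 4) (nat_lit 518) (nat_lit 396) (nat_lit 286)) (XT.lf (nat_lit 0) (nat_lit 32181474011) (nat_lit 152) (nat_lit 390653680) (nat_lit 0) (nat_lit 2589742331) (nat_lit 54) (nat_lit 5) (nat_lit 56) (nat_lit 4) (nat_lit 54) (nat_lit 4) (nat_lit 519) (nat_lit 396) (nat_lit 285))))) (XT.nd (nat_lit 312) (nat_lit 304) (nat_lit 0) (XT.nd (nat_lit 156) (nat_lit 76) (nat_lit 0) (XT.nd (nat_lit 78) (nat_lit 76) (nat_lit 0) (XT.lf (nat_lit 0) (nat_lit 6552090052) (nat_lit 152) (nat_lit 16324652599) (nat_lit 76) (nat_lit 13026967411) (nat_lit 52) (nat_lit 5) (nat_lit 54) (nat_lit 5) (nat_lit 53) (nat_lit 4) (nat_lit 520) (nat_lit 396) (nat_lit 284))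 (XT.lf (nat_lit 0) (nat_lit 3485946448) (nat_lit 76) (nat_lit 12841159503) (nat_lit 152) (nat_lit 20339320687) (nat_lit 51) (nat_lit 5) (nat_lit 52) (nat_lit 5) (nat_lit 53) (nat_lit 4) (nat_lit 521) (nat_lit 396) (nat_lit 283))) (XT.nd (nat_lit 78) (nat_lit 76) (nat_lit 0) (XT.lf (nat_lit 0) (nat_lit 24185191964) (nat_lit 76) (nat_lit 2354217832) (nat_lit 152) (nat_lit 10908294133) (nat_lit 51) (nat_lit 5) (nat_lit 52) (nat_lit 5) (nat_lit 53) (nat_lit 4) (nat_lit 522) (nat_lit 396) (nat_lit 282)) (XT.lf (nat_lit 0) (nat_lit 7274178597) (nat_lit 76) (nat_lit 29914643527) (nat_lit 76) (nat_lit 1059675565) (nat_lit 50) (nat_lit 4) (nat_lit 51) (nat_lit 5) (nat_lit 51) (nat_lit 4) (nat_lit 523) (nat_lit 396) (nat_lit 281)))) (XT.nd (nat_lit 156) (nat_lit 152) (nat_lit 0) (XT.nd (nat_lit 78) (nat_lit 76) (nat_lit 0) (XT.lf (nat_lit 0) (nat_lit 9045324392) (nat_lit 152) (nat_lit 10521998070) (nat_lit 76) (nat_lit 19499227599)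 (nat_lit 49) (nat_lit 5) (nat_lit 51) (nat_lit 5) (nat_lit 50) (nat_lit 4) (nat_lit 524) (nat_lit 396) (nat_lit 280)) (XT.lf (nat_lit 0) (nat_lit 10703845070) (nat_lit 76) (nat_lit 8811447785) (nat_lit 152) (nat_lit 20391043189) (nat_lit 48) (nat_lit 5) (nat_lit 49) (nat_lit 5) (nat_lit 50) (nat_lit 4) (nat_lit 525) (nat_lit 396) (nat_lit 279))) (XT.nd (nat_lit 78) (nat_lit 152) (nat_lit 0) (XT.lf (nat_lit 0) (nat_lit 30408714258) (nat_lit 152) (nat_lit 8047277756) (nat_lit 0) (nat_lit 2312043271) (nat_lit 48) (nat_lit 5) (nat_lit 50) (nat_lit 4) (nat_lit 48) (nat_lit 4) (nat_lit 526) (nat_lit 396) (nat_lit 278)) (XT.lf (nat_lit 0) (nat_lit 177452937) (nat_lit 152) (nat_lit 27762241966) (nat_lit 76) (nat_lit 13709791155) (nat_lit 46) (nat_lit 5) (nat_lit 48) (nat_lit 5) (nat_lit 47) (nat_lit 4) (nat_lit 527) (nat_lit 396) (nat_lit 277))))))) (XT.nd (nat_lit 1170) (nat_lit 456) (nat_lit 0) (XT.nd (nat_lit 546) (nat_lit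 456) (nat_lit 0) (XT.nd (nat_lit 234) (nat_lit 228) (nat_lit 0) (XT.nd (nat_lit 78) (nat_lit 76) (nat_lit 0) (XT.lf (nat_lit 0) (nat_lit 10885031732) (nat_lit 152) (nat_lit 6050905985) (nat_lit 76) (nat_lit 25616478470) (nat_lit 46) (nat_lit 5) (nat_lit 48) (nat_lit 5) (nat_lit 47) (nat_lit 4) (nat_lit 528) (nat_lit 396) (nat_lit 276)) (XT.nd (nat_lit 78) (nat_lit 0) (nat_lit 0) (XT.lf (nat_lit 0) (nat_lit 16599418225) (nat_lit 76) (nat_lit 5455388680) (nat_lit 152) (nat_lit 21423398506) (nat_lit 45) (nat_lit 5) (nat_lit 46) (nat_lit 5) (nat_lit 47) (nat_lit 4) (nat_lit 529) (nat_lit 396) (nat_lit 275)) (XT.lf (nat_lit 0) (nat_lit 33664044173) (nat_lit 152) (nat_lit 4474773283) (nat_lit 0) (nat_lit 6289820043) (nat_lit 45) (nat_lit 5) (nat_lit 47) (nat_lit 4) (nat_lit 45) (nat_lit 4) (nat_lit 530) (nat_lit 396) (nat_lit 274)))) (XT.nd (nat_lit 156) (nat_lit 76) (nat_lit 0) (XT.nd (nat_lit 78) (nat_lit 0) (nat_lit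 0) (XT.lf (nat_lit 0) (nat_lit 429432691) (nat_lit 152) (nat_lit 26524731454) (nat_lit 76) (nat_lit 18446767976) (nat_lit 43) (nat_lit 5) (nat_lit 45) (nat_lit 5) (nat_lit 44) (nat_lit 4) (nat_lit 531) (nat_lit 396) (nat_lit 273)) (XT.lf (nat_lit 0) (nat_lit 11770542529) (nat_lit 152) (nat_lit 3523885946) (nat_lit 76) (nat_lit 31103941311) (nat_lit 43) (nat_lit 5) (nat_lit 45) (nat_lit 5) (nat_lit 44) (nat_lit 4) (nat_lit 532) (nat_lit 396) (nat_lit 272))) (XT.nd (nat_lit 78) (nat_lit 0) (nat_lit 0) (XT.lf (nat_lit 0) (nat_lit 20533442325) (nat_lit 76) (nat_lit 3098334880) (nat_lit 152) (nat_lit 23788556856) (nat_lit 42) (nat_lit 5) (nat_lit 43) (nat_lit 5) (nat_lit 44) (nat_lit 4) (nat_lit 533) (nat_lit 396) (nat_lit 271)) (XT.lf (nat_lit 0) (nat_lit 35958291631) (nat_lit 152) (nat_lit 3212734155) (nat_lit 0) (nat_lit 9298648417) (nat_lit 42) (nat_lit 5) (nat_lit 44) (nat_lit 4) (nat_lit 42) (nat_lit 4) (nat_lit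 534) (nat_lit 396) (nat_lit 270))))) (XT.nd (nat_lit 312) (nat_lit 228) (nat_lit 0) (XT.nd (nat_lit 156) (nat_lit 76) (nat_lit 0) (XT.nd (nat_lit 78) (nat_lit 76) (nat_lit 0) (XT.lf (nat_lit 0) (nat_lit 21527805686) (nat_lit 76) (nat_lit 27347455229) (nat_lit 76) (nat_lit 668614062) (nat_lit 41) (nat_lit 4) (nat_lit 42) (nat_lit 5) (nat_lit 42) (nat_lit 4) (nat_lit 535) (nat_lit 396) (nat_lit 269)) (XT.lf (nat_lit 0) (nat_lit 11320275616) (nat_lit 152) (nat_lit 3717320454) (nat_lit 76) (nat_lit 35608906497) (nat_lit 40) (nat_lit 5) (nat_lit 42) (nat_lit 5) (nat_lit 41) (nat_lit 4) (nat_lit 536) (nat_lit 396) (nat_lit 268))) (XT.nd (nat_lit 78) (nat_lit 0) (nat_lit 0) (XT.lf (nat_lit 0) (nat_lit 21694821468) (nat_lit 76) (nat_lit 2152664903) (nat_lit 152) (nat_lit 27928761422) (nat_lit 39) (nat_lit 5) (nat_lit 40) (nat_lit 5) (nat_lit 41) (nat_lit 4) (nat_lit 537) (nat_lit 396) (nat_lit 267)) (XT.lf (nat_lit 0) (nat_lit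 36878873450) (nat_lit 152) (nat_lit 5132797293) (nat_lit 0) (nat_lit 10924364021) (nat_lit 39) (nat_lit 5) (nat_lit 41) (nat_lit 4) (nat_lit 39) (nat_lit 4) (nat_lit 538) (nat_lit 396) (nat_lit 266)))) (XT.nd (nat_lit 156) (nat_lit 76) (nat_lit 0) (XT.nd (nat_lit 78) (nat_lit 76) (nat_lit 0) (XT.lf (nat_lit 0) (nat_lit 20919824815) (nat_lit 76) (nat_lit 29587833392) (nat_lit 76) (nat_lit 3616763641) (nat_lit 38) (nat_lit 4) (nat_lit 39) (nat_lit 5) (nat_lit 39) (nat_lit 4) (nat_lit 539) (nat_lit 396) (nat_lit 265)) (XT.lf (nat_lit 0) (nat_lit 9053784657) (nat_lit 152) (nat_lit 7607964879) (nat_lit 76) (nat_lit 38682966940) (nat_lit 37) (nat_lit 5) (nat_lit 39) (nat_lit 5) (nat_lit 38) (nat_lit 4) (nat_lit 540) (nat_lit 396) (nat_lit 264))) (XT.nd (nat_lit 78) (nat_lit 0) (nat_lit 0) (XT.lf (nat_lit 0) (nat_lit 19062260861) (nat_lit 76) (nat_lit 3137255535) (nat_lit 152) (nat_lit 34395996616) (nat_lit 36) (nat_lit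 5) (nat_lit 37) (nat_lit 5) (nat_lit 38) (nat_lit 4) (nat_lit 541) (nat_lit 396) (nat_lit 263)) (XT.lf (nat_lit 0) (nat_lit 35905495187) (nat_lit 152) (nat_lit 11327976173) (nat_lit 0) (nat_lit 10645385996) (nat_lit 36) (nat_lit 5) (nat_lit 38) (nat_lit 4) (nat_lit 36) (nat_lit 4) (nat_lit 542) (nat_lit 396) (nat_lit 262)))))) (XT.nd (nat_lit 546) (nat_lit 76) (nat_lit 0) (XT.nd (nat_lit 234) (nat_lit 152) (nat_lit 0) (XT.nd (nat_lit 78) (nat_lit 152) (nat_lit 0) (XT.lf (nat_lit 0) (nat_lit 15913323002) (nat_lit 76) (nat_lit 34278351412) (nat_lit 76) (nat_lit 9003957142) (nat_lit 35) (nat_lit 4) (nat_lit 36) (nat_lit 5) (nat_lit 36) (nat_lit 4) (nat_lit 543) (nat_lit 396) (nat_lit 261)) (XT.nd (nat_lit 78) (nat_lit 76) (nat_lit 0) (XT.lf (nat_lit 0) (nat_lit 4370079149) (nat_lit 152) (nat_lit 16417002605) (nat_lit 76) (nat_lit 39760555973) (nat_lit 34) (nat_lit 5) (nat_lit 36) (nat_lit 5) (nat_lit 35) (nat_lit 4)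 (nat_lit 544) (nat_lit 396) (nat_lit 260)) (XT.lf (nat_lit 0) (nat_lit 11358004464) (nat_lit 76) (nat_lit 6700977210) (nat_lit 152) (nat_lit 43875709638) (nat_lit 33) (nat_lit 5) (nat_lit 34) (nat_lit 5) (nat_lit 35) (nat_lit 4) (nat_lit 545) (nat_lit 396) (nat_lit 259)))) (XT.nd (nat_lit 156) (nat_lit 76) (nat_lit 0) (XT.nd (nat_lit 78) (nat_lit 76) (nat_lit 0) (XT.lf (nat_lit 0) (nat_lit 32386475902) (nat_lit 152) (nat_lit 23161044005) (nat_lit 0) (nat_lit 7808999001) (nat_lit 33) (nat_lit 5) (nat_lit 35) (nat_lit 4) (nat_lit 33) (nat_lit 4) (nat_lit 546) (nat_lit 396) (nat_lit 258)) (XT.lf (nat_lit 0) (nat_lit 5081965758) (nat_lit 76) (nat_lit 42162901438) (nat_lit 76) (nat_lit 17573102103) (nat_lit 32) (nat_lit 4) (nat_lit 33) (nat_lit 5) (nat_lit 33) (nat_lit 4) (nat_lit 547) (nat_lit 396) (nat_lit 257))) (XT.nd (nat_lit 78) (nat_lit 76) (nat_lit 0) (XT.lf (nat_lit 0) (nat_lit 34619394757) (nat_lit 76) (nat_lit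 28149517196) (nat_lit 76) (nat_lit 3547754331) (nat_lit 32) (nat_lit 4) (nat_lit 33) (nat_lit 5) (nat_lit 33) (nat_lit 4) (nat_lit 548) (nat_lit 396) (nat_lit 256)) (XT.lf (nat_lit 0) (nat_lit 10671980989) (nat_lit 152) (nat_lit 2949256533) (nat_lit 76) (nat_lit 54236355133) (nat_lit 31) (nat_lit 5) (nat_lit 33) (nat_lit 5) (nat_lit 32) (nat_lit 4) (nat_lit 549) (nat_lit 396) (nat_lit 255))))) (XT.nd (nat_lit 51402) (nat_lit 0) (nat_lit 29032) (XT.nd (nat_lit 51246) (nat_lit 0) (nat_lit 30248) (XT.nd (nat_lit 78) (nat_lit 0) (nat_lit 0) (XT.lf (nat_lit 0) (nat_lit 25510189626) (nat_lit 152) (nat_lit 42322850032) (nat_lit 0) (nat_lit 1602757864) (nat_lit 30) (nat_lit 5) (nat_lit 32) (nat_lit 4) (nat_lit 30) (nat_lit 4) (nat_lit 550) (nat_lit 396) (nat_lit 254)) (XT.lf (nat_lit 0) (nat_lit 40945190327) (nat_lit 152) (nat_lit 13084479827) (nat_lit 0) (nat_lit 17027129124) (nat_lit 30) (nat_lit 5) (nat_lit 32) (nat_lit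 4) (nat_lit 30) (nat_lit 4) (nat_lit 551) (nat_lit 396) (nat_lit 253))) (XT.nd (nat_lit 78) (nat_lit 76) (nat_lit 0) (XT.lf (nat_lit 0) (nat_lit 545484469) (nat_lit 228) (nat_lit 1347287064) (nat_lit 228) (nat_lit 1347287064) (nat_lit 429) (nat_lit 4) (nat_lit 432) (nat_lit 5) (nat_lit 432) (nat_lit 4) (nat_lit 406) (nat_lit 397) (nat_lit 397)) (XT.lf (nat_lit 0) (nat_lit 505759741) (nat_lit 304) (nat_lit 1726957196) (nat_lit 76) (nat_lit 4261698367) (nat_lit 428) (nat_lit 5) (nat_lit 432) (nat_lit 5) (nat_lit 429) (nat_lit 4) (nat_lit 407) (nat_lit 397) (nat_lit 396)))) (XT.nd (nat_lit 156) (nat_lit 836) (nat_lit 0) (XT.nd (nat_lit 78) (nat_lit 76) (nat_lit 0) (XT.lf (nat_lit 0) (nat_lit 1984297896) (nat_lit 304) (nat_lit 1666634841) (nat_lit 380) (nat_lit 2860348340) (nat_lit 424) (nat_lit 5) (nat_lit 428) (nat_lit 5) (nat_lit 429) (nat_lit 4) (nat_lit 408) (nat_lit 397) (nat_lit 395)) (XT.lf (nat_lit 0) (nat_lit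 257810287) (nat_lit 380) (nat_lit 763924879) (nat_lit 76) (nat_lit 5509748512) (nat_lit 423) (nat_lit 5) (nat_lit 428) (nat_lit 5) (nat_lit 424) (nat_lit 5) (nat_lit 409) (nat_lit 397) (nat_lit 394))) (XT.nd (nat_lit 78) (nat_lit 456) (nat_lit 0) (XT.lf (nat_lit 0) (nat_lit 3071370220) (nat_lit 380) (nat_lit 258964378) (nat_lit 456) (nat_lit 3223585091) (nat_lit 418) (nat_lit 5) (nat_lit 423) (nat_lit 5) (nat_lit 424) (nat_lit 5) (nat_lit 410) (nat_lit 397) (nat_lit 393)) (XT.lf (nat_lit 0) (nat_lit 387813266) (nat_lit 456) (nat_lit 6015497839) (nat_lit 532) (nat_lit 176494891) (nat_lit 412) (nat_lit 5) (nat_lit 418) (nat_lit 5) (nat_lit 419) (nat_lit 4) (nat_lit 411) (nat_lit 397) (nat_lit 392))))))))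
noncomputable def xc89 : XT := (XT.nd (nat_lit 2340) (nat_lit 7676) (nat_lit 0) (XT.nd (nat_lit 1170) (nat_lit 6612) (nat_lit 0) (XT.nd (nat_lit 546) (nat_lit 5168) (nat_lit 0) (XT.nd (nat_lit 234) (nat_lit 2204) (nat_lit 0) (XT.nd (nat_lit 78) (nat_lit 608) (nat_lit 0) (XT.lf (nat_lit 0) (nat_lit 2835349113) (nat_lit 532) (nat_lit 2267739690) (nat_lit 76) (nat_lit 1504615740) (nat_lit 411) (nat_lit 5) (nat_lit 418) (nat_lit 5) (nat_lit 412) (nat_lit 5) (nat_lit 412) (nat_lit 397) (nat_lit 391)) (XT.nd (nat_lit 78) (nat_lit 76) (nat_lit 0) (XT.lf (nat_lit 0) (nat_lit 1731903993) (nat_lit 532) (nat_lit 4114921343) (nat_lit 608) (nat_lit 792200903) (nat_lit 404) (nat_lit 5) (nat_lit 411) (nat_lit 5) (nat_lit 412) (nat_lit 5) (nat_lit 413) (nat_lit 397) (nat_lit 390)) (XT.lf (nat_lit 0) (nat_lit 2153510119) (nat_lit 608) (nat_lit 870413806) (nat_lit 76) (nat_lit 3649111184) (nat_lit 403) (nat_lit 5) (nat_lit 411) (nat_lit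 5) (nat_lit 404) (nat_lit 5) (nat_lit 414) (nat_lit 397) (nat_lit 389)))) (XT.nd (nat_lit 156) (nat_lit 836) (nat_lit 0) (XT.nd (nat_lit 78) (nat_lit 760) (nat_lit 0) (XT.lf (nat_lit 0) (nat_lit 3269845625) (nat_lit 608) (nat_lit 1833707478) (nat_lit 684) (nat_lit 1606340706) (nat_lit 395) (nat_lit 5) (nat_lit 403) (nat_lit 5) (nat_lit 404) (nat_lit 5) (nat_lit 415) (nat_lit 397) (nat_lit 388)) (XT.lf (nat_lit 0) (nat_lit 730557796) (nat_lit 684) (nat_lit 554040639) (nat_lit 760) (nat_lit 5465350927) (nat_lit 385) (nat_lit 5) (nat_lit 394) (nat_lit 5) (nat_lit 395) (nat_lit 5) (nat_lit 416) (nat_lit 397) (nat_lit 387))) (XT.nd (nat_lit 78) (nat_lit 836) (nat_lit 0) (XT.lf (nat_lit 0) (nat_lit 4176437906) (nat_lit 760) (nat_lit 1794111765) (nat_lit 76) (nat_lit 821805590) (nat_lit 385) (nat_lit 5) (nat_lit 395) (nat_lit 5) (nat_lit 386) (nat_lit 5) (nat_lit 417) (nat_lit 397) (nat_lit 386)) (XT.lf (nat_lit 0) (nat_lit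 248730508) (nat_lit 836) (nat_lit 4313551303) (nat_lit 76) (nat_lit 2275599278) (nat_lit 374) (nat_lit 5) (nat_lit 385) (nat_lit 5) (nat_lit 375) (nat_lit 5) (nat_lit 418) (nat_lit 397) (nat_lit 385))))) (XT.nd (nat_lit 312) (nat_lit 3344) (nat_lit 0) (XT.nd (nat_lit 156) (nat_lit 988) (nat_lit 0) (XT.nd (nat_lit 78) (nat_lit 0) (nat_lit 0) (XT.lf (nat_lit 0) (nat_lit 23223039) (nat_lit 836) (nat_lit 3049944374) (nat_lit 912) (nat_lit 3813053357) (nat_lit 363) (nat_lit 5) (nat_lit 374) (nat_lit 5) (nat_lit 375) (nat_lit 5) (nat_lit 419) (nat_lit 397) (nat_lit 384)) (XT.lf (nat_lit 0) (nat_lit 4503245999) (nat_lit 836) (nat_lit 1432515860) (nat_lit 912) (nat_lit 1001663419) (nat_lit 363) (nat_lit 5) (nat_lit 374) (nat_lit 5) (nat_lit 375) (nat_lit 5) (nat_lit 420) (nat_lit 397) (nat_lit 383))) (XT.nd (nat_lit 78) (nat_lit 0) (nat_lit 0) (XT.lf (nat_lit 0) (nat_lit 1791413631) (nat_lit 988) (nat_lit 4919516327) (nat_lit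 76) (nat_lit 280676964) (nat_lit 350) (nat_lit 5) (nat_lit 363) (nat_lit 5) (nat_lit 351) (nat_lit 5) (nat_lit 421) (nat_lit 397) (nat_lit 382)) (XT.lf (nat_lit 0) (nat_lit 4600747191) (nat_lit 988) (nat_lit 384432134) (nat_lit 76) (nat_lit 2063375165) (nat_lit 350) (nat_lit 5) (nat_lit 363) (nat_lit 5) (nat_lit 351) (nat_lit 5) (nat_lit 422) (nat_lit 397) (nat_lit 381)))) (XT.nd (nat_lit 156) (nat_lit 1216) (nat_lit 0) (XT.nd (nat_lit 78) (nat_lit 1064) (nat_lit 0) (XT.lf (nat_lit 0) (nat_lit 336559939) (nat_lit 1064) (nat_lit 2815889799) (nat_lit 76) (nat_lit 3955955155) (nat_lit 336) (nat_lit 5) (nat_lit 350) (nat_lit 5) (nat_lit 337) (nat_lit 5) (nat_lit 423) (nat_lit 397) (nat_lit 380)) (XT.lf (nat_lit 0) (nat_lit 1884665065) (nat_lit 1064) (nat_lit 1209643030) (nat_lit 1140) (nat_lit 4076858735) (nat_lit 322) (nat_lit 5) (nat_lit 336) (nat_lit 5) (nat_lit 337) (nat_lit 5) (nat_lit 424) (nat_lit 397) (nat_lit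 379))) (XT.nd (nat_lit 78) (nat_lit 1216) (nat_lit 0) (XT.lf (nat_lit 0) (nat_lit 5889884732) (nat_lit 1140) (nat_lit 536217075) (nat_lit 76) (nat_lit 811071062) (nat_lit 322) (nat_lit 5) (nat_lit 337) (nat_lit 5) (nat_lit 323) (nat_lit 5) (nat_lit 425) (nat_lit 397) (nat_lit 378)) (XT.lf (nat_lit 0) (nat_lit 1410309372) (nat_lit 1216) (nat_lit 2965255171) (nat_lit 76) (nat_lit 2929944294) (nat_lit 306) (nat_lit 5) (nat_lit 322) (nat_lit 5) (nat_lit 307) (nat_lit 5) (nat_lit 426) (nat_lit 397) (nat_lit 377)))))) (XT.nd (nat_lit 546) (nat_lit 2736) (nat_lit 0) (XT.nd (nat_lit 234) (nat_lit 1824) (nat_lit 0) (XT.nd (nat_lit 78) (nat_lit 836) (nat_lit 0) (XT.lf (nat_lit 0) (nat_lit 1946970580) (nat_lit 1216) (nat_lit 2222710581) (nat_lit 1292) (nat_lit 3207442699) (nat_lit 290) (nat_lit 5) (nat_lit 306) (nat_lit 5) (nat_lit 307) (nat_lit 5) (nat_lit 427) (nat_lit 397) (nat_lit 376)) (XT.nd (nat_lit 78) (nat_lit 836)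 (nat_lit 0) (XT.lf (nat_lit 0) (nat_lit 6965528816) (nat_lit 1292) (nat_lit 460370160) (nat_lit 76) (nat_lit 26390066) (nat_lit 290) (nat_lit 5) (nat_lit 307) (nat_lit 5) (nat_lit 291) (nat_lit 5) (nat_lit 428) (nat_lit 397) (nat_lit 375)) (XT.lf (nat_lit 0) (nat_lit 2262730568) (nat_lit 836) (nat_lit 2900079990) (nat_lit 76) (nat_lit 2366471524) (nat_lit 279) (nat_lit 5) (nat_lit 290) (nat_lit 5) (nat_lit 280) (nat_lit 5) (nat_lit 429) (nat_lit 397) (nat_lit 374)))) (XT.nd (nat_lit 156) (nat_lit 1140) (nat_lit 0) (XT.nd (nat_lit 78) (nat_lit 76) (nat_lit 0) (XT.lf (nat_lit 0) (nat_lit 2235241113) (nat_lit 608) (nat_lit 2802311065) (nat_lit 684) (nat_lit 2572320752) (nat_lit 271) (nat_lit 5) (nat_lit 279) (nat_lit 5) (nat_lit 280) (nat_lit 5) (nat_lit 430) (nat_lit 397) (nat_lit 373)) (XT.lf (nat_lit 0) (nat_lit 155498115) (nat_lit 684) (nat_lit 186851432) (nat_lit 76) (nat_lit 7351782797) (nat_lit 270) (nat_lit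 5) (nat_lit 279) (nat_lit 5) (nat_lit 271) (nat_lit 5) (nat_lit 431) (nat_lit 397) (nat_lit 372))) (XT.nd (nat_lit 78) (nat_lit 532) (nat_lit 0) (XT.lf (nat_lit 0) (nat_lit 2914062236) (nat_lit 684) (nat_lit 2645289236) (nat_lit 76) (nat_lit 2220796169) (nat_lit 262) (nat_lit 5) (nat_lit 271) (nat_lit 5) (nat_lit 263) (nat_lit 5) (nat_lit 432) (nat_lit 397) (nat_lit 371)) (XT.lf (nat_lit 0) (nat_lit 2725369371) (nat_lit 532) (nat_lit 2992081247) (nat_lit 608) (nat_lit 2152440962) (nat_lit 255) (nat_lit 5) (nat_lit 262) (nat_lit 5) (nat_lit 263) (nat_lit 5) (nat_lit 433) (nat_lit 397) (nat_lit 370))))) (XT.nd (nat_lit 312) (nat_lit 988) (nat_lit 0) (XT.nd (nat_lit 156) (nat_lit 1140) (nat_lit 0) (XT.nd (nat_lit 78) (nat_lit 0) (nat_lit 0) (XT.lf (nat_lit 0) (nat_lit 272315926) (nat_lit 532) (nat_lit 318542594) (nat_lit 608) (nat_lit 7372470058) (nat_lit 247) (nat_lit 5) (nat_lit 254) (nat_lit 5) (nat_lit 255) (nat_lit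 5) (nat_lit 434) (nat_lit 397) (nat_lit 369)) (XT.lf (nat_lit 0) (nat_lit 3381457499) (nat_lit 608) (nat_lit 2223739179) (nat_lit 76) (nat_lit 2453494133) (nat_lit 247) (nat_lit 5) (nat_lit 255) (nat_lit 5) (nat_lit 248) (nat_lit 5) (nat_lit 435) (nat_lit 397) (nat_lit 368))) (XT.nd (nat_lit 78) (nat_lit 608) (nat_lit 0) (XT.lf (nat_lit 0) (nat_lit 3395302170) (nat_lit 532) (nat_lit 2830622964) (nat_lit 608) (nat_lit 1931893322) (nat_lit 240) (nat_lit 5) (nat_lit 247) (nat_lit 5) (nat_lit 248) (nat_lit 5) (nat_lit 436) (nat_lit 397) (nat_lit 367)) (XT.lf (nat_lit 0) (nat_lit 845135760) (nat_lit 608) (nat_lit 7359128771) (nat_lit 76) (nat_lit 56401333) (nat_lit 232) (nat_lit 5) (nat_lit 240) (nat_lit 5) (nat_lit 233) (nat_lit 5) (nat_lit 437) (nat_lit 397) (nat_lit 366)))) (XT.nd (nat_lit 156) (nat_lit 532) (nat_lit 0) (XT.nd (nat_lit 78) (nat_lit 456) (nat_lit 0) (XT.lf (nat_lit 0) (nat_lit 3679212945) (nat_lit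 608) (nat_lit 1656636477) (nat_lit 76) (nat_lit 3029806750) (nat_lit 232) (nat_lit 5) (nat_lit 240) (nat_lit 5) (nat_lit 233) (nat_lit 5) (nat_lit 438) (nat_lit 397) (nat_lit 365)) (XT.lf (nat_lit 0) (nat_lit 4224620827) (nat_lit 456) (nat_lit 2352138313) (nat_lit 532) (nat_lit 1897691700) (nat_lit 226) (nat_lit 5) (nat_lit 232) (nat_lit 5) (nat_lit 233) (nat_lit 5) (nat_lit 439) (nat_lit 397) (nat_lit 364))) (XT.nd (nat_lit 78) (nat_lit 0) (nat_lit 0) (XT.lf (nat_lit 0) (nat_lit 934273309) (nat_lit 532) (nat_lit 6916084844) (nat_lit 76) (nat_lit 736520563) (nat_lit 219) (nat_lit 5) (nat_lit 226) (nat_lit 5) (nat_lit 220) (nat_lit 5) (nat_lit 440) (nat_lit 397) (nat_lit 363)) (XT.lf (nat_lit 0) (nat_lit 3818954157) (nat_lit 532) (nat_lit 963943900) (nat_lit 76) (nat_lit 3919048112) (nat_lit 219) (nat_lit 5) (nat_lit 226) (nat_lit 5) (nat_lit 220) (nat_lit 5) (nat_lit 441) (nat_lit 397) (nat_lit 362))))))) (XT.nd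 (nat_lit 1170) (nat_lit 3192) (nat_lit 0) (XT.nd (nat_lit 546) (nat_lit 2204) (nat_lit 0) (XT.nd (nat_lit 234) (nat_lit 1292) (nat_lit 0) (XT.nd (nat_lit 78) (nat_lit 532) (nat_lit 0) (XT.lf (nat_lit 0) (nat_lit 5194133724) (nat_lit 456) (nat_lit 1587009990) (nat_lit 532) (nat_lit 2039600039) (nat_lit 213) (nat_lit 5) (nat_lit 219) (nat_lit 5) (nat_lit 220) (nat_lit 5) (nat_lit 442) (nat_lit 397) (nat_lit 361)) (XT.nd (nat_lit 78) (nat_lit 0) (nat_lit 0) (XT.lf (nat_lit 0) (nat_lit 864520165) (nat_lit 532) (nat_lit 6379038273) (nat_lit 76) (nat_lit 1699513900) (nat_lit 206) (nat_lit 5) (nat_lit 213) (nat_lit 5) (nat_lit 207) (nat_lit 5) (nat_lit 443) (nat_lit 397) (nat_lit 360)) (XT.lf (nat_lit 0) (nat_lit 3809779726) (nat_lit 532) (nat_lit 164779754) (nat_lit 76) (nat_lit 5094061739) (nat_lit 206) (nat_lit 5) (nat_lit 213) (nat_lit 5) (nat_lit 207) (nat_lit 5) (nat_lit 444) (nat_lit 397) (nat_lit 359)))) (XT.nd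 (nat_lit 156) (nat_lit 380) (nat_lit 0) (XT.nd (nat_lit 78) (nat_lit 532) (nat_lit 0) (XT.lf (nat_lit 0) (nat_lit 6285473865) (nat_lit 380) (nat_lit 562335726) (nat_lit 456) (nat_lit 2350000957) (nat_lit 201) (nat_lit 5) (nat_lit 206) (nat_lit 5) (nat_lit 207) (nat_lit 5) (nat_lit 445) (nat_lit 397) (nat_lit 358)) (XT.lf (nat_lit 0) (nat_lit 642711812) (nat_lit 532) (nat_lit 5767729878) (nat_lit 76) (nat_lit 2919977093) (nat_lit 194) (nat_lit 5) (nat_lit 201) (nat_lit 5) (nat_lit 195) (nat_lit 5) (nat_lit 446) (nat_lit 397) (nat_lit 357))) (XT.nd (nat_lit 78) (nat_lit 0) (nat_lit 0) (XT.lf (nat_lit 0) (nat_lit 736554689) (nat_lit 380) (nat_lit 2928890631) (nat_lit 456) (nat_lit 5801243581) (nat_lit 189) (nat_lit 5) (nat_lit 194) (nat_lit 5) (nat_lit 195) (nat_lit 5) (nat_lit 447) (nat_lit 397) (nat_lit 356)) (XT.lf (nat_lit 0) (nat_lit 6789824937) (nat_lit 456) (nat_lit 2132936405) (nat_lit 76) (nat_lit 683962508)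 (nat_lit 189) (nat_lit 5) (nat_lit 195) (nat_lit 5) (nat_lit 190) (nat_lit 5) (nat_lit 448) (nat_lit 397) (nat_lit 355))))) (XT.nd (nat_lit 312) (nat_lit 1064) (nat_lit 0) (XT.nd (nat_lit 156) (nat_lit 380) (nat_lit 0) (XT.nd (nat_lit 78) (nat_lit 304) (nat_lit 0) (XT.lf (nat_lit 0) (nat_lit 273280118) (nat_lit 456) (nat_lit 5101832596) (nat_lit 76) (nat_lit 4375138796) (nat_lit 183) (nat_lit 5) (nat_lit 189) (nat_lit 5) (nat_lit 184) (nat_lit 5) (nat_lit 449) (nat_lit 397) (nat_lit 354)) (XT.lf (nat_lit 0) (nat_lit 1711704021) (nat_lit 304) (nat_lit 1673776934) (nat_lit 380) (nat_lit 6512194512) (nat_lit 179) (nat_lit 5) (nat_lit 183) (nat_lit 5) (nat_lit 184) (nat_lit 5) (nat_lit 450) (nat_lit 397) (nat_lit 353))) (XT.nd (nat_lit 78) (nat_lit 380) (nat_lit 0) (XT.lf (nat_lit 0) (nat_lit 6611987129) (nat_lit 380) (nat_lit 1308538778) (nat_lit 76) (nat_lit 2128373076) (nat_lit 179) (nat_lit 5) (nat_lit 184) (nat_lit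 5) (nat_lit 180) (nat_lit 5) (nat_lit 451) (nat_lit 397) (nat_lit 352)) (XT.lf (nat_lit 0) (nat_lit 5800252041) (nat_lit 380) (nat_lit 4157221545) (nat_lit 456) (nat_lit 246524939) (nat_lit 174) (nat_lit 5) (nat_lit 179) (nat_lit 5) (nat_lit 180) (nat_lit 5) (nat_lit 452) (nat_lit 397) (nat_lit 351)))) (XT.nd (nat_lit 156) (nat_lit 684) (nat_lit 0) (XT.nd (nat_lit 78) (nat_lit 0) (nat_lit 0) (XT.lf (nat_lit 0) (nat_lit 2737982842) (nat_lit 304) (nat_lit 232084643) (nat_lit 380) (nat_lit 7393117406) (nat_lit 169) (nat_lit 5) (nat_lit 173) (nat_lit 5) (nat_lit 174) (nat_lit 5) (nat_lit 453) (nat_lit 397) (nat_lit 350)) (XT.lf (nat_lit 0) (nat_lit 6310443140) (nat_lit 380) (nat_lit 453521134) (nat_lit 76) (nat_lit 3762146598) (nat_lit 169) (nat_lit 5) (nat_lit 174) (nat_lit 5) (nat_lit 170) (nat_lit 5) (nat_lit 454) (nat_lit 397) (nat_lit 349))) (XT.nd (nat_lit 78) (nat_lit 380) (nat_lit 0) (XT.lf (nat_lit 0) (nat_lit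 6997231229) (nat_lit 304) (nat_lit 2775493386) (nat_lit 380) (nat_lit 920553509) (nat_lit 165) (nat_lit 5) (nat_lit 169) (nat_lit 5) (nat_lit 170) (nat_lit 5) (nat_lit 455) (nat_lit 397) (nat_lit 348)) (XT.lf (nat_lit 0) (nat_lit 2431875621) (nat_lit 380) (nat_lit 7083047223) (nat_lit 76) (nat_lit 1349626553) (nat_lit 160) (nat_lit 5) (nat_lit 165) (nat_lit 5) (nat_lit 161) (nat_lit 5) (nat_lit 456) (nat_lit 397) (nat_lit 347)))))) (XT.nd (nat_lit 624) (nat_lit 1596) (nat_lit 0) (XT.nd (nat_lit 312) (nat_lit 608) (nat_lit 0) (XT.nd (nat_lit 156) (nat_lit 684) (nat_lit 0) (XT.nd (nat_lit 78) (nat_lit 0) (nat_lit 0) (XT.lf (nat_lit 0) (nat_lit 419442424) (nat_lit 304) (nat_lit 5469020177) (nat_lit 380) (nat_lit 5151564122) (nat_lit 156) (nat_lit 5) (nat_lit 160) (nat_lit 5) (nat_lit 161) (nat_lit 5) (nat_lit 457) (nat_lit 397) (nat_lit 346)) (XT.lf (nat_lit 0) (nat_lit 8221816886) (nat_lit 304) (nat_lit 1252033710)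 (nat_lit 380) (nat_lit 1746168516) (nat_lit 156) (nat_lit 5) (nat_lit 160) (nat_lit 5) (nat_lit 161) (nat_lit 5) (nat_lit 458) (nat_lit 397) (nat_lit 345))) (XT.nd (nat_lit 78) (nat_lit 304) (nat_lit 0) (XT.lf (nat_lit 0) (nat_lit 1758350022) (nat_lit 380) (nat_lit 6573448820) (nat_lit 76) (nat_lit 3072168149) (nat_lit 151) (nat_lit 5) (nat_lit 156) (nat_lit 5) (nat_lit 152) (nat_lit 5) (nat_lit 459) (nat_lit 397) (nat_lit 344)) (XT.lf (nat_lit 0) (nat_lit 1288506668) (nat_lit 304) (nat_lit 4054678670) (nat_lit 380) (nat_lit 6249424500) (nat_lit 147) (nat_lit 5) (nat_lit 151) (nat_lit 5) (nat_lit 152) (nat_lit 5) (nat_lit 460) (nat_lit 397) (nat_lit 343)))) (XT.nd (nat_lit 156) (nat_lit 304) (nat_lit 0) (XT.nd (nat_lit 78) (nat_lit 304) (nat_lit 0) (XT.lf (nat_lit 0) (nat_lit 9061306516) (nat_lit 380) (nat_lit 2337983505) (nat_lit 76) (nat_lit 386853143) (nat_lit 147) (nat_lit 5) (nat_lit 152) (nat_lit 5) (nat_lit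 148) (nat_lit 5) (nat_lit 461) (nat_lit 397) (nat_lit 342)) (XT.lf (nat_lit 0) (nat_lit 941582565) (nat_lit 304) (nat_lit 6119593996) (nat_lit 76) (nat_lit 4922435134) (nat_lit 143) (nat_lit 5) (nat_lit 147) (nat_lit 5) (nat_lit 144) (nat_lit 5) (nat_lit 462) (nat_lit 397) (nat_lit 341))) (XT.nd (nat_lit 78) (nat_lit 0) (nat_lit 0) (XT.lf (nat_lit 0) (nat_lit 2119600621) (nat_lit 304) (nat_lit 2544667680) (nat_lit 380) (nat_lit 7521898539) (nat_lit 139) (nat_lit 5) (nat_lit 143) (nat_lit 5) (nat_lit 144) (nat_lit 5) (nat_lit 463) (nat_lit 397) (nat_lit 340)) (XT.lf (nat_lit 0) (nat_lit 8538489515) (nat_lit 380) (nat_lit 1751024673) (nat_lit 76) (nat_lit 2104091841) (nat_lit 139) (nat_lit 5) (nat_lit 144) (nat_lit 5) (nat_lit 140) (nat_lit 5) (nat_lit 464) (nat_lit 397) (nat_lit 339))))) (XT.nd (nat_lit 312) (nat_lit 836) (nat_lit 0) (XT.nd (nat_lit 156) (nat_lit 228) (nat_lit 0) (XT.nd (nat_lit 78) (nat_lit 304)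 (nat_lit 0) (XT.lf (nat_lit 0) (nat_lit 6855943595) (nat_lit 228) (nat_lit 5722529069) (nat_lit 304) (nat_lit 27312617) (nat_lit 136) (nat_lit 5) (nat_lit 139) (nat_lit 5) (nat_lit 140) (nat_lit 5) (nat_lit 465) (nat_lit 397) (nat_lit 338)) (XT.lf (nat_lit 0) (nat_lit 2884896547) (nat_lit 228) (nat_lit 958219926) (nat_lit 304) (nat_lit 8979961328) (nat_lit 132) (nat_lit 5) (nat_lit 135) (nat_lit 5) (nat_lit 136) (nat_lit 5) (nat_lit 466) (nat_lit 397) (nat_lit 337))) (XT.nd (nat_lit 78) (nat_lit 228) (nat_lit 0) (XT.lf (nat_lit 0) (nat_lit 7884638092) (nat_lit 304) (nat_lit 1254541333) (nat_lit 76) (nat_lit 3906038399) (nat_lit 132) (nat_lit 5) (nat_lit 136) (nat_lit 5) (nat_lit 133) (nat_lit 5) (nat_lit 467) (nat_lit 397) (nat_lit 336)) (XT.lf (nat_lit 0) (nat_lit 7766496596) (nat_lit 228) (nat_lit 4325179812) (nat_lit 304) (nat_lit 1181020128) (nat_lit 129) (nat_lit 5) (nat_lit 132) (nat_lit 5) (nat_lit 133) (nat_lit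 5) (nat_lit 468) (nat_lit 397) (nat_lit 335)))) (XT.nd (nat_lit 156) (nat_lit 532) (nat_lit 0) (XT.nd (nat_lit 78) (nat_lit 0) (nat_lit 0) (XT.lf (nat_lit 0) (nat_lit 2874795290) (nat_lit 304) (nat_lit 9959435330) (nat_lit 76) (nat_lit 671515742) (nat_lit 125) (nat_lit 5) (nat_lit 129) (nat_lit 5) (nat_lit 126) (nat_lit 5) (nat_lit 469) (nat_lit 397) (nat_lit 334)) (XT.lf (nat_lit 0) (nat_lit 7088090217) (nat_lit 304) (nat_lit 881540607) (nat_lit 76) (nat_lit 5774022188) (nat_lit 125) (nat_lit 5) (nat_lit 129) (nat_lit 5) (nat_lit 126) (nat_lit 5) (nat_lit 470) (nat_lit 397) (nat_lit 333))) (XT.nd (nat_lit 78) (nat_lit 304) (nat_lit 0) (XT.lf (nat_lit 0) (nat_lit 8572255201) (nat_lit 228) (nat_lit 2899645582) (nat_lit 304) (nat_lit 2515474902) (nat_lit 122) (nat_lit 5) (nat_lit 125) (nat_lit 5) (nat_lit 126) (nat_lit 5) (nat_lit 471) (nat_lit 397) (nat_lit 332)) (XT.lf (nat_lit 0) (nat_lit 1747552062) (nat_lit 304)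 (nat_lit 10171696535) (nat_lit 76) (nat_lit 2317673450) (nat_lit 118) (nat_lit 5) (nat_lit 122) (nat_lit 5) (nat_lit 119) (nat_lit 5) (nat_lit 472) (nat_lit 397) (nat_lit 331))))))))
noncomputable def xc90 : XT := (XT.nd (nat_lit 2340) (nat_lit 2280) (nat_lit 0) (XT.nd (nat_lit 1170) (nat_lit 1444) (nat_lit 0) (XT.nd (nat_lit 546) (nat_lit 1064) (nat_lit 0) (XT.nd (nat_lit 234) (nat_lit 456) (nat_lit 0) (XT.nd (nat_lit 78) (nat_lit 456) (nat_lit 0) (XT.lf (nat_lit 0) (nat_lit 6133949292) (nat_lit 304) (nat_lit 669592274) (nat_lit 76) (nat_lit 7688287053) (nat_lit 118) (nat_lit 5) (nat_lit 122) (nat_lit 5) (nat_lit 119) (nat_lit 5) (nat_lit 473) (nat_lit 397) (nat_lit 330)) (XT.nd (nat_lit 78) (nat_lit 304) (nat_lit 0) (XT.lf (nat_lit 0) (nat_lit 9235553219) (nat_lit 152) (nat_lit 1468371883) (nat_lit 228) (nat_lit 4048899754) (nat_lit 116) (nat_lit 5) (nat_lit 118) (nat_lit 5) (nat_lit 119) (nat_lit 5) (nat_lit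 474) (nat_lit 397) (nat_lit 329)) (XT.lf (nat_lit 0) (nat_lit 433680470) (nat_lit 304) (nat_lit 10609332148) (nat_lit 76) (nat_lit 3976970166) (nat_lit 112) (nat_lit 5) (nat_lit 116) (nat_lit 5) (nat_lit 113) (nat_lit 5) (nat_lit 475) (nat_lit 397) (nat_lit 328)))) (XT.nd (nat_lit 156) (nat_lit 304) (nat_lit 0) (XT.nd (nat_lit 78) (nat_lit 152) (nat_lit 0) (XT.lf (nat_lit 0) (nat_lit 5003718293) (nat_lit 304) (nat_lit 661746136) (nat_lit 76) (nat_lit 9627459498) (nat_lit 112) (nat_lit 5) (nat_lit 116) (nat_lit 5) (nat_lit 113) (nat_lit 5) (nat_lit 476) (nat_lit 397) (nat_lit 327)) (XT.lf (nat_lit 0) (nat_lit 9713033570) (nat_lit 152) (nat_lit 55808279) (nat_lit 228) (nat_lit 5803473755) (nat_lit 110) (nat_lit 5) (nat_lit 112) (nat_lit 5) (nat_lit 113) (nat_lit 5) (nat_lit 477) (nat_lit 397) (nat_lit 326))) (XT.nd (nat_lit 78) (nat_lit 76) (nat_lit 0) (XT.lf (nat_lit 0) (nat_lit 4524979630) (nat_lit 228) (nat_lit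 10222016002) (nat_lit 304) (nat_lit 1110992885) (nat_lit 107) (nat_lit 5) (nat_lit 110) (nat_lit 5) (nat_lit 111) (nat_lit 5) (nat_lit 478) (nat_lit 397) (nat_lit 325)) (XT.lf (nat_lit 0) (nat_lit 3674858230) (nat_lit 304) (nat_lit 907580266) (nat_lit 76) (nat_lit 11567964468) (nat_lit 106) (nat_lit 5) (nat_lit 110) (nat_lit 5) (nat_lit 107) (nat_lit 5) (nat_lit 479) (nat_lit 397) (nat_lit 324))))) (XT.nd (nat_lit 312) (nat_lit 532) (nat_lit 0) (XT.nd (nat_lit 156) (nat_lit 228) (nat_lit 0) (XT.nd (nat_lit 78) (nat_lit 152) (nat_lit 0) (XT.lf (nat_lit 0) (nat_lit 8656192650) (nat_lit 228) (nat_lit 6507457861) (nat_lit 76) (nat_lit 1285383838) (nat_lit 104) (nat_lit 5) (nat_lit 107) (nat_lit 5) (nat_lit 105) (nat_lit 5) (nat_lit 480) (nat_lit 397) (nat_lit 323)) (XT.lf (nat_lit 0) (nat_lit 4358560620) (nat_lit 152) (nat_lit 9491062496) (nat_lit 228) (nat_lit 2905123465) (nat_lit 102) (nat_lit 5) (nat_lit 104) (nat_lit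 5) (nat_lit 105) (nat_lit 5) (nat_lit 481) (nat_lit 397) (nat_lit 322))) (XT.nd (nat_lit 78) (nat_lit 152) (nat_lit 0) (XT.lf (nat_lit 0) (nat_lit 2120260784) (nat_lit 228) (nat_lit 1464403106) (nat_lit 76) (nat_lit 13483376262) (nat_lit 101) (nat_lit 5) (nat_lit 104) (nat_lit 5) (nat_lit 102) (nat_lit 5) (nat_lit 482) (nat_lit 397) (nat_lit 321)) (XT.lf (nat_lit 0) (nat_lit 7325411651) (nat_lit 228) (nat_lit 7511061807) (nat_lit 76) (nat_lit 2550775757) (nat_lit 99) (nat_lit 5) (nat_lit 102) (nat_lit 5) (nat_lit 100) (nat_lit 5) (nat_lit 483) (nat_lit 397) (nat_lit 320)))) (XT.nd (nat_lit 156) (nat_lit 304) (nat_lit 0) (XT.nd (nat_lit 78) (nat_lit 76) (nat_lit 0) (XT.lf (nat_lit 0) (nat_lit 3852956685) (nat_lit 152) (nat_lit 8888592474) (nat_lit 228) (nat_lit 4972841835) (nat_lit 97) (nat_lit 5) (nat_lit 99) (nat_lit 5) (nat_lit 100) (nat_lit 5) (nat_lit 484) (nat_lit 397) (nat_lit 319)) (XT.lf (nat_lit 0) (nat_lit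 307623142) (nat_lit 228) (nat_lit 2398635760) (nat_lit 76) (nat_lit 15343690576) (nat_lit 96) (nat_lit 5) (nat_lit 99) (nat_lit 5) (nat_lit 97) (nat_lit 5) (nat_lit 485) (nat_lit 397) (nat_lit 318))) (XT.nd (nat_lit 78) (nat_lit 152) (nat_lit 0) (XT.lf (nat_lit 0) (nat_lit 5742497335) (nat_lit 228) (nat_lit 8941115458) (nat_lit 76) (nat_lit 3707607799) (nat_lit 94) (nat_lit 5) (nat_lit 97) (nat_lit 5) (nat_lit 95) (nat_lit 5) (nat_lit 486) (nat_lit 397) (nat_lit 317)) (XT.lf (nat_lit 0) (nat_lit 2935165605) (nat_lit 152) (nat_lit 8453264944) (nat_lit 228) (nat_lit 7352860156) (nat_lit 92) (nat_lit 5) (nat_lit 94) (nat_lit 5) (nat_lit 95) (nat_lit 5) (nat_lit 487) (nat_lit 397) (nat_lit 316)))))) (XT.nd (nat_lit 546) (nat_lit 684) (nat_lit 0) (XT.nd (nat_lit 234) (nat_lit 380) (nat_lit 0) (XT.nd (nat_lit 78) (nat_lit 380) (nat_lit 0) (XT.lf (nat_lit 0) (nat_lit 15295023283) (nat_lit 152) (nat_lit 1967926400) (nat_lit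 228) (nat_lit 1837138214) (nat_lit 92) (nat_lit 5) (nat_lit 94) (nat_lit 5) (nat_lit 95) (nat_lit 5) (nat_lit 488) (nat_lit 397) (nat_lit 315)) (XT.nd (nat_lit 78) (nat_lit 152) (nat_lit 0) (XT.lf (nat_lit 0) (nat_lit 3867797262) (nat_lit 228) (nat_lit 10880656811) (nat_lit 76) (nat_lit 4717124939) (nat_lit 89) (nat_lit 5) (nat_lit 92) (nat_lit 5) (nat_lit 90) (nat_lit 5) (nat_lit 489) (nat_lit 397) (nat_lit 314)) (XT.lf (nat_lit 0) (nat_lit 1520233180) (nat_lit 152) (nat_lit 8229280976) (nat_lit 228) (nat_lit 10090699390) (nat_lit 87) (nat_lit 5) (nat_lit 89) (nat_lit 5) (nat_lit 90) (nat_lit 5) (nat_lit 490) (nat_lit 397) (nat_lit 313)))) (XT.nd (nat_lit 156) (nat_lit 152) (nat_lit 0) (XT.nd (nat_lit 78) (nat_lit 228) (nat_lit 0) (XT.lf (nat_lit 0) (nat_lit 14461628636) (nat_lit 152) (nat_lit 1425942579) (nat_lit 228) (nat_lit 4336120321) (nat_lit 87) (nat_lit 5) (nat_lit 89) (nat_lit 5) (nat_lit 90) (nat_lit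 5) (nat_lit 491) (nat_lit 397) (nat_lit 312)) (XT.lf (nat_lit 0) (nat_lit 1654553507) (nat_lit 228) (nat_lit 13426155371) (nat_lit 76) (nat_lit 5534672005) (nat_lit 84) (nat_lit 5) (nat_lit 87) (nat_lit 5) (nat_lit 85) (nat_lit 5) (nat_lit 492) (nat_lit 397) (nat_lit 311))) (XT.nd (nat_lit 78) (nat_lit 152) (nat_lit 0) (XT.lf (nat_lit 0) (nat_lit 7781391127) (nat_lit 228) (nat_lit 481210257) (nat_lit 76) (nat_lit 12753624699) (nat_lit 84) (nat_lit 5) (nat_lit 87) (nat_lit 5) (nat_lit 85) (nat_lit 5) (nat_lit 493) (nat_lit 397) (nat_lit 310)) (XT.lf (nat_lit 0) (nat_lit 13054713209) (nat_lit 152) (nat_lit 1134378930) (nat_lit 228) (nat_lit 7237093711) (nat_lit 82) (nat_lit 5) (nat_lit 84) (nat_lit 5) (nat_lit 85) (nat_lit 5) (nat_lit 494) (nat_lit 397) (nat_lit 309))))) (XT.nd (nat_lit 312) (nat_lit 304) (nat_lit 0) (XT.nd (nat_lit 156) (nat_lit 228) (nat_lit 0) (XT.nd (nat_lit 78) (nat_lit 76) (nat_lit 0) (XT.lf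 (nat_lit 0) (nat_lit 5146770352) (nat_lit 76) (nat_lit 15727981743) (nat_lit 152) (nat_lit 971121408) (nat_lit 81) (nat_lit 5) (nat_lit 82) (nat_lit 5) (nat_lit 83) (nat_lit 4) (nat_lit 495) (nat_lit 397) (nat_lit 308)) (XT.lf (nat_lit 0) (nat_lit 5444168580) (nat_lit 152) (nat_lit 3150494056) (nat_lit 76) (nat_lit 13679859050) (nat_lit 80) (nat_lit 5) (nat_lit 82) (nat_lit 5) (nat_lit 81) (nat_lit 5) (nat_lit 496) (nat_lit 397) (nat_lit 307))) (XT.nd (nat_lit 78) (nat_lit 76) (nat_lit 0) (XT.lf (nat_lit 0) (nat_lit 10958038391) (nat_lit 152) (nat_lit 1152243590) (nat_lit 228) (nat_lit 10603123234) (nat_lit 78) (nat_lit 5) (nat_lit 80) (nat_lit 5) (nat_lit 81) (nat_lit 5) (nat_lit 497) (nat_lit 397) (nat_lit 306)) (XT.lf (nat_lit 0) (nat_lit 2321435573) (nat_lit 76) (nat_lit 16744640533) (nat_lit 152) (nat_lit 4096689051) (nat_lit 77) (nat_lit 5) (nat_lit 78) (nat_lit 5) (nat_lit 79) (nat_lit 4) (nat_lit 498) (nat_lit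 397) (nat_lit 305)))) (XT.nd (nat_lit 156) (nat_lit 76) (nat_lit 0) (XT.nd (nat_lit 78) (nat_lit 152) (nat_lit 0) (XT.lf (nat_lit 0) (nat_lit 2658082762) (nat_lit 152) (nat_lit 6649044754) (nat_lit 76) (nat_lit 14314608665) (nat_lit 76) (nat_lit 5) (nat_lit 78) (nat_lit 5) (nat_lit 77) (nat_lit 5) (nat_lit 499) (nat_lit 397) (nat_lit 304)) (XT.lf (nat_lit 0) (nat_lit 8035846272) (nat_lit 152) (nat_lit 1548039590) (nat_lit 228) (nat_lit 14507852565) (nat_lit 74) (nat_lit 5) (nat_lit 76) (nat_lit 5) (nat_lit 77) (nat_lit 5) (nat_lit 500) (nat_lit 397) (nat_lit 303))) (XT.nd (nat_lit 78) (nat_lit 76) (nat_lit 0) (XT.lf (nat_lit 0) (nat_lit 16820777925) (nat_lit 228) (nat_lit 1388344158) (nat_lit 76) (nat_lit 6363619946) (nat_lit 74) (nat_lit 5) (nat_lit 77) (nat_lit 5) (nat_lit 75) (nat_lit 4) (nat_lit 501) (nat_lit 397) (nat_lit 302)) (XT.lf (nat_lit 0) (nat_lit 13927629043) (nat_lit 76) (nat_lit 10470691481) (nat_lit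 152) (nat_lit 666149616) (nat_lit 73) (nat_lit 5) (nat_lit 74) (nat_lit 5) (nat_lit 75) (nat_lit 4) (nat_lit 502) (nat_lit 397) (nat_lit 301))))))) (XT.nd (nat_lit 1170) (nat_lit 912) (nat_lit 0) (XT.nd (nat_lit 546) (nat_lit 760) (nat_lit 0) (XT.nd (nat_lit 234) (nat_lit 304) (nat_lit 0) (XT.nd (nat_lit 78) (nat_lit 76) (nat_lit 0) (XT.lf (nat_lit 0) (nat_lit 4129611370) (nat_lit 152) (nat_lit 2401437742) (nat_lit 228) (nat_lit 19037142199) (nat_lit 70) (nat_lit 5) (nat_lit 72) (nat_lit 5) (nat_lit 73) (nat_lit 5) (nat_lit 503) (nat_lit 397) (nat_lit 300)) (XT.nd (nat_lit 78) (nat_lit 76) (nat_lit 0) (XT.lf (nat_lit 0) (nat_lit 14075606504) (nat_lit 228) (nat_lit 6113984083) (nat_lit 76) (nat_lit 5892891370) (nat_lit 70) (nat_lit 5) (nat_lit 73) (nat_lit 5) (nat_lit 71) (nat_lit 4) (nat_lit 504) (nat_lit 397) (nat_lit 299)) (XT.lf (nat_lit 0) (nat_lit 9790863998) (nat_lit 76) (nat_lit 12148721633) (nat_lit 152)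 (nat_lit 4669823774) (nat_lit 69) (nat_lit 5) (nat_lit 70) (nat_lit 5) (nat_lit 71) (nat_lit 4) (nat_lit 505) (nat_lit 397) (nat_lit 298)))) (XT.nd (nat_lit 156) (nat_lit 76) (nat_lit 0) (XT.nd (nat_lit 78) (nat_lit 152) (nat_lit 0) (XT.lf (nat_lit 0) (nat_lit 2868574175) (nat_lit 152) (nat_lit 927269680) (nat_lit 76) (nat_lit 23354341458) (nat_lit 68) (nat_lit 5) (nat_lit 70) (nat_lit 5) (nat_lit 69) (nat_lit 5) (nat_lit 506) (nat_lit 397) (nat_lit 297)) (XT.lf (nat_lit 0) (nat_lit 10713650388) (nat_lit 228) (nat_lit 12095412119) (nat_lit 76) (nat_lit 4891503940) (nat_lit 66) (nat_lit 5) (nat_lit 69) (nat_lit 5) (nat_lit 67) (nat_lit 4) (nat_lit 507) (nat_lit 397) (nat_lit 296))) (XT.nd (nat_lit 78) (nat_lit 0) (nat_lit 0) (XT.lf (nat_lit 0) (nat_lit 4387827142) (nat_lit 76) (nat_lit 14471481497) (nat_lit 152) (nat_lit 9406194049) (nat_lit 65) (nat_lit 5) (nat_lit 66) (nat_lit 5) (nat_lit 67) (nat_lit 4) (nat_lit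 508) (nat_lit 397) (nat_lit 295)) (XT.lf (nat_lit 0) (nat_lit 21568452842) (nat_lit 76) (nat_lit 5779301661) (nat_lit 152) (nat_lit 1496680522) (nat_lit 65) (nat_lit 5) (nat_lit 66) (nat_lit 5) (nat_lit 67) (nat_lit 4) (nat_lit 509) (nat_lit 397) (nat_lit 294))))) (XT.nd (nat_lit 312) (nat_lit 228) (nat_lit 0) (XT.nd (nat_lit 156) (nat_lit 304) (nat_lit 0) (XT.nd (nat_lit 78) (nat_lit 0) (nat_lit 0) (XT.lf (nat_lit 0) (nat_lit 6624223891) (nat_lit 228) (nat_lit 19559548913) (nat_lit 76) (nat_lit 3251929097) (nat_lit 62) (nat_lit 5) (nat_lit 65) (nat_lit 5) (nat_lit 63) (nat_lit 4) (nat_lit 510) (nat_lit 397) (nat_lit 293)) (XT.lf (nat_lit 0) (nat_lit 15066892412) (nat_lit 228) (nat_lit 2467530286) (nat_lit 76) (nat_lit 12506593465) (nat_lit 62) (nat_lit 5) (nat_lit 65) (nat_lit 5) (nat_lit 63) (nat_lit 4) (nat_lit 511) (nat_lit 397) (nat_lit 292))) (XT.nd (nat_lit 78) (nat_lit 228) (nat_lit 0) (XT.lf (nat_lit 0)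 (nat_lit 15394680259) (nat_lit 76) (nat_lit 8493616968) (nat_lit 152) (nat_lit 6772429422) (nat_lit 61) (nat_lit 5) (nat_lit 62) (nat_lit 5) (nat_lit 63) (nat_lit 4) (nat_lit 512) (nat_lit 397) (nat_lit 291)) (XT.lf (nat_lit 0) (nat_lit 1677976962) (nat_lit 228) (nat_lit 28770878262) (nat_lit 76) (nat_lit 848629981) (nat_lit 58) (nat_lit 5) (nat_lit 61) (nat_lit 5) (nat_lit 59) (nat_lit 4) (nat_lit 513) (nat_lit 397) (nat_lit 290)))) (XT.nd (nat_lit 156) (nat_lit 152) (nat_lit 0) (XT.nd (nat_lit 78) (nat_lit 76) (nat_lit 0) (XT.lf (nat_lit 0) (nat_lit 10463104938) (nat_lit 228) (nat_lit 10978470607) (nat_lit 76) (nat_lit 10503239948) (nat_lit 58) (nat_lit 5) (nat_lit 61) (nat_lit 5) (nat_lit 59) (nat_lit 4) (nat_lit 514) (nat_lit 397) (nat_lit 289)) (XT.lf (nat_lit 0) (nat_lit 7451312797) (nat_lit 76) (nat_lit 12110304285) (nat_lit 152) (nat_lit 13048454130) (nat_lit 57) (nat_lit 5) (nat_lit 58) (nat_lit 5) (nat_lit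 59) (nat_lit 4) (nat_lit 515) (nat_lit 397) (nat_lit 288))) (XT.nd (nat_lit 78) (nat_lit 152) (nat_lit 0) (XT.lf (nat_lit 0) (nat_lit 26617648945) (nat_lit 76) (nat_lit 2404737414) (nat_lit 152) (nat_lit 4270219609) (nat_lit 57) (nat_lit 5) (nat_lit 58) (nat_lit 5) (nat_lit 59) (nat_lit 4) (nat_lit 516) (nat_lit 397) (nat_lit 287)) (XT.lf (nat_lit 0) (nat_lit 4851915800) (nat_lit 152) (nat_lit 21544479065) (nat_lit 76) (nat_lit 7592636530) (nat_lit 55) (nat_lit 5) (nat_lit 57) (nat_lit 5) (nat_lit 56) (nat_lit 4) (nat_lit 517) (nat_lit 397) (nat_lit 286)))))) (XT.nd (nat_lit 624) (nat_lit 456) (nat_lit 0) (XT.nd (nat_lit 312) (nat_lit 228) (nat_lit 0) (XT.nd (nat_lit 156) (nat_lit 152) (nat_lit 0) (XT.nd (nat_lit 78) (nat_lit 76) (nat_lit 0) (XT.lf (nat_lit 0) (nat_lit 14232673474) (nat_lit 152) (nat_lit 2537254832) (nat_lit 76) (nat_lit 17933029718) (nat_lit 55) (nat_lit 5) (nat_lit 57) (nat_lit 5) (nat_lit 56)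 (nat_lit 4) (nat_lit 518) (nat_lit 397) (nat_lit 285)) (XT.lf (nat_lit 0) (nat_lit 17339069400) (nat_lit 76) (nat_lit 6701977408) (nat_lit 152) (nat_lit 11392870228) (nat_lit 54) (nat_lit 5) (nat_lit 55) (nat_lit 5) (nat_lit 56) (nat_lit 4) (nat_lit 519) (nat_lit 397) (nat_lit 284))) (XT.nd (nat_lit 78) (nat_lit 76) (nat_lit 0) (XT.lf (nat_lit 0) (nat_lit 1634536467) (nat_lit 76) (nat_lit 32565540386) (nat_lit 76) (nat_lit 1985036164) (nat_lit 53) (nat_lit 4) (nat_lit 54) (nat_lit 5) (nat_lit 54) (nat_lit 4) (nat_lit 520) (nat_lit 397) (nat_lit 283)) (XT.lf (nat_lit 0) (nat_lit 7785145781) (nat_lit 152) (nat_lit 14808389574) (nat_lit 76) (nat_lit 14356173922) (nat_lit 52) (nat_lit 5) (nat_lit 54) (nat_lit 5) (nat_lit 53) (nat_lit 4) (nat_lit 521) (nat_lit 397) (nat_lit 282)))) (XT.nd (nat_lit 156) (nat_lit 152) (nat_lit 0) (XT.nd (nat_lit 78) (nat_lit 0) (nat_lit 0) (XT.lf (nat_lit 0) (nat_lit 5576860753) (nat_lit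 76) (nat_lit 12265456164) (nat_lit 152) (nat_lit 19893323796) (nat_lit 51) (nat_lit 5) (nat_lit 52) (nat_lit 5) (nat_lit 53) (nat_lit 4) (nat_lit 522) (nat_lit 397) (nat_lit 281)) (XT.lf (nat_lit 0) (nat_lit 26839229189) (nat_lit 76) (nat_lit 1491894732) (nat_lit 152) (nat_lit 10210128868) (nat_lit 51) (nat_lit 5) (nat_lit 52) (nat_lit 5) (nat_lit 53) (nat_lit 4) (nat_lit 523) (nat_lit 397) (nat_lit 280))) (XT.nd (nat_lit 78) (nat_lit 76) (nat_lit 0) (XT.lf (nat_lit 0) (nat_lit 9422687874) (nat_lit 76) (nat_lit 29875596618) (nat_lit 76) (nat_lit 67838368) (nat_lit 50) (nat_lit 4) (nat_lit 51) (nat_lit 5) (nat_lit 51) (nat_lit 4) (nat_lit 524) (nat_lit 397) (nat_lit 279)) (XT.lf (nat_lit 0) (nat_lit 10291104323) (nat_lit 152) (nat_lit 8944188162) (nat_lit 76) (nat_lit 20974006552) (nat_lit 49) (nat_lit 5) (nat_lit 51) (nat_lit 5) (nat_lit 50) (nat_lit 4) (nat_lit 525) (nat_lit 397) (nat_lit 278))))) (XT.nd (nat_lit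 312) (nat_lit 228) (nat_lit 0) (XT.nd (nat_lit 156) (nat_lit 152) (nat_lit 0) (XT.nd (nat_lit 78) (nat_lit 0) (nat_lit 0) (XT.lf (nat_lit 0) (nat_lit 12899866843) (nat_lit 76) (nat_lit 8164946574) (nat_lit 152) (nat_lit 20009776370) (nat_lit 48) (nat_lit 5) (nat_lit 49) (nat_lit 5) (nat_lit 50) (nat_lit 4) (nat_lit 526) (nat_lit 397) (nat_lit 277)) (XT.lf (nat_lit 0) (nat_lit 32265458571) (nat_lit 152) (nat_lit 6448805640) (nat_lit 0) (nat_lit 3248463583) (nat_lit 48) (nat_lit 5) (nat_lit 50) (nat_lit 4) (nat_lit 48) (nat_lit 4) (nat_lit 527) (nat_lit 397) (nat_lit 276))) (XT.nd (nat_lit 78) (nat_lit 0) (nat_lit 0) (XT.lf (nat_lit 0) (nat_lit 1126528687) (nat_lit 152) (nat_lit 26754461144) (nat_lit 76) (nat_lit 14989654989) (nat_lit 46) (nat_lit 5) (nat_lit 48) (nat_lit 5) (nat_lit 47) (nat_lit 4) (nat_lit 528) (nat_lit 397) (nat_lit 275)) (XT.lf (nat_lit 0) (nat_lit 12127846919) (nat_lit 152) (nat_lit 4445396193)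 (nat_lit 76) (nat_lit 27228244765) (nat_lit 46) (nat_lit 5) (nat_lit 48) (nat_lit 5) (nat_lit 47) (nat_lit 4) (nat_lit 529) (nat_lit 397) (nat_lit 274)))) (XT.nd (nat_lit 156) (nat_lit 152) (nat_lit 0) (XT.nd (nat_lit 78) (nat_lit 0) (nat_lit 0) (XT.lf (nat_lit 0) (nat_lit 18866917773) (nat_lit 76) (nat_lit 4756119946) (nat_lit 152) (nat_lit 21132303762) (nat_lit 45) (nat_lit 5) (nat_lit 46) (nat_lit 5) (nat_lit 47) (nat_lit 4) (nat_lit 530) (nat_lit 397) (nat_lit 273)) (XT.lf (nat_lit 0) (nat_lit 35562200083) (nat_lit 152) (nat_lit 2872674657) (nat_lit 0) (nat_lit 7299962717) (nat_lit 45) (nat_lit 5) (nat_lit 47) (nat_lit 4) (nat_lit 45) (nat_lit 4) (nat_lit 531) (nat_lit 397) (nat_lit 272))) (XT.nd (nat_lit 78) (nat_lit 0) (nat_lit 0) (XT.lf (nat_lit 0) (nat_lit 1329919927) (nat_lit 152) (nat_lit 25583478032) (nat_lit 76) (nat_lit 19822922563) (nat_lit 43) (nat_lit 5) (nat_lit 45) (nat_lit 5) (nat_lit 44) (nat_lit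 4) (nat_lit 532) (nat_lit 397) (nat_lit 271)) (XT.lf (nat_lit 0) (nat_lit 12985410510) (nat_lit 152) (nat_lit 1943199257) (nat_lit 76) (nat_lit 32835847461) (nat_lit 43) (nat_lit 5) (nat_lit 45) (nat_lit 5) (nat_lit 44) (nat_lit 4) (nat_lit 533) (nat_lit 397) (nat_lit 270))))))))
noncomputable def xc91 : XT := (XT.nd (nat_lit 53274) (nat_lit 0) (nat_lit 12464) (XT.nd (nat_lit 1170) (nat_lit 152) (nat_lit 0) (XT.nd (nat_lit 546) (nat_lit 456) (nat_lit 0) (XT.nd (nat_lit 234) (nat_lit 152) (nat_lit 0) (XT.nd (nat_lit 78) (nat_lit 152) (nat_lit 0) (XT.lf (nat_lit 0) (nat_lit 22819315497) (nat_lit 76) (nat_lit 2374118976) (nat_lit 152) (nat_lit 23623917714) (nat_lit 42) (nat_lit 5) (nat_lit 43) (nat_lit 5) (nat_lit 44) (nat_lit 4) (nat_lit 534) (nat_lit 397) (nat_lit 269)) (XT.nd (nat_lit 78) (nat_lit 152) (nat_lit 0) (XT.lf (nat_lit 0) (nat_lit 37872534604) (nat_lit 152) (nat_lit 1670663073) (nat_lit 0) (nat_lit 10355491462)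 (nat_lit 42) (nat_lit 5) (nat_lit 44) (nat_lit 4) (nat_lit 42) (nat_lit 4) (nat_lit 535) (nat_lit 397) (nat_lit 268)) (XT.lf (nat_lit 0) (nat_lit 159716492) (nat_lit 152) (nat_lit 27210914573) (nat_lit 76) (nat_lit 23634700382) (nat_lit 40) (nat_lit 5) (nat_lit 42) (nat_lit 5) (nat_lit 41) (nat_lit 4) (nat_lit 536) (nat_lit 397) (nat_lit 267)))) (XT.nd (nat_lit 156) (nat_lit 76) (nat_lit 0) (XT.nd (nat_lit 78) (nat_lit 76) (nat_lit 0) (XT.lf (nat_lit 0) (nat_lit 12470515434) (nat_lit 152) (nat_lit 2237561566) (nat_lit 76) (nat_lit 37433492120) (nat_lit 40) (nat_lit 5) (nat_lit 42) (nat_lit 5) (nat_lit 41) (nat_lit 4) (nat_lit 537) (nat_lit 397) (nat_lit 266)) (XT.lf (nat_lit 0) (nat_lit 23921343843) (nat_lit 76) (nat_lit 1443734419) (nat_lit 152) (nat_lit 27940382648) (nat_lit 39) (nat_lit 5) (nat_lit 40) (nat_lit 5) (nat_lit 41) (nat_lit 4) (nat_lit 538) (nat_lit 397) (nat_lit 265))) (XT.nd (nat_lit 78) (nat_lit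 76) (nat_lit 0) (XT.lf (nat_lit 0) (nat_lit 38771261747) (nat_lit 152) (nat_lit 3740842773) (nat_lit 0) (nat_lit 11988421599) (nat_lit 39) (nat_lit 5) (nat_lit 41) (nat_lit 4) (nat_lit 39) (nat_lit 4) (nat_lit 539) (nat_lit 397) (nat_lit 264)) (XT.lf (nat_lit 0) (nat_lit 23078201739) (nat_lit 76) (nat_lit 29722529275) (nat_lit 76) (nat_lit 2924079434) (nat_lit 38) (nat_lit 4) (nat_lit 39) (nat_lit 5) (nat_lit 39) (nat_lit 4) (nat_lit 540) (nat_lit 397) (nat_lit 263))))) (XT.nd (nat_lit 312) (nat_lit 228) (nat_lit 0) (XT.nd (nat_lit 156) (nat_lit 76) (nat_lit 0) (XT.nd (nat_lit 78) (nat_lit 76) (nat_lit 0) (XT.lf (nat_lit 0) (nat_lit 10088071080) (nat_lit 152) (nat_lit 6334820588) (nat_lit 76) (nat_lit 40559277855) (nat_lit 37) (nat_lit 5) (nat_lit 39) (nat_lit 5) (nat_lit 38) (nat_lit 4) (nat_lit 541) (nat_lit 397) (nat_lit 262)) (XT.lf (nat_lit 0) (nat_lit 21120792481) (nat_lit 76) (nat_lit 2499459239) (nat_lit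 152) (nat_lit 34650476168) (nat_lit 36) (nat_lit 5) (nat_lit 37) (nat_lit 5) (nat_lit 38) (nat_lit 4) (nat_lit 542) (nat_lit 397) (nat_lit 261))) (XT.nd (nat_lit 78) (nat_lit 76) (nat_lit 0) (XT.lf (nat_lit 0) (nat_lit 37722257554) (nat_lit 152) (nat_lit 10209292444) (nat_lit 0) (nat_lit 11661477367) (nat_lit 36) (nat_lit 5) (nat_lit 38) (nat_lit 4) (nat_lit 36) (nat_lit 4) (nat_lit 543) (nat_lit 397) (nat_lit 260)) (XT.lf (nat_lit 0) (nat_lit 17834946460) (nat_lit 76) (nat_lit 34594416784) (nat_lit 76) (nat_lit 8520171540) (nat_lit 35) (nat_lit 4) (nat_lit 36) (nat_lit 5) (nat_lit 36) (nat_lit 4) (nat_lit 544) (nat_lit 397) (nat_lit 259)))) (XT.nd (nat_lit 156) (nat_lit 76) (nat_lit 0) (XT.nd (nat_lit 78) (nat_lit 76) (nat_lit 0) (XT.lf (nat_lit 0) (nat_lit 5218844559) (nat_lit 152) (nat_lit 15493063658) (nat_lit 76) (nat_lit 41630621624) (nat_lit 34) (nat_lit 5) (nat_lit 36) (nat_lit 5) (nat_lit 35) (nat_lit 4)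 (nat_lit 545) (nat_lit 397) (nat_lit 258)) (XT.lf (nat_lit 0) (nat_lit 13101306868) (nat_lit 76) (nat_lit 6209686772) (nat_lit 152) (nat_lit 44460424218) (nat_lit 33) (nat_lit 5) (nat_lit 34) (nat_lit 5) (nat_lit 35) (nat_lit 4) (nat_lit 546) (nat_lit 397) (nat_lit 257))) (XT.nd (nat_lit 78) (nat_lit 76) (nat_lit 0) (XT.lf (nat_lit 0) (nat_lit 34054087185) (nat_lit 152) (nat_lit 22479932157) (nat_lit 0) (nat_lit 8702307905) (nat_lit 33) (nat_lit 5) (nat_lit 35) (nat_lit 4) (nat_lit 33) (nat_lit 4) (nat_lit 547) (nat_lit 397) (nat_lit 256)) (XT.lf (nat_lit 0) (nat_lit 6596878260) (nat_lit 76) (nat_lit 42754176356) (nat_lit 76) (nat_lit 17390781999) (nat_lit 32) (nat_lit 4) (nat_lit 33) (nat_lit 5) (nat_lit 33) (nat_lit 4) (nat_lit 548) (nat_lit 397) (nat_lit 255)))))) (XT.nd (nat_lit 51480) (nat_lit 0) (nat_lit 27664) (XT.nd (nat_lit 51168) (nat_lit 0) (nat_lit 30248) (XT.nd (nat_lit 78) (nat_lit 152) (nat_lit 0)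 (XT.lf (nat_lit 0) (nat_lit 36980747016) (nat_lit 76) (nat_lit 28340010357) (nat_lit 76) (nat_lit 2965339226) (nat_lit 32) (nat_lit 4) (nat_lit 33) (nat_lit 5) (nat_lit 33) (nat_lit 4) (nat_lit 549) (nat_lit 397) (nat_lit 254)) (XT.nd (nat_lit 78) (nat_lit 76) (nat_lit 0) (XT.lf (nat_lit 0) (nat_lit 11647874238) (nat_lit 152) (nat_lit 1740434750) (nat_lit 76) (nat_lit 56485333464) (nat_lit 31) (nat_lit 5) (nat_lit 33) (nat_lit 5) (nat_lit 32) (nat_lit 4) (nat_lit 550) (nat_lit 397) (nat_lit 253)) (XT.lf (nat_lit 0) (nat_lit 26930588024) (nat_lit 152) (nat_lit 42294589150) (nat_lit 0) (nat_lit 2274035699) (nat_lit 30) (nat_lit 5) (nat_lit 32) (nat_lit 4) (nat_lit 30) (nat_lit 4) (nat_lit 551) (nat_lit 397) (nat_lit 252)))) (XT.nd (nat_lit 156) (nat_lit 304) (nat_lit 0) (XT.nd (nat_lit 78) (nat_lit 0) (nat_lit 0) (XT.lf (nat_lit 0) (nat_lit 112631924) (nat_lit 228) (nat_lit 3004397964) (nat_lit 0) (nat_lit 112631924)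 (nat_lit 432) (nat_lit 5) (nat_lit 435) (nat_lit 4) (nat_lit 432) (nat_lit 4) (nat_lit 404) (nat_lit 398) (nat_lit 398)) (XT.lf (nat_lit 0) (nat_lit 3400512817) (nat_lit 228) (nat_lit 2504065123) (nat_lit 0) (nat_lit 564253861) (nat_lit 432) (nat_lit 5) (nat_lit 435) (nat_lit 4) (nat_lit 432) (nat_lit 4) (nat_lit 405) (nat_lit 398) (nat_lit 397))) (XT.nd (nat_lit 78) (nat_lit 0) (nat_lit 0) (XT.lf (nat_lit 0) (nat_lit 80018809) (nat_lit 304) (nat_lit 5427470245) (nat_lit 76) (nat_lit 974368888) (nat_lit 428) (nat_lit 5) (nat_lit 432) (nat_lit 5) (nat_lit 429) (nat_lit 4) (nat_lit 406) (nat_lit 398) (nat_lit 396)) (XT.lf (nat_lit 0) (nat_lit 3170586166) (nat_lit 304) (nat_lit 1827064599) (nat_lit 76) (nat_lit 1499457941) (nat_lit 428) (nat_lit 5) (nat_lit 432) (nat_lit 5) (nat_lit 429) (nat_lit 4) (nat_lit 407) (nat_lit 398) (nat_lit 395))))) (XT.nd (nat_lit 312) (nat_lit 1292) (nat_lit 0) (XT.nd (nat_lit 156) (nat_lit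 912) (nat_lit 0) (XT.nd (nat_lit 78) (nat_lit 76) (nat_lit 0) (XT.lf (nat_lit 0) (nat_lit 1846666438) (nat_lit 304) (nat_lit 4412249662) (nat_lit 380) (nat_lit 256777403) (nat_lit 424) (nat_lit 5) (nat_lit 428) (nat_lit 5) (nat_lit 429) (nat_lit 4) (nat_lit 408) (nat_lit 398) (nat_lit 394)) (XT.lf (nat_lit 0) (nat_lit 2755791549) (nat_lit 380) (nat_lit 966595962) (nat_lit 76) (nat_lit 2814414261) (nat_lit 423) (nat_lit 5) (nat_lit 428) (nat_lit 5) (nat_lit 424) (nat_lit 5) (nat_lit 409) (nat_lit 398) (nat_lit 393))) (XT.nd (nat_lit 78) (nat_lit 532) (nat_lit 0) (XT.lf (nat_lit 0) (nat_lit 2829414523) (nat_lit 380) (nat_lit 2943386552) (nat_lit 456) (nat_lit 788114718) (nat_lit 418) (nat_lit 5) (nat_lit 423) (nat_lit 5) (nat_lit 424) (nat_lit 5) (nat_lit 410) (nat_lit 398) (nat_lit 392)) (XT.lf (nat_lit 0) (nat_lit 81475330) (nat_lit 456) (nat_lit 2072392230) (nat_lit 532) (nat_lit 4434125762) (nat_lit 411) (nat_lit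 5) (nat_lit 417) (nat_lit 5) (nat_lit 418) (nat_lit 5) (nat_lit 411) (nat_lit 398) (nat_lit 391)))) (XT.nd (nat_lit 156) (nat_lit 684) (nat_lit 0) (XT.nd (nat_lit 78) (nat_lit 608) (nat_lit 0) (XT.lf (nat_lit 0) (nat_lit 4006456794) (nat_lit 456) (nat_lit 1095273301) (nat_lit 532) (nat_lit 1515938498) (nat_lit 411) (nat_lit 5) (nat_lit 417) (nat_lit 5) (nat_lit 418) (nat_lit 5) (nat_lit 412) (nat_lit 398) (nat_lit 390)) (XT.lf (nat_lit 0) (nat_lit 1341911064) (nat_lit 532) (nat_lit 29578090) (nat_lit 608) (nat_lit 5279014368) (nat_lit 403) (nat_lit 5) (nat_lit 410) (nat_lit 5) (nat_lit 411) (nat_lit 5) (nat_lit 413) (nat_lit 398) (nat_lit 389))) (XT.nd (nat_lit 78) (nat_lit 684) (nat_lit 0) (XT.lf (nat_lit 0) (nat_lit 4252418407) (nat_lit 608) (nat_lit 1315428191) (nat_lit 76) (nat_lit 1117927557) (nat_lit 403) (nat_lit 5) (nat_lit 411) (nat_lit 5) (nat_lit 404) (nat_lit 5) (nat_lit 414) (nat_lit 398) (nat_lit 388))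 (XT.lf (nat_lit 0) (nat_lit 417619313) (nat_lit 684) (nat_lit 3948190684) (nat_lit 76) (nat_lit 2358279788) (nat_lit 394) (nat_lit 5) (nat_lit 403) (nat_lit 5) (nat_lit 395) (nat_lit 5) (nat_lit 415) (nat_lit 398) (nat_lit 387))))))) (XT.nd (nat_lit 1170) (nat_lit 5852) (nat_lit 0) (XT.nd (nat_lit 546) (nat_lit 6004) (nat_lit 0) (XT.nd (nat_lit 234) (nat_lit 1824) (nat_lit 0) (XT.nd (nat_lit 78) (nat_lit 836) (nat_lit 0) (XT.lf (nat_lit 0) (nat_lit 160082615) (nat_lit 684) (nat_lit 3064617508) (nat_lit 760) (nat_lit 3540566997) (nat_lit 385) (nat_lit 5) (nat_lit 394) (nat_lit 5) (nat_lit 395) (nat_lit 5) (nat_lit 416) (nat_lit 398) (nat_lit 386)) (XT.nd (nat_lit 78) (nat_lit 836) (nat_lit 0) (XT.lf (nat_lit 0) (nat_lit 4400657996) (nat_lit 684) (nat_lit 1661825004) (nat_lit 760) (nat_lit 746821066) (nat_lit 385) (nat_lit 5) (nat_lit 394) (nat_lit 5) (nat_lit 395) (nat_lit 5) (nat_lit 417) (nat_lit 398) (nat_lit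 385)) (XT.lf (nat_lit 0) (nat_lit 1857934585) (nat_lit 760) (nat_lit 157508658) (nat_lit 836) (nat_lit 4840833781) (nat_lit 374) (nat_lit 5) (nat_lit 384) (nat_lit 5) (nat_lit 385) (nat_lit 5) (nat_lit 418) (nat_lit 398) (nat_lit 384)))) (XT.nd (nat_lit 156) (nat_lit 912) (nat_lit 0) (XT.nd (nat_lit 78) (nat_lit 912) (nat_lit 0) (XT.lf (nat_lit 0) (nat_lit 4794098335) (nat_lit 836) (nat_lit 696866422) (nat_lit 76) (nat_lit 1415033959) (nat_lit 374) (nat_lit 5) (nat_lit 385) (nat_lit 5) (nat_lit 375) (nat_lit 5) (nat_lit 419) (nat_lit 398) (nat_lit 383)) (XT.lf (nat_lit 0) (nat_lit 635397630) (nat_lit 912) (nat_lit 3231654352) (nat_lit 76) (nat_lit 3091470862) (nat_lit 362) (nat_lit 5) (nat_lit 374) (nat_lit 5) (nat_lit 363) (nat_lit 5) (nat_lit 420) (nat_lit 398) (nat_lit 382))) (XT.nd (nat_lit 78) (nat_lit 0) (nat_lit 0) (XT.lf (nat_lit 0) (nat_lit 1215242389) (nat_lit 912) (nat_lit 2140396239) (nat_lit 988) (nat_lit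 3658383533) (nat_lit 350) (nat_lit 5) (nat_lit 362) (nat_lit 5) (nat_lit 363) (nat_lit 5) (nat_lit 421) (nat_lit 398) (nat_lit 381)) (XT.lf (nat_lit 0) (nat_lit 5789823601) (nat_lit 912) (nat_lit 316287197) (nat_lit 988) (nat_lit 966632375) (nat_lit 350) (nat_lit 5) (nat_lit 362) (nat_lit 5) (nat_lit 363) (nat_lit 5) (nat_lit 422) (nat_lit 398) (nat_lit 380))))) (XT.nd (nat_lit 312) (nat_lit 2660) (nat_lit 0) (XT.nd (nat_lit 156) (nat_lit 1216) (nat_lit 0) (XT.nd (nat_lit 78) (nat_lit 1064) (nat_lit 0) (XT.lf (nat_lit 0) (nat_lit 1736014462) (nat_lit 1064) (nat_lit 3805041090) (nat_lit 76) (nat_lit 1592702571) (nat_lit 336) (nat_lit 5) (nat_lit 350) (nat_lit 5) (nat_lit 337) (nat_lit 5) (nat_lit 423) (nat_lit 398) (nat_lit 379)) (XT.lf (nat_lit 0) (nat_lit 838973766) (nat_lit 1064) (nat_lit 3605046656) (nat_lit 1140) (nat_lit 2753998862) (nat_lit 322) (nat_lit 5) (nat_lit 336) (nat_lit 5) (nat_lit 337) (nat_lit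 5) (nat_lit 424) (nat_lit 398) (nat_lit 378))) (XT.nd (nat_lit 78) (nat_lit 1216) (nat_lit 0) (XT.lf (nat_lit 0) (nat_lit 5627674182) (nat_lit 1064) (nat_lit 1565092915) (nat_lit 1140) (nat_lit 72669881) (nat_lit 322) (nat_lit 5) (nat_lit 336) (nat_lit 5) (nat_lit 337) (nat_lit 5) (nat_lit 425) (nat_lit 398) (nat_lit 377)) (XT.lf (nat_lit 0) (nat_lit 2595651841) (nat_lit 1216) (nat_lit 4151805242) (nat_lit 76) (nat_lit 587886759) (nat_lit 306) (nat_lit 5) (nat_lit 322) (nat_lit 5) (nat_lit 307) (nat_lit 5) (nat_lit 426) (nat_lit 398) (nat_lit 376)))) (XT.nd (nat_lit 156) (nat_lit 1368) (nat_lit 0) (XT.nd (nat_lit 78) (nat_lit 76) (nat_lit 0) (XT.lf (nat_lit 0) (nat_lit 699779945) (nat_lit 1216) (nat_lit 4605922527) (nat_lit 1292) (nat_lit 2102742210) (nat_lit 290) (nat_lit 5) (nat_lit 306) (nat_lit 5) (nat_lit 307) (nat_lit 5) (nat_lit 427) (nat_lit 398) (nat_lit 375)) (XT.lf (nat_lit 0) (nat_lit 568661969) (nat_lit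 1292) (nat_lit 1781249195) (nat_lit 76) (nat_lit 5134642927) (nat_lit 289) (nat_lit 5) (nat_lit 306) (nat_lit 5) (nat_lit 290) (nat_lit 5) (nat_lit 428) (nat_lit 398) (nat_lit 374))) (XT.nd (nat_lit 78) (nat_lit 608) (nat_lit 0) (XT.lf (nat_lit 0) (nat_lit 3236755072) (nat_lit 836) (nat_lit 4299283505) (nat_lit 76) (nat_lit 27530818) (nat_lit 279) (nat_lit 5) (nat_lit 290) (nat_lit 5) (nat_lit 280) (nat_lit 5) (nat_lit 429) (nat_lit 398) (nat_lit 373)) (XT.lf (nat_lit 0) (nat_lit 771136760) (nat_lit 608) (nat_lit 5191188917) (nat_lit 684) (nat_lit 1683317588) (nat_lit 271) (nat_lit 5) (nat_lit 279) (nat_lit 5) (nat_lit 280) (nat_lit 5) (nat_lit 430) (nat_lit 398) (nat_lit 372)))))) (XT.nd (nat_lit 624) (nat_lit 2888) (nat_lit 0) (XT.nd (nat_lit 312) (nat_lit 1672) (nat_lit 0) (XT.nd (nat_lit 156) (nat_lit 608) (nat_lit 0) (XT.nd (nat_lit 78) (nat_lit 608) (nat_lit 0) (XT.lf (nat_lit 0) (nat_lit 992308456) (nat_lit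 684) (nat_lit 1731945130) (nat_lit 76) (nat_lit 5006443256) (nat_lit 270) (nat_lit 5) (nat_lit 279) (nat_lit 5) (nat_lit 271) (nat_lit 5) (nat_lit 431) (nat_lit 398) (nat_lit 371)) (XT.lf (nat_lit 0) (nat_lit 3545126175) (nat_lit 608) (nat_lit 134646582) (nat_lit 684) (nat_lit 4139077403) (nat_lit 262) (nat_lit 5) (nat_lit 270) (nat_lit 5) (nat_lit 271) (nat_lit 5) (nat_lit 432) (nat_lit 398) (nat_lit 370))) (XT.nd (nat_lit 78) (nat_lit 76) (nat_lit 0) (XT.lf (nat_lit 0) (nat_lit 1028887846) (nat_lit 532) (nat_lit 5403467632) (nat_lit 608) (nat_lit 1477767670) (nat_lit 255) (nat_lit 5) (nat_lit 262) (nat_lit 5) (nat_lit 263) (nat_lit 5) (nat_lit 433) (nat_lit 398) (nat_lit 369)) (XT.lf (nat_lit 0) (nat_lit 1216840051) (nat_lit 608) (nat_lit 1512737307) (nat_lit 76) (nat_lit 5274858620) (nat_lit 254) (nat_lit 5) (nat_lit 262) (nat_lit 5) (nat_lit 255) (nat_lit 5) (nat_lit 434) (nat_lit 398) (nat_lit 368)))) (XT.nd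 (nat_lit 156) (nat_lit 608) (nat_lit 0) (XT.nd (nat_lit 78) (nat_lit 532) (nat_lit 0) (XT.lf (nat_lit 0) (nat_lit 3936949663) (nat_lit 608) (nat_lit 4094246722) (nat_lit 76) (nat_lit 70720974) (nat_lit 247) (nat_lit 5) (nat_lit 255) (nat_lit 5) (nat_lit 248) (nat_lit 5) (nat_lit 435) (nat_lit 398) (nat_lit 367)) (XT.lf (nat_lit 0) (nat_lit 1450813041) (nat_lit 532) (nat_lit 5280519017) (nat_lit 608) (nat_lit 1471219838) (nat_lit 240) (nat_lit 5) (nat_lit 247) (nat_lit 5) (nat_lit 248) (nat_lit 5) (nat_lit 436) (nat_lit 398) (nat_lit 366))) (XT.nd (nat_lit 78) (nat_lit 532) (nat_lit 0) (XT.lf (nat_lit 0) (nat_lit 1256463728) (nat_lit 608) (nat_lit 1145455512) (nat_lit 76) (nat_lit 5904561987) (nat_lit 239) (nat_lit 5) (nat_lit 247) (nat_lit 5) (nat_lit 240) (nat_lit 5) (nat_lit 437) (nat_lit 398) (nat_lit 365)) (XT.lf (nat_lit 0) (nat_lit 4025488912) (nat_lit 608) (nat_lit 3786199594) (nat_lit 76) (nat_lit 601738555)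 (nat_lit 232) (nat_lit 5) (nat_lit 240) (nat_lit 5) (nat_lit 233) (nat_lit 5) (nat_lit 438) (nat_lit 398) (nat_lit 364))))) (XT.nd (nat_lit 312) (nat_lit 1444) (nat_lit 0) (XT.nd (nat_lit 156) (nat_lit 912) (nat_lit 0) (XT.nd (nat_lit 78) (nat_lit 76) (nat_lit 0) (XT.lf (nat_lit 0) (nat_lit 2016214877) (nat_lit 456) (nat_lit 4855861449) (nat_lit 532) (nat_lit 1651678021) (nat_lit 226) (nat_lit 5) (nat_lit 232) (nat_lit 5) (nat_lit 233) (nat_lit 5) (nat_lit 439) (nat_lit 398) (nat_lit 363)) (XT.lf (nat_lit 0) (nat_lit 1122636003) (nat_lit 532) (nat_lit 650580426) (nat_lit 76) (nat_lit 6864483990) (nat_lit 225) (nat_lit 5) (nat_lit 232) (nat_lit 5) (nat_lit 226) (nat_lit 5) (nat_lit 440) (nat_lit 398) (nat_lit 362))) (XT.nd (nat_lit 78) (nat_lit 456) (nat_lit 0) (XT.lf (nat_lit 0) (nat_lit 3954785438) (nat_lit 532) (nat_lit 3368615908) (nat_lit 76) (nat_lit 1430945994) (nat_lit 219) (nat_lit 5) (nat_lit 226) (nat_lit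 5) (nat_lit 220) (nat_lit 5) (nat_lit 441) (nat_lit 398) (nat_lit 361)) (XT.lf (nat_lit 0) (nat_lit 2705516109) (nat_lit 456) (nat_lit 4159337953) (nat_lit 532) (nat_lit 2009857914) (nat_lit 213) (nat_lit 5) (nat_lit 219) (nat_lit 5) (nat_lit 220) (nat_lit 5) (nat_lit 442) (nat_lit 398) (nat_lit 360)))) (XT.nd (nat_lit 156) (nat_lit 912) (nat_lit 0) (XT.nd (nat_lit 78) (nat_lit 456) (nat_lit 0) (XT.lf (nat_lit 0) (nat_lit 824216035) (nat_lit 532) (nat_lit 47641475) (nat_lit 76) (nat_lit 8127261677) (nat_lit 212) (nat_lit 5) (nat_lit 219) (nat_lit 5) (nat_lit 213) (nat_lit 5) (nat_lit 443) (nat_lit 398) (nat_lit 359)) (XT.lf (nat_lit 0) (nat_lit 3733033266) (nat_lit 532) (nat_lit 2861081271) (nat_lit 76) (nat_lit 2531649932) (nat_lit 206) (nat_lit 5) (nat_lit 213) (nat_lit 5) (nat_lit 207) (nat_lit 5) (nat_lit 444) (nat_lit 398) (nat_lit 358))) (XT.nd (nat_lit 78) (nat_lit 532) (nat_lit 0) (XT.lf (nat_lit 0) (nat_lit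 3499861217) (nat_lit 380) (nat_lit 3217638683) (nat_lit 456) (nat_lit 2539063835) (nat_lit 201) (nat_lit 5) (nat_lit 206) (nat_lit 5) (nat_lit 207) (nat_lit 5) (nat_lit 445) (nat_lit 398) (nat_lit 357)) (XT.lf (nat_lit 0) (nat_lit 376619327) (nat_lit 532) (nat_lit 8737244656) (nat_lit 76) (nat_lit 277786942) (nat_lit 194) (nat_lit 5) (nat_lit 201) (nat_lit 5) (nat_lit 195) (nat_lit 5) (nat_lit 446) (nat_lit 398) (nat_lit 356))))))))
noncomputable def xc92 : XT := (XT.nd (nat_lit 2340) (nat_lit 3268) (nat_lit 0) (XT.nd (nat_lit 1170) (nat_lit 2660) (nat_lit 0) (XT.nd (nat_lit 546) (nat_lit 1976) (nat_lit 0) (XT.nd (nat_lit 234) (nat_lit 836) (nat_lit 0) (XT.nd (nat_lit 78) (nat_lit 760) (nat_lit 0) (XT.lf (nat_lit 0) (nat_lit 3366027506) (nat_lit 532) (nat_lit 2282836421) (nat_lit 76) (nat_lit 3880059661) (nat_lit 194) (nat_lit 5) (nat_lit 201) (nat_lit 5) (nat_lit 195) (nat_lit 5) (nat_lit 447) (nat_lit 398) (nat_lit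 355)) (XT.nd (nat_lit 78) (nat_lit 380) (nat_lit 0) (XT.lf (nat_lit 0) (nat_lit 4380714669) (nat_lit 380) (nat_lit 2054787557) (nat_lit 456) (nat_lit 3235106159) (nat_lit 189) (nat_lit 5) (nat_lit 194) (nat_lit 5) (nat_lit 195) (nat_lit 5) (nat_lit 448) (nat_lit 398) (nat_lit 354)) (XT.lf (nat_lit 0) (nat_lit 1416045000) (nat_lit 380) (nat_lit 8182679379) (nat_lit 456) (nat_lit 217774777) (nat_lit 184) (nat_lit 5) (nat_lit 189) (nat_lit 5) (nat_lit 190) (nat_lit 5) (nat_lit 449) (nat_lit 398) (nat_lit 353)))) (XT.nd (nat_lit 156) (nat_lit 456) (nat_lit 0) (XT.nd (nat_lit 78) (nat_lit 304) (nat_lit 0) (XT.lf (nat_lit 0) (nat_lit 2857221749) (nat_lit 456) (nat_lit 1653183485) (nat_lit 76) (nat_lit 5454826770) (nat_lit 183) (nat_lit 5) (nat_lit 189) (nat_lit 5) (nat_lit 184) (nat_lit 5) (nat_lit 450) (nat_lit 398) (nat_lit 352)) (XT.lf (nat_lit 0) (nat_lit 5329448406) (nat_lit 304) (nat_lit 692600910) (nat_lit 380)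 (nat_lit 4096258962) (nat_lit 179) (nat_lit 5) (nat_lit 183) (nat_lit 5) (nat_lit 184) (nat_lit 5) (nat_lit 451) (nat_lit 398) (nat_lit 351))) (XT.nd (nat_lit 78) (nat_lit 76) (nat_lit 0) (XT.lf (nat_lit 0) (nat_lit 2222542213) (nat_lit 380) (nat_lit 7079963410) (nat_lit 456) (nat_lit 972855432) (nat_lit 174) (nat_lit 5) (nat_lit 179) (nat_lit 5) (nat_lit 180) (nat_lit 5) (nat_lit 452) (nat_lit 398) (nat_lit 350)) (XT.lf (nat_lit 0) (nat_lit 2207746520) (nat_lit 456) (nat_lit 991909060) (nat_lit 76) (nat_lit 7236608411) (nat_lit 173) (nat_lit 5) (nat_lit 179) (nat_lit 5) (nat_lit 174) (nat_lit 5) (nat_lit 453) (nat_lit 398) (nat_lit 349))))) (XT.nd (nat_lit 312) (nat_lit 988) (nat_lit 0) (XT.nd (nat_lit 156) (nat_lit 380) (nat_lit 0) (XT.nd (nat_lit 78) (nat_lit 304) (nat_lit 0) (XT.lf (nat_lit 0) (nat_lit 5486196376) (nat_lit 380) (nat_lit 4282543944) (nat_lit 76) (nat_lit 832309558) (nat_lit 169) (nat_lit 5) (nat_lit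 174) (nat_lit 5) (nat_lit 170) (nat_lit 5) (nat_lit 454) (nat_lit 398) (nat_lit 348)) (XT.lf (nat_lit 0) (nat_lit 3057701455) (nat_lit 304) (nat_lit 5830015178) (nat_lit 380) (nat_lit 1882325406) (nat_lit 165) (nat_lit 5) (nat_lit 169) (nat_lit 5) (nat_lit 170) (nat_lit 5) (nat_lit 455) (nat_lit 398) (nat_lit 347))) (XT.nd (nat_lit 78) (nat_lit 304) (nat_lit 0) (XT.lf (nat_lit 0) (nat_lit 1416387998) (nat_lit 380) (nat_lit 319732410) (nat_lit 76) (nat_lit 9207646710) (nat_lit 164) (nat_lit 5) (nat_lit 169) (nat_lit 5) (nat_lit 165) (nat_lit 5) (nat_lit 456) (nat_lit 398) (nat_lit 346)) (XT.lf (nat_lit 0) (nat_lit 4826554291) (nat_lit 380) (nat_lit 3792928391) (nat_lit 76) (nat_lit 2501156278) (nat_lit 160) (nat_lit 5) (nat_lit 165) (nat_lit 5) (nat_lit 161) (nat_lit 5) (nat_lit 457) (nat_lit 398) (nat_lit 345)))) (XT.nd (nat_lit 156) (nat_lit 304) (nat_lit 0) (XT.nd (nat_lit 78) (nat_lit 380) (nat_lit 0) (XT.lf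 (nat_lit 0) (nat_lit 3900296629) (nat_lit 304) (nat_lit 4452258409) (nat_lit 380) (nat_lit 2949859768) (nat_lit 156) (nat_lit 5) (nat_lit 160) (nat_lit 5) (nat_lit 161) (nat_lit 5) (nat_lit 458) (nat_lit 398) (nat_lit 344)) (XT.lf (nat_lit 0) (nat_lit 348003064) (nat_lit 304) (nat_lit 134867682) (nat_lit 380) (nat_lit 11006699082) (nat_lit 151) (nat_lit 5) (nat_lit 155) (nat_lit 5) (nat_lit 156) (nat_lit 5) (nat_lit 459) (nat_lit 398) (nat_lit 343))) (XT.nd (nat_lit 78) (nat_lit 304) (nat_lit 0) (XT.lf (nat_lit 0) (nat_lit 4032463368) (nat_lit 380) (nat_lit 3336787042) (nat_lit 76) (nat_lit 4310021230) (nat_lit 151) (nat_lit 5) (nat_lit 156) (nat_lit 5) (nat_lit 152) (nat_lit 5) (nat_lit 460) (nat_lit 398) (nat_lit 342)) (XT.lf (nat_lit 0) (nat_lit 4727361765) (nat_lit 304) (nat_lit 2965466890) (nat_lit 380) (nat_lit 4181710622) (nat_lit 147) (nat_lit 5) (nat_lit 151) (nat_lit 5) (nat_lit 152) (nat_lit 5) (nat_lit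 461) (nat_lit 398) (nat_lit 341)))))) (XT.nd (nat_lit 546) (nat_lit 1292) (nat_lit 0) (XT.nd (nat_lit 234) (nat_lit 760) (nat_lit 0) (XT.nd (nat_lit 78) (nat_lit 380) (nat_lit 0) (XT.lf (nat_lit 0) (nat_lit 964493163) (nat_lit 228) (nat_lit 10514804632) (nat_lit 304) (nat_lit 595881584) (nat_lit 144) (nat_lit 5) (nat_lit 147) (nat_lit 5) (nat_lit 148) (nat_lit 5) (nat_lit 462) (nat_lit 398) (nat_lit 340)) (XT.nd (nat_lit 78) (nat_lit 304) (nat_lit 0) (XT.lf (nat_lit 0) (nat_lit 3097406977) (nat_lit 304) (nat_lit 2939769642) (nat_lit 76) (nat_lit 6241961989) (nat_lit 143) (nat_lit 5) (nat_lit 147) (nat_lit 5) (nat_lit 144) (nat_lit 5) (nat_lit 463) (nat_lit 398) (nat_lit 339)) (XT.lf (nat_lit 0) (nat_lit 5513626184) (nat_lit 304) (nat_lit 1388193043) (nat_lit 380) (nat_lit 5586854290) (nat_lit 139) (nat_lit 5) (nat_lit 143) (nat_lit 5) (nat_lit 144) (nat_lit 5) (nat_lit 464) (nat_lit 398) (nat_lit 338)))) (XT.nd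 (nat_lit 156) (nat_lit 456) (nat_lit 0) (XT.nd (nat_lit 78) (nat_lit 76) (nat_lit 0) (XT.lf (nat_lit 0) (nat_lit 1509062019) (nat_lit 228) (nat_lit 9348120680) (nat_lit 304) (nat_lit 1846210072) (nat_lit 136) (nat_lit 5) (nat_lit 139) (nat_lit 5) (nat_lit 140) (nat_lit 5) (nat_lit 465) (nat_lit 398) (nat_lit 337)) (XT.lf (nat_lit 0) (nat_lit 2012183081) (nat_lit 304) (nat_lit 2630351972) (nat_lit 76) (nat_lit 8280101973) (nat_lit 135) (nat_lit 5) (nat_lit 139) (nat_lit 5) (nat_lit 136) (nat_lit 5) (nat_lit 466) (nat_lit 398) (nat_lit 336))) (XT.nd (nat_lit 78) (nat_lit 228) (nat_lit 0) (XT.lf (nat_lit 0) (nat_lit 5972604048) (nat_lit 304) (nat_lit 6918907154) (nat_lit 76) (nat_lit 255700157) (nat_lit 132) (nat_lit 5) (nat_lit 136) (nat_lit 5) (nat_lit 133) (nat_lit 5) (nat_lit 467) (nat_lit 398) (nat_lit 335)) (XT.lf (nat_lit 0) (nat_lit 1957607063) (nat_lit 228) (nat_lit 8147127117) (nat_lit 304) (nat_lit 3272204388)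 (nat_lit 129) (nat_lit 5) (nat_lit 132) (nat_lit 5) (nat_lit 133) (nat_lit 5) (nat_lit 468) (nat_lit 398) (nat_lit 334))))) (XT.nd (nat_lit 312) (nat_lit 760) (nat_lit 0) (XT.nd (nat_lit 156) (nat_lit 228) (nat_lit 0) (XT.nd (nat_lit 78) (nat_lit 228) (nat_lit 0) (XT.lf (nat_lit 0) (nat_lit 764681287) (nat_lit 304) (nat_lit 2440516457) (nat_lit 76) (nat_lit 10407186973) (nat_lit 128) (nat_lit 5) (nat_lit 132) (nat_lit 5) (nat_lit 129) (nat_lit 5) (nat_lit 469) (nat_lit 398) (nat_lit 333)) (XT.lf (nat_lit 0) (nat_lit 4904142772) (nat_lit 304) (nat_lit 7024632988) (nat_lit 76) (nat_lit 1923731757) (nat_lit 125) (nat_lit 5) (nat_lit 129) (nat_lit 5) (nat_lit 126) (nat_lit 5) (nat_lit 470) (nat_lit 398) (nat_lit 332))) (XT.nd (nat_lit 78) (nat_lit 0) (nat_lit 0) (XT.lf (nat_lit 0) (nat_lit 2275826040) (nat_lit 228) (nat_lit 6933291887) (nat_lit 304) (nat_lit 4889478438) (nat_lit 122) (nat_lit 5) (nat_lit 125) (nat_lit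 5) (nat_lit 126) (nat_lit 5) (nat_lit 471) (nat_lit 398) (nat_lit 331)) (XT.lf (nat_lit 0) (nat_lit 11938047696) (nat_lit 228) (nat_lit 1739453640) (nat_lit 304) (nat_lit 673540966) (nat_lit 122) (nat_lit 5) (nat_lit 125) (nat_lit 5) (nat_lit 126) (nat_lit 5) (nat_lit 472) (nat_lit 398) (nat_lit 330)))) (XT.nd (nat_lit 156) (nat_lit 304) (nat_lit 0) (XT.nd (nat_lit 78) (nat_lit 152) (nat_lit 0) (XT.lf (nat_lit 0) (nat_lit 3667264039) (nat_lit 304) (nat_lit 7317896765) (nat_lit 76) (nat_lit 3622745386) (nat_lit 118) (nat_lit 5) (nat_lit 122) (nat_lit 5) (nat_lit 119) (nat_lit 5) (nat_lit 473) (nat_lit 398) (nat_lit 329)) (XT.lf (nat_lit 0) (nat_lit 2424574533) (nat_lit 152) (nat_lit 5729598193) (nat_lit 228) (nat_lit 6717222705) (nat_lit 116) (nat_lit 5) (nat_lit 118) (nat_lit 5) (nat_lit 119) (nat_lit 5) (nat_lit 474) (nat_lit 398) (nat_lit 328))) (XT.nd (nat_lit 78) (nat_lit 304) (nat_lit 0) (XT.lf (nat_lit 0)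 (nat_lit 12549494147) (nat_lit 152) (nat_lit 264836596) (nat_lit 228) (nat_lit 2327301292) (nat_lit 116) (nat_lit 5) (nat_lit 118) (nat_lit 5) (nat_lit 119) (nat_lit 5) (nat_lit 475) (nat_lit 398) (nat_lit 327)) (XT.lf (nat_lit 0) (nat_lit 2242509998) (nat_lit 304) (nat_lit 7843302140) (nat_lit 76) (nat_lit 5330802305) (nat_lit 112) (nat_lit 5) (nat_lit 116) (nat_lit 5) (nat_lit 113) (nat_lit 5) (nat_lit 476) (nat_lit 398) (nat_lit 326))))))) (XT.nd (nat_lit 1170) (nat_lit 1368) (nat_lit 0) (XT.nd (nat_lit 546) (nat_lit 912) (nat_lit 0) (XT.nd (nat_lit 234) (nat_lit 532) (nat_lit 0) (XT.nd (nat_lit 78) (nat_lit 304) (nat_lit 0) (XT.lf (nat_lit 0) (nat_lit 2358907972) (nat_lit 152) (nat_lit 4561110838) (nat_lit 228) (nat_lit 8778616629) (nat_lit 110) (nat_lit 5) (nat_lit 112) (nat_lit 5) (nat_lit 113) (nat_lit 5) (nat_lit 477) (nat_lit 398) (nat_lit 325)) (XT.nd (nat_lit 78) (nat_lit 304) (nat_lit 0) (XT.lf (nat_lit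 0) (nat_lit 11794545798) (nat_lit 228) (nat_lit 3029621886) (nat_lit 76) (nat_lit 1163250327) (nat_lit 110) (nat_lit 5) (nat_lit 113) (nat_lit 5) (nat_lit 111) (nat_lit 5) (nat_lit 478) (nat_lit 398) (nat_lit 324)) (XT.lf (nat_lit 0) (nat_lit 606346108) (nat_lit 304) (nat_lit 8652092654) (nat_lit 76) (nat_lit 7023686389) (nat_lit 106) (nat_lit 5) (nat_lit 110) (nat_lit 5) (nat_lit 107) (nat_lit 5) (nat_lit 479) (nat_lit 398) (nat_lit 323)))) (XT.nd (nat_lit 156) (nat_lit 380) (nat_lit 0) (XT.nd (nat_lit 78) (nat_lit 0) (nat_lit 0) (XT.lf (nat_lit 0) (nat_lit 2026985502) (nat_lit 152) (nat_lit 3455602054) (nat_lit 228) (nat_lit 11101322550) (nat_lit 104) (nat_lit 5) (nat_lit 106) (nat_lit 5) (nat_lit 107) (nat_lit 5) (nat_lit 480) (nat_lit 398) (nat_lit 322)) (XT.lf (nat_lit 0) (nat_lit 10584706020) (nat_lit 228) (nat_lit 3771192747) (nat_lit 76) (nat_lit 2536463688) (nat_lit 104) (nat_lit 5) (nat_lit 107) (nat_lit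 5) (nat_lit 105) (nat_lit 5) (nat_lit 481) (nat_lit 398) (nat_lit 321))) (XT.nd (nat_lit 78) (nat_lit 228) (nat_lit 0) (XT.lf (nat_lit 0) (nat_lit 7392066202) (nat_lit 152) (nat_lit 8521169567) (nat_lit 228) (nat_lit 1294633669) (nat_lit 102) (nat_lit 5) (nat_lit 104) (nat_lit 5) (nat_lit 105) (nat_lit 5) (nat_lit 482) (nat_lit 398) (nat_lit 320)) (XT.lf (nat_lit 0) (nat_lit 1368811669) (nat_lit 152) (nat_lit 2444250094) (nat_lit 228) (nat_lit 13718072329) (nat_lit 99) (nat_lit 5) (nat_lit 101) (nat_lit 5) (nat_lit 102) (nat_lit 5) (nat_lit 483) (nat_lit 398) (nat_lit 319))))) (XT.nd (nat_lit 312) (nat_lit 532) (nat_lit 0) (XT.nd (nat_lit 156) (nat_lit 228) (nat_lit 0) (XT.nd (nat_lit 78) (nat_lit 152) (nat_lit 0) (XT.lf (nat_lit 0) (nat_lit 9153060663) (nat_lit 228) (nat_lit 4877739211) (nat_lit 76) (nat_lit 3829760828) (nat_lit 99) (nat_lit 5) (nat_lit 102) (nat_lit 5) (nat_lit 100) (nat_lit 5) (nat_lit 484) (nat_lit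 398) (nat_lit 318)) (XT.lf (nat_lit 0) (nat_lit 6799173811) (nat_lit 152) (nat_lit 7912886567) (nat_lit 228) (nat_lit 3486047036) (nat_lit 97) (nat_lit 5) (nat_lit 99) (nat_lit 5) (nat_lit 100) (nat_lit 5) (nat_lit 485) (nat_lit 398) (nat_lit 317))) (XT.nd (nat_lit 78) (nat_lit 0) (nat_lit 0) (XT.lf (nat_lit 0) (nat_lit 314788299) (nat_lit 152) (nat_lit 1562425582) (nat_lit 228) (nat_lit 16667359721) (nat_lit 94) (nat_lit 5) (nat_lit 96) (nat_lit 5) (nat_lit 97) (nat_lit 5) (nat_lit 486) (nat_lit 398) (nat_lit 316)) (XT.lf (nat_lit 0) (nat_lit 7464868402) (nat_lit 228) (nat_lit 6422806832) (nat_lit 76) (nat_lit 5008717440) (nat_lit 94) (nat_lit 5) (nat_lit 97) (nat_lit 5) (nat_lit 95) (nat_lit 5) (nat_lit 487) (nat_lit 398) (nat_lit 315)))) (XT.nd (nat_lit 156) (nat_lit 380) (nat_lit 0) (XT.nd (nat_lit 78) (nat_lit 0) (nat_lit 0) (XT.lf (nat_lit 0) (nat_lit 5782443622) (nat_lit 152) (nat_lit 7479110898) (nat_lit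 228) (nat_lit 5995970918) (nat_lit 92) (nat_lit 5) (nat_lit 94) (nat_lit 5) (nat_lit 95) (nat_lit 5) (nat_lit 488) (nat_lit 398) (nat_lit 314)) (XT.lf (nat_lit 0) (nat_lit 18432731311) (nat_lit 152) (nat_lit 834971966) (nat_lit 228) (nat_lit 360723194) (nat_lit 92) (nat_lit 5) (nat_lit 94) (nat_lit 5) (nat_lit 95) (nat_lit 5) (nat_lit 489) (nat_lit 398) (nat_lit 313))) (XT.nd (nat_lit 78) (nat_lit 152) (nat_lit 0) (XT.lf (nat_lit 0) (nat_lit 5479042086) (nat_lit 228) (nat_lit 8491789731) (nat_lit 76) (nat_lit 6033803462) (nat_lit 89) (nat_lit 5) (nat_lit 92) (nat_lit 5) (nat_lit 90) (nat_lit 5) (nat_lit 490) (nat_lit 398) (nat_lit 312)) (XT.lf (nat_lit 0) (nat_lit 4254506501) (nat_lit 152) (nat_lit 7264999259) (nat_lit 228) (nat_lit 8871535827) (nat_lit 87) (nat_lit 5) (nat_lit 89) (nat_lit 5) (nat_lit 90) (nat_lit 5) (nat_lit 491) (nat_lit 398) (nat_lit 311)))))) (XT.nd (nat_lit 546) (nat_lit 684) (nat_lit 0) (XT.nd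 (nat_lit 234) (nat_lit 304) (nat_lit 0) (XT.nd (nat_lit 78) (nat_lit 380) (nat_lit 0) (XT.lf (nat_lit 0) (nat_lit 17505833151) (nat_lit 152) (nat_lit 292837220) (nat_lit 228) (nat_lit 2988646120) (nat_lit 87) (nat_lit 5) (nat_lit 89) (nat_lit 5) (nat_lit 90) (nat_lit 5) (nat_lit 492) (nat_lit 398) (nat_lit 310)) (XT.nd (nat_lit 78) (nat_lit 152) (nat_lit 0) (XT.lf (nat_lit 0) (nat_lit 3147200158) (nat_lit 228) (nat_lit 11183937815) (nat_lit 76) (nat_lit 6859365368) (nat_lit 84) (nat_lit 5) (nat_lit 87) (nat_lit 5) (nat_lit 85) (nat_lit 5) (nat_lit 493) (nat_lit 398) (nat_lit 309)) (XT.lf (nat_lit 0) (nat_lit 2113559918) (nat_lit 152) (nat_lit 7322570400) (nat_lit 228) (nat_lit 12167896374) (nat_lit 82) (nat_lit 5) (nat_lit 84) (nat_lit 5) (nat_lit 85) (nat_lit 5) (nat_lit 494) (nat_lit 398) (nat_lit 308)))) (XT.nd (nat_lit 156) (nat_lit 152) (nat_lit 0) (XT.nd (nat_lit 78) (nat_lit 152) (nat_lit 0) (XT.lf (nat_lit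 0) (nat_lit 15989141811) (nat_lit 152) (nat_lit 10241284) (nat_lit 228) (nat_lit 6028003911) (nat_lit 82) (nat_lit 5) (nat_lit 84) (nat_lit 5) (nat_lit 85) (nat_lit 5) (nat_lit 495) (nat_lit 398) (nat_lit 307)) (XT.lf (nat_lit 0) (nat_lit 412557827) (nat_lit 152) (nat_lit 14614677887) (nat_lit 76) (nat_lit 7432460378) (nat_lit 80) (nat_lit 5) (nat_lit 82) (nat_lit 5) (nat_lit 81) (nat_lit 5) (nat_lit 496) (nat_lit 398) (nat_lit 306))) (XT.nd (nat_lit 78) (nat_lit 152) (nat_lit 0) (XT.lf (nat_lit 0) (nat_lit 6960206548) (nat_lit 152) (nat_lit 744248396) (nat_lit 76) (nat_lit 15197679023) (nat_lit 80) (nat_lit 5) (nat_lit 82) (nat_lit 5) (nat_lit 81) (nat_lit 5) (nat_lit 497) (nat_lit 398) (nat_lit 305)) (XT.lf (nat_lit 0) (nat_lit 13763022764) (nat_lit 152) (nat_lit 47684347) (nat_lit 228) (nat_lit 9543946002) (nat_lit 78) (nat_lit 5) (nat_lit 80) (nat_lit 5) (nat_lit 81) (nat_lit 5) (nat_lit 498) (nat_lit 398) (nat_lit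 304))))) (XT.nd (nat_lit 312) (nat_lit 304) (nat_lit 0) (XT.nd (nat_lit 156) (nat_lit 228) (nat_lit 0) (XT.nd (nat_lit 78) (nat_lit 76) (nat_lit 0) (XT.lf (nat_lit 0) (nat_lit 4871962928) (nat_lit 76) (nat_lit 16098745814) (nat_lit 152) (nat_lit 2846920289) (nat_lit 77) (nat_lit 5) (nat_lit 78) (nat_lit 5) (nat_lit 79) (nat_lit 4) (nat_lit 499) (nat_lit 398) (nat_lit 303)) (XT.lf (nat_lit 0) (nat_lit 4044508458) (nat_lit 152) (nat_lit 4413847717) (nat_lit 76) (nat_lit 15832794295) (nat_lit 76) (nat_lit 5) (nat_lit 78) (nat_lit 5) (nat_lit 77) (nat_lit 5) (nat_lit 500) (nat_lit 398) (nat_lit 302))) (XT.nd (nat_lit 78) (nat_lit 76) (nat_lit 0) (XT.lf (nat_lit 0) (nat_lit 10687720741) (nat_lit 152) (nat_lit 475480250) (nat_lit 228) (nat_lit 13612499418) (nat_lit 74) (nat_lit 5) (nat_lit 76) (nat_lit 5) (nat_lit 77) (nat_lit 5) (nat_lit 501) (nat_lit 398) (nat_lit 301)) (XT.lf (nat_lit 0) (nat_lit 956468431) (nat_lit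 76) (nat_lit 17642743565) (nat_lit 152) (nat_lit 6672462813) (nat_lit 73) (nat_lit 5) (nat_lit 74) (nat_lit 5) (nat_lit 75) (nat_lit 4) (nat_lit 502) (nat_lit 398) (nat_lit 300)))) (XT.nd (nat_lit 156) (nat_lit 76) (nat_lit 0) (XT.nd (nat_lit 78) (nat_lit 152) (nat_lit 0) (XT.lf (nat_lit 0) (nat_lit 589988391) (nat_lit 152) (nat_lit 9094601719) (nat_lit 76) (nat_lit 16094096855) (nat_lit 72) (nat_lit 5) (nat_lit 74) (nat_lit 5) (nat_lit 73) (nat_lit 5) (nat_lit 503) (nat_lit 398) (nat_lit 299)) (XT.lf (nat_lit 0) (nat_lit 6600015948) (nat_lit 152) (nat_lit 1375475689) (nat_lit 228) (nat_lit 18322257908) (nat_lit 70) (nat_lit 5) (nat_lit 72) (nat_lit 5) (nat_lit 73) (nat_lit 5) (nat_lit 504) (nat_lit 398) (nat_lit 298))) (XT.nd (nat_lit 78) (nat_lit 76) (nat_lit 0) (XT.lf (nat_lit 0) (nat_lit 15720268630) (nat_lit 228) (nat_lit 3993084143) (nat_lit 76) (nat_lit 7114900587) (nat_lit 70) (nat_lit 5) (nat_lit 73) (nat_lit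 5) (nat_lit 71) (nat_lit 4) (nat_lit 505) (nat_lit 398) (nat_lit 297)) (XT.lf (nat_lit 0) (nat_lit 12366318012) (nat_lit 76) (nat_lit 11440178777) (nat_lit 152) (nat_lit 3564902861) (nat_lit 69) (nat_lit 5) (nat_lit 70) (nat_lit 5) (nat_lit 71) (nat_lit 4) (nat_lit 506) (nat_lit 398) (nat_lit 296))))))))
noncomputable def xc93 : XT := (XT.nd (nat_lit 2340) (nat_lit 836) (nat_lit 0) (XT.nd (nat_lit 1170) (nat_lit 836) (nat_lit 0) (XT.nd (nat_lit 546) (nat_lit 608) (nat_lit 0) (XT.nd (nat_lit 234) (nat_lit 304) (nat_lit 0) (XT.nd (nat_lit 78) (nat_lit 76) (nat_lit 0) (XT.lf (nat_lit 0) (nat_lit 1309348032) (nat_lit 152) (nat_lit 2843035531) (nat_lit 228) (nat_lit 23776346157) (nat_lit 66) (nat_lit 5) (nat_lit 68) (nat_lit 5) (nat_lit 69) (nat_lit 5) (nat_lit 507) (nat_lit 398) (nat_lit 295)) (XT.nd (nat_lit 78) (nat_lit 76) (nat_lit 0) (XT.lf (nat_lit 0) (nat_lit 12217061933) (nat_lit 228) (nat_lit 10216197145) (nat_lit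 76) (nat_lit 6062836548) (nat_lit 66) (nat_lit 5) (nat_lit 69) (nat_lit 5) (nat_lit 67) (nat_lit 4) (nat_lit 508) (nat_lit 398) (nat_lit 294)) (XT.lf (nat_lit 0) (nat_lit 6739558143) (nat_lit 76) (nat_lit 13854445466) (nat_lit 152) (nat_lit 8484369742) (nat_lit 65) (nat_lit 5) (nat_lit 66) (nat_lit 5) (nat_lit 67) (nat_lit 4) (nat_lit 509) (nat_lit 398) (nat_lit 293)))) (XT.nd (nat_lit 156) (nat_lit 76) (nat_lit 0) (XT.nd (nat_lit 78) (nat_lit 228) (nat_lit 0) (XT.lf (nat_lit 0) (nat_lit 24370939618) (nat_lit 76) (nat_lit 4932117143) (nat_lit 152) (nat_lit 372639065) (nat_lit 65) (nat_lit 5) (nat_lit 66) (nat_lit 5) (nat_lit 67) (nat_lit 4) (nat_lit 510) (nat_lit 398) (nat_lit 292)) (XT.lf (nat_lit 0) (nat_lit 7966271151) (nat_lit 228) (nat_lit 17965230801) (nat_lit 76) (nat_lit 4352946730) (nat_lit 62) (nat_lit 5) (nat_lit 65) (nat_lit 5) (nat_lit 63) (nat_lit 4) (nat_lit 511) (nat_lit 398) (nat_lit 291))) (XT.nd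 (nat_lit 78) (nat_lit 76) (nat_lit 0) (XT.lf (nat_lit 0) (nat_lit 16628919129) (nat_lit 228) (nat_lit 423978932) (nat_lit 76) (nat_lit 13856024046) (nat_lit 62) (nat_lit 5) (nat_lit 65) (nat_lit 5) (nat_lit 63) (nat_lit 4) (nat_lit 512) (nat_lit 398) (nat_lit 290)) (XT.lf (nat_lit 0) (nat_lit 17953337368) (nat_lit 76) (nat_lit 7749453929) (nat_lit 152) (nat_lit 5844798554) (nat_lit 61) (nat_lit 5) (nat_lit 62) (nat_lit 5) (nat_lit 63) (nat_lit 4) (nat_lit 513) (nat_lit 398) (nat_lit 289))))) (XT.nd (nat_lit 312) (nat_lit 304) (nat_lit 0) (XT.nd (nat_lit 156) (nat_lit 76) (nat_lit 0) (XT.nd (nat_lit 78) (nat_lit 0) (nat_lit 0) (XT.lf (nat_lit 0) (nat_lit 2834556374) (nat_lit 228) (nat_lit 27512579786) (nat_lit 76) (nat_lit 1856064489) (nat_lit 58) (nat_lit 5) (nat_lit 61) (nat_lit 5) (nat_lit 59) (nat_lit 4) (nat_lit 514) (nat_lit 398) (nat_lit 288)) (XT.lf (nat_lit 0) (nat_lit 11851017603) (nat_lit 228) (nat_lit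 9248188973) (nat_lit 76) (nat_lit 11771711524) (nat_lit 58) (nat_lit 5) (nat_lit 61) (nat_lit 5) (nat_lit 59) (nat_lit 4) (nat_lit 515) (nat_lit 398) (nat_lit 287))) (XT.nd (nat_lit 78) (nat_lit 0) (nat_lit 0) (XT.lf (nat_lit 0) (nat_lit 9714295425) (nat_lit 76) (nat_lit 11496511941) (nat_lit 152) (nat_lit 12345675077) (nat_lit 57) (nat_lit 5) (nat_lit 58) (nat_lit 5) (nat_lit 59) (nat_lit 4) (nat_lit 516) (nat_lit 398) (nat_lit 286)) (XT.lf (nat_lit 0) (nat_lit 29396220398) (nat_lit 76) (nat_lit 1528237330) (nat_lit 152) (nat_lit 3335964375) (nat_lit 57) (nat_lit 5) (nat_lit 58) (nat_lit 5) (nat_lit 59) (nat_lit 4) (nat_lit 517) (nat_lit 398) (nat_lit 285)))) (XT.nd (nat_lit 156) (nat_lit 152) (nat_lit 0) (XT.nd (nat_lit 78) (nat_lit 0) (nat_lit 0) (XT.lf (nat_lit 0) (nat_lit 6036950144) (nat_lit 152) (nat_lit 20187848135) (nat_lit 76) (nat_lit 8752700852) (nat_lit 55) (nat_lit 5) (nat_lit 57) (nat_lit 5) (nat_lit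 56) (nat_lit 4) (nat_lit 518) (nat_lit 398) (nat_lit 284)) (XT.lf (nat_lit 0) (nat_lit 15668854523) (nat_lit 152) (nat_lit 668745970) (nat_lit 76) (nat_lit 19376151897) (nat_lit 55) (nat_lit 5) (nat_lit 57) (nat_lit 5) (nat_lit 56) (nat_lit 4) (nat_lit 519) (nat_lit 398) (nat_lit 283))) (XT.nd (nat_lit 78) (nat_lit 76) (nat_lit 0) (XT.lf (nat_lit 0) (nat_lit 19784803023) (nat_lit 76) (nat_lit 5975791511) (nat_lit 152) (nat_lit 10706372710) (nat_lit 54) (nat_lit 5) (nat_lit 55) (nat_lit 5) (nat_lit 56) (nat_lit 4) (nat_lit 520) (nat_lit 398) (nat_lit 282)) (XT.lf (nat_lit 0) (nat_lit 3611103691) (nat_lit 76) (nat_lit 32611396861) (nat_lit 76) (nat_lit 1018255917) (nat_lit 53) (nat_lit 4) (nat_lit 54) (nat_lit 5) (nat_lit 54) (nat_lit 4) (nat_lit 521) (nat_lit 398) (nat_lit 281)))))) (XT.nd (nat_lit 546) (nat_lit 456) (nat_lit 0) (XT.nd (nat_lit 234) (nat_lit 228) (nat_lit 0) (XT.nd (nat_lit 78) (nat_lit 76) (nat_lit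 0) (XT.lf (nat_lit 0) (nat_lit 8995694243) (nat_lit 152) (nat_lit 13361791414) (nat_lit 76) (nat_lit 15671388774) (nat_lit 52) (nat_lit 5) (nat_lit 54) (nat_lit 5) (nat_lit 53) (nat_lit 4) (nat_lit 522) (nat_lit 398) (nat_lit 280)) (XT.nd (nat_lit 78) (nat_lit 0) (nat_lit 0) (XT.lf (nat_lit 0) (nat_lit 7616478679) (nat_lit 76) (nat_lit 11727643504) (nat_lit 152) (nat_lit 19494575850) (nat_lit 51) (nat_lit 5) (nat_lit 52) (nat_lit 5) (nat_lit 53) (nat_lit 4) (nat_lit 523) (nat_lit 398) (nat_lit 279)) (XT.lf (nat_lit 0) (nat_lit 29462184806) (nat_lit 76) (nat_lit 657257064) (nat_lit 152) (nat_lit 9549881608) (nat_lit 51) (nat_lit 5) (nat_lit 52) (nat_lit 5) (nat_lit 53) (nat_lit 4) (nat_lit 524) (nat_lit 398) (nat_lit 278)))) (XT.nd (nat_lit 156) (nat_lit 76) (nat_lit 0) (XT.nd (nat_lit 78) (nat_lit 0) (nat_lit 0) (XT.lf (nat_lit 0) (nat_lit 877528993) (nat_lit 152) (nat_lit 29002746126) (nat_lit 76) (nat_lit 10638455921)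 (nat_lit 49) (nat_lit 5) (nat_lit 51) (nat_lit 5) (nat_lit 50) (nat_lit 4) (nat_lit 525) (nat_lit 398) (nat_lit 277)) (XT.lf (nat_lit 0) (nat_lit 11518321947) (nat_lit 152) (nat_lit 7427736872) (nat_lit 76) (nat_lit 22441950592) (nat_lit 49) (nat_lit 5) (nat_lit 51) (nat_lit 5) (nat_lit 50) (nat_lit 4) (nat_lit 526) (nat_lit 398) (nat_lit 276))) (XT.nd (nat_lit 78) (nat_lit 0) (nat_lit 0) (XT.lf (nat_lit 0) (nat_lit 15054141969) (nat_lit 76) (nat_lit 7551336536) (nat_lit 152) (nat_lit 19674073702) (nat_lit 48) (nat_lit 5) (nat_lit 49) (nat_lit 5) (nat_lit 50) (nat_lit 4) (nat_lit 527) (nat_lit 398) (nat_lit 275)) (XT.lf (nat_lit 0) (nat_lit 34123688032) (nat_lit 152) (nat_lit 4907996599) (nat_lit 0) (nat_lit 4163203770) (nat_lit 48) (nat_lit 5) (nat_lit 50) (nat_lit 4) (nat_lit 48) (nat_lit 4) (nat_lit 528) (nat_lit 398) (nat_lit 274))))) (XT.nd (nat_lit 312) (nat_lit 228) (nat_lit 0) (XT.nd (nat_lit 156) (nat_lit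 76) (nat_lit 0) (XT.nd (nat_lit 78) (nat_lit 0) (nat_lit 0) (XT.lf (nat_lit 0) (nat_lit 2049901474) (nat_lit 152) (nat_lit 25822107627) (nat_lit 76) (nat_lit 16258055261) (nat_lit 46) (nat_lit 5) (nat_lit 48) (nat_lit 5) (nat_lit 47) (nat_lit 4) (nat_lit 529) (nat_lit 398) (nat_lit 273)) (XT.lf (nat_lit 0) (nat_lit 13355349245) (nat_lit 152) (nat_lit 2894304339) (nat_lit 76) (nat_lit 28839956790) (nat_lit 46) (nat_lit 5) (nat_lit 48) (nat_lit 5) (nat_lit 47) (nat_lit 4) (nat_lit 530) (nat_lit 398) (nat_lit 272))) (XT.nd (nat_lit 78) (nat_lit 0) (nat_lit 0) (XT.lf (nat_lit 0) (nat_lit 21100864793) (nat_lit 76) (nat_lit 4085408884) (nat_lit 152) (nat_lit 20886079925) (nat_lit 45) (nat_lit 5) (nat_lit 46) (nat_lit 5) (nat_lit 47) (nat_lit 4) (nat_lit 531) (nat_lit 398) (nat_lit 271)) (XT.lf (nat_lit 0) (nat_lit 37466312370) (nat_lit 152) (nat_lit 1322186195) (nat_lit 0) (nat_lit 8293255192) (nat_lit 45) (nat_lit 5)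 (nat_lit 47) (nat_lit 4) (nat_lit 45) (nat_lit 4) (nat_lit 532) (nat_lit 398) (nat_lit 270)))) (XT.nd (nat_lit 156) (nat_lit 76) (nat_lit 0) (XT.nd (nat_lit 78) (nat_lit 0) (nat_lit 0) (XT.lf (nat_lit 0) (nat_lit 2206469665) (nat_lit 152) (nat_lit 24713697648) (nat_lit 76) (nat_lit 21193132483) (nat_lit 43) (nat_lit 5) (nat_lit 45) (nat_lit 5) (nat_lit 44) (nat_lit 4) (nat_lit 533) (nat_lit 398) (nat_lit 269)) (XT.lf (nat_lit 0) (nat_lit 14187256456) (nat_lit 152) (nat_lit 411898414) (nat_lit 76) (nat_lit 34573857101) (nat_lit 43) (nat_lit 5) (nat_lit 45) (nat_lit 5) (nat_lit 44) (nat_lit 4) (nat_lit 534) (nat_lit 398) (nat_lit 268))) (XT.nd (nat_lit 78) (nat_lit 0) (nat_lit 0) (XT.lf (nat_lit 0) (nat_lit 25077907500) (nat_lit 76) (nat_lit 1675085263) (nat_lit 152) (nat_lit 23504757173) (nat_lit 42) (nat_lit 5) (nat_lit 43) (nat_lit 5) (nat_lit 44) (nat_lit 4) (nat_lit 535) (nat_lit 398) (nat_lit 267)) (XT.lf (nat_lit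 0) (nat_lit 39796244079) (nat_lit 152) (nat_lit 176383770) (nat_lit 0) (nat_lit 11399386097) (nat_lit 42) (nat_lit 5) (nat_lit 44) (nat_lit 4) (nat_lit 42) (nat_lit 4) (nat_lit 536) (nat_lit 398) (nat_lit 266))))))) (XT.nd (nat_lit 51948) (nat_lit 0) (nat_lit 26828) (XT.nd (nat_lit 546) (nat_lit 380) (nat_lit 0) (XT.nd (nat_lit 234) (nat_lit 228) (nat_lit 0) (XT.nd (nat_lit 78) (nat_lit 76) (nat_lit 0) (XT.lf (nat_lit 0) (nat_lit 951528909) (nat_lit 152) (nat_lit 26482311427) (nat_lit 76) (nat_lit 25078031130) (nat_lit 40) (nat_lit 5) (nat_lit 42) (nat_lit 5) (nat_lit 41) (nat_lit 4) (nat_lit 537) (nat_lit 398) (nat_lit 265)) (XT.nd (nat_lit 78) (nat_lit 76) (nat_lit 0) (XT.lf (nat_lit 0) (nat_lit 13608728880) (nat_lit 152) (nat_lit 804755808) (nat_lit 76) (nat_lit 39269399541) (nat_lit 40) (nat_lit 5) (nat_lit 42) (nat_lit 5) (nat_lit 41) (nat_lit 4) (nat_lit 538) (nat_lit 398) (nat_lit 264)) (XT.lf (nat_lit 0)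 (nat_lit 26124211542) (nat_lit 76) (nat_lit 757938684) (nat_lit 152) (nat_lit 27999782160) (nat_lit 39) (nat_lit 5) (nat_lit 40) (nat_lit 5) (nat_lit 41) (nat_lit 4) (nat_lit 539) (nat_lit 398) (nat_lit 263)))) (XT.nd (nat_lit 156) (nat_lit 152) (nat_lit 0) (XT.nd (nat_lit 78) (nat_lit 76) (nat_lit 0) (XT.lf (nat_lit 0) (nat_lit 40675300809) (nat_lit 152) (nat_lit 2395872808) (nat_lit 0) (nat_lit 13042132741) (nat_lit 39) (nat_lit 5) (nat_lit 41) (nat_lit 4) (nat_lit 39) (nat_lit 4) (nat_lit 540) (nat_lit 398) (nat_lit 262)) (XT.lf (nat_lit 0) (nat_lit 25213456811) (nat_lit 76) (nat_lit 29904487820) (nat_lit 76) (nat_lit 2256606119) (nat_lit 38) (nat_lit 4) (nat_lit 39) (nat_lit 5) (nat_lit 39) (nat_lit 4) (nat_lit 541) (nat_lit 398) (nat_lit 261))) (XT.nd (nat_lit 78) (nat_lit 76) (nat_lit 0) (XT.lf (nat_lit 0) (nat_lit 11109605551) (nat_lit 152) (nat_lit 5109667508) (nat_lit 76) (nat_lit 42450786992) (nat_lit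 37) (nat_lit 5) (nat_lit 39) (nat_lit 5) (nat_lit 38) (nat_lit 4) (nat_lit 542) (nat_lit 398) (nat_lit 260)) (XT.lf (nat_lit 0) (nat_lit 23155739466) (nat_lit 76) (nat_lit 1884543910) (nat_lit 152) (nat_lit 34957216067) (nat_lit 36) (nat_lit 5) (nat_lit 37) (nat_lit 5) (nat_lit 38) (nat_lit 4) (nat_lit 543) (nat_lit 398) (nat_lit 259))))) (XT.nd (nat_lit 312) (nat_lit 152) (nat_lit 0) (XT.nd (nat_lit 156) (nat_lit 152) (nat_lit 0) (XT.nd (nat_lit 78) (nat_lit 76) (nat_lit 0) (XT.lf (nat_lit 0) (nat_lit 39551066869) (nat_lit 152) (nat_lit 9140773392) (nat_lit 0) (nat_lit 12668056338) (nat_lit 36) (nat_lit 5) (nat_lit 38) (nat_lit 4) (nat_lit 36) (nat_lit 4) (nat_lit 544) (nat_lit 398) (nat_lit 258)) (XT.lf (nat_lit 0) (nat_lit 19731314270) (nat_lit 76) (nat_lit 34960852201) (nat_lit 76) (nat_lit 8065149562) (nat_lit 35) (nat_lit 4) (nat_lit 36) (nat_lit 5) (nat_lit 36) (nat_lit 4) (nat_lit 545) (nat_lit 398) (nat_lit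 257))) (XT.nd (nat_lit 78) (nat_lit 76) (nat_lit 0) (XT.lf (nat_lit 0) (nat_lit 6051876138) (nat_lit 152) (nat_lit 14622716511) (nat_lit 76) (nat_lit 43517912384) (nat_lit 34) (nat_lit 5) (nat_lit 36) (nat_lit 5) (nat_lit 35) (nat_lit 4) (nat_lit 546) (nat_lit 398) (nat_lit 256)) (XT.lf (nat_lit 0) (nat_lit 14816395533) (nat_lit 76) (nat_lit 5743399607) (nat_lit 152) (nat_lit 45104674583) (nat_lit 33) (nat_lit 5) (nat_lit 34) (nat_lit 5) (nat_lit 35) (nat_lit 4) (nat_lit 547) (nat_lit 398) (nat_lit 255)))) (XT.nd (nat_lit 156) (nat_lit 76) (nat_lit 0) (XT.nd (nat_lit 78) (nat_lit 76) (nat_lit 0) (XT.lf (nat_lit 0) (nat_lit 35731772584) (nat_lit 152) (nat_lit 21857371721) (nat_lit 0) (nat_lit 9584584546) (nat_lit 33) (nat_lit 5) (nat_lit 35) (nat_lit 4) (nat_lit 33) (nat_lit 4) (nat_lit 548) (nat_lit 398) (nat_lit 254)) (XT.lf (nat_lit 0) (nat_lit 8079027730) (nat_lit 76) (nat_lit 43401857613) (nat_lit 76) (nat_lit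 17243721251) (nat_lit 32) (nat_lit 4) (nat_lit 33) (nat_lit 5) (nat_lit 33) (nat_lit 4) (nat_lit 549) (nat_lit 398) (nat_lit 253))) (XT.nd (nat_lit 78) (nat_lit 76) (nat_lit 0) (XT.lf (nat_lit 0) (nat_lit 39337007409) (nat_lit 76) (nat_lit 28573760149) (nat_lit 76) (nat_lit 2404994347) (nat_lit 32) (nat_lit 4) (nat_lit 33) (nat_lit 5) (nat_lit 33) (nat_lit 4) (nat_lit 550) (nat_lit 398) (nat_lit 252)) (XT.lf (nat_lit 0) (nat_lit 12615402480) (nat_lit 152) (nat_lit 569818611) (nat_lit 76) (nat_lit 58766082249) (nat_lit 31) (nat_lit 5) (nat_lit 33) (nat_lit 5) (nat_lit 32) (nat_lit 4) (nat_lit 551) (nat_lit 398) (nat_lit 251)))))) (XT.nd (nat_lit 624) (nat_lit 2964) (nat_lit 0) (XT.nd (nat_lit 312) (nat_lit 684) (nat_lit 0) (XT.nd (nat_lit 156) (nat_lit 152) (nat_lit 0) (XT.nd (nat_lit 78) (nat_lit 76) (nat_lit 0) (XT.lf (nat_lit 0) (nat_lit 33937622) (nat_lit 76) (nat_lit 1594586203) (nat_lit 76) (nat_lit 1594586203)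 (nat_lit 435) (nat_lit 4) (nat_lit 436) (nat_lit 5) (nat_lit 436) (nat_lit 4) (nat_lit 402) (nat_lit 399) (nat_lit 399)) (XT.lf (nat_lit 0) (nat_lit 4748677) (nat_lit 152) (nat_lit 2999347310) (nat_lit 76) (nat_lit 3447799736) (nat_lit 434) (nat_lit 5) (nat_lit 436) (nat_lit 5) (nat_lit 435) (nat_lit 4) (nat_lit 403) (nat_lit 399) (nat_lit 398))) (XT.nd (nat_lit 78) (nat_lit 0) (nat_lit 0) (XT.lf (nat_lit 0) (nat_lit 389238056) (nat_lit 152) (nat_lit 2723851553) (nat_lit 228) (nat_lit 3347255101) (nat_lit 432) (nat_lit 5) (nat_lit 434) (nat_lit 5) (nat_lit 435) (nat_lit 4) (nat_lit 404) (nat_lit 399) (nat_lit 397)) (XT.lf (nat_lit 0) (nat_lit 3873827849) (nat_lit 152) (nat_lit 2352980356) (nat_lit 228) (nat_lit 244905597) (nat_lit 432) (nat_lit 5) (nat_lit 434) (nat_lit 5) (nat_lit 435) (nat_lit 4) (nat_lit 405) (nat_lit 399) (nat_lit 396)))) (XT.nd (nat_lit 156) (nat_lit 380) (nat_lit 0) (XT.nd (nat_lit 78) (nat_lit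 0) (nat_lit 0) (XT.lf (nat_lit 0) (nat_lit 901239252) (nat_lit 228) (nat_lit 1884479880) (nat_lit 304) (nat_lit 3700099284) (nat_lit 428) (nat_lit 5) (nat_lit 431) (nat_lit 5) (nat_lit 432) (nat_lit 5) (nat_lit 406) (nat_lit 399) (nat_lit 395)) (XT.lf (nat_lit 0) (nat_lit 4489264799) (nat_lit 228) (nat_lit 1326134468) (nat_lit 304) (nat_lit 687510262) (nat_lit 428) (nat_lit 5) (nat_lit 431) (nat_lit 5) (nat_lit 432) (nat_lit 5) (nat_lit 407) (nat_lit 399) (nat_lit 394))) (XT.nd (nat_lit 78) (nat_lit 0) (nat_lit 0) (XT.lf (nat_lit 0) (nat_lit 1605383678) (nat_lit 304) (nat_lit 667401109) (nat_lit 380) (nat_lit 4249924420) (nat_lit 423) (nat_lit 5) (nat_lit 427) (nat_lit 5) (nat_lit 428) (nat_lit 5) (nat_lit 408) (nat_lit 399) (nat_lit 393)) (XT.lf (nat_lit 0) (nat_lit 5220738663) (nat_lit 380) (nat_lit 1245510446) (nat_lit 76) (nat_lit 79295018) (nat_lit 423) (nat_lit 5) (nat_lit 428) (nat_lit 5) (nat_lit 424) (nat_lit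 5) (nat_lit 409) (nat_lit 399) (nat_lit 392))))) (XT.nd (nat_lit 312) (nat_lit 1444) (nat_lit 0) (XT.nd (nat_lit 156) (nat_lit 1064) (nat_lit 0) (XT.nd (nat_lit 78) (nat_lit 0) (nat_lit 0) (XT.lf (nat_lit 0) (nat_lit 1580282811) (nat_lit 456) (nat_lit 4076079650) (nat_lit 76) (nat_lit 914484194) (nat_lit 417) (nat_lit 5) (nat_lit 423) (nat_lit 5) (nat_lit 418) (nat_lit 5) (nat_lit 410) (nat_lit 399) (nat_lit 391)) (XT.lf (nat_lit 0) (nat_lit 4455136675) (nat_lit 456) (nat_lit 306522102) (nat_lit 76) (nat_lit 1837602114) (nat_lit 417) (nat_lit 5) (nat_lit 423) (nat_lit 5) (nat_lit 418) (nat_lit 5) (nat_lit 411) (nat_lit 399) (nat_lit 390))) (XT.nd (nat_lit 78) (nat_lit 532) (nat_lit 0) (XT.lf (nat_lit 0) (nat_lit 705611473) (nat_lit 532) (nat_lit 3059008024) (nat_lit 76) (nat_lit 2865704688) (nat_lit 410) (nat_lit 5) (nat_lit 417) (nat_lit 5) (nat_lit 411) (nat_lit 5) (nat_lit 412) (nat_lit 399) (nat_lit 389)) (XT.lf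 (nat_lit 0) (nat_lit 835753458) (nat_lit 532) (nat_lit 2673992204) (nat_lit 608) (nat_lit 3154598173) (nat_lit 403) (nat_lit 5) (nat_lit 410) (nat_lit 5) (nat_lit 411) (nat_lit 5) (nat_lit 413) (nat_lit 399) (nat_lit 388)))) (XT.nd (nat_lit 156) (nat_lit 760) (nat_lit 0) (XT.nd (nat_lit 78) (nat_lit 684) (nat_lit 0) (XT.lf (nat_lit 0) (nat_lit 4841897413) (nat_lit 532) (nat_lit 1490070806) (nat_lit 608) (nat_lit 369417667) (nat_lit 403) (nat_lit 5) (nat_lit 410) (nat_lit 5) (nat_lit 411) (nat_lit 5) (nat_lit 414) (nat_lit 399) (nat_lit 387)) (XT.lf (nat_lit 0) (nat_lit 2179090512) (nat_lit 608) (nat_lit 197349773) (nat_lit 684) (nat_lit 4364620935) (nat_lit 394) (nat_lit 5) (nat_lit 402) (nat_lit 5) (nat_lit 403) (nat_lit 5) (nat_lit 415) (nat_lit 399) (nat_lit 386))) (XT.nd (nat_lit 78) (nat_lit 760) (nat_lit 0) (XT.lf (nat_lit 0) (nat_lit 5134425934) (nat_lit 684) (nat_lit 489642138) (nat_lit 76) (nat_lit 1159652688)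 (nat_lit 394) (nat_lit 5) (nat_lit 403) (nat_lit 5) (nat_lit 395) (nat_lit 5) (nat_lit 416) (nat_lit 399) (nat_lit 385)) (XT.lf (nat_lit 0) (nat_lit 1072159841) (nat_lit 760) (nat_lit 3132951175) (nat_lit 76) (nat_lit 2623824236) (nat_lit 384) (nat_lit 5) (nat_lit 394) (nat_lit 5) (nat_lit 385) (nat_lit 5) (nat_lit 417) (nat_lit 399) (nat_lit 384))))))))
noncomputable def xc94 : XT := (XT.nd (nat_lit 2340) (nat_lit 6384) (nat_lit 0) (XT.nd (nat_lit 1170) (nat_lit 5168) (nat_lit 0) (XT.nd (nat_lit 546) (nat_lit 5624) (nat_lit 0) (XT.nd (nat_lit 234) (nat_lit 1976) (nat_lit 0) (XT.nd (nat_lit 78) (nat_lit 912) (nat_lit 0) (XT.lf (nat_lit 0) (nat_lit 1076954311) (nat_lit 760) (nat_lit 2691592364) (nat_lit 836) (nat_lit 3108693853) (nat_lit 374) (nat_lit 5) (nat_lit 384) (nat_lit 5) (nat_lit 385) (nat_lit 5) (nat_lit 418) (nat_lit 399) (nat_lit 383)) (XT.nd (nat_lit 78) (nat_lit 912) (nat_lit 0) (XT.lf (nat_lit 0) (nat_lit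 5408520408) (nat_lit 760) (nat_lit 1081961006) (nat_lit 836) (nat_lit 438190725) (nat_lit 374) (nat_lit 5) (nat_lit 384) (nat_lit 5) (nat_lit 385) (nat_lit 5) (nat_lit 419) (nat_lit 399) (nat_lit 382)) (XT.lf (nat_lit 0) (nat_lit 2215620910) (nat_lit 912) (nat_lit 4135651872) (nat_lit 76) (nat_lit 631273443) (nat_lit 362) (nat_lit 5) (nat_lit 374) (nat_lit 5) (nat_lit 363) (nat_lit 5) (nat_lit 420) (nat_lit 399) (nat_lit 381)))) (XT.nd (nat_lit 156) (nat_lit 988) (nat_lit 0) (XT.nd (nat_lit 78) (nat_lit 76) (nat_lit 0) (XT.lf (nat_lit 0) (nat_lit 257801241) (nat_lit 912) (nat_lit 4627813990) (nat_lit 988) (nat_lit 2153945314) (nat_lit 350) (nat_lit 5) (nat_lit 362) (nat_lit 5) (nat_lit 363) (nat_lit 5) (nat_lit 421) (nat_lit 399) (nat_lit 380)) (XT.lf (nat_lit 0) (nat_lit 486727670) (nat_lit 988) (nat_lit 2306303397) (nat_lit 76) (nat_lit 4306320074) (nat_lit 349) (nat_lit 5) (nat_lit 362) (nat_lit 5) (nat_lit 350)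 (nat_lit 5) (nat_lit 422) (nat_lit 399) (nat_lit 379))) (XT.nd (nat_lit 78) (nat_lit 0) (nat_lit 0) (XT.lf (nat_lit 0) (nat_lit 2256683113) (nat_lit 988) (nat_lit 848352941) (nat_lit 1064) (nat_lit 4057022517) (nat_lit 336) (nat_lit 5) (nat_lit 349) (nat_lit 5) (nat_lit 350) (nat_lit 5) (nat_lit 423) (nat_lit 399) (nat_lit 378)) (XT.lf (nat_lit 0) (nat_lit 5758288058) (nat_lit 1064) (nat_lit 304659448) (nat_lit 76) (nat_lit 1165021600) (nat_lit 336) (nat_lit 5) (nat_lit 350) (nat_lit 5) (nat_lit 337) (nat_lit 5) (nat_lit 424) (nat_lit 399) (nat_lit 377))))) (XT.nd (nat_lit 312) (nat_lit 2052) (nat_lit 0) (XT.nd (nat_lit 156) (nat_lit 1292) (nat_lit 0) (XT.nd (nat_lit 78) (nat_lit 1140) (nat_lit 0) (XT.lf (nat_lit 0) (nat_lit 1146861825) (nat_lit 1140) (nat_lit 2864619828) (nat_lit 76) (nat_lit 3284796375) (nat_lit 321) (nat_lit 5) (nat_lit 336) (nat_lit 5) (nat_lit 322) (nat_lit 5) (nat_lit 425) (nat_lit 399) (nat_lit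 376)) (XT.lf (nat_lit 0) (nat_lit 1902333295) (nat_lit 1140) (nat_lit 1856280219) (nat_lit 1216) (nat_lit 3609211165) (nat_lit 306) (nat_lit 5) (nat_lit 321) (nat_lit 5) (nat_lit 322) (nat_lit 5) (nat_lit 426) (nat_lit 399) (nat_lit 375))) (XT.nd (nat_lit 78) (nat_lit 1292) (nat_lit 0) (XT.lf (nat_lit 0) (nat_lit 6407848683) (nat_lit 1216) (nat_lit 644963725) (nat_lit 76) (nat_lit 389943575) (nat_lit 306) (nat_lit 5) (nat_lit 322) (nat_lit 5) (nat_lit 307) (nat_lit 5) (nat_lit 427) (nat_lit 399) (nat_lit 374)) (XT.lf (nat_lit 0) (nat_lit 1573391498) (nat_lit 1292) (nat_lit 3219152221) (nat_lit 76) (nat_lit 2727287432) (nat_lit 289) (nat_lit 5) (nat_lit 306) (nat_lit 5) (nat_lit 290) (nat_lit 5) (nat_lit 428) (nat_lit 399) (nat_lit 373)))) (XT.nd (nat_lit 156) (nat_lit 1292) (nat_lit 0) (XT.nd (nat_lit 78) (nat_lit 0) (nat_lit 0) (XT.lf (nat_lit 0) (nat_lit 1762772761) (nat_lit 760) (nat_lit 2429168614) (nat_lit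 836) (nat_lit 3408396869) (nat_lit 279) (nat_lit 5) (nat_lit 289) (nat_lit 5) (nat_lit 290) (nat_lit 5) (nat_lit 429) (nat_lit 399) (nat_lit 372)) (XT.lf (nat_lit 0) (nat_lit 6852596127) (nat_lit 836) (nat_lit 794114927) (nat_lit 76) (nat_lit 37653869) (nat_lit 279) (nat_lit 5) (nat_lit 290) (nat_lit 5) (nat_lit 280) (nat_lit 5) (nat_lit 430) (nat_lit 399) (nat_lit 371))) (XT.nd (nat_lit 78) (nat_lit 608) (nat_lit 0) (XT.lf (nat_lit 0) (nat_lit 1785547679) (nat_lit 684) (nat_lit 3395670219) (nat_lit 76) (nat_lit 2589210844) (nat_lit 270) (nat_lit 5) (nat_lit 279) (nat_lit 5) (nat_lit 271) (nat_lit 5) (nat_lit 431) (nat_lit 399) (nat_lit 370)) (XT.lf (nat_lit 0) (nat_lit 1813033553) (nat_lit 608) (nat_lit 2610483579) (nat_lit 684) (nat_lit 3436554653) (nat_lit 262) (nat_lit 5) (nat_lit 270) (nat_lit 5) (nat_lit 271) (nat_lit 5) (nat_lit 432) (nat_lit 399) (nat_lit 369)))))) (XT.nd (nat_lit 546) (nat_lit 2888) (nat_lit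 0) (XT.nd (nat_lit 234) (nat_lit 1140) (nat_lit 0) (XT.nd (nat_lit 78) (nat_lit 1140) (nat_lit 0) (XT.lf (nat_lit 0) (nat_lit 7110173656) (nat_lit 684) (nat_lit 775885627) (nat_lit 76) (nat_lit 67268014) (nat_lit 262) (nat_lit 5) (nat_lit 271) (nat_lit 5) (nat_lit 263) (nat_lit 5) (nat_lit 433) (nat_lit 399) (nat_lit 368)) (XT.nd (nat_lit 78) (nat_lit 532) (nat_lit 0) (XT.lf (nat_lit 0) (nat_lit 1799438160) (nat_lit 608) (nat_lit 3417886367) (nat_lit 76) (nat_lit 2831326027) (nat_lit 254) (nat_lit 5) (nat_lit 262) (nat_lit 5) (nat_lit 255) (nat_lit 5) (nat_lit 434) (nat_lit 399) (nat_lit 367)) (XT.lf (nat_lit 0) (nat_lit 2030190724) (nat_lit 532) (nat_lit 2438628405) (nat_lit 608) (nat_lit 3678839000) (nat_lit 247) (nat_lit 5) (nat_lit 254) (nat_lit 5) (nat_lit 255) (nat_lit 5) (nat_lit 435) (nat_lit 399) (nat_lit 366)))) (XT.nd (nat_lit 156) (nat_lit 532) (nat_lit 0) (XT.nd (nat_lit 78) (nat_lit 608) (nat_lit 0)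 (XT.lf (nat_lit 0) (nat_lit 7195334591) (nat_lit 608) (nat_lit 612264601) (nat_lit 76) (nat_lit 442733692) (nat_lit 247) (nat_lit 5) (nat_lit 255) (nat_lit 5) (nat_lit 248) (nat_lit 5) (nat_lit 436) (nat_lit 399) (nat_lit 365)) (XT.lf (nat_lit 0) (nat_lit 1628276450) (nat_lit 608) (nat_lit 3307871473) (nat_lit 76) (nat_lit 3419086836) (nat_lit 239) (nat_lit 5) (nat_lit 247) (nat_lit 5) (nat_lit 240) (nat_lit 5) (nat_lit 437) (nat_lit 399) (nat_lit 364))) (XT.nd (nat_lit 78) (nat_lit 0) (nat_lit 0) (XT.lf (nat_lit 0) (nat_lit 2392946720) (nat_lit 532) (nat_lit 1947575351) (nat_lit 608) (nat_lit 4123365761) (nat_lit 232) (nat_lit 5) (nat_lit 239) (nat_lit 5) (nat_lit 240) (nat_lit 5) (nat_lit 438) (nat_lit 399) (nat_lit 363)) (XT.lf (nat_lit 0) (nat_lit 7120142806) (nat_lit 608) (nat_lit 323856616) (nat_lit 76) (nat_lit 1132228436) (nat_lit 232) (nat_lit 5) (nat_lit 240) (nat_lit 5) (nat_lit 233) (nat_lit 5) (nat_lit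 439) (nat_lit 399) (nat_lit 362))))) (XT.nd (nat_lit 312) (nat_lit 1368) (nat_lit 0) (XT.nd (nat_lit 156) (nat_lit 532) (nat_lit 0) (XT.nd (nat_lit 78) (nat_lit 456) (nat_lit 0) (XT.lf (nat_lit 0) (nat_lit 1282567498) (nat_lit 532) (nat_lit 3086455648) (nat_lit 76) (nat_lit 4322053248) (nat_lit 225) (nat_lit 5) (nat_lit 232) (nat_lit 5) (nat_lit 226) (nat_lit 5) (nat_lit 440) (nat_lit 399) (nat_lit 361)) (XT.lf (nat_lit 0) (nat_lit 2881228964) (nat_lit 456) (nat_lit 1167441251) (nat_lit 532) (nat_lit 4761037923) (nat_lit 219) (nat_lit 5) (nat_lit 225) (nat_lit 5) (nat_lit 226) (nat_lit 5) (nat_lit 441) (nat_lit 399) (nat_lit 360))) (XT.nd (nat_lit 78) (nat_lit 76) (nat_lit 0) (XT.lf (nat_lit 0) (nat_lit 71115232) (nat_lit 456) (nat_lit 6823700481) (nat_lit 532) (nat_lit 2037178076) (nat_lit 213) (nat_lit 5) (nat_lit 219) (nat_lit 5) (nat_lit 220) (nat_lit 5) (nat_lit 442) (nat_lit 399) (nat_lit 359)) (XT.lf (nat_lit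 0) (nat_lit 770252341) (nat_lit 532) (nat_lit 2773621873) (nat_lit 76) (nat_lit 5513353098) (nat_lit 212) (nat_lit 5) (nat_lit 219) (nat_lit 5) (nat_lit 213) (nat_lit 5) (nat_lit 443) (nat_lit 399) (nat_lit 358)))) (XT.nd (nat_lit 156) (nat_lit 532) (nat_lit 0) (XT.nd (nat_lit 78) (nat_lit 380) (nat_lit 0) (XT.lf (nat_lit 0) (nat_lit 3475793648) (nat_lit 456) (nat_lit 125016478) (nat_lit 532) (nat_lit 5585413293) (nat_lit 206) (nat_lit 5) (nat_lit 212) (nat_lit 5) (nat_lit 213) (nat_lit 5) (nat_lit 444) (nat_lit 399) (nat_lit 357)) (XT.lf (nat_lit 0) (nat_lit 560419636) (nat_lit 380) (nat_lit 5969393643) (nat_lit 456) (nat_lit 2788876263) (nat_lit 201) (nat_lit 5) (nat_lit 206) (nat_lit 5) (nat_lit 207) (nat_lit 5) (nat_lit 445) (nat_lit 399) (nat_lit 356))) (XT.nd (nat_lit 78) (nat_lit 456) (nat_lit 0) (XT.lf (nat_lit 0) (nat_lit 96813134) (nat_lit 456) (nat_lit 2388899047) (nat_lit 76) (nat_lit 6969185430) (nat_lit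 200) (nat_lit 5) (nat_lit 206) (nat_lit 5) (nat_lit 201) (nat_lit 5) (nat_lit 446) (nat_lit 399) (nat_lit 355)) (XT.lf (nat_lit 0) (nat_lit 3013193965) (nat_lit 532) (nat_lit 5447978158) (nat_lit 76) (nat_lit 1133191672) (nat_lit 194) (nat_lit 5) (nat_lit 201) (nat_lit 5) (nat_lit 195) (nat_lit 5) (nat_lit 447) (nat_lit 399) (nat_lit 354))))))) (XT.nd (nat_lit 1170) (nat_lit 2812) (nat_lit 0) (XT.nd (nat_lit 546) (nat_lit 1672) (nat_lit 0) (XT.nd (nat_lit 234) (nat_lit 1064) (nat_lit 0) (XT.nd (nat_lit 78) (nat_lit 456) (nat_lit 0) (XT.lf (nat_lit 0) (nat_lit 1118448926) (nat_lit 380) (nat_lit 4908122326) (nat_lit 456) (nat_lit 3711162887) (nat_lit 189) (nat_lit 5) (nat_lit 194) (nat_lit 5) (nat_lit 195) (nat_lit 5) (nat_lit 448) (nat_lit 399) (nat_lit 353)) (XT.nd (nat_lit 78) (nat_lit 456) (nat_lit 0) (XT.lf (nat_lit 0) (nat_lit 7926278196) (nat_lit 380) (nat_lit 1209682391) (nat_lit 456) (nat_lit 749281854) (nat_lit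 189) (nat_lit 5) (nat_lit 194) (nat_lit 5) (nat_lit 195) (nat_lit 5) (nat_lit 449) (nat_lit 399) (nat_lit 352)) (XT.lf (nat_lit 0) (nat_lit 2280790616) (nat_lit 456) (nat_lit 5153511509) (nat_lit 76) (nat_lit 2601487710) (nat_lit 183) (nat_lit 5) (nat_lit 189) (nat_lit 5) (nat_lit 184) (nat_lit 5) (nat_lit 450) (nat_lit 399) (nat_lit 351)))) (XT.nd (nat_lit 156) (nat_lit 760) (nat_lit 0) (XT.nd (nat_lit 78) (nat_lit 0) (nat_lit 0) (XT.lf (nat_lit 0) (nat_lit 1725850102) (nat_lit 304) (nat_lit 3661563254) (nat_lit 380) (nat_lit 4803201229) (nat_lit 179) (nat_lit 5) (nat_lit 183) (nat_lit 5) (nat_lit 184) (nat_lit 5) (nat_lit 451) (nat_lit 399) (nat_lit 350)) (XT.lf (nat_lit 0) (nat_lit 8594682920) (nat_lit 380) (nat_lit 1501428088) (nat_lit 76) (nat_lit 253754219) (nat_lit 179) (nat_lit 5) (nat_lit 184) (nat_lit 5) (nat_lit 180) (nat_lit 5) (nat_lit 452) (nat_lit 399) (nat_lit 349))) (XT.nd (nat_lit 78) (nat_lit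 304) (nat_lit 0) (XT.lf (nat_lit 0) (nat_lit 1402669908) (nat_lit 456) (nat_lit 4846412945) (nat_lit 76) (nat_lit 4263053520) (nat_lit 173) (nat_lit 5) (nat_lit 179) (nat_lit 5) (nat_lit 174) (nat_lit 5) (nat_lit 453) (nat_lit 399) (nat_lit 348)) (XT.lf (nat_lit 0) (nat_lit 2362649340) (nat_lit 304) (nat_lit 2249727770) (nat_lit 380) (nat_lit 6066609501) (nat_lit 169) (nat_lit 5) (nat_lit 173) (nat_lit 5) (nat_lit 174) (nat_lit 5) (nat_lit 454) (nat_lit 399) (nat_lit 347))))) (XT.nd (nat_lit 312) (nat_lit 988) (nat_lit 0) (XT.nd (nat_lit 156) (nat_lit 304) (nat_lit 0) (XT.nd (nat_lit 78) (nat_lit 380) (nat_lit 0) (XT.lf (nat_lit 0) (nat_lit 7940653823) (nat_lit 380) (nat_lit 1046785840) (nat_lit 76) (nat_lit 1862738426) (nat_lit 169) (nat_lit 5) (nat_lit 174) (nat_lit 5) (nat_lit 170) (nat_lit 5) (nat_lit 455) (nat_lit 399) (nat_lit 346)) (XT.lf (nat_lit 0) (nat_lit 376761882) (nat_lit 380) (nat_lit 4548295760)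 (nat_lit 76) (nat_lit 6100117791) (nat_lit 164) (nat_lit 5) (nat_lit 169) (nat_lit 5) (nat_lit 165) (nat_lit 5) (nat_lit 456) (nat_lit 399) (nat_lit 345))) (XT.nd (nat_lit 78) (nat_lit 0) (nat_lit 0) (XT.lf (nat_lit 0) (nat_lit 3007793904) (nat_lit 304) (nat_lit 691381182) (nat_lit 380) (nat_lit 7505506621) (nat_lit 160) (nat_lit 5) (nat_lit 164) (nat_lit 5) (nat_lit 165) (nat_lit 5) (nat_lit 457) (nat_lit 399) (nat_lit 344)) (XT.lf (nat_lit 0) (nat_lit 7159796957) (nat_lit 380) (nat_lit 605170151) (nat_lit 76) (nat_lit 3623453599) (nat_lit 160) (nat_lit 5) (nat_lit 165) (nat_lit 5) (nat_lit 161) (nat_lit 5) (nat_lit 458) (nat_lit 399) (nat_lit 343)))) (XT.nd (nat_lit 156) (nat_lit 304) (nat_lit 0) (XT.nd (nat_lit 78) (nat_lit 380) (nat_lit 0) (XT.lf (nat_lit 0) (nat_lit 7286483521) (nat_lit 304) (nat_lit 3472778398) (nat_lit 380) (nat_lit 817362745) (nat_lit 156) (nat_lit 5) (nat_lit 160) (nat_lit 5) (nat_lit 161)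 (nat_lit 5) (nat_lit 459) (nat_lit 399) (nat_lit 342)) (XT.lf (nat_lit 0) (nat_lit 2652684502) (nat_lit 380) (nat_lit 8140628694) (nat_lit 76) (nat_lit 976115476) (nat_lit 151) (nat_lit 5) (nat_lit 156) (nat_lit 5) (nat_lit 152) (nat_lit 5) (nat_lit 460) (nat_lit 399) (nat_lit 341))) (XT.nd (nat_lit 78) (nat_lit 304) (nat_lit 0) (XT.lf (nat_lit 0) (nat_lit 6247284799) (nat_lit 380) (nat_lit 200143323) (nat_lit 76) (nat_lit 5519242724) (nat_lit 151) (nat_lit 5) (nat_lit 156) (nat_lit 5) (nat_lit 152) (nat_lit 5) (nat_lit 461) (nat_lit 399) (nat_lit 340)) (XT.lf (nat_lit 0) (nat_lit 8074197131) (nat_lit 304) (nat_lit 1913086623) (nat_lit 380) (nat_lit 2181422839) (nat_lit 147) (nat_lit 5) (nat_lit 151) (nat_lit 5) (nat_lit 152) (nat_lit 5) (nat_lit 462) (nat_lit 399) (nat_lit 339)))))) (XT.nd (nat_lit 624) (nat_lit 1140) (nat_lit 0) (XT.nd (nat_lit 312) (nat_lit 760) (nat_lit 0) (XT.nd (nat_lit 156) (nat_lit 304)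 (nat_lit 0) (XT.nd (nat_lit 78) (nat_lit 304) (nat_lit 0) (XT.lf (nat_lit 0) (nat_lit 1463827272) (nat_lit 304) (nat_lit 8172658273) (nat_lit 76) (nat_lit 2739008308) (nat_lit 143) (nat_lit 5) (nat_lit 147) (nat_lit 5) (nat_lit 144) (nat_lit 5) (nat_lit 463) (nat_lit 399) (nat_lit 338)) (XT.lf (nat_lit 0) (nat_lit 145209382) (nat_lit 304) (nat_lit 5051960960) (nat_lit 380) (nat_lit 7389991906) (nat_lit 139) (nat_lit 5) (nat_lit 143) (nat_lit 5) (nat_lit 144) (nat_lit 5) (nat_lit 464) (nat_lit 399) (nat_lit 337))) (XT.nd (nat_lit 78) (nat_lit 304) (nat_lit 0) (XT.lf (nat_lit 0) (nat_lit 8818291775) (nat_lit 304) (nat_lit 267792772) (nat_lit 380) (nat_lit 3717791802) (nat_lit 139) (nat_lit 5) (nat_lit 143) (nat_lit 5) (nat_lit 144) (nat_lit 5) (nat_lit 465) (nat_lit 399) (nat_lit 336)) (XT.lf (nat_lit 0) (nat_lit 115866077) (nat_lit 304) (nat_lit 8316042005) (nat_lit 76) (nat_lit 4593591234) (nat_lit 135) (nat_lit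 5) (nat_lit 139) (nat_lit 5) (nat_lit 136) (nat_lit 5) (nat_lit 466) (nat_lit 399) (nat_lit 335)))) (XT.nd (nat_lit 156) (nat_lit 532) (nat_lit 0) (XT.nd (nat_lit 78) (nat_lit 0) (nat_lit 0) (XT.lf (nat_lit 0) (nat_lit 401325434) (nat_lit 228) (nat_lit 3597756126) (nat_lit 304) (nat_lit 9253309505) (nat_lit 132) (nat_lit 5) (nat_lit 135) (nat_lit 5) (nat_lit 136) (nat_lit 5) (nat_lit 467) (nat_lit 399) (nat_lit 334)) (XT.lf (nat_lit 0) (nat_lit 8059295985) (nat_lit 304) (nat_lit 4008430997) (nat_lit 76) (nat_lit 1416549981) (nat_lit 132) (nat_lit 5) (nat_lit 136) (nat_lit 5) (nat_lit 133) (nat_lit 5) (nat_lit 468) (nat_lit 399) (nat_lit 333))) (XT.nd (nat_lit 78) (nat_lit 304) (nat_lit 0) (XT.lf (nat_lit 0) (nat_lit 5103809594) (nat_lit 228) (nat_lit 7185700464) (nat_lit 304) (nat_lit 1432165980) (nat_lit 129) (nat_lit 5) (nat_lit 132) (nat_lit 5) (nat_lit 133) (nat_lit 5) (nat_lit 469) (nat_lit 399) (nat_lit 332))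 (XT.lf (nat_lit 0) (nat_lit 531012340) (nat_lit 228) (nat_lit 2106746022) (nat_lit 304) (nat_lit 11327379110) (nat_lit 125) (nat_lit 5) (nat_lit 128) (nat_lit 5) (nat_lit 129) (nat_lit 5) (nat_lit 470) (nat_lit 399) (nat_lit 331))))) (XT.nd (nat_lit 312) (nat_lit 608) (nat_lit 0) (XT.nd (nat_lit 156) (nat_lit 304) (nat_lit 0) (XT.nd (nat_lit 78) (nat_lit 228) (nat_lit 0) (XT.lf (nat_lit 0) (nat_lit 6882828581) (nat_lit 304) (nat_lit 4187407606) (nat_lit 76) (nat_lit 3142788362) (nat_lit 125) (nat_lit 5) (nat_lit 129) (nat_lit 5) (nat_lit 126) (nat_lit 5) (nat_lit 471) (nat_lit 399) (nat_lit 330)) (XT.lf (nat_lit 0) (nat_lit 5362183189) (nat_lit 228) (nat_lit 5930435003) (nat_lit 304) (nat_lit 3174611157) (nat_lit 122) (nat_lit 5) (nat_lit 125) (nat_lit 5) (nat_lit 126) (nat_lit 5) (nat_lit 472) (nat_lit 399) (nat_lit 329))) (XT.nd (nat_lit 78) (nat_lit 0) (nat_lit 0) (XT.lf (nat_lit 0) (nat_lit 496519670) (nat_lit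 228) (nat_lit 600107624) (nat_lit 304) (nat_lit 13631739332) (nat_lit 118) (nat_lit 5) (nat_lit 121) (nat_lit 5) (nat_lit 122) (nat_lit 5) (nat_lit 473) (nat_lit 399) (nat_lit 328)) (XT.lf (nat_lit 0) (nat_lit 5537377554) (nat_lit 304) (nat_lit 4559819693) (nat_lit 76) (nat_lit 4896044330) (nat_lit 118) (nat_lit 5) (nat_lit 122) (nat_lit 5) (nat_lit 119) (nat_lit 5) (nat_lit 474) (nat_lit 399) (nat_lit 327)))) (XT.nd (nat_lit 156) (nat_lit 228) (nat_lit 0) (XT.nd (nat_lit 78) (nat_lit 228) (nat_lit 0) (XT.lf (nat_lit 0) (nat_lit 5445733449) (nat_lit 152) (nat_lit 4690237164) (nat_lit 228) (nat_lit 5129355450) (nat_lit 116) (nat_lit 5) (nat_lit 118) (nat_lit 5) (nat_lit 119) (nat_lit 5) (nat_lit 475) (nat_lit 399) (nat_lit 326)) (XT.lf (nat_lit 0) (nat_lit 239321844) (nat_lit 228) (nat_lit 14656996770) (nat_lit 304) (nat_lit 648542392) (nat_lit 113) (nat_lit 5) (nat_lit 116) (nat_lit 5) (nat_lit 117) (nat_lit 5)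 (nat_lit 476) (nat_lit 399) (nat_lit 325))) (XT.nd (nat_lit 78) (nat_lit 152) (nat_lit 0) (XT.lf (nat_lit 0) (nat_lit 4002517048) (nat_lit 304) (nat_lit 5171343241) (nat_lit 76) (nat_lit 6654382736) (nat_lit 112) (nat_lit 5) (nat_lit 116) (nat_lit 5) (nat_lit 113) (nat_lit 5) (nat_lit 477) (nat_lit 399) (nat_lit 324)) (XT.lf (nat_lit 0) (nat_lit 5308430645) (nat_lit 152) (nat_lit 3490289972) (nat_lit 228) (nat_lit 7320655511) (nat_lit 110) (nat_lit 5) (nat_lit 112) (nat_lit 5) (nat_lit 113) (nat_lit 5) (nat_lit 478) (nat_lit 399) (nat_lit 323))))))))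
noncomputable def xc95 : XT := (XT.nd (nat_lit 2340) (nat_lit 2052) (nat_lit 0) (XT.nd (nat_lit 1170) (nat_lit 1596) (nat_lit 0) (XT.nd (nat_lit 546) (nat_lit 912) (nat_lit 0) (XT.nd (nat_lit 234) (nat_lit 380) (nat_lit 0) (XT.nd (nat_lit 78) (nat_lit 456) (nat_lit 0) (XT.lf (nat_lit 0) (nat_lit 13782081156) (nat_lit 228) (nat_lit 288117243) (nat_lit 76) (nat_lit 2347748331) (nat_lit 110) (nat_lit 5) (nat_lit 113) (nat_lit 5) (nat_lit 111) (nat_lit 5) (nat_lit 479) (nat_lit 399) (nat_lit 322)) (XT.nd (nat_lit 78) (nat_lit 152) (nat_lit 0) (XT.lf (nat_lit 0) (nat_lit 2253661690) (nat_lit 304) (nat_lit 6074529813) (nat_lit 76) (nat_lit 8393445549) (nat_lit 106) (nat_lit 5) (nat_lit 110) (nat_lit 5) (nat_lit 107) (nat_lit 5) (nat_lit 480) (nat_lit 399) (nat_lit 321)) (XT.lf (nat_lit 0) (nat_lit 4897105730) (nat_lit 152) (nat_lit 2358639216) (nat_lit 228) (nat_lit 9777346248) (nat_lit 104) (nat_lit 5) (nat_lit 106)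 (nat_lit 5) (nat_lit 107) (nat_lit 5) (nat_lit 481) (nat_lit 399) (nat_lit 320)))) (XT.nd (nat_lit 156) (nat_lit 152) (nat_lit 0) (XT.nd (nat_lit 78) (nat_lit 228) (nat_lit 0) (XT.lf (nat_lit 0) (nat_lit 12475277261) (nat_lit 228) (nat_lit 1121119132) (nat_lit 76) (nat_lit 3755472421) (nat_lit 104) (nat_lit 5) (nat_lit 107) (nat_lit 5) (nat_lit 105) (nat_lit 5) (nat_lit 482) (nat_lit 399) (nat_lit 319)) (XT.lf (nat_lit 0) (nat_lit 261514487) (nat_lit 228) (nat_lit 7330045175) (nat_lit 76) (nat_lit 10085792027) (nat_lit 101) (nat_lit 5) (nat_lit 104) (nat_lit 5) (nat_lit 102) (nat_lit 5) (nat_lit 483) (nat_lit 399) (nat_lit 318))) (XT.nd (nat_lit 78) (nat_lit 0) (nat_lit 0) (XT.lf (nat_lit 0) (nat_lit 4150158513) (nat_lit 152) (nat_lit 1326904639) (nat_lit 228) (nat_lit 12533449310) (nat_lit 99) (nat_lit 5) (nat_lit 101) (nat_lit 5) (nat_lit 102) (nat_lit 5) (nat_lit 484) (nat_lit 399) (nat_lit 317)) (XT.lf (nat_lit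 0) (nat_lit 10943239874) (nat_lit 228) (nat_lit 2329515398) (nat_lit 76) (nat_lit 5078089226) (nat_lit 99) (nat_lit 5) (nat_lit 102) (nat_lit 5) (nat_lit 100) (nat_lit 5) (nat_lit 485) (nat_lit 399) (nat_lit 316))))) (XT.nd (nat_lit 312) (nat_lit 380) (nat_lit 0) (XT.nd (nat_lit 156) (nat_lit 152) (nat_lit 0) (XT.nd (nat_lit 78) (nat_lit 228) (nat_lit 0) (XT.lf (nat_lit 0) (nat_lit 9671287800) (nat_lit 152) (nat_lit 6979226241) (nat_lit 228) (nat_lit 2048560341) (nat_lit 97) (nat_lit 5) (nat_lit 99) (nat_lit 5) (nat_lit 100) (nat_lit 5) (nat_lit 486) (nat_lit 399) (nat_lit 315)) (XT.lf (nat_lit 0) (nat_lit 2996069835) (nat_lit 152) (nat_lit 431082446) (nat_lit 228) (nat_lit 15628890015) (nat_lit 94) (nat_lit 5) (nat_lit 96) (nat_lit 5) (nat_lit 97) (nat_lit 5) (nat_lit 487) (nat_lit 399) (nat_lit 314))) (XT.nd (nat_lit 78) (nat_lit 152) (nat_lit 0) (XT.lf (nat_lit 0) (nat_lit 9149928742) (nat_lit 228) (nat_lit 3988907863)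 (nat_lit 76) (nat_lit 6280556310) (nat_lit 94) (nat_lit 5) (nat_lit 97) (nat_lit 5) (nat_lit 95) (nat_lit 5) (nat_lit 488) (nat_lit 399) (nat_lit 313)) (XT.lf (nat_lit 0) (nat_lit 8556749290) (nat_lit 152) (nat_lit 6546210219) (nat_lit 228) (nat_lit 4688928524) (nat_lit 92) (nat_lit 5) (nat_lit 94) (nat_lit 5) (nat_lit 95) (nat_lit 5) (nat_lit 489) (nat_lit 399) (nat_lit 312)))) (XT.nd (nat_lit 156) (nat_lit 152) (nat_lit 0) (XT.nd (nat_lit 78) (nat_lit 0) (nat_lit 0) (XT.lf (nat_lit 0) (nat_lit 1066905591) (nat_lit 228) (nat_lit 18825559210) (nat_lit 76) (nat_lit 281932419) (nat_lit 89) (nat_lit 5) (nat_lit 92) (nat_lit 5) (nat_lit 90) (nat_lit 5) (nat_lit 490) (nat_lit 399) (nat_lit 311)) (XT.lf (nat_lit 0) (nat_lit 7052793033) (nat_lit 228) (nat_lit 6187125208) (nat_lit 76) (nat_lit 7322523076) (nat_lit 89) (nat_lit 5) (nat_lit 92) (nat_lit 5) (nat_lit 90) (nat_lit 5) (nat_lit 491) (nat_lit 399) (nat_lit 310)))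 (XT.nd (nat_lit 78) (nat_lit 0) (nat_lit 0) (XT.lf (nat_lit 0) (nat_lit 6916467576) (nat_lit 152) (nat_lit 6341314638) (nat_lit 228) (nat_lit 7703159755) (nat_lit 87) (nat_lit 5) (nat_lit 89) (nat_lit 5) (nat_lit 90) (nat_lit 5) (nat_lit 492) (nat_lit 399) (nat_lit 309)) (XT.lf (nat_lit 0) (nat_lit 19692513017) (nat_lit 228) (nat_lit 886559865) (nat_lit 76) (nat_lit 791017960) (nat_lit 87) (nat_lit 5) (nat_lit 90) (nat_lit 5) (nat_lit 88) (nat_lit 4) (nat_lit 493) (nat_lit 399) (nat_lit 308)))))) (XT.nd (nat_lit 546) (nat_lit 836) (nat_lit 0) (XT.nd (nat_lit 234) (nat_lit 380) (nat_lit 0) (XT.nd (nat_lit 78) (nat_lit 152) (nat_lit 0) (XT.lf (nat_lit 0) (nat_lit 4601791528) (nat_lit 228) (nat_lit 9026287681) (nat_lit 76) (nat_lit 8157288098) (nat_lit 84) (nat_lit 5) (nat_lit 87) (nat_lit 5) (nat_lit 85) (nat_lit 5) (nat_lit 494) (nat_lit 399) (nat_lit 307)) (XT.nd (nat_lit 78) (nat_lit 0) (nat_lit 0) (XT.lf (nat_lit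 0) (nat_lit 4645692158) (nat_lit 152) (nat_lit 6417811575) (nat_lit 228) (nat_lit 11148270537) (nat_lit 82) (nat_lit 5) (nat_lit 84) (nat_lit 5) (nat_lit 85) (nat_lit 5) (nat_lit 495) (nat_lit 399) (nat_lit 306)) (XT.lf (nat_lit 0) (nat_lit 17794892580) (nat_lit 228) (nat_lit 3793766978) (nat_lit 76) (nat_lit 1060039978) (nat_lit 82) (nat_lit 5) (nat_lit 85) (nat_lit 5) (nat_lit 83) (nat_lit 4) (nat_lit 496) (nat_lit 399) (nat_lit 305)))) (XT.nd (nat_lit 156) (nat_lit 76) (nat_lit 0) (XT.nd (nat_lit 78) (nat_lit 152) (nat_lit 0) (XT.lf (nat_lit 0) (nat_lit 1738248068) (nat_lit 152) (nat_lit 12625195426) (nat_lit 76) (nat_lit 8730603317) (nat_lit 80) (nat_lit 5) (nat_lit 82) (nat_lit 5) (nat_lit 81) (nat_lit 5) (nat_lit 497) (nat_lit 399) (nat_lit 304)) (XT.lf (nat_lit 0) (nat_lit 1622287421) (nat_lit 152) (nat_lit 6837381399) (nat_lit 228) (nat_lit 15090769914) (nat_lit 78) (nat_lit 5) (nat_lit 80) (nat_lit 5) (nat_lit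 81) (nat_lit 5) (nat_lit 498) (nat_lit 399) (nat_lit 303))) (XT.nd (nat_lit 78) (nat_lit 76) (nat_lit 0) (XT.lf (nat_lit 0) (nat_lit 15495238314) (nat_lit 228) (nat_lit 7517282575) (nat_lit 76) (nat_lit 1004627099) (nat_lit 78) (nat_lit 5) (nat_lit 81) (nat_lit 5) (nat_lit 79) (nat_lit 4) (nat_lit 499) (nat_lit 399) (nat_lit 302)) (XT.lf (nat_lit 0) (nat_lit 7356593197) (nat_lit 76) (nat_lit 15499387578) (nat_lit 152) (nat_lit 1638455304) (nat_lit 77) (nat_lit 5) (nat_lit 78) (nat_lit 5) (nat_lit 79) (nat_lit 4) (nat_lit 500) (nat_lit 399) (nat_lit 301))))) (XT.nd (nat_lit 312) (nat_lit 456) (nat_lit 0) (XT.nd (nat_lit 156) (nat_lit 152) (nat_lit 0) (XT.nd (nat_lit 78) (nat_lit 152) (nat_lit 0) (XT.lf (nat_lit 0) (nat_lit 5397517963) (nat_lit 152) (nat_lit 2251354693) (nat_lit 76) (nat_lit 17334026942) (nat_lit 76) (nat_lit 5) (nat_lit 78) (nat_lit 5) (nat_lit 77) (nat_lit 5) (nat_lit 501) (nat_lit 399) (nat_lit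 300)) (XT.lf (nat_lit 0) (nat_lit 12721172378) (nat_lit 228) (nat_lit 12207077576) (nat_lit 76) (nat_lit 553995073) (nat_lit 74) (nat_lit 5) (nat_lit 77) (nat_lit 5) (nat_lit 75) (nat_lit 4) (nat_lit 502) (nat_lit 399) (nat_lit 299))) (XT.nd (nat_lit 78) (nat_lit 76) (nat_lit 0) (XT.lf (nat_lit 0) (nat_lit 3261458657) (nat_lit 76) (nat_lit 17109633261) (nat_lit 152) (nat_lit 5622282890) (nat_lit 73) (nat_lit 5) (nat_lit 74) (nat_lit 5) (nat_lit 75) (nat_lit 4) (nat_lit 503) (nat_lit 399) (nat_lit 298)) (XT.lf (nat_lit 0) (nat_lit 1797935520) (nat_lit 152) (nat_lit 7133723990) (nat_lit 76) (nat_lit 17584649401) (nat_lit 72) (nat_lit 5) (nat_lit 74) (nat_lit 5) (nat_lit 73) (nat_lit 5) (nat_lit 504) (nat_lit 399) (nat_lit 297)))) (XT.nd (nat_lit 156) (nat_lit 304) (nat_lit 0) (XT.nd (nat_lit 78) (nat_lit 0) (nat_lit 0) (XT.lf (nat_lit 0) (nat_lit 9009833032) (nat_lit 152) (nat_lit 381764763) (nat_lit 228) (nat_lit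 17659748666) (nat_lit 70) (nat_lit 5) (nat_lit 72) (nat_lit 5) (nat_lit 73) (nat_lit 5) (nat_lit 505) (nat_lit 399) (nat_lit 296)) (XT.lf (nat_lit 0) (nat_lit 17344100207) (nat_lit 228) (nat_lit 1940834570) (nat_lit 76) (nat_lit 8313570034) (nat_lit 70) (nat_lit 5) (nat_lit 73) (nat_lit 5) (nat_lit 71) (nat_lit 4) (nat_lit 506) (nat_lit 399) (nat_lit 295))) (XT.nd (nat_lit 78) (nat_lit 228) (nat_lit 0) (XT.lf (nat_lit 0) (nat_lit 14888055120) (nat_lit 76) (nat_lit 10771974485) (nat_lit 152) (nat_lit 2498303311) (nat_lit 69) (nat_lit 5) (nat_lit 70) (nat_lit 5) (nat_lit 71) (nat_lit 4) (nat_lit 507) (nat_lit 399) (nat_lit 294)) (XT.lf (nat_lit 0) (nat_lit 3500993373) (nat_lit 152) (nat_lit 1913784083) (nat_lit 228) (nat_lit 23317652538) (nat_lit 66) (nat_lit 5) (nat_lit 68) (nat_lit 5) (nat_lit 69) (nat_lit 5) (nat_lit 508) (nat_lit 399) (nat_lit 293))))))) (XT.nd (nat_lit 1170) (nat_lit 988) (nat_lit 0) (XT.nd (nat_lit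 546) (nat_lit 456) (nat_lit 0) (XT.nd (nat_lit 234) (nat_lit 456) (nat_lit 0) (XT.nd (nat_lit 78) (nat_lit 152) (nat_lit 0) (XT.lf (nat_lit 0) (nat_lit 13697724071) (nat_lit 228) (nat_lit 8409310133) (nat_lit 76) (nat_lit 7210493621) (nat_lit 66) (nat_lit 5) (nat_lit 69) (nat_lit 5) (nat_lit 67) (nat_lit 4) (nat_lit 509) (nat_lit 399) (nat_lit 292)) (XT.nd (nat_lit 78) (nat_lit 76) (nat_lit 0) (XT.lf (nat_lit 0) (nat_lit 9034398472) (nat_lit 76) (nat_lit 13279240414) (nat_lit 152) (nat_lit 7604005812) (nat_lit 65) (nat_lit 5) (nat_lit 66) (nat_lit 5) (nat_lit 67) (nat_lit 4) (nat_lit 510) (nat_lit 399) (nat_lit 291)) (XT.lf (nat_lit 0) (nat_lit 704010402) (nat_lit 152) (nat_lit 3406982085) (nat_lit 76) (nat_lit 26422650789) (nat_lit 64) (nat_lit 5) (nat_lit 66) (nat_lit 5) (nat_lit 65) (nat_lit 5) (nat_lit 511) (nat_lit 399) (nat_lit 290)))) (XT.nd (nat_lit 156) (nat_lit 228) (nat_lit 0) (XT.nd (nat_lit 78) (nat_lit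 76) (nat_lit 0) (XT.lf (nat_lit 0) (nat_lit 9282948553) (nat_lit 228) (nat_lit 16448287471) (nat_lit 76) (nat_lit 5429392197) (nat_lit 62) (nat_lit 5) (nat_lit 65) (nat_lit 5) (nat_lit 63) (nat_lit 4) (nat_lit 512) (nat_lit 399) (nat_lit 289)) (XT.lf (nat_lit 0) (nat_lit 1590354915) (nat_lit 76) (nat_lit 16599019511) (nat_lit 152) (nat_lit 13614945146) (nat_lit 61) (nat_lit 5) (nat_lit 62) (nat_lit 5) (nat_lit 63) (nat_lit 4) (nat_lit 513) (nat_lit 399) (nat_lit 288))) (XT.nd (nat_lit 78) (nat_lit 228) (nat_lit 0) (XT.lf (nat_lit 0) (nat_lit 20468388333) (nat_lit 76) (nat_lit 7040311052) (nat_lit 152) (nat_lit 4954251522) (nat_lit 61) (nat_lit 5) (nat_lit 62) (nat_lit 5) (nat_lit 63) (nat_lit 4) (nat_lit 514) (nat_lit 399) (nat_lit 287)) (XT.lf (nat_lit 0) (nat_lit 3962330460) (nat_lit 228) (nat_lit 26338310819) (nat_lit 76) (nat_lit 2837352616) (nat_lit 58) (nat_lit 5) (nat_lit 61) (nat_lit 5) (nat_lit 59) (nat_lit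 4) (nat_lit 515) (nat_lit 399) (nat_lit 286))))) (XT.nd (nat_lit 312) (nat_lit 228) (nat_lit 0) (XT.nd (nat_lit 156) (nat_lit 152) (nat_lit 0) (XT.nd (nat_lit 78) (nat_lit 76) (nat_lit 0) (XT.lf (nat_lit 0) (nat_lit 13218914535) (nat_lit 228) (nat_lit 7584230409) (nat_lit 76) (nat_lit 13023509658) (nat_lit 58) (nat_lit 5) (nat_lit 61) (nat_lit 5) (nat_lit 59) (nat_lit 4) (nat_lit 516) (nat_lit 399) (nat_lit 285)) (XT.lf (nat_lit 0) (nat_lit 11928095146) (nat_lit 76) (nat_lit 10920395448) (nat_lit 152) (nat_lit 11684626085) (nat_lit 57) (nat_lit 5) (nat_lit 58) (nat_lit 5) (nat_lit 59) (nat_lit 4) (nat_lit 517) (nat_lit 399) (nat_lit 284))) (XT.nd (nat_lit 78) (nat_lit 152) (nat_lit 0) (XT.lf (nat_lit 0) (nat_lit 32144486484) (nat_lit 76) (nat_lit 679898187) (nat_lit 152) (nat_lit 2434665399) (nat_lit 57) (nat_lit 5) (nat_lit 58) (nat_lit 5) (nat_lit 59) (nat_lit 4) (nat_lit 518) (nat_lit 399) (nat_lit 283)) (XT.lf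 (nat_lit 0) (nat_lit 7197865294) (nat_lit 152) (nat_lit 18905496680) (nat_lit 76) (nat_lit 9894050117) (nat_lit 55) (nat_lit 5) (nat_lit 57) (nat_lit 5) (nat_lit 56) (nat_lit 4) (nat_lit 519) (nat_lit 399) (nat_lit 282)))) (XT.nd (nat_lit 156) (nat_lit 152) (nat_lit 0) (XT.nd (nat_lit 78) (nat_lit 0) (nat_lit 0) (XT.lf (nat_lit 0) (nat_lit 1166960237) (nat_lit 76) (nat_lit 15934446045) (nat_lit 152) (nat_lit 19654866801) (nat_lit 54) (nat_lit 5) (nat_lit 55) (nat_lit 5) (nat_lit 56) (nat_lit 4) (nat_lit 520) (nat_lit 399) (nat_lit 281)) (XT.lf (nat_lit 0) (nat_lit 22193373545) (nat_lit 76) (nat_lit 5281047705) (nat_lit 152) (nat_lit 10058307952) (nat_lit 54) (nat_lit 5) (nat_lit 55) (nat_lit 5) (nat_lit 56) (nat_lit 4) (nat_lit 521) (nat_lit 399) (nat_lit 280))) (XT.nd (nat_lit 78) (nat_lit 76) (nat_lit 0) (XT.lf (nat_lit 0) (nat_lit 5536319759) (nat_lit 76) (nat_lit 32712078539) (nat_lit 76) (nat_lit 81387880)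 (nat_lit 53) (nat_lit 4) (nat_lit 54) (nat_lit 5) (nat_lit 54) (nat_lit 4) (nat_lit 522) (nat_lit 399) (nat_lit 279)) (XT.lf (nat_lit 0) (nat_lit 10186475701) (nat_lit 152) (nat_lit 11980337825) (nat_lit 76) (nat_lit 16975284451) (nat_lit 52) (nat_lit 5) (nat_lit 54) (nat_lit 5) (nat_lit 53) (nat_lit 4) (nat_lit 523) (nat_lit 399) (nat_lit 278)))))) (XT.nd (nat_lit 624) (nat_lit 532) (nat_lit 0) (XT.nd (nat_lit 312) (nat_lit 228) (nat_lit 0) (XT.nd (nat_lit 156) (nat_lit 152) (nat_lit 0) (XT.nd (nat_lit 78) (nat_lit 0) (nat_lit 0) (XT.lf (nat_lit 0) (nat_lit 9609806769) (nat_lit 76) (nat_lit 11225691731) (nat_lit 152) (nat_lit 19141013975) (nat_lit 51) (nat_lit 5) (nat_lit 52) (nat_lit 5) (nat_lit 53) (nat_lit 4) (nat_lit 524) (nat_lit 399) (nat_lit 277)) (XT.lf (nat_lit 0) (nat_lit 31909002795) (nat_lit 152) (nat_lit 8774832559) (nat_lit 0) (nat_lit 148974015) (nat_lit 51) (nat_lit 5) (nat_lit 53) (nat_lit 4) (nat_lit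 51) (nat_lit 4) (nat_lit 525) (nat_lit 399) (nat_lit 276))) (XT.nd (nat_lit 78) (nat_lit 0) (nat_lit 0) (XT.lf (nat_lit 0) (nat_lit 1795587381) (nat_lit 152) (nat_lit 28140035370) (nat_lit 76) (nat_lit 11771904593) (nat_lit 49) (nat_lit 5) (nat_lit 51) (nat_lit 5) (nat_lit 50) (nat_lit 4) (nat_lit 526) (nat_lit 399) (nat_lit 275)) (XT.lf (nat_lit 0) (nat_lit 12729631331) (nat_lit 152) (nat_lit 5968245541) (nat_lit 76) (nat_lit 23905786774) (nat_lit 49) (nat_lit 5) (nat_lit 51) (nat_lit 5) (nat_lit 50) (nat_lit 4) (nat_lit 527) (nat_lit 399) (nat_lit 274)))) (XT.nd (nat_lit 156) (nat_lit 152) (nat_lit 0) (XT.nd (nat_lit 78) (nat_lit 0) (nat_lit 0) (XT.lf (nat_lit 0) (nat_lit 17171596299) (nat_lit 76) (nat_lit 6968602963) (nat_lit 152) (nat_lit 19382029950) (nat_lit 48) (nat_lit 5) (nat_lit 49) (nat_lit 5) (nat_lit 50) (nat_lit 4) (nat_lit 528) (nat_lit 399) (nat_lit 273)) (XT.lf (nat_lit 0) (nat_lit 35986559483)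 (nat_lit 152) (nat_lit 3420517663) (nat_lit 0) (nat_lit 5058470587) (nat_lit 48) (nat_lit 5) (nat_lit 50) (nat_lit 4) (nat_lit 48) (nat_lit 4) (nat_lit 529) (nat_lit 399) (nat_lit 272))) (XT.nd (nat_lit 78) (nat_lit 0) (nat_lit 0) (XT.lf (nat_lit 0) (nat_lit 2949910090) (nat_lit 152) (nat_lit 24961378876) (nat_lit 76) (nat_lit 17517510202) (nat_lit 46) (nat_lit 5) (nat_lit 48) (nat_lit 5) (nat_lit 47) (nat_lit 4) (nat_lit 530) (nat_lit 399) (nat_lit 271)) (XT.lf (nat_lit 0) (nat_lit 14570098628) (nat_lit 152) (nat_lit 1393374266) (nat_lit 76) (nat_lit 30454391691) (nat_lit 46) (nat_lit 5) (nat_lit 48) (nat_lit 5) (nat_lit 47) (nat_lit 4) (nat_lit 531) (nat_lit 399) (nat_lit 270))))) (XT.nd (nat_lit 312) (nat_lit 228) (nat_lit 0) (XT.nd (nat_lit 156) (nat_lit 152) (nat_lit 0) (XT.nd (nat_lit 78) (nat_lit 76) (nat_lit 0) (XT.lf (nat_lit 0) (nat_lit 23306083674) (nat_lit 76) (nat_lit 3441268671) (nat_lit 152) (nat_lit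 20682996050) (nat_lit 45) (nat_lit 5) (nat_lit 46) (nat_lit 5) (nat_lit 47) (nat_lit 4) (nat_lit 532) (nat_lit 399) (nat_lit 269)) (XT.lf (nat_lit 0) (nat_lit 184465017) (nat_lit 76) (nat_lit 39196794838) (nat_lit 76) (nat_lit 9089206994) (nat_lit 44) (nat_lit 4) (nat_lit 45) (nat_lit 5) (nat_lit 45) (nat_lit 4) (nat_lit 533) (nat_lit 399) (nat_lit 268))) (XT.nd (nat_lit 78) (nat_lit 76) (nat_lit 0) (XT.lf (nat_lit 0) (nat_lit 3061288640) (nat_lit 152) (nat_lit 23911810693) (nat_lit 76) (nat_lit 22559930551) (nat_lit 43) (nat_lit 5) (nat_lit 45) (nat_lit 5) (nat_lit 44) (nat_lit 4) (nat_lit 534) (nat_lit 399) (nat_lit 267)) (XT.lf (nat_lit 0) (nat_lit 1095468632) (nat_lit 76) (nat_lit 14293591060) (nat_lit 152) (nat_lit 35235847210) (nat_lit 42) (nat_lit 5) (nat_lit 43) (nat_lit 5) (nat_lit 44) (nat_lit 4) (nat_lit 535) (nat_lit 399) (nat_lit 266)))) (XT.nd (nat_lit 156) (nat_lit 152) (nat_lit 0) (XT.nd (nat_lit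 78) (nat_lit 76) (nat_lit 0) (XT.lf (nat_lit 0) (nat_lit 27313902505) (nat_lit 76) (nat_lit 999296457) (nat_lit 152) (nat_lit 23429545403) (nat_lit 42) (nat_lit 5) (nat_lit 43) (nat_lit 5) (nat_lit 44) (nat_lit 4) (nat_lit 536) (nat_lit 399) (nat_lit 265)) (XT.lf (nat_lit 0) (nat_lit 1299425552) (nat_lit 76) (nat_lit 40445522518) (nat_lit 76) (nat_lit 11145572497) (nat_lit 41) (nat_lit 4) (nat_lit 42) (nat_lit 5) (nat_lit 42) (nat_lit 4) (nat_lit 537) (nat_lit 399) (nat_lit 264))) (XT.nd (nat_lit 78) (nat_lit 76) (nat_lit 0) (XT.lf (nat_lit 0) (nat_lit 1721917478) (nat_lit 152) (nat_lit 25820535522) (nat_lit 76) (nat_lit 26522510565) (nat_lit 40) (nat_lit 5) (nat_lit 42) (nat_lit 5) (nat_lit 41) (nat_lit 4) (nat_lit 538) (nat_lit 399) (nat_lit 263)) (XT.lf (nat_lit 0) (nat_lit 596573145) (nat_lit 76) (nat_lit 14146387859) (nat_lit 152) (nat_lit 40528622135) (nat_lit 39) (nat_lit 5) (nat_lit 40) (nat_lit 5) (nat_lit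 41) (nat_lit 4) (nat_lit 539) (nat_lit 399) (nat_lit 262))))))))
noncomputable def xc96 : XT := (XT.nd (nat_lit 52962) (nat_lit 0) (nat_lit 12312) (XT.nd (nat_lit 51792) (nat_lit 0) (nat_lit 26752) (XT.nd (nat_lit 546) (nat_lit 228) (nat_lit 0) (XT.nd (nat_lit 234) (nat_lit 228) (nat_lit 0) (XT.nd (nat_lit 78) (nat_lit 76) (nat_lit 0) (XT.lf (nat_lit 0) (nat_lit 28307907144) (nat_lit 76) (nat_lit 93422845) (nat_lit 152) (nat_lit 28105670650) (nat_lit 39) (nat_lit 5) (nat_lit 40) (nat_lit 5) (nat_lit 41) (nat_lit 4) (nat_lit 540) (nat_lit 399) (nat_lit 261)) (XT.nd (nat_lit 78) (nat_lit 76) (nat_lit 0) (XT.lf (nat_lit 0) (nat_lit 42593930283) (nat_lit 152) (nat_lit 1094202713) (nat_lit 0) (nat_lit 14087613420) (nat_lit 39) (nat_lit 5) (nat_lit 41) (nat_lit 4) (nat_lit 39) (nat_lit 4) (nat_lit 541) (nat_lit 399) (nat_lit 260)) (XT.lf (nat_lit 0) (nat_lit 27329940656) (nat_lit 76) (nat_lit 30132645799) (nat_lit 76)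 (nat_lit 1612459927) (nat_lit 38) (nat_lit 4) (nat_lit 39) (nat_lit 5) (nat_lit 39) (nat_lit 4) (nat_lit 542) (nat_lit 399) (nat_lit 259)))) (XT.nd (nat_lit 156) (nat_lit 76) (nat_lit 0) (XT.nd (nat_lit 78) (nat_lit 76) (nat_lit 0) (XT.lf (nat_lit 0) (nat_lit 12120518696) (nat_lit 152) (nat_lit 3928997973) (nat_lit 76) (nat_lit 44360309095) (nat_lit 37) (nat_lit 5) (nat_lit 39) (nat_lit 5) (nat_lit 38) (nat_lit 4) (nat_lit 543) (nat_lit 399) (nat_lit 258)) (XT.lf (nat_lit 0) (nat_lit 25171293175) (nat_lit 76) (nat_lit 1290784152) (nat_lit 152) (nat_lit 35315222410) (nat_lit 36) (nat_lit 5) (nat_lit 37) (nat_lit 5) (nat_lit 38) (nat_lit 4) (nat_lit 544) (nat_lit 399) (nat_lit 257))) (XT.nd (nat_lit 78) (nat_lit 76) (nat_lit 0) (XT.lf (nat_lit 0) (nat_lit 41394721684) (nat_lit 152) (nat_lit 8119117787) (nat_lit 0) (nat_lit 13667133424) (nat_lit 36) (nat_lit 5) (nat_lit 38) (nat_lit 4) (nat_lit 36) (nat_lit 4) (nat_lit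 545) (nat_lit 399) (nat_lit 256)) (XT.lf (nat_lit 0) (nat_lit 21606427810) (nat_lit 76) (nat_lit 35376821619) (nat_lit 76) (nat_lit 7637269829) (nat_lit 35) (nat_lit 4) (nat_lit 36) (nat_lit 5) (nat_lit 36) (nat_lit 4) (nat_lit 546) (nat_lit 399) (nat_lit 255))))) (XT.nd (nat_lit 312) (nat_lit 0) (nat_lit 0) (XT.nd (nat_lit 156) (nat_lit 76) (nat_lit 0) (XT.nd (nat_lit 78) (nat_lit 76) (nat_lit 0) (XT.lf (nat_lit 0) (nat_lit 6871066735) (nat_lit 152) (nat_lit 13802901393) (nat_lit 76) (nat_lit 45425176696) (nat_lit 34) (nat_lit 5) (nat_lit 36) (nat_lit 5) (nat_lit 35) (nat_lit 4) (nat_lit 547) (nat_lit 399) (nat_lit 254)) (XT.lf (nat_lit 0) (nat_lit 16507045810) (nat_lit 76) (nat_lit 5300584460) (nat_lit 152) (nat_lit 45807836160) (nat_lit 33) (nat_lit 5) (nat_lit 34) (nat_lit 5) (nat_lit 35) (nat_lit 4) (nat_lit 548) (nat_lit 399) (nat_lit 253))) (XT.nd (nat_lit 78) (nat_lit 76) (nat_lit 0) (XT.lf (nat_lit 0) (nat_lit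 37422127857) (nat_lit 152) (nat_lit 21290585189) (nat_lit 0) (nat_lit 10457669640) (nat_lit 33) (nat_lit 5) (nat_lit 35) (nat_lit 4) (nat_lit 33) (nat_lit 4) (nat_lit 549) (nat_lit 399) (nat_lit 252)) (XT.lf (nat_lit 0) (nat_lit 9531920876) (nat_lit 76) (nat_lit 44105417693) (nat_lit 76) (nat_lit 17130639630) (nat_lit 32) (nat_lit 4) (nat_lit 33) (nat_lit 5) (nat_lit 33) (nat_lit 4) (nat_lit 550) (nat_lit 399) (nat_lit 251)))) (XT.nd (nat_lit 50778) (nat_lit 0) (nat_lit 30628) (XT.nd (nat_lit 50700) (nat_lit 0) (nat_lit 30780) (XT.lf (nat_lit 0) (nat_lit 41692382014) (nat_lit 76) (nat_lit 28849909217) (nat_lit 76) (nat_lit 1865111887) (nat_lit 32) (nat_lit 4) (nat_lit 33) (nat_lit 5) (nat_lit 33) (nat_lit 4) (nat_lit 551) (nat_lit 399) (nat_lit 250)) (XT.lf (nat_lit 0) (nat_lit 1073741823) (nat_lit 0) (nat_lit 0) (nat_lit 0) (nat_lit 0) (nat_lit 437) (nat_lit 0) (nat_lit 1) (nat_lit 0) (nat_lit 1) (nat_lit 0) (nat_lit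 400) (nat_lit 400) (nat_lit 400))) (XT.nd (nat_lit 78) (nat_lit 76) (nat_lit 0) (XT.lf (nat_lit 0) (nat_lit 3161548732) (nat_lit 76) (nat_lit 3219547678) (nat_lit 0) (nat_lit 62291991) (nat_lit 436) (nat_lit 5) (nat_lit 437) (nat_lit 0) (nat_lit 436) (nat_lit 4) (nat_lit 401) (nat_lit 400) (nat_lit 399)) (XT.lf (nat_lit 0) (nat_lit 34711668) (nat_lit 76) (nat_lit 6260796274) (nat_lit 76) (nat_lit 152552407) (nat_lit 435) (nat_lit 4) (nat_lit 436) (nat_lit 5) (nat_lit 436) (nat_lit 4) (nat_lit 402) (nat_lit 400) (nat_lit 398)))))) (XT.nd (nat_lit 546) (nat_lit 2888) (nat_lit 0) (XT.nd (nat_lit 234) (nat_lit 684) (nat_lit 0) (XT.nd (nat_lit 78) (nat_lit 228) (nat_lit 0) (XT.lf (nat_lit 0) (nat_lit 2922487583) (nat_lit 152) (nat_lit 3096940797) (nat_lit 76) (nat_lit 435236163) (nat_lit 434) (nat_lit 5) (nat_lit 436) (nat_lit 5) (nat_lit 435) (nat_lit 4) (nat_lit 403) (nat_lit 400) (nat_lit 397)) (XT.nd (nat_lit 78)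 (nat_lit 76) (nat_lit 0) (XT.lf (nat_lit 0) (nat_lit 256629945) (nat_lit 152) (nat_lit 5715034829) (nat_lit 228) (nat_lit 493238672) (nat_lit 432) (nat_lit 5) (nat_lit 434) (nat_lit 5) (nat_lit 435) (nat_lit 4) (nat_lit 404) (nat_lit 400) (nat_lit 396)) (XT.lf (nat_lit 0) (nat_lit 2501112283) (nat_lit 228) (nat_lit 2793392476) (nat_lit 76) (nat_lit 1182742074) (nat_lit 431) (nat_lit 5) (nat_lit 434) (nat_lit 5) (nat_lit 432) (nat_lit 5) (nat_lit 405) (nat_lit 400) (nat_lit 395)))) (XT.nd (nat_lit 156) (nat_lit 380) (nat_lit 0) (XT.nd (nat_lit 78) (nat_lit 76) (nat_lit 0) (XT.lf (nat_lit 0) (nat_lit 666507497) (nat_lit 228) (nat_lit 4802771424) (nat_lit 304) (nat_lit 1023746005) (nat_lit 428) (nat_lit 5) (nat_lit 431) (nat_lit 5) (nat_lit 432) (nat_lit 5) (nat_lit 406) (nat_lit 400) (nat_lit 394)) (XT.lf (nat_lit 0) (nat_lit 1895368837) (nat_lit 304) (nat_lit 2307775863) (nat_lit 76) (nat_lit 2308050684) (nat_lit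 427) (nat_lit 5) (nat_lit 431) (nat_lit 5) (nat_lit 428) (nat_lit 5) (nat_lit 407) (nat_lit 400) (nat_lit 393))) (XT.nd (nat_lit 78) (nat_lit 76) (nat_lit 0) (XT.lf (nat_lit 0) (nat_lit 1265907836) (nat_lit 304) (nat_lit 3520004489) (nat_lit 380) (nat_lit 1746587113) (nat_lit 423) (nat_lit 5) (nat_lit 427) (nat_lit 5) (nat_lit 428) (nat_lit 5) (nat_lit 408) (nat_lit 400) (nat_lit 392)) (XT.lf (nat_lit 0) (nat_lit 1102391827) (nat_lit 380) (nat_lit 1638170776) (nat_lit 76) (nat_lit 3816038014) (nat_lit 422) (nat_lit 5) (nat_lit 427) (nat_lit 5) (nat_lit 423) (nat_lit 5) (nat_lit 409) (nat_lit 400) (nat_lit 391))))) (XT.nd (nat_lit 312) (nat_lit 1444) (nat_lit 0) (XT.nd (nat_lit 156) (nat_lit 988) (nat_lit 0) (XT.nd (nat_lit 78) (nat_lit 76) (nat_lit 0) (XT.lf (nat_lit 0) (nat_lit 2057208925) (nat_lit 380) (nat_lit 1861111637) (nat_lit 456) (nat_lit 2665111273) (nat_lit 417) (nat_lit 5) (nat_lit 422) (nat_lit 5) (nat_lit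 423) (nat_lit 5) (nat_lit 410) (nat_lit 400) (nat_lit 390)) (XT.lf (nat_lit 0) (nat_lit 118492061) (nat_lit 456) (nat_lit 781858796) (nat_lit 76) (nat_lit 5713232701) (nat_lit 416) (nat_lit 5) (nat_lit 422) (nat_lit 5) (nat_lit 417) (nat_lit 5) (nat_lit 411) (nat_lit 400) (nat_lit 389))) (XT.nd (nat_lit 78) (nat_lit 532) (nat_lit 0) (XT.lf (nat_lit 0) (nat_lit 2864180591) (nat_lit 532) (nat_lit 3604089387) (nat_lit 76) (nat_lit 177635305) (nat_lit 410) (nat_lit 5) (nat_lit 417) (nat_lit 5) (nat_lit 411) (nat_lit 5) (nat_lit 412) (nat_lit 400) (nat_lit 388)) (XT.lf (nat_lit 0) (nat_lit 246244086) (nat_lit 532) (nat_lit 5368980139) (nat_lit 608) (nat_lit 1066303643) (nat_lit 403) (nat_lit 5) (nat_lit 410) (nat_lit 5) (nat_lit 411) (nat_lit 5) (nat_lit 413) (nat_lit 400) (nat_lit 387)))) (XT.nd (nat_lit 156) (nat_lit 760) (nat_lit 0) (XT.nd (nat_lit 78) (nat_lit 608) (nat_lit 0) (XT.lf (nat_lit 0) (nat_lit 1638510744)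 (nat_lit 608) (nat_lit 2516248077) (nat_lit 76) (nat_lit 2564729783) (nat_lit 402) (nat_lit 5) (nat_lit 410) (nat_lit 5) (nat_lit 403) (nat_lit 5) (nat_lit 414) (nat_lit 400) (nat_lit 386)) (XT.lf (nat_lit 0) (nat_lit 1472423918) (nat_lit 608) (nat_lit 2852482383) (nat_lit 684) (nat_lit 2435728065) (nat_lit 394) (nat_lit 5) (nat_lit 402) (nat_lit 5) (nat_lit 403) (nat_lit 5) (nat_lit 415) (nat_lit 400) (nat_lit 385))) (XT.nd (nat_lit 78) (nat_lit 684) (nat_lit 0) (XT.lf (nat_lit 0) (nat_lit 217764709) (nat_lit 684) (nat_lit 1240237196) (nat_lit 76) (nat_lit 5346911505) (nat_lit 393) (nat_lit 5) (nat_lit 402) (nat_lit 5) (nat_lit 394) (nat_lit 5) (nat_lit 416) (nat_lit 400) (nat_lit 384)) (XT.lf (nat_lit 0) (nat_lit 2841791808) (nat_lit 760) (nat_lit 3955920457) (nat_lit 76) (nat_lit 53905891) (nat_lit 384) (nat_lit 5) (nat_lit 394) (nat_lit 5) (nat_lit 385) (nat_lit 5) (nat_lit 417) (nat_lit 400) (nat_lit 383)))))))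 (XT.nd (nat_lit 1170) (nat_lit 5776) (nat_lit 0) (XT.nd (nat_lit 546) (nat_lit 5016) (nat_lit 0) (XT.nd (nat_lit 234) (nat_lit 1976) (nat_lit 0) (XT.nd (nat_lit 78) (nat_lit 912) (nat_lit 0) (XT.lf (nat_lit 0) (nat_lit 203685646) (nat_lit 760) (nat_lit 5283577199) (nat_lit 836) (nat_lit 1414196368) (nat_lit 374) (nat_lit 5) (nat_lit 384) (nat_lit 5) (nat_lit 385) (nat_lit 5) (nat_lit 418) (nat_lit 400) (nat_lit 382)) (XT.nd (nat_lit 78) (nat_lit 836) (nat_lit 0) (XT.lf (nat_lit 0) (nat_lit 1189772419) (nat_lit 836) (nat_lit 2463492268) (nat_lit 76) (nat_lit 3300532255) (nat_lit 373) (nat_lit 5) (nat_lit 384) (nat_lit 5) (nat_lit 374) (nat_lit 5) (nat_lit 419) (nat_lit 400) (nat_lit 381)) (XT.lf (nat_lit 0) (nat_lit 1853412475) (nat_lit 836) (nat_lit 1925025304) (nat_lit 912) (nat_lit 3230812354) (nat_lit 362) (nat_lit 5) (nat_lit 373) (nat_lit 5) (nat_lit 374) (nat_lit 5) (nat_lit 420) (nat_lit 400) (nat_lit 380))))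 (XT.nd (nat_lit 156) (nat_lit 988) (nat_lit 0) (XT.nd (nat_lit 78) (nat_lit 988) (nat_lit 0) (XT.lf (nat_lit 0) (nat_lit 6284406380) (nat_lit 836) (nat_lit 104196927) (nat_lit 912) (nat_lit 679463393) (nat_lit 362) (nat_lit 5) (nat_lit 373) (nat_lit 5) (nat_lit 374) (nat_lit 5) (nat_lit 421) (nat_lit 400) (nat_lit 379)) (XT.lf (nat_lit 0) (nat_lit 1884274924) (nat_lit 988) (nat_lit 3439402251) (nat_lit 76) (nat_lit 1805206735) (nat_lit 349) (nat_lit 5) (nat_lit 362) (nat_lit 5) (nat_lit 350) (nat_lit 5) (nat_lit 422) (nat_lit 400) (nat_lit 378))) (XT.nd (nat_lit 78) (nat_lit 0) (nat_lit 0) (XT.lf (nat_lit 0) (nat_lit 1067160422) (nat_lit 988) (nat_lit 3385734491) (nat_lit 1064) (nat_lit 2740193835) (nat_lit 336) (nat_lit 5) (nat_lit 349) (nat_lit 5) (nat_lit 350) (nat_lit 5) (nat_lit 423) (nat_lit 400) (nat_lit 377)) (XT.lf (nat_lit 0) (nat_lit 5712665043) (nat_lit 988) (nat_lit 1344604185) (nat_lit 1064) (nat_lit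 203202943) (nat_lit 336) (nat_lit 5) (nat_lit 349) (nat_lit 5) (nat_lit 350) (nat_lit 5) (nat_lit 424) (nat_lit 400) (nat_lit 376))))) (XT.nd (nat_lit 312) (nat_lit 1444) (nat_lit 0) (XT.nd (nat_lit 156) (nat_lit 1292) (nat_lit 0) (XT.nd (nat_lit 78) (nat_lit 1140) (nat_lit 0) (XT.lf (nat_lit 0) (nat_lit 2326377238) (nat_lit 1140) (nat_lit 4198975072) (nat_lit 76) (nat_lit 804937215) (nat_lit 321) (nat_lit 5) (nat_lit 336) (nat_lit 5) (nat_lit 322) (nat_lit 5) (nat_lit 425) (nat_lit 400) (nat_lit 375)) (XT.lf (nat_lit 0) (nat_lit 507290245) (nat_lit 1140) (nat_lit 4381491206) (nat_lit 1216) (nat_lit 2514541150) (nat_lit 306) (nat_lit 5) (nat_lit 321) (nat_lit 5) (nat_lit 322) (nat_lit 5) (nat_lit 426) (nat_lit 400) (nat_lit 374))) (XT.nd (nat_lit 78) (nat_lit 1216) (nat_lit 0) (XT.lf (nat_lit 0) (nat_lit 19172097) (nat_lit 1216) (nat_lit 2106069187) (nat_lit 76) (nat_lit 5354183778) (nat_lit 305) (nat_lit 5) (nat_lit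 321) (nat_lit 5) (nat_lit 306) (nat_lit 5) (nat_lit 427) (nat_lit 400) (nat_lit 373)) (XT.lf (nat_lit 0) (nat_lit 2537543436) (nat_lit 1292) (nat_lit 4770395333) (nat_lit 76) (nat_lit 250360488) (nat_lit 289) (nat_lit 5) (nat_lit 306) (nat_lit 5) (nat_lit 290) (nat_lit 5) (nat_lit 428) (nat_lit 400) (nat_lit 372)))) (XT.nd (nat_lit 156) (nat_lit 608) (nat_lit 0) (XT.nd (nat_lit 78) (nat_lit 76) (nat_lit 0) (XT.lf (nat_lit 0) (nat_lit 146413159) (nat_lit 760) (nat_lit 4960320212) (nat_lit 836) (nat_lit 2533559110) (nat_lit 279) (nat_lit 5) (nat_lit 289) (nat_lit 5) (nat_lit 290) (nat_lit 5) (nat_lit 429) (nat_lit 400) (nat_lit 371)) (XT.lf (nat_lit 0) (nat_lit 8365390) (nat_lit 836) (nat_lit 2484387829) (nat_lit 76) (nat_lit 5232574441) (nat_lit 278) (nat_lit 5) (nat_lit 289) (nat_lit 5) (nat_lit 279) (nat_lit 5) (nat_lit 430) (nat_lit 400) (nat_lit 370))) (XT.nd (nat_lit 78) (nat_lit 0) (nat_lit 0) (XT.lf (nat_lit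 0) (nat_lit 2535908903) (nat_lit 684) (nat_lit 5179480440) (nat_lit 76) (nat_lit 97973416) (nat_lit 270) (nat_lit 5) (nat_lit 279) (nat_lit 5) (nat_lit 271) (nat_lit 5) (nat_lit 431) (nat_lit 400) (nat_lit 369)) (XT.lf (nat_lit 0) (nat_lit 5124562104) (nat_lit 684) (nat_lit 39716808) (nat_lit 76) (nat_lit 2740211116) (nat_lit 270) (nat_lit 5) (nat_lit 279) (nat_lit 5) (nat_lit 271) (nat_lit 5) (nat_lit 432) (nat_lit 400) (nat_lit 368)))))) (XT.nd (nat_lit 546) (nat_lit 2888) (nat_lit 0) (XT.nd (nat_lit 234) (nat_lit 1672) (nat_lit 0) (XT.nd (nat_lit 78) (nat_lit 608) (nat_lit 0) (XT.lf (nat_lit 0) (nat_lit 5291347847) (nat_lit 608) (nat_lit 2487542979) (nat_lit 684) (nat_lit 219829148) (nat_lit 262) (nat_lit 5) (nat_lit 270) (nat_lit 5) (nat_lit 271) (nat_lit 5) (nat_lit 433) (nat_lit 400) (nat_lit 367)) (XT.nd (nat_lit 78) (nat_lit 0) (nat_lit 0) (XT.lf (nat_lit 0) (nat_lit 2336544246) (nat_lit 608) (nat_lit 5450109809)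 (nat_lit 76) (nat_lit 309435412) (nat_lit 254) (nat_lit 5) (nat_lit 262) (nat_lit 5) (nat_lit 255) (nat_lit 5) (nat_lit 434) (nat_lit 400) (nat_lit 366)) (XT.lf (nat_lit 0) (nat_lit 4956293578) (nat_lit 608) (nat_lit 75089154) (nat_lit 76) (nat_lit 3165207468) (nat_lit 254) (nat_lit 5) (nat_lit 262) (nat_lit 5) (nat_lit 255) (nat_lit 5) (nat_lit 435) (nat_lit 400) (nat_lit 365)))) (XT.nd (nat_lit 156) (nat_lit 532) (nat_lit 0) (XT.nd (nat_lit 78) (nat_lit 608) (nat_lit 0) (XT.lf (nat_lit 0) (nat_lit 5502652467) (nat_lit 532) (nat_lit 2145522552) (nat_lit 608) (nat_lit 652133044) (nat_lit 247) (nat_lit 5) (nat_lit 254) (nat_lit 5) (nat_lit 255) (nat_lit 5) (nat_lit 436) (nat_lit 400) (nat_lit 364)) (XT.lf (nat_lit 0) (nat_lit 1951674256) (nat_lit 608) (nat_lit 5604634084) (nat_lit 76) (nat_lit 850937455) (nat_lit 239) (nat_lit 5) (nat_lit 247) (nat_lit 5) (nat_lit 240) (nat_lit 5) (nat_lit 437) (nat_lit 400) (nat_lit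 363))) (XT.nd (nat_lit 78) (nat_lit 0) (nat_lit 0) (XT.lf (nat_lit 0) (nat_lit 16585826) (nat_lit 532) (nat_lit 4596001228) (nat_lit 608) (nat_lit 3904855539) (nat_lit 232) (nat_lit 5) (nat_lit 239) (nat_lit 5) (nat_lit 240) (nat_lit 5) (nat_lit 438) (nat_lit 400) (nat_lit 362)) (XT.lf (nat_lit 0) (nat_lit 5854542468) (nat_lit 532) (nat_lit 1498588787) (nat_lit 608) (nat_lit 1277827292) (nat_lit 232) (nat_lit 5) (nat_lit 239) (nat_lit 5) (nat_lit 240) (nat_lit 5) (nat_lit 439) (nat_lit 400) (nat_lit 361))))) (XT.nd (nat_lit 312) (nat_lit 1368) (nat_lit 0) (XT.nd (nat_lit 156) (nat_lit 532) (nat_lit 0) (XT.nd (nat_lit 78) (nat_lit 456) (nat_lit 0) (XT.lf (nat_lit 0) (nat_lit 1390854564) (nat_lit 532) (nat_lit 5664271151) (nat_lit 76) (nat_lit 1692628151) (nat_lit 225) (nat_lit 5) (nat_lit 232) (nat_lit 5) (nat_lit 226) (nat_lit 5) (nat_lit 440) (nat_lit 400) (nat_lit 360)) (XT.lf (nat_lit 0) (nat_lit 218519294) (nat_lit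 456) (nat_lit 3885848097) (nat_lit 532) (nat_lit 4763599239) (nat_lit 219) (nat_lit 5) (nat_lit 225) (nat_lit 5) (nat_lit 226) (nat_lit 5) (nat_lit 441) (nat_lit 400) (nat_lit 359))) (XT.nd (nat_lit 78) (nat_lit 532) (nat_lit 0) (XT.lf (nat_lit 0) (nat_lit 6327702655) (nat_lit 456) (nat_lit 574942248) (nat_lit 532) (nat_lit 2089046645) (nat_lit 219) (nat_lit 5) (nat_lit 225) (nat_lit 5) (nat_lit 226) (nat_lit 5) (nat_lit 442) (nat_lit 400) (nat_lit 358)) (XT.lf (nat_lit 0) (nat_lit 661107998) (nat_lit 532) (nat_lit 5649495721) (nat_lit 76) (nat_lit 2808087987) (nat_lit 212) (nat_lit 5) (nat_lit 219) (nat_lit 5) (nat_lit 213) (nat_lit 5) (nat_lit 443) (nat_lit 400) (nat_lit 357)))) (XT.nd (nat_lit 156) (nat_lit 912) (nat_lit 0) (XT.nd (nat_lit 78) (nat_lit 0) (nat_lit 0) (XT.lf (nat_lit 0) (nat_lit 509459515) (nat_lit 456) (nat_lit 2928075453) (nat_lit 532) (nat_lit 5811779721) (nat_lit 206) (nat_lit 5) (nat_lit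 212) (nat_lit 5) (nat_lit 213) (nat_lit 5) (nat_lit 444) (nat_lit 400) (nat_lit 356)) (XT.lf (nat_lit 0) (nat_lit 6308957729) (nat_lit 532) (nat_lit 2485944158) (nat_lit 76) (nat_lit 588609204) (nat_lit 206) (nat_lit 5) (nat_lit 213) (nat_lit 5) (nat_lit 207) (nat_lit 5) (nat_lit 445) (nat_lit 400) (nat_lit 355))) (XT.nd (nat_lit 78) (nat_lit 532) (nat_lit 0) (XT.lf (nat_lit 0) (nat_lit 3938512937) (nat_lit 380) (nat_lit 5345098714) (nat_lit 456) (nat_lit 237614730) (nat_lit 201) (nat_lit 5) (nat_lit 206) (nat_lit 5) (nat_lit 207) (nat_lit 5) (nat_lit 446) (nat_lit 400) (nat_lit 354)) (XT.lf (nat_lit 0) (nat_lit 869979365) (nat_lit 456) (nat_lit 1746363936) (nat_lit 532) (nat_lit 7046432196) (nat_lit 194) (nat_lit 5) (nat_lit 200) (nat_lit 5) (nat_lit 201) (nat_lit 5) (nat_lit 447) (nat_lit 400) (nat_lit 353))))))))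
noncomputable def xc97 : XT := (XT.nd (nat_lit 2340) (nat_lit 3268) (nat_lit 0) (XT.nd (nat_lit 1170) (nat_lit 2660) (nat_lit 0) (XT.nd (nat_lit 546) (nat_lit 1976) (nat_lit 0) (XT.nd (nat_lit 234) (nat_lit 760) (nat_lit 0) (XT.nd (nat_lit 78) (nat_lit 836) (nat_lit 0) (XT.lf (nat_lit 0) (nat_lit 5578164256) (nat_lit 532) (nat_lit 2263897626) (nat_lit 76) (nat_lit 1965633196) (nat_lit 194) (nat_lit 5) (nat_lit 201) (nat_lit 5) (nat_lit 195) (nat_lit 5) (nat_lit 448) (nat_lit 400) (nat_lit 352)) (XT.nd (nat_lit 78) (nat_lit 456) (nat_lit 0) (XT.lf (nat_lit 0) (nat_lit 4466703448) (nat_lit 380) (nat_lit 4175027363) (nat_lit 456) (nat_lit 1314849725) (nat_lit 189) (nat_lit 5) (nat_lit 194) (nat_lit 5) (nat_lit 195) (nat_lit 5) (nat_lit 449) (nat_lit 400) (nat_lit 351)) (XT.lf (nat_lit 0) (nat_lit 1280578660) (nat_lit 380) (nat_lit 362132309) (nat_lit 456) (nat_lit 8467088830) (nat_lit 183) (nat_lit 5) (nat_lit 188)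 (nat_lit 5) (nat_lit 189) (nat_lit 5) (nat_lit 450) (nat_lit 400) (nat_lit 350)))) (XT.nd (nat_lit 156) (nat_lit 456) (nat_lit 0) (XT.nd (nat_lit 78) (nat_lit 304) (nat_lit 0) (XT.lf (nat_lit 0) (nat_lit 4706384265) (nat_lit 456) (nat_lit 2012047398) (nat_lit 76) (nat_lit 3547483632) (nat_lit 183) (nat_lit 5) (nat_lit 189) (nat_lit 5) (nat_lit 184) (nat_lit 5) (nat_lit 451) (nat_lit 400) (nat_lit 349)) (XT.lf (nat_lit 0) (nat_lit 5041380655) (nat_lit 304) (nat_lit 2827542808) (nat_lit 380) (nat_lit 2557586583) (nat_lit 179) (nat_lit 5) (nat_lit 183) (nat_lit 5) (nat_lit 184) (nat_lit 5) (nat_lit 452) (nat_lit 400) (nat_lit 348))) (XT.nd (nat_lit 78) (nat_lit 0) (nat_lit 0) (XT.lf (nat_lit 0) (nat_lit 527815020) (nat_lit 456) (nat_lit 8882324733) (nat_lit 76) (nat_lit 1181518158) (nat_lit 173) (nat_lit 5) (nat_lit 179) (nat_lit 5) (nat_lit 174) (nat_lit 5) (nat_lit 453) (nat_lit 400) (nat_lit 347)) (XT.lf (nat_lit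 0) (nat_lit 3692989777) (nat_lit 456) (nat_lit 1750822931) (nat_lit 76) (nat_lit 5316033425) (nat_lit 173) (nat_lit 5) (nat_lit 179) (nat_lit 5) (nat_lit 174) (nat_lit 5) (nat_lit 454) (nat_lit 400) (nat_lit 346))))) (XT.nd (nat_lit 312) (nat_lit 988) (nat_lit 0) (XT.nd (nat_lit 156) (nat_lit 380) (nat_lit 0) (XT.nd (nat_lit 78) (nat_lit 304) (nat_lit 0) (XT.lf (nat_lit 0) (nat_lit 5642736886) (nat_lit 304) (nat_lit 1321617469) (nat_lit 380) (nat_lit 3968392572) (nat_lit 169) (nat_lit 5) (nat_lit 173) (nat_lit 5) (nat_lit 174) (nat_lit 5) (nat_lit 455) (nat_lit 400) (nat_lit 345)) (XT.lf (nat_lit 0) (nat_lit 2134577482) (nat_lit 304) (nat_lit 8223238380) (nat_lit 380) (nat_lit 752304049) (nat_lit 165) (nat_lit 5) (nat_lit 169) (nat_lit 5) (nat_lit 170) (nat_lit 5) (nat_lit 456) (nat_lit 400) (nat_lit 344))) (XT.nd (nat_lit 78) (nat_lit 304) (nat_lit 0) (XT.lf (nat_lit 0) (nat_lit 2535038228) (nat_lit 380) (nat_lit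 1501807356) (nat_lit 76) (nat_lit 7254491868) (nat_lit 164) (nat_lit 5) (nat_lit 169) (nat_lit 5) (nat_lit 165) (nat_lit 5) (nat_lit 457) (nat_lit 400) (nat_lit 343)) (XT.lf (nat_lit 0) (nat_lit 5928009871) (nat_lit 380) (nat_lit 5230564524) (nat_lit 76) (nat_lit 318533297) (nat_lit 160) (nat_lit 5) (nat_lit 165) (nat_lit 5) (nat_lit 161) (nat_lit 5) (nat_lit 458) (nat_lit 400) (nat_lit 342)))) (XT.nd (nat_lit 156) (nat_lit 608) (nat_lit 0) (XT.nd (nat_lit 78) (nat_lit 76) (nat_lit 0) (XT.lf (nat_lit 0) (nat_lit 2538228565) (nat_lit 304) (nat_lit 6923581587) (nat_lit 380) (nat_lit 2205473122) (nat_lit 156) (nat_lit 5) (nat_lit 160) (nat_lit 5) (nat_lit 161) (nat_lit 5) (nat_lit 459) (nat_lit 400) (nat_lit 341)) (XT.lf (nat_lit 0) (nat_lit 1227191595) (nat_lit 380) (nat_lit 1288223657) (nat_lit 76) (nat_lit 9347008005) (nat_lit 155) (nat_lit 5) (nat_lit 160) (nat_lit 5) (nat_lit 156) (nat_lit 5) (nat_lit 460) (nat_lit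 400) (nat_lit 340))) (XT.nd (nat_lit 78) (nat_lit 304) (nat_lit 0) (XT.lf (nat_lit 0) (nat_lit 4765126717) (nat_lit 380) (nat_lit 5242374418) (nat_lit 76) (nat_lit 2053865792) (nat_lit 151) (nat_lit 5) (nat_lit 156) (nat_lit 5) (nat_lit 152) (nat_lit 5) (nat_lit 461) (nat_lit 400) (nat_lit 339)) (XT.lf (nat_lit 0) (nat_lit 2901414211) (nat_lit 304) (nat_lit 5534831416) (nat_lit 380) (nat_lit 3829224945) (nat_lit 147) (nat_lit 5) (nat_lit 151) (nat_lit 5) (nat_lit 152) (nat_lit 5) (nat_lit 462) (nat_lit 400) (nat_lit 338)))))) (XT.nd (nat_lit 546) (nat_lit 1520) (nat_lit 0) (XT.nd (nat_lit 234) (nat_lit 532) (nat_lit 0) (XT.nd (nat_lit 78) (nat_lit 608) (nat_lit 0) (XT.lf (nat_lit 0) (nat_lit 11337456614) (nat_lit 304) (nat_lit 894652779) (nat_lit 380) (nat_lit 243152543) (nat_lit 147) (nat_lit 5) (nat_lit 151) (nat_lit 5) (nat_lit 152) (nat_lit 5) (nat_lit 463) (nat_lit 400) (nat_lit 337)) (XT.nd (nat_lit 78) (nat_lit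 304) (nat_lit 0) (XT.lf (nat_lit 0) (nat_lit 3454776377) (nat_lit 304) (nat_lit 5339839423) (nat_lit 76) (nat_lit 3893590789) (nat_lit 143) (nat_lit 5) (nat_lit 147) (nat_lit 5) (nat_lit 144) (nat_lit 5) (nat_lit 464) (nat_lit 400) (nat_lit 336)) (XT.lf (nat_lit 0) (nat_lit 3197387804) (nat_lit 304) (nat_lit 4075319729) (nat_lit 380) (nat_lit 5634343977) (nat_lit 139) (nat_lit 5) (nat_lit 143) (nat_lit 5) (nat_lit 144) (nat_lit 5) (nat_lit 465) (nat_lit 400) (nat_lit 335)))) (XT.nd (nat_lit 156) (nat_lit 228) (nat_lit 0) (XT.nd (nat_lit 78) (nat_lit 304) (nat_lit 0) (XT.lf (nat_lit 0) (nat_lit 11230255506) (nat_lit 380) (nat_lit 1097934875) (nat_lit 76) (nat_lit 803521652) (nat_lit 139) (nat_lit 5) (nat_lit 144) (nat_lit 5) (nat_lit 140) (nat_lit 5) (nat_lit 466) (nat_lit 400) (nat_lit 334)) (XT.lf (nat_lit 0) (nat_lit 1986017012) (nat_lit 304) (nat_lit 5553138156) (nat_lit 76) (nat_lit 5820983556) (nat_lit 135)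 (nat_lit 5) (nat_lit 139) (nat_lit 5) (nat_lit 136) (nat_lit 5) (nat_lit 467) (nat_lit 400) (nat_lit 333))) (XT.nd (nat_lit 78) (nat_lit 0) (nat_lit 0) (XT.lf (nat_lit 0) (nat_lit 3396217119) (nat_lit 228) (nat_lit 2563815665) (nat_lit 304) (nat_lit 7634578978) (nat_lit 132) (nat_lit 5) (nat_lit 135) (nat_lit 5) (nat_lit 136) (nat_lit 5) (nat_lit 468) (nat_lit 400) (nat_lit 332)) (XT.lf (nat_lit 0) (nat_lit 10099089583) (nat_lit 304) (nat_lit 1189629001) (nat_lit 76) (nat_lit 2546028118) (nat_lit 132) (nat_lit 5) (nat_lit 136) (nat_lit 5) (nat_lit 133) (nat_lit 5) (nat_lit 469) (nat_lit 400) (nat_lit 331))))) (XT.nd (nat_lit 312) (nat_lit 760) (nat_lit 0) (XT.nd (nat_lit 156) (nat_lit 228) (nat_lit 0) (XT.nd (nat_lit 78) (nat_lit 228) (nat_lit 0) (XT.lf (nat_lit 0) (nat_lit 344947577) (nat_lit 304) (nat_lit 5916220316) (nat_lit 76) (nat_lit 7818733672) (nat_lit 128) (nat_lit 5) (nat_lit 132) (nat_lit 5) (nat_lit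 129) (nat_lit 5) (nat_lit 470) (nat_lit 400) (nat_lit 330)) (XT.lf (nat_lit 0) (nat_lit 3464062596) (nat_lit 228) (nat_lit 1019989482) (nat_lit 304) (nat_lit 9846916585) (nat_lit 125) (nat_lit 5) (nat_lit 128) (nat_lit 5) (nat_lit 129) (nat_lit 5) (nat_lit 471) (nat_lit 400) (nat_lit 329))) (XT.nd (nat_lit 78) (nat_lit 228) (nat_lit 0) (XT.lf (nat_lit 0) (nat_lit 8815735840) (nat_lit 304) (nat_lit 1440031086) (nat_lit 76) (nat_lit 4331750731) (nat_lit 125) (nat_lit 5) (nat_lit 129) (nat_lit 5) (nat_lit 126) (nat_lit 5) (nat_lit 472) (nat_lit 400) (nat_lit 328)) (XT.lf (nat_lit 0) (nat_lit 8367880778) (nat_lit 228) (nat_lit 4967000481) (nat_lit 304) (nat_lit 1515158537) (nat_lit 122) (nat_lit 5) (nat_lit 125) (nat_lit 5) (nat_lit 126) (nat_lit 5) (nat_lit 473) (nat_lit 400) (nat_lit 327)))) (XT.nd (nat_lit 156) (nat_lit 456) (nat_lit 0) (XT.nd (nat_lit 78) (nat_lit 0) (nat_lit 0) (XT.lf (nat_lit 0) (nat_lit 2832415126)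 (nat_lit 304) (nat_lit 11761973351) (nat_lit 76) (nat_lit 524646427) (nat_lit 118) (nat_lit 5) (nat_lit 122) (nat_lit 5) (nat_lit 119) (nat_lit 5) (nat_lit 474) (nat_lit 400) (nat_lit 326)) (XT.lf (nat_lit 0) (nat_lit 7362557787) (nat_lit 304) (nat_lit 1889927533) (nat_lit 76) (nat_lit 6140688487) (nat_lit 118) (nat_lit 5) (nat_lit 122) (nat_lit 5) (nat_lit 119) (nat_lit 5) (nat_lit 475) (nat_lit 400) (nat_lit 325))) (XT.nd (nat_lit 78) (nat_lit 304) (nat_lit 0) (XT.lf (nat_lit 0) (nat_lit 8388275668) (nat_lit 152) (nat_lit 3689225951) (nat_lit 228) (nat_lit 3596570135) (nat_lit 116) (nat_lit 5) (nat_lit 118) (nat_lit 5) (nat_lit 119) (nat_lit 5) (nat_lit 476) (nat_lit 400) (nat_lit 324)) (XT.lf (nat_lit 0) (nat_lit 988465279) (nat_lit 304) (nat_lit 12935703579) (nat_lit 76) (nat_lit 2037842409) (nat_lit 112) (nat_lit 5) (nat_lit 116) (nat_lit 5) (nat_lit 113) (nat_lit 5) (nat_lit 477) (nat_lit 400) (nat_lit 323)))))))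 (XT.nd (nat_lit 1170) (nat_lit 1520) (nat_lit 0) (XT.nd (nat_lit 546) (nat_lit 912) (nat_lit 0) (XT.nd (nat_lit 234) (nat_lit 456) (nat_lit 0) (XT.nd (nat_lit 78) (nat_lit 380) (nat_lit 0) (XT.lf (nat_lit 0) (nat_lit 5718154583) (nat_lit 304) (nat_lit 2586114076) (nat_lit 76) (nat_lit 7950871944) (nat_lit 112) (nat_lit 5) (nat_lit 116) (nat_lit 5) (nat_lit 113) (nat_lit 5) (nat_lit 478) (nat_lit 400) (nat_lit 322)) (XT.nd (nat_lit 78) (nat_lit 228) (nat_lit 0) (XT.lf (nat_lit 0) (nat_lit 8181186660) (nat_lit 152) (nat_lit 2456668770) (nat_lit 228) (nat_lit 5917766346) (nat_lit 110) (nat_lit 5) (nat_lit 112) (nat_lit 5) (nat_lit 113) (nat_lit 5) (nat_lit 479) (nat_lit 400) (nat_lit 321)) (XT.lf (nat_lit 0) (nat_lit 2420269756) (nat_lit 228) (nat_lit 13338456926) (nat_lit 304) (nat_lit 1104784860) (nat_lit 107) (nat_lit 5) (nat_lit 110) (nat_lit 5) (nat_lit 111) (nat_lit 5) (nat_lit 480) (nat_lit 400) (nat_lit 320))))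 (XT.nd (nat_lit 156) (nat_lit 228) (nat_lit 0) (XT.nd (nat_lit 78) (nat_lit 152) (nat_lit 0) (XT.lf (nat_lit 0) (nat_lit 3856878289) (nat_lit 304) (nat_lit 3582502704) (nat_lit 76) (nat_lit 9737763355) (nat_lit 106) (nat_lit 5) (nat_lit 110) (nat_lit 5) (nat_lit 107) (nat_lit 5) (nat_lit 481) (nat_lit 400) (nat_lit 319)) (XT.lf (nat_lit 0) (nat_lit 7692063641) (nat_lit 152) (nat_lit 1297688617) (nat_lit 228) (nat_lit 8508770153) (nat_lit 104) (nat_lit 5) (nat_lit 106) (nat_lit 5) (nat_lit 107) (nat_lit 5) (nat_lit 482) (nat_lit 400) (nat_lit 318))) (XT.nd (nat_lit 78) (nat_lit 76) (nat_lit 0) (XT.lf (nat_lit 0) (nat_lit 1478691770) (nat_lit 152) (nat_lit 12867789598) (nat_lit 228) (nat_lit 3480965749) (nat_lit 102) (nat_lit 5) (nat_lit 104) (nat_lit 5) (nat_lit 105) (nat_lit 5) (nat_lit 483) (nat_lit 400) (nat_lit 317)) (XT.lf (nat_lit 0) (nat_lit 1748261149) (nat_lit 228) (nat_lit 4941393412) (nat_lit 76) (nat_lit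 11473585238) (nat_lit 101) (nat_lit 5) (nat_lit 104) (nat_lit 5) (nat_lit 102) (nat_lit 5) (nat_lit 484) (nat_lit 400) (nat_lit 316))))) (XT.nd (nat_lit 312) (nat_lit 380) (nat_lit 0) (XT.nd (nat_lit 156) (nat_lit 228) (nat_lit 0) (XT.nd (nat_lit 78) (nat_lit 152) (nat_lit 0) (XT.lf (nat_lit 0) (nat_lit 6857642337) (nat_lit 152) (nat_lit 244388318) (nat_lit 228) (nat_lit 11404914012) (nat_lit 99) (nat_lit 5) (nat_lit 101) (nat_lit 5) (nat_lit 102) (nat_lit 5) (nat_lit 485) (nat_lit 400) (nat_lit 315)) (XT.lf (nat_lit 0) (nat_lit 143272352) (nat_lit 152) (nat_lit 12558228414) (nat_lit 228) (nat_lit 6156908506) (nat_lit 97) (nat_lit 5) (nat_lit 99) (nat_lit 5) (nat_lit 100) (nat_lit 5) (nat_lit 486) (nat_lit 400) (nat_lit 314))) (XT.nd (nat_lit 78) (nat_lit 228) (nat_lit 0) (XT.lf (nat_lit 0) (nat_lit 12476403127) (nat_lit 152) (nat_lit 6084778989) (nat_lit 228) (nat_lit 656470063) (nat_lit 97) (nat_lit 5) (nat_lit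 99) (nat_lit 5) (nat_lit 100) (nat_lit 5) (nat_lit 487) (nat_lit 400) (nat_lit 313)) (XT.lf (nat_lit 0) (nat_lit 4944256268) (nat_lit 228) (nat_lit 13987422741) (nat_lit 76) (nat_lit 653559455) (nat_lit 94) (nat_lit 5) (nat_lit 97) (nat_lit 5) (nat_lit 95) (nat_lit 5) (nat_lit 488) (nat_lit 400) (nat_lit 312)))) (XT.nd (nat_lit 156) (nat_lit 228) (nat_lit 0) (XT.nd (nat_lit 78) (nat_lit 152) (nat_lit 0) (XT.lf (nat_lit 0) (nat_lit 10801666954) (nat_lit 228) (nat_lit 1632768544) (nat_lit 76) (nat_lit 7526167218) (nat_lit 94) (nat_lit 5) (nat_lit 97) (nat_lit 5) (nat_lit 95) (nat_lit 5) (nat_lit 489) (nat_lit 400) (nat_lit 311)) (XT.lf (nat_lit 0) (nat_lit 11264985710) (nat_lit 152) (nat_lit 5651754781) (nat_lit 228) (nat_lit 3428030237) (nat_lit 92) (nat_lit 5) (nat_lit 94) (nat_lit 5) (nat_lit 95) (nat_lit 5) (nat_lit 490) (nat_lit 400) (nat_lit 310))) (XT.nd (nat_lit 78) (nat_lit 0) (nat_lit 0) (XT.lf (nat_lit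 0) (nat_lit 2467242549) (nat_lit 228) (nat_lit 16905453933) (nat_lit 76) (nat_lit 1365832634) (nat_lit 89) (nat_lit 5) (nat_lit 92) (nat_lit 5) (nat_lit 90) (nat_lit 5) (nat_lit 491) (nat_lit 400) (nat_lit 309)) (XT.lf (nat_lit 0) (nat_lit 8592852348) (nat_lit 228) (nat_lit 3960241825) (nat_lit 76) (nat_lit 8586317450) (nat_lit 89) (nat_lit 5) (nat_lit 92) (nat_lit 5) (nat_lit 90) (nat_lit 5) (nat_lit 492) (nat_lit 400) (nat_lit 308)))))) (XT.nd (nat_lit 624) (nat_lit 684) (nat_lit 0) (XT.nd (nat_lit 312) (nat_lit 304) (nat_lit 0) (XT.nd (nat_lit 156) (nat_lit 228) (nat_lit 0) (XT.nd (nat_lit 78) (nat_lit 152) (nat_lit 0) (XT.lf (nat_lit 0) (nat_lit 9512806810) (nat_lit 152) (nat_lit 5455453975) (nat_lit 228) (nat_lit 6582079841) (nat_lit 87) (nat_lit 5) (nat_lit 89) (nat_lit 5) (nat_lit 90) (nat_lit 5) (nat_lit 493) (nat_lit 400) (nat_lit 307)) (XT.lf (nat_lit 0) (nat_lit 1462895204) (nat_lit 152) (nat_lit 20119008103)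 (nat_lit 228) (nat_lit 390285939) (nat_lit 85) (nat_lit 5) (nat_lit 87) (nat_lit 5) (nat_lit 88) (nat_lit 4) (nat_lit 494) (nat_lit 400) (nat_lit 306))) (XT.nd (nat_lit 78) (nat_lit 152) (nat_lit 0) (XT.lf (nat_lit 0) (nat_lit 6021941009) (nat_lit 228) (nat_lit 6947026100) (nat_lit 76) (nat_lit 9431455105) (nat_lit 84) (nat_lit 5) (nat_lit 87) (nat_lit 5) (nat_lit 85) (nat_lit 5) (nat_lit 495) (nat_lit 400) (nat_lit 305)) (XT.lf (nat_lit 0) (nat_lit 7112073426) (nat_lit 152) (nat_lit 5550457209) (nat_lit 228) (nat_lit 10177541229) (nat_lit 82) (nat_lit 5) (nat_lit 84) (nat_lit 5) (nat_lit 85) (nat_lit 5) (nat_lit 496) (nat_lit 400) (nat_lit 304)))) (XT.nd (nat_lit 156) (nat_lit 152) (nat_lit 0) (XT.nd (nat_lit 78) (nat_lit 152) (nat_lit 0) (XT.lf (nat_lit 0) (nat_lit 19568846239) (nat_lit 228) (nat_lit 1621290824) (nat_lit 76) (nat_lit 2100779495) (nat_lit 82) (nat_lit 5) (nat_lit 85) (nat_lit 5) (nat_lit 83) (nat_lit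 4) (nat_lit 497) (nat_lit 400) (nat_lit 303)) (XT.lf (nat_lit 0) (nat_lit 3028319448) (nat_lit 152) (nat_lit 10715401192) (nat_lit 76) (nat_lit 10005971437) (nat_lit 80) (nat_lit 5) (nat_lit 82) (nat_lit 5) (nat_lit 81) (nat_lit 5) (nat_lit 498) (nat_lit 400) (nat_lit 302))) (XT.nd (nat_lit 78) (nat_lit 0) (nat_lit 0) (XT.lf (nat_lit 0) (nat_lit 3937069374) (nat_lit 152) (nat_lit 6000040680) (nat_lit 228) (nat_lit 14283095007) (nat_lit 78) (nat_lit 5) (nat_lit 80) (nat_lit 5) (nat_lit 81) (nat_lit 5) (nat_lit 499) (nat_lit 400) (nat_lit 301)) (XT.lf (nat_lit 0) (nat_lit 17157835224) (nat_lit 228) (nat_lit 5516743401) (nat_lit 76) (nat_lit 2027115397) (nat_lit 78) (nat_lit 5) (nat_lit 81) (nat_lit 5) (nat_lit 79) (nat_lit 4) (nat_lit 500) (nat_lit 400) (nat_lit 300))))) (XT.nd (nat_lit 312) (nat_lit 304) (nat_lit 0) (XT.nd (nat_lit 156) (nat_lit 228) (nat_lit 0) (XT.nd (nat_lit 78) (nat_lit 76) (nat_lit 0) (XT.lf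 (nat_lit 0) (nat_lit 9781524550) (nat_lit 76) (nat_lit 14944178226) (nat_lit 152) (nat_lit 468009950) (nat_lit 77) (nat_lit 5) (nat_lit 78) (nat_lit 5) (nat_lit 79) (nat_lit 4) (nat_lit 501) (nat_lit 400) (nat_lit 299)) (XT.lf (nat_lit 0) (nat_lit 6720414612) (nat_lit 152) (nat_lit 155724013) (nat_lit 76) (nat_lit 18821385688) (nat_lit 76) (nat_lit 5) (nat_lit 78) (nat_lit 5) (nat_lit 77) (nat_lit 5) (nat_lit 502) (nat_lit 400) (nat_lit 298))) (XT.nd (nat_lit 78) (nat_lit 76) (nat_lit 0) (XT.lf (nat_lit 0) (nat_lit 14260110860) (nat_lit 228) (nat_lit 10406418607) (nat_lit 76) (nat_lit 1545431637) (nat_lit 74) (nat_lit 5) (nat_lit 77) (nat_lit 5) (nat_lit 75) (nat_lit 4) (nat_lit 503) (nat_lit 400) (nat_lit 297)) (XT.lf (nat_lit 0) (nat_lit 5504929876) (nat_lit 76) (nat_lit 16621515330) (nat_lit 152) (nat_lit 4612372992) (nat_lit 73) (nat_lit 5) (nat_lit 74) (nat_lit 5) (nat_lit 75) (nat_lit 4) (nat_lit 504) (nat_lit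 400) (nat_lit 296)))) (XT.nd (nat_lit 156) (nat_lit 76) (nat_lit 0) (XT.nd (nat_lit 78) (nat_lit 152) (nat_lit 0) (XT.lf (nat_lit 0) (nat_lit 2973795988) (nat_lit 152) (nat_lit 5242244354) (nat_lit 76) (nat_lit 19062070720) (nat_lit 72) (nat_lit 5) (nat_lit 74) (nat_lit 5) (nat_lit 73) (nat_lit 5) (nat_lit 505) (nat_lit 400) (nat_lit 295)) (XT.lf (nat_lit 0) (nat_lit 10788229491) (nat_lit 228) (nat_lit 16470200247) (nat_lit 76) (nat_lit 570982017) (nat_lit 70) (nat_lit 5) (nat_lit 73) (nat_lit 5) (nat_lit 71) (nat_lit 4) (nat_lit 506) (nat_lit 400) (nat_lit 294))) (XT.nd (nat_lit 78) (nat_lit 0) (nat_lit 0) (XT.lf (nat_lit 0) (nat_lit 49259621) (nat_lit 76) (nat_lit 18901718281) (nat_lit 152) (nat_lit 9442857658) (nat_lit 69) (nat_lit 5) (nat_lit 70) (nat_lit 5) (nat_lit 71) (nat_lit 4) (nat_lit 507) (nat_lit 400) (nat_lit 293)) (XT.lf (nat_lit 0) (nat_lit 17361982633) (nat_lit 76) (nat_lit 10141783115) (nat_lit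 152) (nat_lit 1467072152) (nat_lit 69) (nat_lit 5) (nat_lit 70) (nat_lit 5) (nat_lit 71) (nat_lit 4) (nat_lit 508) (nat_lit 400) (nat_lit 292))))))))
noncomputable def xc98 : XT := (XT.nd (nat_lit 2340) (nat_lit 684) (nat_lit 0) (XT.nd (nat_lit 1170) (nat_lit 836) (nat_lit 0) (XT.nd (nat_lit 546) (nat_lit 684) (nat_lit 0) (XT.nd (nat_lit 234) (nat_lit 304) (nat_lit 0) (XT.nd (nat_lit 78) (nat_lit 76) (nat_lit 0) (XT.lf (nat_lit 0) (nat_lit 5634833524) (nat_lit 152) (nat_lit 1014893982) (nat_lit 228) (nat_lit 22912474787) (nat_lit 66) (nat_lit 5) (nat_lit 68) (nat_lit 5) (nat_lit 69) (nat_lit 5) (nat_lit 509) (nat_lit 400) (nat_lit 291)) (XT.nd (nat_lit 78) (nat_lit 76) (nat_lit 0) (XT.lf (nat_lit 0) (nat_lit 15158849290) (nat_lit 228) (nat_lit 6669532762) (nat_lit 76) (nat_lit 8337141144) (nat_lit 66) (nat_lit 5) (nat_lit 69) (nat_lit 5) (nat_lit 67) (nat_lit 4) (nat_lit 510) (nat_lit 400) (nat_lit 290)) (XT.lf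 (nat_lit 0) (nat_lit 11277957133) (nat_lit 76) (nat_lit 12743657389) (nat_lit 152) (nat_lit 6762378581) (nat_lit 65) (nat_lit 5) (nat_lit 66) (nat_lit 5) (nat_lit 67) (nat_lit 4) (nat_lit 511) (nat_lit 400) (nat_lit 289)))) (XT.nd (nat_lit 156) (nat_lit 76) (nat_lit 0) (XT.nd (nat_lit 78) (nat_lit 152) (nat_lit 0) (XT.lf (nat_lit 0) (nat_lit 1743453802) (nat_lit 152) (nat_lit 1573827882) (nat_lit 76) (nat_lit 28101798632) (nat_lit 64) (nat_lit 5) (nat_lit 66) (nat_lit 5) (nat_lit 65) (nat_lit 5) (nat_lit 512) (nat_lit 400) (nat_lit 288)) (XT.lf (nat_lit 0) (nat_lit 10577262504) (nat_lit 228) (nat_lit 15003852926) (nat_lit 76) (nat_lit 6483834964) (nat_lit 62) (nat_lit 5) (nat_lit 65) (nat_lit 5) (nat_lit 63) (nat_lit 4) (nat_lit 513) (nat_lit 400) (nat_lit 287))) (XT.nd (nat_lit 78) (nat_lit 0) (nat_lit 0) (XT.lf (nat_lit 0) (nat_lit 3556949877) (nat_lit 76) (nat_lit 16182789616) (nat_lit 152) (nat_lit 12988547880)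 (nat_lit 61) (nat_lit 5) (nat_lit 62) (nat_lit 5) (nat_lit 63) (nat_lit 4) (nat_lit 514) (nat_lit 400) (nat_lit 286)) (XT.lf (nat_lit 0) (nat_lit 22945434463) (nat_lit 76) (nat_lit 6363947102) (nat_lit 152) (nat_lit 4098174582) (nat_lit 61) (nat_lit 5) (nat_lit 62) (nat_lit 5) (nat_lit 63) (nat_lit 4) (nat_lit 515) (nat_lit 400) (nat_lit 285))))) (XT.nd (nat_lit 312) (nat_lit 380) (nat_lit 0) (XT.nd (nat_lit 156) (nat_lit 76) (nat_lit 0) (XT.nd (nat_lit 78) (nat_lit 0) (nat_lit 0) (XT.lf (nat_lit 0) (nat_lit 5064080377) (nat_lit 228) (nat_lit 25243601664) (nat_lit 76) (nat_lit 3794945804) (nat_lit 58) (nat_lit 5) (nat_lit 61) (nat_lit 5) (nat_lit 59) (nat_lit 4) (nat_lit 516) (nat_lit 400) (nat_lit 284)) (XT.lf (nat_lit 0) (nat_lit 14569734401) (nat_lit 228) (nat_lit 5981797633) (nat_lit 76) (nat_lit 14261275734) (nat_lit 58) (nat_lit 5) (nat_lit 61) (nat_lit 5) (nat_lit 59) (nat_lit 4) (nat_lit 517) (nat_lit 400)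 (nat_lit 283))) (XT.nd (nat_lit 78) (nat_lit 0) (nat_lit 0) (XT.lf (nat_lit 0) (nat_lit 14097956908) (nat_lit 76) (nat_lit 10379865309) (nat_lit 152) (nat_lit 11062953307) (nat_lit 57) (nat_lit 5) (nat_lit 58) (nat_lit 5) (nat_lit 59) (nat_lit 4) (nat_lit 518) (nat_lit 400) (nat_lit 282)) (XT.lf (nat_lit 0) (nat_lit 34726871941) (nat_lit 152) (nat_lit 1422619847) (nat_lit 0) (nat_lit 139779298) (nat_lit 57) (nat_lit 5) (nat_lit 59) (nat_lit 4) (nat_lit 57) (nat_lit 4) (nat_lit 519) (nat_lit 400) (nat_lit 281)))) (XT.nd (nat_lit 156) (nat_lit 152) (nat_lit 0) (XT.nd (nat_lit 78) (nat_lit 76) (nat_lit 0) (XT.lf (nat_lit 0) (nat_lit 8337362988) (nat_lit 152) (nat_lit 17693052852) (nat_lit 76) (nat_lit 11019194969) (nat_lit 55) (nat_lit 5) (nat_lit 57) (nat_lit 5) (nat_lit 56) (nat_lit 4) (nat_lit 520) (nat_lit 400) (nat_lit 280)) (XT.lf (nat_lit 0) (nat_lit 2964130628) (nat_lit 76) (nat_lit 15563918697) (nat_lit 152)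 (nat_lit 19303487622) (nat_lit 54) (nat_lit 5) (nat_lit 55) (nat_lit 5) (nat_lit 56) (nat_lit 4) (nat_lit 521) (nat_lit 400) (nat_lit 279))) (XT.nd (nat_lit 78) (nat_lit 152) (nat_lit 0) (XT.lf (nat_lit 0) (nat_lit 24570011240) (nat_lit 76) (nat_lit 4615633768) (nat_lit 152) (nat_lit 9446440509) (nat_lit 54) (nat_lit 5) (nat_lit 55) (nat_lit 5) (nat_lit 56) (nat_lit 4) (nat_lit 522) (nat_lit 400) (nat_lit 278)) (XT.lf (nat_lit 0) (nat_lit 811894289) (nat_lit 152) (nat_lit 32046069125) (nat_lit 76) (nat_lit 6594902966) (nat_lit 52) (nat_lit 5) (nat_lit 54) (nat_lit 5) (nat_lit 53) (nat_lit 4) (nat_lit 523) (nat_lit 400) (nat_lit 277)))))) (XT.nd (nat_lit 546) (nat_lit 532) (nat_lit 0) (XT.nd (nat_lit 234) (nat_lit 228) (nat_lit 0) (XT.nd (nat_lit 78) (nat_lit 76) (nat_lit 0) (XT.lf (nat_lit 0) (nat_lit 11360116565) (nat_lit 152) (nat_lit 10659752361) (nat_lit 76) (nat_lit 18270436108) (nat_lit 52) (nat_lit 5) (nat_lit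 54) (nat_lit 5) (nat_lit 53) (nat_lit 4) (nat_lit 524) (nat_lit 400) (nat_lit 276)) (XT.nd (nat_lit 78) (nat_lit 0) (nat_lit 0) (XT.lf (nat_lit 0) (nat_lit 11561626026) (nat_lit 76) (nat_lit 10757691933) (nat_lit 152) (nat_lit 18830713193) (nat_lit 51) (nat_lit 5) (nat_lit 52) (nat_lit 5) (nat_lit 53) (nat_lit 4) (nat_lit 525) (nat_lit 400) (nat_lit 275)) (XT.lf (nat_lit 0) (nat_lit 33707525743) (nat_lit 152) (nat_lit 7405489376) (nat_lit 0) (nat_lit 919527292) (nat_lit 51) (nat_lit 5) (nat_lit 53) (nat_lit 4) (nat_lit 51) (nat_lit 4) (nat_lit 526) (nat_lit 400) (nat_lit 274)))) (XT.nd (nat_lit 156) (nat_lit 76) (nat_lit 0) (XT.nd (nat_lit 78) (nat_lit 0) (nat_lit 0) (XT.lf (nat_lit 0) (nat_lit 2689998425) (nat_lit 152) (nat_lit 27350912705) (nat_lit 76) (nat_lit 12892612860) (nat_lit 49) (nat_lit 5) (nat_lit 51) (nat_lit 5) (nat_lit 50) (nat_lit 4) (nat_lit 527) (nat_lit 400) (nat_lit 273)) (XT.lf (nat_lit 0) (nat_lit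 13927581847) (nat_lit 152) (nat_lit 4561541717) (nat_lit 76) (nat_lit 25368155649) (nat_lit 49) (nat_lit 5) (nat_lit 51) (nat_lit 5) (nat_lit 50) (nat_lit 4) (nat_lit 528) (nat_lit 400) (nat_lit 272))) (XT.nd (nat_lit 78) (nat_lit 0) (nat_lit 0) (XT.lf (nat_lit 0) (nat_lit 19256948797) (nat_lit 76) (nat_lit 6414843002) (nat_lit 152) (nat_lit 19131870561) (nat_lit 48) (nat_lit 5) (nat_lit 49) (nat_lit 5) (nat_lit 50) (nat_lit 4) (nat_lit 529) (nat_lit 400) (nat_lit 271)) (XT.lf (nat_lit 0) (nat_lit 37857145815) (nat_lit 152) (nat_lit 1982253909) (nat_lit 0) (nat_lit 5936372978) (nat_lit 48) (nat_lit 5) (nat_lit 50) (nat_lit 4) (nat_lit 48) (nat_lit 4) (nat_lit 530) (nat_lit 400) (nat_lit 270))))) (XT.nd (nat_lit 312) (nat_lit 228) (nat_lit 0) (XT.nd (nat_lit 156) (nat_lit 76) (nat_lit 0) (XT.nd (nat_lit 78) (nat_lit 76) (nat_lit 0) (XT.lf (nat_lit 0) (nat_lit 3828784971) (nat_lit 152) (nat_lit 24168706452) (nat_lit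 76) (nat_lit 18770449292) (nat_lit 46) (nat_lit 5) (nat_lit 48) (nat_lit 5) (nat_lit 47) (nat_lit 4) (nat_lit 531) (nat_lit 400) (nat_lit 269)) (XT.lf (nat_lit 0) (nat_lit 62662609) (nat_lit 76) (nat_lit 15712498200) (nat_lit 152) (nat_lit 32012190158) (nat_lit 45) (nat_lit 5) (nat_lit 46) (nat_lit 5) (nat_lit 47) (nat_lit 4) (nat_lit 532) (nat_lit 400) (nat_lit 268))) (XT.nd (nat_lit 78) (nat_lit 76) (nat_lit 0) (XT.lf (nat_lit 0) (nat_lit 25487208815) (nat_lit 76) (nat_lit 2821816111) (nat_lit 152) (nat_lit 20521445897) (nat_lit 45) (nat_lit 5) (nat_lit 46) (nat_lit 5) (nat_lit 47) (nat_lit 4) (nat_lit 533) (nat_lit 400) (nat_lit 267)) (XT.lf (nat_lit 0) (nat_lit 1673098524) (nat_lit 76) (nat_lit 39647738067) (nat_lit 76) (nat_lit 8580989936) (nat_lit 44) (nat_lit 4) (nat_lit 45) (nat_lit 5) (nat_lit 45) (nat_lit 4) (nat_lit 534) (nat_lit 400) (nat_lit 266)))) (XT.nd (nat_lit 156) (nat_lit 76) (nat_lit 0) (XT.nd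 (nat_lit 78) (nat_lit 76) (nat_lit 0) (XT.lf (nat_lit 0) (nat_lit 3896481889) (nat_lit 152) (nat_lit 23174458741) (nat_lit 76) (nat_lit 23925769936) (nat_lit 43) (nat_lit 5) (nat_lit 45) (nat_lit 5) (nat_lit 44) (nat_lit 4) (nat_lit 535) (nat_lit 400) (nat_lit 265)) (XT.lf (nat_lit 0) (nat_lit 2568777137) (nat_lit 76) (nat_lit 14017504264) (nat_lit 152) (nat_lit 35535296912) (nat_lit 42) (nat_lit 5) (nat_lit 43) (nat_lit 5) (nat_lit 44) (nat_lit 4) (nat_lit 536) (nat_lit 400) (nat_lit 264))) (XT.nd (nat_lit 78) (nat_lit 76) (nat_lit 0) (XT.lf (nat_lit 0) (nat_lit 29531809334) (nat_lit 76) (nat_lit 344911732) (nat_lit 152) (nat_lit 23396872820) (nat_lit 42) (nat_lit 5) (nat_lit 43) (nat_lit 5) (nat_lit 44) (nat_lit 4) (nat_lit 537) (nat_lit 400) (nat_lit 263)) (XT.lf (nat_lit 0) (nat_lit 2737896047) (nat_lit 76) (nat_lit 40972566456) (nat_lit 76) (nat_lit 10745369938) (nat_lit 41) (nat_lit 4) (nat_lit 42) (nat_lit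 5) (nat_lit 42) (nat_lit 4) (nat_lit 538) (nat_lit 400) (nat_lit 262))))))) (XT.nd (nat_lit 51870) (nat_lit 0) (nat_lit 26676) (XT.nd (nat_lit 546) (nat_lit 304) (nat_lit 0) (XT.nd (nat_lit 234) (nat_lit 228) (nat_lit 0) (XT.nd (nat_lit 78) (nat_lit 76) (nat_lit 0) (XT.lf (nat_lit 0) (nat_lit 2472832898) (nat_lit 152) (nat_lit 25222500774) (nat_lit 76) (nat_lit 27970592802) (nat_lit 40) (nat_lit 5) (nat_lit 42) (nat_lit 5) (nat_lit 41) (nat_lit 4) (nat_lit 539) (nat_lit 400) (nat_lit 261)) (XT.nd (nat_lit 78) (nat_lit 0) (nat_lit 0) (XT.lf (nat_lit 0) (nat_lit 1973663792) (nat_lit 76) (nat_lit 13903542603) (nat_lit 152) (nat_lit 41031757522) (nat_lit 39) (nat_lit 5) (nat_lit 40) (nat_lit 5) (nat_lit 41) (nat_lit 4) (nat_lit 540) (nat_lit 400) (nat_lit 260)) (XT.lf (nat_lit 0) (nat_lit 29930474474) (nat_lit 152) (nat_lit 27710601244) (nat_lit 0) (nat_lit 540814017) (nat_lit 39) (nat_lit 5) (nat_lit 41) (nat_lit 4)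 (nat_lit 39) (nat_lit 4) (nat_lit 541) (nat_lit 400) (nat_lit 259)))) (XT.nd (nat_lit 156) (nat_lit 152) (nat_lit 0) (XT.nd (nat_lit 78) (nat_lit 0) (nat_lit 0) (XT.lf (nat_lit 0) (nat_lit 171007277) (nat_lit 76) (nat_lit 44360665868) (nat_lit 76) (nat_lit 14957540354) (nat_lit 38) (nat_lit 4) (nat_lit 39) (nat_lit 5) (nat_lit 39) (nat_lit 4) (nat_lit 542) (nat_lit 400) (nat_lit 258)) (XT.lf (nat_lit 0) (nat_lit 29431844851) (nat_lit 76) (nat_lit 30406050514) (nat_lit 76) (nat_lit 989852129) (nat_lit 38) (nat_lit 4) (nat_lit 39) (nat_lit 5) (nat_lit 39) (nat_lit 4) (nat_lit 543) (nat_lit 400) (nat_lit 257))) (XT.nd (nat_lit 78) (nat_lit 76) (nat_lit 0) (XT.lf (nat_lit 0) (nat_lit 13122860790) (nat_lit 152) (nat_lit 2789483088) (nat_lit 76) (nat_lit 46290607946) (nat_lit 37) (nat_lit 5) (nat_lit 39) (nat_lit 5) (nat_lit 38) (nat_lit 4) (nat_lit 544) (nat_lit 400) (nat_lit 256)) (XT.lf (nat_lit 0) (nat_lit 27171489493)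 (nat_lit 76) (nat_lit 716541256) (nat_lit 152) (nat_lit 35723618531) (nat_lit 36) (nat_lit 5) (nat_lit 37) (nat_lit 5) (nat_lit 38) (nat_lit 4) (nat_lit 545) (nat_lit 400) (nat_lit 255))))) (XT.nd (nat_lit 312) (nat_lit 76) (nat_lit 0) (XT.nd (nat_lit 156) (nat_lit 152) (nat_lit 0) (XT.nd (nat_lit 78) (nat_lit 76) (nat_lit 0) (XT.lf (nat_lit 0) (nat_lit 43255964606) (nat_lit 152) (nat_lit 7141201259) (nat_lit 0) (nat_lit 14660647657) (nat_lit 36) (nat_lit 5) (nat_lit 38) (nat_lit 4) (nat_lit 36) (nat_lit 4) (nat_lit 546) (nat_lit 400) (nat_lit 254)) (XT.lf (nat_lit 0) (nat_lit 23464135314) (nat_lit 76) (nat_lit 35841598651) (nat_lit 76) (nat_lit 7235004929) (nat_lit 35) (nat_lit 4) (nat_lit 36) (nat_lit 5) (nat_lit 36) (nat_lit 4) (nat_lit 547) (nat_lit 400) (nat_lit 253))) (XT.nd (nat_lit 78) (nat_lit 76) (nat_lit 0) (XT.lf (nat_lit 0) (nat_lit 7678230231) (nat_lit 152) (nat_lit 13030734676) (nat_lit 76) (nat_lit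 47355117350) (nat_lit 34) (nat_lit 5) (nat_lit 36) (nat_lit 5) (nat_lit 35) (nat_lit 4) (nat_lit 548) (nat_lit 400) (nat_lit 252)) (XT.lf (nat_lit 0) (nat_lit 18176881004) (nat_lit 76) (nat_lit 4879795099) (nat_lit 152) (nat_lit 46569404018) (nat_lit 33) (nat_lit 5) (nat_lit 34) (nat_lit 5) (nat_lit 35) (nat_lit 4) (nat_lit 549) (nat_lit 400) (nat_lit 251)))) (XT.nd (nat_lit 50856) (nat_lit 0) (nat_lit 30476) (XT.nd (nat_lit 78) (nat_lit 76) (nat_lit 0) (XT.lf (nat_lit 0) (nat_lit 39127694978) (nat_lit 152) (nat_lit 20776972004) (nat_lit 0) (nat_lit 11323334461) (nat_lit 33) (nat_lit 5) (nat_lit 35) (nat_lit 4) (nat_lit 33) (nat_lit 4) (nat_lit 550) (nat_lit 400) (nat_lit 250)) (XT.lf (nat_lit 0) (nat_lit 10958911883) (nat_lit 76) (nat_lit 44864440673) (nat_lit 76) (nat_lit 17050352713) (nat_lit 32) (nat_lit 4) (nat_lit 33) (nat_lit 5) (nat_lit 33) (nat_lit 4) (nat_lit 551) (nat_lit 400) (nat_lit 249))) (XT.nd (nat_lit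 78) (nat_lit 228) (nat_lit 0) (XT.lf (nat_lit 0) (nat_lit 1565276578) (nat_lit 0) (nat_lit 1565276578) (nat_lit 76) (nat_lit 92547839) (nat_lit 436) (nat_lit 5) (nat_lit 436) (nat_lit 3) (nat_lit 437) (nat_lit 0) (nat_lit 401) (nat_lit 401) (nat_lit 398)) (XT.lf (nat_lit 0) (nat_lit 2825569272) (nat_lit 228) (nat_lit 119832338) (nat_lit 228) (nat_lit 3506473858) (nat_lit 433) (nat_lit 3) (nat_lit 436) (nat_lit 3) (nat_lit 436) (nat_lit 5) (nat_lit 402) (nat_lit 401) (nat_lit 397)))))) (XT.nd (nat_lit 624) (nat_lit 2584) (nat_lit 0) (XT.nd (nat_lit 312) (nat_lit 684) (nat_lit 0) (XT.nd (nat_lit 156) (nat_lit 304) (nat_lit 0) (XT.nd (nat_lit 78) (nat_lit 228) (nat_lit 0) (XT.lf (nat_lit 76) (nat_lit 3171402781) (nat_lit 0) (nat_lit 2664453501) (nat_lit 228) (nat_lit 624447677) (nat_lit 434) (nat_lit 5) (nat_lit 433) (nat_lit 3) (nat_lit 436) (nat_lit 5) (nat_lit 403) (nat_lit 401) (nat_lit 396)) (XT.lf (nat_lit 76)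 (nat_lit 9080303) (nat_lit 0) (nat_lit 2295764842) (nat_lit 304) (nat_lit 4166891475) (nat_lit 431) (nat_lit 5) (nat_lit 430) (nat_lit 5) (nat_lit 434) (nat_lit 5) (nat_lit 404) (nat_lit 401) (nat_lit 395))) (XT.nd (nat_lit 78) (nat_lit 304) (nat_lit 0) (XT.lf (nat_lit 76) (nat_lit 3405476558) (nat_lit 0) (nat_lit 1824138401) (nat_lit 304) (nat_lit 1256135227) (nat_lit 431) (nat_lit 5) (nat_lit 430) (nat_lit 5) (nat_lit 434) (nat_lit 5) (nat_lit 405) (nat_lit 401) (nat_lit 394)) (XT.lf (nat_lit 76) (nat_lit 331224480) (nat_lit 0) (nat_lit 1269088248) (nat_lit 380) (nat_lit 4902624551) (nat_lit 427) (nat_lit 5) (nat_lit 426) (nat_lit 5) (nat_lit 431) (nat_lit 5) (nat_lit 406) (nat_lit 401) (nat_lit 393)))) (XT.nd (nat_lit 156) (nat_lit 380) (nat_lit 0) (XT.nd (nat_lit 78) (nat_lit 304) (nat_lit 0) (XT.lf (nat_lit 76) (nat_lit 3834059386) (nat_lit 0) (nat_lit 605944155) (nat_lit 380) (nat_lit 2082604948) (nat_lit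 427) (nat_lit 5) (nat_lit 426) (nat_lit 5) (nat_lit 431) (nat_lit 5) (nat_lit 407) (nat_lit 401) (nat_lit 392)) (XT.lf (nat_lit 0) (nat_lit 709332161) (nat_lit 380) (nat_lit 5701018605) (nat_lit 76) (nat_lit 135205340) (nat_lit 422) (nat_lit 5) (nat_lit 427) (nat_lit 5) (nat_lit 423) (nat_lit 5) (nat_lit 408) (nat_lit 401) (nat_lit 391))) (XT.nd (nat_lit 78) (nat_lit 380) (nat_lit 0) (XT.lf (nat_lit 0) (nat_lit 3473396358) (nat_lit 380) (nat_lit 2121280818) (nat_lit 76) (nat_lit 976012907) (nat_lit 422) (nat_lit 5) (nat_lit 427) (nat_lit 5) (nat_lit 423) (nat_lit 5) (nat_lit 409) (nat_lit 401) (nat_lit 390)) (XT.lf (nat_lit 0) (nat_lit 1532902956) (nat_lit 380) (nat_lit 4702030209) (nat_lit 456) (nat_lit 364231059) (nat_lit 417) (nat_lit 5) (nat_lit 422) (nat_lit 5) (nat_lit 423) (nat_lit 5) (nat_lit 410) (nat_lit 401) (nat_lit 389))))) (XT.nd (nat_lit 312) (nat_lit 1444) (nat_lit 0) (XT.nd (nat_lit 156) (nat_lit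 608) (nat_lit 0) (XT.nd (nat_lit 78) (nat_lit 456) (nat_lit 0) (XT.lf (nat_lit 0) (nat_lit 2325776589) (nat_lit 456) (nat_lit 1375655569) (nat_lit 76) (nat_lit 2928691705) (nat_lit 416) (nat_lit 5) (nat_lit 422) (nat_lit 5) (nat_lit 417) (nat_lit 5) (nat_lit 411) (nat_lit 401) (nat_lit 388)) (XT.lf (nat_lit 0) (nat_lit 2406664430) (nat_lit 456) (nat_lit 2609657600) (nat_lit 532) (nat_lit 1647788068) (nat_lit 410) (nat_lit 5) (nat_lit 416) (nat_lit 5) (nat_lit 417) (nat_lit 5) (nat_lit 412) (nat_lit 401) (nat_lit 387))) (XT.nd (nat_lit 78) (nat_lit 532) (nat_lit 0) (XT.lf (nat_lit 0) (nat_lit 986534511) (nat_lit 532) (nat_lit 442299767) (nat_lit 76) (nat_lit 5272408108) (nat_lit 409) (nat_lit 5) (nat_lit 416) (nat_lit 5) (nat_lit 410) (nat_lit 5) (nat_lit 413) (nat_lit 401) (nat_lit 386)) (XT.lf (nat_lit 0) (nat_lit 3477035604) (nat_lit 532) (nat_lit 131192119) (nat_lit 608) (nat_lit 3132546662) (nat_lit 402) (nat_lit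 5) (nat_lit 409) (nat_lit 5) (nat_lit 410) (nat_lit 5) (nat_lit 414) (nat_lit 401) (nat_lit 385)))) (XT.nd (nat_lit 156) (nat_lit 760) (nat_lit 0) (XT.nd (nat_lit 78) (nat_lit 76) (nat_lit 0) (XT.lf (nat_lit 0) (nat_lit 679095846) (nat_lit 608) (nat_lit 5562503669) (nat_lit 684) (nat_lit 541920425) (nat_lit 394) (nat_lit 5) (nat_lit 402) (nat_lit 5) (nat_lit 403) (nat_lit 5) (nat_lit 415) (nat_lit 401) (nat_lit 384)) (XT.lf (nat_lit 0) (nat_lit 2031029323) (nat_lit 684) (nat_lit 2106839123) (nat_lit 76) (nat_lit 2690700601) (nat_lit 393) (nat_lit 5) (nat_lit 402) (nat_lit 5) (nat_lit 394) (nat_lit 5) (nat_lit 416) (nat_lit 401) (nat_lit 383))) (XT.nd (nat_lit 78) (nat_lit 76) (nat_lit 0) (XT.lf (nat_lit 0) (nat_lit 1980524721) (nat_lit 684) (nat_lit 2622882311) (nat_lit 760) (nat_lit 2273424550) (nat_lit 384) (nat_lit 5) (nat_lit 393) (nat_lit 5) (nat_lit 394) (nat_lit 5) (nat_lit 417) (nat_lit 401) (nat_lit 382))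 (XT.lf (nat_lit 0) (nat_lit 256674231) (nat_lit 760) (nat_lit 760067587) (nat_lit 76) (nat_lit 5911623051) (nat_lit 383) (nat_lit 5) (nat_lit 393) (nat_lit 5) (nat_lit 384) (nat_lit 5) (nat_lit 418) (nat_lit 401) (nat_lit 381))))))))
noncomputable def xc99 : XT := (XT.nd (nat_lit 2340) (nat_lit 6232) (nat_lit 0) (XT.nd (nat_lit 1170) (nat_lit 5092) (nat_lit 0) (XT.nd (nat_lit 546) (nat_lit 4560) (nat_lit 0) (XT.nd (nat_lit 234) (nat_lit 3040) (nat_lit 0) (XT.nd (nat_lit 78) (nat_lit 912) (nat_lit 0) (XT.lf (nat_lit 0) (nat_lit 2774952580) (nat_lit 836) (nat_lit 3506041346) (nat_lit 76) (nat_lit 701051281) (nat_lit 373) (nat_lit 5) (nat_lit 384) (nat_lit 5) (nat_lit 374) (nat_lit 5) (nat_lit 419) (nat_lit 401) (nat_lit 380)) (XT.nd (nat_lit 78) (nat_lit 76) (nat_lit 0) (XT.lf (nat_lit 0) (nat_lit 757643120) (nat_lit 836) (nat_lit 4555834423) (nat_lit 912) (nat_lit 1725532449) (nat_lit 362) (nat_lit 5) (nat_lit 373)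 (nat_lit 5) (nat_lit 374) (nat_lit 5) (nat_lit 420) (nat_lit 401) (nat_lit 379)) (XT.lf (nat_lit 0) (nat_lit 770554472) (nat_lit 912) (nat_lit 1949439589) (nat_lit 76) (nat_lit 4378775728) (nat_lit 361) (nat_lit 5) (nat_lit 373) (nat_lit 5) (nat_lit 362) (nat_lit 5) (nat_lit 421) (nat_lit 401) (nat_lit 378)))) (XT.nd (nat_lit 156) (nat_lit 2128) (nat_lit 0) (XT.nd (nat_lit 78) (nat_lit 0) (nat_lit 0) (XT.lf (nat_lit 0) (nat_lit 2480073720) (nat_lit 912) (nat_lit 773454219) (nat_lit 988) (nat_lit 3907895056) (nat_lit 349) (nat_lit 5) (nat_lit 361) (nat_lit 5) (nat_lit 362) (nat_lit 5) (nat_lit 422) (nat_lit 401) (nat_lit 377)) (XT.lf (nat_lit 0) (nat_lit 5767315030) (nat_lit 988) (nat_lit 220420457) (nat_lit 76) (nat_lit 1239543890) (nat_lit 349) (nat_lit 5) (nat_lit 362) (nat_lit 5) (nat_lit 350) (nat_lit 5) (nat_lit 423) (nat_lit 401) (nat_lit 376))) (XT.nd (nat_lit 78) (nat_lit 1064) (nat_lit 0) (XT.lf (nat_lit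 0) (nat_lit 1017096245) (nat_lit 1064) (nat_lit 2917027617) (nat_lit 76) (nat_lit 3361401939) (nat_lit 335) (nat_lit 5) (nat_lit 349) (nat_lit 5) (nat_lit 336) (nat_lit 5) (nat_lit 424) (nat_lit 401) (nat_lit 375)) (XT.lf (nat_lit 0) (nat_lit 1708634438) (nat_lit 1064) (nat_lit 1776770014) (nat_lit 1140) (nat_lit 3881605308) (nat_lit 321) (nat_lit 5) (nat_lit 335) (nat_lit 5) (nat_lit 336) (nat_lit 5) (nat_lit 425) (nat_lit 401) (nat_lit 374))))) (XT.nd (nat_lit 312) (nat_lit 2128) (nat_lit 0) (XT.nd (nat_lit 156) (nat_lit 1216) (nat_lit 0) (XT.nd (nat_lit 78) (nat_lit 1216) (nat_lit 0) (XT.lf (nat_lit 0) (nat_lit 5990962134) (nat_lit 1140) (nat_lit 977420432) (nat_lit 76) (nat_lit 473371491) (nat_lit 321) (nat_lit 5) (nat_lit 336) (nat_lit 5) (nat_lit 322) (nat_lit 5) (nat_lit 426) (nat_lit 401) (nat_lit 373)) (XT.lf (nat_lit 0) (nat_lit 1017958544) (nat_lit 1216) (nat_lit 3691946808) (nat_lit 76) (nat_lit 2808976053)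 (nat_lit 305) (nat_lit 5) (nat_lit 321) (nat_lit 5) (nat_lit 306) (nat_lit 5) (nat_lit 427) (nat_lit 401) (nat_lit 372))) (XT.nd (nat_lit 78) (nat_lit 0) (nat_lit 0) (XT.lf (nat_lit 0) (nat_lit 1140449690) (nat_lit 1216) (nat_lit 2344042932) (nat_lit 1292) (nat_lit 4114823429) (nat_lit 289) (nat_lit 5) (nat_lit 305) (nat_lit 5) (nat_lit 306) (nat_lit 5) (nat_lit 428) (nat_lit 401) (nat_lit 371)) (XT.lf (nat_lit 0) (nat_lit 5996905386) (nat_lit 1292) (nat_lit 1554980106) (nat_lit 76) (nat_lit 131132274) (nat_lit 289) (nat_lit 5) (nat_lit 306) (nat_lit 5) (nat_lit 290) (nat_lit 5) (nat_lit 429) (nat_lit 401) (nat_lit 370)))) (XT.nd (nat_lit 156) (nat_lit 684) (nat_lit 0) (XT.nd (nat_lit 78) (nat_lit 608) (nat_lit 0) (XT.lf (nat_lit 0) (nat_lit 791364654) (nat_lit 836) (nat_lit 4300836089) (nat_lit 76) (nat_lit 2677050019) (nat_lit 278) (nat_lit 5) (nat_lit 289) (nat_lit 5) (nat_lit 279) (nat_lit 5) (nat_lit 430) (nat_lit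 401) (nat_lit 369)) (XT.lf (nat_lit 0) (nat_lit 749665390) (nat_lit 608) (nat_lit 2518592648) (nat_lit 684) (nat_lit 4590552065) (nat_lit 270) (nat_lit 5) (nat_lit 278) (nat_lit 5) (nat_lit 279) (nat_lit 5) (nat_lit 431) (nat_lit 401) (nat_lit 368))) (XT.nd (nat_lit 78) (nat_lit 684) (nat_lit 0) (XT.lf (nat_lit 0) (nat_lit 5801741505) (nat_lit 684) (nat_lit 1977754641) (nat_lit 76) (nat_lit 172100917) (nat_lit 270) (nat_lit 5) (nat_lit 279) (nat_lit 5) (nat_lit 271) (nat_lit 5) (nat_lit 432) (nat_lit 401) (nat_lit 367)) (XT.lf (nat_lit 0) (nat_lit 352376456) (nat_lit 684) (nat_lit 4768292299) (nat_lit 76) (nat_lit 2926540130) (nat_lit 261) (nat_lit 5) (nat_lit 270) (nat_lit 5) (nat_lit 262) (nat_lit 5) (nat_lit 433) (nat_lit 401) (nat_lit 366)))))) (XT.nd (nat_lit 546) (nat_lit 2356) (nat_lit 0) (XT.nd (nat_lit 234) (nat_lit 1672) (nat_lit 0) (XT.nd (nat_lit 78) (nat_lit 532) (nat_lit 0) (XT.lf (nat_lit 0) (nat_lit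 512455832) (nat_lit 532) (nat_lit 2338652349) (nat_lit 608) (nat_lit 5295011570) (nat_lit 254) (nat_lit 5) (nat_lit 261) (nat_lit 5) (nat_lit 262) (nat_lit 5) (nat_lit 434) (nat_lit 401) (nat_lit 365)) (XT.nd (nat_lit 78) (nat_lit 532) (nat_lit 0) (XT.lf (nat_lit 0) (nat_lit 5419137926) (nat_lit 608) (nat_lit 2268628827) (nat_lit 76) (nat_lit 560409406) (nat_lit 254) (nat_lit 5) (nat_lit 262) (nat_lit 5) (nat_lit 255) (nat_lit 5) (nat_lit 435) (nat_lit 401) (nat_lit 364)) (XT.lf (nat_lit 0) (nat_lit 3233309229) (nat_lit 532) (nat_lit 4827508414) (nat_lit 608) (nat_lit 292586399) (nat_lit 247) (nat_lit 5) (nat_lit 254) (nat_lit 5) (nat_lit 255) (nat_lit 5) (nat_lit 436) (nat_lit 401) (nat_lit 363)))) (XT.nd (nat_lit 156) (nat_lit 1064) (nat_lit 0) (XT.nd (nat_lit 78) (nat_lit 0) (nat_lit 0) (XT.lf (nat_lit 0) (nat_lit 406611577) (nat_lit 532) (nat_lit 1837996091) (nat_lit 608) (nat_lit 6217422076) (nat_lit 239) (nat_lit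 5) (nat_lit 246) (nat_lit 5) (nat_lit 247) (nat_lit 5) (nat_lit 437) (nat_lit 401) (nat_lit 362)) (XT.lf (nat_lit 0) (nat_lit 4860033102) (nat_lit 608) (nat_lit 2449113111) (nat_lit 76) (nat_lit 1264448581) (nat_lit 239) (nat_lit 5) (nat_lit 247) (nat_lit 5) (nat_lit 240) (nat_lit 5) (nat_lit 438) (nat_lit 401) (nat_lit 361))) (XT.nd (nat_lit 78) (nat_lit 532) (nat_lit 0) (XT.lf (nat_lit 0) (nat_lit 3308158495) (nat_lit 532) (nat_lit 4241246483) (nat_lit 608) (nat_lit 1139244466) (nat_lit 232) (nat_lit 5) (nat_lit 239) (nat_lit 5) (nat_lit 240) (nat_lit 5) (nat_lit 439) (nat_lit 401) (nat_lit 360)) (XT.lf (nat_lit 0) (nat_lit 411141481) (nat_lit 456) (nat_lit 1046510033) (nat_lit 532) (nat_lit 7349829055) (nat_lit 225) (nat_lit 5) (nat_lit 231) (nat_lit 5) (nat_lit 232) (nat_lit 5) (nat_lit 440) (nat_lit 401) (nat_lit 359))))) (XT.nd (nat_lit 312) (nat_lit 1368) (nat_lit 0) (XT.nd (nat_lit 156) (nat_lit 532) (nat_lit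 0) (XT.nd (nat_lit 78) (nat_lit 456) (nat_lit 0) (XT.lf (nat_lit 0) (nat_lit 4132796053) (nat_lit 532) (nat_lit 2539728884) (nat_lit 76) (nat_lit 2256322673) (nat_lit 225) (nat_lit 5) (nat_lit 232) (nat_lit 5) (nat_lit 226) (nat_lit 5) (nat_lit 441) (nat_lit 401) (nat_lit 358)) (XT.lf (nat_lit 0) (nat_lit 3487246545) (nat_lit 456) (nat_lit 3393178646) (nat_lit 532) (nat_lit 2173669920) (nat_lit 219) (nat_lit 5) (nat_lit 225) (nat_lit 5) (nat_lit 226) (nat_lit 5) (nat_lit 442) (nat_lit 401) (nat_lit 357))) (XT.nd (nat_lit 78) (nat_lit 0) (nat_lit 0) (XT.lf (nat_lit 0) (nat_lit 496687635) (nat_lit 532) (nat_lit 8677775920) (nat_lit 76) (nat_lit 9102521) (nat_lit 212) (nat_lit 5) (nat_lit 219) (nat_lit 5) (nat_lit 213) (nat_lit 5) (nat_lit 443) (nat_lit 401) (nat_lit 356)) (XT.lf (nat_lit 0) (nat_lit 3243346889) (nat_lit 532) (nat_lit 2560389666) (nat_lit 76) (nat_lit 3511348403) (nat_lit 212) (nat_lit 5) (nat_lit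 219) (nat_lit 5) (nat_lit 213) (nat_lit 5) (nat_lit 444) (nat_lit 401) (nat_lit 355)))) (XT.nd (nat_lit 156) (nat_lit 532) (nat_lit 0) (XT.nd (nat_lit 78) (nat_lit 380) (nat_lit 0) (XT.lf (nat_lit 0) (nat_lit 3751387257) (nat_lit 456) (nat_lit 2308062713) (nat_lit 532) (nat_lit 3391493763) (nat_lit 206) (nat_lit 5) (nat_lit 212) (nat_lit 5) (nat_lit 213) (nat_lit 5) (nat_lit 445) (nat_lit 401) (nat_lit 354)) (XT.lf (nat_lit 0) (nat_lit 651897430) (nat_lit 380) (nat_lit 8304627786) (nat_lit 456) (nat_lit 634463869) (nat_lit 201) (nat_lit 5) (nat_lit 206) (nat_lit 5) (nat_lit 207) (nat_lit 5) (nat_lit 446) (nat_lit 401) (nat_lit 353))) (XT.nd (nat_lit 78) (nat_lit 456) (nat_lit 0) (XT.lf (nat_lit 0) (nat_lit 2195239444) (nat_lit 456) (nat_lit 2530784991) (nat_lit 76) (nat_lit 5007590716) (nat_lit 200) (nat_lit 5) (nat_lit 206) (nat_lit 5) (nat_lit 201) (nat_lit 5) (nat_lit 447) (nat_lit 401) (nat_lit 352)) (XT.lf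 (nat_lit 0) (nat_lit 4081596204) (nat_lit 456) (nat_lit 1008136980) (nat_lit 532) (nat_lit 4790823835) (nat_lit 194) (nat_lit 5) (nat_lit 200) (nat_lit 5) (nat_lit 201) (nat_lit 5) (nat_lit 448) (nat_lit 401) (nat_lit 351))))))) (XT.nd (nat_lit 1170) (nat_lit 2660) (nat_lit 0) (XT.nd (nat_lit 546) (nat_lit 1672) (nat_lit 0) (XT.nd (nat_lit 234) (nat_lit 1064) (nat_lit 0) (XT.nd (nat_lit 78) (nat_lit 456) (nat_lit 0) (XT.lf (nat_lit 0) (nat_lit 839934126) (nat_lit 380) (nat_lit 7246172792) (nat_lit 456) (nat_lit 1945353746) (nat_lit 189) (nat_lit 5) (nat_lit 194) (nat_lit 5) (nat_lit 195) (nat_lit 5) (nat_lit 449) (nat_lit 401) (nat_lit 350)) (XT.nd (nat_lit 78) (nat_lit 380) (nat_lit 0) (XT.lf (nat_lit 0) (nat_lit 989706476) (nat_lit 456) (nat_lit 2470774019) (nat_lit 76) (nat_lit 6725427635) (nat_lit 188) (nat_lit 5) (nat_lit 194) (nat_lit 5) (nat_lit 189) (nat_lit 5) (nat_lit 450) (nat_lit 401) (nat_lit 349))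 (XT.lf (nat_lit 0) (nat_lit 3976921326) (nat_lit 456) (nat_lit 5890444871) (nat_lit 76) (nat_lit 476953379) (nat_lit 183) (nat_lit 5) (nat_lit 189) (nat_lit 5) (nat_lit 184) (nat_lit 5) (nat_lit 451) (nat_lit 401) (nat_lit 348)))) (XT.nd (nat_lit 156) (nat_lit 760) (nat_lit 0) (XT.nd (nat_lit 78) (nat_lit 0) (nat_lit 0) (XT.lf (nat_lit 0) (nat_lit 1055040403) (nat_lit 304) (nat_lit 6024535816) (nat_lit 380) (nat_lit 3427136768) (nat_lit 179) (nat_lit 5) (nat_lit 183) (nat_lit 5) (nat_lit 184) (nat_lit 5) (nat_lit 452) (nat_lit 401) (nat_lit 347)) (XT.lf (nat_lit 0) (nat_lit 8269024233) (nat_lit 304) (nat_lit 2022683595) (nat_lit 380) (nat_lit 381782666) (nat_lit 179) (nat_lit 5) (nat_lit 183) (nat_lit 5) (nat_lit 184) (nat_lit 5) (nat_lit 453) (nat_lit 401) (nat_lit 346))) (XT.nd (nat_lit 78) (nat_lit 304) (nat_lit 0) (XT.lf (nat_lit 0) (nat_lit 2726406530) (nat_lit 456) (nat_lit 6002209618) (nat_lit 76) (nat_lit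 2115107683) (nat_lit 173) (nat_lit 5) (nat_lit 179) (nat_lit 5) (nat_lit 174) (nat_lit 5) (nat_lit 454) (nat_lit 401) (nat_lit 345)) (XT.lf (nat_lit 0) (nat_lit 1276498212) (nat_lit 304) (nat_lit 4658733351) (nat_lit 380) (nat_lit 5083271143) (nat_lit 169) (nat_lit 5) (nat_lit 173) (nat_lit 5) (nat_lit 174) (nat_lit 5) (nat_lit 455) (nat_lit 401) (nat_lit 344))))) (XT.nd (nat_lit 312) (nat_lit 988) (nat_lit 0) (XT.nd (nat_lit 156) (nat_lit 304) (nat_lit 0) (XT.nd (nat_lit 78) (nat_lit 380) (nat_lit 0) (XT.lf (nat_lit 0) (nat_lit 8837005386) (nat_lit 304) (nat_lit 422815494) (nat_lit 380) (nat_lit 1938122816) (nat_lit 169) (nat_lit 5) (nat_lit 173) (nat_lit 5) (nat_lit 174) (nat_lit 5) (nat_lit 456) (nat_lit 401) (nat_lit 343)) (XT.lf (nat_lit 0) (nat_lit 1324687676) (nat_lit 380) (nat_lit 6147129781) (nat_lit 76) (nat_lit 3909117620) (nat_lit 164) (nat_lit 5) (nat_lit 169) (nat_lit 5) (nat_lit 165) (nat_lit 5) (nat_lit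 457) (nat_lit 401) (nat_lit 342))) (XT.nd (nat_lit 78) (nat_lit 0) (nat_lit 0) (XT.lf (nat_lit 0) (nat_lit 1482286834) (nat_lit 304) (nat_lit 3166779616) (nat_lit 380) (nat_lit 6919698338) (nat_lit 160) (nat_lit 5) (nat_lit 164) (nat_lit 5) (nat_lit 165) (nat_lit 5) (nat_lit 458) (nat_lit 401) (nat_lit 341)) (XT.lf (nat_lit 0) (nat_lit 8108588305) (nat_lit 380) (nat_lit 2366099091) (nat_lit 76) (nat_lit 1286482961) (nat_lit 160) (nat_lit 5) (nat_lit 165) (nat_lit 5) (nat_lit 161) (nat_lit 5) (nat_lit 459) (nat_lit 401) (nat_lit 340)))) (XT.nd (nat_lit 156) (nat_lit 304) (nat_lit 0) (XT.nd (nat_lit 78) (nat_lit 380) (nat_lit 0) (XT.lf (nat_lit 0) (nat_lit 5606136395) (nat_lit 304) (nat_lit 6112692657) (nat_lit 380) (nat_lit 239114265) (nat_lit 156) (nat_lit 5) (nat_lit 160) (nat_lit 5) (nat_lit 161) (nat_lit 5) (nat_lit 460) (nat_lit 401) (nat_lit 339)) (XT.lf (nat_lit 0) (nat_lit 1648582495) (nat_lit 304) (nat_lit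 1566088734) (nat_lit 380) (nat_lit 8944950678) (nat_lit 151) (nat_lit 5) (nat_lit 155) (nat_lit 5) (nat_lit 156) (nat_lit 5) (nat_lit 461) (nat_lit 401) (nat_lit 338))) (XT.nd (nat_lit 78) (nat_lit 304) (nat_lit 0) (XT.lf (nat_lit 0) (nat_lit 6824247622) (nat_lit 380) (nat_lit 2437563328) (nat_lit 76) (nat_lit 3103762330) (nat_lit 151) (nat_lit 5) (nat_lit 156) (nat_lit 5) (nat_lit 152) (nat_lit 5) (nat_lit 462) (nat_lit 401) (nat_lit 337)) (XT.lf (nat_lit 0) (nat_lit 5921498937) (nat_lit 304) (nat_lit 4656384667) (nat_lit 380) (nat_lit 1998749284) (nat_lit 147) (nat_lit 5) (nat_lit 151) (nat_lit 5) (nat_lit 152) (nat_lit 5) (nat_lit 463) (nat_lit 401) (nat_lit 336)))))) (XT.nd (nat_lit 624) (nat_lit 1216) (nat_lit 0) (XT.nd (nat_lit 312) (nat_lit 608) (nat_lit 0) (XT.nd (nat_lit 156) (nat_lit 532) (nat_lit 0) (XT.nd (nat_lit 78) (nat_lit 0) (nat_lit 0) (XT.lf (nat_lit 0) (nat_lit 1624303245) (nat_lit 304) (nat_lit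 11045400549) (nat_lit 76) (nat_lit 123655383) (nat_lit 143) (nat_lit 5) (nat_lit 147) (nat_lit 5) (nat_lit 144) (nat_lit 5) (nat_lit 464) (nat_lit 401) (nat_lit 335)) (XT.lf (nat_lit 0) (nat_lit 5393686221) (nat_lit 304) (nat_lit 2598725719) (nat_lit 76) (nat_lit 5021249895) (nat_lit 143) (nat_lit 5) (nat_lit 147) (nat_lit 5) (nat_lit 144) (nat_lit 5) (nat_lit 465) (nat_lit 401) (nat_lit 334))) (XT.nd (nat_lit 78) (nat_lit 228) (nat_lit 0) (XT.lf (nat_lit 0) (nat_lit 6166174121) (nat_lit 304) (nat_lit 3134142559) (nat_lit 380) (nat_lit 3939534456) (nat_lit 139) (nat_lit 5) (nat_lit 143) (nat_lit 5) (nat_lit 144) (nat_lit 5) (nat_lit 466) (nat_lit 401) (nat_lit 333)) (XT.lf (nat_lit 0) (nat_lit 1735076115) (nat_lit 228) (nat_lit 11615416470) (nat_lit 304) (nat_lit 121545604) (nat_lit 136) (nat_lit 5) (nat_lit 139) (nat_lit 5) (nat_lit 140) (nat_lit 5) (nat_lit 467) (nat_lit 401) (nat_lit 332)))) (XT.nd (nat_lit 156)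 (nat_lit 304) (nat_lit 0) (XT.nd (nat_lit 78) (nat_lit 228) (nat_lit 0) (XT.lf (nat_lit 0) (nat_lit 3805117697) (nat_lit 304) (nat_lit 2880270420) (nat_lit 76) (nat_lit 7022651035) (nat_lit 135) (nat_lit 5) (nat_lit 139) (nat_lit 5) (nat_lit 136) (nat_lit 5) (nat_lit 468) (nat_lit 401) (nat_lit 331)) (XT.lf (nat_lit 0) (nat_lit 6309727652) (nat_lit 228) (nat_lit 1564405179) (nat_lit 304) (nat_lit 6076143624) (nat_lit 132) (nat_lit 5) (nat_lit 135) (nat_lit 5) (nat_lit 136) (nat_lit 5) (nat_lit 469) (nat_lit 401) (nat_lit 330))) (XT.nd (nat_lit 78) (nat_lit 76) (nat_lit 0) (XT.lf (nat_lit 0) (nat_lit 1575772271) (nat_lit 228) (nat_lit 10536238604) (nat_lit 304) (nat_lit 2086368422) (nat_lit 129) (nat_lit 5) (nat_lit 132) (nat_lit 5) (nat_lit 133) (nat_lit 5) (nat_lit 470) (nat_lit 401) (nat_lit 329)) (XT.lf (nat_lit 0) (nat_lit 2043761853) (nat_lit 304) (nat_lit 3316817246) (nat_lit 76) (nat_lit 9090960582) (nat_lit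 128) (nat_lit 5) (nat_lit 132) (nat_lit 5) (nat_lit 129) (nat_lit 5) (nat_lit 471) (nat_lit 401) (nat_lit 328))))) (XT.nd (nat_lit 312) (nat_lit 456) (nat_lit 0) (XT.nd (nat_lit 156) (nat_lit 304) (nat_lit 0) (XT.nd (nat_lit 78) (nat_lit 228) (nat_lit 0) (XT.lf (nat_lit 0) (nat_lit 6284612989) (nat_lit 304) (nat_lit 8393495171) (nat_lit 76) (nat_lit 32706484) (nat_lit 125) (nat_lit 5) (nat_lit 129) (nat_lit 5) (nat_lit 126) (nat_lit 5) (nat_lit 472) (nat_lit 401) (nat_lit 327)) (XT.lf (nat_lit 0) (nat_lit 1249221661) (nat_lit 228) (nat_lit 9470313230) (nat_lit 304) (nat_lit 4256329557) (nat_lit 122) (nat_lit 5) (nat_lit 125) (nat_lit 5) (nat_lit 126) (nat_lit 5) (nat_lit 473) (nat_lit 401) (nat_lit 326))) (XT.nd (nat_lit 78) (nat_lit 228) (nat_lit 0) (XT.lf (nat_lit 0) (nat_lit 91529602) (nat_lit 304) (nat_lit 3947727069) (nat_lit 76) (nat_lit 11207990422) (nat_lit 121) (nat_lit 5) (nat_lit 125) (nat_lit 5) (nat_lit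 122) (nat_lit 5) (nat_lit 474) (nat_lit 401) (nat_lit 325)) (XT.lf (nat_lit 0) (nat_lit 4528124383) (nat_lit 304) (nat_lit 9389893957) (nat_lit 76) (nat_lit 1606174972) (nat_lit 118) (nat_lit 5) (nat_lit 122) (nat_lit 5) (nat_lit 119) (nat_lit 5) (nat_lit 475) (nat_lit 401) (nat_lit 324)))) (XT.nd (nat_lit 156) (nat_lit 304) (nat_lit 0) (XT.nd (nat_lit 78) (nat_lit 0) (nat_lit 0) (XT.lf (nat_lit 0) (nat_lit 712856488) (nat_lit 152) (nat_lit 8441252583) (nat_lit 228) (nat_lit 6653651815) (nat_lit 116) (nat_lit 5) (nat_lit 118) (nat_lit 5) (nat_lit 119) (nat_lit 5) (nat_lit 476) (nat_lit 401) (nat_lit 323)) (XT.lf (nat_lit 0) (nat_lit 11259558413) (nat_lit 152) (nat_lit 2723723704) (nat_lit 228) (nat_lit 2114622787) (nat_lit 116) (nat_lit 5) (nat_lit 118) (nat_lit 5) (nat_lit 119) (nat_lit 5) (nat_lit 477) (nat_lit 401) (nat_lit 322))) (XT.nd (nat_lit 78) (nat_lit 0) (nat_lit 0) (XT.lf (nat_lit 0) (nat_lit 2567208580)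 (nat_lit 304) (nat_lit 10663221810) (nat_lit 76) (nat_lit 3163888095) (nat_lit 112) (nat_lit 5) (nat_lit 116) (nat_lit 5) (nat_lit 113) (nat_lit 5) (nat_lit 478) (nat_lit 401) (nat_lit 321)) (XT.lf (nat_lit 0) (nat_lit 7393669456) (nat_lit 304) (nat_lit 80636453) (nat_lit 76) (nat_lit 9223291708) (nat_lit 112) (nat_lit 5) (nat_lit 116) (nat_lit 5) (nat_lit 113) (nat_lit 5) (nat_lit 479) (nat_lit 401) (nat_lit 320))))))))
noncomputable def xc100 : XT := (XT.nd (nat_lit 2340) (nat_lit 2128) (nat_lit 0) (XT.nd (nat_lit 1170) (nat_lit 1368) (nat_lit 0) (XT.nd (nat_lit 546) (nat_lit 912) (nat_lit 0) (XT.nd (nat_lit 234) (nat_lit 532) (nat_lit 0) (XT.nd (nat_lit 78) (nat_lit 304) (nat_lit 0) (XT.lf (nat_lit 0) (nat_lit 10984359177) (nat_lit 152) (nat_lit 1457383726) (nat_lit 228) (nat_lit 4565929151) (nat_lit 110) (nat_lit 5) (nat_lit 112) (nat_lit 5) (nat_lit 113) (nat_lit 5) (nat_lit 480) (nat_lit 401) (nat_lit 319))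 (XT.nd (nat_lit 78) (nat_lit 0) (nat_lit 0) (XT.lf (nat_lit 0) (nat_lit 375157013) (nat_lit 304) (nat_lit 12269228728) (nat_lit 76) (nat_lit 4680561422) (nat_lit 106) (nat_lit 5) (nat_lit 110) (nat_lit 5) (nat_lit 107) (nat_lit 5) (nat_lit 481) (nat_lit 401) (nat_lit 318)) (XT.lf (nat_lit 0) (nat_lit 5420041276) (nat_lit 304) (nat_lit 1169228418) (nat_lit 76) (nat_lit 11059695897) (nat_lit 106) (nat_lit 5) (nat_lit 110) (nat_lit 5) (nat_lit 107) (nat_lit 5) (nat_lit 482) (nat_lit 401) (nat_lit 317)))) (XT.nd (nat_lit 156) (nat_lit 228) (nat_lit 0) (XT.nd (nat_lit 78) (nat_lit 152) (nat_lit 0) (XT.lf (nat_lit 0) (nat_lit 10418861688) (nat_lit 152) (nat_lit 269874272) (nat_lit 228) (nat_lit 7291796023) (nat_lit 104) (nat_lit 5) (nat_lit 106) (nat_lit 5) (nat_lit 107) (nat_lit 5) (nat_lit 483) (nat_lit 401) (nat_lit 316)) (XT.lf (nat_lit 0) (nat_lit 4026989105) (nat_lit 152) (nat_lit 12171572908) (nat_lit 228) (nat_lit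 2120992526) (nat_lit 102) (nat_lit 5) (nat_lit 104) (nat_lit 5) (nat_lit 105) (nat_lit 5) (nat_lit 484) (nat_lit 401) (nat_lit 315))) (XT.nd (nat_lit 78) (nat_lit 152) (nat_lit 0) (XT.lf (nat_lit 0) (nat_lit 3194715230) (nat_lit 228) (nat_lit 2630823716) (nat_lit 76) (nat_lit 12840716209) (nat_lit 101) (nat_lit 5) (nat_lit 104) (nat_lit 5) (nat_lit 102) (nat_lit 5) (nat_lit 485) (nat_lit 401) (nat_lit 314)) (XT.lf (nat_lit 0) (nat_lit 8699649049) (nat_lit 228) (nat_lit 9530461275) (nat_lit 76) (nat_lit 790446105) (nat_lit 99) (nat_lit 5) (nat_lit 102) (nat_lit 5) (nat_lit 100) (nat_lit 5) (nat_lit 486) (nat_lit 401) (nat_lit 313))))) (XT.nd (nat_lit 312) (nat_lit 380) (nat_lit 0) (XT.nd (nat_lit 156) (nat_lit 304) (nat_lit 0) (XT.nd (nat_lit 78) (nat_lit 76) (nat_lit 0) (XT.lf (nat_lit 0) (nat_lit 2589295468) (nat_lit 152) (nat_lit 11863301441) (nat_lit 228) (nat_lit 4930404995) (nat_lit 97) (nat_lit 5) (nat_lit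 99) (nat_lit 5) (nat_lit 100) (nat_lit 5) (nat_lit 487) (nat_lit 401) (nat_lit 312)) (XT.lf (nat_lit 0) (nat_lit 680402038) (nat_lit 228) (nat_lit 4539589569) (nat_lit 76) (nat_lit 14534029199) (nat_lit 96) (nat_lit 5) (nat_lit 99) (nat_lit 5) (nat_lit 97) (nat_lit 5) (nat_lit 488) (nat_lit 401) (nat_lit 311))) (XT.nd (nat_lit 78) (nat_lit 152) (nat_lit 0) (XT.lf (nat_lit 0) (nat_lit 6429710510) (nat_lit 228) (nat_lit 12003349739) (nat_lit 76) (nat_lit 1699568393) (nat_lit 94) (nat_lit 5) (nat_lit 97) (nat_lit 5) (nat_lit 95) (nat_lit 5) (nat_lit 489) (nat_lit 401) (nat_lit 310)) (XT.lf (nat_lit 0) (nat_lit 664908285) (nat_lit 152) (nat_lit 11765381303) (nat_lit 228) (nat_lit 8089942400) (nat_lit 92) (nat_lit 5) (nat_lit 94) (nat_lit 5) (nat_lit 95) (nat_lit 5) (nat_lit 490) (nat_lit 401) (nat_lit 309)))) (XT.nd (nat_lit 156) (nat_lit 152) (nat_lit 0) (XT.nd (nat_lit 78) (nat_lit 228) (nat_lit 0) (XT.lf (nat_lit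 0) (nat_lit 13913741146) (nat_lit 152) (nat_lit 4793084459) (nat_lit 228) (nat_lit 2209760631) (nat_lit 92) (nat_lit 5) (nat_lit 94) (nat_lit 5) (nat_lit 95) (nat_lit 5) (nat_lit 491) (nat_lit 401) (nat_lit 308)) (XT.lf (nat_lit 0) (nat_lit 3831041887) (nat_lit 228) (nat_lit 15070387319) (nat_lit 76) (nat_lit 2420515072) (nat_lit 89) (nat_lit 5) (nat_lit 92) (nat_lit 5) (nat_lit 90) (nat_lit 5) (nat_lit 492) (nat_lit 401) (nat_lit 307))) (XT.nd (nat_lit 78) (nat_lit 152) (nat_lit 0) (XT.lf (nat_lit 0) (nat_lit 10102853513) (nat_lit 228) (nat_lit 1805039145) (nat_lit 76) (nat_lit 9828088972) (nat_lit 89) (nat_lit 5) (nat_lit 92) (nat_lit 5) (nat_lit 90) (nat_lit 5) (nat_lit 493) (nat_lit 401) (nat_lit 306)) (XT.lf (nat_lit 0) (nat_lit 12049906733) (nat_lit 152) (nat_lit 4604790040) (nat_lit 228) (nat_lit 5504987889) (nat_lit 87) (nat_lit 5) (nat_lit 89) (nat_lit 5) (nat_lit 90) (nat_lit 5) (nat_lit 494) (nat_lit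 401) (nat_lit 305)))))) (XT.nd (nat_lit 546) (nat_lit 684) (nat_lit 0) (XT.nd (nat_lit 234) (nat_lit 304) (nat_lit 0) (XT.nd (nat_lit 78) (nat_lit 152) (nat_lit 0) (XT.lf (nat_lit 0) (nat_lit 850602983) (nat_lit 228) (nat_lit 18839106501) (nat_lit 76) (nat_lit 2904376792) (nat_lit 84) (nat_lit 5) (nat_lit 87) (nat_lit 5) (nat_lit 85) (nat_lit 5) (nat_lit 495) (nat_lit 401) (nat_lit 304)) (XT.nd (nat_lit 78) (nat_lit 152) (nat_lit 0) (XT.lf (nat_lit 0) (nat_lit 7411097434) (nat_lit 228) (nat_lit 4940289168) (nat_lit 76) (nat_lit 10684752574) (nat_lit 84) (nat_lit 5) (nat_lit 87) (nat_lit 5) (nat_lit 85) (nat_lit 5) (nat_lit 496) (nat_lit 401) (nat_lit 303)) (XT.lf (nat_lit 0) (nat_lit 9518866210) (nat_lit 152) (nat_lit 4717924160) (nat_lit 228) (nat_lit 9252612565) (nat_lit 82) (nat_lit 5) (nat_lit 84) (nat_lit 5) (nat_lit 85) (nat_lit 5) (nat_lit 497) (nat_lit 401) (nat_lit 302)))) (XT.nd (nat_lit 156) (nat_lit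 152) (nat_lit 0) (XT.nd (nat_lit 78) (nat_lit 76) (nat_lit 0) (XT.lf (nat_lit 0) (nat_lit 494772048) (nat_lit 76) (nat_lit 20834815303) (nat_lit 152) (nat_lit 2624808013) (nat_lit 81) (nat_lit 5) (nat_lit 82) (nat_lit 5) (nat_lit 83) (nat_lit 4) (nat_lit 498) (nat_lit 401) (nat_lit 301)) (XT.lf (nat_lit 0) (nat_lit 4286031072) (nat_lit 152) (nat_lit 8879685270) (nat_lit 76) (nat_lit 11261424425) (nat_lit 80) (nat_lit 5) (nat_lit 82) (nat_lit 5) (nat_lit 81) (nat_lit 5) (nat_lit 499) (nat_lit 401) (nat_lit 300))) (XT.nd (nat_lit 78) (nat_lit 0) (nat_lit 0) (XT.lf (nat_lit 0) (nat_lit 6191210611) (nat_lit 152) (nat_lit 5197421331) (nat_lit 228) (nat_lit 13523541856) (nat_lit 78) (nat_lit 5) (nat_lit 80) (nat_lit 5) (nat_lit 81) (nat_lit 5) (nat_lit 500) (nat_lit 401) (nat_lit 299)) (XT.lf (nat_lit 0) (nat_lit 18801554879) (nat_lit 228) (nat_lit 3583972867) (nat_lit 76) (nat_lit 3023313425) (nat_lit 78) (nat_lit 5)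 (nat_lit 81) (nat_lit 5) (nat_lit 79) (nat_lit 4) (nat_lit 501) (nat_lit 401) (nat_lit 298))))) (XT.nd (nat_lit 312) (nat_lit 304) (nat_lit 0) (XT.nd (nat_lit 156) (nat_lit 76) (nat_lit 0) (XT.nd (nat_lit 78) (nat_lit 152) (nat_lit 0) (XT.lf (nat_lit 0) (nat_lit 654512705) (nat_lit 152) (nat_lit 13769753729) (nat_lit 76) (nat_lit 11491549820) (nat_lit 76) (nat_lit 5) (nat_lit 78) (nat_lit 5) (nat_lit 77) (nat_lit 5) (nat_lit 502) (nat_lit 401) (nat_lit 297)) (XT.lf (nat_lit 0) (nat_lit 1915988541) (nat_lit 152) (nat_lit 6118782782) (nat_lit 228) (nat_lit 18400265153) (nat_lit 74) (nat_lit 5) (nat_lit 76) (nat_lit 5) (nat_lit 77) (nat_lit 5) (nat_lit 503) (nat_lit 401) (nat_lit 296))) (XT.nd (nat_lit 78) (nat_lit 76) (nat_lit 0) (XT.lf (nat_lit 0) (nat_lit 15778783552) (nat_lit 228) (nat_lit 8676127146) (nat_lit 76) (nat_lit 2510652830) (nat_lit 74) (nat_lit 5) (nat_lit 77) (nat_lit 5) (nat_lit 75) (nat_lit 4) (nat_lit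 504) (nat_lit 401) (nat_lit 295)) (XT.lf (nat_lit 0) (nat_lit 7692537438) (nat_lit 76) (nat_lit 16176238715) (nat_lit 152) (nat_lit 3639821018) (nat_lit 73) (nat_lit 5) (nat_lit 74) (nat_lit 5) (nat_lit 75) (nat_lit 4) (nat_lit 505) (nat_lit 401) (nat_lit 294)))) (XT.nd (nat_lit 156) (nat_lit 76) (nat_lit 0) (XT.nd (nat_lit 78) (nat_lit 152) (nat_lit 0) (XT.lf (nat_lit 0) (nat_lit 4120529335) (nat_lit 152) (nat_lit 3414884145) (nat_lit 76) (nat_lit 20529287575) (nat_lit 72) (nat_lit 5) (nat_lit 74) (nat_lit 5) (nat_lit 73) (nat_lit 5) (nat_lit 506) (nat_lit 401) (nat_lit 293)) (XT.lf (nat_lit 0) (nat_lit 12166324118) (nat_lit 228) (nat_lit 14976580045) (nat_lit 76) (nat_lit 1489729567) (nat_lit 70) (nat_lit 5) (nat_lit 73) (nat_lit 5) (nat_lit 71) (nat_lit 4) (nat_lit 507) (nat_lit 401) (nat_lit 292))) (XT.nd (nat_lit 78) (nat_lit 0) (nat_lit 0) (XT.lf (nat_lit 0) (nat_lit 2018976108) (nat_lit 76) (nat_lit 18543186718)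 (nat_lit 152) (nat_lit 8652181973) (nat_lit 69) (nat_lit 5) (nat_lit 70) (nat_lit 5) (nat_lit 71) (nat_lit 4) (nat_lit 508) (nat_lit 401) (nat_lit 291)) (XT.lf (nat_lit 0) (nat_lit 19793753469) (nat_lit 76) (nat_lit 9547412229) (nat_lit 152) (nat_lit 468403331) (nat_lit 69) (nat_lit 5) (nat_lit 70) (nat_lit 5) (nat_lit 71) (nat_lit 4) (nat_lit 509) (nat_lit 401) (nat_lit 290))))))) (XT.nd (nat_lit 1170) (nat_lit 836) (nat_lit 0) (XT.nd (nat_lit 546) (nat_lit 684) (nat_lit 0) (XT.nd (nat_lit 234) (nat_lit 304) (nat_lit 0) (XT.nd (nat_lit 78) (nat_lit 76) (nat_lit 0) (XT.lf (nat_lit 0) (nat_lit 7716226866) (nat_lit 152) (nat_lit 143932918) (nat_lit 228) (nat_lit 22558556424) (nat_lit 66) (nat_lit 5) (nat_lit 68) (nat_lit 5) (nat_lit 69) (nat_lit 5) (nat_lit 510) (nat_lit 401) (nat_lit 289)) (XT.nd (nat_lit 78) (nat_lit 76) (nat_lit 0) (XT.lf (nat_lit 0) (nat_lit 16603522863) (nat_lit 228) (nat_lit 4991914272) (nat_lit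 76) (nat_lit 9445331270) (nat_lit 66) (nat_lit 5) (nat_lit 69) (nat_lit 5) (nat_lit 67) (nat_lit 4) (nat_lit 511) (nat_lit 401) (nat_lit 288)) (XT.lf (nat_lit 0) (nat_lit 13475591453) (nat_lit 76) (nat_lit 12245620012) (nat_lit 152) (nat_lit 5956910410) (nat_lit 65) (nat_lit 5) (nat_lit 66) (nat_lit 5) (nat_lit 67) (nat_lit 4) (nat_lit 512) (nat_lit 401) (nat_lit 287)))) (XT.nd (nat_lit 156) (nat_lit 76) (nat_lit 0) (XT.nd (nat_lit 78) (nat_lit 0) (nat_lit 0) (XT.lf (nat_lit 0) (nat_lit 207267695) (nat_lit 152) (nat_lit 2550349281) (nat_lit 228) (nat_lit 29575158691) (nat_lit 62) (nat_lit 5) (nat_lit 64) (nat_lit 5) (nat_lit 65) (nat_lit 5) (nat_lit 513) (nat_lit 401) (nat_lit 286)) (XT.lf (nat_lit 0) (nat_lit 11852093335) (nat_lit 228) (nat_lit 13627327766) (nat_lit 76) (nat_lit 7518731764) (nat_lit 62) (nat_lit 5) (nat_lit 65) (nat_lit 5) (nat_lit 63) (nat_lit 4) (nat_lit 514) (nat_lit 401) (nat_lit 285))) (XT.nd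 (nat_lit 78) (nat_lit 0) (nat_lit 0) (XT.lf (nat_lit 0) (nat_lit 5472390879) (nat_lit 76) (nat_lit 15806551671) (nat_lit 152) (nat_lit 12402763069) (nat_lit 61) (nat_lit 5) (nat_lit 62) (nat_lit 5) (nat_lit 63) (nat_lit 4) (nat_lit 515) (nat_lit 401) (nat_lit 284)) (XT.lf (nat_lit 0) (nat_lit 25389848472) (nat_lit 76) (nat_lit 5718242570) (nat_lit 152) (nat_lit 3274089481) (nat_lit 61) (nat_lit 5) (nat_lit 62) (nat_lit 5) (nat_lit 63) (nat_lit 4) (nat_lit 516) (nat_lit 401) (nat_lit 283))))) (XT.nd (nat_lit 312) (nat_lit 304) (nat_lit 0) (XT.nd (nat_lit 156) (nat_lit 152) (nat_lit 0) (XT.nd (nat_lit 78) (nat_lit 0) (nat_lit 0) (XT.lf (nat_lit 0) (nat_lit 6142461459) (nat_lit 228) (nat_lit 24224249822) (nat_lit 76) (nat_lit 4731183291) (nat_lit 58) (nat_lit 5) (nat_lit 61) (nat_lit 5) (nat_lit 59) (nat_lit 4) (nat_lit 517) (nat_lit 401) (nat_lit 282)) (XT.lf (nat_lit 0) (nat_lit 15906300870) (nat_lit 228) (nat_lit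 4436339045) (nat_lit 76) (nat_lit 15487550038) (nat_lit 58) (nat_lit 5) (nat_lit 61) (nat_lit 5) (nat_lit 59) (nat_lit 4) (nat_lit 518) (nat_lit 401) (nat_lit 281))) (XT.nd (nat_lit 78) (nat_lit 76) (nat_lit 0) (XT.lf (nat_lit 0) (nat_lit 16228897225) (nat_lit 76) (nat_lit 9872954167) (nat_lit 152) (nat_lit 10478439267) (nat_lit 57) (nat_lit 5) (nat_lit 58) (nat_lit 5) (nat_lit 59) (nat_lit 4) (nat_lit 519) (nat_lit 401) (nat_lit 280)) (XT.lf (nat_lit 0) (nat_lit 215453076) (nat_lit 76) (nat_lit 36426714125) (nat_lit 76) (nat_lit 709560552) (nat_lit 56) (nat_lit 4) (nat_lit 57) (nat_lit 5) (nat_lit 57) (nat_lit 4) (nat_lit 520) (nat_lit 401) (nat_lit 279)))) (XT.nd (nat_lit 156) (nat_lit 152) (nat_lit 0) (XT.nd (nat_lit 78) (nat_lit 76) (nat_lit 0) (XT.lf (nat_lit 0) (nat_lit 9458029392) (nat_lit 152) (nat_lit 16546392531) (nat_lit 76) (nat_lit 12130545018) (nat_lit 55) (nat_lit 5) (nat_lit 57) (nat_lit 5) (nat_lit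 56) (nat_lit 4) (nat_lit 521) (nat_lit 401) (nat_lit 278)) (XT.lf (nat_lit 0) (nat_lit 4714060847) (nat_lit 76) (nat_lit 15230986386) (nat_lit 152) (nat_lit 18995585763) (nat_lit 54) (nat_lit 5) (nat_lit 55) (nat_lit 5) (nat_lit 56) (nat_lit 4) (nat_lit 522) (nat_lit 401) (nat_lit 277))) (XT.nd (nat_lit 78) (nat_lit 152) (nat_lit 0) (XT.lf (nat_lit 0) (nat_lit 26919739053) (nat_lit 76) (nat_lit 3977549508) (nat_lit 152) (nat_lit 8868662376) (nat_lit 54) (nat_lit 5) (nat_lit 55) (nat_lit 5) (nat_lit 56) (nat_lit 4) (nat_lit 523) (nat_lit 401) (nat_lit 276)) (XT.lf (nat_lit 0) (nat_lit 1679014800) (nat_lit 152) (nat_lit 31376387511) (nat_lit 76) (nat_lit 7555753087) (nat_lit 52) (nat_lit 5) (nat_lit 54) (nat_lit 5) (nat_lit 53) (nat_lit 4) (nat_lit 524) (nat_lit 401) (nat_lit 275)))))) (XT.nd (nat_lit 546) (nat_lit 532) (nat_lit 0) (XT.nd (nat_lit 234) (nat_lit 228) (nat_lit 0) (XT.nd (nat_lit 78) (nat_lit 76) (nat_lit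 0) (XT.lf (nat_lit 0) (nat_lit 12519137229) (nat_lit 152) (nat_lit 9395987953) (nat_lit 76) (nat_lit 19559328835) (nat_lit 52) (nat_lit 5) (nat_lit 54) (nat_lit 5) (nat_lit 53) (nat_lit 4) (nat_lit 525) (nat_lit 401) (nat_lit 274)) (XT.nd (nat_lit 78) (nat_lit 0) (nat_lit 0) (XT.lf (nat_lit 0) (nat_lit 13476506717) (nat_lit 76) (nat_lit 10321849262) (nat_lit 152) (nat_lit 18561879097) (nat_lit 51) (nat_lit 5) (nat_lit 52) (nat_lit 5) (nat_lit 53) (nat_lit 4) (nat_lit 526) (nat_lit 401) (nat_lit 273)) (XT.lf (nat_lit 0) (nat_lit 35511713023) (nat_lit 152) (nat_lit 6088783136) (nat_lit 0) (nat_lit 1669220809) (nat_lit 51) (nat_lit 5) (nat_lit 53) (nat_lit 4) (nat_lit 51) (nat_lit 4) (nat_lit 527) (nat_lit 401) (nat_lit 272)))) (XT.nd (nat_lit 156) (nat_lit 76) (nat_lit 0) (XT.nd (nat_lit 78) (nat_lit 0) (nat_lit 0) (XT.lf (nat_lit 0) (nat_lit 3562991171) (nat_lit 152) (nat_lit 26631875824) (nat_lit 76) (nat_lit 14002881801)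 (nat_lit 49) (nat_lit 5) (nat_lit 51) (nat_lit 5) (nat_lit 50) (nat_lit 4) (nat_lit 528) (nat_lit 401) (nat_lit 271)) (XT.lf (nat_lit 0) (nat_lit 15114625606) (nat_lit 152) (nat_lit 3203665384) (nat_lit 76) (nat_lit 26831618333) (nat_lit 49) (nat_lit 5) (nat_lit 51) (nat_lit 5) (nat_lit 50) (nat_lit 4) (nat_lit 529) (nat_lit 401) (nat_lit 270))) (XT.nd (nat_lit 78) (nat_lit 0) (nat_lit 0) (XT.lf (nat_lit 0) (nat_lit 21314725703) (nat_lit 76) (nat_lit 5888259119) (nat_lit 152) (nat_lit 18921944797) (nat_lit 48) (nat_lit 5) (nat_lit 49) (nat_lit 5) (nat_lit 50) (nat_lit 4) (nat_lit 530) (nat_lit 401) (nat_lit 269)) (XT.lf (nat_lit 0) (nat_lit 39738443701) (nat_lit 152) (nat_lit 589295015) (nat_lit 0) (nat_lit 6798928560) (nat_lit 48) (nat_lit 5) (nat_lit 50) (nat_lit 4) (nat_lit 48) (nat_lit 4) (nat_lit 531) (nat_lit 401) (nat_lit 268))))) (XT.nd (nat_lit 312) (nat_lit 228) (nat_lit 0) (XT.nd (nat_lit 156) (nat_lit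 76) (nat_lit 0) (XT.nd (nat_lit 78) (nat_lit 76) (nat_lit 0) (XT.lf (nat_lit 0) (nat_lit 4688655191) (nat_lit 152) (nat_lit 23440743053) (nat_lit 76) (nat_lit 20019220027) (nat_lit 46) (nat_lit 5) (nat_lit 48) (nat_lit 5) (nat_lit 47) (nat_lit 4) (nat_lit 532) (nat_lit 401) (nat_lit 267)) (XT.lf (nat_lit 0) (nat_lit 1503321740) (nat_lit 76) (nat_lit 15482231767) (nat_lit 152) (nat_lit 32213293693) (nat_lit 45) (nat_lit 5) (nat_lit 46) (nat_lit 5) (nat_lit 47) (nat_lit 4) (nat_lit 533) (nat_lit 401) (nat_lit 266))) (XT.nd (nat_lit 78) (nat_lit 76) (nat_lit 0) (XT.lf (nat_lit 0) (nat_lit 27648698141) (nat_lit 76) (nat_lit 2225265372) (nat_lit 152) (nat_lit 20399941536) (nat_lit 45) (nat_lit 5) (nat_lit 46) (nat_lit 5) (nat_lit 47) (nat_lit 4) (nat_lit 534) (nat_lit 401) (nat_lit 265)) (XT.lf (nat_lit 0) (nat_lit 3121255055) (nat_lit 76) (nat_lit 40153825298) (nat_lit 76) (nat_lit 8102352834) (nat_lit 44) (nat_lit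 4) (nat_lit 45) (nat_lit 5) (nat_lit 45) (nat_lit 4) (nat_lit 535) (nat_lit 401) (nat_lit 264)))) (XT.nd (nat_lit 156) (nat_lit 76) (nat_lit 0) (XT.nd (nat_lit 78) (nat_lit 76) (nat_lit 0) (XT.lf (nat_lit 0) (nat_lit 4714059341) (nat_lit 152) (nat_lit 22498492322) (nat_lit 76) (nat_lit 25293030704) (nat_lit 43) (nat_lit 5) (nat_lit 45) (nat_lit 5) (nat_lit 44) (nat_lit 4) (nat_lit 536) (nat_lit 401) (nat_lit 263)) (XT.lf (nat_lit 0) (nat_lit 4003597493) (nat_lit 76) (nat_lit 13773598694) (nat_lit 152) (nat_lit 35887220922) (nat_lit 42) (nat_lit 5) (nat_lit 43) (nat_lit 5) (nat_lit 44) (nat_lit 4) (nat_lit 537) (nat_lit 401) (nat_lit 262))) (XT.nd (nat_lit 78) (nat_lit 76) (nat_lit 0) (XT.lf (nat_lit 0) (nat_lit 31448940992) (nat_lit 152) (nat_lit 23118410809) (nat_lit 0) (nat_lit 284163845) (nat_lit 42) (nat_lit 5) (nat_lit 44) (nat_lit 4) (nat_lit 42) (nat_lit 4) (nat_lit 538) (nat_lit 401) (nat_lit 261)) (XT.lf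 (nat_lit 0) (nat_lit 4139184336) (nat_lit 76) (nat_lit 41554819388) (nat_lit 76) (nat_lit 10375328609) (nat_lit 41) (nat_lit 4) (nat_lit 42) (nat_lit 5) (nat_lit 42) (nat_lit 4) (nat_lit 539) (nat_lit 401) (nat_lit 260))))))))
noncomputable def xc101 : XT := (XT.nd (nat_lit 53118) (nat_lit 0) (nat_lit 11780) (XT.nd (nat_lit 51948) (nat_lit 0) (nat_lit 25840) (XT.nd (nat_lit 546) (nat_lit 228) (nat_lit 0) (XT.nd (nat_lit 234) (nat_lit 228) (nat_lit 0) (XT.nd (nat_lit 78) (nat_lit 76) (nat_lit 0) (XT.lf (nat_lit 0) (nat_lit 3206135517) (nat_lit 152) (nat_lit 24685320756) (nat_lit 76) (nat_lit 29424666680) (nat_lit 40) (nat_lit 5) (nat_lit 42) (nat_lit 5) (nat_lit 41) (nat_lit 4) (nat_lit 540) (nat_lit 401) (nat_lit 259)) (XT.nd (nat_lit 78) (nat_lit 0) (nat_lit 0) (XT.lf (nat_lit 0) (nat_lit 3314043894) (nat_lit 76) (nat_lit 13691714116) (nat_lit 152) (nat_lit 41590900203) (nat_lit 39) (nat_lit 5) (nat_lit 40) (nat_lit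 5) (nat_lit 41) (nat_lit 4) (nat_lit 541) (nat_lit 401) (nat_lit 258)) (XT.lf (nat_lit 0) (nat_lit 31467496600) (nat_lit 152) (nat_lit 27284929860) (nat_lit 0) (nat_lit 1155739392) (nat_lit 39) (nat_lit 5) (nat_lit 41) (nat_lit 4) (nat_lit 39) (nat_lit 4) (nat_lit 542) (nat_lit 401) (nat_lit 257)))) (XT.nd (nat_lit 156) (nat_lit 152) (nat_lit 0) (XT.nd (nat_lit 78) (nat_lit 0) (nat_lit 0) (XT.lf (nat_lit 0) (nat_lit 1420803492) (nat_lit 76) (nat_lit 45079277438) (nat_lit 76) (nat_lit 14754828122) (nat_lit 38) (nat_lit 4) (nat_lit 39) (nat_lit 5) (nat_lit 39) (nat_lit 4) (nat_lit 543) (nat_lit 401) (nat_lit 256)) (XT.lf (nat_lit 0) (nat_lit 31523213785) (nat_lit 76) (nat_lit 30723854936) (nat_lit 76) (nat_lit 387083185) (nat_lit 38) (nat_lit 4) (nat_lit 39) (nat_lit 5) (nat_lit 39) (nat_lit 4) (nat_lit 544) (nat_lit 401) (nat_lit 255))) (XT.nd (nat_lit 78) (nat_lit 76) (nat_lit 0) (XT.lf (nat_lit 0) (nat_lit 14118607630)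 (nat_lit 152) (nat_lit 1687961789) (nat_lit 76) (nat_lit 48244402608) (nat_lit 37) (nat_lit 5) (nat_lit 39) (nat_lit 5) (nat_lit 38) (nat_lit 4) (nat_lit 545) (nat_lit 401) (nat_lit 254)) (XT.lf (nat_lit 0) (nat_lit 29160220305) (nat_lit 76) (nat_lit 160257853) (nat_lit 152) (nat_lit 36181640075) (nat_lit 36) (nat_lit 5) (nat_lit 37) (nat_lit 5) (nat_lit 38) (nat_lit 4) (nat_lit 546) (nat_lit 401) (nat_lit 253))))) (XT.nd (nat_lit 312) (nat_lit 0) (nat_lit 0) (XT.nd (nat_lit 156) (nat_lit 152) (nat_lit 0) (XT.nd (nat_lit 78) (nat_lit 76) (nat_lit 0) (XT.lf (nat_lit 0) (nat_lit 45137488649) (nat_lit 152) (nat_lit 6204065762) (nat_lit 0) (nat_lit 15650472018) (nat_lit 36) (nat_lit 5) (nat_lit 38) (nat_lit 4) (nat_lit 36) (nat_lit 4) (nat_lit 547) (nat_lit 401) (nat_lit 252)) (XT.lf (nat_lit 0) (nat_lit 25308142952) (nat_lit 76) (nat_lit 36354562120) (nat_lit 76) (nat_lit 6856916048) (nat_lit 35) (nat_lit 4) (nat_lit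 36) (nat_lit 5) (nat_lit 36) (nat_lit 4) (nat_lit 548) (nat_lit 401) (nat_lit 251))) (XT.nd (nat_lit 78) (nat_lit 76) (nat_lit 0) (XT.lf (nat_lit 0) (nat_lit 8475106966) (nat_lit 152) (nat_lit 12303498776) (nat_lit 76) (nat_lit 49310397463) (nat_lit 34) (nat_lit 5) (nat_lit 36) (nat_lit 5) (nat_lit 35) (nat_lit 4) (nat_lit 549) (nat_lit 401) (nat_lit 250)) (XT.lf (nat_lit 0) (nat_lit 19829383042) (nat_lit 76) (nat_lit 4479665345) (nat_lit 152) (nat_lit 47388988517) (nat_lit 33) (nat_lit 5) (nat_lit 34) (nat_lit 5) (nat_lit 35) (nat_lit 4) (nat_lit 550) (nat_lit 401) (nat_lit 249)))) (XT.nd (nat_lit 50934) (nat_lit 0) (nat_lit 30172) (XT.nd (nat_lit 50856) (nat_lit 0) (nat_lit 30400) (XT.lf (nat_lit 0) (nat_lit 40850968080) (nat_lit 152) (nat_lit 20314098922) (nat_lit 0) (nat_lit 12183285916) (nat_lit 33) (nat_lit 5) (nat_lit 35) (nat_lit 4) (nat_lit 33) (nat_lit 4) (nat_lit 551) (nat_lit 401) (nat_lit 248)) (XT.lf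 (nat_lit 0) (nat_lit 2887379369) (nat_lit 228) (nat_lit 171121935) (nat_lit 228) (nat_lit 171121935) (nat_lit 433) (nat_lit 3) (nat_lit 436) (nat_lit 3) (nat_lit 436) (nat_lit 5) (nat_lit 402) (nat_lit 402) (nat_lit 396))) (XT.nd (nat_lit 78) (nat_lit 0) (nat_lit 0) (XT.lf (nat_lit 0) (nat_lit 2212913146) (nat_lit 228) (nat_lit 3576094247) (nat_lit 304) (nat_lit 679790562) (nat_lit 430) (nat_lit 5) (nat_lit 433) (nat_lit 3) (nat_lit 434) (nat_lit 5) (nat_lit 403) (nat_lit 402) (nat_lit 395)) (XT.lf (nat_lit 0) (nat_lit 5074559398) (nat_lit 228) (nat_lit 314063680) (nat_lit 304) (nat_lit 1093105033) (nat_lit 430) (nat_lit 5) (nat_lit 433) (nat_lit 3) (nat_lit 434) (nat_lit 5) (nat_lit 404) (nat_lit 402) (nat_lit 394)))))) (XT.nd (nat_lit 546) (nat_lit 3192) (nat_lit 0) (XT.nd (nat_lit 234) (nat_lit 456) (nat_lit 0) (XT.nd (nat_lit 78) (nat_lit 380) (nat_lit 0) (XT.lf (nat_lit 0) (nat_lit 1416544817) (nat_lit 304)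 (nat_lit 3464753603) (nat_lit 380) (nat_lit 1615753669) (nat_lit 426) (nat_lit 5) (nat_lit 430) (nat_lit 5) (nat_lit 431) (nat_lit 5) (nat_lit 405) (nat_lit 402) (nat_lit 393)) (XT.nd (nat_lit 78) (nat_lit 380) (nat_lit 0) (XT.lf (nat_lit 0) (nat_lit 4192294434) (nat_lit 304) (nat_lit 101481698) (nat_lit 380) (nat_lit 2221798972) (nat_lit 426) (nat_lit 5) (nat_lit 430) (nat_lit 5) (nat_lit 431) (nat_lit 5) (nat_lit 406) (nat_lit 402) (nat_lit 392)) (XT.lf (nat_lit 0) (nat_lit 433775243) (nat_lit 380) (nat_lit 3171156806) (nat_lit 456) (nat_lit 2931780976) (nat_lit 421) (nat_lit 5) (nat_lit 426) (nat_lit 5) (nat_lit 427) (nat_lit 5) (nat_lit 407) (nat_lit 402) (nat_lit 391)))) (XT.nd (nat_lit 156) (nat_lit 456) (nat_lit 0) (XT.nd (nat_lit 78) (nat_lit 0) (nat_lit 0) (XT.lf (nat_lit 76) (nat_lit 303122034) (nat_lit 0) (nat_lit 2824664661) (nat_lit 456) (nat_lit 3433003465) (nat_lit 422) (nat_lit 5) (nat_lit 421) (nat_lit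 5) (nat_lit 427) (nat_lit 5) (nat_lit 408) (nat_lit 402) (nat_lit 390)) (XT.lf (nat_lit 76) (nat_lit 3887211939) (nat_lit 0) (nat_lit 1946848872) (nat_lit 456) (nat_lit 753608194) (nat_lit 422) (nat_lit 5) (nat_lit 421) (nat_lit 5) (nat_lit 427) (nat_lit 5) (nat_lit 409) (nat_lit 402) (nat_lit 389))) (XT.nd (nat_lit 78) (nat_lit 0) (nat_lit 76) (XT.lf (nat_lit 76) (nat_lit 902112652) (nat_lit 0) (nat_lit 974941319) (nat_lit 532) (nat_lit 4740442093) (nat_lit 416) (nat_lit 5) (nat_lit 415) (nat_lit 5) (nat_lit 422) (nat_lit 5) (nat_lit 410) (nat_lit 402) (nat_lit 388)) (XT.lf (nat_lit 0) (nat_lit 4503303570) (nat_lit 456) (nat_lit 2049626558) (nat_lit 76) (nat_lit 97130274) (nat_lit 416) (nat_lit 5) (nat_lit 422) (nat_lit 5) (nat_lit 417) (nat_lit 5) (nat_lit 411) (nat_lit 402) (nat_lit 387))))) (XT.nd (nat_lit 312) (nat_lit 2128) (nat_lit 0) (XT.nd (nat_lit 156) (nat_lit 608) (nat_lit 0) (XT.nd (nat_lit 78) (nat_lit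 0) (nat_lit 0) (XT.lf (nat_lit 0) (nat_lit 446520013) (nat_lit 532) (nat_lit 5001156358) (nat_lit 76) (nat_lit 1237832911) (nat_lit 409) (nat_lit 5) (nat_lit 416) (nat_lit 5) (nat_lit 410) (nat_lit 5) (nat_lit 412) (nat_lit 402) (nat_lit 386)) (XT.lf (nat_lit 0) (nat_lit 3003386082) (nat_lit 532) (nat_lit 1232293186) (nat_lit 76) (nat_lit 2487855532) (nat_lit 409) (nat_lit 5) (nat_lit 416) (nat_lit 5) (nat_lit 410) (nat_lit 5) (nat_lit 413) (nat_lit 402) (nat_lit 385))) (XT.nd (nat_lit 78) (nat_lit 76) (nat_lit 0) (XT.lf (nat_lit 0) (nat_lit 2641175048) (nat_lit 532) (nat_lit 2931886694) (nat_lit 608) (nat_lit 1191574661) (nat_lit 402) (nat_lit 5) (nat_lit 409) (nat_lit 5) (nat_lit 410) (nat_lit 5) (nat_lit 414) (nat_lit 402) (nat_lit 384)) (XT.lf (nat_lit 0) (nat_lit 1309716642) (nat_lit 608) (nat_lit 225376967) (nat_lit 76) (nat_lit 5273754481) (nat_lit 401) (nat_lit 5) (nat_lit 409) (nat_lit 5) (nat_lit 402)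 (nat_lit 5) (nat_lit 415) (nat_lit 402) (nat_lit 383)))) (XT.nd (nat_lit 156) (nat_lit 836) (nat_lit 0) (XT.nd (nat_lit 78) (nat_lit 684) (nat_lit 0) (XT.lf (nat_lit 0) (nat_lit 3792455772) (nat_lit 608) (nat_lit 20526937) (nat_lit 684) (nat_lit 3042539784) (nat_lit 393) (nat_lit 5) (nat_lit 401) (nat_lit 5) (nat_lit 402) (nat_lit 5) (nat_lit 416) (nat_lit 402) (nat_lit 382)) (XT.lf (nat_lit 0) (nat_lit 974527450) (nat_lit 684) (nat_lit 5359879504) (nat_lit 760) (nat_lit 570914745) (nat_lit 384) (nat_lit 5) (nat_lit 393) (nat_lit 5) (nat_lit 394) (nat_lit 5) (nat_lit 417) (nat_lit 402) (nat_lit 381))) (XT.nd (nat_lit 78) (nat_lit 760) (nat_lit 0) (XT.lf (nat_lit 0) (nat_lit 1885378494) (nat_lit 760) (nat_lit 1841774778) (nat_lit 76) (nat_lit 3230435852) (nat_lit 383) (nat_lit 5) (nat_lit 393) (nat_lit 5) (nat_lit 384) (nat_lit 5) (nat_lit 418) (nat_lit 402) (nat_lit 380)) (XT.lf (nat_lit 0) (nat_lit 2349296074)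 (nat_lit 760) (nat_lit 1997187660) (nat_lit 836) (nat_lit 2666508302) (nat_lit 373) (nat_lit 5) (nat_lit 383) (nat_lit 5) (nat_lit 384) (nat_lit 5) (nat_lit 419) (nat_lit 402) (nat_lit 379))))))) (XT.nd (nat_lit 1170) (nat_lit 5548) (nat_lit 0) (XT.nd (nat_lit 546) (nat_lit 4560) (nat_lit 0) (XT.nd (nat_lit 234) (nat_lit 2128) (nat_lit 0) (XT.nd (nat_lit 78) (nat_lit 1824) (nat_lit 0) (XT.lf (nat_lit 0) (nat_lit 6643639996) (nat_lit 760) (nat_lit 178146451) (nat_lit 836) (nat_lit 250074209) (nat_lit 373) (nat_lit 5) (nat_lit 383) (nat_lit 5) (nat_lit 384) (nat_lit 5) (nat_lit 420) (nat_lit 402) (nat_lit 378)) (XT.nd (nat_lit 78) (nat_lit 912) (nat_lit 0) (XT.lf (nat_lit 0) (nat_lit 2173261777) (nat_lit 912) (nat_lit 3220602081) (nat_lit 76) (nat_lit 1738656642) (nat_lit 361) (nat_lit 5) (nat_lit 373) (nat_lit 5) (nat_lit 362) (nat_lit 5) (nat_lit 421) (nat_lit 402) (nat_lit 377)) (XT.lf (nat_lit 0) (nat_lit 1152549477)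 (nat_lit 912) (nat_lit 3454024627) (nat_lit 988) (nat_lit 2590095995) (nat_lit 349) (nat_lit 5) (nat_lit 361) (nat_lit 5) (nat_lit 362) (nat_lit 5) (nat_lit 422) (nat_lit 402) (nat_lit 376)))) (XT.nd (nat_lit 156) (nat_lit 1064) (nat_lit 0) (XT.nd (nat_lit 78) (nat_lit 1064) (nat_lit 0) (XT.lf (nat_lit 0) (nat_lit 5661693266) (nat_lit 912) (nat_lit 1410400234) (nat_lit 988) (nat_lit 191887379) (nat_lit 349) (nat_lit 5) (nat_lit 361) (nat_lit 5) (nat_lit 362) (nat_lit 5) (nat_lit 423) (nat_lit 402) (nat_lit 375)) (XT.lf (nat_lit 0) (nat_lit 2197527574) (nat_lit 1064) (nat_lit 4393716619) (nat_lit 76) (nat_lit 742510453) (nat_lit 335) (nat_lit 5) (nat_lit 349) (nat_lit 5) (nat_lit 336) (nat_lit 5) (nat_lit 424) (nat_lit 402) (nat_lit 374))) (XT.nd (nat_lit 78) (nat_lit 0) (nat_lit 0) (XT.lf (nat_lit 0) (nat_lit 171153074) (nat_lit 1064) (nat_lit 4445280769) (nat_lit 1140) (nat_lit 2790292646) (nat_lit 321) (nat_lit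 5) (nat_lit 335) (nat_lit 5) (nat_lit 336) (nat_lit 5) (nat_lit 425) (nat_lit 402) (nat_lit 373)) (XT.lf (nat_lit 0) (nat_lit 4901143691) (nat_lit 1064) (nat_lit 2182299563) (nat_lit 1140) (nat_lit 399189637) (nat_lit 321) (nat_lit 5) (nat_lit 335) (nat_lit 5) (nat_lit 336) (nat_lit 5) (nat_lit 426) (nat_lit 402) (nat_lit 372))))) (XT.nd (nat_lit 312) (nat_lit 1292) (nat_lit 0) (XT.nd (nat_lit 156) (nat_lit 2052) (nat_lit 0) (XT.nd (nat_lit 78) (nat_lit 0) (nat_lit 0) (XT.lf (nat_lit 0) (nat_lit 1978658708) (nat_lit 1216) (nat_lit 5390173316) (nat_lit 76) (nat_lit 192741735) (nat_lit 305) (nat_lit 5) (nat_lit 321) (nat_lit 5) (nat_lit 306) (nat_lit 5) (nat_lit 427) (nat_lit 402) (nat_lit 371)) (XT.lf (nat_lit 0) (nat_lit 4401684351) (nat_lit 1216) (nat_lit 611009413) (nat_lit 76) (nat_lit 2630625071) (nat_lit 305) (nat_lit 5) (nat_lit 321) (nat_lit 5) (nat_lit 306) (nat_lit 5) (nat_lit 428) (nat_lit 402) (nat_lit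 370))) (XT.nd (nat_lit 78) (nat_lit 836) (nat_lit 0) (XT.lf (nat_lit 0) (nat_lit 4335067844) (nat_lit 1216) (nat_lit 2539860708) (nat_lit 1292) (nat_lit 853272083) (nat_lit 289) (nat_lit 5) (nat_lit 305) (nat_lit 5) (nat_lit 306) (nat_lit 5) (nat_lit 429) (nat_lit 402) (nat_lit 369)) (XT.lf (nat_lit 0) (nat_lit 1533771163) (nat_lit 836) (nat_lit 6236678612) (nat_lit 76) (nat_lit 45973882) (nat_lit 278) (nat_lit 5) (nat_lit 289) (nat_lit 5) (nat_lit 279) (nat_lit 5) (nat_lit 430) (nat_lit 402) (nat_lit 368)))) (XT.nd (nat_lit 156) (nat_lit 684) (nat_lit 0) (XT.nd (nat_lit 78) (nat_lit 608) (nat_lit 0) (XT.lf (nat_lit 0) (nat_lit 3972809909) (nat_lit 836) (nat_lit 1231845460) (nat_lit 76) (nat_lit 2702467869) (nat_lit 278) (nat_lit 5) (nat_lit 289) (nat_lit 5) (nat_lit 279) (nat_lit 5) (nat_lit 431) (nat_lit 402) (nat_lit 367)) (XT.lf (nat_lit 0) (nat_lit 3938817969) (nat_lit 608) (nat_lit 2523660054) (nat_lit 684)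 (nat_lit 1538751101) (nat_lit 270) (nat_lit 5) (nat_lit 278) (nat_lit 5) (nat_lit 279) (nat_lit 5) (nat_lit 432) (nat_lit 402) (nat_lit 366))) (XT.nd (nat_lit 78) (nat_lit 0) (nat_lit 0) (XT.lf (nat_lit 0) (nat_lit 876877379) (nat_lit 684) (nat_lit 6958017257) (nat_lit 76) (nat_lit 264014649) (nat_lit 261) (nat_lit 5) (nat_lit 270) (nat_lit 5) (nat_lit 262) (nat_lit 5) (nat_lit 433) (nat_lit 402) (nat_lit 365)) (XT.lf (nat_lit 0) (nat_lit 3341770874) (nat_lit 684) (nat_lit 1718260738) (nat_lit 76) (nat_lit 3138807775) (nat_lit 261) (nat_lit 5) (nat_lit 270) (nat_lit 5) (nat_lit 262) (nat_lit 5) (nat_lit 434) (nat_lit 402) (nat_lit 364)))))) (XT.nd (nat_lit 624) (nat_lit 2356) (nat_lit 0) (XT.nd (nat_lit 312) (nat_lit 1520) (nat_lit 0) (XT.nd (nat_lit 156) (nat_lit 532) (nat_lit 0) (XT.nd (nat_lit 78) (nat_lit 608) (nat_lit 0) (XT.lf (nat_lit 0) (nat_lit 3689605128) (nat_lit 532) (nat_lit 2169490506) (nat_lit 608)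 (nat_lit 2443325278) (nat_lit 254) (nat_lit 5) (nat_lit 261) (nat_lit 5) (nat_lit 262) (nat_lit 5) (nat_lit 435) (nat_lit 402) (nat_lit 363)) (XT.lf (nat_lit 0) (nat_lit 19104840) (nat_lit 608) (nat_lit 7577458345) (nat_lit 76) (nat_lit 813228628) (nat_lit 246) (nat_lit 5) (nat_lit 254) (nat_lit 5) (nat_lit 247) (nat_lit 5) (nat_lit 436) (nat_lit 402) (nat_lit 362))) (XT.nd (nat_lit 78) (nat_lit 532) (nat_lit 0) (XT.lf (nat_lit 0) (nat_lit 2519360274) (nat_lit 608) (nat_lit 2092348702) (nat_lit 76) (nat_lit 3907564671) (nat_lit 246) (nat_lit 5) (nat_lit 254) (nat_lit 5) (nat_lit 247) (nat_lit 5) (nat_lit 437) (nat_lit 402) (nat_lit 361)) (XT.lf (nat_lit 0) (nat_lit 3566100690) (nat_lit 532) (nat_lit 1508956727) (nat_lit 608) (nat_lit 3557576656) (nat_lit 239) (nat_lit 5) (nat_lit 246) (nat_lit 5) (nat_lit 247) (nat_lit 5) (nat_lit 438) (nat_lit 402) (nat_lit 360)))) (XT.nd (nat_lit 156) (nat_lit 912) (nat_lit 0)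 (XT.nd (nat_lit 78) (nat_lit 76) (nat_lit 0) (XT.lf (nat_lit 0) (nat_lit 622427614) (nat_lit 532) (nat_lit 7075607582) (nat_lit 608) (nat_lit 1051648770) (nat_lit 232) (nat_lit 5) (nat_lit 239) (nat_lit 5) (nat_lit 240) (nat_lit 5) (nat_lit 439) (nat_lit 402) (nat_lit 359)) (XT.lf (nat_lit 0) (nat_lit 1513726778) (nat_lit 608) (nat_lit 2375115896) (nat_lit 76) (nat_lit 4980544718) (nat_lit 231) (nat_lit 5) (nat_lit 239) (nat_lit 5) (nat_lit 232) (nat_lit 5) (nat_lit 440) (nat_lit 402) (nat_lit 358))) (XT.nd (nat_lit 78) (nat_lit 456) (nat_lit 0) (XT.lf (nat_lit 0) (nat_lit 3548049485) (nat_lit 456) (nat_lit 570018242) (nat_lit 532) (nat_lit 4874813944) (nat_lit 225) (nat_lit 5) (nat_lit 231) (nat_lit 5) (nat_lit 232) (nat_lit 5) (nat_lit 441) (nat_lit 402) (nat_lit 357)) (XT.lf (nat_lit 0) (nat_lit 499174260) (nat_lit 456) (nat_lit 6307616458) (nat_lit 532) (nat_lit 2313108680) (nat_lit 219) (nat_lit 5) (nat_lit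 225) (nat_lit 5) (nat_lit 226) (nat_lit 5) (nat_lit 442) (nat_lit 402) (nat_lit 356))))) (XT.nd (nat_lit 312) (nat_lit 1368) (nat_lit 0) (XT.nd (nat_lit 156) (nat_lit 456) (nat_lit 0) (XT.nd (nat_lit 78) (nat_lit 456) (nat_lit 0) (XT.lf (nat_lit 0) (nat_lit 330503569) (nat_lit 532) (nat_lit 2586861253) (nat_lit 76) (nat_lit 6332932607) (nat_lit 218) (nat_lit 5) (nat_lit 225) (nat_lit 5) (nat_lit 219) (nat_lit 5) (nat_lit 443) (nat_lit 402) (nat_lit 355)) (XT.lf (nat_lit 0) (nat_lit 2999360741) (nat_lit 532) (nat_lit 5774428686) (nat_lit 76) (nat_lit 610363729) (nat_lit 212) (nat_lit 5) (nat_lit 219) (nat_lit 5) (nat_lit 213) (nat_lit 5) (nat_lit 444) (nat_lit 402) (nat_lit 354))) (XT.nd (nat_lit 78) (nat_lit 0) (nat_lit 0) (XT.lf (nat_lit 0) (nat_lit 442977201) (nat_lit 456) (nat_lit 5317241346) (nat_lit 532) (nat_lit 3761453445) (nat_lit 206) (nat_lit 5) (nat_lit 212) (nat_lit 5) (nat_lit 213) (nat_lit 5) (nat_lit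 445) (nat_lit 402) (nat_lit 353)) (XT.lf (nat_lit 0) (nat_lit 6905350269) (nat_lit 456) (nat_lit 1710083363) (nat_lit 532) (nat_lit 1047542140) (nat_lit 206) (nat_lit 5) (nat_lit 212) (nat_lit 5) (nat_lit 213) (nat_lit 5) (nat_lit 446) (nat_lit 402) (nat_lit 352)))) (XT.nd (nat_lit 156) (nat_lit 456) (nat_lit 0) (XT.nd (nat_lit 78) (nat_lit 456) (nat_lit 0) (XT.lf (nat_lit 0) (nat_lit 1723532752) (nat_lit 456) (nat_lit 6077626045) (nat_lit 76) (nat_lit 2006565307) (nat_lit 200) (nat_lit 5) (nat_lit 206) (nat_lit 5) (nat_lit 201) (nat_lit 5) (nat_lit 447) (nat_lit 402) (nat_lit 351)) (XT.lf (nat_lit 0) (nat_lit 434148244) (nat_lit 456) (nat_lit 4126537644) (nat_lit 532) (nat_lit 5395702704) (nat_lit 194) (nat_lit 5) (nat_lit 200) (nat_lit 5) (nat_lit 201) (nat_lit 5) (nat_lit 448) (nat_lit 402) (nat_lit 350))) (XT.nd (nat_lit 78) (nat_lit 456) (nat_lit 0) (XT.lf (nat_lit 0) (nat_lit 7206699816) (nat_lit 456) (nat_lit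 293147916) (nat_lit 532) (nat_lit 2609163192) (nat_lit 194) (nat_lit 5) (nat_lit 200) (nat_lit 5) (nat_lit 201) (nat_lit 5) (nat_lit 449) (nat_lit 402) (nat_lit 349)) (XT.lf (nat_lit 0) (nat_lit 285457670) (nat_lit 456) (nat_lit 6369583184) (nat_lit 76) (nat_lit 3610212940) (nat_lit 188) (nat_lit 5) (nat_lit 194) (nat_lit 5) (nat_lit 189) (nat_lit 5) (nat_lit 450) (nat_lit 402) (nat_lit 348))))))))
noncomputable def xc102 : XT := (XT.nd (nat_lit 2340) (nat_lit 3344) (nat_lit 0) (XT.nd (nat_lit 1170) (nat_lit 2508) (nat_lit 0) (XT.nd (nat_lit 546) (nat_lit 1596) (nat_lit 0) (XT.nd (nat_lit 234) (nat_lit 1140) (nat_lit 0) (XT.nd (nat_lit 78) (nat_lit 304) (nat_lit 0) (XT.lf (nat_lit 0) (nat_lit 452701867) (nat_lit 380) (nat_lit 2755583707) (nat_lit 456) (nat_lit 7217313409) (nat_lit 183) (nat_lit 5) (nat_lit 188) (nat_lit 5) (nat_lit 189) (nat_lit 5) (nat_lit 451) (nat_lit 402) (nat_lit 347)) (XT.nd (nat_lit 78) (nat_lit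 304) (nat_lit 0) (XT.lf (nat_lit 0) (nat_lit 6253373367) (nat_lit 456) (nat_lit 3050787746) (nat_lit 76) (nat_lit 1285560365) (nat_lit 183) (nat_lit 5) (nat_lit 189) (nat_lit 5) (nat_lit 184) (nat_lit 5) (nat_lit 452) (nat_lit 402) (nat_lit 346)) (XT.lf (nat_lit 0) (nat_lit 4073489827) (nat_lit 304) (nat_lit 5341499563) (nat_lit 380) (nat_lit 1343027072) (nat_lit 179) (nat_lit 5) (nat_lit 183) (nat_lit 5) (nat_lit 184) (nat_lit 5) (nat_lit 453) (nat_lit 402) (nat_lit 345)))) (XT.nd (nat_lit 156) (nat_lit 684) (nat_lit 0) (XT.nd (nat_lit 78) (nat_lit 0) (nat_lit 0) (XT.lf (nat_lit 0) (nat_lit 477937196) (nat_lit 380) (nat_lit 1222889519) (nat_lit 456) (nat_lit 9230194965) (nat_lit 173) (nat_lit 5) (nat_lit 178) (nat_lit 5) (nat_lit 179) (nat_lit 5) (nat_lit 454) (nat_lit 402) (nat_lit 344)) (XT.lf (nat_lit 0) (nat_lit 4865656601) (nat_lit 456) (nat_lit 3216317893) (nat_lit 76) (nat_lit 3025147754) (nat_lit 173) (nat_lit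 5) (nat_lit 179) (nat_lit 5) (nat_lit 174) (nat_lit 5) (nat_lit 455) (nat_lit 402) (nat_lit 343))) (XT.nd (nat_lit 78) (nat_lit 380) (nat_lit 0) (XT.lf (nat_lit 0) (nat_lit 4251673152) (nat_lit 304) (nat_lit 3887378362) (nat_lit 380) (nat_lit 3149049343) (nat_lit 169) (nat_lit 5) (nat_lit 173) (nat_lit 5) (nat_lit 174) (nat_lit 5) (nat_lit 456) (nat_lit 402) (nat_lit 342)) (XT.lf (nat_lit 0) (nat_lit 38153088) (nat_lit 380) (nat_lit 10990925284) (nat_lit 76) (nat_lit 445341883) (nat_lit 164) (nat_lit 5) (nat_lit 169) (nat_lit 5) (nat_lit 165) (nat_lit 5) (nat_lit 457) (nat_lit 402) (nat_lit 341))))) (XT.nd (nat_lit 312) (nat_lit 912) (nat_lit 0) (XT.nd (nat_lit 156) (nat_lit 380) (nat_lit 0) (XT.nd (nat_lit 78) (nat_lit 304) (nat_lit 0) (XT.lf (nat_lit 0) (nat_lit 3329213187) (nat_lit 380) (nat_lit 3418705173) (nat_lit 76) (nat_lit 4915332800) (nat_lit 164) (nat_lit 5) (nat_lit 169) (nat_lit 5) (nat_lit 165) (nat_lit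 5) (nat_lit 458) (nat_lit 402) (nat_lit 340)) (XT.lf (nat_lit 0) (nat_lit 4411036700) (nat_lit 304) (nat_lit 2312785356) (nat_lit 380) (nat_lit 5133783650) (nat_lit 160) (nat_lit 5) (nat_lit 164) (nat_lit 5) (nat_lit 165) (nat_lit 5) (nat_lit 459) (nat_lit 402) (nat_lit 339))) (XT.nd (nat_lit 78) (nat_lit 76) (nat_lit 0) (XT.lf (nat_lit 0) (nat_lit 419037528) (nat_lit 304) (nat_lit 9824609247) (nat_lit 380) (nat_lit 1813445914) (nat_lit 156) (nat_lit 5) (nat_lit 160) (nat_lit 5) (nat_lit 161) (nat_lit 5) (nat_lit 460) (nat_lit 402) (nat_lit 338)) (XT.lf (nat_lit 0) (nat_lit 1636981086) (nat_lit 380) (nat_lit 3682437273) (nat_lit 76) (nat_lit 6940830756) (nat_lit 155) (nat_lit 5) (nat_lit 160) (nat_lit 5) (nat_lit 156) (nat_lit 5) (nat_lit 461) (nat_lit 402) (nat_lit 337)))) (XT.nd (nat_lit 156) (nat_lit 304) (nat_lit 0) (XT.nd (nat_lit 78) (nat_lit 304) (nat_lit 0) (XT.lf (nat_lit 0) (nat_lit 4527581101) (nat_lit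 304) (nat_lit 634479856) (nat_lit 380) (nat_lit 7306675837) (nat_lit 151) (nat_lit 5) (nat_lit 155) (nat_lit 5) (nat_lit 156) (nat_lit 5) (nat_lit 462) (nat_lit 402) (nat_lit 336)) (XT.lf (nat_lit 0) (nat_lit 286955996) (nat_lit 304) (nat_lit 8550948723) (nat_lit 380) (nat_lit 3844226818) (nat_lit 147) (nat_lit 5) (nat_lit 151) (nat_lit 5) (nat_lit 152) (nat_lit 5) (nat_lit 463) (nat_lit 402) (nat_lit 335))) (XT.nd (nat_lit 78) (nat_lit 304) (nat_lit 0) (XT.lf (nat_lit 0) (nat_lit 8863817579) (nat_lit 304) (nat_lit 3811542610) (nat_lit 380) (nat_lit 225030540) (nat_lit 147) (nat_lit 5) (nat_lit 151) (nat_lit 5) (nat_lit 152) (nat_lit 5) (nat_lit 464) (nat_lit 402) (nat_lit 334)) (XT.lf (nat_lit 0) (nat_lit 3454844531) (nat_lit 304) (nat_lit 8559957821) (nat_lit 76) (nat_lit 1108774154) (nat_lit 143) (nat_lit 5) (nat_lit 147) (nat_lit 5) (nat_lit 144) (nat_lit 5) (nat_lit 465) (nat_lit 402) (nat_lit 333)))))) (XT.nd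 (nat_lit 546) (nat_lit 1368) (nat_lit 0) (XT.nd (nat_lit 234) (nat_lit 532) (nat_lit 0) (XT.nd (nat_lit 78) (nat_lit 304) (nat_lit 0) (XT.lf (nat_lit 0) (nat_lit 59230191) (nat_lit 304) (nat_lit 7226750719) (nat_lit 380) (nat_lit 6066050935) (nat_lit 139) (nat_lit 5) (nat_lit 143) (nat_lit 5) (nat_lit 144) (nat_lit 5) (nat_lit 466) (nat_lit 402) (nat_lit 332)) (XT.nd (nat_lit 78) (nat_lit 304) (nat_lit 0) (XT.lf (nat_lit 0) (nat_lit 9059109841) (nat_lit 304) (nat_lit 2225775695) (nat_lit 380) (nat_lit 2300872681) (nat_lit 139) (nat_lit 5) (nat_lit 143) (nat_lit 5) (nat_lit 144) (nat_lit 5) (nat_lit 467) (nat_lit 402) (nat_lit 331)) (XT.lf (nat_lit 0) (nat_lit 1585522987) (nat_lit 304) (nat_lit 9331108407) (nat_lit 76) (nat_lit 2908241195) (nat_lit 135) (nat_lit 5) (nat_lit 139) (nat_lit 5) (nat_lit 136) (nat_lit 5) (nat_lit 468) (nat_lit 402) (nat_lit 330)))) (XT.nd (nat_lit 156) (nat_lit 304) (nat_lit 0) (XT.nd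 (nat_lit 78) (nat_lit 228) (nat_lit 0) (XT.lf (nat_lit 0) (nat_lit 5577787746) (nat_lit 304) (nat_lit 290213380) (nat_lit 76) (nat_lit 8201412358) (nat_lit 135) (nat_lit 5) (nat_lit 139) (nat_lit 5) (nat_lit 136) (nat_lit 5) (nat_lit 469) (nat_lit 402) (nat_lit 329)) (XT.lf (nat_lit 0) (nat_lit 9149244780) (nat_lit 228) (nat_lit 596797835) (nat_lit 304) (nat_lit 4573563456) (nat_lit 132) (nat_lit 5) (nat_lit 135) (nat_lit 5) (nat_lit 136) (nat_lit 5) (nat_lit 470) (nat_lit 402) (nat_lit 328))) (XT.nd (nat_lit 78) (nat_lit 76) (nat_lit 0) (XT.lf (nat_lit 0) (nat_lit 4286327908) (nat_lit 228) (nat_lit 9812157183) (nat_lit 304) (nat_lit 477047213) (nat_lit 129) (nat_lit 5) (nat_lit 132) (nat_lit 5) (nat_lit 133) (nat_lit 5) (nat_lit 471) (nat_lit 402) (nat_lit 327)) (XT.lf (nat_lit 0) (nat_lit 3696615710) (nat_lit 304) (nat_lit 798836912) (nat_lit 76) (nat_lit 10341788089) (nat_lit 128) (nat_lit 5) (nat_lit 132) (nat_lit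 5) (nat_lit 129) (nat_lit 5) (nat_lit 472) (nat_lit 402) (nat_lit 326))))) (XT.nd (nat_lit 312) (nat_lit 608) (nat_lit 0) (XT.nd (nat_lit 156) (nat_lit 304) (nat_lit 0) (XT.nd (nat_lit 78) (nat_lit 228) (nat_lit 0) (XT.lf (nat_lit 0) (nat_lit 8053072440) (nat_lit 304) (nat_lit 6016099185) (nat_lit 76) (nat_lit 1035473778) (nat_lit 125) (nat_lit 5) (nat_lit 129) (nat_lit 5) (nat_lit 126) (nat_lit 5) (nat_lit 473) (nat_lit 402) (nat_lit 325)) (XT.lf (nat_lit 0) (nat_lit 3890122673) (nat_lit 228) (nat_lit 8709927915) (nat_lit 304) (nat_lit 2778228652) (nat_lit 122) (nat_lit 5) (nat_lit 125) (nat_lit 5) (nat_lit 126) (nat_lit 5) (nat_lit 474) (nat_lit 402) (nat_lit 324))) (XT.nd (nat_lit 78) (nat_lit 228) (nat_lit 0) (XT.lf (nat_lit 0) (nat_lit 1622873578) (nat_lit 304) (nat_lit 1508052415) (nat_lit 76) (nat_lit 12527792673) (nat_lit 121) (nat_lit 5) (nat_lit 125) (nat_lit 5) (nat_lit 122) (nat_lit 5) (nat_lit 475)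 (nat_lit 402) (nat_lit 323)) (XT.lf (nat_lit 0) (nat_lit 6182242035) (nat_lit 304) (nat_lit 7103074805) (nat_lit 76) (nat_lit 2658968715) (nat_lit 118) (nat_lit 5) (nat_lit 122) (nat_lit 5) (nat_lit 119) (nat_lit 5) (nat_lit 476) (nat_lit 402) (nat_lit 322)))) (XT.nd (nat_lit 156) (nat_lit 456) (nat_lit 0) (XT.nd (nat_lit 78) (nat_lit 0) (nat_lit 0) (XT.lf (nat_lit 0) (nat_lit 3277576625) (nat_lit 152) (nat_lit 7649656155) (nat_lit 228) (nat_lit 5309723067) (nat_lit 116) (nat_lit 5) (nat_lit 118) (nat_lit 5) (nat_lit 119) (nat_lit 5) (nat_lit 477) (nat_lit 402) (nat_lit 321)) (XT.lf (nat_lit 0) (nat_lit 14066601905) (nat_lit 152) (nat_lit 1791033468) (nat_lit 228) (nat_lit 679480594) (nat_lit 116) (nat_lit 5) (nat_lit 118) (nat_lit 5) (nat_lit 119) (nat_lit 5) (nat_lit 478) (nat_lit 402) (nat_lit 320))) (XT.nd (nat_lit 78) (nat_lit 152) (nat_lit 0) (XT.lf (nat_lit 0) (nat_lit 4104390115) (nat_lit 304) (nat_lit 8475292207)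 (nat_lit 76) (nat_lit 4262584938) (nat_lit 112) (nat_lit 5) (nat_lit 116) (nat_lit 5) (nat_lit 113) (nat_lit 5) (nat_lit 479) (nat_lit 402) (nat_lit 319)) (XT.lf (nat_lit 0) (nat_lit 2398531209) (nat_lit 152) (nat_lit 6657640671) (nat_lit 228) (nat_lit 8099059281) (nat_lit 110) (nat_lit 5) (nat_lit 112) (nat_lit 5) (nat_lit 113) (nat_lit 5) (nat_lit 480) (nat_lit 402) (nat_lit 318))))))) (XT.nd (nat_lit 1170) (nat_lit 1596) (nat_lit 0) (XT.nd (nat_lit 546) (nat_lit 912) (nat_lit 0) (XT.nd (nat_lit 234) (nat_lit 380) (nat_lit 0) (XT.nd (nat_lit 78) (nat_lit 456) (nat_lit 0) (XT.lf (nat_lit 0) (nat_lit 13724802307) (nat_lit 152) (nat_lit 489713864) (nat_lit 228) (nat_lit 3261328945) (nat_lit 110) (nat_lit 5) (nat_lit 112) (nat_lit 5) (nat_lit 113) (nat_lit 5) (nat_lit 481) (nat_lit 402) (nat_lit 317)) (XT.nd (nat_lit 78) (nat_lit 152) (nat_lit 0) (XT.lf (nat_lit 0) (nat_lit 1791709431) (nat_lit 304) (nat_lit 10189976107)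 (nat_lit 76) (nat_lit 5820783741) (nat_lit 106) (nat_lit 5) (nat_lit 110) (nat_lit 5) (nat_lit 107) (nat_lit 5) (nat_lit 482) (nat_lit 402) (nat_lit 316)) (XT.lf (nat_lit 0) (nat_lit 1195062748) (nat_lit 152) (nat_lit 5763434146) (nat_lit 228) (nat_lit 11178596628) (nat_lit 104) (nat_lit 5) (nat_lit 106) (nat_lit 5) (nat_lit 107) (nat_lit 5) (nat_lit 483) (nat_lit 402) (nat_lit 315)))) (XT.nd (nat_lit 156) (nat_lit 228) (nat_lit 0) (XT.nd (nat_lit 78) (nat_lit 152) (nat_lit 0) (XT.lf (nat_lit 0) (nat_lit 12363635565) (nat_lit 228) (nat_lit 5402279683) (nat_lit 76) (nat_lit 713342070) (nat_lit 104) (nat_lit 5) (nat_lit 107) (nat_lit 5) (nat_lit 105) (nat_lit 5) (nat_lit 484) (nat_lit 402) (nat_lit 314)) (XT.lf (nat_lit 0) (nat_lit 6507999157) (nat_lit 152) (nat_lit 11516595317) (nat_lit 228) (nat_lit 804282783) (nat_lit 102) (nat_lit 5) (nat_lit 104) (nat_lit 5) (nat_lit 105) (nat_lit 5) (nat_lit 485) (nat_lit 402)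 (nat_lit 313))) (XT.nd (nat_lit 78) (nat_lit 152) (nat_lit 0) (XT.lf (nat_lit 0) (nat_lit 4604541272) (nat_lit 228) (nat_lit 392082768) (nat_lit 76) (nat_lit 14190141120) (nat_lit 101) (nat_lit 5) (nat_lit 104) (nat_lit 5) (nat_lit 102) (nat_lit 5) (nat_lit 486) (nat_lit 402) (nat_lit 312)) (XT.lf (nat_lit 0) (nat_lit 10267997517) (nat_lit 228) (nat_lit 7492027446) (nat_lit 76) (nat_lit 1791870970) (nat_lit 99) (nat_lit 5) (nat_lit 102) (nat_lit 5) (nat_lit 100) (nat_lit 5) (nat_lit 487) (nat_lit 402) (nat_lit 311))))) (XT.nd (nat_lit 312) (nat_lit 380) (nat_lit 0) (XT.nd (nat_lit 156) (nat_lit 304) (nat_lit 0) (XT.nd (nat_lit 78) (nat_lit 76) (nat_lit 0) (XT.lf (nat_lit 0) (nat_lit 4968534277) (nat_lit 152) (nat_lit 11209045121) (nat_lit 228) (nat_lit 3748115651) (nat_lit 97) (nat_lit 5) (nat_lit 99) (nat_lit 5) (nat_lit 100) (nat_lit 5) (nat_lit 488) (nat_lit 402) (nat_lit 310)) (XT.lf (nat_lit 0) (nat_lit 1967070869)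 (nat_lit 228) (nat_lit 2416000414) (nat_lit 76) (nat_lit 15925530814) (nat_lit 96) (nat_lit 5) (nat_lit 99) (nat_lit 5) (nat_lit 97) (nat_lit 5) (nat_lit 489) (nat_lit 402) (nat_lit 309))) (XT.nd (nat_lit 78) (nat_lit 152) (nat_lit 0) (XT.lf (nat_lit 0) (nat_lit 7882971844) (nat_lit 228) (nat_lit 10097736512) (nat_lit 76) (nat_lit 2718037916) (nat_lit 94) (nat_lit 5) (nat_lit 97) (nat_lit 5) (nat_lit 95) (nat_lit 5) (nat_lit 490) (nat_lit 402) (nat_lit 308)) (XT.lf (nat_lit 0) (nat_lit 2928356373) (nat_lit 152) (nat_lit 11120068018) (nat_lit 228) (nat_lit 7050009106) (nat_lit 92) (nat_lit 5) (nat_lit 94) (nat_lit 5) (nat_lit 95) (nat_lit 5) (nat_lit 491) (nat_lit 402) (nat_lit 307)))) (XT.nd (nat_lit 156) (nat_lit 152) (nat_lit 0) (XT.nd (nat_lit 78) (nat_lit 228) (nat_lit 0) (XT.lf (nat_lit 0) (nat_lit 16509309535) (nat_lit 152) (nat_lit 3967678232) (nat_lit 228) (nat_lit 1030780084) (nat_lit 92) (nat_lit 5) (nat_lit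 94) (nat_lit 5) (nat_lit 95) (nat_lit 5) (nat_lit 492) (nat_lit 402) (nat_lit 306)) (XT.lf (nat_lit 0) (nat_lit 5161716440) (nat_lit 228) (nat_lit 13314722303) (nat_lit 76) (nat_lit 3448647027) (nat_lit 89) (nat_lit 5) (nat_lit 92) (nat_lit 5) (nat_lit 90) (nat_lit 5) (nat_lit 493) (nat_lit 402) (nat_lit 305))) (XT.nd (nat_lit 78) (nat_lit 0) (nat_lit 0) (XT.lf (nat_lit 0) (nat_lit 289939913) (nat_lit 152) (nat_lit 11299119582) (nat_lit 228) (nat_lit 10763464733) (nat_lit 87) (nat_lit 5) (nat_lit 89) (nat_lit 5) (nat_lit 90) (nat_lit 5) (nat_lit 494) (nat_lit 402) (nat_lit 304)) (XT.lf (nat_lit 0) (nat_lit 14533861961) (nat_lit 152) (nat_lit 3786832737) (nat_lit 228) (nat_lit 4468747812) (nat_lit 87) (nat_lit 5) (nat_lit 89) (nat_lit 5) (nat_lit 90) (nat_lit 5) (nat_lit 495) (nat_lit 402) (nat_lit 303)))))) (XT.nd (nat_lit 624) (nat_lit 760) (nat_lit 0) (XT.nd (nat_lit 312) (nat_lit 380) (nat_lit 0) (XT.nd (nat_lit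 156) (nat_lit 228) (nat_lit 0) (XT.nd (nat_lit 78) (nat_lit 0) (nat_lit 0) (XT.lf (nat_lit 0) (nat_lit 2049420291) (nat_lit 228) (nat_lit 17253650846) (nat_lit 76) (nat_lit 3933599179) (nat_lit 84) (nat_lit 5) (nat_lit 87) (nat_lit 5) (nat_lit 85) (nat_lit 5) (nat_lit 496) (nat_lit 402) (nat_lit 302)) (XT.lf (nat_lit 0) (nat_lit 8772555812) (nat_lit 228) (nat_lit 3000508669) (nat_lit 76) (nat_lit 11919946689) (nat_lit 84) (nat_lit 5) (nat_lit 87) (nat_lit 5) (nat_lit 85) (nat_lit 5) (nat_lit 497) (nat_lit 402) (nat_lit 301))) (XT.nd (nat_lit 78) (nat_lit 76) (nat_lit 0) (XT.lf (nat_lit 0) (nat_lit 11871950888) (nat_lit 152) (nat_lit 3917764490) (nat_lit 228) (nat_lit 8370557706) (nat_lit 82) (nat_lit 5) (nat_lit 84) (nat_lit 5) (nat_lit 85) (nat_lit 5) (nat_lit 498) (nat_lit 402) (nat_lit 300)) (XT.lf (nat_lit 0) (nat_lit 2581381135) (nat_lit 76) (nat_lit 20509827820) (nat_lit 152) (nat_lit 1548130037) (nat_lit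 81) (nat_lit 5) (nat_lit 82) (nat_lit 5) (nat_lit 83) (nat_lit 4) (nat_lit 499) (nat_lit 402) (nat_lit 299)))) (XT.nd (nat_lit 156) (nat_lit 152) (nat_lit 0) (XT.nd (nat_lit 78) (nat_lit 152) (nat_lit 0) (XT.lf (nat_lit 0) (nat_lit 5514491390) (nat_lit 152) (nat_lit 7112728708) (nat_lit 76) (nat_lit 12499704375) (nat_lit 80) (nat_lit 5) (nat_lit 82) (nat_lit 5) (nat_lit 81) (nat_lit 5) (nat_lit 500) (nat_lit 402) (nat_lit 298)) (XT.lf (nat_lit 0) (nat_lit 8390359273) (nat_lit 152) (nat_lit 4427129842) (nat_lit 228) (nat_lit 12809400810) (nat_lit 78) (nat_lit 5) (nat_lit 80) (nat_lit 5) (nat_lit 81) (nat_lit 5) (nat_lit 501) (nat_lit 402) (nat_lit 297))) (XT.nd (nat_lit 78) (nat_lit 152) (nat_lit 0) (XT.lf (nat_lit 0) (nat_lit 20429777789) (nat_lit 228) (nat_lit 1713668661) (nat_lit 76) (nat_lit 3995702492) (nat_lit 78) (nat_lit 5) (nat_lit 81) (nat_lit 5) (nat_lit 79) (nat_lit 4) (nat_lit 502) (nat_lit 402) (nat_lit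 296)) (XT.lf (nat_lit 0) (nat_lit 1736601114) (nat_lit 152) (nat_lit 12203238148) (nat_lit 76) (nat_lit 12721547560) (nat_lit 76) (nat_lit 5) (nat_lit 78) (nat_lit 5) (nat_lit 77) (nat_lit 5) (nat_lit 503) (nat_lit 402) (nat_lit 295))))) (XT.nd (nat_lit 312) (nat_lit 456) (nat_lit 0) (XT.nd (nat_lit 156) (nat_lit 152) (nat_lit 0) (XT.nd (nat_lit 78) (nat_lit 0) (nat_lit 0) (XT.lf (nat_lit 0) (nat_lit 3933668467) (nat_lit 152) (nat_lit 5392496435) (nat_lit 228) (nat_lit 17870382712) (nat_lit 74) (nat_lit 5) (nat_lit 76) (nat_lit 5) (nat_lit 77) (nat_lit 5) (nat_lit 504) (nat_lit 402) (nat_lit 294)) (XT.lf (nat_lit 0) (nat_lit 17280396060) (nat_lit 228) (nat_lit 7011173879) (nat_lit 76) (nat_lit 3452084437) (nat_lit 74) (nat_lit 5) (nat_lit 77) (nat_lit 5) (nat_lit 75) (nat_lit 4) (nat_lit 505) (nat_lit 402) (nat_lit 293))) (XT.nd (nat_lit 78) (nat_lit 76) (nat_lit 0) (XT.lf (nat_lit 0) (nat_lit 9829675769) (nat_lit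 76) (nat_lit 15771788790) (nat_lit 152) (nat_lit 2701864019) (nat_lit 73) (nat_lit 5) (nat_lit 74) (nat_lit 5) (nat_lit 75) (nat_lit 4) (nat_lit 506) (nat_lit 402) (nat_lit 292)) (XT.lf (nat_lit 0) (nat_lit 5240958739) (nat_lit 152) (nat_lit 1646628870) (nat_lit 76) (nat_lit 21989123911) (nat_lit 72) (nat_lit 5) (nat_lit 74) (nat_lit 5) (nat_lit 73) (nat_lit 5) (nat_lit 507) (nat_lit 402) (nat_lit 291)))) (XT.nd (nat_lit 156) (nat_lit 228) (nat_lit 0) (XT.nd (nat_lit 78) (nat_lit 76) (nat_lit 0) (XT.lf (nat_lit 0) (nat_lit 13525231970) (nat_lit 228) (nat_lit 13552254853) (nat_lit 76) (nat_lit 2384282976) (nat_lit 70) (nat_lit 5) (nat_lit 73) (nat_lit 5) (nat_lit 71) (nat_lit 4) (nat_lit 508) (nat_lit 402) (nat_lit 290)) (XT.lf (nat_lit 0) (nat_lit 3934799136) (nat_lit 76) (nat_lit 18227031465) (nat_lit 152) (nat_lit 7899435795) (nat_lit 69) (nat_lit 5) (nat_lit 70) (nat_lit 5) (nat_lit 71) (nat_lit 4) (nat_lit 509)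 (nat_lit 402) (nat_lit 289))) (XT.nd (nat_lit 78) (nat_lit 152) (nat_lit 0) (XT.lf (nat_lit 0) (nat_lit 490607352) (nat_lit 152) (nat_lit 8491233407) (nat_lit 76) (nat_lit 21693221777) (nat_lit 68) (nat_lit 5) (nat_lit 70) (nat_lit 5) (nat_lit 69) (nat_lit 5) (nat_lit 510) (nat_lit 402) (nat_lit 288)) (XT.lf (nat_lit 0) (nat_lit 9055615319) (nat_lit 228) (nat_lit 21559124893) (nat_lit 76) (nat_lit 687725393) (nat_lit 66) (nat_lit 5) (nat_lit 69) (nat_lit 5) (nat_lit 67) (nat_lit 4) (nat_lit 511) (nat_lit 402) (nat_lit 287))))))))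
noncomputable def xc103 : XT := (XT.nd (nat_lit 2340) (nat_lit 532) (nat_lit 0) (XT.nd (nat_lit 1170) (nat_lit 912) (nat_lit 0) (XT.nd (nat_lit 546) (nat_lit 456) (nat_lit 0) (XT.nd (nat_lit 234) (nat_lit 304) (nat_lit 0) (XT.nd (nat_lit 78) (nat_lit 304) (nat_lit 0) (XT.lf (nat_lit 0) (nat_lit 18034711869) (nat_lit 228) (nat_lit 3371755146) (nat_lit 76) (nat_lit 10537510034) (nat_lit 66) (nat_lit 5) (nat_lit 69) (nat_lit 5) (nat_lit 67) (nat_lit 4) (nat_lit 512) (nat_lit 402) (nat_lit 286)) (XT.nd (nat_lit 78) (nat_lit 228) (nat_lit 0) (XT.lf (nat_lit 0) (nat_lit 15632423628) (nat_lit 76) (nat_lit 11783177038) (nat_lit 152) (nat_lit 5185161008) (nat_lit 65) (nat_lit 5) (nat_lit 66) (nat_lit 5) (nat_lit 67) (nat_lit 4) (nat_lit 513) (nat_lit 402) (nat_lit 285)) (XT.lf (nat_lit 0) (nat_lit 1967253604) (nat_lit 152) (nat_lit 1794717045) (nat_lit 228) (nat_lit 29513119482) (nat_lit 62) (nat_lit 5) (nat_lit 64) (nat_lit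 5) (nat_lit 65) (nat_lit 5) (nat_lit 514) (nat_lit 402) (nat_lit 284)))) (XT.nd (nat_lit 156) (nat_lit 228) (nat_lit 0) (XT.nd (nat_lit 78) (nat_lit 76) (nat_lit 0) (XT.lf (nat_lit 0) (nat_lit 13110203929) (nat_lit 228) (nat_lit 12314363503) (nat_lit 76) (nat_lit 8536434119) (nat_lit 62) (nat_lit 5) (nat_lit 65) (nat_lit 5) (nat_lit 63) (nat_lit 4) (nat_lit 515) (nat_lit 402) (nat_lit 283)) (XT.lf (nat_lit 0) (nat_lit 7341466465) (nat_lit 76) (nat_lit 15468492935) (nat_lit 152) (nat_lit 11855399030) (nat_lit 61) (nat_lit 5) (nat_lit 62) (nat_lit 5) (nat_lit 63) (nat_lit 4) (nat_lit 516) (nat_lit 402) (nat_lit 282))) (XT.nd (nat_lit 78) (nat_lit 228) (nat_lit 0) (XT.lf (nat_lit 0) (nat_lit 27806790392) (nat_lit 76) (nat_lit 5101192482) (nat_lit 152) (nat_lit 2479645243) (nat_lit 61) (nat_lit 5) (nat_lit 62) (nat_lit 5) (nat_lit 63) (nat_lit 4) (nat_lit 517) (nat_lit 402) (nat_lit 281)) (XT.lf (nat_lit 0) (nat_lit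 7200011455) (nat_lit 228) (nat_lit 23276304970) (nat_lit 76) (nat_lit 5648299403) (nat_lit 58) (nat_lit 5) (nat_lit 61) (nat_lit 5) (nat_lit 59) (nat_lit 4) (nat_lit 518) (nat_lit 402) (nat_lit 280))))) (XT.nd (nat_lit 312) (nat_lit 228) (nat_lit 0) (XT.nd (nat_lit 156) (nat_lit 152) (nat_lit 0) (XT.nd (nat_lit 78) (nat_lit 76) (nat_lit 0) (XT.lf (nat_lit 0) (nat_lit 17231330821) (nat_lit 228) (nat_lit 2943533735) (nat_lit 76) (nat_lit 16704779076) (nat_lit 58) (nat_lit 5) (nat_lit 61) (nat_lit 5) (nat_lit 59) (nat_lit 4) (nat_lit 519) (nat_lit 402) (nat_lit 279)) (XT.lf (nat_lit 0) (nat_lit 18325719471) (nat_lit 76) (nat_lit 9397809867) (nat_lit 152) (nat_lit 9928995065) (nat_lit 57) (nat_lit 5) (nat_lit 58) (nat_lit 5) (nat_lit 59) (nat_lit 4) (nat_lit 520) (nat_lit 402) (nat_lit 278))) (XT.nd (nat_lit 78) (nat_lit 0) (nat_lit 0) (XT.lf (nat_lit 0) (nat_lit 128603914) (nat_lit 152) (nat_lit 36614743482) (nat_lit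 76) (nat_lit 1703771889) (nat_lit 55) (nat_lit 5) (nat_lit 57) (nat_lit 5) (nat_lit 56) (nat_lit 4) (nat_lit 521) (nat_lit 402) (nat_lit 277)) (XT.lf (nat_lit 0) (nat_lit 10562342914) (nat_lit 152) (nat_lit 15461625001) (nat_lit 76) (nat_lit 13230415935) (nat_lit 55) (nat_lit 5) (nat_lit 57) (nat_lit 5) (nat_lit 56) (nat_lit 4) (nat_lit 522) (nat_lit 402) (nat_lit 276)))) (XT.nd (nat_lit 156) (nat_lit 152) (nat_lit 0) (XT.nd (nat_lit 78) (nat_lit 0) (nat_lit 0) (XT.lf (nat_lit 0) (nat_lit 6421140415) (nat_lit 76) (nat_lit 14933980761) (nat_lit 152) (nat_lit 18729364649) (nat_lit 54) (nat_lit 5) (nat_lit 55) (nat_lit 5) (nat_lit 56) (nat_lit 4) (nat_lit 523) (nat_lit 402) (nat_lit 275)) (XT.lf (nat_lit 0) (nat_lit 29247387286) (nat_lit 76) (nat_lit 3364900054) (nat_lit 152) (nat_lit 8322985659) (nat_lit 54) (nat_lit 5) (nat_lit 55) (nat_lit 5) (nat_lit 56) (nat_lit 4) (nat_lit 524) (nat_lit 402) (nat_lit 274))) (XT.nd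 (nat_lit 78) (nat_lit 0) (nat_lit 0) (XT.lf (nat_lit 0) (nat_lit 2523770843) (nat_lit 152) (nat_lit 30780245176) (nat_lit 76) (nat_lit 8501629217) (nat_lit 52) (nat_lit 5) (nat_lit 54) (nat_lit 5) (nat_lit 53) (nat_lit 4) (nat_lit 525) (nat_lit 402) (nat_lit 273)) (XT.lf (nat_lit 0) (nat_lit 13665959501) (nat_lit 152) (nat_lit 8185213262) (nat_lit 76) (nat_lit 20844364561) (nat_lit 52) (nat_lit 5) (nat_lit 54) (nat_lit 5) (nat_lit 53) (nat_lit 4) (nat_lit 526) (nat_lit 402) (nat_lit 272)))))) (XT.nd (nat_lit 546) (nat_lit 456) (nat_lit 0) (XT.nd (nat_lit 234) (nat_lit 228) (nat_lit 0) (XT.nd (nat_lit 78) (nat_lit 152) (nat_lit 0) (XT.lf (nat_lit 0) (nat_lit 15358822382) (nat_lit 76) (nat_lit 9916476529) (nat_lit 152) (nat_lit 18332840955) (nat_lit 51) (nat_lit 5) (nat_lit 52) (nat_lit 5) (nat_lit 53) (nat_lit 4) (nat_lit 527) (nat_lit 402) (nat_lit 271)) (XT.nd (nat_lit 78) (nat_lit 152) (nat_lit 0) (XT.lf (nat_lit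 0) (nat_lit 37324506688) (nat_lit 152) (nat_lit 4820913195) (nat_lit 0) (nat_lit 2399953196) (nat_lit 51) (nat_lit 5) (nat_lit 53) (nat_lit 4) (nat_lit 51) (nat_lit 4) (nat_lit 528) (nat_lit 402) (nat_lit 270)) (XT.lf (nat_lit 0) (nat_lit 4416692851) (nat_lit 152) (nat_lit 25979645124) (nat_lit 76) (nat_lit 15104927493) (nat_lit 49) (nat_lit 5) (nat_lit 51) (nat_lit 5) (nat_lit 50) (nat_lit 4) (nat_lit 529) (nat_lit 402) (nat_lit 269)))) (XT.nd (nat_lit 156) (nat_lit 152) (nat_lit 0) (XT.nd (nat_lit 78) (nat_lit 76) (nat_lit 0) (XT.lf (nat_lit 0) (nat_lit 16293124515) (nat_lit 152) (nat_lit 1890855953) (nat_lit 76) (nat_lit 28298663230) (nat_lit 49) (nat_lit 5) (nat_lit 51) (nat_lit 5) (nat_lit 50) (nat_lit 4) (nat_lit 530) (nat_lit 402) (nat_lit 268)) (XT.lf (nat_lit 0) (nat_lit 23349273932) (nat_lit 76) (nat_lit 5387152936) (nat_lit 152) (nat_lit 18750719287) (nat_lit 48) (nat_lit 5) (nat_lit 49) (nat_lit 5) (nat_lit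 50) (nat_lit 4) (nat_lit 531) (nat_lit 402) (nat_lit 267))) (XT.nd (nat_lit 78) (nat_lit 76) (nat_lit 0) (XT.lf (nat_lit 0) (nat_lit 777244255) (nat_lit 76) (nat_lit 40863608071) (nat_lit 76) (nat_lit 6878296845) (nat_lit 47) (nat_lit 4) (nat_lit 48) (nat_lit 5) (nat_lit 48) (nat_lit 4) (nat_lit 532) (nat_lit 402) (nat_lit 266)) (XT.lf (nat_lit 0) (nat_lit 5531555087) (nat_lit 152) (nat_lit 22774350308) (nat_lit 76) (nat_lit 21266094353) (nat_lit 46) (nat_lit 5) (nat_lit 48) (nat_lit 5) (nat_lit 47) (nat_lit 4) (nat_lit 533) (nat_lit 402) (nat_lit 265))))) (XT.nd (nat_lit 312) (nat_lit 228) (nat_lit 0) (XT.nd (nat_lit 156) (nat_lit 152) (nat_lit 0) (XT.nd (nat_lit 78) (nat_lit 0) (nat_lit 0) (XT.lf (nat_lit 0) (nat_lit 2904608831) (nat_lit 76) (nat_lit 15285334427) (nat_lit 152) (nat_lit 32464015089) (nat_lit 45) (nat_lit 5) (nat_lit 46) (nat_lit 5) (nat_lit 47) (nat_lit 4) (nat_lit 534) (nat_lit 402) (nat_lit 264))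 (XT.lf (nat_lit 0) (nat_lit 29794845919) (nat_lit 76) (nat_lit 1649922077) (nat_lit 152) (nat_lit 20317107340) (nat_lit 45) (nat_lit 5) (nat_lit 46) (nat_lit 5) (nat_lit 47) (nat_lit 4) (nat_lit 535) (nat_lit 402) (nat_lit 263))) (XT.nd (nat_lit 78) (nat_lit 76) (nat_lit 0) (XT.lf (nat_lit 0) (nat_lit 4532607454) (nat_lit 76) (nat_lit 40714321939) (nat_lit 76) (nat_lit 7651609864) (nat_lit 44) (nat_lit 4) (nat_lit 45) (nat_lit 5) (nat_lit 45) (nat_lit 4) (nat_lit 536) (nat_lit 402) (nat_lit 262)) (XT.lf (nat_lit 0) (nat_lit 5515942047) (nat_lit 152) (nat_lit 21880959410) (nat_lit 76) (nat_lit 26664026045) (nat_lit 43) (nat_lit 5) (nat_lit 45) (nat_lit 5) (nat_lit 44) (nat_lit 4) (nat_lit 537) (nat_lit 402) (nat_lit 261)))) (XT.nd (nat_lit 156) (nat_lit 152) (nat_lit 0) (XT.nd (nat_lit 78) (nat_lit 0) (nat_lit 0) (XT.lf (nat_lit 0) (nat_lit 5403521652) (nat_lit 76) (nat_lit 13560516997) (nat_lit 152) (nat_lit 36290696916)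 (nat_lit 42) (nat_lit 5) (nat_lit 43) (nat_lit 5) (nat_lit 44) (nat_lit 4) (nat_lit 538) (nat_lit 402) (nat_lit 260)) (XT.lf (nat_lit 0) (nat_lit 33032745974) (nat_lit 152) (nat_lit 22556225258) (nat_lit 0) (nat_lit 888871761) (nat_lit 42) (nat_lit 5) (nat_lit 44) (nat_lit 4) (nat_lit 42) (nat_lit 4) (nat_lit 539) (nat_lit 402) (nat_lit 259))) (XT.nd (nat_lit 78) (nat_lit 76) (nat_lit 0) (XT.lf (nat_lit 0) (nat_lit 5506786586) (nat_lit 76) (nat_lit 42191675995) (nat_lit 76) (nat_lit 10033932773) (nat_lit 41) (nat_lit 4) (nat_lit 42) (nat_lit 5) (nat_lit 42) (nat_lit 4) (nat_lit 540) (nat_lit 402) (nat_lit 258)) (XT.lf (nat_lit 0) (nat_lit 3923601167) (nat_lit 152) (nat_lit 24206297910) (nat_lit 76) (nat_lit 30887061779) (nat_lit 40) (nat_lit 5) (nat_lit 42) (nat_lit 5) (nat_lit 41) (nat_lit 4) (nat_lit 541) (nat_lit 402) (nat_lit 257))))))) (XT.nd (nat_lit 52026) (nat_lit 0) (nat_lit 23940) (XT.nd (nat_lit 546)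 (nat_lit 228) (nat_lit 0) (XT.nd (nat_lit 234) (nat_lit 152) (nat_lit 0) (XT.nd (nat_lit 78) (nat_lit 76) (nat_lit 0) (XT.lf (nat_lit 0) (nat_lit 4621090989) (nat_lit 76) (nat_lit 13509634202) (nat_lit 152) (nat_lit 42205381809) (nat_lit 39) (nat_lit 5) (nat_lit 40) (nat_lit 5) (nat_lit 41) (nat_lit 4) (nat_lit 542) (nat_lit 402) (nat_lit 256)) (XT.nd (nat_lit 78) (nat_lit 76) (nat_lit 0) (XT.lf (nat_lit 0) (nat_lit 33013941982) (nat_lit 152) (nat_lit 26918644669) (nat_lit 0) (nat_lit 1754744643) (nat_lit 39) (nat_lit 5) (nat_lit 41) (nat_lit 4) (nat_lit 39) (nat_lit 4) (nat_lit 543) (nat_lit 402) (nat_lit 255)) (XT.lf (nat_lit 0) (nat_lit 2636644673) (nat_lit 76) (nat_lit 45854590622) (nat_lit 76) (nat_lit 14583429754) (nat_lit 38) (nat_lit 4) (nat_lit 39) (nat_lit 5) (nat_lit 39) (nat_lit 4) (nat_lit 544) (nat_lit 402) (nat_lit 254)))) (XT.nd (nat_lit 156) (nat_lit 76) (nat_lit 0) (XT.nd (nat_lit 78) (nat_lit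 0) (nat_lit 0) (XT.lf (nat_lit 0) (nat_lit 193609566) (nat_lit 152) (nat_lit 30889748524) (nat_lit 76) (nat_lit 33412391260) (nat_lit 37) (nat_lit 5) (nat_lit 39) (nat_lit 5) (nat_lit 38) (nat_lit 4) (nat_lit 545) (nat_lit 402) (nat_lit 253)) (XT.lf (nat_lit 0) (nat_lit 15109666111) (nat_lit 152) (nat_lit 621430512) (nat_lit 76) (nat_lit 50224373412) (nat_lit 37) (nat_lit 5) (nat_lit 39) (nat_lit 5) (nat_lit 38) (nat_lit 4) (nat_lit 546) (nat_lit 402) (nat_lit 252))) (XT.nd (nat_lit 78) (nat_lit 0) (nat_lit 0) (XT.lf (nat_lit 0) (nat_lit 30765345699) (nat_lit 152) (nat_lit 36312731713) (nat_lit 0) (nat_lit 372140804) (nat_lit 36) (nat_lit 5) (nat_lit 38) (nat_lit 4) (nat_lit 36) (nat_lit 4) (nat_lit 547) (nat_lit 402) (nat_lit 251)) (XT.lf (nat_lit 0) (nat_lit 47041943316) (nat_lit 152) (nat_lit 5304909635) (nat_lit 0) (nat_lit 16638418576) (nat_lit 36) (nat_lit 5) (nat_lit 38) (nat_lit 4) (nat_lit 36) (nat_lit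 4) (nat_lit 548) (nat_lit 402) (nat_lit 250))))) (XT.nd (nat_lit 51168) (nat_lit 0) (nat_lit 29412) (XT.nd (nat_lit 156) (nat_lit 76) (nat_lit 0) (XT.nd (nat_lit 78) (nat_lit 76) (nat_lit 0) (XT.lf (nat_lit 0) (nat_lit 27142025358) (nat_lit 76) (nat_lit 36915191923) (nat_lit 76) (nat_lit 6501647916) (nat_lit 35) (nat_lit 4) (nat_lit 36) (nat_lit 5) (nat_lit 36) (nat_lit 4) (nat_lit 549) (nat_lit 402) (nat_lit 249)) (XT.lf (nat_lit 0) (nat_lit 9263368873) (nat_lit 152) (nat_lit 11618632638) (nat_lit 76) (nat_lit 51293646227) (nat_lit 34) (nat_lit 5) (nat_lit 36) (nat_lit 5) (nat_lit 35) (nat_lit 4) (nat_lit 550) (nat_lit 402) (nat_lit 248))) (XT.nd (nat_lit 50934) (nat_lit 0) (nat_lit 30172) (XT.lf (nat_lit 0) (nat_lit 21467902584) (nat_lit 76) (nat_lit 4098904389) (nat_lit 152) (nat_lit 48266311276) (nat_lit 33) (nat_lit 5) (nat_lit 34) (nat_lit 5) (nat_lit 35) (nat_lit 4) (nat_lit 551) (nat_lit 402) (nat_lit 247))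 (XT.lf (nat_lit 0) (nat_lit 1258658163) (nat_lit 0) (nat_lit 1258658163) (nat_lit 228) (nat_lit 722701428) (nat_lit 430) (nat_lit 5) (nat_lit 430) (nat_lit 3) (nat_lit 433) (nat_lit 3) (nat_lit 403) (nat_lit 403) (nat_lit 394)))) (XT.nd (nat_lit 156) (nat_lit 380) (nat_lit 0) (XT.nd (nat_lit 78) (nat_lit 0) (nat_lit 0) (XT.lf (nat_lit 0) (nat_lit 1317268520) (nat_lit 380) (nat_lit 738195302) (nat_lit 380) (nat_lit 4438869931) (nat_lit 425) (nat_lit 3) (nat_lit 430) (nat_lit 3) (nat_lit 430) (nat_lit 5) (nat_lit 404) (nat_lit 403) (nat_lit 393)) (XT.lf (nat_lit 76) (nat_lit 2563373948) (nat_lit 0) (nat_lit 1487487429) (nat_lit 380) (nat_lit 2460282975) (nat_lit 426) (nat_lit 5) (nat_lit 425) (nat_lit 3) (nat_lit 430) (nat_lit 5) (nat_lit 405) (nat_lit 403) (nat_lit 392))) (XT.nd (nat_lit 78) (nat_lit 0) (nat_lit 0) (XT.lf (nat_lit 0) (nat_lit 232928844) (nat_lit 380) (nat_lit 609426705) (nat_lit 456) (nat_lit 5688984640)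 (nat_lit 420) (nat_lit 5) (nat_lit 425) (nat_lit 3) (nat_lit 426) (nat_lit 5) (nat_lit 406) (nat_lit 403) (nat_lit 391)) (XT.lf (nat_lit 76) (nat_lit 2804095263) (nat_lit 0) (nat_lit 77428364) (nat_lit 456) (nat_lit 3672189767) (nat_lit 421) (nat_lit 5) (nat_lit 420) (nat_lit 5) (nat_lit 426) (nat_lit 5) (nat_lit 407) (nat_lit 403) (nat_lit 390)))))) (XT.nd (nat_lit 624) (nat_lit 4028) (nat_lit 0) (XT.nd (nat_lit 312) (nat_lit 532) (nat_lit 0) (XT.nd (nat_lit 156) (nat_lit 532) (nat_lit 0) (XT.nd (nat_lit 78) (nat_lit 456) (nat_lit 0) (XT.lf (nat_lit 0) (nat_lit 5522611511) (nat_lit 380) (nat_lit 309211163) (nat_lit 456) (nat_lit 747566728) (nat_lit 421) (nat_lit 5) (nat_lit 426) (nat_lit 5) (nat_lit 427) (nat_lit 5) (nat_lit 408) (nat_lit 403) (nat_lit 389)) (XT.lf (nat_lit 0) (nat_lit 1539302113) (nat_lit 456) (nat_lit 3382599282) (nat_lit 532) (nat_lit 1685459011) (nat_lit 415) (nat_lit 5) (nat_lit 421) (nat_lit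 5) (nat_lit 422) (nat_lit 5) (nat_lit 409) (nat_lit 403) (nat_lit 388))) (XT.nd (nat_lit 78) (nat_lit 532) (nat_lit 0) (XT.lf (nat_lit 76) (nat_lit 169897015) (nat_lit 0) (nat_lit 3931147751) (nat_lit 532) (nat_lit 2537562010) (nat_lit 416) (nat_lit 5) (nat_lit 415) (nat_lit 5) (nat_lit 422) (nat_lit 5) (nat_lit 410) (nat_lit 403) (nat_lit 387)) (XT.lf (nat_lit 0) (nat_lit 7527478) (nat_lit 532) (nat_lit 2831727860) (nat_lit 608) (nat_lit 3833334241) (nat_lit 408) (nat_lit 5) (nat_lit 415) (nat_lit 5) (nat_lit 416) (nat_lit 5) (nat_lit 411) (nat_lit 403) (nat_lit 386)))) (XT.nd (nat_lit 156) (nat_lit 532) (nat_lit 0) (XT.nd (nat_lit 78) (nat_lit 0) (nat_lit 0) (XT.lf (nat_lit 76) (nat_lit 848247598) (nat_lit 0) (nat_lit 1646151113) (nat_lit 608) (nat_lit 4214965459) (nat_lit 409) (nat_lit 5) (nat_lit 408) (nat_lit 5) (nat_lit 416) (nat_lit 5) (nat_lit 412) (nat_lit 403) (nat_lit 385)) (XT.lf (nat_lit 76) (nat_lit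 4639690230) (nat_lit 0) (nat_lit 355182218) (nat_lit 608) (nat_lit 1754218088) (nat_lit 409) (nat_lit 5) (nat_lit 408) (nat_lit 5) (nat_lit 416) (nat_lit 5) (nat_lit 413) (nat_lit 403) (nat_lit 384))) (XT.nd (nat_lit 78) (nat_lit 0) (nat_lit 0) (XT.lf (nat_lit 0) (nat_lit 703729793) (nat_lit 608) (nat_lit 5077921915) (nat_lit 76) (nat_lit 1009991152) (nat_lit 401) (nat_lit 5) (nat_lit 409) (nat_lit 5) (nat_lit 402) (nat_lit 5) (nat_lit 414) (nat_lit 403) (nat_lit 383)) (XT.lf (nat_lit 0) (nat_lit 3139616519) (nat_lit 608) (nat_lit 1220553190) (nat_lit 76) (nat_lit 2476614101) (nat_lit 401) (nat_lit 5) (nat_lit 409) (nat_lit 5) (nat_lit 402) (nat_lit 5) (nat_lit 415) (nat_lit 403) (nat_lit 382))))) (XT.nd (nat_lit 312) (nat_lit 1900) (nat_lit 0) (XT.nd (nat_lit 156) (nat_lit 1444) (nat_lit 0) (XT.nd (nat_lit 78) (nat_lit 76) (nat_lit 0) (XT.lf (nat_lit 0) (nat_lit 2748498950) (nat_lit 608) (nat_lit 2843423569) (nat_lit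 684) (nat_lit 1293072563) (nat_lit 393) (nat_lit 5) (nat_lit 401) (nat_lit 5) (nat_lit 402) (nat_lit 5) (nat_lit 416) (nat_lit 403) (nat_lit 381)) (XT.lf (nat_lit 0) (nat_lit 1090478421) (nat_lit 684) (nat_lit 142888562) (nat_lit 76) (nat_lit 5703047325) (nat_lit 392) (nat_lit 5) (nat_lit 401) (nat_lit 5) (nat_lit 393) (nat_lit 5) (nat_lit 417) (nat_lit 403) (nat_lit 380))) (XT.nd (nat_lit 78) (nat_lit 760) (nat_lit 0) (XT.lf (nat_lit 0) (nat_lit 3482959039) (nat_lit 760) (nat_lit 3016742994) (nat_lit 76) (nat_lit 490402602) (nat_lit 383) (nat_lit 5) (nat_lit 393) (nat_lit 5) (nat_lit 384) (nat_lit 5) (nat_lit 418) (nat_lit 403) (nat_lit 379)) (XT.lf (nat_lit 0) (nat_lit 1121281798) (nat_lit 760) (nat_lit 4772724270) (nat_lit 836) (nat_lit 1153010394) (nat_lit 373) (nat_lit 5) (nat_lit 383) (nat_lit 5) (nat_lit 384) (nat_lit 5) (nat_lit 419) (nat_lit 403) (nat_lit 378)))) (XT.nd (nat_lit 156) (nat_lit 988) (nat_lit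 0) (XT.nd (nat_lit 78) (nat_lit 836) (nat_lit 0) (XT.lf (nat_lit 0) (nat_lit 1200976047) (nat_lit 836) (nat_lit 1731961036) (nat_lit 76) (nat_lit 4173724219) (nat_lit 372) (nat_lit 5) (nat_lit 383) (nat_lit 5) (nat_lit 373) (nat_lit 5) (nat_lit 420) (nat_lit 403) (nat_lit 377)) (XT.lf (nat_lit 0) (nat_lit 2568069268) (nat_lit 836) (nat_lit 984537677) (nat_lit 912) (nat_lit 3616653402) (nat_lit 361) (nat_lit 5) (nat_lit 372) (nat_lit 5) (nat_lit 373) (nat_lit 5) (nat_lit 421) (nat_lit 403) (nat_lit 376))) (XT.nd (nat_lit 78) (nat_lit 988) (nat_lit 0) (XT.lf (nat_lit 0) (nat_lit 5929550880) (nat_lit 912) (nat_lit 270635810) (nat_lit 76) (nat_lit 1034920673) (nat_lit 361) (nat_lit 5) (nat_lit 373) (nat_lit 5) (nat_lit 362) (nat_lit 5) (nat_lit 422) (nat_lit 403) (nat_lit 375)) (XT.lf (nat_lit 0) (nat_lit 1033234365) (nat_lit 988) (nat_lit 3109843756) (nat_lit 76) (nat_lit 3160173813) (nat_lit 348) (nat_lit 5) (nat_lit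 361) (nat_lit 5) (nat_lit 349) (nat_lit 5) (nat_lit 423) (nat_lit 403) (nat_lit 374))))))))
noncomputable def xc104 : XT := (XT.nd (nat_lit 2340) (nat_lit 5852) (nat_lit 0) (XT.nd (nat_lit 1170) (nat_lit 4256) (nat_lit 0) (XT.nd (nat_lit 546) (nat_lit 3724) (nat_lit 0) (XT.nd (nat_lit 234) (nat_lit 2432) (nat_lit 0) (XT.nd (nat_lit 78) (nat_lit 1140) (nat_lit 0) (XT.lf (nat_lit 0) (nat_lit 1378398402) (nat_lit 988) (nat_lit 1983758405) (nat_lit 1064) (nat_lit 4012521827) (nat_lit 335) (nat_lit 5) (nat_lit 348) (nat_lit 5) (nat_lit 349) (nat_lit 5) (nat_lit 424) (nat_lit 403) (nat_lit 373)) (XT.nd (nat_lit 78) (nat_lit 1140) (nat_lit 0) (XT.lf (nat_lit 0) (nat_lit 5726734452) (nat_lit 1064) (nat_lit 1445575003) (nat_lit 76) (nat_lit 276976538) (nat_lit 335) (nat_lit 5) (nat_lit 349) (nat_lit 5) (nat_lit 336) (nat_lit 5) (nat_lit 425) (nat_lit 403) (nat_lit 372)) (XT.lf (nat_lit 0) (nat_lit 607941891) (nat_lit 1140)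 (nat_lit 4306525706) (nat_lit 76) (nat_lit 2611964249) (nat_lit 320) (nat_lit 5) (nat_lit 335) (nat_lit 5) (nat_lit 321) (nat_lit 5) (nat_lit 426) (nat_lit 403) (nat_lit 371)))) (XT.nd (nat_lit 156) (nat_lit 1292) (nat_lit 0) (XT.nd (nat_lit 78) (nat_lit 0) (nat_lit 0) (XT.lf (nat_lit 0) (nat_lit 380093994) (nat_lit 1140) (nat_lit 2546496523) (nat_lit 1216) (nat_lit 4680214558) (nat_lit 305) (nat_lit 5) (nat_lit 320) (nat_lit 5) (nat_lit 321) (nat_lit 5) (nat_lit 427) (nat_lit 403) (nat_lit 370)) (XT.lf (nat_lit 0) (nat_lit 5236522731) (nat_lit 1140) (nat_lit 57570550) (nat_lit 1216) (nat_lit 2396127584) (nat_lit 305) (nat_lit 5) (nat_lit 320) (nat_lit 5) (nat_lit 321) (nat_lit 5) (nat_lit 428) (nat_lit 403) (nat_lit 369))) (XT.nd (nat_lit 78) (nat_lit 76) (nat_lit 0) (XT.lf (nat_lit 0) (nat_lit 2426489251) (nat_lit 1216) (nat_lit 5291270926) (nat_lit 1292) (nat_lit 58834685) (nat_lit 289) (nat_lit 5) (nat_lit 305)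 (nat_lit 5) (nat_lit 306) (nat_lit 5) (nat_lit 429) (nat_lit 403) (nat_lit 368)) (XT.lf (nat_lit 0) (nat_lit 2266701381) (nat_lit 1292) (nat_lit 444758386) (nat_lit 76) (nat_lit 5154513765) (nat_lit 288) (nat_lit 5) (nat_lit 305) (nat_lit 5) (nat_lit 289) (nat_lit 5) (nat_lit 430) (nat_lit 403) (nat_lit 367))))) (XT.nd (nat_lit 312) (nat_lit 1672) (nat_lit 0) (XT.nd (nat_lit 156) (nat_lit 684) (nat_lit 0) (XT.nd (nat_lit 78) (nat_lit 608) (nat_lit 0) (XT.lf (nat_lit 0) (nat_lit 4639514936) (nat_lit 760) (nat_lit 6059959) (nat_lit 836) (nat_lit 3312907640) (nat_lit 278) (nat_lit 5) (nat_lit 288) (nat_lit 5) (nat_lit 289) (nat_lit 5) (nat_lit 431) (nat_lit 403) (nat_lit 366)) (XT.lf (nat_lit 0) (nat_lit 1780377276) (nat_lit 608) (nat_lit 5305170175) (nat_lit 684) (nat_lit 968536173) (nat_lit 270) (nat_lit 5) (nat_lit 278) (nat_lit 5) (nat_lit 279) (nat_lit 5) (nat_lit 432) (nat_lit 403) (nat_lit 365))) (XT.nd (nat_lit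 78) (nat_lit 608) (nat_lit 0) (XT.lf (nat_lit 0) (nat_lit 1393773706) (nat_lit 684) (nat_lit 1125077830) (nat_lit 76) (nat_lit 5634017648) (nat_lit 269) (nat_lit 5) (nat_lit 278) (nat_lit 5) (nat_lit 270) (nat_lit 5) (nat_lit 433) (nat_lit 403) (nat_lit 364)) (XT.lf (nat_lit 0) (nat_lit 3795244986) (nat_lit 684) (nat_lit 4066679785) (nat_lit 76) (nat_lit 392781148) (nat_lit 261) (nat_lit 5) (nat_lit 270) (nat_lit 5) (nat_lit 262) (nat_lit 5) (nat_lit 434) (nat_lit 403) (nat_lit 363)))) (XT.nd (nat_lit 156) (nat_lit 1064) (nat_lit 0) (XT.nd (nat_lit 78) (nat_lit 76) (nat_lit 0) (XT.lf (nat_lit 0) (nat_lit 1264653847) (nat_lit 532) (nat_lit 4997353270) (nat_lit 608) (nat_lit 2097801058) (nat_lit 254) (nat_lit 5) (nat_lit 261) (nat_lit 5) (nat_lit 262) (nat_lit 5) (nat_lit 435) (nat_lit 403) (nat_lit 362)) (XT.lf (nat_lit 0) (nat_lit 314828774) (nat_lit 608) (nat_lit 1690983908) (nat_lit 76) (nat_lit 6462562120) (nat_lit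 253) (nat_lit 5) (nat_lit 261) (nat_lit 5) (nat_lit 254) (nat_lit 5) (nat_lit 436) (nat_lit 403) (nat_lit 361))) (XT.nd (nat_lit 78) (nat_lit 532) (nat_lit 0) (XT.lf (nat_lit 0) (nat_lit 2752535820) (nat_lit 608) (nat_lit 4718906309) (nat_lit 76) (nat_lit 1108294485) (nat_lit 246) (nat_lit 5) (nat_lit 254) (nat_lit 5) (nat_lit 247) (nat_lit 5) (nat_lit 437) (nat_lit 403) (nat_lit 360)) (XT.lf (nat_lit 0) (nat_lit 857611841) (nat_lit 532) (nat_lit 4398833164) (nat_lit 608) (nat_lit 3438209095) (nat_lit 239) (nat_lit 5) (nat_lit 246) (nat_lit 5) (nat_lit 247) (nat_lit 5) (nat_lit 438) (nat_lit 403) (nat_lit 359)))))) (XT.nd (nat_lit 546) (nat_lit 2204) (nat_lit 0) (XT.nd (nat_lit 234) (nat_lit 988) (nat_lit 0) (XT.nd (nat_lit 78) (nat_lit 1064) (nat_lit 0) (XT.lf (nat_lit 0) (nat_lit 6639707111) (nat_lit 532) (nat_lit 1192099642) (nat_lit 608) (nat_lit 981329045) (nat_lit 239) (nat_lit 5) (nat_lit 246) (nat_lit 5)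 (nat_lit 247) (nat_lit 5) (nat_lit 439) (nat_lit 403) (nat_lit 358)) (XT.nd (nat_lit 78) (nat_lit 456) (nat_lit 0) (XT.lf (nat_lit 0) (nat_lit 1524590218) (nat_lit 608) (nat_lit 5297059608) (nat_lit 76) (nat_lit 2112914774) (nat_lit 231) (nat_lit 5) (nat_lit 239) (nat_lit 5) (nat_lit 232) (nat_lit 5) (nat_lit 440) (nat_lit 403) (nat_lit 357)) (XT.lf (nat_lit 0) (nat_lit 538509835) (nat_lit 456) (nat_lit 3537117225) (nat_lit 532) (nat_lit 4984033983) (nat_lit 225) (nat_lit 5) (nat_lit 231) (nat_lit 5) (nat_lit 232) (nat_lit 5) (nat_lit 441) (nat_lit 403) (nat_lit 356)))) (XT.nd (nat_lit 156) (nat_lit 456) (nat_lit 0) (XT.nd (nat_lit 78) (nat_lit 532) (nat_lit 0) (XT.lf (nat_lit 0) (nat_lit 6599701413) (nat_lit 456) (nat_lit 108386494) (nat_lit 532) (nat_lit 2480281680) (nat_lit 225) (nat_lit 5) (nat_lit 231) (nat_lit 5) (nat_lit 232) (nat_lit 5) (nat_lit 442) (nat_lit 403) (nat_lit 355)) (XT.lf (nat_lit 0) (nat_lit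 116120295) (nat_lit 532) (nat_lit 5822006685) (nat_lit 76) (nat_lit 3382205802) (nat_lit 218) (nat_lit 5) (nat_lit 225) (nat_lit 5) (nat_lit 219) (nat_lit 5) (nat_lit 443) (nat_lit 403) (nat_lit 354))) (XT.nd (nat_lit 78) (nat_lit 0) (nat_lit 0) (XT.lf (nat_lit 0) (nat_lit 287193537) (nat_lit 456) (nat_lit 2436695569) (nat_lit 532) (nat_lit 6732134757) (nat_lit 212) (nat_lit 5) (nat_lit 218) (nat_lit 5) (nat_lit 219) (nat_lit 5) (nat_lit 444) (nat_lit 403) (nat_lit 353)) (XT.lf (nat_lit 0) (nat_lit 5434305723) (nat_lit 532) (nat_lit 2965589239) (nat_lit 76) (nat_lit 1195163595) (nat_lit 212) (nat_lit 5) (nat_lit 219) (nat_lit 5) (nat_lit 213) (nat_lit 5) (nat_lit 445) (nat_lit 403) (nat_lit 352))))) (XT.nd (nat_lit 312) (nat_lit 836) (nat_lit 0) (XT.nd (nat_lit 156) (nat_lit 456) (nat_lit 0) (XT.nd (nat_lit 78) (nat_lit 456) (nat_lit 0) (XT.lf (nat_lit 0) (nat_lit 3409102821) (nat_lit 456) (nat_lit 4828970984) (nat_lit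 532) (nat_lit 1499834488) (nat_lit 206) (nat_lit 5) (nat_lit 212) (nat_lit 5) (nat_lit 213) (nat_lit 5) (nat_lit 446) (nat_lit 403) (nat_lit 351)) (XT.lf (nat_lit 0) (nat_lit 83714478) (nat_lit 380) (nat_lit 1119495073) (nat_lit 456) (nat_lit 8681885608) (nat_lit 200) (nat_lit 5) (nat_lit 205) (nat_lit 5) (nat_lit 206) (nat_lit 5) (nat_lit 447) (nat_lit 403) (nat_lit 350))) (XT.nd (nat_lit 78) (nat_lit 456) (nat_lit 0) (XT.lf (nat_lit 0) (nat_lit 4003797922) (nat_lit 456) (nat_lit 3315891730) (nat_lit 76) (nat_lit 2715169270) (nat_lit 200) (nat_lit 5) (nat_lit 206) (nat_lit 5) (nat_lit 201) (nat_lit 5) (nat_lit 448) (nat_lit 403) (nat_lit 349)) (XT.lf (nat_lit 0) (nat_lit 3362372425) (nat_lit 456) (nat_lit 3526806420) (nat_lit 532) (nat_lit 3299918097) (nat_lit 194) (nat_lit 5) (nat_lit 200) (nat_lit 5) (nat_lit 201) (nat_lit 5) (nat_lit 449) (nat_lit 403) (nat_lit 348)))) (XT.nd (nat_lit 156) (nat_lit 380) (nat_lit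 0) (XT.nd (nat_lit 78) (nat_lit 456) (nat_lit 0) (XT.lf (nat_lit 0) (nat_lit 9856530387) (nat_lit 532) (nat_lit 98877935) (nat_lit 76) (nat_lit 392695967) (nat_lit 194) (nat_lit 5) (nat_lit 201) (nat_lit 5) (nat_lit 195) (nat_lit 5) (nat_lit 450) (nat_lit 403) (nat_lit 347)) (XT.lf (nat_lit 0) (nat_lit 2414930388) (nat_lit 456) (nat_lit 3658956832) (nat_lit 76) (nat_lit 4435483566) (nat_lit 188) (nat_lit 5) (nat_lit 194) (nat_lit 5) (nat_lit 189) (nat_lit 5) (nat_lit 451) (nat_lit 403) (nat_lit 346))) (XT.nd (nat_lit 78) (nat_lit 0) (nat_lit 0) (XT.lf (nat_lit 0) (nat_lit 3339548596) (nat_lit 380) (nat_lit 2051740072) (nat_lit 456) (nat_lit 5284268510) (nat_lit 183) (nat_lit 5) (nat_lit 188) (nat_lit 5) (nat_lit 189) (nat_lit 5) (nat_lit 452) (nat_lit 403) (nat_lit 345)) (XT.lf (nat_lit 0) (nat_lit 8474290057) (nat_lit 456) (nat_lit 299092911) (nat_lit 76) (nat_lit 2072829585) (nat_lit 183) (nat_lit 5) (nat_lit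 189) (nat_lit 5) (nat_lit 184) (nat_lit 5) (nat_lit 453) (nat_lit 403) (nat_lit 344))))))) (XT.nd (nat_lit 1170) (nat_lit 2508) (nat_lit 0) (XT.nd (nat_lit 546) (nat_lit 1596) (nat_lit 0) (XT.nd (nat_lit 234) (nat_lit 988) (nat_lit 0) (XT.nd (nat_lit 78) (nat_lit 380) (nat_lit 0) (XT.lf (nat_lit 0) (nat_lit 664836003) (nat_lit 380) (nat_lit 4016006745) (nat_lit 76) (nat_lit 6339488755) (nat_lit 178) (nat_lit 5) (nat_lit 183) (nat_lit 5) (nat_lit 179) (nat_lit 5) (nat_lit 454) (nat_lit 403) (nat_lit 343)) (XT.nd (nat_lit 78) (nat_lit 0) (nat_lit 0) (XT.lf (nat_lit 0) (nat_lit 3320036072) (nat_lit 380) (nat_lit 421289234) (nat_lit 456) (nat_lit 7457758769) (nat_lit 173) (nat_lit 5) (nat_lit 178) (nat_lit 5) (nat_lit 179) (nat_lit 5) (nat_lit 455) (nat_lit 403) (nat_lit 342)) (XT.lf (nat_lit 0) (nat_lit 6950977676) (nat_lit 456) (nat_lit 517107539) (nat_lit 76) (nat_lit 3913891480) (nat_lit 173) (nat_lit 5) (nat_lit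 179) (nat_lit 5) (nat_lit 174) (nat_lit 5) (nat_lit 456) (nat_lit 403) (nat_lit 341)))) (XT.nd (nat_lit 156) (nat_lit 304) (nat_lit 0) (XT.nd (nat_lit 78) (nat_lit 380) (nat_lit 0) (XT.lf (nat_lit 0) (nat_lit 7147514415) (nat_lit 304) (nat_lit 3145184566) (nat_lit 380) (nat_lit 1276587149) (nat_lit 169) (nat_lit 5) (nat_lit 173) (nat_lit 5) (nat_lit 174) (nat_lit 5) (nat_lit 457) (nat_lit 403) (nat_lit 340)) (XT.lf (nat_lit 0) (nat_lit 1946855817) (nat_lit 380) (nat_lit 8492654497) (nat_lit 76) (nat_lit 1321752286) (nat_lit 164) (nat_lit 5) (nat_lit 169) (nat_lit 5) (nat_lit 165) (nat_lit 5) (nat_lit 458) (nat_lit 403) (nat_lit 339))) (XT.nd (nat_lit 78) (nat_lit 304) (nat_lit 0) (XT.lf (nat_lit 0) (nat_lit 5281087774) (nat_lit 380) (nat_lit 775636674) (nat_lit 76) (nat_lit 5900705547) (nat_lit 164) (nat_lit 5) (nat_lit 169) (nat_lit 5) (nat_lit 165) (nat_lit 5) (nat_lit 459) (nat_lit 403) (nat_lit 338)) (XT.lf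 (nat_lit 0) (nat_lit 7262079518) (nat_lit 304) (nat_lit 1487647616) (nat_lit 380) (nat_lit 3408726900) (nat_lit 160) (nat_lit 5) (nat_lit 164) (nat_lit 5) (nat_lit 165) (nat_lit 5) (nat_lit 460) (nat_lit 403) (nat_lit 337))))) (XT.nd (nat_lit 312) (nat_lit 608) (nat_lit 0) (XT.nd (nat_lit 156) (nat_lit 608) (nat_lit 0) (XT.nd (nat_lit 78) (nat_lit 76) (nat_lit 0) (XT.lf (nat_lit 0) (nat_lit 3169493755) (nat_lit 304) (nat_lit 9187187545) (nat_lit 380) (nat_lit 7802774) (nat_lit 156) (nat_lit 5) (nat_lit 160) (nat_lit 5) (nat_lit 161) (nat_lit 5) (nat_lit 461) (nat_lit 403) (nat_lit 336)) (XT.lf (nat_lit 0) (nat_lit 3456721887) (nat_lit 380) (nat_lit 1099389429) (nat_lit 76) (nat_lit 8018685280) (nat_lit 155) (nat_lit 5) (nat_lit 160) (nat_lit 5) (nat_lit 156) (nat_lit 5) (nat_lit 462) (nat_lit 403) (nat_lit 335))) (XT.nd (nat_lit 78) (nat_lit 304) (nat_lit 0) (XT.lf (nat_lit 0) (nat_lit 7064205150) (nat_lit 380)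 (nat_lit 5462383454) (nat_lit 76) (nat_lit 263654880) (nat_lit 151) (nat_lit 5) (nat_lit 156) (nat_lit 5) (nat_lit 152) (nat_lit 5) (nat_lit 463) (nat_lit 403) (nat_lit 334)) (XT.lf (nat_lit 0) (nat_lit 2979713874) (nat_lit 304) (nat_lit 7851619325) (nat_lit 380) (nat_lit 2179280591) (nat_lit 147) (nat_lit 5) (nat_lit 151) (nat_lit 5) (nat_lit 152) (nat_lit 5) (nat_lit 464) (nat_lit 403) (nat_lit 333)))) (XT.nd (nat_lit 156) (nat_lit 304) (nat_lit 0) (XT.nd (nat_lit 78) (nat_lit 228) (nat_lit 0) (XT.lf (nat_lit 0) (nat_lit 1467434145) (nat_lit 380) (nat_lit 1515619196) (nat_lit 76) (nat_lit 10253449848) (nat_lit 146) (nat_lit 5) (nat_lit 151) (nat_lit 5) (nat_lit 147) (nat_lit 5) (nat_lit 465) (nat_lit 403) (nat_lit 332)) (XT.lf (nat_lit 0) (nat_lit 5238018746) (nat_lit 304) (nat_lit 6161647927) (nat_lit 76) (nat_lit 2067109590) (nat_lit 143) (nat_lit 5) (nat_lit 147) (nat_lit 5) (nat_lit 144) (nat_lit 5) (nat_lit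 466) (nat_lit 403) (nat_lit 331))) (XT.nd (nat_lit 78) (nat_lit 0) (nat_lit 0) (XT.lf (nat_lit 0) (nat_lit 2690085249) (nat_lit 304) (nat_lit 6470357958) (nat_lit 380) (nat_lit 4542354979) (nat_lit 139) (nat_lit 5) (nat_lit 143) (nat_lit 5) (nat_lit 144) (nat_lit 5) (nat_lit 467) (nat_lit 403) (nat_lit 330)) (XT.lf (nat_lit 0) (nat_lit 11883386197) (nat_lit 304) (nat_lit 1347699177) (nat_lit 380) (nat_lit 713901304) (nat_lit 139) (nat_lit 5) (nat_lit 143) (nat_lit 5) (nat_lit 144) (nat_lit 5) (nat_lit 468) (nat_lit 403) (nat_lit 329)))))) (XT.nd (nat_lit 546) (nat_lit 1216) (nat_lit 0) (XT.nd (nat_lit 234) (nat_lit 760) (nat_lit 0) (XT.nd (nat_lit 78) (nat_lit 228) (nat_lit 0) (XT.lf (nat_lit 0) (nat_lit 3243298888) (nat_lit 304) (nat_lit 7012531803) (nat_lit 76) (nat_lit 3935373665) (nat_lit 135) (nat_lit 5) (nat_lit 139) (nat_lit 5) (nat_lit 136) (nat_lit 5) (nat_lit 469) (nat_lit 403) (nat_lit 328)) (XT.nd (nat_lit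 78) (nat_lit 0) (nat_lit 0) (XT.lf (nat_lit 0) (nat_lit 2268165398) (nat_lit 228) (nat_lit 5062069859) (nat_lit 304) (nat_lit 7113602260) (nat_lit 132) (nat_lit 5) (nat_lit 135) (nat_lit 5) (nat_lit 136) (nat_lit 5) (nat_lit 470) (nat_lit 403) (nat_lit 327)) (XT.lf (nat_lit 0) (nat_lit 11583498296) (nat_lit 304) (nat_lit 2784308644) (nat_lit 76) (nat_lit 334933183) (nat_lit 132) (nat_lit 5) (nat_lit 136) (nat_lit 5) (nat_lit 133) (nat_lit 5) (nat_lit 471) (nat_lit 403) (nat_lit 326)))) (XT.nd (nat_lit 156) (nat_lit 228) (nat_lit 0) (XT.nd (nat_lit 78) (nat_lit 228) (nat_lit 0) (XT.lf (nat_lit 0) (nat_lit 1063414985) (nat_lit 304) (nat_lit 8051909860) (nat_lit 76) (nat_lit 5851163514) (nat_lit 128) (nat_lit 5) (nat_lit 132) (nat_lit 5) (nat_lit 129) (nat_lit 5) (nat_lit 472) (nat_lit 403) (nat_lit 325)) (XT.lf (nat_lit 0) (nat_lit 1677155845) (nat_lit 228) (nat_lit 3646660221) (nat_lit 304) (nat_lit 9912959558) (nat_lit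 125) (nat_lit 5) (nat_lit 128) (nat_lit 5) (nat_lit 129) (nat_lit 5) (nat_lit 473) (nat_lit 403) (nat_lit 324))) (XT.nd (nat_lit 78) (nat_lit 228) (nat_lit 0) (XT.lf (nat_lit 0) (nat_lit 9783891742) (nat_lit 304) (nat_lit 3718308203) (nat_lit 76) (nat_lit 2010817470) (nat_lit 125) (nat_lit 5) (nat_lit 129) (nat_lit 5) (nat_lit 126) (nat_lit 5) (nat_lit 474) (nat_lit 403) (nat_lit 323)) (XT.lf (nat_lit 0) (nat_lit 6460803507) (nat_lit 228) (nat_lit 7986689310) (nat_lit 304) (nat_lit 1347963680) (nat_lit 122) (nat_lit 5) (nat_lit 125) (nat_lit 5) (nat_lit 126) (nat_lit 5) (nat_lit 475) (nat_lit 403) (nat_lit 322))))) (XT.nd (nat_lit 312) (nat_lit 684) (nat_lit 0) (XT.nd (nat_lit 156) (nat_lit 228) (nat_lit 0) (XT.nd (nat_lit 78) (nat_lit 0) (nat_lit 0) (XT.lf (nat_lit 0) (nat_lit 875041921) (nat_lit 228) (nat_lit 2245779605) (nat_lit 304) (nat_lit 12964097994) (nat_lit 118) (nat_lit 5) (nat_lit 121) (nat_lit 5) (nat_lit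 122) (nat_lit 5) (nat_lit 476) (nat_lit 403) (nat_lit 321)) (XT.lf (nat_lit 0) (nat_lit 7798828082) (nat_lit 304) (nat_lit 4895094402) (nat_lit 76) (nat_lit 3685677634) (nat_lit 118) (nat_lit 5) (nat_lit 122) (nat_lit 5) (nat_lit 119) (nat_lit 5) (nat_lit 477) (nat_lit 403) (nat_lit 320))) (XT.nd (nat_lit 78) (nat_lit 76) (nat_lit 0) (XT.lf (nat_lit 0) (nat_lit 5773240564) (nat_lit 152) (nat_lit 6894289580) (nat_lit 228) (nat_lit 4014081869) (nat_lit 116) (nat_lit 5) (nat_lit 118) (nat_lit 5) (nat_lit 119) (nat_lit 5) (nat_lit 478) (nat_lit 403) (nat_lit 319)) (XT.lf (nat_lit 0) (nat_lit 698784018) (nat_lit 228) (nat_lit 182752980) (nat_lit 76) (nat_lit 16110270897) (nat_lit 115) (nat_lit 5) (nat_lit 118) (nat_lit 5) (nat_lit 116) (nat_lit 5) (nat_lit 479) (nat_lit 403) (nat_lit 318)))) (XT.nd (nat_lit 156) (nat_lit 304) (nat_lit 0) (XT.nd (nat_lit 78) (nat_lit 152) (nat_lit 0) (XT.lf (nat_lit 0) (nat_lit 5603867636)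 (nat_lit 304) (nat_lit 6365684203) (nat_lit 76) (nat_lit 5336621595) (nat_lit 112) (nat_lit 5) (nat_lit 116) (nat_lit 5) (nat_lit 113) (nat_lit 5) (nat_lit 480) (nat_lit 403) (nat_lit 317)) (XT.lf (nat_lit 0) (nat_lit 4811178752) (nat_lit 152) (nat_lit 5875436519) (nat_lit 228) (nat_lit 6942440690) (nat_lit 110) (nat_lit 5) (nat_lit 112) (nat_lit 5) (nat_lit 113) (nat_lit 5) (nat_lit 481) (nat_lit 403) (nat_lit 316))) (XT.nd (nat_lit 78) (nat_lit 304) (nat_lit 0) (XT.lf (nat_lit 0) (nat_lit 15964449780) (nat_lit 228) (nat_lit 1555730493) (nat_lit 76) (nat_lit 440167886) (nat_lit 110) (nat_lit 5) (nat_lit 113) (nat_lit 5) (nat_lit 111) (nat_lit 5) (nat_lit 482) (nat_lit 403) (nat_lit 315)) (XT.lf (nat_lit 0) (nat_lit 3170088584) (nat_lit 304) (nat_lit 8188832632) (nat_lit 76) (nat_lit 6937819806) (nat_lit 106) (nat_lit 5) (nat_lit 110) (nat_lit 5) (nat_lit 107) (nat_lit 5) (nat_lit 483) (nat_lit 403) (nat_lit 314))))))))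
noncomputable def xc105 : XT := (XT.nd (nat_lit 2340) (nat_lit 2052) (nat_lit 0) (XT.nd (nat_lit 1170) (nat_lit 1368) (nat_lit 0) (XT.nd (nat_lit 546) (nat_lit 912) (nat_lit 0) (XT.nd (nat_lit 234) (nat_lit 380) (nat_lit 0) (XT.nd (nat_lit 78) (nat_lit 228) (nat_lit 0) (XT.lf (nat_lit 0) (nat_lit 3515141284) (nat_lit 152) (nat_lit 4960114378) (nat_lit 228) (nat_lit 10166648901) (nat_lit 104) (nat_lit 5) (nat_lit 106) (nat_lit 5) (nat_lit 107) (nat_lit 5) (nat_lit 484) (nat_lit 403) (nat_lit 313)) (XT.nd (nat_lit 78) (nat_lit 228) (nat_lit 0) (XT.lf (nat_lit 0) (nat_lit 14013562021) (nat_lit 228) (nat_lit 3317605968) (nat_lit 76) (nat_lit 1664036672) (nat_lit 104) (nat_lit 5) (nat_lit 107) (nat_lit 5) (nat_lit 105) (nat_lit 5) (nat_lit 485) (nat_lit 403) (nat_lit 312)) (XT.lf (nat_lit 0) (nat_lit 463467210) (nat_lit 228) (nat_lit 10432380414) (nat_lit 76) (nat_lit 8459807034) (nat_lit 101) (nat_lit 5) (nat_lit 104)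 (nat_lit 5) (nat_lit 102) (nat_lit 5) (nat_lit 486) (nat_lit 403) (nat_lit 311)))) (XT.nd (nat_lit 156) (nat_lit 228) (nat_lit 0) (XT.nd (nat_lit 78) (nat_lit 0) (nat_lit 0) (XT.lf (nat_lit 0) (nat_lit 1816217870) (nat_lit 152) (nat_lit 4182474732) (nat_lit 228) (nat_lit 13725940285) (nat_lit 99) (nat_lit 5) (nat_lit 101) (nat_lit 5) (nat_lit 102) (nat_lit 5) (nat_lit 487) (nat_lit 403) (nat_lit 310)) (XT.lf (nat_lit 0) (nat_lit 11808348684) (nat_lit 228) (nat_lit 5525867667) (nat_lit 76) (nat_lit 2767213942) (nat_lit 99) (nat_lit 5) (nat_lit 102) (nat_lit 5) (nat_lit 100) (nat_lit 5) (nat_lit 488) (nat_lit 403) (nat_lit 309))) (XT.nd (nat_lit 78) (nat_lit 76) (nat_lit 0) (XT.lf (nat_lit 0) (nat_lit 7287031294) (nat_lit 152) (nat_lit 10593148162) (nat_lit 228) (nat_lit 2606716633) (nat_lit 97) (nat_lit 5) (nat_lit 99) (nat_lit 5) (nat_lit 100) (nat_lit 5) (nat_lit 489) (nat_lit 403) (nat_lit 308)) (XT.lf (nat_lit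 0) (nat_lit 3219651445) (nat_lit 228) (nat_lit 358424020) (nat_lit 76) (nat_lit 17303928973) (nat_lit 96) (nat_lit 5) (nat_lit 99) (nat_lit 5) (nat_lit 97) (nat_lit 5) (nat_lit 490) (nat_lit 403) (nat_lit 307))))) (XT.nd (nat_lit 312) (nat_lit 380) (nat_lit 0) (XT.nd (nat_lit 156) (nat_lit 228) (nat_lit 0) (XT.nd (nat_lit 78) (nat_lit 152) (nat_lit 0) (XT.lf (nat_lit 0) (nat_lit 9307480624) (nat_lit 228) (nat_lit 8265016125) (nat_lit 76) (nat_lit 3711524074) (nat_lit 94) (nat_lit 5) (nat_lit 97) (nat_lit 5) (nat_lit 95) (nat_lit 5) (nat_lit 491) (nat_lit 403) (nat_lit 306)) (XT.lf (nat_lit 0) (nat_lit 5130921777) (nat_lit 152) (nat_lit 10512700388) (nat_lit 228) (nat_lit 6052506112) (nat_lit 92) (nat_lit 5) (nat_lit 94) (nat_lit 5) (nat_lit 95) (nat_lit 5) (nat_lit 492) (nat_lit 403) (nat_lit 305))) (XT.nd (nat_lit 78) (nat_lit 152) (nat_lit 0) (XT.lf (nat_lit 0) (nat_lit 109898889) (nat_lit 228) (nat_lit 3062137139)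 (nat_lit 76) (nat_lit 18946701249) (nat_lit 91) (nat_lit 5) (nat_lit 94) (nat_lit 5) (nat_lit 92) (nat_lit 5) (nat_lit 493) (nat_lit 403) (nat_lit 304)) (XT.lf (nat_lit 0) (nat_lit 6462522590) (nat_lit 228) (nat_lit 11633122748) (nat_lit 76) (nat_lit 4452772385) (nat_lit 89) (nat_lit 5) (nat_lit 92) (nat_lit 5) (nat_lit 90) (nat_lit 5) (nat_lit 494) (nat_lit 403) (nat_lit 303)))) (XT.nd (nat_lit 156) (nat_lit 228) (nat_lit 0) (XT.nd (nat_lit 78) (nat_lit 0) (nat_lit 0) (XT.lf (nat_lit 0) (nat_lit 2359276970) (nat_lit 152) (nat_lit 10709839768) (nat_lit 228) (nat_lit 9919970895) (nat_lit 87) (nat_lit 5) (nat_lit 89) (nat_lit 5) (nat_lit 90) (nat_lit 5) (nat_lit 495) (nat_lit 403) (nat_lit 302)) (XT.lf (nat_lit 0) (nat_lit 16970498072) (nat_lit 152) (nat_lit 2999220825) (nat_lit 228) (nat_lit 3470385217) (nat_lit 87) (nat_lit 5) (nat_lit 89) (nat_lit 5) (nat_lit 90) (nat_lit 5) (nat_lit 496) (nat_lit 403) (nat_lit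 301))) (XT.nd (nat_lit 78) (nat_lit 0) (nat_lit 0) (XT.lf (nat_lit 0) (nat_lit 3216849944) (nat_lit 228) (nat_lit 15744086415) (nat_lit 76) (nat_lit 4939618356) (nat_lit 84) (nat_lit 5) (nat_lit 87) (nat_lit 5) (nat_lit 85) (nat_lit 5) (nat_lit 497) (nat_lit 403) (nat_lit 300)) (XT.lf (nat_lit 0) (nat_lit 10109467480) (nat_lit 228) (nat_lit 1122393875) (nat_lit 76) (nat_lit 13139691887) (nat_lit 84) (nat_lit 5) (nat_lit 87) (nat_lit 5) (nat_lit 85) (nat_lit 5) (nat_lit 498) (nat_lit 403) (nat_lit 299)))))) (XT.nd (nat_lit 546) (nat_lit 608) (nat_lit 0) (XT.nd (nat_lit 234) (nat_lit 456) (nat_lit 0) (XT.nd (nat_lit 78) (nat_lit 152) (nat_lit 0) (XT.lf (nat_lit 0) (nat_lit 14176944077) (nat_lit 152) (nat_lit 3147657313) (nat_lit 228) (nat_lit 7528608892) (nat_lit 82) (nat_lit 5) (nat_lit 84) (nat_lit 5) (nat_lit 85) (nat_lit 5) (nat_lit 499) (nat_lit 403) (nat_lit 298)) (XT.nd (nat_lit 78) (nat_lit 76) (nat_lit 0)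 (XT.lf (nat_lit 0) (nat_lit 4611660655) (nat_lit 76) (nat_lit 20229626433) (nat_lit 152) (nat_lit 505477684) (nat_lit 81) (nat_lit 5) (nat_lit 82) (nat_lit 5) (nat_lit 83) (nat_lit 4) (nat_lit 500) (nat_lit 403) (nat_lit 297)) (XT.lf (nat_lit 0) (nat_lit 6716667941) (nat_lit 152) (nat_lit 5409485893) (nat_lit 76) (nat_lit 13723443944) (nat_lit 80) (nat_lit 5) (nat_lit 82) (nat_lit 5) (nat_lit 81) (nat_lit 5) (nat_lit 501) (nat_lit 403) (nat_lit 296)))) (XT.nd (nat_lit 156) (nat_lit 228) (nat_lit 0) (XT.nd (nat_lit 78) (nat_lit 76) (nat_lit 0) (XT.lf (nat_lit 0) (nat_lit 10539904289) (nat_lit 152) (nat_lit 3686898089) (nat_lit 228) (nat_lit 12138119349) (nat_lit 78) (nat_lit 5) (nat_lit 80) (nat_lit 5) (nat_lit 81) (nat_lit 5) (nat_lit 502) (nat_lit 403) (nat_lit 295)) (XT.lf (nat_lit 0) (nat_lit 101183979) (nat_lit 76) (nat_lit 21945547978) (nat_lit 152) (nat_lit 4846439301) (nat_lit 77) (nat_lit 5) (nat_lit 78)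 (nat_lit 5) (nat_lit 79) (nat_lit 4) (nat_lit 503) (nat_lit 403) (nat_lit 294))) (XT.nd (nat_lit 78) (nat_lit 152) (nat_lit 0) (XT.lf (nat_lit 0) (nat_lit 2790163026) (nat_lit 152) (nat_lit 10703364709) (nat_lit 76) (nat_lit 13937628189) (nat_lit 76) (nat_lit 5) (nat_lit 78) (nat_lit 5) (nat_lit 77) (nat_lit 5) (nat_lit 504) (nat_lit 403) (nat_lit 293)) (XT.lf (nat_lit 0) (nat_lit 5899355275) (nat_lit 152) (nat_lit 4696650600) (nat_lit 228) (nat_lit 17386708731) (nat_lit 74) (nat_lit 5) (nat_lit 76) (nat_lit 5) (nat_lit 77) (nat_lit 5) (nat_lit 505) (nat_lit 403) (nat_lit 292))))) (XT.nd (nat_lit 312) (nat_lit 304) (nat_lit 0) (XT.nd (nat_lit 156) (nat_lit 228) (nat_lit 0) (XT.nd (nat_lit 78) (nat_lit 76) (nat_lit 0) (XT.lf (nat_lit 0) (nat_lit 18768031245) (nat_lit 228) (nat_lit 5406788499) (nat_lit 76) (nat_lit 4372040620) (nat_lit 74) (nat_lit 5) (nat_lit 77) (nat_lit 5) (nat_lit 75) (nat_lit 4) (nat_lit 506)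 (nat_lit 403) (nat_lit 291)) (XT.lf (nat_lit 0) (nat_lit 11921495261) (nat_lit 76) (nat_lit 15406279916) (nat_lit 152) (nat_lit 1795879098) (nat_lit 73) (nat_lit 5) (nat_lit 74) (nat_lit 5) (nat_lit 75) (nat_lit 4) (nat_lit 507) (nat_lit 403) (nat_lit 290))) (XT.nd (nat_lit 78) (nat_lit 0) (nat_lit 0) (XT.lf (nat_lit 0) (nat_lit 68627292) (nat_lit 152) (nat_lit 6269812246) (nat_lit 228) (nat_lit 23376341108) (nat_lit 70) (nat_lit 5) (nat_lit 72) (nat_lit 5) (nat_lit 73) (nat_lit 5) (nat_lit 508) (nat_lit 403) (nat_lit 289)) (XT.lf (nat_lit 0) (nat_lit 14867852092) (nat_lit 228) (nat_lit 12192753506) (nat_lit 76) (nat_lit 3256887460) (nat_lit 70) (nat_lit 5) (nat_lit 73) (nat_lit 5) (nat_lit 71) (nat_lit 4) (nat_lit 509) (nat_lit 403) (nat_lit 288)))) (XT.nd (nat_lit 156) (nat_lit 152) (nat_lit 0) (XT.nd (nat_lit 78) (nat_lit 76) (nat_lit 0) (XT.lf (nat_lit 0) (nat_lit 5801597700) (nat_lit 76) (nat_lit 17951473803)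 (nat_lit 152) (nat_lit 7182218061) (nat_lit 69) (nat_lit 5) (nat_lit 70) (nat_lit 5) (nat_lit 71) (nat_lit 4) (nat_lit 510) (nat_lit 403) (nat_lit 287)) (XT.lf (nat_lit 0) (nat_lit 1413656556) (nat_lit 152) (nat_lit 7030050942) (nat_lit 76) (nat_lit 23124335075) (nat_lit 68) (nat_lit 5) (nat_lit 70) (nat_lit 5) (nat_lit 69) (nat_lit 5) (nat_lit 511) (nat_lit 403) (nat_lit 286))) (XT.nd (nat_lit 78) (nat_lit 0) (nat_lit 0) (XT.lf (nat_lit 0) (nat_lit 10233189914) (nat_lit 228) (nat_lit 20487533053) (nat_lit 76) (nat_lit 1493618150) (nat_lit 66) (nat_lit 5) (nat_lit 69) (nat_lit 5) (nat_lit 67) (nat_lit 4) (nat_lit 512) (nat_lit 403) (nat_lit 285)) (XT.lf (nat_lit 0) (nat_lit 19455273745) (nat_lit 228) (nat_lit 1804591696) (nat_lit 76) (nat_lit 11616024651) (nat_lit 66) (nat_lit 5) (nat_lit 69) (nat_lit 5) (nat_lit 67) (nat_lit 4) (nat_lit 513) (nat_lit 403) (nat_lit 284))))))) (XT.nd (nat_lit 1170) (nat_lit 912)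 (nat_lit 0) (XT.nd (nat_lit 546) (nat_lit 532) (nat_lit 0) (XT.nd (nat_lit 234) (nat_lit 304) (nat_lit 0) (XT.nd (nat_lit 78) (nat_lit 228) (nat_lit 0) (XT.lf (nat_lit 0) (nat_lit 17753356400) (nat_lit 76) (nat_lit 11354495354) (nat_lit 152) (nat_lit 4444819228) (nat_lit 65) (nat_lit 5) (nat_lit 66) (nat_lit 5) (nat_lit 67) (nat_lit 4) (nat_lit 514) (nat_lit 403) (nat_lit 283)) (XT.nd (nat_lit 78) (nat_lit 0) (nat_lit 0) (XT.lf (nat_lit 0) (nat_lit 3679365640) (nat_lit 152) (nat_lit 1064184237) (nat_lit 228) (nat_lit 29503712455) (nat_lit 62) (nat_lit 5) (nat_lit 64) (nat_lit 5) (nat_lit 65) (nat_lit 5) (nat_lit 515) (nat_lit 403) (nat_lit 282)) (XT.lf (nat_lit 0) (nat_lit 14354247906) (nat_lit 228) (nat_lit 11060847763) (nat_lit 76) (nat_lit 9539195444) (nat_lit 62) (nat_lit 5) (nat_lit 65) (nat_lit 5) (nat_lit 63) (nat_lit 4) (nat_lit 516) (nat_lit 403) (nat_lit 281)))) (XT.nd (nat_lit 156) (nat_lit 228) (nat_lit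 0) (XT.nd (nat_lit 78) (nat_lit 0) (nat_lit 0) (XT.lf (nat_lit 0) (nat_lit 9168745863) (nat_lit 76) (nat_lit 15166919213) (nat_lit 152) (nat_lit 11344394086) (nat_lit 61) (nat_lit 5) (nat_lit 62) (nat_lit 5) (nat_lit 63) (nat_lit 4) (nat_lit 517) (nat_lit 403) (nat_lit 280)) (XT.lf (nat_lit 0) (nat_lit 30201222652) (nat_lit 76) (nat_lit 4510899606) (nat_lit 152) (nat_lit 1712610411) (nat_lit 61) (nat_lit 5) (nat_lit 62) (nat_lit 5) (nat_lit 63) (nat_lit 4) (nat_lit 518) (nat_lit 403) (nat_lit 279))) (XT.nd (nat_lit 78) (nat_lit 0) (nat_lit 0) (XT.lf (nat_lit 0) (nat_lit 8239158328) (nat_lit 228) (nat_lit 22396054817) (nat_lit 76) (nat_lit 6548430460) (nat_lit 58) (nat_lit 5) (nat_lit 61) (nat_lit 5) (nat_lit 59) (nat_lit 4) (nat_lit 519) (nat_lit 403) (nat_lit 278)) (XT.lf (nat_lit 0) (nat_lit 18547442133) (nat_lit 228) (nat_lit 1499277317) (nat_lit 76) (nat_lit 17915322521) (nat_lit 58) (nat_lit 5) (nat_lit 61)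 (nat_lit 5) (nat_lit 59) (nat_lit 4) (nat_lit 520) (nat_lit 403) (nat_lit 277))))) (XT.nd (nat_lit 312) (nat_lit 228) (nat_lit 0) (XT.nd (nat_lit 156) (nat_lit 76) (nat_lit 0) (XT.nd (nat_lit 78) (nat_lit 152) (nat_lit 0) (XT.lf (nat_lit 0) (nat_lit 20393028363) (nat_lit 76) (nat_lit 8952688903) (nat_lit 152) (nat_lit 9412653041) (nat_lit 57) (nat_lit 5) (nat_lit 58) (nat_lit 5) (nat_lit 59) (nat_lit 4) (nat_lit 521) (nat_lit 403) (nat_lit 276)) (XT.lf (nat_lit 0) (nat_lit 929134498) (nat_lit 152) (nat_lit 36178079665) (nat_lit 76) (nat_lit 2469404043) (nat_lit 55) (nat_lit 5) (nat_lit 57) (nat_lit 5) (nat_lit 56) (nat_lit 4) (nat_lit 522) (nat_lit 403) (nat_lit 275))) (XT.nd (nat_lit 78) (nat_lit 76) (nat_lit 0) (XT.lf (nat_lit 0) (nat_lit 11652681615) (nat_lit 152) (nat_lit 14435079459) (nat_lit 76) (nat_lit 14321036177) (nat_lit 55) (nat_lit 5) (nat_lit 57) (nat_lit 5) (nat_lit 56) (nat_lit 4) (nat_lit 523) (nat_lit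 403) (nat_lit 274)) (XT.lf (nat_lit 0) (nat_lit 8089557212) (nat_lit 76) (nat_lit 14671343932) (nat_lit 152) (nat_lit 18503151812) (nat_lit 54) (nat_lit 5) (nat_lit 55) (nat_lit 5) (nat_lit 56) (nat_lit 4) (nat_lit 524) (nat_lit 403) (nat_lit 273)))) (XT.nd (nat_lit 156) (nat_lit 76) (nat_lit 0) (XT.nd (nat_lit 78) (nat_lit 152) (nat_lit 0) (XT.lf (nat_lit 0) (nat_lit 31557607530) (nat_lit 76) (nat_lit 2775889530) (nat_lit 152) (nat_lit 7807535640) (nat_lit 54) (nat_lit 5) (nat_lit 55) (nat_lit 5) (nat_lit 56) (nat_lit 4) (nat_lit 525) (nat_lit 403) (nat_lit 272)) (XT.lf (nat_lit 0) (nat_lit 3348268585) (nat_lit 152) (nat_lit 30254473570) (nat_lit 76) (nat_lit 9434596405) (nat_lit 52) (nat_lit 5) (nat_lit 54) (nat_lit 5) (nat_lit 53) (nat_lit 4) (nat_lit 526) (nat_lit 403) (nat_lit 271))) (XT.nd (nat_lit 78) (nat_lit 76) (nat_lit 0) (XT.lf (nat_lit 0) (nat_lit 14802913641) (nat_lit 152) (nat_lit 7023799794) (nat_lit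 76) (nat_lit 22127868616) (nat_lit 52) (nat_lit 5) (nat_lit 54) (nat_lit 5) (nat_lit 53) (nat_lit 4) (nat_lit 527) (nat_lit 403) (nat_lit 270)) (XT.lf (nat_lit 0) (nat_lit 17212763097) (nat_lit 76) (nat_lit 9539988158) (nat_lit 152) (nat_lit 18142045228) (nat_lit 51) (nat_lit 5) (nat_lit 52) (nat_lit 5) (nat_lit 53) (nat_lit 4) (nat_lit 528) (nat_lit 403) (nat_lit 269)))))) (XT.nd (nat_lit 624) (nat_lit 456) (nat_lit 0) (XT.nd (nat_lit 312) (nat_lit 228) (nat_lit 0) (XT.nd (nat_lit 156) (nat_lit 76) (nat_lit 0) (XT.nd (nat_lit 78) (nat_lit 152) (nat_lit 0) (XT.lf (nat_lit 0) (nat_lit 39148777918) (nat_lit 152) (nat_lit 3598273709) (nat_lit 0) (nat_lit 3113535129) (nat_lit 51) (nat_lit 5) (nat_lit 53) (nat_lit 4) (nat_lit 51) (nat_lit 4) (nat_lit 529) (nat_lit 403) (nat_lit 268)) (XT.lf (nat_lit 0) (nat_lit 5253135521) (nat_lit 152) (nat_lit 25391151571) (nat_lit 76) (nat_lit 16200887305) (nat_lit 49) (nat_lit 5)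 (nat_lit 51) (nat_lit 5) (nat_lit 50) (nat_lit 4) (nat_lit 530) (nat_lit 403) (nat_lit 267))) (XT.nd (nat_lit 78) (nat_lit 76) (nat_lit 0) (XT.lf (nat_lit 0) (nat_lit 17465356973) (nat_lit 152) (nat_lit 619539975) (nat_lit 76) (nat_lit 29771712435) (nat_lit 49) (nat_lit 5) (nat_lit 51) (nat_lit 5) (nat_lit 50) (nat_lit 4) (nat_lit 531) (nat_lit 403) (nat_lit 266)) (XT.lf (nat_lit 0) (nat_lit 25364773790) (nat_lit 76) (nat_lit 4909919416) (nat_lit 152) (nat_lit 18616771968) (nat_lit 48) (nat_lit 5) (nat_lit 49) (nat_lit 5) (nat_lit 50) (nat_lit 4) (nat_lit 532) (nat_lit 403) (nat_lit 265)))) (XT.nd (nat_lit 156) (nat_lit 76) (nat_lit 0) (XT.nd (nat_lit 78) (nat_lit 76) (nat_lit 0) (XT.lf (nat_lit 0) (nat_lit 2116706452) (nat_lit 76) (nat_lit 41448464326) (nat_lit 76) (nat_lit 6389290218) (nat_lit 47) (nat_lit 4) (nat_lit 48) (nat_lit 5) (nat_lit 48) (nat_lit 4) (nat_lit 533) (nat_lit 403) (nat_lit 264)) (XT.lf (nat_lit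 0) (nat_lit 6359430518) (nat_lit 152) (nat_lit 22166587287) (nat_lit 76) (nat_lit 22513274776) (nat_lit 46) (nat_lit 5) (nat_lit 48) (nat_lit 5) (nat_lit 47) (nat_lit 4) (nat_lit 534) (nat_lit 403) (nat_lit 263))) (XT.nd (nat_lit 78) (nat_lit 0) (nat_lit 0) (XT.lf (nat_lit 0) (nat_lit 4270083827) (nat_lit 76) (nat_lit 15120495182) (nat_lit 152) (nat_lit 32763340938) (nat_lit 45) (nat_lit 5) (nat_lit 46) (nat_lit 5) (nat_lit 47) (nat_lit 4) (nat_lit 535) (nat_lit 403) (nat_lit 262)) (XT.lf (nat_lit 0) (nat_lit 31929794919) (nat_lit 76) (nat_lit 1094177723) (nat_lit 152) (nat_lit 20271674343) (nat_lit 45) (nat_lit 5) (nat_lit 46) (nat_lit 5) (nat_lit 47) (nat_lit 4) (nat_lit 536) (nat_lit 403) (nat_lit 261))))) (XT.nd (nat_lit 312) (nat_lit 228) (nat_lit 0) (XT.nd (nat_lit 156) (nat_lit 76) (nat_lit 0) (XT.nd (nat_lit 78) (nat_lit 76) (nat_lit 0) (XT.lf (nat_lit 0) (nat_lit 5910658207) (nat_lit 76) (nat_lit 41328608494)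 (nat_lit 76) (nat_lit 7227172342) (nat_lit 44) (nat_lit 4) (nat_lit 45) (nat_lit 5) (nat_lit 45) (nat_lit 4) (nat_lit 537) (nat_lit 403) (nat_lit 260)) (XT.lf (nat_lit 0) (nat_lit 6303968075) (nat_lit 152) (nat_lit 21319094591) (nat_lit 76) (nat_lit 28041008209) (nat_lit 43) (nat_lit 5) (nat_lit 45) (nat_lit 5) (nat_lit 44) (nat_lit 4) (nat_lit 538) (nat_lit 403) (nat_lit 259))) (XT.nd (nat_lit 78) (nat_lit 0) (nat_lit 0) (XT.lf (nat_lit 0) (nat_lit 6771976848) (nat_lit 76) (nat_lit 13376994438) (nat_lit 152) (nat_lit 36744918216) (nat_lit 42) (nat_lit 5) (nat_lit 43) (nat_lit 5) (nat_lit 44) (nat_lit 4) (nat_lit 539) (nat_lit 403) (nat_lit 258)) (XT.lf (nat_lit 0) (nat_lit 34627307157) (nat_lit 152) (nat_lit 22049258631) (nat_lit 0) (nat_lit 1477497571) (nat_lit 42) (nat_lit 5) (nat_lit 44) (nat_lit 4) (nat_lit 42) (nat_lit 4) (nat_lit 540) (nat_lit 403) (nat_lit 257)))) (XT.nd (nat_lit 156) (nat_lit 76) (nat_lit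 0) (XT.nd (nat_lit 78) (nat_lit 76) (nat_lit 0) (XT.lf (nat_lit 0) (nat_lit 6844039124) (nat_lit 76) (nat_lit 42882642625) (nat_lit 76) (nat_lit 9719760169) (nat_lit 41) (nat_lit 4) (nat_lit 42) (nat_lit 5) (nat_lit 42) (nat_lit 4) (nat_lit 541) (nat_lit 403) (nat_lit 256)) (XT.lf (nat_lit 0) (nat_lit 4626926681) (nat_lit 152) (nat_lit 23782913401) (nat_lit 76) (nat_lit 32360054157) (nat_lit 40) (nat_lit 5) (nat_lit 42) (nat_lit 5) (nat_lit 41) (nat_lit 4) (nat_lit 542) (nat_lit 403) (nat_lit 255))) (XT.nd (nat_lit 78) (nat_lit 0) (nat_lit 0) (XT.lf (nat_lit 0) (nat_lit 5898026837) (nat_lit 76) (nat_lit 13356122835) (nat_lit 152) (nat_lit 42874648740) (nat_lit 39) (nat_lit 5) (nat_lit 40) (nat_lit 5) (nat_lit 41) (nat_lit 4) (nat_lit 543) (nat_lit 403) (nat_lit 254)) (XT.lf (nat_lit 0) (nat_lit 34572199325) (nat_lit 152) (nat_lit 26609385188) (nat_lit 0) (nat_lit 2339325026) (nat_lit 39) (nat_lit 5) (nat_lit 41)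 (nat_lit 4) (nat_lit 39) (nat_lit 4) (nat_lit 544) (nat_lit 403) (nat_lit 253))))))))
noncomputable def xc106 : XT := (XT.nd (nat_lit 53274) (nat_lit 0) (nat_lit 10260) (XT.nd (nat_lit 52104) (nat_lit 0) (nat_lit 21736) (XT.nd (nat_lit 51480) (nat_lit 0) (nat_lit 28424) (XT.nd (nat_lit 234) (nat_lit 152) (nat_lit 0) (XT.nd (nat_lit 78) (nat_lit 152) (nat_lit 0) (XT.lf (nat_lit 0) (nat_lit 3821613629) (nat_lit 76) (nat_lit 46686289101) (nat_lit 76) (nat_lit 14442138028) (nat_lit 38) (nat_lit 4) (nat_lit 39) (nat_lit 5) (nat_lit 39) (nat_lit 4) (nat_lit 545) (nat_lit 403) (nat_lit 252)) (XT.nd (nat_lit 78) (nat_lit 76) (nat_lit 0) (XT.lf (nat_lit 0) (nat_lit 750388971) (nat_lit 152) (nat_lit 30731809785) (nat_lit 76) (nat_lit 34931887974) (nat_lit 37) (nat_lit 5) (nat_lit 39) (nat_lit 5) (nat_lit 38) (nat_lit 4) (nat_lit 546) (nat_lit 403) (nat_lit 251)) (XT.lf (nat_lit 0) (nat_lit 421185411) (nat_lit 76) (nat_lit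 15680742789) (nat_lit 152) (nat_lit 51816030978) (nat_lit 36) (nat_lit 5) (nat_lit 37) (nat_lit 5) (nat_lit 38) (nat_lit 4) (nat_lit 547) (nat_lit 403) (nat_lit 250)))) (XT.nd (nat_lit 156) (nat_lit 152) (nat_lit 0) (XT.nd (nat_lit 78) (nat_lit 0) (nat_lit 0) (XT.lf (nat_lit 0) (nat_lit 32222607048) (nat_lit 152) (nat_lit 36348445607) (nat_lit 0) (nat_lit 886637453) (nat_lit 36) (nat_lit 5) (nat_lit 38) (nat_lit 4) (nat_lit 36) (nat_lit 4) (nat_lit 548) (nat_lit 403) (nat_lit 249)) (XT.lf (nat_lit 0) (nat_lit 48971940429) (nat_lit 152) (nat_lit 4441078228) (nat_lit 0) (nat_lit 17626243390) (nat_lit 36) (nat_lit 5) (nat_lit 38) (nat_lit 4) (nat_lit 36) (nat_lit 4) (nat_lit 549) (nat_lit 403) (nat_lit 248))) (XT.nd (nat_lit 78) (nat_lit 76) (nat_lit 0) (XT.lf (nat_lit 0) (nat_lit 28969235612) (nat_lit 76) (nat_lit 37523065194) (nat_lit 76) (nat_lit 6167924035) (nat_lit 35) (nat_lit 4) (nat_lit 36) (nat_lit 5) (nat_lit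 36) (nat_lit 4) (nat_lit 550) (nat_lit 403) (nat_lit 247)) (XT.lf (nat_lit 0) (nat_lit 10044624353) (nat_lit 152) (nat_lit 10973722770) (nat_lit 76) (nat_lit 53307464417) (nat_lit 34) (nat_lit 5) (nat_lit 36) (nat_lit 5) (nat_lit 35) (nat_lit 4) (nat_lit 551) (nat_lit 403) (nat_lit 246))))) (XT.nd (nat_lit 312) (nat_lit 912) (nat_lit 0) (XT.nd (nat_lit 156) (nat_lit 0) (nat_lit 0) (XT.nd (nat_lit 78) (nat_lit 380) (nat_lit 0) (XT.lf (nat_lit 0) (nat_lit 1999377733) (nat_lit 380) (nat_lit 627765414) (nat_lit 380) (nat_lit 627765414) (nat_lit 425) (nat_lit 3) (nat_lit 430) (nat_lit 3) (nat_lit 430) (nat_lit 5) (nat_lit 404) (nat_lit 404) (nat_lit 392)) (XT.lf (nat_lit 0) (nat_lit 144364222) (nat_lit 380) (nat_lit 4521038996) (nat_lit 456) (nat_lit 1862897286) (nat_lit 420) (nat_lit 5) (nat_lit 425) (nat_lit 3) (nat_lit 426) (nat_lit 5) (nat_lit 405) (nat_lit 404) (nat_lit 391))) (XT.nd (nat_lit 78) (nat_lit 0) (nat_lit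 0) (XT.lf (nat_lit 0) (nat_lit 2738868134) (nat_lit 380) (nat_lit 1233601594) (nat_lit 456) (nat_lit 2576849587) (nat_lit 420) (nat_lit 5) (nat_lit 425) (nat_lit 3) (nat_lit 426) (nat_lit 5) (nat_lit 406) (nat_lit 404) (nat_lit 390)) (XT.lf (nat_lit 76) (nat_lit 2140508737) (nat_lit 0) (nat_lit 3191353121) (nat_lit 456) (nat_lit 1241509858) (nat_lit 421) (nat_lit 5) (nat_lit 420) (nat_lit 5) (nat_lit 426) (nat_lit 5) (nat_lit 407) (nat_lit 404) (nat_lit 389)))) (XT.nd (nat_lit 156) (nat_lit 456) (nat_lit 0) (XT.nd (nat_lit 78) (nat_lit 0) (nat_lit 0) (XT.lf (nat_lit 0) (nat_lit 1291163831) (nat_lit 456) (nat_lit 1025440684) (nat_lit 532) (nat_lit 4283735382) (nat_lit 414) (nat_lit 5) (nat_lit 420) (nat_lit 5) (nat_lit 421) (nat_lit 5) (nat_lit 408) (nat_lit 404) (nat_lit 388)) (XT.lf (nat_lit 76) (nat_lit 2466474466) (nat_lit 0) (nat_lit 1336459291) (nat_lit 532) (nat_lit 2826993267) (nat_lit 415) (nat_lit 5) (nat_lit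 414) (nat_lit 5) (nat_lit 421) (nat_lit 5) (nat_lit 409) (nat_lit 404) (nat_lit 387))) (XT.nd (nat_lit 78) (nat_lit 456) (nat_lit 0) (XT.lf (nat_lit 76) (nat_lit 6031125336) (nat_lit 0) (nat_lit 275922031) (nat_lit 532) (nat_lit 355864819) (nat_lit 415) (nat_lit 5) (nat_lit 414) (nat_lit 5) (nat_lit 421) (nat_lit 5) (nat_lit 410) (nat_lit 404) (nat_lit 386)) (XT.lf (nat_lit 0) (nat_lit 2092560838) (nat_lit 532) (nat_lit 3717081645) (nat_lit 608) (nat_lit 888255433) (nat_lit 408) (nat_lit 5) (nat_lit 415) (nat_lit 5) (nat_lit 416) (nat_lit 5) (nat_lit 411) (nat_lit 404) (nat_lit 385)))))) (XT.nd (nat_lit 546) (nat_lit 4788) (nat_lit 0) (XT.nd (nat_lit 234) (nat_lit 1292) (nat_lit 0) (XT.nd (nat_lit 78) (nat_lit 608) (nat_lit 0) (XT.lf (nat_lit 0) (nat_lit 4527410803) (nat_lit 532) (nat_lit 81179663) (nat_lit 608) (nat_lit 2127651756) (nat_lit 408) (nat_lit 5) (nat_lit 415) (nat_lit 5) (nat_lit 416) (nat_lit 5) (nat_lit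 412) (nat_lit 404) (nat_lit 384)) (XT.nd (nat_lit 78) (nat_lit 0) (nat_lit 0) (XT.lf (nat_lit 0) (nat_lit 202911830) (nat_lit 608) (nat_lit 3097880123) (nat_lit 684) (nat_lit 3476435196) (nat_lit 400) (nat_lit 5) (nat_lit 408) (nat_lit 5) (nat_lit 409) (nat_lit 5) (nat_lit 413) (nat_lit 404) (nat_lit 383)) (XT.lf (nat_lit 76) (nat_lit 670723554) (nat_lit 0) (nat_lit 1893855345) (nat_lit 684) (nat_lit 4256564495) (nat_lit 401) (nat_lit 5) (nat_lit 400) (nat_lit 5) (nat_lit 409) (nat_lit 5) (nat_lit 414) (nat_lit 404) (nat_lit 382)))) (XT.nd (nat_lit 156) (nat_lit 684) (nat_lit 0) (XT.nd (nat_lit 78) (nat_lit 608) (nat_lit 0) (XT.lf (nat_lit 76) (nat_lit 4561008680) (nat_lit 0) (nat_lit 384018553) (nat_lit 684) (nat_lit 1922928328) (nat_lit 401) (nat_lit 5) (nat_lit 400) (nat_lit 5) (nat_lit 409) (nat_lit 5) (nat_lit 415) (nat_lit 404) (nat_lit 381)) (XT.lf (nat_lit 0) (nat_lit 416922227) (nat_lit 684) (nat_lit 5305773358)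 (nat_lit 76) (nat_lit 1194985739) (nat_lit 392) (nat_lit 5) (nat_lit 401) (nat_lit 5) (nat_lit 393) (nat_lit 5) (nat_lit 416) (nat_lit 404) (nat_lit 380))) (XT.nd (nat_lit 78) (nat_lit 684) (nat_lit 0) (XT.lf (nat_lit 0) (nat_lit 2736010526) (nat_lit 684) (nat_lit 1352695109) (nat_lit 76) (nat_lit 2881206308) (nat_lit 392) (nat_lit 5) (nat_lit 401) (nat_lit 5) (nat_lit 393) (nat_lit 5) (nat_lit 417) (nat_lit 404) (nat_lit 379)) (XT.lf (nat_lit 0) (nat_lit 2716605647) (nat_lit 684) (nat_lit 2356861762) (nat_lit 760) (nat_lit 1951792740) (nat_lit 383) (nat_lit 5) (nat_lit 392) (nat_lit 5) (nat_lit 393) (nat_lit 5) (nat_lit 418) (nat_lit 404) (nat_lit 378))))) (XT.nd (nat_lit 312) (nat_lit 3116) (nat_lit 0) (XT.nd (nat_lit 156) (nat_lit 836) (nat_lit 0) (XT.nd (nat_lit 78) (nat_lit 760) (nat_lit 0) (XT.lf (nat_lit 0) (nat_lit 328437196) (nat_lit 760) (nat_lit 206484203) (nat_lit 76) (nat_lit 6549122928) (nat_lit 382)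 (nat_lit 5) (nat_lit 392) (nat_lit 5) (nat_lit 383) (nat_lit 5) (nat_lit 419) (nat_lit 404) (nat_lit 377)) (XT.lf (nat_lit 0) (nat_lit 2616044944) (nat_lit 836) (nat_lit 3135542475) (nat_lit 76) (nat_lit 1393092182) (nat_lit 372) (nat_lit 5) (nat_lit 383) (nat_lit 5) (nat_lit 373) (nat_lit 5) (nat_lit 420) (nat_lit 404) (nat_lit 376))) (XT.nd (nat_lit 78) (nat_lit 0) (nat_lit 0) (XT.lf (nat_lit 0) (nat_lit 1108139146) (nat_lit 836) (nat_lit 3809878763) (nat_lit 912) (nat_lit 2290756841) (nat_lit 361) (nat_lit 5) (nat_lit 372) (nat_lit 5) (nat_lit 373) (nat_lit 5) (nat_lit 421) (nat_lit 404) (nat_lit 375)) (XT.lf (nat_lit 0) (nat_lit 5487405052) (nat_lit 836) (nat_lit 1762558733) (nat_lit 912) (nat_lit 26014106) (nat_lit 361) (nat_lit 5) (nat_lit 372) (nat_lit 5) (nat_lit 373) (nat_lit 5) (nat_lit 422) (nat_lit 404) (nat_lit 374)))) (XT.nd (nat_lit 156) (nat_lit 2128) (nat_lit 0) (XT.nd (nat_lit 78) (nat_lit 0) (nat_lit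 0) (XT.lf (nat_lit 0) (nat_lit 2221451318) (nat_lit 988) (nat_lit 4723634614) (nat_lit 76) (nat_lit 400664074) (nat_lit 348) (nat_lit 5) (nat_lit 361) (nat_lit 5) (nat_lit 349) (nat_lit 5) (nat_lit 423) (nat_lit 404) (nat_lit 373)) (XT.lf (nat_lit 0) (nat_lit 4503740186) (nat_lit 988) (nat_lit 290559213) (nat_lit 76) (nat_lit 2624281971) (nat_lit 348) (nat_lit 5) (nat_lit 361) (nat_lit 5) (nat_lit 349) (nat_lit 5) (nat_lit 424) (nat_lit 404) (nat_lit 372))) (XT.nd (nat_lit 78) (nat_lit 1140) (nat_lit 0) (XT.lf (nat_lit 0) (nat_lit 4303775506) (nat_lit 988) (nat_lit 2526297942) (nat_lit 1064) (nat_lit 664268104) (nat_lit 335) (nat_lit 5) (nat_lit 348) (nat_lit 5) (nat_lit 349) (nat_lit 5) (nat_lit 425) (nat_lit 404) (nat_lit 371)) (XT.lf (nat_lit 0) (nat_lit 1425016376) (nat_lit 1064) (nat_lit 148137938) (nat_lit 1140) (nat_lit 6000205685) (nat_lit 320) (nat_lit 5) (nat_lit 334) (nat_lit 5) (nat_lit 335) (nat_lit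 5) (nat_lit 426) (nat_lit 404) (nat_lit 370))))))) (XT.nd (nat_lit 1170) (nat_lit 4712) (nat_lit 0) (XT.nd (nat_lit 546) (nat_lit 2888) (nat_lit 0) (XT.nd (nat_lit 234) (nat_lit 1444) (nat_lit 0) (XT.nd (nat_lit 78) (nat_lit 2432) (nat_lit 0) (XT.lf (nat_lit 0) (nat_lit 3855382898) (nat_lit 1140) (nat_lit 1496247208) (nat_lit 76) (nat_lit 2303200750) (nat_lit 320) (nat_lit 5) (nat_lit 335) (nat_lit 5) (nat_lit 321) (nat_lit 5) (nat_lit 427) (nat_lit 404) (nat_lit 369)) (XT.nd (nat_lit 78) (nat_lit 1292) (nat_lit 0) (XT.lf (nat_lit 0) (nat_lit 3302152708) (nat_lit 1140) (nat_lit 2875362831) (nat_lit 1216) (nat_lit 1562097089) (nat_lit 305) (nat_lit 5) (nat_lit 320) (nat_lit 5) (nat_lit 321) (nat_lit 5) (nat_lit 428) (nat_lit 404) (nat_lit 368)) (XT.lf (nat_lit 0) (nat_lit 392154258) (nat_lit 1216) (nat_lit 293645658) (nat_lit 1292) (nat_lit 7142195831) (nat_lit 288) (nat_lit 5) (nat_lit 304) (nat_lit 5) (nat_lit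 305) (nat_lit 5) (nat_lit 429) (nat_lit 404) (nat_lit 367)))) (XT.nd (nat_lit 156) (nat_lit 684) (nat_lit 0) (XT.nd (nat_lit 78) (nat_lit 760) (nat_lit 0) (XT.lf (nat_lit 0) (nat_lit 2977885416) (nat_lit 1292) (nat_lit 2556899898) (nat_lit 76) (nat_lit 2383545676) (nat_lit 288) (nat_lit 5) (nat_lit 305) (nat_lit 5) (nat_lit 289) (nat_lit 5) (nat_lit 430) (nat_lit 404) (nat_lit 366)) (XT.lf (nat_lit 0) (nat_lit 2456955892) (nat_lit 760) (nat_lit 2850201792) (nat_lit 836) (nat_lit 2705174683) (nat_lit 278) (nat_lit 5) (nat_lit 288) (nat_lit 5) (nat_lit 289) (nat_lit 5) (nat_lit 431) (nat_lit 404) (nat_lit 365))) (XT.nd (nat_lit 78) (nat_lit 684) (nat_lit 0) (XT.lf (nat_lit 0) (nat_lit 7617704404) (nat_lit 760) (nat_lit 57477009) (nat_lit 836) (nat_lit 434914717) (nat_lit 278) (nat_lit 5) (nat_lit 288) (nat_lit 5) (nat_lit 289) (nat_lit 5) (nat_lit 432) (nat_lit 404) (nat_lit 364)) (XT.lf (nat_lit 0) (nat_lit 1883777241)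 (nat_lit 684) (nat_lit 3497016905) (nat_lit 76) (nat_lit 2828933778) (nat_lit 269) (nat_lit 5) (nat_lit 278) (nat_lit 5) (nat_lit 270) (nat_lit 5) (nat_lit 433) (nat_lit 404) (nat_lit 363))))) (XT.nd (nat_lit 312) (nat_lit 1140) (nat_lit 0) (XT.nd (nat_lit 156) (nat_lit 1140) (nat_lit 0) (XT.nd (nat_lit 78) (nat_lit 0) (nat_lit 0) (XT.lf (nat_lit 0) (nat_lit 1744444370) (nat_lit 608) (nat_lit 2486457701) (nat_lit 684) (nat_lit 4082296835) (nat_lit 261) (nat_lit 5) (nat_lit 269) (nat_lit 5) (nat_lit 270) (nat_lit 5) (nat_lit 434) (nat_lit 404) (nat_lit 362)) (XT.lf (nat_lit 0) (nat_lit 6635147473) (nat_lit 684) (nat_lit 1266559347) (nat_lit 76) (nat_lit 518473584) (nat_lit 261) (nat_lit 5) (nat_lit 270) (nat_lit 5) (nat_lit 262) (nat_lit 5) (nat_lit 435) (nat_lit 404) (nat_lit 361))) (XT.nd (nat_lit 78) (nat_lit 532) (nat_lit 0) (XT.lf (nat_lit 0) (nat_lit 582734839) (nat_lit 608) (nat_lit 4339641554) (nat_lit 76)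 (nat_lit 3607446732) (nat_lit 253) (nat_lit 5) (nat_lit 261) (nat_lit 5) (nat_lit 254) (nat_lit 5) (nat_lit 436) (nat_lit 404) (nat_lit 360)) (XT.lf (nat_lit 0) (nat_lit 1142322147) (nat_lit 532) (nat_lit 1815559573) (nat_lit 608) (nat_lit 5685183443) (nat_lit 246) (nat_lit 5) (nat_lit 253) (nat_lit 5) (nat_lit 254) (nat_lit 5) (nat_lit 437) (nat_lit 404) (nat_lit 359)))) (XT.nd (nat_lit 156) (nat_lit 608) (nat_lit 0) (XT.nd (nat_lit 78) (nat_lit 532) (nat_lit 0) (XT.lf (nat_lit 0) (nat_lit 5411092509) (nat_lit 608) (nat_lit 1951739605) (nat_lit 76) (nat_lit 1396674810) (nat_lit 246) (nat_lit 5) (nat_lit 254) (nat_lit 5) (nat_lit 247) (nat_lit 5) (nat_lit 438) (nat_lit 404) (nat_lit 358)) (XT.lf (nat_lit 0) (nat_lit 3763557090) (nat_lit 532) (nat_lit 4179219725) (nat_lit 608) (nat_lit 936525357) (nat_lit 239) (nat_lit 5) (nat_lit 246) (nat_lit 5) (nat_lit 247) (nat_lit 5) (nat_lit 439) (nat_lit 404) (nat_lit 357)))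 (XT.nd (nat_lit 78) (nat_lit 0) (nat_lit 0) (XT.lf (nat_lit 0) (nat_lit 629355105) (nat_lit 532) (nat_lit 865261500) (nat_lit 608) (nat_lit 7508321581) (nat_lit 231) (nat_lit 5) (nat_lit 238) (nat_lit 5) (nat_lit 239) (nat_lit 5) (nat_lit 440) (nat_lit 404) (nat_lit 356)) (XT.lf (nat_lit 0) (nat_lit 4008494908) (nat_lit 608) (nat_lit 2568232617) (nat_lit 76) (nat_lit 2552424814) (nat_lit 231) (nat_lit 5) (nat_lit 239) (nat_lit 5) (nat_lit 232) (nat_lit 5) (nat_lit 441) (nat_lit 404) (nat_lit 355)))))) (XT.nd (nat_lit 624) (nat_lit 2356) (nat_lit 0) (XT.nd (nat_lit 312) (nat_lit 912) (nat_lit 0) (XT.nd (nat_lit 156) (nat_lit 532) (nat_lit 0) (XT.nd (nat_lit 78) (nat_lit 456) (nat_lit 0) (XT.lf (nat_lit 0) (nat_lit 3414092745) (nat_lit 456) (nat_lit 3178442105) (nat_lit 532) (nat_lit 2666781525) (nat_lit 225) (nat_lit 5) (nat_lit 231) (nat_lit 5) (nat_lit 232) (nat_lit 5) (nat_lit 442) (nat_lit 404) (nat_lit 354))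 (XT.lf (nat_lit 0) (nat_lit 180098389) (nat_lit 456) (nat_lit 9059120151) (nat_lit 532) (nat_lit 154618766) (nat_lit 219) (nat_lit 5) (nat_lit 225) (nat_lit 5) (nat_lit 226) (nat_lit 5) (nat_lit 443) (nat_lit 404) (nat_lit 353))) (XT.nd (nat_lit 78) (nat_lit 456) (nat_lit 0) (XT.lf (nat_lit 0) (nat_lit 2430972594) (nat_lit 532) (nat_lit 3136417907) (nat_lit 76) (nat_lit 3962940936) (nat_lit 218) (nat_lit 5) (nat_lit 225) (nat_lit 5) (nat_lit 219) (nat_lit 5) (nat_lit 444) (nat_lit 404) (nat_lit 352)) (XT.lf (nat_lit 0) (nat_lit 3128016665) (nat_lit 456) (nat_lit 1948861295) (nat_lit 532) (nat_lit 4594426056) (nat_lit 212) (nat_lit 5) (nat_lit 218) (nat_lit 5) (nat_lit 219) (nat_lit 5) (nat_lit 445) (nat_lit 404) (nat_lit 351)))) (XT.nd (nat_lit 156) (nat_lit 380) (nat_lit 0) (XT.nd (nat_lit 78) (nat_lit 532) (nat_lit 0) (XT.lf (nat_lit 0) (nat_lit 7807688518) (nat_lit 532) (nat_lit 243667758) (nat_lit 76) (nat_lit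 1764988674) (nat_lit 212) (nat_lit 5) (nat_lit 219) (nat_lit 5) (nat_lit 213) (nat_lit 5) (nat_lit 446) (nat_lit 404) (nat_lit 350)) (XT.lf (nat_lit 0) (nat_lit 679799822) (nat_lit 532) (nat_lit 3676573701) (nat_lit 76) (nat_lit 5608042860) (nat_lit 205) (nat_lit 5) (nat_lit 212) (nat_lit 5) (nat_lit 206) (nat_lit 5) (nat_lit 447) (nat_lit 404) (nat_lit 349))) (XT.nd (nat_lit 78) (nat_lit 0) (nat_lit 0) (XT.lf (nat_lit 0) (nat_lit 2885753903) (nat_lit 380) (nat_lit 511029853) (nat_lit 456) (nat_lit 6719906784) (nat_lit 200) (nat_lit 5) (nat_lit 205) (nat_lit 5) (nat_lit 206) (nat_lit 5) (nat_lit 448) (nat_lit 404) (nat_lit 348)) (XT.lf (nat_lit 0) (nat_lit 6224542633) (nat_lit 456) (nat_lit 640306650) (nat_lit 76) (nat_lit 3407810136) (nat_lit 200) (nat_lit 5) (nat_lit 206) (nat_lit 5) (nat_lit 201) (nat_lit 5) (nat_lit 449) (nat_lit 404) (nat_lit 347))))) (XT.nd (nat_lit 312) (nat_lit 1064) (nat_lit 0) (XT.nd (nat_lit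 156) (nat_lit 380) (nat_lit 0) (XT.nd (nat_lit 78) (nat_lit 456) (nat_lit 0) (XT.lf (nat_lit 0) (nat_lit 6211098940) (nat_lit 456) (nat_lit 2950616690) (nat_lit 532) (nat_lit 1270858625) (nat_lit 194) (nat_lit 5) (nat_lit 200) (nat_lit 5) (nat_lit 201) (nat_lit 5) (nat_lit 450) (nat_lit 404) (nat_lit 346)) (XT.lf (nat_lit 0) (nat_lit 1561685608) (nat_lit 456) (nat_lit 7940373682) (nat_lit 76) (nat_lit 1094683203) (nat_lit 188) (nat_lit 5) (nat_lit 194) (nat_lit 5) (nat_lit 189) (nat_lit 5) (nat_lit 451) (nat_lit 404) (nat_lit 345))) (XT.nd (nat_lit 78) (nat_lit 380) (nat_lit 0) (XT.lf (nat_lit 0) (nat_lit 4486538435) (nat_lit 456) (nat_lit 1033581935) (nat_lit 76) (nat_lit 5244355631) (nat_lit 188) (nat_lit 5) (nat_lit 194) (nat_lit 5) (nat_lit 189) (nat_lit 5) (nat_lit 452) (nat_lit 404) (nat_lit 344)) (XT.lf (nat_lit 0) (nat_lit 6148063523) (nat_lit 380) (nat_lit 1371930085) (nat_lit 456) (nat_lit 3416626049)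 (nat_lit 183) (nat_lit 5) (nat_lit 188) (nat_lit 5) (nat_lit 189) (nat_lit 5) (nat_lit 453) (nat_lit 404) (nat_lit 343)))) (XT.nd (nat_lit 156) (nat_lit 684) (nat_lit 0) (XT.nd (nat_lit 78) (nat_lit 76) (nat_lit 0) (XT.lf (nat_lit 0) (nat_lit 2419146661) (nat_lit 304) (nat_lit 8249221276) (nat_lit 380) (nat_lit 444845956) (nat_lit 179) (nat_lit 5) (nat_lit 183) (nat_lit 5) (nat_lit 184) (nat_lit 5) (nat_lit 454) (nat_lit 404) (nat_lit 342)) (XT.lf (nat_lit 0) (nat_lit 2589918582) (nat_lit 380) (nat_lit 1444660770) (nat_lit 76) (nat_lit 7259029292) (nat_lit 178) (nat_lit 5) (nat_lit 183) (nat_lit 5) (nat_lit 179) (nat_lit 5) (nat_lit 455) (nat_lit 404) (nat_lit 341))) (XT.nd (nat_lit 78) (nat_lit 304) (nat_lit 0) (XT.lf (nat_lit 0) (nat_lit 5732259299) (nat_lit 456) (nat_lit 5396976525) (nat_lit 76) (nat_lit 349286471) (nat_lit 173) (nat_lit 5) (nat_lit 179) (nat_lit 5) (nat_lit 174) (nat_lit 5) (nat_lit 456) (nat_lit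 404) (nat_lit 340)) (XT.lf (nat_lit 0) (nat_lit 2144440267) (nat_lit 304) (nat_lit 6863705084) (nat_lit 380) (nat_lit 2659663072) (nat_lit 169) (nat_lit 5) (nat_lit 173) (nat_lit 5) (nat_lit 174) (nat_lit 5) (nat_lit 457) (nat_lit 404) (nat_lit 339))))))))
noncomputable def xc107 : XT := (XT.nd (nat_lit 2340) (nat_lit 3040) (nat_lit 0) (XT.nd (nat_lit 1170) (nat_lit 2356) (nat_lit 0) (XT.nd (nat_lit 546) (nat_lit 1444) (nat_lit 0) (XT.nd (nat_lit 234) (nat_lit 684) (nat_lit 0) (XT.nd (nat_lit 78) (nat_lit 608) (nat_lit 0) (XT.lf (nat_lit 0) (nat_lit 528618329) (nat_lit 380) (nat_lit 1896068121) (nat_lit 76) (nat_lit 9437363345) (nat_lit 168) (nat_lit 5) (nat_lit 173) (nat_lit 5) (nat_lit 169) (nat_lit 5) (nat_lit 458) (nat_lit 404) (nat_lit 338)) (XT.nd (nat_lit 78) (nat_lit 304) (nat_lit 0) (XT.lf (nat_lit 0) (nat_lit 3803317988) (nat_lit 380) (nat_lit 6081774273) (nat_lit 76) (nat_lit 2174912392) (nat_lit 164)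 (nat_lit 5) (nat_lit 169) (nat_lit 5) (nat_lit 165) (nat_lit 5) (nat_lit 459) (nat_lit 404) (nat_lit 337)) (XT.lf (nat_lit 0) (nat_lit 1824720373) (nat_lit 304) (nat_lit 5378026281) (nat_lit 380) (nat_lit 5060359812) (nat_lit 160) (nat_lit 5) (nat_lit 164) (nat_lit 5) (nat_lit 165) (nat_lit 5) (nat_lit 460) (nat_lit 404) (nat_lit 336)))) (XT.nd (nat_lit 156) (nat_lit 304) (nat_lit 0) (XT.nd (nat_lit 78) (nat_lit 380) (nat_lit 0) (XT.lf (nat_lit 0) (nat_lit 10042588447) (nat_lit 304) (nat_lit 689104926) (nat_lit 380) (nat_lit 1739784767) (nat_lit 160) (nat_lit 5) (nat_lit 164) (nat_lit 5) (nat_lit 165) (nat_lit 5) (nat_lit 461) (nat_lit 404) (nat_lit 335)) (XT.lf (nat_lit 0) (nat_lit 1711179551) (nat_lit 380) (nat_lit 6855693878) (nat_lit 76) (nat_lit 4116838753) (nat_lit 155) (nat_lit 5) (nat_lit 160) (nat_lit 5) (nat_lit 156) (nat_lit 5) (nat_lit 462) (nat_lit 404) (nat_lit 334))) (XT.nd (nat_lit 78) (nat_lit 0)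 (nat_lit 0) (XT.lf (nat_lit 0) (nat_lit 1434523447) (nat_lit 304) (nat_lit 3808679499) (nat_lit 380) (nat_lit 7658221212) (nat_lit 151) (nat_lit 5) (nat_lit 155) (nat_lit 5) (nat_lit 156) (nat_lit 5) (nat_lit 463) (nat_lit 404) (nat_lit 333)) (XT.lf (nat_lit 0) (nat_lit 8929033880) (nat_lit 380) (nat_lit 3071136726) (nat_lit 76) (nat_lit 1124064024) (nat_lit 151) (nat_lit 5) (nat_lit 156) (nat_lit 5) (nat_lit 152) (nat_lit 5) (nat_lit 464) (nat_lit 404) (nat_lit 332))))) (XT.nd (nat_lit 312) (nat_lit 532) (nat_lit 0) (XT.nd (nat_lit 156) (nat_lit 304) (nat_lit 0) (XT.nd (nat_lit 78) (nat_lit 304) (nat_lit 0) (XT.lf (nat_lit 0) (nat_lit 5599173343) (nat_lit 304) (nat_lit 7186180195) (nat_lit 380) (nat_lit 566580932) (nat_lit 147) (nat_lit 5) (nat_lit 151) (nat_lit 5) (nat_lit 152) (nat_lit 5) (nat_lit 465) (nat_lit 404) (nat_lit 331)) (XT.lf (nat_lit 0) (nat_lit 945651778) (nat_lit 228) (nat_lit 2172305991) (nat_lit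 304) (nat_lit 10467327369) (nat_lit 143) (nat_lit 5) (nat_lit 146) (nat_lit 5) (nat_lit 147) (nat_lit 5) (nat_lit 466) (nat_lit 404) (nat_lit 330))) (XT.nd (nat_lit 78) (nat_lit 304) (nat_lit 0) (XT.lf (nat_lit 0) (nat_lit 6978276359) (nat_lit 304) (nat_lit 3843802833) (nat_lit 76) (nat_lit 3001092160) (nat_lit 143) (nat_lit 5) (nat_lit 147) (nat_lit 5) (nat_lit 144) (nat_lit 5) (nat_lit 467) (nat_lit 404) (nat_lit 329)) (XT.lf (nat_lit 0) (nat_lit 5248946117) (nat_lit 304) (nat_lit 5747138805) (nat_lit 380) (nat_lit 3070861010) (nat_lit 139) (nat_lit 5) (nat_lit 143) (nat_lit 5) (nat_lit 144) (nat_lit 5) (nat_lit 468) (nat_lit 404) (nat_lit 328)))) (XT.nd (nat_lit 156) (nat_lit 228) (nat_lit 0) (XT.nd (nat_lit 78) (nat_lit 0) (nat_lit 0) (XT.lf (nat_lit 0) (nat_lit 326535100) (nat_lit 228) (nat_lit 486111149) (nat_lit 304) (nat_lit 13504788647) (nat_lit 135) (nat_lit 5) (nat_lit 138) (nat_lit 5) (nat_lit 139) (nat_lit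 5) (nat_lit 469) (nat_lit 404) (nat_lit 327)) (XT.lf (nat_lit 0) (nat_lit 4858375414) (nat_lit 304) (nat_lit 4773562996) (nat_lit 76) (nat_lit 4939366853) (nat_lit 135) (nat_lit 5) (nat_lit 139) (nat_lit 5) (nat_lit 136) (nat_lit 5) (nat_lit 470) (nat_lit 404) (nat_lit 326))) (XT.nd (nat_lit 78) (nat_lit 0) (nat_lit 0) (XT.lf (nat_lit 0) (nat_lit 4761541937) (nat_lit 228) (nat_lit 4285484593) (nat_lit 304) (nat_lit 5785120655) (nat_lit 132) (nat_lit 5) (nat_lit 135) (nat_lit 5) (nat_lit 136) (nat_lit 5) (nat_lit 471) (nat_lit 404) (nat_lit 325)) (XT.lf (nat_lit 0) (nat_lit 13392953750) (nat_lit 304) (nat_lit 478117291) (nat_lit 76) (nat_lit 1228796721) (nat_lit 132) (nat_lit 5) (nat_lit 136) (nat_lit 5) (nat_lit 133) (nat_lit 5) (nat_lit 472) (nat_lit 404) (nat_lit 324)))))) (XT.nd (nat_lit 546) (nat_lit 1140) (nat_lit 0) (XT.nd (nat_lit 234) (nat_lit 684) (nat_lit 0) (XT.nd (nat_lit 78) (nat_lit 228) (nat_lit 0)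 (XT.lf (nat_lit 0) (nat_lit 2551802908) (nat_lit 304) (nat_lit 5898097725) (nat_lit 76) (nat_lit 6921797277) (nat_lit 128) (nat_lit 5) (nat_lit 132) (nat_lit 5) (nat_lit 129) (nat_lit 5) (nat_lit 473) (nat_lit 404) (nat_lit 323)) (XT.nd (nat_lit 78) (nat_lit 0) (nat_lit 0) (XT.lf (nat_lit 0) (nat_lit 4099355937) (nat_lit 228) (nat_lit 2821038191) (nat_lit 304) (nat_lit 8730290959) (nat_lit 125) (nat_lit 5) (nat_lit 128) (nat_lit 5) (nat_lit 129) (nat_lit 5) (nat_lit 474) (nat_lit 404) (nat_lit 322)) (XT.lf (nat_lit 0) (nat_lit 11481147894) (nat_lit 304) (nat_lit 1493846555) (nat_lit 76) (nat_lit 2961215968) (nat_lit 125) (nat_lit 5) (nat_lit 129) (nat_lit 5) (nat_lit 126) (nat_lit 5) (nat_lit 475) (nat_lit 404) (nat_lit 321)))) (XT.nd (nat_lit 156) (nat_lit 152) (nat_lit 0) (XT.nd (nat_lit 78) (nat_lit 228) (nat_lit 0) (XT.lf (nat_lit 0) (nat_lit 37573934) (nat_lit 304) (nat_lit 7260316609) (nat_lit 76) (nat_lit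 8929783082) (nat_lit 121) (nat_lit 5) (nat_lit 125) (nat_lit 5) (nat_lit 122) (nat_lit 5) (nat_lit 476) (nat_lit 404) (nat_lit 320)) (XT.lf (nat_lit 0) (nat_lit 3219371703) (nat_lit 228) (nat_lit 1375496860) (nat_lit 304) (nat_lit 11931107775) (nat_lit 118) (nat_lit 5) (nat_lit 121) (nat_lit 5) (nat_lit 122) (nat_lit 5) (nat_lit 477) (nat_lit 404) (nat_lit 319))) (XT.nd (nat_lit 78) (nat_lit 152) (nat_lit 0) (XT.lf (nat_lit 0) (nat_lit 9381759638) (nat_lit 304) (nat_lit 2759854062) (nat_lit 76) (nat_lit 4688829599) (nat_lit 118) (nat_lit 5) (nat_lit 122) (nat_lit 5) (nat_lit 119) (nat_lit 5) (nat_lit 478) (nat_lit 404) (nat_lit 318)) (XT.lf (nat_lit 0) (nat_lit 8206157491) (nat_lit 152) (nat_lit 6172796787) (nat_lit 228) (nat_lit 2763090535) (nat_lit 116) (nat_lit 5) (nat_lit 118) (nat_lit 5) (nat_lit 119) (nat_lit 5) (nat_lit 479) (nat_lit 404) (nat_lit 317))))) (XT.nd (nat_lit 312) (nat_lit 456) (nat_lit 0) (XT.nd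 (nat_lit 156) (nat_lit 380) (nat_lit 0) (XT.nd (nat_lit 78) (nat_lit 0) (nat_lit 0) (XT.lf (nat_lit 0) (nat_lit 2045413806) (nat_lit 304) (nat_lit 15389836679) (nat_lit 76) (nat_lit 26472270) (nat_lit 112) (nat_lit 5) (nat_lit 116) (nat_lit 5) (nat_lit 113) (nat_lit 5) (nat_lit 480) (nat_lit 404) (nat_lit 316)) (XT.lf (nat_lit 0) (nat_lit 7069321602) (nat_lit 304) (nat_lit 4328483581) (nat_lit 76) (nat_lit 6388565949) (nat_lit 112) (nat_lit 5) (nat_lit 116) (nat_lit 5) (nat_lit 113) (nat_lit 5) (nat_lit 481) (nat_lit 404) (nat_lit 315))) (XT.nd (nat_lit 78) (nat_lit 228) (nat_lit 0) (XT.lf (nat_lit 0) (nat_lit 7161840448) (nat_lit 152) (nat_lit 5126133235) (nat_lit 228) (nat_lit 5831465754) (nat_lit 110) (nat_lit 5) (nat_lit 112) (nat_lit 5) (nat_lit 113) (nat_lit 5) (nat_lit 482) (nat_lit 404) (nat_lit 314)) (XT.lf (nat_lit 0) (nat_lit 579703308) (nat_lit 228) (nat_lit 17121346664) (nat_lit 304) (nat_lit 760315130)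 (nat_lit 107) (nat_lit 5) (nat_lit 110) (nat_lit 5) (nat_lit 111) (nat_lit 5) (nat_lit 483) (nat_lit 404) (nat_lit 313)))) (XT.nd (nat_lit 156) (nat_lit 228) (nat_lit 0) (XT.nd (nat_lit 78) (nat_lit 152) (nat_lit 0) (XT.lf (nat_lit 0) (nat_lit 4513780053) (nat_lit 304) (nat_lit 6260077063) (nat_lit 76) (nat_lit 8034268617) (nat_lit 106) (nat_lit 5) (nat_lit 110) (nat_lit 5) (nat_lit 107) (nat_lit 5) (nat_lit 484) (nat_lit 404) (nat_lit 312)) (XT.lf (nat_lit 0) (nat_lit 5773698221) (nat_lit 152) (nat_lit 4188734198) (nat_lit 228) (nat_lit 9201683597) (nat_lit 104) (nat_lit 5) (nat_lit 106) (nat_lit 5) (nat_lit 107) (nat_lit 5) (nat_lit 485) (nat_lit 404) (nat_lit 311))) (XT.nd (nat_lit 78) (nat_lit 228) (nat_lit 0) (XT.lf (nat_lit 0) (nat_lit 15639565440) (nat_lit 228) (nat_lit 1299364229) (nat_lit 76) (nat_lit 2589906816) (nat_lit 104) (nat_lit 5) (nat_lit 107) (nat_lit 5) (nat_lit 105) (nat_lit 5) (nat_lit 486)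 (nat_lit 404) (nat_lit 310)) (XT.lf (nat_lit 0) (nat_lit 1679853260) (nat_lit 228) (nat_lit 8624359428) (nat_lit 76) (nat_lit 9595983967) (nat_lit 101) (nat_lit 5) (nat_lit 104) (nat_lit 5) (nat_lit 102) (nat_lit 5) (nat_lit 487) (nat_lit 404) (nat_lit 309))))))) (XT.nd (nat_lit 1170) (nat_lit 1444) (nat_lit 0) (XT.nd (nat_lit 546) (nat_lit 836) (nat_lit 0) (XT.nd (nat_lit 234) (nat_lit 456) (nat_lit 0) (XT.nd (nat_lit 78) (nat_lit 152) (nat_lit 0) (XT.lf (nat_lit 0) (nat_lit 3970902761) (nat_lit 152) (nat_lit 3395397296) (nat_lit 228) (nat_lit 12914390785) (nat_lit 99) (nat_lit 5) (nat_lit 101) (nat_lit 5) (nat_lit 102) (nat_lit 5) (nat_lit 488) (nat_lit 404) (nat_lit 308)) (XT.nd (nat_lit 78) (nat_lit 152) (nat_lit 0) (XT.lf (nat_lit 0) (nat_lit 13324170681) (nat_lit 228) (nat_lit 3626490900) (nat_lit 76) (nat_lit 3718914348) (nat_lit 99) (nat_lit 5) (nat_lit 102) (nat_lit 5) (nat_lit 100) (nat_lit 5) (nat_lit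 489) (nat_lit 404) (nat_lit 307)) (XT.lf (nat_lit 0) (nat_lit 9550548434) (nat_lit 152) (nat_lit 10013432650) (nat_lit 228) (nat_lit 1503051333) (nat_lit 97) (nat_lit 5) (nat_lit 99) (nat_lit 5) (nat_lit 100) (nat_lit 5) (nat_lit 490) (nat_lit 404) (nat_lit 306)))) (XT.nd (nat_lit 156) (nat_lit 228) (nat_lit 0) (XT.nd (nat_lit 78) (nat_lit 0) (nat_lit 0) (XT.lf (nat_lit 0) (nat_lit 1671217181) (nat_lit 152) (nat_lit 2786141308) (nat_lit 228) (nat_lit 17016826684) (nat_lit 94) (nat_lit 5) (nat_lit 96) (nat_lit 5) (nat_lit 97) (nat_lit 5) (nat_lit 491) (nat_lit 404) (nat_lit 305)) (XT.lf (nat_lit 0) (nat_lit 10706527480) (nat_lit 228) (nat_lit 6499909315) (nat_lit 76) (nat_lit 4682465441) (nat_lit 94) (nat_lit 5) (nat_lit 97) (nat_lit 5) (nat_lit 95) (nat_lit 5) (nat_lit 492) (nat_lit 404) (nat_lit 304))) (XT.nd (nat_lit 78) (nat_lit 76) (nat_lit 0) (XT.lf (nat_lit 0) (nat_lit 7278170868) (nat_lit 152) (nat_lit 9941127237)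 (nat_lit 228) (nat_lit 5094479762) (nat_lit 92) (nat_lit 5) (nat_lit 94) (nat_lit 5) (nat_lit 95) (nat_lit 5) (nat_lit 493) (nat_lit 404) (nat_lit 303)) (XT.lf (nat_lit 0) (nat_lit 1198015082) (nat_lit 228) (nat_lit 1197106934) (nat_lit 76) (nat_lit 20354592045) (nat_lit 91) (nat_lit 5) (nat_lit 94) (nat_lit 5) (nat_lit 92) (nat_lit 5) (nat_lit 494) (nat_lit 404) (nat_lit 302))))) (XT.nd (nat_lit 312) (nat_lit 304) (nat_lit 0) (XT.nd (nat_lit 156) (nat_lit 228) (nat_lit 0) (XT.nd (nat_lit 78) (nat_lit 152) (nat_lit 0) (XT.lf (nat_lit 0) (nat_lit 7736570440) (nat_lit 228) (nat_lit 10020535485) (nat_lit 76) (nat_lit 5435319594) (nat_lit 89) (nat_lit 5) (nat_lit 92) (nat_lit 5) (nat_lit 90) (nat_lit 5) (nat_lit 495) (nat_lit 404) (nat_lit 301)) (XT.lf (nat_lit 0) (nat_lit 4372405038) (nat_lit 152) (nat_lit 10156167102) (nat_lit 228) (nat_lit 9118128246) (nat_lit 87) (nat_lit 5) (nat_lit 89) (nat_lit 5) (nat_lit 90)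 (nat_lit 5) (nat_lit 496) (nat_lit 404) (nat_lit 300))) (XT.nd (nat_lit 78) (nat_lit 228) (nat_lit 0) (XT.lf (nat_lit 0) (nat_lit 19365389480) (nat_lit 152) (nat_lit 2239714092) (nat_lit 228) (nat_lit 2507077573) (nat_lit 87) (nat_lit 5) (nat_lit 89) (nat_lit 5) (nat_lit 90) (nat_lit 5) (nat_lit 497) (nat_lit 404) (nat_lit 299)) (XT.lf (nat_lit 0) (nat_lit 4355816601) (nat_lit 228) (nat_lit 14305603130) (nat_lit 76) (nat_lit 5924842633) (nat_lit 84) (nat_lit 5) (nat_lit 87) (nat_lit 5) (nat_lit 85) (nat_lit 5) (nat_lit 498) (nat_lit 404) (nat_lit 298)))) (XT.nd (nat_lit 156) (nat_lit 152) (nat_lit 0) (XT.nd (nat_lit 78) (nat_lit 0) (nat_lit 0) (XT.lf (nat_lit 0) (nat_lit 712998821) (nat_lit 152) (nat_lit 10718704677) (nat_lit 228) (nat_lit 13640393648) (nat_lit 82) (nat_lit 5) (nat_lit 84) (nat_lit 5) (nat_lit 85) (nat_lit 5) (nat_lit 499) (nat_lit 404) (nat_lit 297)) (XT.lf (nat_lit 0) (nat_lit 16439215978) (nat_lit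 152) (nat_lit 2405401095) (nat_lit 228) (nat_lit 6724148048) (nat_lit 82) (nat_lit 5) (nat_lit 84) (nat_lit 5) (nat_lit 85) (nat_lit 5) (nat_lit 500) (nat_lit 404) (nat_lit 296))) (XT.nd (nat_lit 78) (nat_lit 0) (nat_lit 0) (XT.lf (nat_lit 0) (nat_lit 496063031) (nat_lit 152) (nat_lit 19491351855) (nat_lit 76) (nat_lit 6089675370) (nat_lit 80) (nat_lit 5) (nat_lit 82) (nat_lit 5) (nat_lit 81) (nat_lit 5) (nat_lit 501) (nat_lit 404) (nat_lit 295)) (XT.lf (nat_lit 0) (nat_lit 7895396568) (nat_lit 152) (nat_lit 3765167891) (nat_lit 76) (nat_lit 14935174068) (nat_lit 80) (nat_lit 5) (nat_lit 82) (nat_lit 5) (nat_lit 81) (nat_lit 5) (nat_lit 502) (nat_lit 404) (nat_lit 294)))))) (XT.nd (nat_lit 624) (nat_lit 684) (nat_lit 0) (XT.nd (nat_lit 312) (nat_lit 304) (nat_lit 0) (XT.nd (nat_lit 156) (nat_lit 228) (nat_lit 0) (XT.nd (nat_lit 78) (nat_lit 76) (nat_lit 0) (XT.lf (nat_lit 0) (nat_lit 12644992207) (nat_lit 152) (nat_lit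 2974575775) (nat_lit 228) (nat_lit 11507293106) (nat_lit 78) (nat_lit 5) (nat_lit 80) (nat_lit 5) (nat_lit 81) (nat_lit 5) (nat_lit 503) (nat_lit 404) (nat_lit 293)) (XT.lf (nat_lit 0) (nat_lit 1896463093) (nat_lit 76) (nat_lit 21774405792) (nat_lit 152) (nat_lit 4000186875) (nat_lit 77) (nat_lit 5) (nat_lit 78) (nat_lit 5) (nat_lit 79) (nat_lit 4) (nat_lit 504) (nat_lit 404) (nat_lit 292))) (XT.nd (nat_lit 78) (nat_lit 152) (nat_lit 0) (XT.lf (nat_lit 0) (nat_lit 3817843671) (nat_lit 152) (nat_lit 9265609411) (nat_lit 76) (nat_lit 15142291300) (nat_lit 76) (nat_lit 5) (nat_lit 78) (nat_lit 5) (nat_lit 77) (nat_lit 5) (nat_lit 505) (nat_lit 404) (nat_lit 291)) (XT.lf (nat_lit 0) (nat_lit 7817948484) (nat_lit 152) (nat_lit 4029160328) (nat_lit 228) (nat_lit 16947064389) (nat_lit 74) (nat_lit 5) (nat_lit 76) (nat_lit 5) (nat_lit 77) (nat_lit 5) (nat_lit 506) (nat_lit 404) (nat_lit 290)))) (XT.nd (nat_lit 156) (nat_lit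 228) (nat_lit 0) (XT.nd (nat_lit 78) (nat_lit 76) (nat_lit 0) (XT.lf (nat_lit 0) (nat_lit 20244658102) (nat_lit 228) (nat_lit 3858443943) (nat_lit 76) (nat_lit 5272731152) (nat_lit 74) (nat_lit 5) (nat_lit 77) (nat_lit 5) (nat_lit 75) (nat_lit 4) (nat_lit 507) (nat_lit 404) (nat_lit 289)) (XT.lf (nat_lit 0) (nat_lit 13972918249) (nat_lit 76) (nat_lit 15077948437) (nat_lit 152) (nat_lit 919374811) (nat_lit 73) (nat_lit 5) (nat_lit 74) (nat_lit 5) (nat_lit 75) (nat_lit 4) (nat_lit 508) (nat_lit 404) (nat_lit 288))) (XT.nd (nat_lit 78) (nat_lit 0) (nat_lit 0) (XT.lf (nat_lit 0) (nat_lit 1765859366) (nat_lit 152) (nat_lit 5664684305) (nat_lit 228) (nat_lit 23148598622) (nat_lit 70) (nat_lit 5) (nat_lit 72) (nat_lit 5) (nat_lit 73) (nat_lit 5) (nat_lit 509) (nat_lit 404) (nat_lit 287)) (XT.lf (nat_lit 0) (nat_lit 16196971038) (nat_lit 228) (nat_lit 10893846704) (nat_lit 76) (nat_lit 4109685038) (nat_lit 70) (nat_lit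 5) (nat_lit 73) (nat_lit 5) (nat_lit 71) (nat_lit 4) (nat_lit 510) (nat_lit 404) (nat_lit 286))))) (XT.nd (nat_lit 312) (nat_lit 380) (nat_lit 0) (XT.nd (nat_lit 156) (nat_lit 152) (nat_lit 0) (XT.nd (nat_lit 78) (nat_lit 76) (nat_lit 0) (XT.lf (nat_lit 0) (nat_lit 7624014554) (nat_lit 76) (nat_lit 17714856734) (nat_lit 152) (nat_lit 6498258825) (nat_lit 69) (nat_lit 5) (nat_lit 70) (nat_lit 5) (nat_lit 71) (nat_lit 4) (nat_lit 511) (nat_lit 404) (nat_lit 285)) (XT.lf (nat_lit 0) (nat_lit 2312255322) (nat_lit 152) (nat_lit 5623533799) (nat_lit 76) (nat_lit 24553588405) (nat_lit 68) (nat_lit 5) (nat_lit 70) (nat_lit 5) (nat_lit 69) (nat_lit 5) (nat_lit 512) (nat_lit 404) (nat_lit 284))) (XT.nd (nat_lit 78) (nat_lit 0) (nat_lit 0) (XT.lf (nat_lit 0) (nat_lit 11394089029) (nat_lit 228) (nat_lit 19482434672) (nat_lit 76) (nat_lit 2278610497) (nat_lit 66) (nat_lit 5) (nat_lit 69) (nat_lit 5) (nat_lit 67) (nat_lit 4)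 (nat_lit 513) (nat_lit 404) (nat_lit 283)) (XT.lf (nat_lit 0) (nat_lit 20867964401) (nat_lit 228) (nat_lit 286181513) (nat_lit 76) (nat_lit 12683130441) (nat_lit 66) (nat_lit 5) (nat_lit 69) (nat_lit 5) (nat_lit 67) (nat_lit 4) (nat_lit 514) (nat_lit 404) (nat_lit 282)))) (XT.nd (nat_lit 156) (nat_lit 76) (nat_lit 0) (XT.nd (nat_lit 78) (nat_lit 228) (nat_lit 0) (XT.lf (nat_lit 0) (nat_lit 19843087890) (nat_lit 76) (nat_lit 10957853378) (nat_lit 152) (nat_lit 3733695324) (nat_lit 65) (nat_lit 5) (nat_lit 66) (nat_lit 5) (nat_lit 67) (nat_lit 4) (nat_lit 515) (nat_lit 404) (nat_lit 281)) (XT.lf (nat_lit 0) (nat_lit 5347946655) (nat_lit 152) (nat_lit 356761740) (nat_lit 228) (nat_lit 29545388433) (nat_lit 62) (nat_lit 5) (nat_lit 64) (nat_lit 5) (nat_lit 65) (nat_lit 5) (nat_lit 516) (nat_lit 404) (nat_lit 280))) (XT.nd (nat_lit 78) (nat_lit 76) (nat_lit 0) (XT.lf (nat_lit 0) (nat_lit 15586777369) (nat_lit 228) (nat_lit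 9862890327) (nat_lit 76) (nat_lit 10529177794) (nat_lit 62) (nat_lit 5) (nat_lit 65) (nat_lit 5) (nat_lit 63) (nat_lit 4) (nat_lit 517) (nat_lit 404) (nat_lit 279)) (XT.lf (nat_lit 0) (nat_lit 10958593236) (nat_lit 76) (nat_lit 14900248488) (nat_lit 152) (nat_lit 10867809220) (nat_lit 61) (nat_lit 5) (nat_lit 62) (nat_lit 5) (nat_lit 63) (nat_lit 4) (nat_lit 518) (nat_lit 404) (nat_lit 278))))))))
noncomputable def xc108 : XT := (XT.nd (nat_lit 2340) (nat_lit 76) (nat_lit 0) (XT.nd (nat_lit 1170) (nat_lit 912) (nat_lit 0) (XT.nd (nat_lit 546) (nat_lit 456) (nat_lit 0) (XT.nd (nat_lit 234) (nat_lit 304) (nat_lit 0) (XT.nd (nat_lit 78) (nat_lit 228) (nat_lit 0) (XT.lf (nat_lit 0) (nat_lit 32577924377) (nat_lit 76) (nat_lit 3945568049) (nat_lit 152) (nat_lit 970865724) (nat_lit 61) (nat_lit 5) (nat_lit 62) (nat_lit 5) (nat_lit 63) (nat_lit 4) (nat_lit 519) (nat_lit 404) (nat_lit 277)) (XT.nd (nat_lit 78) (nat_lit 0)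 (nat_lit 0) (XT.lf (nat_lit 0) (nat_lit 9262227628) (nat_lit 228) (nat_lit 21580011773) (nat_lit 76) (nat_lit 7433621309) (nat_lit 58) (nat_lit 5) (nat_lit 61) (nat_lit 5) (nat_lit 59) (nat_lit 4) (nat_lit 520) (nat_lit 404) (nat_lit 276)) (XT.lf (nat_lit 0) (nat_lit 19857161077) (nat_lit 228) (nat_lit 99668560) (nat_lit 76) (nat_lit 19121459803) (nat_lit 58) (nat_lit 5) (nat_lit 61) (nat_lit 5) (nat_lit 59) (nat_lit 4) (nat_lit 521) (nat_lit 404) (nat_lit 275)))) (XT.nd (nat_lit 156) (nat_lit 76) (nat_lit 0) (XT.nd (nat_lit 78) (nat_lit 152) (nat_lit 0) (XT.lf (nat_lit 0) (nat_lit 22435243672) (nat_lit 76) (nat_lit 8535950256) (nat_lit 152) (nat_lit 8927559849) (nat_lit 57) (nat_lit 5) (nat_lit 58) (nat_lit 5) (nat_lit 59) (nat_lit 4) (nat_lit 522) (nat_lit 404) (nat_lit 274)) (XT.lf (nat_lit 0) (nat_lit 1707948741) (nat_lit 152) (nat_lit 35816437304) (nat_lit 76) (nat_lit 3216988847) (nat_lit 55) (nat_lit 5) (nat_lit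 57) (nat_lit 5) (nat_lit 56) (nat_lit 4) (nat_lit 523) (nat_lit 404) (nat_lit 273))) (XT.nd (nat_lit 78) (nat_lit 76) (nat_lit 0) (XT.lf (nat_lit 0) (nat_lit 12731330227) (nat_lit 152) (nat_lit 13463292279) (nat_lit 76) (nat_lit 15404553362) (nat_lit 55) (nat_lit 5) (nat_lit 57) (nat_lit 5) (nat_lit 56) (nat_lit 4) (nat_lit 524) (nat_lit 404) (nat_lit 272)) (XT.lf (nat_lit 0) (nat_lit 9723310555) (nat_lit 76) (nat_lit 14441622575) (nat_lit 152) (nat_lit 18315392398) (nat_lit 54) (nat_lit 5) (nat_lit 55) (nat_lit 5) (nat_lit 56) (nat_lit 4) (nat_lit 525) (nat_lit 404) (nat_lit 271))))) (XT.nd (nat_lit 312) (nat_lit 228) (nat_lit 0) (XT.nd (nat_lit 156) (nat_lit 76) (nat_lit 0) (XT.nd (nat_lit 78) (nat_lit 152) (nat_lit 0) (XT.lf (nat_lit 0) (nat_lit 33854885879) (nat_lit 76) (nat_lit 2208815075) (nat_lit 152) (nat_lit 7320544264) (nat_lit 54) (nat_lit 5) (nat_lit 55) (nat_lit 5) (nat_lit 56) (nat_lit 4) (nat_lit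 526) (nat_lit 404) (nat_lit 270)) (XT.lf (nat_lit 0) (nat_lit 4154517959) (nat_lit 152) (nat_lit 29796117617) (nat_lit 76) (nat_lit 10356637324) (nat_lit 52) (nat_lit 5) (nat_lit 54) (nat_lit 5) (nat_lit 53) (nat_lit 4) (nat_lit 527) (nat_lit 404) (nat_lit 269))) (XT.nd (nat_lit 78) (nat_lit 76) (nat_lit 0) (XT.lf (nat_lit 0) (nat_lit 15932245047) (nat_lit 152) (nat_lit 5908309749) (nat_lit 76) (nat_lit 23412095963) (nat_lit 52) (nat_lit 5) (nat_lit 54) (nat_lit 5) (nat_lit 53) (nat_lit 4) (nat_lit 528) (nat_lit 404) (nat_lit 268)) (XT.lf (nat_lit 0) (nat_lit 19042348029) (nat_lit 76) (nat_lit 9190894498) (nat_lit 152) (nat_lit 17988049487) (nat_lit 51) (nat_lit 5) (nat_lit 52) (nat_lit 5) (nat_lit 53) (nat_lit 4) (nat_lit 529) (nat_lit 404) (nat_lit 267)))) (XT.nd (nat_lit 156) (nat_lit 76) (nat_lit 0) (XT.nd (nat_lit 78) (nat_lit 152) (nat_lit 0) (XT.lf (nat_lit 0) (nat_lit 40987334034) (nat_lit 152) (nat_lit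 2417441751) (nat_lit 0) (nat_lit 3811695011) (nat_lit 51) (nat_lit 5) (nat_lit 53) (nat_lit 4) (nat_lit 51) (nat_lit 4) (nat_lit 530) (nat_lit 404) (nat_lit 266)) (XT.lf (nat_lit 0) (nat_lit 6074262327) (nat_lit 152) (nat_lit 24863525287) (nat_lit 76) (nat_lit 17292825874) (nat_lit 49) (nat_lit 5) (nat_lit 51) (nat_lit 5) (nat_lit 50) (nat_lit 4) (nat_lit 531) (nat_lit 404) (nat_lit 265))) (XT.nd (nat_lit 78) (nat_lit 0) (nat_lit 0) (XT.lf (nat_lit 0) (nat_lit 625893902) (nat_lit 76) (nat_lit 18013646799) (nat_lit 152) (nat_lit 30633250409) (nat_lit 48) (nat_lit 5) (nat_lit 49) (nat_lit 5) (nat_lit 50) (nat_lit 4) (nat_lit 532) (nat_lit 404) (nat_lit 264)) (XT.lf (nat_lit 0) (nat_lit 27365251022) (nat_lit 76) (nat_lit 4455041386) (nat_lit 152) (nat_lit 18518786392) (nat_lit 48) (nat_lit 5) (nat_lit 49) (nat_lit 5) (nat_lit 50) (nat_lit 4) (nat_lit 533) (nat_lit 404) (nat_lit 263)))))) (XT.nd (nat_lit 546) (nat_lit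 456) (nat_lit 0) (XT.nd (nat_lit 234) (nat_lit 228) (nat_lit 0) (XT.nd (nat_lit 78) (nat_lit 152) (nat_lit 0) (XT.lf (nat_lit 0) (nat_lit 3420800415) (nat_lit 76) (nat_lit 42087665276) (nat_lit 76) (nat_lit 5925529644) (nat_lit 47) (nat_lit 4) (nat_lit 48) (nat_lit 5) (nat_lit 48) (nat_lit 4) (nat_lit 534) (nat_lit 404) (nat_lit 262)) (XT.nd (nat_lit 78) (nat_lit 76) (nat_lit 0) (XT.lf (nat_lit 0) (nat_lit 7174144792) (nat_lit 152) (nat_lit 21614699685) (nat_lit 76) (nat_lit 23762900178) (nat_lit 46) (nat_lit 5) (nat_lit 48) (nat_lit 5) (nat_lit 47) (nat_lit 4) (nat_lit 535) (nat_lit 404) (nat_lit 261)) (XT.lf (nat_lit 0) (nat_lit 5603141315) (nat_lit 76) (nat_lit 14986496429) (nat_lit 152) (nat_lit 33110371052) (nat_lit 45) (nat_lit 5) (nat_lit 46) (nat_lit 5) (nat_lit 47) (nat_lit 4) (nat_lit 536) (nat_lit 404) (nat_lit 260)))) (XT.nd (nat_lit 156) (nat_lit 152) (nat_lit 0) (XT.nd (nat_lit 78) (nat_lit 76) (nat_lit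 0) (XT.lf (nat_lit 0) (nat_lit 34057547964) (nat_lit 76) (nat_lit 556504405) (nat_lit 152) (nat_lit 20262474949) (nat_lit 45) (nat_lit 5) (nat_lit 46) (nat_lit 5) (nat_lit 47) (nat_lit 4) (nat_lit 537) (nat_lit 404) (nat_lit 259)) (XT.lf (nat_lit 0) (nat_lit 7258750439) (nat_lit 76) (nat_lit 41996176144) (nat_lit 76) (nat_lit 6827543155) (nat_lit 44) (nat_lit 4) (nat_lit 45) (nat_lit 5) (nat_lit 45) (nat_lit 4) (nat_lit 538) (nat_lit 404) (nat_lit 258))) (XT.nd (nat_lit 78) (nat_lit 76) (nat_lit 0) (XT.lf (nat_lit 0) (nat_lit 7079898095) (nat_lit 152) (nat_lit 20810308864) (nat_lit 76) (nat_lit 29426174153) (nat_lit 43) (nat_lit 5) (nat_lit 45) (nat_lit 5) (nat_lit 44) (nat_lit 4) (nat_lit 539) (nat_lit 404) (nat_lit 257)) (XT.lf (nat_lit 0) (nat_lit 8112236300) (nat_lit 76) (nat_lit 13221854022) (nat_lit 152) (nat_lit 37249189028) (nat_lit 42) (nat_lit 5) (nat_lit 43) (nat_lit 5) (nat_lit 44) (nat_lit 4) (nat_lit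 540) (nat_lit 404) (nat_lit 256))))) (XT.nd (nat_lit 312) (nat_lit 228) (nat_lit 0) (XT.nd (nat_lit 156) (nat_lit 152) (nat_lit 0) (XT.nd (nat_lit 78) (nat_lit 76) (nat_lit 0) (XT.lf (nat_lit 0) (nat_lit 36235057282) (nat_lit 152) (nat_lit 21595029551) (nat_lit 0) (nat_lit 2051523373) (nat_lit 42) (nat_lit 5) (nat_lit 44) (nat_lit 4) (nat_lit 42) (nat_lit 4) (nat_lit 541) (nat_lit 404) (nat_lit 255)) (XT.lf (nat_lit 0) (nat_lit 8154128833) (nat_lit 76) (nat_lit 43627333187) (nat_lit 76) (nat_lit 9431476842) (nat_lit 41) (nat_lit 4) (nat_lit 42) (nat_lit 5) (nat_lit 42) (nat_lit 4) (nat_lit 542) (nat_lit 404) (nat_lit 254))) (XT.nd (nat_lit 78) (nat_lit 76) (nat_lit 0) (XT.lf (nat_lit 0) (nat_lit 5317735121) (nat_lit 152) (nat_lit 23412817575) (nat_lit 76) (nat_lit 33845871829) (nat_lit 40) (nat_lit 5) (nat_lit 42) (nat_lit 5) (nat_lit 41) (nat_lit 4) (nat_lit 543) (nat_lit 404) (nat_lit 253)) (XT.lf (nat_lit 0)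 (nat_lit 7147927504) (nat_lit 76) (nat_lit 13230083556) (nat_lit 152) (nat_lit 43598257866) (nat_lit 39) (nat_lit 5) (nat_lit 40) (nat_lit 5) (nat_lit 41) (nat_lit 4) (nat_lit 544) (nat_lit 404) (nat_lit 252)))) (XT.nd (nat_lit 156) (nat_lit 152) (nat_lit 0) (XT.nd (nat_lit 78) (nat_lit 76) (nat_lit 0) (XT.lf (nat_lit 0) (nat_lit 36144608103) (nat_lit 152) (nat_lit 26354957892) (nat_lit 0) (nat_lit 2910907400) (nat_lit 39) (nat_lit 5) (nat_lit 41) (nat_lit 4) (nat_lit 39) (nat_lit 4) (nat_lit 545) (nat_lit 404) (nat_lit 251)) (XT.lf (nat_lit 0) (nat_lit 4978650215) (nat_lit 76) (nat_lit 47574162872) (nat_lit 76) (nat_lit 14329832728) (nat_lit 38) (nat_lit 4) (nat_lit 39) (nat_lit 5) (nat_lit 39) (nat_lit 4) (nat_lit 546) (nat_lit 404) (nat_lit 250))) (XT.nd (nat_lit 78) (nat_lit 76) (nat_lit 0) (XT.lf (nat_lit 0) (nat_lit 1292243762) (nat_lit 152) (nat_lit 30631395151) (nat_lit 76) (nat_lit 36467284501) (nat_lit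 37) (nat_lit 5) (nat_lit 39) (nat_lit 5) (nat_lit 38) (nat_lit 4) (nat_lit 547) (nat_lit 404) (nat_lit 249)) (XT.lf (nat_lit 0) (nat_lit 1446166676) (nat_lit 76) (nat_lit 15652767280) (nat_lit 152) (nat_lit 52841140100) (nat_lit 36) (nat_lit 5) (nat_lit 37) (nat_lit 5) (nat_lit 38) (nat_lit 4) (nat_lit 548) (nat_lit 404) (nat_lit 248))))))) (XT.nd (nat_lit 52182) (nat_lit 0) (nat_lit 18468) (XT.nd (nat_lit 51558) (nat_lit 0) (nat_lit 27056) (XT.nd (nat_lit 51246) (nat_lit 0) (nat_lit 28804) (XT.nd (nat_lit 78) (nat_lit 76) (nat_lit 0) (XT.lf (nat_lit 0) (nat_lit 33692915176) (nat_lit 152) (nat_lit 36445715774) (nat_lit 0) (nat_lit 1387675661) (nat_lit 36) (nat_lit 5) (nat_lit 38) (nat_lit 4) (nat_lit 36) (nat_lit 4) (nat_lit 549) (nat_lit 404) (nat_lit 247)) (XT.nd (nat_lit 78) (nat_lit 76) (nat_lit 0) (XT.lf (nat_lit 0) (nat_lit 50930059726) (nat_lit 152) (nat_lit 3610055041) (nat_lit 0) (nat_lit 18615651163) (nat_lit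 36) (nat_lit 5) (nat_lit 38) (nat_lit 4) (nat_lit 36) (nat_lit 4) (nat_lit 550) (nat_lit 404) (nat_lit 246)) (XT.lf (nat_lit 0) (nat_lit 30793114730) (nat_lit 76) (nat_lit 38177852741) (nat_lit 76) (nat_lit 5854542189) (nat_lit 35) (nat_lit 4) (nat_lit 36) (nat_lit 5) (nat_lit 36) (nat_lit 4) (nat_lit 551) (nat_lit 404) (nat_lit 245)))) (XT.nd (nat_lit 156) (nat_lit 456) (nat_lit 0) (XT.nd (nat_lit 78) (nat_lit 0) (nat_lit 0) (XT.lf (nat_lit 0) (nat_lit 671925169) (nat_lit 0) (nat_lit 671925169) (nat_lit 380) (nat_lit 1930131629) (nat_lit 420) (nat_lit 5) (nat_lit 420) (nat_lit 3) (nat_lit 425) (nat_lit 3) (nat_lit 405) (nat_lit 405) (nat_lit 390)) (XT.lf (nat_lit 0) (nat_lit 4634786081) (nat_lit 0) (nat_lit 590958996) (nat_lit 380) (nat_lit 1344942620) (nat_lit 420) (nat_lit 5) (nat_lit 420) (nat_lit 3) (nat_lit 425) (nat_lit 3) (nat_lit 406) (nat_lit 405) (nat_lit 389))) (XT.nd (nat_lit 78) (nat_lit 0) (nat_lit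 0) (XT.lf (nat_lit 0) (nat_lit 1138953197) (nat_lit 456) (nat_lit 5203911620) (nat_lit 532) (nat_lit 253367657) (nat_lit 414) (nat_lit 5) (nat_lit 420) (nat_lit 5) (nat_lit 421) (nat_lit 5) (nat_lit 407) (nat_lit 405) (nat_lit 388)) (XT.lf (nat_lit 0) (nat_lit 3600287200) (nat_lit 456) (nat_lit 1834811376) (nat_lit 532) (nat_lit 1189167671) (nat_lit 414) (nat_lit 5) (nat_lit 420) (nat_lit 5) (nat_lit 421) (nat_lit 5) (nat_lit 408) (nat_lit 405) (nat_lit 387))))) (XT.nd (nat_lit 312) (nat_lit 1216) (nat_lit 0) (XT.nd (nat_lit 156) (nat_lit 0) (nat_lit 0) (XT.nd (nat_lit 78) (nat_lit 532) (nat_lit 0) (XT.lf (nat_lit 76) (nat_lit 1614866516) (nat_lit 0) (nat_lit 4443263310) (nat_lit 532) (nat_lit 597351287) (nat_lit 415) (nat_lit 5) (nat_lit 414) (nat_lit 5) (nat_lit 421) (nat_lit 5) (nat_lit 409) (nat_lit 405) (nat_lit 386)) (XT.lf (nat_lit 0) (nat_lit 1792108757) (nat_lit 532) (nat_lit 1553235946) (nat_lit 608) (nat_lit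 3343943693) (nat_lit 407) (nat_lit 5) (nat_lit 414) (nat_lit 5) (nat_lit 415) (nat_lit 5) (nat_lit 410) (nat_lit 405) (nat_lit 385))) (XT.nd (nat_lit 78) (nat_lit 0) (nat_lit 0) (XT.lf (nat_lit 76) (nat_lit 2020491735) (nat_lit 0) (nat_lit 2151282095) (nat_lit 608) (nat_lit 2554261243) (nat_lit 408) (nat_lit 5) (nat_lit 407) (nat_lit 5) (nat_lit 415) (nat_lit 5) (nat_lit 411) (nat_lit 405) (nat_lit 384)) (XT.lf (nat_lit 76) (nat_lit 5681993725) (nat_lit 0) (nat_lit 869721221) (nat_lit 608) (nat_lit 214320513) (nat_lit 408) (nat_lit 5) (nat_lit 407) (nat_lit 5) (nat_lit 415) (nat_lit 5) (nat_lit 412) (nat_lit 405) (nat_lit 383)))) (XT.nd (nat_lit 156) (nat_lit 684) (nat_lit 0) (XT.nd (nat_lit 78) (nat_lit 0) (nat_lit 0) (XT.lf (nat_lit 0) (nat_lit 2098189168) (nat_lit 608) (nat_lit 4188806364) (nat_lit 684) (nat_lit 521267391) (nat_lit 400) (nat_lit 5) (nat_lit 408) (nat_lit 5) (nat_lit 409) (nat_lit 5) (nat_lit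 413) (nat_lit 405) (nat_lit 382)) (XT.lf (nat_lit 0) (nat_lit 4412608970) (nat_lit 608) (nat_lit 459797942) (nat_lit 684) (nat_lit 1981197739) (nat_lit 400) (nat_lit 5) (nat_lit 408) (nat_lit 5) (nat_lit 409) (nat_lit 5) (nat_lit 414) (nat_lit 405) (nat_lit 381))) (XT.nd (nat_lit 78) (nat_lit 684) (nat_lit 0) (XT.lf (nat_lit 76) (nat_lit 3395089152) (nat_lit 0) (nat_lit 3353596508) (nat_lit 684) (nat_lit 153070138) (nat_lit 401) (nat_lit 5) (nat_lit 400) (nat_lit 5) (nat_lit 409) (nat_lit 5) (nat_lit 415) (nat_lit 405) (nat_lit 380)) (XT.lf (nat_lit 76) (nat_lit 356236014) (nat_lit 0) (nat_lit 1733012877) (nat_lit 760) (nat_lit 4863619520) (nat_lit 392) (nat_lit 5) (nat_lit 391) (nat_lit 5) (nat_lit 401) (nat_lit 5) (nat_lit 416) (nat_lit 405) (nat_lit 379)))))) (XT.nd (nat_lit 546) (nat_lit 5320) (nat_lit 0) (XT.nd (nat_lit 234) (nat_lit 2584) (nat_lit 0) (XT.nd (nat_lit 78) (nat_lit 684) (nat_lit 0) (XT.lf (nat_lit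 76) (nat_lit 4352561846) (nat_lit 0) (nat_lit 1038995) (nat_lit 760) (nat_lit 2653147446) (nat_lit 392) (nat_lit 5) (nat_lit 391) (nat_lit 5) (nat_lit 401) (nat_lit 5) (nat_lit 417) (nat_lit 405) (nat_lit 378)) (XT.nd (nat_lit 78) (nat_lit 76) (nat_lit 0) (XT.lf (nat_lit 0) (nat_lit 1362208649) (nat_lit 684) (nat_lit 5278841585) (nat_lit 760) (nat_lit 422553441) (nat_lit 383) (nat_lit 5) (nat_lit 392) (nat_lit 5) (nat_lit 393) (nat_lit 5) (nat_lit 418) (nat_lit 405) (nat_lit 377)) (XT.lf (nat_lit 0) (nat_lit 1791317668) (nat_lit 760) (nat_lit 1640884863) (nat_lit 76) (nat_lit 3690846415) (nat_lit 382) (nat_lit 5) (nat_lit 392) (nat_lit 5) (nat_lit 383) (nat_lit 5) (nat_lit 419) (nat_lit 405) (nat_lit 376)))) (XT.nd (nat_lit 156) (nat_lit 1824) (nat_lit 0) (XT.nd (nat_lit 78) (nat_lit 0) (nat_lit 0) (XT.lf (nat_lit 0) (nat_lit 2533560742) (nat_lit 760) (nat_lit 1481933307) (nat_lit 836) (nat_lit 3170099481) (nat_lit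 372) (nat_lit 5) (nat_lit 382) (nat_lit 5) (nat_lit 383) (nat_lit 5) (nat_lit 420) (nat_lit 405) (nat_lit 375)) (XT.lf (nat_lit 0) (nat_lit 6257983060) (nat_lit 836) (nat_lit 442778430) (nat_lit 76) (nat_lit 550717890) (nat_lit 372) (nat_lit 5) (nat_lit 383) (nat_lit 5) (nat_lit 373) (nat_lit 5) (nat_lit 421) (nat_lit 405) (nat_lit 374))) (XT.nd (nat_lit 78) (nat_lit 912) (nat_lit 0) (XT.lf (nat_lit 0) (nat_lit 1207878295) (nat_lit 912) (nat_lit 3430784023) (nat_lit 76) (nat_lit 2680816275) (nat_lit 360) (nat_lit 5) (nat_lit 372) (nat_lit 5) (nat_lit 361) (nat_lit 5) (nat_lit 422) (nat_lit 405) (nat_lit 373)) (XT.lf (nat_lit 0) (nat_lit 923811605) (nat_lit 912) (nat_lit 2477550263) (nat_lit 988) (nat_lit 3989491221) (nat_lit 348) (nat_lit 5) (nat_lit 360) (nat_lit 5) (nat_lit 361) (nat_lit 5) (nat_lit 423) (nat_lit 405) (nat_lit 372))))) (XT.nd (nat_lit 312) (nat_lit 3192) (nat_lit 0) (XT.nd (nat_lit 156) (nat_lit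 1064) (nat_lit 0) (XT.nd (nat_lit 78) (nat_lit 1064) (nat_lit 0) (XT.lf (nat_lit 0) (nat_lit 5425764531) (nat_lit 912) (nat_lit 203616535) (nat_lit 988) (nat_lit 1835936970) (nat_lit 348) (nat_lit 5) (nat_lit 360) (nat_lit 5) (nat_lit 361) (nat_lit 5) (nat_lit 424) (nat_lit 405) (nat_lit 371)) (XT.lf (nat_lit 0) (nat_lit 355223179) (nat_lit 1064) (nat_lit 5051298288) (nat_lit 76) (nat_lit 2135982014) (nat_lit 334) (nat_lit 5) (nat_lit 348) (nat_lit 5) (nat_lit 335) (nat_lit 5) (nat_lit 425) (nat_lit 405) (nat_lit 370))) (XT.nd (nat_lit 78) (nat_lit 1064) (nat_lit 0) (XT.lf (nat_lit 0) (nat_lit 2534870814) (nat_lit 1064) (nat_lit 496917912) (nat_lit 76) (nat_lit 4590891042) (nat_lit 334) (nat_lit 5) (nat_lit 348) (nat_lit 5) (nat_lit 335) (nat_lit 5) (nat_lit 426) (nat_lit 405) (nat_lit 369)) (XT.lf (nat_lit 0) (nat_lit 4223272834) (nat_lit 1064) (nat_lit 535909185) (nat_lit 1140) (nat_lit 2946711007) (nat_lit 320)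 (nat_lit 5) (nat_lit 334) (nat_lit 5) (nat_lit 335) (nat_lit 5) (nat_lit 427) (nat_lit 405) (nat_lit 368)))) (XT.nd (nat_lit 156) (nat_lit 1976) (nat_lit 0) (XT.nd (nat_lit 78) (nat_lit 76) (nat_lit 0) (XT.lf (nat_lit 0) (nat_lit 1254073283) (nat_lit 1140) (nat_lit 5772859324) (nat_lit 1216) (nat_lit 765378392) (nat_lit 305) (nat_lit 5) (nat_lit 320) (nat_lit 5) (nat_lit 321) (nat_lit 5) (nat_lit 428) (nat_lit 405) (nat_lit 367)) (XT.lf (nat_lit 0) (nat_lit 1433972437) (nat_lit 1216) (nat_lit 1751149489) (nat_lit 76) (nat_lit 4696336880) (nat_lit 304) (nat_lit 5) (nat_lit 320) (nat_lit 5) (nat_lit 305) (nat_lit 5) (nat_lit 429) (nat_lit 405) (nat_lit 366))) (XT.nd (nat_lit 78) (nat_lit 760) (nat_lit 0) (XT.lf (nat_lit 0) (nat_lit 3180396925) (nat_lit 1216) (nat_lit 476487393) (nat_lit 1292) (nat_lit 4316989276) (nat_lit 288) (nat_lit 5) (nat_lit 304) (nat_lit 5) (nat_lit 305) (nat_lit 5) (nat_lit 430) (nat_lit 405)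 (nat_lit 365)) (XT.lf (nat_lit 0) (nat_lit 152983183) (nat_lit 760) (nat_lit 5778658392) (nat_lit 836) (nat_lit 2137873056) (nat_lit 278) (nat_lit 5) (nat_lit 288) (nat_lit 5) (nat_lit 289) (nat_lit 5) (nat_lit 431) (nat_lit 405) (nat_lit 364))))))))
noncomputable def xc109 : XT := (XT.nd (nat_lit 2340) (nat_lit 5016) (nat_lit 0) (XT.nd (nat_lit 1170) (nat_lit 3952) (nat_lit 0) (XT.nd (nat_lit 546) (nat_lit 2584) (nat_lit 0) (XT.nd (nat_lit 234) (nat_lit 1748) (nat_lit 0) (XT.nd (nat_lit 78) (nat_lit 608) (nat_lit 0) (XT.lf (nat_lit 0) (nat_lit 102294555) (nat_lit 836) (nat_lit 2882123278) (nat_lit 76) (nat_lit 5183651621) (nat_lit 277) (nat_lit 5) (nat_lit 288) (nat_lit 5) (nat_lit 278) (nat_lit 5) (nat_lit 432) (nat_lit 405) (nat_lit 363)) (XT.nd (nat_lit 78) (nat_lit 0) (nat_lit 0) (XT.lf (nat_lit 0) (nat_lit 2272685631) (nat_lit 608) (nat_lit 61642093) (nat_lit 684) (nat_lit 5935597118) (nat_lit 269) (nat_lit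 5) (nat_lit 277) (nat_lit 5) (nat_lit 278) (nat_lit 5) (nat_lit 433) (nat_lit 405) (nat_lit 362)) (XT.lf (nat_lit 0) (nat_lit 4637908507) (nat_lit 684) (nat_lit 816263196) (nat_lit 76) (nat_lit 2920534182) (nat_lit 269) (nat_lit 5) (nat_lit 278) (nat_lit 5) (nat_lit 270) (nat_lit 5) (nat_lit 434) (nat_lit 405) (nat_lit 361)))) (XT.nd (nat_lit 156) (nat_lit 532) (nat_lit 0) (XT.nd (nat_lit 78) (nat_lit 608) (nat_lit 0) (XT.lf (nat_lit 0) (nat_lit 4555131484) (nat_lit 608) (nat_lit 2448259186) (nat_lit 684) (nat_lit 1479463242) (nat_lit 261) (nat_lit 5) (nat_lit 269) (nat_lit 5) (nat_lit 270) (nat_lit 5) (nat_lit 435) (nat_lit 405) (nat_lit 360)) (XT.lf (nat_lit 0) (nat_lit 807004461) (nat_lit 608) (nat_lit 7124143883) (nat_lit 76) (nat_lit 663523710) (nat_lit 253) (nat_lit 5) (nat_lit 261) (nat_lit 5) (nat_lit 254) (nat_lit 5) (nat_lit 436) (nat_lit 405) (nat_lit 359))) (XT.nd (nat_lit 78) (nat_lit 532) (nat_lit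 0) (XT.lf (nat_lit 0) (nat_lit 3146457064) (nat_lit 608) (nat_lit 1691437835) (nat_lit 76) (nat_lit 3871093346) (nat_lit 253) (nat_lit 5) (nat_lit 261) (nat_lit 5) (nat_lit 254) (nat_lit 5) (nat_lit 437) (nat_lit 405) (nat_lit 358)) (XT.lf (nat_lit 0) (nat_lit 3927745631) (nat_lit 532) (nat_lit 1617396159) (nat_lit 608) (nat_lit 3281927224) (nat_lit 246) (nat_lit 5) (nat_lit 253) (nat_lit 5) (nat_lit 254) (nat_lit 5) (nat_lit 438) (nat_lit 405) (nat_lit 357))))) (XT.nd (nat_lit 312) (nat_lit 988) (nat_lit 0) (XT.nd (nat_lit 156) (nat_lit 988) (nat_lit 0) (XT.nd (nat_lit 78) (nat_lit 76) (nat_lit 0) (XT.lf (nat_lit 0) (nat_lit 746026539) (nat_lit 532) (nat_lit 7262678799) (nat_lit 608) (nat_lit 940205679) (nat_lit 239) (nat_lit 5) (nat_lit 246) (nat_lit 5) (nat_lit 247) (nat_lit 5) (nat_lit 439) (nat_lit 405) (nat_lit 356)) (XT.lf (nat_lit 0) (nat_lit 1461592438) (nat_lit 608) (nat_lit 2496848267) (nat_lit 76) (nat_lit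 5114992808) (nat_lit 238) (nat_lit 5) (nat_lit 246) (nat_lit 5) (nat_lit 239) (nat_lit 5) (nat_lit 440) (nat_lit 405) (nat_lit 355))) (XT.nd (nat_lit 78) (nat_lit 456) (nat_lit 0) (XT.lf (nat_lit 0) (nat_lit 3384243214) (nat_lit 532) (nat_lit 518784226) (nat_lit 608) (nat_lit 5298796391) (nat_lit 231) (nat_lit 5) (nat_lit 238) (nat_lit 5) (nat_lit 239) (nat_lit 5) (nat_lit 441) (nat_lit 405) (nat_lit 354)) (XT.lf (nat_lit 0) (nat_lit 78217468) (nat_lit 456) (nat_lit 6349490385) (nat_lit 532) (nat_lit 2906063584) (nat_lit 225) (nat_lit 5) (nat_lit 231) (nat_lit 5) (nat_lit 232) (nat_lit 5) (nat_lit 442) (nat_lit 405) (nat_lit 353)))) (XT.nd (nat_lit 156) (nat_lit 456) (nat_lit 0) (XT.nd (nat_lit 78) (nat_lit 532) (nat_lit 0) (XT.lf (nat_lit 0) (nat_lit 6211800300) (nat_lit 456) (nat_lit 2835687501) (nat_lit 532) (nat_lit 421614382) (nat_lit 225) (nat_lit 5) (nat_lit 231) (nat_lit 5) (nat_lit 232) (nat_lit 5) (nat_lit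 443) (nat_lit 405) (nat_lit 352)) (XT.lf (nat_lit 0) (nat_lit 2087897625) (nat_lit 532) (nat_lit 6711679451) (nat_lit 76) (nat_lit 808537461) (nat_lit 218) (nat_lit 5) (nat_lit 225) (nat_lit 5) (nat_lit 219) (nat_lit 5) (nat_lit 444) (nat_lit 405) (nat_lit 351))) (XT.nd (nat_lit 78) (nat_lit 456) (nat_lit 0) (XT.lf (nat_lit 0) (nat_lit 4682588443) (nat_lit 532) (nat_lit 534451458) (nat_lit 76) (nat_lit 4533586124) (nat_lit 218) (nat_lit 5) (nat_lit 225) (nat_lit 5) (nat_lit 219) (nat_lit 5) (nat_lit 445) (nat_lit 405) (nat_lit 350)) (XT.lf (nat_lit 0) (nat_lit 5891484200) (nat_lit 456) (nat_lit 1478591964) (nat_lit 532) (nat_lit 2526892881) (nat_lit 212) (nat_lit 5) (nat_lit 218) (nat_lit 5) (nat_lit 219) (nat_lit 5) (nat_lit 446) (nat_lit 405) (nat_lit 349)))))) (XT.nd (nat_lit 546) (nat_lit 1748) (nat_lit 0) (XT.nd (nat_lit 234) (nat_lit 1292) (nat_lit 0) (XT.nd (nat_lit 78) (nat_lit 380) (nat_lit 0) (XT.lf (nat_lit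 0) (nat_lit 99538094) (nat_lit 532) (nat_lit 7602070693) (nat_lit 76) (nat_lit 2345747540) (nat_lit 205) (nat_lit 5) (nat_lit 212) (nat_lit 5) (nat_lit 206) (nat_lit 5) (nat_lit 447) (nat_lit 405) (nat_lit 348)) (XT.nd (nat_lit 78) (nat_lit 380) (nat_lit 0) (XT.lf (nat_lit 0) (nat_lit 2768705606) (nat_lit 532) (nat_lit 1121920314) (nat_lit 76) (nat_lit 6310441255) (nat_lit 205) (nat_lit 5) (nat_lit 212) (nat_lit 5) (nat_lit 206) (nat_lit 5) (nat_lit 448) (nat_lit 405) (nat_lit 347)) (XT.lf (nat_lit 0) (nat_lit 5533074921) (nat_lit 456) (nat_lit 4748570248) (nat_lit 76) (nat_lit 77294705) (nat_lit 200) (nat_lit 5) (nat_lit 206) (nat_lit 5) (nat_lit 201) (nat_lit 5) (nat_lit 449) (nat_lit 405) (nat_lit 346)))) (XT.nd (nat_lit 156) (nat_lit 760) (nat_lit 0) (XT.nd (nat_lit 78) (nat_lit 76) (nat_lit 0) (XT.lf (nat_lit 0) (nat_lit 1995179212) (nat_lit 456) (nat_lit 6415324557) (nat_lit 532) (nat_lit 2110145335) (nat_lit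 194) (nat_lit 5) (nat_lit 200) (nat_lit 5) (nat_lit 201) (nat_lit 5) (nat_lit 450) (nat_lit 405) (nat_lit 345)) (XT.lf (nat_lit 0) (nat_lit 683314161) (nat_lit 532) (nat_lit 1706076214) (nat_lit 76) (nat_lit 8297334819) (nat_lit 193) (nat_lit 5) (nat_lit 200) (nat_lit 5) (nat_lit 194) (nat_lit 5) (nat_lit 451) (nat_lit 405) (nat_lit 344))) (XT.nd (nat_lit 78) (nat_lit 380) (nat_lit 0) (XT.lf (nat_lit 0) (nat_lit 3549468347) (nat_lit 456) (nat_lit 5523105667) (nat_lit 76) (nat_lit 1783647541) (nat_lit 188) (nat_lit 5) (nat_lit 194) (nat_lit 5) (nat_lit 189) (nat_lit 5) (nat_lit 452) (nat_lit 405) (nat_lit 343)) (XT.lf (nat_lit 0) (nat_lit 1543668305) (nat_lit 380) (nat_lit 4976705131) (nat_lit 456) (nat_lit 4509870117) (nat_lit 183) (nat_lit 5) (nat_lit 188) (nat_lit 5) (nat_lit 189) (nat_lit 5) (nat_lit 453) (nat_lit 405) (nat_lit 342))))) (XT.nd (nat_lit 312) (nat_lit 988) (nat_lit 0) (XT.nd (nat_lit 156) (nat_lit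 380) (nat_lit 0) (XT.nd (nat_lit 78) (nat_lit 380) (nat_lit 0) (XT.lf (nat_lit 0) (nat_lit 8885364764) (nat_lit 380) (nat_lit 714283022) (nat_lit 456) (nat_lit 1609264790) (nat_lit 183) (nat_lit 5) (nat_lit 188) (nat_lit 5) (nat_lit 189) (nat_lit 5) (nat_lit 454) (nat_lit 405) (nat_lit 341)) (XT.lf (nat_lit 0) (nat_lit 1400397685) (nat_lit 380) (nat_lit 6337061360) (nat_lit 76) (nat_lit 3653620480) (nat_lit 178) (nat_lit 5) (nat_lit 183) (nat_lit 5) (nat_lit 179) (nat_lit 5) (nat_lit 455) (nat_lit 405) (nat_lit 340))) (XT.nd (nat_lit 78) (nat_lit 0) (nat_lit 0) (XT.lf (nat_lit 0) (nat_lit 1070186951) (nat_lit 380) (nat_lit 3403491292) (nat_lit 456) (nat_lit 7104388373) (nat_lit 173) (nat_lit 5) (nat_lit 178) (nat_lit 5) (nat_lit 179) (nat_lit 5) (nat_lit 456) (nat_lit 405) (nat_lit 339)) (XT.lf (nat_lit 0) (nat_lit 7679008315) (nat_lit 456) (nat_lit 3000424384) (nat_lit 76) (nat_lit 1090038311) (nat_lit 173) (nat_lit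 5) (nat_lit 179) (nat_lit 5) (nat_lit 174) (nat_lit 5) (nat_lit 457) (nat_lit 405) (nat_lit 338)))) (XT.nd (nat_lit 156) (nat_lit 304) (nat_lit 0) (XT.nd (nat_lit 78) (nat_lit 380) (nat_lit 0) (XT.lf (nat_lit 0) (nat_lit 4742151957) (nat_lit 304) (nat_lit 6283678718) (nat_lit 380) (nat_lit 939430018) (nat_lit 169) (nat_lit 5) (nat_lit 173) (nat_lit 5) (nat_lit 174) (nat_lit 5) (nat_lit 458) (nat_lit 405) (nat_lit 337)) (XT.lf (nat_lit 0) (nat_lit 551656923) (nat_lit 304) (nat_lit 1711616038) (nat_lit 380) (nat_lit 9902924804) (nat_lit 164) (nat_lit 5) (nat_lit 168) (nat_lit 5) (nat_lit 169) (nat_lit 5) (nat_lit 459) (nat_lit 405) (nat_lit 336))) (XT.nd (nat_lit 78) (nat_lit 304) (nat_lit 0) (XT.lf (nat_lit 0) (nat_lit 5612258226) (nat_lit 380) (nat_lit 3751587422) (nat_lit 76) (nat_lit 3006968641) (nat_lit 164) (nat_lit 5) (nat_lit 169) (nat_lit 5) (nat_lit 165) (nat_lit 5) (nat_lit 460) (nat_lit 405) (nat_lit 335))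 (XT.lf (nat_lit 0) (nat_lit 4367468337) (nat_lit 304) (nat_lit 4720753362) (nat_lit 380) (nat_lit 3492555130) (nat_lit 160) (nat_lit 5) (nat_lit 164) (nat_lit 5) (nat_lit 165) (nat_lit 5) (nat_lit 461) (nat_lit 405) (nat_lit 334))))))) (XT.nd (nat_lit 1170) (nat_lit 2128) (nat_lit 0) (XT.nd (nat_lit 546) (nat_lit 1596) (nat_lit 0) (XT.nd (nat_lit 234) (nat_lit 608) (nat_lit 0) (XT.nd (nat_lit 78) (nat_lit 684) (nat_lit 0) (XT.lf (nat_lit 0) (nat_lit 12675230732) (nat_lit 380) (nat_lit 38273206) (nat_lit 76) (nat_lit 83334005) (nat_lit 160) (nat_lit 5) (nat_lit 165) (nat_lit 5) (nat_lit 161) (nat_lit 5) (nat_lit 462) (nat_lit 405) (nat_lit 333)) (XT.nd (nat_lit 78) (nat_lit 304) (nat_lit 0) (XT.lf (nat_lit 0) (nat_lit 3382893467) (nat_lit 380) (nat_lit 4596411452) (nat_lit 76) (nat_lit 5036178192) (nat_lit 155) (nat_lit 5) (nat_lit 160) (nat_lit 5) (nat_lit 156) (nat_lit 5) (nat_lit 463) (nat_lit 405) (nat_lit 332))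 (XT.lf (nat_lit 0) (nat_lit 3918346185) (nat_lit 304) (nat_lit 3078798225) (nat_lit 380) (nat_lit 6243297789) (nat_lit 151) (nat_lit 5) (nat_lit 155) (nat_lit 5) (nat_lit 156) (nat_lit 5) (nat_lit 464) (nat_lit 405) (nat_lit 331)))) (XT.nd (nat_lit 156) (nat_lit 228) (nat_lit 0) (XT.nd (nat_lit 78) (nat_lit 380) (nat_lit 0) (XT.lf (nat_lit 0) (nat_lit 10754924102) (nat_lit 380) (nat_lit 754826835) (nat_lit 76) (nat_lit 1961348483) (nat_lit 151) (nat_lit 5) (nat_lit 156) (nat_lit 5) (nat_lit 152) (nat_lit 5) (nat_lit 465) (nat_lit 405) (nat_lit 330)) (XT.lf (nat_lit 0) (nat_lit 978693255) (nat_lit 380) (nat_lit 5563922134) (nat_lit 76) (nat_lit 7163404202) (nat_lit 146) (nat_lit 5) (nat_lit 151) (nat_lit 5) (nat_lit 147) (nat_lit 5) (nat_lit 466) (nat_lit 405) (nat_lit 329))) (XT.nd (nat_lit 78) (nat_lit 0) (nat_lit 0) (XT.lf (nat_lit 0) (nat_lit 3366149014) (nat_lit 228) (nat_lit 1374054607) (nat_lit 304) (nat_lit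 9206667511) (nat_lit 143) (nat_lit 5) (nat_lit 146) (nat_lit 5) (nat_lit 147) (nat_lit 5) (nat_lit 467) (nat_lit 405) (nat_lit 328)) (XT.lf (nat_lit 0) (nat_lit 8679864305) (nat_lit 304) (nat_lit 1600087290) (nat_lit 76) (nat_lit 3913039603) (nat_lit 143) (nat_lit 5) (nat_lit 147) (nat_lit 5) (nat_lit 144) (nat_lit 5) (nat_lit 468) (nat_lit 405) (nat_lit 327))))) (XT.nd (nat_lit 312) (nat_lit 760) (nat_lit 0) (XT.nd (nat_lit 156) (nat_lit 228) (nat_lit 0) (XT.nd (nat_lit 78) (nat_lit 304) (nat_lit 0) (XT.lf (nat_lit 0) (nat_lit 7742316387) (nat_lit 304) (nat_lit 5054881566) (nat_lit 380) (nat_lit 1647514487) (nat_lit 139) (nat_lit 5) (nat_lit 143) (nat_lit 5) (nat_lit 144) (nat_lit 5) (nat_lit 469) (nat_lit 405) (nat_lit 326)) (XT.lf (nat_lit 0) (nat_lit 2305783101) (nat_lit 304) (nat_lit 12027809186) (nat_lit 76) (nat_lit 369204002) (nat_lit 135) (nat_lit 5) (nat_lit 139) (nat_lit 5) (nat_lit 136) (nat_lit 5) (nat_lit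 470) (nat_lit 405) (nat_lit 325))) (XT.nd (nat_lit 78) (nat_lit 228) (nat_lit 0) (XT.lf (nat_lit 0) (nat_lit 6434777594) (nat_lit 304) (nat_lit 2608027533) (nat_lit 76) (nat_lit 5922623716) (nat_lit 135) (nat_lit 5) (nat_lit 139) (nat_lit 5) (nat_lit 136) (nat_lit 5) (nat_lit 471) (nat_lit 405) (nat_lit 324)) (XT.lf (nat_lit 0) (nat_lit 7190495818) (nat_lit 228) (nat_lit 3538898447) (nat_lit 304) (nat_lit 4505295376) (nat_lit 132) (nat_lit 5) (nat_lit 135) (nat_lit 5) (nat_lit 136) (nat_lit 5) (nat_lit 472) (nat_lit 405) (nat_lit 323)))) (XT.nd (nat_lit 156) (nat_lit 456) (nat_lit 0) (XT.nd (nat_lit 78) (nat_lit 76) (nat_lit 0) (XT.lf (nat_lit 0) (nat_lit 1795109106) (nat_lit 228) (nat_lit 13394917507) (nat_lit 304) (nat_lit 320888118) (nat_lit 129) (nat_lit 5) (nat_lit 132) (nat_lit 5) (nat_lit 133) (nat_lit 5) (nat_lit 473) (nat_lit 405) (nat_lit 322)) (XT.lf (nat_lit 0) (nat_lit 4001234244) (nat_lit 304) (nat_lit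 3817175230) (nat_lit 76) (nat_lit 7973167717) (nat_lit 128) (nat_lit 5) (nat_lit 132) (nat_lit 5) (nat_lit 129) (nat_lit 5) (nat_lit 474) (nat_lit 405) (nat_lit 321))) (XT.nd (nat_lit 78) (nat_lit 228) (nat_lit 0) (XT.lf (nat_lit 0) (nat_lit 6458066106) (nat_lit 228) (nat_lit 2024321579) (nat_lit 304) (nat_lit 7597103650) (nat_lit 125) (nat_lit 5) (nat_lit 128) (nat_lit 5) (nat_lit 129) (nat_lit 5) (nat_lit 475) (nat_lit 405) (nat_lit 320)) (XT.lf (nat_lit 0) (nat_lit 676452382) (nat_lit 228) (nat_lit 12478791439) (nat_lit 304) (nat_lit 3219082625) (nat_lit 122) (nat_lit 5) (nat_lit 125) (nat_lit 5) (nat_lit 126) (nat_lit 5) (nat_lit 476) (nat_lit 405) (nat_lit 319)))))) (XT.nd (nat_lit 624) (nat_lit 912) (nat_lit 0) (XT.nd (nat_lit 312) (nat_lit 760) (nat_lit 0) (XT.nd (nat_lit 156) (nat_lit 152) (nat_lit 0) (XT.nd (nat_lit 78) (nat_lit 228) (nat_lit 0) (XT.lf (nat_lit 0) (nat_lit 1357283289) (nat_lit 304) (nat_lit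 5271480998) (nat_lit 76) (nat_lit 10046106259) (nat_lit 121) (nat_lit 5) (nat_lit 125) (nat_lit 5) (nat_lit 122) (nat_lit 5) (nat_lit 477) (nat_lit 405) (nat_lit 318)) (XT.lf (nat_lit 0) (nat_lit 5500964187) (nat_lit 228) (nat_lit 532930931) (nat_lit 304) (nat_lit 10948751482) (nat_lit 118) (nat_lit 5) (nat_lit 121) (nat_lit 5) (nat_lit 122) (nat_lit 5) (nat_lit 478) (nat_lit 405) (nat_lit 317))) (XT.nd (nat_lit 78) (nat_lit 152) (nat_lit 0) (XT.lf (nat_lit 0) (nat_lit 10934742933) (nat_lit 304) (nat_lit 691557995) (nat_lit 76) (nat_lit 5670838285) (nat_lit 118) (nat_lit 5) (nat_lit 122) (nat_lit 5) (nat_lit 119) (nat_lit 5) (nat_lit 479) (nat_lit 405) (nat_lit 316)) (XT.lf (nat_lit 0) (nat_lit 10582344771) (nat_lit 152) (nat_lit 5482948660) (nat_lit 228) (nat_lit 1553294224) (nat_lit 116) (nat_lit 5) (nat_lit 118) (nat_lit 5) (nat_lit 119) (nat_lit 5) (nat_lit 480) (nat_lit 405) (nat_lit 315)))) (XT.nd (nat_lit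 156) (nat_lit 456) (nat_lit 0) (XT.nd (nat_lit 78) (nat_lit 0) (nat_lit 0) (XT.lf (nat_lit 0) (nat_lit 3366327615) (nat_lit 304) (nat_lit 13688258821) (nat_lit 76) (nat_lit 893136056) (nat_lit 112) (nat_lit 5) (nat_lit 116) (nat_lit 5) (nat_lit 113) (nat_lit 5) (nat_lit 481) (nat_lit 405) (nat_lit 314)) (XT.lf (nat_lit 0) (nat_lit 8504266682) (nat_lit 304) (nat_lit 2358073079) (nat_lit 76) (nat_lit 7420873042) (nat_lit 112) (nat_lit 5) (nat_lit 116) (nat_lit 5) (nat_lit 113) (nat_lit 5) (nat_lit 482) (nat_lit 405) (nat_lit 313))) (XT.nd (nat_lit 78) (nat_lit 304) (nat_lit 0) (XT.lf (nat_lit 0) (nat_lit 9456369837) (nat_lit 152) (nat_lit 4407482149) (nat_lit 228) (nat_lit 4762891811) (nat_lit 110) (nat_lit 5) (nat_lit 112) (nat_lit 5) (nat_lit 113) (nat_lit 5) (nat_lit 483) (nat_lit 405) (nat_lit 312)) (XT.lf (nat_lit 0) (nat_lit 444379144) (nat_lit 304) (nat_lit 16299495866) (nat_lit 76) (nat_lit 2235132107) (nat_lit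 106) (nat_lit 5) (nat_lit 110) (nat_lit 5) (nat_lit 107) (nat_lit 5) (nat_lit 484) (nat_lit 405) (nat_lit 311))))) (XT.nd (nat_lit 312) (nat_lit 532) (nat_lit 0) (XT.nd (nat_lit 156) (nat_lit 228) (nat_lit 0) (XT.nd (nat_lit 78) (nat_lit 152) (nat_lit 0) (XT.lf (nat_lit 0) (nat_lit 5826108161) (nat_lit 304) (nat_lit 4398279463) (nat_lit 76) (nat_lit 9112618022) (nat_lit 106) (nat_lit 5) (nat_lit 110) (nat_lit 5) (nat_lit 107) (nat_lit 5) (nat_lit 485) (nat_lit 405) (nat_lit 310)) (XT.lf (nat_lit 0) (nat_lit 7976414964) (nat_lit 152) (nat_lit 3447034916) (nat_lit 228) (nat_lit 8280670506) (nat_lit 104) (nat_lit 5) (nat_lit 106) (nat_lit 5) (nat_lit 107) (nat_lit 5) (nat_lit 486) (nat_lit 405) (nat_lit 309))) (XT.nd (nat_lit 78) (nat_lit 76) (nat_lit 0) (XT.lf (nat_lit 0) (nat_lit 670948730) (nat_lit 152) (nat_lit 16580643627) (nat_lit 228) (nat_lit 2828770844) (nat_lit 102) (nat_lit 5) (nat_lit 104) (nat_lit 5) (nat_lit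 105) (nat_lit 5) (nat_lit 487) (nat_lit 405) (nat_lit 308)) (XT.lf (nat_lit 0) (nat_lit 2863703504) (nat_lit 228) (nat_lit 6883851454) (nat_lit 76) (nat_lit 10715593831) (nat_lit 101) (nat_lit 5) (nat_lit 104) (nat_lit 5) (nat_lit 102) (nat_lit 5) (nat_lit 488) (nat_lit 405) (nat_lit 307)))) (XT.nd (nat_lit 156) (nat_lit 380) (nat_lit 0) (XT.nd (nat_lit 78) (nat_lit 0) (nat_lit 0) (XT.lf (nat_lit 0) (nat_lit 6069668221) (nat_lit 152) (nat_lit 2637091737) (nat_lit 228) (nat_lit 12148718815) (nat_lit 99) (nat_lit 5) (nat_lit 101) (nat_lit 5) (nat_lit 102) (nat_lit 5) (nat_lit 489) (nat_lit 405) (nat_lit 306)) (XT.lf (nat_lit 0) (nat_lit 14818788379) (nat_lit 228) (nat_lit 1788681049) (nat_lit 76) (nat_lit 4649299752) (nat_lit 99) (nat_lit 5) (nat_lit 102) (nat_lit 5) (nat_lit 100) (nat_lit 5) (nat_lit 490) (nat_lit 405) (nat_lit 305))) (XT.nd (nat_lit 78) (nat_lit 228) (nat_lit 0) (XT.lf (nat_lit 0) (nat_lit 11764585106)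 (nat_lit 152) (nat_lit 9467846416) (nat_lit 228) (nat_lit 434120064) (nat_lit 97) (nat_lit 5) (nat_lit 99) (nat_lit 5) (nat_lit 100) (nat_lit 5) (nat_lit 491) (nat_lit 405) (nat_lit 304)) (XT.lf (nat_lit 0) (nat_lit 3651546233) (nat_lit 152) (nat_lit 2018557310) (nat_lit 228) (nat_lit 16415893215) (nat_lit 94) (nat_lit 5) (nat_lit 96) (nat_lit 5) (nat_lit 97) (nat_lit 5) (nat_lit 492) (nat_lit 405) (nat_lit 303))))))))
noncomputable def xc110 : XT := (XT.nd (nat_lit 2340) (nat_lit 1596) (nat_lit 0) (XT.nd (nat_lit 1170) (nat_lit 1292) (nat_lit 0) (XT.nd (nat_lit 546) (nat_lit 760) (nat_lit 0) (XT.nd (nat_lit 234) (nat_lit 380) (nat_lit 0) (XT.nd (nat_lit 78) (nat_lit 380) (nat_lit 0) (XT.lf (nat_lit 0) (nat_lit 12083263353) (nat_lit 228) (nat_lit 4797407024) (nat_lit 76) (nat_lit 5633190743) (nat_lit 94) (nat_lit 5) (nat_lit 97) (nat_lit 5) (nat_lit 95) (nat_lit 5) (nat_lit 493) (nat_lit 405) (nat_lit 302)) (XT.nd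 (nat_lit 78) (nat_lit 228) (nat_lit 0) (XT.lf (nat_lit 0) (nat_lit 9375412627) (nat_lit 152) (nat_lit 9403321689) (nat_lit 228) (nat_lit 4173130411) (nat_lit 92) (nat_lit 5) (nat_lit 94) (nat_lit 5) (nat_lit 95) (nat_lit 5) (nat_lit 494) (nat_lit 405) (nat_lit 301)) (XT.lf (nat_lit 0) (nat_lit 623711291) (nat_lit 152) (nat_lit 1638785902) (nat_lit 228) (nat_lit 21138813621) (nat_lit 89) (nat_lit 5) (nat_lit 91) (nat_lit 5) (nat_lit 92) (nat_lit 5) (nat_lit 495) (nat_lit 405) (nat_lit 300)))) (XT.nd (nat_lit 156) (nat_lit 228) (nat_lit 0) (XT.nd (nat_lit 78) (nat_lit 152) (nat_lit 0) (XT.lf (nat_lit 0) (nat_lit 8986833423) (nat_lit 228) (nat_lit 8472173375) (nat_lit 76) (nat_lit 6398609210) (nat_lit 89) (nat_lit 5) (nat_lit 92) (nat_lit 5) (nat_lit 90) (nat_lit 5) (nat_lit 496) (nat_lit 405) (nat_lit 299)) (XT.lf (nat_lit 0) (nat_lit 6334428127) (nat_lit 152) (nat_lit 9636110991) (nat_lit 228) (nat_lit 8355342773)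 (nat_lit 87) (nat_lit 5) (nat_lit 89) (nat_lit 5) (nat_lit 90) (nat_lit 5) (nat_lit 497) (nat_lit 405) (nat_lit 298))) (XT.nd (nat_lit 78) (nat_lit 228) (nat_lit 0) (XT.lf (nat_lit 0) (nat_lit 21723876346) (nat_lit 152) (nat_lit 1506185976) (nat_lit 228) (nat_lit 1576144929) (nat_lit 87) (nat_lit 5) (nat_lit 89) (nat_lit 5) (nat_lit 90) (nat_lit 5) (nat_lit 498) (nat_lit 405) (nat_lit 297)) (XT.lf (nat_lit 0) (nat_lit 5469110723) (nat_lit 228) (nat_lit 12933653420) (nat_lit 76) (nat_lit 6891574363) (nat_lit 84) (nat_lit 5) (nat_lit 87) (nat_lit 5) (nat_lit 85) (nat_lit 5) (nat_lit 499) (nat_lit 405) (nat_lit 296))))) (XT.nd (nat_lit 312) (nat_lit 456) (nat_lit 0) (XT.nd (nat_lit 156) (nat_lit 152) (nat_lit 0) (XT.nd (nat_lit 78) (nat_lit 0) (nat_lit 0) (XT.lf (nat_lit 0) (nat_lit 2517848571) (nat_lit 152) (nat_lit 10227949372) (nat_lit 228) (nat_lit 13049295641) (nat_lit 82) (nat_lit 5) (nat_lit 84) (nat_lit 5)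 (nat_lit 85) (nat_lit 5) (nat_lit 500) (nat_lit 405) (nat_lit 295)) (XT.lf (nat_lit 0) (nat_lit 18663906813) (nat_lit 152) (nat_lit 1688906385) (nat_lit 228) (nat_lit 5954697911) (nat_lit 82) (nat_lit 5) (nat_lit 84) (nat_lit 5) (nat_lit 85) (nat_lit 5) (nat_lit 501) (nat_lit 405) (nat_lit 294))) (XT.nd (nat_lit 78) (nat_lit 0) (nat_lit 0) (XT.lf (nat_lit 0) (nat_lit 1459710542) (nat_lit 152) (nat_lit 18322109324) (nat_lit 76) (nat_lit 7049090685) (nat_lit 80) (nat_lit 5) (nat_lit 82) (nat_lit 5) (nat_lit 81) (nat_lit 5) (nat_lit 502) (nat_lit 405) (nat_lit 293)) (XT.lf (nat_lit 0) (nat_lit 9053390135) (nat_lit 152) (nat_lit 2175226727) (nat_lit 76) (nat_lit 16137331284) (nat_lit 80) (nat_lit 5) (nat_lit 82) (nat_lit 5) (nat_lit 81) (nat_lit 5) (nat_lit 503) (nat_lit 405) (nat_lit 292)))) (XT.nd (nat_lit 156) (nat_lit 228) (nat_lit 0) (XT.nd (nat_lit 78) (nat_lit 76) (nat_lit 0) (XT.lf (nat_lit 0) (nat_lit 14710543114)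 (nat_lit 152) (nat_lit 2288123297) (nat_lit 228) (nat_lit 10914657415) (nat_lit 78) (nat_lit 5) (nat_lit 80) (nat_lit 5) (nat_lit 81) (nat_lit 5) (nat_lit 504) (nat_lit 405) (nat_lit 291)) (XT.lf (nat_lit 0) (nat_lit 3642718466) (nat_lit 76) (nat_lit 21645746529) (nat_lit 152) (nat_lit 3185471391) (nat_lit 77) (nat_lit 5) (nat_lit 78) (nat_lit 5) (nat_lit 79) (nat_lit 4) (nat_lit 505) (nat_lit 405) (nat_lit 290))) (XT.nd (nat_lit 78) (nat_lit 152) (nat_lit 0) (XT.lf (nat_lit 0) (nat_lit 4822166666) (nat_lit 152) (nat_lit 7885686998) (nat_lit 76) (nat_lit 16337944020) (nat_lit 76) (nat_lit 5) (nat_lit 78) (nat_lit 5) (nat_lit 77) (nat_lit 5) (nat_lit 506) (nat_lit 405) (nat_lit 289)) (XT.lf (nat_lit 0) (nat_lit 9694123803) (nat_lit 152) (nat_lit 3388050229) (nat_lit 228) (nat_lit 16549410146) (nat_lit 74) (nat_lit 5) (nat_lit 76) (nat_lit 5) (nat_lit 77) (nat_lit 5) (nat_lit 507) (nat_lit 405) (nat_lit 288))))))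 (XT.nd (nat_lit 546) (nat_lit 684) (nat_lit 0) (XT.nd (nat_lit 234) (nat_lit 304) (nat_lit 0) (XT.nd (nat_lit 78) (nat_lit 304) (nat_lit 0) (XT.lf (nat_lit 0) (nat_lit 21713140196) (nat_lit 228) (nat_lit 2361841516) (nat_lit 76) (nat_lit 6156268270) (nat_lit 74) (nat_lit 5) (nat_lit 77) (nat_lit 5) (nat_lit 75) (nat_lit 4) (nat_lit 508) (nat_lit 405) (nat_lit 287)) (XT.nd (nat_lit 78) (nat_lit 228) (nat_lit 0) (XT.lf (nat_lit 0) (nat_lit 15988654133) (nat_lit 76) (nat_lit 14785146088) (nat_lit 152) (nat_lit 69983051) (nat_lit 73) (nat_lit 5) (nat_lit 74) (nat_lit 5) (nat_lit 75) (nat_lit 4) (nat_lit 509) (nat_lit 405) (nat_lit 286)) (XT.lf (nat_lit 0) (nat_lit 3416698523) (nat_lit 152) (nat_lit 5086936732) (nat_lit 228) (nat_lit 22967354139) (nat_lit 70) (nat_lit 5) (nat_lit 72) (nat_lit 5) (nat_lit 73) (nat_lit 5) (nat_lit 510) (nat_lit 405) (nat_lit 285)))) (XT.nd (nat_lit 156) (nat_lit 228) (nat_lit 0) (XT.nd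 (nat_lit 78) (nat_lit 76) (nat_lit 0) (XT.lf (nat_lit 0) (nat_lit 17515270955) (nat_lit 228) (nat_lit 9651532680) (nat_lit 76) (nat_lit 4944721235) (nat_lit 70) (nat_lit 5) (nat_lit 73) (nat_lit 5) (nat_lit 71) (nat_lit 4) (nat_lit 511) (nat_lit 405) (nat_lit 284)) (XT.lf (nat_lit 0) (nat_lit 9406480794) (nat_lit 76) (nat_lit 17515638581) (nat_lit 152) (nat_lit 5845411531) (nat_lit 69) (nat_lit 5) (nat_lit 70) (nat_lit 5) (nat_lit 71) (nat_lit 4) (nat_lit 512) (nat_lit 405) (nat_lit 283))) (XT.nd (nat_lit 78) (nat_lit 152) (nat_lit 0) (XT.lf (nat_lit 0) (nat_lit 3188663295) (nat_lit 152) (nat_lit 4267667591) (nat_lit 76) (nat_lit 25983497290) (nat_lit 68) (nat_lit 5) (nat_lit 70) (nat_lit 5) (nat_lit 69) (nat_lit 5) (nat_lit 513) (nat_lit 405) (nat_lit 282)) (XT.lf (nat_lit 0) (nat_lit 12540797568) (nat_lit 228) (nat_lit 18540162145) (nat_lit 76) (nat_lit 3044663036) (nat_lit 66) (nat_lit 5) (nat_lit 69) (nat_lit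 5) (nat_lit 67) (nat_lit 4) (nat_lit 514) (nat_lit 405) (nat_lit 281))))) (XT.nd (nat_lit 312) (nat_lit 380) (nat_lit 0) (XT.nd (nat_lit 156) (nat_lit 228) (nat_lit 0) (XT.nd (nat_lit 78) (nat_lit 0) (nat_lit 0) (XT.lf (nat_lit 0) (nat_lit 1211144074) (nat_lit 76) (nat_lit 21075944107) (nat_lit 152) (nat_lit 12541495571) (nat_lit 65) (nat_lit 5) (nat_lit 66) (nat_lit 5) (nat_lit 67) (nat_lit 4) (nat_lit 515) (nat_lit 405) (nat_lit 280)) (XT.lf (nat_lit 0) (nat_lit 21906125647) (nat_lit 76) (nat_lit 10591634850) (nat_lit 152) (nat_lit 3049713649) (nat_lit 65) (nat_lit 5) (nat_lit 66) (nat_lit 5) (nat_lit 67) (nat_lit 4) (nat_lit 516) (nat_lit 405) (nat_lit 279))) (XT.nd (nat_lit 78) (nat_lit 0) (nat_lit 0) (XT.lf (nat_lit 0) (nat_lit 6650863009) (nat_lit 228) (nat_lit 29310456298) (nat_lit 76) (nat_lit 323013233) (nat_lit 62) (nat_lit 5) (nat_lit 65) (nat_lit 5) (nat_lit 63) (nat_lit 4) (nat_lit 517) (nat_lit 405)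 (nat_lit 278)) (XT.lf (nat_lit 0) (nat_lit 16810250260) (nat_lit 228) (nat_lit 8716809963) (nat_lit 76) (nat_lit 11508458243) (nat_lit 62) (nat_lit 5) (nat_lit 65) (nat_lit 5) (nat_lit 63) (nat_lit 4) (nat_lit 518) (nat_lit 405) (nat_lit 277)))) (XT.nd (nat_lit 156) (nat_lit 304) (nat_lit 0) (XT.nd (nat_lit 78) (nat_lit 0) (nat_lit 0) (XT.lf (nat_lit 0) (nat_lit 12715181175) (nat_lit 76) (nat_lit 14667004928) (nat_lit 152) (nat_lit 10423821167) (nat_lit 61) (nat_lit 5) (nat_lit 62) (nat_lit 5) (nat_lit 63) (nat_lit 4) (nat_lit 519) (nat_lit 405) (nat_lit 276)) (XT.lf (nat_lit 0) (nat_lit 34941504965) (nat_lit 76) (nat_lit 3403497212) (nat_lit 152) (nat_lit 252397202) (nat_lit 61) (nat_lit 5) (nat_lit 62) (nat_lit 5) (nat_lit 63) (nat_lit 4) (nat_lit 520) (nat_lit 405) (nat_lit 275))) (XT.nd (nat_lit 78) (nat_lit 76) (nat_lit 0) (XT.lf (nat_lit 0) (nat_lit 10271449486) (nat_lit 228) (nat_lit 20824900401) (nat_lit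 76) (nat_lit 8305831508) (nat_lit 58) (nat_lit 5) (nat_lit 61) (nat_lit 5) (nat_lit 59) (nat_lit 4) (nat_lit 521) (nat_lit 405) (nat_lit 274)) (XT.lf (nat_lit 0) (nat_lit 1284059884) (nat_lit 76) (nat_lit 19891212621) (nat_lit 152) (nat_lit 19053679659) (nat_lit 57) (nat_lit 5) (nat_lit 58) (nat_lit 5) (nat_lit 59) (nat_lit 4) (nat_lit 522) (nat_lit 405) (nat_lit 273))))))) (XT.nd (nat_lit 1170) (nat_lit 684) (nat_lit 0) (XT.nd (nat_lit 546) (nat_lit 532) (nat_lit 0) (XT.nd (nat_lit 234) (nat_lit 228) (nat_lit 0) (XT.nd (nat_lit 78) (nat_lit 152) (nat_lit 0) (XT.lf (nat_lit 0) (nat_lit 24456613225) (nat_lit 76) (nat_lit 8146049582) (nat_lit 152) (nat_lit 8471969939) (nat_lit 57) (nat_lit 5) (nat_lit 58) (nat_lit 5) (nat_lit 59) (nat_lit 4) (nat_lit 523) (nat_lit 405) (nat_lit 272)) (XT.nd (nat_lit 78) (nat_lit 0) (nat_lit 0) (XT.lf (nat_lit 0) (nat_lit 2467020370) (nat_lit 152) (nat_lit 35527008517) (nat_lit 76)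 (nat_lit 3948339387) (nat_lit 55) (nat_lit 5) (nat_lit 57) (nat_lit 5) (nat_lit 56) (nat_lit 4) (nat_lit 524) (nat_lit 405) (nat_lit 271)) (XT.lf (nat_lit 0) (nat_lit 13800486801) (nat_lit 152) (nat_lit 12542995022) (nat_lit 76) (nat_lit 16483040326) (nat_lit 55) (nat_lit 5) (nat_lit 57) (nat_lit 5) (nat_lit 56) (nat_lit 4) (nat_lit 525) (nat_lit 405) (nat_lit 270)))) (XT.nd (nat_lit 156) (nat_lit 152) (nat_lit 0) (XT.nd (nat_lit 78) (nat_lit 0) (nat_lit 0) (XT.lf (nat_lit 0) (nat_lit 11326223583) (nat_lit 76) (nat_lit 14243462377) (nat_lit 152) (nat_lit 18164643057) (nat_lit 54) (nat_lit 5) (nat_lit 55) (nat_lit 5) (nat_lit 56) (nat_lit 4) (nat_lit 526) (nat_lit 405) (nat_lit 269)) (XT.lf (nat_lit 0) (nat_lit 36143555476) (nat_lit 76) (nat_lit 1662061202) (nat_lit 152) (nat_lit 6860343978) (nat_lit 54) (nat_lit 5) (nat_lit 55) (nat_lit 5) (nat_lit 56) (nat_lit 4) (nat_lit 527) (nat_lit 405) (nat_lit 268))) (XT.nd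 (nat_lit 78) (nat_lit 0) (nat_lit 0) (XT.lf (nat_lit 0) (nat_lit 4944438931) (nat_lit 152) (nat_lit 29402424408) (nat_lit 76) (nat_lit 11269658084) (nat_lit 52) (nat_lit 5) (nat_lit 54) (nat_lit 5) (nat_lit 53) (nat_lit 4) (nat_lit 528) (nat_lit 405) (nat_lit 267)) (XT.lf (nat_lit 0) (nat_lit 17056120586) (nat_lit 152) (nat_lit 4835484539) (nat_lit 76) (nat_lit 24699237133) (nat_lit 52) (nat_lit 5) (nat_lit 54) (nat_lit 5) (nat_lit 53) (nat_lit 4) (nat_lit 529) (nat_lit 405) (nat_lit 266))))) (XT.nd (nat_lit 312) (nat_lit 228) (nat_lit 0) (XT.nd (nat_lit 156) (nat_lit 228) (nat_lit 0) (XT.nd (nat_lit 78) (nat_lit 0) (nat_lit 0) (XT.lf (nat_lit 0) (nat_lit 20851437340) (nat_lit 76) (nat_lit 8867796464) (nat_lit 152) (nat_lit 17869516688) (nat_lit 51) (nat_lit 5) (nat_lit 52) (nat_lit 5) (nat_lit 53) (nat_lit 4) (nat_lit 530) (nat_lit 405) (nat_lit 265)) (XT.lf (nat_lit 0) (nat_lit 42842925192) (nat_lit 152) (nat_lit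 1275166088) (nat_lit 0) (nat_lit 4496084347) (nat_lit 51) (nat_lit 5) (nat_lit 53) (nat_lit 4) (nat_lit 51) (nat_lit 4) (nat_lit 531) (nat_lit 405) (nat_lit 264))) (XT.nd (nat_lit 78) (nat_lit 76) (nat_lit 0) (XT.lf (nat_lit 0) (nat_lit 6881933443) (nat_lit 152) (nat_lit 24394084800) (nat_lit 76) (nat_lit 18382740775) (nat_lit 49) (nat_lit 5) (nat_lit 51) (nat_lit 5) (nat_lit 50) (nat_lit 4) (nat_lit 532) (nat_lit 405) (nat_lit 263)) (XT.lf (nat_lit 0) (nat_lit 1848101805) (nat_lit 76) (nat_lit 17969419686) (nat_lit 152) (nat_lit 30914880218) (nat_lit 48) (nat_lit 5) (nat_lit 49) (nat_lit 5) (nat_lit 50) (nat_lit 4) (nat_lit 533) (nat_lit 405) (nat_lit 262)))) (XT.nd (nat_lit 156) (nat_lit 152) (nat_lit 0) (XT.nd (nat_lit 78) (nat_lit 76) (nat_lit 0) (XT.lf (nat_lit 0) (nat_lit 29354588248) (nat_lit 76) (nat_lit 4021084359) (nat_lit 152) (nat_lit 18455546389) (nat_lit 48) (nat_lit 5) (nat_lit 49) (nat_lit 5) (nat_lit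 50) (nat_lit 4) (nat_lit 534) (nat_lit 405) (nat_lit 261)) (XT.lf (nat_lit 0) (nat_lit 4692802097) (nat_lit 76) (nat_lit 42780728847) (nat_lit 76) (nat_lit 5485481149) (nat_lit 47) (nat_lit 4) (nat_lit 48) (nat_lit 5) (nat_lit 48) (nat_lit 4) (nat_lit 535) (nat_lit 405) (nat_lit 260))) (XT.nd (nat_lit 78) (nat_lit 76) (nat_lit 0) (XT.lf (nat_lit 0) (nat_lit 7977484282) (nat_lit 152) (nat_lit 21116109645) (nat_lit 76) (nat_lit 25017051353) (nat_lit 46) (nat_lit 5) (nat_lit 48) (nat_lit 5) (nat_lit 47) (nat_lit 4) (nat_lit 536) (nat_lit 405) (nat_lit 259)) (XT.lf (nat_lit 0) (nat_lit 6907021183) (nat_lit 76) (nat_lit 14882209138) (nat_lit 152) (nat_lit 33504313616) (nat_lit 45) (nat_lit 5) (nat_lit 46) (nat_lit 5) (nat_lit 47) (nat_lit 4) (nat_lit 537) (nat_lit 405) (nat_lit 258)))))) (XT.nd (nat_lit 624) (nat_lit 228) (nat_lit 0) (XT.nd (nat_lit 312) (nat_lit 228) (nat_lit 0) (XT.nd (nat_lit 156) (nat_lit 152) (nat_lit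 0) (XT.nd (nat_lit 78) (nat_lit 76) (nat_lit 0) (XT.lf (nat_lit 0) (nat_lit 36181978897) (nat_lit 76) (nat_lit 35449844) (nat_lit 152) (nat_lit 20288437966) (nat_lit 45) (nat_lit 5) (nat_lit 46) (nat_lit 5) (nat_lit 47) (nat_lit 4) (nat_lit 538) (nat_lit 405) (nat_lit 257)) (XT.lf (nat_lit 0) (nat_lit 8580078308) (nat_lit 76) (nat_lit 42716622645) (nat_lit 76) (nat_lit 6451311521) (nat_lit 44) (nat_lit 4) (nat_lit 45) (nat_lit 5) (nat_lit 45) (nat_lit 4) (nat_lit 539) (nat_lit 405) (nat_lit 256))) (XT.nd (nat_lit 78) (nat_lit 76) (nat_lit 0) (XT.lf (nat_lit 0) (nat_lit 7845420665) (nat_lit 152) (nat_lit 20352180045) (nat_lit 76) (nat_lit 30821670941) (nat_lit 43) (nat_lit 5) (nat_lit 45) (nat_lit 5) (nat_lit 44) (nat_lit 4) (nat_lit 540) (nat_lit 405) (nat_lit 255)) (XT.lf (nat_lit 0) (nat_lit 9427429337) (nat_lit 76) (nat_lit 13094001914) (nat_lit 152) (nat_lit 37802920015) (nat_lit 42) (nat_lit 5) (nat_lit 43)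 (nat_lit 5) (nat_lit 44) (nat_lit 4) (nat_lit 541) (nat_lit 405) (nat_lit 254)))) (XT.nd (nat_lit 156) (nat_lit 152) (nat_lit 0) (XT.nd (nat_lit 78) (nat_lit 76) (nat_lit 0) (XT.lf (nat_lit 0) (nat_lit 37858380950) (nat_lit 152) (nat_lit 21191219736) (nat_lit 0) (nat_lit 2612362951) (nat_lit 42) (nat_lit 5) (nat_lit 44) (nat_lit 4) (nat_lit 42) (nat_lit 4) (nat_lit 542) (nat_lit 405) (nat_lit 253)) (XT.lf (nat_lit 0) (nat_lit 9440103001) (nat_lit 76) (nat_lit 44425465354) (nat_lit 76) (nat_lit 9167832278) (nat_lit 41) (nat_lit 4) (nat_lit 42) (nat_lit 5) (nat_lit 42) (nat_lit 4) (nat_lit 543) (nat_lit 405) (nat_lit 252))) (XT.nd (nat_lit 78) (nat_lit 76) (nat_lit 0) (XT.lf (nat_lit 0) (nat_lit 5997580720) (nat_lit 152) (nat_lit 23093820985) (nat_lit 76) (nat_lit 35346700003) (nat_lit 40) (nat_lit 5) (nat_lit 42) (nat_lit 5) (nat_lit 41) (nat_lit 4) (nat_lit 544) (nat_lit 405) (nat_lit 251)) (XT.lf (nat_lit 0) (nat_lit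 8373732907) (nat_lit 76) (nat_lit 13130499152) (nat_lit 152) (nat_lit 44375872549) (nat_lit 39) (nat_lit 5) (nat_lit 40) (nat_lit 5) (nat_lit 41) (nat_lit 4) (nat_lit 545) (nat_lit 405) (nat_lit 250))))) (XT.nd (nat_lit 312) (nat_lit 0) (nat_lit 0) (XT.nd (nat_lit 156) (nat_lit 152) (nat_lit 0) (XT.nd (nat_lit 78) (nat_lit 76) (nat_lit 0) (XT.lf (nat_lit 0) (nat_lit 37733464017) (nat_lit 152) (nat_lit 26153327572) (nat_lit 0) (nat_lit 3470854684) (nat_lit 39) (nat_lit 5) (nat_lit 41) (nat_lit 4) (nat_lit 39) (nat_lit 4) (nat_lit 546) (nat_lit 405) (nat_lit 249)) (XT.lf (nat_lit 0) (nat_lit 6110560552) (nat_lit 76) (nat_lit 48518104789) (nat_lit 76) (nat_lit 14245476188) (nat_lit 38) (nat_lit 4) (nat_lit 39) (nat_lit 5) (nat_lit 39) (nat_lit 4) (nat_lit 547) (nat_lit 405) (nat_lit 248))) (XT.nd (nat_lit 78) (nat_lit 76) (nat_lit 0) (XT.lf (nat_lit 0) (nat_lit 1820541776) (nat_lit 152) (nat_lit 30586656237) (nat_lit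 76) (nat_lit 38020761879) (nat_lit 37) (nat_lit 5) (nat_lit 39) (nat_lit 5) (nat_lit 38) (nat_lit 4) (nat_lit 548) (nat_lit 405) (nat_lit 247)) (XT.lf (nat_lit 0) (nat_lit 2443784594) (nat_lit 76) (nat_lit 15652562577) (nat_lit 152) (nat_lit 53927390602) (nat_lit 36) (nat_lit 5) (nat_lit 37) (nat_lit 5) (nat_lit 38) (nat_lit 4) (nat_lit 549) (nat_lit 405) (nat_lit 246)))) (XT.nd (nat_lit 51246) (nat_lit 0) (nat_lit 28652) (XT.nd (nat_lit 78) (nat_lit 0) (nat_lit 0) (XT.lf (nat_lit 0) (nat_lit 35178422130) (nat_lit 152) (nat_lit 36602916826) (nat_lit 0) (nat_lit 1876510272) (nat_lit 36) (nat_lit 5) (nat_lit 38) (nat_lit 4) (nat_lit 36) (nat_lit 4) (nat_lit 550) (nat_lit 405) (nat_lit 245)) (XT.lf (nat_lit 0) (nat_lit 52918854235) (nat_lit 152) (nat_lit 2809453370) (nat_lit 0) (nat_lit 19608299669) (nat_lit 36) (nat_lit 5) (nat_lit 38) (nat_lit 4) (nat_lit 36) (nat_lit 4) (nat_lit 551) (nat_lit 405) (nat_lit 244)))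 (XT.nd (nat_lit 78) (nat_lit 0) (nat_lit 0) (XT.lf (nat_lit 0) (nat_lit 549517132) (nat_lit 532) (nat_lit 1373876343) (nat_lit 532) (nat_lit 1373876343) (nat_lit 413) (nat_lit 3) (nat_lit 420) (nat_lit 3) (nat_lit 420) (nat_lit 5) (nat_lit 406) (nat_lit 406) (nat_lit 388)) (XT.lf (nat_lit 76) (nat_lit 528944542) (nat_lit 0) (nat_lit 2969840289) (nat_lit 532) (nat_lit 3122658964) (nat_lit 414) (nat_lit 5) (nat_lit 413) (nat_lit 3) (nat_lit 420) (nat_lit 5) (nat_lit 407) (nat_lit 406) (nat_lit 387))))))))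
noncomputable def xc111 : XT := (XT.nd (nat_lit 2340) (nat_lit 8360) (nat_lit 0) (XT.nd (nat_lit 1170) (nat_lit 8132) (nat_lit 0) (XT.nd (nat_lit 546) (nat_lit 2964) (nat_lit 0) (XT.nd (nat_lit 234) (nat_lit 532) (nat_lit 0) (XT.nd (nat_lit 78) (nat_lit 532) (nat_lit 0) (XT.lf (nat_lit 76) (nat_lit 3911508286) (nat_lit 0) (nat_lit 1993484092) (nat_lit 532) (nat_lit 746148905) (nat_lit 414) (nat_lit 5) (nat_lit 413) (nat_lit 3) (nat_lit 420) (nat_lit 5) (nat_lit 408) (nat_lit 406) (nat_lit 386)) (XT.nd (nat_lit 78) (nat_lit 0) (nat_lit 76) (XT.lf (nat_lit 76) (nat_lit 661183898) (nat_lit 0) (nat_lit 922141469) (nat_lit 608) (nat_lit 5100486357) (nat_lit 407) (nat_lit 5) (nat_lit 406) (nat_lit 5) (nat_lit 414) (nat_lit 5) (nat_lit 409) (nat_lit 406) (nat_lit 385)) (XT.lf (nat_lit 0) (nat_lit 3908474204) (nat_lit 532) (nat_lit 2557636961) (nat_lit 608) (nat_lit 252924298) (nat_lit 407) (nat_lit 5) (nat_lit 414) (nat_lit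 5) (nat_lit 415) (nat_lit 5) (nat_lit 410) (nat_lit 406) (nat_lit 384)))) (XT.nd (nat_lit 156) (nat_lit 0) (nat_lit 0) (XT.nd (nat_lit 78) (nat_lit 608) (nat_lit 0) (XT.lf (nat_lit 76) (nat_lit 970841399) (nat_lit 0) (nat_lit 5264692904) (nat_lit 608) (nat_lit 521834800) (nat_lit 408) (nat_lit 5) (nat_lit 407) (nat_lit 5) (nat_lit 415) (nat_lit 5) (nat_lit 411) (nat_lit 406) (nat_lit 383)) (XT.lf (nat_lit 0) (nat_lit 1740696200) (nat_lit 608) (nat_lit 2207869732) (nat_lit 684) (nat_lit 2849545520) (nat_lit 399) (nat_lit 5) (nat_lit 407) (nat_lit 5) (nat_lit 408) (nat_lit 5) (nat_lit 412) (nat_lit 406) (nat_lit 382))) (XT.nd (nat_lit 78) (nat_lit 0) (nat_lit 0) (XT.lf (nat_lit 76) (nat_lit 1451306587) (nat_lit 0) (nat_lit 2540616478) (nat_lit 684) (nat_lit 2850075131) (nat_lit 400) (nat_lit 5) (nat_lit 399) (nat_lit 5) (nat_lit 408) (nat_lit 5) (nat_lit 413) (nat_lit 406) (nat_lit 381)) (XT.lf (nat_lit 76) (nat_lit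 5216012579) (nat_lit 0) (nat_lit 1036257958) (nat_lit 684) (nat_lit 636699389) (nat_lit 400) (nat_lit 5) (nat_lit 399) (nat_lit 5) (nat_lit 408) (nat_lit 5) (nat_lit 414) (nat_lit 406) (nat_lit 380))))) (XT.nd (nat_lit 312) (nat_lit 1596) (nat_lit 0) (XT.nd (nat_lit 156) (nat_lit 760) (nat_lit 0) (XT.nd (nat_lit 78) (nat_lit 0) (nat_lit 0) (XT.lf (nat_lit 0) (nat_lit 1557938771) (nat_lit 684) (nat_lit 4811754166) (nat_lit 760) (nat_lit 568791320) (nat_lit 391) (nat_lit 5) (nat_lit 400) (nat_lit 5) (nat_lit 401) (nat_lit 5) (nat_lit 415) (nat_lit 406) (nat_lit 379)) (XT.lf (nat_lit 0) (nat_lit 3755891748) (nat_lit 684) (nat_lit 982777353) (nat_lit 760) (nat_lit 2252132166) (nat_lit 391) (nat_lit 5) (nat_lit 400) (nat_lit 5) (nat_lit 401) (nat_lit 5) (nat_lit 416) (nat_lit 406) (nat_lit 378))) (XT.nd (nat_lit 78) (nat_lit 760) (nat_lit 0) (XT.lf (nat_lit 76) (nat_lit 2968736315) (nat_lit 0) (nat_lit 3004780296) (nat_lit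 760) (nat_lit 1072573301) (nat_lit 392) (nat_lit 5) (nat_lit 391) (nat_lit 5) (nat_lit 401) (nat_lit 5) (nat_lit 417) (nat_lit 406) (nat_lit 377)) (XT.lf (nat_lit 0) (nat_lit 1068283413) (nat_lit 760) (nat_lit 106248729) (nat_lit 836) (nat_lit 5930099973) (nat_lit 381) (nat_lit 5) (nat_lit 391) (nat_lit 5) (nat_lit 392) (nat_lit 5) (nat_lit 418) (nat_lit 406) (nat_lit 376)))) (XT.nd (nat_lit 156) (nat_lit 912) (nat_lit 0) (XT.nd (nat_lit 78) (nat_lit 760) (nat_lit 0) (XT.lf (nat_lit 0) (nat_lit 3226112462) (nat_lit 760) (nat_lit 3171452603) (nat_lit 76) (nat_lit 767830729) (nat_lit 382) (nat_lit 5) (nat_lit 392) (nat_lit 5) (nat_lit 383) (nat_lit 5) (nat_lit 419) (nat_lit 406) (nat_lit 375)) (XT.lf (nat_lit 0) (nat_lit 946613414) (nat_lit 760) (nat_lit 4453999135) (nat_lit 836) (nat_lit 1828824299) (nat_lit 372) (nat_lit 5) (nat_lit 382) (nat_lit 5) (nat_lit 383) (nat_lit 5) (nat_lit 420) (nat_lit 406) (nat_lit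 374))) (XT.nd (nat_lit 78) (nat_lit 836) (nat_lit 0) (XT.lf (nat_lit 0) (nat_lit 301539729) (nat_lit 836) (nat_lit 2097305370) (nat_lit 76) (nat_lit 4897566716) (nat_lit 371) (nat_lit 5) (nat_lit 382) (nat_lit 5) (nat_lit 372) (nat_lit 5) (nat_lit 421) (nat_lit 406) (nat_lit 373)) (XT.lf (nat_lit 0) (nat_lit 2187416466) (nat_lit 836) (nat_lit 225657609) (nat_lit 912) (nat_lit 4953169714) (nat_lit 360) (nat_lit 5) (nat_lit 371) (nat_lit 5) (nat_lit 372) (nat_lit 5) (nat_lit 422) (nat_lit 406) (nat_lit 372)))))) (XT.nd (nat_lit 546) (nat_lit 3876) (nat_lit 0) (XT.nd (nat_lit 234) (nat_lit 2280) (nat_lit 0) (XT.nd (nat_lit 78) (nat_lit 1976) (nat_lit 0) (XT.lf (nat_lit 0) (nat_lit 4563292603) (nat_lit 912) (nat_lit 865982132) (nat_lit 76) (nat_lit 2009646993) (nat_lit 360) (nat_lit 5) (nat_lit 372) (nat_lit 5) (nat_lit 361) (nat_lit 5) (nat_lit 423) (nat_lit 406) (nat_lit 371)) (XT.nd (nat_lit 78) (nat_lit 1064) (nat_lit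 0) (XT.lf (nat_lit 0) (nat_lit 3593097194) (nat_lit 912) (nat_lit 3158200803) (nat_lit 988) (nat_lit 763294425) (nat_lit 348) (nat_lit 5) (nat_lit 360) (nat_lit 5) (nat_lit 361) (nat_lit 5) (nat_lit 424) (nat_lit 406) (nat_lit 370)) (XT.lf (nat_lit 0) (nat_lit 556842158) (nat_lit 988) (nat_lit 779436112) (nat_lit 1064) (nat_lit 6257314986) (nat_lit 334) (nat_lit 5) (nat_lit 347) (nat_lit 5) (nat_lit 348) (nat_lit 5) (nat_lit 425) (nat_lit 406) (nat_lit 369)))) (XT.nd (nat_lit 156) (nat_lit 1216) (nat_lit 0) (XT.nd (nat_lit 78) (nat_lit 1064) (nat_lit 0) (XT.lf (nat_lit 0) (nat_lit 3478225341) (nat_lit 1064) (nat_lit 2501101116) (nat_lit 76) (nat_lit 1695578984) (nat_lit 334) (nat_lit 5) (nat_lit 348) (nat_lit 5) (nat_lit 335) (nat_lit 5) (nat_lit 426) (nat_lit 406) (nat_lit 368)) (XT.lf (nat_lit 0) (nat_lit 2153236731) (nat_lit 1064) (nat_lit 3500073064) (nat_lit 1140) (nat_lit 2106290445) (nat_lit 320) (nat_lit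 5) (nat_lit 334) (nat_lit 5) (nat_lit 335) (nat_lit 5) (nat_lit 427) (nat_lit 406) (nat_lit 367))) (XT.nd (nat_lit 78) (nat_lit 1140) (nat_lit 0) (XT.lf (nat_lit 0) (nat_lit 12523099) (nat_lit 1140) (nat_lit 900659467) (nat_lit 76) (nat_lit 6934650113) (nat_lit 319) (nat_lit 5) (nat_lit 334) (nat_lit 5) (nat_lit 320) (nat_lit 5) (nat_lit 428) (nat_lit 406) (nat_lit 366)) (XT.lf (nat_lit 0) (nat_lit 2150864802) (nat_lit 1216) (nat_lit 4004507891) (nat_lit 76) (nat_lit 1782773626) (nat_lit 304) (nat_lit 5) (nat_lit 320) (nat_lit 5) (nat_lit 305) (nat_lit 5) (nat_lit 429) (nat_lit 406) (nat_lit 365))))) (XT.nd (nat_lit 312) (nat_lit 1824) (nat_lit 0) (XT.nd (nat_lit 156) (nat_lit 836) (nat_lit 0) (XT.nd (nat_lit 78) (nat_lit 0) (nat_lit 0) (XT.lf (nat_lit 0) (nat_lit 856028925) (nat_lit 1216) (nat_lit 3467852717) (nat_lit 1292) (nat_lit 3708180526) (nat_lit 288) (nat_lit 5) (nat_lit 304) (nat_lit 5) (nat_lit 305) (nat_lit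 5) (nat_lit 430) (nat_lit 406) (nat_lit 364)) (XT.lf (nat_lit 0) (nat_lit 5892905675) (nat_lit 1216) (nat_lit 654824209) (nat_lit 1292) (nat_lit 1581504676) (nat_lit 288) (nat_lit 5) (nat_lit 304) (nat_lit 5) (nat_lit 305) (nat_lit 5) (nat_lit 431) (nat_lit 406) (nat_lit 363))) (XT.nd (nat_lit 78) (nat_lit 0) (nat_lit 0) (XT.lf (nat_lit 0) (nat_lit 592661968) (nat_lit 836) (nat_lit 5401665590) (nat_lit 76) (nat_lit 2234959562) (nat_lit 277) (nat_lit 5) (nat_lit 288) (nat_lit 5) (nat_lit 278) (nat_lit 5) (nat_lit 432) (nat_lit 406) (nat_lit 362)) (XT.lf (nat_lit 0) (nat_lit 2776918814) (nat_lit 836) (nat_lit 316941596) (nat_lit 76) (nat_lit 5238719127) (nat_lit 277) (nat_lit 5) (nat_lit 288) (nat_lit 5) (nat_lit 278) (nat_lit 5) (nat_lit 433) (nat_lit 406) (nat_lit 361)))) (XT.nd (nat_lit 156) (nat_lit 608) (nat_lit 0) (XT.nd (nat_lit 78) (nat_lit 608) (nat_lit 0) (XT.lf (nat_lit 0) (nat_lit 4966515057) (nat_lit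 608) (nat_lit 56824970) (nat_lit 684) (nat_lit 3415738971) (nat_lit 269) (nat_lit 5) (nat_lit 277) (nat_lit 5) (nat_lit 278) (nat_lit 5) (nat_lit 434) (nat_lit 406) (nat_lit 360)) (XT.lf (nat_lit 0) (nat_lit 1820529693) (nat_lit 608) (nat_lit 5516779757) (nat_lit 684) (nat_lit 1211466481) (nat_lit 261) (nat_lit 5) (nat_lit 269) (nat_lit 5) (nat_lit 270) (nat_lit 5) (nat_lit 435) (nat_lit 406) (nat_lit 359))) (XT.nd (nat_lit 78) (nat_lit 532) (nat_lit 0) (XT.lf (nat_lit 0) (nat_lit 1024619900) (nat_lit 684) (nat_lit 1380422898) (nat_lit 76) (nat_lit 6256831867) (nat_lit 260) (nat_lit 5) (nat_lit 269) (nat_lit 5) (nat_lit 261) (nat_lit 5) (nat_lit 436) (nat_lit 406) (nat_lit 358)) (XT.lf (nat_lit 0) (nat_lit 3303292439) (nat_lit 608) (nat_lit 4640399301) (nat_lit 76) (nat_lit 834325744) (nat_lit 253) (nat_lit 5) (nat_lit 261) (nat_lit 5) (nat_lit 254) (nat_lit 5) (nat_lit 437) (nat_lit 406) (nat_lit 357))))))) (XT.nd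 (nat_lit 1170) (nat_lit 3420) (nat_lit 0) (XT.nd (nat_lit 546) (nat_lit 2736) (nat_lit 0) (XT.nd (nat_lit 234) (nat_lit 1064) (nat_lit 0) (XT.nd (nat_lit 78) (nat_lit 608) (nat_lit 0) (XT.lf (nat_lit 0) (nat_lit 894169337) (nat_lit 532) (nat_lit 4755352317) (nat_lit 608) (nat_lit 3248153396) (nat_lit 246) (nat_lit 5) (nat_lit 253) (nat_lit 5) (nat_lit 254) (nat_lit 5) (nat_lit 438) (nat_lit 406) (nat_lit 356)) (XT.nd (nat_lit 78) (nat_lit 608) (nat_lit 0) (XT.lf (nat_lit 0) (nat_lit 6638804335) (nat_lit 532) (nat_lit 1427789849) (nat_lit 608) (nat_lit 954320641) (nat_lit 246) (nat_lit 5) (nat_lit 253) (nat_lit 5) (nat_lit 254) (nat_lit 5) (nat_lit 439) (nat_lit 406) (nat_lit 355)) (XT.lf (nat_lit 0) (nat_lit 1387757513) (nat_lit 608) (nat_lit 5757043948) (nat_lit 76) (nat_lit 2002442659) (nat_lit 238) (nat_lit 5) (nat_lit 246) (nat_lit 5) (nat_lit 239) (nat_lit 5) (nat_lit 440) (nat_lit 406) (nat_lit 354)))) (XT.nd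 (nat_lit 156) (nat_lit 532) (nat_lit 0) (XT.nd (nat_lit 78) (nat_lit 0) (nat_lit 0) (XT.lf (nat_lit 0) (nat_lit 33381261) (nat_lit 532) (nat_lit 3741576101) (nat_lit 608) (nat_lit 5502306913) (nat_lit 231) (nat_lit 5) (nat_lit 238) (nat_lit 5) (nat_lit 239) (nat_lit 5) (nat_lit 441) (nat_lit 406) (nat_lit 353)) (XT.lf (nat_lit 0) (nat_lit 6064719947) (nat_lit 532) (nat_lit 183291932) (nat_lit 608) (nat_lit 3162751482) (nat_lit 231) (nat_lit 5) (nat_lit 238) (nat_lit 5) (nat_lit 239) (nat_lit 5) (nat_lit 442) (nat_lit 406) (nat_lit 352))) (XT.nd (nat_lit 78) (nat_lit 76) (nat_lit 0) (XT.lf (nat_lit 0) (nat_lit 2697345325) (nat_lit 456) (nat_lit 6114627652) (nat_lit 532) (nat_lit 735798318) (nat_lit 225) (nat_lit 5) (nat_lit 231) (nat_lit 5) (nat_lit 232) (nat_lit 5) (nat_lit 443) (nat_lit 406) (nat_lit 351)) (XT.lf (nat_lit 0) (nat_lit 1723139614) (nat_lit 532) (nat_lit 767259496) (nat_lit 76) (nat_lit 7198178763)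 (nat_lit 224) (nat_lit 5) (nat_lit 231) (nat_lit 5) (nat_lit 225) (nat_lit 5) (nat_lit 444) (nat_lit 406) (nat_lit 350))))) (XT.nd (nat_lit 312) (nat_lit 1292) (nat_lit 0) (XT.nd (nat_lit 156) (nat_lit 532) (nat_lit 0) (XT.nd (nat_lit 78) (nat_lit 456) (nat_lit 0) (XT.lf (nat_lit 0) (nat_lit 4265764332) (nat_lit 532) (nat_lit 4295496838) (nat_lit 76) (nat_lit 1271392576) (nat_lit 218) (nat_lit 5) (nat_lit 225) (nat_lit 5) (nat_lit 219) (nat_lit 5) (nat_lit 445) (nat_lit 406) (nat_lit 349)) (XT.lf (nat_lit 0) (nat_lit 2030430175) (nat_lit 456) (nat_lit 4865774801) (nat_lit 532) (nat_lit 3084505533) (nat_lit 212) (nat_lit 5) (nat_lit 218) (nat_lit 5) (nat_lit 219) (nat_lit 5) (nat_lit 446) (nat_lit 406) (nat_lit 348))) (XT.nd (nat_lit 78) (nat_lit 532) (nat_lit 0) (XT.lf (nat_lit 0) (nat_lit 8584608249) (nat_lit 456) (nat_lit 1024566115) (nat_lit 532) (nat_lit 523930739) (nat_lit 212) (nat_lit 5) (nat_lit 218) (nat_lit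 5) (nat_lit 219) (nat_lit 5) (nat_lit 447) (nat_lit 406) (nat_lit 347)) (XT.lf (nat_lit 0) (nat_lit 2110788110) (nat_lit 532) (nat_lit 5242802136) (nat_lit 76) (nat_lit 2934719101) (nat_lit 205) (nat_lit 5) (nat_lit 212) (nat_lit 5) (nat_lit 206) (nat_lit 5) (nat_lit 448) (nat_lit 406) (nat_lit 346)))) (XT.nd (nat_lit 156) (nat_lit 912) (nat_lit 0) (XT.nd (nat_lit 78) (nat_lit 0) (nat_lit 0) (XT.lf (nat_lit 0) (nat_lit 1383388500) (nat_lit 380) (nat_lit 3431447001) (nat_lit 456) (nat_lit 5633158274) (nat_lit 200) (nat_lit 5) (nat_lit 205) (nat_lit 5) (nat_lit 206) (nat_lit 5) (nat_lit 449) (nat_lit 406) (nat_lit 345)) (XT.lf (nat_lit 0) (nat_lit 7621441900) (nat_lit 456) (nat_lit 2351452666) (nat_lit 76) (nat_lit 638935123) (nat_lit 200) (nat_lit 5) (nat_lit 206) (nat_lit 5) (nat_lit 201) (nat_lit 5) (nat_lit 450) (nat_lit 406) (nat_lit 344))) (XT.nd (nat_lit 78) (nat_lit 456) (nat_lit 0) (XT.lf (nat_lit 0) (nat_lit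 4569711486) (nat_lit 456) (nat_lit 5983663243) (nat_lit 532) (nat_lit 225976067) (nat_lit 194) (nat_lit 5) (nat_lit 200) (nat_lit 5) (nat_lit 201) (nat_lit 5) (nat_lit 451) (nat_lit 406) (nat_lit 343)) (XT.lf (nat_lit 0) (nat_lit 735614800) (nat_lit 380) (nat_lit 1829125696) (nat_lit 456) (nat_lit 8386569085) (nat_lit 188) (nat_lit 5) (nat_lit 193) (nat_lit 5) (nat_lit 194) (nat_lit 5) (nat_lit 452) (nat_lit 406) (nat_lit 342)))))) (XT.nd (nat_lit 624) (nat_lit 1596) (nat_lit 0) (XT.nd (nat_lit 312) (nat_lit 1064) (nat_lit 0) (XT.nd (nat_lit 156) (nat_lit 380) (nat_lit 0) (XT.nd (nat_lit 78) (nat_lit 380) (nat_lit 0) (XT.lf (nat_lit 0) (nat_lit 5485467121) (nat_lit 456) (nat_lit 3185754982) (nat_lit 76) (nat_lit 2455616617) (nat_lit 188) (nat_lit 5) (nat_lit 194) (nat_lit 5) (nat_lit 189) (nat_lit 5) (nat_lit 453) (nat_lit 406) (nat_lit 341)) (XT.lf (nat_lit 0) (nat_lit 4068482564) (nat_lit 380) (nat_lit 4447554861)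 (nat_lit 456) (nat_lit 2790933172) (nat_lit 183) (nat_lit 5) (nat_lit 188) (nat_lit 5) (nat_lit 189) (nat_lit 5) (nat_lit 454) (nat_lit 406) (nat_lit 340))) (XT.nd (nat_lit 78) (nat_lit 0) (nat_lit 0) (XT.lf (nat_lit 0) (nat_lit 65570675) (nat_lit 304) (nat_lit 74958887) (nat_lit 380) (nat_lit 11351988137) (nat_lit 178) (nat_lit 5) (nat_lit 182) (nat_lit 5) (nat_lit 183) (nat_lit 5) (nat_lit 455) (nat_lit 406) (nat_lit 339)) (XT.lf (nat_lit 0) (nat_lit 3185880308) (nat_lit 380) (nat_lit 4063770926) (nat_lit 76) (nat_lit 4430693039) (nat_lit 178) (nat_lit 5) (nat_lit 183) (nat_lit 5) (nat_lit 179) (nat_lit 5) (nat_lit 456) (nat_lit 406) (nat_lit 338)))) (XT.nd (nat_lit 156) (nat_lit 684) (nat_lit 0) (XT.nd (nat_lit 78) (nat_lit 0) (nat_lit 0) (XT.lf (nat_lit 0) (nat_lit 3541543832) (nat_lit 380) (nat_lit 2782482326) (nat_lit 456) (nat_lit 5549739575) (nat_lit 173) (nat_lit 5) (nat_lit 178) (nat_lit 5) (nat_lit 179)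 (nat_lit 5) (nat_lit 457) (nat_lit 406) (nat_lit 337)) (XT.lf (nat_lit 0) (nat_lit 9582280098) (nat_lit 456) (nat_lit 678841832) (nat_lit 76) (nat_lit 1811092035) (nat_lit 173) (nat_lit 5) (nat_lit 179) (nat_lit 5) (nat_lit 174) (nat_lit 5) (nat_lit 458) (nat_lit 406) (nat_lit 336))) (XT.nd (nat_lit 78) (nat_lit 304) (nat_lit 0) (XT.lf (nat_lit 0) (nat_lit 714854343) (nat_lit 380) (nat_lit 5009294619) (nat_lit 76) (nat_lit 6550295738) (nat_lit 168) (nat_lit 5) (nat_lit 173) (nat_lit 5) (nat_lit 169) (nat_lit 5) (nat_lit 459) (nat_lit 406) (nat_lit 335)) (XT.lf (nat_lit 0) (nat_lit 2965675408) (nat_lit 304) (nat_lit 1003673376) (nat_lit 380) (nat_lit 8512548533) (nat_lit 164) (nat_lit 5) (nat_lit 168) (nat_lit 5) (nat_lit 169) (nat_lit 5) (nat_lit 460) (nat_lit 406) (nat_lit 334))))) (XT.nd (nat_lit 312) (nat_lit 912) (nat_lit 0) (XT.nd (nat_lit 156) (nat_lit 380) (nat_lit 0) (XT.nd (nat_lit 78) (nat_lit 304) (nat_lit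 0) (XT.lf (nat_lit 0) (nat_lit 7378175881) (nat_lit 380) (nat_lit 1495730786) (nat_lit 76) (nat_lit 3819968611) (nat_lit 164) (nat_lit 5) (nat_lit 169) (nat_lit 5) (nat_lit 165) (nat_lit 5) (nat_lit 461) (nat_lit 406) (nat_lit 333)) (XT.lf (nat_lit 0) (nat_lit 6843676996) (nat_lit 304) (nat_lit 4090754031) (nat_lit 380) (nat_lit 1976429272) (nat_lit 160) (nat_lit 5) (nat_lit 164) (nat_lit 5) (nat_lit 165) (nat_lit 5) (nat_lit 462) (nat_lit 406) (nat_lit 332))) (XT.nd (nat_lit 78) (nat_lit 0) (nat_lit 0) (XT.lf (nat_lit 0) (nat_lit 1449981483) (nat_lit 380) (nat_lit 10826594297) (nat_lit 76) (nat_lit 856894320) (nat_lit 155) (nat_lit 5) (nat_lit 160) (nat_lit 5) (nat_lit 156) (nat_lit 5) (nat_lit 463) (nat_lit 406) (nat_lit 331)) (XT.lf (nat_lit 0) (nat_lit 5011742444) (nat_lit 380) (nat_lit 2410848952) (nat_lit 76) (nat_lit 5937413671) (nat_lit 155) (nat_lit 5) (nat_lit 160) (nat_lit 5) (nat_lit 156) (nat_lit 5)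 (nat_lit 464) (nat_lit 406) (nat_lit 330)))) (XT.nd (nat_lit 156) (nat_lit 304) (nat_lit 0) (XT.nd (nat_lit 78) (nat_lit 304) (nat_lit 0) (XT.lf (nat_lit 0) (nat_lit 6336572445) (nat_lit 304) (nat_lit 2375477697) (nat_lit 380) (nat_lit 4880337452) (nat_lit 151) (nat_lit 5) (nat_lit 155) (nat_lit 5) (nat_lit 156) (nat_lit 5) (nat_lit 465) (nat_lit 406) (nat_lit 329)) (XT.lf (nat_lit 0) (nat_lit 1522425825) (nat_lit 304) (nat_lit 11038363018) (nat_lit 380) (nat_lit 1269832361) (nat_lit 147) (nat_lit 5) (nat_lit 151) (nat_lit 5) (nat_lit 152) (nat_lit 5) (nat_lit 466) (nat_lit 406) (nat_lit 328))) (XT.nd (nat_lit 78) (nat_lit 228) (nat_lit 0) (XT.lf (nat_lit 0) (nat_lit 2469910872) (nat_lit 380) (nat_lit 3453705182) (nat_lit 76) (nat_lit 8149620316) (nat_lit 146) (nat_lit 5) (nat_lit 151) (nat_lit 5) (nat_lit 147) (nat_lit 5) (nat_lit 467) (nat_lit 406) (nat_lit 327)) (XT.lf (nat_lit 0) (nat_lit 5721943251) (nat_lit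 228) (nat_lit 601419554) (nat_lit 304) (nat_lit 7998580912) (nat_lit 143) (nat_lit 5) (nat_lit 146) (nat_lit 5) (nat_lit 147) (nat_lit 5) (nat_lit 468) (nat_lit 406) (nat_lit 326))))))))
noncomputable def xc112 : XT := (XT.nd (nat_lit 2340) (nat_lit 2508) (nat_lit 0) (XT.nd (nat_lit 1170) (nat_lit 1900) (nat_lit 0) (XT.nd (nat_lit 546) (nat_lit 1216) (nat_lit 0) (XT.nd (nat_lit 234) (nat_lit 532) (nat_lit 0) (XT.nd (nat_lit 78) (nat_lit 304) (nat_lit 0) (XT.lf (nat_lit 0) (nat_lit 586975778) (nat_lit 304) (nat_lit 9765505821) (nat_lit 380) (nat_lit 4223830795) (nat_lit 139) (nat_lit 5) (nat_lit 143) (nat_lit 5) (nat_lit 144) (nat_lit 5) (nat_lit 469) (nat_lit 406) (nat_lit 325)) (XT.nd (nat_lit 78) (nat_lit 304) (nat_lit 0) (XT.lf (nat_lit 0) (nat_lit 10176397441) (nat_lit 304) (nat_lit 4391492285) (nat_lit 380) (nat_lit 268461882) (nat_lit 139) (nat_lit 5) (nat_lit 143) (nat_lit 5) (nat_lit 144) (nat_lit 5) (nat_lit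 470) (nat_lit 406) (nat_lit 324)) (XT.lf (nat_lit 0) (nat_lit 3763938068) (nat_lit 304) (nat_lit 10147146033) (nat_lit 76) (nat_lit 1191033381) (nat_lit 135) (nat_lit 5) (nat_lit 139) (nat_lit 5) (nat_lit 136) (nat_lit 5) (nat_lit 471) (nat_lit 406) (nat_lit 323)))) (XT.nd (nat_lit 156) (nat_lit 304) (nat_lit 0) (XT.nd (nat_lit 78) (nat_lit 228) (nat_lit 0) (XT.lf (nat_lit 0) (nat_lit 7976346624) (nat_lit 304) (nat_lit 510057263) (nat_lit 76) (nat_lit 6887441514) (nat_lit 135) (nat_lit 5) (nat_lit 139) (nat_lit 5) (nat_lit 136) (nat_lit 5) (nat_lit 472) (nat_lit 406) (nat_lit 322)) (XT.lf (nat_lit 0) (nat_lit 9561086386) (nat_lit 228) (nat_lit 2820151945) (nat_lit 304) (nat_lit 3270505233) (nat_lit 132) (nat_lit 5) (nat_lit 135) (nat_lit 5) (nat_lit 136) (nat_lit 5) (nat_lit 473) (nat_lit 406) (nat_lit 321))) (XT.nd (nat_lit 78) (nat_lit 0) (nat_lit 0) (XT.lf (nat_lit 0) (nat_lit 1008825304) (nat_lit 304) (nat_lit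 11932000329) (nat_lit 76) (nat_lit 2995442286) (nat_lit 128) (nat_lit 5) (nat_lit 132) (nat_lit 5) (nat_lit 129) (nat_lit 5) (nat_lit 474) (nat_lit 406) (nat_lit 320)) (XT.lf (nat_lit 0) (nat_lit 5415339750) (nat_lit 304) (nat_lit 1803435773) (nat_lit 76) (nat_lit 9007646490) (nat_lit 128) (nat_lit 5) (nat_lit 132) (nat_lit 5) (nat_lit 129) (nat_lit 5) (nat_lit 475) (nat_lit 406) (nat_lit 319))))) (XT.nd (nat_lit 312) (nat_lit 456) (nat_lit 0) (XT.nd (nat_lit 156) (nat_lit 304) (nat_lit 0) (XT.nd (nat_lit 78) (nat_lit 228) (nat_lit 0) (XT.lf (nat_lit 0) (nat_lit 8759197561) (nat_lit 228) (nat_lit 1254296435) (nat_lit 304) (nat_lit 6510004942) (nat_lit 125) (nat_lit 5) (nat_lit 128) (nat_lit 5) (nat_lit 129) (nat_lit 5) (nat_lit 476) (nat_lit 406) (nat_lit 318)) (XT.lf (nat_lit 0) (nat_lit 2813568203) (nat_lit 228) (nat_lit 12003885398) (nat_lit 304) (nat_lit 2010000242) (nat_lit 122) (nat_lit 5) (nat_lit 125) (nat_lit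 5) (nat_lit 126) (nat_lit 5) (nat_lit 477) (nat_lit 406) (nat_lit 317))) (XT.nd (nat_lit 78) (nat_lit 228) (nat_lit 0) (XT.lf (nat_lit 0) (nat_lit 2640891917) (nat_lit 304) (nat_lit 3349650775) (nat_lit 76) (nat_lit 11147215798) (nat_lit 121) (nat_lit 5) (nat_lit 125) (nat_lit 5) (nat_lit 122) (nat_lit 5) (nat_lit 478) (nat_lit 406) (nat_lit 316)) (XT.lf (nat_lit 0) (nat_lit 7444131065) (nat_lit 304) (nat_lit 9732417808) (nat_lit 76) (nat_lit 278631164) (nat_lit 118) (nat_lit 5) (nat_lit 122) (nat_lit 5) (nat_lit 119) (nat_lit 5) (nat_lit 479) (nat_lit 406) (nat_lit 315)))) (XT.nd (nat_lit 156) (nat_lit 304) (nat_lit 0) (XT.nd (nat_lit 78) (nat_lit 0) (nat_lit 0) (XT.lf (nat_lit 0) (nat_lit 1341482649) (nat_lit 152) (nat_lit 11132737177) (nat_lit 228) (nat_lit 5305423159) (nat_lit 116) (nat_lit 5) (nat_lit 118) (nat_lit 5) (nat_lit 119) (nat_lit 5) (nat_lit 480) (nat_lit 406) (nat_lit 314)) (XT.lf (nat_lit 0) (nat_lit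 12907546808) (nat_lit 152) (nat_lit 4822635508) (nat_lit 228) (nat_lit 381409661) (nat_lit 116) (nat_lit 5) (nat_lit 118) (nat_lit 5) (nat_lit 119) (nat_lit 5) (nat_lit 481) (nat_lit 406) (nat_lit 313))) (XT.nd (nat_lit 78) (nat_lit 0) (nat_lit 0) (XT.lf (nat_lit 0) (nat_lit 4654565436) (nat_lit 304) (nat_lit 12059814343) (nat_lit 76) (nat_lit 1736095297) (nat_lit 112) (nat_lit 5) (nat_lit 116) (nat_lit 5) (nat_lit 113) (nat_lit 5) (nat_lit 482) (nat_lit 406) (nat_lit 312)) (XT.lf (nat_lit 0) (nat_lit 9912062636) (nat_lit 304) (nat_lit 449114066) (nat_lit 76) (nat_lit 8435892592) (nat_lit 112) (nat_lit 5) (nat_lit 116) (nat_lit 5) (nat_lit 113) (nat_lit 5) (nat_lit 483) (nat_lit 406) (nat_lit 311)))))) (XT.nd (nat_lit 546) (nat_lit 912) (nat_lit 0) (XT.nd (nat_lit 234) (nat_lit 532) (nat_lit 0) (XT.nd (nat_lit 78) (nat_lit 304) (nat_lit 0) (XT.lf (nat_lit 0) (nat_lit 11700353302) (nat_lit 152) (nat_lit 3717352874)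 (nat_lit 228) (nat_lit 3733643665) (nat_lit 110) (nat_lit 5) (nat_lit 112) (nat_lit 5) (nat_lit 113) (nat_lit 5) (nat_lit 484) (nat_lit 406) (nat_lit 310)) (XT.nd (nat_lit 78) (nat_lit 0) (nat_lit 0) (XT.lf (nat_lit 0) (nat_lit 1600346155) (nat_lit 304) (nat_lit 14798577914) (nat_lit 76) (nat_lit 3115119416) (nat_lit 106) (nat_lit 5) (nat_lit 110) (nat_lit 5) (nat_lit 107) (nat_lit 5) (nat_lit 485) (nat_lit 406) (nat_lit 309)) (XT.lf (nat_lit 0) (nat_lit 7110246393) (nat_lit 304) (nat_lit 2598283354) (nat_lit 76) (nat_lit 10175252239) (nat_lit 106) (nat_lit 5) (nat_lit 110) (nat_lit 5) (nat_lit 107) (nat_lit 5) (nat_lit 486) (nat_lit 406) (nat_lit 308)))) (XT.nd (nat_lit 156) (nat_lit 228) (nat_lit 0) (XT.nd (nat_lit 78) (nat_lit 152) (nat_lit 0) (XT.lf (nat_lit 0) (nat_lit 10128711273) (nat_lit 152) (nat_lit 2732874743) (nat_lit 228) (nat_lit 7400743371) (nat_lit 104) (nat_lit 5) (nat_lit 106) (nat_lit 5) (nat_lit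 107) (nat_lit 5) (nat_lit 487) (nat_lit 406) (nat_lit 307)) (XT.lf (nat_lit 0) (nat_lit 2610136085) (nat_lit 152) (nat_lit 16248608137) (nat_lit 228) (nat_lit 1791291624) (nat_lit 102) (nat_lit 5) (nat_lit 104) (nat_lit 5) (nat_lit 105) (nat_lit 5) (nat_lit 488) (nat_lit 406) (nat_lit 306))) (XT.nd (nat_lit 78) (nat_lit 152) (nat_lit 0) (XT.lf (nat_lit 0) (nat_lit 4018004321) (nat_lit 228) (nat_lit 5205892724) (nat_lit 76) (nat_lit 11821047266) (nat_lit 101) (nat_lit 5) (nat_lit 104) (nat_lit 5) (nat_lit 102) (nat_lit 5) (nat_lit 489) (nat_lit 406) (nat_lit 305)) (XT.lf (nat_lit 0) (nat_lit 8117757303) (nat_lit 152) (nat_lit 1905414142) (nat_lit 228) (nat_lit 11426269556) (nat_lit 99) (nat_lit 5) (nat_lit 101) (nat_lit 5) (nat_lit 102) (nat_lit 5) (nat_lit 490) (nat_lit 406) (nat_lit 304))))) (XT.nd (nat_lit 312) (nat_lit 532) (nat_lit 0) (XT.nd (nat_lit 156) (nat_lit 152) (nat_lit 0) (XT.nd (nat_lit 78) (nat_lit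 228) (nat_lit 0) (XT.lf (nat_lit 0) (nat_lit 16295393295) (nat_lit 228) (nat_lit 7479968) (nat_lit 76) (nat_lit 5560593216) (nat_lit 99) (nat_lit 5) (nat_lit 102) (nat_lit 5) (nat_lit 100) (nat_lit 5) (nat_lit 491) (nat_lit 406) (nat_lit 303)) (XT.lf (nat_lit 0) (nat_lit 591164347) (nat_lit 228) (nat_lit 8357321889) (nat_lit 76) (nat_lit 13337261385) (nat_lit 96) (nat_lit 5) (nat_lit 99) (nat_lit 5) (nat_lit 97) (nat_lit 5) (nat_lit 492) (nat_lit 406) (nat_lit 302))) (XT.nd (nat_lit 78) (nat_lit 0) (nat_lit 0) (XT.lf (nat_lit 0) (nat_lit 5580484210) (nat_lit 152) (nat_lit 1276806332) (nat_lit 228) (nat_lit 15860732845) (nat_lit 94) (nat_lit 5) (nat_lit 96) (nat_lit 5) (nat_lit 97) (nat_lit 5) (nat_lit 493) (nat_lit 406) (nat_lit 301)) (XT.lf (nat_lit 0) (nat_lit 13440708986) (nat_lit 228) (nat_lit 3152753903) (nat_lit 76) (nat_lit 6565926063) (nat_lit 94) (nat_lit 5) (nat_lit 97) (nat_lit 5) (nat_lit 95) (nat_lit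 5) (nat_lit 494) (nat_lit 406) (nat_lit 300)))) (XT.nd (nat_lit 156) (nat_lit 152) (nat_lit 0) (XT.nd (nat_lit 78) (nat_lit 228) (nat_lit 0) (XT.lf (nat_lit 0) (nat_lit 11427715286) (nat_lit 152) (nat_lit 8897374054) (nat_lit 228) (nat_lit 3285803120) (nat_lit 92) (nat_lit 5) (nat_lit 94) (nat_lit 5) (nat_lit 95) (nat_lit 5) (nat_lit 495) (nat_lit 406) (nat_lit 299)) (XT.lf (nat_lit 0) (nat_lit 2415700934) (nat_lit 152) (nat_lit 895564843) (nat_lit 228) (nat_lit 20762621339) (nat_lit 89) (nat_lit 5) (nat_lit 91) (nat_lit 5) (nat_lit 92) (nat_lit 5) (nat_lit 496) (nat_lit 406) (nat_lit 298))) (XT.nd (nat_lit 78) (nat_lit 152) (nat_lit 0) (XT.lf (nat_lit 0) (nat_lit 10216157410) (nat_lit 228) (nat_lit 6983499313) (nat_lit 76) (nat_lit 7344861037) (nat_lit 89) (nat_lit 5) (nat_lit 92) (nat_lit 5) (nat_lit 90) (nat_lit 5) (nat_lit 497) (nat_lit 406) (nat_lit 297)) (XT.lf (nat_lit 0) (nat_lit 8250213574) (nat_lit 152)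 (nat_lit 9147796711) (nat_lit 228) (nat_lit 7629163278) (nat_lit 87) (nat_lit 5) (nat_lit 89) (nat_lit 5) (nat_lit 90) (nat_lit 5) (nat_lit 498) (nat_lit 406) (nat_lit 296))))))) (XT.nd (nat_lit 1170) (nat_lit 1140) (nat_lit 0) (XT.nd (nat_lit 546) (nat_lit 684) (nat_lit 0) (XT.nd (nat_lit 234) (nat_lit 304) (nat_lit 0) (XT.nd (nat_lit 78) (nat_lit 380) (nat_lit 0) (XT.lf (nat_lit 0) (nat_lit 24051080601) (nat_lit 152) (nat_lit 796616594) (nat_lit 228) (nat_lit 675041143) (nat_lit 87) (nat_lit 5) (nat_lit 89) (nat_lit 5) (nat_lit 90) (nat_lit 5) (nat_lit 499) (nat_lit 406) (nat_lit 295)) (XT.nd (nat_lit 78) (nat_lit 152) (nat_lit 0) (XT.lf (nat_lit 0) (nat_lit 6559397282) (nat_lit 228) (nat_lit 11623936750) (nat_lit 76) (nat_lit 7842016995) (nat_lit 84) (nat_lit 5) (nat_lit 87) (nat_lit 5) (nat_lit 85) (nat_lit 5) (nat_lit 500) (nat_lit 406) (nat_lit 294)) (XT.lf (nat_lit 0) (nat_lit 4274465927) (nat_lit 152) (nat_lit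 9769101696) (nat_lit 228) (nat_lit 12497886570) (nat_lit 82) (nat_lit 5) (nat_lit 84) (nat_lit 5) (nat_lit 85) (nat_lit 5) (nat_lit 501) (nat_lit 406) (nat_lit 293)))) (XT.nd (nat_lit 156) (nat_lit 152) (nat_lit 0) (XT.nd (nat_lit 78) (nat_lit 152) (nat_lit 0) (XT.lf (nat_lit 0) (nat_lit 20855942365) (nat_lit 152) (nat_lit 996188958) (nat_lit 228) (nat_lit 5217913663) (nat_lit 82) (nat_lit 5) (nat_lit 84) (nat_lit 5) (nat_lit 85) (nat_lit 5) (nat_lit 502) (nat_lit 406) (nat_lit 292)) (XT.lf (nat_lit 0) (nat_lit 2397804451) (nat_lit 152) (nat_lit 17218475322) (nat_lit 76) (nat_lit 7992701264) (nat_lit 80) (nat_lit 5) (nat_lit 82) (nat_lit 5) (nat_lit 81) (nat_lit 5) (nat_lit 503) (nat_lit 406) (nat_lit 291))) (XT.nd (nat_lit 78) (nat_lit 152) (nat_lit 0) (XT.lf (nat_lit 0) (nat_lit 10193246782) (nat_lit 152) (nat_lit 635340536) (nat_lit 76) (nat_lit 17332264677) (nat_lit 80) (nat_lit 5) (nat_lit 82) (nat_lit 5) (nat_lit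 81) (nat_lit 5) (nat_lit 504) (nat_lit 406) (nat_lit 290)) (XT.lf (nat_lit 0) (nat_lit 16741265703) (nat_lit 152) (nat_lit 1625605010) (nat_lit 228) (nat_lit 10358079337) (nat_lit 78) (nat_lit 5) (nat_lit 80) (nat_lit 5) (nat_lit 81) (nat_lit 5) (nat_lit 505) (nat_lit 406) (nat_lit 289))))) (XT.nd (nat_lit 312) (nat_lit 380) (nat_lit 0) (XT.nd (nat_lit 156) (nat_lit 152) (nat_lit 0) (XT.nd (nat_lit 78) (nat_lit 76) (nat_lit 0) (XT.lf (nat_lit 0) (nat_lit 5344385240) (nat_lit 76) (nat_lit 21558111256) (nat_lit 152) (nat_lit 2399971256) (nat_lit 77) (nat_lit 5) (nat_lit 78) (nat_lit 5) (nat_lit 79) (nat_lit 4) (nat_lit 506) (nat_lit 406) (nat_lit 288)) (XT.lf (nat_lit 0) (nat_lit 5805541898) (nat_lit 152) (nat_lit 6559536621) (nat_lit 76) (nat_lit 17526907849) (nat_lit 76) (nat_lit 5) (nat_lit 78) (nat_lit 5) (nat_lit 77) (nat_lit 5) (nat_lit 507) (nat_lit 406) (nat_lit 287))) (XT.nd (nat_lit 78) (nat_lit 0) (nat_lit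 0) (XT.lf (nat_lit 0) (nat_lit 11532347711) (nat_lit 152) (nat_lit 2771447878) (nat_lit 228) (nat_lit 16191838181) (nat_lit 74) (nat_lit 5) (nat_lit 76) (nat_lit 5) (nat_lit 77) (nat_lit 5) (nat_lit 508) (nat_lit 406) (nat_lit 286)) (XT.lf (nat_lit 0) (nat_lit 23176243660) (nat_lit 228) (nat_lit 912896831) (nat_lit 76) (nat_lit 7024673146) (nat_lit 74) (nat_lit 5) (nat_lit 77) (nat_lit 5) (nat_lit 75) (nat_lit 4) (nat_lit 509) (nat_lit 406) (nat_lit 285)))) (XT.nd (nat_lit 156) (nat_lit 76) (nat_lit 0) (XT.nd (nat_lit 78) (nat_lit 152) (nat_lit 0) (XT.lf (nat_lit 0) (nat_lit 739824661) (nat_lit 152) (nat_lit 13779038358) (nat_lit 76) (nat_lit 17225918247) (nat_lit 72) (nat_lit 5) (nat_lit 74) (nat_lit 5) (nat_lit 73) (nat_lit 5) (nat_lit 510) (nat_lit 406) (nat_lit 284)) (XT.lf (nat_lit 0) (nat_lit 5025338960) (nat_lit 152) (nat_lit 4534777087) (nat_lit 228) (nat_lit 22830941225) (nat_lit 70) (nat_lit 5) (nat_lit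 72) (nat_lit 5) (nat_lit 73) (nat_lit 5) (nat_lit 511) (nat_lit 406) (nat_lit 283))) (XT.nd (nat_lit 78) (nat_lit 76) (nat_lit 0) (XT.lf (nat_lit 0) (nat_lit 18825337232) (nat_lit 228) (nat_lit 8462023683) (nat_lit 76) (nat_lit 5763951405) (nat_lit 70) (nat_lit 5) (nat_lit 73) (nat_lit 5) (nat_lit 71) (nat_lit 4) (nat_lit 512) (nat_lit 406) (nat_lit 282)) (XT.lf (nat_lit 0) (nat_lit 11153229656) (nat_lit 76) (nat_lit 17352386978) (nat_lit 152) (nat_lit 5221645723) (nat_lit 69) (nat_lit 5) (nat_lit 70) (nat_lit 5) (nat_lit 71) (nat_lit 4) (nat_lit 513) (nat_lit 406) (nat_lit 281)))))) (XT.nd (nat_lit 546) (nat_lit 532) (nat_lit 0) (XT.nd (nat_lit 234) (nat_lit 304) (nat_lit 0) (XT.nd (nat_lit 78) (nat_lit 228) (nat_lit 0) (XT.lf (nat_lit 0) (nat_lit 4045036093) (nat_lit 152) (nat_lit 2958642079) (nat_lit 76) (nat_lit 27416505114) (nat_lit 68) (nat_lit 5) (nat_lit 70) (nat_lit 5) (nat_lit 69) (nat_lit 5) (nat_lit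 514) (nat_lit 406) (nat_lit 280)) (XT.nd (nat_lit 78) (nat_lit 76) (nat_lit 0) (XT.lf (nat_lit 0) (nat_lit 13675703622) (nat_lit 228) (nat_lit 17657262883) (nat_lit 76) (nat_lit 3793646649) (nat_lit 66) (nat_lit 5) (nat_lit 69) (nat_lit 5) (nat_lit 67) (nat_lit 4) (nat_lit 515) (nat_lit 406) (nat_lit 279)) (XT.lf (nat_lit 0) (nat_lit 2672473659) (nat_lit 76) (nat_lit 21033509683) (nat_lit 152) (nat_lit 12144932152) (nat_lit 65) (nat_lit 5) (nat_lit 66) (nat_lit 5) (nat_lit 67) (nat_lit 4) (nat_lit 516) (nat_lit 406) (nat_lit 278)))) (XT.nd (nat_lit 156) (nat_lit 76) (nat_lit 0) (XT.nd (nat_lit 78) (nat_lit 228) (nat_lit 0) (XT.lf (nat_lit 0) (nat_lit 23946799962) (nat_lit 76) (nat_lit 10254322976) (nat_lit 152) (nat_lit 2390905752) (nat_lit 65) (nat_lit 5) (nat_lit 66) (nat_lit 5) (nat_lit 67) (nat_lit 4) (nat_lit 517) (nat_lit 406) (nat_lit 277)) (XT.lf (nat_lit 0) (nat_lit 7584242850) (nat_lit 228) (nat_lit 28789801954)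 (nat_lit 76) (nat_lit 976786266) (nat_lit 62) (nat_lit 5) (nat_lit 65) (nat_lit 5) (nat_lit 63) (nat_lit 4) (nat_lit 518) (nat_lit 406) (nat_lit 276))) (XT.nd (nat_lit 78) (nat_lit 76) (nat_lit 0) (XT.lf (nat_lit 0) (nat_lit 18027037331) (nat_lit 228) (nat_lit 7619121997) (nat_lit 76) (nat_lit 12479034938) (nat_lit 62) (nat_lit 5) (nat_lit 65) (nat_lit 5) (nat_lit 63) (nat_lit 4) (nat_lit 519) (nat_lit 406) (nat_lit 275)) (XT.lf (nat_lit 0) (nat_lit 14442503461) (nat_lit 76) (nat_lit 14465813253) (nat_lit 152) (nat_lit 10010715905) (nat_lit 61) (nat_lit 5) (nat_lit 62) (nat_lit 5) (nat_lit 63) (nat_lit 4) (nat_lit 520) (nat_lit 406) (nat_lit 274))))) (XT.nd (nat_lit 312) (nat_lit 228) (nat_lit 0) (XT.nd (nat_lit 156) (nat_lit 76) (nat_lit 0) (XT.nd (nat_lit 78) (nat_lit 152) (nat_lit 0) (XT.lf (nat_lit 0) (nat_lit 436032492) (nat_lit 152) (nat_lit 2442640521) (nat_lit 76) (nat_lit 36855981394) (nat_lit 60) (nat_lit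 5) (nat_lit 62) (nat_lit 5) (nat_lit 61) (nat_lit 5) (nat_lit 521) (nat_lit 406) (nat_lit 273)) (XT.lf (nat_lit 0) (nat_lit 11268965230) (nat_lit 228) (nat_lit 20127645599) (nat_lit 76) (nat_lit 9166941187) (nat_lit 58) (nat_lit 5) (nat_lit 61) (nat_lit 5) (nat_lit 59) (nat_lit 4) (nat_lit 522) (nat_lit 406) (nat_lit 272))) (XT.nd (nat_lit 78) (nat_lit 0) (nat_lit 0) (XT.lf (nat_lit 0) (nat_lit 2631622693) (nat_lit 76) (nat_lit 19860784745) (nat_lit 152) (nat_lit 18922943732) (nat_lit 57) (nat_lit 5) (nat_lit 58) (nat_lit 5) (nat_lit 59) (nat_lit 4) (nat_lit 523) (nat_lit 406) (nat_lit 271)) (XT.lf (nat_lit 0) (nat_lit 26461225226) (nat_lit 76) (nat_lit 7781533736) (nat_lit 152) (nat_lit 8044239409) (nat_lit 57) (nat_lit 5) (nat_lit 58) (nat_lit 5) (nat_lit 59) (nat_lit 4) (nat_lit 524) (nat_lit 406) (nat_lit 270)))) (XT.nd (nat_lit 156) (nat_lit 76) (nat_lit 0) (XT.nd (nat_lit 78) (nat_lit 0) (nat_lit 0) (XT.lf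 (nat_lit 0) (nat_lit 3208231630) (nat_lit 152) (nat_lit 35307191564) (nat_lit 76) (nat_lit 4665187979) (nat_lit 55) (nat_lit 5) (nat_lit 57) (nat_lit 5) (nat_lit 56) (nat_lit 4) (nat_lit 525) (nat_lit 406) (nat_lit 269)) (XT.lf (nat_lit 0) (nat_lit 14862269025) (nat_lit 152) (nat_lit 11671103116) (nat_lit 76) (nat_lit 17558500867) (nat_lit 55) (nat_lit 5) (nat_lit 57) (nat_lit 5) (nat_lit 56) (nat_lit 4) (nat_lit 526) (nat_lit 406) (nat_lit 268))) (XT.nd (nat_lit 78) (nat_lit 0) (nat_lit 0) (XT.lf (nat_lit 0) (nat_lit 12901954971) (nat_lit 76) (nat_lit 14075602826) (nat_lit 152) (nat_lit 18049566219) (nat_lit 54) (nat_lit 5) (nat_lit 55) (nat_lit 5) (nat_lit 56) (nat_lit 4) (nat_lit 527) (nat_lit 406) (nat_lit 267)) (XT.lf (nat_lit 0) (nat_lit 38427808432) (nat_lit 76) (nat_lit 1134094473) (nat_lit 152) (nat_lit 6425361938) (nat_lit 54) (nat_lit 5) (nat_lit 55) (nat_lit 5) (nat_lit 56) (nat_lit 4) (nat_lit 528)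 (nat_lit 406) (nat_lit 266))))))))
noncomputable def xc113 : XT := (XT.nd (nat_lit 53508) (nat_lit 0) (nat_lit 14288) (XT.nd (nat_lit 1170) (nat_lit 456) (nat_lit 0) (XT.nd (nat_lit 546) (nat_lit 456) (nat_lit 0) (XT.nd (nat_lit 234) (nat_lit 228) (nat_lit 0) (XT.nd (nat_lit 78) (nat_lit 76) (nat_lit 0) (XT.lf (nat_lit 0) (nat_lit 5719867427) (nat_lit 152) (nat_lit 29070832575) (nat_lit 76) (nat_lit 12175493740) (nat_lit 52) (nat_lit 5) (nat_lit 54) (nat_lit 5) (nat_lit 53) (nat_lit 4) (nat_lit 529) (nat_lit 406) (nat_lit 265)) (XT.nd (nat_lit 78) (nat_lit 76) (nat_lit 0) (XT.lf (nat_lit 0) (nat_lit 18176634619) (nat_lit 152) (nat_lit 3802233963) (nat_lit 76) (nat_lit 25991423871) (nat_lit 52) (nat_lit 5) (nat_lit 54) (nat_lit 5) (nat_lit 53) (nat_lit 4) (nat_lit 530) (nat_lit 406) (nat_lit 264)) (XT.lf (nat_lit 0) (nat_lit 22643743463) (nat_lit 76) (nat_lit 8569380485) (nat_lit 152) (nat_lit 17785209800) (nat_lit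 51) (nat_lit 5) (nat_lit 52) (nat_lit 5) (nat_lit 53) (nat_lit 4) (nat_lit 531) (nat_lit 406) (nat_lit 263)))) (XT.nd (nat_lit 156) (nat_lit 76) (nat_lit 0) (XT.nd (nat_lit 78) (nat_lit 152) (nat_lit 0) (XT.lf (nat_lit 0) (nat_lit 44718250781) (nat_lit 152) (nat_lit 168356583) (nat_lit 0) (nat_lit 5168282821) (nat_lit 51) (nat_lit 5) (nat_lit 53) (nat_lit 4) (nat_lit 51) (nat_lit 4) (nat_lit 532) (nat_lit 406) (nat_lit 262)) (XT.lf (nat_lit 0) (nat_lit 7677931692) (nat_lit 152) (nat_lit 23980326945) (nat_lit 76) (nat_lit 19472567918) (nat_lit 49) (nat_lit 5) (nat_lit 51) (nat_lit 5) (nat_lit 50) (nat_lit 4) (nat_lit 533) (nat_lit 406) (nat_lit 261))) (XT.nd (nat_lit 78) (nat_lit 0) (nat_lit 0) (XT.lf (nat_lit 0) (nat_lit 3037894078) (nat_lit 76) (nat_lit 17957426287) (nat_lit 152) (nat_lit 31241546435) (nat_lit 48) (nat_lit 5) (nat_lit 49) (nat_lit 5) (nat_lit 50) (nat_lit 4) (nat_lit 534) (nat_lit 406) (nat_lit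 260)) (XT.lf (nat_lit 0) (nat_lit 31336535817) (nat_lit 76) (nat_lit 3606691657) (nat_lit 152) (nat_lit 18425931043) (nat_lit 48) (nat_lit 5) (nat_lit 49) (nat_lit 5) (nat_lit 50) (nat_lit 4) (nat_lit 535) (nat_lit 406) (nat_lit 259))))) (XT.nd (nat_lit 312) (nat_lit 228) (nat_lit 0) (XT.nd (nat_lit 156) (nat_lit 76) (nat_lit 0) (XT.nd (nat_lit 78) (nat_lit 76) (nat_lit 0) (XT.lf (nat_lit 0) (nat_lit 5935836768) (nat_lit 76) (nat_lit 43527279765) (nat_lit 76) (nat_lit 5067696273) (nat_lit 47) (nat_lit 4) (nat_lit 48) (nat_lit 5) (nat_lit 48) (nat_lit 4) (nat_lit 536) (nat_lit 406) (nat_lit 258)) (XT.lf (nat_lit 0) (nat_lit 8771163741) (nat_lit 152) (nat_lit 20668406177) (nat_lit 76) (nat_lit 26277756286) (nat_lit 46) (nat_lit 5) (nat_lit 48) (nat_lit 5) (nat_lit 47) (nat_lit 4) (nat_lit 537) (nat_lit 406) (nat_lit 257))) (XT.nd (nat_lit 78) (nat_lit 0) (nat_lit 0) (XT.lf (nat_lit 0) (nat_lit 8184818706) (nat_lit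 76) (nat_lit 14806588331) (nat_lit 152) (nat_lit 33944480664) (nat_lit 45) (nat_lit 5) (nat_lit 46) (nat_lit 5) (nat_lit 47) (nat_lit 4) (nat_lit 538) (nat_lit 406) (nat_lit 256)) (XT.lf (nat_lit 0) (nat_lit 37840997146) (nat_lit 152) (nat_lit 19882738097) (nat_lit 0) (nat_lit 461188759) (nat_lit 45) (nat_lit 5) (nat_lit 47) (nat_lit 4) (nat_lit 45) (nat_lit 4) (nat_lit 539) (nat_lit 406) (nat_lit 255)))) (XT.nd (nat_lit 156) (nat_lit 76) (nat_lit 0) (XT.nd (nat_lit 78) (nat_lit 76) (nat_lit 0) (XT.lf (nat_lit 0) (nat_lit 9877696847) (nat_lit 76) (nat_lit 43489648535) (nat_lit 76) (nat_lit 6097148040) (nat_lit 44) (nat_lit 4) (nat_lit 45) (nat_lit 5) (nat_lit 45) (nat_lit 4) (nat_lit 540) (nat_lit 406) (nat_lit 254)) (XT.lf (nat_lit 0) (nat_lit 8602157238) (nat_lit 152) (nat_lit 19942443735) (nat_lit 76) (nat_lit 32229600892) (nat_lit 43) (nat_lit 5) (nat_lit 45) (nat_lit 5) (nat_lit 44) (nat_lit 4) (nat_lit 541)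 (nat_lit 406) (nat_lit 253))) (XT.nd (nat_lit 78) (nat_lit 0) (nat_lit 0) (XT.lf (nat_lit 0) (nat_lit 10720550970) (nat_lit 76) (nat_lit 12992423132) (nat_lit 152) (nat_lit 38405624184) (nat_lit 42) (nat_lit 5) (nat_lit 43) (nat_lit 5) (nat_lit 44) (nat_lit 4) (nat_lit 542) (nat_lit 406) (nat_lit 252)) (XT.lf (nat_lit 0) (nat_lit 39499620124) (nat_lit 152) (nat_lit 20835665253) (nat_lit 0) (nat_lit 3161366206) (nat_lit 42) (nat_lit 5) (nat_lit 44) (nat_lit 4) (nat_lit 42) (nat_lit 4) (nat_lit 543) (nat_lit 406) (nat_lit 251)))))) (XT.nd (nat_lit 546) (nat_lit 0) (nat_lit 0) (XT.nd (nat_lit 234) (nat_lit 228) (nat_lit 0) (XT.nd (nat_lit 78) (nat_lit 152) (nat_lit 0) (XT.lf (nat_lit 0) (nat_lit 10704878626) (nat_lit 76) (nat_lit 45276857057) (nat_lit 76) (nat_lit 8927654815) (nat_lit 41) (nat_lit 4) (nat_lit 42) (nat_lit 5) (nat_lit 42) (nat_lit 4) (nat_lit 544) (nat_lit 406) (nat_lit 250)) (XT.nd (nat_lit 78) (nat_lit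 76) (nat_lit 0) (XT.lf (nat_lit 0) (nat_lit 6667953561) (nat_lit 152) (nat_lit 22823885952) (nat_lit 76) (nat_lit 36864686091) (nat_lit 40) (nat_lit 5) (nat_lit 42) (nat_lit 5) (nat_lit 41) (nat_lit 4) (nat_lit 545) (nat_lit 406) (nat_lit 249)) (XT.lf (nat_lit 0) (nat_lit 9578255835) (nat_lit 76) (nat_lit 13056427594) (nat_lit 152) (nat_lit 45207258959) (nat_lit 39) (nat_lit 5) (nat_lit 40) (nat_lit 5) (nat_lit 41) (nat_lit 4) (nat_lit 546) (nat_lit 406) (nat_lit 248)))) (XT.nd (nat_lit 156) (nat_lit 152) (nat_lit 0) (XT.nd (nat_lit 78) (nat_lit 76) (nat_lit 0) (XT.lf (nat_lit 0) (nat_lit 39341024231) (nat_lit 152) (nat_lit 26002609219) (nat_lit 0) (nat_lit 4020470061) (nat_lit 39) (nat_lit 5) (nat_lit 41) (nat_lit 4) (nat_lit 39) (nat_lit 4) (nat_lit 547) (nat_lit 406) (nat_lit 247)) (XT.lf (nat_lit 0) (nat_lit 7220025763) (nat_lit 76) (nat_lit 49518107383) (nat_lit 76) (nat_lit 14188109092) (nat_lit 38) (nat_lit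 4) (nat_lit 39) (nat_lit 5) (nat_lit 39) (nat_lit 4) (nat_lit 548) (nat_lit 406) (nat_lit 246))) (XT.nd (nat_lit 78) (nat_lit 76) (nat_lit 0) (XT.lf (nat_lit 0) (nat_lit 2336587667) (nat_lit 152) (nat_lit 30595894374) (nat_lit 76) (nat_lit 39594468762) (nat_lit 37) (nat_lit 5) (nat_lit 39) (nat_lit 5) (nat_lit 38) (nat_lit 4) (nat_lit 549) (nat_lit 406) (nat_lit 245)) (XT.lf (nat_lit 0) (nat_lit 3416554177) (nat_lit 76) (nat_lit 15679319470) (nat_lit 152) (nat_lit 55074872326) (nat_lit 36) (nat_lit 5) (nat_lit 37) (nat_lit 5) (nat_lit 38) (nat_lit 4) (nat_lit 550) (nat_lit 406) (nat_lit 244))))) (XT.nd (nat_lit 51480) (nat_lit 0) (nat_lit 27512) (XT.nd (nat_lit 51324) (nat_lit 0) (nat_lit 28120) (XT.nd (nat_lit 51246) (nat_lit 0) (nat_lit 28652) (XT.lf (nat_lit 0) (nat_lit 36681243451) (nat_lit 152) (nat_lit 36818573921) (nat_lit 0) (nat_lit 2354338562) (nat_lit 36) (nat_lit 5) (nat_lit 38) (nat_lit 4) (nat_lit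 36) (nat_lit 4) (nat_lit 551) (nat_lit 406) (nat_lit 243)) (XT.lf (nat_lit 0) (nat_lit 2921322635) (nat_lit 532) (nat_lit 201847327) (nat_lit 532) (nat_lit 201847327) (nat_lit 413) (nat_lit 3) (nat_lit 420) (nat_lit 3) (nat_lit 420) (nat_lit 5) (nat_lit 407) (nat_lit 407) (nat_lit 386))) (XT.nd (nat_lit 78) (nat_lit 0) (nat_lit 0) (XT.lf (nat_lit 0) (nat_lit 1489439873) (nat_lit 532) (nat_lit 3748286821) (nat_lit 608) (nat_lit 1443034071) (nat_lit 406) (nat_lit 5) (nat_lit 413) (nat_lit 3) (nat_lit 414) (nat_lit 5) (nat_lit 408) (nat_lit 407) (nat_lit 385)) (XT.lf (nat_lit 0) (nat_lit 3754246252) (nat_lit 532) (nat_lit 391065447) (nat_lit 608) (nat_lit 2569416648) (nat_lit 406) (nat_lit 5) (nat_lit 413) (nat_lit 3) (nat_lit 414) (nat_lit 5) (nat_lit 409) (nat_lit 407) (nat_lit 384)))) (XT.nd (nat_lit 156) (nat_lit 0) (nat_lit 0) (XT.nd (nat_lit 78) (nat_lit 608) (nat_lit 0) (XT.lf (nat_lit 76) (nat_lit 3080629823)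 (nat_lit 0) (nat_lit 2949749955) (nat_lit 608) (nat_lit 721051582) (nat_lit 407) (nat_lit 5) (nat_lit 406) (nat_lit 5) (nat_lit 414) (nat_lit 5) (nat_lit 410) (nat_lit 407) (nat_lit 383)) (XT.lf (nat_lit 0) (nat_lit 1473599989) (nat_lit 608) (nat_lit 187516250) (nat_lit 684) (nat_lit 5130109501) (nat_lit 398) (nat_lit 5) (nat_lit 406) (nat_lit 5) (nat_lit 407) (nat_lit 5) (nat_lit 411) (nat_lit 407) (nat_lit 382))) (XT.nd (nat_lit 78) (nat_lit 0) (nat_lit 76) (XT.lf (nat_lit 76) (nat_lit 3413513979) (nat_lit 0) (nat_lit 256363580) (nat_lit 684) (nat_lit 3163630227) (nat_lit 399) (nat_lit 5) (nat_lit 398) (nat_lit 5) (nat_lit 407) (nat_lit 5) (nat_lit 412) (nat_lit 407) (nat_lit 381)) (XT.lf (nat_lit 76) (nat_lit 193185641) (nat_lit 0) (nat_lit 5673835762) (nat_lit 684) (nat_lit 1012003449) (nat_lit 400) (nat_lit 5) (nat_lit 399) (nat_lit 5) (nat_lit 408) (nat_lit 5) (nat_lit 413) (nat_lit 407) (nat_lit 380)))))))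 (XT.nd (nat_lit 1170) (nat_lit 7220) (nat_lit 0) (XT.nd (nat_lit 546) (nat_lit 4712) (nat_lit 0) (XT.nd (nat_lit 234) (nat_lit 684) (nat_lit 0) (XT.nd (nat_lit 78) (nat_lit 0) (nat_lit 0) (XT.lf (nat_lit 0) (nat_lit 1138938296) (nat_lit 684) (nat_lit 3004112954) (nat_lit 760) (nat_lit 2783775989) (nat_lit 390) (nat_lit 5) (nat_lit 399) (nat_lit 5) (nat_lit 400) (nat_lit 5) (nat_lit 414) (nat_lit 407) (nat_lit 379)) (XT.nd (nat_lit 78) (nat_lit 0) (nat_lit 0) (XT.lf (nat_lit 76) (nat_lit 744363524) (nat_lit 0) (nat_lit 2520013645) (nat_lit 760) (nat_lit 3713491208) (nat_lit 391) (nat_lit 5) (nat_lit 390) (nat_lit 5) (nat_lit 400) (nat_lit 5) (nat_lit 415) (nat_lit 407) (nat_lit 378)) (XT.lf (nat_lit 76) (nat_lit 4619141344) (nat_lit 0) (nat_lit 789706767) (nat_lit 760) (nat_lit 1622948695) (nat_lit 391) (nat_lit 5) (nat_lit 390) (nat_lit 5) (nat_lit 400) (nat_lit 5) (nat_lit 416) (nat_lit 407) (nat_lit 377)))) (XT.nd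 (nat_lit 156) (nat_lit 0) (nat_lit 0) (XT.nd (nat_lit 78) (nat_lit 0) (nat_lit 0) (XT.lf (nat_lit 0) (nat_lit 470738936) (nat_lit 760) (nat_lit 5599808091) (nat_lit 836) (nat_lit 1018133130) (nat_lit 381) (nat_lit 5) (nat_lit 391) (nat_lit 5) (nat_lit 392) (nat_lit 5) (nat_lit 417) (nat_lit 407) (nat_lit 376)) (XT.lf (nat_lit 0) (nat_lit 2555350506) (nat_lit 760) (nat_lit 1663526009) (nat_lit 836) (nat_lit 2929102367) (nat_lit 381) (nat_lit 5) (nat_lit 391) (nat_lit 5) (nat_lit 392) (nat_lit 5) (nat_lit 418) (nat_lit 407) (nat_lit 375))) (XT.nd (nat_lit 78) (nat_lit 0) (nat_lit 0) (XT.lf (nat_lit 76) (nat_lit 2389154388) (nat_lit 0) (nat_lit 2266709896) (nat_lit 836) (nat_lit 2554603917) (nat_lit 382) (nat_lit 5) (nat_lit 381) (nat_lit 5) (nat_lit 392) (nat_lit 5) (nat_lit 419) (nat_lit 407) (nat_lit 374)) (XT.lf (nat_lit 76) (nat_lit 6549678335) (nat_lit 0) (nat_lit 218478744) (nat_lit 836) (nat_lit 508224397)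 (nat_lit 382) (nat_lit 5) (nat_lit 381) (nat_lit 5) (nat_lit 392) (nat_lit 5) (nat_lit 420) (nat_lit 407) (nat_lit 373))))) (XT.nd (nat_lit 312) (nat_lit 2128) (nat_lit 0) (XT.nd (nat_lit 156) (nat_lit 988) (nat_lit 0) (XT.nd (nat_lit 78) (nat_lit 836) (nat_lit 0) (XT.lf (nat_lit 0) (nat_lit 1554064970) (nat_lit 836) (nat_lit 3867859920) (nat_lit 76) (nat_lit 1922325526) (nat_lit 371) (nat_lit 5) (nat_lit 382) (nat_lit 5) (nat_lit 372) (nat_lit 5) (nat_lit 421) (nat_lit 407) (nat_lit 372)) (XT.lf (nat_lit 0) (nat_lit 356777330) (nat_lit 836) (nat_lit 3259176444) (nat_lit 912) (nat_lit 3799623475) (nat_lit 360) (nat_lit 5) (nat_lit 371) (nat_lit 5) (nat_lit 372) (nat_lit 5) (nat_lit 422) (nat_lit 407) (nat_lit 371))) (XT.nd (nat_lit 78) (nat_lit 988) (nat_lit 0) (XT.lf (nat_lit 0) (nat_lit 4738470578) (nat_lit 836) (nat_lit 976652542) (nat_lit 912) (nat_lit 1774668878) (nat_lit 360) (nat_lit 5) (nat_lit 371) (nat_lit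 5) (nat_lit 372) (nat_lit 5) (nat_lit 423) (nat_lit 407) (nat_lit 370)) (XT.lf (nat_lit 0) (nat_lit 272108122) (nat_lit 988) (nat_lit 5914968269) (nat_lit 76) (nat_lit 1380063009) (nat_lit 347) (nat_lit 5) (nat_lit 360) (nat_lit 5) (nat_lit 348) (nat_lit 5) (nat_lit 424) (nat_lit 407) (nat_lit 369)))) (XT.nd (nat_lit 156) (nat_lit 1140) (nat_lit 0) (XT.nd (nat_lit 78) (nat_lit 988) (nat_lit 0) (XT.lf (nat_lit 0) (nat_lit 2321420172) (nat_lit 988) (nat_lit 1479603414) (nat_lit 76) (nat_lit 3845962391) (nat_lit 347) (nat_lit 5) (nat_lit 360) (nat_lit 5) (nat_lit 348) (nat_lit 5) (nat_lit 425) (nat_lit 407) (nat_lit 368)) (XT.lf (nat_lit 0) (nat_lit 3100507318) (nat_lit 988) (nat_lit 1302355779) (nat_lit 1064) (nat_lit 3327254926) (nat_lit 334) (nat_lit 5) (nat_lit 347) (nat_lit 5) (nat_lit 348) (nat_lit 5) (nat_lit 426) (nat_lit 407) (nat_lit 367))) (XT.nd (nat_lit 78) (nat_lit 1140) (nat_lit 0) (XT.lf (nat_lit 0)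 (nat_lit 6516256206) (nat_lit 1064) (nat_lit 29488735) (nat_lit 76) (nat_lit 1270923221) (nat_lit 334) (nat_lit 5) (nat_lit 348) (nat_lit 5) (nat_lit 335) (nat_lit 5) (nat_lit 427) (nat_lit 407) (nat_lit 366)) (XT.lf (nat_lit 0) (nat_lit 774223605) (nat_lit 1140) (nat_lit 3173832117) (nat_lit 76) (nat_lit 3957470390) (nat_lit 319) (nat_lit 5) (nat_lit 334) (nat_lit 5) (nat_lit 320) (nat_lit 5) (nat_lit 428) (nat_lit 407) (nat_lit 365)))))) (XT.nd (nat_lit 624) (nat_lit 2736) (nat_lit 0) (XT.nd (nat_lit 312) (nat_lit 1292) (nat_lit 0) (XT.nd (nat_lit 156) (nat_lit 2052) (nat_lit 0) (XT.nd (nat_lit 78) (nat_lit 0) (nat_lit 0) (XT.lf (nat_lit 0) (nat_lit 1608433226) (nat_lit 1140) (nat_lit 1236789346) (nat_lit 1216) (nat_lit 5152641672) (nat_lit 304) (nat_lit 5) (nat_lit 319) (nat_lit 5) (nat_lit 320) (nat_lit 5) (nat_lit 429) (nat_lit 407) (nat_lit 364)) (XT.lf (nat_lit 0) (nat_lit 4971372648) (nat_lit 1216) (nat_lit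 1558615271) (nat_lit 76) (nat_lit 1563202263) (nat_lit 304) (nat_lit 5) (nat_lit 320) (nat_lit 5) (nat_lit 305) (nat_lit 5) (nat_lit 430) (nat_lit 407) (nat_lit 363))) (XT.nd (nat_lit 78) (nat_lit 836) (nat_lit 0) (XT.lf (nat_lit 0) (nat_lit 3422580513) (nat_lit 1216) (nat_lit 3731152565) (nat_lit 1292) (nat_lit 1037878098) (nat_lit 288) (nat_lit 5) (nat_lit 304) (nat_lit 5) (nat_lit 305) (nat_lit 5) (nat_lit 431) (nat_lit 407) (nat_lit 362)) (XT.lf (nat_lit 0) (nat_lit 236807904) (nat_lit 760) (nat_lit 816140081) (nat_lit 836) (nat_lit 7240744693) (nat_lit 277) (nat_lit 5) (nat_lit 287) (nat_lit 5) (nat_lit 288) (nat_lit 5) (nat_lit 432) (nat_lit 407) (nat_lit 361)))) (XT.nd (nat_lit 156) (nat_lit 684) (nat_lit 0) (XT.nd (nat_lit 78) (nat_lit 608) (nat_lit 0) (XT.lf (nat_lit 0) (nat_lit 3204184955) (nat_lit 836) (nat_lit 2989302567) (nat_lit 76) (nat_lit 2204491802) (nat_lit 277) (nat_lit 5) (nat_lit 288) (nat_lit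 5) (nat_lit 278) (nat_lit 5) (nat_lit 433) (nat_lit 407) (nat_lit 360)) (XT.lf (nat_lit 0) (nat_lit 2216226811) (nat_lit 608) (nat_lit 3183500506) (nat_lit 684) (nat_lit 3106281358) (nat_lit 269) (nat_lit 5) (nat_lit 277) (nat_lit 5) (nat_lit 278) (nat_lit 5) (nat_lit 434) (nat_lit 407) (nat_lit 359))) (XT.nd (nat_lit 78) (nat_lit 684) (nat_lit 0) (XT.lf (nat_lit 0) (nat_lit 7590436380) (nat_lit 608) (nat_lit 52246011) (nat_lit 684) (nat_lit 975157072) (nat_lit 269) (nat_lit 5) (nat_lit 277) (nat_lit 5) (nat_lit 278) (nat_lit 5) (nat_lit 435) (nat_lit 407) (nat_lit 358)) (XT.lf (nat_lit 0) (nat_lit 1221908988) (nat_lit 684) (nat_lit 4344814392) (nat_lit 76) (nat_lit 3165182168) (nat_lit 260) (nat_lit 5) (nat_lit 269) (nat_lit 5) (nat_lit 261) (nat_lit 5) (nat_lit 436) (nat_lit 407) (nat_lit 357))))) (XT.nd (nat_lit 312) (nat_lit 1064) (nat_lit 0) (XT.nd (nat_lit 156) (nat_lit 1140) (nat_lit 0) (XT.nd (nat_lit 78)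 (nat_lit 0) (nat_lit 0) (XT.lf (nat_lit 0) (nat_lit 1097923334) (nat_lit 532) (nat_lit 2342134888) (nat_lit 608) (nat_lit 5409808977) (nat_lit 253) (nat_lit 5) (nat_lit 260) (nat_lit 5) (nat_lit 261) (nat_lit 5) (nat_lit 437) (nat_lit 407) (nat_lit 356)) (XT.lf (nat_lit 0) (nat_lit 5732561675) (nat_lit 608) (nat_lit 2236988131) (nat_lit 76) (nat_lit 1001589773) (nat_lit 253) (nat_lit 5) (nat_lit 261) (nat_lit 5) (nat_lit 254) (nat_lit 5) (nat_lit 438) (nat_lit 407) (nat_lit 355))) (XT.nd (nat_lit 78) (nat_lit 608) (nat_lit 0) (XT.lf (nat_lit 0) (nat_lit 3438689888) (nat_lit 532) (nat_lit 4666820465) (nat_lit 608) (nat_lit 990195668) (nat_lit 246) (nat_lit 5) (nat_lit 253) (nat_lit 5) (nat_lit 254) (nat_lit 5) (nat_lit 439) (nat_lit 407) (nat_lit 354)) (XT.lf (nat_lit 0) (nat_lit 46048420) (nat_lit 532) (nat_lit 1232799570) (nat_lit 608) (nat_lit 7945412491) (nat_lit 238) (nat_lit 5) (nat_lit 245) (nat_lit 5) (nat_lit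 246) (nat_lit 5) (nat_lit 440) (nat_lit 407) (nat_lit 353)))) (XT.nd (nat_lit 156) (nat_lit 532) (nat_lit 0) (XT.nd (nat_lit 78) (nat_lit 532) (nat_lit 0) (XT.lf (nat_lit 0) (nat_lit 3632493414) (nat_lit 608) (nat_lit 3401130423) (nat_lit 76) (nat_lit 2321666134) (nat_lit 238) (nat_lit 5) (nat_lit 246) (nat_lit 5) (nat_lit 239) (nat_lit 5) (nat_lit 441) (nat_lit 407) (nat_lit 352)) (XT.lf (nat_lit 0) (nat_lit 2538217103) (nat_lit 532) (nat_lit 3512992491) (nat_lit 608) (nat_lit 3439212236) (nat_lit 231) (nat_lit 5) (nat_lit 238) (nat_lit 5) (nat_lit 239) (nat_lit 5) (nat_lit 442) (nat_lit 407) (nat_lit 351))) (XT.nd (nat_lit 78) (nat_lit 532) (nat_lit 0) (XT.lf (nat_lit 0) (nat_lit 8536821722) (nat_lit 608) (nat_lit 953621107) (nat_lit 76) (nat_lit 139339951) (nat_lit 231) (nat_lit 5) (nat_lit 239) (nat_lit 5) (nat_lit 232) (nat_lit 5) (nat_lit 443) (nat_lit 407) (nat_lit 350)) (XT.lf (nat_lit 0) (nat_lit 1343254799)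 (nat_lit 532) (nat_lit 4540316682) (nat_lit 76) (nat_lit 3888014025) (nat_lit 224) (nat_lit 5) (nat_lit 231) (nat_lit 5) (nat_lit 225) (nat_lit 5) (nat_lit 444) (nat_lit 407) (nat_lit 349))))))))
noncomputable def xc114 : XT := (XT.nd (nat_lit 2340) (nat_lit 4104) (nat_lit 0) (XT.nd (nat_lit 1170) (nat_lit 2812) (nat_lit 0) (XT.nd (nat_lit 546) (nat_lit 2356) (nat_lit 0) (XT.nd (nat_lit 234) (nat_lit 912) (nat_lit 0) (XT.nd (nat_lit 78) (nat_lit 456) (nat_lit 0) (XT.lf (nat_lit 0) (nat_lit 1677740047) (nat_lit 456) (nat_lit 2138792335) (nat_lit 532) (nat_lit 6101211740) (nat_lit 218) (nat_lit 5) (nat_lit 224) (nat_lit 5) (nat_lit 225) (nat_lit 5) (nat_lit 445) (nat_lit 407) (nat_lit 348)) (XT.nd (nat_lit 78) (nat_lit 456) (nat_lit 0) (XT.lf (nat_lit 0) (nat_lit 6387544197) (nat_lit 532) (nat_lit 1957085848) (nat_lit 76) (nat_lit 1722955968) (nat_lit 218) (nat_lit 5) (nat_lit 225) (nat_lit 5) (nat_lit 219) (nat_lit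 5) (nat_lit 446) (nat_lit 407) (nat_lit 347)) (XT.lf (nat_lit 0) (nat_lit 4534429995) (nat_lit 456) (nat_lit 4527880465) (nat_lit 532) (nat_lit 1158818438) (nat_lit 212) (nat_lit 5) (nat_lit 218) (nat_lit 5) (nat_lit 219) (nat_lit 5) (nat_lit 447) (nat_lit 407) (nat_lit 346)))) (XT.nd (nat_lit 156) (nat_lit 380) (nat_lit 0) (XT.nd (nat_lit 78) (nat_lit 0) (nat_lit 0) (XT.lf (nat_lit 0) (nat_lit 836945606) (nat_lit 456) (nat_lit 563184828) (nat_lit 532) (nat_lit 8979032635) (nat_lit 205) (nat_lit 5) (nat_lit 211) (nat_lit 5) (nat_lit 212) (nat_lit 5) (nat_lit 448) (nat_lit 407) (nat_lit 345)) (XT.lf (nat_lit 0) (nat_lit 4067093064) (nat_lit 532) (nat_lit 2961278888) (nat_lit 76) (nat_lit 3511590097) (nat_lit 205) (nat_lit 5) (nat_lit 212) (nat_lit 5) (nat_lit 206) (nat_lit 5) (nat_lit 449) (nat_lit 407) (nat_lit 344))) (XT.nd (nat_lit 78) (nat_lit 0) (nat_lit 0) (XT.lf (nat_lit 0) (nat_lit 3839787591) (nat_lit 380)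 (nat_lit 2980552379) (nat_lit 456) (nat_lit 3885060730) (nat_lit 200) (nat_lit 5) (nat_lit 205) (nat_lit 5) (nat_lit 206) (nat_lit 5) (nat_lit 450) (nat_lit 407) (nat_lit 343)) (XT.lf (nat_lit 0) (nat_lit 9662107716) (nat_lit 456) (nat_lit 28203533) (nat_lit 76) (nat_lit 1185317407) (nat_lit 200) (nat_lit 5) (nat_lit 206) (nat_lit 5) (nat_lit 201) (nat_lit 5) (nat_lit 451) (nat_lit 407) (nat_lit 342))))) (XT.nd (nat_lit 312) (nat_lit 1064) (nat_lit 0) (XT.nd (nat_lit 156) (nat_lit 380) (nat_lit 0) (XT.nd (nat_lit 78) (nat_lit 380) (nat_lit 0) (XT.lf (nat_lit 0) (nat_lit 1571646479) (nat_lit 532) (nat_lit 3987362164) (nat_lit 76) (nat_lit 5489609961) (nat_lit 193) (nat_lit 5) (nat_lit 200) (nat_lit 5) (nat_lit 194) (nat_lit 5) (nat_lit 452) (nat_lit 407) (nat_lit 341)) (XT.lf (nat_lit 0) (nat_lit 3140420723) (nat_lit 380) (nat_lit 1271603147) (nat_lit 456) (nat_lit 6814536084) (nat_lit 188) (nat_lit 5) (nat_lit 193)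 (nat_lit 5) (nat_lit 194) (nat_lit 5) (nat_lit 453) (nat_lit 407) (nat_lit 340))) (XT.nd (nat_lit 78) (nat_lit 380) (nat_lit 0) (XT.lf (nat_lit 0) (nat_lit 7374524229) (nat_lit 456) (nat_lit 921968733) (nat_lit 76) (nat_lit 3112242651) (nat_lit 188) (nat_lit 5) (nat_lit 194) (nat_lit 5) (nat_lit 189) (nat_lit 5) (nat_lit 454) (nat_lit 407) (nat_lit 339)) (XT.lf (nat_lit 0) (nat_lit 6526764969) (nat_lit 380) (nat_lit 3941475971) (nat_lit 456) (nat_lit 1126868680) (nat_lit 183) (nat_lit 5) (nat_lit 188) (nat_lit 5) (nat_lit 189) (nat_lit 5) (nat_lit 455) (nat_lit 407) (nat_lit 338)))) (XT.nd (nat_lit 156) (nat_lit 684) (nat_lit 0) (XT.nd (nat_lit 78) (nat_lit 0) (nat_lit 0) (XT.lf (nat_lit 0) (nat_lit 1836693275) (nat_lit 380) (nat_lit 9377360574) (nat_lit 76) (nat_lit 572322192) (nat_lit 178) (nat_lit 5) (nat_lit 183) (nat_lit 5) (nat_lit 179) (nat_lit 5) (nat_lit 456) (nat_lit 407) (nat_lit 337)) (XT.lf (nat_lit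 0) (nat_lit 4924845059) (nat_lit 380) (nat_lit 1863691147) (nat_lit 76) (nat_lit 5192762614) (nat_lit 178) (nat_lit 5) (nat_lit 183) (nat_lit 5) (nat_lit 179) (nat_lit 5) (nat_lit 457) (nat_lit 407) (nat_lit 336))) (XT.nd (nat_lit 78) (nat_lit 304) (nat_lit 0) (XT.lf (nat_lit 0) (nat_lit 5947018418) (nat_lit 380) (nat_lit 2184352777) (nat_lit 456) (nat_lit 4049929143) (nat_lit 173) (nat_lit 5) (nat_lit 178) (nat_lit 5) (nat_lit 179) (nat_lit 5) (nat_lit 458) (nat_lit 407) (nat_lit 335)) (XT.lf (nat_lit 0) (nat_lit 1605277507) (nat_lit 304) (nat_lit 9856772044) (nat_lit 380) (nat_lit 924416518) (nat_lit 169) (nat_lit 5) (nat_lit 173) (nat_lit 5) (nat_lit 174) (nat_lit 5) (nat_lit 459) (nat_lit 407) (nat_lit 334)))))) (XT.nd (nat_lit 546) (nat_lit 1444) (nat_lit 0) (XT.nd (nat_lit 234) (nat_lit 684) (nat_lit 0) (XT.nd (nat_lit 78) (nat_lit 608) (nat_lit 0) (XT.lf (nat_lit 0) (nat_lit 2304389001) (nat_lit 380) (nat_lit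 2877354500) (nat_lit 76) (nat_lit 7413754926) (nat_lit 168) (nat_lit 5) (nat_lit 173) (nat_lit 5) (nat_lit 169) (nat_lit 5) (nat_lit 460) (nat_lit 407) (nat_lit 333)) (XT.nd (nat_lit 78) (nat_lit 304) (nat_lit 0) (XT.lf (nat_lit 0) (nat_lit 5314489933) (nat_lit 304) (nat_lit 318078852) (nat_lit 380) (nat_lit 7177328311) (nat_lit 164) (nat_lit 5) (nat_lit 168) (nat_lit 5) (nat_lit 169) (nat_lit 5) (nat_lit 461) (nat_lit 407) (nat_lit 332)) (XT.lf (nat_lit 0) (nat_lit 705614537) (nat_lit 304) (nat_lit 8406533428) (nat_lit 380) (nat_lit 3917035686) (nat_lit 160) (nat_lit 5) (nat_lit 164) (nat_lit 5) (nat_lit 165) (nat_lit 5) (nat_lit 462) (nat_lit 407) (nat_lit 331)))) (XT.nd (nat_lit 156) (nat_lit 304) (nat_lit 0) (XT.nd (nat_lit 78) (nat_lit 380) (nat_lit 0) (XT.lf (nat_lit 0) (nat_lit 9259548726) (nat_lit 304) (nat_lit 3486148976) (nat_lit 380) (nat_lit 507866073) (nat_lit 160) (nat_lit 5) (nat_lit 164) (nat_lit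 5) (nat_lit 165) (nat_lit 5) (nat_lit 463) (nat_lit 407) (nat_lit 330)) (XT.lf (nat_lit 0) (nat_lit 2976356823) (nat_lit 380) (nat_lit 8895610725) (nat_lit 76) (nat_lit 1610902249) (nat_lit 155) (nat_lit 5) (nat_lit 160) (nat_lit 5) (nat_lit 156) (nat_lit 5) (nat_lit 464) (nat_lit 407) (nat_lit 329))) (XT.nd (nat_lit 78) (nat_lit 304) (nat_lit 0) (XT.lf (nat_lit 0) (nat_lit 6601780053) (nat_lit 380) (nat_lit 293095390) (nat_lit 76) (nat_lit 6822624528) (nat_lit 155) (nat_lit 5) (nat_lit 160) (nat_lit 5) (nat_lit 156) (nat_lit 5) (nat_lit 465) (nat_lit 407) (nat_lit 328)) (XT.lf (nat_lit 0) (nat_lit 8695277285) (nat_lit 304) (nat_lit 1696733098) (nat_lit 380) (nat_lit 3565479530) (nat_lit 151) (nat_lit 5) (nat_lit 155) (nat_lit 5) (nat_lit 156) (nat_lit 5) (nat_lit 466) (nat_lit 407) (nat_lit 327))))) (XT.nd (nat_lit 312) (nat_lit 532) (nat_lit 0) (XT.nd (nat_lit 156) (nat_lit 532) (nat_lit 0) (XT.nd (nat_lit 78)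 (nat_lit 0) (nat_lit 0) (XT.lf (nat_lit 0) (nat_lit 136873506) (nat_lit 380) (nat_lit 10454058335) (nat_lit 76) (nat_lit 3612301867) (nat_lit 146) (nat_lit 5) (nat_lit 151) (nat_lit 5) (nat_lit 147) (nat_lit 5) (nat_lit 467) (nat_lit 407) (nat_lit 326)) (XT.lf (nat_lit 0) (nat_lit 3921948456) (nat_lit 380) (nat_lit 1410898563) (nat_lit 76) (nat_lit 9121146336) (nat_lit 146) (nat_lit 5) (nat_lit 151) (nat_lit 5) (nat_lit 147) (nat_lit 5) (nat_lit 468) (nat_lit 407) (nat_lit 325))) (XT.nd (nat_lit 78) (nat_lit 304) (nat_lit 0) (XT.lf (nat_lit 0) (nat_lit 7872719716) (nat_lit 304) (nat_lit 6693199544) (nat_lit 76) (nat_lit 144794158) (nat_lit 143) (nat_lit 5) (nat_lit 147) (nat_lit 5) (nat_lit 144) (nat_lit 5) (nat_lit 469) (nat_lit 407) (nat_lit 324)) (XT.lf (nat_lit 0) (nat_lit 2742266180) (nat_lit 304) (nat_lit 9267174172) (nat_lit 380) (nat_lit 2963673836) (nat_lit 139) (nat_lit 5) (nat_lit 143) (nat_lit 5) (nat_lit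 144) (nat_lit 5) (nat_lit 470) (nat_lit 407) (nat_lit 323)))) (XT.nd (nat_lit 156) (nat_lit 228) (nat_lit 0) (XT.nd (nat_lit 78) (nat_lit 228) (nat_lit 0) (XT.lf (nat_lit 0) (nat_lit 1049083008) (nat_lit 380) (nat_lit 2695311021) (nat_lit 76) (nat_lit 11497431245) (nat_lit 138) (nat_lit 5) (nat_lit 143) (nat_lit 5) (nat_lit 139) (nat_lit 5) (nat_lit 471) (nat_lit 407) (nat_lit 322)) (XT.lf (nat_lit 0) (nat_lit 5186104464) (nat_lit 304) (nat_lit 8338734107) (nat_lit 76) (nat_lit 1990977089) (nat_lit 135) (nat_lit 5) (nat_lit 139) (nat_lit 5) (nat_lit 136) (nat_lit 5) (nat_lit 472) (nat_lit 407) (nat_lit 321))) (XT.nd (nat_lit 78) (nat_lit 0) (nat_lit 0) (XT.lf (nat_lit 0) (nat_lit 1556297667) (nat_lit 228) (nat_lit 7945414251) (nat_lit 304) (nat_lit 6294681260) (nat_lit 132) (nat_lit 5) (nat_lit 135) (nat_lit 5) (nat_lit 136) (nat_lit 5) (nat_lit 473) (nat_lit 407) (nat_lit 320)) (XT.lf (nat_lit 0) (nat_lit 11879095991)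 (nat_lit 228) (nat_lit 2127196456) (nat_lit 304) (nat_lit 2077312063) (nat_lit 132) (nat_lit 5) (nat_lit 135) (nat_lit 5) (nat_lit 136) (nat_lit 5) (nat_lit 474) (nat_lit 407) (nat_lit 319))))))) (XT.nd (nat_lit 1170) (nat_lit 1824) (nat_lit 0) (XT.nd (nat_lit 546) (nat_lit 1064) (nat_lit 0) (XT.nd (nat_lit 234) (nat_lit 684) (nat_lit 0) (XT.nd (nat_lit 78) (nat_lit 228) (nat_lit 0) (XT.lf (nat_lit 0) (nat_lit 2295467226) (nat_lit 304) (nat_lit 10223693626) (nat_lit 76) (nat_lit 3857425692) (nat_lit 128) (nat_lit 5) (nat_lit 132) (nat_lit 5) (nat_lit 129) (nat_lit 5) (nat_lit 475) (nat_lit 407) (nat_lit 318)) (XT.nd (nat_lit 78) (nat_lit 0) (nat_lit 0) (XT.lf (nat_lit 0) (nat_lit 151501683) (nat_lit 228) (nat_lit 6647538239) (nat_lit 304) (nat_lit 9877461729) (nat_lit 125) (nat_lit 5) (nat_lit 128) (nat_lit 5) (nat_lit 129) (nat_lit 5) (nat_lit 476) (nat_lit 407) (nat_lit 317)) (XT.lf (nat_lit 0) (nat_lit 11008390183)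 (nat_lit 228) (nat_lit 508859260) (nat_lit 304) (nat_lit 5465780331) (nat_lit 125) (nat_lit 5) (nat_lit 128) (nat_lit 5) (nat_lit 129) (nat_lit 5) (nat_lit 477) (nat_lit 407) (nat_lit 316)))) (XT.nd (nat_lit 156) (nat_lit 380) (nat_lit 0) (XT.nd (nat_lit 78) (nat_lit 76) (nat_lit 0) (XT.lf (nat_lit 0) (nat_lit 4893283242) (nat_lit 228) (nat_lit 11563483736) (nat_lit 304) (nat_lit 839595318) (nat_lit 122) (nat_lit 5) (nat_lit 125) (nat_lit 5) (nat_lit 126) (nat_lit 5) (nat_lit 478) (nat_lit 407) (nat_lit 315)) (XT.lf (nat_lit 0) (nat_lit 3891661825) (nat_lit 304) (nat_lit 1489564700) (nat_lit 76) (nat_lit 12235451058) (nat_lit 121) (nat_lit 5) (nat_lit 125) (nat_lit 5) (nat_lit 122) (nat_lit 5) (nat_lit 479) (nat_lit 407) (nat_lit 314))) (XT.nd (nat_lit 78) (nat_lit 152) (nat_lit 0) (XT.lf (nat_lit 0) (nat_lit 8831085534) (nat_lit 304) (nat_lit 8055836725) (nat_lit 76) (nat_lit 1056938858) (nat_lit 118) (nat_lit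 5) (nat_lit 122) (nat_lit 5) (nat_lit 119) (nat_lit 5) (nat_lit 480) (nat_lit 407) (nat_lit 313)) (XT.lf (nat_lit 0) (nat_lit 3330981200) (nat_lit 152) (nat_lit 10665941028) (nat_lit 228) (nat_lit 4281592271) (nat_lit 116) (nat_lit 5) (nat_lit 118) (nat_lit 5) (nat_lit 119) (nat_lit 5) (nat_lit 481) (nat_lit 407) (nat_lit 312))))) (XT.nd (nat_lit 312) (nat_lit 608) (nat_lit 0) (XT.nd (nat_lit 156) (nat_lit 152) (nat_lit 0) (XT.nd (nat_lit 78) (nat_lit 228) (nat_lit 0) (XT.lf (nat_lit 0) (nat_lit 740939361) (nat_lit 228) (nat_lit 3441438552) (nat_lit 76) (nat_lit 14438831498) (nat_lit 115) (nat_lit 5) (nat_lit 118) (nat_lit 5) (nat_lit 116) (nat_lit 5) (nat_lit 482) (nat_lit 407) (nat_lit 311)) (XT.lf (nat_lit 0) (nat_lit 5913297499) (nat_lit 304) (nat_lit 10499568768) (nat_lit 76) (nat_lit 2557492097) (nat_lit 112) (nat_lit 5) (nat_lit 116) (nat_lit 5) (nat_lit 113) (nat_lit 5) (nat_lit 483) (nat_lit 407) (nat_lit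 310))) (XT.nd (nat_lit 78) (nat_lit 0) (nat_lit 0) (XT.lf (nat_lit 0) (nat_lit 1431402589) (nat_lit 152) (nat_lit 9878281541) (nat_lit 228) (nat_lit 8018233036) (nat_lit 110) (nat_lit 5) (nat_lit 112) (nat_lit 5) (nat_lit 113) (nat_lit 5) (nat_lit 484) (nat_lit 407) (nat_lit 309)) (XT.lf (nat_lit 0) (nat_lit 13899127470) (nat_lit 152) (nat_lit 3053726189) (nat_lit 228) (nat_lit 2740803413) (nat_lit 110) (nat_lit 5) (nat_lit 112) (nat_lit 5) (nat_lit 113) (nat_lit 5) (nat_lit 485) (nat_lit 407) (nat_lit 308)))) (XT.nd (nat_lit 156) (nat_lit 304) (nat_lit 0) (XT.nd (nat_lit 78) (nat_lit 0) (nat_lit 0) (XT.lf (nat_lit 0) (nat_lit 2725400216) (nat_lit 304) (nat_lit 13366860987) (nat_lit 76) (nat_lit 3974840645) (nat_lit 106) (nat_lit 5) (nat_lit 110) (nat_lit 5) (nat_lit 107) (nat_lit 5) (nat_lit 486) (nat_lit 407) (nat_lit 307)) (XT.lf (nat_lit 0) (nat_lit 8369227258) (nat_lit 304) (nat_lit 855188878) (nat_lit 76)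 (nat_lit 11224458977) (nat_lit 106) (nat_lit 5) (nat_lit 110) (nat_lit 5) (nat_lit 107) (nat_lit 5) (nat_lit 487) (nat_lit 407) (nat_lit 306))) (XT.nd (nat_lit 78) (nat_lit 152) (nat_lit 0) (XT.lf (nat_lit 0) (nat_lit 12235762225) (nat_lit 152) (nat_lit 2044221698) (nat_lit 228) (nat_lit 6559190169) (nat_lit 104) (nat_lit 5) (nat_lit 106) (nat_lit 5) (nat_lit 107) (nat_lit 5) (nat_lit 488) (nat_lit 407) (nat_lit 305)) (XT.lf (nat_lit 0) (nat_lit 4497337229) (nat_lit 152) (nat_lit 15954225682) (nat_lit 228) (nat_lit 787115070) (nat_lit 102) (nat_lit 5) (nat_lit 104) (nat_lit 5) (nat_lit 105) (nat_lit 5) (nat_lit 489) (nat_lit 407) (nat_lit 304)))))) (XT.nd (nat_lit 624) (nat_lit 836) (nat_lit 0) (XT.nd (nat_lit 312) (nat_lit 532) (nat_lit 0) (XT.nd (nat_lit 156) (nat_lit 228) (nat_lit 0) (XT.nd (nat_lit 78) (nat_lit 152) (nat_lit 0) (XT.lf (nat_lit 0) (nat_lit 5145604223) (nat_lit 228) (nat_lit 3585771764) (nat_lit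 76) (nat_lit 12914660323) (nat_lit 101) (nat_lit 5) (nat_lit 104) (nat_lit 5) (nat_lit 102) (nat_lit 5) (nat_lit 490) (nat_lit 407) (nat_lit 303)) (XT.lf (nat_lit 0) (nat_lit 10120173080) (nat_lit 152) (nat_lit 1198328903) (nat_lit 228) (nat_lit 10744539946) (nat_lit 99) (nat_lit 5) (nat_lit 101) (nat_lit 5) (nat_lit 102) (nat_lit 5) (nat_lit 491) (nat_lit 407) (nat_lit 302))) (XT.nd (nat_lit 78) (nat_lit 76) (nat_lit 0) (XT.lf (nat_lit 0) (nat_lit 1756096352) (nat_lit 152) (nat_lit 16017837288) (nat_lit 228) (nat_lit 4715704497) (nat_lit 97) (nat_lit 5) (nat_lit 99) (nat_lit 5) (nat_lit 100) (nat_lit 5) (nat_lit 492) (nat_lit 407) (nat_lit 301)) (XT.lf (nat_lit 0) (nat_lit 1579379653) (nat_lit 228) (nat_lit 6876110762) (nat_lit 76) (nat_lit 14469675652) (nat_lit 96) (nat_lit 5) (nat_lit 99) (nat_lit 5) (nat_lit 97) (nat_lit 5) (nat_lit 493) (nat_lit 407) (nat_lit 300)))) (XT.nd (nat_lit 156) (nat_lit 380) (nat_lit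 0) (XT.nd (nat_lit 78) (nat_lit 0) (nat_lit 0) (XT.lf (nat_lit 0) (nat_lit 7462849806) (nat_lit 152) (nat_lit 558858567) (nat_lit 228) (nat_lit 15349056323) (nat_lit 94) (nat_lit 5) (nat_lit 96) (nat_lit 5) (nat_lit 97) (nat_lit 5) (nat_lit 494) (nat_lit 407) (nat_lit 299)) (XT.lf (nat_lit 0) (nat_lit 14781763917) (nat_lit 228) (nat_lit 1561432729) (nat_lit 76) (nat_lit 7482801665) (nat_lit 94) (nat_lit 5) (nat_lit 97) (nat_lit 5) (nat_lit 95) (nat_lit 5) (nat_lit 495) (nat_lit 407) (nat_lit 298))) (XT.nd (nat_lit 78) (nat_lit 228) (nat_lit 0) (XT.lf (nat_lit 0) (nat_lit 13439922067) (nat_lit 152) (nat_lit 8421485128) (nat_lit 228) (nat_lit 2429978870) (nat_lit 92) (nat_lit 5) (nat_lit 94) (nat_lit 5) (nat_lit 95) (nat_lit 5) (nat_lit 496) (nat_lit 407) (nat_lit 297)) (XT.lf (nat_lit 0) (nat_lit 4159656837) (nat_lit 152) (nat_lit 175533272) (nat_lit 228) (nat_lit 20433141895) (nat_lit 89) (nat_lit 5) (nat_lit 91)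 (nat_lit 5) (nat_lit 92) (nat_lit 5) (nat_lit 497) (nat_lit 407) (nat_lit 296))))) (XT.nd (nat_lit 312) (nat_lit 456) (nat_lit 0) (XT.nd (nat_lit 156) (nat_lit 228) (nat_lit 0) (XT.nd (nat_lit 78) (nat_lit 152) (nat_lit 0) (XT.lf (nat_lit 0) (nat_lit 11427269321) (nat_lit 228) (nat_lit 5550211133) (nat_lit 76) (nat_lit 8276200884) (nat_lit 89) (nat_lit 5) (nat_lit 92) (nat_lit 5) (nat_lit 90) (nat_lit 5) (nat_lit 498) (nat_lit 407) (nat_lit 295)) (XT.lf (nat_lit 0) (nat_lit 10124407326) (nat_lit 152) (nat_lit 8689458806) (nat_lit 228) (nat_lit 6937272998) (nat_lit 87) (nat_lit 5) (nat_lit 89) (nat_lit 5) (nat_lit 90) (nat_lit 5) (nat_lit 499) (nat_lit 407) (nat_lit 294))) (XT.nd (nat_lit 78) (nat_lit 0) (nat_lit 0) (XT.lf (nat_lit 0) (nat_lit 89403234) (nat_lit 152) (nat_lit 106234098) (nat_lit 228) (nat_lit 26066632475) (nat_lit 84) (nat_lit 5) (nat_lit 86) (nat_lit 5) (nat_lit 87) (nat_lit 5) (nat_lit 500) (nat_lit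 407) (nat_lit 293)) (XT.lf (nat_lit 0) (nat_lit 7629224009) (nat_lit 228) (nat_lit 10372385012) (nat_lit 76) (nat_lit 8778281747) (nat_lit 84) (nat_lit 5) (nat_lit 87) (nat_lit 5) (nat_lit 85) (nat_lit 5) (nat_lit 501) (nat_lit 407) (nat_lit 292)))) (XT.nd (nat_lit 156) (nat_lit 304) (nat_lit 0) (XT.nd (nat_lit 78) (nat_lit 0) (nat_lit 0) (XT.lf (nat_lit 0) (nat_lit 5987280825) (nat_lit 152) (nat_lit 9340442107) (nat_lit 228) (nat_lit 11984060851) (nat_lit 82) (nat_lit 5) (nat_lit 84) (nat_lit 5) (nat_lit 85) (nat_lit 5) (nat_lit 502) (nat_lit 407) (nat_lit 291)) (XT.lf (nat_lit 0) (nat_lit 23020048714) (nat_lit 152) (nat_lit 325363325) (nat_lit 228) (nat_lit 4511575038) (nat_lit 82) (nat_lit 5) (nat_lit 84) (nat_lit 5) (nat_lit 85) (nat_lit 5) (nat_lit 503) (nat_lit 407) (nat_lit 290))) (XT.nd (nat_lit 78) (nat_lit 152) (nat_lit 0) (XT.lf (nat_lit 0) (nat_lit 3312704549) (nat_lit 152) (nat_lit 16176638326) (nat_lit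 76) (nat_lit 8922592452) (nat_lit 80) (nat_lit 5) (nat_lit 82) (nat_lit 5) (nat_lit 81) (nat_lit 5) (nat_lit 504) (nat_lit 407) (nat_lit 289)) (XT.lf (nat_lit 0) (nat_lit 875688298) (nat_lit 152) (nat_lit 10450187097) (nat_lit 228) (nat_lit 17654971825) (nat_lit 78) (nat_lit 5) (nat_lit 80) (nat_lit 5) (nat_lit 81) (nat_lit 5) (nat_lit 505) (nat_lit 407) (nat_lit 288))))))))
noncomputable def xc115 : XT := (XT.nd (nat_lit 2340) (nat_lit 912) (nat_lit 0) (XT.nd (nat_lit 1170) (nat_lit 1064) (nat_lit 0) (XT.nd (nat_lit 546) (nat_lit 608) (nat_lit 0) (XT.nd (nat_lit 234) (nat_lit 456) (nat_lit 0) (XT.nd (nat_lit 78) (nat_lit 152) (nat_lit 0) (XT.lf (nat_lit 0) (nat_lit 18741671547) (nat_lit 152) (nat_lit 985182863) (nat_lit 228) (nat_lit 9835550154) (nat_lit 78) (nat_lit 5) (nat_lit 80) (nat_lit 5) (nat_lit 81) (nat_lit 5) (nat_lit 506) (nat_lit 407) (nat_lit 287)) (XT.nd (nat_lit 78) (nat_lit 76) (nat_lit 0) (XT.lf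 (nat_lit 0) (nat_lit 7005692592) (nat_lit 76) (nat_lit 21510154179) (nat_lit 152) (nat_lit 1641482812) (nat_lit 77) (nat_lit 5) (nat_lit 78) (nat_lit 5) (nat_lit 79) (nat_lit 4) (nat_lit 507) (nat_lit 407) (nat_lit 286)) (XT.lf (nat_lit 0) (nat_lit 6770272988) (nat_lit 152) (nat_lit 5283308310) (nat_lit 76) (nat_lit 18711425149) (nat_lit 76) (nat_lit 5) (nat_lit 78) (nat_lit 5) (nat_lit 77) (nat_lit 5) (nat_lit 508) (nat_lit 407) (nat_lit 285)))) (XT.nd (nat_lit 156) (nat_lit 228) (nat_lit 0) (XT.nd (nat_lit 78) (nat_lit 76) (nat_lit 0) (XT.lf (nat_lit 0) (nat_lit 13336891234) (nat_lit 152) (nat_lit 2177577593) (nat_lit 228) (nat_lit 15872565266) (nat_lit 74) (nat_lit 5) (nat_lit 76) (nat_lit 5) (nat_lit 77) (nat_lit 5) (nat_lit 509) (nat_lit 407) (nat_lit 284)) (XT.lf (nat_lit 0) (nat_lit 502070666) (nat_lit 76) (nat_lit 24139400338) (nat_lit 152) (nat_lit 7382637569) (nat_lit 73) (nat_lit 5) (nat_lit 74) (nat_lit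 5) (nat_lit 75) (nat_lit 4) (nat_lit 510) (nat_lit 407) (nat_lit 283))) (XT.nd (nat_lit 78) (nat_lit 152) (nat_lit 0) (XT.lf (nat_lit 0) (nat_lit 1525993965) (nat_lit 152) (nat_lit 12758672349) (nat_lit 76) (nat_lit 18389519104) (nat_lit 72) (nat_lit 5) (nat_lit 74) (nat_lit 5) (nat_lit 73) (nat_lit 5) (nat_lit 511) (nat_lit 407) (nat_lit 282)) (XT.lf (nat_lit 0) (nat_lit 6595780042) (nat_lit 152) (nat_lit 4006509205) (nat_lit 228) (nat_lit 22737819185) (nat_lit 70) (nat_lit 5) (nat_lit 72) (nat_lit 5) (nat_lit 73) (nat_lit 5) (nat_lit 512) (nat_lit 407) (nat_lit 281))))) (XT.nd (nat_lit 312) (nat_lit 304) (nat_lit 0) (XT.nd (nat_lit 156) (nat_lit 228) (nat_lit 0) (XT.nd (nat_lit 78) (nat_lit 76) (nat_lit 0) (XT.lf (nat_lit 0) (nat_lit 20129665780) (nat_lit 228) (nat_lit 7321733223) (nat_lit 76) (nat_lit 6569246735) (nat_lit 70) (nat_lit 5) (nat_lit 73) (nat_lit 5) (nat_lit 71) (nat_lit 4) (nat_lit 513) (nat_lit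 407) (nat_lit 280)) (XT.lf (nat_lit 0) (nat_lit 12868309568) (nat_lit 76) (nat_lit 17223773216) (nat_lit 152) (nat_lit 4625040166) (nat_lit 69) (nat_lit 5) (nat_lit 70) (nat_lit 5) (nat_lit 71) (nat_lit 4) (nat_lit 514) (nat_lit 407) (nat_lit 279))) (XT.nd (nat_lit 78) (nat_lit 152) (nat_lit 0) (XT.lf (nat_lit 0) (nat_lit 4883432042) (nat_lit 152) (nat_lit 1692838668) (nat_lit 76) (nat_lit 28854989433) (nat_lit 68) (nat_lit 5) (nat_lit 70) (nat_lit 5) (nat_lit 69) (nat_lit 5) (nat_lit 515) (nat_lit 407) (nat_lit 278)) (XT.lf (nat_lit 0) (nat_lit 14801105400) (nat_lit 228) (nat_lit 16830487107) (nat_lit 76) (nat_lit 4527348330) (nat_lit 66) (nat_lit 5) (nat_lit 69) (nat_lit 5) (nat_lit 67) (nat_lit 4) (nat_lit 516) (nat_lit 407) (nat_lit 277)))) (XT.nd (nat_lit 156) (nat_lit 228) (nat_lit 0) (XT.nd (nat_lit 78) (nat_lit 0) (nat_lit 0) (XT.lf (nat_lit 0) (nat_lit 4095842573) (nat_lit 76) (nat_lit 21028533499) (nat_lit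 152) (nat_lit 11780834187) (nat_lit 65) (nat_lit 5) (nat_lit 66) (nat_lit 5) (nat_lit 67) (nat_lit 4) (nat_lit 517) (nat_lit 407) (nat_lit 276)) (XT.lf (nat_lit 0) (nat_lit 25969276490) (nat_lit 76) (nat_lit 9944494923) (nat_lit 152) (nat_lit 1755403867) (nat_lit 65) (nat_lit 5) (nat_lit 66) (nat_lit 5) (nat_lit 67) (nat_lit 4) (nat_lit 518) (nat_lit 407) (nat_lit 275))) (XT.nd (nat_lit 78) (nat_lit 0) (nat_lit 0) (XT.lf (nat_lit 0) (nat_lit 8503497867) (nat_lit 228) (nat_lit 28333891872) (nat_lit 76) (nat_lit 1613199512) (nat_lit 62) (nat_lit 5) (nat_lit 65) (nat_lit 5) (nat_lit 63) (nat_lit 4) (nat_lit 519) (nat_lit 407) (nat_lit 274)) (XT.lf (nat_lit 0) (nat_lit 19239428773) (nat_lit 228) (nat_lit 6566526588) (nat_lit 76) (nat_lit 13442832838) (nat_lit 62) (nat_lit 5) (nat_lit 65) (nat_lit 5) (nat_lit 63) (nat_lit 4) (nat_lit 520) (nat_lit 407) (nat_lit 273)))))) (XT.nd (nat_lit 546) (nat_lit 532) (nat_lit 0)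 (XT.nd (nat_lit 234) (nat_lit 228) (nat_lit 0) (XT.nd (nat_lit 78) (nat_lit 228) (nat_lit 0) (XT.lf (nat_lit 0) (nat_lit 16144387152) (nat_lit 76) (nat_lit 14295393435) (nat_lit 152) (nat_lit 9626882517) (nat_lit 61) (nat_lit 5) (nat_lit 62) (nat_lit 5) (nat_lit 63) (nat_lit 4) (nat_lit 521) (nat_lit 407) (nat_lit 272)) (XT.nd (nat_lit 78) (nat_lit 152) (nat_lit 0) (XT.lf (nat_lit 0) (nat_lit 1100380010) (nat_lit 152) (nat_lit 1271286177) (nat_lit 76) (nat_lit 38535476600) (nat_lit 60) (nat_lit 5) (nat_lit 62) (nat_lit 5) (nat_lit 61) (nat_lit 5) (nat_lit 522) (nat_lit 407) (nat_lit 271)) (XT.lf (nat_lit 0) (nat_lit 12256833658) (nat_lit 228) (nat_lit 19485361465) (nat_lit 76) (nat_lit 10018756600) (nat_lit 58) (nat_lit 5) (nat_lit 61) (nat_lit 5) (nat_lit 59) (nat_lit 4) (nat_lit 523) (nat_lit 407) (nat_lit 270)))) (XT.nd (nat_lit 156) (nat_lit 152) (nat_lit 0) (XT.nd (nat_lit 78) (nat_lit 0) (nat_lit 0) (XT.lf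 (nat_lit 0) (nat_lit 3944468077) (nat_lit 76) (nat_lit 19865445828) (nat_lit 152) (nat_lit 18828603279) (nat_lit 57) (nat_lit 5) (nat_lit 58) (nat_lit 5) (nat_lit 59) (nat_lit 4) (nat_lit 524) (nat_lit 407) (nat_lit 269)) (XT.lf (nat_lit 0) (nat_lit 28453019947) (nat_lit 76) (nat_lit 7441035612) (nat_lit 152) (nat_lit 7642820218) (nat_lit 57) (nat_lit 5) (nat_lit 58) (nat_lit 5) (nat_lit 59) (nat_lit 4) (nat_lit 525) (nat_lit 407) (nat_lit 268))) (XT.nd (nat_lit 78) (nat_lit 0) (nat_lit 0) (XT.lf (nat_lit 0) (nat_lit 3933379180) (nat_lit 152) (nat_lit 35154580363) (nat_lit 76) (nat_lit 5369191512) (nat_lit 55) (nat_lit 5) (nat_lit 57) (nat_lit 5) (nat_lit 56) (nat_lit 4) (nat_lit 526) (nat_lit 407) (nat_lit 267)) (XT.lf (nat_lit 0) (nat_lit 15918720204) (nat_lit 152) (nat_lit 10844705192) (nat_lit 76) (nat_lit 18632875207) (nat_lit 55) (nat_lit 5) (nat_lit 57) (nat_lit 5) (nat_lit 56) (nat_lit 4) (nat_lit 527) (nat_lit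 407) (nat_lit 266))))) (XT.nd (nat_lit 312) (nat_lit 304) (nat_lit 0) (XT.nd (nat_lit 156) (nat_lit 152) (nat_lit 0) (XT.nd (nat_lit 78) (nat_lit 0) (nat_lit 0) (XT.lf (nat_lit 0) (nat_lit 14454010020) (nat_lit 76) (nat_lit 13936872304) (nat_lit 152) (nat_lit 17968924701) (nat_lit 54) (nat_lit 5) (nat_lit 55) (nat_lit 5) (nat_lit 56) (nat_lit 4) (nat_lit 528) (nat_lit 407) (nat_lit 265)) (XT.lf (nat_lit 0) (nat_lit 40711707151) (nat_lit 76) (nat_lit 623458465) (nat_lit 152) (nat_lit 6014114539) (nat_lit 54) (nat_lit 5) (nat_lit 55) (nat_lit 5) (nat_lit 56) (nat_lit 4) (nat_lit 529) (nat_lit 407) (nat_lit 264))) (XT.nd (nat_lit 78) (nat_lit 0) (nat_lit 0) (XT.lf (nat_lit 0) (nat_lit 6482560940) (nat_lit 152) (nat_lit 28798962299) (nat_lit 76) (nat_lit 13075913527) (nat_lit 52) (nat_lit 5) (nat_lit 54) (nat_lit 5) (nat_lit 53) (nat_lit 4) (nat_lit 530) (nat_lit 407) (nat_lit 263)) (XT.lf (nat_lit 0) (nat_lit 19295814717)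 (nat_lit 152) (nat_lit 2805625978) (nat_lit 76) (nat_lit 27290734525) (nat_lit 52) (nat_lit 5) (nat_lit 54) (nat_lit 5) (nat_lit 53) (nat_lit 4) (nat_lit 531) (nat_lit 407) (nat_lit 262)))) (XT.nd (nat_lit 156) (nat_lit 152) (nat_lit 0) (XT.nd (nat_lit 78) (nat_lit 76) (nat_lit 0) (XT.lf (nat_lit 0) (nat_lit 24422841800) (nat_lit 76) (nat_lit 8294413759) (nat_lit 152) (nat_lit 17733986768) (nat_lit 51) (nat_lit 5) (nat_lit 52) (nat_lit 5) (nat_lit 53) (nat_lit 4) (nat_lit 532) (nat_lit 407) (nat_lit 261)) (XT.lf (nat_lit 0) (nat_lit 923955521) (nat_lit 76) (nat_lit 45700891656) (nat_lit 76) (nat_lit 4914729221) (nat_lit 50) (nat_lit 4) (nat_lit 51) (nat_lit 5) (nat_lit 51) (nat_lit 4) (nat_lit 533) (nat_lit 407) (nat_lit 260))) (XT.nd (nat_lit 78) (nat_lit 76) (nat_lit 0) (XT.lf (nat_lit 0) (nat_lit 8463967867) (nat_lit 152) (nat_lit 23619917356) (nat_lit 76) (nat_lit 20564186674) (nat_lit 49) (nat_lit 5) (nat_lit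 51) (nat_lit 5) (nat_lit 50) (nat_lit 4) (nat_lit 534) (nat_lit 407) (nat_lit 259)) (XT.lf (nat_lit 0) (nat_lit 4198263833) (nat_lit 76) (nat_lit 17976707103) (nat_lit 152) (nat_lit 31612499879) (nat_lit 48) (nat_lit 5) (nat_lit 49) (nat_lit 5) (nat_lit 50) (nat_lit 4) (nat_lit 535) (nat_lit 407) (nat_lit 258))))))) (XT.nd (nat_lit 1170) (nat_lit 76) (nat_lit 0) (XT.nd (nat_lit 546) (nat_lit 456) (nat_lit 0) (XT.nd (nat_lit 234) (nat_lit 228) (nat_lit 0) (XT.nd (nat_lit 78) (nat_lit 152) (nat_lit 0) (XT.lf (nat_lit 0) (nat_lit 33314722117) (nat_lit 76) (nat_lit 3210579812) (nat_lit 152) (nat_lit 18428909995) (nat_lit 48) (nat_lit 5) (nat_lit 49) (nat_lit 5) (nat_lit 50) (nat_lit 4) (nat_lit 536) (nat_lit 407) (nat_lit 257)) (XT.nd (nat_lit 78) (nat_lit 76) (nat_lit 0) (XT.lf (nat_lit 0) (nat_lit 7152888785) (nat_lit 76) (nat_lit 44327045800) (nat_lit 76) (nat_lit 4670807082) (nat_lit 47) (nat_lit 4) (nat_lit 48)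 (nat_lit 5) (nat_lit 48) (nat_lit 4) (nat_lit 537) (nat_lit 407) (nat_lit 256)) (XT.lf (nat_lit 0) (nat_lit 9556831343) (nat_lit 152) (nat_lit 20269336147) (nat_lit 76) (nat_lit 27546995179) (nat_lit 46) (nat_lit 5) (nat_lit 48) (nat_lit 5) (nat_lit 47) (nat_lit 4) (nat_lit 538) (nat_lit 407) (nat_lit 255)))) (XT.nd (nat_lit 156) (nat_lit 152) (nat_lit 0) (XT.nd (nat_lit 78) (nat_lit 0) (nat_lit 0) (XT.lf (nat_lit 0) (nat_lit 9439494087) (nat_lit 76) (nat_lit 14758668835) (nat_lit 152) (nat_lit 34430283874) (nat_lit 45) (nat_lit 5) (nat_lit 46) (nat_lit 5) (nat_lit 47) (nat_lit 4) (nat_lit 539) (nat_lit 407) (nat_lit 254)) (XT.lf (nat_lit 0) (nat_lit 39482774832) (nat_lit 152) (nat_lit 19489008759) (nat_lit 0) (nat_lit 943484780) (nat_lit 45) (nat_lit 5) (nat_lit 47) (nat_lit 4) (nat_lit 45) (nat_lit 4) (nat_lit 540) (nat_lit 407) (nat_lit 253))) (XT.nd (nat_lit 78) (nat_lit 76) (nat_lit 0) (XT.lf (nat_lit 0) (nat_lit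 11154531277) (nat_lit 76) (nat_lit 44315053619) (nat_lit 76) (nat_lit 5763800037) (nat_lit 44) (nat_lit 4) (nat_lit 45) (nat_lit 5) (nat_lit 45) (nat_lit 4) (nat_lit 541) (nat_lit 407) (nat_lit 252)) (XT.lf (nat_lit 0) (nat_lit 9351666911) (nat_lit 152) (nat_lit 19578984828) (nat_lit 76) (nat_lit 33652026503) (nat_lit 43) (nat_lit 5) (nat_lit 45) (nat_lit 5) (nat_lit 44) (nat_lit 4) (nat_lit 542) (nat_lit 407) (nat_lit 251))))) (XT.nd (nat_lit 312) (nat_lit 228) (nat_lit 0) (XT.nd (nat_lit 156) (nat_lit 152) (nat_lit 0) (XT.nd (nat_lit 78) (nat_lit 0) (nat_lit 0) (XT.lf (nat_lit 0) (nat_lit 11994470971) (nat_lit 76) (nat_lit 12916177503) (nat_lit 152) (nat_lit 39056913060) (nat_lit 42) (nat_lit 5) (nat_lit 43) (nat_lit 5) (nat_lit 44) (nat_lit 4) (nat_lit 543) (nat_lit 407) (nat_lit 250)) (XT.lf (nat_lit 0) (nat_lit 41161079409) (nat_lit 152) (nat_lit 20526348299) (nat_lit 0) (nat_lit 3699823335) (nat_lit 42) (nat_lit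 5) (nat_lit 44) (nat_lit 4) (nat_lit 42) (nat_lit 4) (nat_lit 544) (nat_lit 407) (nat_lit 249))) (XT.nd (nat_lit 78) (nat_lit 76) (nat_lit 0) (XT.lf (nat_lit 0) (nat_lit 11951251241) (nat_lit 76) (nat_lit 46181423247) (nat_lit 76) (nat_lit 8709847328) (nat_lit 41) (nat_lit 4) (nat_lit 42) (nat_lit 5) (nat_lit 42) (nat_lit 4) (nat_lit 545) (nat_lit 407) (nat_lit 248)) (XT.lf (nat_lit 0) (nat_lit 7330284014) (nat_lit 152) (nat_lit 22601118637) (nat_lit 76) (nat_lit 38401944505) (nat_lit 40) (nat_lit 5) (nat_lit 42) (nat_lit 5) (nat_lit 41) (nat_lit 4) (nat_lit 546) (nat_lit 407) (nat_lit 247)))) (XT.nd (nat_lit 156) (nat_lit 152) (nat_lit 0) (XT.nd (nat_lit 78) (nat_lit 0) (nat_lit 0) (XT.lf (nat_lit 0) (nat_lit 10764190503) (nat_lit 76) (nat_lit 13006998232) (nat_lit 152) (nat_lit 46092282679) (nat_lit 39) (nat_lit 5) (nat_lit 40) (nat_lit 5) (nat_lit 41) (nat_lit 4) (nat_lit 547) (nat_lit 407) (nat_lit 246)) (XT.lf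 (nat_lit 0) (nat_lit 40969512375) (nat_lit 152) (nat_lit 25901060406) (nat_lit 0) (nat_lit 4561000966) (nat_lit 39) (nat_lit 5) (nat_lit 41) (nat_lit 4) (nat_lit 39) (nat_lit 4) (nat_lit 548) (nat_lit 407) (nat_lit 245))) (XT.nd (nat_lit 78) (nat_lit 76) (nat_lit 0) (XT.lf (nat_lit 0) (nat_lit 8309610223) (nat_lit 76) (nat_lit 50574259945) (nat_lit 76) (nat_lit 14156846548) (nat_lit 38) (nat_lit 4) (nat_lit 39) (nat_lit 5) (nat_lit 39) (nat_lit 4) (nat_lit 549) (nat_lit 407) (nat_lit 244)) (XT.lf (nat_lit 0) (nat_lit 2841626985) (nat_lit 152) (nat_lit 30657553325) (nat_lit 76) (nat_lit 41190526056) (nat_lit 37) (nat_lit 5) (nat_lit 39) (nat_lit 5) (nat_lit 38) (nat_lit 4) (nat_lit 550) (nat_lit 407) (nat_lit 243)))))) (XT.nd (nat_lit 51870) (nat_lit 0) (nat_lit 25384) (XT.nd (nat_lit 51558) (nat_lit 0) (nat_lit 26828) (XT.nd (nat_lit 51402) (nat_lit 0) (nat_lit 27512) (XT.nd (nat_lit 51324) (nat_lit 0) (nat_lit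 28120) (XT.lf (nat_lit 0) (nat_lit 4366874390) (nat_lit 76) (nat_lit 15732298749) (nat_lit 152) (nat_lit 56283777941) (nat_lit 36) (nat_lit 5) (nat_lit 37) (nat_lit 5) (nat_lit 38) (nat_lit 4) (nat_lit 551) (nat_lit 407) (nat_lit 242)) (XT.lf (nat_lit 0) (nat_lit 926523812) (nat_lit 0) (nat_lit 926523812) (nat_lit 532) (nat_lit 1503550255) (nat_lit 406) (nat_lit 5) (nat_lit 406) (nat_lit 3) (nat_lit 413) (nat_lit 3) (nat_lit 408) (nat_lit 408) (nat_lit 384))) (XT.nd (nat_lit 78) (nat_lit 608) (nat_lit 0) (XT.lf (nat_lit 0) (nat_lit 5234269360) (nat_lit 0) (nat_lit 682906350) (nat_lit 532) (nat_lit 831608223) (nat_lit 406) (nat_lit 5) (nat_lit 406) (nat_lit 3) (nat_lit 413) (nat_lit 3) (nat_lit 409) (nat_lit 408) (nat_lit 383)) (XT.lf (nat_lit 0) (nat_lit 1320786022) (nat_lit 608) (nat_lit 4881308581) (nat_lit 684) (nat_lit 584781601) (nat_lit 398) (nat_lit 5) (nat_lit 406) (nat_lit 5) (nat_lit 407) (nat_lit 5) (nat_lit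 410) (nat_lit 408) (nat_lit 382)))) (XT.nd (nat_lit 156) (nat_lit 684) (nat_lit 0) (XT.nd (nat_lit 78) (nat_lit 0) (nat_lit 0) (XT.lf (nat_lit 0) (nat_lit 3460710182) (nat_lit 608) (nat_lit 1427725145) (nat_lit 684) (nat_lit 1939255102) (nat_lit 398) (nat_lit 5) (nat_lit 406) (nat_lit 5) (nat_lit 407) (nat_lit 5) (nat_lit 411) (nat_lit 408) (nat_lit 381)) (XT.lf (nat_lit 76) (nat_lit 2126075075) (nat_lit 0) (nat_lit 3479064115) (nat_lit 684) (nat_lit 1266396572) (nat_lit 399) (nat_lit 5) (nat_lit 398) (nat_lit 5) (nat_lit 407) (nat_lit 5) (nat_lit 412) (nat_lit 408) (nat_lit 380))) (XT.nd (nat_lit 78) (nat_lit 0) (nat_lit 0) (XT.lf (nat_lit 0) (nat_lit 815243974) (nat_lit 684) (nat_lit 1155300512) (nat_lit 760) (nat_lit 4947841808) (nat_lit 389) (nat_lit 5) (nat_lit 398) (nat_lit 5) (nat_lit 399) (nat_lit 5) (nat_lit 413) (nat_lit 408) (nat_lit 379)) (XT.lf (nat_lit 76) (nat_lit 2534803981) (nat_lit 0) (nat_lit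 346730960) (nat_lit 760) (nat_lit 4086316156) (nat_lit 390) (nat_lit 5) (nat_lit 389) (nat_lit 5) (nat_lit 399) (nat_lit 5) (nat_lit 414) (nat_lit 408) (nat_lit 378))))) (XT.nd (nat_lit 312) (nat_lit 760) (nat_lit 0) (XT.nd (nat_lit 156) (nat_lit 760) (nat_lit 0) (XT.nd (nat_lit 78) (nat_lit 0) (nat_lit 0) (XT.lf (nat_lit 0) (nat_lit 4959732888) (nat_lit 684) (nat_lit 718818454) (nat_lit 760) (nat_lit 1341765077) (nat_lit 390) (nat_lit 5) (nat_lit 399) (nat_lit 5) (nat_lit 400) (nat_lit 5) (nat_lit 415) (nat_lit 408) (nat_lit 377)) (XT.lf (nat_lit 76) (nat_lit 3118823908) (nat_lit 0) (nat_lit 3942431036) (nat_lit 760) (nat_lit 14285125) (nat_lit 391) (nat_lit 5) (nat_lit 390) (nat_lit 5) (nat_lit 400) (nat_lit 5) (nat_lit 416) (nat_lit 408) (nat_lit 376))) (XT.nd (nat_lit 78) (nat_lit 0) (nat_lit 0) (XT.lf (nat_lit 0) (nat_lit 1988411706) (nat_lit 760) (nat_lit 112496507) (nat_lit 836) (nat_lit 5032845671) (nat_lit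 380) (nat_lit 5) (nat_lit 390) (nat_lit 5) (nat_lit 391) (nat_lit 5) (nat_lit 417) (nat_lit 408) (nat_lit 375)) (XT.lf (nat_lit 76) (nat_lit 3877494986) (nat_lit 0) (nat_lit 141290645) (nat_lit 836) (nat_lit 3175900289) (nat_lit 381) (nat_lit 5) (nat_lit 380) (nat_lit 5) (nat_lit 391) (nat_lit 5) (nat_lit 418) (nat_lit 408) (nat_lit 374)))) (XT.nd (nat_lit 156) (nat_lit 0) (nat_lit 0) (XT.nd (nat_lit 78) (nat_lit 836) (nat_lit 0) (XT.lf (nat_lit 76) (nat_lit 680398212) (nat_lit 0) (nat_lit 5387829286) (nat_lit 836) (nat_lit 1190485900) (nat_lit 382) (nat_lit 5) (nat_lit 381) (nat_lit 5) (nat_lit 392) (nat_lit 5) (nat_lit 419) (nat_lit 408) (nat_lit 373)) (XT.lf (nat_lit 0) (nat_lit 806325676) (nat_lit 836) (nat_lit 2515470561) (nat_lit 912) (nat_lit 4003575263) (nat_lit 370) (nat_lit 5) (nat_lit 381) (nat_lit 5) (nat_lit 382) (nat_lit 5) (nat_lit 420) (nat_lit 408) (nat_lit 372))) (XT.nd (nat_lit 78) (nat_lit 0)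 (nat_lit 76) (XT.lf (nat_lit 76) (nat_lit 1643144322) (nat_lit 0) (nat_lit 1146989120) (nat_lit 912) (nat_lit 4605022859) (nat_lit 371) (nat_lit 5) (nat_lit 370) (nat_lit 5) (nat_lit 382) (nat_lit 5) (nat_lit 421) (nat_lit 408) (nat_lit 371)) (XT.lf (nat_lit 0) (nat_lit 4806452252) (nat_lit 836) (nat_lit 1546963823) (nat_lit 76) (nat_lit 1114439493) (nat_lit 371) (nat_lit 5) (nat_lit 382) (nat_lit 5) (nat_lit 372) (nat_lit 5) (nat_lit 422) (nat_lit 408) (nat_lit 370))))))))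
noncomputable def xc116 : XT := (XT.nd (nat_lit 2340) (nat_lit 5852) (nat_lit 0) (XT.nd (nat_lit 1170) (nat_lit 5092) (nat_lit 0) (XT.nd (nat_lit 546) (nat_lit 4484) (nat_lit 0) (XT.nd (nat_lit 234) (nat_lit 2128) (nat_lit 0) (XT.nd (nat_lit 78) (nat_lit 988) (nat_lit 0) (XT.lf (nat_lit 0) (nat_lit 2780521055) (nat_lit 836) (nat_lit 4079500480) (nat_lit 912) (nat_lit 683421959) (nat_lit 360) (nat_lit 5) (nat_lit 371) (nat_lit 5) (nat_lit 372) (nat_lit 5) (nat_lit 423) (nat_lit 408) (nat_lit 369)) (XT.nd (nat_lit 78) (nat_lit 912) (nat_lit 0) (XT.lf (nat_lit 0) (nat_lit 1282670409) (nat_lit 912) (nat_lit 411832885) (nat_lit 76) (nat_lit 5927759505) (nat_lit 359) (nat_lit 5) (nat_lit 371) (nat_lit 5) (nat_lit 360) (nat_lit 5) (nat_lit 424) (nat_lit 408) (nat_lit 368)) (XT.lf (nat_lit 0) (nat_lit 3282477161) (nat_lit 988) (nat_lit 3614767510) (nat_lit 76) (nat_lit 806354601) (nat_lit 347) (nat_lit 5) (nat_lit 360)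 (nat_lit 5) (nat_lit 348) (nat_lit 5) (nat_lit 425) (nat_lit 408) (nat_lit 367)))) (XT.nd (nat_lit 156) (nat_lit 1140) (nat_lit 0) (XT.nd (nat_lit 78) (nat_lit 0) (nat_lit 0) (XT.lf (nat_lit 0) (nat_lit 899037185) (nat_lit 988) (nat_lit 4415430595) (nat_lit 1064) (nat_lit 2473751708) (nat_lit 334) (nat_lit 5) (nat_lit 347) (nat_lit 5) (nat_lit 348) (nat_lit 5) (nat_lit 426) (nat_lit 408) (nat_lit 366)) (XT.lf (nat_lit 0) (nat_lit 5575424598) (nat_lit 988) (nat_lit 1812287593) (nat_lit 1064) (nat_lit 488266363) (nat_lit 334) (nat_lit 5) (nat_lit 347) (nat_lit 5) (nat_lit 348) (nat_lit 5) (nat_lit 427) (nat_lit 408) (nat_lit 365))) (XT.nd (nat_lit 78) (nat_lit 0) (nat_lit 0) (XT.lf (nat_lit 0) (nat_lit 1503274485) (nat_lit 1140) (nat_lit 5564550563) (nat_lit 76) (nat_lit 898798864) (nat_lit 319) (nat_lit 5) (nat_lit 334) (nat_lit 5) (nat_lit 320) (nat_lit 5) (nat_lit 428) (nat_lit 408) (nat_lit 364)) (XT.lf (nat_lit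 0) (nat_lit 3532268308) (nat_lit 1140) (nat_lit 837274117) (nat_lit 76) (nat_lit 3690683860) (nat_lit 319) (nat_lit 5) (nat_lit 334) (nat_lit 5) (nat_lit 320) (nat_lit 5) (nat_lit 429) (nat_lit 408) (nat_lit 363))))) (XT.nd (nat_lit 312) (nat_lit 1292) (nat_lit 0) (XT.nd (nat_lit 156) (nat_lit 836) (nat_lit 0) (XT.nd (nat_lit 78) (nat_lit 1216) (nat_lit 0) (XT.lf (nat_lit 0) (nat_lit 4064618274) (nat_lit 1140) (nat_lit 1544270593) (nat_lit 1216) (nat_lit 2548153209) (nat_lit 304) (nat_lit 5) (nat_lit 319) (nat_lit 5) (nat_lit 320) (nat_lit 5) (nat_lit 430) (nat_lit 408) (nat_lit 362)) (XT.lf (nat_lit 0) (nat_lit 829540962) (nat_lit 1216) (nat_lit 6896724186) (nat_lit 1292) (nat_lit 531151301) (nat_lit 288) (nat_lit 5) (nat_lit 304) (nat_lit 5) (nat_lit 305) (nat_lit 5) (nat_lit 431) (nat_lit 408) (nat_lit 361))) (XT.nd (nat_lit 78) (nat_lit 760) (nat_lit 0) (XT.lf (nat_lit 0) (nat_lit 1522559261) (nat_lit 1292)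 (nat_lit 2455274864) (nat_lit 76) (nat_lit 4382338151) (nat_lit 287) (nat_lit 5) (nat_lit 304) (nat_lit 5) (nat_lit 288) (nat_lit 5) (nat_lit 432) (nat_lit 408) (nat_lit 360)) (XT.lf (nat_lit 0) (nat_lit 2666477049) (nat_lit 760) (nat_lit 937184786) (nat_lit 836) (nat_lit 4862904642) (nat_lit 277) (nat_lit 5) (nat_lit 287) (nat_lit 5) (nat_lit 288) (nat_lit 5) (nat_lit 433) (nat_lit 408) (nat_lit 359)))) (XT.nd (nat_lit 156) (nat_lit 684) (nat_lit 0) (XT.nd (nat_lit 78) (nat_lit 608) (nat_lit 0) (XT.lf (nat_lit 0) (nat_lit 5745162165) (nat_lit 836) (nat_lit 652350490) (nat_lit 76) (nat_lit 2178707858) (nat_lit 277) (nat_lit 5) (nat_lit 288) (nat_lit 5) (nat_lit 278) (nat_lit 5) (nat_lit 434) (nat_lit 408) (nat_lit 358)) (XT.lf (nat_lit 0) (nat_lit 4685554267) (nat_lit 608) (nat_lit 3272904834) (nat_lit 684) (nat_lit 730485267) (nat_lit 269) (nat_lit 5) (nat_lit 277) (nat_lit 5) (nat_lit 278) (nat_lit 5) (nat_lit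 435) (nat_lit 408) (nat_lit 357))) (XT.nd (nat_lit 78) (nat_lit 0) (nat_lit 0) (XT.lf (nat_lit 0) (nat_lit 1357880210) (nat_lit 608) (nat_lit 20657316) (nat_lit 684) (nat_lit 7426903567) (nat_lit 260) (nat_lit 5) (nat_lit 268) (nat_lit 5) (nat_lit 269) (nat_lit 5) (nat_lit 436) (nat_lit 408) (nat_lit 356)) (XT.lf (nat_lit 0) (nat_lit 3563562194) (nat_lit 684) (nat_lit 2049591366) (nat_lit 76) (nat_lit 3311245961) (nat_lit 260) (nat_lit 5) (nat_lit 269) (nat_lit 5) (nat_lit 261) (nat_lit 5) (nat_lit 437) (nat_lit 408) (nat_lit 355)))))) (XT.nd (nat_lit 546) (nat_lit 2356) (nat_lit 0) (XT.nd (nat_lit 234) (nat_lit 1596) (nat_lit 0) (XT.nd (nat_lit 78) (nat_lit 608) (nat_lit 0) (XT.lf (nat_lit 0) (nat_lit 3532648419) (nat_lit 532) (nat_lit 2271559131) (nat_lit 608) (nat_lit 3243023047) (nat_lit 253) (nat_lit 5) (nat_lit 260) (nat_lit 5) (nat_lit 261) (nat_lit 5) (nat_lit 438) (nat_lit 408) (nat_lit 354)) (XT.nd (nat_lit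 78) (nat_lit 76) (nat_lit 0) (XT.lf (nat_lit 0) (nat_lit 94410695) (nat_lit 532) (nat_lit 8007444508) (nat_lit 608) (nat_lit 1072203732) (nat_lit 246) (nat_lit 5) (nat_lit 253) (nat_lit 5) (nat_lit 254) (nat_lit 5) (nat_lit 439) (nat_lit 408) (nat_lit 353)) (XT.lf (nat_lit 0) (nat_lit 1176869060) (nat_lit 608) (nat_lit 3400150917) (nat_lit 76) (nat_lit 4726266905) (nat_lit 245) (nat_lit 5) (nat_lit 253) (nat_lit 5) (nat_lit 246) (nat_lit 5) (nat_lit 440) (nat_lit 408) (nat_lit 352)))) (XT.nd (nat_lit 156) (nat_lit 1064) (nat_lit 0) (XT.nd (nat_lit 78) (nat_lit 0) (nat_lit 0) (XT.lf (nat_lit 0) (nat_lit 2440507815) (nat_lit 532) (nat_lit 1013174050) (nat_lit 608) (nat_lit 5982942109) (nat_lit 238) (nat_lit 5) (nat_lit 245) (nat_lit 5) (nat_lit 246) (nat_lit 5) (nat_lit 441) (nat_lit 408) (nat_lit 351)) (XT.lf (nat_lit 0) (nat_lit 5818104257) (nat_lit 608) (nat_lit 1119692903) (nat_lit 76) (nat_lit 2635590032) (nat_lit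 238) (nat_lit 5) (nat_lit 246) (nat_lit 5) (nat_lit 239) (nat_lit 5) (nat_lit 442) (nat_lit 408) (nat_lit 350))) (XT.nd (nat_lit 78) (nat_lit 532) (nat_lit 0) (XT.lf (nat_lit 0) (nat_lit 4974467683) (nat_lit 532) (nat_lit 3297116460) (nat_lit 608) (nat_lit 1442130440) (nat_lit 231) (nat_lit 5) (nat_lit 238) (nat_lit 5) (nat_lit 239) (nat_lit 5) (nat_lit 443) (nat_lit 408) (nat_lit 349)) (XT.lf (nat_lit 0) (nat_lit 912063613) (nat_lit 532) (nat_lit 8474547876) (nat_lit 76) (nat_lit 471673904) (nat_lit 224) (nat_lit 5) (nat_lit 231) (nat_lit 5) (nat_lit 225) (nat_lit 5) (nat_lit 444) (nat_lit 408) (nat_lit 348))))) (XT.nd (nat_lit 312) (nat_lit 1368) (nat_lit 0) (XT.nd (nat_lit 156) (nat_lit 532) (nat_lit 0) (XT.nd (nat_lit 78) (nat_lit 456) (nat_lit 0) (XT.lf (nat_lit 0) (nat_lit 3350126341) (nat_lit 532) (nat_lit 2312178049) (nat_lit 76) (nat_lit 4343198327) (nat_lit 224) (nat_lit 5) (nat_lit 231) (nat_lit 5) (nat_lit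 225) (nat_lit 5) (nat_lit 445) (nat_lit 408) (nat_lit 347)) (XT.lf (nat_lit 0) (nat_lit 4069240498) (nat_lit 456) (nat_lit 1793587643) (nat_lit 532) (nat_lit 4294267964) (nat_lit 218) (nat_lit 5) (nat_lit 224) (nat_lit 5) (nat_lit 225) (nat_lit 5) (nat_lit 446) (nat_lit 408) (nat_lit 346))) (XT.nd (nat_lit 78) (nat_lit 76) (nat_lit 0) (XT.lf (nat_lit 0) (nat_lit 316012278) (nat_lit 456) (nat_lit 8145550209) (nat_lit 532) (nat_lit 1851359594) (nat_lit 212) (nat_lit 5) (nat_lit 218) (nat_lit 5) (nat_lit 219) (nat_lit 5) (nat_lit 447) (nat_lit 408) (nat_lit 345)) (XT.lf (nat_lit 0) (nat_lit 694954106) (nat_lit 532) (nat_lit 3505653498) (nat_lit 76) (nat_lit 6271334847) (nat_lit 211) (nat_lit 5) (nat_lit 218) (nat_lit 5) (nat_lit 212) (nat_lit 5) (nat_lit 448) (nat_lit 408) (nat_lit 344)))) (XT.nd (nat_lit 156) (nat_lit 912) (nat_lit 0) (XT.nd (nat_lit 78) (nat_lit 0) (nat_lit 0) (XT.lf (nat_lit 0) (nat_lit 3179284025)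 (nat_lit 456) (nat_lit 96043395) (nat_lit 532) (nat_lit 7360013642) (nat_lit 205) (nat_lit 5) (nat_lit 211) (nat_lit 5) (nat_lit 212) (nat_lit 5) (nat_lit 449) (nat_lit 408) (nat_lit 343)) (XT.lf (nat_lit 0) (nat_lit 5973422296) (nat_lit 532) (nat_lit 751307459) (nat_lit 76) (nat_lit 4077706415) (nat_lit 205) (nat_lit 5) (nat_lit 212) (nat_lit 5) (nat_lit 206) (nat_lit 5) (nat_lit 450) (nat_lit 408) (nat_lit 342))) (XT.nd (nat_lit 78) (nat_lit 532) (nat_lit 0) (XT.lf (nat_lit 0) (nat_lit 6231253664) (nat_lit 380) (nat_lit 2547923487) (nat_lit 456) (nat_lit 2194569200) (nat_lit 200) (nat_lit 5) (nat_lit 205) (nat_lit 5) (nat_lit 206) (nat_lit 5) (nat_lit 451) (nat_lit 408) (nat_lit 341)) (XT.lf (nat_lit 0) (nat_lit 521613209) (nat_lit 532) (nat_lit 8883274277) (nat_lit 76) (nat_lit 1744777325) (nat_lit 193) (nat_lit 5) (nat_lit 200) (nat_lit 5) (nat_lit 194) (nat_lit 5) (nat_lit 452) (nat_lit 408) (nat_lit 340)))))))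 (XT.nd (nat_lit 1170) (nat_lit 2660) (nat_lit 0) (XT.nd (nat_lit 546) (nat_lit 1672) (nat_lit 0) (XT.nd (nat_lit 234) (nat_lit 760) (nat_lit 0) (XT.nd (nat_lit 78) (nat_lit 760) (nat_lit 0) (XT.lf (nat_lit 0) (nat_lit 3315336483) (nat_lit 532) (nat_lit 1838787215) (nat_lit 76) (nat_lit 6174883769) (nat_lit 193) (nat_lit 5) (nat_lit 200) (nat_lit 5) (nat_lit 194) (nat_lit 5) (nat_lit 453) (nat_lit 408) (nat_lit 339)) (XT.nd (nat_lit 78) (nat_lit 380) (nat_lit 0) (XT.lf (nat_lit 0) (nat_lit 5480591944) (nat_lit 380) (nat_lit 732508976) (nat_lit 456) (nat_lit 5300025919) (nat_lit 188) (nat_lit 5) (nat_lit 193) (nat_lit 5) (nat_lit 194) (nat_lit 5) (nat_lit 454) (nat_lit 408) (nat_lit 338)) (XT.lf (nat_lit 0) (nat_lit 1299655203) (nat_lit 380) (nat_lit 7934097969) (nat_lit 456) (nat_lit 2467941196) (nat_lit 183) (nat_lit 5) (nat_lit 188) (nat_lit 5) (nat_lit 189) (nat_lit 5) (nat_lit 455) (nat_lit 408) (nat_lit 337))))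 (XT.nd (nat_lit 156) (nat_lit 380) (nat_lit 0) (XT.nd (nat_lit 78) (nat_lit 304) (nat_lit 0) (XT.lf (nat_lit 0) (nat_lit 477288332) (nat_lit 456) (nat_lit 2974816939) (nat_lit 76) (nat_lit 8442578798) (nat_lit 182) (nat_lit 5) (nat_lit 188) (nat_lit 5) (nat_lit 183) (nat_lit 5) (nat_lit 456) (nat_lit 408) (nat_lit 336)) (XT.lf (nat_lit 0) (nat_lit 3487316735) (nat_lit 380) (nat_lit 7404319346) (nat_lit 76) (nat_lit 1200315920) (nat_lit 178) (nat_lit 5) (nat_lit 183) (nat_lit 5) (nat_lit 179) (nat_lit 5) (nat_lit 457) (nat_lit 408) (nat_lit 335))) (XT.nd (nat_lit 78) (nat_lit 0) (nat_lit 0) (XT.lf (nat_lit 0) (nat_lit 274454733) (nat_lit 380) (nat_lit 6349825033) (nat_lit 456) (nat_lit 5669762055) (nat_lit 173) (nat_lit 5) (nat_lit 178) (nat_lit 5) (nat_lit 179) (nat_lit 5) (nat_lit 458) (nat_lit 408) (nat_lit 334)) (XT.lf (nat_lit 0) (nat_lit 8292672132) (nat_lit 380) (nat_lit 1607406199) (nat_lit 456) (nat_lit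 2600776984) (nat_lit 173) (nat_lit 5) (nat_lit 178) (nat_lit 5) (nat_lit 179) (nat_lit 5) (nat_lit 459) (nat_lit 408) (nat_lit 333))))) (XT.nd (nat_lit 312) (nat_lit 684) (nat_lit 0) (XT.nd (nat_lit 156) (nat_lit 608) (nat_lit 0) (XT.nd (nat_lit 78) (nat_lit 0) (nat_lit 0) (XT.lf (nat_lit 0) (nat_lit 588847374) (nat_lit 380) (nat_lit 8879725019) (nat_lit 76) (nat_lit 3243956786) (nat_lit 168) (nat_lit 5) (nat_lit 173) (nat_lit 5) (nat_lit 169) (nat_lit 5) (nat_lit 460) (nat_lit 408) (nat_lit 332)) (XT.lf (nat_lit 0) (nat_lit 3851594973) (nat_lit 380) (nat_lit 812464881) (nat_lit 76) (nat_lit 8264832214) (nat_lit 168) (nat_lit 5) (nat_lit 173) (nat_lit 5) (nat_lit 169) (nat_lit 5) (nat_lit 461) (nat_lit 408) (nat_lit 331))) (XT.nd (nat_lit 78) (nat_lit 304) (nat_lit 0) (XT.lf (nat_lit 0) (nat_lit 7260381028) (nat_lit 380) (nat_lit 5549694680) (nat_lit 76) (nat_lit 340227924) (nat_lit 164) (nat_lit 5) (nat_lit 169)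 (nat_lit 5) (nat_lit 165) (nat_lit 5) (nat_lit 462) (nat_lit 408) (nat_lit 330)) (XT.lf (nat_lit 0) (nat_lit 2872959108) (nat_lit 304) (nat_lit 7952586055) (nat_lit 380) (nat_lit 2551191341) (nat_lit 160) (nat_lit 5) (nat_lit 164) (nat_lit 5) (nat_lit 165) (nat_lit 5) (nat_lit 463) (nat_lit 408) (nat_lit 329)))) (XT.nd (nat_lit 156) (nat_lit 304) (nat_lit 0) (XT.nd (nat_lit 78) (nat_lit 304) (nat_lit 0) (XT.lf (nat_lit 0) (nat_lit 899153907) (nat_lit 380) (nat_lit 1996923754) (nat_lit 76) (nat_lit 10712767739) (nat_lit 159) (nat_lit 5) (nat_lit 164) (nat_lit 5) (nat_lit 160) (nat_lit 5) (nat_lit 464) (nat_lit 408) (nat_lit 328)) (XT.lf (nat_lit 0) (nat_lit 4463400281) (nat_lit 380) (nat_lit 7036188726) (nat_lit 76) (nat_lit 2345722954) (nat_lit 155) (nat_lit 5) (nat_lit 160) (nat_lit 5) (nat_lit 156) (nat_lit 5) (nat_lit 465) (nat_lit 408) (nat_lit 327))) (XT.nd (nat_lit 78) (nat_lit 0) (nat_lit 0) (XT.lf (nat_lit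 0) (nat_lit 1797547916) (nat_lit 304) (nat_lit 6376606177) (nat_lit 380) (nat_lit 5913533155) (nat_lit 151) (nat_lit 5) (nat_lit 155) (nat_lit 5) (nat_lit 156) (nat_lit 5) (nat_lit 466) (nat_lit 408) (nat_lit 326)) (XT.lf (nat_lit 0) (nat_lit 11000256319) (nat_lit 304) (nat_lit 1040679741) (nat_lit 380) (nat_lit 2295058633) (nat_lit 151) (nat_lit 5) (nat_lit 155) (nat_lit 5) (nat_lit 156) (nat_lit 5) (nat_lit 467) (nat_lit 408) (nat_lit 325)))))) (XT.nd (nat_lit 546) (nat_lit 1216) (nat_lit 0) (XT.nd (nat_lit 234) (nat_lit 836) (nat_lit 0) (XT.nd (nat_lit 78) (nat_lit 228) (nat_lit 0) (XT.lf (nat_lit 0) (nat_lit 1478785787) (nat_lit 380) (nat_lit 8683779334) (nat_lit 76) (nat_lit 4426532487) (nat_lit 146) (nat_lit 5) (nat_lit 151) (nat_lit 5) (nat_lit 147) (nat_lit 5) (nat_lit 468) (nat_lit 408) (nat_lit 324)) (XT.nd (nat_lit 78) (nat_lit 0) (nat_lit 0) (XT.lf (nat_lit 0) (nat_lit 581322794) (nat_lit 228) (nat_lit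 4762712995) (nat_lit 304) (nat_lit 9504348451) (nat_lit 143) (nat_lit 5) (nat_lit 146) (nat_lit 5) (nat_lit 147) (nat_lit 5) (nat_lit 469) (nat_lit 408) (nat_lit 323)) (XT.lf (nat_lit 0) (nat_lit 9396120342) (nat_lit 304) (nat_lit 4859075851) (nat_lit 76) (nat_lit 858128805) (nat_lit 143) (nat_lit 5) (nat_lit 147) (nat_lit 5) (nat_lit 144) (nat_lit 5) (nat_lit 470) (nat_lit 408) (nat_lit 322)))) (XT.nd (nat_lit 156) (nat_lit 456) (nat_lit 0) (XT.nd (nat_lit 78) (nat_lit 76) (nat_lit 0) (XT.lf (nat_lit 0) (nat_lit 4839503652) (nat_lit 304) (nat_lit 8799316249) (nat_lit 380) (nat_lit 1745324287) (nat_lit 139) (nat_lit 5) (nat_lit 143) (nat_lit 5) (nat_lit 144) (nat_lit 5) (nat_lit 471) (nat_lit 408) (nat_lit 321)) (XT.lf (nat_lit 0) (nat_lit 2324973379) (nat_lit 380) (nat_lit 795037602) (nat_lit 76) (nat_lit 12541651176) (nat_lit 138) (nat_lit 5) (nat_lit 143) (nat_lit 5) (nat_lit 139) (nat_lit 5) (nat_lit 472) (nat_lit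 408) (nat_lit 320))) (XT.nd (nat_lit 78) (nat_lit 228) (nat_lit 0) (XT.lf (nat_lit 0) (nat_lit 6575779648) (nat_lit 304) (nat_lit 6597354696) (nat_lit 76) (nat_lit 2771050172) (nat_lit 135) (nat_lit 5) (nat_lit 139) (nat_lit 5) (nat_lit 136) (nat_lit 5) (nat_lit 473) (nat_lit 408) (nat_lit 319)) (XT.lf (nat_lit 0) (nat_lit 3575003115) (nat_lit 228) (nat_lit 7428864011) (nat_lit 304) (nat_lit 5229824293) (nat_lit 132) (nat_lit 5) (nat_lit 135) (nat_lit 5) (nat_lit 136) (nat_lit 5) (nat_lit 474) (nat_lit 408) (nat_lit 318))))) (XT.nd (nat_lit 312) (nat_lit 684) (nat_lit 0) (XT.nd (nat_lit 156) (nat_lit 228) (nat_lit 0) (XT.nd (nat_lit 78) (nat_lit 304) (nat_lit 0) (XT.lf (nat_lit 0) (nat_lit 14150048014) (nat_lit 228) (nat_lit 1458087429) (nat_lit 304) (nat_lit 922449479) (nat_lit 132) (nat_lit 5) (nat_lit 135) (nat_lit 5) (nat_lit 136) (nat_lit 5) (nat_lit 475) (nat_lit 408) (nat_lit 317)) (XT.lf (nat_lit 0) (nat_lit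 3548587218) (nat_lit 304) (nat_lit 8582749884) (nat_lit 76) (nat_lit 4700945746) (nat_lit 128) (nat_lit 5) (nat_lit 132) (nat_lit 5) (nat_lit 129) (nat_lit 5) (nat_lit 476) (nat_lit 408) (nat_lit 316))) (XT.nd (nat_lit 78) (nat_lit 0) (nat_lit 0) (XT.lf (nat_lit 0) (nat_lit 2084606632) (nat_lit 228) (nat_lit 6086706068) (nat_lit 304) (nat_lit 8970363485) (nat_lit 125) (nat_lit 5) (nat_lit 128) (nat_lit 5) (nat_lit 129) (nat_lit 5) (nat_lit 477) (nat_lit 408) (nat_lit 315)) (XT.lf (nat_lit 0) (nat_lit 12999097306) (nat_lit 304) (nat_lit 4249449940) (nat_lit 76) (nat_lit 209814121) (nat_lit 125) (nat_lit 5) (nat_lit 129) (nat_lit 5) (nat_lit 126) (nat_lit 5) (nat_lit 478) (nat_lit 408) (nat_lit 314)))) (XT.nd (nat_lit 156) (nat_lit 152) (nat_lit 0) (XT.nd (nat_lit 78) (nat_lit 228) (nat_lit 0) (XT.lf (nat_lit 0) (nat_lit 289512391) (nat_lit 304) (nat_lit 10863387146) (nat_lit 76) (nat_lit 6628414991) (nat_lit 121)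 (nat_lit 5) (nat_lit 125) (nat_lit 5) (nat_lit 122) (nat_lit 5) (nat_lit 479) (nat_lit 408) (nat_lit 313)) (XT.lf (nat_lit 0) (nat_lit 320023712) (nat_lit 228) (nat_lit 4795756012) (nat_lit 304) (nat_lit 12996113645) (nat_lit 118) (nat_lit 5) (nat_lit 121) (nat_lit 5) (nat_lit 122) (nat_lit 5) (nat_lit 480) (nat_lit 408) (nat_lit 312))) (XT.nd (nat_lit 78) (nat_lit 152) (nat_lit 0) (XT.lf (nat_lit 0) (nat_lit 10192851484) (nat_lit 304) (nat_lit 6441961240) (nat_lit 76) (nat_lit 1814397575) (nat_lit 118) (nat_lit 5) (nat_lit 122) (nat_lit 5) (nat_lit 119) (nat_lit 5) (nat_lit 481) (nat_lit 408) (nat_lit 311)) (XT.lf (nat_lit 0) (nat_lit 5268269551) (nat_lit 152) (nat_lit 10231108943) (nat_lit 228) (nat_lit 3294955129) (nat_lit 116) (nat_lit 5) (nat_lit 118) (nat_lit 5) (nat_lit 119) (nat_lit 5) (nat_lit 482) (nat_lit 408) (nat_lit 310))))))))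
noncomputable def xc117 : XT := (XT.nd (nat_lit 2340) (nat_lit 2204) (nat_lit 0) (XT.nd (nat_lit 1170) (nat_lit 1520) (nat_lit 0) (XT.nd (nat_lit 546) (nat_lit 912) (nat_lit 0) (XT.nd (nat_lit 234) (nat_lit 456) (nat_lit 0) (XT.nd (nat_lit 78) (nat_lit 380) (nat_lit 0) (XT.lf (nat_lit 0) (nat_lit 1824648695) (nat_lit 228) (nat_lit 1739656127) (nat_lit 76) (nat_lit 15583640018) (nat_lit 115) (nat_lit 5) (nat_lit 118) (nat_lit 5) (nat_lit 116) (nat_lit 5) (nat_lit 483) (nat_lit 408) (nat_lit 309)) (XT.nd (nat_lit 78) (nat_lit 152) (nat_lit 0) (XT.lf (nat_lit 0) (nat_lit 7145550888) (nat_lit 304) (nat_lit 9002848785) (nat_lit 76) (nat_lit 3359369033) (nat_lit 112) (nat_lit 5) (nat_lit 116) (nat_lit 5) (nat_lit 113) (nat_lit 5) (nat_lit 484) (nat_lit 408) (nat_lit 308)) (XT.lf (nat_lit 0) (nat_lit 3268289879) (nat_lit 152) (nat_lit 9422059821) (nat_lit 228) (nat_lit 7186110550) (nat_lit 110) (nat_lit 5) (nat_lit 112)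 (nat_lit 5) (nat_lit 113) (nat_lit 5) (nat_lit 485) (nat_lit 408) (nat_lit 307)))) (XT.nd (nat_lit 156) (nat_lit 152) (nat_lit 0) (XT.nd (nat_lit 78) (nat_lit 304) (nat_lit 0) (XT.lf (nat_lit 0) (nat_lit 16057795675) (nat_lit 152) (nat_lit 2414687327) (nat_lit 228) (nat_lit 1781600838) (nat_lit 110) (nat_lit 5) (nat_lit 112) (nat_lit 5) (nat_lit 113) (nat_lit 5) (nat_lit 486) (nat_lit 408) (nat_lit 306)) (XT.lf (nat_lit 0) (nat_lit 3822379187) (nat_lit 304) (nat_lit 11999863927) (nat_lit 76) (nat_lit 4816366614) (nat_lit 106) (nat_lit 5) (nat_lit 110) (nat_lit 5) (nat_lit 107) (nat_lit 5) (nat_lit 487) (nat_lit 408) (nat_lit 305))) (XT.nd (nat_lit 78) (nat_lit 0) (nat_lit 0) (XT.lf (nat_lit 0) (nat_lit 852294448) (nat_lit 152) (nat_lit 8761849940) (nat_lit 228) (nat_lit 11418334520) (nat_lit 104) (nat_lit 5) (nat_lit 106) (nat_lit 5) (nat_lit 107) (nat_lit 5) (nat_lit 488) (nat_lit 408) (nat_lit 304)) (XT.lf (nat_lit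 0) (nat_lit 14302514244) (nat_lit 152) (nat_lit 1379146909) (nat_lit 228) (nat_lit 5753443956) (nat_lit 104) (nat_lit 5) (nat_lit 106) (nat_lit 5) (nat_lit 107) (nat_lit 5) (nat_lit 489) (nat_lit 408) (nat_lit 303))))) (XT.nd (nat_lit 312) (nat_lit 380) (nat_lit 0) (XT.nd (nat_lit 156) (nat_lit 304) (nat_lit 0) (XT.nd (nat_lit 78) (nat_lit 0) (nat_lit 0) (XT.lf (nat_lit 0) (nat_lit 182819645) (nat_lit 228) (nat_lit 15511226842) (nat_lit 76) (nat_lit 6152650551) (nat_lit 101) (nat_lit 5) (nat_lit 104) (nat_lit 5) (nat_lit 102) (nat_lit 5) (nat_lit 490) (nat_lit 408) (nat_lit 302)) (XT.lf (nat_lit 0) (nat_lit 6249222771) (nat_lit 228) (nat_lit 2019013933) (nat_lit 76) (nat_lit 13998661202) (nat_lit 101) (nat_lit 5) (nat_lit 104) (nat_lit 5) (nat_lit 102) (nat_lit 5) (nat_lit 491) (nat_lit 408) (nat_lit 301))) (XT.nd (nat_lit 78) (nat_lit 152) (nat_lit 0) (XT.lf (nat_lit 0) (nat_lit 12081694248) (nat_lit 152) (nat_lit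 513902049) (nat_lit 228) (nat_lit 10101169955) (nat_lit 99) (nat_lit 5) (nat_lit 101) (nat_lit 5) (nat_lit 102) (nat_lit 5) (nat_lit 492) (nat_lit 408) (nat_lit 300)) (XT.lf (nat_lit 0) (nat_lit 3471475116) (nat_lit 152) (nat_lit 15768614679) (nat_lit 228) (nat_lit 3896209770) (nat_lit 97) (nat_lit 5) (nat_lit 99) (nat_lit 5) (nat_lit 100) (nat_lit 5) (nat_lit 493) (nat_lit 408) (nat_lit 299)))) (XT.nd (nat_lit 156) (nat_lit 152) (nat_lit 0) (XT.nd (nat_lit 78) (nat_lit 152) (nat_lit 0) (XT.lf (nat_lit 0) (nat_lit 2541531874) (nat_lit 228) (nat_lit 5449883214) (nat_lit 76) (nat_lit 15594025536) (nat_lit 96) (nat_lit 5) (nat_lit 99) (nat_lit 5) (nat_lit 97) (nat_lit 5) (nat_lit 494) (nat_lit 408) (nat_lit 298)) (XT.lf (nat_lit 0) (nat_lit 9167344490) (nat_lit 228) (nat_lit 14742819288) (nat_lit 76) (nat_lit 134538101) (nat_lit 94) (nat_lit 5) (nat_lit 97) (nat_lit 5) (nat_lit 95) (nat_lit 5) (nat_lit 495) (nat_lit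 408) (nat_lit 297))) (XT.nd (nat_lit 78) (nat_lit 152) (nat_lit 0) (XT.lf (nat_lit 0) (nat_lit 16109215008) (nat_lit 228) (nat_lit 19149694) (nat_lit 76) (nat_lit 8385858455) (nat_lit 94) (nat_lit 5) (nat_lit 97) (nat_lit 5) (nat_lit 95) (nat_lit 5) (nat_lit 496) (nat_lit 408) (nat_lit 296)) (XT.lf (nat_lit 0) (nat_lit 15416666079) (nat_lit 152) (nat_lit 7973959876) (nat_lit 228) (nat_lit 1603266262) (nat_lit 92) (nat_lit 5) (nat_lit 94) (nat_lit 5) (nat_lit 95) (nat_lit 5) (nat_lit 497) (nat_lit 408) (nat_lit 295)))))) (XT.nd (nat_lit 546) (nat_lit 760) (nat_lit 0) (XT.nd (nat_lit 234) (nat_lit 380) (nat_lit 0) (XT.nd (nat_lit 78) (nat_lit 152) (nat_lit 0) (XT.lf (nat_lit 0) (nat_lit 5341786683) (nat_lit 228) (nat_lit 19630252655) (nat_lit 76) (nat_lit 513014226) (nat_lit 89) (nat_lit 5) (nat_lit 92) (nat_lit 5) (nat_lit 90) (nat_lit 5) (nat_lit 498) (nat_lit 408) (nat_lit 294)) (XT.nd (nat_lit 78) (nat_lit 152)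 (nat_lit 0) (XT.lf (nat_lit 0) (nat_lit 12622785288) (nat_lit 228) (nat_lit 4168227355) (nat_lit 76) (nat_lit 9194666961) (nat_lit 89) (nat_lit 5) (nat_lit 92) (nat_lit 5) (nat_lit 90) (nat_lit 5) (nat_lit 499) (nat_lit 408) (nat_lit 293)) (XT.lf (nat_lit 0) (nat_lit 11961448382) (nat_lit 152) (nat_lit 8259434862) (nat_lit 228) (nat_lit 6277481697) (nat_lit 87) (nat_lit 5) (nat_lit 89) (nat_lit 5) (nat_lit 90) (nat_lit 5) (nat_lit 500) (nat_lit 408) (nat_lit 292)))) (XT.nd (nat_lit 156) (nat_lit 152) (nat_lit 0) (XT.nd (nat_lit 78) (nat_lit 0) (nat_lit 0) (XT.lf (nat_lit 0) (nat_lit 1048070949) (nat_lit 228) (nat_lit 25403340709) (nat_lit 76) (nat_lit 573300722) (nat_lit 84) (nat_lit 5) (nat_lit 87) (nat_lit 5) (nat_lit 85) (nat_lit 5) (nat_lit 501) (nat_lit 408) (nat_lit 291)) (XT.lf (nat_lit 0) (nat_lit 8681029195) (nat_lit 228) (nat_lit 9175148757) (nat_lit 76) (nat_lit 9702393931) (nat_lit 84) (nat_lit 5) (nat_lit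 87) (nat_lit 5) (nat_lit 85) (nat_lit 5) (nat_lit 502) (nat_lit 408) (nat_lit 290))) (XT.nd (nat_lit 78) (nat_lit 0) (nat_lit 0) (XT.lf (nat_lit 0) (nat_lit 7660518743) (nat_lit 152) (nat_lit 8940353136) (nat_lit 228) (nat_lit 11505838954) (nat_lit 82) (nat_lit 5) (nat_lit 84) (nat_lit 5) (nat_lit 85) (nat_lit 5) (nat_lit 503) (nat_lit 408) (nat_lit 289)) (XT.lf (nat_lit 0) (nat_lit 24838530400) (nat_lit 228) (nat_lit 3511343081) (nat_lit 76) (nat_lit 319014368) (nat_lit 82) (nat_lit 5) (nat_lit 85) (nat_lit 5) (nat_lit 83) (nat_lit 4) (nat_lit 504) (nat_lit 408) (nat_lit 288))))) (XT.nd (nat_lit 312) (nat_lit 380) (nat_lit 0) (XT.nd (nat_lit 156) (nat_lit 76) (nat_lit 0) (XT.nd (nat_lit 78) (nat_lit 152) (nat_lit 0) (XT.lf (nat_lit 0) (nat_lit 4206661955) (nat_lit 152) (nat_lit 15193004255) (nat_lit 76) (nat_lit 9840765229) (nat_lit 80) (nat_lit 5) (nat_lit 82) (nat_lit 5) (nat_lit 81) (nat_lit 5) (nat_lit 505)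 (nat_lit 408) (nat_lit 287)) (XT.lf (nat_lit 0) (nat_lit 2356490862) (nat_lit 152) (nat_lit 10094575917) (nat_lit 228) (nat_lit 17375619463) (nat_lit 78) (nat_lit 5) (nat_lit 80) (nat_lit 5) (nat_lit 81) (nat_lit 5) (nat_lit 506) (nat_lit 408) (nat_lit 286))) (XT.nd (nat_lit 78) (nat_lit 76) (nat_lit 0) (XT.lf (nat_lit 0) (nat_lit 20716088602) (nat_lit 152) (nat_lit 365110395) (nat_lit 228) (nat_lit 9345178293) (nat_lit 78) (nat_lit 5) (nat_lit 80) (nat_lit 5) (nat_lit 81) (nat_lit 5) (nat_lit 507) (nat_lit 408) (nat_lit 285)) (XT.lf (nat_lit 0) (nat_lit 8630677013) (nat_lit 76) (nat_lit 21500637035) (nat_lit 152) (nat_lit 907913099) (nat_lit 77) (nat_lit 5) (nat_lit 78) (nat_lit 5) (nat_lit 79) (nat_lit 4) (nat_lit 508) (nat_lit 408) (nat_lit 284)))) (XT.nd (nat_lit 156) (nat_lit 152) (nat_lit 0) (XT.nd (nat_lit 78) (nat_lit 152) (nat_lit 0) (XT.lf (nat_lit 0) (nat_lit 7718564356) (nat_lit 152) (nat_lit 4053350202)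 (nat_lit 76) (nat_lit 19893665316) (nat_lit 76) (nat_lit 5) (nat_lit 78) (nat_lit 5) (nat_lit 77) (nat_lit 5) (nat_lit 509) (nat_lit 408) (nat_lit 283)) (XT.lf (nat_lit 0) (nat_lit 15111843001) (nat_lit 152) (nat_lit 1604754555) (nat_lit 228) (nat_lit 15589926067) (nat_lit 74) (nat_lit 5) (nat_lit 76) (nat_lit 5) (nat_lit 77) (nat_lit 5) (nat_lit 510) (nat_lit 408) (nat_lit 282))) (XT.nd (nat_lit 78) (nat_lit 76) (nat_lit 0) (XT.lf (nat_lit 0) (nat_lit 1894329406) (nat_lit 76) (nat_lit 24220817347) (nat_lit 152) (nat_lit 6847632080) (nat_lit 73) (nat_lit 5) (nat_lit 74) (nat_lit 5) (nat_lit 75) (nat_lit 4) (nat_lit 511) (nat_lit 408) (nat_lit 281)) (XT.lf (nat_lit 0) (nat_lit 2291893082) (nat_lit 152) (nat_lit 11789997737) (nat_lit 76) (nat_lit 19550897683) (nat_lit 72) (nat_lit 5) (nat_lit 74) (nat_lit 5) (nat_lit 73) (nat_lit 5) (nat_lit 512) (nat_lit 408) (nat_lit 280))))))) (XT.nd (nat_lit 1170) (nat_lit 912)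 (nat_lit 0) (XT.nd (nat_lit 546) (nat_lit 760) (nat_lit 0) (XT.nd (nat_lit 234) (nat_lit 304) (nat_lit 0) (XT.nd (nat_lit 78) (nat_lit 76) (nat_lit 0) (XT.lf (nat_lit 0) (nat_lit 8131838865) (nat_lit 152) (nat_lit 3500527466) (nat_lit 228) (nat_lit 22686566753) (nat_lit 70) (nat_lit 5) (nat_lit 72) (nat_lit 5) (nat_lit 73) (nat_lit 5) (nat_lit 513) (nat_lit 408) (nat_lit 279)) (XT.nd (nat_lit 78) (nat_lit 76) (nat_lit 0) (XT.lf (nat_lit 0) (nat_lit 21430669932) (nat_lit 228) (nat_lit 6227264029) (nat_lit 76) (nat_lit 7362399910) (nat_lit 70) (nat_lit 5) (nat_lit 73) (nat_lit 5) (nat_lit 71) (nat_lit 4) (nat_lit 514) (nat_lit 408) (nat_lit 278)) (XT.lf (nat_lit 0) (nat_lit 14555596504) (nat_lit 76) (nat_lit 17128566937) (nat_lit 152) (nat_lit 4053776356) (nat_lit 69) (nat_lit 5) (nat_lit 70) (nat_lit 5) (nat_lit 71) (nat_lit 4) (nat_lit 515) (nat_lit 408) (nat_lit 277)))) (XT.nd (nat_lit 156) (nat_lit 76) (nat_lit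 0) (XT.nd (nat_lit 78) (nat_lit 152) (nat_lit 0) (XT.lf (nat_lit 0) (nat_lit 5705818561) (nat_lit 152) (nat_lit 466818594) (nat_lit 76) (nat_lit 30301267983) (nat_lit 68) (nat_lit 5) (nat_lit 70) (nat_lit 5) (nat_lit 69) (nat_lit 5) (nat_lit 516) (nat_lit 408) (nat_lit 276)) (XT.lf (nat_lit 0) (nat_lit 15919217805) (nat_lit 228) (nat_lit 16056776343) (nat_lit 76) (nat_lit 5247476708) (nat_lit 66) (nat_lit 5) (nat_lit 69) (nat_lit 5) (nat_lit 67) (nat_lit 4) (nat_lit 517) (nat_lit 408) (nat_lit 275))) (XT.nd (nat_lit 78) (nat_lit 0) (nat_lit 0) (XT.lf (nat_lit 0) (nat_lit 5484807684) (nat_lit 76) (nat_lit 21059915967) (nat_lit 152) (nat_lit 11447629060) (nat_lit 65) (nat_lit 5) (nat_lit 66) (nat_lit 5) (nat_lit 67) (nat_lit 4) (nat_lit 518) (nat_lit 408) (nat_lit 274)) (XT.lf (nat_lit 0) (nat_lit 27977568216) (nat_lit 76) (nat_lit 9660816628) (nat_lit 152) (nat_lit 1141434767) (nat_lit 65) (nat_lit 5) (nat_lit 66)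 (nat_lit 5) (nat_lit 67) (nat_lit 4) (nat_lit 519) (nat_lit 408) (nat_lit 273))))) (XT.nd (nat_lit 312) (nat_lit 380) (nat_lit 0) (XT.nd (nat_lit 156) (nat_lit 152) (nat_lit 0) (XT.nd (nat_lit 78) (nat_lit 0) (nat_lit 0) (XT.lf (nat_lit 0) (nat_lit 9410622533) (nat_lit 228) (nat_lit 27940055163) (nat_lit 76) (nat_lit 2233854577) (nat_lit 62) (nat_lit 5) (nat_lit 65) (nat_lit 5) (nat_lit 63) (nat_lit 4) (nat_lit 520) (nat_lit 408) (nat_lit 272)) (XT.lf (nat_lit 0) (nat_lit 20449640500) (nat_lit 228) (nat_lit 5555897663) (nat_lit 76) (nat_lit 14401709163) (nat_lit 62) (nat_lit 5) (nat_lit 65) (nat_lit 5) (nat_lit 63) (nat_lit 4) (nat_lit 521) (nat_lit 408) (nat_lit 271))) (XT.nd (nat_lit 78) (nat_lit 76) (nat_lit 0) (XT.lf (nat_lit 0) (nat_lit 17824504032) (nat_lit 76) (nat_lit 14154555722) (nat_lit 152) (nat_lit 9270807414) (nat_lit 61) (nat_lit 5) (nat_lit 62) (nat_lit 5) (nat_lit 63) (nat_lit 4) (nat_lit 522) (nat_lit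 408) (nat_lit 270)) (XT.lf (nat_lit 0) (nat_lit 1747272591) (nat_lit 152) (nat_lit 136238261) (nat_lit 76) (nat_lit 40232417289) (nat_lit 60) (nat_lit 5) (nat_lit 62) (nat_lit 5) (nat_lit 61) (nat_lit 5) (nat_lit 523) (nat_lit 408) (nat_lit 269)))) (XT.nd (nat_lit 156) (nat_lit 152) (nat_lit 0) (XT.nd (nat_lit 78) (nat_lit 76) (nat_lit 0) (XT.lf (nat_lit 0) (nat_lit 13237036991) (nat_lit 228) (nat_lit 18895340819) (nat_lit 76) (nat_lit 10863015384) (nat_lit 58) (nat_lit 5) (nat_lit 61) (nat_lit 5) (nat_lit 59) (nat_lit 4) (nat_lit 524) (nat_lit 408) (nat_lit 268)) (XT.lf (nat_lit 0) (nat_lit 5225868104) (nat_lit 76) (nat_lit 19904181886) (nat_lit 152) (nat_lit 18769435772) (nat_lit 57) (nat_lit 5) (nat_lit 58) (nat_lit 5) (nat_lit 59) (nat_lit 4) (nat_lit 525) (nat_lit 408) (nat_lit 267))) (XT.nd (nat_lit 78) (nat_lit 152) (nat_lit 0) (XT.lf (nat_lit 0) (nat_lit 30435800822) (nat_lit 76) (nat_lit 7123269285) (nat_lit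 152) (nat_lit 7266254722) (nat_lit 57) (nat_lit 5) (nat_lit 58) (nat_lit 5) (nat_lit 59) (nat_lit 4) (nat_lit 526) (nat_lit 408) (nat_lit 266)) (XT.lf (nat_lit 0) (nat_lit 4644179690) (nat_lit 152) (nat_lit 35066954650) (nat_lit 76) (nat_lit 6061936495) (nat_lit 55) (nat_lit 5) (nat_lit 57) (nat_lit 5) (nat_lit 56) (nat_lit 4) (nat_lit 527) (nat_lit 408) (nat_lit 265)))))) (XT.nd (nat_lit 624) (nat_lit 456) (nat_lit 0) (XT.nd (nat_lit 312) (nat_lit 228) (nat_lit 0) (XT.nd (nat_lit 156) (nat_lit 152) (nat_lit 0) (XT.nd (nat_lit 78) (nat_lit 76) (nat_lit 0) (XT.lf (nat_lit 0) (nat_lit 16971814950) (nat_lit 152) (nat_lit 10061053024) (nat_lit 76) (nat_lit 19708045189) (nat_lit 55) (nat_lit 5) (nat_lit 57) (nat_lit 5) (nat_lit 56) (nat_lit 4) (nat_lit 528) (nat_lit 408) (nat_lit 264)) (XT.lf (nat_lit 0) (nat_lit 15985751161) (nat_lit 76) (nat_lit 13826183481) (nat_lit 152) (nat_lit 17921576659) (nat_lit 54) (nat_lit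 5) (nat_lit 55) (nat_lit 5) (nat_lit 56) (nat_lit 4) (nat_lit 529) (nat_lit 408) (nat_lit 263))) (XT.nd (nat_lit 78) (nat_lit 152) (nat_lit 0) (XT.lf (nat_lit 0) (nat_lit 42999195104) (nat_lit 76) (nat_lit 128769022) (nat_lit 152) (nat_lit 5625202264) (nat_lit 54) (nat_lit 5) (nat_lit 55) (nat_lit 5) (nat_lit 56) (nat_lit 4) (nat_lit 530) (nat_lit 408) (nat_lit 262)) (XT.lf (nat_lit 0) (nat_lit 7234203845) (nat_lit 152) (nat_lit 28584605921) (nat_lit 76) (nat_lit 13972625824) (nat_lit 52) (nat_lit 5) (nat_lit 54) (nat_lit 5) (nat_lit 53) (nat_lit 4) (nat_lit 531) (nat_lit 408) (nat_lit 261)))) (XT.nd (nat_lit 156) (nat_lit 152) (nat_lit 0) (XT.nd (nat_lit 78) (nat_lit 76) (nat_lit 0) (XT.lf (nat_lit 0) (nat_lit 20415627097) (nat_lit 152) (nat_lit 1842877042) (nat_lit 76) (nat_lit 28599199173) (nat_lit 52) (nat_lit 5) (nat_lit 54) (nat_lit 5) (nat_lit 53) (nat_lit 4) (nat_lit 532) (nat_lit 408) (nat_lit 260)) (XT.lf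 (nat_lit 0) (nat_lit 26192180870) (nat_lit 76) (nat_lit 8041739771) (nat_lit 152) (nat_lit 17714795770) (nat_lit 51) (nat_lit 5) (nat_lit 52) (nat_lit 5) (nat_lit 53) (nat_lit 4) (nat_lit 533) (nat_lit 408) (nat_lit 259))) (XT.nd (nat_lit 78) (nat_lit 76) (nat_lit 0) (XT.lf (nat_lit 0) (nat_lit 1989296910) (nat_lit 76) (nat_lit 46568510919) (nat_lit 76) (nat_lit 4511920896) (nat_lit 50) (nat_lit 4) (nat_lit 51) (nat_lit 5) (nat_lit 51) (nat_lit 4) (nat_lit 534) (nat_lit 408) (nat_lit 258)) (XT.lf (nat_lit 0) (nat_lit 9241685775) (nat_lit 152) (nat_lit 23310681530) (nat_lit 76) (nat_lit 21659424762) (nat_lit 49) (nat_lit 5) (nat_lit 51) (nat_lit 5) (nat_lit 50) (nat_lit 4) (nat_lit 535) (nat_lit 408) (nat_lit 257))))) (XT.nd (nat_lit 312) (nat_lit 228) (nat_lit 0) (XT.nd (nat_lit 156) (nat_lit 152) (nat_lit 0) (XT.nd (nat_lit 78) (nat_lit 0) (nat_lit 0) (XT.lf (nat_lit 0) (nat_lit 5332066337) (nat_lit 76) (nat_lit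 18026384437) (nat_lit 152) (nat_lit 32027089459) (nat_lit 48) (nat_lit 5) (nat_lit 49) (nat_lit 5) (nat_lit 50) (nat_lit 4) (nat_lit 536) (nat_lit 408) (nat_lit 256)) (XT.lf (nat_lit 0) (nat_lit 35292663381) (nat_lit 76) (nat_lit 2831534217) (nat_lit 152) (nat_lit 18463539026) (nat_lit 48) (nat_lit 5) (nat_lit 49) (nat_lit 5) (nat_lit 50) (nat_lit 4) (nat_lit 537) (nat_lit 408) (nat_lit 255))) (XT.nd (nat_lit 78) (nat_lit 76) (nat_lit 0) (XT.lf (nat_lit 0) (nat_lit 8346810837) (nat_lit 76) (nat_lit 45179854291) (nat_lit 76) (nat_lit 4293521475) (nat_lit 47) (nat_lit 4) (nat_lit 48) (nat_lit 5) (nat_lit 48) (nat_lit 4) (nat_lit 538) (nat_lit 408) (nat_lit 254)) (XT.lf (nat_lit 0) (nat_lit 10336073459) (nat_lit 152) (nat_lit 19916795801) (nat_lit 76) (nat_lit 28826705256) (nat_lit 46) (nat_lit 5) (nat_lit 48) (nat_lit 5) (nat_lit 47) (nat_lit 4) (nat_lit 539) (nat_lit 408) (nat_lit 253)))) (XT.nd (nat_lit 156) (nat_lit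 152) (nat_lit 0) (XT.nd (nat_lit 78) (nat_lit 0) (nat_lit 0) (XT.lf (nat_lit 0) (nat_lit 10673881493) (nat_lit 76) (nat_lit 14737561291) (nat_lit 152) (nat_lit 34961230651) (nat_lit 45) (nat_lit 5) (nat_lit 46) (nat_lit 5) (nat_lit 47) (nat_lit 4) (nat_lit 540) (nat_lit 408) (nat_lit 252)) (XT.lf (nat_lit 0) (nat_lit 41144727935) (nat_lit 152) (nat_lit 19140309731) (nat_lit 0) (nat_lit 1413358140) (nat_lit 45) (nat_lit 5) (nat_lit 47) (nat_lit 4) (nat_lit 45) (nat_lit 4) (nat_lit 541) (nat_lit 408) (nat_lit 251))) (XT.nd (nat_lit 78) (nat_lit 76) (nat_lit 0) (XT.lf (nat_lit 0) (nat_lit 12413385827) (nat_lit 76) (nat_lit 45192733739) (nat_lit 76) (nat_lit 5450087170) (nat_lit 44) (nat_lit 4) (nat_lit 45) (nat_lit 5) (nat_lit 45) (nat_lit 4) (nat_lit 542) (nat_lit 408) (nat_lit 250)) (XT.lf (nat_lit 0) (nat_lit 10095450923) (nat_lit 152) (nat_lit 19259829518) (nat_lit 76) (nat_lit 35090975161) (nat_lit 43) (nat_lit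 5) (nat_lit 45) (nat_lit 5) (nat_lit 44) (nat_lit 4) (nat_lit 543) (nat_lit 408) (nat_lit 249))))))))
noncomputable def xc118 : XT := (XT.nd (nat_lit 53742) (nat_lit 0) (nat_lit 9576) (XT.nd (nat_lit 52572) (nat_lit 0) (nat_lit 20216) (XT.nd (nat_lit 51948) (nat_lit 0) (nat_lit 25916) (XT.nd (nat_lit 234) (nat_lit 228) (nat_lit 0) (XT.nd (nat_lit 78) (nat_lit 76) (nat_lit 0) (XT.lf (nat_lit 0) (nat_lit 13251942456) (nat_lit 76) (nat_lit 12864395863) (nat_lit 152) (nat_lit 39756493155) (nat_lit 42) (nat_lit 5) (nat_lit 43) (nat_lit 5) (nat_lit 44) (nat_lit 4) (nat_lit 544) (nat_lit 408) (nat_lit 248)) (XT.nd (nat_lit 78) (nat_lit 76) (nat_lit 0) (XT.lf (nat_lit 0) (nat_lit 42845031106) (nat_lit 152) (nat_lit 20261389467) (nat_lit 0) (nat_lit 4228968797) (nat_lit 42) (nat_lit 5) (nat_lit 44) (nat_lit 4) (nat_lit 42) (nat_lit 4) (nat_lit 545) (nat_lit 408) (nat_lit 247)) (XT.lf (nat_lit 0) (nat_lit 13181903262) (nat_lit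 76) (nat_lit 47139172928) (nat_lit 76) (nat_lit 8513383175) (nat_lit 41) (nat_lit 4) (nat_lit 42) (nat_lit 5) (nat_lit 42) (nat_lit 4) (nat_lit 546) (nat_lit 408) (nat_lit 246)))) (XT.nd (nat_lit 156) (nat_lit 76) (nat_lit 0) (XT.nd (nat_lit 78) (nat_lit 76) (nat_lit 0) (XT.lf (nat_lit 0) (nat_lit 7985946937) (nat_lit 152) (nat_lit 22423761590) (nat_lit 76) (nat_lit 39960561264) (nat_lit 40) (nat_lit 5) (nat_lit 42) (nat_lit 5) (nat_lit 41) (nat_lit 4) (nat_lit 547) (nat_lit 408) (nat_lit 245)) (XT.lf (nat_lit 0) (nat_lit 11934120641) (nat_lit 76) (nat_lit 12981408207) (nat_lit 152) (nat_lit 47030905576) (nat_lit 39) (nat_lit 5) (nat_lit 40) (nat_lit 5) (nat_lit 41) (nat_lit 4) (nat_lit 548) (nat_lit 408) (nat_lit 244))) (XT.nd (nat_lit 78) (nat_lit 76) (nat_lit 0) (XT.lf (nat_lit 0) (nat_lit 42621123353) (nat_lit 152) (nat_lit 25847074130) (nat_lit 0) (nat_lit 5093642856) (nat_lit 39) (nat_lit 5) (nat_lit 41) (nat_lit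 4) (nat_lit 39) (nat_lit 4) (nat_lit 549) (nat_lit 408) (nat_lit 243)) (XT.lf (nat_lit 0) (nat_lit 9381769382) (nat_lit 76) (nat_lit 51686745865) (nat_lit 76) (nat_lit 14150874390) (nat_lit 38) (nat_lit 4) (nat_lit 39) (nat_lit 5) (nat_lit 39) (nat_lit 4) (nat_lit 550) (nat_lit 408) (nat_lit 242))))) (XT.nd (nat_lit 312) (nat_lit 760) (nat_lit 0) (XT.nd (nat_lit 156) (nat_lit 608) (nat_lit 0) (XT.nd (nat_lit 78) (nat_lit 0) (nat_lit 0) (XT.lf (nat_lit 0) (nat_lit 637900801) (nat_lit 684) (nat_lit 1377361754) (nat_lit 684) (nat_lit 1377361754) (nat_lit 397) (nat_lit 3) (nat_lit 406) (nat_lit 3) (nat_lit 406) (nat_lit 5) (nat_lit 409) (nat_lit 409) (nat_lit 382)) (XT.lf (nat_lit 76) (nat_lit 617078357) (nat_lit 0) (nat_lit 2736074890) (nat_lit 684) (nat_lit 3471720341) (nat_lit 398) (nat_lit 5) (nat_lit 397) (nat_lit 3) (nat_lit 406) (nat_lit 5) (nat_lit 410) (nat_lit 409) (nat_lit 381))) (XT.nd (nat_lit 78) (nat_lit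 608) (nat_lit 0) (XT.lf (nat_lit 76) (nat_lit 4104425518) (nat_lit 0) (nat_lit 1335717890) (nat_lit 684) (nat_lit 1427140255) (nat_lit 398) (nat_lit 5) (nat_lit 397) (nat_lit 3) (nat_lit 406) (nat_lit 5) (nat_lit 411) (nat_lit 409) (nat_lit 380)) (XT.lf (nat_lit 0) (nat_lit 595320618) (nat_lit 684) (nat_lit 6163328303) (nat_lit 760) (nat_lit 154242694) (nat_lit 389) (nat_lit 5) (nat_lit 398) (nat_lit 5) (nat_lit 399) (nat_lit 5) (nat_lit 412) (nat_lit 409) (nat_lit 379)))) (XT.nd (nat_lit 156) (nat_lit 760) (nat_lit 0) (XT.nd (nat_lit 78) (nat_lit 0) (nat_lit 0) (XT.lf (nat_lit 0) (nat_lit 2614460258) (nat_lit 684) (nat_lit 2607353852) (nat_lit 760) (nat_lit 1738703671) (nat_lit 389) (nat_lit 5) (nat_lit 398) (nat_lit 5) (nat_lit 399) (nat_lit 5) (nat_lit 413) (nat_lit 409) (nat_lit 378)) (XT.lf (nat_lit 76) (nat_lit 1032055392) (nat_lit 0) (nat_lit 3597562194) (nat_lit 760) (nat_lit 2381905965) (nat_lit 390) (nat_lit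 5) (nat_lit 389) (nat_lit 5) (nat_lit 399) (nat_lit 5) (nat_lit 414) (nat_lit 409) (nat_lit 377))) (XT.nd (nat_lit 78) (nat_lit 760) (nat_lit 0) (XT.lf (nat_lit 76) (nat_lit 4791136885) (nat_lit 0) (nat_lit 1867700961) (nat_lit 760) (nat_lit 406627113) (nat_lit 390) (nat_lit 5) (nat_lit 389) (nat_lit 5) (nat_lit 399) (nat_lit 5) (nat_lit 415) (nat_lit 409) (nat_lit 376)) (XT.lf (nat_lit 76) (nat_lit 1512696653) (nat_lit 0) (nat_lit 26673070) (nat_lit 836) (nat_lit 5582901578) (nat_lit 380) (nat_lit 5) (nat_lit 379) (nat_lit 5) (nat_lit 390) (nat_lit 5) (nat_lit 416) (nat_lit 409) (nat_lit 375)))))) (XT.nd (nat_lit 546) (nat_lit 4180) (nat_lit 0) (XT.nd (nat_lit 234) (nat_lit 760) (nat_lit 0) (XT.nd (nat_lit 78) (nat_lit 836) (nat_lit 0) (XT.lf (nat_lit 0) (nat_lit 3507349360) (nat_lit 760) (nat_lit 1787441433) (nat_lit 836) (nat_lit 1886729537) (nat_lit 380) (nat_lit 5) (nat_lit 390) (nat_lit 5) (nat_lit 391) (nat_lit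 5) (nat_lit 417) (nat_lit 409) (nat_lit 374)) (XT.nd (nat_lit 78) (nat_lit 836) (nat_lit 0) (XT.lf (nat_lit 76) (nat_lit 2147227552) (nat_lit 0) (nat_lit 3340676894) (nat_lit 836) (nat_lit 1756048487) (nat_lit 381) (nat_lit 5) (nat_lit 380) (nat_lit 5) (nat_lit 391) (nat_lit 5) (nat_lit 418) (nat_lit 409) (nat_lit 373)) (XT.lf (nat_lit 0) (nat_lit 167074325) (nat_lit 836) (nat_lit 1118099334) (nat_lit 912) (nat_lit 6024480740) (nat_lit 369) (nat_lit 5) (nat_lit 380) (nat_lit 5) (nat_lit 381) (nat_lit 5) (nat_lit 419) (nat_lit 409) (nat_lit 372)))) (XT.nd (nat_lit 156) (nat_lit 836) (nat_lit 0) (XT.nd (nat_lit 78) (nat_lit 0) (nat_lit 0) (XT.lf (nat_lit 0) (nat_lit 2085321966) (nat_lit 836) (nat_lit 4409324683) (nat_lit 912) (nat_lit 882988032) (nat_lit 370) (nat_lit 5) (nat_lit 381) (nat_lit 5) (nat_lit 382) (nat_lit 5) (nat_lit 420) (nat_lit 409) (nat_lit 371)) (XT.lf (nat_lit 0) (nat_lit 4022355112) (nat_lit 836)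 (nat_lit 304960921) (nat_lit 912) (nat_lit 3121512020) (nat_lit 370) (nat_lit 5) (nat_lit 381) (nat_lit 5) (nat_lit 382) (nat_lit 5) (nat_lit 421) (nat_lit 409) (nat_lit 370))) (XT.nd (nat_lit 78) (nat_lit 836) (nat_lit 0) (XT.lf (nat_lit 76) (nat_lit 3956000901) (nat_lit 0) (nat_lit 2038468751) (nat_lit 912) (nat_lit 1528388972) (nat_lit 371) (nat_lit 5) (nat_lit 370) (nat_lit 5) (nat_lit 382) (nat_lit 5) (nat_lit 422) (nat_lit 409) (nat_lit 369)) (XT.lf (nat_lit 0) (nat_lit 371380454) (nat_lit 912) (nat_lit 6886481461) (nat_lit 76) (nat_lit 342543026) (nat_lit 359) (nat_lit 5) (nat_lit 371) (nat_lit 5) (nat_lit 360) (nat_lit 5) (nat_lit 423) (nat_lit 409) (nat_lit 368))))) (XT.nd (nat_lit 312) (nat_lit 2204) (nat_lit 0) (XT.nd (nat_lit 156) (nat_lit 1064) (nat_lit 0) (XT.nd (nat_lit 78) (nat_lit 912) (nat_lit 0) (XT.lf (nat_lit 0) (nat_lit 2295161260) (nat_lit 912) (nat_lit 2564619093) (nat_lit 76) (nat_lit 2820120813)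 (nat_lit 359) (nat_lit 5) (nat_lit 371) (nat_lit 5) (nat_lit 360) (nat_lit 5) (nat_lit 424) (nat_lit 409) (nat_lit 367)) (XT.lf (nat_lit 0) (nat_lit 1878907907) (nat_lit 912) (nat_lit 2358701664) (nat_lit 988) (nat_lit 3525353422) (nat_lit 347) (nat_lit 5) (nat_lit 359) (nat_lit 5) (nat_lit 360) (nat_lit 5) (nat_lit 425) (nat_lit 409) (nat_lit 366))) (XT.nd (nat_lit 78) (nat_lit 1064) (nat_lit 0) (XT.lf (nat_lit 0) (nat_lit 6210818377) (nat_lit 988) (nat_lit 1387787964) (nat_lit 76) (nat_lit 250744789) (nat_lit 347) (nat_lit 5) (nat_lit 360) (nat_lit 5) (nat_lit 348) (nat_lit 5) (nat_lit 426) (nat_lit 409) (nat_lit 365)) (XT.lf (nat_lit 0) (nat_lit 299289211) (nat_lit 1064) (nat_lit 4702728805) (nat_lit 76) (nat_lit 2936223127) (nat_lit 333) (nat_lit 5) (nat_lit 347) (nat_lit 5) (nat_lit 334) (nat_lit 5) (nat_lit 427) (nat_lit 409) (nat_lit 364)))) (XT.nd (nat_lit 156) (nat_lit 1140) (nat_lit 0) (XT.nd (nat_lit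 78) (nat_lit 1064) (nat_lit 0) (XT.lf (nat_lit 0) (nat_lit 2222951269) (nat_lit 1064) (nat_lit 65089287) (nat_lit 76) (nat_lit 5742459756) (nat_lit 333) (nat_lit 5) (nat_lit 347) (nat_lit 5) (nat_lit 334) (nat_lit 5) (nat_lit 428) (nat_lit 409) (nat_lit 363)) (XT.lf (nat_lit 0) (nat_lit 4203535822) (nat_lit 1140) (nat_lit 3370542456) (nat_lit 76) (nat_lit 551480652) (nat_lit 319) (nat_lit 5) (nat_lit 334) (nat_lit 5) (nat_lit 320) (nat_lit 5) (nat_lit 429) (nat_lit 409) (nat_lit 362))) (XT.nd (nat_lit 78) (nat_lit 0) (nat_lit 0) (XT.lf (nat_lit 0) (nat_lit 1458242468) (nat_lit 1140) (nat_lit 4771839662) (nat_lit 1216) (nat_lit 1993798671) (nat_lit 304) (nat_lit 5) (nat_lit 319) (nat_lit 5) (nat_lit 320) (nat_lit 5) (nat_lit 430) (nat_lit 409) (nat_lit 361)) (XT.lf (nat_lit 0) (nat_lit 6456263724) (nat_lit 1140) (nat_lit 1845455499) (nat_lit 1216) (nat_lit 23911866) (nat_lit 304) (nat_lit 5) (nat_lit 319) (nat_lit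 5) (nat_lit 320) (nat_lit 5) (nat_lit 431) (nat_lit 409) (nat_lit 360))))))) (XT.nd (nat_lit 1170) (nat_lit 4560) (nat_lit 0) (XT.nd (nat_lit 546) (nat_lit 2204) (nat_lit 0) (XT.nd (nat_lit 234) (nat_lit 1824) (nat_lit 0) (XT.nd (nat_lit 78) (nat_lit 760) (nat_lit 0) (XT.lf (nat_lit 0) (nat_lit 1959428009) (nat_lit 1292) (nat_lit 5270160887) (nat_lit 76) (nat_lit 1200469448) (nat_lit 287) (nat_lit 5) (nat_lit 304) (nat_lit 5) (nat_lit 288) (nat_lit 5) (nat_lit 432) (nat_lit 409) (nat_lit 359)) (XT.nd (nat_lit 78) (nat_lit 760) (nat_lit 0) (XT.lf (nat_lit 0) (nat_lit 3991379956) (nat_lit 1292) (nat_lit 222824429) (nat_lit 76) (nat_lit 4323726102) (nat_lit 287) (nat_lit 5) (nat_lit 304) (nat_lit 5) (nat_lit 288) (nat_lit 5) (nat_lit 433) (nat_lit 409) (nat_lit 358)) (XT.lf (nat_lit 0) (nat_lit 5029971133) (nat_lit 760) (nat_lit 1056317864) (nat_lit 836) (nat_lit 2562696588) (nat_lit 277) (nat_lit 5) (nat_lit 287)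 (nat_lit 5) (nat_lit 288) (nat_lit 5) (nat_lit 434) (nat_lit 409) (nat_lit 357)))) (XT.nd (nat_lit 156) (nat_lit 1140) (nat_lit 0) (XT.nd (nat_lit 78) (nat_lit 76) (nat_lit 0) (XT.lf (nat_lit 0) (nat_lit 1647561450) (nat_lit 608) (nat_lit 6590300122) (nat_lit 684) (nat_lit 525702823) (nat_lit 269) (nat_lit 5) (nat_lit 277) (nat_lit 5) (nat_lit 278) (nat_lit 5) (nat_lit 435) (nat_lit 409) (nat_lit 356)) (XT.lf (nat_lit 0) (nat_lit 1544123801) (nat_lit 684) (nat_lit 1805625071) (nat_lit 76) (nat_lit 5531312239) (nat_lit 268) (nat_lit 5) (nat_lit 277) (nat_lit 5) (nat_lit 269) (nat_lit 5) (nat_lit 436) (nat_lit 409) (nat_lit 355))) (XT.nd (nat_lit 78) (nat_lit 532) (nat_lit 0) (XT.lf (nat_lit 0) (nat_lit 3657549257) (nat_lit 684) (nat_lit 5315863320) (nat_lit 76) (nat_lit 28757891) (nat_lit 260) (nat_lit 5) (nat_lit 269) (nat_lit 5) (nat_lit 261) (nat_lit 5) (nat_lit 437) (nat_lit 409) (nat_lit 354)) (XT.lf (nat_lit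 0) (nat_lit 178738691) (nat_lit 532) (nat_lit 5666128254) (nat_lit 608) (nat_lit 3281737295) (nat_lit 253) (nat_lit 5) (nat_lit 260) (nat_lit 5) (nat_lit 261) (nat_lit 5) (nat_lit 438) (nat_lit 409) (nat_lit 353))))) (XT.nd (nat_lit 312) (nat_lit 1064) (nat_lit 0) (XT.nd (nat_lit 156) (nat_lit 532) (nat_lit 0) (XT.nd (nat_lit 78) (nat_lit 608) (nat_lit 0) (XT.lf (nat_lit 0) (nat_lit 5902542835) (nat_lit 532) (nat_lit 2206950883) (nat_lit 608) (nat_lit 1144932271) (nat_lit 253) (nat_lit 5) (nat_lit 260) (nat_lit 5) (nat_lit 261) (nat_lit 5) (nat_lit 439) (nat_lit 409) (nat_lit 352)) (XT.lf (nat_lit 0) (nat_lit 1030645094) (nat_lit 608) (nat_lit 6995041438) (nat_lit 76) (nat_lit 1360238438) (nat_lit 245) (nat_lit 5) (nat_lit 253) (nat_lit 5) (nat_lit 246) (nat_lit 5) (nat_lit 440) (nat_lit 409) (nat_lit 351))) (XT.nd (nat_lit 78) (nat_lit 532) (nat_lit 0) (XT.lf (nat_lit 0) (nat_lit 3264082613) (nat_lit 608) (nat_lit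 1224116249) (nat_lit 76) (nat_lit 5032367005) (nat_lit 245) (nat_lit 5) (nat_lit 253) (nat_lit 5) (nat_lit 246) (nat_lit 5) (nat_lit 441) (nat_lit 409) (nat_lit 350)) (XT.lf (nat_lit 0) (nat_lit 4769428528) (nat_lit 532) (nat_lit 801690200) (nat_lit 608) (nat_lit 4087934419) (nat_lit 238) (nat_lit 5) (nat_lit 245) (nat_lit 5) (nat_lit 246) (nat_lit 5) (nat_lit 442) (nat_lit 409) (nat_lit 349)))) (XT.nd (nat_lit 156) (nat_lit 456) (nat_lit 0) (XT.nd (nat_lit 78) (nat_lit 76) (nat_lit 0) (XT.lf (nat_lit 0) (nat_lit 1115126874) (nat_lit 532) (nat_lit 6845668430) (nat_lit 608) (nat_lit 1840501733) (nat_lit 231) (nat_lit 5) (nat_lit 238) (nat_lit 5) (nat_lit 239) (nat_lit 5) (nat_lit 443) (nat_lit 409) (nat_lit 348)) (XT.lf (nat_lit 0) (nat_lit 484654816) (nat_lit 608) (nat_lit 2603657239) (nat_lit 76) (nat_lit 6858777271) (nat_lit 230) (nat_lit 5) (nat_lit 238) (nat_lit 5) (nat_lit 231) (nat_lit 5) (nat_lit 444) (nat_lit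 409) (nat_lit 347))) (XT.nd (nat_lit 78) (nat_lit 0) (nat_lit 0) (XT.lf (nat_lit 0) (nat_lit 2848720568) (nat_lit 532) (nat_lit 6433300687) (nat_lit 76) (nat_lit 814507502) (nat_lit 224) (nat_lit 5) (nat_lit 231) (nat_lit 5) (nat_lit 225) (nat_lit 5) (nat_lit 445) (nat_lit 409) (nat_lit 346)) (XT.lf (nat_lit 0) (nat_lit 5304314644) (nat_lit 532) (nat_lit 152918512) (nat_lit 76) (nat_lit 4792604355) (nat_lit 224) (nat_lit 5) (nat_lit 231) (nat_lit 5) (nat_lit 225) (nat_lit 5) (nat_lit 446) (nat_lit 409) (nat_lit 345)))))) (XT.nd (nat_lit 624) (nat_lit 1824) (nat_lit 0) (XT.nd (nat_lit 312) (nat_lit 1292) (nat_lit 0) (XT.nd (nat_lit 156) (nat_lit 532) (nat_lit 0) (XT.nd (nat_lit 78) (nat_lit 456) (nat_lit 0) (XT.lf (nat_lit 0) (nat_lit 6398093329) (nat_lit 456) (nat_lit 1461526236) (nat_lit 532) (nat_lit 2547348875) (nat_lit 218) (nat_lit 5) (nat_lit 224) (nat_lit 5) (nat_lit 225) (nat_lit 5) (nat_lit 447) (nat_lit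 409) (nat_lit 344)) (XT.lf (nat_lit 0) (nat_lit 2561263260) (nat_lit 456) (nat_lit 7947109335) (nat_lit 532) (nat_lit 59941113) (nat_lit 212) (nat_lit 5) (nat_lit 218) (nat_lit 5) (nat_lit 219) (nat_lit 5) (nat_lit 448) (nat_lit 409) (nat_lit 343))) (XT.nd (nat_lit 78) (nat_lit 456) (nat_lit 0) (XT.lf (nat_lit 0) (nat_lit 2473975972) (nat_lit 532) (nat_lit 1404985678) (nat_lit 76) (nat_lit 6854198628) (nat_lit 211) (nat_lit 5) (nat_lit 218) (nat_lit 5) (nat_lit 212) (nat_lit 5) (nat_lit 449) (nat_lit 409) (nat_lit 342)) (XT.lf (nat_lit 0) (nat_lit 5104982377) (nat_lit 532) (nat_lit 5446933654) (nat_lit 76) (nat_lit 350353848) (nat_lit 205) (nat_lit 5) (nat_lit 212) (nat_lit 5) (nat_lit 206) (nat_lit 5) (nat_lit 450) (nat_lit 409) (nat_lit 341)))) (XT.nd (nat_lit 156) (nat_lit 912) (nat_lit 0) (XT.nd (nat_lit 78) (nat_lit 0) (nat_lit 0) (XT.lf (nat_lit 0) (nat_lit 1420725497) (nat_lit 380) (nat_lit 6427445727) (nat_lit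 456) (nat_lit 3227287603) (nat_lit 200) (nat_lit 5) (nat_lit 205) (nat_lit 5) (nat_lit 206) (nat_lit 5) (nat_lit 451) (nat_lit 409) (nat_lit 340)) (XT.lf (nat_lit 0) (nat_lit 8563796368) (nat_lit 380) (nat_lit 2132283274) (nat_lit 456) (nat_lit 557094604) (nat_lit 200) (nat_lit 5) (nat_lit 205) (nat_lit 5) (nat_lit 206) (nat_lit 5) (nat_lit 452) (nat_lit 409) (nat_lit 339))) (XT.nd (nat_lit 78) (nat_lit 380) (nat_lit 0) (XT.lf (nat_lit 0) (nat_lit 2184388411) (nat_lit 532) (nat_lit 6947640648) (nat_lit 76) (nat_lit 2302543470) (nat_lit 193) (nat_lit 5) (nat_lit 200) (nat_lit 5) (nat_lit 194) (nat_lit 5) (nat_lit 453) (nat_lit 409) (nat_lit 338)) (XT.lf (nat_lit 0) (nat_lit 248898162) (nat_lit 380) (nat_lit 4767443216) (nat_lit 456) (nat_lit 6604326453) (nat_lit 188) (nat_lit 5) (nat_lit 193) (nat_lit 5) (nat_lit 194) (nat_lit 5) (nat_lit 454) (nat_lit 409) (nat_lit 337))))) (XT.nd (nat_lit 312) (nat_lit 1064) (nat_lit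 0) (XT.nd (nat_lit 156) (nat_lit 380) (nat_lit 0) (XT.nd (nat_lit 78) (nat_lit 380) (nat_lit 0) (XT.lf (nat_lit 0) (nat_lit 7762041091) (nat_lit 380) (nat_lit 210378047) (nat_lit 456) (nat_lit 3838754997) (nat_lit 188) (nat_lit 5) (nat_lit 193) (nat_lit 5) (nat_lit 194) (nat_lit 5) (nat_lit 455) (nat_lit 409) (nat_lit 336)) (XT.lf (nat_lit 0) (nat_lit 3476624362) (nat_lit 380) (nat_lit 7586882750) (nat_lit 456) (nat_lit 942501716) (nat_lit 183) (nat_lit 5) (nat_lit 188) (nat_lit 5) (nat_lit 189) (nat_lit 5) (nat_lit 456) (nat_lit 409) (nat_lit 335))) (XT.nd (nat_lit 78) (nat_lit 304) (nat_lit 0) (XT.lf (nat_lit 0) (nat_lit 2014195472) (nat_lit 456) (nat_lit 957905412) (nat_lit 76) (nat_lit 9233600768) (nat_lit 182) (nat_lit 5) (nat_lit 188) (nat_lit 5) (nat_lit 183) (nat_lit 5) (nat_lit 457) (nat_lit 409) (nat_lit 334)) (XT.lf (nat_lit 0) (nat_lit 5095869372) (nat_lit 380) (nat_lit 5501496485) (nat_lit 76) (nat_lit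 1812085660) (nat_lit 178) (nat_lit 5) (nat_lit 183) (nat_lit 5) (nat_lit 179) (nat_lit 5) (nat_lit 458) (nat_lit 409) (nat_lit 333)))) (XT.nd (nat_lit 156) (nat_lit 684) (nat_lit 0) (XT.nd (nat_lit 78) (nat_lit 0) (nat_lit 0) (XT.lf (nat_lit 0) (nat_lit 2386807950) (nat_lit 380) (nat_lit 5916555550) (nat_lit 456) (nat_lit 4314951973) (nat_lit 173) (nat_lit 5) (nat_lit 178) (nat_lit 5) (nat_lit 179) (nat_lit 5) (nat_lit 459) (nat_lit 409) (nat_lit 332)) (XT.lf (nat_lit 0) (nat_lit 10584286835) (nat_lit 380) (nat_lit 1050032042) (nat_lit 456) (nat_lit 1198311998) (nat_lit 173) (nat_lit 5) (nat_lit 178) (nat_lit 5) (nat_lit 179) (nat_lit 5) (nat_lit 460) (nat_lit 409) (nat_lit 331))) (XT.nd (nat_lit 78) (nat_lit 304) (nat_lit 0) (XT.lf (nat_lit 0) (nat_lit 2041536390) (nat_lit 380) (nat_lit 7057563126) (nat_lit 76) (nat_lit 3951629509) (nat_lit 168) (nat_lit 5) (nat_lit 173) (nat_lit 5) (nat_lit 169) (nat_lit 5) (nat_lit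 461) (nat_lit 409) (nat_lit 330)) (XT.lf (nat_lit 0) (nat_lit 1214584065) (nat_lit 304) (nat_lit 4157460872) (nat_lit 380) (nat_lit 7902445157) (nat_lit 164) (nat_lit 5) (nat_lit 168) (nat_lit 5) (nat_lit 169) (nat_lit 5) (nat_lit 462) (nat_lit 409) (nat_lit 329))))))))
noncomputable def xc119 : XT := (XT.nd (nat_lit 2340) (nat_lit 3040) (nat_lit 0) (XT.nd (nat_lit 1170) (nat_lit 2052) (nat_lit 0) (XT.nd (nat_lit 546) (nat_lit 1368) (nat_lit 0) (XT.nd (nat_lit 234) (nat_lit 988) (nat_lit 0) (XT.nd (nat_lit 78) (nat_lit 380) (nat_lit 0) (XT.lf (nat_lit 0) (nat_lit 8856253043) (nat_lit 380) (nat_lit 3673179201) (nat_lit 76) (nat_lit 973920550) (nat_lit 164) (nat_lit 5) (nat_lit 169) (nat_lit 5) (nat_lit 165) (nat_lit 5) (nat_lit 463) (nat_lit 409) (nat_lit 328)) (XT.nd (nat_lit 78) (nat_lit 76) (nat_lit 0) (XT.lf (nat_lit 0) (nat_lit 4982124726) (nat_lit 304) (nat_lit 7525555780) (nat_lit 380) (nat_lit 1229522336)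 (nat_lit 160) (nat_lit 5) (nat_lit 164) (nat_lit 5) (nat_lit 165) (nat_lit 5) (nat_lit 464) (nat_lit 409) (nat_lit 327)) (XT.lf (nat_lit 0) (nat_lit 2257119529) (nat_lit 380) (nat_lit 66178842) (nat_lit 76) (nat_lit 11653774557) (nat_lit 159) (nat_lit 5) (nat_lit 164) (nat_lit 5) (nat_lit 160) (nat_lit 5) (nat_lit 465) (nat_lit 409) (nat_lit 326)))) (XT.nd (nat_lit 156) (nat_lit 380) (nat_lit 0) (XT.nd (nat_lit 78) (nat_lit 304) (nat_lit 0) (XT.lf (nat_lit 0) (nat_lit 5914818317) (nat_lit 380) (nat_lit 5243041830) (nat_lit 76) (nat_lit 3063180737) (nat_lit 155) (nat_lit 5) (nat_lit 160) (nat_lit 5) (nat_lit 156) (nat_lit 5) (nat_lit 466) (nat_lit 409) (nat_lit 325)) (XT.lf (nat_lit 0) (nat_lit 3836057572) (nat_lit 304) (nat_lit 5881539945) (nat_lit 380) (nat_lit 4753671885) (nat_lit 151) (nat_lit 5) (nat_lit 155) (nat_lit 5) (nat_lit 156) (nat_lit 5) (nat_lit 467) (nat_lit 409) (nat_lit 324))) (XT.nd (nat_lit 78)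 (nat_lit 380) (nat_lit 0) (XT.lf (nat_lit 0) (nat_lit 13257043833) (nat_lit 304) (nat_lit 405526913) (nat_lit 380) (nat_lit 1065592659) (nat_lit 151) (nat_lit 5) (nat_lit 155) (nat_lit 5) (nat_lit 156) (nat_lit 5) (nat_lit 468) (nat_lit 409) (nat_lit 323)) (XT.lf (nat_lit 0) (nat_lit 2784159894) (nat_lit 380) (nat_lit 6980016390) (nat_lit 76) (nat_lit 5224670683) (nat_lit 146) (nat_lit 5) (nat_lit 151) (nat_lit 5) (nat_lit 147) (nat_lit 5) (nat_lit 469) (nat_lit 409) (nat_lit 322))))) (XT.nd (nat_lit 312) (nat_lit 532) (nat_lit 0) (XT.nd (nat_lit 156) (nat_lit 608) (nat_lit 0) (XT.nd (nat_lit 78) (nat_lit 0) (nat_lit 0) (XT.lf (nat_lit 0) (nat_lit 2543781190) (nat_lit 228) (nat_lit 4203554454) (nat_lit 304) (nat_lit 8509120224) (nat_lit 143) (nat_lit 5) (nat_lit 146) (nat_lit 5) (nat_lit 147) (nat_lit 5) (nat_lit 470) (nat_lit 409) (nat_lit 321)) (XT.lf (nat_lit 0) (nat_lit 10891331350) (nat_lit 304) (nat_lit 3086741161)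 (nat_lit 76) (nat_lit 1552164517) (nat_lit 143) (nat_lit 5) (nat_lit 147) (nat_lit 5) (nat_lit 144) (nat_lit 5) (nat_lit 471) (nat_lit 409) (nat_lit 320))) (XT.nd (nat_lit 78) (nat_lit 304) (nat_lit 0) (XT.lf (nat_lit 0) (nat_lit 6883990756) (nat_lit 304) (nat_lit 8360238758) (nat_lit 380) (nat_lit 565466310) (nat_lit 139) (nat_lit 5) (nat_lit 143) (nat_lit 5) (nat_lit 144) (nat_lit 5) (nat_lit 472) (nat_lit 409) (nat_lit 319)) (XT.lf (nat_lit 0) (nat_lit 1069386476) (nat_lit 228) (nat_lit 2508598905) (nat_lit 304) (nat_lit 12517948317) (nat_lit 135) (nat_lit 5) (nat_lit 138) (nat_lit 5) (nat_lit 139) (nat_lit 5) (nat_lit 473) (nat_lit 409) (nat_lit 318)))) (XT.nd (nat_lit 156) (nat_lit 304) (nat_lit 0) (XT.nd (nat_lit 78) (nat_lit 228) (nat_lit 0) (XT.lf (nat_lit 0) (nat_lit 7936303154) (nat_lit 304) (nat_lit 4918056529) (nat_lit 76) (nat_lit 3533174768) (nat_lit 135) (nat_lit 5) (nat_lit 139) (nat_lit 5) (nat_lit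 136) (nat_lit 5) (nat_lit 474) (nat_lit 409) (nat_lit 317)) (XT.lf (nat_lit 0) (nat_lit 5541067911) (nat_lit 228) (nat_lit 6940152338) (nat_lit 304) (nat_lit 4204988977) (nat_lit 132) (nat_lit 5) (nat_lit 135) (nat_lit 5) (nat_lit 136) (nat_lit 5) (nat_lit 475) (nat_lit 409) (nat_lit 316))) (XT.nd (nat_lit 78) (nat_lit 228) (nat_lit 0) (XT.lf (nat_lit 0) (nat_lit 193339916) (nat_lit 304) (nat_lit 615685750) (nat_lit 76) (nat_lit 16183931653) (nat_lit 131) (nat_lit 5) (nat_lit 135) (nat_lit 5) (nat_lit 132) (nat_lit 5) (nat_lit 476) (nat_lit 409) (nat_lit 315)) (XT.lf (nat_lit 0) (nat_lit 4771319672) (nat_lit 304) (nat_lit 7004381169) (nat_lit 76) (nat_lit 5527992860) (nat_lit 128) (nat_lit 5) (nat_lit 132) (nat_lit 5) (nat_lit 129) (nat_lit 5) (nat_lit 477) (nat_lit 409) (nat_lit 314)))))) (XT.nd (nat_lit 546) (nat_lit 1064) (nat_lit 0) (XT.nd (nat_lit 234) (nat_lit 456) (nat_lit 0) (XT.nd (nat_lit 78) (nat_lit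 304) (nat_lit 0) (XT.lf (nat_lit 0) (nat_lit 3964997502) (nat_lit 228) (nat_lit 5552690869) (nat_lit 304) (nat_lit 8105133644) (nat_lit 125) (nat_lit 5) (nat_lit 128) (nat_lit 5) (nat_lit 129) (nat_lit 5) (nat_lit 478) (nat_lit 409) (nat_lit 313)) (XT.nd (nat_lit 78) (nat_lit 304) (nat_lit 0) (XT.lf (nat_lit 0) (nat_lit 14464919589) (nat_lit 304) (nat_lit 2586575602) (nat_lit 76) (nat_lit 898276132) (nat_lit 125) (nat_lit 5) (nat_lit 129) (nat_lit 5) (nat_lit 126) (nat_lit 5) (nat_lit 479) (nat_lit 409) (nat_lit 312)) (XT.lf (nat_lit 0) (nat_lit 1370325706) (nat_lit 304) (nat_lit 9395084353) (nat_lit 76) (nat_lit 7517118416) (nat_lit 121) (nat_lit 5) (nat_lit 125) (nat_lit 5) (nat_lit 122) (nat_lit 5) (nat_lit 480) (nat_lit 409) (nat_lit 311)))) (XT.nd (nat_lit 156) (nat_lit 228) (nat_lit 0) (XT.nd (nat_lit 78) (nat_lit 0) (nat_lit 0) (XT.lf (nat_lit 0) (nat_lit 2106238591) (nat_lit 228) (nat_lit 4220993343) (nat_lit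 304) (nat_lit 12296219017) (nat_lit 118) (nat_lit 5) (nat_lit 121) (nat_lit 5) (nat_lit 122) (nat_lit 5) (nat_lit 481) (nat_lit 409) (nat_lit 310)) (XT.lf (nat_lit 0) (nat_lit 11532507689) (nat_lit 304) (nat_lit 4886185685) (nat_lit 76) (nat_lit 2552919003) (nat_lit 118) (nat_lit 5) (nat_lit 122) (nat_lit 5) (nat_lit 119) (nat_lit 5) (nat_lit 482) (nat_lit 409) (nat_lit 309))) (XT.nd (nat_lit 78) (nat_lit 76) (nat_lit 0) (XT.lf (nat_lit 0) (nat_lit 7158204634) (nat_lit 152) (nat_lit 9826561095) (nat_lit 228) (nat_lit 2342729307) (nat_lit 116) (nat_lit 5) (nat_lit 118) (nat_lit 5) (nat_lit 119) (nat_lit 5) (nat_lit 483) (nat_lit 409) (nat_lit 308)) (XT.lf (nat_lit 0) (nat_lit 2879935948) (nat_lit 228) (nat_lit 90436082) (nat_lit 76) (nat_lit 16721941541) (nat_lit 115) (nat_lit 5) (nat_lit 118) (nat_lit 5) (nat_lit 116) (nat_lit 5) (nat_lit 484) (nat_lit 409) (nat_lit 307))))) (XT.nd (nat_lit 312) (nat_lit 380) (nat_lit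 0) (XT.nd (nat_lit 156) (nat_lit 304) (nat_lit 0) (XT.nd (nat_lit 78) (nat_lit 152) (nat_lit 0) (XT.lf (nat_lit 0) (nat_lit 8354218917) (nat_lit 304) (nat_lit 7565226598) (nat_lit 76) (nat_lit 4143675576) (nat_lit 112) (nat_lit 5) (nat_lit 116) (nat_lit 5) (nat_lit 113) (nat_lit 5) (nat_lit 485) (nat_lit 409) (nat_lit 306)) (XT.lf (nat_lit 0) (nat_lit 5057303994) (nat_lit 152) (nat_lit 8995352055) (nat_lit 228) (nat_lit 6390600005) (nat_lit 110) (nat_lit 5) (nat_lit 112) (nat_lit 5) (nat_lit 113) (nat_lit 5) (nat_lit 486) (nat_lit 409) (nat_lit 305))) (XT.nd (nat_lit 78) (nat_lit 304) (nat_lit 0) (XT.lf (nat_lit 0) (nat_lit 18181243544) (nat_lit 152) (nat_lit 1798419637) (nat_lit 228) (nat_lit 853404338) (nat_lit 110) (nat_lit 5) (nat_lit 112) (nat_lit 5) (nat_lit 113) (nat_lit 5) (nat_lit 487) (nat_lit 409) (nat_lit 304)) (XT.lf (nat_lit 0) (nat_lit 4893989920) (nat_lit 304) (nat_lit 10693347554) (nat_lit 76) (nat_lit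 5641676491) (nat_lit 106) (nat_lit 5) (nat_lit 110) (nat_lit 5) (nat_lit 107) (nat_lit 5) (nat_lit 488) (nat_lit 409) (nat_lit 303)))) (XT.nd (nat_lit 156) (nat_lit 228) (nat_lit 0) (XT.nd (nat_lit 78) (nat_lit 0) (nat_lit 0) (XT.lf (nat_lit 0) (nat_lit 2528037216) (nat_lit 152) (nat_lit 8319461322) (nat_lit 228) (nat_lit 10787562305) (nat_lit 104) (nat_lit 5) (nat_lit 106) (nat_lit 5) (nat_lit 107) (nat_lit 5) (nat_lit 489) (nat_lit 409) (nat_lit 302)) (XT.lf (nat_lit 0) (nat_lit 16333700288) (nat_lit 152) (nat_lit 735818290) (nat_lit 228) (nat_lit 4981074217) (nat_lit 104) (nat_lit 5) (nat_lit 106) (nat_lit 5) (nat_lit 107) (nat_lit 5) (nat_lit 490) (nat_lit 409) (nat_lit 301))) (XT.nd (nat_lit 78) (nat_lit 0) (nat_lit 0) (XT.lf (nat_lit 0) (nat_lit 1109906586) (nat_lit 228) (nat_lit 14350999585) (nat_lit 76) (nat_lit 7013502951) (nat_lit 101) (nat_lit 5) (nat_lit 104) (nat_lit 5) (nat_lit 102) (nat_lit 5) (nat_lit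 491) (nat_lit 409) (nat_lit 300)) (XT.lf (nat_lit 0) (nat_lit 7331459019) (nat_lit 228) (nat_lit 501366814) (nat_lit 76) (nat_lit 15075196652) (nat_lit 101) (nat_lit 5) (nat_lit 104) (nat_lit 5) (nat_lit 102) (nat_lit 5) (nat_lit 492) (nat_lit 409) (nat_lit 299))))))) (XT.nd (nat_lit 1170) (nat_lit 1292) (nat_lit 0) (XT.nd (nat_lit 546) (nat_lit 836) (nat_lit 0) (XT.nd (nat_lit 234) (nat_lit 532) (nat_lit 0) (XT.nd (nat_lit 78) (nat_lit 228) (nat_lit 0) (XT.lf (nat_lit 0) (nat_lit 13858623908) (nat_lit 228) (nat_lit 9345668368) (nat_lit 76) (nat_lit 146783754) (nat_lit 99) (nat_lit 5) (nat_lit 102) (nat_lit 5) (nat_lit 100) (nat_lit 5) (nat_lit 493) (nat_lit 409) (nat_lit 298)) (XT.nd (nat_lit 78) (nat_lit 76) (nat_lit 0) (XT.lf (nat_lit 0) (nat_lit 5142869698) (nat_lit 152) (nat_lit 15553806472) (nat_lit 228) (nat_lit 3107293573) (nat_lit 97) (nat_lit 5) (nat_lit 99) (nat_lit 5) (nat_lit 100) (nat_lit 5) (nat_lit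 494) (nat_lit 409) (nat_lit 297)) (XT.lf (nat_lit 0) (nat_lit 3480037074) (nat_lit 228) (nat_lit 4074581642) (nat_lit 76) (nat_lit 16712482192) (nat_lit 96) (nat_lit 5) (nat_lit 99) (nat_lit 5) (nat_lit 97) (nat_lit 5) (nat_lit 495) (nat_lit 409) (nat_lit 296)))) (XT.nd (nat_lit 156) (nat_lit 228) (nat_lit 0) (XT.nd (nat_lit 78) (nat_lit 152) (nat_lit 0) (XT.lf (nat_lit 0) (nat_lit 10300615478) (nat_lit 228) (nat_lit 13642263073) (nat_lit 76) (nat_lit 797382729) (nat_lit 94) (nat_lit 5) (nat_lit 97) (nat_lit 5) (nat_lit 95) (nat_lit 5) (nat_lit 496) (nat_lit 409) (nat_lit 295)) (XT.lf (nat_lit 0) (nat_lit 1507598167) (nat_lit 152) (nat_lit 15932638309) (nat_lit 228) (nat_lit 7783947886) (nat_lit 92) (nat_lit 5) (nat_lit 94) (nat_lit 5) (nat_lit 95) (nat_lit 5) (nat_lit 497) (nat_lit 409) (nat_lit 294))) (XT.nd (nat_lit 78) (nat_lit 228) (nat_lit 0) (XT.lf (nat_lit 0) (nat_lit 17362384413) (nat_lit 152) (nat_lit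 7553201477) (nat_lit 228) (nat_lit 803393683) (nat_lit 92) (nat_lit 5) (nat_lit 94) (nat_lit 5) (nat_lit 95) (nat_lit 5) (nat_lit 498) (nat_lit 409) (nat_lit 293)) (XT.lf (nat_lit 0) (nat_lit 6329902310) (nat_lit 228) (nat_lit 18715771776) (nat_lit 76) (nat_lit 1179064896) (nat_lit 89) (nat_lit 5) (nat_lit 92) (nat_lit 5) (nat_lit 90) (nat_lit 5) (nat_lit 499) (nat_lit 409) (nat_lit 292))))) (XT.nd (nat_lit 312) (nat_lit 456) (nat_lit 0) (XT.nd (nat_lit 156) (nat_lit 228) (nat_lit 0) (XT.nd (nat_lit 78) (nat_lit 152) (nat_lit 0) (XT.lf (nat_lit 0) (nat_lit 13805218387) (nat_lit 228) (nat_lit 2833673731) (nat_lit 76) (nat_lit 10102215944) (nat_lit 89) (nat_lit 5) (nat_lit 92) (nat_lit 5) (nat_lit 90) (nat_lit 5) (nat_lit 500) (nat_lit 409) (nat_lit 291)) (XT.lf (nat_lit 0) (nat_lit 13765582470) (nat_lit 152) (nat_lit 7856159649) (nat_lit 228) (nat_lit 5647718213) (nat_lit 87) (nat_lit 5) (nat_lit 89) (nat_lit 5)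 (nat_lit 90) (nat_lit 5) (nat_lit 501) (nat_lit 409) (nat_lit 290))) (XT.nd (nat_lit 78) (nat_lit 0) (nat_lit 0) (XT.lf (nat_lit 0) (nat_lit 1878472752) (nat_lit 228) (nat_lit 24700967333) (nat_lit 76) (nat_lit 1232017929) (nat_lit 84) (nat_lit 5) (nat_lit 87) (nat_lit 5) (nat_lit 85) (nat_lit 5) (nat_lit 502) (nat_lit 409) (nat_lit 289)) (XT.lf (nat_lit 0) (nat_lit 9717149076) (nat_lit 228) (nat_lit 8028584194) (nat_lit 76) (nat_lit 10616298939) (nat_lit 84) (nat_lit 5) (nat_lit 87) (nat_lit 5) (nat_lit 85) (nat_lit 5) (nat_lit 503) (nat_lit 409) (nat_lit 288)))) (XT.nd (nat_lit 156) (nat_lit 304) (nat_lit 0) (XT.nd (nat_lit 78) (nat_lit 0) (nat_lit 0) (XT.lf (nat_lit 0) (nat_lit 9298213929) (nat_lit 152) (nat_lit 8567313628) (nat_lit 228) (nat_lit 11061360316) (nat_lit 82) (nat_lit 5) (nat_lit 84) (nat_lit 5) (nat_lit 85) (nat_lit 5) (nat_lit 504) (nat_lit 409) (nat_lit 287)) (XT.lf (nat_lit 0) (nat_lit 26333971370)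 (nat_lit 228) (nat_lit 2233440829) (nat_lit 76) (nat_lit 939009074) (nat_lit 82) (nat_lit 5) (nat_lit 85) (nat_lit 5) (nat_lit 83) (nat_lit 4) (nat_lit 505) (nat_lit 409) (nat_lit 286))) (XT.nd (nat_lit 78) (nat_lit 152) (nat_lit 0) (XT.lf (nat_lit 0) (nat_lit 5081826155) (nat_lit 152) (nat_lit 14264183937) (nat_lit 76) (nat_lit 10749142116) (nat_lit 80) (nat_lit 5) (nat_lit 82) (nat_lit 5) (nat_lit 81) (nat_lit 5) (nat_lit 506) (nat_lit 409) (nat_lit 285)) (XT.lf (nat_lit 0) (nat_lit 3798221421) (nat_lit 152) (nat_lit 9766706443) (nat_lit 228) (nat_lit 17134326526) (nat_lit 78) (nat_lit 5) (nat_lit 80) (nat_lit 5) (nat_lit 81) (nat_lit 5) (nat_lit 507) (nat_lit 409) (nat_lit 284)))))) (XT.nd (nat_lit 624) (nat_lit 684) (nat_lit 0) (XT.nd (nat_lit 312) (nat_lit 304) (nat_lit 0) (XT.nd (nat_lit 156) (nat_lit 228) (nat_lit 0) (XT.nd (nat_lit 78) (nat_lit 76) (nat_lit 0) (XT.lf (nat_lit 0) (nat_lit 22434672266) (nat_lit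 228) (nat_lit 8651180905) (nat_lit 76) (nat_lit 231662409) (nat_lit 78) (nat_lit 5) (nat_lit 81) (nat_lit 5) (nat_lit 79) (nat_lit 4) (nat_lit 508) (nat_lit 409) (nat_lit 283)) (XT.lf (nat_lit 0) (nat_lit 10223194876) (nat_lit 76) (nat_lit 21528423826) (nat_lit 152) (nat_lit 197273031) (nat_lit 77) (nat_lit 5) (nat_lit 78) (nat_lit 5) (nat_lit 79) (nat_lit 4) (nat_lit 509) (nat_lit 409) (nat_lit 282))) (XT.nd (nat_lit 78) (nat_lit 152) (nat_lit 0) (XT.lf (nat_lit 0) (nat_lit 8652527901) (nat_lit 152) (nat_lit 2866196484) (nat_lit 76) (nat_lit 21075730636) (nat_lit 76) (nat_lit 5) (nat_lit 78) (nat_lit 5) (nat_lit 77) (nat_lit 5) (nat_lit 510) (nat_lit 409) (nat_lit 281)) (XT.lf (nat_lit 0) (nat_lit 16861121592) (nat_lit 152) (nat_lit 1051379269) (nat_lit 228) (nat_lit 15342366844) (nat_lit 74) (nat_lit 5) (nat_lit 76) (nat_lit 5) (nat_lit 77) (nat_lit 5) (nat_lit 511) (nat_lit 409) (nat_lit 280)))) (XT.nd (nat_lit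 156) (nat_lit 152) (nat_lit 0) (XT.nd (nat_lit 78) (nat_lit 76) (nat_lit 0) (XT.lf (nat_lit 0) (nat_lit 3249299188) (nat_lit 76) (nat_lit 24341574206) (nat_lit 152) (nat_lit 6340001737) (nat_lit 73) (nat_lit 5) (nat_lit 74) (nat_lit 5) (nat_lit 75) (nat_lit 4) (nat_lit 512) (nat_lit 409) (nat_lit 279)) (XT.lf (nat_lit 0) (nat_lit 3039431379) (nat_lit 152) (nat_lit 10869840772) (nat_lit 76) (nat_lit 20712118746) (nat_lit 72) (nat_lit 5) (nat_lit 74) (nat_lit 5) (nat_lit 73) (nat_lit 5) (nat_lit 513) (nat_lit 409) (nat_lit 278))) (XT.nd (nat_lit 78) (nat_lit 0) (nat_lit 0) (XT.lf (nat_lit 0) (nat_lit 9637162135) (nat_lit 152) (nat_lit 3015311397) (nat_lit 228) (nat_lit 22675876162) (nat_lit 70) (nat_lit 5) (nat_lit 72) (nat_lit 5) (nat_lit 73) (nat_lit 5) (nat_lit 514) (nat_lit 409) (nat_lit 277)) (XT.lf (nat_lit 0) (nat_lit 22730687002) (nat_lit 228) (nat_lit 5175396692) (nat_lit 76) (nat_lit 8145130492) (nat_lit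 70) (nat_lit 5) (nat_lit 73) (nat_lit 5) (nat_lit 71) (nat_lit 4) (nat_lit 515) (nat_lit 409) (nat_lit 276))))) (XT.nd (nat_lit 312) (nat_lit 304) (nat_lit 0) (XT.nd (nat_lit 156) (nat_lit 76) (nat_lit 0) (XT.nd (nat_lit 78) (nat_lit 228) (nat_lit 0) (XT.lf (nat_lit 0) (nat_lit 16218805684) (nat_lit 76) (nat_lit 17065631150) (nat_lit 152) (nat_lit 3506132399) (nat_lit 69) (nat_lit 5) (nat_lit 70) (nat_lit 5) (nat_lit 71) (nat_lit 4) (nat_lit 516) (nat_lit 409) (nat_lit 275)) (XT.lf (nat_lit 0) (nat_lit 737071151) (nat_lit 152) (nat_lit 5784092221) (nat_lit 228) (nat_lit 31027618445) (nat_lit 66) (nat_lit 5) (nat_lit 68) (nat_lit 5) (nat_lit 69) (nat_lit 5) (nat_lit 517) (nat_lit 409) (nat_lit 274))) (XT.nd (nat_lit 78) (nat_lit 76) (nat_lit 0) (XT.lf (nat_lit 0) (nat_lit 17032178676) (nat_lit 228) (nat_lit 15333252584) (nat_lit 76) (nat_lit 5955667272) (nat_lit 66) (nat_lit 5) (nat_lit 69) (nat_lit 5) (nat_lit 67)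 (nat_lit 4) (nat_lit 518) (nat_lit 409) (nat_lit 273)) (XT.lf (nat_lit 0) (nat_lit 6842763013) (nat_lit 76) (nat_lit 21126652142) (nat_lit 152) (nat_lit 11143843159) (nat_lit 65) (nat_lit 5) (nat_lit 66) (nat_lit 5) (nat_lit 67) (nat_lit 4) (nat_lit 519) (nat_lit 409) (nat_lit 272)))) (XT.nd (nat_lit 156) (nat_lit 76) (nat_lit 0) (XT.nd (nat_lit 78) (nat_lit 228) (nat_lit 0) (XT.lf (nat_lit 0) (nat_lit 29975546814) (nat_lit 76) (nat_lit 9402037919) (nat_lit 152) (nat_lit 547313953) (nat_lit 65) (nat_lit 5) (nat_lit 66) (nat_lit 5) (nat_lit 67) (nat_lit 4) (nat_lit 520) (nat_lit 409) (nat_lit 271)) (XT.lf (nat_lit 0) (nat_lit 10307532339) (nat_lit 228) (nat_lit 27605805631) (nat_lit 76) (nat_lit 2840279283) (nat_lit 62) (nat_lit 5) (nat_lit 65) (nat_lit 5) (nat_lit 63) (nat_lit 4) (nat_lit 521) (nat_lit 409) (nat_lit 270))) (XT.nd (nat_lit 78) (nat_lit 76) (nat_lit 0) (XT.lf (nat_lit 0) (nat_lit 21659820133) (nat_lit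 228) (nat_lit 4584272469) (nat_lit 76) (nat_lit 15357458562) (nat_lit 62) (nat_lit 5) (nat_lit 65) (nat_lit 5) (nat_lit 63) (nat_lit 4) (nat_lit 522) (nat_lit 409) (nat_lit 269)) (XT.lf (nat_lit 0) (nat_lit 19486381452) (nat_lit 76) (nat_lit 14042195962) (nat_lit 152) (nat_lit 8941068900) (nat_lit 61) (nat_lit 5) (nat_lit 62) (nat_lit 5) (nat_lit 63) (nat_lit 4) (nat_lit 523) (nat_lit 409) (nat_lit 268))))))))
noncomputable def xc120 : XT := (XT.nd (nat_lit 53820) (nat_lit 0) (nat_lit 15124) (XT.nd (nat_lit 1170) (nat_lit 684) (nat_lit 0) (XT.nd (nat_lit 546) (nat_lit 456) (nat_lit 0) (XT.nd (nat_lit 234) (nat_lit 228) (nat_lit 0) (XT.nd (nat_lit 78) (nat_lit 76) (nat_lit 0) (XT.lf (nat_lit 0) (nat_lit 984731037) (nat_lit 152) (nat_lit 1403067457) (nat_lit 228) (nat_lit 40973952482) (nat_lit 58) (nat_lit 5) (nat_lit 60) (nat_lit 5) (nat_lit 61) (nat_lit 5) (nat_lit 524) (nat_lit 409) (nat_lit 267)) (XT.nd (nat_lit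 78) (nat_lit 76) (nat_lit 0) (XT.lf (nat_lit 0) (nat_lit 14211486514) (nat_lit 228) (nat_lit 18355045337) (nat_lit 76) (nat_lit 11701391552) (nat_lit 58) (nat_lit 5) (nat_lit 61) (nat_lit 5) (nat_lit 59) (nat_lit 4) (nat_lit 525) (nat_lit 409) (nat_lit 266)) (XT.lf (nat_lit 0) (nat_lit 6478945386) (nat_lit 76) (nat_lit 19976067153) (nat_lit 152) (nat_lit 18744314862) (nat_lit 57) (nat_lit 5) (nat_lit 58) (nat_lit 5) (nat_lit 59) (nat_lit 4) (nat_lit 526) (nat_lit 409) (nat_lit 265)))) (XT.nd (nat_lit 156) (nat_lit 76) (nat_lit 0) (XT.nd (nat_lit 78) (nat_lit 152) (nat_lit 0) (XT.lf (nat_lit 0) (nat_lit 32413244982) (nat_lit 76) (nat_lit 6827025433) (nat_lit 152) (nat_lit 6913170535) (nat_lit 57) (nat_lit 5) (nat_lit 58) (nat_lit 5) (nat_lit 59) (nat_lit 4) (nat_lit 527) (nat_lit 409) (nat_lit 264)) (XT.lf (nat_lit 0) (nat_lit 5342275120) (nat_lit 152) (nat_lit 35042270742) (nat_lit 76) (nat_lit 6744943838) (nat_lit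 55) (nat_lit 5) (nat_lit 57) (nat_lit 5) (nat_lit 56) (nat_lit 4) (nat_lit 528) (nat_lit 409) (nat_lit 263))) (XT.nd (nat_lit 78) (nat_lit 76) (nat_lit 0) (XT.lf (nat_lit 0) (nat_lit 18023464582) (nat_lit 152) (nat_lit 9317552044) (nat_lit 76) (nat_lit 20785839213) (nat_lit 55) (nat_lit 5) (nat_lit 57) (nat_lit 5) (nat_lit 56) (nat_lit 4) (nat_lit 529) (nat_lit 409) (nat_lit 262)) (XT.lf (nat_lit 0) (nat_lit 17500407907) (nat_lit 76) (nat_lit 13742528989) (nat_lit 152) (nat_lit 17906470841) (nat_lit 54) (nat_lit 5) (nat_lit 55) (nat_lit 5) (nat_lit 56) (nat_lit 4) (nat_lit 530) (nat_lit 409) (nat_lit 261))))) (XT.nd (nat_lit 312) (nat_lit 228) (nat_lit 0) (XT.nd (nat_lit 156) (nat_lit 76) (nat_lit 0) (XT.nd (nat_lit 78) (nat_lit 152) (nat_lit 0) (XT.lf (nat_lit 0) (nat_lit 44946193668) (nat_lit 152) (nat_lit 4909391403) (nat_lit 0) (nat_lit 344435295) (nat_lit 54) (nat_lit 5) (nat_lit 56) (nat_lit 4) (nat_lit 54)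 (nat_lit 4) (nat_lit 531) (nat_lit 409) (nat_lit 260)) (XT.lf (nat_lit 0) (nat_lit 7976412425) (nat_lit 152) (nat_lit 28425719132) (nat_lit 76) (nat_lit 14867282863) (nat_lit 52) (nat_lit 5) (nat_lit 54) (nat_lit 5) (nat_lit 53) (nat_lit 4) (nat_lit 532) (nat_lit 409) (nat_lit 259))) (XT.nd (nat_lit 78) (nat_lit 76) (nat_lit 0) (XT.lf (nat_lit 0) (nat_lit 21537981797) (nat_lit 152) (nat_lit 911342998) (nat_lit 76) (nat_lit 29918804531) (nat_lit 52) (nat_lit 5) (nat_lit 54) (nat_lit 5) (nat_lit 53) (nat_lit 4) (nat_lit 533) (nat_lit 409) (nat_lit 258)) (XT.lf (nat_lit 0) (nat_lit 27955091942) (nat_lit 76) (nat_lit 7810274082) (nat_lit 152) (nat_lit 17726670785) (nat_lit 51) (nat_lit 5) (nat_lit 52) (nat_lit 5) (nat_lit 53) (nat_lit 4) (nat_lit 534) (nat_lit 409) (nat_lit 257)))) (XT.nd (nat_lit 156) (nat_lit 76) (nat_lit 0) (XT.nd (nat_lit 78) (nat_lit 76) (nat_lit 0) (XT.lf (nat_lit 0) (nat_lit 3027034751) (nat_lit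 76) (nat_lit 47491056409) (nat_lit 76) (nat_lit 4128614933) (nat_lit 50) (nat_lit 4) (nat_lit 51) (nat_lit 5) (nat_lit 51) (nat_lit 4) (nat_lit 535) (nat_lit 409) (nat_lit 256)) (XT.lf (nat_lit 0) (nat_lit 10012667023) (nat_lit 152) (nat_lit 23050596427) (nat_lit 76) (nat_lit 22760062900) (nat_lit 49) (nat_lit 5) (nat_lit 51) (nat_lit 5) (nat_lit 50) (nat_lit 4) (nat_lit 536) (nat_lit 409) (nat_lit 255))) (XT.nd (nat_lit 78) (nat_lit 0) (nat_lit 0) (XT.lf (nat_lit 0) (nat_lit 6442027939) (nat_lit 76) (nat_lit 18105658505) (nat_lit 152) (nat_lit 32484758192) (nat_lit 48) (nat_lit 5) (nat_lit 49) (nat_lit 5) (nat_lit 50) (nat_lit 4) (nat_lit 537) (nat_lit 409) (nat_lit 254)) (XT.lf (nat_lit 0) (nat_lit 37273773003) (nat_lit 76) (nat_lit 2468405034) (nat_lit 152) (nat_lit 18528955924) (nat_lit 48) (nat_lit 5) (nat_lit 49) (nat_lit 5) (nat_lit 50) (nat_lit 4) (nat_lit 538) (nat_lit 409) (nat_lit 253)))))) (XT.nd (nat_lit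 546) (nat_lit 228) (nat_lit 0) (XT.nd (nat_lit 234) (nat_lit 228) (nat_lit 0) (XT.nd (nat_lit 78) (nat_lit 152) (nat_lit 0) (XT.lf (nat_lit 0) (nat_lit 9520332693) (nat_lit 76) (nat_lit 46085628954) (nat_lit 76) (nat_lit 3934618739) (nat_lit 47) (nat_lit 4) (nat_lit 48) (nat_lit 5) (nat_lit 48) (nat_lit 4) (nat_lit 539) (nat_lit 409) (nat_lit 252)) (XT.nd (nat_lit 78) (nat_lit 76) (nat_lit 0) (XT.lf (nat_lit 0) (nat_lit 11110419190) (nat_lit 152) (nat_lit 19608822788) (nat_lit 76) (nat_lit 30118785348) (nat_lit 46) (nat_lit 5) (nat_lit 48) (nat_lit 5) (nat_lit 47) (nat_lit 4) (nat_lit 540) (nat_lit 409) (nat_lit 251)) (XT.lf (nat_lit 0) (nat_lit 11890697601) (nat_lit 76) (nat_lit 14742448419) (nat_lit 152) (nat_lit 35536920488) (nat_lit 45) (nat_lit 5) (nat_lit 46) (nat_lit 5) (nat_lit 47) (nat_lit 4) (nat_lit 541) (nat_lit 409) (nat_lit 250)))) (XT.nd (nat_lit 156) (nat_lit 152) (nat_lit 0) (XT.nd (nat_lit 78)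 (nat_lit 76) (nat_lit 0) (XT.lf (nat_lit 0) (nat_lit 42829130907) (nat_lit 152) (nat_lit 18834728948) (nat_lit 0) (nat_lit 1871979844) (nat_lit 45) (nat_lit 5) (nat_lit 47) (nat_lit 4) (nat_lit 45) (nat_lit 4) (nat_lit 542) (nat_lit 409) (nat_lit 249)) (XT.lf (nat_lit 0) (nat_lit 13656952084) (nat_lit 76) (nat_lit 46122677794) (nat_lit 76) (nat_lit 5154897291) (nat_lit 44) (nat_lit 4) (nat_lit 45) (nat_lit 5) (nat_lit 45) (nat_lit 4) (nat_lit 543) (nat_lit 409) (nat_lit 248))) (XT.nd (nat_lit 78) (nat_lit 76) (nat_lit 0) (XT.lf (nat_lit 0) (nat_lit 10834956928) (nat_lit 152) (nat_lit 18983137784) (nat_lit 76) (nat_lit 36548443659) (nat_lit 43) (nat_lit 5) (nat_lit 45) (nat_lit 5) (nat_lit 44) (nat_lit 4) (nat_lit 544) (nat_lit 409) (nat_lit 247)) (XT.lf (nat_lit 0) (nat_lit 14495610030) (nat_lit 76) (nat_lit 12836276494) (nat_lit 152) (nat_lit 40504162691) (nat_lit 42) (nat_lit 5) (nat_lit 43) (nat_lit 5) (nat_lit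 44) (nat_lit 4) (nat_lit 545) (nat_lit 409) (nat_lit 246))))) (XT.nd (nat_lit 312) (nat_lit 0) (nat_lit 0) (XT.nd (nat_lit 156) (nat_lit 152) (nat_lit 0) (XT.nd (nat_lit 78) (nat_lit 76) (nat_lit 0) (XT.lf (nat_lit 0) (nat_lit 44553720068) (nat_lit 152) (nat_lit 20039040482) (nat_lit 0) (nat_lit 4749985058) (nat_lit 42) (nat_lit 5) (nat_lit 44) (nat_lit 4) (nat_lit 42) (nat_lit 4) (nat_lit 546) (nat_lit 409) (nat_lit 245)) (XT.lf (nat_lit 0) (nat_lit 14399411905) (nat_lit 76) (nat_lit 48150206429) (nat_lit 76) (nat_lit 8337302370) (nat_lit 41) (nat_lit 4) (nat_lit 42) (nat_lit 5) (nat_lit 42) (nat_lit 4) (nat_lit 547) (nat_lit 409) (nat_lit 244))) (XT.nd (nat_lit 78) (nat_lit 76) (nat_lit 0) (XT.lf (nat_lit 0) (nat_lit 8636265663) (nat_lit 152) (nat_lit 22290186751) (nat_lit 76) (nat_lit 41542598408) (nat_lit 40) (nat_lit 5) (nat_lit 42) (nat_lit 5) (nat_lit 41) (nat_lit 4) (nat_lit 548) (nat_lit 409) (nat_lit 243))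 (XT.lf (nat_lit 0) (nat_lit 13090527165) (nat_lit 76) (nat_lit 12978919101) (nat_lit 152) (nat_lit 48023182934) (nat_lit 39) (nat_lit 5) (nat_lit 40) (nat_lit 5) (nat_lit 41) (nat_lit 4) (nat_lit 549) (nat_lit 409) (nat_lit 242)))) (XT.nd (nat_lit 51636) (nat_lit 0) (nat_lit 26524) (XT.nd (nat_lit 51558) (nat_lit 0) (nat_lit 27208) (XT.lf (nat_lit 0) (nat_lit 44298027962) (nat_lit 152) (nat_lit 25839172103) (nat_lit 0) (nat_lit 5619542783) (nat_lit 39) (nat_lit 5) (nat_lit 41) (nat_lit 4) (nat_lit 39) (nat_lit 4) (nat_lit 550) (nat_lit 409) (nat_lit 241)) (XT.lf (nat_lit 0) (nat_lit 2689592913) (nat_lit 684) (nat_lit 371715033) (nat_lit 684) (nat_lit 371715033) (nat_lit 397) (nat_lit 3) (nat_lit 406) (nat_lit 3) (nat_lit 406) (nat_lit 5) (nat_lit 410) (nat_lit 410) (nat_lit 380))) (XT.nd (nat_lit 78) (nat_lit 0) (nat_lit 0) (XT.lf (nat_lit 0) (nat_lit 500587640) (nat_lit 684) (nat_lit 4205747930) (nat_lit 760) (nat_lit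 2203354486) (nat_lit 388) (nat_lit 5) (nat_lit 397) (nat_lit 3) (nat_lit 398) (nat_lit 5) (nat_lit 411) (nat_lit 410) (nat_lit 379)) (XT.lf (nat_lit 0) (nat_lit 2448711632) (nat_lit 684) (nat_lit 740441275) (nat_lit 760) (nat_lit 3767135359) (nat_lit 388) (nat_lit 5) (nat_lit 397) (nat_lit 3) (nat_lit 398) (nat_lit 5) (nat_lit 412) (nat_lit 410) (nat_lit 378))))))) (XT.nd (nat_lit 1170) (nat_lit 7220) (nat_lit 0) (XT.nd (nat_lit 546) (nat_lit 2736) (nat_lit 0) (XT.nd (nat_lit 234) (nat_lit 760) (nat_lit 0) (XT.nd (nat_lit 78) (nat_lit 684) (nat_lit 0) (XT.lf (nat_lit 76) (nat_lit 2844325310) (nat_lit 0) (nat_lit 1563883476) (nat_lit 760) (nat_lit 2597501878) (nat_lit 389) (nat_lit 5) (nat_lit 388) (nat_lit 5) (nat_lit 398) (nat_lit 5) (nat_lit 413) (nat_lit 410) (nat_lit 377)) (XT.nd (nat_lit 78) (nat_lit 760) (nat_lit 0) (XT.lf (nat_lit 0) (nat_lit 6362792654) (nat_lit 684) (nat_lit 547830970) (nat_lit 760) (nat_lit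 147916768) (nat_lit 389) (nat_lit 5) (nat_lit 398) (nat_lit 5) (nat_lit 399) (nat_lit 5) (nat_lit 414) (nat_lit 410) (nat_lit 376)) (XT.lf (nat_lit 0) (nat_lit 1214008262) (nat_lit 760) (nat_lit 3945792638) (nat_lit 836) (nat_lit 1953534916) (nat_lit 379) (nat_lit 5) (nat_lit 389) (nat_lit 5) (nat_lit 390) (nat_lit 5) (nat_lit 415) (nat_lit 410) (nat_lit 375)))) (XT.nd (nat_lit 156) (nat_lit 760) (nat_lit 0) (XT.nd (nat_lit 78) (nat_lit 0) (nat_lit 0) (XT.lf (nat_lit 0) (nat_lit 3103422074) (nat_lit 760) (nat_lit 212826723) (nat_lit 836) (nat_lit 3855241729) (nat_lit 379) (nat_lit 5) (nat_lit 389) (nat_lit 5) (nat_lit 390) (nat_lit 5) (nat_lit 416) (nat_lit 410) (nat_lit 374)) (XT.lf (nat_lit 76) (nat_lit 3662942489) (nat_lit 0) (nat_lit 1354565070) (nat_lit 836) (nat_lit 2214854823) (nat_lit 380) (nat_lit 5) (nat_lit 379) (nat_lit 5) (nat_lit 390) (nat_lit 5) (nat_lit 417) (nat_lit 410) (nat_lit 373))) (XT.nd (nat_lit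 78) (nat_lit 836) (nat_lit 0) (XT.lf (nat_lit 76) (nat_lit 321716879) (nat_lit 0) (nat_lit 6613557079) (nat_lit 836) (nat_lit 361410514) (nat_lit 381) (nat_lit 5) (nat_lit 380) (nat_lit 5) (nat_lit 391) (nat_lit 5) (nat_lit 418) (nat_lit 410) (nat_lit 372)) (XT.lf (nat_lit 0) (nat_lit 1502700012) (nat_lit 836) (nat_lit 3031111620) (nat_lit 912) (nat_lit 2829131551) (nat_lit 369) (nat_lit 5) (nat_lit 380) (nat_lit 5) (nat_lit 381) (nat_lit 5) (nat_lit 419) (nat_lit 410) (nat_lit 371))))) (XT.nd (nat_lit 312) (nat_lit 1900) (nat_lit 0) (XT.nd (nat_lit 156) (nat_lit 836) (nat_lit 0) (XT.nd (nat_lit 78) (nat_lit 0) (nat_lit 0) (XT.lf (nat_lit 76) (nat_lit 1004986953) (nat_lit 0) (nat_lit 2357473857) (nat_lit 912) (nat_lit 4070222592) (nat_lit 370) (nat_lit 5) (nat_lit 369) (nat_lit 5) (nat_lit 381) (nat_lit 5) (nat_lit 420) (nat_lit 410) (nat_lit 370)) (XT.lf (nat_lit 76) (nat_lit 5182610432) (nat_lit 0) (nat_lit 64767237)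 (nat_lit 912) (nat_lit 2258067772) (nat_lit 370) (nat_lit 5) (nat_lit 369) (nat_lit 5) (nat_lit 381) (nat_lit 5) (nat_lit 421) (nat_lit 410) (nat_lit 369))) (XT.nd (nat_lit 78) (nat_lit 912) (nat_lit 0) (XT.lf (nat_lit 76) (nat_lit 1877272102) (nat_lit 0) (nat_lit 5292414163) (nat_lit 912) (nat_lit 411288952) (nat_lit 371) (nat_lit 5) (nat_lit 370) (nat_lit 5) (nat_lit 382) (nat_lit 5) (nat_lit 422) (nat_lit 410) (nat_lit 368)) (XT.lf (nat_lit 0) (nat_lit 1427590299) (nat_lit 912) (nat_lit 1465487288) (nat_lit 988) (nat_lit 4766299283) (nat_lit 358) (nat_lit 5) (nat_lit 370) (nat_lit 5) (nat_lit 371) (nat_lit 5) (nat_lit 423) (nat_lit 410) (nat_lit 367)))) (XT.nd (nat_lit 156) (nat_lit 1900) (nat_lit 0) (XT.nd (nat_lit 78) (nat_lit 0) (nat_lit 76) (XT.lf (nat_lit 76) (nat_lit 2910645184) (nat_lit 0) (nat_lit 373868374) (nat_lit 988) (nat_lit 4456369863) (nat_lit 359) (nat_lit 5) (nat_lit 358) (nat_lit 5) (nat_lit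 371) (nat_lit 5) (nat_lit 424) (nat_lit 410) (nat_lit 366)) (XT.lf (nat_lit 0) (nat_lit 5177994582) (nat_lit 912) (nat_lit 441138715) (nat_lit 76) (nat_lit 2206285435) (nat_lit 359) (nat_lit 5) (nat_lit 371) (nat_lit 5) (nat_lit 360) (nat_lit 5) (nat_lit 425) (nat_lit 410) (nat_lit 365))) (XT.nd (nat_lit 78) (nat_lit 1064) (nat_lit 0) (XT.lf (nat_lit 0) (nat_lit 4114121360) (nat_lit 912) (nat_lit 3003578847) (nat_lit 988) (nat_lit 795116092) (nat_lit 347) (nat_lit 5) (nat_lit 359) (nat_lit 5) (nat_lit 360) (nat_lit 5) (nat_lit 426) (nat_lit 410) (nat_lit 364)) (XT.lf (nat_lit 0) (nat_lit 773996472) (nat_lit 988) (nat_lit 275798081) (nat_lit 1064) (nat_lit 6953966220) (nat_lit 333) (nat_lit 5) (nat_lit 346) (nat_lit 5) (nat_lit 347) (nat_lit 5) (nat_lit 427) (nat_lit 410) (nat_lit 363)))))) (XT.nd (nat_lit 546) (nat_lit 2964) (nat_lit 0) (XT.nd (nat_lit 234) (nat_lit 3192) (nat_lit 0) (XT.nd (nat_lit 78) (nat_lit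 1064) (nat_lit 0) (XT.lf (nat_lit 0) (nat_lit 2945211531) (nat_lit 1064) (nat_lit 2611143710) (nat_lit 76) (nat_lit 2540516020) (nat_lit 333) (nat_lit 5) (nat_lit 347) (nat_lit 5) (nat_lit 334) (nat_lit 5) (nat_lit 428) (nat_lit 410) (nat_lit 362)) (XT.nd (nat_lit 78) (nat_lit 0) (nat_lit 0) (XT.lf (nat_lit 0) (nat_lit 2142401834) (nat_lit 1064) (nat_lit 2727971509) (nat_lit 1140) (nat_lit 3323223072) (nat_lit 319) (nat_lit 5) (nat_lit 333) (nat_lit 5) (nat_lit 334) (nat_lit 5) (nat_lit 429) (nat_lit 410) (nat_lit 361)) (XT.lf (nat_lit 0) (nat_lit 6832387775) (nat_lit 1140) (nat_lit 1246241985) (nat_lit 76) (nat_lit 215228223) (nat_lit 319) (nat_lit 5) (nat_lit 334) (nat_lit 5) (nat_lit 320) (nat_lit 5) (nat_lit 430) (nat_lit 410) (nat_lit 360)))) (XT.nd (nat_lit 156) (nat_lit 760) (nat_lit 0) (XT.nd (nat_lit 78) (nat_lit 1216) (nat_lit 0) (XT.lf (nat_lit 0) (nat_lit 462127921) (nat_lit 1216) (nat_lit 4695634119)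 (nat_lit 76) (nat_lit 3238794168) (nat_lit 303) (nat_lit 5) (nat_lit 319) (nat_lit 5) (nat_lit 304) (nat_lit 5) (nat_lit 431) (nat_lit 410) (nat_lit 359)) (XT.lf (nat_lit 0) (nat_lit 267615143) (nat_lit 1216) (nat_lit 2114369082) (nat_lit 1292) (nat_lit 6120886275) (nat_lit 287) (nat_lit 5) (nat_lit 303) (nat_lit 5) (nat_lit 304) (nat_lit 5) (nat_lit 432) (nat_lit 410) (nat_lit 358))) (XT.nd (nat_lit 78) (nat_lit 760) (nat_lit 0) (XT.lf (nat_lit 0) (nat_lit 4370777758) (nat_lit 1292) (nat_lit 3189325247) (nat_lit 76) (nat_lit 1051937713) (nat_lit 287) (nat_lit 5) (nat_lit 304) (nat_lit 5) (nat_lit 288) (nat_lit 5) (nat_lit 433) (nat_lit 410) (nat_lit 357)) (XT.lf (nat_lit 0) (nat_lit 1982913224) (nat_lit 760) (nat_lit 4431314648) (nat_lit 836) (nat_lit 2310414937) (nat_lit 277) (nat_lit 5) (nat_lit 287) (nat_lit 5) (nat_lit 288) (nat_lit 5) (nat_lit 434) (nat_lit 410) (nat_lit 356))))) (XT.nd (nat_lit 312) (nat_lit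 1672) (nat_lit 0) (XT.nd (nat_lit 156) (nat_lit 608) (nat_lit 0) (XT.nd (nat_lit 78) (nat_lit 684) (nat_lit 0) (XT.lf (nat_lit 0) (nat_lit 7333287810) (nat_lit 760) (nat_lit 1173800155) (nat_lit 836) (nat_lit 333898162) (nat_lit 277) (nat_lit 5) (nat_lit 287) (nat_lit 5) (nat_lit 288) (nat_lit 5) (nat_lit 435) (nat_lit 410) (nat_lit 355)) (XT.lf (nat_lit 0) (nat_lit 1684472389) (nat_lit 684) (nat_lit 5080943875) (nat_lit 76) (nat_lit 2194445617) (nat_lit 268) (nat_lit 5) (nat_lit 277) (nat_lit 5) (nat_lit 269) (nat_lit 5) (nat_lit 436) (nat_lit 410) (nat_lit 354))) (XT.nd (nat_lit 78) (nat_lit 0) (nat_lit 0) (XT.lf (nat_lit 0) (nat_lit 324533341) (nat_lit 608) (nat_lit 3419888342) (nat_lit 684) (nat_lit 5338156706) (nat_lit 260) (nat_lit 5) (nat_lit 268) (nat_lit 5) (nat_lit 269) (nat_lit 5) (nat_lit 437) (nat_lit 410) (nat_lit 353)) (XT.lf (nat_lit 0) (nat_lit 5876673540) (nat_lit 684) (nat_lit 3255601391) (nat_lit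 76) (nat_lit 76391988) (nat_lit 260) (nat_lit 5) (nat_lit 269) (nat_lit 5) (nat_lit 261) (nat_lit 5) (nat_lit 438) (nat_lit 410) (nat_lit 352)))) (XT.nd (nat_lit 156) (nat_lit 1064) (nat_lit 0) (XT.nd (nat_lit 78) (nat_lit 76) (nat_lit 0) (XT.lf (nat_lit 0) (nat_lit 2382076544) (nat_lit 532) (nat_lit 5707223730) (nat_lit 608) (nat_lit 1248751096) (nat_lit 253) (nat_lit 5) (nat_lit 260) (nat_lit 5) (nat_lit 261) (nat_lit 5) (nat_lit 439) (nat_lit 410) (nat_lit 351)) (XT.lf (nat_lit 0) (nat_lit 872708736) (nat_lit 608) (nat_lit 1266503685) (nat_lit 76) (nat_lit 7332054720) (nat_lit 252) (nat_lit 5) (nat_lit 260) (nat_lit 5) (nat_lit 253) (nat_lit 5) (nat_lit 440) (nat_lit 410) (nat_lit 350))) (XT.nd (nat_lit 78) (nat_lit 532) (nat_lit 0) (XT.lf (nat_lit 0) (nat_lit 3053707632) (nat_lit 608) (nat_lit 4993204142) (nat_lit 76) (nat_lit 1560571896) (nat_lit 245) (nat_lit 5) (nat_lit 253) (nat_lit 5) (nat_lit 246) (nat_lit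 5) (nat_lit 441) (nat_lit 410) (nat_lit 349)) (XT.lf (nat_lit 0) (nat_lit 904072399) (nat_lit 532) (nat_lit 4400742787) (nat_lit 608) (nat_lit 4442836020) (nat_lit 238) (nat_lit 5) (nat_lit 245) (nat_lit 5) (nat_lit 246) (nat_lit 5) (nat_lit 442) (nat_lit 410) (nat_lit 348))))))))
noncomputable def xc121 : XT := (XT.nd (nat_lit 2340) (nat_lit 4484) (nat_lit 0) (XT.nd (nat_lit 1170) (nat_lit 2964) (nat_lit 0) (XT.nd (nat_lit 546) (nat_lit 2204) (nat_lit 0) (XT.nd (nat_lit 234) (nat_lit 1444) (nat_lit 0) (XT.nd (nat_lit 78) (nat_lit 608) (nat_lit 0) (XT.lf (nat_lit 0) (nat_lit 7038730139) (nat_lit 532) (nat_lit 597746683) (nat_lit 608) (nat_lit 2255161053) (nat_lit 238) (nat_lit 5) (nat_lit 245) (nat_lit 5) (nat_lit 246) (nat_lit 5) (nat_lit 443) (nat_lit 410) (nat_lit 347)) (XT.nd (nat_lit 78) (nat_lit 0) (nat_lit 0) (XT.lf (nat_lit 0) (nat_lit 25803415) (nat_lit 608) (nat_lit 6730970780) (nat_lit 76) (nat_lit 3282346252)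 (nat_lit 230) (nat_lit 5) (nat_lit 238) (nat_lit 5) (nat_lit 231) (nat_lit 5) (nat_lit 444) (nat_lit 410) (nat_lit 346)) (XT.lf (nat_lit 0) (nat_lit 2328833236) (nat_lit 608) (nat_lit 548211909) (nat_lit 76) (nat_lit 7313347944) (nat_lit 230) (nat_lit 5) (nat_lit 238) (nat_lit 5) (nat_lit 231) (nat_lit 5) (nat_lit 445) (nat_lit 410) (nat_lit 345)))) (XT.nd (nat_lit 156) (nat_lit 532) (nat_lit 0) (XT.nd (nat_lit 78) (nat_lit 456) (nat_lit 0) (XT.lf (nat_lit 0) (nat_lit 4733875886) (nat_lit 532) (nat_lit 4462586233) (nat_lit 76) (nat_lit 1148758337) (nat_lit 224) (nat_lit 5) (nat_lit 231) (nat_lit 5) (nat_lit 225) (nat_lit 5) (nat_lit 446) (nat_lit 410) (nat_lit 344)) (XT.lf (nat_lit 0) (nat_lit 1981859850) (nat_lit 456) (nat_lit 5247910520) (nat_lit 532) (nat_lit 3274365339) (nat_lit 218) (nat_lit 5) (nat_lit 224) (nat_lit 5) (nat_lit 225) (nat_lit 5) (nat_lit 447) (nat_lit 410) (nat_lit 343))) (XT.nd (nat_lit 78)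 (nat_lit 532) (nat_lit 0) (XT.lf (nat_lit 0) (nat_lit 8670133796) (nat_lit 456) (nat_lit 1141653447) (nat_lit 532) (nat_lit 855697771) (nat_lit 218) (nat_lit 5) (nat_lit 224) (nat_lit 5) (nat_lit 225) (nat_lit 5) (nat_lit 448) (nat_lit 410) (nat_lit 342)) (XT.lf (nat_lit 0) (nat_lit 1646429724) (nat_lit 532) (nat_lit 6105078754) (nat_lit 76) (nat_lit 3082473956) (nat_lit 211) (nat_lit 5) (nat_lit 218) (nat_lit 5) (nat_lit 212) (nat_lit 5) (nat_lit 449) (nat_lit 410) (nat_lit 341))))) (XT.nd (nat_lit 312) (nat_lit 1292) (nat_lit 0) (XT.nd (nat_lit 156) (nat_lit 456) (nat_lit 0) (XT.nd (nat_lit 78) (nat_lit 0) (nat_lit 0) (XT.lf (nat_lit 0) (nat_lit 644657676) (nat_lit 456) (nat_lit 3566981326) (nat_lit 532) (nat_lit 6793428732) (nat_lit 205) (nat_lit 5) (nat_lit 211) (nat_lit 5) (nat_lit 212) (nat_lit 5) (nat_lit 450) (nat_lit 410) (nat_lit 340)) (XT.lf (nat_lit 0) (nat_lit 6891034157) (nat_lit 532) (nat_lit 3506605052)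 (nat_lit 76) (nat_lit 782533018) (nat_lit 205) (nat_lit 5) (nat_lit 212) (nat_lit 5) (nat_lit 206) (nat_lit 5) (nat_lit 451) (nat_lit 410) (nat_lit 339))) (XT.nd (nat_lit 78) (nat_lit 76) (nat_lit 0) (XT.lf (nat_lit 0) (nat_lit 3546459005) (nat_lit 380) (nat_lit 6142523547) (nat_lit 456) (nat_lit 1670405579) (nat_lit 200) (nat_lit 5) (nat_lit 205) (nat_lit 5) (nat_lit 206) (nat_lit 5) (nat_lit 452) (nat_lit 410) (nat_lit 338)) (XT.lf (nat_lit 0) (nat_lit 1011594457) (nat_lit 456) (nat_lit 710611562) (nat_lit 76) (nat_lit 9821339266) (nat_lit 199) (nat_lit 5) (nat_lit 205) (nat_lit 5) (nat_lit 200) (nat_lit 5) (nat_lit 453) (nat_lit 410) (nat_lit 337)))) (XT.nd (nat_lit 156) (nat_lit 456) (nat_lit 0) (XT.nd (nat_lit 78) (nat_lit 380) (nat_lit 0) (XT.lf (nat_lit 0) (nat_lit 3802495053) (nat_lit 532) (nat_lit 5080349386) (nat_lit 76) (nat_lit 2848029261) (nat_lit 193) (nat_lit 5) (nat_lit 200) (nat_lit 5) (nat_lit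 194) (nat_lit 5) (nat_lit 454) (nat_lit 410) (nat_lit 336)) (XT.lf (nat_lit 0) (nat_lit 2311735387) (nat_lit 380) (nat_lit 4382208067) (nat_lit 456) (nat_lit 5229376926) (nat_lit 188) (nat_lit 5) (nat_lit 193) (nat_lit 5) (nat_lit 194) (nat_lit 5) (nat_lit 455) (nat_lit 410) (nat_lit 335))) (XT.nd (nat_lit 78) (nat_lit 456) (nat_lit 0) (XT.lf (nat_lit 0) (nat_lit 9697071653) (nat_lit 456) (nat_lit 2133320374) (nat_lit 76) (nat_lit 290403292) (nat_lit 188) (nat_lit 5) (nat_lit 194) (nat_lit 5) (nat_lit 189) (nat_lit 5) (nat_lit 456) (nat_lit 410) (nat_lit 334)) (XT.lf (nat_lit 0) (nat_lit 526407835) (nat_lit 456) (nat_lit 6731122616) (nat_lit 76) (nat_lit 5064450304) (nat_lit 182) (nat_lit 5) (nat_lit 188) (nat_lit 5) (nat_lit 183) (nat_lit 5) (nat_lit 457) (nat_lit 410) (nat_lit 333)))))) (XT.nd (nat_lit 546) (nat_lit 1596) (nat_lit 0) (XT.nd (nat_lit 234) (nat_lit 684) (nat_lit 0) (XT.nd (nat_lit 78) (nat_lit 380)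 (nat_lit 0) (XT.lf (nat_lit 0) (nat_lit 1018485814) (nat_lit 304) (nat_lit 2501111513) (nat_lit 380) (nat_lit 9008789153) (nat_lit 178) (nat_lit 5) (nat_lit 182) (nat_lit 5) (nat_lit 183) (nat_lit 5) (nat_lit 458) (nat_lit 410) (nat_lit 332)) (XT.nd (nat_lit 78) (nat_lit 380) (nat_lit 0) (XT.lf (nat_lit 0) (nat_lit 6666346673) (nat_lit 380) (nat_lit 3663569900) (nat_lit 76) (nat_lit 2409157497) (nat_lit 178) (nat_lit 5) (nat_lit 183) (nat_lit 5) (nat_lit 179) (nat_lit 5) (nat_lit 459) (nat_lit 410) (nat_lit 331)) (XT.lf (nat_lit 0) (nat_lit 4441746692) (nat_lit 380) (nat_lit 5506094602) (nat_lit 456) (nat_lit 3007033254) (nat_lit 173) (nat_lit 5) (nat_lit 178) (nat_lit 5) (nat_lit 179) (nat_lit 5) (nat_lit 460) (nat_lit 410) (nat_lit 330)))) (XT.nd (nat_lit 156) (nat_lit 304) (nat_lit 0) (XT.nd (nat_lit 78) (nat_lit 304) (nat_lit 0) (XT.lf (nat_lit 0) (nat_lit 158094462) (nat_lit 456) (nat_lit 351009461) (nat_lit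 76) (nat_lit 12667692012) (nat_lit 172) (nat_lit 5) (nat_lit 178) (nat_lit 5) (nat_lit 173) (nat_lit 5) (nat_lit 461) (nat_lit 410) (nat_lit 329)) (XT.lf (nat_lit 0) (nat_lit 3455429851) (nat_lit 380) (nat_lit 5300627899) (nat_lit 76) (nat_lit 4645495596) (nat_lit 168) (nat_lit 5) (nat_lit 173) (nat_lit 5) (nat_lit 169) (nat_lit 5) (nat_lit 462) (nat_lit 410) (nat_lit 328))) (XT.nd (nat_lit 78) (nat_lit 0) (nat_lit 0) (XT.lf (nat_lit 0) (nat_lit 3200383099) (nat_lit 304) (nat_lit 3664811516) (nat_lit 380) (nat_lit 6767455845) (nat_lit 164) (nat_lit 5) (nat_lit 168) (nat_lit 5) (nat_lit 169) (nat_lit 5) (nat_lit 463) (nat_lit 410) (nat_lit 327)) (XT.lf (nat_lit 0) (nat_lit 10420894904) (nat_lit 380) (nat_lit 1857645179) (nat_lit 76) (nat_lit 1590833321) (nat_lit 164) (nat_lit 5) (nat_lit 169) (nat_lit 5) (nat_lit 165) (nat_lit 5) (nat_lit 464) (nat_lit 410) (nat_lit 326))))) (XT.nd (nat_lit 312) (nat_lit 608) (nat_lit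 0) (XT.nd (nat_lit 156) (nat_lit 304) (nat_lit 0) (XT.nd (nat_lit 78) (nat_lit 304) (nat_lit 0) (XT.lf (nat_lit 0) (nat_lit 50528452) (nat_lit 380) (nat_lit 7072884521) (nat_lit 76) (nat_lit 6987399476) (nat_lit 159) (nat_lit 5) (nat_lit 164) (nat_lit 5) (nat_lit 160) (nat_lit 5) (nat_lit 465) (nat_lit 410) (nat_lit 325)) (XT.lf (nat_lit 0) (nat_lit 1844203872) (nat_lit 304) (nat_lit 1752943535) (nat_lit 380) (nat_lit 10760966382) (nat_lit 155) (nat_lit 5) (nat_lit 159) (nat_lit 5) (nat_lit 160) (nat_lit 5) (nat_lit 466) (nat_lit 410) (nat_lit 324))) (XT.nd (nat_lit 78) (nat_lit 304) (nat_lit 0) (XT.lf (nat_lit 0) (nat_lit 7334148084) (nat_lit 380) (nat_lit 3511151675) (nat_lit 76) (nat_lit 3765016865) (nat_lit 155) (nat_lit 5) (nat_lit 160) (nat_lit 5) (nat_lit 156) (nat_lit 5) (nat_lit 467) (nat_lit 410) (nat_lit 323)) (XT.lf (nat_lit 0) (nat_lit 5821799323) (nat_lit 304) (nat_lit 5411021852) (nat_lit 380) (nat_lit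 3635779388) (nat_lit 151) (nat_lit 5) (nat_lit 155) (nat_lit 5) (nat_lit 156) (nat_lit 5) (nat_lit 468) (nat_lit 410) (nat_lit 322)))) (XT.nd (nat_lit 156) (nat_lit 228) (nat_lit 0) (XT.nd (nat_lit 78) (nat_lit 0) (nat_lit 0) (XT.lf (nat_lit 0) (nat_lit 129121365) (nat_lit 380) (nat_lit 14794086626) (nat_lit 76) (nat_lit 210868361) (nat_lit 146) (nat_lit 5) (nat_lit 151) (nat_lit 5) (nat_lit 147) (nat_lit 5) (nat_lit 469) (nat_lit 410) (nat_lit 321)) (XT.lf (nat_lit 0) (nat_lit 4056308062) (nat_lit 380) (nat_lit 5337898055) (nat_lit 76) (nat_lit 6008559661) (nat_lit 146) (nat_lit 5) (nat_lit 151) (nat_lit 5) (nat_lit 147) (nat_lit 5) (nat_lit 470) (nat_lit 410) (nat_lit 320))) (XT.nd (nat_lit 78) (nat_lit 0) (nat_lit 0) (XT.lf (nat_lit 0) (nat_lit 4453461307) (nat_lit 228) (nat_lit 3667921121) (nat_lit 304) (nat_lit 7557532976) (nat_lit 143) (nat_lit 5) (nat_lit 146) (nat_lit 5) (nat_lit 147) (nat_lit 5) (nat_lit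 471) (nat_lit 410) (nat_lit 319)) (XT.lf (nat_lit 0) (nat_lit 12361748731) (nat_lit 304) (nat_lit 1371343617) (nat_lit 76) (nat_lit 2228658614) (nat_lit 143) (nat_lit 5) (nat_lit 147) (nat_lit 5) (nat_lit 144) (nat_lit 5) (nat_lit 472) (nat_lit 410) (nat_lit 318))))))) (XT.nd (nat_lit 1170) (nat_lit 1976) (nat_lit 0) (XT.nd (nat_lit 546) (nat_lit 1140) (nat_lit 0) (XT.nd (nat_lit 234) (nat_lit 760) (nat_lit 0) (XT.nd (nat_lit 78) (nat_lit 228) (nat_lit 0) (XT.lf (nat_lit 0) (nat_lit 567753657) (nat_lit 380) (nat_lit 7374860433) (nat_lit 76) (nat_lit 8307297914) (nat_lit 138) (nat_lit 5) (nat_lit 143) (nat_lit 5) (nat_lit 139) (nat_lit 5) (nat_lit 473) (nat_lit 410) (nat_lit 317)) (XT.nd (nat_lit 78) (nat_lit 0) (nat_lit 0) (XT.lf (nat_lit 0) (nat_lit 2896710504) (nat_lit 228) (nat_lit 1911520577) (nat_lit 304) (nat_lit 11736817623) (nat_lit 135) (nat_lit 5) (nat_lit 138) (nat_lit 5) (nat_lit 139) (nat_lit 5) (nat_lit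 474) (nat_lit 410) (nat_lit 316)) (XT.lf (nat_lit 0) (nat_lit 9270867050) (nat_lit 304) (nat_lit 3296139456) (nat_lit 76) (nat_lit 4279186121) (nat_lit 135) (nat_lit 5) (nat_lit 139) (nat_lit 5) (nat_lit 136) (nat_lit 5) (nat_lit 475) (nat_lit 410) (nat_lit 315)))) (XT.nd (nat_lit 156) (nat_lit 228) (nat_lit 0) (XT.nd (nat_lit 78) (nat_lit 304) (nat_lit 0) (XT.lf (nat_lit 0) (nat_lit 7459411082) (nat_lit 228) (nat_lit 6477626781) (nat_lit 304) (nat_lit 3217244740) (nat_lit 132) (nat_lit 5) (nat_lit 135) (nat_lit 5) (nat_lit 136) (nat_lit 5) (nat_lit 476) (nat_lit 410) (nat_lit 314)) (XT.lf (nat_lit 0) (nat_lit 1109747987) (nat_lit 228) (nat_lit 160407104) (nat_lit 304) (nat_lit 16200393131) (nat_lit 128) (nat_lit 5) (nat_lit 131) (nat_lit 5) (nat_lit 132) (nat_lit 5) (nat_lit 477) (nat_lit 410) (nat_lit 313))) (XT.nd (nat_lit 78) (nat_lit 228) (nat_lit 0) (XT.lf (nat_lit 0) (nat_lit 5966655357) (nat_lit 304) (nat_lit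 5484046762) (nat_lit 76) (nat_lit 6340471105) (nat_lit 128) (nat_lit 5) (nat_lit 132) (nat_lit 5) (nat_lit 129) (nat_lit 5) (nat_lit 478) (nat_lit 410) (nat_lit 312)) (XT.lf (nat_lit 0) (nat_lit 5797447917) (nat_lit 228) (nat_lit 5043791926) (nat_lit 304) (nat_lit 7279062707) (nat_lit 125) (nat_lit 5) (nat_lit 128) (nat_lit 5) (nat_lit 129) (nat_lit 5) (nat_lit 479) (nat_lit 410) (nat_lit 311))))) (XT.nd (nat_lit 312) (nat_lit 608) (nat_lit 0) (XT.nd (nat_lit 156) (nat_lit 228) (nat_lit 0) (XT.nd (nat_lit 78) (nat_lit 304) (nat_lit 0) (XT.lf (nat_lit 0) (nat_lit 15912958386) (nat_lit 304) (nat_lit 976588898) (nat_lit 76) (nat_lit 1568232792) (nat_lit 125) (nat_lit 5) (nat_lit 129) (nat_lit 5) (nat_lit 126) (nat_lit 5) (nat_lit 480) (nat_lit 410) (nat_lit 310)) (XT.lf (nat_lit 0) (nat_lit 2422018891) (nat_lit 304) (nat_lit 7985727150) (nat_lit 76) (nat_lit 8392882676) (nat_lit 121) (nat_lit 5) (nat_lit 125) (nat_lit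 5) (nat_lit 122) (nat_lit 5) (nat_lit 481) (nat_lit 410) (nat_lit 309))) (XT.nd (nat_lit 78) (nat_lit 0) (nat_lit 0) (XT.lf (nat_lit 0) (nat_lit 3844054995) (nat_lit 228) (nat_lit 3670240403) (nat_lit 304) (nat_lit 11637885268) (nat_lit 118) (nat_lit 5) (nat_lit 121) (nat_lit 5) (nat_lit 122) (nat_lit 5) (nat_lit 482) (nat_lit 410) (nat_lit 308)) (XT.lf (nat_lit 0) (nat_lit 12853005175) (nat_lit 304) (nat_lit 3384138593) (nat_lit 76) (nat_lit 3274326538) (nat_lit 118) (nat_lit 5) (nat_lit 122) (nat_lit 5) (nat_lit 119) (nat_lit 5) (nat_lit 483) (nat_lit 410) (nat_lit 307)))) (XT.nd (nat_lit 156) (nat_lit 152) (nat_lit 0) (XT.nd (nat_lit 78) (nat_lit 304) (nat_lit 0) (XT.lf (nat_lit 0) (nat_lit 9005420370) (nat_lit 152) (nat_lit 9450718739) (nat_lit 228) (nat_lit 1422272686) (nat_lit 116) (nat_lit 5) (nat_lit 118) (nat_lit 5) (nat_lit 119) (nat_lit 5) (nat_lit 484) (nat_lit 410) (nat_lit 306)) (XT.lf (nat_lit 0)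 (nat_lit 1540656441) (nat_lit 228) (nat_lit 2383599574) (nat_lit 304) (nat_lit 16330039177) (nat_lit 112) (nat_lit 5) (nat_lit 115) (nat_lit 5) (nat_lit 116) (nat_lit 5) (nat_lit 485) (nat_lit 410) (nat_lit 305))) (XT.nd (nat_lit 78) (nat_lit 152) (nat_lit 0) (XT.lf (nat_lit 0) (nat_lit 9542070013) (nat_lit 304) (nat_lit 6182505151) (nat_lit 76) (nat_lit 4912274156) (nat_lit 112) (nat_lit 5) (nat_lit 116) (nat_lit 5) (nat_lit 113) (nat_lit 5) (nat_lit 486) (nat_lit 410) (nat_lit 304)) (XT.lf (nat_lit 0) (nat_lit 6802920200) (nat_lit 152) (nat_lit 8596563772) (nat_lit 228) (nat_lit 5629265067) (nat_lit 110) (nat_lit 5) (nat_lit 112) (nat_lit 5) (nat_lit 113) (nat_lit 5) (nat_lit 487) (nat_lit 410) (nat_lit 303)))))) (XT.nd (nat_lit 624) (nat_lit 988) (nat_lit 0) (XT.nd (nat_lit 312) (nat_lit 532) (nat_lit 0) (XT.nd (nat_lit 156) (nat_lit 152) (nat_lit 0) (XT.nd (nat_lit 78) (nat_lit 228) (nat_lit 0) (XT.lf (nat_lit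 0) (nat_lit 45384407) (nat_lit 228) (nat_lit 1157355889) (nat_lit 76) (nat_lit 20228311048) (nat_lit 109) (nat_lit 5) (nat_lit 112) (nat_lit 5) (nat_lit 110) (nat_lit 5) (nat_lit 488) (nat_lit 410) (nat_lit 302)) (XT.lf (nat_lit 0) (nat_lit 5942816740) (nat_lit 304) (nat_lit 9443300313) (nat_lit 76) (nat_lit 6452663876) (nat_lit 106) (nat_lit 5) (nat_lit 110) (nat_lit 5) (nat_lit 107) (nat_lit 5) (nat_lit 489) (nat_lit 410) (nat_lit 301))) (XT.nd (nat_lit 78) (nat_lit 0) (nat_lit 0) (XT.lf (nat_lit 0) (nat_lit 4159325533) (nat_lit 152) (nat_lit 7904284943) (nat_lit 228) (nat_lit 10193739603) (nat_lit 104) (nat_lit 5) (nat_lit 106) (nat_lit 5) (nat_lit 107) (nat_lit 5) (nat_lit 490) (nat_lit 410) (nat_lit 300)) (XT.lf (nat_lit 0) (nat_lit 18333854210) (nat_lit 152) (nat_lit 112494568) (nat_lit 228) (nat_lit 4239778704) (nat_lit 104) (nat_lit 5) (nat_lit 106) (nat_lit 5) (nat_lit 107) (nat_lit 5) (nat_lit 491) (nat_lit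 410) (nat_lit 299)))) (XT.nd (nat_lit 156) (nat_lit 152) (nat_lit 0) (XT.nd (nat_lit 78) (nat_lit 152) (nat_lit 0) (XT.lf (nat_lit 0) (nat_lit 2011902389) (nat_lit 228) (nat_lit 13249279537) (nat_lit 76) (nat_lit 7861360092) (nat_lit 101) (nat_lit 5) (nat_lit 104) (nat_lit 5) (nat_lit 102) (nat_lit 5) (nat_lit 492) (nat_lit 410) (nat_lit 298)) (XT.lf (nat_lit 0) (nat_lit 990542629) (nat_lit 152) (nat_lit 7413778567) (nat_lit 228) (nat_lit 15165317112) (nat_lit 99) (nat_lit 5) (nat_lit 101) (nat_lit 5) (nat_lit 102) (nat_lit 5) (nat_lit 493) (nat_lit 410) (nat_lit 297))) (XT.nd (nat_lit 78) (nat_lit 152) (nat_lit 0) (XT.lf (nat_lit 0) (nat_lit 15113526617) (nat_lit 228) (nat_lit 8134128099) (nat_lit 76) (nat_lit 778743062) (nat_lit 99) (nat_lit 5) (nat_lit 102) (nat_lit 5) (nat_lit 100) (nat_lit 5) (nat_lit 494) (nat_lit 410) (nat_lit 296)) (XT.lf (nat_lit 0) (nat_lit 6774439537) (nat_lit 152) (nat_lit 15372040377)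 (nat_lit 228) (nat_lit 2346706659) (nat_lit 97) (nat_lit 5) (nat_lit 99) (nat_lit 5) (nat_lit 100) (nat_lit 5) (nat_lit 495) (nat_lit 410) (nat_lit 295))))) (XT.nd (nat_lit 312) (nat_lit 608) (nat_lit 0) (XT.nd (nat_lit 156) (nat_lit 152) (nat_lit 0) (XT.nd (nat_lit 78) (nat_lit 152) (nat_lit 0) (XT.lf (nat_lit 0) (nat_lit 4397200222) (nat_lit 228) (nat_lit 2746354327) (nat_lit 76) (nat_lit 17827143385) (nat_lit 96) (nat_lit 5) (nat_lit 99) (nat_lit 5) (nat_lit 97) (nat_lit 5) (nat_lit 496) (nat_lit 410) (nat_lit 294)) (XT.lf (nat_lit 0) (nat_lit 11418617498) (nat_lit 228) (nat_lit 12597255546) (nat_lit 76) (nat_lit 1442294395) (nat_lit 94) (nat_lit 5) (nat_lit 97) (nat_lit 5) (nat_lit 95) (nat_lit 5) (nat_lit 497) (nat_lit 410) (nat_lit 293))) (XT.nd (nat_lit 78) (nat_lit 0) (nat_lit 0) (XT.lf (nat_lit 0) (nat_lit 2992843929) (nat_lit 152) (nat_lit 15769862900) (nat_lit 228) (nat_lit 7194193927) (nat_lit 92) (nat_lit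 5) (nat_lit 94) (nat_lit 5) (nat_lit 95) (nat_lit 5) (nat_lit 498) (nat_lit 410) (nat_lit 292)) (XT.lf (nat_lit 0) (nat_lit 19281331497) (nat_lit 152) (nat_lit 7157705717) (nat_lit 228) (nat_lit 28201907) (nat_lit 92) (nat_lit 5) (nat_lit 94) (nat_lit 5) (nat_lit 95) (nat_lit 5) (nat_lit 499) (nat_lit 410) (nat_lit 291)))) (XT.nd (nat_lit 156) (nat_lit 380) (nat_lit 0) (XT.nd (nat_lit 78) (nat_lit 0) (nat_lit 0) (XT.lf (nat_lit 0) (nat_lit 7300138739) (nat_lit 228) (nat_lit 17860157119) (nat_lit 76) (nat_lit 1827746526) (nat_lit 89) (nat_lit 5) (nat_lit 92) (nat_lit 5) (nat_lit 90) (nat_lit 5) (nat_lit 500) (nat_lit 410) (nat_lit 290)) (XT.lf (nat_lit 0) (nat_lit 14976985967) (nat_lit 228) (nat_lit 1542870535) (nat_lit 76) (nat_lit 11000728717) (nat_lit 89) (nat_lit 5) (nat_lit 92) (nat_lit 5) (nat_lit 90) (nat_lit 5) (nat_lit 501) (nat_lit 410) (nat_lit 289))) (XT.nd (nat_lit 78) (nat_lit 228) (nat_lit 0) (XT.lf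 (nat_lit 0) (nat_lit 15540874986) (nat_lit 152) (nat_lit 7478159586) (nat_lit 228) (nat_lit 5046023418) (nat_lit 87) (nat_lit 5) (nat_lit 89) (nat_lit 5) (nat_lit 90) (nat_lit 5) (nat_lit 502) (nat_lit 410) (nat_lit 288)) (XT.lf (nat_lit 0) (nat_lit 2687923056) (nat_lit 228) (nat_lit 24061589531) (nat_lit 76) (nat_lit 1873670885) (nat_lit 84) (nat_lit 5) (nat_lit 87) (nat_lit 5) (nat_lit 85) (nat_lit 5) (nat_lit 503) (nat_lit 410) (nat_lit 287))))))))
noncomputable def xc122 : XT := (XT.nd (nat_lit 2340) (nat_lit 988) (nat_lit 0) (XT.nd (nat_lit 1170) (nat_lit 1064) (nat_lit 0) (XT.nd (nat_lit 546) (nat_lit 760) (nat_lit 0) (XT.nd (nat_lit 234) (nat_lit 456) (nat_lit 0) (XT.nd (nat_lit 78) (nat_lit 152) (nat_lit 0) (XT.lf (nat_lit 0) (nat_lit 10739824831) (nat_lit 228) (nat_lit 6929240922) (nat_lit 76) (nat_lit 11521867925) (nat_lit 84) (nat_lit 5) (nat_lit 87) (nat_lit 5) (nat_lit 85) (nat_lit 5) (nat_lit 504)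 (nat_lit 410) (nat_lit 286)) (XT.nd (nat_lit 78) (nat_lit 0) (nat_lit 0) (XT.lf (nat_lit 0) (nat_lit 10904221921) (nat_lit 152) (nat_lit 8219893313) (nat_lit 228) (nat_lit 10648876678) (nat_lit 82) (nat_lit 5) (nat_lit 84) (nat_lit 5) (nat_lit 85) (nat_lit 5) (nat_lit 505) (nat_lit 410) (nat_lit 285)) (XT.lf (nat_lit 0) (nat_lit 27831206138) (nat_lit 228) (nat_lit 996605291) (nat_lit 76) (nat_lit 1542562771) (nat_lit 82) (nat_lit 5) (nat_lit 85) (nat_lit 5) (nat_lit 83) (nat_lit 4) (nat_lit 506) (nat_lit 410) (nat_lit 284)))) (XT.nd (nat_lit 156) (nat_lit 152) (nat_lit 0) (XT.nd (nat_lit 78) (nat_lit 152) (nat_lit 0) (XT.lf (nat_lit 0) (nat_lit 5940251664) (nat_lit 152) (nat_lit 13386981313) (nat_lit 76) (nat_lit 11649572766) (nat_lit 80) (nat_lit 5) (nat_lit 82) (nat_lit 5) (nat_lit 81) (nat_lit 5) (nat_lit 507) (nat_lit 410) (nat_lit 283)) (XT.lf (nat_lit 0) (nat_lit 5204500832) (nat_lit 152) (nat_lit 9465206032)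 (nat_lit 228) (nat_lit 16929568952) (nat_lit 78) (nat_lit 5) (nat_lit 80) (nat_lit 5) (nat_lit 81) (nat_lit 5) (nat_lit 508) (nat_lit 410) (nat_lit 282))) (XT.nd (nat_lit 78) (nat_lit 152) (nat_lit 0) (XT.lf (nat_lit 0) (nat_lit 23790766683) (nat_lit 228) (nat_lit 7641226759) (nat_lit 76) (nat_lit 804535326) (nat_lit 78) (nat_lit 5) (nat_lit 81) (nat_lit 5) (nat_lit 79) (nat_lit 4) (nat_lit 509) (nat_lit 410) (nat_lit 281)) (XT.lf (nat_lit 0) (nat_lit 482721939) (nat_lit 152) (nat_lit 21104879395) (nat_lit 76) (nat_lit 11299337835) (nat_lit 76) (nat_lit 5) (nat_lit 78) (nat_lit 5) (nat_lit 77) (nat_lit 5) (nat_lit 510) (nat_lit 410) (nat_lit 280))))) (XT.nd (nat_lit 312) (nat_lit 456) (nat_lit 0) (XT.nd (nat_lit 156) (nat_lit 152) (nat_lit 0) (XT.nd (nat_lit 78) (nat_lit 152) (nat_lit 0) (XT.lf (nat_lit 0) (nat_lit 9574189340) (nat_lit 152) (nat_lit 1718556000) (nat_lit 76) (nat_lit 22259661864) (nat_lit 76) (nat_lit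 5) (nat_lit 78) (nat_lit 5) (nat_lit 77) (nat_lit 5) (nat_lit 511) (nat_lit 410) (nat_lit 279)) (XT.lf (nat_lit 0) (nat_lit 18588487242) (nat_lit 152) (nat_lit 515932313) (nat_lit 228) (nat_lit 15128439523) (nat_lit 74) (nat_lit 5) (nat_lit 76) (nat_lit 5) (nat_lit 77) (nat_lit 5) (nat_lit 512) (nat_lit 410) (nat_lit 278))) (XT.nd (nat_lit 78) (nat_lit 76) (nat_lit 0) (XT.lf (nat_lit 0) (nat_lit 4570399523) (nat_lit 76) (nat_lit 24500733053) (nat_lit 152) (nat_lit 5858075005) (nat_lit 73) (nat_lit 5) (nat_lit 74) (nat_lit 5) (nat_lit 75) (nat_lit 4) (nat_lit 513) (nat_lit 410) (nat_lit 277)) (XT.lf (nat_lit 0) (nat_lit 3770430990) (nat_lit 152) (nat_lit 9995203695) (nat_lit 76) (nat_lit 21875186647) (nat_lit 72) (nat_lit 5) (nat_lit 74) (nat_lit 5) (nat_lit 73) (nat_lit 5) (nat_lit 514) (nat_lit 410) (nat_lit 276)))) (XT.nd (nat_lit 156) (nat_lit 304) (nat_lit 0) (XT.nd (nat_lit 78) (nat_lit 0) (nat_lit 0) (XT.lf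 (nat_lit 0) (nat_lit 11115237414) (nat_lit 152) (nat_lit 2549420572) (nat_lit 228) (nat_lit 22704547590) (nat_lit 70) (nat_lit 5) (nat_lit 72) (nat_lit 5) (nat_lit 73) (nat_lit 5) (nat_lit 515) (nat_lit 410) (nat_lit 275)) (XT.lf (nat_lit 0) (nat_lit 24031984530) (nat_lit 228) (nat_lit 4163078935) (nat_lit 76) (nat_lit 8919090010) (nat_lit 70) (nat_lit 5) (nat_lit 73) (nat_lit 5) (nat_lit 71) (nat_lit 4) (nat_lit 516) (nat_lit 410) (nat_lit 274))) (XT.nd (nat_lit 78) (nat_lit 228) (nat_lit 0) (XT.lf (nat_lit 0) (nat_lit 17861502653) (nat_lit 76) (nat_lit 17033917557) (nat_lit 152) (nat_lit 2980477227) (nat_lit 69) (nat_lit 5) (nat_lit 70) (nat_lit 5) (nat_lit 71) (nat_lit 4) (nat_lit 517) (nat_lit 410) (nat_lit 273)) (XT.lf (nat_lit 0) (nat_lit 1916185479) (nat_lit 152) (nat_lit 5412248394) (nat_lit 228) (nat_lit 31328447846) (nat_lit 66) (nat_lit 5) (nat_lit 68) (nat_lit 5) (nat_lit 69) (nat_lit 5) (nat_lit 518)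 (nat_lit 410) (nat_lit 272)))))) (XT.nd (nat_lit 546) (nat_lit 456) (nat_lit 0) (XT.nd (nat_lit 234) (nat_lit 456) (nat_lit 0) (XT.nd (nat_lit 78) (nat_lit 152) (nat_lit 0) (XT.lf (nat_lit 0) (nat_lit 18142054713) (nat_lit 228) (nat_lit 14657208075) (nat_lit 76) (nat_lit 6653487317) (nat_lit 66) (nat_lit 5) (nat_lit 69) (nat_lit 5) (nat_lit 67) (nat_lit 4) (nat_lit 519) (nat_lit 410) (nat_lit 271)) (XT.nd (nat_lit 78) (nat_lit 76) (nat_lit 0) (XT.lf (nat_lit 0) (nat_lit 8172950322) (nat_lit 76) (nat_lit 21227827234) (nat_lit 152) (nat_lit 10868096456) (nat_lit 65) (nat_lit 5) (nat_lit 66) (nat_lit 5) (nat_lit 67) (nat_lit 4) (nat_lit 520) (nat_lit 410) (nat_lit 270)) (XT.lf (nat_lit 0) (nat_lit 28002524) (nat_lit 152) (nat_lit 9138702623) (nat_lit 76) (nat_lit 31938668135) (nat_lit 64) (nat_lit 5) (nat_lit 66) (nat_lit 5) (nat_lit 65) (nat_lit 5) (nat_lit 521) (nat_lit 410) (nat_lit 269)))) (XT.nd (nat_lit 156)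 (nat_lit 304) (nat_lit 0) (XT.nd (nat_lit 78) (nat_lit 0) (nat_lit 0) (XT.lf (nat_lit 0) (nat_lit 11196069394) (nat_lit 228) (nat_lit 27328832107) (nat_lit 76) (nat_lit 3433932442) (nat_lit 62) (nat_lit 5) (nat_lit 65) (nat_lit 5) (nat_lit 63) (nat_lit 4) (nat_lit 522) (nat_lit 410) (nat_lit 268)) (XT.lf (nat_lit 0) (nat_lit 22872052684) (nat_lit 228) (nat_lit 3648841718) (nat_lit 76) (nat_lit 16311818028) (nat_lit 62) (nat_lit 5) (nat_lit 65) (nat_lit 5) (nat_lit 63) (nat_lit 4) (nat_lit 523) (nat_lit 410) (nat_lit 267))) (XT.nd (nat_lit 78) (nat_lit 228) (nat_lit 0) (XT.lf (nat_lit 0) (nat_lit 21133412616) (nat_lit 76) (nat_lit 13957291200) (nat_lit 152) (nat_lit 8636332037) (nat_lit 61) (nat_lit 5) (nat_lit 62) (nat_lit 5) (nat_lit 63) (nat_lit 4) (nat_lit 524) (nat_lit 410) (nat_lit 266)) (XT.lf (nat_lit 0) (nat_lit 2077379008) (nat_lit 152) (nat_lit 937698144) (nat_lit 228) (nat_lit 41630845911) (nat_lit 58)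 (nat_lit 5) (nat_lit 60) (nat_lit 5) (nat_lit 61) (nat_lit 5) (nat_lit 525) (nat_lit 410) (nat_lit 265))))) (XT.nd (nat_lit 312) (nat_lit 228) (nat_lit 0) (XT.nd (nat_lit 156) (nat_lit 152) (nat_lit 0) (XT.nd (nat_lit 78) (nat_lit 76) (nat_lit 0) (XT.lf (nat_lit 0) (nat_lit 15182027937) (nat_lit 228) (nat_lit 17862096257) (nat_lit 76) (nat_lit 12535500229) (nat_lit 58) (nat_lit 5) (nat_lit 61) (nat_lit 5) (nat_lit 59) (nat_lit 4) (nat_lit 526) (nat_lit 410) (nat_lit 264)) (XT.lf (nat_lit 0) (nat_lit 7706682811) (nat_lit 76) (nat_lit 20080259914) (nat_lit 152) (nat_lit 18752205640) (nat_lit 57) (nat_lit 5) (nat_lit 58) (nat_lit 5) (nat_lit 59) (nat_lit 4) (nat_lit 527) (nat_lit 410) (nat_lit 263))) (XT.nd (nat_lit 78) (nat_lit 152) (nat_lit 0) (XT.lf (nat_lit 0) (nat_lit 34388913266) (nat_lit 76) (nat_lit 6551167017) (nat_lit 152) (nat_lit 6582275683) (nat_lit 57) (nat_lit 5) (nat_lit 58) (nat_lit 5) (nat_lit 59)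 (nat_lit 4) (nat_lit 528) (nat_lit 410) (nat_lit 262)) (XT.lf (nat_lit 0) (nat_lit 6029237726) (nat_lit 152) (nat_lit 35078652873) (nat_lit 76) (nat_lit 7419673385) (nat_lit 55) (nat_lit 5) (nat_lit 57) (nat_lit 5) (nat_lit 56) (nat_lit 4) (nat_lit 529) (nat_lit 410) (nat_lit 261)))) (XT.nd (nat_lit 156) (nat_lit 152) (nat_lit 0) (XT.nd (nat_lit 78) (nat_lit 76) (nat_lit 0) (XT.lf (nat_lit 0) (nat_lit 19075522260) (nat_lit 152) (nat_lit 8611752401) (nat_lit 76) (nat_lit 21868036944) (nat_lit 55) (nat_lit 5) (nat_lit 57) (nat_lit 5) (nat_lit 56) (nat_lit 4) (nat_lit 530) (nat_lit 410) (nat_lit 260)) (XT.lf (nat_lit 0) (nat_lit 19001086288) (nat_lit 76) (nat_lit 13684977357) (nat_lit 152) (nat_lit 17922642138) (nat_lit 54) (nat_lit 5) (nat_lit 55) (nat_lit 5) (nat_lit 56) (nat_lit 4) (nat_lit 531) (nat_lit 410) (nat_lit 259))) (XT.nd (nat_lit 78) (nat_lit 152) (nat_lit 0) (XT.lf (nat_lit 0) (nat_lit 46790069684) (nat_lit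 152) (nat_lit 4099067261) (nat_lit 0) (nat_lit 802010562) (nat_lit 54) (nat_lit 5) (nat_lit 56) (nat_lit 4) (nat_lit 54) (nat_lit 4) (nat_lit 532) (nat_lit 410) (nat_lit 258)) (XT.lf (nat_lit 0) (nat_lit 8710739640) (nat_lit 152) (nat_lit 28320412691) (nat_lit 76) (nat_lit 15761485215) (nat_lit 52) (nat_lit 5) (nat_lit 54) (nat_lit 5) (nat_lit 53) (nat_lit 4) (nat_lit 533) (nat_lit 410) (nat_lit 257))))))) (XT.nd (nat_lit 1170) (nat_lit 152) (nat_lit 0) (XT.nd (nat_lit 546) (nat_lit 456) (nat_lit 0) (XT.nd (nat_lit 234) (nat_lit 228) (nat_lit 0) (XT.nd (nat_lit 78) (nat_lit 152) (nat_lit 0) (XT.lf (nat_lit 0) (nat_lit 22664737603) (nat_lit 152) (nat_lit 8510458) (nat_lit 76) (nat_lit 31251498635) (nat_lit 52) (nat_lit 5) (nat_lit 54) (nat_lit 5) (nat_lit 53) (nat_lit 4) (nat_lit 534) (nat_lit 410) (nat_lit 256)) (XT.nd (nat_lit 78) (nat_lit 76) (nat_lit 0) (XT.lf (nat_lit 0) (nat_lit 29714798189) (nat_lit 76) (nat_lit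 7599000363) (nat_lit 152) (nat_lit 17768727429) (nat_lit 51) (nat_lit 5) (nat_lit 52) (nat_lit 5) (nat_lit 53) (nat_lit 4) (nat_lit 535) (nat_lit 410) (nat_lit 255)) (XT.lf (nat_lit 0) (nat_lit 4039760144) (nat_lit 76) (nat_lit 48468517070) (nat_lit 76) (nat_lit 3763583203) (nat_lit 50) (nat_lit 4) (nat_lit 51) (nat_lit 5) (nat_lit 51) (nat_lit 4) (nat_lit 536) (nat_lit 410) (nat_lit 254)))) (XT.nd (nat_lit 156) (nat_lit 76) (nat_lit 0) (XT.nd (nat_lit 78) (nat_lit 76) (nat_lit 0) (XT.lf (nat_lit 0) (nat_lit 10778435548) (nat_lit 152) (nat_lit 22837782574) (nat_lit 76) (nat_lit 23867839238) (nat_lit 49) (nat_lit 5) (nat_lit 51) (nat_lit 5) (nat_lit 50) (nat_lit 4) (nat_lit 537) (nat_lit 410) (nat_lit 253)) (XT.lf (nat_lit 0) (nat_lit 7530754525) (nat_lit 76) (nat_lit 18213803785) (nat_lit 152) (nat_lit 32985039508) (nat_lit 48) (nat_lit 5) (nat_lit 49) (nat_lit 5) (nat_lit 50) (nat_lit 4) (nat_lit 538) (nat_lit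 410) (nat_lit 252))) (XT.nd (nat_lit 78) (nat_lit 76) (nat_lit 0) (XT.lf (nat_lit 0) (nat_lit 39261370415) (nat_lit 76) (nat_lit 2120103326) (nat_lit 152) (nat_lit 18624376612) (nat_lit 48) (nat_lit 5) (nat_lit 49) (nat_lit 5) (nat_lit 50) (nat_lit 4) (nat_lit 539) (nat_lit 410) (nat_lit 251)) (XT.lf (nat_lit 0) (nat_lit 10676069482) (nat_lit 76) (nat_lit 47044386940) (nat_lit 76) (nat_lit 3592945377) (nat_lit 47) (nat_lit 4) (nat_lit 48) (nat_lit 5) (nat_lit 48) (nat_lit 4) (nat_lit 540) (nat_lit 410) (nat_lit 250))))) (XT.nd (nat_lit 312) (nat_lit 228) (nat_lit 0) (XT.nd (nat_lit 156) (nat_lit 76) (nat_lit 0) (XT.nd (nat_lit 78) (nat_lit 76) (nat_lit 0) (XT.lf (nat_lit 0) (nat_lit 11881344667) (nat_lit 152) (nat_lit 19343588661) (nat_lit 76) (nat_lit 31425100284) (nat_lit 46) (nat_lit 5) (nat_lit 48) (nat_lit 5) (nat_lit 47) (nat_lit 4) (nat_lit 541) (nat_lit 410) (nat_lit 249)) (XT.lf (nat_lit 0) (nat_lit 13092549704)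 (nat_lit 76) (nat_lit 14772581509) (nat_lit 152) (nat_lit 36157041598) (nat_lit 45) (nat_lit 5) (nat_lit 46) (nat_lit 5) (nat_lit 47) (nat_lit 4) (nat_lit 542) (nat_lit 410) (nat_lit 248))) (XT.nd (nat_lit 78) (nat_lit 76) (nat_lit 0) (XT.lf (nat_lit 0) (nat_lit 44538230619) (nat_lit 152) (nat_lit 18570484291) (nat_lit 0) (nat_lit 2320467414) (nat_lit 45) (nat_lit 5) (nat_lit 47) (nat_lit 4) (nat_lit 45) (nat_lit 4) (nat_lit 543) (nat_lit 410) (nat_lit 247)) (XT.lf (nat_lit 0) (nat_lit 14887816912) (nat_lit 76) (nat_lit 47104965012) (nat_lit 76) (nat_lit 4877182540) (nat_lit 44) (nat_lit 4) (nat_lit 45) (nat_lit 5) (nat_lit 45) (nat_lit 4) (nat_lit 544) (nat_lit 410) (nat_lit 246)))) (XT.nd (nat_lit 156) (nat_lit 76) (nat_lit 0) (XT.nd (nat_lit 78) (nat_lit 76) (nat_lit 0) (XT.lf (nat_lit 0) (nat_lit 11571583049) (nat_lit 152) (nat_lit 18747196325) (nat_lit 76) (nat_lit 38026402523) (nat_lit 43) (nat_lit 5) (nat_lit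 45) (nat_lit 5) (nat_lit 44) (nat_lit 4) (nat_lit 545) (nat_lit 410) (nat_lit 245)) (XT.lf (nat_lit 0) (nat_lit 15728017497) (nat_lit 76) (nat_lit 12831081780) (nat_lit 152) (nat_lit 41299808583) (nat_lit 42) (nat_lit 5) (nat_lit 43) (nat_lit 5) (nat_lit 44) (nat_lit 4) (nat_lit 546) (nat_lit 410) (nat_lit 244))) (XT.nd (nat_lit 78) (nat_lit 76) (nat_lit 0) (XT.lf (nat_lit 0) (nat_lit 46289368365) (nat_lit 152) (nat_lit 19857677368) (nat_lit 0) (nat_lit 5264006146) (nat_lit 42) (nat_lit 5) (nat_lit 44) (nat_lit 4) (nat_lit 42) (nat_lit 4) (nat_lit 547) (nat_lit 410) (nat_lit 243)) (XT.lf (nat_lit 0) (nat_lit 15606256685) (nat_lit 76) (nat_lit 49214712916) (nat_lit 76) (nat_lit 8180707989) (nat_lit 41) (nat_lit 4) (nat_lit 42) (nat_lit 5) (nat_lit 42) (nat_lit 4) (nat_lit 548) (nat_lit 410) (nat_lit 242)))))) (XT.nd (nat_lit 52182) (nat_lit 0) (nat_lit 24168) (XT.nd (nat_lit 51870) (nat_lit 0) (nat_lit 25764) (XT.nd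 (nat_lit 51714) (nat_lit 0) (nat_lit 26524) (XT.nd (nat_lit 78) (nat_lit 76) (nat_lit 0) (XT.lf (nat_lit 0) (nat_lit 9282515775) (nat_lit 152) (nat_lit 22198888880) (nat_lit 76) (nat_lit 43150098254) (nat_lit 40) (nat_lit 5) (nat_lit 42) (nat_lit 5) (nat_lit 41) (nat_lit 4) (nat_lit 549) (nat_lit 410) (nat_lit 241)) (XT.lf (nat_lit 0) (nat_lit 14235795440) (nat_lit 76) (nat_lit 12998853784) (nat_lit 152) (nat_lit 49069260824) (nat_lit 39) (nat_lit 5) (nat_lit 40) (nat_lit 5) (nat_lit 41) (nat_lit 4) (nat_lit 550) (nat_lit 410) (nat_lit 240))) (XT.nd (nat_lit 78) (nat_lit 0) (nat_lit 0) (XT.lf (nat_lit 0) (nat_lit 598079290) (nat_lit 0) (nat_lit 598079290) (nat_lit 684) (nat_lit 2281298253) (nat_lit 388) (nat_lit 5) (nat_lit 388) (nat_lit 3) (nat_lit 397) (nat_lit 3) (nat_lit 411) (nat_lit 411) (nat_lit 378)) (XT.lf (nat_lit 0) (nat_lit 4292286813) (nat_lit 684) (nat_lit 2301655792) (nat_lit 760) (nat_lit 409020863)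 (nat_lit 388) (nat_lit 5) (nat_lit 397) (nat_lit 3) (nat_lit 398) (nat_lit 5) (nat_lit 412) (nat_lit 411) (nat_lit 377)))) (XT.nd (nat_lit 156) (nat_lit 0) (nat_lit 0) (XT.nd (nat_lit 78) (nat_lit 760) (nat_lit 0) (XT.lf (nat_lit 76) (nat_lit 1232527187) (nat_lit 0) (nat_lit 4968174710) (nat_lit 760) (nat_lit 853223185) (nat_lit 389) (nat_lit 5) (nat_lit 388) (nat_lit 5) (nat_lit 398) (nat_lit 5) (nat_lit 413) (nat_lit 411) (nat_lit 376)) (XT.lf (nat_lit 0) (nat_lit 991521459) (nat_lit 760) (nat_lit 2236106778) (nat_lit 836) (nat_lit 3879927033) (nat_lit 378) (nat_lit 5) (nat_lit 388) (nat_lit 5) (nat_lit 389) (nat_lit 5) (nat_lit 414) (nat_lit 411) (nat_lit 375))) (XT.nd (nat_lit 78) (nat_lit 0) (nat_lit 76) (XT.lf (nat_lit 76) (nat_lit 1437623485) (nat_lit 0) (nat_lit 1381508496) (nat_lit 836) (nat_lit 4345081325) (nat_lit 379) (nat_lit 5) (nat_lit 378) (nat_lit 5) (nat_lit 389) (nat_lit 5) (nat_lit 415) (nat_lit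 411) (nat_lit 374)) (XT.lf (nat_lit 0) (nat_lit 4662152004) (nat_lit 760) (nat_lit 2000374978) (nat_lit 836) (nat_lit 561238849) (nat_lit 379) (nat_lit 5) (nat_lit 389) (nat_lit 5) (nat_lit 390) (nat_lit 5) (nat_lit 416) (nat_lit 411) (nat_lit 373))))) (XT.nd (nat_lit 312) (nat_lit 836) (nat_lit 0) (XT.nd (nat_lit 156) (nat_lit 0) (nat_lit 0) (XT.nd (nat_lit 78) (nat_lit 836) (nat_lit 0) (XT.lf (nat_lit 76) (nat_lit 1819983925) (nat_lit 0) (nat_lit 4706388516) (nat_lit 836) (nat_lit 759767023) (nat_lit 380) (nat_lit 5) (nat_lit 379) (nat_lit 5) (nat_lit 390) (nat_lit 5) (nat_lit 417) (nat_lit 411) (nat_lit 372)) (XT.lf (nat_lit 0) (nat_lit 1030764985) (nat_lit 836) (nat_lit 1604939640) (nat_lit 912) (nat_lit 4715694151) (nat_lit 368) (nat_lit 5) (nat_lit 379) (nat_lit 5) (nat_lit 380) (nat_lit 5) (nat_lit 418) (nat_lit 411) (nat_lit 371))) (XT.nd (nat_lit 78) (nat_lit 0) (nat_lit 76) (XT.lf (nat_lit 76) (nat_lit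 2371662265) (nat_lit 0) (nat_lit 448372637) (nat_lit 912) (nat_lit 4599557340) (nat_lit 369) (nat_lit 5) (nat_lit 368) (nat_lit 5) (nat_lit 380) (nat_lit 5) (nat_lit 419) (nat_lit 411) (nat_lit 370)) (XT.lf (nat_lit 0) (nat_lit 4635852572) (nat_lit 836) (nat_lit 1047269869) (nat_lit 912) (nat_lit 1807533492) (nat_lit 369) (nat_lit 5) (nat_lit 380) (nat_lit 5) (nat_lit 381) (nat_lit 5) (nat_lit 420) (nat_lit 411) (nat_lit 369)))) (XT.nd (nat_lit 156) (nat_lit 0) (nat_lit 76) (XT.nd (nat_lit 78) (nat_lit 912) (nat_lit 0) (XT.lf (nat_lit 76) (nat_lit 3089570730) (nat_lit 0) (nat_lit 3391640111) (nat_lit 912) (nat_lit 1083398914) (nat_lit 370) (nat_lit 5) (nat_lit 369) (nat_lit 5) (nat_lit 381) (nat_lit 5) (nat_lit 421) (nat_lit 411) (nat_lit 368)) (XT.lf (nat_lit 0) (nat_lit 679054661) (nat_lit 912) (nat_lit 316179092) (nat_lit 988) (nat_lit 6646773242) (nat_lit 357) (nat_lit 5) (nat_lit 369) (nat_lit 5) (nat_lit 370)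 (nat_lit 5) (nat_lit 422) (nat_lit 411) (nat_lit 367))) (XT.nd (nat_lit 78) (nat_lit 0) (nat_lit 0) (XT.lf (nat_lit 0) (nat_lit 2469213478) (nat_lit 912) (nat_lit 3741379318) (nat_lit 988) (nat_lit 1510922686) (nat_lit 358) (nat_lit 5) (nat_lit 370) (nat_lit 5) (nat_lit 371) (nat_lit 5) (nat_lit 423) (nat_lit 411) (nat_lit 366)) (XT.lf (nat_lit 76) (nat_lit 568993656) (nat_lit 0) (nat_lit 3707451728) (nat_lit 988) (nat_lit 3528071855) (nat_lit 359) (nat_lit 5) (nat_lit 358) (nat_lit 5) (nat_lit 371) (nat_lit 5) (nat_lit 424) (nat_lit 411) (nat_lit 365))))))))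
noncomputable def xc123 : XT := (XT.nd (nat_lit 2340) (nat_lit 5852) (nat_lit 0) (XT.nd (nat_lit 1170) (nat_lit 5092) (nat_lit 0) (XT.nd (nat_lit 546) (nat_lit 3268) (nat_lit 0) (XT.nd (nat_lit 234) (nat_lit 3268) (nat_lit 0) (XT.nd (nat_lit 78) (nat_lit 912) (nat_lit 0) (XT.lf (nat_lit 76) (nat_lit 5045038925) (nat_lit 0) (nat_lit 1076675986) (nat_lit 988) (nat_lit 1768788320) (nat_lit 359) (nat_lit 5) (nat_lit 358) (nat_lit 5) (nat_lit 371) (nat_lit 5) (nat_lit 425) (nat_lit 411) (nat_lit 364)) (XT.nd (nat_lit 78) (nat_lit 0) (nat_lit 0) (XT.lf (nat_lit 0) (nat_lit 21532363) (nat_lit 988) (nat_lit 6327940077) (nat_lit 76) (nat_lit 1630219088) (nat_lit 346) (nat_lit 5) (nat_lit 359) (nat_lit 5) (nat_lit 347) (nat_lit 5) (nat_lit 426) (nat_lit 411) (nat_lit 363)) (XT.lf (nat_lit 0) (nat_lit 1818047759) (nat_lit 988) (nat_lit 1798439254) (nat_lit 76) (nat_lit 4454910054) (nat_lit 346) (nat_lit 5) (nat_lit 359) (nat_lit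 5) (nat_lit 347) (nat_lit 5) (nat_lit 427) (nat_lit 411) (nat_lit 362)))) (XT.nd (nat_lit 156) (nat_lit 2280) (nat_lit 0) (XT.nd (nat_lit 78) (nat_lit 0) (nat_lit 0) (XT.lf (nat_lit 0) (nat_lit 2882910031) (nat_lit 988) (nat_lit 763122747) (nat_lit 1064) (nat_lit 4520501588) (nat_lit 333) (nat_lit 5) (nat_lit 346) (nat_lit 5) (nat_lit 347) (nat_lit 5) (nat_lit 428) (nat_lit 411) (nat_lit 361)) (XT.lf (nat_lit 0) (nat_lit 5519140169) (nat_lit 1064) (nat_lit 584975279) (nat_lit 76) (nat_lit 2160709444) (nat_lit 333) (nat_lit 5) (nat_lit 347) (nat_lit 5) (nat_lit 334) (nat_lit 5) (nat_lit 429) (nat_lit 411) (nat_lit 360))) (XT.nd (nat_lit 78) (nat_lit 1216) (nat_lit 0) (XT.lf (nat_lit 0) (nat_lit 4290544252) (nat_lit 1064) (nat_lit 3159148711) (nat_lit 1140) (nat_lit 916340977) (nat_lit 319) (nat_lit 5) (nat_lit 333) (nat_lit 5) (nat_lit 334) (nat_lit 5) (nat_lit 430) (nat_lit 411) (nat_lit 359)) (XT.lf (nat_lit 0)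 (nat_lit 820053349) (nat_lit 1140) (nat_lit 95778281) (nat_lit 1216) (nat_lit 7555170397) (nat_lit 303) (nat_lit 5) (nat_lit 318) (nat_lit 5) (nat_lit 319) (nat_lit 5) (nat_lit 431) (nat_lit 411) (nat_lit 358))))) (XT.nd (nat_lit 312) (nat_lit 1292) (nat_lit 0) (XT.nd (nat_lit 156) (nat_lit 760) (nat_lit 0) (XT.nd (nat_lit 78) (nat_lit 1216) (nat_lit 0) (XT.lf (nat_lit 0) (nat_lit 2809545510) (nat_lit 1216) (nat_lit 2712615139) (nat_lit 76) (nat_lit 3055943265) (nat_lit 303) (nat_lit 5) (nat_lit 319) (nat_lit 5) (nat_lit 304) (nat_lit 5) (nat_lit 432) (nat_lit 411) (nat_lit 357)) (XT.lf (nat_lit 0) (nat_lit 2378709170) (nat_lit 1216) (nat_lit 2360536700) (nat_lit 1292) (nat_lit 3949804284) (nat_lit 287) (nat_lit 5) (nat_lit 303) (nat_lit 5) (nat_lit 304) (nat_lit 5) (nat_lit 433) (nat_lit 411) (nat_lit 356))) (XT.nd (nat_lit 78) (nat_lit 760) (nat_lit 0) (XT.lf (nat_lit 0) (nat_lit 6719421036) (nat_lit 1292) (nat_lit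 1174588880) (nat_lit 76) (nat_lit 909543711) (nat_lit 287) (nat_lit 5) (nat_lit 304) (nat_lit 5) (nat_lit 288) (nat_lit 5) (nat_lit 434) (nat_lit 411) (nat_lit 355)) (XT.lf (nat_lit 0) (nat_lit 4132126391) (nat_lit 760) (nat_lit 4647548024) (nat_lit 836) (nat_lit 141203771) (nat_lit 277) (nat_lit 5) (nat_lit 287) (nat_lit 5) (nat_lit 288) (nat_lit 5) (nat_lit 435) (nat_lit 411) (nat_lit 354)))) (XT.nd (nat_lit 156) (nat_lit 608) (nat_lit 0) (XT.nd (nat_lit 78) (nat_lit 0) (nat_lit 0) (XT.lf (nat_lit 0) (nat_lit 532328989) (nat_lit 608) (nat_lit 1266498518) (nat_lit 684) (nat_lit 7243111105) (nat_lit 268) (nat_lit 5) (nat_lit 276) (nat_lit 5) (nat_lit 277) (nat_lit 5) (nat_lit 436) (nat_lit 411) (nat_lit 353)) (XT.lf (nat_lit 0) (nat_lit 3823214866) (nat_lit 684) (nat_lit 3118814570) (nat_lit 76) (nat_lit 2223695324) (nat_lit 268) (nat_lit 5) (nat_lit 277) (nat_lit 5) (nat_lit 269) (nat_lit 5) (nat_lit 437) (nat_lit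 411) (nat_lit 352))) (XT.nd (nat_lit 78) (nat_lit 0) (nat_lit 0) (XT.lf (nat_lit 0) (nat_lit 2428096006) (nat_lit 608) (nat_lit 3476172175) (nat_lit 684) (nat_lit 3389083768) (nat_lit 260) (nat_lit 5) (nat_lit 268) (nat_lit 5) (nat_lit 269) (nat_lit 5) (nat_lit 438) (nat_lit 411) (nat_lit 351)) (XT.lf (nat_lit 0) (nat_lit 8041283489) (nat_lit 684) (nat_lit 1260953637) (nat_lit 76) (nat_lit 122770240) (nat_lit 260) (nat_lit 5) (nat_lit 269) (nat_lit 5) (nat_lit 261) (nat_lit 5) (nat_lit 439) (nat_lit 411) (nat_lit 350)))))) (XT.nd (nat_lit 546) (nat_lit 2356) (nat_lit 0) (XT.nd (nat_lit 234) (nat_lit 1596) (nat_lit 0) (XT.nd (nat_lit 78) (nat_lit 532) (nat_lit 0) (XT.lf (nat_lit 0) (nat_lit 708765585) (nat_lit 608) (nat_lit 5041028063) (nat_lit 76) (nat_lit 3809419009) (nat_lit 252) (nat_lit 5) (nat_lit 260) (nat_lit 5) (nat_lit 253) (nat_lit 5) (nat_lit 440) (nat_lit 411) (nat_lit 349)) (XT.nd (nat_lit 78) (nat_lit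 0) (nat_lit 0) (XT.lf (nat_lit 0) (nat_lit 760102607) (nat_lit 532) (nat_lit 2058599353) (nat_lit 608) (nat_lit 6878861501) (nat_lit 245) (nat_lit 5) (nat_lit 252) (nat_lit 5) (nat_lit 253) (nat_lit 5) (nat_lit 441) (nat_lit 411) (nat_lit 348)) (XT.lf (nat_lit 0) (nat_lit 5023104878) (nat_lit 608) (nat_lit 3058271696) (nat_lit 76) (nat_lit 1757757894) (nat_lit 245) (nat_lit 5) (nat_lit 253) (nat_lit 5) (nat_lit 246) (nat_lit 5) (nat_lit 442) (nat_lit 411) (nat_lit 347)))) (XT.nd (nat_lit 156) (nat_lit 1064) (nat_lit 0) (XT.nd (nat_lit 78) (nat_lit 0) (nat_lit 0) (XT.lf (nat_lit 0) (nat_lit 2995484625) (nat_lit 532) (nat_lit 4311411456) (nat_lit 608) (nat_lit 2677663432) (nat_lit 238) (nat_lit 5) (nat_lit 245) (nat_lit 5) (nat_lit 246) (nat_lit 5) (nat_lit 443) (nat_lit 411) (nat_lit 346)) (XT.lf (nat_lit 0) (nat_lit 9254057145) (nat_lit 532) (nat_lit 400772661) (nat_lit 608) (nat_lit 479653099) (nat_lit 238) (nat_lit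 5) (nat_lit 245) (nat_lit 5) (nat_lit 246) (nat_lit 5) (nat_lit 444) (nat_lit 411) (nat_lit 345))) (XT.nd (nat_lit 78) (nat_lit 456) (nat_lit 0) (XT.lf (nat_lit 0) (nat_lit 1802925843) (nat_lit 608) (nat_lit 4861487237) (nat_lit 76) (nat_lit 3622377178) (nat_lit 230) (nat_lit 5) (nat_lit 238) (nat_lit 5) (nat_lit 231) (nat_lit 5) (nat_lit 445) (nat_lit 411) (nat_lit 344)) (XT.lf (nat_lit 0) (nat_lit 1475208626) (nat_lit 456) (nat_lit 2662280239) (nat_lit 532) (nat_lit 6306245159) (nat_lit 224) (nat_lit 5) (nat_lit 230) (nat_lit 5) (nat_lit 231) (nat_lit 5) (nat_lit 446) (nat_lit 411) (nat_lit 343))))) (XT.nd (nat_lit 312) (nat_lit 1368) (nat_lit 0) (XT.nd (nat_lit 156) (nat_lit 532) (nat_lit 0) (XT.nd (nat_lit 78) (nat_lit 456) (nat_lit 0) (XT.lf (nat_lit 0) (nat_lit 6572276083) (nat_lit 532) (nat_lit 2556956350) (nat_lit 76) (nat_lit 1475252013) (nat_lit 224) (nat_lit 5) (nat_lit 231) (nat_lit 5) (nat_lit 225)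 (nat_lit 5) (nat_lit 447) (nat_lit 411) (nat_lit 342)) (XT.lf (nat_lit 0) (nat_lit 4060827944) (nat_lit 456) (nat_lit 5052223005) (nat_lit 532) (nat_lit 1656021959) (nat_lit 218) (nat_lit 5) (nat_lit 224) (nat_lit 5) (nat_lit 225) (nat_lit 5) (nat_lit 448) (nat_lit 411) (nat_lit 341))) (XT.nd (nat_lit 78) (nat_lit 456) (nat_lit 0) (XT.lf (nat_lit 0) (nat_lit 769886081) (nat_lit 532) (nat_lit 55402988) (nat_lit 76) (nat_lit 10113268941) (nat_lit 217) (nat_lit 5) (nat_lit 224) (nat_lit 5) (nat_lit 218) (nat_lit 5) (nat_lit 449) (nat_lit 411) (nat_lit 340)) (XT.lf (nat_lit 0) (nat_lit 3304800195) (nat_lit 532) (nat_lit 4269577396) (nat_lit 76) (nat_lit 3536176308) (nat_lit 211) (nat_lit 5) (nat_lit 218) (nat_lit 5) (nat_lit 212) (nat_lit 5) (nat_lit 450) (nat_lit 411) (nat_lit 339)))) (XT.nd (nat_lit 156) (nat_lit 912) (nat_lit 0) (XT.nd (nat_lit 78) (nat_lit 0) (nat_lit 0) (XT.lf (nat_lit 0) (nat_lit 2662860404) (nat_lit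 456) (nat_lit 3256456217) (nat_lit 532) (nat_lit 5368289816) (nat_lit 205) (nat_lit 5) (nat_lit 211) (nat_lit 5) (nat_lit 212) (nat_lit 5) (nat_lit 451) (nat_lit 411) (nat_lit 338)) (XT.lf (nat_lit 0) (nat_lit 8636932217) (nat_lit 532) (nat_lit 1628829680) (nat_lit 76) (nat_lit 1203472063) (nat_lit 205) (nat_lit 5) (nat_lit 212) (nat_lit 5) (nat_lit 206) (nat_lit 5) (nat_lit 452) (nat_lit 411) (nat_lit 337))) (XT.nd (nat_lit 78) (nat_lit 532) (nat_lit 0) (XT.lf (nat_lit 0) (nat_lit 5616385381) (nat_lit 380) (nat_lit 5876478252) (nat_lit 456) (nat_lit 161746277) (nat_lit 200) (nat_lit 5) (nat_lit 205) (nat_lit 5) (nat_lit 206) (nat_lit 5) (nat_lit 453) (nat_lit 411) (nat_lit 336)) (XT.lf (nat_lit 0) (nat_lit 1228061773) (nat_lit 456) (nat_lit 1309524451) (nat_lit 532) (nat_lit 9307241971) (nat_lit 193) (nat_lit 5) (nat_lit 199) (nat_lit 5) (nat_lit 200) (nat_lit 5) (nat_lit 454) (nat_lit 411) (nat_lit 335)))))))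 (XT.nd (nat_lit 1170) (nat_lit 2660) (nat_lit 0) (XT.nd (nat_lit 546) (nat_lit 1672) (nat_lit 0) (XT.nd (nat_lit 234) (nat_lit 1140) (nat_lit 0) (XT.nd (nat_lit 78) (nat_lit 380) (nat_lit 0) (XT.lf (nat_lit 0) (nat_lit 5380020738) (nat_lit 532) (nat_lit 3276194234) (nat_lit 76) (nat_lit 3382531772) (nat_lit 193) (nat_lit 5) (nat_lit 200) (nat_lit 5) (nat_lit 194) (nat_lit 5) (nat_lit 455) (nat_lit 411) (nat_lit 334)) (XT.nd (nat_lit 78) (nat_lit 0) (nat_lit 0) (XT.lf (nat_lit 0) (nat_lit 4318471066) (nat_lit 380) (nat_lit 4015740060) (nat_lit 456) (nat_lit 3903480102) (nat_lit 188) (nat_lit 5) (nat_lit 193) (nat_lit 5) (nat_lit 194) (nat_lit 5) (nat_lit 456) (nat_lit 411) (nat_lit 333)) (XT.lf (nat_lit 0) (nat_lit 11390154499) (nat_lit 456) (nat_lit 278945293) (nat_lit 76) (nat_lit 773113215) (nat_lit 188) (nat_lit 5) (nat_lit 194) (nat_lit 5) (nat_lit 189) (nat_lit 5) (nat_lit 457) (nat_lit 411) (nat_lit 332))))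 (XT.nd (nat_lit 156) (nat_lit 380) (nat_lit 0) (XT.nd (nat_lit 78) (nat_lit 304) (nat_lit 0) (XT.lf (nat_lit 0) (nat_lit 1935584228) (nat_lit 456) (nat_lit 5005625166) (nat_lit 76) (nat_lit 5708496305) (nat_lit 182) (nat_lit 5) (nat_lit 188) (nat_lit 5) (nat_lit 183) (nat_lit 5) (nat_lit 458) (nat_lit 411) (nat_lit 331)) (XT.lf (nat_lit 0) (nat_lit 2957575133) (nat_lit 304) (nat_lit 2038756270) (nat_lit 380) (nat_lit 7866643204) (nat_lit 178) (nat_lit 5) (nat_lit 182) (nat_lit 5) (nat_lit 183) (nat_lit 5) (nat_lit 459) (nat_lit 411) (nat_lit 330))) (XT.nd (nat_lit 78) (nat_lit 380) (nat_lit 0) (XT.lf (nat_lit 0) (nat_lit 8202562184) (nat_lit 380) (nat_lit 1885484275) (nat_lit 76) (nat_lit 2992987757) (nat_lit 178) (nat_lit 5) (nat_lit 183) (nat_lit 5) (nat_lit 179) (nat_lit 5) (nat_lit 460) (nat_lit 411) (nat_lit 329)) (XT.lf (nat_lit 0) (nat_lit 6444482082) (nat_lit 380) (nat_lit 5117070998) (nat_lit 456) (nat_lit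 1742387736) (nat_lit 173) (nat_lit 5) (nat_lit 178) (nat_lit 5) (nat_lit 179) (nat_lit 5) (nat_lit 461) (nat_lit 411) (nat_lit 328))))) (XT.nd (nat_lit 312) (nat_lit 988) (nat_lit 0) (XT.nd (nat_lit 156) (nat_lit 304) (nat_lit 0) (XT.nd (nat_lit 78) (nat_lit 0) (nat_lit 0) (XT.lf (nat_lit 0) (nat_lit 1467466936) (nat_lit 380) (nat_lit 12024543070) (nat_lit 76) (nat_lit 40836231) (nat_lit 168) (nat_lit 5) (nat_lit 173) (nat_lit 5) (nat_lit 169) (nat_lit 5) (nat_lit 462) (nat_lit 411) (nat_lit 327)) (XT.lf (nat_lit 0) (nat_lit 4834092624) (nat_lit 380) (nat_lit 3603993874) (nat_lit 76) (nat_lit 5327152105) (nat_lit 168) (nat_lit 5) (nat_lit 173) (nat_lit 5) (nat_lit 169) (nat_lit 5) (nat_lit 463) (nat_lit 411) (nat_lit 326))) (XT.nd (nat_lit 78) (nat_lit 0) (nat_lit 0) (XT.lf (nat_lit 0) (nat_lit 5133854779) (nat_lit 304) (nat_lit 3192822425) (nat_lit 380) (nat_lit 5677178864) (nat_lit 164) (nat_lit 5) (nat_lit 168)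 (nat_lit 5) (nat_lit 169) (nat_lit 5) (nat_lit 464) (nat_lit 411) (nat_lit 325)) (XT.lf (nat_lit 0) (nat_lit 11957910732) (nat_lit 380) (nat_lit 98189881) (nat_lit 76) (nat_lit 2192517368) (nat_lit 164) (nat_lit 5) (nat_lit 169) (nat_lit 5) (nat_lit 165) (nat_lit 5) (nat_lit 465) (nat_lit 411) (nat_lit 324)))) (XT.nd (nat_lit 156) (nat_lit 304) (nat_lit 0) (XT.nd (nat_lit 78) (nat_lit 304) (nat_lit 0) (XT.lf (nat_lit 0) (nat_lit 1270089622) (nat_lit 380) (nat_lit 5463341910) (nat_lit 76) (nat_lit 7764065000) (nat_lit 159) (nat_lit 5) (nat_lit 164) (nat_lit 5) (nat_lit 160) (nat_lit 5) (nat_lit 466) (nat_lit 411) (nat_lit 323)) (XT.lf (nat_lit 0) (nat_lit 3703399045) (nat_lit 304) (nat_lit 1201570946) (nat_lit 380) (nat_lit 9847793917) (nat_lit 155) (nat_lit 5) (nat_lit 159) (nat_lit 5) (nat_lit 160) (nat_lit 5) (nat_lit 467) (nat_lit 411) (nat_lit 322))) (XT.nd (nat_lit 78) (nat_lit 304) (nat_lit 0) (XT.lf (nat_lit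 0) (nat_lit 8724768452) (nat_lit 380) (nat_lit 1835751556) (nat_lit 76) (nat_lit 4452894984) (nat_lit 155) (nat_lit 5) (nat_lit 160) (nat_lit 5) (nat_lit 156) (nat_lit 5) (nat_lit 468) (nat_lit 411) (nat_lit 321)) (XT.lf (nat_lit 0) (nat_lit 7759729788) (nat_lit 304) (nat_lit 4963526613) (nat_lit 380) (nat_lit 2556708126) (nat_lit 151) (nat_lit 5) (nat_lit 155) (nat_lit 5) (nat_lit 156) (nat_lit 5) (nat_lit 469) (nat_lit 411) (nat_lit 320)))))) (XT.nd (nat_lit 624) (nat_lit 1216) (nat_lit 0) (XT.nd (nat_lit 312) (nat_lit 532) (nat_lit 0) (XT.nd (nat_lit 156) (nat_lit 532) (nat_lit 0) (XT.nd (nat_lit 78) (nat_lit 0) (nat_lit 0) (XT.lf (nat_lit 0) (nat_lit 1286998278) (nat_lit 380) (nat_lit 13440318131) (nat_lit 76) (nat_lit 826076797) (nat_lit 146) (nat_lit 5) (nat_lit 151) (nat_lit 5) (nat_lit 147) (nat_lit 5) (nat_lit 470) (nat_lit 411) (nat_lit 319)) (XT.lf (nat_lit 0) (nat_lit 5298388830) (nat_lit 380) (nat_lit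 3752800925) (nat_lit 76) (nat_lit 6779964397) (nat_lit 146) (nat_lit 5) (nat_lit 151) (nat_lit 5) (nat_lit 147) (nat_lit 5) (nat_lit 471) (nat_lit 411) (nat_lit 318))) (XT.nd (nat_lit 78) (nat_lit 304) (nat_lit 0) (XT.lf (nat_lit 0) (nat_lit 6315189081) (nat_lit 228) (nat_lit 3154205369) (nat_lit 304) (nat_lit 6646676861) (nat_lit 143) (nat_lit 5) (nat_lit 146) (nat_lit 5) (nat_lit 147) (nat_lit 5) (nat_lit 472) (nat_lit 411) (nat_lit 317)) (XT.lf (nat_lit 0) (nat_lit 297535253) (nat_lit 304) (nat_lit 13515951707) (nat_lit 380) (nat_lit 2594611861) (nat_lit 139) (nat_lit 5) (nat_lit 143) (nat_lit 5) (nat_lit 144) (nat_lit 5) (nat_lit 473) (nat_lit 411) (nat_lit 316)))) (XT.nd (nat_lit 156) (nat_lit 228) (nat_lit 0) (XT.nd (nat_lit 78) (nat_lit 228) (nat_lit 0) (XT.lf (nat_lit 0) (nat_lit 1658232062) (nat_lit 380) (nat_lit 5887163734) (nat_lit 76) (nat_lit 9159736581) (nat_lit 138) (nat_lit 5) (nat_lit 143) (nat_lit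 5) (nat_lit 139) (nat_lit 5) (nat_lit 474) (nat_lit 411) (nat_lit 315)) (XT.lf (nat_lit 0) (nat_lit 4675799993) (nat_lit 228) (nat_lit 1335124752) (nat_lit 304) (nat_lit 10998650548) (nat_lit 135) (nat_lit 5) (nat_lit 138) (nat_lit 5) (nat_lit 139) (nat_lit 5) (nat_lit 475) (nat_lit 411) (nat_lit 314))) (XT.nd (nat_lit 78) (nat_lit 228) (nat_lit 0) (XT.lf (nat_lit 0) (nat_lit 10582525724) (nat_lit 304) (nat_lit 1727139042) (nat_lit 76) (nat_lit 5010838271) (nat_lit 135) (nat_lit 5) (nat_lit 139) (nat_lit 5) (nat_lit 136) (nat_lit 5) (nat_lit 476) (nat_lit 411) (nat_lit 313)) (XT.lf (nat_lit 0) (nat_lit 9334726202) (nat_lit 228) (nat_lit 6039728110) (nat_lit 304) (nat_lit 2263810244) (nat_lit 132) (nat_lit 5) (nat_lit 135) (nat_lit 5) (nat_lit 136) (nat_lit 5) (nat_lit 477) (nat_lit 411) (nat_lit 312))))) (XT.nd (nat_lit 312) (nat_lit 456) (nat_lit 0) (XT.nd (nat_lit 156) (nat_lit 456) (nat_lit 0) (XT.nd (nat_lit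 78) (nat_lit 0) (nat_lit 0) (XT.lf (nat_lit 0) (nat_lit 2328221162) (nat_lit 304) (nat_lit 15169972129) (nat_lit 76) (nat_lit 465809036) (nat_lit 128) (nat_lit 5) (nat_lit 132) (nat_lit 5) (nat_lit 129) (nat_lit 5) (nat_lit 478) (nat_lit 411) (nat_lit 311)) (XT.lf (nat_lit 0) (nat_lit 7137450752) (nat_lit 304) (nat_lit 4017438141) (nat_lit 76) (nat_lit 7140204005) (nat_lit 128) (nat_lit 5) (nat_lit 132) (nat_lit 5) (nat_lit 129) (nat_lit 5) (nat_lit 479) (nat_lit 411) (nat_lit 310))) (XT.nd (nat_lit 78) (nat_lit 228) (nat_lit 0) (XT.lf (nat_lit 0) (nat_lit 7586509908) (nat_lit 228) (nat_lit 4558401311) (nat_lit 304) (nat_lit 6489587528) (nat_lit 125) (nat_lit 5) (nat_lit 128) (nat_lit 5) (nat_lit 129) (nat_lit 5) (nat_lit 480) (nat_lit 411) (nat_lit 309)) (XT.lf (nat_lit 0) (nat_lit 596462310) (nat_lit 228) (nat_lit 16755496613) (nat_lit 304) (nat_lit 1630648091) (nat_lit 122) (nat_lit 5) (nat_lit 125) (nat_lit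 5) (nat_lit 126) (nat_lit 5) (nat_lit 481) (nat_lit 411) (nat_lit 308)))) (XT.nd (nat_lit 156) (nat_lit 152) (nat_lit 0) (XT.nd (nat_lit 78) (nat_lit 228) (nat_lit 0) (XT.lf (nat_lit 0) (nat_lit 3447251249) (nat_lit 304) (nat_lit 6631171588) (nat_lit 76) (nat_lit 9257592812) (nat_lit 121) (nat_lit 5) (nat_lit 125) (nat_lit 5) (nat_lit 122) (nat_lit 5) (nat_lit 482) (nat_lit 411) (nat_lit 307)) (XT.lf (nat_lit 0) (nat_lit 5537875322) (nat_lit 228) (nat_lit 3141849415) (nat_lit 304) (nat_lit 11018768155) (nat_lit 118) (nat_lit 5) (nat_lit 121) (nat_lit 5) (nat_lit 122) (nat_lit 5) (nat_lit 483) (nat_lit 411) (nat_lit 306))) (XT.nd (nat_lit 78) (nat_lit 152) (nat_lit 0) (XT.lf (nat_lit 0) (nat_lit 14157176021) (nat_lit 304) (nat_lit 1931668346) (nat_lit 76) (nat_lit 3980360994) (nat_lit 118) (nat_lit 5) (nat_lit 122) (nat_lit 5) (nat_lit 119) (nat_lit 5) (nat_lit 484) (nat_lit 411) (nat_lit 305)) (XT.lf (nat_lit 0)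 (nat_lit 10814342146) (nat_lit 152) (nat_lit 9102098544) (nat_lit 228) (nat_lit 531074808) (nat_lit 116) (nat_lit 5) (nat_lit 118) (nat_lit 5) (nat_lit 119) (nat_lit 5) (nat_lit 485) (nat_lit 411) (nat_lit 304))))))))
noncomputable def xc124 : XT := (XT.nd (nat_lit 2340) (nat_lit 2128) (nat_lit 0) (XT.nd (nat_lit 1170) (nat_lit 1444) (nat_lit 0) (XT.nd (nat_lit 546) (nat_lit 988) (nat_lit 0) (XT.nd (nat_lit 234) (nat_lit 456) (nat_lit 0) (XT.nd (nat_lit 78) (nat_lit 152) (nat_lit 0) (XT.lf (nat_lit 0) (nat_lit 3128642047) (nat_lit 228) (nat_lit 1817135800) (nat_lit 304) (nat_lit 15888985126) (nat_lit 112) (nat_lit 5) (nat_lit 115) (nat_lit 5) (nat_lit 116) (nat_lit 5) (nat_lit 486) (nat_lit 411) (nat_lit 303)) (XT.nd (nat_lit 78) (nat_lit 152) (nat_lit 0) (XT.lf (nat_lit 0) (nat_lit 10711756120) (nat_lit 304) (nat_lit 4850704177) (nat_lit 76) (nat_lit 5666945910) (nat_lit 112) (nat_lit 5) (nat_lit 116) (nat_lit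 5) (nat_lit 113) (nat_lit 5) (nat_lit 487) (nat_lit 411) (nat_lit 302)) (XT.lf (nat_lit 0) (nat_lit 8509408678) (nat_lit 152) (nat_lit 8224195018) (nat_lit 228) (nat_lit 4899799219) (nat_lit 110) (nat_lit 5) (nat_lit 112) (nat_lit 5) (nat_lit 113) (nat_lit 5) (nat_lit 488) (nat_lit 411) (nat_lit 301)))) (XT.nd (nat_lit 156) (nat_lit 152) (nat_lit 0) (XT.nd (nat_lit 78) (nat_lit 0) (nat_lit 0) (XT.lf (nat_lit 0) (nat_lit 289271103) (nat_lit 228) (nat_lit 615414590) (nat_lit 304) (nat_lit 21143517018) (nat_lit 106) (nat_lit 5) (nat_lit 109) (nat_lit 5) (nat_lit 110) (nat_lit 5) (nat_lit 489) (nat_lit 411) (nat_lit 300)) (XT.lf (nat_lit 0) (nat_lit 6971329467) (nat_lit 304) (nat_lit 8245924737) (nat_lit 76) (nat_lit 7251142549) (nat_lit 106) (nat_lit 5) (nat_lit 110) (nat_lit 5) (nat_lit 107) (nat_lit 5) (nat_lit 490) (nat_lit 411) (nat_lit 299))) (XT.nd (nat_lit 78) (nat_lit 0) (nat_lit 0) (XT.lf (nat_lit 0) (nat_lit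 5750263467) (nat_lit 152) (nat_lit 7514813228) (nat_lit 228) (nat_lit 9634767578) (nat_lit 104) (nat_lit 5) (nat_lit 106) (nat_lit 5) (nat_lit 107) (nat_lit 5) (nat_lit 491) (nat_lit 411) (nat_lit 298)) (XT.lf (nat_lit 0) (nat_lit 19819578026) (nat_lit 228) (nat_lit 3039629400) (nat_lit 76) (nat_lit 482870298) (nat_lit 104) (nat_lit 5) (nat_lit 107) (nat_lit 5) (nat_lit 105) (nat_lit 5) (nat_lit 492) (nat_lit 411) (nat_lit 297))))) (XT.nd (nat_lit 312) (nat_lit 456) (nat_lit 0) (XT.nd (nat_lit 156) (nat_lit 152) (nat_lit 0) (XT.nd (nat_lit 78) (nat_lit 152) (nat_lit 0) (XT.lf (nat_lit 0) (nat_lit 2891091213) (nat_lit 228) (nat_lit 12202465308) (nat_lit 76) (nat_lit 8698060592) (nat_lit 101) (nat_lit 5) (nat_lit 104) (nat_lit 5) (nat_lit 102) (nat_lit 5) (nat_lit 493) (nat_lit 411) (nat_lit 296)) (XT.lf (nat_lit 0) (nat_lit 2450391791) (nat_lit 152) (nat_lit 7014788636) (nat_lit 228) (nat_lit 14787249984) (nat_lit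 99) (nat_lit 5) (nat_lit 101) (nat_lit 5) (nat_lit 102) (nat_lit 5) (nat_lit 494) (nat_lit 411) (nat_lit 295))) (XT.nd (nat_lit 78) (nat_lit 152) (nat_lit 0) (XT.lf (nat_lit 0) (nat_lit 16357906109) (nat_lit 228) (nat_lit 6971883377) (nat_lit 76) (nat_lit 1393636880) (nat_lit 99) (nat_lit 5) (nat_lit 102) (nat_lit 5) (nat_lit 100) (nat_lit 5) (nat_lit 495) (nat_lit 411) (nat_lit 294)) (XT.lf (nat_lit 0) (nat_lit 8370154341) (nat_lit 152) (nat_lit 15222040981) (nat_lit 228) (nat_lit 1612314078) (nat_lit 97) (nat_lit 5) (nat_lit 99) (nat_lit 5) (nat_lit 100) (nat_lit 5) (nat_lit 496) (nat_lit 411) (nat_lit 293)))) (XT.nd (nat_lit 156) (nat_lit 228) (nat_lit 0) (XT.nd (nat_lit 78) (nat_lit 152) (nat_lit 0) (XT.lf (nat_lit 0) (nat_lit 5295222398) (nat_lit 228) (nat_lit 1461542803) (nat_lit 76) (nat_lit 18940039247) (nat_lit 96) (nat_lit 5) (nat_lit 99) (nat_lit 5) (nat_lit 97) (nat_lit 5) (nat_lit 497) (nat_lit 411)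 (nat_lit 292)) (XT.lf (nat_lit 0) (nat_lit 12523720612) (nat_lit 228) (nat_lit 11604379151) (nat_lit 76) (nat_lit 2070906033) (nat_lit 94) (nat_lit 5) (nat_lit 97) (nat_lit 5) (nat_lit 95) (nat_lit 5) (nat_lit 498) (nat_lit 411) (nat_lit 291))) (XT.nd (nat_lit 78) (nat_lit 76) (nat_lit 0) (XT.lf (nat_lit 0) (nat_lit 4439984151) (nat_lit 152) (nat_lit 15638986161) (nat_lit 228) (nat_lit 6634006554) (nat_lit 92) (nat_lit 5) (nat_lit 94) (nat_lit 5) (nat_lit 95) (nat_lit 5) (nat_lit 499) (nat_lit 411) (nat_lit 290)) (XT.lf (nat_lit 0) (nat_lit 710227971) (nat_lit 228) (nat_lit 6068655818) (nat_lit 76) (nat_lit 20460191855) (nat_lit 91) (nat_lit 5) (nat_lit 94) (nat_lit 5) (nat_lit 92) (nat_lit 5) (nat_lit 500) (nat_lit 411) (nat_lit 289)))))) (XT.nd (nat_lit 546) (nat_lit 684) (nat_lit 0) (XT.nd (nat_lit 234) (nat_lit 456) (nat_lit 0) (XT.nd (nat_lit 78) (nat_lit 152) (nat_lit 0) (XT.lf (nat_lit 0) (nat_lit 8254687589)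 (nat_lit 228) (nat_lit 17060220659) (nat_lit 76) (nat_lit 2460682120) (nat_lit 89) (nat_lit 5) (nat_lit 92) (nat_lit 5) (nat_lit 90) (nat_lit 5) (nat_lit 501) (nat_lit 411) (nat_lit 288)) (XT.nd (nat_lit 78) (nat_lit 152) (nat_lit 0) (XT.lf (nat_lit 0) (nat_lit 16140416602) (nat_lit 228) (nat_lit 292320560) (nat_lit 76) (nat_lit 11892015820) (nat_lit 89) (nat_lit 5) (nat_lit 92) (nat_lit 5) (nat_lit 90) (nat_lit 5) (nat_lit 502) (nat_lit 411) (nat_lit 287)) (XT.lf (nat_lit 0) (nat_lit 17291223246) (nat_lit 152) (nat_lit 7124047543) (nat_lit 228) (nat_lit 4470543586) (nat_lit 87) (nat_lit 5) (nat_lit 89) (nat_lit 5) (nat_lit 90) (nat_lit 5) (nat_lit 503) (nat_lit 411) (nat_lit 286)))) (XT.nd (nat_lit 156) (nat_lit 228) (nat_lit 0) (XT.nd (nat_lit 78) (nat_lit 0) (nat_lit 0) (XT.lf (nat_lit 0) (nat_lit 3478426071) (nat_lit 228) (nat_lit 23482271394) (nat_lit 76) (nat_lit 2499861611) (nat_lit 84) (nat_lit 5) (nat_lit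 87) (nat_lit 5) (nat_lit 85) (nat_lit 5) (nat_lit 504) (nat_lit 411) (nat_lit 285)) (XT.lf (nat_lit 0) (nat_lit 11751209210) (nat_lit 228) (nat_lit 5873850360) (nat_lit 76) (nat_lit 12420903185) (nat_lit 84) (nat_lit 5) (nat_lit 87) (nat_lit 5) (nat_lit 85) (nat_lit 5) (nat_lit 505) (nat_lit 411) (nat_lit 284))) (XT.nd (nat_lit 78) (nat_lit 76) (nat_lit 0) (XT.lf (nat_lit 0) (nat_lit 12482231390) (nat_lit 152) (nat_lit 7896747702) (nat_lit 228) (nat_lit 10266745800) (nat_lit 82) (nat_lit 5) (nat_lit 84) (nat_lit 5) (nat_lit 85) (nat_lit 5) (nat_lit 506) (nat_lit 411) (nat_lit 283)) (XT.lf (nat_lit 0) (nat_lit 206519575) (nat_lit 76) (nat_lit 29128226495) (nat_lit 152) (nat_lit 1926659333) (nat_lit 81) (nat_lit 5) (nat_lit 82) (nat_lit 5) (nat_lit 83) (nat_lit 4) (nat_lit 507) (nat_lit 411) (nat_lit 282))))) (XT.nd (nat_lit 312) (nat_lit 304) (nat_lit 0) (XT.nd (nat_lit 156) (nat_lit 152) (nat_lit 0) (XT.nd (nat_lit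 78) (nat_lit 152) (nat_lit 0) (XT.lf (nat_lit 0) (nat_lit 6783904331) (nat_lit 152) (nat_lit 12558382306) (nat_lit 76) (nat_lit 12543839274) (nat_lit 80) (nat_lit 5) (nat_lit 82) (nat_lit 5) (nat_lit 81) (nat_lit 5) (nat_lit 508) (nat_lit 411) (nat_lit 281)) (XT.lf (nat_lit 0) (nat_lit 6578783437) (nat_lit 152) (nat_lit 9188787432) (nat_lit 228) (nat_lit 16759929987) (nat_lit 78) (nat_lit 5) (nat_lit 80) (nat_lit 5) (nat_lit 81) (nat_lit 5) (nat_lit 509) (nat_lit 411) (nat_lit 280))) (XT.nd (nat_lit 78) (nat_lit 152) (nat_lit 0) (XT.lf (nat_lit 0) (nat_lit 25148333824) (nat_lit 228) (nat_lit 6673847883) (nat_lit 76) (nat_lit 1362108133) (nat_lit 78) (nat_lit 5) (nat_lit 81) (nat_lit 5) (nat_lit 79) (nat_lit 4) (nat_lit 510) (nat_lit 411) (nat_lit 279)) (XT.lf (nat_lit 0) (nat_lit 1140005153) (nat_lit 152) (nat_lit 20540330265) (nat_lit 76) (nat_lit 12173909532) (nat_lit 76) (nat_lit 5) (nat_lit 78) (nat_lit 5) (nat_lit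 77) (nat_lit 5) (nat_lit 511) (nat_lit 411) (nat_lit 278)))) (XT.nd (nat_lit 156) (nat_lit 152) (nat_lit 0) (XT.nd (nat_lit 78) (nat_lit 152) (nat_lit 0) (XT.lf (nat_lit 0) (nat_lit 10485494200) (nat_lit 152) (nat_lit 607301503) (nat_lit 76) (nat_lit 23447443528) (nat_lit 76) (nat_lit 5) (nat_lit 78) (nat_lit 5) (nat_lit 77) (nat_lit 5) (nat_lit 512) (nat_lit 411) (nat_lit 277)) (XT.lf (nat_lit 0) (nat_lit 20294551457) (nat_lit 228) (nat_lit 14943794655) (nat_lit 76) (nat_lit 2971463) (nat_lit 74) (nat_lit 5) (nat_lit 77) (nat_lit 5) (nat_lit 75) (nat_lit 4) (nat_lit 513) (nat_lit 411) (nat_lit 276))) (XT.nd (nat_lit 78) (nat_lit 76) (nat_lit 0) (XT.lf (nat_lit 0) (nat_lit 5860891996) (nat_lit 76) (nat_lit 24697449475) (nat_lit 152) (nat_lit 5400273298) (nat_lit 73) (nat_lit 5) (nat_lit 74) (nat_lit 5) (nat_lit 75) (nat_lit 4) (nat_lit 514) (nat_lit 411) (nat_lit 275)) (XT.lf (nat_lit 0) (nat_lit 4486632495) (nat_lit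 152) (nat_lit 9163254452) (nat_lit 76) (nat_lit 23042050540) (nat_lit 72) (nat_lit 5) (nat_lit 74) (nat_lit 5) (nat_lit 73) (nat_lit 5) (nat_lit 515) (nat_lit 411) (nat_lit 274))))))) (XT.nd (nat_lit 1170) (nat_lit 836) (nat_lit 0) (XT.nd (nat_lit 546) (nat_lit 684) (nat_lit 0) (XT.nd (nat_lit 234) (nat_lit 380) (nat_lit 0) (XT.nd (nat_lit 78) (nat_lit 76) (nat_lit 0) (XT.lf (nat_lit 0) (nat_lit 12569403760) (nat_lit 152) (nat_lit 2101489797) (nat_lit 228) (nat_lit 22771483944) (nat_lit 70) (nat_lit 5) (nat_lit 72) (nat_lit 5) (nat_lit 73) (nat_lit 5) (nat_lit 516) (nat_lit 411) (nat_lit 273)) (XT.nd (nat_lit 78) (nat_lit 76) (nat_lit 0) (XT.lf (nat_lit 0) (nat_lit 25336766215) (nat_lit 228) (nat_lit 3187415495) (nat_lit 76) (nat_lit 9685866786) (nat_lit 70) (nat_lit 5) (nat_lit 73) (nat_lit 5) (nat_lit 71) (nat_lit 4) (nat_lit 517) (nat_lit 411) (nat_lit 272)) (XT.lf (nat_lit 0) (nat_lit 19487113778) (nat_lit 76)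 (nat_lit 17032462156) (nat_lit 152) (nat_lit 2475265147) (nat_lit 69) (nat_lit 5) (nat_lit 70) (nat_lit 5) (nat_lit 71) (nat_lit 4) (nat_lit 518) (nat_lit 411) (nat_lit 271)))) (XT.nd (nat_lit 156) (nat_lit 152) (nat_lit 0) (XT.nd (nat_lit 78) (nat_lit 0) (nat_lit 0) (XT.lf (nat_lit 0) (nat_lit 3064256578) (nat_lit 152) (nat_lit 5060555525) (nat_lit 228) (nat_lit 31674466657) (nat_lit 66) (nat_lit 5) (nat_lit 68) (nat_lit 5) (nat_lit 69) (nat_lit 5) (nat_lit 519) (nat_lit 411) (nat_lit 270)) (XT.lf (nat_lit 0) (nat_lit 19250847108) (nat_lit 228) (nat_lit 14026095695) (nat_lit 76) (nat_lit 7342440628) (nat_lit 66) (nat_lit 5) (nat_lit 69) (nat_lit 5) (nat_lit 67) (nat_lit 4) (nat_lit 520) (nat_lit 411) (nat_lit 269))) (XT.nd (nat_lit 78) (nat_lit 76) (nat_lit 0) (XT.lf (nat_lit 0) (nat_lit 9478469135) (nat_lit 76) (nat_lit 21362612401) (nat_lit 152) (nat_lit 10619097407) (nat_lit 65) (nat_lit 5) (nat_lit 66) (nat_lit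 5) (nat_lit 67) (nat_lit 4) (nat_lit 521) (nat_lit 411) (nat_lit 268)) (XT.lf (nat_lit 0) (nat_lit 576241438) (nat_lit 152) (nat_lit 8372510364) (nat_lit 76) (nat_lit 33373348582) (nat_lit 64) (nat_lit 5) (nat_lit 66) (nat_lit 5) (nat_lit 65) (nat_lit 5) (nat_lit 522) (nat_lit 411) (nat_lit 267))))) (XT.nd (nat_lit 312) (nat_lit 228) (nat_lit 0) (XT.nd (nat_lit 156) (nat_lit 304) (nat_lit 0) (XT.nd (nat_lit 78) (nat_lit 0) (nat_lit 0) (XT.lf (nat_lit 0) (nat_lit 12078007735) (nat_lit 228) (nat_lit 27106989375) (nat_lit 76) (nat_lit 4016208385) (nat_lit 62) (nat_lit 5) (nat_lit 65) (nat_lit 5) (nat_lit 63) (nat_lit 4) (nat_lit 523) (nat_lit 411) (nat_lit 266)) (XT.lf (nat_lit 0) (nat_lit 24088365972) (nat_lit 228) (nat_lit 2746940276) (nat_lit 76) (nat_lit 17266471569) (nat_lit 62) (nat_lit 5) (nat_lit 65) (nat_lit 5) (nat_lit 63) (nat_lit 4) (nat_lit 524) (nat_lit 411) (nat_lit 265))) (XT.nd (nat_lit 78) (nat_lit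 228) (nat_lit 0) (XT.lf (nat_lit 0) (nat_lit 22768866328) (nat_lit 76) (nat_lit 13898895561) (nat_lit 152) (nat_lit 8355343830) (nat_lit 61) (nat_lit 5) (nat_lit 62) (nat_lit 5) (nat_lit 63) (nat_lit 4) (nat_lit 525) (nat_lit 411) (nat_lit 264)) (XT.lf (nat_lit 0) (nat_lit 3141779782) (nat_lit 152) (nat_lit 487498109) (nat_lit 228) (nat_lit 42340299947) (nat_lit 58) (nat_lit 5) (nat_lit 60) (nat_lit 5) (nat_lit 61) (nat_lit 5) (nat_lit 526) (nat_lit 411) (nat_lit 263)))) (XT.nd (nat_lit 156) (nat_lit 152) (nat_lit 0) (XT.nd (nat_lit 78) (nat_lit 76) (nat_lit 0) (XT.lf (nat_lit 0) (nat_lit 16150446478) (nat_lit 228) (nat_lit 17414265639) (nat_lit 76) (nat_lit 13366902148) (nat_lit 58) (nat_lit 5) (nat_lit 61) (nat_lit 5) (nat_lit 59) (nat_lit 4) (nat_lit 527) (nat_lit 411) (nat_lit 262)) (XT.lf (nat_lit 0) (nat_lit 8911932747) (nat_lit 76) (nat_lit 20215998607) (nat_lit 152) (nat_lit 18792160189) (nat_lit 57) (nat_lit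 5) (nat_lit 58) (nat_lit 5) (nat_lit 59) (nat_lit 4) (nat_lit 528) (nat_lit 411) (nat_lit 261))) (XT.nd (nat_lit 78) (nat_lit 152) (nat_lit 0) (XT.lf (nat_lit 0) (nat_lit 36366259744) (nat_lit 76) (nat_lit 6294625227) (nat_lit 152) (nat_lit 6272354030) (nat_lit 57) (nat_lit 5) (nat_lit 58) (nat_lit 5) (nat_lit 59) (nat_lit 4) (nat_lit 529) (nat_lit 411) (nat_lit 260)) (XT.lf (nat_lit 0) (nat_lit 6706574800) (nat_lit 152) (nat_lit 35174385076) (nat_lit 76) (nat_lit 8087528202) (nat_lit 55) (nat_lit 5) (nat_lit 57) (nat_lit 5) (nat_lit 56) (nat_lit 4) (nat_lit 530) (nat_lit 411) (nat_lit 259)))))) (XT.nd (nat_lit 546) (nat_lit 456) (nat_lit 0) (XT.nd (nat_lit 234) (nat_lit 304) (nat_lit 0) (XT.nd (nat_lit 78) (nat_lit 76) (nat_lit 0) (XT.lf (nat_lit 0) (nat_lit 20129787872) (nat_lit 152) (nat_lit 7941340523) (nat_lit 76) (nat_lit 22956373796) (nat_lit 55) (nat_lit 5) (nat_lit 57) (nat_lit 5) (nat_lit 56) (nat_lit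 4) (nat_lit 531) (nat_lit 411) (nat_lit 258)) (XT.nd (nat_lit 78) (nat_lit 0) (nat_lit 0) (XT.lf (nat_lit 0) (nat_lit 20490777793) (nat_lit 76) (nat_lit 13652669196) (nat_lit 152) (nat_lit 17969207416) (nat_lit 54) (nat_lit 5) (nat_lit 55) (nat_lit 5) (nat_lit 56) (nat_lit 4) (nat_lit 532) (nat_lit 411) (nat_lit 257)) (XT.lf (nat_lit 0) (nat_lit 48660818815) (nat_lit 152) (nat_lit 3319403891) (nat_lit 0) (nat_lit 1247639555) (nat_lit 54) (nat_lit 5) (nat_lit 56) (nat_lit 4) (nat_lit 54) (nat_lit 4) (nat_lit 533) (nat_lit 411) (nat_lit 256)))) (XT.nd (nat_lit 156) (nat_lit 76) (nat_lit 0) (XT.nd (nat_lit 78) (nat_lit 76) (nat_lit 0) (XT.lf (nat_lit 0) (nat_lit 9438679647) (nat_lit 152) (nat_lit 28266944654) (nat_lit 76) (nat_lit 16656786051) (nat_lit 52) (nat_lit 5) (nat_lit 54) (nat_lit 5) (nat_lit 53) (nat_lit 4) (nat_lit 534) (nat_lit 411) (nat_lit 255)) (XT.lf (nat_lit 0) (nat_lit 885286459) (nat_lit 76) (nat_lit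 22920930194) (nat_lit 152) (nat_lit 31722418776) (nat_lit 51) (nat_lit 5) (nat_lit 52) (nat_lit 5) (nat_lit 53) (nat_lit 4) (nat_lit 535) (nat_lit 411) (nat_lit 254))) (XT.nd (nat_lit 78) (nat_lit 76) (nat_lit 0) (XT.lf (nat_lit 0) (nat_lit 31474423386) (nat_lit 76) (nat_lit 7406966658) (nat_lit 152) (nat_lit 17840159051) (nat_lit 51) (nat_lit 5) (nat_lit 52) (nat_lit 5) (nat_lit 53) (nat_lit 4) (nat_lit 536) (nat_lit 411) (nat_lit 253)) (XT.lf (nat_lit 0) (nat_lit 5029945644) (nat_lit 76) (nat_lit 49500976737) (nat_lit 76) (nat_lit 3415664818) (nat_lit 50) (nat_lit 4) (nat_lit 51) (nat_lit 5) (nat_lit 51) (nat_lit 4) (nat_lit 537) (nat_lit 411) (nat_lit 252))))) (XT.nd (nat_lit 312) (nat_lit 228) (nat_lit 0) (XT.nd (nat_lit 156) (nat_lit 76) (nat_lit 0) (XT.nd (nat_lit 78) (nat_lit 76) (nat_lit 0) (XT.lf (nat_lit 0) (nat_lit 11540461924) (nat_lit 152) (nat_lit 22670496648) (nat_lit 76) (nat_lit 24984453594) (nat_lit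 49) (nat_lit 5) (nat_lit 51) (nat_lit 5) (nat_lit 50) (nat_lit 4) (nat_lit 538) (nat_lit 411) (nat_lit 251)) (XT.lf (nat_lit 0) (nat_lit 8600739512) (nat_lit 76) (nat_lit 18350165608) (nat_lit 152) (nat_lit 33527553810) (nat_lit 48) (nat_lit 5) (nat_lit 49) (nat_lit 5) (nat_lit 50) (nat_lit 4) (nat_lit 539) (nat_lit 411) (nat_lit 250))) (XT.nd (nat_lit 78) (nat_lit 76) (nat_lit 0) (XT.lf (nat_lit 0) (nat_lit 41258689538) (nat_lit 76) (nat_lit 1785597406) (nat_lit 152) (nat_lit 18749091519) (nat_lit 48) (nat_lit 5) (nat_lit 49) (nat_lit 5) (nat_lit 50) (nat_lit 4) (nat_lit 540) (nat_lit 411) (nat_lit 249)) (XT.lf (nat_lit 0) (nat_lit 11816529536) (nat_lit 76) (nat_lit 48056236144) (nat_lit 76) (nat_lit 3267411160) (nat_lit 47) (nat_lit 4) (nat_lit 48) (nat_lit 5) (nat_lit 48) (nat_lit 4) (nat_lit 541) (nat_lit 411) (nat_lit 248)))) (XT.nd (nat_lit 156) (nat_lit 76) (nat_lit 0) (XT.nd (nat_lit 78) (nat_lit 76) (nat_lit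 0) (XT.lf (nat_lit 0) (nat_lit 12650277138) (nat_lit 152) (nat_lit 19119391834) (nat_lit 76) (nat_lit 32747485091) (nat_lit 46) (nat_lit 5) (nat_lit 48) (nat_lit 5) (nat_lit 47) (nat_lit 4) (nat_lit 542) (nat_lit 411) (nat_lit 247)) (XT.lf (nat_lit 0) (nat_lit 14281943383) (nat_lit 76) (nat_lit 14827277135) (nat_lit 152) (nat_lit 36821367792) (nat_lit 45) (nat_lit 5) (nat_lit 46) (nat_lit 5) (nat_lit 47) (nat_lit 4) (nat_lit 543) (nat_lit 411) (nat_lit 246))) (XT.nd (nat_lit 78) (nat_lit 76) (nat_lit 0) (XT.lf (nat_lit 0) (nat_lit 46274251026) (nat_lit 152) (nat_lit 18345916733) (nat_lit 0) (nat_lit 2759888369) (nat_lit 45) (nat_lit 5) (nat_lit 47) (nat_lit 4) (nat_lit 45) (nat_lit 4) (nat_lit 544) (nat_lit 411) (nat_lit 245)) (XT.lf (nat_lit 0) (nat_lit 16108469956) (nat_lit 76) (nat_lit 48139762454) (nat_lit 76) (nat_lit 4615955676) (nat_lit 44) (nat_lit 4) (nat_lit 45) (nat_lit 5) (nat_lit 45) (nat_lit 4) (nat_lit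 545) (nat_lit 411) (nat_lit 244))))))))
noncomputable def xc125 : XT := (XT.nd (nat_lit 53976) (nat_lit 0) (nat_lit 9044) (XT.nd (nat_lit 52806) (nat_lit 0) (nat_lit 17936) (XT.nd (nat_lit 52182) (nat_lit 0) (nat_lit 24092) (XT.nd (nat_lit 234) (nat_lit 152) (nat_lit 0) (XT.nd (nat_lit 78) (nat_lit 76) (nat_lit 0) (XT.lf (nat_lit 0) (nat_lit 12306681727) (nat_lit 152) (nat_lit 18550411920) (nat_lit 76) (nat_lit 39526800174) (nat_lit 43) (nat_lit 5) (nat_lit 45) (nat_lit 5) (nat_lit 44) (nat_lit 4) (nat_lit 546) (nat_lit 411) (nat_lit 243)) (XT.nd (nat_lit 78) (nat_lit 0) (nat_lit 0) (XT.lf (nat_lit 0) (nat_lit 16951615176) (nat_lit 76) (nat_lit 12848135066) (nat_lit 152) (nat_lit 42143403662) (nat_lit 42) (nat_lit 5) (nat_lit 43) (nat_lit 5) (nat_lit 44) (nat_lit 4) (nat_lit 547) (nat_lit 411) (nat_lit 242)) (XT.lf (nat_lit 0) (nat_lit 48054179771) (nat_lit 152) (nat_lit 19715794032) (nat_lit 0) (nat_lit 5772121010)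 (nat_lit 42) (nat_lit 5) (nat_lit 44) (nat_lit 4) (nat_lit 42) (nat_lit 4) (nat_lit 548) (nat_lit 411) (nat_lit 241)))) (XT.nd (nat_lit 51792) (nat_lit 0) (nat_lit 25612) (XT.nd (nat_lit 78) (nat_lit 76) (nat_lit 0) (XT.lf (nat_lit 0) (nat_lit 16804826536) (nat_lit 76) (nat_lit 50332968136) (nat_lit 76) (nat_lit 8042762794) (nat_lit 41) (nat_lit 4) (nat_lit 42) (nat_lit 5) (nat_lit 42) (nat_lit 4) (nat_lit 549) (nat_lit 411) (nat_lit 240)) (XT.lf (nat_lit 0) (nat_lit 9925928701) (nat_lit 152) (nat_lit 22148479380) (nat_lit 76) (nat_lit 44785087481) (nat_lit 40) (nat_lit 5) (nat_lit 42) (nat_lit 5) (nat_lit 41) (nat_lit 4) (nat_lit 550) (nat_lit 411) (nat_lit 239))) (XT.nd (nat_lit 78) (nat_lit 836) (nat_lit 0) (XT.lf (nat_lit 0) (nat_lit 1537119022) (nat_lit 0) (nat_lit 1537119022) (nat_lit 684) (nat_lit 451928671) (nat_lit 388) (nat_lit 5) (nat_lit 388) (nat_lit 3) (nat_lit 397) (nat_lit 3) (nat_lit 412) (nat_lit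 412) (nat_lit 376)) (XT.lf (nat_lit 0) (nat_lit 871469972) (nat_lit 836) (nat_lit 478592423) (nat_lit 836) (nat_lit 5754869564) (nat_lit 377) (nat_lit 3) (nat_lit 388) (nat_lit 3) (nat_lit 388) (nat_lit 5) (nat_lit 413) (nat_lit 412) (nat_lit 375))))) (XT.nd (nat_lit 312) (nat_lit 760) (nat_lit 0) (XT.nd (nat_lit 156) (nat_lit 836) (nat_lit 0) (XT.nd (nat_lit 78) (nat_lit 0) (nat_lit 0) (XT.lf (nat_lit 0) (nat_lit 2647786514) (nat_lit 760) (nat_lit 4022152955) (nat_lit 836) (nat_lit 489936168) (nat_lit 378) (nat_lit 5) (nat_lit 388) (nat_lit 5) (nat_lit 389) (nat_lit 5) (nat_lit 414) (nat_lit 412) (nat_lit 374)) (XT.lf (nat_lit 0) (nat_lit 4428507350) (nat_lit 760) (nat_lit 394996658) (nat_lit 836) (nat_lit 2394442358) (nat_lit 378) (nat_lit 5) (nat_lit 388) (nat_lit 5) (nat_lit 389) (nat_lit 5) (nat_lit 415) (nat_lit 412) (nat_lit 373))) (XT.nd (nat_lit 78) (nat_lit 836) (nat_lit 0) (XT.lf (nat_lit 76) (nat_lit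 3370237735) (nat_lit 0) (nat_lit 2859631336) (nat_lit 836) (nat_lit 1048885395) (nat_lit 379) (nat_lit 5) (nat_lit 378) (nat_lit 5) (nat_lit 389) (nat_lit 5) (nat_lit 416) (nat_lit 412) (nat_lit 372)) (XT.lf (nat_lit 0) (nat_lit 669129328) (nat_lit 836) (nat_lit 129365523) (nat_lit 912) (nat_lit 6544495777) (nat_lit 367) (nat_lit 5) (nat_lit 378) (nat_lit 5) (nat_lit 379) (nat_lit 5) (nat_lit 417) (nat_lit 412) (nat_lit 371)))) (XT.nd (nat_lit 156) (nat_lit 836) (nat_lit 0) (XT.nd (nat_lit 78) (nat_lit 0) (nat_lit 0) (XT.lf (nat_lit 0) (nat_lit 2405088263) (nat_lit 836) (nat_lit 3632682232) (nat_lit 912) (nat_lit 1371458094) (nat_lit 368) (nat_lit 5) (nat_lit 379) (nat_lit 5) (nat_lit 380) (nat_lit 5) (nat_lit 418) (nat_lit 412) (nat_lit 370)) (XT.lf (nat_lit 76) (nat_lit 284438837) (nat_lit 0) (nat_lit 3859961678) (nat_lit 912) (nat_lit 3334525447) (nat_lit 369) (nat_lit 5) (nat_lit 368) (nat_lit 5) (nat_lit 380)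 (nat_lit 5) (nat_lit 419) (nat_lit 412) (nat_lit 369))) (XT.nd (nat_lit 78) (nat_lit 836) (nat_lit 0) (XT.lf (nat_lit 76) (nat_lit 4355847430) (nat_lit 0) (nat_lit 1557448057) (nat_lit 912) (nat_lit 1638106873) (nat_lit 369) (nat_lit 5) (nat_lit 368) (nat_lit 5) (nat_lit 380) (nat_lit 5) (nat_lit 420) (nat_lit 412) (nat_lit 368)) (XT.lf (nat_lit 0) (nat_lit 65730720) (nat_lit 912) (nat_lit 6733494896) (nat_lit 988) (nat_lit 828045836) (nat_lit 357) (nat_lit 5) (nat_lit 369) (nat_lit 5) (nat_lit 370) (nat_lit 5) (nat_lit 421) (nat_lit 412) (nat_lit 367)))))) (XT.nd (nat_lit 546) (nat_lit 4332) (nat_lit 0) (XT.nd (nat_lit 234) (nat_lit 1824) (nat_lit 0) (XT.nd (nat_lit 78) (nat_lit 0) (nat_lit 0) (XT.lf (nat_lit 0) (nat_lit 1779155470) (nat_lit 912) (nat_lit 2604404386) (nat_lit 988) (nat_lit 3321637642) (nat_lit 357) (nat_lit 5) (nat_lit 369) (nat_lit 5) (nat_lit 370) (nat_lit 5) (nat_lit 422) (nat_lit 412) (nat_lit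 366)) (XT.nd (nat_lit 78) (nat_lit 0) (nat_lit 76) (XT.lf (nat_lit 76) (nat_lit 1642462682) (nat_lit 0) (nat_lit 1862345282) (nat_lit 988) (nat_lit 4281837676) (nat_lit 358) (nat_lit 5) (nat_lit 357) (nat_lit 5) (nat_lit 370) (nat_lit 5) (nat_lit 423) (nat_lit 412) (nat_lit 365)) (XT.lf (nat_lit 0) (nat_lit 5262278098) (nat_lit 912) (nat_lit 1846492107) (nat_lit 988) (nat_lit 762374382) (nat_lit 358) (nat_lit 5) (nat_lit 370) (nat_lit 5) (nat_lit 371) (nat_lit 5) (nat_lit 424) (nat_lit 412) (nat_lit 364)))) (XT.nd (nat_lit 156) (nat_lit 912) (nat_lit 0) (XT.nd (nat_lit 78) (nat_lit 988) (nat_lit 0) (XT.lf (nat_lit 76) (nat_lit 2573514326) (nat_lit 0) (nat_lit 4490123398) (nat_lit 988) (nat_lit 894814362) (nat_lit 359) (nat_lit 5) (nat_lit 358) (nat_lit 5) (nat_lit 371) (nat_lit 5) (nat_lit 425) (nat_lit 412) (nat_lit 363)) (XT.lf (nat_lit 0) (nat_lit 821126058) (nat_lit 988) (nat_lit 931449821) (nat_lit 1064) (nat_lit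 6296536212) (nat_lit 345) (nat_lit 5) (nat_lit 358) (nat_lit 5) (nat_lit 359) (nat_lit 5) (nat_lit 426) (nat_lit 412) (nat_lit 362))) (XT.nd (nat_lit 78) (nat_lit 988) (nat_lit 0) (XT.lf (nat_lit 0) (nat_lit 2566873759) (nat_lit 988) (nat_lit 4472784010) (nat_lit 76) (nat_lit 1102686743) (nat_lit 346) (nat_lit 5) (nat_lit 359) (nat_lit 5) (nat_lit 347) (nat_lit 5) (nat_lit 427) (nat_lit 412) (nat_lit 361)) (XT.lf (nat_lit 0) (nat_lit 135686632) (nat_lit 988) (nat_lit 4208784945) (nat_lit 1064) (nat_lit 3894525591) (nat_lit 333) (nat_lit 5) (nat_lit 346) (nat_lit 5) (nat_lit 347) (nat_lit 5) (nat_lit 428) (nat_lit 412) (nat_lit 360))))) (XT.nd (nat_lit 312) (nat_lit 2052) (nat_lit 0) (XT.nd (nat_lit 156) (nat_lit 1216) (nat_lit 0) (XT.nd (nat_lit 78) (nat_lit 1064) (nat_lit 0) (XT.lf (nat_lit 0) (nat_lit 4935363648) (nat_lit 988) (nat_lit 1237567682) (nat_lit 1064) (nat_lit 2165699424) (nat_lit 333) (nat_lit 5) (nat_lit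 346) (nat_lit 5) (nat_lit 347) (nat_lit 5) (nat_lit 429) (nat_lit 412) (nat_lit 359)) (XT.lf (nat_lit 0) (nat_lit 1408659150) (nat_lit 1064) (nat_lit 6632486390) (nat_lit 1140) (nat_lit 400567945) (nat_lit 319) (nat_lit 5) (nat_lit 333) (nat_lit 5) (nat_lit 334) (nat_lit 5) (nat_lit 430) (nat_lit 412) (nat_lit 358))) (XT.nd (nat_lit 78) (nat_lit 1140) (nat_lit 0) (XT.lf (nat_lit 0) (nat_lit 1391172639) (nat_lit 1140) (nat_lit 2177987040) (nat_lit 76) (nat_lit 4978287502) (nat_lit 318) (nat_lit 5) (nat_lit 333) (nat_lit 5) (nat_lit 319) (nat_lit 5) (nat_lit 431) (nat_lit 412) (nat_lit 357)) (XT.lf (nat_lit 0) (nat_lit 2835636914) (nat_lit 1140) (nat_lit 375921115) (nat_lit 1216) (nat_lit 5445194119) (nat_lit 303) (nat_lit 5) (nat_lit 318) (nat_lit 5) (nat_lit 319) (nat_lit 5) (nat_lit 432) (nat_lit 412) (nat_lit 356)))) (XT.nd (nat_lit 156) (nat_lit 836) (nat_lit 0) (XT.nd (nat_lit 78) (nat_lit 1216) (nat_lit 0)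 (XT.lf (nat_lit 0) (nat_lit 5093430094) (nat_lit 1216) (nat_lit 792025449) (nat_lit 76) (nat_lit 2883680826) (nat_lit 303) (nat_lit 5) (nat_lit 319) (nat_lit 5) (nat_lit 304) (nat_lit 5) (nat_lit 433) (nat_lit 412) (nat_lit 355)) (XT.lf (nat_lit 0) (nat_lit 4432411450) (nat_lit 1216) (nat_lit 2603599522) (nat_lit 1292) (nat_lit 1848759739) (nat_lit 287) (nat_lit 5) (nat_lit 303) (nat_lit 5) (nat_lit 304) (nat_lit 5) (nat_lit 434) (nat_lit 412) (nat_lit 354))) (XT.nd (nat_lit 78) (nat_lit 0) (nat_lit 0) (XT.lf (nat_lit 0) (nat_lit 14168472) (nat_lit 836) (nat_lit 8209603443) (nat_lit 76) (nat_lit 780643957) (nat_lit 276) (nat_lit 5) (nat_lit 287) (nat_lit 5) (nat_lit 277) (nat_lit 5) (nat_lit 435) (nat_lit 412) (nat_lit 353)) (XT.lf (nat_lit 0) (nat_lit 1926247220) (nat_lit 836) (nat_lit 2919788449) (nat_lit 76) (nat_lit 4280158605) (nat_lit 276) (nat_lit 5) (nat_lit 287) (nat_lit 5) (nat_lit 277) (nat_lit 5) (nat_lit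 436) (nat_lit 412) (nat_lit 352))))))) (XT.nd (nat_lit 1170) (nat_lit 3952) (nat_lit 0) (XT.nd (nat_lit 546) (nat_lit 2584) (nat_lit 0) (XT.nd (nat_lit 234) (nat_lit 1140) (nat_lit 0) (XT.nd (nat_lit 78) (nat_lit 608) (nat_lit 0) (XT.lf (nat_lit 0) (nat_lit 2539808782) (nat_lit 608) (nat_lit 1340718471) (nat_lit 684) (nat_lit 5371559092) (nat_lit 268) (nat_lit 5) (nat_lit 276) (nat_lit 5) (nat_lit 277) (nat_lit 5) (nat_lit 437) (nat_lit 412) (nat_lit 351)) (XT.nd (nat_lit 78) (nat_lit 608) (nat_lit 0) (XT.lf (nat_lit 0) (nat_lit 5906247919) (nat_lit 684) (nat_lit 1219205643) (nat_lit 76) (nat_lit 2255922574) (nat_lit 268) (nat_lit 5) (nat_lit 277) (nat_lit 5) (nat_lit 269) (nat_lit 5) (nat_lit 438) (nat_lit 412) (nat_lit 350)) (XT.lf (nat_lit 0) (nat_lit 4474571335) (nat_lit 608) (nat_lit 3536803068) (nat_lit 684) (nat_lit 1502616362) (nat_lit 260) (nat_lit 5) (nat_lit 268) (nat_lit 5) (nat_lit 269) (nat_lit 5)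 (nat_lit 439) (nat_lit 412) (nat_lit 349)))) (XT.nd (nat_lit 156) (nat_lit 532) (nat_lit 0) (XT.nd (nat_lit 78) (nat_lit 0) (nat_lit 0) (XT.lf (nat_lit 0) (nat_lit 502222047) (nat_lit 608) (nat_lit 8969174771) (nat_lit 76) (nat_lit 179535057) (nat_lit 252) (nat_lit 5) (nat_lit 260) (nat_lit 5) (nat_lit 253) (nat_lit 5) (nat_lit 440) (nat_lit 412) (nat_lit 348)) (XT.lf (nat_lit 0) (nat_lit 2586829904) (nat_lit 608) (nat_lit 3202191852) (nat_lit 76) (nat_lit 4001023110) (nat_lit 252) (nat_lit 5) (nat_lit 260) (nat_lit 5) (nat_lit 253) (nat_lit 5) (nat_lit 441) (nat_lit 412) (nat_lit 347))) (XT.nd (nat_lit 78) (nat_lit 0) (nat_lit 0) (XT.lf (nat_lit 0) (nat_lit 2753462277) (nat_lit 532) (nat_lit 1971462697) (nat_lit 608) (nat_lit 5208682397) (nat_lit 245) (nat_lit 5) (nat_lit 252) (nat_lit 5) (nat_lit 253) (nat_lit 5) (nat_lit 442) (nat_lit 412) (nat_lit 346)) (XT.lf (nat_lit 0) (nat_lit 6943791443) (nat_lit 608) (nat_lit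 1184963226) (nat_lit 76) (nat_lit 1952227686) (nat_lit 245) (nat_lit 5) (nat_lit 253) (nat_lit 5) (nat_lit 246) (nat_lit 5) (nat_lit 443) (nat_lit 412) (nat_lit 345))))) (XT.nd (nat_lit 312) (nat_lit 988) (nat_lit 0) (XT.nd (nat_lit 156) (nat_lit 456) (nat_lit 0) (XT.nd (nat_lit 78) (nat_lit 608) (nat_lit 0) (XT.lf (nat_lit 0) (nat_lit 5031140524) (nat_lit 532) (nat_lit 4232106788) (nat_lit 608) (nat_lit 968514902) (nat_lit 238) (nat_lit 5) (nat_lit 245) (nat_lit 5) (nat_lit 246) (nat_lit 5) (nat_lit 444) (nat_lit 412) (nat_lit 344)) (XT.lf (nat_lit 0) (nat_lit 1041460217) (nat_lit 532) (nat_lit 187604389) (nat_lit 608) (nat_lit 9157984116) (nat_lit 230) (nat_lit 5) (nat_lit 237) (nat_lit 5) (nat_lit 238) (nat_lit 5) (nat_lit 445) (nat_lit 412) (nat_lit 343))) (XT.nd (nat_lit 78) (nat_lit 456) (nat_lit 0) (XT.lf (nat_lit 0) (nat_lit 3531392284) (nat_lit 608) (nat_lit 3054826747) (nat_lit 76) (nat_lit 3958742469)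 (nat_lit 230) (nat_lit 5) (nat_lit 238) (nat_lit 5) (nat_lit 231) (nat_lit 5) (nat_lit 446) (nat_lit 412) (nat_lit 342)) (XT.lf (nat_lit 0) (nat_lit 3452827784) (nat_lit 456) (nat_lit 2452980768) (nat_lit 532) (nat_lit 4801716393) (nat_lit 224) (nat_lit 5) (nat_lit 230) (nat_lit 5) (nat_lit 231) (nat_lit 5) (nat_lit 447) (nat_lit 412) (nat_lit 341)))) (XT.nd (nat_lit 156) (nat_lit 532) (nat_lit 0) (XT.nd (nat_lit 78) (nat_lit 456) (nat_lit 0) (XT.lf (nat_lit 0) (nat_lit 8368448909) (nat_lit 532) (nat_lit 711233643) (nat_lit 76) (nat_lit 1794776730) (nat_lit 224) (nat_lit 5) (nat_lit 231) (nat_lit 5) (nat_lit 225) (nat_lit 5) (nat_lit 448) (nat_lit 412) (nat_lit 340)) (XT.lf (nat_lit 0) (nat_lit 6086236813) (nat_lit 456) (nat_lit 4870935674) (nat_lit 532) (nat_lit 87666668) (nat_lit 218) (nat_lit 5) (nat_lit 224) (nat_lit 5) (nat_lit 225) (nat_lit 5) (nat_lit 449) (nat_lit 412) (nat_lit 339))) (XT.nd (nat_lit 78)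 (nat_lit 0) (nat_lit 0) (XT.lf (nat_lit 0) (nat_lit 1858161748) (nat_lit 456) (nat_lit 492937305) (nat_lit 532) (nat_lit 8868698729) (nat_lit 211) (nat_lit 5) (nat_lit 217) (nat_lit 5) (nat_lit 218) (nat_lit 5) (nat_lit 450) (nat_lit 412) (nat_lit 338)) (XT.lf (nat_lit 0) (nat_lit 4920559885) (nat_lit 532) (nat_lit 2494889979) (nat_lit 76) (nat_lit 3982753759) (nat_lit 211) (nat_lit 5) (nat_lit 218) (nat_lit 5) (nat_lit 212) (nat_lit 5) (nat_lit 451) (nat_lit 412) (nat_lit 337)))))) (XT.nd (nat_lit 624) (nat_lit 1748) (nat_lit 0) (XT.nd (nat_lit 312) (nat_lit 836) (nat_lit 0) (XT.nd (nat_lit 156) (nat_lit 532) (nat_lit 0) (XT.nd (nat_lit 78) (nat_lit 380) (nat_lit 0) (XT.lf (nat_lit 0) (nat_lit 4626866300) (nat_lit 456) (nat_lit 2960583546) (nat_lit 532) (nat_lit 3993904655) (nat_lit 205) (nat_lit 5) (nat_lit 211) (nat_lit 5) (nat_lit 212) (nat_lit 5) (nat_lit 452) (nat_lit 412) (nat_lit 336)) (XT.lf (nat_lit 0)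 (nat_lit 195258353) (nat_lit 380) (nat_lit 10153471324) (nat_lit 456) (nat_lit 1420841863) (nat_lit 200) (nat_lit 5) (nat_lit 205) (nat_lit 5) (nat_lit 206) (nat_lit 5) (nat_lit 453) (nat_lit 412) (nat_lit 335))) (XT.nd (nat_lit 78) (nat_lit 456) (nat_lit 0) (XT.lf (nat_lit 0) (nat_lit 1277272713) (nat_lit 456) (nat_lit 4338131201) (nat_lit 76) (nat_lit 6345524082) (nat_lit 199) (nat_lit 5) (nat_lit 205) (nat_lit 5) (nat_lit 200) (nat_lit 5) (nat_lit 454) (nat_lit 412) (nat_lit 334)) (XT.lf (nat_lit 0) (nat_lit 3126114411) (nat_lit 456) (nat_lit 904151116) (nat_lit 532) (nat_lit 8127265679) (nat_lit 193) (nat_lit 5) (nat_lit 199) (nat_lit 5) (nat_lit 200) (nat_lit 5) (nat_lit 455) (nat_lit 412) (nat_lit 333)))) (XT.nd (nat_lit 156) (nat_lit 456) (nat_lit 0) (XT.nd (nat_lit 78) (nat_lit 380) (nat_lit 0) (XT.lf (nat_lit 0) (nat_lit 6920864129) (nat_lit 532) (nat_lit 1530229299) (nat_lit 76) (nat_lit 3907291385) (nat_lit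 193) (nat_lit 5) (nat_lit 200) (nat_lit 5) (nat_lit 194) (nat_lit 5) (nat_lit 456) (nat_lit 412) (nat_lit 332)) (XT.lf (nat_lit 0) (nat_lit 6274195070) (nat_lit 380) (nat_lit 3666861476) (nat_lit 456) (nat_lit 2622923903) (nat_lit 188) (nat_lit 5) (nat_lit 193) (nat_lit 5) (nat_lit 194) (nat_lit 5) (nat_lit 457) (nat_lit 412) (nat_lit 331))) (XT.nd (nat_lit 78) (nat_lit 0) (nat_lit 0) (XT.lf (nat_lit 0) (nat_lit 287480533) (nat_lit 456) (nat_lit 11226858991) (nat_lit 76) (nat_lit 1260824619) (nat_lit 182) (nat_lit 5) (nat_lit 188) (nat_lit 5) (nat_lit 183) (nat_lit 5) (nat_lit 458) (nat_lit 412) (nat_lit 330)) (XT.lf (nat_lit 0) (nat_lit 3307049961) (nat_lit 456) (nat_lit 3339005224) (nat_lit 76) (nat_lit 6343614416) (nat_lit 182) (nat_lit 5) (nat_lit 188) (nat_lit 5) (nat_lit 183) (nat_lit 5) (nat_lit 459) (nat_lit 412) (nat_lit 329))))) (XT.nd (nat_lit 312) (nat_lit 684) (nat_lit 0) (XT.nd (nat_lit 156) (nat_lit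 760) (nat_lit 0) (XT.nd (nat_lit 78) (nat_lit 0) (nat_lit 0) (XT.lf (nat_lit 0) (nat_lit 4845279430) (nat_lit 304) (nat_lit 1593378673) (nat_lit 380) (nat_lit 6771310968) (nat_lit 178) (nat_lit 5) (nat_lit 182) (nat_lit 5) (nat_lit 183) (nat_lit 5) (nat_lit 460) (nat_lit 412) (nat_lit 328)) (XT.lf (nat_lit 0) (nat_lit 9708159373) (nat_lit 380) (nat_lit 162434587) (nat_lit 76) (nat_lit 3564967545) (nat_lit 178) (nat_lit 5) (nat_lit 183) (nat_lit 5) (nat_lit 179) (nat_lit 5) (nat_lit 461) (nat_lit 412) (nat_lit 327))) (XT.nd (nat_lit 78) (nat_lit 380) (nat_lit 0) (XT.lf (nat_lit 0) (nat_lit 8399983562) (nat_lit 380) (nat_lit 4748190403) (nat_lit 456) (nat_lit 517577159) (nat_lit 173) (nat_lit 5) (nat_lit 178) (nat_lit 5) (nat_lit 179) (nat_lit 5) (nat_lit 462) (nat_lit 412) (nat_lit 326)) (XT.lf (nat_lit 0) (nat_lit 2749354902) (nat_lit 380) (nat_lit 10583674642) (nat_lit 76) (nat_lit 568558056) (nat_lit 168) (nat_lit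 5) (nat_lit 173) (nat_lit 5) (nat_lit 169) (nat_lit 5) (nat_lit 463) (nat_lit 412) (nat_lit 325)))) (XT.nd (nat_lit 156) (nat_lit 380) (nat_lit 0) (XT.nd (nat_lit 78) (nat_lit 304) (nat_lit 0) (XT.lf (nat_lit 0) (nat_lit 6180925071) (nat_lit 380) (nat_lit 1962982894) (nat_lit 76) (nat_lit 5998128550) (nat_lit 168) (nat_lit 5) (nat_lit 173) (nat_lit 5) (nat_lit 169) (nat_lit 5) (nat_lit 464) (nat_lit 412) (nat_lit 324)) (XT.lf (nat_lit 0) (nat_lit 7019852877) (nat_lit 304) (nat_lit 2740079021) (nat_lit 380) (nat_lit 4628434322) (nat_lit 164) (nat_lit 5) (nat_lit 168) (nat_lit 5) (nat_lit 169) (nat_lit 5) (nat_lit 465) (nat_lit 412) (nat_lit 323))) (XT.nd (nat_lit 78) (nat_lit 76) (nat_lit 0) (XT.lf (nat_lit 0) (nat_lit 1641889223) (nat_lit 304) (nat_lit 11844645719) (nat_lit 380) (nat_lit 1154346042) (nat_lit 160) (nat_lit 5) (nat_lit 164) (nat_lit 5) (nat_lit 165) (nat_lit 5) (nat_lit 466) (nat_lit 412) (nat_lit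 322)) (XT.lf (nat_lit 0) (nat_lit 2456316844) (nat_lit 380) (nat_lit 3910087727) (nat_lit 76) (nat_lit 8531479870) (nat_lit 159) (nat_lit 5) (nat_lit 164) (nat_lit 5) (nat_lit 160) (nat_lit 5) (nat_lit 467) (nat_lit 412) (nat_lit 321))))))))
noncomputable def xc126 : XT := (XT.nd (nat_lit 2340) (nat_lit 2964) (nat_lit 0) (XT.nd (nat_lit 1170) (nat_lit 1900) (nat_lit 0) (XT.nd (nat_lit 546) (nat_lit 1292) (nat_lit 0) (XT.nd (nat_lit 234) (nat_lit 912) (nat_lit 0) (XT.nd (nat_lit 78) (nat_lit 304) (nat_lit 0) (XT.lf (nat_lit 0) (nat_lit 5514820609) (nat_lit 304) (nat_lit 668327006) (nat_lit 380) (nat_lit 8978177819) (nat_lit 155) (nat_lit 5) (nat_lit 159) (nat_lit 5) (nat_lit 160) (nat_lit 5) (nat_lit 468) (nat_lit 412) (nat_lit 320)) (XT.nd (nat_lit 78) (nat_lit 304) (nat_lit 0) (XT.lf (nat_lit 0) (nat_lit 10089910436) (nat_lit 380) (nat_lit 212310889) (nat_lit 76) (nat_lit 5128406250) (nat_lit 155) (nat_lit 5) (nat_lit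 160) (nat_lit 5) (nat_lit 156) (nat_lit 5) (nat_lit 469) (nat_lit 412) (nat_lit 319)) (XT.lf (nat_lit 0) (nat_lit 9654578884) (nat_lit 304) (nat_lit 4537613018) (nat_lit 380) (nat_lit 1513469089) (nat_lit 151) (nat_lit 5) (nat_lit 155) (nat_lit 5) (nat_lit 156) (nat_lit 5) (nat_lit 470) (nat_lit 412) (nat_lit 318)))) (XT.nd (nat_lit 156) (nat_lit 532) (nat_lit 0) (XT.nd (nat_lit 78) (nat_lit 0) (nat_lit 0) (XT.lf (nat_lit 0) (nat_lit 2413366990) (nat_lit 380) (nat_lit 12149125663) (nat_lit 76) (nat_lit 1424789146) (nat_lit 146) (nat_lit 5) (nat_lit 151) (nat_lit 5) (nat_lit 147) (nat_lit 5) (nat_lit 471) (nat_lit 412) (nat_lit 317)) (XT.lf (nat_lit 0) (nat_lit 6513416965) (nat_lit 380) (nat_lit 2220334456) (nat_lit 76) (nat_lit 7540576965) (nat_lit 146) (nat_lit 5) (nat_lit 151) (nat_lit 5) (nat_lit 147) (nat_lit 5) (nat_lit 472) (nat_lit 412) (nat_lit 316))) (XT.nd (nat_lit 78) (nat_lit 304) (nat_lit 0) (XT.lf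 (nat_lit 0) (nat_lit 8133567304) (nat_lit 228) (nat_lit 2660884140) (nat_lit 304) (nat_lit 5773796929) (nat_lit 143) (nat_lit 5) (nat_lit 146) (nat_lit 5) (nat_lit 147) (nat_lit 5) (nat_lit 473) (nat_lit 412) (nat_lit 315)) (XT.lf (nat_lit 0) (nat_lit 1944815896) (nat_lit 304) (nat_lit 13314967133) (nat_lit 380) (nat_lit 1609528400) (nat_lit 139) (nat_lit 5) (nat_lit 143) (nat_lit 5) (nat_lit 144) (nat_lit 5) (nat_lit 474) (nat_lit 412) (nat_lit 314))))) (XT.nd (nat_lit 312) (nat_lit 760) (nat_lit 0) (XT.nd (nat_lit 156) (nat_lit 228) (nat_lit 0) (XT.nd (nat_lit 78) (nat_lit 228) (nat_lit 0) (XT.lf (nat_lit 0) (nat_lit 2719804639) (nat_lit 380) (nat_lit 4452936425) (nat_lit 76) (nat_lit 10003121127) (nat_lit 138) (nat_lit 5) (nat_lit 143) (nat_lit 5) (nat_lit 139) (nat_lit 5) (nat_lit 475) (nat_lit 412) (nat_lit 313)) (XT.lf (nat_lit 0) (nat_lit 6411123643) (nat_lit 228) (nat_lit 777816404) (nat_lit 304) (nat_lit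 10300924511) (nat_lit 135) (nat_lit 5) (nat_lit 138) (nat_lit 5) (nat_lit 139) (nat_lit 5) (nat_lit 476) (nat_lit 412) (nat_lit 312))) (XT.nd (nat_lit 78) (nat_lit 228) (nat_lit 0) (XT.lf (nat_lit 0) (nat_lit 11874205155) (nat_lit 304) (nat_lit 206812015) (nat_lit 76) (nat_lit 5729809444) (nat_lit 135) (nat_lit 5) (nat_lit 139) (nat_lit 5) (nat_lit 136) (nat_lit 5) (nat_lit 477) (nat_lit 412) (nat_lit 311)) (XT.lf (nat_lit 0) (nat_lit 11171496038) (nat_lit 228) (nat_lit 5624984922) (nat_lit 304) (nat_lit 1342044243) (nat_lit 132) (nat_lit 5) (nat_lit 135) (nat_lit 5) (nat_lit 136) (nat_lit 5) (nat_lit 478) (nat_lit 412) (nat_lit 310)))) (XT.nd (nat_lit 156) (nat_lit 456) (nat_lit 0) (XT.nd (nat_lit 78) (nat_lit 0) (nat_lit 0) (XT.lf (nat_lit 0) (nat_lit 3360976277) (nat_lit 304) (nat_lit 14041449910) (nat_lit 76) (nat_lit 1071549100) (nat_lit 128) (nat_lit 5) (nat_lit 132) (nat_lit 5) (nat_lit 129) (nat_lit 5) (nat_lit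 479) (nat_lit 412) (nat_lit 309)) (XT.lf (nat_lit 0) (nat_lit 8286436877) (nat_lit 304) (nat_lit 2600464798) (nat_lit 76) (nat_lit 7928940021) (nat_lit 128) (nat_lit 5) (nat_lit 132) (nat_lit 5) (nat_lit 129) (nat_lit 5) (nat_lit 480) (nat_lit 412) (nat_lit 308))) (XT.nd (nat_lit 78) (nat_lit 228) (nat_lit 0) (XT.lf (nat_lit 0) (nat_lit 9336528198) (nat_lit 228) (nat_lit 4094998413) (nat_lit 304) (nat_lit 5734282638) (nat_lit 125) (nat_lit 5) (nat_lit 128) (nat_lit 5) (nat_lit 129) (nat_lit 5) (nat_lit 481) (nat_lit 412) (nat_lit 307)) (XT.lf (nat_lit 0) (nat_lit 2143593611) (nat_lit 228) (nat_lit 16644630950) (nat_lit 304) (nat_lit 736334681) (nat_lit 122) (nat_lit 5) (nat_lit 125) (nat_lit 5) (nat_lit 126) (nat_lit 5) (nat_lit 482) (nat_lit 412) (nat_lit 306)))))) (XT.nd (nat_lit 546) (nat_lit 988) (nat_lit 0) (XT.nd (nat_lit 234) (nat_lit 608) (nat_lit 0) (XT.nd (nat_lit 78) (nat_lit 228) (nat_lit 0) (XT.lf (nat_lit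 0) (nat_lit 4448559060) (nat_lit 304) (nat_lit 5327488791) (nat_lit 76) (nat_lit 10113059928) (nat_lit 121) (nat_lit 5) (nat_lit 125) (nat_lit 5) (nat_lit 122) (nat_lit 5) (nat_lit 483) (nat_lit 412) (nat_lit 305)) (XT.nd (nat_lit 78) (nat_lit 0) (nat_lit 0) (XT.lf (nat_lit 0) (nat_lit 7191897977) (nat_lit 228) (nat_lit 2634259105) (nat_lit 304) (nat_lit 10436659251) (nat_lit 118) (nat_lit 5) (nat_lit 121) (nat_lit 5) (nat_lit 122) (nat_lit 5) (nat_lit 484) (nat_lit 412) (nat_lit 304)) (XT.lf (nat_lit 0) (nat_lit 15447741704) (nat_lit 304) (nat_lit 524829629) (nat_lit 76) (nat_lit 4672686011) (nat_lit 118) (nat_lit 5) (nat_lit 122) (nat_lit 5) (nat_lit 119) (nat_lit 5) (nat_lit 485) (nat_lit 412) (nat_lit 303)))) (XT.nd (nat_lit 156) (nat_lit 152) (nat_lit 0) (XT.nd (nat_lit 78) (nat_lit 228) (nat_lit 0) (XT.lf (nat_lit 0) (nat_lit 326748339) (nat_lit 228) (nat_lit 8449259410) (nat_lit 76) (nat_lit 12259152647)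 (nat_lit 115) (nat_lit 5) (nat_lit 118) (nat_lit 5) (nat_lit 116) (nat_lit 5) (nat_lit 486) (nat_lit 412) (nat_lit 302)) (XT.lf (nat_lit 0) (nat_lit 4675763551) (nat_lit 228) (nat_lit 1270300302) (nat_lit 304) (nat_lit 15488140092) (nat_lit 112) (nat_lit 5) (nat_lit 115) (nat_lit 5) (nat_lit 116) (nat_lit 5) (nat_lit 487) (nat_lit 412) (nat_lit 301))) (XT.nd (nat_lit 78) (nat_lit 152) (nat_lit 0) (XT.lf (nat_lit 0) (nat_lit 11865820658) (nat_lit 304) (nat_lit 3566047030) (nat_lit 76) (nat_lit 6409396109) (nat_lit 112) (nat_lit 5) (nat_lit 116) (nat_lit 5) (nat_lit 113) (nat_lit 5) (nat_lit 488) (nat_lit 412) (nat_lit 300)) (XT.lf (nat_lit 0) (nat_lit 10180847855) (nat_lit 152) (nat_lit 7876835030) (nat_lit 228) (nat_lit 4200018005) (nat_lit 110) (nat_lit 5) (nat_lit 112) (nat_lit 5) (nat_lit 113) (nat_lit 5) (nat_lit 489) (nat_lit 412) (nat_lit 299))))) (XT.nd (nat_lit 312) (nat_lit 532) (nat_lit 0) (XT.nd (nat_lit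 156) (nat_lit 152) (nat_lit 0) (XT.nd (nat_lit 78) (nat_lit 0) (nat_lit 0) (XT.lf (nat_lit 0) (nat_lit 1716624257) (nat_lit 228) (nat_lit 34908652) (nat_lit 304) (nat_lit 20933485113) (nat_lit 106) (nat_lit 5) (nat_lit 109) (nat_lit 5) (nat_lit 110) (nat_lit 5) (nat_lit 490) (nat_lit 412) (nat_lit 298)) (XT.lf (nat_lit 0) (nat_lit 7981890997) (nat_lit 304) (nat_lit 7097624673) (nat_lit 76) (nat_lit 8038851918) (nat_lit 106) (nat_lit 5) (nat_lit 110) (nat_lit 5) (nat_lit 107) (nat_lit 5) (nat_lit 491) (nat_lit 412) (nat_lit 297))) (XT.nd (nat_lit 78) (nat_lit 0) (nat_lit 0) (XT.lf (nat_lit 0) (nat_lit 7304766062) (nat_lit 152) (nat_lit 7149626780) (nat_lit 228) (nat_lit 9108668544) (nat_lit 104) (nat_lit 5) (nat_lit 106) (nat_lit 5) (nat_lit 107) (nat_lit 5) (nat_lit 492) (nat_lit 412) (nat_lit 296)) (XT.lf (nat_lit 0) (nat_lit 21187991922) (nat_lit 228) (nat_lit 1771502359) (nat_lit 76) (nat_lit 1059594766) (nat_lit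 104) (nat_lit 5) (nat_lit 107) (nat_lit 5) (nat_lit 105) (nat_lit 5) (nat_lit 493) (nat_lit 412) (nat_lit 295)))) (XT.nd (nat_lit 156) (nat_lit 152) (nat_lit 0) (XT.nd (nat_lit 78) (nat_lit 152) (nat_lit 0) (XT.lf (nat_lit 0) (nat_lit 3749651410) (nat_lit 228) (nat_lit 11207154957) (nat_lit 76) (nat_lit 9525370303) (nat_lit 101) (nat_lit 5) (nat_lit 104) (nat_lit 5) (nat_lit 102) (nat_lit 5) (nat_lit 494) (nat_lit 412) (nat_lit 294)) (XT.lf (nat_lit 0) (nat_lit 3871940951) (nat_lit 152) (nat_lit 6639500098) (nat_lit 228) (nat_lit 14445659978) (nat_lit 99) (nat_lit 5) (nat_lit 101) (nat_lit 5) (nat_lit 102) (nat_lit 5) (nat_lit 495) (nat_lit 412) (nat_lit 293))) (XT.nd (nat_lit 78) (nat_lit 152) (nat_lit 0) (XT.lf (nat_lit 0) (nat_lit 17594211860) (nat_lit 228) (nat_lit 5855496883) (nat_lit 76) (nat_lit 1993021183) (nat_lit 99) (nat_lit 5) (nat_lit 102) (nat_lit 5) (nat_lit 100) (nat_lit 5) (nat_lit 496) (nat_lit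 412) (nat_lit 292)) (XT.lf (nat_lit 0) (nat_lit 9933806447) (nat_lit 152) (nat_lit 15102624722) (nat_lit 228) (nat_lit 902088175) (nat_lit 97) (nat_lit 5) (nat_lit 99) (nat_lit 5) (nat_lit 100) (nat_lit 5) (nat_lit 497) (nat_lit 412) (nat_lit 291))))))) (XT.nd (nat_lit 1170) (nat_lit 1368) (nat_lit 0) (XT.nd (nat_lit 546) (nat_lit 836) (nat_lit 0) (XT.nd (nat_lit 234) (nat_lit 380) (nat_lit 0) (XT.nd (nat_lit 78) (nat_lit 304) (nat_lit 0) (XT.lf (nat_lit 0) (nat_lit 6176207612) (nat_lit 228) (nat_lit 216669931) (nat_lit 76) (nat_lit 20053137739) (nat_lit 96) (nat_lit 5) (nat_lit 99) (nat_lit 5) (nat_lit 97) (nat_lit 5) (nat_lit 498) (nat_lit 412) (nat_lit 290)) (XT.nd (nat_lit 78) (nat_lit 152) (nat_lit 0) (XT.lf (nat_lit 0) (nat_lit 13618203641) (nat_lit 228) (nat_lit 10660405650) (nat_lit 76) (nat_lit 2684774949) (nat_lit 94) (nat_lit 5) (nat_lit 97) (nat_lit 5) (nat_lit 95) (nat_lit 5) (nat_lit 499) (nat_lit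 412) (nat_lit 289)) (XT.lf (nat_lit 0) (nat_lit 5852620856) (nat_lit 152) (nat_lit 15538853620) (nat_lit 228) (nat_lit 6101559891) (nat_lit 92) (nat_lit 5) (nat_lit 94) (nat_lit 5) (nat_lit 95) (nat_lit 5) (nat_lit 500) (nat_lit 412) (nat_lit 288)))) (XT.nd (nat_lit 156) (nat_lit 152) (nat_lit 0) (XT.nd (nat_lit 78) (nat_lit 152) (nat_lit 0) (XT.lf (nat_lit 0) (nat_lit 1427838992) (nat_lit 228) (nat_lit 4994659493) (nat_lit 76) (nat_lit 21612834142) (nat_lit 91) (nat_lit 5) (nat_lit 94) (nat_lit 5) (nat_lit 92) (nat_lit 5) (nat_lit 501) (nat_lit 412) (nat_lit 287)) (XT.lf (nat_lit 0) (nat_lit 9195649630) (nat_lit 228) (nat_lit 16312963114) (nat_lit 76) (nat_lit 3079420294) (nat_lit 89) (nat_lit 5) (nat_lit 92) (nat_lit 5) (nat_lit 90) (nat_lit 5) (nat_lit 502) (nat_lit 412) (nat_lit 286))) (XT.nd (nat_lit 78) (nat_lit 0) (nat_lit 0) (XT.lf (nat_lit 0) (nat_lit 939637936) (nat_lit 152) (nat_lit 16367151124) (nat_lit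 228) (nat_lit 11847217053) (nat_lit 87) (nat_lit 5) (nat_lit 89) (nat_lit 5) (nat_lit 90) (nat_lit 5) (nat_lit 503) (nat_lit 412) (nat_lit 285)) (XT.lf (nat_lit 0) (nat_lit 19020368098) (nat_lit 152) (nat_lit 6792517927) (nat_lit 228) (nat_lit 3919524127) (nat_lit 87) (nat_lit 5) (nat_lit 89) (nat_lit 5) (nat_lit 90) (nat_lit 5) (nat_lit 504) (nat_lit 412) (nat_lit 284))))) (XT.nd (nat_lit 312) (nat_lit 380) (nat_lit 0) (XT.nd (nat_lit 156) (nat_lit 228) (nat_lit 0) (XT.nd (nat_lit 78) (nat_lit 0) (nat_lit 0) (XT.lf (nat_lit 0) (nat_lit 4251895003) (nat_lit 228) (nat_lit 22960265954) (nat_lit 76) (nat_lit 3112118840) (nat_lit 84) (nat_lit 5) (nat_lit 87) (nat_lit 5) (nat_lit 85) (nat_lit 5) (nat_lit 505) (nat_lit 412) (nat_lit 283)) (XT.lf (nat_lit 0) (nat_lit 12753372816) (nat_lit 228) (nat_lit 4859314821) (nat_lit 76) (nat_lit 13315143272) (nat_lit 84) (nat_lit 5) (nat_lit 87) (nat_lit 5) (nat_lit 85) (nat_lit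 5) (nat_lit 506) (nat_lit 412) (nat_lit 282))) (XT.nd (nat_lit 78) (nat_lit 76) (nat_lit 0) (XT.lf (nat_lit 0) (nat_lit 14035775352) (nat_lit 152) (nat_lit 7596613267) (nat_lit 228) (nat_lit 9913425543) (nat_lit 82) (nat_lit 5) (nat_lit 84) (nat_lit 5) (nat_lit 85) (nat_lit 5) (nat_lit 507) (nat_lit 412) (nat_lit 281)) (XT.lf (nat_lit 0) (nat_lit 1394214320) (nat_lit 76) (nat_lit 29460283349) (nat_lit 152) (nat_lit 1325537968) (nat_lit 81) (nat_lit 5) (nat_lit 82) (nat_lit 5) (nat_lit 83) (nat_lit 4) (nat_lit 508) (nat_lit 412) (nat_lit 280)))) (XT.nd (nat_lit 156) (nat_lit 152) (nat_lit 0) (XT.nd (nat_lit 78) (nat_lit 152) (nat_lit 0) (XT.lf (nat_lit 0) (nat_lit 7614667306) (nat_lit 152) (nat_lit 11775544325) (nat_lit 76) (nat_lit 13433661215) (nat_lit 80) (nat_lit 5) (nat_lit 82) (nat_lit 5) (nat_lit 81) (nat_lit 5) (nat_lit 509) (nat_lit 412) (nat_lit 279)) (XT.lf (nat_lit 0) (nat_lit 7924367865) (nat_lit 152)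 (nat_lit 8936244080) (nat_lit 228) (nat_lit 16624094618) (nat_lit 78) (nat_lit 5) (nat_lit 80) (nat_lit 5) (nat_lit 81) (nat_lit 5) (nat_lit 510) (nat_lit 412) (nat_lit 278))) (XT.nd (nat_lit 78) (nat_lit 152) (nat_lit 0) (XT.lf (nat_lit 0) (nat_lit 26509668692) (nat_lit 228) (nat_lit 5746138276) (nat_lit 76) (nat_lit 1905786673) (nat_lit 78) (nat_lit 5) (nat_lit 81) (nat_lit 5) (nat_lit 79) (nat_lit 4) (nat_lit 511) (nat_lit 412) (nat_lit 277)) (XT.lf (nat_lit 0) (nat_lit 1780107423) (nat_lit 152) (nat_lit 20027597282) (nat_lit 76) (nat_lit 13043973233) (nat_lit 76) (nat_lit 5) (nat_lit 78) (nat_lit 5) (nat_lit 77) (nat_lit 5) (nat_lit 512) (nat_lit 412) (nat_lit 276)))))) (XT.nd (nat_lit 624) (nat_lit 608) (nat_lit 0) (XT.nd (nat_lit 312) (nat_lit 456) (nat_lit 0) (XT.nd (nat_lit 156) (nat_lit 152) (nat_lit 0) (XT.nd (nat_lit 78) (nat_lit 0) (nat_lit 0) (XT.lf (nat_lit 0) (nat_lit 479905189) (nat_lit 152) (nat_lit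 10913021461) (nat_lit 228) (nat_lit 24165716937) (nat_lit 74) (nat_lit 5) (nat_lit 76) (nat_lit 5) (nat_lit 77) (nat_lit 5) (nat_lit 513) (nat_lit 412) (nat_lit 275)) (XT.lf (nat_lit 0) (nat_lit 21489784039) (nat_lit 228) (nat_lit 14294172689) (nat_lit 76) (nat_lit 496992191) (nat_lit 74) (nat_lit 5) (nat_lit 77) (nat_lit 5) (nat_lit 75) (nat_lit 4) (nat_lit 514) (nat_lit 412) (nat_lit 274))) (XT.nd (nat_lit 78) (nat_lit 76) (nat_lit 0) (XT.lf (nat_lit 0) (nat_lit 7123890485) (nat_lit 76) (nat_lit 24930968332) (nat_lit 152) (nat_lit 4965105555) (nat_lit 73) (nat_lit 5) (nat_lit 74) (nat_lit 5) (nat_lit 75) (nat_lit 4) (nat_lit 515) (nat_lit 412) (nat_lit 273)) (XT.lf (nat_lit 0) (nat_lit 5189700294) (nat_lit 152) (nat_lit 8371316989) (nat_lit 76) (nat_lit 24214609345) (nat_lit 72) (nat_lit 5) (nat_lit 74) (nat_lit 5) (nat_lit 73) (nat_lit 5) (nat_lit 516) (nat_lit 412) (nat_lit 272)))) (XT.nd (nat_lit 156) (nat_lit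 304) (nat_lit 0) (XT.nd (nat_lit 78) (nat_lit 0) (nat_lit 0) (XT.lf (nat_lit 0) (nat_lit 14002861802) (nat_lit 152) (nat_lit 1670224573) (nat_lit 228) (nat_lit 22875685986) (nat_lit 70) (nat_lit 5) (nat_lit 72) (nat_lit 5) (nat_lit 73) (nat_lit 5) (nat_lit 517) (nat_lit 412) (nat_lit 271)) (XT.lf (nat_lit 0) (nat_lit 26647177571) (nat_lit 228) (nat_lit 2245658557) (nat_lit 76) (nat_lit 10446990509) (nat_lit 70) (nat_lit 5) (nat_lit 73) (nat_lit 5) (nat_lit 71) (nat_lit 4) (nat_lit 518) (nat_lit 412) (nat_lit 270))) (XT.nd (nat_lit 78) (nat_lit 228) (nat_lit 0) (XT.lf (nat_lit 0) (nat_lit 21098936207) (nat_lit 76) (nat_lit 17060381136) (nat_lit 152) (nat_lit 1989030692) (nat_lit 69) (nat_lit 5) (nat_lit 70) (nat_lit 5) (nat_lit 71) (nat_lit 4) (nat_lit 519) (nat_lit 412) (nat_lit 269)) (XT.lf (nat_lit 0) (nat_lit 4184165739) (nat_lit 152) (nat_lit 4727821036) (nat_lit 228) (nat_lit 32064954570) (nat_lit 66) (nat_lit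 5) (nat_lit 68) (nat_lit 5) (nat_lit 69) (nat_lit 5) (nat_lit 520) (nat_lit 412) (nat_lit 268))))) (XT.nd (nat_lit 312) (nat_lit 304) (nat_lit 0) (XT.nd (nat_lit 156) (nat_lit 228) (nat_lit 0) (XT.nd (nat_lit 78) (nat_lit 76) (nat_lit 0) (XT.lf (nat_lit 0) (nat_lit 20360496900) (nat_lit 228) (nat_lit 13437519886) (nat_lit 76) (nat_lit 8023971921) (nat_lit 66) (nat_lit 5) (nat_lit 69) (nat_lit 5) (nat_lit 67) (nat_lit 4) (nat_lit 521) (nat_lit 412) (nat_lit 267)) (XT.lf (nat_lit 0) (nat_lit 10762286215) (nat_lit 76) (nat_lit 21530260827) (nat_lit 152) (nat_lit 10395638146) (nat_lit 65) (nat_lit 5) (nat_lit 66) (nat_lit 5) (nat_lit 67) (nat_lit 4) (nat_lit 522) (nat_lit 412) (nat_lit 266))) (XT.nd (nat_lit 78) (nat_lit 152) (nat_lit 0) (XT.lf (nat_lit 0) (nat_lit 1109504587) (nat_lit 152) (nat_lit 7643052875) (nat_lit 76) (nat_lit 34823715222) (nat_lit 64) (nat_lit 5) (nat_lit 66) (nat_lit 5) (nat_lit 65) (nat_lit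 5) (nat_lit 523) (nat_lit 412) (nat_lit 265)) (XT.lf (nat_lit 0) (nat_lit 12955058363) (nat_lit 228) (nat_lit 26938289646) (nat_lit 76) (nat_lit 4588441239) (nat_lit 62) (nat_lit 5) (nat_lit 65) (nat_lit 5) (nat_lit 63) (nat_lit 4) (nat_lit 524) (nat_lit 412) (nat_lit 264)))) (XT.nd (nat_lit 156) (nat_lit 228) (nat_lit 0) (XT.nd (nat_lit 78) (nat_lit 76) (nat_lit 0) (XT.lf (nat_lit 0) (nat_lit 25310735782) (nat_lit 228) (nat_lit 1876038376) (nat_lit 76) (nat_lit 18223054650) (nat_lit 62) (nat_lit 5) (nat_lit 65) (nat_lit 5) (nat_lit 63) (nat_lit 4) (nat_lit 525) (nat_lit 412) (nat_lit 263)) (XT.lf (nat_lit 0) (nat_lit 24395896248) (nat_lit 76) (nat_lit 13866136369) (nat_lit 152) (nat_lit 8096928672) (nat_lit 61) (nat_lit 5) (nat_lit 62) (nat_lit 5) (nat_lit 63) (nat_lit 4) (nat_lit 526) (nat_lit 412) (nat_lit 262))) (XT.nd (nat_lit 78) (nat_lit 0) (nat_lit 0) (XT.lf (nat_lit 0) (nat_lit 4180589122) (nat_lit 152)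 (nat_lit 51250227) (nat_lit 228) (nat_lit 43102005467) (nat_lit 58) (nat_lit 5) (nat_lit 60) (nat_lit 5) (nat_lit 61) (nat_lit 5) (nat_lit 527) (nat_lit 412) (nat_lit 261)) (XT.lf (nat_lit 0) (nat_lit 17118471705) (nat_lit 228) (nat_lit 17009468134) (nat_lit 76) (nat_lit 14197107923) (nat_lit 58) (nat_lit 5) (nat_lit 61) (nat_lit 5) (nat_lit 59) (nat_lit 4) (nat_lit 528) (nat_lit 412) (nat_lit 260))))))))
noncomputable def xc127 : XT := (XT.nd (nat_lit 54054) (nat_lit 0) (nat_lit 12920) (XT.nd (nat_lit 1170) (nat_lit 380) (nat_lit 0) (XT.nd (nat_lit 546) (nat_lit 456) (nat_lit 0) (XT.nd (nat_lit 234) (nat_lit 228) (nat_lit 0) (XT.nd (nat_lit 78) (nat_lit 152) (nat_lit 0) (XT.lf (nat_lit 0) (nat_lit 10097425757) (nat_lit 76) (nat_lit 20382598175) (nat_lit 152) (nat_lit 18863313419) (nat_lit 57) (nat_lit 5) (nat_lit 58) (nat_lit 5) (nat_lit 59) (nat_lit 4) (nat_lit 529) (nat_lit 412) (nat_lit 259)) (XT.nd (nat_lit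 78) (nat_lit 152) (nat_lit 0) (XT.lf (nat_lit 0) (nat_lit 38348640767) (nat_lit 76) (nat_lit 6056395644) (nat_lit 152) (nat_lit 5982260986) (nat_lit 57) (nat_lit 5) (nat_lit 58) (nat_lit 5) (nat_lit 59) (nat_lit 4) (nat_lit 530) (nat_lit 412) (nat_lit 258)) (XT.lf (nat_lit 0) (nat_lit 7375733155) (nat_lit 152) (nat_lit 35327903571) (nat_lit 76) (nat_lit 8749858654) (nat_lit 55) (nat_lit 5) (nat_lit 57) (nat_lit 5) (nat_lit 56) (nat_lit 4) (nat_lit 531) (nat_lit 412) (nat_lit 257)))) (XT.nd (nat_lit 156) (nat_lit 152) (nat_lit 0) (XT.nd (nat_lit 78) (nat_lit 76) (nat_lit 0) (XT.lf (nat_lit 0) (nat_lit 21188012683) (nat_lit 152) (nat_lit 7304131168) (nat_lit 76) (nat_lit 24052545210) (nat_lit 55) (nat_lit 5) (nat_lit 57) (nat_lit 5) (nat_lit 56) (nat_lit 4) (nat_lit 532) (nat_lit 412) (nat_lit 256)) (XT.lf (nat_lit 0) (nat_lit 21972367859) (nat_lit 76) (nat_lit 13644813622) (nat_lit 152) (nat_lit 18045361605) (nat_lit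 54) (nat_lit 5) (nat_lit 55) (nat_lit 5) (nat_lit 56) (nat_lit 4) (nat_lit 533) (nat_lit 412) (nat_lit 255))) (XT.nd (nat_lit 78) (nat_lit 152) (nat_lit 0) (XT.lf (nat_lit 0) (nat_lit 50560880009) (nat_lit 152) (nat_lit 2568165583) (nat_lit 0) (nat_lit 1682437652) (nat_lit 54) (nat_lit 5) (nat_lit 56) (nat_lit 4) (nat_lit 54) (nat_lit 4) (nat_lit 534) (nat_lit 412) (nat_lit 254)) (XT.lf (nat_lit 0) (nat_lit 10161672082) (nat_lit 152) (nat_lit 28263713086) (nat_lit 76) (nat_lit 17554695193) (nat_lit 52) (nat_lit 5) (nat_lit 54) (nat_lit 5) (nat_lit 53) (nat_lit 4) (nat_lit 535) (nat_lit 412) (nat_lit 253))))) (XT.nd (nat_lit 312) (nat_lit 228) (nat_lit 0) (XT.nd (nat_lit 156) (nat_lit 152) (nat_lit 0) (XT.nd (nat_lit 78) (nat_lit 0) (nat_lit 0) (XT.lf (nat_lit 0) (nat_lit 1754739471) (nat_lit 76) (nat_lit 23200787502) (nat_lit 152) (nat_lit 32225906679) (nat_lit 51) (nat_lit 5) (nat_lit 52) (nat_lit 5) (nat_lit 53)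 (nat_lit 4) (nat_lit 536) (nat_lit 412) (nat_lit 252)) (XT.lf (nat_lit 0) (nat_lit 33237000182) (nat_lit 76) (nat_lit 7233281874) (nat_lit 152) (nat_lit 17940233084) (nat_lit 51) (nat_lit 5) (nat_lit 52) (nat_lit 5) (nat_lit 53) (nat_lit 4) (nat_lit 537) (nat_lit 412) (nat_lit 251))) (XT.nd (nat_lit 78) (nat_lit 76) (nat_lit 0) (XT.lf (nat_lit 0) (nat_lit 5999952973) (nat_lit 76) (nat_lit 50588611521) (nat_lit 76) (nat_lit 3083762172) (nat_lit 50) (nat_lit 4) (nat_lit 51) (nat_lit 5) (nat_lit 51) (nat_lit 4) (nat_lit 538) (nat_lit 412) (nat_lit 250)) (XT.lf (nat_lit 0) (nat_lit 12300167448) (nat_lit 152) (nat_lit 22547124504) (nat_lit 76) (nat_lit 26111571497) (nat_lit 49) (nat_lit 5) (nat_lit 51) (nat_lit 5) (nat_lit 50) (nat_lit 4) (nat_lit 539) (nat_lit 412) (nat_lit 249)))) (XT.nd (nat_lit 156) (nat_lit 152) (nat_lit 0) (XT.nd (nat_lit 78) (nat_lit 0) (nat_lit 0) (XT.lf (nat_lit 0) (nat_lit 9654371416) (nat_lit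 76) (nat_lit 18514156965) (nat_lit 152) (nat_lit 34112005287) (nat_lit 48) (nat_lit 5) (nat_lit 49) (nat_lit 5) (nat_lit 50) (nat_lit 4) (nat_lit 540) (nat_lit 412) (nat_lit 248)) (XT.lf (nat_lit 0) (nat_lit 43268886844) (nat_lit 76) (nat_lit 1463909395) (nat_lit 152) (nat_lit 18902462189) (nat_lit 48) (nat_lit 5) (nat_lit 49) (nat_lit 5) (nat_lit 50) (nat_lit 4) (nat_lit 541) (nat_lit 412) (nat_lit 247))) (XT.nd (nat_lit 78) (nat_lit 76) (nat_lit 0) (XT.lf (nat_lit 0) (nat_lit 12944121821) (nat_lit 76) (nat_lit 49121372748) (nat_lit 76) (nat_lit 2956985404) (nat_lit 47) (nat_lit 4) (nat_lit 48) (nat_lit 5) (nat_lit 48) (nat_lit 4) (nat_lit 542) (nat_lit 412) (nat_lit 246)) (XT.lf (nat_lit 0) (nat_lit 13418598847) (nat_lit 152) (nat_lit 18934650950) (nat_lit 76) (nat_lit 34087749024) (nat_lit 46) (nat_lit 5) (nat_lit 48) (nat_lit 5) (nat_lit 47) (nat_lit 4) (nat_lit 543) (nat_lit 412) (nat_lit 245)))))) (XT.nd (nat_lit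 52260) (nat_lit 0) (nat_lit 24776) (XT.nd (nat_lit 234) (nat_lit 228) (nat_lit 0) (XT.nd (nat_lit 78) (nat_lit 76) (nat_lit 0) (XT.lf (nat_lit 0) (nat_lit 15461289788) (nat_lit 76) (nat_lit 14905914075) (nat_lit 152) (nat_lit 37529755593) (nat_lit 45) (nat_lit 5) (nat_lit 46) (nat_lit 5) (nat_lit 47) (nat_lit 4) (nat_lit 544) (nat_lit 412) (nat_lit 244)) (XT.nd (nat_lit 78) (nat_lit 76) (nat_lit 0) (XT.lf (nat_lit 0) (nat_lit 48039397671) (nat_lit 152) (nat_lit 18159483898) (nat_lit 0) (nat_lit 3191263521) (nat_lit 45) (nat_lit 5) (nat_lit 47) (nat_lit 4) (nat_lit 45) (nat_lit 4) (nat_lit 545) (nat_lit 412) (nat_lit 243)) (XT.lf (nat_lit 0) (nat_lit 17321310761) (nat_lit 76) (nat_lit 49227322743) (nat_lit 76) (nat_lit 4370286603) (nat_lit 44) (nat_lit 4) (nat_lit 45) (nat_lit 5) (nat_lit 45) (nat_lit 4) (nat_lit 546) (nat_lit 412) (nat_lit 242)))) (XT.nd (nat_lit 156) (nat_lit 76) (nat_lit 0) (XT.nd (nat_lit 78)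 (nat_lit 76) (nat_lit 0) (XT.lf (nat_lit 0) (nat_lit 13041563380) (nat_lit 152) (nat_lit 18391305186) (nat_lit 76) (nat_lit 41051566923) (nat_lit 43) (nat_lit 5) (nat_lit 45) (nat_lit 5) (nat_lit 44) (nat_lit 4) (nat_lit 547) (nat_lit 412) (nat_lit 241)) (XT.lf (nat_lit 0) (nat_lit 18168766850) (nat_lit 76) (nat_lit 12886817719) (nat_lit 152) (nat_lit 43035004124) (nat_lit 42) (nat_lit 5) (nat_lit 43) (nat_lit 5) (nat_lit 44) (nat_lit 4) (nat_lit 548) (nat_lit 412) (nat_lit 240))) (XT.nd (nat_lit 78) (nat_lit 76) (nat_lit 0) (XT.lf (nat_lit 0) (nat_lit 49850344099) (nat_lit 152) (nat_lit 19611996237) (nat_lit 0) (nat_lit 6275376713) (nat_lit 42) (nat_lit 5) (nat_lit 44) (nat_lit 4) (nat_lit 42) (nat_lit 4) (nat_lit 549) (nat_lit 412) (nat_lit 239)) (XT.lf (nat_lit 0) (nat_lit 17997426560) (nat_lit 76) (nat_lit 51505332363) (nat_lit 76) (nat_lit 7922686043) (nat_lit 41) (nat_lit 4) (nat_lit 42) (nat_lit 5) (nat_lit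 42) (nat_lit 4) (nat_lit 550) (nat_lit 412) (nat_lit 238))))) (XT.nd (nat_lit 312) (nat_lit 0) (nat_lit 0) (XT.nd (nat_lit 156) (nat_lit 760) (nat_lit 0) (XT.nd (nat_lit 78) (nat_lit 0) (nat_lit 0) (XT.lf (nat_lit 0) (nat_lit 1297556114) (nat_lit 836) (nat_lit 1140796303) (nat_lit 836) (nat_lit 1140796303) (nat_lit 377) (nat_lit 3) (nat_lit 388) (nat_lit 3) (nat_lit 388) (nat_lit 5) (nat_lit 413) (nat_lit 413) (nat_lit 374)) (XT.lf (nat_lit 76) (nat_lit 1286421016) (nat_lit 0) (nat_lit 3029305187) (nat_lit 836) (nat_lit 2899191995) (nat_lit 378) (nat_lit 5) (nat_lit 377) (nat_lit 3) (nat_lit 388) (nat_lit 5) (nat_lit 414) (nat_lit 413) (nat_lit 373))) (XT.nd (nat_lit 78) (nat_lit 760) (nat_lit 0) (XT.lf (nat_lit 76) (nat_lit 4974019974) (nat_lit 0) (nat_lit 1071500291) (nat_lit 836) (nat_lit 1229002291) (nat_lit 378) (nat_lit 5) (nat_lit 377) (nat_lit 3) (nat_lit 388) (nat_lit 5) (nat_lit 415) (nat_lit 413) (nat_lit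 372)) (XT.lf (nat_lit 0) (nat_lit 440743785) (nat_lit 836) (nat_lit 5921955654) (nat_lit 912) (nat_lit 974313950) (nat_lit 367) (nat_lit 5) (nat_lit 378) (nat_lit 5) (nat_lit 379) (nat_lit 5) (nat_lit 416) (nat_lit 413) (nat_lit 371)))) (XT.nd (nat_lit 156) (nat_lit 0) (nat_lit 76) (XT.nd (nat_lit 78) (nat_lit 0) (nat_lit 0) (XT.lf (nat_lit 0) (nat_lit 2107554061) (nat_lit 836) (nat_lit 2170790466) (nat_lit 912) (nat_lit 3123529989) (nat_lit 367) (nat_lit 5) (nat_lit 378) (nat_lit 5) (nat_lit 379) (nat_lit 5) (nat_lit 417) (nat_lit 413) (nat_lit 370)) (XT.lf (nat_lit 76) (nat_lit 1690614126) (nat_lit 0) (nat_lit 2089427153) (nat_lit 912) (nat_lit 3689980526) (nat_lit 368) (nat_lit 5) (nat_lit 367) (nat_lit 5) (nat_lit 379) (nat_lit 5) (nat_lit 418) (nat_lit 413) (nat_lit 369))) (XT.nd (nat_lit 78) (nat_lit 0) (nat_lit 0) (XT.lf (nat_lit 0) (nat_lit 5467511184) (nat_lit 836) (nat_lit 1865957610) (nat_lit 912) (nat_lit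 207810681) (nat_lit 368) (nat_lit 5) (nat_lit 379) (nat_lit 5) (nat_lit 380) (nat_lit 5) (nat_lit 419) (nat_lit 413) (nat_lit 368)) (XT.lf (nat_lit 76) (nat_lit 2150287825) (nat_lit 0) (nat_lit 5039473384) (nat_lit 912) (nat_lit 425398892) (nat_lit 369) (nat_lit 5) (nat_lit 368) (nat_lit 5) (nat_lit 380) (nat_lit 5) (nat_lit 420) (nat_lit 413) (nat_lit 367))))))) (XT.nd (nat_lit 1170) (nat_lit 5700) (nat_lit 0) (XT.nd (nat_lit 546) (nat_lit 4484) (nat_lit 0) (XT.nd (nat_lit 234) (nat_lit 836) (nat_lit 0) (XT.nd (nat_lit 78) (nat_lit 0) (nat_lit 0) (XT.lf (nat_lit 0) (nat_lit 1210181745) (nat_lit 912) (nat_lit 1414500218) (nat_lit 988) (nat_lit 5067339891) (nat_lit 356) (nat_lit 5) (nat_lit 368) (nat_lit 5) (nat_lit 369) (nat_lit 5) (nat_lit 421) (nat_lit 413) (nat_lit 366)) (XT.nd (nat_lit 78) (nat_lit 0) (nat_lit 76) (XT.lf (nat_lit 76) (nat_lit 2771662641) (nat_lit 0) (nat_lit 86464458) (nat_lit 988) (nat_lit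 4913789649) (nat_lit 357) (nat_lit 5) (nat_lit 356) (nat_lit 5) (nat_lit 369) (nat_lit 5) (nat_lit 422) (nat_lit 413) (nat_lit 365)) (XT.lf (nat_lit 0) (nat_lit 4540873152) (nat_lit 912) (nat_lit 802850318) (nat_lit 988) (nat_lit 2510932948) (nat_lit 357) (nat_lit 5) (nat_lit 369) (nat_lit 5) (nat_lit 370) (nat_lit 5) (nat_lit 423) (nat_lit 413) (nat_lit 364)))) (XT.nd (nat_lit 156) (nat_lit 912) (nat_lit 0) (XT.nd (nat_lit 78) (nat_lit 0) (nat_lit 76) (XT.lf (nat_lit 76) (nat_lit 3552994466) (nat_lit 0) (nat_lit 2704308527) (nat_lit 988) (nat_lit 1683087790) (nat_lit 358) (nat_lit 5) (nat_lit 357) (nat_lit 5) (nat_lit 370) (nat_lit 5) (nat_lit 424) (nat_lit 413) (nat_lit 363)) (XT.lf (nat_lit 0) (nat_lit 7983053609) (nat_lit 912) (nat_lit 9975672) (nat_lit 988) (nat_lit 36941358) (nat_lit 358) (nat_lit 5) (nat_lit 370) (nat_lit 5) (nat_lit 371) (nat_lit 5) (nat_lit 425) (nat_lit 413) (nat_lit 362))) (XT.nd (nat_lit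 78) (nat_lit 0) (nat_lit 0) (XT.lf (nat_lit 0) (nat_lit 1627808745) (nat_lit 988) (nat_lit 3613484927) (nat_lit 1064) (nat_lit 2879836383) (nat_lit 345) (nat_lit 5) (nat_lit 358) (nat_lit 5) (nat_lit 359) (nat_lit 5) (nat_lit 426) (nat_lit 413) (nat_lit 361)) (XT.lf (nat_lit 76) (nat_lit 926790161) (nat_lit 0) (nat_lit 2385628704) (nat_lit 1064) (nat_lit 4903781479) (nat_lit 346) (nat_lit 5) (nat_lit 345) (nat_lit 5) (nat_lit 359) (nat_lit 5) (nat_lit 427) (nat_lit 413) (nat_lit 360))))) (XT.nd (nat_lit 312) (nat_lit 2432) (nat_lit 0) (XT.nd (nat_lit 156) (nat_lit 1140) (nat_lit 0) (XT.nd (nat_lit 78) (nat_lit 988) (nat_lit 0) (XT.lf (nat_lit 0) (nat_lit 5042499470) (nat_lit 988) (nat_lit 2679364298) (nat_lit 76) (nat_lit 592418379) (nat_lit 346) (nat_lit 5) (nat_lit 359) (nat_lit 5) (nat_lit 347) (nat_lit 5) (nat_lit 428) (nat_lit 413) (nat_lit 359)) (XT.lf (nat_lit 0) (nat_lit 2048462392) (nat_lit 988) (nat_lit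 4773447767) (nat_lit 1064) (nat_lit 1593480572) (nat_lit 333) (nat_lit 5) (nat_lit 346) (nat_lit 5) (nat_lit 347) (nat_lit 5) (nat_lit 429) (nat_lit 413) (nat_lit 358))) (XT.nd (nat_lit 78) (nat_lit 1064) (nat_lit 0) (XT.lf (nat_lit 0) (nat_lit 114507739) (nat_lit 1064) (nat_lit 1584661033) (nat_lit 76) (nat_lit 6820872322) (nat_lit 332) (nat_lit 5) (nat_lit 346) (nat_lit 5) (nat_lit 333) (nat_lit 5) (nat_lit 430) (nat_lit 413) (nat_lit 357)) (XT.lf (nat_lit 0) (nat_lit 1844578948) (nat_lit 1140) (nat_lit 5287949211) (nat_lit 76) (nat_lit 1494749927) (nat_lit 318) (nat_lit 5) (nat_lit 333) (nat_lit 5) (nat_lit 319) (nat_lit 5) (nat_lit 431) (nat_lit 413) (nat_lit 356)))) (XT.nd (nat_lit 156) (nat_lit 1292) (nat_lit 0) (XT.nd (nat_lit 78) (nat_lit 1140) (nat_lit 0) (XT.lf (nat_lit 0) (nat_lit 3616512588) (nat_lit 1140) (nat_lit 348054093) (nat_lit 76) (nat_lit 4773473057) (nat_lit 318) (nat_lit 5) (nat_lit 333) (nat_lit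 5) (nat_lit 319) (nat_lit 5) (nat_lit 432) (nat_lit 413) (nat_lit 355)) (XT.lf (nat_lit 0) (nat_lit 4797397476) (nat_lit 1140) (nat_lit 648551831) (nat_lit 1216) (nat_lit 3406050753) (nat_lit 303) (nat_lit 5) (nat_lit 318) (nat_lit 5) (nat_lit 319) (nat_lit 5) (nat_lit 433) (nat_lit 413) (nat_lit 354))) (XT.nd (nat_lit 78) (nat_lit 76) (nat_lit 0) (XT.lf (nat_lit 0) (nat_lit 1092580959) (nat_lit 1216) (nat_lit 6237486877) (nat_lit 1292) (nat_lit 1639323389) (nat_lit 287) (nat_lit 5) (nat_lit 303) (nat_lit 5) (nat_lit 304) (nat_lit 5) (nat_lit 434) (nat_lit 413) (nat_lit 353)) (XT.lf (nat_lit 0) (nat_lit 184238828) (nat_lit 1292) (nat_lit 2657967282) (nat_lit 76) (nat_lit 6247831037) (nat_lit 286) (nat_lit 5) (nat_lit 303) (nat_lit 5) (nat_lit 287) (nat_lit 5) (nat_lit 435) (nat_lit 413) (nat_lit 352)))))) (XT.nd (nat_lit 624) (nat_lit 2584) (nat_lit 0) (XT.nd (nat_lit 312) (nat_lit 1140) (nat_lit 0) (XT.nd (nat_lit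 156) (nat_lit 1216) (nat_lit 0) (XT.nd (nat_lit 78) (nat_lit 0) (nat_lit 0) (XT.lf (nat_lit 0) (nat_lit 2023184836) (nat_lit 836) (nat_lit 6503243155) (nat_lit 76) (nat_lit 687584242) (nat_lit 276) (nat_lit 5) (nat_lit 287) (nat_lit 5) (nat_lit 277) (nat_lit 5) (nat_lit 436) (nat_lit 413) (nat_lit 351)) (XT.lf (nat_lit 0) (nat_lit 3934123287) (nat_lit 836) (nat_lit 1111606965) (nat_lit 76) (nat_lit 4295476922) (nat_lit 276) (nat_lit 5) (nat_lit 287) (nat_lit 5) (nat_lit 277) (nat_lit 5) (nat_lit 437) (nat_lit 413) (nat_lit 350))) (XT.nd (nat_lit 78) (nat_lit 608) (nat_lit 0) (XT.lf (nat_lit 0) (nat_lit 4493192152) (nat_lit 608) (nat_lit 1415085560) (nat_lit 684) (nat_lit 3563768786) (nat_lit 268) (nat_lit 5) (nat_lit 276) (nat_lit 5) (nat_lit 277) (nat_lit 5) (nat_lit 438) (nat_lit 413) (nat_lit 349)) (XT.lf (nat_lit 0) (nat_lit 635373675) (nat_lit 608) (nat_lit 7309515314) (nat_lit 684) (nat_lit 1661830067) (nat_lit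 260) (nat_lit 5) (nat_lit 268) (nat_lit 5) (nat_lit 269) (nat_lit 5) (nat_lit 439) (nat_lit 413) (nat_lit 348)))) (XT.nd (nat_lit 156) (nat_lit 532) (nat_lit 0) (XT.nd (nat_lit 78) (nat_lit 532) (nat_lit 0) (XT.lf (nat_lit 0) (nat_lit 319950067) (nat_lit 684) (nat_lit 3278577886) (nat_lit 76) (nat_lit 6145965411) (nat_lit 259) (nat_lit 5) (nat_lit 268) (nat_lit 5) (nat_lit 260) (nat_lit 5) (nat_lit 440) (nat_lit 413) (nat_lit 347)) (XT.lf (nat_lit 0) (nat_lit 2320008467) (nat_lit 608) (nat_lit 7306146079) (nat_lit 76) (nat_lit 259990555) (nat_lit 252) (nat_lit 5) (nat_lit 260) (nat_lit 5) (nat_lit 253) (nat_lit 5) (nat_lit 441) (nat_lit 413) (nat_lit 346))) (XT.nd (nat_lit 78) (nat_lit 532) (nat_lit 0) (XT.lf (nat_lit 0) (nat_lit 4414648159) (nat_lit 608) (nat_lit 1422428545) (nat_lit 76) (nat_lit 4193936761) (nat_lit 252) (nat_lit 5) (nat_lit 260) (nat_lit 5) (nat_lit 253) (nat_lit 5) (nat_lit 442) (nat_lit 413)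 (nat_lit 345)) (XT.lf (nat_lit 0) (nat_lit 4693504727) (nat_lit 532) (nat_lit 1890259102) (nat_lit 608) (nat_lit 3596119277) (nat_lit 245) (nat_lit 5) (nat_lit 252) (nat_lit 5) (nat_lit 253) (nat_lit 5) (nat_lit 443) (nat_lit 413) (nat_lit 344))))) (XT.nd (nat_lit 312) (nat_lit 1444) (nat_lit 0) (XT.nd (nat_lit 156) (nat_lit 532) (nat_lit 0) (XT.nd (nat_lit 78) (nat_lit 76) (nat_lit 0) (XT.lf (nat_lit 0) (nat_lit 644315118) (nat_lit 532) (nat_lit 8182372173) (nat_lit 608) (nat_lit 1506273717) (nat_lit 238) (nat_lit 5) (nat_lit 245) (nat_lit 5) (nat_lit 246) (nat_lit 5) (nat_lit 444) (nat_lit 413) (nat_lit 343)) (XT.lf (nat_lit 0) (nat_lit 675736224) (nat_lit 608) (nat_lit 3479840337) (nat_lit 76) (nat_lit 6333609881) (nat_lit 237) (nat_lit 5) (nat_lit 245) (nat_lit 5) (nat_lit 238) (nat_lit 5) (nat_lit 445) (nat_lit 413) (nat_lit 342))) (XT.nd (nat_lit 78) (nat_lit 0) (nat_lit 0) (XT.lf (nat_lit 0) (nat_lit 2889689430)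 (nat_lit 608) (nat_lit 7728462666) (nat_lit 76) (nat_lit 31600253) (nat_lit 230) (nat_lit 5) (nat_lit 238) (nat_lit 5) (nat_lit 231) (nat_lit 5) (nat_lit 446) (nat_lit 413) (nat_lit 341)) (XT.lf (nat_lit 0) (nat_lit 5215596532) (nat_lit 608) (nat_lit 1306048224) (nat_lit 76) (nat_lit 4292128153) (nat_lit 230) (nat_lit 5) (nat_lit 238) (nat_lit 5) (nat_lit 231) (nat_lit 5) (nat_lit 447) (nat_lit 413) (nat_lit 340)))) (XT.nd (nat_lit 156) (nat_lit 532) (nat_lit 0) (XT.nd (nat_lit 78) (nat_lit 456) (nat_lit 0) (XT.lf (nat_lit 0) (nat_lit 5378792578) (nat_lit 456) (nat_lit 2254001733) (nat_lit 532) (nat_lit 3349277999) (nat_lit 224) (nat_lit 5) (nat_lit 230) (nat_lit 5) (nat_lit 231) (nat_lit 5) (nat_lit 448) (nat_lit 413) (nat_lit 339)) (XT.lf (nat_lit 0) (nat_lit 1100989590) (nat_lit 456) (nat_lit 9036311313) (nat_lit 532) (nat_lit 1017679523) (nat_lit 218) (nat_lit 5) (nat_lit 224) (nat_lit 5) (nat_lit 225) (nat_lit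 5) (nat_lit 449) (nat_lit 413) (nat_lit 338))) (XT.nd (nat_lit 78) (nat_lit 456) (nat_lit 0) (XT.lf (nat_lit 0) (nat_lit 1406858162) (nat_lit 532) (nat_lit 3282252234) (nat_lit 76) (nat_lit 6642069766) (nat_lit 217) (nat_lit 5) (nat_lit 224) (nat_lit 5) (nat_lit 218) (nat_lit 5) (nat_lit 450) (nat_lit 413) (nat_lit 337)) (XT.lf (nat_lit 0) (nat_lit 3720262085) (nat_lit 456) (nat_lit 170571421) (nat_lit 532) (nat_lit 7621318648) (nat_lit 211) (nat_lit 5) (nat_lit 217) (nat_lit 5) (nat_lit 218) (nat_lit 5) (nat_lit 451) (nat_lit 413) (nat_lit 336))))))))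
noncomputable def xc128 : XT := (XT.nd (nat_lit 2340) (nat_lit 3800) (nat_lit 0) (XT.nd (nat_lit 1170) (nat_lit 2736) (nat_lit 0) (XT.nd (nat_lit 546) (nat_lit 1824) (nat_lit 0) (XT.nd (nat_lit 234) (nat_lit 912) (nat_lit 0) (XT.nd (nat_lit 78) (nat_lit 836) (nat_lit 0) (XT.lf (nat_lit 0) (nat_lit 6497732422) (nat_lit 532) (nat_lit 776188993) (nat_lit 76) (nat_lit 4423182890) (nat_lit 211) (nat_lit 5) (nat_lit 218) (nat_lit 5) (nat_lit 212) (nat_lit 5) (nat_lit 452) (nat_lit 413) (nat_lit 335)) (XT.nd (nat_lit 78) (nat_lit 380) (nat_lit 0) (XT.lf (nat_lit 0) (nat_lit 6541636174) (nat_lit 456) (nat_lit 2678427014) (nat_lit 532) (nat_lit 2666428123) (nat_lit 205) (nat_lit 5) (nat_lit 211) (nat_lit 5) (nat_lit 212) (nat_lit 5) (nat_lit 453) (nat_lit 413) (nat_lit 334)) (XT.lf (nat_lit 0) (nat_lit 1998026591) (nat_lit 380) (nat_lit 10045967954) (nat_lit 456) (nat_lit 36970410) (nat_lit 200) (nat_lit 5) (nat_lit 205)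 (nat_lit 5) (nat_lit 206) (nat_lit 5) (nat_lit 454) (nat_lit 413) (nat_lit 333)))) (XT.nd (nat_lit 156) (nat_lit 380) (nat_lit 0) (XT.nd (nat_lit 78) (nat_lit 456) (nat_lit 0) (XT.lf (nat_lit 0) (nat_lit 2673513827) (nat_lit 456) (nat_lit 2696535468) (nat_lit 76) (nat_lit 6908827802) (nat_lit 199) (nat_lit 5) (nat_lit 205) (nat_lit 5) (nat_lit 200) (nat_lit 5) (nat_lit 455) (nat_lit 413) (nat_lit 332)) (XT.lf (nat_lit 0) (nat_lit 4974267516) (nat_lit 456) (nat_lit 512141830) (nat_lit 532) (nat_lit 6995653777) (nat_lit 193) (nat_lit 5) (nat_lit 199) (nat_lit 5) (nat_lit 200) (nat_lit 5) (nat_lit 456) (nat_lit 413) (nat_lit 331))) (XT.nd (nat_lit 78) (nat_lit 0) (nat_lit 0) (XT.lf (nat_lit 0) (nat_lit 165476079) (nat_lit 380) (nat_lit 8264861741) (nat_lit 456) (nat_lit 4259610149) (nat_lit 188) (nat_lit 5) (nat_lit 193) (nat_lit 5) (nat_lit 194) (nat_lit 5) (nat_lit 457) (nat_lit 413) (nat_lit 330)) (XT.lf (nat_lit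 0) (nat_lit 8183761174) (nat_lit 380) (nat_lit 3334459189) (nat_lit 456) (nat_lit 1384182454) (nat_lit 188) (nat_lit 5) (nat_lit 193) (nat_lit 5) (nat_lit 194) (nat_lit 5) (nat_lit 458) (nat_lit 413) (nat_lit 329))))) (XT.nd (nat_lit 312) (nat_lit 684) (nat_lit 0) (XT.nd (nat_lit 156) (nat_lit 684) (nat_lit 0) (XT.nd (nat_lit 78) (nat_lit 0) (nat_lit 0) (XT.lf (nat_lit 0) (nat_lit 1571248839) (nat_lit 456) (nat_lit 9799792240) (nat_lit 76) (nat_lit 1749002000) (nat_lit 182) (nat_lit 5) (nat_lit 188) (nat_lit 5) (nat_lit 183) (nat_lit 5) (nat_lit 459) (nat_lit 413) (nat_lit 328)) (XT.lf (nat_lit 0) (nat_lit 4644265237) (nat_lit 456) (nat_lit 1726677788) (nat_lit 76) (nat_lit 6971158423) (nat_lit 182) (nat_lit 5) (nat_lit 188) (nat_lit 5) (nat_lit 183) (nat_lit 5) (nat_lit 460) (nat_lit 413) (nat_lit 327))) (XT.nd (nat_lit 78) (nat_lit 380) (nat_lit 0) (XT.lf (nat_lit 0) (nat_lit 6686346214) (nat_lit 304) (nat_lit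 1163717233) (nat_lit 380) (nat_lit 5719542641) (nat_lit 178) (nat_lit 5) (nat_lit 182) (nat_lit 5) (nat_lit 183) (nat_lit 5) (nat_lit 461) (nat_lit 413) (nat_lit 326)) (XT.lf (nat_lit 0) (nat_lit 1540204389) (nat_lit 380) (nat_lit 9661223855) (nat_lit 456) (nat_lit 2601028036) (nat_lit 173) (nat_lit 5) (nat_lit 178) (nat_lit 5) (nat_lit 179) (nat_lit 5) (nat_lit 462) (nat_lit 413) (nat_lit 325)))) (XT.nd (nat_lit 156) (nat_lit 304) (nat_lit 0) (XT.nd (nat_lit 78) (nat_lit 304) (nat_lit 0) (XT.lf (nat_lit 0) (nat_lit 657580842) (nat_lit 456) (nat_lit 3734009749) (nat_lit 76) (nat_lit 9648773371) (nat_lit 172) (nat_lit 5) (nat_lit 178) (nat_lit 5) (nat_lit 173) (nat_lit 5) (nat_lit 463) (nat_lit 413) (nat_lit 324)) (XT.lf (nat_lit 0) (nat_lit 3998641053) (nat_lit 380) (nat_lit 9202999643) (nat_lit 76) (nat_lit 1081888470) (nat_lit 168) (nat_lit 5) (nat_lit 173) (nat_lit 5) (nat_lit 169) (nat_lit 5) (nat_lit 464) (nat_lit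 413) (nat_lit 323))) (XT.nd (nat_lit 78) (nat_lit 304) (nat_lit 0) (XT.lf (nat_lit 0) (nat_lit 7499173701) (nat_lit 380) (nat_lit 373148848) (nat_lit 76) (nat_lit 6659891505) (nat_lit 168) (nat_lit 5) (nat_lit 173) (nat_lit 5) (nat_lit 169) (nat_lit 5) (nat_lit 465) (nat_lit 413) (nat_lit 322)) (XT.lf (nat_lit 0) (nat_lit 8863008040) (nat_lit 304) (nat_lit 2305241070) (nat_lit 380) (nat_lit 3618206469) (nat_lit 164) (nat_lit 5) (nat_lit 168) (nat_lit 5) (nat_lit 169) (nat_lit 5) (nat_lit 466) (nat_lit 413) (nat_lit 321)))))) (XT.nd (nat_lit 546) (nat_lit 1368) (nat_lit 0) (XT.nd (nat_lit 234) (nat_lit 684) (nat_lit 0) (XT.nd (nat_lit 78) (nat_lit 380) (nat_lit 0) (XT.lf (nat_lit 0) (nat_lit 3336011200) (nat_lit 304) (nat_lit 11658784992) (nat_lit 380) (nat_lit 52108013) (nat_lit 160) (nat_lit 5) (nat_lit 164) (nat_lit 5) (nat_lit 165) (nat_lit 5) (nat_lit 467) (nat_lit 413) (nat_lit 320)) (XT.nd (nat_lit 78) (nat_lit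 304) (nat_lit 0) (XT.lf (nat_lit 0) (nat_lit 3612223837) (nat_lit 380) (nat_lit 2408807608) (nat_lit 76) (nat_lit 9291235106) (nat_lit 159) (nat_lit 5) (nat_lit 164) (nat_lit 5) (nat_lit 160) (nat_lit 5) (nat_lit 468) (nat_lit 413) (nat_lit 319)) (XT.lf (nat_lit 0) (nat_lit 7282979520) (nat_lit 304) (nat_lit 151765384) (nat_lit 380) (nat_lit 8149351869) (nat_lit 155) (nat_lit 5) (nat_lit 159) (nat_lit 5) (nat_lit 160) (nat_lit 5) (nat_lit 469) (nat_lit 413) (nat_lit 318)))) (XT.nd (nat_lit 156) (nat_lit 380) (nat_lit 0) (XT.nd (nat_lit 78) (nat_lit 0) (nat_lit 0) (XT.lf (nat_lit 0) (nat_lit 1390615387) (nat_lit 304) (nat_lit 10055419126) (nat_lit 380) (nat_lit 4415826235) (nat_lit 151) (nat_lit 5) (nat_lit 155) (nat_lit 5) (nat_lit 156) (nat_lit 5) (nat_lit 470) (nat_lit 413) (nat_lit 317)) (XT.lf (nat_lit 0) (nat_lit 11510864570) (nat_lit 304) (nat_lit 4131918999) (nat_lit 380) (nat_lit 503222034) (nat_lit 151)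 (nat_lit 5) (nat_lit 155) (nat_lit 5) (nat_lit 156) (nat_lit 5) (nat_lit 471) (nat_lit 413) (nat_lit 316))) (XT.nd (nat_lit 78) (nat_lit 0) (nat_lit 0) (XT.lf (nat_lit 0) (nat_lit 3511084961) (nat_lit 380) (nat_lit 10916463029) (nat_lit 76) (nat_lit 2008516934) (nat_lit 146) (nat_lit 5) (nat_lit 151) (nat_lit 5) (nat_lit 147) (nat_lit 5) (nat_lit 472) (nat_lit 413) (nat_lit 315)) (XT.lf (nat_lit 0) (nat_lit 7704272834) (nat_lit 380) (nat_lit 736326621) (nat_lit 76) (nat_lit 8292021568) (nat_lit 146) (nat_lit 5) (nat_lit 151) (nat_lit 5) (nat_lit 147) (nat_lit 5) (nat_lit 473) (nat_lit 413) (nat_lit 314))))) (XT.nd (nat_lit 312) (nat_lit 532) (nat_lit 0) (XT.nd (nat_lit 156) (nat_lit 304) (nat_lit 0) (XT.nd (nat_lit 78) (nat_lit 304) (nat_lit 0) (XT.lf (nat_lit 0) (nat_lit 9912990056) (nat_lit 228) (nat_lit 2186513860) (nat_lit 304) (nat_lit 4936283872) (nat_lit 143) (nat_lit 5) (nat_lit 146) (nat_lit 5) (nat_lit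 147) (nat_lit 5) (nat_lit 474) (nat_lit 413) (nat_lit 313)) (XT.lf (nat_lit 0) (nat_lit 3547466702) (nat_lit 304) (nat_lit 13142766486) (nat_lit 380) (nat_lit 655908495) (nat_lit 139) (nat_lit 5) (nat_lit 143) (nat_lit 5) (nat_lit 144) (nat_lit 5) (nat_lit 475) (nat_lit 413) (nat_lit 312))) (XT.nd (nat_lit 78) (nat_lit 228) (nat_lit 0) (XT.lf (nat_lit 0) (nat_lit 3755141464) (nat_lit 380) (nat_lit 3068151230) (nat_lit 76) (nat_lit 10839167678) (nat_lit 138) (nat_lit 5) (nat_lit 143) (nat_lit 5) (nat_lit 139) (nat_lit 5) (nat_lit 476) (nat_lit 413) (nat_lit 311)) (XT.lf (nat_lit 0) (nat_lit 8106944627) (nat_lit 228) (nat_lit 238079833) (nat_lit 304) (nat_lit 9641260048) (nat_lit 135) (nat_lit 5) (nat_lit 138) (nat_lit 5) (nat_lit 139) (nat_lit 5) (nat_lit 477) (nat_lit 413) (nat_lit 310)))) (XT.nd (nat_lit 156) (nat_lit 304) (nat_lit 0) (XT.nd (nat_lit 78) (nat_lit 0) (nat_lit 0) (XT.lf (nat_lit 0) (nat_lit 1294130635)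 (nat_lit 228) (nat_lit 11867021034) (nat_lit 304) (nat_lit 5156016483) (nat_lit 132) (nat_lit 5) (nat_lit 135) (nat_lit 5) (nat_lit 136) (nat_lit 5) (nat_lit 478) (nat_lit 413) (nat_lit 309)) (XT.lf (nat_lit 0) (nat_lit 12974006410) (nat_lit 228) (nat_lit 5232008547) (nat_lit 304) (nat_lit 449436960) (nat_lit 132) (nat_lit 5) (nat_lit 135) (nat_lit 5) (nat_lit 136) (nat_lit 5) (nat_lit 479) (nat_lit 413) (nat_lit 308))) (XT.nd (nat_lit 78) (nat_lit 0) (nat_lit 0) (XT.lf (nat_lit 0) (nat_lit 4369439160) (nat_lit 304) (nat_lit 12969978371) (nat_lit 76) (nat_lit 1661491588) (nat_lit 128) (nat_lit 5) (nat_lit 132) (nat_lit 5) (nat_lit 129) (nat_lit 5) (nat_lit 480) (nat_lit 413) (nat_lit 307)) (XT.lf (nat_lit 0) (nat_lit 9416227648) (nat_lit 304) (nat_lit 1229240842) (nat_lit 76) (nat_lit 8708357751) (nat_lit 128) (nat_lit 5) (nat_lit 132) (nat_lit 5) (nat_lit 129) (nat_lit 5) (nat_lit 481) (nat_lit 413) (nat_lit 306)))))))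 (XT.nd (nat_lit 1170) (nat_lit 1596) (nat_lit 0) (XT.nd (nat_lit 546) (nat_lit 988) (nat_lit 0) (XT.nd (nat_lit 234) (nat_lit 684) (nat_lit 0) (XT.nd (nat_lit 78) (nat_lit 304) (nat_lit 0) (XT.lf (nat_lit 0) (nat_lit 11051653728) (nat_lit 228) (nat_lit 3652144777) (nat_lit 304) (nat_lit 5010852058) (nat_lit 125) (nat_lit 5) (nat_lit 128) (nat_lit 5) (nat_lit 129) (nat_lit 5) (nat_lit 482) (nat_lit 413) (nat_lit 305)) (XT.nd (nat_lit 78) (nat_lit 0) (nat_lit 0) (XT.lf (nat_lit 0) (nat_lit 128113005) (nat_lit 304) (nat_lit 16436251785) (nat_lit 76) (nat_lit 3519947672) (nat_lit 121) (nat_lit 5) (nat_lit 125) (nat_lit 5) (nat_lit 122) (nat_lit 5) (nat_lit 483) (nat_lit 413) (nat_lit 304)) (XT.lf (nat_lit 0) (nat_lit 5428363530) (nat_lit 304) (nat_lit 4070951928) (nat_lit 76) (nat_lit 10961026456) (nat_lit 121) (nat_lit 5) (nat_lit 125) (nat_lit 5) (nat_lit 122) (nat_lit 5) (nat_lit 484) (nat_lit 413) (nat_lit 303))))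 (XT.nd (nat_lit 156) (nat_lit 304) (nat_lit 0) (XT.nd (nat_lit 78) (nat_lit 152) (nat_lit 0) (XT.lf (nat_lit 0) (nat_lit 8810130546) (nat_lit 228) (nat_lit 2145989498) (nat_lit 304) (nat_lit 9889478182) (nat_lit 118) (nat_lit 5) (nat_lit 121) (nat_lit 5) (nat_lit 122) (nat_lit 5) (nat_lit 485) (nat_lit 413) (nat_lit 302)) (XT.lf (nat_lit 0) (nat_lit 856849604) (nat_lit 152) (nat_lit 15878707960) (nat_lit 228) (nat_lit 4504280119) (nat_lit 116) (nat_lit 5) (nat_lit 118) (nat_lit 5) (nat_lit 119) (nat_lit 5) (nat_lit 486) (nat_lit 413) (nat_lit 301))) (XT.nd (nat_lit 78) (nat_lit 228) (nat_lit 0) (XT.lf (nat_lit 0) (nat_lit 1150087707) (nat_lit 228) (nat_lit 7319335384) (nat_lit 76) (nat_lit 13172342769) (nat_lit 115) (nat_lit 5) (nat_lit 118) (nat_lit 5) (nat_lit 116) (nat_lit 5) (nat_lit 487) (nat_lit 413) (nat_lit 300)) (XT.lf (nat_lit 0) (nat_lit 6185875503) (nat_lit 228) (nat_lit 741579664) (nat_lit 304) (nat_lit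 15125642634) (nat_lit 112) (nat_lit 5) (nat_lit 115) (nat_lit 5) (nat_lit 116) (nat_lit 5) (nat_lit 488) (nat_lit 413) (nat_lit 299))))) (XT.nd (nat_lit 312) (nat_lit 532) (nat_lit 0) (XT.nd (nat_lit 156) (nat_lit 304) (nat_lit 0) (XT.nd (nat_lit 78) (nat_lit 152) (nat_lit 0) (XT.lf (nat_lit 0) (nat_lit 13006706066) (nat_lit 304) (nat_lit 2324948252) (nat_lit 76) (nat_lit 7141259312) (nat_lit 112) (nat_lit 5) (nat_lit 116) (nat_lit 5) (nat_lit 113) (nat_lit 5) (nat_lit 489) (nat_lit 413) (nat_lit 298)) (XT.lf (nat_lit 0) (nat_lit 11821137007) (nat_lit 152) (nat_lit 7553157200) (nat_lit 228) (nat_lit 3527851714) (nat_lit 110) (nat_lit 5) (nat_lit 112) (nat_lit 5) (nat_lit 113) (nat_lit 5) (nat_lit 490) (nat_lit 413) (nat_lit 297))) (XT.nd (nat_lit 78) (nat_lit 0) (nat_lit 0) (XT.lf (nat_lit 0) (nat_lit 2581812535) (nat_lit 304) (nat_lit 20242072951) (nat_lit 76) (nat_lit 518313768) (nat_lit 106) (nat_lit 5) (nat_lit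 110) (nat_lit 5) (nat_lit 107) (nat_lit 5) (nat_lit 491) (nat_lit 413) (nat_lit 296)) (XT.lf (nat_lit 0) (nat_lit 8976764492) (nat_lit 304) (nat_lit 5994993222) (nat_lit 76) (nat_lit 8817462186) (nat_lit 106) (nat_lit 5) (nat_lit 110) (nat_lit 5) (nat_lit 107) (nat_lit 5) (nat_lit 492) (nat_lit 413) (nat_lit 295)))) (XT.nd (nat_lit 156) (nat_lit 380) (nat_lit 0) (XT.nd (nat_lit 78) (nat_lit 0) (nat_lit 0) (XT.lf (nat_lit 0) (nat_lit 8826571586) (nat_lit 152) (nat_lit 6807389366) (nat_lit 228) (nat_lit 8613579028) (nat_lit 104) (nat_lit 5) (nat_lit 106) (nat_lit 5) (nat_lit 107) (nat_lit 5) (nat_lit 493) (nat_lit 413) (nat_lit 294)) (XT.lf (nat_lit 0) (nat_lit 22553037424) (nat_lit 228) (nat_lit 543361801) (nat_lit 76) (nat_lit 1621346186) (nat_lit 104) (nat_lit 5) (nat_lit 107) (nat_lit 5) (nat_lit 105) (nat_lit 5) (nat_lit 494) (nat_lit 413) (nat_lit 293))) (XT.nd (nat_lit 78) (nat_lit 152) (nat_lit 0) (XT.lf (nat_lit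 0) (nat_lit 4589662358) (nat_lit 228) (nat_lit 10260134323) (nat_lit 76) (nat_lit 10344987471) (nat_lit 101) (nat_lit 5) (nat_lit 104) (nat_lit 5) (nat_lit 102) (nat_lit 5) (nat_lit 495) (nat_lit 413) (nat_lit 292)) (XT.lf (nat_lit 0) (nat_lit 5258753723) (nat_lit 152) (nat_lit 6286576328) (nat_lit 228) (nat_lit 14138896395) (nat_lit 99) (nat_lit 5) (nat_lit 101) (nat_lit 5) (nat_lit 102) (nat_lit 5) (nat_lit 496) (nat_lit 413) (nat_lit 291)))))) (XT.nd (nat_lit 546) (nat_lit 836) (nat_lit 0) (XT.nd (nat_lit 234) (nat_lit 380) (nat_lit 0) (XT.nd (nat_lit 78) (nat_lit 380) (nat_lit 0) (XT.lf (nat_lit 0) (nat_lit 18824808098) (nat_lit 228) (nat_lit 4781710384) (nat_lit 76) (nat_lit 2578379917) (nat_lit 99) (nat_lit 5) (nat_lit 102) (nat_lit 5) (nat_lit 100) (nat_lit 5) (nat_lit 497) (nat_lit 413) (nat_lit 290)) (XT.nd (nat_lit 78) (nat_lit 228) (nat_lit 0) (XT.lf (nat_lit 0) (nat_lit 11469022522) (nat_lit 152) (nat_lit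 15012695179) (nat_lit 228) (nat_lit 214101971) (nat_lit 97) (nat_lit 5) (nat_lit 99) (nat_lit 5) (nat_lit 100) (nat_lit 5) (nat_lit 498) (nat_lit 413) (nat_lit 289)) (XT.lf (nat_lit 0) (nat_lit 1011305590) (nat_lit 152) (nat_lit 6040584947) (nat_lit 228) (nat_lit 20166765548) (nat_lit 94) (nat_lit 5) (nat_lit 96) (nat_lit 5) (nat_lit 97) (nat_lit 5) (nat_lit 499) (nat_lit 413) (nat_lit 288)))) (XT.nd (nat_lit 156) (nat_lit 228) (nat_lit 0) (XT.nd (nat_lit 78) (nat_lit 152) (nat_lit 0) (XT.lf (nat_lit 0) (nat_lit 14704260742) (nat_lit 228) (nat_lit 9762285051) (nat_lit 76) (nat_lit 3285387699) (nat_lit 94) (nat_lit 5) (nat_lit 97) (nat_lit 5) (nat_lit 95) (nat_lit 5) (nat_lit 500) (nat_lit 413) (nat_lit 287)) (XT.lf (nat_lit 0) (nat_lit 7234191733) (nat_lit 152) (nat_lit 15468397374) (nat_lit 228) (nat_lit 5595129018) (nat_lit 92) (nat_lit 5) (nat_lit 94) (nat_lit 5) (nat_lit 95) (nat_lit 5) (nat_lit 501) (nat_lit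 413) (nat_lit 286))) (XT.nd (nat_lit 78) (nat_lit 152) (nat_lit 0) (XT.lf (nat_lit 0) (nat_lit 2127007634) (nat_lit 228) (nat_lit 3960546032) (nat_lit 76) (nat_lit 22769124276) (nat_lit 91) (nat_lit 5) (nat_lit 94) (nat_lit 5) (nat_lit 92) (nat_lit 5) (nat_lit 502) (nat_lit 413) (nat_lit 285)) (XT.lf (nat_lit 0) (nat_lit 10125041048) (nat_lit 228) (nat_lit 15615563275) (nat_lit 76) (nat_lit 3685440107) (nat_lit 89) (nat_lit 5) (nat_lit 92) (nat_lit 5) (nat_lit 90) (nat_lit 5) (nat_lit 503) (nat_lit 413) (nat_lit 284))))) (XT.nd (nat_lit 312) (nat_lit 456) (nat_lit 0) (XT.nd (nat_lit 156) (nat_lit 228) (nat_lit 0) (XT.nd (nat_lit 78) (nat_lit 0) (nat_lit 0) (XT.lf (nat_lit 0) (nat_lit 2142980622) (nat_lit 152) (nat_lit 16328795714) (nat_lit 228) (nat_lit 11537453209) (nat_lit 87) (nat_lit 5) (nat_lit 89) (nat_lit 5) (nat_lit 90) (nat_lit 5) (nat_lit 504) (nat_lit 413) (nat_lit 283)) (XT.lf (nat_lit 0) (nat_lit 20731904916)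 (nat_lit 152) (nat_lit 6482342062) (nat_lit 228) (nat_lit 3391303680) (nat_lit 87) (nat_lit 5) (nat_lit 89) (nat_lit 5) (nat_lit 90) (nat_lit 5) (nat_lit 505) (nat_lit 413) (nat_lit 282))) (XT.nd (nat_lit 78) (nat_lit 0) (nat_lit 0) (XT.lf (nat_lit 0) (nat_lit 5010157998) (nat_lit 228) (nat_lit 22493004952) (nat_lit 76) (nat_lit 3711902785) (nat_lit 84) (nat_lit 5) (nat_lit 87) (nat_lit 5) (nat_lit 85) (nat_lit 5) (nat_lit 506) (nat_lit 413) (nat_lit 281)) (XT.lf (nat_lit 0) (nat_lit 13748310064) (nat_lit 228) (nat_lit 3882697197) (nat_lit 76) (nat_lit 14206267842) (nat_lit 84) (nat_lit 5) (nat_lit 87) (nat_lit 5) (nat_lit 85) (nat_lit 5) (nat_lit 507) (nat_lit 413) (nat_lit 280)))) (XT.nd (nat_lit 156) (nat_lit 228) (nat_lit 0) (XT.nd (nat_lit 78) (nat_lit 76) (nat_lit 0) (XT.lf (nat_lit 0) (nat_lit 15568241788) (nat_lit 152) (nat_lit 7318302913) (nat_lit 228) (nat_lit 9587468303) (nat_lit 82) (nat_lit 5) (nat_lit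 84) (nat_lit 5) (nat_lit 85) (nat_lit 5) (nat_lit 508) (nat_lit 413) (nat_lit 279)) (XT.lf (nat_lit 0) (nat_lit 2549717023) (nat_lit 76) (nat_lit 29833402867) (nat_lit 152) (nat_lit 744207732) (nat_lit 81) (nat_lit 5) (nat_lit 82) (nat_lit 5) (nat_lit 83) (nat_lit 4) (nat_lit 509) (nat_lit 413) (nat_lit 278))) (XT.nd (nat_lit 78) (nat_lit 152) (nat_lit 0) (XT.lf (nat_lit 0) (nat_lit 8434346693) (nat_lit 152) (nat_lit 11035786383) (nat_lit 76) (nat_lit 14320700426) (nat_lit 80) (nat_lit 5) (nat_lit 82) (nat_lit 5) (nat_lit 81) (nat_lit 5) (nat_lit 510) (nat_lit 413) (nat_lit 277)) (XT.lf (nat_lit 0) (nat_lit 9244407249) (nat_lit 152) (nat_lit 8706445668) (nat_lit 228) (nat_lit 16520844351) (nat_lit 78) (nat_lit 5) (nat_lit 80) (nat_lit 5) (nat_lit 81) (nat_lit 5) (nat_lit 511) (nat_lit 413) (nat_lit 276))))))))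
noncomputable def xc129 : XT := (XT.nd (nat_lit 2340) (nat_lit 456) (nat_lit 0) (XT.nd (nat_lit 1170) (nat_lit 1064) (nat_lit 0) (XT.nd (nat_lit 546) (nat_lit 608) (nat_lit 0) (XT.nd (nat_lit 234) (nat_lit 304) (nat_lit 0) (XT.nd (nat_lit 78) (nat_lit 304) (nat_lit 0) (XT.lf (nat_lit 0) (nat_lit 27877005933) (nat_lit 228) (nat_lit 4855344892) (nat_lit 76) (nat_lit 2436911915) (nat_lit 78) (nat_lit 5) (nat_lit 81) (nat_lit 5) (nat_lit 79) (nat_lit 4) (nat_lit 512) (nat_lit 413) (nat_lit 275)) (XT.nd (nat_lit 78) (nat_lit 152) (nat_lit 0) (XT.lf (nat_lit 0) (nat_lit 2404631502) (nat_lit 152) (nat_lit 19564288250) (nat_lit 76) (nat_lit 13911158596) (nat_lit 76) (nat_lit 5) (nat_lit 78) (nat_lit 5) (nat_lit 77) (nat_lit 5) (nat_lit 513) (nat_lit 413) (nat_lit 274)) (XT.lf (nat_lit 0) (nat_lit 1548006580) (nat_lit 152) (nat_lit 10751322987) (nat_lit 228) (nat_lit 24309119046) (nat_lit 74) (nat_lit 5) (nat_lit 76) (nat_lit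 5) (nat_lit 77) (nat_lit 5) (nat_lit 514) (nat_lit 413) (nat_lit 273)))) (XT.nd (nat_lit 156) (nat_lit 228) (nat_lit 0) (XT.nd (nat_lit 78) (nat_lit 76) (nat_lit 0) (XT.lf (nat_lit 0) (nat_lit 22687212067) (nat_lit 228) (nat_lit 13688088070) (nat_lit 76) (nat_lit 977479847) (nat_lit 74) (nat_lit 5) (nat_lit 77) (nat_lit 5) (nat_lit 75) (nat_lit 4) (nat_lit 515) (nat_lit 413) (nat_lit 272)) (XT.lf (nat_lit 0) (nat_lit 8362370824) (nat_lit 76) (nat_lit 25200619855) (nat_lit 152) (nat_lit 4551163121) (nat_lit 73) (nat_lit 5) (nat_lit 74) (nat_lit 5) (nat_lit 75) (nat_lit 4) (nat_lit 516) (nat_lit 413) (nat_lit 271))) (XT.nd (nat_lit 78) (nat_lit 152) (nat_lit 0) (XT.lf (nat_lit 0) (nat_lit 5881227691) (nat_lit 152) (nat_lit 7616862101) (nat_lit 76) (nat_lit 25394716481) (nat_lit 72) (nat_lit 5) (nat_lit 74) (nat_lit 5) (nat_lit 73) (nat_lit 5) (nat_lit 517) (nat_lit 413) (nat_lit 270)) (XT.lf (nat_lit 0) (nat_lit 15418683285)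 (nat_lit 152) (nat_lit 1254396804) (nat_lit 228) (nat_lit 23016247756) (nat_lit 70) (nat_lit 5) (nat_lit 72) (nat_lit 5) (nat_lit 73) (nat_lit 5) (nat_lit 518) (nat_lit 413) (nat_lit 269))))) (XT.nd (nat_lit 312) (nat_lit 304) (nat_lit 0) (XT.nd (nat_lit 156) (nat_lit 228) (nat_lit 0) (XT.nd (nat_lit 78) (nat_lit 76) (nat_lit 0) (XT.lf (nat_lit 0) (nat_lit 27965311316) (nat_lit 228) (nat_lit 1335198733) (nat_lit 76) (nat_lit 11203936579) (nat_lit 70) (nat_lit 5) (nat_lit 73) (nat_lit 5) (nat_lit 71) (nat_lit 4) (nat_lit 519) (nat_lit 413) (nat_lit 268)) (XT.lf (nat_lit 0) (nat_lit 22700147310) (nat_lit 76) (nat_lit 17116867012) (nat_lit 152) (nat_lit 1520383761) (nat_lit 69) (nat_lit 5) (nat_lit 70) (nat_lit 5) (nat_lit 71) (nat_lit 4) (nat_lit 520) (nat_lit 413) (nat_lit 267))) (XT.nd (nat_lit 78) (nat_lit 0) (nat_lit 0) (XT.lf (nat_lit 0) (nat_lit 5278661833) (nat_lit 152) (nat_lit 4412919730) (nat_lit 228) (nat_lit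 32499288835) (nat_lit 66) (nat_lit 5) (nat_lit 68) (nat_lit 5) (nat_lit 69) (nat_lit 5) (nat_lit 521) (nat_lit 413) (nat_lit 266)) (XT.lf (nat_lit 0) (nat_lit 21472890070) (nat_lit 228) (nat_lit 12889228120) (nat_lit 76) (nat_lit 8699471053) (nat_lit 66) (nat_lit 5) (nat_lit 69) (nat_lit 5) (nat_lit 67) (nat_lit 4) (nat_lit 522) (nat_lit 413) (nat_lit 265)))) (XT.nd (nat_lit 156) (nat_lit 152) (nat_lit 0) (XT.nd (nat_lit 78) (nat_lit 76) (nat_lit 0) (XT.lf (nat_lit 0) (nat_lit 12027244543) (nat_lit 76) (nat_lit 21730104041) (nat_lit 152) (nat_lit 10196589972) (nat_lit 65) (nat_lit 5) (nat_lit 66) (nat_lit 5) (nat_lit 67) (nat_lit 4) (nat_lit 523) (nat_lit 413) (nat_lit 264)) (XT.lf (nat_lit 0) (nat_lit 1629146503) (nat_lit 152) (nat_lit 6948003996) (nat_lit 76) (nat_lit 36291808885) (nat_lit 64) (nat_lit 5) (nat_lit 66) (nat_lit 5) (nat_lit 65) (nat_lit 5) (nat_lit 524) (nat_lit 413) (nat_lit 263))) (XT.nd (nat_lit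 78) (nat_lit 0) (nat_lit 0) (XT.lf (nat_lit 0) (nat_lit 13828874028) (nat_lit 228) (nat_lit 26820894541) (nat_lit 76) (nat_lit 5151908975) (nat_lit 62) (nat_lit 5) (nat_lit 65) (nat_lit 5) (nat_lit 63) (nat_lit 4) (nat_lit 525) (nat_lit 413) (nat_lit 262)) (XT.lf (nat_lit 0) (nat_lit 26541090781) (nat_lit 228) (nat_lit 1033733319) (nat_lit 76) (nat_lit 19183158425) (nat_lit 62) (nat_lit 5) (nat_lit 65) (nat_lit 5) (nat_lit 63) (nat_lit 4) (nat_lit 526) (nat_lit 413) (nat_lit 261)))))) (XT.nd (nat_lit 546) (nat_lit 532) (nat_lit 0) (XT.nd (nat_lit 234) (nat_lit 228) (nat_lit 0) (XT.nd (nat_lit 78) (nat_lit 228) (nat_lit 0) (XT.lf (nat_lit 0) (nat_lit 26017549675) (nat_lit 76) (nat_lit 13858210518) (nat_lit 152) (nat_lit 7859984074) (nat_lit 61) (nat_lit 5) (nat_lit 62) (nat_lit 5) (nat_lit 63) (nat_lit 4) (nat_lit 527) (nat_lit 413) (nat_lit 260)) (XT.nd (nat_lit 78) (nat_lit 0) (nat_lit 0) (XT.lf (nat_lit 0) (nat_lit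 4827716066) (nat_lit 228) (nat_lit 43547127030) (nat_lit 76) (nat_lit 364940121) (nat_lit 58) (nat_lit 5) (nat_lit 61) (nat_lit 5) (nat_lit 59) (nat_lit 4) (nat_lit 528) (nat_lit 413) (nat_lit 259)) (XT.lf (nat_lit 0) (nat_lit 18087782131) (nat_lit 228) (nat_lit 16645753239) (nat_lit 76) (nat_lit 15027582110) (nat_lit 58) (nat_lit 5) (nat_lit 61) (nat_lit 5) (nat_lit 59) (nat_lit 4) (nat_lit 529) (nat_lit 413) (nat_lit 258)))) (XT.nd (nat_lit 156) (nat_lit 152) (nat_lit 0) (XT.nd (nat_lit 78) (nat_lit 0) (nat_lit 0) (XT.lf (nat_lit 0) (nat_lit 11265778852) (nat_lit 76) (nat_lit 20579446665) (nat_lit 152) (nat_lit 18964879166) (nat_lit 57) (nat_lit 5) (nat_lit 58) (nat_lit 5) (nat_lit 59) (nat_lit 4) (nat_lit 530) (nat_lit 413) (nat_lit 257)) (XT.lf (nat_lit 0) (nat_lit 40339323604) (nat_lit 76) (nat_lit 5835534644) (nat_lit 152) (nat_lit 5710919441) (nat_lit 57) (nat_lit 5) (nat_lit 58) (nat_lit 5) (nat_lit 59)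 (nat_lit 4) (nat_lit 531) (nat_lit 413) (nat_lit 256))) (XT.nd (nat_lit 78) (nat_lit 0) (nat_lit 0) (XT.lf (nat_lit 0) (nat_lit 8038103378) (nat_lit 152) (nat_lit 35537789638) (nat_lit 76) (nat_lit 9407966258) (nat_lit 55) (nat_lit 5) (nat_lit 57) (nat_lit 5) (nat_lit 56) (nat_lit 4) (nat_lit 532) (nat_lit 413) (nat_lit 255)) (XT.lf (nat_lit 0) (nat_lit 22251903771) (nat_lit 152) (nat_lit 6698059919) (nat_lit 76) (nat_lit 25158210735) (nat_lit 55) (nat_lit 5) (nat_lit 57) (nat_lit 5) (nat_lit 56) (nat_lit 4) (nat_lit 533) (nat_lit 413) (nat_lit 254))))) (XT.nd (nat_lit 312) (nat_lit 228) (nat_lit 0) (XT.nd (nat_lit 156) (nat_lit 228) (nat_lit 0) (XT.nd (nat_lit 78) (nat_lit 0) (nat_lit 0) (XT.lf (nat_lit 0) (nat_lit 23448643930) (nat_lit 76) (nat_lit 13660684895) (nat_lit 152) (nat_lit 18150374037) (nat_lit 54) (nat_lit 5) (nat_lit 55) (nat_lit 5) (nat_lit 56) (nat_lit 4) (nat_lit 534) (nat_lit 413) (nat_lit 253))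 (XT.lf (nat_lit 0) (nat_lit 52492671656) (nat_lit 152) (nat_lit 1843230699) (nat_lit 0) (nat_lit 2107469090) (nat_lit 54) (nat_lit 5) (nat_lit 56) (nat_lit 4) (nat_lit 54) (nat_lit 4) (nat_lit 535) (nat_lit 413) (nat_lit 252))) (XT.nd (nat_lit 78) (nat_lit 76) (nat_lit 0) (XT.lf (nat_lit 0) (nat_lit 10881106132) (nat_lit 152) (nat_lit 28309249225) (nat_lit 76) (nat_lit 18456682982) (nat_lit 52) (nat_lit 5) (nat_lit 54) (nat_lit 5) (nat_lit 53) (nat_lit 4) (nat_lit 536) (nat_lit 413) (nat_lit 251)) (XT.lf (nat_lit 0) (nat_lit 2601890486) (nat_lit 76) (nat_lit 23512448230) (nat_lit 152) (nat_lit 32770226851) (nat_lit 51) (nat_lit 5) (nat_lit 52) (nat_lit 5) (nat_lit 53) (nat_lit 4) (nat_lit 537) (nat_lit 413) (nat_lit 250)))) (XT.nd (nat_lit 156) (nat_lit 152) (nat_lit 0) (XT.nd (nat_lit 78) (nat_lit 76) (nat_lit 0) (XT.lf (nat_lit 0) (nat_lit 35005477984) (nat_lit 76) (nat_lit 7077112469) (nat_lit 152) (nat_lit 18068287623)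 (nat_lit 51) (nat_lit 5) (nat_lit 52) (nat_lit 5) (nat_lit 53) (nat_lit 4) (nat_lit 538) (nat_lit 413) (nat_lit 249)) (XT.lf (nat_lit 0) (nat_lit 6952040317) (nat_lit 76) (nat_lit 51731687419) (nat_lit 76) (nat_lit 2766837210) (nat_lit 50) (nat_lit 4) (nat_lit 51) (nat_lit 5) (nat_lit 51) (nat_lit 4) (nat_lit 539) (nat_lit 413) (nat_lit 248))) (XT.nd (nat_lit 78) (nat_lit 76) (nat_lit 0) (XT.lf (nat_lit 0) (nat_lit 13058928025) (nat_lit 152) (nat_lit 22466174640) (nat_lit 76) (nat_lit 27250828053) (nat_lit 49) (nat_lit 5) (nat_lit 51) (nat_lit 5) (nat_lit 50) (nat_lit 4) (nat_lit 540) (nat_lit 413) (nat_lit 247)) (XT.lf (nat_lit 0) (nat_lit 10693941025) (nat_lit 76) (nat_lit 18705255525) (nat_lit 152) (nat_lit 34738178965) (nat_lit 48) (nat_lit 5) (nat_lit 49) (nat_lit 5) (nat_lit 50) (nat_lit 4) (nat_lit 541) (nat_lit 413) (nat_lit 246))))))) (XT.nd (nat_lit 52962) (nat_lit 0) (nat_lit 18544) (XT.nd (nat_lit 546)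 (nat_lit 76) (nat_lit 0) (XT.nd (nat_lit 234) (nat_lit 228) (nat_lit 0) (XT.nd (nat_lit 78) (nat_lit 152) (nat_lit 0) (XT.lf (nat_lit 0) (nat_lit 45295049048) (nat_lit 76) (nat_lit 1154111969) (nat_lit 152) (nat_lit 19083918113) (nat_lit 48) (nat_lit 5) (nat_lit 49) (nat_lit 5) (nat_lit 50) (nat_lit 4) (nat_lit 542) (nat_lit 413) (nat_lit 245)) (XT.nd (nat_lit 78) (nat_lit 76) (nat_lit 0) (XT.lf (nat_lit 0) (nat_lit 14061162979) (nat_lit 76) (nat_lit 50240078988) (nat_lit 76) (nat_lit 2660693468) (nat_lit 47) (nat_lit 4) (nat_lit 48) (nat_lit 5) (nat_lit 48) (nat_lit 4) (nat_lit 543) (nat_lit 413) (nat_lit 244)) (XT.lf (nat_lit 0) (nat_lit 14187650727) (nat_lit 152) (nat_lit 18787898662) (nat_lit 76) (nat_lit 35447679431) (nat_lit 46) (nat_lit 5) (nat_lit 48) (nat_lit 5) (nat_lit 47) (nat_lit 4) (nat_lit 544) (nat_lit 413) (nat_lit 243)))) (XT.nd (nat_lit 156) (nat_lit 152) (nat_lit 0) (XT.nd (nat_lit 78) (nat_lit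 0) (nat_lit 0) (XT.lf (nat_lit 0) (nat_lit 16632912535) (nat_lit 76) (nat_lit 15007930432) (nat_lit 152) (nat_lit 38282141585) (nat_lit 45) (nat_lit 5) (nat_lit 46) (nat_lit 5) (nat_lit 47) (nat_lit 4) (nat_lit 545) (nat_lit 413) (nat_lit 242)) (XT.lf (nat_lit 0) (nat_lit 49835862017) (nat_lit 152) (nat_lit 18009754005) (nat_lit 0) (nat_lit 3615570096) (nat_lit 45) (nat_lit 5) (nat_lit 47) (nat_lit 4) (nat_lit 45) (nat_lit 4) (nat_lit 546) (nat_lit 413) (nat_lit 241))) (XT.nd (nat_lit 78) (nat_lit 76) (nat_lit 0) (XT.lf (nat_lit 0) (nat_lit 18528655529) (nat_lit 76) (nat_lit 50367982010) (nat_lit 76) (nat_lit 4139299110) (nat_lit 44) (nat_lit 4) (nat_lit 45) (nat_lit 5) (nat_lit 45) (nat_lit 4) (nat_lit 547) (nat_lit 413) (nat_lit 240)) (XT.lf (nat_lit 0) (nat_lit 13777499885) (nat_lit 152) (nat_lit 18268504713) (nat_lit 76) (nat_lit 42602618827) (nat_lit 43) (nat_lit 5) (nat_lit 45) (nat_lit 5) (nat_lit 44) (nat_lit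 4) (nat_lit 548) (nat_lit 413) (nat_lit 239))))) (XT.nd (nat_lit 52104) (nat_lit 0) (nat_lit 24624) (XT.nd (nat_lit 51948) (nat_lit 0) (nat_lit 24624) (XT.nd (nat_lit 78) (nat_lit 0) (nat_lit 0) (XT.lf (nat_lit 0) (nat_lit 19381756350) (nat_lit 76) (nat_lit 12946566375) (nat_lit 152) (nat_lit 43974747199) (nat_lit 42) (nat_lit 5) (nat_lit 43) (nat_lit 5) (nat_lit 44) (nat_lit 4) (nat_lit 549) (nat_lit 413) (nat_lit 238)) (XT.lf (nat_lit 0) (nat_lit 51680041371) (nat_lit 152) (nat_lit 19544995944) (nat_lit 0) (nat_lit 6774781452) (nat_lit 42) (nat_lit 5) (nat_lit 44) (nat_lit 4) (nat_lit 42) (nat_lit 4) (nat_lit 550) (nat_lit 413) (nat_lit 237))) (XT.nd (nat_lit 78) (nat_lit 836) (nat_lit 0) (XT.lf (nat_lit 0) (nat_lit 2989757684) (nat_lit 836) (nat_lit 323433539) (nat_lit 836) (nat_lit 323433539) (nat_lit 377) (nat_lit 3) (nat_lit 388) (nat_lit 3) (nat_lit 388) (nat_lit 5) (nat_lit 414) (nat_lit 414) (nat_lit 372))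 (XT.lf (nat_lit 0) (nat_lit 331073640) (nat_lit 836) (nat_lit 4325745912) (nat_lit 912) (nat_lit 2677072340) (nat_lit 366) (nat_lit 5) (nat_lit 377) (nat_lit 3) (nat_lit 378) (nat_lit 5) (nat_lit 415) (nat_lit 414) (nat_lit 371)))) (XT.nd (nat_lit 156) (nat_lit 0) (nat_lit 76) (XT.nd (nat_lit 78) (nat_lit 0) (nat_lit 0) (XT.lf (nat_lit 0) (nat_lit 1922878404) (nat_lit 836) (nat_lit 656474258) (nat_lit 912) (nat_lit 4818299749) (nat_lit 366) (nat_lit 5) (nat_lit 377) (nat_lit 3) (nat_lit 378) (nat_lit 5) (nat_lit 416) (nat_lit 414) (nat_lit 370)) (XT.lf (nat_lit 76) (nat_lit 3151843105) (nat_lit 0) (nat_lit 380366159) (nat_lit 912) (nat_lit 3932033832) (nat_lit 367) (nat_lit 5) (nat_lit 366) (nat_lit 5) (nat_lit 378) (nat_lit 5) (nat_lit 417) (nat_lit 414) (nat_lit 369))) (XT.nd (nat_lit 78) (nat_lit 0) (nat_lit 0) (XT.lf (nat_lit 0) (nat_lit 5155816463) (nat_lit 836) (nat_lit 497204816) (nat_lit 912) (nat_lit 1880840534)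 (nat_lit 367) (nat_lit 5) (nat_lit 378) (nat_lit 5) (nat_lit 379) (nat_lit 5) (nat_lit 418) (nat_lit 414) (nat_lit 368)) (XT.lf (nat_lit 76) (nat_lit 3462995742) (nat_lit 0) (nat_lit 3345089446) (nat_lit 912) (nat_lit 798095211) (nat_lit 368) (nat_lit 5) (nat_lit 367) (nat_lit 5) (nat_lit 379) (nat_lit 5) (nat_lit 419) (nat_lit 414) (nat_lit 367)))))) (XT.nd (nat_lit 624) (nat_lit 4408) (nat_lit 0) (XT.nd (nat_lit 312) (nat_lit 836) (nat_lit 0) (XT.nd (nat_lit 156) (nat_lit 0) (nat_lit 76) (XT.nd (nat_lit 78) (nat_lit 0) (nat_lit 76) (XT.lf (nat_lit 0) (nat_lit 761826195) (nat_lit 912) (nat_lit 170408439) (nat_lit 988) (nat_lit 6749741472) (nat_lit 355) (nat_lit 5) (nat_lit 367) (nat_lit 5) (nat_lit 368) (nat_lit 5) (nat_lit 420) (nat_lit 414) (nat_lit 366)) (XT.lf (nat_lit 0) (nat_lit 2351464478) (nat_lit 912) (nat_lit 3818099313) (nat_lit 988) (nat_lit 1590285097) (nat_lit 356) (nat_lit 5) (nat_lit 368) (nat_lit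 5) (nat_lit 369) (nat_lit 5) (nat_lit 421) (nat_lit 414) (nat_lit 365))) (XT.nd (nat_lit 78) (nat_lit 0) (nat_lit 0) (XT.lf (nat_lit 76) (nat_lit 302865313) (nat_lit 0) (nat_lit 3646606260) (nat_lit 988) (nat_lit 3891774692) (nat_lit 357) (nat_lit 5) (nat_lit 356) (nat_lit 5) (nat_lit 369) (nat_lit 5) (nat_lit 422) (nat_lit 414) (nat_lit 364)) (XT.lf (nat_lit 76) (nat_lit 4591508060) (nat_lit 0) (nat_lit 990487176) (nat_lit 988) (nat_lit 2343501581) (nat_lit 357) (nat_lit 5) (nat_lit 356) (nat_lit 5) (nat_lit 369) (nat_lit 5) (nat_lit 423) (nat_lit 414) (nat_lit 363)))) (XT.nd (nat_lit 156) (nat_lit 0) (nat_lit 0) (XT.nd (nat_lit 78) (nat_lit 988) (nat_lit 0) (XT.lf (nat_lit 76) (nat_lit 963653034) (nat_lit 0) (nat_lit 6275582583) (nat_lit 988) (nat_lit 773775336) (nat_lit 358) (nat_lit 5) (nat_lit 357) (nat_lit 5) (nat_lit 370) (nat_lit 5) (nat_lit 424) (nat_lit 414) (nat_lit 362)) (XT.lf (nat_lit 0) (nat_lit 820737579)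 (nat_lit 988) (nat_lit 2697380303) (nat_lit 1064) (nat_lit 4584972965) (nat_lit 344) (nat_lit 5) (nat_lit 357) (nat_lit 5) (nat_lit 358) (nat_lit 5) (nat_lit 425) (nat_lit 414) (nat_lit 361))) (XT.nd (nat_lit 78) (nat_lit 0) (nat_lit 76) (XT.lf (nat_lit 76) (nat_lit 1777656411) (nat_lit 0) (nat_lit 638750512) (nat_lit 1064) (nat_lit 5780177778) (nat_lit 345) (nat_lit 5) (nat_lit 344) (nat_lit 5) (nat_lit 358) (nat_lit 5) (nat_lit 426) (nat_lit 414) (nat_lit 360)) (XT.lf (nat_lit 0) (nat_lit 4062808202) (nat_lit 988) (nat_lit 1908201647) (nat_lit 1064) (nat_lit 2321795037) (nat_lit 345) (nat_lit 5) (nat_lit 358) (nat_lit 5) (nat_lit 359) (nat_lit 5) (nat_lit 427) (nat_lit 414) (nat_lit 359))))) (XT.nd (nat_lit 312) (nat_lit 2432) (nat_lit 0) (XT.nd (nat_lit 156) (nat_lit 2052) (nat_lit 0) (XT.nd (nat_lit 78) (nat_lit 0) (nat_lit 76) (XT.lf (nat_lit 76) (nat_lit 2750500441) (nat_lit 0) (nat_lit 2995219580) (nat_lit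 1064) (nat_lit 2646585257) (nat_lit 346) (nat_lit 5) (nat_lit 345) (nat_lit 5) (nat_lit 359) (nat_lit 5) (nat_lit 428) (nat_lit 414) (nat_lit 358)) (XT.lf (nat_lit 0) (nat_lit 7454703380) (nat_lit 988) (nat_lit 942794306) (nat_lit 76) (nat_lit 98032418) (nat_lit 346) (nat_lit 5) (nat_lit 359) (nat_lit 5) (nat_lit 347) (nat_lit 5) (nat_lit 429) (nat_lit 414) (nat_lit 357))) (XT.nd (nat_lit 78) (nat_lit 1064) (nat_lit 0) (XT.lf (nat_lit 0) (nat_lit 625353783) (nat_lit 1064) (nat_lit 4698215932) (nat_lit 76) (nat_lit 3277385310) (nat_lit 332) (nat_lit 5) (nat_lit 346) (nat_lit 5) (nat_lit 333) (nat_lit 5) (nat_lit 430) (nat_lit 414) (nat_lit 356)) (XT.lf (nat_lit 0) (nat_lit 161180485) (nat_lit 1064) (nat_lit 2127837473) (nat_lit 1140) (nat_lit 6421169403) (nat_lit 318) (nat_lit 5) (nat_lit 332) (nat_lit 5) (nat_lit 333) (nat_lit 5) (nat_lit 431) (nat_lit 414) (nat_lit 355)))) (XT.nd (nat_lit 156) (nat_lit 1292) (nat_lit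 0) (XT.nd (nat_lit 78) (nat_lit 1140) (nat_lit 0) (XT.lf (nat_lit 0) (nat_lit 4019920948) (nat_lit 1140) (nat_lit 3606517243) (nat_lit 76) (nat_lit 1195744784) (nat_lit 318) (nat_lit 5) (nat_lit 333) (nat_lit 5) (nat_lit 319) (nat_lit 5) (nat_lit 432) (nat_lit 414) (nat_lit 354)) (XT.lf (nat_lit 0) (nat_lit 1456400054) (nat_lit 1140) (nat_lit 4340864643) (nat_lit 1216) (nat_lit 3140444341) (nat_lit 303) (nat_lit 5) (nat_lit 318) (nat_lit 5) (nat_lit 319) (nat_lit 5) (nat_lit 433) (nat_lit 414) (nat_lit 353))) (XT.nd (nat_lit 78) (nat_lit 1292) (nat_lit 0) (XT.lf (nat_lit 0) (nat_lit 6710281088) (nat_lit 1140) (nat_lit 914358733) (nat_lit 1216) (nat_lit 1432165550) (nat_lit 303) (nat_lit 5) (nat_lit 318) (nat_lit 5) (nat_lit 319) (nat_lit 5) (nat_lit 434) (nat_lit 414) (nat_lit 352)) (XT.lf (nat_lit 0) (nat_lit 336002112) (nat_lit 1292) (nat_lit 6242846558) (nat_lit 76) (nat_lit 2600086149) (nat_lit 286) (nat_lit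 5) (nat_lit 303) (nat_lit 5) (nat_lit 287) (nat_lit 5) (nat_lit 435) (nat_lit 414) (nat_lit 351))))))))
noncomputable def xc130 : XT := (XT.nd (nat_lit 2340) (nat_lit 5016) (nat_lit 0) (XT.nd (nat_lit 1170) (nat_lit 3724) (nat_lit 0) (XT.nd (nat_lit 546) (nat_lit 2660) (nat_lit 0) (XT.nd (nat_lit 234) (nat_lit 1216) (nat_lit 0) (XT.nd (nat_lit 78) (nat_lit 1368) (nat_lit 0) (XT.lf (nat_lit 0) (nat_lit 2123315922) (nat_lit 1292) (nat_lit 937670289) (nat_lit 76) (nat_lit 6243475284) (nat_lit 286) (nat_lit 5) (nat_lit 303) (nat_lit 5) (nat_lit 287) (nat_lit 5) (nat_lit 436) (nat_lit 414) (nat_lit 350)) (XT.nd (nat_lit 78) (nat_lit 608) (nat_lit 0) (XT.lf (nat_lit 0) (nat_lit 3977170333) (nat_lit 836) (nat_lit 4857782064) (nat_lit 76) (nat_lit 598419108) (nat_lit 276) (nat_lit 5) (nat_lit 287) (nat_lit 5) (nat_lit 277) (nat_lit 5) (nat_lit 437) (nat_lit 414) (nat_lit 349)) (XT.lf (nat_lit 0) (nat_lit 654771668) (nat_lit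 608) (nat_lit 5241814967) (nat_lit 684) (nat_lit 3669268810) (nat_lit 268) (nat_lit 5) (nat_lit 276) (nat_lit 5) (nat_lit 277) (nat_lit 5) (nat_lit 438) (nat_lit 414) (nat_lit 348)))) (XT.nd (nat_lit 156) (nat_lit 532) (nat_lit 0) (XT.nd (nat_lit 78) (nat_lit 684) (nat_lit 0) (XT.lf (nat_lit 0) (nat_lit 6397418689) (nat_lit 608) (nat_lit 1489723569) (nat_lit 684) (nat_lit 1814769815) (nat_lit 268) (nat_lit 5) (nat_lit 276) (nat_lit 5) (nat_lit 277) (nat_lit 5) (nat_lit 439) (nat_lit 414) (nat_lit 347)) (XT.lf (nat_lit 0) (nat_lit 105642207) (nat_lit 684) (nat_lit 7382141944) (nat_lit 76) (nat_lit 2353879173) (nat_lit 259) (nat_lit 5) (nat_lit 268) (nat_lit 5) (nat_lit 260) (nat_lit 5) (nat_lit 440) (nat_lit 414) (nat_lit 346))) (XT.nd (nat_lit 78) (nat_lit 532) (nat_lit 0) (XT.lf (nat_lit 0) (nat_lit 2061515597) (nat_lit 684) (nat_lit 1588692469) (nat_lit 76) (nat_lit 6334434743) (nat_lit 259) (nat_lit 5) (nat_lit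 268) (nat_lit 5) (nat_lit 260) (nat_lit 5) (nat_lit 441) (nat_lit 414) (nat_lit 345)) (XT.lf (nat_lit 0) (nat_lit 4088844991) (nat_lit 608) (nat_lit 5704137197) (nat_lit 76) (nat_lit 338550426) (nat_lit 252) (nat_lit 5) (nat_lit 260) (nat_lit 5) (nat_lit 253) (nat_lit 5) (nat_lit 442) (nat_lit 414) (nat_lit 344))))) (XT.nd (nat_lit 312) (nat_lit 1520) (nat_lit 0) (XT.nd (nat_lit 156) (nat_lit 608) (nat_lit 0) (XT.nd (nat_lit 78) (nat_lit 0) (nat_lit 0) (XT.lf (nat_lit 0) (nat_lit 309078636) (nat_lit 532) (nat_lit 5890723972) (nat_lit 608) (nat_lit 4082346459) (nat_lit 245) (nat_lit 5) (nat_lit 252) (nat_lit 5) (nat_lit 253) (nat_lit 5) (nat_lit 443) (nat_lit 414) (nat_lit 343)) (XT.lf (nat_lit 0) (nat_lit 6585123878) (nat_lit 532) (nat_lit 1814675918) (nat_lit 608) (nat_lit 2036716973) (nat_lit 245) (nat_lit 5) (nat_lit 252) (nat_lit 5) (nat_lit 253) (nat_lit 5) (nat_lit 444) (nat_lit 414) (nat_lit 342))) (XT.nd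 (nat_lit 78) (nat_lit 0) (nat_lit 0) (XT.lf (nat_lit 0) (nat_lit 84482956) (nat_lit 608) (nat_lit 8151565697) (nat_lit 76) (nat_lit 2358983237) (nat_lit 237) (nat_lit 5) (nat_lit 245) (nat_lit 5) (nat_lit 238) (nat_lit 5) (nat_lit 445) (nat_lit 414) (nat_lit 341)) (XT.lf (nat_lit 0) (nat_lit 2254911490) (nat_lit 608) (nat_lit 1824210334) (nat_lit 76) (nat_lit 6677783554) (nat_lit 237) (nat_lit 5) (nat_lit 245) (nat_lit 5) (nat_lit 238) (nat_lit 5) (nat_lit 446) (nat_lit 414) (nat_lit 340)))) (XT.nd (nat_lit 156) (nat_lit 532) (nat_lit 0) (XT.nd (nat_lit 78) (nat_lit 456) (nat_lit 0) (XT.lf (nat_lit 0) (nat_lit 4508673783) (nat_lit 608) (nat_lit 6173497783) (nat_lit 76) (nat_lit 240920503) (nat_lit 230) (nat_lit 5) (nat_lit 238) (nat_lit 5) (nat_lit 231) (nat_lit 5) (nat_lit 447) (nat_lit 414) (nat_lit 339)) (XT.lf (nat_lit 0) (nat_lit 397298552) (nat_lit 456) (nat_lit 6466248710) (nat_lit 532) (nat_lit 4229715671)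 (nat_lit 224) (nat_lit 5) (nat_lit 230) (nat_lit 5) (nat_lit 231) (nat_lit 5) (nat_lit 448) (nat_lit 414) (nat_lit 338))) (XT.nd (nat_lit 78) (nat_lit 532) (nat_lit 0) (XT.lf (nat_lit 0) (nat_lit 7257924250) (nat_lit 456) (nat_lit 2064699870) (nat_lit 532) (nat_lit 1944911504) (nat_lit 224) (nat_lit 5) (nat_lit 230) (nat_lit 5) (nat_lit 231) (nat_lit 5) (nat_lit 449) (nat_lit 414) (nat_lit 337)) (XT.lf (nat_lit 0) (nat_lit 424082129) (nat_lit 532) (nat_lit 8574427544) (nat_lit 76) (nat_lit 2447703799) (nat_lit 217) (nat_lit 5) (nat_lit 224) (nat_lit 5) (nat_lit 218) (nat_lit 5) (nat_lit 450) (nat_lit 414) (nat_lit 336)))))) (XT.nd (nat_lit 546) (nat_lit 1900) (nat_lit 0) (XT.nd (nat_lit 234) (nat_lit 912) (nat_lit 0) (XT.nd (nat_lit 78) (nat_lit 912) (nat_lit 0) (XT.lf (nat_lit 0) (nat_lit 2858615060) (nat_lit 532) (nat_lit 1661198458) (nat_lit 76) (nat_lit 7108856759) (nat_lit 217) (nat_lit 5) (nat_lit 224) (nat_lit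 5) (nat_lit 218) (nat_lit 5) (nat_lit 451) (nat_lit 414) (nat_lit 335)) (XT.nd (nat_lit 78) (nat_lit 456) (nat_lit 0) (XT.lf (nat_lit 0) (nat_lit 5393787880) (nat_lit 532) (nat_lit 6282649514) (nat_lit 76) (nat_lit 139338313) (nat_lit 211) (nat_lit 5) (nat_lit 218) (nat_lit 5) (nat_lit 212) (nat_lit 5) (nat_lit 452) (nat_lit 414) (nat_lit 334)) (XT.lf (nat_lit 0) (nat_lit 908851003) (nat_lit 456) (nat_lit 7140043215) (nat_lit 532) (nat_lit 3958286680) (nat_lit 205) (nat_lit 5) (nat_lit 211) (nat_lit 5) (nat_lit 212) (nat_lit 5) (nat_lit 453) (nat_lit 414) (nat_lit 333)))) (XT.nd (nat_lit 156) (nat_lit 456) (nat_lit 0) (XT.nd (nat_lit 78) (nat_lit 456) (nat_lit 0) (XT.lf (nat_lit 0) (nat_lit 8411901551) (nat_lit 456) (nat_lit 2409101213) (nat_lit 532) (nat_lit 1382207873) (nat_lit 205) (nat_lit 5) (nat_lit 211) (nat_lit 5) (nat_lit 212) (nat_lit 5) (nat_lit 454) (nat_lit 414) (nat_lit 332)) (XT.lf (nat_lit 0) (nat_lit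 1281035324) (nat_lit 456) (nat_lit 8664924870) (nat_lit 76) (nat_lit 2457756594) (nat_lit 199) (nat_lit 5) (nat_lit 205) (nat_lit 5) (nat_lit 200) (nat_lit 5) (nat_lit 455) (nat_lit 414) (nat_lit 331))) (XT.nd (nat_lit 78) (nat_lit 456) (nat_lit 0) (XT.lf (nat_lit 0) (nat_lit 4033691842) (nat_lit 456) (nat_lit 1107396968) (nat_lit 76) (nat_lit 7467622467) (nat_lit 199) (nat_lit 5) (nat_lit 205) (nat_lit 5) (nat_lit 200) (nat_lit 5) (nat_lit 456) (nat_lit 414) (nat_lit 330)) (XT.lf (nat_lit 0) (nat_lit 6777157218) (nat_lit 456) (nat_lit 132432262) (nat_lit 532) (nat_lit 5909048820) (nat_lit 193) (nat_lit 5) (nat_lit 199) (nat_lit 5) (nat_lit 200) (nat_lit 5) (nat_lit 457) (nat_lit 414) (nat_lit 329))))) (XT.nd (nat_lit 312) (nat_lit 1064) (nat_lit 0) (XT.nd (nat_lit 156) (nat_lit 456) (nat_lit 0) (XT.nd (nat_lit 78) (nat_lit 0) (nat_lit 0) (XT.lf (nat_lit 0) (nat_lit 1841644489) (nat_lit 380) (nat_lit 8083285136)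 (nat_lit 456) (nat_lit 3108341011) (nat_lit 188) (nat_lit 5) (nat_lit 193) (nat_lit 5) (nat_lit 194) (nat_lit 5) (nat_lit 458) (nat_lit 414) (nat_lit 328)) (XT.lf (nat_lit 0) (nat_lit 10051802288) (nat_lit 380) (nat_lit 3017480870) (nat_lit 456) (nat_lit 183904586) (nat_lit 188) (nat_lit 5) (nat_lit 193) (nat_lit 5) (nat_lit 194) (nat_lit 5) (nat_lit 459) (nat_lit 414) (nat_lit 327))) (XT.nd (nat_lit 78) (nat_lit 0) (nat_lit 0) (XT.lf (nat_lit 0) (nat_lit 2820331719) (nat_lit 456) (nat_lit 8431166984) (nat_lit 76) (nat_lit 2225972618) (nat_lit 182) (nat_lit 5) (nat_lit 188) (nat_lit 5) (nat_lit 183) (nat_lit 5) (nat_lit 460) (nat_lit 414) (nat_lit 326)) (XT.lf (nat_lit 0) (nat_lit 5950530489) (nat_lit 456) (nat_lit 164284895) (nat_lit 76) (nat_lit 7592429640) (nat_lit 182) (nat_lit 5) (nat_lit 188) (nat_lit 5) (nat_lit 183) (nat_lit 5) (nat_lit 461) (nat_lit 414) (nat_lit 325)))) (XT.nd (nat_lit 156) (nat_lit 380)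 (nat_lit 0) (XT.nd (nat_lit 78) (nat_lit 380) (nat_lit 0) (XT.lf (nat_lit 0) (nat_lit 8485304402) (nat_lit 304) (nat_lit 748574267) (nat_lit 380) (nat_lit 4708258097) (nat_lit 178) (nat_lit 5) (nat_lit 182) (nat_lit 5) (nat_lit 183) (nat_lit 5) (nat_lit 462) (nat_lit 414) (nat_lit 324)) (XT.lf (nat_lit 0) (nat_lit 3199042970) (nat_lit 380) (nat_lit 9472997225) (nat_lit 456) (nat_lit 1510347745) (nat_lit 173) (nat_lit 5) (nat_lit 178) (nat_lit 5) (nat_lit 179) (nat_lit 5) (nat_lit 463) (nat_lit 414) (nat_lit 323))) (XT.nd (nat_lit 78) (nat_lit 304) (nat_lit 0) (XT.lf (nat_lit 0) (nat_lit 1789837751) (nat_lit 456) (nat_lit 2258127021) (nat_lit 76) (nat_lit 10380135294) (nat_lit 172) (nat_lit 5) (nat_lit 178) (nat_lit 5) (nat_lit 173) (nat_lit 5) (nat_lit 464) (nat_lit 414) (nat_lit 322)) (XT.lf (nat_lit 0) (nat_lit 5218426378) (nat_lit 380) (nat_lit 7878387173) (nat_lit 76) (nat_lit 1582130657) (nat_lit 168) (nat_lit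 5) (nat_lit 173) (nat_lit 5) (nat_lit 169) (nat_lit 5) (nat_lit 465) (nat_lit 414) (nat_lit 321))))))) (XT.nd (nat_lit 1170) (nat_lit 2204) (nat_lit 0) (XT.nd (nat_lit 546) (nat_lit 1444) (nat_lit 0) (XT.nd (nat_lit 234) (nat_lit 684) (nat_lit 0) (XT.nd (nat_lit 78) (nat_lit 380) (nat_lit 0) (XT.lf (nat_lit 0) (nat_lit 1193016797) (nat_lit 304) (nat_lit 7610392445) (nat_lit 380) (nat_lit 6132300172) (nat_lit 164) (nat_lit 5) (nat_lit 168) (nat_lit 5) (nat_lit 169) (nat_lit 5) (nat_lit 466) (nat_lit 414) (nat_lit 320)) (XT.nd (nat_lit 78) (nat_lit 380) (nat_lit 0) (XT.lf (nat_lit 0) (nat_lit 10667742260) (nat_lit 304) (nat_lit 1887038211) (nat_lit 380) (nat_lit 2643633724) (nat_lit 164) (nat_lit 5) (nat_lit 168) (nat_lit 5) (nat_lit 169) (nat_lit 5) (nat_lit 467) (nat_lit 414) (nat_lit 319)) (XT.lf (nat_lit 0) (nat_lit 998072656) (nat_lit 380) (nat_lit 10490264310) (nat_lit 76) (nat_lit 3978383607) (nat_lit 159)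 (nat_lit 5) (nat_lit 164) (nat_lit 5) (nat_lit 160) (nat_lit 5) (nat_lit 468) (nat_lit 414) (nat_lit 318)))) (XT.nd (nat_lit 156) (nat_lit 380) (nat_lit 0) (XT.nd (nat_lit 78) (nat_lit 304) (nat_lit 0) (XT.lf (nat_lit 0) (nat_lit 4740684329) (nat_lit 380) (nat_lit 955402356) (nat_lit 76) (nat_lit 10044862195) (nat_lit 159) (nat_lit 5) (nat_lit 164) (nat_lit 5) (nat_lit 160) (nat_lit 5) (nat_lit 469) (nat_lit 414) (nat_lit 317)) (XT.lf (nat_lit 0) (nat_lit 8666050953) (nat_lit 380) (nat_lit 7012570776) (nat_lit 76) (nat_lit 342669597) (nat_lit 155) (nat_lit 5) (nat_lit 160) (nat_lit 5) (nat_lit 156) (nat_lit 5) (nat_lit 470) (nat_lit 414) (nat_lit 316))) (XT.nd (nat_lit 78) (nat_lit 76) (nat_lit 0) (XT.lf (nat_lit 0) (nat_lit 2953351634) (nat_lit 304) (nat_lit 9831040526) (nat_lit 380) (nat_lit 3523397014) (nat_lit 151) (nat_lit 5) (nat_lit 155) (nat_lit 5) (nat_lit 156) (nat_lit 5) (nat_lit 471) (nat_lit 414) (nat_lit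 315)) (XT.lf (nat_lit 0) (nat_lit 467430946) (nat_lit 380) (nat_lit 3273005901) (nat_lit 76) (nat_lit 12860755721) (nat_lit 150) (nat_lit 5) (nat_lit 155) (nat_lit 5) (nat_lit 151) (nat_lit 5) (nat_lit 472) (nat_lit 414) (nat_lit 314))))) (XT.nd (nat_lit 312) (nat_lit 532) (nat_lit 0) (XT.nd (nat_lit 156) (nat_lit 380) (nat_lit 0) (XT.nd (nat_lit 78) (nat_lit 228) (nat_lit 0) (XT.lf (nat_lit 0) (nat_lit 4582877082) (nat_lit 380) (nat_lit 9738502678) (nat_lit 76) (nat_lit 2578701853) (nat_lit 146) (nat_lit 5) (nat_lit 151) (nat_lit 5) (nat_lit 147) (nat_lit 5) (nat_lit 473) (nat_lit 414) (nat_lit 313)) (XT.lf (nat_lit 0) (nat_lit 717184492) (nat_lit 228) (nat_lit 8163420808) (nat_lit 304) (nat_lit 8325568838) (nat_lit 143) (nat_lit 5) (nat_lit 146) (nat_lit 5) (nat_lit 147) (nat_lit 5) (nat_lit 474) (nat_lit 414) (nat_lit 312))) (XT.nd (nat_lit 78) (nat_lit 380) (nat_lit 0) (XT.lf (nat_lit 0) (nat_lit 11657656346)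 (nat_lit 228) (nat_lit 1729725635) (nat_lit 304) (nat_lit 4131665285) (nat_lit 143) (nat_lit 5) (nat_lit 146) (nat_lit 5) (nat_lit 147) (nat_lit 5) (nat_lit 475) (nat_lit 414) (nat_lit 311)) (XT.lf (nat_lit 0) (nat_lit 263561133) (nat_lit 380) (nat_lit 12731992265) (nat_lit 76) (nat_lit 4843324948) (nat_lit 138) (nat_lit 5) (nat_lit 143) (nat_lit 5) (nat_lit 139) (nat_lit 5) (nat_lit 476) (nat_lit 414) (nat_lit 310)))) (XT.nd (nat_lit 156) (nat_lit 304) (nat_lit 0) (XT.nd (nat_lit 78) (nat_lit 228) (nat_lit 0) (XT.lf (nat_lit 0) (nat_lit 4766789662) (nat_lit 380) (nat_lit 1728983317) (nat_lit 76) (nat_lit 11669529735) (nat_lit 138) (nat_lit 5) (nat_lit 143) (nat_lit 5) (nat_lit 139) (nat_lit 5) (nat_lit 477) (nat_lit 414) (nat_lit 309)) (XT.lf (nat_lit 0) (nat_lit 9484552322) (nat_lit 304) (nat_lit 8734630947) (nat_lit 76) (nat_lit 279954607) (nat_lit 135) (nat_lit 5) (nat_lit 139) (nat_lit 5) (nat_lit 136) (nat_lit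 5) (nat_lit 478) (nat_lit 414) (nat_lit 308))) (XT.nd (nat_lit 78) (nat_lit 76) (nat_lit 0) (XT.lf (nat_lit 0) (nat_lit 2757581244) (nat_lit 228) (nat_lit 11677666692) (nat_lit 304) (nat_lit 4404999298) (nat_lit 132) (nat_lit 5) (nat_lit 135) (nat_lit 5) (nat_lit 136) (nat_lit 5) (nat_lit 479) (nat_lit 414) (nat_lit 307)) (XT.lf (nat_lit 0) (nat_lit 408272640) (nat_lit 304) (nat_lit 4447092853) (nat_lit 76) (nat_lit 14333963917) (nat_lit 131) (nat_lit 5) (nat_lit 135) (nat_lit 5) (nat_lit 132) (nat_lit 5) (nat_lit 480) (nat_lit 414) (nat_lit 306)))))) (XT.nd (nat_lit 546) (nat_lit 1064) (nat_lit 0) (XT.nd (nat_lit 234) (nat_lit 684) (nat_lit 0) (XT.nd (nat_lit 78) (nat_lit 228) (nat_lit 0) (XT.lf (nat_lit 0) (nat_lit 5356054048) (nat_lit 304) (nat_lit 11952050636) (nat_lit 76) (nat_lit 2237112578) (nat_lit 128) (nat_lit 5) (nat_lit 132) (nat_lit 5) (nat_lit 129) (nat_lit 5) (nat_lit 481) (nat_lit 414) (nat_lit 305))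 (XT.nd (nat_lit 78) (nat_lit 0) (nat_lit 0) (XT.lf (nat_lit 0) (nat_lit 101916403) (nat_lit 228) (nat_lit 10428391070) (nat_lit 304) (nat_lit 9379134134) (nat_lit 125) (nat_lit 5) (nat_lit 128) (nat_lit 5) (nat_lit 129) (nat_lit 5) (nat_lit 482) (nat_lit 414) (nat_lit 304)) (XT.lf (nat_lit 0) (nat_lit 12735856450) (nat_lit 228) (nat_lit 3228479232) (nat_lit 304) (nat_lit 4317121574) (nat_lit 125) (nat_lit 5) (nat_lit 128) (nat_lit 5) (nat_lit 129) (nat_lit 5) (nat_lit 483) (nat_lit 414) (nat_lit 303)))) (XT.nd (nat_lit 156) (nat_lit 380) (nat_lit 0) (XT.nd (nat_lit 78) (nat_lit 0) (nat_lit 0) (XT.lf (nat_lit 0) (nat_lit 953653190) (nat_lit 304) (nat_lit 15554231060) (nat_lit 76) (nat_lit 4154259432) (nat_lit 121) (nat_lit 5) (nat_lit 125) (nat_lit 5) (nat_lit 122) (nat_lit 5) (nat_lit 484) (nat_lit 414) (nat_lit 302)) (XT.lf (nat_lit 0) (nat_lit 6388978315) (nat_lit 304) (nat_lit 2858023905) (nat_lit 76) (nat_lit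 11803171162) (nat_lit 121) (nat_lit 5) (nat_lit 125) (nat_lit 5) (nat_lit 122) (nat_lit 5) (nat_lit 485) (nat_lit 414) (nat_lit 301))) (XT.nd (nat_lit 78) (nat_lit 152) (nat_lit 0) (XT.lf (nat_lit 0) (nat_lit 10396402254) (nat_lit 228) (nat_lit 1675636992) (nat_lit 304) (nat_lit 9375265322) (nat_lit 118) (nat_lit 5) (nat_lit 121) (nat_lit 5) (nat_lit 122) (nat_lit 5) (nat_lit 486) (nat_lit 414) (nat_lit 300)) (XT.lf (nat_lit 0) (nat_lit 2209902264) (nat_lit 152) (nat_lit 15809778167) (nat_lit 228) (nat_lit 3833847457) (nat_lit 116) (nat_lit 5) (nat_lit 118) (nat_lit 5) (nat_lit 119) (nat_lit 5) (nat_lit 487) (nat_lit 414) (nat_lit 299))))) (XT.nd (nat_lit 312) (nat_lit 608) (nat_lit 0) (XT.nd (nat_lit 156) (nat_lit 152) (nat_lit 0) (XT.nd (nat_lit 78) (nat_lit 228) (nat_lit 0) (XT.lf (nat_lit 0) (nat_lit 1951426908) (nat_lit 228) (nat_lit 6234926561) (nat_lit 76) (nat_lit 14081619512) (nat_lit 115) (nat_lit 5) (nat_lit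 118) (nat_lit 5) (nat_lit 116) (nat_lit 5) (nat_lit 488) (nat_lit 414) (nat_lit 298)) (XT.lf (nat_lit 0) (nat_lit 7662656448) (nat_lit 228) (nat_lit 229535747) (nat_lit 304) (nat_lit 14799751567) (nat_lit 112) (nat_lit 5) (nat_lit 115) (nat_lit 5) (nat_lit 116) (nat_lit 5) (nat_lit 489) (nat_lit 414) (nat_lit 297))) (XT.nd (nat_lit 78) (nat_lit 152) (nat_lit 0) (XT.lf (nat_lit 0) (nat_lit 14136760945) (nat_lit 304) (nat_lit 1124001829) (nat_lit 76) (nat_lit 7864104235) (nat_lit 112) (nat_lit 5) (nat_lit 116) (nat_lit 5) (nat_lit 113) (nat_lit 5) (nat_lit 490) (nat_lit 414) (nat_lit 296)) (XT.lf (nat_lit 0) (nat_lit 13434008196) (nat_lit 152) (nat_lit 7251914343) (nat_lit 228) (nat_lit 2881338476) (nat_lit 110) (nat_lit 5) (nat_lit 112) (nat_lit 5) (nat_lit 113) (nat_lit 5) (nat_lit 491) (nat_lit 414) (nat_lit 295)))) (XT.nd (nat_lit 156) (nat_lit 304) (nat_lit 0) (XT.nd (nat_lit 78) (nat_lit 0) (nat_lit 0) (XT.lf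 (nat_lit 0) (nat_lit 3392681246) (nat_lit 304) (nat_lit 19572092235) (nat_lit 76) (nat_lit 1055654162) (nat_lit 106) (nat_lit 5) (nat_lit 110) (nat_lit 5) (nat_lit 107) (nat_lit 5) (nat_lit 492) (nat_lit 414) (nat_lit 294)) (XT.lf (nat_lit 0) (nat_lit 9958120179) (nat_lit 304) (nat_lit 4934801364) (nat_lit 76) (nat_lit 9588579237) (nat_lit 106) (nat_lit 5) (nat_lit 110) (nat_lit 5) (nat_lit 107) (nat_lit 5) (nat_lit 493) (nat_lit 414) (nat_lit 293))) (XT.nd (nat_lit 78) (nat_lit 152) (nat_lit 0) (XT.lf (nat_lit 0) (nat_lit 10319253117) (nat_lit 152) (nat_lit 6486843191) (nat_lit 228) (nat_lit 8147743235) (nat_lit 104) (nat_lit 5) (nat_lit 106) (nat_lit 5) (nat_lit 107) (nat_lit 5) (nat_lit 494) (nat_lit 414) (nat_lit 292)) (XT.lf (nat_lit 0) (nat_lit 660969838) (nat_lit 152) (nat_lit 23262547226) (nat_lit 228) (nat_lit 1514911879) (nat_lit 102) (nat_lit 5) (nat_lit 104) (nat_lit 5) (nat_lit 105) (nat_lit 5) (nat_lit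 495) (nat_lit 414) (nat_lit 291))))))))
noncomputable def xc131 : XT := (XT.nd (nat_lit 2340) (nat_lit 1672) (nat_lit 0) (XT.nd (nat_lit 1170) (nat_lit 1292) (nat_lit 0) (XT.nd (nat_lit 546) (nat_lit 836) (nat_lit 0) (XT.nd (nat_lit 234) (nat_lit 532) (nat_lit 0) (XT.nd (nat_lit 78) (nat_lit 152) (nat_lit 0) (XT.lf (nat_lit 0) (nat_lit 5413110931) (nat_lit 228) (nat_lit 9358366026) (nat_lit 76) (nat_lit 11158547632) (nat_lit 101) (nat_lit 5) (nat_lit 104) (nat_lit 5) (nat_lit 102) (nat_lit 5) (nat_lit 496) (nat_lit 414) (nat_lit 290)) (XT.nd (nat_lit 78) (nat_lit 0) (nat_lit 0) (XT.lf (nat_lit 0) (nat_lit 6614230110) (nat_lit 152) (nat_lit 5954758148) (nat_lit 228) (nat_lit 13865416589) (nat_lit 99) (nat_lit 5) (nat_lit 101) (nat_lit 5) (nat_lit 102) (nat_lit 5) (nat_lit 497) (nat_lit 414) (nat_lit 289)) (XT.lf (nat_lit 0) (nat_lit 20051980357) (nat_lit 228) (nat_lit 3747433912) (nat_lit 76) (nat_lit 3151129655)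 (nat_lit 99) (nat_lit 5) (nat_lit 102) (nat_lit 5) (nat_lit 100) (nat_lit 5) (nat_lit 498) (nat_lit 414) (nat_lit 288)))) (XT.nd (nat_lit 156) (nat_lit 152) (nat_lit 0) (XT.nd (nat_lit 78) (nat_lit 152) (nat_lit 0) (XT.lf (nat_lit 0) (nat_lit 444628119) (nat_lit 228) (nat_lit 14502120656) (nat_lit 76) (nat_lit 12530156639) (nat_lit 96) (nat_lit 5) (nat_lit 99) (nat_lit 5) (nat_lit 97) (nat_lit 5) (nat_lit 499) (nat_lit 414) (nat_lit 287)) (XT.lf (nat_lit 0) (nat_lit 2209442986) (nat_lit 152) (nat_lit 5706831714) (nat_lit 228) (nat_lit 20099330083) (nat_lit 94) (nat_lit 5) (nat_lit 96) (nat_lit 5) (nat_lit 97) (nat_lit 5) (nat_lit 500) (nat_lit 414) (nat_lit 286))) (XT.nd (nat_lit 78) (nat_lit 152) (nat_lit 0) (XT.lf (nat_lit 0) (nat_lit 15784007653) (nat_lit 228) (nat_lit 8907135157) (nat_lit 76) (nat_lit 3874164715) (nat_lit 94) (nat_lit 5) (nat_lit 97) (nat_lit 5) (nat_lit 95) (nat_lit 5) (nat_lit 501) (nat_lit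 414) (nat_lit 285)) (XT.lf (nat_lit 0) (nat_lit 8587980848) (nat_lit 152) (nat_lit 15426631730) (nat_lit 228) (nat_lit 5113084057) (nat_lit 92) (nat_lit 5) (nat_lit 94) (nat_lit 5) (nat_lit 95) (nat_lit 5) (nat_lit 502) (nat_lit 414) (nat_lit 284))))) (XT.nd (nat_lit 312) (nat_lit 456) (nat_lit 0) (XT.nd (nat_lit 156) (nat_lit 152) (nat_lit 0) (XT.nd (nat_lit 78) (nat_lit 152) (nat_lit 0) (XT.lf (nat_lit 0) (nat_lit 2809475110) (nat_lit 228) (nat_lit 2963372926) (nat_lit 76) (nat_lit 23930947283) (nat_lit 91) (nat_lit 5) (nat_lit 94) (nat_lit 5) (nat_lit 92) (nat_lit 5) (nat_lit 503) (nat_lit 414) (nat_lit 283)) (XT.lf (nat_lit 0) (nat_lit 11044799375) (nat_lit 228) (nat_lit 14965367970) (nat_lit 76) (nat_lit 4280155638) (nat_lit 89) (nat_lit 5) (nat_lit 92) (nat_lit 5) (nat_lit 90) (nat_lit 5) (nat_lit 504) (nat_lit 414) (nat_lit 282))) (XT.nd (nat_lit 78) (nat_lit 0) (nat_lit 0) (XT.lf (nat_lit 0) (nat_lit 3314964968)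 (nat_lit 152) (nat_lit 16319677641) (nat_lit 228) (nat_lit 11256580523) (nat_lit 87) (nat_lit 5) (nat_lit 89) (nat_lit 5) (nat_lit 90) (nat_lit 5) (nat_lit 505) (nat_lit 414) (nat_lit 281)) (XT.lf (nat_lit 0) (nat_lit 22429294031) (nat_lit 152) (nat_lit 6192363835) (nat_lit 228) (nat_lit 2884308536) (nat_lit 87) (nat_lit 5) (nat_lit 89) (nat_lit 5) (nat_lit 90) (nat_lit 5) (nat_lit 506) (nat_lit 414) (nat_lit 280)))) (XT.nd (nat_lit 156) (nat_lit 228) (nat_lit 0) (XT.nd (nat_lit 78) (nat_lit 0) (nat_lit 0) (XT.lf (nat_lit 0) (nat_lit 5754963770) (nat_lit 228) (nat_lit 22078089209) (nat_lit 76) (nat_lit 4300609647) (nat_lit 84) (nat_lit 5) (nat_lit 87) (nat_lit 5) (nat_lit 85) (nat_lit 5) (nat_lit 507) (nat_lit 414) (nat_lit 279)) (XT.lf (nat_lit 0) (nat_lit 14737944834) (nat_lit 228) (nat_lit 2941211227) (nat_lit 76) (nat_lit 15095902264) (nat_lit 84) (nat_lit 5) (nat_lit 87) (nat_lit 5) (nat_lit 85) (nat_lit 5)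 (nat_lit 508) (nat_lit 414) (nat_lit 278))) (XT.nd (nat_lit 78) (nat_lit 76) (nat_lit 0) (XT.lf (nat_lit 0) (nat_lit 17082883703) (nat_lit 152) (nat_lit 7060701701) (nat_lit 228) (nat_lit 9287515760) (nat_lit 82) (nat_lit 5) (nat_lit 84) (nat_lit 5) (nat_lit 85) (nat_lit 5) (nat_lit 509) (nat_lit 414) (nat_lit 277)) (XT.lf (nat_lit 0) (nat_lit 3675955233) (nat_lit 76) (nat_lit 30247031607) (nat_lit 152) (nat_lit 181091061) (nat_lit 81) (nat_lit 5) (nat_lit 82) (nat_lit 5) (nat_lit 83) (nat_lit 4) (nat_lit 510) (nat_lit 414) (nat_lit 276)))))) (XT.nd (nat_lit 546) (nat_lit 684) (nat_lit 0) (XT.nd (nat_lit 234) (nat_lit 380) (nat_lit 0) (XT.nd (nat_lit 78) (nat_lit 152) (nat_lit 0) (XT.lf (nat_lit 0) (nat_lit 9244676902) (nat_lit 152) (nat_lit 10336579768) (nat_lit 76) (nat_lit 15206565547) (nat_lit 80) (nat_lit 5) (nat_lit 82) (nat_lit 5) (nat_lit 81) (nat_lit 5) (nat_lit 511) (nat_lit 414) (nat_lit 275)) (XT.nd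 (nat_lit 78) (nat_lit 0) (nat_lit 0) (XT.lf (nat_lit 0) (nat_lit 10541918887) (nat_lit 152) (nat_lit 8498333982) (nat_lit 228) (nat_lit 16449052294) (nat_lit 78) (nat_lit 5) (nat_lit 80) (nat_lit 5) (nat_lit 81) (nat_lit 5) (nat_lit 512) (nat_lit 414) (nat_lit 274)) (XT.lf (nat_lit 0) (nat_lit 29252525443) (nat_lit 228) (nat_lit 3998858446) (nat_lit 76) (nat_lit 2956764150) (nat_lit 78) (nat_lit 5) (nat_lit 81) (nat_lit 5) (nat_lit 79) (nat_lit 4) (nat_lit 513) (nat_lit 414) (nat_lit 273)))) (XT.nd (nat_lit 156) (nat_lit 76) (nat_lit 0) (XT.nd (nat_lit 78) (nat_lit 152) (nat_lit 0) (XT.lf (nat_lit 0) (nat_lit 3015106630) (nat_lit 152) (nat_lit 19148165761) (nat_lit 76) (nat_lit 14777042855) (nat_lit 76) (nat_lit 5) (nat_lit 78) (nat_lit 5) (nat_lit 77) (nat_lit 5) (nat_lit 514) (nat_lit 414) (nat_lit 272)) (XT.lf (nat_lit 0) (nat_lit 2587664079) (nat_lit 152) (nat_lit 10612849275) (nat_lit 228) (nat_lit 24490207681)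 (nat_lit 74) (nat_lit 5) (nat_lit 76) (nat_lit 5) (nat_lit 77) (nat_lit 5) (nat_lit 515) (nat_lit 414) (nat_lit 271))) (XT.nd (nat_lit 78) (nat_lit 76) (nat_lit 0) (XT.lf (nat_lit 0) (nat_lit 23888833713) (nat_lit 228) (nat_lit 13123228970) (nat_lit 76) (nat_lit 1445656057) (nat_lit 74) (nat_lit 5) (nat_lit 77) (nat_lit 5) (nat_lit 75) (nat_lit 4) (nat_lit 516) (nat_lit 414) (nat_lit 270)) (XT.lf (nat_lit 0) (nat_lit 9579179949) (nat_lit 76) (nat_lit 25505816011) (nat_lit 152) (nat_lit 4157114925) (nat_lit 73) (nat_lit 5) (nat_lit 74) (nat_lit 5) (nat_lit 75) (nat_lit 4) (nat_lit 517) (nat_lit 414) (nat_lit 269))))) (XT.nd (nat_lit 312) (nat_lit 380) (nat_lit 0) (XT.nd (nat_lit 156) (nat_lit 76) (nat_lit 0) (XT.nd (nat_lit 78) (nat_lit 152) (nat_lit 0) (XT.lf (nat_lit 0) (nat_lit 6562741708) (nat_lit 152) (nat_lit 6897498798) (nat_lit 76) (nat_lit 26584184383) (nat_lit 72) (nat_lit 5) (nat_lit 74) (nat_lit 5) (nat_lit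 73) (nat_lit 5) (nat_lit 518) (nat_lit 414) (nat_lit 268)) (XT.lf (nat_lit 0) (nat_lit 16819820114) (nat_lit 152) (nat_lit 852840749) (nat_lit 228) (nat_lit 23192352297) (nat_lit 70) (nat_lit 5) (nat_lit 72) (nat_lit 5) (nat_lit 73) (nat_lit 5) (nat_lit 519) (nat_lit 414) (nat_lit 267))) (XT.nd (nat_lit 78) (nat_lit 76) (nat_lit 0) (XT.lf (nat_lit 0) (nat_lit 29293212514) (nat_lit 228) (nat_lit 453556532) (nat_lit 76) (nat_lit 11958130231) (nat_lit 70) (nat_lit 5) (nat_lit 73) (nat_lit 5) (nat_lit 71) (nat_lit 4) (nat_lit 520) (nat_lit 414) (nat_lit 266)) (XT.lf (nat_lit 0) (nat_lit 24293813636) (nat_lit 76) (nat_lit 17201185014) (nat_lit 152) (nat_lit 1068005028) (nat_lit 69) (nat_lit 5) (nat_lit 70) (nat_lit 5) (nat_lit 71) (nat_lit 4) (nat_lit 521) (nat_lit 414) (nat_lit 265)))) (XT.nd (nat_lit 156) (nat_lit 152) (nat_lit 0) (XT.nd (nat_lit 78) (nat_lit 0) (nat_lit 0) (XT.lf (nat_lit 0) (nat_lit 6350369904) (nat_lit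 152) (nat_lit 4114789897) (nat_lit 228) (nat_lit 32976940352) (nat_lit 66) (nat_lit 5) (nat_lit 68) (nat_lit 5) (nat_lit 69) (nat_lit 5) (nat_lit 522) (nat_lit 414) (nat_lit 264)) (XT.lf (nat_lit 0) (nat_lit 22589862391) (nat_lit 228) (nat_lit 12379102850) (nat_lit 76) (nat_lit 9370277010) (nat_lit 66) (nat_lit 5) (nat_lit 69) (nat_lit 5) (nat_lit 67) (nat_lit 4) (nat_lit 523) (nat_lit 414) (nat_lit 263))) (XT.nd (nat_lit 78) (nat_lit 76) (nat_lit 0) (XT.lf (nat_lit 0) (nat_lit 13276071815) (nat_lit 76) (nat_lit 21961548485) (nat_lit 152) (nat_lit 10020899097) (nat_lit 65) (nat_lit 5) (nat_lit 66) (nat_lit 5) (nat_lit 67) (nat_lit 4) (nat_lit 524) (nat_lit 414) (nat_lit 262)) (XT.lf (nat_lit 0) (nat_lit 2136458807) (nat_lit 152) (nat_lit 6285164574) (nat_lit 76) (nat_lit 37779641488) (nat_lit 64) (nat_lit 5) (nat_lit 66) (nat_lit 5) (nat_lit 65) (nat_lit 5) (nat_lit 525) (nat_lit 414) (nat_lit 261))))))) (XT.nd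 (nat_lit 1170) (nat_lit 608) (nat_lit 0) (XT.nd (nat_lit 546) (nat_lit 532) (nat_lit 0) (XT.nd (nat_lit 234) (nat_lit 304) (nat_lit 0) (XT.nd (nat_lit 78) (nat_lit 76) (nat_lit 0) (XT.lf (nat_lit 0) (nat_lit 14701053769) (nat_lit 228) (nat_lit 26753107583) (nat_lit 76) (nat_lit 5707837249) (nat_lit 62) (nat_lit 5) (nat_lit 65) (nat_lit 5) (nat_lit 63) (nat_lit 4) (nat_lit 526) (nat_lit 414) (nat_lit 260)) (XT.nd (nat_lit 78) (nat_lit 76) (nat_lit 0) (XT.lf (nat_lit 0) (nat_lit 27781317214) (nat_lit 228) (nat_lit 217741635) (nat_lit 76) (nat_lit 20148333765) (nat_lit 62) (nat_lit 5) (nat_lit 65) (nat_lit 5) (nat_lit 63) (nat_lit 4) (nat_lit 527) (nat_lit 414) (nat_lit 259)) (XT.lf (nat_lit 0) (nat_lit 27636775891) (nat_lit 76) (nat_lit 13874381056) (nat_lit 152) (nat_lit 7643476633) (nat_lit 61) (nat_lit 5) (nat_lit 62) (nat_lit 5) (nat_lit 63) (nat_lit 4) (nat_lit 528) (nat_lit 414) (nat_lit 258)))) (XT.nd (nat_lit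 156) (nat_lit 76) (nat_lit 0) (XT.nd (nat_lit 78) (nat_lit 0) (nat_lit 0) (XT.lf (nat_lit 0) (nat_lit 5415029368) (nat_lit 228) (nat_lit 44004998182) (nat_lit 76) (nat_lit 768665945) (nat_lit 58) (nat_lit 5) (nat_lit 61) (nat_lit 5) (nat_lit 59) (nat_lit 4) (nat_lit 529) (nat_lit 414) (nat_lit 257)) (XT.lf (nat_lit 0) (nat_lit 19060009596) (nat_lit 228) (nat_lit 16321298012) (nat_lit 76) (nat_lit 15859747068) (nat_lit 58) (nat_lit 5) (nat_lit 61) (nat_lit 5) (nat_lit 59) (nat_lit 4) (nat_lit 530) (nat_lit 414) (nat_lit 256))) (XT.nd (nat_lit 78) (nat_lit 0) (nat_lit 0) (XT.lf (nat_lit 0) (nat_lit 12419503298) (nat_lit 76) (nat_lit 20806002037) (nat_lit 152) (nat_lit 19096146537) (nat_lit 57) (nat_lit 5) (nat_lit 58) (nat_lit 5) (nat_lit 59) (nat_lit 4) (nat_lit 531) (nat_lit 414) (nat_lit 255)) (XT.lf (nat_lit 0) (nat_lit 42341494653) (nat_lit 76) (nat_lit 5631155996) (nat_lit 152) (nat_lit 5457315952) (nat_lit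 57) (nat_lit 5) (nat_lit 58) (nat_lit 5) (nat_lit 59) (nat_lit 4) (nat_lit 532) (nat_lit 414) (nat_lit 254))))) (XT.nd (nat_lit 312) (nat_lit 304) (nat_lit 0) (XT.nd (nat_lit 156) (nat_lit 76) (nat_lit 0) (XT.nd (nat_lit 78) (nat_lit 0) (nat_lit 0) (XT.lf (nat_lit 0) (nat_lit 8695023865) (nat_lit 152) (nat_lit 35802762954) (nat_lit 76) (nat_lit 10063107352) (nat_lit 55) (nat_lit 5) (nat_lit 57) (nat_lit 5) (nat_lit 56) (nat_lit 4) (nat_lit 533) (nat_lit 414) (nat_lit 253)) (XT.lf (nat_lit 0) (nat_lit 23323128249) (nat_lit 152) (nat_lit 6121176112) (nat_lit 76) (nat_lit 26274997937) (nat_lit 55) (nat_lit 5) (nat_lit 57) (nat_lit 5) (nat_lit 56) (nat_lit 4) (nat_lit 534) (nat_lit 414) (nat_lit 252))) (XT.nd (nat_lit 78) (nat_lit 0) (nat_lit 0) (XT.lf (nat_lit 0) (nat_lit 24922303111) (nat_lit 76) (nat_lit 13699619273) (nat_lit 152) (nat_lit 18283585027) (nat_lit 54) (nat_lit 5) (nat_lit 55) (nat_lit 5) (nat_lit 56)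 (nat_lit 4) (nat_lit 535) (nat_lit 414) (nat_lit 251)) (XT.lf (nat_lit 0) (nat_lit 54458596349) (nat_lit 152) (nat_lit 1142584692) (nat_lit 0) (nat_lit 2523750292) (nat_lit 54) (nat_lit 5) (nat_lit 56) (nat_lit 4) (nat_lit 54) (nat_lit 4) (nat_lit 536) (nat_lit 414) (nat_lit 250)))) (XT.nd (nat_lit 156) (nat_lit 76) (nat_lit 0) (XT.nd (nat_lit 78) (nat_lit 76) (nat_lit 0) (XT.lf (nat_lit 0) (nat_lit 11598324392) (nat_lit 152) (nat_lit 28402211069) (nat_lit 76) (nat_lit 19364183954) (nat_lit 52) (nat_lit 5) (nat_lit 54) (nat_lit 5) (nat_lit 53) (nat_lit 4) (nat_lit 537) (nat_lit 414) (nat_lit 249)) (XT.lf (nat_lit 0) (nat_lit 3428847973) (nat_lit 76) (nat_lit 23855522783) (nat_lit 152) (nat_lit 33355127391) (nat_lit 51) (nat_lit 5) (nat_lit 52) (nat_lit 5) (nat_lit 53) (nat_lit 4) (nat_lit 538) (nat_lit 414) (nat_lit 248))) (XT.nd (nat_lit 78) (nat_lit 76) (nat_lit 0) (XT.lf (nat_lit 0) (nat_lit 36782730453) (nat_lit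 76) (nat_lit 6937679344) (nat_lit 152) (nat_lit 18223728226) (nat_lit 51) (nat_lit 5) (nat_lit 52) (nat_lit 5) (nat_lit 53) (nat_lit 4) (nat_lit 539) (nat_lit 414) (nat_lit 247)) (XT.lf (nat_lit 0) (nat_lit 7888369227) (nat_lit 76) (nat_lit 52930558159) (nat_lit 76) (nat_lit 2463907906) (nat_lit 50) (nat_lit 4) (nat_lit 51) (nat_lit 5) (nat_lit 51) (nat_lit 4) (nat_lit 540) (nat_lit 414) (nat_lit 246)))))) (XT.nd (nat_lit 624) (nat_lit 152) (nat_lit 0) (XT.nd (nat_lit 312) (nat_lit 228) (nat_lit 0) (XT.nd (nat_lit 156) (nat_lit 76) (nat_lit 0) (XT.nd (nat_lit 78) (nat_lit 76) (nat_lit 0) (XT.lf (nat_lit 0) (nat_lit 13818077856) (nat_lit 152) (nat_lit 22426272048) (nat_lit 76) (nat_lit 28403831651) (nat_lit 49) (nat_lit 5) (nat_lit 51) (nat_lit 5) (nat_lit 50) (nat_lit 4) (nat_lit 541) (nat_lit 414) (nat_lit 245)) (XT.lf (nat_lit 0) (nat_lit 11721648186) (nat_lit 76) (nat_lit 18923000853) (nat_lit 152) (nat_lit 35405937982)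 (nat_lit 48) (nat_lit 5) (nat_lit 49) (nat_lit 5) (nat_lit 50) (nat_lit 4) (nat_lit 542) (nat_lit 414) (nat_lit 244))) (XT.nd (nat_lit 78) (nat_lit 76) (nat_lit 0) (XT.lf (nat_lit 0) (nat_lit 47340200452) (nat_lit 76) (nat_lit 855325292) (nat_lit 152) (nat_lit 19292953761) (nat_lit 48) (nat_lit 5) (nat_lit 49) (nat_lit 5) (nat_lit 50) (nat_lit 4) (nat_lit 543) (nat_lit 414) (nat_lit 243)) (XT.lf (nat_lit 0) (nat_lit 15169884006) (nat_lit 76) (nat_lit 51412721133) (nat_lit 76) (nat_lit 2377613434) (nat_lit 47) (nat_lit 4) (nat_lit 48) (nat_lit 5) (nat_lit 48) (nat_lit 4) (nat_lit 544) (nat_lit 414) (nat_lit 242)))) (XT.nd (nat_lit 156) (nat_lit 76) (nat_lit 0) (XT.nd (nat_lit 78) (nat_lit 76) (nat_lit 0) (XT.lf (nat_lit 0) (nat_lit 14958735915) (nat_lit 152) (nat_lit 18677775780) (nat_lit 76) (nat_lit 36829045469) (nat_lit 46) (nat_lit 5) (nat_lit 48) (nat_lit 5) (nat_lit 47) (nat_lit 4) (nat_lit 545) (nat_lit 414)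 (nat_lit 241)) (XT.lf (nat_lit 0) (nat_lit 17799054265) (nat_lit 76) (nat_lit 15132820937) (nat_lit 152) (nat_lit 39078539967) (nat_lit 45) (nat_lit 5) (nat_lit 46) (nat_lit 5) (nat_lit 47) (nat_lit 4) (nat_lit 546) (nat_lit 414) (nat_lit 240))) (XT.nd (nat_lit 78) (nat_lit 76) (nat_lit 0) (XT.lf (nat_lit 0) (nat_lit 51665825629) (nat_lit 152) (nat_lit 17895400184) (nat_lit 0) (nat_lit 4033744683) (nat_lit 45) (nat_lit 5) (nat_lit 47) (nat_lit 4) (nat_lit 45) (nat_lit 4) (nat_lit 547) (nat_lit 414) (nat_lit 239)) (XT.lf (nat_lit 0) (nat_lit 19732743534) (nat_lit 76) (nat_lit 51562158038) (nat_lit 76) (nat_lit 3922167789) (nat_lit 44) (nat_lit 4) (nat_lit 45) (nat_lit 5) (nat_lit 45) (nat_lit 4) (nat_lit 548) (nat_lit 414) (nat_lit 238))))) (XT.nd (nat_lit 52182) (nat_lit 0) (nat_lit 23788) (XT.nd (nat_lit 52026) (nat_lit 0) (nat_lit 24624) (XT.nd (nat_lit 78) (nat_lit 76) (nat_lit 0) (XT.lf (nat_lit 0) (nat_lit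 14515727892) (nat_lit 152) (nat_lit 18180741560) (nat_lit 76) (nat_lit 44181861400) (nat_lit 43) (nat_lit 5) (nat_lit 45) (nat_lit 5) (nat_lit 44) (nat_lit 4) (nat_lit 549) (nat_lit 414) (nat_lit 237)) (XT.lf (nat_lit 0) (nat_lit 20592793822) (nat_lit 76) (nat_lit 13026870355) (nat_lit 152) (nat_lit 44962849028) (nat_lit 42) (nat_lit 5) (nat_lit 43) (nat_lit 5) (nat_lit 44) (nat_lit 4) (nat_lit 550) (nat_lit 414) (nat_lit 236))) (XT.nd (nat_lit 78) (nat_lit 0) (nat_lit 0) (XT.lf (nat_lit 0) (nat_lit 464961965) (nat_lit 0) (nat_lit 464961965) (nat_lit 836) (nat_lit 2768221144) (nat_lit 366) (nat_lit 5) (nat_lit 366) (nat_lit 3) (nat_lit 377) (nat_lit 3) (nat_lit 415) (nat_lit 415) (nat_lit 370)) (XT.lf (nat_lit 0) (nat_lit 3412898117) (nat_lit 836) (nat_lit 2804183277) (nat_lit 912) (nat_lit 1244137087) (nat_lit 366) (nat_lit 5) (nat_lit 377) (nat_lit 3) (nat_lit 378) (nat_lit 5) (nat_lit 416) (nat_lit 415) (nat_lit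 369)))) (XT.nd (nat_lit 156) (nat_lit 836) (nat_lit 0) (XT.nd (nat_lit 78) (nat_lit 0) (nat_lit 0) (XT.lf (nat_lit 76) (nat_lit 945519889) (nat_lit 0) (nat_lit 4026553461) (nat_lit 912) (nat_lit 2557245513) (nat_lit 367) (nat_lit 5) (nat_lit 366) (nat_lit 5) (nat_lit 378) (nat_lit 5) (nat_lit 417) (nat_lit 415) (nat_lit 368)) (XT.lf (nat_lit 76) (nat_lit 4833918256) (nat_lit 0) (nat_lit 1715070584) (nat_lit 912) (nat_lit 1051354370) (nat_lit 367) (nat_lit 5) (nat_lit 366) (nat_lit 5) (nat_lit 378) (nat_lit 5) (nat_lit 418) (nat_lit 415) (nat_lit 367))) (XT.nd (nat_lit 78) (nat_lit 0) (nat_lit 0) (XT.lf (nat_lit 0) (nat_lit 451585245) (nat_lit 912) (nat_lit 6529870468) (nat_lit 988) (nat_lit 693059119) (nat_lit 355) (nat_lit 5) (nat_lit 367) (nat_lit 5) (nat_lit 368) (nat_lit 5) (nat_lit 419) (nat_lit 415) (nat_lit 366)) (XT.lf (nat_lit 0) (nat_lit 1968999074) (nat_lit 912) (nat_lit 2581057601) (nat_lit 988) (nat_lit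 3200836193) (nat_lit 355) (nat_lit 5) (nat_lit 367) (nat_lit 5) (nat_lit 368) (nat_lit 5) (nat_lit 420) (nat_lit 415) (nat_lit 365))))))))
noncomputable def xc132 : XT := (XT.nd (nat_lit 2340) (nat_lit 6992) (nat_lit 0) (XT.nd (nat_lit 1170) (nat_lit 5928) (nat_lit 0) (XT.nd (nat_lit 546) (nat_lit 3116) (nat_lit 0) (XT.nd (nat_lit 234) (nat_lit 912) (nat_lit 0) (XT.nd (nat_lit 78) (nat_lit 0) (nat_lit 76) (XT.lf (nat_lit 76) (nat_lit 1483050679) (nat_lit 0) (nat_lit 2010057377) (nat_lit 988) (nat_lit 4337627807) (nat_lit 356) (nat_lit 5) (nat_lit 355) (nat_lit 5) (nat_lit 368) (nat_lit 5) (nat_lit 421) (nat_lit 415) (nat_lit 364)) (XT.nd (nat_lit 78) (nat_lit 0) (nat_lit 0) (XT.lf (nat_lit 0) (nat_lit 5043438558) (nat_lit 912) (nat_lit 2229835937) (nat_lit 988) (nat_lit 640293253) (nat_lit 356) (nat_lit 5) (nat_lit 368) (nat_lit 5) (nat_lit 369) (nat_lit 5) (nat_lit 422) (nat_lit 415) (nat_lit 363)) (XT.lf (nat_lit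 76) (nat_lit 1998063447) (nat_lit 0) (nat_lit 4631178026) (nat_lit 988) (nat_lit 1369982537) (nat_lit 357) (nat_lit 5) (nat_lit 356) (nat_lit 5) (nat_lit 369) (nat_lit 5) (nat_lit 423) (nat_lit 415) (nat_lit 362)))) (XT.nd (nat_lit 156) (nat_lit 0) (nat_lit 76) (XT.nd (nat_lit 78) (nat_lit 0) (nat_lit 76) (XT.lf (nat_lit 0) (nat_lit 145002103) (nat_lit 988) (nat_lit 1723418536) (nat_lit 1064) (nat_lit 6219789073) (nat_lit 343) (nat_lit 5) (nat_lit 356) (nat_lit 5) (nat_lit 357) (nat_lit 5) (nat_lit 424) (nat_lit 415) (nat_lit 361)) (XT.lf (nat_lit 0) (nat_lit 1665640809) (nat_lit 988) (nat_lit 5500775894) (nat_lit 1064) (nat_lit 1013416756) (nat_lit 344) (nat_lit 5) (nat_lit 357) (nat_lit 5) (nat_lit 358) (nat_lit 5) (nat_lit 425) (nat_lit 415) (nat_lit 360))) (XT.nd (nat_lit 78) (nat_lit 0) (nat_lit 0) (XT.lf (nat_lit 0) (nat_lit 3221162898) (nat_lit 988) (nat_lit 1076940915) (nat_lit 1064) (nat_lit 3976431548)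 (nat_lit 344) (nat_lit 5) (nat_lit 357) (nat_lit 5) (nat_lit 358) (nat_lit 5) (nat_lit 426) (nat_lit 415) (nat_lit 359)) (XT.lf (nat_lit 76) (nat_lit 3515666893) (nat_lit 0) (nat_lit 1296031461) (nat_lit 1064) (nat_lit 3560736692) (nat_lit 345) (nat_lit 5) (nat_lit 344) (nat_lit 5) (nat_lit 358) (nat_lit 5) (nat_lit 427) (nat_lit 415) (nat_lit 358))))) (XT.nd (nat_lit 312) (nat_lit 2204) (nat_lit 0) (XT.nd (nat_lit 156) (nat_lit 1064) (nat_lit 0) (XT.nd (nat_lit 78) (nat_lit 0) (nat_lit 0) (XT.lf (nat_lit 0) (nat_lit 6433882000) (nat_lit 988) (nat_lit 255872968) (nat_lit 1064) (nat_lit 1784005738) (nat_lit 345) (nat_lit 5) (nat_lit 358) (nat_lit 5) (nat_lit 359) (nat_lit 5) (nat_lit 428) (nat_lit 415) (nat_lit 357)) (XT.lf (nat_lit 76) (nat_lit 4525829646) (nat_lit 0) (nat_lit 3592213518) (nat_lit 1064) (nat_lit 459690358) (nat_lit 346) (nat_lit 5) (nat_lit 345) (nat_lit 5) (nat_lit 359) (nat_lit 5) (nat_lit 429)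 (nat_lit 415) (nat_lit 356))) (XT.nd (nat_lit 78) (nat_lit 0) (nat_lit 76) (XT.lf (nat_lit 76) (nat_lit 741462523) (nat_lit 0) (nat_lit 370881664) (nat_lit 1140) (nat_lit 7573133977) (nat_lit 332) (nat_lit 5) (nat_lit 331) (nat_lit 5) (nat_lit 346) (nat_lit 5) (nat_lit 430) (nat_lit 415) (nat_lit 355)) (XT.lf (nat_lit 0) (nat_lit 2750449952) (nat_lit 1064) (nat_lit 3101069073) (nat_lit 76) (nat_lit 2943961269) (nat_lit 332) (nat_lit 5) (nat_lit 346) (nat_lit 5) (nat_lit 333) (nat_lit 5) (nat_lit 431) (nat_lit 415) (nat_lit 354)))) (XT.nd (nat_lit 156) (nat_lit 1216) (nat_lit 0) (XT.nd (nat_lit 78) (nat_lit 0) (nat_lit 0) (XT.lf (nat_lit 0) (nat_lit 1887069106) (nat_lit 1064) (nat_lit 2532149183) (nat_lit 1140) (nat_lit 4490124609) (nat_lit 318) (nat_lit 5) (nat_lit 332) (nat_lit 5) (nat_lit 333) (nat_lit 5) (nat_lit 432) (nat_lit 415) (nat_lit 353)) (XT.lf (nat_lit 0) (nat_lit 6138826268) (nat_lit 1140) (nat_lit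 1980269886) (nat_lit 76) (nat_lit 907507747) (nat_lit 318) (nat_lit 5) (nat_lit 333) (nat_lit 5) (nat_lit 319) (nat_lit 5) (nat_lit 433) (nat_lit 415) (nat_lit 352))) (XT.nd (nat_lit 78) (nat_lit 76) (nat_lit 0) (XT.lf (nat_lit 0) (nat_lit 3217530588) (nat_lit 1140) (nat_lit 4710265676) (nat_lit 1216) (nat_lit 1219058908) (nat_lit 303) (nat_lit 5) (nat_lit 318) (nat_lit 5) (nat_lit 319) (nat_lit 5) (nat_lit 434) (nat_lit 415) (nat_lit 351)) (XT.lf (nat_lit 0) (nat_lit 472360583) (nat_lit 1216) (nat_lit 696867824) (nat_lit 76) (nat_lit 8101875072) (nat_lit 302) (nat_lit 5) (nat_lit 318) (nat_lit 5) (nat_lit 303) (nat_lit 5) (nat_lit 435) (nat_lit 415) (nat_lit 350)))))) (XT.nd (nat_lit 546) (nat_lit 2128) (nat_lit 0) (XT.nd (nat_lit 234) (nat_lit 1824) (nat_lit 0) (XT.nd (nat_lit 78) (nat_lit 760) (nat_lit 0) (XT.lf (nat_lit 0) (nat_lit 2223315117) (nat_lit 1292) (nat_lit 4682524177) (nat_lit 76) (nat_lit 2491884186)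 (nat_lit 286) (nat_lit 5) (nat_lit 303) (nat_lit 5) (nat_lit 287) (nat_lit 5) (nat_lit 436) (nat_lit 415) (nat_lit 349)) (XT.nd (nat_lit 78) (nat_lit 0) (nat_lit 0) (XT.lf (nat_lit 0) (nat_lit 745452648) (nat_lit 760) (nat_lit 3271284751) (nat_lit 836) (nat_lit 5511711526) (nat_lit 276) (nat_lit 5) (nat_lit 286) (nat_lit 5) (nat_lit 287) (nat_lit 5) (nat_lit 437) (nat_lit 415) (nat_lit 348)) (XT.lf (nat_lit 0) (nat_lit 5881092806) (nat_lit 836) (nat_lit 3268612720) (nat_lit 76) (nat_lit 512881567) (nat_lit 276) (nat_lit 5) (nat_lit 287) (nat_lit 5) (nat_lit 277) (nat_lit 5) (nat_lit 438) (nat_lit 415) (nat_lit 347)))) (XT.nd (nat_lit 156) (nat_lit 1216) (nat_lit 0) (XT.nd (nat_lit 78) (nat_lit 0) (nat_lit 0) (XT.lf (nat_lit 0) (nat_lit 2392308772) (nat_lit 608) (nat_lit 5430317418) (nat_lit 684) (nat_lit 1977490530) (nat_lit 268) (nat_lit 5) (nat_lit 276) (nat_lit 5) (nat_lit 277) (nat_lit 5) (nat_lit 439) (nat_lit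 415) (nat_lit 346)) (XT.lf (nat_lit 0) (nat_lit 8257199458) (nat_lit 608) (nat_lit 1564753142) (nat_lit 684) (nat_lit 119837817) (nat_lit 268) (nat_lit 5) (nat_lit 276) (nat_lit 5) (nat_lit 277) (nat_lit 5) (nat_lit 440) (nat_lit 415) (nat_lit 345))) (XT.nd (nat_lit 78) (nat_lit 532) (nat_lit 0) (XT.lf (nat_lit 0) (nat_lit 1790332859) (nat_lit 684) (nat_lit 5867448189) (nat_lit 76) (nat_lit 2428466780) (nat_lit 259) (nat_lit 5) (nat_lit 268) (nat_lit 5) (nat_lit 260) (nat_lit 5) (nat_lit 441) (nat_lit 415) (nat_lit 344)) (XT.lf (nat_lit 0) (nat_lit 50216975) (nat_lit 532) (nat_lit 3706171840) (nat_lit 608) (nat_lit 6478589092) (nat_lit 252) (nat_lit 5) (nat_lit 259) (nat_lit 5) (nat_lit 260) (nat_lit 5) (nat_lit 442) (nat_lit 415) (nat_lit 343))))) (XT.nd (nat_lit 312) (nat_lit 988) (nat_lit 0) (XT.nd (nat_lit 156) (nat_lit 608) (nat_lit 0) (XT.nd (nat_lit 78) (nat_lit 532) (nat_lit 0) (XT.lf (nat_lit 0) (nat_lit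 5813203497) (nat_lit 608) (nat_lit 4158611992) (nat_lit 76) (nat_lit 415405169) (nat_lit 252) (nat_lit 5) (nat_lit 260) (nat_lit 5) (nat_lit 253) (nat_lit 5) (nat_lit 443) (nat_lit 415) (nat_lit 342)) (XT.lf (nat_lit 0) (nat_lit 2018170421) (nat_lit 532) (nat_lit 5939007869) (nat_lit 608) (nat_lit 2586092695) (nat_lit 245) (nat_lit 5) (nat_lit 252) (nat_lit 5) (nat_lit 253) (nat_lit 5) (nat_lit 444) (nat_lit 415) (nat_lit 341))) (XT.nd (nat_lit 78) (nat_lit 608) (nat_lit 0) (XT.lf (nat_lit 0) (nat_lit 8432987716) (nat_lit 532) (nat_lit 1744419281) (nat_lit 608) (nat_lit 526241630) (nat_lit 245) (nat_lit 5) (nat_lit 252) (nat_lit 5) (nat_lit 253) (nat_lit 5) (nat_lit 445) (nat_lit 415) (nat_lit 340)) (XT.lf (nat_lit 0) (nat_lit 1600515677) (nat_lit 608) (nat_lit 6687350326) (nat_lit 76) (nat_lit 2579427857) (nat_lit 237) (nat_lit 5) (nat_lit 245) (nat_lit 5) (nat_lit 238) (nat_lit 5) (nat_lit 446) (nat_lit 415) (nat_lit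 339)))) (XT.nd (nat_lit 156) (nat_lit 456) (nat_lit 0) (XT.nd (nat_lit 78) (nat_lit 532) (nat_lit 0) (XT.lf (nat_lit 0) (nat_lit 3791974595) (nat_lit 608) (nat_lit 219944078) (nat_lit 76) (nat_lit 7023432714) (nat_lit 237) (nat_lit 5) (nat_lit 245) (nat_lit 5) (nat_lit 238) (nat_lit 5) (nat_lit 447) (nat_lit 415) (nat_lit 338)) (XT.lf (nat_lit 0) (nat_lit 6088267742) (nat_lit 608) (nat_lit 4674454660) (nat_lit 76) (nat_lit 444558942) (nat_lit 230) (nat_lit 5) (nat_lit 238) (nat_lit 5) (nat_lit 231) (nat_lit 5) (nat_lit 448) (nat_lit 415) (nat_lit 337))) (XT.nd (nat_lit 78) (nat_lit 0) (nat_lit 0) (XT.lf (nat_lit 0) (nat_lit 2076953329) (nat_lit 456) (nat_lit 6410797419) (nat_lit 532) (nat_lit 2895592738) (nat_lit 224) (nat_lit 5) (nat_lit 230) (nat_lit 5) (nat_lit 231) (nat_lit 5) (nat_lit 449) (nat_lit 415) (nat_lit 336)) (XT.lf (nat_lit 0) (nat_lit 9094822968) (nat_lit 456) (nat_lit 1884467321) (nat_lit 532) (nat_lit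 584798263) (nat_lit 224) (nat_lit 5) (nat_lit 230) (nat_lit 5) (nat_lit 231) (nat_lit 5) (nat_lit 450) (nat_lit 415) (nat_lit 335))))))) (XT.nd (nat_lit 1170) (nat_lit 3040) (nat_lit 0) (XT.nd (nat_lit 546) (nat_lit 1596) (nat_lit 0) (XT.nd (nat_lit 234) (nat_lit 1368) (nat_lit 0) (XT.nd (nat_lit 78) (nat_lit 456) (nat_lit 0) (XT.lf (nat_lit 0) (nat_lit 1805300858) (nat_lit 532) (nat_lit 7162222173) (nat_lit 76) (nat_lit 2780867826) (nat_lit 217) (nat_lit 5) (nat_lit 224) (nat_lit 5) (nat_lit 218) (nat_lit 5) (nat_lit 451) (nat_lit 415) (nat_lit 334)) (XT.nd (nat_lit 78) (nat_lit 456) (nat_lit 0) (XT.lf (nat_lit 0) (nat_lit 4273010663) (nat_lit 532) (nat_lit 90220629) (nat_lit 76) (nat_lit 7574290338) (nat_lit 217) (nat_lit 5) (nat_lit 224) (nat_lit 5) (nat_lit 218) (nat_lit 5) (nat_lit 452) (nat_lit 415) (nat_lit 333)) (XT.lf (nat_lit 0) (nat_lit 6863847528) (nat_lit 532) (nat_lit 4829778795) (nat_lit 76) (nat_lit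 437229992) (nat_lit 211) (nat_lit 5) (nat_lit 218) (nat_lit 5) (nat_lit 212) (nat_lit 5) (nat_lit 453) (nat_lit 415) (nat_lit 332)))) (XT.nd (nat_lit 156) (nat_lit 912) (nat_lit 0) (XT.nd (nat_lit 78) (nat_lit 0) (nat_lit 0) (XT.lf (nat_lit 0) (nat_lit 2561375069) (nat_lit 456) (nat_lit 7014750714) (nat_lit 532) (nat_lit 2752556548) (nat_lit 205) (nat_lit 5) (nat_lit 211) (nat_lit 5) (nat_lit 212) (nat_lit 5) (nat_lit 454) (nat_lit 415) (nat_lit 331)) (XT.lf (nat_lit 0) (nat_lit 10242179506) (nat_lit 456) (nat_lit 2151768621) (nat_lit 532) (nat_lit 137772428) (nat_lit 205) (nat_lit 5) (nat_lit 211) (nat_lit 5) (nat_lit 212) (nat_lit 5) (nat_lit 455) (nat_lit 415) (nat_lit 330))) (XT.nd (nat_lit 78) (nat_lit 456) (nat_lit 0) (XT.lf (nat_lit 0) (nat_lit 2562158230) (nat_lit 456) (nat_lit 7303479835) (nat_lit 76) (nat_lit 2872780390) (nat_lit 199) (nat_lit 5) (nat_lit 205) (nat_lit 5) (nat_lit 200) (nat_lit 5) (nat_lit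 456) (nat_lit 415) (nat_lit 329)) (XT.lf (nat_lit 0) (nat_lit 442177344) (nat_lit 456) (nat_lit 4923272670) (nat_lit 532) (nat_lit 7585074857) (nat_lit 193) (nat_lit 5) (nat_lit 199) (nat_lit 5) (nat_lit 200) (nat_lit 5) (nat_lit 457) (nat_lit 415) (nat_lit 328))))) (XT.nd (nat_lit 312) (nat_lit 760) (nat_lit 0) (XT.nd (nat_lit 156) (nat_lit 456) (nat_lit 0) (XT.nd (nat_lit 78) (nat_lit 380) (nat_lit 0) (XT.lf (nat_lit 0) (nat_lit 8305485405) (nat_lit 532) (nat_lit 4630547396) (nat_lit 76) (nat_lit 231384729) (nat_lit 193) (nat_lit 5) (nat_lit 200) (nat_lit 5) (nat_lit 194) (nat_lit 5) (nat_lit 458) (nat_lit 415) (nat_lit 327)) (XT.lf (nat_lit 0) (nat_lit 3472163997) (nat_lit 380) (nat_lit 7920917579) (nat_lit 456) (nat_lit 1995956929) (nat_lit 188) (nat_lit 5) (nat_lit 193) (nat_lit 5) (nat_lit 194) (nat_lit 5) (nat_lit 459) (nat_lit 415) (nat_lit 326))) (XT.nd (nat_lit 78) (nat_lit 380) (nat_lit 0) (XT.lf (nat_lit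 0) (nat_lit 961952289) (nat_lit 456) (nat_lit 1743265281) (nat_lit 76) (nat_lit 10911078753) (nat_lit 187) (nat_lit 5) (nat_lit 193) (nat_lit 5) (nat_lit 188) (nat_lit 5) (nat_lit 460) (nat_lit 415) (nat_lit 325)) (XT.lf (nat_lit 0) (nat_lit 4037890501) (nat_lit 456) (nat_lit 7116924105) (nat_lit 76) (nat_lit 2692884287) (nat_lit 182) (nat_lit 5) (nat_lit 188) (nat_lit 5) (nat_lit 183) (nat_lit 5) (nat_lit 461) (nat_lit 415) (nat_lit 324)))) (XT.nd (nat_lit 156) (nat_lit 456) (nat_lit 0) (XT.nd (nat_lit 78) (nat_lit 0) (nat_lit 0) (XT.lf (nat_lit 0) (nat_lit 1379232278) (nat_lit 304) (nat_lit 5863022471) (nat_lit 380) (nat_lit 6842706421) (nat_lit 178) (nat_lit 5) (nat_lit 182) (nat_lit 5) (nat_lit 183) (nat_lit 5) (nat_lit 462) (nat_lit 415) (nat_lit 323)) (XT.lf (nat_lit 0) (nat_lit 10246478486) (nat_lit 304) (nat_lit 346811981) (nat_lit 380) (nat_lit 3734536640) (nat_lit 178) (nat_lit 5) (nat_lit 182) (nat_lit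 5) (nat_lit 183) (nat_lit 5) (nat_lit 463) (nat_lit 415) (nat_lit 322))) (XT.nd (nat_lit 78) (nat_lit 76) (nat_lit 0) (XT.lf (nat_lit 0) (nat_lit 4815075008) (nat_lit 380) (nat_lit 9306566588) (nat_lit 456) (nat_lit 454035846) (nat_lit 173) (nat_lit 5) (nat_lit 178) (nat_lit 5) (nat_lit 179) (nat_lit 5) (nat_lit 464) (nat_lit 415) (nat_lit 321)) (XT.lf (nat_lit 0) (nat_lit 2892198624) (nat_lit 456) (nat_lit 829119940) (nat_lit 76) (nat_lit 11108071280) (nat_lit 172) (nat_lit 5) (nat_lit 178) (nat_lit 5) (nat_lit 173) (nat_lit 5) (nat_lit 465) (nat_lit 415) (nat_lit 320)))))) (XT.nd (nat_lit 546) (nat_lit 1444) (nat_lit 0) (XT.nd (nat_lit 234) (nat_lit 988) (nat_lit 0) (XT.nd (nat_lit 78) (nat_lit 304) (nat_lit 0) (XT.lf (nat_lit 0) (nat_lit 6411670747) (nat_lit 380) (nat_lit 6605923198) (nat_lit 76) (nat_lit 2070527306) (nat_lit 168) (nat_lit 5) (nat_lit 173) (nat_lit 5) (nat_lit 169) (nat_lit 5) (nat_lit 466) (nat_lit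 415) (nat_lit 319)) (XT.nd (nat_lit 78) (nat_lit 0) (nat_lit 0) (XT.lf (nat_lit 0) (nat_lit 2722830581) (nat_lit 304) (nat_lit 7365539081) (nat_lit 380) (nat_lit 5264697391) (nat_lit 164) (nat_lit 5) (nat_lit 168) (nat_lit 5) (nat_lit 169) (nat_lit 5) (nat_lit 467) (nat_lit 415) (nat_lit 318)) (XT.lf (nat_lit 0) (nat_lit 12438282566) (nat_lit 304) (nat_lit 1484265729) (nat_lit 380) (nat_lit 1701999255) (nat_lit 164) (nat_lit 5) (nat_lit 168) (nat_lit 5) (nat_lit 169) (nat_lit 5) (nat_lit 468) (nat_lit 415) (nat_lit 317)))) (XT.nd (nat_lit 156) (nat_lit 304) (nat_lit 0) (XT.nd (nat_lit 78) (nat_lit 304) (nat_lit 0) (XT.lf (nat_lit 0) (nat_lit 2018397143) (nat_lit 380) (nat_lit 9323739735) (nat_lit 76) (nat_lit 4558793403) (nat_lit 159) (nat_lit 5) (nat_lit 164) (nat_lit 5) (nat_lit 160) (nat_lit 5) (nat_lit 469) (nat_lit 415) (nat_lit 316)) (XT.lf (nat_lit 0) (nat_lit 463061378) (nat_lit 304) (nat_lit 5385830931)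 (nat_lit 380) (nat_lit 10335227318) (nat_lit 155) (nat_lit 5) (nat_lit 159) (nat_lit 5) (nat_lit 160) (nat_lit 5) (nat_lit 470) (nat_lit 415) (nat_lit 315))) (XT.nd (nat_lit 78) (nat_lit 304) (nat_lit 0) (XT.lf (nat_lit 0) (nat_lit 9877834092) (nat_lit 380) (nat_lit 5775047656) (nat_lit 76) (nat_lit 820418447) (nat_lit 155) (nat_lit 5) (nat_lit 160) (nat_lit 5) (nat_lit 156) (nat_lit 5) (nat_lit 471) (nat_lit 415) (nat_lit 314)) (XT.lf (nat_lit 0) (nat_lit 4475657326) (nat_lit 304) (nat_lit 9630127483) (nat_lit 380) (nat_lit 2663028601) (nat_lit 151) (nat_lit 5) (nat_lit 155) (nat_lit 5) (nat_lit 156) (nat_lit 5) (nat_lit 472) (nat_lit 415) (nat_lit 313))))) (XT.nd (nat_lit 312) (nat_lit 836) (nat_lit 0) (XT.nd (nat_lit 156) (nat_lit 228) (nat_lit 0) (XT.nd (nat_lit 78) (nat_lit 304) (nat_lit 0) (XT.lf (nat_lit 0) (nat_lit 1401083790) (nat_lit 380) (nat_lit 1960877511) (nat_lit 76) (nat_lit 13709608759) (nat_lit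 150) (nat_lit 5) (nat_lit 155) (nat_lit 5) (nat_lit 151) (nat_lit 5) (nat_lit 473) (nat_lit 415) (nat_lit 312)) (XT.lf (nat_lit 0) (nat_lit 5631344235) (nat_lit 380) (nat_lit 8611622749) (nat_lit 76) (nat_lit 3136720286) (nat_lit 146) (nat_lit 5) (nat_lit 151) (nat_lit 5) (nat_lit 147) (nat_lit 5) (nat_lit 474) (nat_lit 415) (nat_lit 311))) (XT.nd (nat_lit 78) (nat_lit 0) (nat_lit 0) (XT.lf (nat_lit 0) (nat_lit 2143822928) (nat_lit 228) (nat_lit 7901154849) (nat_lit 304) (nat_lit 7650377551) (nat_lit 143) (nat_lit 5) (nat_lit 146) (nat_lit 5) (nat_lit 147) (nat_lit 5) (nat_lit 475) (nat_lit 415) (nat_lit 310)) (XT.lf (nat_lit 0) (nat_lit 13371583028) (nat_lit 228) (nat_lit 1289220721) (nat_lit 304) (nat_lit 3357597425) (nat_lit 143) (nat_lit 5) (nat_lit 146) (nat_lit 5) (nat_lit 147) (nat_lit 5) (nat_lit 476) (nat_lit 415) (nat_lit 309)))) (XT.nd (nat_lit 156) (nat_lit 456) (nat_lit 0) (XT.nd (nat_lit 78) (nat_lit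 0) (nat_lit 0) (XT.lf (nat_lit 0) (nat_lit 1144277631) (nat_lit 380) (nat_lit 11724425382) (nat_lit 76) (nat_lit 5479097538) (nat_lit 138) (nat_lit 5) (nat_lit 143) (nat_lit 5) (nat_lit 139) (nat_lit 5) (nat_lit 477) (nat_lit 415) (nat_lit 308)) (XT.lf (nat_lit 0) (nat_lit 5757181376) (nat_lit 380) (nat_lit 431797816) (nat_lit 76) (nat_lit 12495802852) (nat_lit 138) (nat_lit 5) (nat_lit 143) (nat_lit 5) (nat_lit 139) (nat_lit 5) (nat_lit 478) (nat_lit 415) (nat_lit 307))) (XT.nd (nat_lit 78) (nat_lit 228) (nat_lit 0) (XT.lf (nat_lit 0) (nat_lit 10609445526) (nat_lit 304) (nat_lit 7640527067) (nat_lit 76) (nat_lit 778872300) (nat_lit 135) (nat_lit 5) (nat_lit 139) (nat_lit 5) (nat_lit 136) (nat_lit 5) (nat_lit 479) (nat_lit 415) (nat_lit 306)) (XT.lf (nat_lit 0) (nat_lit 4183155972) (nat_lit 228) (nat_lit 11513937900) (nat_lit 304) (nat_lit 3683442349) (nat_lit 132) (nat_lit 5) (nat_lit 135) (nat_lit 5) (nat_lit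 136) (nat_lit 5) (nat_lit 480) (nat_lit 415) (nat_lit 305))))))))
noncomputable def xc133 : XT := (XT.nd (nat_lit 2340) (nat_lit 2432) (nat_lit 0) (XT.nd (nat_lit 1170) (nat_lit 1672) (nat_lit 0) (XT.nd (nat_lit 546) (nat_lit 1064) (nat_lit 0) (XT.nd (nat_lit 234) (nat_lit 532) (nat_lit 0) (XT.nd (nat_lit 78) (nat_lit 456) (nat_lit 0) (XT.lf (nat_lit 0) (nat_lit 1233188810) (nat_lit 304) (nat_lit 3260545088) (nat_lit 76) (nat_lit 15246843724) (nat_lit 131) (nat_lit 5) (nat_lit 135) (nat_lit 5) (nat_lit 132) (nat_lit 5) (nat_lit 481) (nat_lit 415) (nat_lit 304)) (XT.nd (nat_lit 78) (nat_lit 228) (nat_lit 0) (XT.lf (nat_lit 0) (nat_lit 6323156362) (nat_lit 304) (nat_lit 10984354178) (nat_lit 76) (nat_lit 2799820491) (nat_lit 128) (nat_lit 5) (nat_lit 132) (nat_lit 5) (nat_lit 129) (nat_lit 5) (nat_lit 482) (nat_lit 415) (nat_lit 303)) (XT.lf (nat_lit 0) (nat_lit 1418229342) (nat_lit 228) (nat_lit 10223543882) (nat_lit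 304) (nat_lit 8841036269) (nat_lit 125) (nat_lit 5) (nat_lit 128) (nat_lit 5) (nat_lit 129) (nat_lit 5) (nat_lit 483) (nat_lit 415) (nat_lit 302)))) (XT.nd (nat_lit 156) (nat_lit 228) (nat_lit 0) (XT.nd (nat_lit 78) (nat_lit 304) (nat_lit 0) (XT.lf (nat_lit 0) (nat_lit 14392937432) (nat_lit 228) (nat_lit 2822713298) (nat_lit 304) (nat_lit 3651031445) (nat_lit 125) (nat_lit 5) (nat_lit 128) (nat_lit 5) (nat_lit 129) (nat_lit 5) (nat_lit 484) (nat_lit 415) (nat_lit 301)) (XT.lf (nat_lit 0) (nat_lit 1756790823) (nat_lit 304) (nat_lit 14724686554) (nat_lit 76) (nat_lit 4777250237) (nat_lit 121) (nat_lit 5) (nat_lit 125) (nat_lit 5) (nat_lit 122) (nat_lit 5) (nat_lit 485) (nat_lit 415) (nat_lit 300))) (XT.nd (nat_lit 78) (nat_lit 228) (nat_lit 0) (XT.lf (nat_lit 0) (nat_lit 7332616632) (nat_lit 304) (nat_lit 1685345750) (nat_lit 76) (nat_lit 12641113891) (nat_lit 121) (nat_lit 5) (nat_lit 125) (nat_lit 5) (nat_lit 122)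 (nat_lit 5) (nat_lit 486) (nat_lit 415) (nat_lit 299)) (XT.lf (nat_lit 0) (nat_lit 11954375754) (nat_lit 228) (nat_lit 1221869726) (nat_lit 304) (nat_lit 8892174892) (nat_lit 118) (nat_lit 5) (nat_lit 121) (nat_lit 5) (nat_lit 122) (nat_lit 5) (nat_lit 487) (nat_lit 415) (nat_lit 298))))) (XT.nd (nat_lit 312) (nat_lit 456) (nat_lit 0) (XT.nd (nat_lit 156) (nat_lit 380) (nat_lit 0) (XT.nd (nat_lit 78) (nat_lit 76) (nat_lit 0) (XT.lf (nat_lit 0) (nat_lit 3527351347) (nat_lit 152) (nat_lit 15770082416) (nat_lit 228) (nat_lit 3189544317) (nat_lit 116) (nat_lit 5) (nat_lit 118) (nat_lit 5) (nat_lit 119) (nat_lit 5) (nat_lit 488) (nat_lit 415) (nat_lit 297)) (XT.lf (nat_lit 0) (nat_lit 2732786729) (nat_lit 228) (nat_lit 5192839770) (nat_lit 76) (nat_lit 14988662743) (nat_lit 115) (nat_lit 5) (nat_lit 118) (nat_lit 5) (nat_lit 116) (nat_lit 5) (nat_lit 489) (nat_lit 415) (nat_lit 296))) (XT.nd (nat_lit 78) (nat_lit 152)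 (nat_lit 0) (XT.lf (nat_lit 0) (nat_lit 8844989891) (nat_lit 304) (nat_lit 14244208962) (nat_lit 76) (nat_lit 261984965) (nat_lit 112) (nat_lit 5) (nat_lit 116) (nat_lit 5) (nat_lit 113) (nat_lit 5) (nat_lit 490) (nat_lit 415) (nat_lit 295)) (XT.lf (nat_lit 0) (nat_lit 40826576) (nat_lit 152) (nat_lit 15217812715) (nat_lit 228) (nat_lit 8539004249) (nat_lit 110) (nat_lit 5) (nat_lit 112) (nat_lit 5) (nat_lit 113) (nat_lit 5) (nat_lit 491) (nat_lit 415) (nat_lit 294)))) (XT.nd (nat_lit 156) (nat_lit 152) (nat_lit 0) (XT.nd (nat_lit 78) (nat_lit 304) (nat_lit 0) (XT.lf (nat_lit 0) (nat_lit 15023037564) (nat_lit 152) (nat_lit 6971934236) (nat_lit 228) (nat_lit 2258617739) (nat_lit 110) (nat_lit 5) (nat_lit 112) (nat_lit 5) (nat_lit 113) (nat_lit 5) (nat_lit 492) (nat_lit 415) (nat_lit 293)) (XT.lf (nat_lit 0) (nat_lit 4185775035) (nat_lit 304) (nat_lit 18955331066) (nat_lit 76) (nat_lit 1579161831) (nat_lit 106) (nat_lit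 5) (nat_lit 110) (nat_lit 5) (nat_lit 107) (nat_lit 5) (nat_lit 493) (nat_lit 415) (nat_lit 292))) (XT.nd (nat_lit 78) (nat_lit 152) (nat_lit 0) (XT.lf (nat_lit 0) (nat_lit 10928041796) (nat_lit 304) (nat_lit 3913987214) (nat_lit 76) (nat_lit 10353749278) (nat_lit 106) (nat_lit 5) (nat_lit 110) (nat_lit 5) (nat_lit 107) (nat_lit 5) (nat_lit 494) (nat_lit 415) (nat_lit 291)) (XT.lf (nat_lit 0) (nat_lit 11786229507) (nat_lit 152) (nat_lit 6186804453) (nat_lit 228) (nat_lit 7709506889) (nat_lit 104) (nat_lit 5) (nat_lit 106) (nat_lit 5) (nat_lit 107) (nat_lit 5) (nat_lit 495) (nat_lit 415) (nat_lit 290)))))) (XT.nd (nat_lit 546) (nat_lit 912) (nat_lit 0) (XT.nd (nat_lit 234) (nat_lit 380) (nat_lit 0) (XT.nd (nat_lit 78) (nat_lit 228) (nat_lit 0) (XT.lf (nat_lit 0) (nat_lit 1841861124) (nat_lit 152) (nat_lit 23458589849) (nat_lit 228) (nat_lit 881323658) (nat_lit 102) (nat_lit 5) (nat_lit 104) (nat_lit 5) (nat_lit 105)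 (nat_lit 5) (nat_lit 496) (nat_lit 415) (nat_lit 289)) (XT.nd (nat_lit 78) (nat_lit 152) (nat_lit 0) (XT.lf (nat_lit 0) (nat_lit 6221897605) (nat_lit 228) (nat_lit 8498979079) (nat_lit 76) (nat_lit 11967628254) (nat_lit 101) (nat_lit 5) (nat_lit 104) (nat_lit 5) (nat_lit 102) (nat_lit 5) (nat_lit 497) (nat_lit 415) (nat_lit 288)) (XT.lf (nat_lit 0) (nat_lit 7941617118) (nat_lit 152) (nat_lit 5642859399) (nat_lit 228) (nat_lit 13623780163) (nat_lit 99) (nat_lit 5) (nat_lit 101) (nat_lit 5) (nat_lit 102) (nat_lit 5) (nat_lit 498) (nat_lit 415) (nat_lit 287)))) (XT.nd (nat_lit 156) (nat_lit 152) (nat_lit 0) (XT.nd (nat_lit 78) (nat_lit 228) (nat_lit 0) (XT.lf (nat_lit 0) (nat_lit 21277941705) (nat_lit 228) (nat_lit 2749735539) (nat_lit 76) (nat_lit 3712623993) (nat_lit 99) (nat_lit 5) (nat_lit 102) (nat_lit 5) (nat_lit 100) (nat_lit 5) (nat_lit 499) (nat_lit 415) (nat_lit 286)) (XT.lf (nat_lit 0) (nat_lit 1080881386)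 (nat_lit 228) (nat_lit 13825523811) (nat_lit 76) (nat_lit 13376094548) (nat_lit 96) (nat_lit 5) (nat_lit 99) (nat_lit 5) (nat_lit 97) (nat_lit 5) (nat_lit 500) (nat_lit 415) (nat_lit 285))) (XT.nd (nat_lit 78) (nat_lit 0) (nat_lit 0) (XT.lf (nat_lit 0) (nat_lit 3376488109) (nat_lit 152) (nat_lit 5392627314) (nat_lit 228) (nat_lit 20068472270) (nat_lit 94) (nat_lit 5) (nat_lit 96) (nat_lit 5) (nat_lit 97) (nat_lit 5) (nat_lit 501) (nat_lit 415) (nat_lit 284)) (XT.lf (nat_lit 0) (nat_lit 16859487623) (nat_lit 228) (nat_lit 8092231721) (nat_lit 76) (nat_lit 4452464674) (nat_lit 94) (nat_lit 5) (nat_lit 97) (nat_lit 5) (nat_lit 95) (nat_lit 5) (nat_lit 502) (nat_lit 415) (nat_lit 283))))) (XT.nd (nat_lit 312) (nat_lit 380) (nat_lit 0) (XT.nd (nat_lit 156) (nat_lit 304) (nat_lit 0) (XT.nd (nat_lit 78) (nat_lit 76) (nat_lit 0) (XT.lf (nat_lit 0) (nat_lit 9917128769) (nat_lit 152) (nat_lit 15412649114) (nat_lit 228) (nat_lit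 4653884600) (nat_lit 92) (nat_lit 5) (nat_lit 94) (nat_lit 5) (nat_lit 95) (nat_lit 5) (nat_lit 503) (nat_lit 415) (nat_lit 282)) (XT.lf (nat_lit 0) (nat_lit 3476903153) (nat_lit 228) (nat_lit 2000346990) (nat_lit 76) (nat_lit 25100142813) (nat_lit 91) (nat_lit 5) (nat_lit 94) (nat_lit 5) (nat_lit 92) (nat_lit 5) (nat_lit 504) (nat_lit 415) (nat_lit 281))) (XT.nd (nat_lit 78) (nat_lit 152) (nat_lit 0) (XT.lf (nat_lit 0) (nat_lit 11956789125) (nat_lit 228) (nat_lit 14359882593) (nat_lit 76) (nat_lit 4864920311) (nat_lit 89) (nat_lit 5) (nat_lit 92) (nat_lit 5) (nat_lit 90) (nat_lit 5) (nat_lit 505) (nat_lit 415) (nat_lit 280)) (XT.lf (nat_lit 0) (nat_lit 4458522624) (nat_lit 152) (nat_lit 16338929632) (nat_lit 228) (nat_lit 11003273808) (nat_lit 87) (nat_lit 5) (nat_lit 89) (nat_lit 5) (nat_lit 90) (nat_lit 5) (nat_lit 506) (nat_lit 415) (nat_lit 279)))) (XT.nd (nat_lit 156) (nat_lit 152) (nat_lit 0) (XT.nd (nat_lit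 78) (nat_lit 228) (nat_lit 0) (XT.lf (nat_lit 0) (nat_lit 24115870626) (nat_lit 152) (nat_lit 5921495586) (nat_lit 228) (nat_lit 2397047374) (nat_lit 87) (nat_lit 5) (nat_lit 89) (nat_lit 5) (nat_lit 90) (nat_lit 5) (nat_lit 507) (nat_lit 415) (nat_lit 278)) (XT.lf (nat_lit 0) (nat_lit 6487986925) (nat_lit 228) (nat_lit 21713279569) (nat_lit 76) (nat_lit 4879575885) (nat_lit 84) (nat_lit 5) (nat_lit 87) (nat_lit 5) (nat_lit 85) (nat_lit 5) (nat_lit 508) (nat_lit 415) (nat_lit 277))) (XT.nd (nat_lit 78) (nat_lit 152) (nat_lit 0) (XT.lf (nat_lit 0) (nat_lit 15724135840) (nat_lit 228) (nat_lit 2032212305) (nat_lit 76) (nat_lit 15985622000) (nat_lit 84) (nat_lit 5) (nat_lit 87) (nat_lit 5) (nat_lit 85) (nat_lit 5) (nat_lit 509) (nat_lit 415) (nat_lit 276)) (XT.lf (nat_lit 0) (nat_lit 18582828656) (nat_lit 152) (nat_lit 6822762832) (nat_lit 228) (nat_lit 9012293940) (nat_lit 82) (nat_lit 5) (nat_lit 84) (nat_lit 5) (nat_lit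 85) (nat_lit 5) (nat_lit 510) (nat_lit 415) (nat_lit 275))))))) (XT.nd (nat_lit 1170) (nat_lit 1140) (nat_lit 0) (XT.nd (nat_lit 546) (nat_lit 684) (nat_lit 0) (XT.nd (nat_lit 234) (nat_lit 304) (nat_lit 0) (XT.nd (nat_lit 78) (nat_lit 152) (nat_lit 0) (XT.lf (nat_lit 0) (nat_lit 358183733) (nat_lit 152) (nat_lit 30338901322) (nat_lit 76) (nat_lit 4413920147) (nat_lit 80) (nat_lit 5) (nat_lit 82) (nat_lit 5) (nat_lit 81) (nat_lit 5) (nat_lit 511) (nat_lit 415) (nat_lit 274)) (XT.nd (nat_lit 78) (nat_lit 152) (nat_lit 0) (XT.lf (nat_lit 0) (nat_lit 10047325730) (nat_lit 152) (nat_lit 9675539252) (nat_lit 76) (nat_lit 16092816344) (nat_lit 80) (nat_lit 5) (nat_lit 82) (nat_lit 5) (nat_lit 81) (nat_lit 5) (nat_lit 512) (nat_lit 415) (nat_lit 273)) (XT.lf (nat_lit 0) (nat_lit 11819793402) (nat_lit 152) (nat_lit 8310918976) (nat_lit 228) (nat_lit 16407678555) (nat_lit 78) (nat_lit 5) (nat_lit 80) (nat_lit 5) (nat_lit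 81) (nat_lit 5) (nat_lit 513) (nat_lit 415) (nat_lit 272)))) (XT.nd (nat_lit 156) (nat_lit 152) (nat_lit 0) (XT.nd (nat_lit 78) (nat_lit 152) (nat_lit 0) (XT.lf (nat_lit 0) (nat_lit 30638357716) (nat_lit 228) (nat_lit 3174204733) (nat_lit 76) (nat_lit 3466566969) (nat_lit 78) (nat_lit 5) (nat_lit 81) (nat_lit 5) (nat_lit 79) (nat_lit 4) (nat_lit 514) (nat_lit 415) (nat_lit 271)) (XT.lf (nat_lit 0) (nat_lit 3612993312) (nat_lit 152) (nat_lit 18777138836) (nat_lit 76) (nat_lit 15643155066) (nat_lit 76) (nat_lit 5) (nat_lit 78) (nat_lit 5) (nat_lit 77) (nat_lit 5) (nat_lit 515) (nat_lit 415) (nat_lit 270))) (XT.nd (nat_lit 78) (nat_lit 0) (nat_lit 0) (XT.lf (nat_lit 0) (nat_lit 3601496567) (nat_lit 152) (nat_lit 10496685407) (nat_lit 228) (nat_lit 24708197033) (nat_lit 74) (nat_lit 5) (nat_lit 76) (nat_lit 5) (nat_lit 77) (nat_lit 5) (nat_lit 516) (nat_lit 415) (nat_lit 269)) (XT.lf (nat_lit 0) (nat_lit 25096596174)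 (nat_lit 228) (nat_lit 12597421887) (nat_lit 76) (nat_lit 1902685664) (nat_lit 74) (nat_lit 5) (nat_lit 77) (nat_lit 5) (nat_lit 75) (nat_lit 4) (nat_lit 517) (nat_lit 415) (nat_lit 268))))) (XT.nd (nat_lit 312) (nat_lit 304) (nat_lit 0) (XT.nd (nat_lit 156) (nat_lit 228) (nat_lit 0) (XT.nd (nat_lit 78) (nat_lit 76) (nat_lit 0) (XT.lf (nat_lit 0) (nat_lit 10777044555) (nat_lit 76) (nat_lit 25846047104) (nat_lit 152) (nat_lit 3781702922) (nat_lit 73) (nat_lit 5) (nat_lit 74) (nat_lit 5) (nat_lit 75) (nat_lit 4) (nat_lit 518) (nat_lit 415) (nat_lit 267)) (XT.lf (nat_lit 0) (nat_lit 7235707650) (nat_lit 152) (nat_lit 6210966164) (nat_lit 76) (nat_lit 27784788816) (nat_lit 72) (nat_lit 5) (nat_lit 74) (nat_lit 5) (nat_lit 73) (nat_lit 5) (nat_lit 519) (nat_lit 415) (nat_lit 266))) (XT.nd (nat_lit 78) (nat_lit 76) (nat_lit 0) (XT.lf (nat_lit 0) (nat_lit 18209112927) (nat_lit 152) (nat_lit 464449197) (nat_lit 228) (nat_lit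 23403267657) (nat_lit 70) (nat_lit 5) (nat_lit 72) (nat_lit 5) (nat_lit 73) (nat_lit 5) (nat_lit 520) (nat_lit 415) (nat_lit 265)) (XT.lf (nat_lit 0) (nat_lit 409618828) (nat_lit 76) (nat_lit 30227202164) (nat_lit 152) (nat_lit 12305269123) (nat_lit 69) (nat_lit 5) (nat_lit 70) (nat_lit 5) (nat_lit 71) (nat_lit 4) (nat_lit 521) (nat_lit 415) (nat_lit 264)))) (XT.nd (nat_lit 156) (nat_lit 76) (nat_lit 0) (XT.nd (nat_lit 78) (nat_lit 228) (nat_lit 0) (XT.lf (nat_lit 0) (nat_lit 25882899425) (nat_lit 76) (nat_lit 17312669704) (nat_lit 152) (nat_lit 630641610) (nat_lit 69) (nat_lit 5) (nat_lit 70) (nat_lit 5) (nat_lit 71) (nat_lit 4) (nat_lit 522) (nat_lit 415) (nat_lit 263)) (XT.lf (nat_lit 0) (nat_lit 7401799293) (nat_lit 152) (nat_lit 3832429630) (nat_lit 228) (nat_lit 33497470027) (nat_lit 66) (nat_lit 5) (nat_lit 68) (nat_lit 5) (nat_lit 69) (nat_lit 5) (nat_lit 523) (nat_lit 415) (nat_lit 262))) (XT.nd (nat_lit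 78) (nat_lit 76) (nat_lit 0) (XT.lf (nat_lit 0) (nat_lit 23713204053) (nat_lit 228) (nat_lit 11905153932) (nat_lit 76) (nat_lit 10037681696) (nat_lit 66) (nat_lit 5) (nat_lit 69) (nat_lit 5) (nat_lit 67) (nat_lit 4) (nat_lit 524) (nat_lit 415) (nat_lit 261)) (XT.lf (nat_lit 0) (nat_lit 14511388503) (nat_lit 76) (nat_lit 22224072310) (nat_lit 152) (nat_lit 9867582649) (nat_lit 65) (nat_lit 5) (nat_lit 66) (nat_lit 5) (nat_lit 67) (nat_lit 4) (nat_lit 525) (nat_lit 415) (nat_lit 260)))))) (XT.nd (nat_lit 624) (nat_lit 532) (nat_lit 0) (XT.nd (nat_lit 312) (nat_lit 304) (nat_lit 0) (XT.nd (nat_lit 156) (nat_lit 76) (nat_lit 0) (XT.nd (nat_lit 78) (nat_lit 152) (nat_lit 0) (XT.lf (nat_lit 0) (nat_lit 2632674270) (nat_lit 152) (nat_lit 5652454980) (nat_lit 76) (nat_lit 39289200339) (nat_lit 64) (nat_lit 5) (nat_lit 66) (nat_lit 5) (nat_lit 65) (nat_lit 5) (nat_lit 526) (nat_lit 415) (nat_lit 259)) (XT.lf (nat_lit 0)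 (nat_lit 15573147235) (nat_lit 228) (nat_lit 26733367137) (nat_lit 76) (nat_lit 6257403034) (nat_lit 62) (nat_lit 5) (nat_lit 65) (nat_lit 5) (nat_lit 63) (nat_lit 4) (nat_lit 527) (nat_lit 415) (nat_lit 258))) (XT.nd (nat_lit 78) (nat_lit 0) (nat_lit 0) (XT.lf (nat_lit 0) (nat_lit 585534203) (nat_lit 76) (nat_lit 28453357693) (nat_lit 152) (nat_lit 20540189415) (nat_lit 61) (nat_lit 5) (nat_lit 62) (nat_lit 5) (nat_lit 63) (nat_lit 4) (nat_lit 528) (nat_lit 415) (nat_lit 257)) (XT.lf (nat_lit 0) (nat_lit 29256434098) (nat_lit 76) (nat_lit 13913973994) (nat_lit 152) (nat_lit 7446438238) (nat_lit 61) (nat_lit 5) (nat_lit 62) (nat_lit 5) (nat_lit 63) (nat_lit 4) (nat_lit 529) (nat_lit 415) (nat_lit 256)))) (XT.nd (nat_lit 156) (nat_lit 76) (nat_lit 0) (XT.nd (nat_lit 78) (nat_lit 0) (nat_lit 0) (XT.lf (nat_lit 0) (nat_lit 5994561803) (nat_lit 228) (nat_lit 44525315288) (nat_lit 76) (nat_lit 1161956502) (nat_lit 58)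 (nat_lit 5) (nat_lit 61) (nat_lit 5) (nat_lit 59) (nat_lit 4) (nat_lit 530) (nat_lit 415) (nat_lit 255)) (XT.lf (nat_lit 0) (nat_lit 20036743431) (nat_lit 228) (nat_lit 16034400215) (nat_lit 76) (nat_lit 16694986644) (nat_lit 58) (nat_lit 5) (nat_lit 61) (nat_lit 5) (nat_lit 59) (nat_lit 4) (nat_lit 531) (nat_lit 415) (nat_lit 254))) (XT.nd (nat_lit 78) (nat_lit 0) (nat_lit 0) (XT.lf (nat_lit 0) (nat_lit 13561012029) (nat_lit 76) (nat_lit 21061789197) (nat_lit 152) (nat_lit 19256476494) (nat_lit 57) (nat_lit 5) (nat_lit 58) (nat_lit 5) (nat_lit 59) (nat_lit 4) (nat_lit 532) (nat_lit 415) (nat_lit 253)) (XT.lf (nat_lit 0) (nat_lit 44358267290) (nat_lit 76) (nat_lit 5442427665) (nat_lit 152) (nat_lit 5220497140) (nat_lit 57) (nat_lit 5) (nat_lit 58) (nat_lit 5) (nat_lit 59) (nat_lit 4) (nat_lit 533) (nat_lit 415) (nat_lit 252))))) (XT.nd (nat_lit 312) (nat_lit 304) (nat_lit 0) (XT.nd (nat_lit 156) (nat_lit 76) (nat_lit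 0) (XT.nd (nat_lit 78) (nat_lit 0) (nat_lit 0) (XT.lf (nat_lit 0) (nat_lit 9347784644) (nat_lit 152) (nat_lit 36121675353) (nat_lit 76) (nat_lit 10716496572) (nat_lit 55) (nat_lit 5) (nat_lit 57) (nat_lit 5) (nat_lit 56) (nat_lit 4) (nat_lit 534) (nat_lit 415) (nat_lit 251)) (XT.lf (nat_lit 0) (nat_lit 24403317304) (nat_lit 152) (nat_lit 5571636162) (nat_lit 76) (nat_lit 27404506127) (nat_lit 55) (nat_lit 5) (nat_lit 57) (nat_lit 5) (nat_lit 56) (nat_lit 4) (nat_lit 535) (nat_lit 415) (nat_lit 250))) (XT.nd (nat_lit 78) (nat_lit 0) (nat_lit 0) (XT.lf (nat_lit 0) (nat_lit 26395959445) (nat_lit 76) (nat_lit 13761012067) (nat_lit 152) (nat_lit 18444402662) (nat_lit 54) (nat_lit 5) (nat_lit 55) (nat_lit 5) (nat_lit 56) (nat_lit 4) (nat_lit 536) (nat_lit 415) (nat_lit 249)) (XT.lf (nat_lit 0) (nat_lit 56461045487) (nat_lit 152) (nat_lit 464313522) (nat_lit 0) (nat_lit 2932253007) (nat_lit 54) (nat_lit 5) (nat_lit 56)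 (nat_lit 4) (nat_lit 54) (nat_lit 4) (nat_lit 537) (nat_lit 415) (nat_lit 248)))) (XT.nd (nat_lit 156) (nat_lit 76) (nat_lit 0) (XT.nd (nat_lit 78) (nat_lit 76) (nat_lit 0) (XT.lf (nat_lit 0) (nat_lit 12314626538) (nat_lit 152) (nat_lit 28541377380) (nat_lit 76) (nat_lit 20278600361) (nat_lit 52) (nat_lit 5) (nat_lit 54) (nat_lit 5) (nat_lit 53) (nat_lit 4) (nat_lit 538) (nat_lit 415) (nat_lit 247)) (XT.lf (nat_lit 0) (nat_lit 4237624218) (nat_lit 76) (nat_lit 24229687011) (nat_lit 152) (nat_lit 33980433615) (nat_lit 51) (nat_lit 5) (nat_lit 52) (nat_lit 5) (nat_lit 53) (nat_lit 4) (nat_lit 539) (nat_lit 415) (nat_lit 246))) (XT.nd (nat_lit 78) (nat_lit 76) (nat_lit 0) (XT.lf (nat_lit 0) (nat_lit 38571562663) (nat_lit 76) (nat_lit 6814254913) (nat_lit 152) (nat_lit 18406024930) (nat_lit 51) (nat_lit 5) (nat_lit 52) (nat_lit 5) (nat_lit 53) (nat_lit 4) (nat_lit 540) (nat_lit 415) (nat_lit 245)) (XT.lf (nat_lit 0)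 (nat_lit 8811011162) (nat_lit 76) (nat_lit 54185663250) (nat_lit 76) (nat_lit 2174044937) (nat_lit 50) (nat_lit 4) (nat_lit 51) (nat_lit 5) (nat_lit 51) (nat_lit 4) (nat_lit 541) (nat_lit 415) (nat_lit 244))))))))
noncomputable def xc134 : XT := (XT.nd (nat_lit 54288) (nat_lit 0) (nat_lit 9500) (XT.nd (nat_lit 53118) (nat_lit 0) (nat_lit 18468) (XT.nd (nat_lit 546) (nat_lit 152) (nat_lit 0) (XT.nd (nat_lit 234) (nat_lit 228) (nat_lit 0) (XT.nd (nat_lit 78) (nat_lit 76) (nat_lit 0) (XT.lf (nat_lit 0) (nat_lit 14578912953) (nat_lit 152) (nat_lit 22426152461) (nat_lit 76) (nat_lit 29572167503) (nat_lit 49) (nat_lit 5) (nat_lit 51) (nat_lit 5) (nat_lit 50) (nat_lit 4) (nat_lit 542) (nat_lit 415) (nat_lit 243)) (XT.nd (nat_lit 78) (nat_lit 0) (nat_lit 0) (XT.lf (nat_lit 0) (nat_lit 12739608246) (nat_lit 76) (nat_lit 19166991814) (nat_lit 152) (nat_lit 36115221078) (nat_lit 48) (nat_lit 5) (nat_lit 49) (nat_lit 5) (nat_lit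 50) (nat_lit 4) (nat_lit 543) (nat_lit 415) (nat_lit 242)) (XT.lf (nat_lit 0) (nat_lit 49407309975) (nat_lit 76) (nat_lit 566714114) (nat_lit 152) (nat_lit 19529125827) (nat_lit 48) (nat_lit 5) (nat_lit 49) (nat_lit 5) (nat_lit 50) (nat_lit 4) (nat_lit 544) (nat_lit 415) (nat_lit 241)))) (XT.nd (nat_lit 156) (nat_lit 76) (nat_lit 0) (XT.nd (nat_lit 78) (nat_lit 76) (nat_lit 0) (XT.lf (nat_lit 0) (nat_lit 16272436589) (nat_lit 76) (nat_lit 52639747668) (nat_lit 76) (nat_lit 2106872992) (nat_lit 47) (nat_lit 4) (nat_lit 48) (nat_lit 5) (nat_lit 48) (nat_lit 4) (nat_lit 545) (nat_lit 415) (nat_lit 240)) (XT.lf (nat_lit 0) (nat_lit 15733123089) (nat_lit 152) (nat_lit 18603025782) (nat_lit 76) (nat_lit 38233601681) (nat_lit 46) (nat_lit 5) (nat_lit 48) (nat_lit 5) (nat_lit 47) (nat_lit 4) (nat_lit 546) (nat_lit 415) (nat_lit 239))) (XT.nd (nat_lit 78) (nat_lit 0) (nat_lit 0) (XT.lf (nat_lit 0) (nat_lit 18961882857) (nat_lit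 76) (nat_lit 15280134429) (nat_lit 152) (nat_lit 39919040322) (nat_lit 45) (nat_lit 5) (nat_lit 46) (nat_lit 5) (nat_lit 47) (nat_lit 4) (nat_lit 547) (nat_lit 415) (nat_lit 238)) (XT.lf (nat_lit 0) (nat_lit 53531464222) (nat_lit 152) (nat_lit 17815195132) (nat_lit 0) (nat_lit 4446686031) (nat_lit 45) (nat_lit 5) (nat_lit 47) (nat_lit 4) (nat_lit 45) (nat_lit 4) (nat_lit 548) (nat_lit 415) (nat_lit 237))))) (XT.nd (nat_lit 52260) (nat_lit 0) (nat_lit 23636) (XT.nd (nat_lit 52104) (nat_lit 0) (nat_lit 24548) (XT.nd (nat_lit 78) (nat_lit 76) (nat_lit 0) (XT.lf (nat_lit 0) (nat_lit 20935743220) (nat_lit 76) (nat_lit 52810348604) (nat_lit 76) (nat_lit 3718115136) (nat_lit 44) (nat_lit 4) (nat_lit 45) (nat_lit 5) (nat_lit 45) (nat_lit 4) (nat_lit 549) (nat_lit 415) (nat_lit 236)) (XT.lf (nat_lit 0) (nat_lit 15257451978) (nat_lit 152) (nat_lit 18126844083) (nat_lit 76) (nat_lit 45791193204) (nat_lit 43) (nat_lit 5) (nat_lit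 45) (nat_lit 5) (nat_lit 44) (nat_lit 4) (nat_lit 550) (nat_lit 415) (nat_lit 235))) (XT.nd (nat_lit 78) (nat_lit 0) (nat_lit 0) (XT.lf (nat_lit 0) (nat_lit 1228116656) (nat_lit 0) (nat_lit 1228116656) (nat_lit 836) (nat_lit 1307644833) (nat_lit 366) (nat_lit 5) (nat_lit 366) (nat_lit 3) (nat_lit 377) (nat_lit 3) (nat_lit 416) (nat_lit 416) (nat_lit 368)) (XT.lf (nat_lit 0) (nat_lit 6264455112) (nat_lit 0) (nat_lit 147803814) (nat_lit 836) (nat_lit 1185384114) (nat_lit 366) (nat_lit 5) (nat_lit 366) (nat_lit 3) (nat_lit 377) (nat_lit 3) (nat_lit 417) (nat_lit 416) (nat_lit 367)))) (XT.nd (nat_lit 156) (nat_lit 0) (nat_lit 0) (XT.nd (nat_lit 78) (nat_lit 0) (nat_lit 0) (XT.lf (nat_lit 0) (nat_lit 271926680) (nat_lit 912) (nat_lit 5157428370) (nat_lit 988) (nat_lit 2240494294) (nat_lit 354) (nat_lit 5) (nat_lit 366) (nat_lit 5) (nat_lit 367) (nat_lit 5) (nat_lit 418) (nat_lit 416) (nat_lit 366)) (XT.lf (nat_lit 0)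 (nat_lit 1709587108) (nat_lit 912) (nat_lit 1287003098) (nat_lit 988) (nat_lit 4748474942) (nat_lit 354) (nat_lit 5) (nat_lit 366) (nat_lit 5) (nat_lit 367) (nat_lit 5) (nat_lit 419) (nat_lit 416) (nat_lit 365))) (XT.nd (nat_lit 78) (nat_lit 0) (nat_lit 76) (XT.lf (nat_lit 76) (nat_lit 2722981609) (nat_lit 0) (nat_lit 440557184) (nat_lit 988) (nat_lit 4659812590) (nat_lit 355) (nat_lit 5) (nat_lit 354) (nat_lit 5) (nat_lit 367) (nat_lit 5) (nat_lit 420) (nat_lit 416) (nat_lit 364)) (XT.lf (nat_lit 0) (nat_lit 4643769130) (nat_lit 912) (nat_lit 1076322618) (nat_lit 988) (nat_lit 2184423201) (nat_lit 355) (nat_lit 5) (nat_lit 367) (nat_lit 5) (nat_lit 368) (nat_lit 5) (nat_lit 421) (nat_lit 416) (nat_lit 363)))))) (XT.nd (nat_lit 546) (nat_lit 4332) (nat_lit 0) (XT.nd (nat_lit 234) (nat_lit 0) (nat_lit 0) (XT.nd (nat_lit 78) (nat_lit 912) (nat_lit 0) (XT.lf (nat_lit 76) (nat_lit 3094197472) (nat_lit 0) (nat_lit 3058278119)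 (nat_lit 988) (nat_lit 1836124049) (nat_lit 356) (nat_lit 5) (nat_lit 355) (nat_lit 5) (nat_lit 368) (nat_lit 5) (nat_lit 422) (nat_lit 416) (nat_lit 362)) (XT.nd (nat_lit 78) (nat_lit 912) (nat_lit 0) (XT.lf (nat_lit 76) (nat_lit 7381927980) (nat_lit 0) (nat_lit 286517244) (nat_lit 988) (nat_lit 407909645) (nat_lit 356) (nat_lit 5) (nat_lit 355) (nat_lit 5) (nat_lit 368) (nat_lit 5) (nat_lit 423) (nat_lit 416) (nat_lit 361)) (XT.lf (nat_lit 0) (nat_lit 1055003444) (nat_lit 988) (nat_lit 4529391489) (nat_lit 1064) (nat_lit 2581670878) (nat_lit 343) (nat_lit 5) (nat_lit 356) (nat_lit 5) (nat_lit 357) (nat_lit 5) (nat_lit 424) (nat_lit 416) (nat_lit 360)))) (XT.nd (nat_lit 156) (nat_lit 0) (nat_lit 76) (XT.nd (nat_lit 78) (nat_lit 0) (nat_lit 76) (XT.lf (nat_lit 0) (nat_lit 2516876599) (nat_lit 988) (nat_lit 184597105) (nat_lit 1064) (nat_lit 5557982451) (nat_lit 343) (nat_lit 5) (nat_lit 356) (nat_lit 5) (nat_lit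 357) (nat_lit 5) (nat_lit 425) (nat_lit 416) (nat_lit 359)) (XT.lf (nat_lit 0) (nat_lit 4022215074) (nat_lit 988) (nat_lit 4013992571) (nat_lit 1064) (nat_lit 319459447) (nat_lit 344) (nat_lit 5) (nat_lit 357) (nat_lit 5) (nat_lit 358) (nat_lit 5) (nat_lit 426) (nat_lit 416) (nat_lit 358))) (XT.nd (nat_lit 78) (nat_lit 0) (nat_lit 0) (XT.lf (nat_lit 76) (nat_lit 504287041) (nat_lit 0) (nat_lit 5057780629) (nat_lit 1064) (nat_lit 2893023016) (nat_lit 345) (nat_lit 5) (nat_lit 344) (nat_lit 5) (nat_lit 358) (nat_lit 5) (nat_lit 427) (nat_lit 416) (nat_lit 357)) (XT.lf (nat_lit 76) (nat_lit 5209110120) (nat_lit 0) (nat_lit 1936400230) (nat_lit 1064) (nat_lit 1412071548) (nat_lit 345) (nat_lit 5) (nat_lit 344) (nat_lit 5) (nat_lit 358) (nat_lit 5) (nat_lit 428) (nat_lit 416) (nat_lit 356))))) (XT.nd (nat_lit 312) (nat_lit 3420) (nat_lit 0) (XT.nd (nat_lit 156) (nat_lit 0) (nat_lit 0) (XT.nd (nat_lit 78) (nat_lit 0)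 (nat_lit 0) (XT.lf (nat_lit 0) (nat_lit 94663550) (nat_lit 1064) (nat_lit 7289855841) (nat_lit 1140) (nat_lit 1279095154) (nat_lit 331) (nat_lit 5) (nat_lit 345) (nat_lit 5) (nat_lit 346) (nat_lit 5) (nat_lit 429) (nat_lit 416) (nat_lit 355)) (XT.lf (nat_lit 0) (nat_lit 1630271333) (nat_lit 1064) (nat_lit 2531271638) (nat_lit 1140) (nat_lit 4610510389) (nat_lit 331) (nat_lit 5) (nat_lit 345) (nat_lit 5) (nat_lit 346) (nat_lit 5) (nat_lit 430) (nat_lit 416) (nat_lit 354))) (XT.nd (nat_lit 78) (nat_lit 0) (nat_lit 76) (XT.lf (nat_lit 76) (nat_lit 2385289089) (nat_lit 0) (nat_lit 809520915) (nat_lit 1140) (nat_lit 5689455451) (nat_lit 332) (nat_lit 5) (nat_lit 331) (nat_lit 5) (nat_lit 346) (nat_lit 5) (nat_lit 431) (nat_lit 416) (nat_lit 353)) (XT.lf (nat_lit 0) (nat_lit 4818386729) (nat_lit 1064) (nat_lit 1555781475) (nat_lit 76) (nat_lit 2625318470) (nat_lit 332) (nat_lit 5) (nat_lit 346) (nat_lit 5) (nat_lit 333)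 (nat_lit 5) (nat_lit 432) (nat_lit 416) (nat_lit 352)))) (XT.nd (nat_lit 156) (nat_lit 2432) (nat_lit 0) (XT.nd (nat_lit 78) (nat_lit 0) (nat_lit 0) (XT.lf (nat_lit 0) (nat_lit 3565938892) (nat_lit 1064) (nat_lit 2929045496) (nat_lit 1140) (nat_lit 2623056383) (nat_lit 318) (nat_lit 5) (nat_lit 332) (nat_lit 5) (nat_lit 333) (nat_lit 5) (nat_lit 433) (nat_lit 416) (nat_lit 351)) (XT.lf (nat_lit 0) (nat_lit 8206587713) (nat_lit 1140) (nat_lit 404799226) (nat_lit 76) (nat_lit 629228804) (nat_lit 318) (nat_lit 5) (nat_lit 333) (nat_lit 5) (nat_lit 319) (nat_lit 5) (nat_lit 434) (nat_lit 416) (nat_lit 350))) (XT.nd (nat_lit 78) (nat_lit 1216) (nat_lit 0) (XT.lf (nat_lit 0) (nat_lit 631692551) (nat_lit 1216) (nat_lit 4438947703) (nat_lit 76) (nat_lit 4294835632) (nat_lit 302) (nat_lit 5) (nat_lit 318) (nat_lit 5) (nat_lit 303) (nat_lit 5) (nat_lit 435) (nat_lit 416) (nat_lit 349)) (XT.lf (nat_lit 0) (nat_lit 907890637)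 (nat_lit 1216) (nat_lit 1395932382) (nat_lit 1292) (nat_lit 7190640062) (nat_lit 286) (nat_lit 5) (nat_lit 302) (nat_lit 5) (nat_lit 303) (nat_lit 5) (nat_lit 436) (nat_lit 416) (nat_lit 348))))))) (XT.nd (nat_lit 1170) (nat_lit 4180) (nat_lit 0) (XT.nd (nat_lit 546) (nat_lit 2204) (nat_lit 0) (XT.nd (nat_lit 234) (nat_lit 1824) (nat_lit 0) (XT.nd (nat_lit 78) (nat_lit 760) (nat_lit 0) (XT.lf (nat_lit 0) (nat_lit 4059486661) (nat_lit 1292) (nat_lit 3175711959) (nat_lit 76) (nat_lit 2391125067) (nat_lit 286) (nat_lit 5) (nat_lit 303) (nat_lit 5) (nat_lit 287) (nat_lit 5) (nat_lit 437) (nat_lit 416) (nat_lit 347)) (XT.nd (nat_lit 78) (nat_lit 0) (nat_lit 0) (XT.lf (nat_lit 0) (nat_lit 2398954288) (nat_lit 760) (nat_lit 3471898798) (nat_lit 836) (nat_lit 3891200769) (nat_lit 276) (nat_lit 5) (nat_lit 286) (nat_lit 5) (nat_lit 287) (nat_lit 5) (nat_lit 438) (nat_lit 416) (nat_lit 346)) (XT.lf (nat_lit 0) (nat_lit 7739689191)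 (nat_lit 836) (nat_lit 1731358815) (nat_lit 76) (nat_lit 430718657) (nat_lit 276) (nat_lit 5) (nat_lit 287) (nat_lit 5) (nat_lit 277) (nat_lit 5) (nat_lit 439) (nat_lit 416) (nat_lit 345)))) (XT.nd (nat_lit 156) (nat_lit 1140) (nat_lit 0) (XT.nd (nat_lit 78) (nat_lit 76) (nat_lit 0) (XT.lf (nat_lit 0) (nat_lit 4083357849) (nat_lit 608) (nat_lit 5622681179) (nat_lit 684) (nat_lit 338392826) (nat_lit 268) (nat_lit 5) (nat_lit 276) (nat_lit 5) (nat_lit 277) (nat_lit 5) (nat_lit 440) (nat_lit 416) (nat_lit 344)) (XT.lf (nat_lit 0) (nat_lit 1495752446) (nat_lit 684) (nat_lit 129435470) (nat_lit 76) (nat_lit 8566175152) (nat_lit 267) (nat_lit 5) (nat_lit 276) (nat_lit 5) (nat_lit 268) (nat_lit 5) (nat_lit 441) (nat_lit 416) (nat_lit 343))) (XT.nd (nat_lit 78) (nat_lit 532) (nat_lit 0) (XT.lf (nat_lit 0) (nat_lit 3429038024) (nat_lit 684) (nat_lit 4406976193) (nat_lit 76) (nat_lit 2505064051) (nat_lit 259) (nat_lit 5)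 (nat_lit 268) (nat_lit 5) (nat_lit 260) (nat_lit 5) (nat_lit 442) (nat_lit 416) (nat_lit 342)) (XT.lf (nat_lit 0) (nat_lit 1672174852) (nat_lit 532) (nat_lit 3751312669) (nat_lit 608) (nat_lit 5071706407) (nat_lit 252) (nat_lit 5) (nat_lit 259) (nat_lit 5) (nat_lit 260) (nat_lit 5) (nat_lit 443) (nat_lit 416) (nat_lit 341))))) (XT.nd (nat_lit 312) (nat_lit 1064) (nat_lit 0) (XT.nd (nat_lit 156) (nat_lit 608) (nat_lit 0) (XT.nd (nat_lit 78) (nat_lit 532) (nat_lit 0) (XT.lf (nat_lit 0) (nat_lit 7497349020) (nat_lit 608) (nat_lit 2665263724) (nat_lit 76) (nat_lit 490736804) (nat_lit 252) (nat_lit 5) (nat_lit 260) (nat_lit 5) (nat_lit 253) (nat_lit 5) (nat_lit 444) (nat_lit 416) (nat_lit 340)) (XT.lf (nat_lit 0) (nat_lit 3680958370) (nat_lit 532) (nat_lit 5996113139) (nat_lit 608) (nat_lit 1137872707) (nat_lit 245) (nat_lit 5) (nat_lit 252) (nat_lit 5) (nat_lit 253) (nat_lit 5) (nat_lit 445) (nat_lit 416) (nat_lit 339)))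 (XT.nd (nat_lit 78) (nat_lit 532) (nat_lit 0) (XT.lf (nat_lit 0) (nat_lit 921003261) (nat_lit 608) (nat_lit 748909469) (nat_lit 76) (nat_lit 9311249329) (nat_lit 244) (nat_lit 5) (nat_lit 252) (nat_lit 5) (nat_lit 245) (nat_lit 5) (nat_lit 446) (nat_lit 416) (nat_lit 338)) (XT.lf (nat_lit 0) (nat_lit 3075148390) (nat_lit 608) (nat_lit 5277298442) (nat_lit 76) (nat_lit 2797893852) (nat_lit 237) (nat_lit 5) (nat_lit 245) (nat_lit 5) (nat_lit 238) (nat_lit 5) (nat_lit 447) (nat_lit 416) (nat_lit 337)))) (XT.nd (nat_lit 156) (nat_lit 532) (nat_lit 0) (XT.nd (nat_lit 78) (nat_lit 0) (nat_lit 0) (XT.lf (nat_lit 0) (nat_lit 1363830449) (nat_lit 532) (nat_lit 3940078640) (nat_lit 608) (nat_lit 6020389160) (nat_lit 230) (nat_lit 5) (nat_lit 237) (nat_lit 5) (nat_lit 238) (nat_lit 5) (nat_lit 448) (nat_lit 416) (nat_lit 336)) (XT.lf (nat_lit 0) (nat_lit 7632338853) (nat_lit 608) (nat_lit 3227122972) (nat_lit 76) (nat_lit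 643031749) (nat_lit 230) (nat_lit 5) (nat_lit 238) (nat_lit 5) (nat_lit 231) (nat_lit 5) (nat_lit 449) (nat_lit 416) (nat_lit 335))) (XT.nd (nat_lit 78) (nat_lit 76) (nat_lit 0) (XT.lf (nat_lit 0) (nat_lit 3711262890) (nat_lit 456) (nat_lit 6368001395) (nat_lit 532) (nat_lit 1605314320) (nat_lit 224) (nat_lit 5) (nat_lit 230) (nat_lit 5) (nat_lit 231) (nat_lit 5) (nat_lit 450) (nat_lit 416) (nat_lit 334)) (XT.lf (nat_lit 0) (nat_lit 720356428) (nat_lit 532) (nat_lit 985098932) (nat_lit 76) (nat_lit 10166251567) (nat_lit 223) (nat_lit 5) (nat_lit 230) (nat_lit 5) (nat_lit 224) (nat_lit 5) (nat_lit 451) (nat_lit 416) (nat_lit 333)))))) (XT.nd (nat_lit 624) (nat_lit 1900) (nat_lit 0) (XT.nd (nat_lit 312) (nat_lit 912) (nat_lit 0) (XT.nd (nat_lit 156) (nat_lit 456) (nat_lit 0) (XT.nd (nat_lit 78) (nat_lit 456) (nat_lit 0) (XT.lf (nat_lit 0) (nat_lit 3149398865) (nat_lit 532) (nat_lit 5803483224) (nat_lit 76) (nat_lit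 3109117041) (nat_lit 217) (nat_lit 5) (nat_lit 224) (nat_lit 5) (nat_lit 218) (nat_lit 5) (nat_lit 452) (nat_lit 416) (nat_lit 332)) (XT.lf (nat_lit 0) (nat_lit 1463401425) (nat_lit 456) (nat_lit 4204234610) (nat_lit 532) (nat_lit 6589877141) (nat_lit 211) (nat_lit 5) (nat_lit 217) (nat_lit 5) (nat_lit 218) (nat_lit 5) (nat_lit 453) (nat_lit 416) (nat_lit 331))) (XT.nd (nat_lit 78) (nat_lit 456) (nat_lit 0) (XT.lf (nat_lit 0) (nat_lit 8302910293) (nat_lit 532) (nat_lit 3427542170) (nat_lit 76) (nat_lit 727198178) (nat_lit 211) (nat_lit 5) (nat_lit 218) (nat_lit 5) (nat_lit 212) (nat_lit 5) (nat_lit 454) (nat_lit 416) (nat_lit 330)) (XT.lf (nat_lit 0) (nat_lit 4170178368) (nat_lit 456) (nat_lit 6905187771) (nat_lit 532) (nat_lit 1586685010) (nat_lit 205) (nat_lit 5) (nat_lit 211) (nat_lit 5) (nat_lit 212) (nat_lit 5) (nat_lit 455) (nat_lit 416) (nat_lit 329)))) (XT.nd (nat_lit 156) (nat_lit 456) (nat_lit 0) (XT.nd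 (nat_lit 78) (nat_lit 380) (nat_lit 0) (XT.lf (nat_lit 0) (nat_lit 1049296995) (nat_lit 532) (nat_lit 845743924) (nat_lit 76) (nat_lit 10976893846) (nat_lit 204) (nat_lit 5) (nat_lit 211) (nat_lit 5) (nat_lit 205) (nat_lit 5) (nat_lit 456) (nat_lit 416) (nat_lit 328)) (XT.lf (nat_lit 0) (nat_lit 3810379227) (nat_lit 456) (nat_lit 5994266028) (nat_lit 76) (nat_lit 3280663394) (nat_lit 199) (nat_lit 5) (nat_lit 205) (nat_lit 5) (nat_lit 200) (nat_lit 5) (nat_lit 457) (nat_lit 416) (nat_lit 327))) (XT.nd (nat_lit 78) (nat_lit 0) (nat_lit 0) (XT.lf (nat_lit 0) (nat_lit 1968777355) (nat_lit 456) (nat_lit 4709422336) (nat_lit 532) (nat_lit 6626169212) (nat_lit 193) (nat_lit 5) (nat_lit 199) (nat_lit 5) (nat_lit 200) (nat_lit 5) (nat_lit 458) (nat_lit 416) (nat_lit 326)) (XT.lf (nat_lit 0) (nat_lit 9676263172) (nat_lit 532) (nat_lit 3269919179) (nat_lit 76) (nat_lit 582494621) (nat_lit 193) (nat_lit 5) (nat_lit 200) (nat_lit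 5) (nat_lit 194) (nat_lit 5) (nat_lit 459) (nat_lit 416) (nat_lit 325))))) (XT.nd (nat_lit 312) (nat_lit 760) (nat_lit 0) (XT.nd (nat_lit 156) (nat_lit 684) (nat_lit 0) (XT.nd (nat_lit 78) (nat_lit 76) (nat_lit 0) (XT.lf (nat_lit 0) (nat_lit 5061172139) (nat_lit 380) (nat_lit 7776919966) (nat_lit 456) (nat_lit 919409666) (nat_lit 188) (nat_lit 5) (nat_lit 193) (nat_lit 5) (nat_lit 194) (nat_lit 5) (nat_lit 460) (nat_lit 416) (nat_lit 324)) (XT.lf (nat_lit 0) (nat_lit 2072607175) (nat_lit 456) (nat_lit 332333055) (nat_lit 76) (nat_lit 11587286137) (nat_lit 187) (nat_lit 5) (nat_lit 193) (nat_lit 5) (nat_lit 188) (nat_lit 5) (nat_lit 461) (nat_lit 416) (nat_lit 323))) (XT.nd (nat_lit 78) (nat_lit 304) (nat_lit 0) (XT.lf (nat_lit 0) (nat_lit 5226940148) (nat_lit 456) (nat_lit 5853216361) (nat_lit 76) (nat_lit 3150834063) (nat_lit 182) (nat_lit 5) (nat_lit 188) (nat_lit 5) (nat_lit 183) (nat_lit 5) (nat_lit 462) (nat_lit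 416) (nat_lit 322)) (XT.lf (nat_lit 0) (nat_lit 2883342209) (nat_lit 304) (nat_lit 5627049539) (nat_lit 380) (nat_lit 5965493246) (nat_lit 178) (nat_lit 5) (nat_lit 182) (nat_lit 5) (nat_lit 183) (nat_lit 5) (nat_lit 463) (nat_lit 416) (nat_lit 321)))) (XT.nd (nat_lit 156) (nat_lit 304) (nat_lit 0) (XT.nd (nat_lit 78) (nat_lit 456) (nat_lit 0) (XT.lf (nat_lit 0) (nat_lit 11931760683) (nat_lit 380) (nat_lit 2753366086) (nat_lit 76) (nat_lit 41818958) (nat_lit 178) (nat_lit 5) (nat_lit 183) (nat_lit 5) (nat_lit 179) (nat_lit 5) (nat_lit 464) (nat_lit 416) (nat_lit 320)) (XT.lf (nat_lit 0) (nat_lit 559590826) (nat_lit 456) (nat_lit 8595768898) (nat_lit 76) (nat_lit 5827088705) (nat_lit 172) (nat_lit 5) (nat_lit 178) (nat_lit 5) (nat_lit 173) (nat_lit 5) (nat_lit 465) (nat_lit 416) (nat_lit 319))) (XT.nd (nat_lit 78) (nat_lit 0) (nat_lit 0) (XT.lf (nat_lit 0) (nat_lit 567919890) (nat_lit 304) (nat_lit 3404971922) (nat_lit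 380) (nat_lit 11271474012) (nat_lit 168) (nat_lit 5) (nat_lit 172) (nat_lit 5) (nat_lit 173) (nat_lit 5) (nat_lit 466) (nat_lit 416) (nat_lit 318)) (XT.lf (nat_lit 0) (nat_lit 7581202109) (nat_lit 380) (nat_lit 5381897492) (nat_lit 76) (nat_lit 2548264513) (nat_lit 168) (nat_lit 5) (nat_lit 173) (nat_lit 5) (nat_lit 169) (nat_lit 5) (nat_lit 467) (nat_lit 416) (nat_lit 317))))))))
noncomputable def xc135 : XT := (XT.nd (nat_lit 2340) (nat_lit 3040) (nat_lit 0) (XT.nd (nat_lit 1170) (nat_lit 2204) (nat_lit 0) (XT.nd (nat_lit 546) (nat_lit 1444) (nat_lit 0) (XT.nd (nat_lit 234) (nat_lit 684) (nat_lit 0) (XT.nd (nat_lit 78) (nat_lit 380) (nat_lit 0) (XT.lf (nat_lit 0) (nat_lit 4212775731) (nat_lit 304) (nat_lit 7140501731) (nat_lit 380) (nat_lit 4431431050) (nat_lit 164) (nat_lit 5) (nat_lit 168) (nat_lit 5) (nat_lit 169) (nat_lit 5) (nat_lit 468) (nat_lit 416) (nat_lit 316)) (XT.nd (nat_lit 78) (nat_lit 380) (nat_lit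 0) (XT.lf (nat_lit 0) (nat_lit 14178673987) (nat_lit 304) (nat_lit 1095780572) (nat_lit 380) (nat_lit 790722084) (nat_lit 164) (nat_lit 5) (nat_lit 168) (nat_lit 5) (nat_lit 169) (nat_lit 5) (nat_lit 469) (nat_lit 416) (nat_lit 315)) (XT.lf (nat_lit 0) (nat_lit 3012479369) (nat_lit 380) (nat_lit 8207248228) (nat_lit 76) (nat_lit 5130148861) (nat_lit 159) (nat_lit 5) (nat_lit 164) (nat_lit 5) (nat_lit 160) (nat_lit 5) (nat_lit 470) (nat_lit 416) (nat_lit 314)))) (XT.nd (nat_lit 156) (nat_lit 380) (nat_lit 0) (XT.nd (nat_lit 78) (nat_lit 0) (nat_lit 0) (XT.lf (nat_lit 0) (nat_lit 1859468647) (nat_lit 304) (nat_lit 5084520124) (nat_lit 380) (nat_lit 9697991941) (nat_lit 155) (nat_lit 5) (nat_lit 159) (nat_lit 5) (nat_lit 160) (nat_lit 5) (nat_lit 471) (nat_lit 416) (nat_lit 313)) (XT.lf (nat_lit 0) (nat_lit 11071333419) (nat_lit 380) (nat_lit 4583514240) (nat_lit 76) (nat_lit 1285665144) (nat_lit 155) (nat_lit 5) (nat_lit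 160) (nat_lit 5) (nat_lit 156) (nat_lit 5) (nat_lit 472) (nat_lit 416) (nat_lit 312))) (XT.nd (nat_lit 78) (nat_lit 76) (nat_lit 0) (XT.lf (nat_lit 0) (nat_lit 5961331648) (nat_lit 304) (nat_lit 9451650538) (nat_lit 380) (nat_lit 1832305523) (nat_lit 151) (nat_lit 5) (nat_lit 155) (nat_lit 5) (nat_lit 156) (nat_lit 5) (nat_lit 473) (nat_lit 416) (nat_lit 311)) (XT.lf (nat_lit 0) (nat_lit 2309955699) (nat_lit 380) (nat_lit 690343325) (nat_lit 76) (nat_lit 14557347551) (nat_lit 150) (nat_lit 5) (nat_lit 155) (nat_lit 5) (nat_lit 151) (nat_lit 5) (nat_lit 474) (nat_lit 416) (nat_lit 310))))) (XT.nd (nat_lit 312) (nat_lit 532) (nat_lit 0) (XT.nd (nat_lit 156) (nat_lit 380) (nat_lit 0) (XT.nd (nat_lit 78) (nat_lit 228) (nat_lit 0) (XT.lf (nat_lit 0) (nat_lit 6658971375) (nat_lit 380) (nat_lit 7532394837) (nat_lit 76) (nat_lit 3683887573) (nat_lit 146) (nat_lit 5) (nat_lit 151) (nat_lit 5) (nat_lit 147) (nat_lit 5) (nat_lit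 475) (nat_lit 416) (nat_lit 309)) (XT.lf (nat_lit 0) (nat_lit 3532600714) (nat_lit 228) (nat_lit 7660134463) (nat_lit 304) (nat_lit 7008026918) (nat_lit 143) (nat_lit 5) (nat_lit 146) (nat_lit 5) (nat_lit 147) (nat_lit 5) (nat_lit 476) (nat_lit 416) (nat_lit 308))) (XT.nd (nat_lit 78) (nat_lit 380) (nat_lit 0) (XT.lf (nat_lit 0) (nat_lit 15058617022) (nat_lit 228) (nat_lit 863766244) (nat_lit 304) (nat_lit 2611857427) (nat_lit 143) (nat_lit 5) (nat_lit 146) (nat_lit 5) (nat_lit 147) (nat_lit 5) (nat_lit 477) (nat_lit 416) (nat_lit 307)) (XT.lf (nat_lit 0) (nat_lit 2001312779) (nat_lit 380) (nat_lit 10766396008) (nat_lit 76) (nat_lit 6105788158) (nat_lit 138) (nat_lit 5) (nat_lit 143) (nat_lit 5) (nat_lit 139) (nat_lit 5) (nat_lit 478) (nat_lit 416) (nat_lit 306)))) (XT.nd (nat_lit 156) (nat_lit 304) (nat_lit 0) (XT.nd (nat_lit 78) (nat_lit 0) (nat_lit 0) (XT.lf (nat_lit 0) (nat_lit 843318147) (nat_lit 228) (nat_lit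 5893429644) (nat_lit 304) (nat_lit 12484317409) (nat_lit 135) (nat_lit 5) (nat_lit 138) (nat_lit 5) (nat_lit 139) (nat_lit 5) (nat_lit 479) (nat_lit 416) (nat_lit 305)) (XT.lf (nat_lit 0) (nat_lit 11719845618) (nat_lit 304) (nat_lit 6591448216) (nat_lit 76) (nat_lit 1264599725) (nat_lit 135) (nat_lit 5) (nat_lit 139) (nat_lit 5) (nat_lit 136) (nat_lit 5) (nat_lit 480) (nat_lit 416) (nat_lit 304))) (XT.nd (nat_lit 78) (nat_lit 76) (nat_lit 0) (XT.lf (nat_lit 0) (nat_lit 5574413013) (nat_lit 228) (nat_lit 11374806321) (nat_lit 304) (nat_lit 2989244962) (nat_lit 132) (nat_lit 5) (nat_lit 135) (nat_lit 5) (nat_lit 136) (nat_lit 5) (nat_lit 481) (nat_lit 416) (nat_lit 303)) (XT.lf (nat_lit 0) (nat_lit 2036201998) (nat_lit 304) (nat_lit 2114172025) (nat_lit 76) (nat_lit 16159391734) (nat_lit 131) (nat_lit 5) (nat_lit 135) (nat_lit 5) (nat_lit 132) (nat_lit 5) (nat_lit 482) (nat_lit 416) (nat_lit 302)))))) (XT.nd (nat_lit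 546) (nat_lit 1064) (nat_lit 0) (XT.nd (nat_lit 234) (nat_lit 684) (nat_lit 0) (XT.nd (nat_lit 78) (nat_lit 228) (nat_lit 0) (XT.lf (nat_lit 0) (nat_lit 7272979899) (nat_lit 304) (nat_lit 10063759461) (nat_lit 76) (nat_lit 3350960487) (nat_lit 128) (nat_lit 5) (nat_lit 132) (nat_lit 5) (nat_lit 129) (nat_lit 5) (nat_lit 483) (nat_lit 416) (nat_lit 301)) (XT.nd (nat_lit 78) (nat_lit 0) (nat_lit 0) (XT.lf (nat_lit 0) (nat_lit 2698645434) (nat_lit 228) (nat_lit 10042269313) (nat_lit 304) (nat_lit 8333836507) (nat_lit 125) (nat_lit 5) (nat_lit 128) (nat_lit 5) (nat_lit 129) (nat_lit 5) (nat_lit 484) (nat_lit 416) (nat_lit 300)) (XT.lf (nat_lit 0) (nat_lit 16026540324) (nat_lit 228) (nat_lit 2433626848) (nat_lit 304) (nat_lit 3010629524) (nat_lit 125) (nat_lit 5) (nat_lit 128) (nat_lit 5) (nat_lit 129) (nat_lit 5) (nat_lit 485) (nat_lit 416) (nat_lit 299)))) (XT.nd (nat_lit 156) (nat_lit 380) (nat_lit 0) (XT.nd (nat_lit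 78) (nat_lit 0) (nat_lit 0) (XT.lf (nat_lit 0) (nat_lit 2539561507) (nat_lit 304) (nat_lit 13944661256) (nat_lit 76) (nat_lit 5390322690) (nat_lit 121) (nat_lit 5) (nat_lit 125) (nat_lit 5) (nat_lit 122) (nat_lit 5) (nat_lit 486) (nat_lit 416) (nat_lit 298)) (XT.lf (nat_lit 0) (nat_lit 8261398005) (nat_lit 304) (nat_lit 549725642) (nat_lit 76) (nat_lit 13476420071) (nat_lit 121) (nat_lit 5) (nat_lit 125) (nat_lit 5) (nat_lit 122) (nat_lit 5) (nat_lit 487) (nat_lit 416) (nat_lit 297))) (XT.nd (nat_lit 78) (nat_lit 152) (nat_lit 0) (XT.lf (nat_lit 0) (nat_lit 13487558286) (nat_lit 228) (nat_lit 783423192) (nat_lit 304) (nat_lit 8438468474) (nat_lit 118) (nat_lit 5) (nat_lit 121) (nat_lit 5) (nat_lit 122) (nat_lit 5) (nat_lit 488) (nat_lit 416) (nat_lit 296)) (XT.lf (nat_lit 0) (nat_lit 4812502658) (nat_lit 152) (nat_lit 15758700869) (nat_lit 228) (nat_lit 2569500074) (nat_lit 116) (nat_lit 5) (nat_lit 118) (nat_lit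 5) (nat_lit 119) (nat_lit 5) (nat_lit 489) (nat_lit 416) (nat_lit 295))))) (XT.nd (nat_lit 312) (nat_lit 608) (nat_lit 0) (XT.nd (nat_lit 156) (nat_lit 152) (nat_lit 0) (XT.nd (nat_lit 78) (nat_lit 228) (nat_lit 0) (XT.lf (nat_lit 0) (nat_lit 3496094691) (nat_lit 228) (nat_lit 4190047728) (nat_lit 76) (nat_lit 15895099556) (nat_lit 115) (nat_lit 5) (nat_lit 118) (nat_lit 5) (nat_lit 116) (nat_lit 5) (nat_lit 490) (nat_lit 416) (nat_lit 294)) (XT.lf (nat_lit 0) (nat_lit 9787410528) (nat_lit 304) (nat_lit 13508669418) (nat_lit 76) (nat_lit 735292100) (nat_lit 112) (nat_lit 5) (nat_lit 116) (nat_lit 5) (nat_lit 113) (nat_lit 5) (nat_lit 491) (nat_lit 416) (nat_lit 293))) (XT.nd (nat_lit 78) (nat_lit 0) (nat_lit 0) (XT.lf (nat_lit 0) (nat_lit 1193516541) (nat_lit 152) (nat_lit 15191300944) (nat_lit 228) (nat_lit 8106668657) (nat_lit 110) (nat_lit 5) (nat_lit 112) (nat_lit 5) (nat_lit 113) (nat_lit 5) (nat_lit 492) (nat_lit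 416) (nat_lit 292)) (XT.lf (nat_lit 0) (nat_lit 16591656038) (nat_lit 152) (nat_lit 6712115416) (nat_lit 228) (nat_lit 1657924116) (nat_lit 110) (nat_lit 5) (nat_lit 112) (nat_lit 5) (nat_lit 113) (nat_lit 5) (nat_lit 493) (nat_lit 416) (nat_lit 291)))) (XT.nd (nat_lit 156) (nat_lit 304) (nat_lit 0) (XT.nd (nat_lit 78) (nat_lit 0) (nat_lit 0) (XT.lf (nat_lit 0) (nat_lit 4962977424) (nat_lit 304) (nat_lit 18389177220) (nat_lit 76) (nat_lit 2090141214) (nat_lit 106) (nat_lit 5) (nat_lit 110) (nat_lit 5) (nat_lit 107) (nat_lit 5) (nat_lit 494) (nat_lit 416) (nat_lit 290)) (XT.lf (nat_lit 0) (nat_lit 11888532698) (nat_lit 304) (nat_lit 2929645881) (nat_lit 76) (nat_lit 11114463240) (nat_lit 106) (nat_lit 5) (nat_lit 110) (nat_lit 5) (nat_lit 107) (nat_lit 5) (nat_lit 495) (nat_lit 416) (nat_lit 289))) (XT.nd (nat_lit 78) (nat_lit 152) (nat_lit 0) (XT.lf (nat_lit 0) (nat_lit 13230775764) (nat_lit 152) (nat_lit 5906159143)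 (nat_lit 228) (nat_lit 7297311425) (nat_lit 104) (nat_lit 5) (nat_lit 106) (nat_lit 5) (nat_lit 107) (nat_lit 5) (nat_lit 496) (nat_lit 416) (nat_lit 288)) (XT.lf (nat_lit 0) (nat_lit 2991529429) (nat_lit 152) (nat_lit 23689321063) (nat_lit 228) (nat_lit 267707211) (nat_lit 102) (nat_lit 5) (nat_lit 104) (nat_lit 5) (nat_lit 105) (nat_lit 5) (nat_lit 497) (nat_lit 416) (nat_lit 287))))))) (XT.nd (nat_lit 1170) (nat_lit 1368) (nat_lit 0) (XT.nd (nat_lit 546) (nat_lit 912) (nat_lit 0) (XT.nd (nat_lit 234) (nat_lit 532) (nat_lit 0) (XT.nd (nat_lit 78) (nat_lit 152) (nat_lit 0) (XT.lf (nat_lit 0) (nat_lit 7017842257) (nat_lit 228) (nat_lit 7679259105) (nat_lit 76) (nat_lit 12773753147) (nat_lit 101) (nat_lit 5) (nat_lit 104) (nat_lit 5) (nat_lit 102) (nat_lit 5) (nat_lit 498) (nat_lit 416) (nat_lit 286)) (XT.nd (nat_lit 78) (nat_lit 0) (nat_lit 0) (XT.lf (nat_lit 0) (nat_lit 9244018808) (nat_lit 152) (nat_lit 5349762775)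 (nat_lit 228) (nat_lit 13412643513) (nat_lit 99) (nat_lit 5) (nat_lit 101) (nat_lit 5) (nat_lit 102) (nat_lit 5) (nat_lit 499) (nat_lit 416) (nat_lit 285)) (XT.lf (nat_lit 0) (nat_lit 22504838669) (nat_lit 228) (nat_lit 1785831723) (nat_lit 76) (nat_lit 4264157721) (nat_lit 99) (nat_lit 5) (nat_lit 102) (nat_lit 5) (nat_lit 100) (nat_lit 5) (nat_lit 500) (nat_lit 416) (nat_lit 284)))) (XT.nd (nat_lit 156) (nat_lit 152) (nat_lit 0) (XT.nd (nat_lit 78) (nat_lit 152) (nat_lit 0) (XT.lf (nat_lit 0) (nat_lit 1700464415) (nat_lit 228) (nat_lit 13192442918) (nat_lit 76) (nat_lit 14220428765) (nat_lit 96) (nat_lit 5) (nat_lit 99) (nat_lit 5) (nat_lit 97) (nat_lit 5) (nat_lit 501) (nat_lit 416) (nat_lit 283)) (XT.lf (nat_lit 0) (nat_lit 4515356353) (nat_lit 152) (nat_lit 5096861264) (nat_lit 228) (nat_lit 20073073601) (nat_lit 94) (nat_lit 5) (nat_lit 96) (nat_lit 5) (nat_lit 97) (nat_lit 5) (nat_lit 502) (nat_lit 416) (nat_lit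 282))) (XT.nd (nat_lit 78) (nat_lit 152) (nat_lit 0) (XT.lf (nat_lit 0) (nat_lit 17932677041) (nat_lit 228) (nat_lit 7314999153) (nat_lit 76) (nat_lit 5021588634) (nat_lit 94) (nat_lit 5) (nat_lit 97) (nat_lit 5) (nat_lit 95) (nat_lit 5) (nat_lit 503) (nat_lit 416) (nat_lit 281)) (XT.lf (nat_lit 0) (nat_lit 11224642157) (nat_lit 152) (nat_lit 15425616232) (nat_lit 228) (nat_lit 4216074444) (nat_lit 92) (nat_lit 5) (nat_lit 94) (nat_lit 5) (nat_lit 95) (nat_lit 5) (nat_lit 504) (nat_lit 416) (nat_lit 280))))) (XT.nd (nat_lit 312) (nat_lit 532) (nat_lit 0) (XT.nd (nat_lit 156) (nat_lit 152) (nat_lit 0) (XT.nd (nat_lit 78) (nat_lit 152) (nat_lit 0) (XT.lf (nat_lit 0) (nat_lit 4130879198) (nat_lit 228) (nat_lit 1068815195) (nat_lit 76) (nat_lit 26278509631) (nat_lit 91) (nat_lit 5) (nat_lit 94) (nat_lit 5) (nat_lit 92) (nat_lit 5) (nat_lit 505) (nat_lit 416) (nat_lit 279)) (XT.lf (nat_lit 0) (nat_lit 12862807125) (nat_lit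 228) (nat_lit 13796762192) (nat_lit 76) (nat_lit 5441030993) (nat_lit 89) (nat_lit 5) (nat_lit 92) (nat_lit 5) (nat_lit 90) (nat_lit 5) (nat_lit 506) (nat_lit 416) (nat_lit 278))) (XT.nd (nat_lit 78) (nat_lit 0) (nat_lit 0) (XT.lf (nat_lit 0) (nat_lit 5576450898) (nat_lit 152) (nat_lit 16385758526) (nat_lit 228) (nat_lit 10776293947) (nat_lit 87) (nat_lit 5) (nat_lit 89) (nat_lit 5) (nat_lit 90) (nat_lit 5) (nat_lit 507) (nat_lit 416) (nat_lit 277)) (XT.lf (nat_lit 0) (nat_lit 25794854119) (nat_lit 152) (nat_lit 5668714246) (nat_lit 228) (nat_lit 1928106295) (nat_lit 87) (nat_lit 5) (nat_lit 89) (nat_lit 5) (nat_lit 90) (nat_lit 5) (nat_lit 508) (nat_lit 416) (nat_lit 276)))) (XT.nd (nat_lit 156) (nat_lit 304) (nat_lit 0) (XT.nd (nat_lit 78) (nat_lit 0) (nat_lit 0) (XT.lf (nat_lit 0) (nat_lit 7210833000) (nat_lit 228) (nat_lit 21396488385) (nat_lit 76) (nat_lit 5450082257) (nat_lit 84) (nat_lit 5) (nat_lit 87) (nat_lit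 5) (nat_lit 85) (nat_lit 5) (nat_lit 509) (nat_lit 416) (nat_lit 275)) (XT.lf (nat_lit 0) (nat_lit 16708681728) (nat_lit 228) (nat_lit 1153188800) (nat_lit 76) (nat_lit 16876956772) (nat_lit 84) (nat_lit 5) (nat_lit 87) (nat_lit 5) (nat_lit 85) (nat_lit 5) (nat_lit 510) (nat_lit 416) (nat_lit 274))) (XT.nd (nat_lit 78) (nat_lit 152) (nat_lit 0) (XT.lf (nat_lit 0) (nat_lit 20071087804) (nat_lit 152) (nat_lit 6603503856) (nat_lit 228) (nat_lit 8760608567) (nat_lit 82) (nat_lit 5) (nat_lit 84) (nat_lit 5) (nat_lit 85) (nat_lit 5) (nat_lit 511) (nat_lit 416) (nat_lit 273)) (XT.lf (nat_lit 0) (nat_lit 878937517) (nat_lit 152) (nat_lit 30306216024) (nat_lit 76) (nat_lit 4963865741) (nat_lit 80) (nat_lit 5) (nat_lit 82) (nat_lit 5) (nat_lit 81) (nat_lit 5) (nat_lit 512) (nat_lit 416) (nat_lit 272)))))) (XT.nd (nat_lit 624) (nat_lit 760) (nat_lit 0) (XT.nd (nat_lit 312) (nat_lit 304) (nat_lit 0) (XT.nd (nat_lit 156) (nat_lit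 152) (nat_lit 0) (XT.nd (nat_lit 78) (nat_lit 152) (nat_lit 0) (XT.lf (nat_lit 0) (nat_lit 10843899164) (nat_lit 152) (nat_lit 9050414810) (nat_lit 76) (nat_lit 16980967815) (nat_lit 80) (nat_lit 5) (nat_lit 82) (nat_lit 5) (nat_lit 81) (nat_lit 5) (nat_lit 513) (nat_lit 416) (nat_lit 271)) (XT.lf (nat_lit 0) (nat_lit 13080803406) (nat_lit 152) (nat_lit 8143275081) (nat_lit 228) (nat_lit 16395765913) (nat_lit 78) (nat_lit 5) (nat_lit 80) (nat_lit 5) (nat_lit 81) (nat_lit 5) (nat_lit 514) (nat_lit 416) (nat_lit 270))) (XT.nd (nat_lit 78) (nat_lit 152) (nat_lit 0) (XT.lf (nat_lit 0) (nat_lit 32036588955) (nat_lit 228) (nat_lit 2379036430) (nat_lit 76) (nat_lit 3967491016) (nat_lit 78) (nat_lit 5) (nat_lit 81) (nat_lit 5) (nat_lit 79) (nat_lit 4) (nat_lit 515) (nat_lit 416) (nat_lit 269)) (XT.lf (nat_lit 0) (nat_lit 4199687837) (nat_lit 152) (nat_lit 18449255059) (nat_lit 76) (nat_lit 16510980140) (nat_lit 76) (nat_lit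 5) (nat_lit 78) (nat_lit 5) (nat_lit 77) (nat_lit 5) (nat_lit 516) (nat_lit 416) (nat_lit 268)))) (XT.nd (nat_lit 156) (nat_lit 152) (nat_lit 0) (XT.nd (nat_lit 78) (nat_lit 0) (nat_lit 0) (XT.lf (nat_lit 0) (nat_lit 4592002172) (nat_lit 152) (nat_lit 10401981534) (nat_lit 228) (nat_lit 24962387728) (nat_lit 74) (nat_lit 5) (nat_lit 76) (nat_lit 5) (nat_lit 77) (nat_lit 5) (nat_lit 517) (nat_lit 416) (nat_lit 267)) (XT.lf (nat_lit 0) (nat_lit 26312400507) (nat_lit 228) (nat_lit 12108623880) (nat_lit 76) (nat_lit 2349680388) (nat_lit 74) (nat_lit 5) (nat_lit 77) (nat_lit 5) (nat_lit 75) (nat_lit 4) (nat_lit 518) (nat_lit 416) (nat_lit 266))) (XT.nd (nat_lit 78) (nat_lit 76) (nat_lit 0) (XT.lf (nat_lit 0) (nat_lit 11958579294) (nat_lit 76) (nat_lit 26220878618) (nat_lit 152) (nat_lit 3423737807) (nat_lit 73) (nat_lit 5) (nat_lit 74) (nat_lit 5) (nat_lit 75) (nat_lit 4) (nat_lit 519) (nat_lit 416) (nat_lit 265)) (XT.lf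 (nat_lit 0) (nat_lit 7901533419) (nat_lit 152) (nat_lit 5555125673) (nat_lit 76) (nat_lit 28998273005) (nat_lit 72) (nat_lit 5) (nat_lit 74) (nat_lit 5) (nat_lit 73) (nat_lit 5) (nat_lit 520) (nat_lit 416) (nat_lit 264))))) (XT.nd (nat_lit 312) (nat_lit 304) (nat_lit 0) (XT.nd (nat_lit 156) (nat_lit 228) (nat_lit 0) (XT.nd (nat_lit 78) (nat_lit 76) (nat_lit 0) (XT.lf (nat_lit 0) (nat_lit 19589299228) (nat_lit 152) (nat_lit 88169859) (nat_lit 228) (nat_lit 23648343149) (nat_lit 70) (nat_lit 5) (nat_lit 72) (nat_lit 5) (nat_lit 73) (nat_lit 5) (nat_lit 521) (nat_lit 416) (nat_lit 263)) (XT.lf (nat_lit 0) (nat_lit 1257122324) (nat_lit 76) (nat_lit 30741250403) (nat_lit 152) (nat_lit 12218695577) (nat_lit 69) (nat_lit 5) (nat_lit 70) (nat_lit 5) (nat_lit 71) (nat_lit 4) (nat_lit 522) (nat_lit 416) (nat_lit 262))) (XT.nd (nat_lit 78) (nat_lit 228) (nat_lit 0) (XT.lf (nat_lit 0) (nat_lit 27470274691) (nat_lit 76) (nat_lit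 17450721808) (nat_lit 152) (nat_lit 207102975) (nat_lit 69) (nat_lit 5) (nat_lit 70) (nat_lit 5) (nat_lit 71) (nat_lit 4) (nat_lit 523) (nat_lit 416) (nat_lit 261)) (XT.lf (nat_lit 0) (nat_lit 8435351332) (nat_lit 152) (nat_lit 3564893363) (nat_lit 228) (nat_lit 34060525397) (nat_lit 66) (nat_lit 5) (nat_lit 68) (nat_lit 5) (nat_lit 69) (nat_lit 5) (nat_lit 524) (nat_lit 416) (nat_lit 260)))) (XT.nd (nat_lit 156) (nat_lit 228) (nat_lit 0) (XT.nd (nat_lit 78) (nat_lit 76) (nat_lit 0) (XT.lf (nat_lit 0) (nat_lit 24844664073) (nat_lit 228) (nat_lit 11465511488) (nat_lit 76) (nat_lit 10702933530) (nat_lit 66) (nat_lit 5) (nat_lit 69) (nat_lit 5) (nat_lit 67) (nat_lit 4) (nat_lit 525) (nat_lit 416) (nat_lit 259)) (XT.lf (nat_lit 0) (nat_lit 15735715484) (nat_lit 76) (nat_lit 22517222391) (nat_lit 152) (nat_lit 9735724918) (nat_lit 65) (nat_lit 5) (nat_lit 66) (nat_lit 5) (nat_lit 67) (nat_lit 4) (nat_lit 526) (nat_lit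 416) (nat_lit 258))) (XT.nd (nat_lit 78) (nat_lit 152) (nat_lit 0) (XT.lf (nat_lit 0) (nat_lit 3118970642) (nat_lit 152) (nat_lit 5047908041) (nat_lit 76) (nat_lit 40822452281) (nat_lit 64) (nat_lit 5) (nat_lit 66) (nat_lit 5) (nat_lit 65) (nat_lit 5) (nat_lit 527) (nat_lit 416) (nat_lit 257)) (XT.lf (nat_lit 0) (nat_lit 16446658792) (nat_lit 228) (nat_lit 26760239795) (nat_lit 76) (nat_lit 6801738064) (nat_lit 62) (nat_lit 5) (nat_lit 65) (nat_lit 5) (nat_lit 63) (nat_lit 4) (nat_lit 528) (nat_lit 416) (nat_lit 256))))))))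
noncomputable def xc136 : XT := (XT.nd (nat_lit 54366) (nat_lit 0) (nat_lit 12692) (XT.nd (nat_lit 1170) (nat_lit 380) (nat_lit 0) (XT.nd (nat_lit 546) (nat_lit 456) (nat_lit 0) (XT.nd (nat_lit 234) (nat_lit 228) (nat_lit 0) (XT.nd (nat_lit 78) (nat_lit 228) (nat_lit 0) (XT.lf (nat_lit 0) (nat_lit 1370629288) (nat_lit 76) (nat_lit 28941289984) (nat_lit 152) (nat_lit 20742470152) (nat_lit 61) (nat_lit 5) (nat_lit 62) (nat_lit 5) (nat_lit 63) (nat_lit 4) (nat_lit 529) (nat_lit 416) (nat_lit 255)) (XT.nd (nat_lit 78) (nat_lit 228) (nat_lit 0) (XT.lf (nat_lit 0) (nat_lit 30879300965) (nat_lit 76) (nat_lit 13976375311) (nat_lit 152) (nat_lit 7267962506) (nat_lit 61) (nat_lit 5) (nat_lit 62) (nat_lit 5) (nat_lit 63) (nat_lit 4) (nat_lit 530) (nat_lit 416) (nat_lit 254)) (XT.lf (nat_lit 0) (nat_lit 6567538024) (nat_lit 228) (nat_lit 45107155585) (nat_lit 76) (nat_lit 1545793025) (nat_lit 58) (nat_lit 5) (nat_lit 61) (nat_lit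 5) (nat_lit 59) (nat_lit 4) (nat_lit 531) (nat_lit 416) (nat_lit 253)))) (XT.nd (nat_lit 156) (nat_lit 152) (nat_lit 0) (XT.nd (nat_lit 78) (nat_lit 76) (nat_lit 0) (XT.lf (nat_lit 0) (nat_lit 21019534439) (nat_lit 228) (nat_lit 15783471870) (nat_lit 76) (nat_lit 17534649669) (nat_lit 58) (nat_lit 5) (nat_lit 61) (nat_lit 5) (nat_lit 59) (nat_lit 4) (nat_lit 532) (nat_lit 416) (nat_lit 252)) (XT.lf (nat_lit 0) (nat_lit 14692626660) (nat_lit 76) (nat_lit 21346397231) (nat_lit 152) (nat_lit 19445298662) (nat_lit 57) (nat_lit 5) (nat_lit 58) (nat_lit 5) (nat_lit 59) (nat_lit 4) (nat_lit 533) (nat_lit 416) (nat_lit 251))) (XT.nd (nat_lit 78) (nat_lit 152) (nat_lit 0) (XT.lf (nat_lit 0) (nat_lit 46392689357) (nat_lit 76) (nat_lit 5268568804) (nat_lit 152) (nat_lit 4999566301) (nat_lit 57) (nat_lit 5) (nat_lit 58) (nat_lit 5) (nat_lit 59) (nat_lit 4) (nat_lit 534) (nat_lit 416) (nat_lit 250)) (XT.lf (nat_lit 0) (nat_lit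 9997631006) (nat_lit 152) (nat_lit 36493504999) (nat_lit 76) (nat_lit 11369310160) (nat_lit 55) (nat_lit 5) (nat_lit 57) (nat_lit 5) (nat_lit 56) (nat_lit 4) (nat_lit 535) (nat_lit 416) (nat_lit 249))))) (XT.nd (nat_lit 312) (nat_lit 228) (nat_lit 0) (XT.nd (nat_lit 156) (nat_lit 152) (nat_lit 0) (XT.nd (nat_lit 78) (nat_lit 76) (nat_lit 0) (XT.lf (nat_lit 0) (nat_lit 25494070048) (nat_lit 152) (nat_lit 5047697272) (nat_lit 76) (nat_lit 28548309944) (nat_lit 55) (nat_lit 5) (nat_lit 57) (nat_lit 5) (nat_lit 56) (nat_lit 4) (nat_lit 536) (nat_lit 416) (nat_lit 248)) (XT.lf (nat_lit 0) (nat_lit 27872150831) (nat_lit 76) (nat_lit 13844314872) (nat_lit 152) (nat_lit 18632299813) (nat_lit 54) (nat_lit 5) (nat_lit 55) (nat_lit 5) (nat_lit 56) (nat_lit 4) (nat_lit 537) (nat_lit 416) (nat_lit 247))) (XT.nd (nat_lit 78) (nat_lit 76) (nat_lit 0) (XT.lf (nat_lit 0) (nat_lit 197251662) (nat_lit 76) (nat_lit 58307048154) (nat_lit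 76) (nat_lit 3138551725) (nat_lit 53) (nat_lit 4) (nat_lit 54) (nat_lit 5) (nat_lit 54) (nat_lit 4) (nat_lit 538) (nat_lit 416) (nat_lit 246)) (XT.lf (nat_lit 0) (nat_lit 13031272813) (nat_lit 152) (nat_lit 28725642058) (nat_lit 76) (nat_lit 21201305519) (nat_lit 52) (nat_lit 5) (nat_lit 54) (nat_lit 5) (nat_lit 53) (nat_lit 4) (nat_lit 539) (nat_lit 416) (nat_lit 245)))) (XT.nd (nat_lit 156) (nat_lit 152) (nat_lit 0) (XT.nd (nat_lit 78) (nat_lit 0) (nat_lit 0) (XT.lf (nat_lit 0) (nat_lit 5030141582) (nat_lit 76) (nat_lit 24634679746) (nat_lit 152) (nat_lit 34646045514) (nat_lit 51) (nat_lit 5) (nat_lit 52) (nat_lit 5) (nat_lit 53) (nat_lit 4) (nat_lit 540) (nat_lit 416) (nat_lit 244)) (XT.lf (nat_lit 0) (nat_lit 40374717929) (nat_lit 76) (nat_lit 6706160352) (nat_lit 152) (nat_lit 18614709454) (nat_lit 51) (nat_lit 5) (nat_lit 52) (nat_lit 5) (nat_lit 53) (nat_lit 4) (nat_lit 541) (nat_lit 416) (nat_lit 243)))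 (XT.nd (nat_lit 78) (nat_lit 76) (nat_lit 0) (XT.lf (nat_lit 0) (nat_lit 9721953674) (nat_lit 76) (nat_lit 55497526245) (nat_lit 76) (nat_lit 1896368551) (nat_lit 50) (nat_lit 4) (nat_lit 51) (nat_lit 5) (nat_lit 51) (nat_lit 4) (nat_lit 542) (nat_lit 416) (nat_lit 242)) (XT.lf (nat_lit 0) (nat_lit 15342694482) (nat_lit 152) (nat_lit 22464656943) (nat_lit 76) (nat_lit 30757401057) (nat_lit 49) (nat_lit 5) (nat_lit 51) (nat_lit 5) (nat_lit 50) (nat_lit 4) (nat_lit 543) (nat_lit 416) (nat_lit 241)))))) (XT.nd (nat_lit 52572) (nat_lit 0) (nat_lit 22648) (XT.nd (nat_lit 234) (nat_lit 228) (nat_lit 0) (XT.nd (nat_lit 78) (nat_lit 76) (nat_lit 0) (XT.lf (nat_lit 0) (nat_lit 13749858152) (nat_lit 76) (nat_lit 19436884155) (nat_lit 152) (nat_lit 36866040286) (nat_lit 48) (nat_lit 5) (nat_lit 49) (nat_lit 5) (nat_lit 50) (nat_lit 4) (nat_lit 544) (nat_lit 416) (nat_lit 240)) (XT.nd (nat_lit 78) (nat_lit 76) (nat_lit 0) (XT.lf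 (nat_lit 0) (nat_lit 51499297875) (nat_lit 76) (nat_lit 287485038) (nat_lit 152) (nat_lit 19792050646) (nat_lit 48) (nat_lit 5) (nat_lit 49) (nat_lit 5) (nat_lit 50) (nat_lit 4) (nat_lit 545) (nat_lit 416) (nat_lit 239)) (XT.lf (nat_lit 0) (nat_lit 17370899123) (nat_lit 76) (nat_lit 53921687671) (nat_lit 76) (nat_lit 1847646488) (nat_lit 47) (nat_lit 4) (nat_lit 48) (nat_lit 5) (nat_lit 48) (nat_lit 4) (nat_lit 546) (nat_lit 416) (nat_lit 238)))) (XT.nd (nat_lit 156) (nat_lit 76) (nat_lit 0) (XT.nd (nat_lit 78) (nat_lit 76) (nat_lit 0) (XT.lf (nat_lit 0) (nat_lit 16512049666) (nat_lit 152) (nat_lit 18562489662) (nat_lit 76) (nat_lit 39663091442) (nat_lit 46) (nat_lit 5) (nat_lit 48) (nat_lit 5) (nat_lit 47) (nat_lit 4) (nat_lit 547) (nat_lit 416) (nat_lit 237)) (XT.lf (nat_lit 0) (nat_lit 20123497345) (nat_lit 76) (nat_lit 15449471504) (nat_lit 152) (nat_lit 40803805571) (nat_lit 45) (nat_lit 5) (nat_lit 46) (nat_lit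 5) (nat_lit 47) (nat_lit 4) (nat_lit 548) (nat_lit 416) (nat_lit 236))) (XT.nd (nat_lit 78) (nat_lit 76) (nat_lit 0) (XT.lf (nat_lit 0) (nat_lit 55434951579) (nat_lit 152) (nat_lit 17768006102) (nat_lit 0) (nat_lit 4855257699) (nat_lit 45) (nat_lit 5) (nat_lit 47) (nat_lit 4) (nat_lit 45) (nat_lit 4) (nat_lit 549) (nat_lit 416) (nat_lit 235)) (XT.lf (nat_lit 0) (nat_lit 22139758000) (nat_lit 76) (nat_lit 54113130006) (nat_lit 76) (nat_lit 3526408814) (nat_lit 44) (nat_lit 4) (nat_lit 45) (nat_lit 5) (nat_lit 45) (nat_lit 4) (nat_lit 550) (nat_lit 416) (nat_lit 234))))) (XT.nd (nat_lit 312) (nat_lit 836) (nat_lit 0) (XT.nd (nat_lit 156) (nat_lit 0) (nat_lit 76) (XT.nd (nat_lit 78) (nat_lit 0) (nat_lit 0) (XT.lf (nat_lit 0) (nat_lit 106028323) (nat_lit 988) (nat_lit 1864059506) (nat_lit 988) (nat_lit 1864059506) (nat_lit 353) (nat_lit 3) (nat_lit 366) (nat_lit 3) (nat_lit 366) (nat_lit 5) (nat_lit 417) (nat_lit 417)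 (nat_lit 366)) (XT.lf (nat_lit 76) (nat_lit 66704752) (nat_lit 0) (nat_lit 1506952049) (nat_lit 988) (nat_lit 6168684189) (nat_lit 354) (nat_lit 5) (nat_lit 353) (nat_lit 3) (nat_lit 366) (nat_lit 5) (nat_lit 418) (nat_lit 417) (nat_lit 365))) (XT.nd (nat_lit 78) (nat_lit 0) (nat_lit 0) (XT.lf (nat_lit 0) (nat_lit 2970716449) (nat_lit 912) (nat_lit 3805350098) (nat_lit 988) (nat_lit 1042712604) (nat_lit 354) (nat_lit 5) (nat_lit 366) (nat_lit 5) (nat_lit 367) (nat_lit 5) (nat_lit 419) (nat_lit 417) (nat_lit 364)) (XT.lf (nat_lit 76) (nat_lit 140033069) (nat_lit 0) (nat_lit 4234451783) (nat_lit 988) (nat_lit 3524090244) (nat_lit 355) (nat_lit 5) (nat_lit 354) (nat_lit 5) (nat_lit 367) (nat_lit 5) (nat_lit 420) (nat_lit 417) (nat_lit 363)))) (XT.nd (nat_lit 156) (nat_lit 912) (nat_lit 0) (XT.nd (nat_lit 78) (nat_lit 0) (nat_lit 76) (XT.lf (nat_lit 76) (nat_lit 4253242477) (nat_lit 0) (nat_lit 1555305722) (nat_lit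 988) (nat_lit 2172579559) (nat_lit 355) (nat_lit 5) (nat_lit 354) (nat_lit 5) (nat_lit 367) (nat_lit 5) (nat_lit 421) (nat_lit 417) (nat_lit 362)) (XT.lf (nat_lit 76) (nat_lit 390348680) (nat_lit 0) (nat_lit 6862033991) (nat_lit 988) (nat_lit 814779906) (nat_lit 356) (nat_lit 5) (nat_lit 355) (nat_lit 5) (nat_lit 368) (nat_lit 5) (nat_lit 422) (nat_lit 417) (nat_lit 361))) (XT.nd (nat_lit 78) (nat_lit 0) (nat_lit 0) (XT.lf (nat_lit 0) (nat_lit 577857840) (nat_lit 988) (nat_lit 3497541819) (nat_lit 1064) (nat_lit 4080053176) (nat_lit 342) (nat_lit 5) (nat_lit 355) (nat_lit 5) (nat_lit 356) (nat_lit 5) (nat_lit 423) (nat_lit 417) (nat_lit 360)) (XT.lf (nat_lit 76) (nat_lit 785181279) (nat_lit 0) (nat_lit 1171739693) (nat_lit 1064) (nat_lit 6290405509) (nat_lit 343) (nat_lit 5) (nat_lit 342) (nat_lit 5) (nat_lit 356) (nat_lit 5) (nat_lit 424) (nat_lit 417) (nat_lit 359))))))) (XT.nd (nat_lit 1170) (nat_lit 4940) (nat_lit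 0) (XT.nd (nat_lit 546) (nat_lit 4104) (nat_lit 0) (XT.nd (nat_lit 234) (nat_lit 988) (nat_lit 0) (XT.nd (nat_lit 78) (nat_lit 0) (nat_lit 0) (XT.lf (nat_lit 0) (nat_lit 3385220958) (nat_lit 988) (nat_lit 3121075188) (nat_lit 1064) (nat_lit 1835431399) (nat_lit 343) (nat_lit 5) (nat_lit 356) (nat_lit 5) (nat_lit 357) (nat_lit 5) (nat_lit 425) (nat_lit 417) (nat_lit 358)) (XT.nd (nat_lit 78) (nat_lit 0) (nat_lit 0) (XT.lf (nat_lit 76) (nat_lit 1335139771) (nat_lit 0) (nat_lit 3501696151) (nat_lit 1064) (nat_lit 3602717687) (nat_lit 344) (nat_lit 5) (nat_lit 343) (nat_lit 5) (nat_lit 357) (nat_lit 5) (nat_lit 426) (nat_lit 417) (nat_lit 357)) (XT.lf (nat_lit 76) (nat_lit 5959770603) (nat_lit 0) (nat_lit 360775391) (nat_lit 1064) (nat_lit 2220118808) (nat_lit 344) (nat_lit 5) (nat_lit 343) (nat_lit 5) (nat_lit 357) (nat_lit 5) (nat_lit 427) (nat_lit 417) (nat_lit 356)))) (XT.nd (nat_lit 156) (nat_lit 0) (nat_lit 76)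 (XT.nd (nat_lit 78) (nat_lit 1064) (nat_lit 0) (XT.lf (nat_lit 76) (nat_lit 2061137225) (nat_lit 0) (nat_lit 5793482810) (nat_lit 1064) (nat_lit 790020264) (nat_lit 345) (nat_lit 5) (nat_lit 344) (nat_lit 5) (nat_lit 358) (nat_lit 5) (nat_lit 428) (nat_lit 417) (nat_lit 355)) (XT.lf (nat_lit 0) (nat_lit 658474423) (nat_lit 1064) (nat_lit 1896328476) (nat_lit 1140) (nat_lit 6197076760) (nat_lit 330) (nat_lit 5) (nat_lit 344) (nat_lit 5) (nat_lit 345) (nat_lit 5) (nat_lit 429) (nat_lit 417) (nat_lit 354))) (XT.nd (nat_lit 78) (nat_lit 0) (nat_lit 0) (XT.lf (nat_lit 0) (nat_lit 2131011302) (nat_lit 1064) (nat_lit 5918611745) (nat_lit 1140) (nat_lit 812590508) (nat_lit 331) (nat_lit 5) (nat_lit 345) (nat_lit 5) (nat_lit 346) (nat_lit 5) (nat_lit 430) (nat_lit 417) (nat_lit 353)) (XT.lf (nat_lit 0) (nat_lit 3653458935) (nat_lit 1064) (nat_lit 1063578941) (nat_lit 1140) (nat_lit 4258653371) (nat_lit 331) (nat_lit 5) (nat_lit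 345) (nat_lit 5) (nat_lit 346) (nat_lit 5) (nat_lit 431) (nat_lit 417) (nat_lit 352))))) (XT.nd (nat_lit 312) (nat_lit 1976) (nat_lit 0) (XT.nd (nat_lit 156) (nat_lit 2204) (nat_lit 0) (XT.nd (nat_lit 78) (nat_lit 0) (nat_lit 76) (XT.lf (nat_lit 76) (nat_lit 3985344972) (nat_lit 0) (nat_lit 1236778359) (nat_lit 1140) (nat_lit 3870439288) (nat_lit 332) (nat_lit 5) (nat_lit 331) (nat_lit 5) (nat_lit 346) (nat_lit 5) (nat_lit 432) (nat_lit 417) (nat_lit 351)) (XT.lf (nat_lit 0) (nat_lit 6834390190) (nat_lit 1064) (nat_lit 58181501) (nat_lit 76) (nat_lit 2320477650) (nat_lit 332) (nat_lit 5) (nat_lit 346) (nat_lit 5) (nat_lit 333) (nat_lit 5) (nat_lit 433) (nat_lit 417) (nat_lit 350))) (XT.nd (nat_lit 78) (nat_lit 1216) (nat_lit 0) (XT.lf (nat_lit 0) (nat_lit 5202050542) (nat_lit 1064) (nat_lit 3319425897) (nat_lit 1140) (nat_lit 814886010) (nat_lit 318) (nat_lit 5) (nat_lit 332) (nat_lit 5) (nat_lit 333) (nat_lit 5)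 (nat_lit 434) (nat_lit 417) (nat_lit 349)) (XT.lf (nat_lit 0) (nat_lit 760170335) (nat_lit 1216) (nat_lit 8324971382) (nat_lit 76) (nat_lit 378611792) (nat_lit 302) (nat_lit 5) (nat_lit 318) (nat_lit 5) (nat_lit 303) (nat_lit 5) (nat_lit 435) (nat_lit 417) (nat_lit 348)))) (XT.nd (nat_lit 156) (nat_lit 760) (nat_lit 0) (XT.nd (nat_lit 78) (nat_lit 1216) (nat_lit 0) (XT.lf (nat_lit 0) (nat_lit 2406531112) (nat_lit 1216) (nat_lit 3011001299) (nat_lit 76) (nat_lit 4175983784) (nat_lit 302) (nat_lit 5) (nat_lit 318) (nat_lit 5) (nat_lit 303) (nat_lit 5) (nat_lit 436) (nat_lit 417) (nat_lit 347)) (XT.lf (nat_lit 0) (nat_lit 2480937144) (nat_lit 1216) (nat_lit 1611605257) (nat_lit 1292) (nat_lit 5634926302) (nat_lit 286) (nat_lit 5) (nat_lit 302) (nat_lit 5) (nat_lit 303) (nat_lit 5) (nat_lit 437) (nat_lit 417) (nat_lit 346))) (XT.nd (nat_lit 78) (nat_lit 760) (nat_lit 0) (XT.lf (nat_lit 0) (nat_lit 5849168414) (nat_lit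 1292) (nat_lit 1718256442) (nat_lit 76) (nat_lit 2297418490) (nat_lit 286) (nat_lit 5) (nat_lit 303) (nat_lit 5) (nat_lit 287) (nat_lit 5) (nat_lit 438) (nat_lit 417) (nat_lit 345)) (XT.lf (nat_lit 0) (nat_lit 4008426980) (nat_lit 760) (nat_lit 3672648753) (nat_lit 836) (nat_lit 2324590480) (nat_lit 276) (nat_lit 5) (nat_lit 286) (nat_lit 5) (nat_lit 287) (nat_lit 5) (nat_lit 439) (nat_lit 417) (nat_lit 344)))))) (XT.nd (nat_lit 546) (nat_lit 2508) (nat_lit 0) (XT.nd (nat_lit 234) (nat_lit 1140) (nat_lit 0) (XT.nd (nat_lit 78) (nat_lit 1292) (nat_lit 0) (XT.lf (nat_lit 0) (nat_lit 9557480394) (nat_lit 836) (nat_lit 241860908) (nat_lit 76) (nat_lit 351690591) (nat_lit 276) (nat_lit 5) (nat_lit 287) (nat_lit 5) (nat_lit 277) (nat_lit 5) (nat_lit 440) (nat_lit 417) (nat_lit 343)) (XT.nd (nat_lit 78) (nat_lit 608) (nat_lit 0) (XT.lf (nat_lit 0) (nat_lit 1227942941) (nat_lit 684) (nat_lit 4578782302) (nat_lit 76) (nat_lit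 4491842355) (nat_lit 267) (nat_lit 5) (nat_lit 276) (nat_lit 5) (nat_lit 268) (nat_lit 5) (nat_lit 441) (nat_lit 417) (nat_lit 342)) (XT.lf (nat_lit 0) (nat_lit 1406529375) (nat_lit 608) (nat_lit 1671583241) (nat_lit 684) (nat_lit 7372665611) (nat_lit 259) (nat_lit 5) (nat_lit 267) (nat_lit 5) (nat_lit 268) (nat_lit 5) (nat_lit 442) (nat_lit 417) (nat_lit 341)))) (XT.nd (nat_lit 156) (nat_lit 608) (nat_lit 0) (XT.nd (nat_lit 78) (nat_lit 532) (nat_lit 0) (XT.lf (nat_lit 0) (nat_lit 5025919137) (nat_lit 684) (nat_lit 2996631571) (nat_lit 76) (nat_lit 2583744362) (nat_lit 259) (nat_lit 5) (nat_lit 268) (nat_lit 5) (nat_lit 260) (nat_lit 5) (nat_lit 443) (nat_lit 417) (nat_lit 340)) (XT.lf (nat_lit 0) (nat_lit 3249770928) (nat_lit 532) (nat_lit 3801598936) (nat_lit 608) (nat_lit 3714534988) (nat_lit 252) (nat_lit 5) (nat_lit 259) (nat_lit 5) (nat_lit 260) (nat_lit 5) (nat_lit 444) (nat_lit 417) (nat_lit 339))) (XT.nd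 (nat_lit 78) (nat_lit 608) (nat_lit 0) (XT.lf (nat_lit 0) (nat_lit 9145353115) (nat_lit 608) (nat_lit 1220000948) (nat_lit 76) (nat_lit 564719423) (nat_lit 252) (nat_lit 5) (nat_lit 260) (nat_lit 5) (nat_lit 253) (nat_lit 5) (nat_lit 445) (nat_lit 417) (nat_lit 338)) (XT.lf (nat_lit 0) (nat_lit 261011910) (nat_lit 608) (nat_lit 5798233573) (nat_lit 76) (nat_lit 5038007046) (nat_lit 244) (nat_lit 5) (nat_lit 252) (nat_lit 5) (nat_lit 245) (nat_lit 5) (nat_lit 446) (nat_lit 417) (nat_lit 337))))) (XT.nd (nat_lit 312) (nat_lit 1444) (nat_lit 0) (XT.nd (nat_lit 156) (nat_lit 532) (nat_lit 0) (XT.nd (nat_lit 78) (nat_lit 0) (nat_lit 0) (XT.lf (nat_lit 0) (nat_lit 736693728) (nat_lit 532) (nat_lit 1588099515) (nat_lit 608) (nat_lit 8944350459) (nat_lit 237) (nat_lit 5) (nat_lit 244) (nat_lit 5) (nat_lit 245) (nat_lit 5) (nat_lit 447) (nat_lit 417) (nat_lit 336)) (XT.lf (nat_lit 0) (nat_lit 4512126419) (nat_lit 608) (nat_lit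 3917404185) (nat_lit 76) (nat_lit 3014815075) (nat_lit 237) (nat_lit 5) (nat_lit 245) (nat_lit 5) (nat_lit 238) (nat_lit 5) (nat_lit 448) (nat_lit 417) (nat_lit 335))) (XT.nd (nat_lit 78) (nat_lit 0) (nat_lit 0) (XT.lf (nat_lit 0) (nat_lit 2908074128) (nat_lit 532) (nat_lit 3874960020) (nat_lit 608) (nat_lit 4841234060) (nat_lit 230) (nat_lit 5) (nat_lit 237) (nat_lit 5) (nat_lit 238) (nat_lit 5) (nat_lit 449) (nat_lit 417) (nat_lit 334)) (XT.lf (nat_lit 0) (nat_lit 9144580844) (nat_lit 608) (nat_lit 1827504078) (nat_lit 76) (nat_lit 836831175) (nat_lit 230) (nat_lit 5) (nat_lit 238) (nat_lit 5) (nat_lit 231) (nat_lit 5) (nat_lit 450) (nat_lit 417) (nat_lit 333)))) (XT.nd (nat_lit 156) (nat_lit 456) (nat_lit 0) (XT.nd (nat_lit 78) (nat_lit 532) (nat_lit 0) (XT.lf (nat_lit 0) (nat_lit 5304362453) (nat_lit 456) (nat_lit 6337418337) (nat_lit 532) (nat_lit 355381375) (nat_lit 224) (nat_lit 5) (nat_lit 230) (nat_lit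 5) (nat_lit 231) (nat_lit 5) (nat_lit 451) (nat_lit 417) (nat_lit 332)) (XT.lf (nat_lit 0) (nat_lit 457615116) (nat_lit 456) (nat_lit 1524442062) (nat_lit 532) (nat_lit 10208457204) (nat_lit 217) (nat_lit 5) (nat_lit 223) (nat_lit 5) (nat_lit 224) (nat_lit 5) (nat_lit 452) (nat_lit 417) (nat_lit 331))) (XT.nd (nat_lit 78) (nat_lit 456) (nat_lit 0) (XT.lf (nat_lit 0) (nat_lit 4459772038) (nat_lit 532) (nat_lit 4494313506) (nat_lit 76) (nat_lit 3433159882) (nat_lit 217) (nat_lit 5) (nat_lit 224) (nat_lit 5) (nat_lit 218) (nat_lit 5) (nat_lit 453) (nat_lit 417) (nat_lit 330)) (XT.lf (nat_lit 0) (nat_lit 2976035779) (nat_lit 456) (nat_lit 4056224590) (nat_lit 532) (nat_lit 5557007390) (nat_lit 211) (nat_lit 5) (nat_lit 217) (nat_lit 5) (nat_lit 218) (nat_lit 5) (nat_lit 454) (nat_lit 417) (nat_lit 329))))))))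
noncomputable def xc137 : XT := (XT.nd (nat_lit 2340) (nat_lit 3800) (nat_lit 0) (XT.nd (nat_lit 1170) (nat_lit 2736) (nat_lit 0) (XT.nd (nat_lit 546) (nat_lit 1748) (nat_lit 0) (XT.nd (nat_lit 234) (nat_lit 912) (nat_lit 0) (XT.nd (nat_lit 78) (nat_lit 912) (nat_lit 0) (XT.lf (nat_lit 0) (nat_lit 9714357239) (nat_lit 532) (nat_lit 2072050038) (nat_lit 76) (nat_lit 1009973013) (nat_lit 211) (nat_lit 5) (nat_lit 218) (nat_lit 5) (nat_lit 212) (nat_lit 5) (nat_lit 455) (nat_lit 417) (nat_lit 328)) (XT.nd (nat_lit 78) (nat_lit 456) (nat_lit 0) (XT.lf (nat_lit 0) (nat_lit 5739304878) (nat_lit 456) (nat_lit 6810707562) (nat_lit 532) (nat_lit 457503362) (nat_lit 205) (nat_lit 5) (nat_lit 211) (nat_lit 5) (nat_lit 212) (nat_lit 5) (nat_lit 456) (nat_lit 417) (nat_lit 327)) (XT.lf (nat_lit 0) (nat_lit 564269532) (nat_lit 380) (nat_lit 1642143039) (nat_lit 456) (nat_lit 11017793010) (nat_lit 199) (nat_lit 5) (nat_lit 204)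 (nat_lit 5) (nat_lit 205) (nat_lit 5) (nat_lit 457) (nat_lit 417) (nat_lit 326)))) (XT.nd (nat_lit 156) (nat_lit 456) (nat_lit 0) (XT.nd (nat_lit 78) (nat_lit 456) (nat_lit 0) (XT.lf (nat_lit 0) (nat_lit 5028806213) (nat_lit 456) (nat_lit 4733507523) (nat_lit 76) (nat_lit 3682316016) (nat_lit 199) (nat_lit 5) (nat_lit 205) (nat_lit 5) (nat_lit 200) (nat_lit 5) (nat_lit 458) (nat_lit 417) (nat_lit 325)) (XT.lf (nat_lit 0) (nat_lit 3454303764) (nat_lit 456) (nat_lit 4509910856) (nat_lit 532) (nat_lit 5706603935) (nat_lit 193) (nat_lit 5) (nat_lit 199) (nat_lit 5) (nat_lit 200) (nat_lit 5) (nat_lit 459) (nat_lit 417) (nat_lit 324))) (XT.nd (nat_lit 78) (nat_lit 456) (nat_lit 0) (XT.lf (nat_lit 0) (nat_lit 11023779087) (nat_lit 532) (nat_lit 1954552111) (nat_lit 76) (nat_lit 924381138) (nat_lit 193) (nat_lit 5) (nat_lit 200) (nat_lit 5) (nat_lit 194) (nat_lit 5) (nat_lit 460) (nat_lit 417) (nat_lit 323)) (XT.lf (nat_lit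 0) (nat_lit 121774954) (nat_lit 456) (nat_lit 7527504626) (nat_lit 76) (nat_lit 6489609806) (nat_lit 187) (nat_lit 5) (nat_lit 193) (nat_lit 5) (nat_lit 188) (nat_lit 5) (nat_lit 461) (nat_lit 417) (nat_lit 322))))) (XT.nd (nat_lit 312) (nat_lit 1064) (nat_lit 0) (XT.nd (nat_lit 156) (nat_lit 304) (nat_lit 0) (XT.nd (nat_lit 78) (nat_lit 0) (nat_lit 0) (XT.lf (nat_lit 0) (nat_lit 1057568713) (nat_lit 380) (nat_lit 2107079458) (nat_lit 456) (nat_lit 11216350174) (nat_lit 182) (nat_lit 5) (nat_lit 187) (nat_lit 5) (nat_lit 188) (nat_lit 5) (nat_lit 462) (nat_lit 417) (nat_lit 321)) (XT.lf (nat_lit 0) (nat_lit 6390358715) (nat_lit 456) (nat_lit 4636395595) (nat_lit 76) (nat_lit 3600871620) (nat_lit 182) (nat_lit 5) (nat_lit 188) (nat_lit 5) (nat_lit 183) (nat_lit 5) (nat_lit 463) (nat_lit 417) (nat_lit 320))) (XT.nd (nat_lit 78) (nat_lit 0) (nat_lit 0) (XT.lf (nat_lit 0) (nat_lit 4348608582) (nat_lit 304) (nat_lit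 5407640075) (nat_lit 380) (nat_lit 5124103280) (nat_lit 178) (nat_lit 5) (nat_lit 182) (nat_lit 5) (nat_lit 183) (nat_lit 5) (nat_lit 464) (nat_lit 417) (nat_lit 319)) (XT.lf (nat_lit 0) (nat_lit 13255030954) (nat_lit 380) (nat_lit 1472040956) (nat_lit 76) (nat_lit 412632130) (nat_lit 178) (nat_lit 5) (nat_lit 183) (nat_lit 5) (nat_lit 179) (nat_lit 5) (nat_lit 465) (nat_lit 417) (nat_lit 318)))) (XT.nd (nat_lit 156) (nat_lit 304) (nat_lit 0) (XT.nd (nat_lit 78) (nat_lit 304) (nat_lit 0) (XT.lf (nat_lit 0) (nat_lit 1536056257) (nat_lit 456) (nat_lit 7483902871) (nat_lit 76) (nat_lit 6383087086) (nat_lit 172) (nat_lit 5) (nat_lit 178) (nat_lit 5) (nat_lit 173) (nat_lit 5) (nat_lit 466) (nat_lit 417) (nat_lit 317)) (XT.lf (nat_lit 0) (nat_lit 1941267767) (nat_lit 304) (nat_lit 3095574412) (nat_lit 380) (nat_lit 10636428859) (nat_lit 168) (nat_lit 5) (nat_lit 172) (nat_lit 5) (nat_lit 173) (nat_lit 5) (nat_lit 467)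 (nat_lit 417) (nat_lit 316))) (XT.nd (nat_lit 78) (nat_lit 304) (nat_lit 0) (XT.lf (nat_lit 0) (nat_lit 8729725211) (nat_lit 380) (nat_lit 4202791308) (nat_lit 76) (nat_lit 3016475468) (nat_lit 168) (nat_lit 5) (nat_lit 173) (nat_lit 5) (nat_lit 169) (nat_lit 5) (nat_lit 468) (nat_lit 417) (nat_lit 315)) (XT.lf (nat_lit 0) (nat_lit 5666579336) (nat_lit 304) (nat_lit 6934315687) (nat_lit 380) (nat_lit 3630066070) (nat_lit 164) (nat_lit 5) (nat_lit 168) (nat_lit 5) (nat_lit 169) (nat_lit 5) (nat_lit 469) (nat_lit 417) (nat_lit 314)))))) (XT.nd (nat_lit 546) (nat_lit 1368) (nat_lit 0) (XT.nd (nat_lit 234) (nat_lit 684) (nat_lit 0) (XT.nd (nat_lit 78) (nat_lit 608) (nat_lit 0) (XT.lf (nat_lit 0) (nat_lit 90843351) (nat_lit 380) (nat_lit 628736893) (nat_lit 76) (nat_lit 15801031120) (nat_lit 163) (nat_lit 5) (nat_lit 168) (nat_lit 5) (nat_lit 164) (nat_lit 5) (nat_lit 470) (nat_lit 417) (nat_lit 313)) (XT.nd (nat_lit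 78) (nat_lit 304) (nat_lit 0) (XT.lf (nat_lit 0) (nat_lit 3982795603) (nat_lit 380) (nat_lit 7137409780) (nat_lit 76) (nat_lit 5693697644) (nat_lit 159) (nat_lit 5) (nat_lit 164) (nat_lit 5) (nat_lit 160) (nat_lit 5) (nat_lit 471) (nat_lit 417) (nat_lit 312)) (XT.lf (nat_lit 0) (nat_lit 3218406093) (nat_lit 304) (nat_lit 4800741527) (nat_lit 380) (nat_lit 9096017950) (nat_lit 155) (nat_lit 5) (nat_lit 159) (nat_lit 5) (nat_lit 160) (nat_lit 5) (nat_lit 472) (nat_lit 417) (nat_lit 311)))) (XT.nd (nat_lit 156) (nat_lit 380) (nat_lit 0) (XT.nd (nat_lit 78) (nat_lit 304) (nat_lit 0) (XT.lf (nat_lit 0) (nat_lit 12249136824) (nat_lit 380) (nat_lit 3434579054) (nat_lit 76) (nat_lit 1739575039) (nat_lit 155) (nat_lit 5) (nat_lit 160) (nat_lit 5) (nat_lit 156) (nat_lit 5) (nat_lit 473) (nat_lit 417) (nat_lit 310)) (XT.lf (nat_lit 0) (nat_lit 7414000047) (nat_lit 304) (nat_lit 9294648853) (nat_lit 380) (nat_lit 1028933718)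 (nat_lit 151) (nat_lit 5) (nat_lit 155) (nat_lit 5) (nat_lit 156) (nat_lit 5) (nat_lit 474) (nat_lit 417) (nat_lit 309))) (XT.nd (nat_lit 78) (nat_lit 0) (nat_lit 0) (XT.lf (nat_lit 0) (nat_lit 552782941) (nat_lit 304) (nat_lit 2648864385) (nat_lit 380) (nat_lit 14857995207) (nat_lit 146) (nat_lit 5) (nat_lit 150) (nat_lit 5) (nat_lit 151) (nat_lit 5) (nat_lit 475) (nat_lit 417) (nat_lit 308)) (XT.lf (nat_lit 0) (nat_lit 7668135193) (nat_lit 380) (nat_lit 6497572456) (nat_lit 76) (nat_lit 4221462054) (nat_lit 146) (nat_lit 5) (nat_lit 151) (nat_lit 5) (nat_lit 147) (nat_lit 5) (nat_lit 476) (nat_lit 417) (nat_lit 307))))) (XT.nd (nat_lit 312) (nat_lit 532) (nat_lit 0) (XT.nd (nat_lit 156) (nat_lit 608) (nat_lit 0) (XT.nd (nat_lit 78) (nat_lit 0) (nat_lit 0) (XT.lf (nat_lit 0) (nat_lit 4887012234) (nat_lit 228) (nat_lit 7439325779) (nat_lit 304) (nat_lit 6396454210) (nat_lit 143) (nat_lit 5) (nat_lit 146) (nat_lit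 5) (nat_lit 147) (nat_lit 5) (nat_lit 477) (nat_lit 417) (nat_lit 306)) (XT.lf (nat_lit 0) (nat_lit 16722446890) (nat_lit 228) (nat_lit 452191157) (nat_lit 304) (nat_lit 1892335950) (nat_lit 143) (nat_lit 5) (nat_lit 146) (nat_lit 5) (nat_lit 147) (nat_lit 5) (nat_lit 478) (nat_lit 417) (nat_lit 305))) (XT.nd (nat_lit 78) (nat_lit 228) (nat_lit 0) (XT.lf (nat_lit 0) (nat_lit 2836832244) (nat_lit 380) (nat_lit 9854811457) (nat_lit 76) (nat_lit 6724740570) (nat_lit 138) (nat_lit 5) (nat_lit 143) (nat_lit 5) (nat_lit 139) (nat_lit 5) (nat_lit 479) (nat_lit 417) (nat_lit 304)) (XT.lf (nat_lit 0) (nat_lit 2091090433) (nat_lit 228) (nat_lit 5612404231) (nat_lit 304) (nat_lit 12071211528) (nat_lit 135) (nat_lit 5) (nat_lit 138) (nat_lit 5) (nat_lit 139) (nat_lit 5) (nat_lit 480) (nat_lit 417) (nat_lit 303)))) (XT.nd (nat_lit 156) (nat_lit 304) (nat_lit 0) (XT.nd (nat_lit 78) (nat_lit 228) (nat_lit 0) (XT.lf (nat_lit 0)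 (nat_lit 12818086972) (nat_lit 304) (nat_lit 5584276343) (nat_lit 76) (nat_lit 1738357544) (nat_lit 135) (nat_lit 5) (nat_lit 139) (nat_lit 5) (nat_lit 136) (nat_lit 5) (nat_lit 481) (nat_lit 417) (nat_lit 302)) (XT.lf (nat_lit 0) (nat_lit 6934747828) (nat_lit 228) (nat_lit 11259315932) (nat_lit 304) (nat_lit 2320414763) (nat_lit 132) (nat_lit 5) (nat_lit 135) (nat_lit 5) (nat_lit 136) (nat_lit 5) (nat_lit 482) (nat_lit 417) (nat_lit 301))) (XT.nd (nat_lit 78) (nat_lit 228) (nat_lit 0) (XT.lf (nat_lit 0) (nat_lit 2819333042) (nat_lit 304) (nat_lit 1004829333) (nat_lit 76) (nat_lit 17073189132) (nat_lit 131) (nat_lit 5) (nat_lit 135) (nat_lit 5) (nat_lit 132) (nat_lit 5) (nat_lit 483) (nat_lit 417) (nat_lit 300)) (XT.lf (nat_lit 0) (nat_lit 8207663637) (nat_lit 304) (nat_lit 9187309211) (nat_lit 76) (nat_lit 3891818627) (nat_lit 128) (nat_lit 5) (nat_lit 132) (nat_lit 5) (nat_lit 129) (nat_lit 5) (nat_lit 484) (nat_lit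 417) (nat_lit 299))))))) (XT.nd (nat_lit 1170) (nat_lit 1748) (nat_lit 0) (XT.nd (nat_lit 546) (nat_lit 1064) (nat_lit 0) (XT.nd (nat_lit 234) (nat_lit 456) (nat_lit 0) (XT.nd (nat_lit 78) (nat_lit 304) (nat_lit 0) (XT.lf (nat_lit 0) (nat_lit 3946415252) (nat_lit 228) (nat_lit 9883568607) (nat_lit 304) (nat_lit 7855761442) (nat_lit 125) (nat_lit 5) (nat_lit 128) (nat_lit 5) (nat_lit 129) (nat_lit 5) (nat_lit 485) (nat_lit 417) (nat_lit 298)) (XT.nd (nat_lit 78) (nat_lit 304) (nat_lit 0) (XT.lf (nat_lit 0) (nat_lit 17640162219) (nat_lit 228) (nat_lit 2060064017) (nat_lit 304) (nat_lit 2394064759) (nat_lit 125) (nat_lit 5) (nat_lit 128) (nat_lit 5) (nat_lit 129) (nat_lit 5) (nat_lit 486) (nat_lit 417) (nat_lit 297)) (XT.lf (nat_lit 0) (nat_lit 3303906482) (nat_lit 304) (nat_lit 13211369559) (nat_lit 76) (nat_lit 5994821461) (nat_lit 121) (nat_lit 5) (nat_lit 125) (nat_lit 5) (nat_lit 122) (nat_lit 5) (nat_lit 487)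 (nat_lit 417) (nat_lit 296)))) (XT.nd (nat_lit 156) (nat_lit 228) (nat_lit 0) (XT.nd (nat_lit 78) (nat_lit 0) (nat_lit 0) (XT.lf (nat_lit 0) (nat_lit 562854780) (nat_lit 228) (nat_lit 8619910357) (nat_lit 304) (nat_lit 13753160717) (nat_lit 118) (nat_lit 5) (nat_lit 121) (nat_lit 5) (nat_lit 122) (nat_lit 5) (nat_lit 488) (nat_lit 417) (nat_lit 295)) (XT.lf (nat_lit 0) (nat_lit 14999312248) (nat_lit 228) (nat_lit 359096097) (nat_lit 304) (nat_lit 8012508885) (nat_lit 118) (nat_lit 5) (nat_lit 121) (nat_lit 5) (nat_lit 122) (nat_lit 5) (nat_lit 489) (nat_lit 417) (nat_lit 294))) (XT.nd (nat_lit 78) (nat_lit 76) (nat_lit 0) (XT.lf (nat_lit 0) (nat_lit 6068510098) (nat_lit 152) (nat_lit 15774789240) (nat_lit 228) (nat_lit 1971940367) (nat_lit 116) (nat_lit 5) (nat_lit 118) (nat_lit 5) (nat_lit 119) (nat_lit 5) (nat_lit 490) (nat_lit 417) (nat_lit 293)) (XT.lf (nat_lit 0) (nat_lit 4243191086) (nat_lit 228) (nat_lit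 3223678998) (nat_lit 76) (nat_lit 16802508609) (nat_lit 115) (nat_lit 5) (nat_lit 118) (nat_lit 5) (nat_lit 116) (nat_lit 5) (nat_lit 491) (nat_lit 417) (nat_lit 292))))) (XT.nd (nat_lit 312) (nat_lit 380) (nat_lit 0) (XT.nd (nat_lit 156) (nat_lit 304) (nat_lit 0) (XT.nd (nat_lit 78) (nat_lit 152) (nat_lit 0) (XT.lf (nat_lit 0) (nat_lit 10719237142) (nat_lit 304) (nat_lit 12817816943) (nat_lit 76) (nat_lit 1196079853) (nat_lit 112) (nat_lit 5) (nat_lit 116) (nat_lit 5) (nat_lit 113) (nat_lit 5) (nat_lit 492) (nat_lit 417) (nat_lit 291)) (XT.lf (nat_lit 0) (nat_lit 2314688394) (nat_lit 152) (nat_lit 15191722645) (nat_lit 228) (nat_lit 7700886041) (nat_lit 110) (nat_lit 5) (nat_lit 112) (nat_lit 5) (nat_lit 113) (nat_lit 5) (nat_lit 493) (nat_lit 417) (nat_lit 290))) (XT.nd (nat_lit 78) (nat_lit 304) (nat_lit 0) (XT.lf (nat_lit 0) (nat_lit 18143159464) (nat_lit 152) (nat_lit 6471423221) (nat_lit 228) (nat_lit 1077581572)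 (nat_lit 110) (nat_lit 5) (nat_lit 112) (nat_lit 5) (nat_lit 113) (nat_lit 5) (nat_lit 494) (nat_lit 417) (nat_lit 289)) (XT.lf (nat_lit 0) (nat_lit 5726089706) (nat_lit 304) (nat_lit 17871181713) (nat_lit 76) (nat_lit 2589837182) (nat_lit 106) (nat_lit 5) (nat_lit 110) (nat_lit 5) (nat_lit 107) (nat_lit 5) (nat_lit 495) (nat_lit 417) (nat_lit 288)))) (XT.nd (nat_lit 156) (nat_lit 228) (nat_lit 0) (XT.nd (nat_lit 78) (nat_lit 152) (nat_lit 0) (XT.lf (nat_lit 0) (nat_lit 12841521650) (nat_lit 304) (nat_lit 1979019895) (nat_lit 76) (nat_lit 11872160954) (nat_lit 106) (nat_lit 5) (nat_lit 110) (nat_lit 5) (nat_lit 107) (nat_lit 5) (nat_lit 496) (nat_lit 417) (nat_lit 287)) (XT.lf (nat_lit 0) (nat_lit 14656032877) (nat_lit 152) (nat_lit 5643859100) (nat_lit 228) (nat_lit 6909688520) (nat_lit 104) (nat_lit 5) (nat_lit 106) (nat_lit 5) (nat_lit 107) (nat_lit 5) (nat_lit 497) (nat_lit 417) (nat_lit 286))) (XT.nd (nat_lit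 78) (nat_lit 0) (nat_lit 0) (XT.lf (nat_lit 0) (nat_lit 321183701) (nat_lit 228) (nat_lit 23629700842) (nat_lit 76) (nat_lit 3788437003) (nat_lit 101) (nat_lit 5) (nat_lit 104) (nat_lit 5) (nat_lit 102) (nat_lit 5) (nat_lit 498) (nat_lit 417) (nat_lit 285)) (XT.lf (nat_lit 0) (nat_lit 7802689641) (nat_lit 228) (nat_lit 6896639097) (nat_lit 76) (nat_lit 13578396643) (nat_lit 101) (nat_lit 5) (nat_lit 104) (nat_lit 5) (nat_lit 102) (nat_lit 5) (nat_lit 499) (nat_lit 417) (nat_lit 284)))))) (XT.nd (nat_lit 624) (nat_lit 836) (nat_lit 0) (XT.nd (nat_lit 312) (nat_lit 380) (nat_lit 0) (XT.nd (nat_lit 156) (nat_lit 380) (nat_lit 0) (XT.nd (nat_lit 78) (nat_lit 0) (nat_lit 0) (XT.lf (nat_lit 0) (nat_lit 10524405803) (nat_lit 152) (nat_lit 5074415895) (nat_lit 228) (nat_lit 13230754692) (nat_lit 99) (nat_lit 5) (nat_lit 101) (nat_lit 5) (nat_lit 102) (nat_lit 5) (nat_lit 500) (nat_lit 417) (nat_lit 283)) (XT.lf (nat_lit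 0) (nat_lit 23734756863) (nat_lit 228) (nat_lit 853078198) (nat_lit 76) (nat_lit 4806970764) (nat_lit 99) (nat_lit 5) (nat_lit 102) (nat_lit 5) (nat_lit 100) (nat_lit 5) (nat_lit 501) (nat_lit 417) (nat_lit 282))) (XT.nd (nat_lit 78) (nat_lit 152) (nat_lit 0) (XT.lf (nat_lit 0) (nat_lit 2304929745) (nat_lit 228) (nat_lit 12600520281) (nat_lit 76) (nat_lit 15064660047) (nat_lit 96) (nat_lit 5) (nat_lit 99) (nat_lit 5) (nat_lit 97) (nat_lit 5) (nat_lit 502) (nat_lit 417) (nat_lit 281)) (XT.lf (nat_lit 0) (nat_lit 5628829675) (nat_lit 152) (nat_lit 4818487180) (nat_lit 228) (nat_lit 20112109209) (nat_lit 94) (nat_lit 5) (nat_lit 96) (nat_lit 5) (nat_lit 97) (nat_lit 5) (nat_lit 503) (nat_lit 417) (nat_lit 280)))) (XT.nd (nat_lit 156) (nat_lit 228) (nat_lit 0) (XT.nd (nat_lit 78) (nat_lit 152) (nat_lit 0) (XT.lf (nat_lit 0) (nat_lit 19005490785) (nat_lit 228) (nat_lit 6573001753) (nat_lit 76) (nat_lit 5582783961) (nat_lit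 94) (nat_lit 5) (nat_lit 97) (nat_lit 5) (nat_lit 95) (nat_lit 5) (nat_lit 504) (nat_lit 417) (nat_lit 279)) (XT.lf (nat_lit 0) (nat_lit 12513402841) (nat_lit 152) (nat_lit 15464770471) (nat_lit 228) (nat_lit 3798276638) (nat_lit 92) (nat_lit 5) (nat_lit 94) (nat_lit 5) (nat_lit 95) (nat_lit 5) (nat_lit 505) (nat_lit 417) (nat_lit 278))) (XT.nd (nat_lit 78) (nat_lit 152) (nat_lit 0) (XT.lf (nat_lit 0) (nat_lit 4772921278) (nat_lit 228) (nat_lit 166256026) (nat_lit 76) (nat_lit 27467809904) (nat_lit 91) (nat_lit 5) (nat_lit 94) (nat_lit 5) (nat_lit 92) (nat_lit 5) (nat_lit 506) (nat_lit 417) (nat_lit 277)) (XT.lf (nat_lit 0) (nat_lit 13764587584) (nat_lit 228) (nat_lit 13273803074) (nat_lit 76) (nat_lit 6009731875) (nat_lit 89) (nat_lit 5) (nat_lit 92) (nat_lit 5) (nat_lit 90) (nat_lit 5) (nat_lit 507) (nat_lit 417) (nat_lit 276))))) (XT.nd (nat_lit 312) (nat_lit 456) (nat_lit 0) (XT.nd (nat_lit 156) (nat_lit 228)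 (nat_lit 0) (XT.nd (nat_lit 78) (nat_lit 0) (nat_lit 0) (XT.lf (nat_lit 0) (nat_lit 6671421487) (nat_lit 152) (nat_lit 16459441760) (nat_lit 228) (nat_lit 10574483250) (nat_lit 87) (nat_lit 5) (nat_lit 89) (nat_lit 5) (nat_lit 90) (nat_lit 5) (nat_lit 508) (nat_lit 417) (nat_lit 275)) (XT.lf (nat_lit 0) (nat_lit 27469357085) (nat_lit 152) (nat_lit 5433057690) (nat_lit 228) (nat_lit 1476144129) (nat_lit 87) (nat_lit 5) (nat_lit 89) (nat_lit 5) (nat_lit 90) (nat_lit 5) (nat_lit 509) (nat_lit 417) (nat_lit 274))) (XT.nd (nat_lit 78) (nat_lit 0) (nat_lit 0) (XT.lf (nat_lit 0) (nat_lit 7925043245) (nat_lit 228) (nat_lit 21125771507) (nat_lit 76) (nat_lit 6013357649) (nat_lit 84) (nat_lit 5) (nat_lit 87) (nat_lit 5) (nat_lit 85) (nat_lit 5) (nat_lit 510) (nat_lit 417) (nat_lit 273)) (XT.lf (nat_lit 0) (nat_lit 17693325923) (nat_lit 228) (nat_lit 301753853) (nat_lit 76) (nat_lit 17771394528) (nat_lit 84) (nat_lit 5) (nat_lit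 87) (nat_lit 5) (nat_lit 85) (nat_lit 5) (nat_lit 511) (nat_lit 417) (nat_lit 272)))) (XT.nd (nat_lit 156) (nat_lit 152) (nat_lit 0) (XT.nd (nat_lit 78) (nat_lit 152) (nat_lit 0) (XT.lf (nat_lit 0) (nat_lit 21550564474) (nat_lit 152) (nat_lit 6402003108) (nat_lit 228) (nat_lit 8531340679) (nat_lit 82) (nat_lit 5) (nat_lit 84) (nat_lit 5) (nat_lit 85) (nat_lit 5) (nat_lit 512) (nat_lit 417) (nat_lit 271)) (XT.lf (nat_lit 0) (nat_lit 1386037354) (nat_lit 152) (nat_lit 30326673747) (nat_lit 76) (nat_lit 5506341889) (nat_lit 80) (nat_lit 5) (nat_lit 82) (nat_lit 5) (nat_lit 81) (nat_lit 5) (nat_lit 513) (nat_lit 417) (nat_lit 270))) (XT.nd (nat_lit 78) (nat_lit 152) (nat_lit 0) (XT.lf (nat_lit 0) (nat_lit 11635945955) (nat_lit 152) (nat_lit 8459083801) (nat_lit 76) (nat_lit 17872494107) (nat_lit 80) (nat_lit 5) (nat_lit 82) (nat_lit 5) (nat_lit 81) (nat_lit 5) (nat_lit 514) (nat_lit 417) (nat_lit 269)) (XT.lf (nat_lit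 0) (nat_lit 14327611712) (nat_lit 152) (nat_lit 7994537737) (nat_lit 228) (nat_lit 16412435761) (nat_lit 78) (nat_lit 5) (nat_lit 80) (nat_lit 5) (nat_lit 81) (nat_lit 5) (nat_lit 515) (nat_lit 417) (nat_lit 268))))))))
noncomputable def xc138 : XT := (XT.nd (nat_lit 2340) (nat_lit 228) (nat_lit 0) (XT.nd (nat_lit 1170) (nat_lit 988) (nat_lit 0) (XT.nd (nat_lit 546) (nat_lit 684) (nat_lit 0) (XT.nd (nat_lit 234) (nat_lit 304) (nat_lit 0) (XT.nd (nat_lit 78) (nat_lit 304) (nat_lit 0) (XT.lf (nat_lit 0) (nat_lit 33449265950) (nat_lit 228) (nat_lit 1611125361) (nat_lit 76) (nat_lit 4460657548) (nat_lit 78) (nat_lit 5) (nat_lit 81) (nat_lit 5) (nat_lit 79) (nat_lit 4) (nat_lit 516) (nat_lit 417) (nat_lit 267)) (XT.nd (nat_lit 78) (nat_lit 152) (nat_lit 0) (XT.lf (nat_lit 0) (nat_lit 4776526550) (nat_lit 152) (nat_lit 18162693175) (nat_lit 76) (nat_lit 17381962690) (nat_lit 76) (nat_lit 5) (nat_lit 78) (nat_lit 5) (nat_lit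 77) (nat_lit 5) (nat_lit 517) (nat_lit 417) (nat_lit 266)) (XT.lf (nat_lit 0) (nat_lit 5561566090) (nat_lit 152) (nat_lit 10327949514) (nat_lit 228) (nat_lit 25252163106) (nat_lit 74) (nat_lit 5) (nat_lit 76) (nat_lit 5) (nat_lit 77) (nat_lit 5) (nat_lit 518) (nat_lit 417) (nat_lit 265)))) (XT.nd (nat_lit 156) (nat_lit 228) (nat_lit 0) (XT.nd (nat_lit 78) (nat_lit 76) (nat_lit 0) (XT.lf (nat_lit 0) (nat_lit 27538106246) (nat_lit 228) (nat_lit 11654915244) (nat_lit 76) (nat_lit 2787702285) (nat_lit 74) (nat_lit 5) (nat_lit 77) (nat_lit 5) (nat_lit 75) (nat_lit 4) (nat_lit 519) (nat_lit 417) (nat_lit 264)) (XT.lf (nat_lit 0) (nat_lit 13126294540) (nat_lit 76) (nat_lit 26629948281) (nat_lit 152) (nat_lit 3082094956) (nat_lit 73) (nat_lit 5) (nat_lit 74) (nat_lit 5) (nat_lit 75) (nat_lit 4) (nat_lit 520) (nat_lit 417) (nat_lit 263))) (XT.nd (nat_lit 78) (nat_lit 152) (nat_lit 0) (XT.lf (nat_lit 0) (nat_lit 8561573614)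 (nat_lit 152) (nat_lit 4927953939) (nat_lit 76) (nat_lit 30226351579) (nat_lit 72) (nat_lit 5) (nat_lit 74) (nat_lit 5) (nat_lit 73) (nat_lit 5) (nat_lit 521) (nat_lit 417) (nat_lit 262)) (XT.lf (nat_lit 0) (nat_lit 20688685734) (nat_lit 228) (nat_lit 23652670499) (nat_lit 76) (nat_lit 271592816) (nat_lit 70) (nat_lit 5) (nat_lit 73) (nat_lit 5) (nat_lit 71) (nat_lit 4) (nat_lit 522) (nat_lit 417) (nat_lit 261))))) (XT.nd (nat_lit 312) (nat_lit 380) (nat_lit 0) (XT.nd (nat_lit 156) (nat_lit 152) (nat_lit 0) (XT.nd (nat_lit 78) (nat_lit 76) (nat_lit 0) (XT.lf (nat_lit 0) (nat_lit 2082106172) (nat_lit 76) (nat_lit 31293266569) (nat_lit 152) (nat_lit 12155685683) (nat_lit 69) (nat_lit 5) (nat_lit 70) (nat_lit 5) (nat_lit 71) (nat_lit 4) (nat_lit 523) (nat_lit 417) (nat_lit 260)) (XT.lf (nat_lit 0) (nat_lit 199767167) (nat_lit 152) (nat_lit 17413020838) (nat_lit 76) (nat_lit 28856938485) (nat_lit 68) (nat_lit 5) (nat_lit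 70) (nat_lit 5) (nat_lit 69) (nat_lit 5) (nat_lit 524) (nat_lit 417) (nat_lit 259))) (XT.nd (nat_lit 78) (nat_lit 0) (nat_lit 0) (XT.lf (nat_lit 0) (nat_lit 9453326623) (nat_lit 152) (nat_lit 3311288598) (nat_lit 228) (nat_lit 34665837502) (nat_lit 66) (nat_lit 5) (nat_lit 68) (nat_lit 5) (nat_lit 69) (nat_lit 5) (nat_lit 525) (nat_lit 417) (nat_lit 258)) (XT.lf (nat_lit 0) (nat_lit 25985954508) (nat_lit 228) (nat_lit 11058419181) (nat_lit 76) (nat_lit 11367240862) (nat_lit 66) (nat_lit 5) (nat_lit 69) (nat_lit 5) (nat_lit 67) (nat_lit 4) (nat_lit 526) (nat_lit 417) (nat_lit 257)))) (XT.nd (nat_lit 156) (nat_lit 228) (nat_lit 0) (XT.nd (nat_lit 78) (nat_lit 76) (nat_lit 0) (XT.lf (nat_lit 0) (nat_lit 16951481290) (nat_lit 76) (nat_lit 22840611539) (nat_lit 152) (nat_lit 9624473817) (nat_lit 65) (nat_lit 5) (nat_lit 66) (nat_lit 5) (nat_lit 67) (nat_lit 4) (nat_lit 527) (nat_lit 417) (nat_lit 256)) (XT.lf (nat_lit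 0) (nat_lit 3596474293) (nat_lit 152) (nat_lit 4469662384) (nat_lit 76) (nat_lit 42381347673) (nat_lit 64) (nat_lit 5) (nat_lit 66) (nat_lit 5) (nat_lit 65) (nat_lit 5) (nat_lit 528) (nat_lit 417) (nat_lit 255))) (XT.nd (nat_lit 78) (nat_lit 76) (nat_lit 0) (XT.lf (nat_lit 0) (nat_lit 17323051429) (nat_lit 228) (nat_lit 26832414171) (nat_lit 76) (nat_lit 7341932104) (nat_lit 62) (nat_lit 5) (nat_lit 65) (nat_lit 5) (nat_lit 63) (nat_lit 4) (nat_lit 529) (nat_lit 417) (nat_lit 254)) (XT.lf (nat_lit 0) (nat_lit 2135217918) (nat_lit 76) (nat_lit 29464851107) (nat_lit 152) (nat_lit 20974580296) (nat_lit 61) (nat_lit 5) (nat_lit 62) (nat_lit 5) (nat_lit 63) (nat_lit 4) (nat_lit 530) (nat_lit 417) (nat_lit 253)))))) (XT.nd (nat_lit 546) (nat_lit 532) (nat_lit 0) (XT.nd (nat_lit 234) (nat_lit 228) (nat_lit 0) (XT.nd (nat_lit 78) (nat_lit 228) (nat_lit 0) (XT.lf (nat_lit 0) (nat_lit 32508077810) (nat_lit 76) (nat_lit 14061028147)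 (nat_lit 152) (nat_lit 7107201420) (nat_lit 61) (nat_lit 5) (nat_lit 62) (nat_lit 5) (nat_lit 63) (nat_lit 4) (nat_lit 531) (nat_lit 417) (nat_lit 252)) (XT.nd (nat_lit 78) (nat_lit 0) (nat_lit 0) (XT.lf (nat_lit 0) (nat_lit 7135135723) (nat_lit 228) (nat_lit 45749729134) (nat_lit 76) (nat_lit 1921111890) (nat_lit 58) (nat_lit 5) (nat_lit 61) (nat_lit 5) (nat_lit 59) (nat_lit 4) (nat_lit 532) (nat_lit 417) (nat_lit 251)) (XT.lf (nat_lit 0) (nat_lit 22009898685) (nat_lit 228) (nat_lit 15567033193) (nat_lit 76) (nat_lit 18380053308) (nat_lit 58) (nat_lit 5) (nat_lit 61) (nat_lit 5) (nat_lit 59) (nat_lit 4) (nat_lit 533) (nat_lit 417) (nat_lit 250)))) (XT.nd (nat_lit 156) (nat_lit 152) (nat_lit 0) (XT.nd (nat_lit 78) (nat_lit 0) (nat_lit 0) (XT.lf (nat_lit 0) (nat_lit 15816584147) (nat_lit 76) (nat_lit 21659476827) (nat_lit 152) (nat_lit 19662108346) (nat_lit 57) (nat_lit 5) (nat_lit 58) (nat_lit 5) (nat_lit 59) (nat_lit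 4) (nat_lit 534) (nat_lit 417) (nat_lit 249)) (XT.lf (nat_lit 0) (nat_lit 48447750317) (nat_lit 76) (nat_lit 5108846916) (nat_lit 152) (nat_lit 4793680207) (nat_lit 57) (nat_lit 5) (nat_lit 58) (nat_lit 5) (nat_lit 59) (nat_lit 4) (nat_lit 535) (nat_lit 417) (nat_lit 248))) (XT.nd (nat_lit 78) (nat_lit 0) (nat_lit 0) (XT.lf (nat_lit 0) (nat_lit 10645766951) (nat_lit 152) (nat_lit 36917350950) (nat_lit 76) (nat_lit 12022689108) (nat_lit 55) (nat_lit 5) (nat_lit 57) (nat_lit 5) (nat_lit 56) (nat_lit 4) (nat_lit 536) (nat_lit 417) (nat_lit 247)) (XT.lf (nat_lit 0) (nat_lit 26596957213) (nat_lit 152) (nat_lit 4547711492) (nat_lit 76) (nat_lit 29707962779) (nat_lit 55) (nat_lit 5) (nat_lit 57) (nat_lit 5) (nat_lit 56) (nat_lit 4) (nat_lit 537) (nat_lit 417) (nat_lit 246))))) (XT.nd (nat_lit 312) (nat_lit 228) (nat_lit 0) (XT.nd (nat_lit 156) (nat_lit 152) (nat_lit 0) (XT.nd (nat_lit 78) (nat_lit 76) (nat_lit 0) (XT.lf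 (nat_lit 0) (nat_lit 29353345617) (nat_lit 76) (nat_lit 13949032991) (nat_lit 152) (nat_lit 18846811339) (nat_lit 54) (nat_lit 5) (nat_lit 55) (nat_lit 5) (nat_lit 56) (nat_lit 4) (nat_lit 538) (nat_lit 417) (nat_lit 245)) (XT.lf (nat_lit 0) (nat_lit 848859250) (nat_lit 76) (nat_lit 59744353724) (nat_lit 76) (nat_lit 2888904793) (nat_lit 53) (nat_lit 4) (nat_lit 54) (nat_lit 5) (nat_lit 54) (nat_lit 4) (nat_lit 539) (nat_lit 417) (nat_lit 244))) (XT.nd (nat_lit 78) (nat_lit 76) (nat_lit 0) (XT.lf (nat_lit 0) (nat_lit 13749487346) (nat_lit 152) (nat_lit 28954008885) (nat_lit 76) (nat_lit 22133647019) (nat_lit 52) (nat_lit 5) (nat_lit 54) (nat_lit 5) (nat_lit 53) (nat_lit 4) (nat_lit 540) (nat_lit 417) (nat_lit 243)) (XT.lf (nat_lit 0) (nat_lit 5808238436) (nat_lit 76) (nat_lit 25070300518) (nat_lit 152) (nat_lit 35351935400) (nat_lit 51) (nat_lit 5) (nat_lit 52) (nat_lit 5) (nat_lit 53) (nat_lit 4) (nat_lit 541)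 (nat_lit 417) (nat_lit 242)))) (XT.nd (nat_lit 156) (nat_lit 152) (nat_lit 0) (XT.nd (nat_lit 78) (nat_lit 76) (nat_lit 0) (XT.lf (nat_lit 0) (nat_lit 42194884328) (nat_lit 76) (nat_lit 6612763007) (nat_lit 152) (nat_lit 18849372603) (nat_lit 51) (nat_lit 5) (nat_lit 52) (nat_lit 5) (nat_lit 53) (nat_lit 4) (nat_lit 542) (nat_lit 417) (nat_lit 241)) (XT.lf (nat_lit 0) (nat_lit 10623106277) (nat_lit 76) (nat_lit 56866753190) (nat_lit 76) (nat_lit 1630045606) (nat_lit 50) (nat_lit 4) (nat_lit 51) (nat_lit 5) (nat_lit 51) (nat_lit 4) (nat_lit 543) (nat_lit 417) (nat_lit 240))) (XT.nd (nat_lit 78) (nat_lit 76) (nat_lit 0) (XT.lf (nat_lit 0) (nat_lit 16110651950) (nat_lit 152) (nat_lit 22540726832) (nat_lit 76) (nat_lit 31961081265) (nat_lit 49) (nat_lit 5) (nat_lit 51) (nat_lit 5) (nat_lit 50) (nat_lit 4) (nat_lit 544) (nat_lit 417) (nat_lit 239)) (XT.lf (nat_lit 0) (nat_lit 14754362248) (nat_lit 76) (nat_lit 19732388253)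 (nat_lit 152) (nat_lit 37658478819) (nat_lit 48) (nat_lit 5) (nat_lit 49) (nat_lit 5) (nat_lit 50) (nat_lit 4) (nat_lit 545) (nat_lit 417) (nat_lit 238))))))) (XT.nd (nat_lit 53274) (nat_lit 0) (nat_lit 16264) (XT.nd (nat_lit 52650) (nat_lit 0) (nat_lit 22496) (XT.nd (nat_lit 234) (nat_lit 76) (nat_lit 0) (XT.nd (nat_lit 78) (nat_lit 152) (nat_lit 0) (XT.lf (nat_lit 0) (nat_lit 53619042200) (nat_lit 76) (nat_lit 16883933) (nat_lit 152) (nat_lit 20081401800) (nat_lit 48) (nat_lit 5) (nat_lit 49) (nat_lit 5) (nat_lit 50) (nat_lit 4) (nat_lit 546) (nat_lit 417) (nat_lit 237)) (XT.nd (nat_lit 78) (nat_lit 76) (nat_lit 0) (XT.lf (nat_lit 0) (nat_lit 18467282423) (nat_lit 76) (nat_lit 55259149380) (nat_lit 76) (nat_lit 1599152144) (nat_lit 47) (nat_lit 4) (nat_lit 48) (nat_lit 5) (nat_lit 48) (nat_lit 4) (nat_lit 547) (nat_lit 417) (nat_lit 236)) (XT.lf (nat_lit 0) (nat_lit 17296724837) (nat_lit 152) (nat_lit 18555101091)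 (nat_lit 76) (nat_lit 41119250291) (nat_lit 46) (nat_lit 5) (nat_lit 48) (nat_lit 5) (nat_lit 47) (nat_lit 4) (nat_lit 548) (nat_lit 417) (nat_lit 235)))) (XT.nd (nat_lit 52260) (nat_lit 0) (nat_lit 23408) (XT.nd (nat_lit 78) (nat_lit 0) (nat_lit 0) (XT.lf (nat_lit 0) (nat_lit 21285933534) (nat_lit 76) (nat_lit 15640482317) (nat_lit 152) (nat_lit 41733070119) (nat_lit 45) (nat_lit 5) (nat_lit 46) (nat_lit 5) (nat_lit 47) (nat_lit 4) (nat_lit 549) (nat_lit 417) (nat_lit 234)) (XT.lf (nat_lit 0) (nat_lit 57378463346) (nat_lit 152) (nat_lit 17752790197) (nat_lit 0) (nat_lit 5260290572) (nat_lit 45) (nat_lit 5) (nat_lit 47) (nat_lit 4) (nat_lit 45) (nat_lit 4) (nat_lit 550) (nat_lit 417) (nat_lit 233))) (XT.nd (nat_lit 78) (nat_lit 0) (nat_lit 0) (XT.lf (nat_lit 0) (nat_lit 1453935477) (nat_lit 988) (nat_lit 1227335567) (nat_lit 988) (nat_lit 1227335567) (nat_lit 353) (nat_lit 3) (nat_lit 366) (nat_lit 3) (nat_lit 366)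 (nat_lit 5) (nat_lit 418) (nat_lit 418) (nat_lit 364)) (XT.lf (nat_lit 76) (nat_lit 1440416055) (nat_lit 0) (nat_lit 2804755203) (nat_lit 988) (nat_lit 3650277116) (nat_lit 354) (nat_lit 5) (nat_lit 353) (nat_lit 3) (nat_lit 366) (nat_lit 5) (nat_lit 419) (nat_lit 418) (nat_lit 363))))) (XT.nd (nat_lit 312) (nat_lit 0) (nat_lit 76) (XT.nd (nat_lit 156) (nat_lit 912) (nat_lit 0) (XT.nd (nat_lit 78) (nat_lit 0) (nat_lit 76) (XT.lf (nat_lit 76) (nat_lit 5476434596) (nat_lit 0) (nat_lit 120742686) (nat_lit 988) (nat_lit 2379623994) (nat_lit 354) (nat_lit 5) (nat_lit 353) (nat_lit 3) (nat_lit 366) (nat_lit 5) (nat_lit 420) (nat_lit 418) (nat_lit 362)) (XT.lf (nat_lit 76) (nat_lit 1550614080) (nat_lit 0) (nat_lit 5430933707) (nat_lit 988) (nat_lit 1079300904) (nat_lit 355) (nat_lit 5) (nat_lit 354) (nat_lit 5) (nat_lit 367) (nat_lit 5) (nat_lit 421) (nat_lit 418) (nat_lit 361))) (XT.nd (nat_lit 78) (nat_lit 0) (nat_lit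 76) (XT.lf (nat_lit 0) (nat_lit 233814966) (nat_lit 988) (nat_lit 2404088243) (nat_lit 1064) (nat_lit 5510081206) (nat_lit 341) (nat_lit 5) (nat_lit 354) (nat_lit 5) (nat_lit 355) (nat_lit 5) (nat_lit 422) (nat_lit 418) (nat_lit 360)) (XT.lf (nat_lit 0) (nat_lit 1538474651) (nat_lit 988) (nat_lit 6417970634) (nat_lit 1064) (nat_lit 281760417) (nat_lit 342) (nat_lit 5) (nat_lit 355) (nat_lit 5) (nat_lit 356) (nat_lit 5) (nat_lit 423) (nat_lit 418) (nat_lit 359)))) (XT.nd (nat_lit 156) (nat_lit 0) (nat_lit 76) (XT.nd (nat_lit 78) (nat_lit 0) (nat_lit 0) (XT.lf (nat_lit 0) (nat_lit 2887738900) (nat_lit 988) (nat_lit 2164525790) (nat_lit 1064) (nat_lit 3278712151) (nat_lit 342) (nat_lit 5) (nat_lit 355) (nat_lit 5) (nat_lit 356) (nat_lit 5) (nat_lit 424) (nat_lit 418) (nat_lit 358)) (XT.lf (nat_lit 76) (nat_lit 2232581528) (nat_lit 0) (nat_lit 2022506101) (nat_lit 1064) (nat_lit 4172122236) (nat_lit 343) (nat_lit 5)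 (nat_lit 342) (nat_lit 5) (nat_lit 356) (nat_lit 5) (nat_lit 425) (nat_lit 418) (nat_lit 357))) (XT.nd (nat_lit 78) (nat_lit 0) (nat_lit 0) (XT.lf (nat_lit 0) (nat_lit 5653397825) (nat_lit 988) (nat_lit 1759152682) (nat_lit 1064) (nat_lit 1114087888) (nat_lit 343) (nat_lit 5) (nat_lit 356) (nat_lit 5) (nat_lit 357) (nat_lit 5) (nat_lit 426) (nat_lit 418) (nat_lit 356)) (XT.lf (nat_lit 76) (nat_lit 2816478581) (nat_lit 0) (nat_lit 4282831723) (nat_lit 1064) (nat_lit 1529576438) (nat_lit 344) (nat_lit 5) (nat_lit 343) (nat_lit 5) (nat_lit 357) (nat_lit 5) (nat_lit 427) (nat_lit 418) (nat_lit 355)))))) (XT.nd (nat_lit 624) (nat_lit 4408) (nat_lit 0) (XT.nd (nat_lit 312) (nat_lit 988) (nat_lit 0) (XT.nd (nat_lit 156) (nat_lit 0) (nat_lit 0) (XT.nd (nat_lit 78) (nat_lit 988) (nat_lit 0) (XT.lf (nat_lit 76) (nat_lit 7537869174) (nat_lit 0) (nat_lit 1027991553) (nat_lit 1064) (nat_lit 169030353) (nat_lit 344) (nat_lit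 5) (nat_lit 343) (nat_lit 5) (nat_lit 357) (nat_lit 5) (nat_lit 428) (nat_lit 418) (nat_lit 354)) (XT.lf (nat_lit 0) (nat_lit 1225970255) (nat_lit 1064) (nat_lit 5279383710) (nat_lit 1140) (nat_lit 2337841638) (nat_lit 330) (nat_lit 5) (nat_lit 344) (nat_lit 5) (nat_lit 345) (nat_lit 5) (nat_lit 429) (nat_lit 418) (nat_lit 353))) (XT.nd (nat_lit 78) (nat_lit 0) (nat_lit 76) (XT.lf (nat_lit 0) (nat_lit 2643095163) (nat_lit 1064) (nat_lit 502924666) (nat_lit 1140) (nat_lit 5809174895) (nat_lit 330) (nat_lit 5) (nat_lit 344) (nat_lit 5) (nat_lit 345) (nat_lit 5) (nat_lit 430) (nat_lit 418) (nat_lit 352)) (XT.lf (nat_lit 0) (nat_lit 4111717818) (nat_lit 1064) (nat_lit 4597499373) (nat_lit 1140) (nat_lit 361072757) (nat_lit 331) (nat_lit 5) (nat_lit 345) (nat_lit 5) (nat_lit 346) (nat_lit 5) (nat_lit 431) (nat_lit 418) (nat_lit 351)))) (XT.nd (nat_lit 156) (nat_lit 1064) (nat_lit 0) (XT.nd (nat_lit 78) (nat_lit 0) (nat_lit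 0) (XT.lf (nat_lit 76) (nat_lit 366689238) (nat_lit 0) (nat_lit 5260846051) (nat_lit 1140) (nat_lit 3561214141) (nat_lit 332) (nat_lit 5) (nat_lit 331) (nat_lit 5) (nat_lit 346) (nat_lit 5) (nat_lit 432) (nat_lit 418) (nat_lit 350)) (XT.lf (nat_lit 76) (nat_lit 5545660539) (nat_lit 0) (nat_lit 1653721296) (nat_lit 1140) (nat_lit 2111069550) (nat_lit 332) (nat_lit 5) (nat_lit 331) (nat_lit 5) (nat_lit 346) (nat_lit 5) (nat_lit 433) (nat_lit 418) (nat_lit 349))) (XT.nd (nat_lit 78) (nat_lit 76) (nat_lit 0) (XT.lf (nat_lit 0) (nat_lit 1423476004) (nat_lit 1064) (nat_lit 7393652081) (nat_lit 1140) (nat_lit 618719155) (nat_lit 318) (nat_lit 5) (nat_lit 332) (nat_lit 5) (nat_lit 333) (nat_lit 5) (nat_lit 434) (nat_lit 418) (nat_lit 348)) (XT.lf (nat_lit 0) (nat_lit 920888386) (nat_lit 1140) (nat_lit 2773964900) (nat_lit 76) (nat_lit 5869279469) (nat_lit 317) (nat_lit 5) (nat_lit 332) (nat_lit 5) (nat_lit 318) (nat_lit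 5) (nat_lit 435) (nat_lit 418) (nat_lit 347))))) (XT.nd (nat_lit 312) (nat_lit 2052) (nat_lit 0) (XT.nd (nat_lit 156) (nat_lit 1216) (nat_lit 0) (XT.nd (nat_lit 78) (nat_lit 0) (nat_lit 0) (XT.lf (nat_lit 0) (nat_lit 2487720867) (nat_lit 1216) (nat_lit 7059075053) (nat_lit 76) (nat_lit 149487702) (nat_lit 302) (nat_lit 5) (nat_lit 318) (nat_lit 5) (nat_lit 303) (nat_lit 5) (nat_lit 436) (nat_lit 418) (nat_lit 346)) (XT.lf (nat_lit 0) (nat_lit 4133819689) (nat_lit 1216) (nat_lit 1629830881) (nat_lit 76) (nat_lit 4067785196) (nat_lit 302) (nat_lit 5) (nat_lit 318) (nat_lit 5) (nat_lit 303) (nat_lit 5) (nat_lit 437) (nat_lit 418) (nat_lit 345))) (XT.nd (nat_lit 78) (nat_lit 0) (nat_lit 0) (XT.lf (nat_lit 0) (nat_lit 4012439240) (nat_lit 1216) (nat_lit 1823771779) (nat_lit 1292) (nat_lit 4134228627) (nat_lit 286) (nat_lit 5) (nat_lit 302) (nat_lit 5) (nat_lit 303) (nat_lit 5) (nat_lit 438) (nat_lit 418) (nat_lit 344))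 (XT.lf (nat_lit 0) (nat_lit 7596796501) (nat_lit 1292) (nat_lit 306210134) (nat_lit 76) (nat_lit 2210397667) (nat_lit 286) (nat_lit 5) (nat_lit 303) (nat_lit 5) (nat_lit 287) (nat_lit 5) (nat_lit 439) (nat_lit 418) (nat_lit 343)))) (XT.nd (nat_lit 156) (nat_lit 608) (nat_lit 0) (XT.nd (nat_lit 78) (nat_lit 684) (nat_lit 0) (XT.lf (nat_lit 0) (nat_lit 5577924830) (nat_lit 760) (nat_lit 3873876374) (nat_lit 836) (nat_lit 807612847) (nat_lit 276) (nat_lit 5) (nat_lit 286) (nat_lit 5) (nat_lit 287) (nat_lit 5) (nat_lit 440) (nat_lit 418) (nat_lit 342)) (XT.lf (nat_lit 0) (nat_lit 922072426) (nat_lit 684) (nat_lit 9191408383) (nat_lit 76) (nat_lit 296412218) (nat_lit 267) (nat_lit 5) (nat_lit 276) (nat_lit 5) (nat_lit 268) (nat_lit 5) (nat_lit 441) (nat_lit 418) (nat_lit 341))) (XT.nd (nat_lit 78) (nat_lit 608) (nat_lit 0) (XT.lf (nat_lit 0) (nat_lit 2744361012) (nat_lit 684) (nat_lit 3247794843) (nat_lit 76) (nat_lit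 4570786130) (nat_lit 267) (nat_lit 5) (nat_lit 276) (nat_lit 5) (nat_lit 268) (nat_lit 5) (nat_lit 442) (nat_lit 418) (nat_lit 340)) (XT.lf (nat_lit 0) (nat_lit 2902680587) (nat_lit 608) (nat_lit 1718236942) (nat_lit 684) (nat_lit 6099680638) (nat_lit 259) (nat_lit 5) (nat_lit 267) (nat_lit 5) (nat_lit 268) (nat_lit 5) (nat_lit 443) (nat_lit 418) (nat_lit 339))))))))
noncomputable def xc139 : XT := (XT.nd (nat_lit 2340) (nat_lit 4636) (nat_lit 0) (XT.nd (nat_lit 1170) (nat_lit 3344) (nat_lit 0) (XT.nd (nat_lit 546) (nat_lit 2356) (nat_lit 0) (XT.nd (nat_lit 234) (nat_lit 1140) (nat_lit 0) (XT.nd (nat_lit 78) (nat_lit 1064) (nat_lit 0) (XT.lf (nat_lit 0) (nat_lit 6584944400) (nat_lit 684) (nat_lit 1632525515) (nat_lit 76) (nat_lit 2664582537) (nat_lit 259) (nat_lit 5) (nat_lit 268) (nat_lit 5) (nat_lit 260) (nat_lit 5) (nat_lit 444) (nat_lit 418) (nat_lit 338)) (XT.nd (nat_lit 78) (nat_lit 532) (nat_lit 0) (XT.lf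 (nat_lit 0) (nat_lit 4787014108) (nat_lit 532) (nat_lit 3856967375) (nat_lit 608) (nat_lit 2403289719) (nat_lit 252) (nat_lit 5) (nat_lit 259) (nat_lit 5) (nat_lit 260) (nat_lit 5) (nat_lit 445) (nat_lit 418) (nat_lit 337)) (XT.lf (nat_lit 0) (nat_lit 184669368) (nat_lit 532) (nat_lit 10578212297) (nat_lit 608) (nat_lit 454625511) (nat_lit 245) (nat_lit 5) (nat_lit 252) (nat_lit 5) (nat_lit 253) (nat_lit 5) (nat_lit 446) (nat_lit 418) (nat_lit 336)))) (XT.nd (nat_lit 156) (nat_lit 532) (nat_lit 0) (XT.nd (nat_lit 78) (nat_lit 532) (nat_lit 0) (XT.lf (nat_lit 0) (nat_lit 1598044534) (nat_lit 608) (nat_lit 4521991323) (nat_lit 76) (nat_lit 5270094663) (nat_lit 244) (nat_lit 5) (nat_lit 252) (nat_lit 5) (nat_lit 245) (nat_lit 5) (nat_lit 447) (nat_lit 418) (nat_lit 335)) (XT.lf (nat_lit 0) (nat_lit 2194766255) (nat_lit 532) (nat_lit 1504061861) (nat_lit 608) (nat_lit 7869102410) (nat_lit 237) (nat_lit 5) (nat_lit 244)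 (nat_lit 5) (nat_lit 245) (nat_lit 5) (nat_lit 448) (nat_lit 418) (nat_lit 334))) (XT.nd (nat_lit 78) (nat_lit 532) (nat_lit 0) (XT.lf (nat_lit 0) (nat_lit 5915021154) (nat_lit 608) (nat_lit 2603864751) (nat_lit 76) (nat_lit 3230610087) (nat_lit 237) (nat_lit 5) (nat_lit 245) (nat_lit 5) (nat_lit 238) (nat_lit 5) (nat_lit 449) (nat_lit 418) (nat_lit 333)) (XT.lf (nat_lit 0) (nat_lit 4412347897) (nat_lit 532) (nat_lit 3818411215) (nat_lit 608) (nat_lit 3704760482) (nat_lit 230) (nat_lit 5) (nat_lit 237) (nat_lit 5) (nat_lit 238) (nat_lit 5) (nat_lit 450) (nat_lit 418) (nat_lit 332))))) (XT.nd (nat_lit 312) (nat_lit 1368) (nat_lit 0) (XT.nd (nat_lit 156) (nat_lit 456) (nat_lit 0) (XT.nd (nat_lit 78) (nat_lit 532) (nat_lit 0) (XT.lf (nat_lit 0) (nat_lit 10628525042) (nat_lit 608) (nat_lit 471797969) (nat_lit 76) (nat_lit 1026427083) (nat_lit 230) (nat_lit 5) (nat_lit 238) (nat_lit 5) (nat_lit 231) (nat_lit 5) (nat_lit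 451) (nat_lit 418) (nat_lit 331)) (XT.lf (nat_lit 0) (nat_lit 840800172) (nat_lit 532) (nat_lit 5469349254) (nat_lit 76) (nat_lit 6010905215) (nat_lit 223) (nat_lit 5) (nat_lit 230) (nat_lit 5) (nat_lit 224) (nat_lit 5) (nat_lit 452) (nat_lit 418) (nat_lit 330))) (XT.nd (nat_lit 78) (nat_lit 0) (nat_lit 0) (XT.lf (nat_lit 0) (nat_lit 1878130806) (nat_lit 456) (nat_lit 1341668439) (nat_lit 532) (nat_lit 9300949203) (nat_lit 217) (nat_lit 5) (nat_lit 223) (nat_lit 5) (nat_lit 224) (nat_lit 5) (nat_lit 453) (nat_lit 418) (nat_lit 329)) (XT.lf (nat_lit 0) (nat_lit 5739659276) (nat_lit 532) (nat_lit 3231014704) (nat_lit 76) (nat_lit 3753676904) (nat_lit 217) (nat_lit 5) (nat_lit 224) (nat_lit 5) (nat_lit 218) (nat_lit 5) (nat_lit 454) (nat_lit 418) (nat_lit 328)))) (XT.nd (nat_lit 156) (nat_lit 912) (nat_lit 0) (XT.nd (nat_lit 78) (nat_lit 0) (nat_lit 0) (XT.lf (nat_lit 0) (nat_lit 4449737920) (nat_lit 456) (nat_lit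 3919510859) (nat_lit 532) (nat_lit 4563791073) (nat_lit 211) (nat_lit 5) (nat_lit 217) (nat_lit 5) (nat_lit 218) (nat_lit 5) (nat_lit 455) (nat_lit 418) (nat_lit 327)) (XT.lf (nat_lit 0) (nat_lit 11101423395) (nat_lit 532) (nat_lit 759606583) (nat_lit 76) (nat_lit 1286250985) (nat_lit 211) (nat_lit 5) (nat_lit 218) (nat_lit 5) (nat_lit 212) (nat_lit 5) (nat_lit 456) (nat_lit 418) (nat_lit 326))) (XT.nd (nat_lit 78) (nat_lit 380) (nat_lit 0) (XT.lf (nat_lit 0) (nat_lit 625551913) (nat_lit 532) (nat_lit 6098839318) (nat_lit 76) (nat_lit 6640743700) (nat_lit 204) (nat_lit 5) (nat_lit 211) (nat_lit 5) (nat_lit 205) (nat_lit 5) (nat_lit 457) (nat_lit 418) (nat_lit 325)) (XT.lf (nat_lit 0) (nat_lit 1950528090) (nat_lit 380) (nat_lit 1391147480) (nat_lit 456) (nat_lit 10247072713) (nat_lit 199) (nat_lit 5) (nat_lit 204) (nat_lit 5) (nat_lit 205) (nat_lit 5) (nat_lit 458) (nat_lit 418) (nat_lit 324)))))) (XT.nd (nat_lit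 546) (nat_lit 1748) (nat_lit 0) (XT.nd (nat_lit 234) (nat_lit 1140) (nat_lit 0) (XT.nd (nat_lit 78) (nat_lit 456) (nat_lit 0) (XT.lf (nat_lit 0) (nat_lit 6220405256) (nat_lit 456) (nat_lit 3517621821) (nat_lit 76) (nat_lit 4078611419) (nat_lit 199) (nat_lit 5) (nat_lit 205) (nat_lit 5) (nat_lit 200) (nat_lit 5) (nat_lit 459) (nat_lit 418) (nat_lit 323)) (XT.nd (nat_lit 78) (nat_lit 0) (nat_lit 0) (XT.lf (nat_lit 0) (nat_lit 4902511148) (nat_lit 456) (nat_lit 4323977009) (nat_lit 532) (nat_lit 4823649585) (nat_lit 193) (nat_lit 5) (nat_lit 199) (nat_lit 5) (nat_lit 200) (nat_lit 5) (nat_lit 460) (nat_lit 418) (nat_lit 322)) (XT.lf (nat_lit 0) (nat_lit 12351031266) (nat_lit 532) (nat_lit 680862684) (nat_lit 76) (nat_lit 1257901694) (nat_lit 193) (nat_lit 5) (nat_lit 200) (nat_lit 5) (nat_lit 194) (nat_lit 5) (nat_lit 461) (nat_lit 418) (nat_lit 321)))) (XT.nd (nat_lit 156) (nat_lit 304) (nat_lit 0) (XT.nd (nat_lit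 78) (nat_lit 380) (nat_lit 0) (XT.lf (nat_lit 0) (nat_lit 1115425080) (nat_lit 456) (nat_lit 6414266867) (nat_lit 76) (nat_lit 7003568166) (nat_lit 187) (nat_lit 5) (nat_lit 193) (nat_lit 5) (nat_lit 188) (nat_lit 5) (nat_lit 462) (nat_lit 418) (nat_lit 320)) (XT.lf (nat_lit 0) (nat_lit 2415230605) (nat_lit 380) (nat_lit 1818264724) (nat_lit 456) (nat_lit 10549622483) (nat_lit 182) (nat_lit 5) (nat_lit 187) (nat_lit 5) (nat_lit 188) (nat_lit 5) (nat_lit 463) (nat_lit 418) (nat_lit 319))) (XT.nd (nat_lit 78) (nat_lit 304) (nat_lit 0) (XT.lf (nat_lit 0) (nat_lit 7530896285) (nat_lit 456) (nat_lit 3463000653) (nat_lit 76) (nat_lit 4044002429) (nat_lit 182) (nat_lit 5) (nat_lit 188) (nat_lit 5) (nat_lit 183) (nat_lit 5) (nat_lit 464) (nat_lit 418) (nat_lit 318)) (XT.lf (nat_lit 0) (nat_lit 5778686131) (nat_lit 304) (nat_lit 5203933798) (nat_lit 380) (nat_lit 4316044153) (nat_lit 178) (nat_lit 5) (nat_lit 182) (nat_lit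 5) (nat_lit 183) (nat_lit 5) (nat_lit 465) (nat_lit 418) (nat_lit 317))))) (XT.nd (nat_lit 312) (nat_lit 988) (nat_lit 0) (XT.nd (nat_lit 156) (nat_lit 304) (nat_lit 0) (XT.nd (nat_lit 78) (nat_lit 456) (nat_lit 0) (XT.lf (nat_lit 0) (nat_lit 14562586162) (nat_lit 380) (nat_lit 230571011) (nat_lit 76) (nat_lit 773355521) (nat_lit 178) (nat_lit 5) (nat_lit 183) (nat_lit 5) (nat_lit 179) (nat_lit 5) (nat_lit 466) (nat_lit 418) (nat_lit 316)) (XT.lf (nat_lit 0) (nat_lit 2486726224) (nat_lit 456) (nat_lit 6417309490) (nat_lit 76) (nat_lit 6933883798) (nat_lit 172) (nat_lit 5) (nat_lit 178) (nat_lit 5) (nat_lit 173) (nat_lit 5) (nat_lit 467) (nat_lit 418) (nat_lit 315))) (XT.nd (nat_lit 78) (nat_lit 0) (nat_lit 0) (XT.lf (nat_lit 0) (nat_lit 3277958321) (nat_lit 304) (nat_lit 2800519439) (nat_lit 380) (nat_lit 10038197403) (nat_lit 168) (nat_lit 5) (nat_lit 172) (nat_lit 5) (nat_lit 173) (nat_lit 5) (nat_lit 468) (nat_lit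 418) (nat_lit 314)) (XT.lf (nat_lit 0) (nat_lit 9859829843) (nat_lit 380) (nat_lit 3065265744) (nat_lit 76) (nat_lit 3476243951) (nat_lit 168) (nat_lit 5) (nat_lit 173) (nat_lit 5) (nat_lit 169) (nat_lit 5) (nat_lit 469) (nat_lit 418) (nat_lit 313)))) (XT.nd (nat_lit 156) (nat_lit 304) (nat_lit 0) (XT.nd (nat_lit 78) (nat_lit 380) (nat_lit 0) (XT.lf (nat_lit 0) (nat_lit 7087797692) (nat_lit 304) (nat_lit 6746076804) (nat_lit 380) (nat_lit 2858293237) (nat_lit 164) (nat_lit 5) (nat_lit 168) (nat_lit 5) (nat_lit 169) (nat_lit 5) (nat_lit 470) (nat_lit 418) (nat_lit 312)) (XT.lf (nat_lit 0) (nat_lit 595554038) (nat_lit 304) (nat_lit 342078936) (nat_lit 380) (nat_lit 16053205415) (nat_lit 159) (nat_lit 5) (nat_lit 163) (nat_lit 5) (nat_lit 164) (nat_lit 5) (nat_lit 471) (nat_lit 418) (nat_lit 311))) (XT.nd (nat_lit 78) (nat_lit 304) (nat_lit 0) (XT.lf (nat_lit 0) (nat_lit 4931709062) (nat_lit 380) (nat_lit 6111023170)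 (nat_lit 76) (nat_lit 6250637631) (nat_lit 159) (nat_lit 5) (nat_lit 164) (nat_lit 5) (nat_lit 160) (nat_lit 5) (nat_lit 472) (nat_lit 418) (nat_lit 310)) (XT.lf (nat_lit 0) (nat_lit 4543305326) (nat_lit 304) (nat_lit 4533495793) (nat_lit 380) (nat_lit 8527241641) (nat_lit 155) (nat_lit 5) (nat_lit 159) (nat_lit 5) (nat_lit 160) (nat_lit 5) (nat_lit 473) (nat_lit 418) (nat_lit 309))))))) (XT.nd (nat_lit 1170) (nat_lit 2052) (nat_lit 0) (XT.nd (nat_lit 546) (nat_lit 1292) (nat_lit 0) (XT.nd (nat_lit 234) (nat_lit 608) (nat_lit 0) (XT.nd (nat_lit 78) (nat_lit 684) (nat_lit 0) (XT.lf (nat_lit 0) (nat_lit 13413729793) (nat_lit 380) (nat_lit 2325022767) (nat_lit 76) (nat_lit 2183260019) (nat_lit 155) (nat_lit 5) (nat_lit 160) (nat_lit 5) (nat_lit 156) (nat_lit 5) (nat_lit 474) (nat_lit 418) (nat_lit 308)) (XT.nd (nat_lit 78) (nat_lit 380) (nat_lit 0) (XT.lf (nat_lit 0) (nat_lit 8837125534) (nat_lit 304) (nat_lit 9158226559)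 (nat_lit 380) (nat_lit 250733042) (nat_lit 151) (nat_lit 5) (nat_lit 155) (nat_lit 5) (nat_lit 156) (nat_lit 5) (nat_lit 475) (nat_lit 418) (nat_lit 307)) (XT.lf (nat_lit 0) (nat_lit 1773992622) (nat_lit 304) (nat_lit 2305459304) (nat_lit 380) (nat_lit 14498469117) (nat_lit 146) (nat_lit 5) (nat_lit 150) (nat_lit 5) (nat_lit 151) (nat_lit 5) (nat_lit 476) (nat_lit 418) (nat_lit 306)))) (XT.nd (nat_lit 156) (nat_lit 380) (nat_lit 0) (XT.nd (nat_lit 78) (nat_lit 228) (nat_lit 0) (XT.lf (nat_lit 0) (nat_lit 8661111360) (nat_lit 380) (nat_lit 5504080150) (nat_lit 76) (nat_lit 4750648902) (nat_lit 146) (nat_lit 5) (nat_lit 151) (nat_lit 5) (nat_lit 147) (nat_lit 5) (nat_lit 477) (nat_lit 418) (nat_lit 305)) (XT.lf (nat_lit 0) (nat_lit 6210390910) (nat_lit 228) (nat_lit 7237759849) (nat_lit 304) (nat_lit 5813709778) (nat_lit 143) (nat_lit 5) (nat_lit 146) (nat_lit 5) (nat_lit 147) (nat_lit 5) (nat_lit 478) (nat_lit 418)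 (nat_lit 304))) (XT.nd (nat_lit 78) (nat_lit 380) (nat_lit 0) (XT.lf (nat_lit 0) (nat_lit 18366613801) (nat_lit 228) (nat_lit 53382421) (nat_lit 304) (nat_lit 1197030243) (nat_lit 143) (nat_lit 5) (nat_lit 146) (nat_lit 5) (nat_lit 147) (nat_lit 5) (nat_lit 479) (nat_lit 418) (nat_lit 303)) (XT.lf (nat_lit 0) (nat_lit 3652901564) (nat_lit 380) (nat_lit 8986749107) (nat_lit 76) (nat_lit 7337246070) (nat_lit 138) (nat_lit 5) (nat_lit 143) (nat_lit 5) (nat_lit 139) (nat_lit 5) (nat_lit 480) (nat_lit 418) (nat_lit 302))))) (XT.nd (nat_lit 312) (nat_lit 532) (nat_lit 0) (XT.nd (nat_lit 156) (nat_lit 532) (nat_lit 0) (XT.nd (nat_lit 78) (nat_lit 0) (nat_lit 0) (XT.lf (nat_lit 0) (nat_lit 3306120950) (nat_lit 228) (nat_lit 5349229274) (nat_lit 304) (nat_lit 11690925965) (nat_lit 135) (nat_lit 5) (nat_lit 138) (nat_lit 5) (nat_lit 139) (nat_lit 5) (nat_lit 481) (nat_lit 418) (nat_lit 301)) (XT.lf (nat_lit 0) (nat_lit 13906415032)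 (nat_lit 304) (nat_lit 4616056382) (nat_lit 76) (nat_lit 2201310257) (nat_lit 135) (nat_lit 5) (nat_lit 139) (nat_lit 5) (nat_lit 136) (nat_lit 5) (nat_lit 482) (nat_lit 418) (nat_lit 300))) (XT.nd (nat_lit 78) (nat_lit 304) (nat_lit 0) (XT.lf (nat_lit 0) (nat_lit 8267403728) (nat_lit 228) (nat_lit 11166579264) (nat_lit 304) (nat_lit 1675061094) (nat_lit 132) (nat_lit 5) (nat_lit 135) (nat_lit 5) (nat_lit 136) (nat_lit 5) (nat_lit 483) (nat_lit 418) (nat_lit 299)) (XT.lf (nat_lit 0) (nat_lit 71874497) (nat_lit 228) (nat_lit 3513326085) (nat_lit 304) (nat_lit 17918589603) (nat_lit 128) (nat_lit 5) (nat_lit 131) (nat_lit 5) (nat_lit 132) (nat_lit 5) (nat_lit 484) (nat_lit 418) (nat_lit 298)))) (XT.nd (nat_lit 156) (nat_lit 304) (nat_lit 0) (XT.nd (nat_lit 78) (nat_lit 228) (nat_lit 0) (XT.lf (nat_lit 0) (nat_lit 9129258180) (nat_lit 304) (nat_lit 8352208312) (nat_lit 76) (nat_lit 4423625807) (nat_lit 128) (nat_lit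 5) (nat_lit 132) (nat_lit 5) (nat_lit 129) (nat_lit 5) (nat_lit 485) (nat_lit 418) (nat_lit 297)) (XT.lf (nat_lit 0) (nat_lit 5164638472) (nat_lit 228) (nat_lit 9746510970) (nat_lit 304) (nat_lit 7405139479) (nat_lit 125) (nat_lit 5) (nat_lit 128) (nat_lit 5) (nat_lit 129) (nat_lit 5) (nat_lit 486) (nat_lit 418) (nat_lit 296))) (XT.nd (nat_lit 78) (nat_lit 304) (nat_lit 0) (XT.lf (nat_lit 0) (nat_lit 19237163941) (nat_lit 228) (nat_lit 1700929339) (nat_lit 304) (nat_lit 1799581065) (nat_lit 125) (nat_lit 5) (nat_lit 128) (nat_lit 5) (nat_lit 129) (nat_lit 5) (nat_lit 487) (nat_lit 418) (nat_lit 295)) (XT.lf (nat_lit 0) (nat_lit 4051678714) (nat_lit 304) (nat_lit 12522187472) (nat_lit 76) (nat_lit 6592037290) (nat_lit 121) (nat_lit 5) (nat_lit 125) (nat_lit 5) (nat_lit 122) (nat_lit 5) (nat_lit 488) (nat_lit 418) (nat_lit 294)))))) (XT.nd (nat_lit 624) (nat_lit 912) (nat_lit 0) (XT.nd (nat_lit 312) (nat_lit 684)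 (nat_lit 0) (XT.nd (nat_lit 156) (nat_lit 228) (nat_lit 0) (XT.nd (nat_lit 78) (nat_lit 0) (nat_lit 0) (XT.lf (nat_lit 0) (nat_lit 1654621213) (nat_lit 228) (nat_lit 8443721463) (nat_lit 304) (nat_lit 13506421904) (nat_lit 118) (nat_lit 5) (nat_lit 121) (nat_lit 5) (nat_lit 122) (nat_lit 5) (nat_lit 489) (nat_lit 418) (nat_lit 293)) (XT.lf (nat_lit 0) (nat_lit 16441113941) (nat_lit 304) (nat_lit 7561003153) (nat_lit 76) (nat_lit 51233893) (nat_lit 118) (nat_lit 5) (nat_lit 122) (nat_lit 5) (nat_lit 119) (nat_lit 5) (nat_lit 490) (nat_lit 418) (nat_lit 292))) (XT.nd (nat_lit 78) (nat_lit 76) (nat_lit 0) (XT.lf (nat_lit 0) (nat_lit 7298385516) (nat_lit 152) (nat_lit 15817575141) (nat_lit 228) (nat_lit 1395181234) (nat_lit 116) (nat_lit 5) (nat_lit 118) (nat_lit 5) (nat_lit 119) (nat_lit 5) (nat_lit 491) (nat_lit 418) (nat_lit 291)) (XT.lf (nat_lit 0) (nat_lit 4975834688) (nat_lit 228) (nat_lit 2291008501) (nat_lit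 76) (nat_lit 17712424253) (nat_lit 115) (nat_lit 5) (nat_lit 118) (nat_lit 5) (nat_lit 116) (nat_lit 5) (nat_lit 492) (nat_lit 418) (nat_lit 290)))) (XT.nd (nat_lit 156) (nat_lit 304) (nat_lit 0) (XT.nd (nat_lit 78) (nat_lit 152) (nat_lit 0) (XT.lf (nat_lit 0) (nat_lit 11642383018) (nat_lit 304) (nat_lit 12169160238) (nat_lit 76) (nat_lit 1645506400) (nat_lit 112) (nat_lit 5) (nat_lit 116) (nat_lit 5) (nat_lit 113) (nat_lit 5) (nat_lit 493) (nat_lit 418) (nat_lit 289)) (XT.lf (nat_lit 0) (nat_lit 3407190933) (nat_lit 152) (nat_lit 15218294075) (nat_lit 228) (nat_lit 7320184208) (nat_lit 110) (nat_lit 5) (nat_lit 112) (nat_lit 5) (nat_lit 113) (nat_lit 5) (nat_lit 494) (nat_lit 418) (nat_lit 288))) (XT.nd (nat_lit 78) (nat_lit 304) (nat_lit 0) (XT.lf (nat_lit 0) (nat_lit 19680718216) (nat_lit 152) (nat_lit 6248886063) (nat_lit 228) (nat_lit 515997937) (nat_lit 110) (nat_lit 5) (nat_lit 112) (nat_lit 5) (nat_lit 113)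 (nat_lit 5) (nat_lit 495) (nat_lit 418) (nat_lit 287)) (XT.lf (nat_lit 0) (nat_lit 6476836445) (nat_lit 304) (nat_lit 17399049821) (nat_lit 76) (nat_lit 3079438916) (nat_lit 106) (nat_lit 5) (nat_lit 110) (nat_lit 5) (nat_lit 107) (nat_lit 5) (nat_lit 496) (nat_lit 418) (nat_lit 286))))) (XT.nd (nat_lit 312) (nat_lit 532) (nat_lit 0) (XT.nd (nat_lit 156) (nat_lit 228) (nat_lit 0) (XT.nd (nat_lit 78) (nat_lit 152) (nat_lit 0) (XT.lf (nat_lit 0) (nat_lit 13788868317) (nat_lit 304) (nat_lit 1059490158) (nat_lit 76) (nat_lit 12628235121) (nat_lit 106) (nat_lit 5) (nat_lit 110) (nat_lit 5) (nat_lit 107) (nat_lit 5) (nat_lit 497) (nat_lit 418) (nat_lit 285)) (XT.lf (nat_lit 0) (nat_lit 16065017134) (nat_lit 152) (nat_lit 5398918282) (nat_lit 228) (nat_lit 6545254935) (nat_lit 104) (nat_lit 5) (nat_lit 106) (nat_lit 5) (nat_lit 107) (nat_lit 5) (nat_lit 498) (nat_lit 418) (nat_lit 284))) (XT.nd (nat_lit 78) (nat_lit 0)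 (nat_lit 0) (XT.lf (nat_lit 0) (nat_lit 888403791) (nat_lit 228) (nat_lit 23355098876) (nat_lit 76) (nat_lit 4311246330) (nat_lit 101) (nat_lit 5) (nat_lit 104) (nat_lit 5) (nat_lit 102) (nat_lit 5) (nat_lit 499) (nat_lit 418) (nat_lit 283)) (XT.lf (nat_lit 0) (nat_lit 8578114582) (nat_lit 228) (nat_lit 6148690705) (nat_lit 76) (nat_lit 14382987587) (nat_lit 101) (nat_lit 5) (nat_lit 104) (nat_lit 5) (nat_lit 102) (nat_lit 5) (nat_lit 500) (nat_lit 418) (nat_lit 282)))) (XT.nd (nat_lit 156) (nat_lit 228) (nat_lit 0) (XT.nd (nat_lit 78) (nat_lit 152) (nat_lit 0) (XT.lf (nat_lit 0) (nat_lit 11785624291) (nat_lit 152) (nat_lit 4815827594) (nat_lit 228) (nat_lit 13076948587) (nat_lit 99) (nat_lit 5) (nat_lit 101) (nat_lit 5) (nat_lit 102) (nat_lit 5) (nat_lit 501) (nat_lit 418) (nat_lit 281)) (XT.lf (nat_lit 0) (nat_lit 52054412) (nat_lit 152) (nat_lit 24918172329) (nat_lit 228) (nat_lit 5290697877) (nat_lit 97) (nat_lit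 5) (nat_lit 99) (nat_lit 5) (nat_lit 100) (nat_lit 5) (nat_lit 502) (nat_lit 418) (nat_lit 280))) (XT.nd (nat_lit 78) (nat_lit 152) (nat_lit 0) (XT.lf (nat_lit 0) (nat_lit 2895758660) (nat_lit 228) (nat_lit 12047537751) (nat_lit 76) (nat_lit 15910245262) (nat_lit 96) (nat_lit 5) (nat_lit 99) (nat_lit 5) (nat_lit 97) (nat_lit 5) (nat_lit 503) (nat_lit 418) (nat_lit 279)) (XT.lf (nat_lit 0) (nat_lit 6719565271) (nat_lit 152) (nat_lit 4556519105) (nat_lit 228) (nat_lit 20184643378) (nat_lit 94) (nat_lit 5) (nat_lit 96) (nat_lit 5) (nat_lit 97) (nat_lit 5) (nat_lit 504) (nat_lit 418) (nat_lit 278))))))))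
noncomputable def xc140 : XT := (XT.nd (nat_lit 2340) (nat_lit 988) (nat_lit 0) (XT.nd (nat_lit 1170) (nat_lit 1216) (nat_lit 0) (XT.nd (nat_lit 546) (nat_lit 760) (nat_lit 0) (XT.nd (nat_lit 234) (nat_lit 380) (nat_lit 0) (XT.nd (nat_lit 78) (nat_lit 380) (nat_lit 0) (XT.lf (nat_lit 0) (nat_lit 20079787314) (nat_lit 228) (nat_lit 5863935443) (nat_lit 76) (nat_lit 6137248031) (nat_lit 94) (nat_lit 5) (nat_lit 97) (nat_lit 5) (nat_lit 95) (nat_lit 5) (nat_lit 505) (nat_lit 418) (nat_lit 277)) (XT.nd (nat_lit 78) (nat_lit 228) (nat_lit 0) (XT.lf (nat_lit 0) (nat_lit 13786176422) (nat_lit 152) (nat_lit 15529416529) (nat_lit 228) (nat_lit 3399188799) (nat_lit 92) (nat_lit 5) (nat_lit 94) (nat_lit 5) (nat_lit 95) (nat_lit 5) (nat_lit 506) (nat_lit 418) (nat_lit 276)) (XT.lf (nat_lit 0) (nat_lit 723853691) (nat_lit 152) (nat_lit 4687587092) (nat_lit 228) (nat_lit 27952877736) (nat_lit 89) (nat_lit 5) (nat_lit 91) (nat_lit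 5) (nat_lit 92) (nat_lit 5) (nat_lit 507) (nat_lit 418) (nat_lit 275)))) (XT.nd (nat_lit 156) (nat_lit 228) (nat_lit 0) (XT.nd (nat_lit 78) (nat_lit 152) (nat_lit 0) (XT.lf (nat_lit 0) (nat_lit 14663806902) (nat_lit 228) (nat_lit 12788934892) (nat_lit 76) (nat_lit 6572218149) (nat_lit 89) (nat_lit 5) (nat_lit 92) (nat_lit 5) (nat_lit 90) (nat_lit 5) (nat_lit 508) (nat_lit 418) (nat_lit 274)) (XT.lf (nat_lit 0) (nat_lit 7745988736) (nat_lit 152) (nat_lit 16559324059) (nat_lit 228) (nat_lit 10396761092) (nat_lit 87) (nat_lit 5) (nat_lit 89) (nat_lit 5) (nat_lit 90) (nat_lit 5) (nat_lit 509) (nat_lit 418) (nat_lit 273))) (XT.nd (nat_lit 78) (nat_lit 228) (nat_lit 0) (XT.lf (nat_lit 0) (nat_lit 29142393724) (nat_lit 152) (nat_lit 5213621310) (nat_lit 228) (nat_lit 1039888011) (nat_lit 87) (nat_lit 5) (nat_lit 89) (nat_lit 5) (nat_lit 90) (nat_lit 5) (nat_lit 510) (nat_lit 418) (nat_lit 272)) (XT.lf (nat_lit 0) (nat_lit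 8632099147) (nat_lit 228) (nat_lit 20899320759) (nat_lit 76) (nat_lit 6570582701) (nat_lit 84) (nat_lit 5) (nat_lit 87) (nat_lit 5) (nat_lit 85) (nat_lit 5) (nat_lit 511) (nat_lit 418) (nat_lit 271))))) (XT.nd (nat_lit 312) (nat_lit 456) (nat_lit 0) (XT.nd (nat_lit 156) (nat_lit 152) (nat_lit 0) (XT.nd (nat_lit 78) (nat_lit 0) (nat_lit 0) (XT.lf (nat_lit 0) (nat_lit 534798199) (nat_lit 152) (nat_lit 18150103848) (nat_lit 228) (nat_lit 18140727829) (nat_lit 82) (nat_lit 5) (nat_lit 84) (nat_lit 5) (nat_lit 85) (nat_lit 5) (nat_lit 512) (nat_lit 418) (nat_lit 270)) (XT.lf (nat_lit 0) (nat_lit 23024062308) (nat_lit 152) (nat_lit 6217396349) (nat_lit 228) (nat_lit 8323442511) (nat_lit 82) (nat_lit 5) (nat_lit 84) (nat_lit 5) (nat_lit 85) (nat_lit 5) (nat_lit 513) (nat_lit 418) (nat_lit 269))) (XT.nd (nat_lit 78) (nat_lit 0) (nat_lit 0) (XT.lf (nat_lit 0) (nat_lit 1880754218) (nat_lit 152) (nat_lit 30398761869) (nat_lit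 76) (nat_lit 6042500357) (nat_lit 80) (nat_lit 5) (nat_lit 82) (nat_lit 5) (nat_lit 81) (nat_lit 5) (nat_lit 514) (nat_lit 418) (nat_lit 268)) (XT.lf (nat_lit 0) (nat_lit 12424961949) (nat_lit 152) (nat_lit 7899543606) (nat_lit 76) (nat_lit 18768832242) (nat_lit 80) (nat_lit 5) (nat_lit 82) (nat_lit 5) (nat_lit 81) (nat_lit 5) (nat_lit 515) (nat_lit 418) (nat_lit 267)))) (XT.nd (nat_lit 156) (nat_lit 304) (nat_lit 0) (XT.nd (nat_lit 78) (nat_lit 0) (nat_lit 0) (XT.lf (nat_lit 0) (nat_lit 15562779119) (nat_lit 152) (nat_lit 7863900124) (nat_lit 228) (nat_lit 16456884309) (nat_lit 78) (nat_lit 5) (nat_lit 80) (nat_lit 5) (nat_lit 81) (nat_lit 5) (nat_lit 516) (nat_lit 418) (nat_lit 266)) (XT.lf (nat_lit 0) (nat_lit 34878400755) (nat_lit 228) (nat_lit 868355190) (nat_lit 76) (nat_lit 4947141806) (nat_lit 78) (nat_lit 5) (nat_lit 81) (nat_lit 5) (nat_lit 79) (nat_lit 4) (nat_lit 517) (nat_lit 418) (nat_lit 265))) (XT.nd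 (nat_lit 78) (nat_lit 152) (nat_lit 0) (XT.lf (nat_lit 0) (nat_lit 5344789900) (nat_lit 152) (nat_lit 17915756141) (nat_lit 76) (nat_lit 18257510689) (nat_lit 76) (nat_lit 5) (nat_lit 78) (nat_lit 5) (nat_lit 77) (nat_lit 5) (nat_lit 518) (nat_lit 418) (nat_lit 264)) (XT.lf (nat_lit 0) (nat_lit 6512467983) (nat_lit 152) (nat_lit 10273859763) (nat_lit 228) (nat_lit 25576985748) (nat_lit 74) (nat_lit 5) (nat_lit 76) (nat_lit 5) (nat_lit 77) (nat_lit 5) (nat_lit 519) (nat_lit 418) (nat_lit 263)))))) (XT.nd (nat_lit 546) (nat_lit 608) (nat_lit 0) (XT.nd (nat_lit 234) (nat_lit 456) (nat_lit 0) (XT.nd (nat_lit 78) (nat_lit 152) (nat_lit 0) (XT.lf (nat_lit 0) (nat_lit 28775535816) (nat_lit 228) (nat_lit 11234492618) (nat_lit 76) (nat_lit 3217767029) (nat_lit 74) (nat_lit 5) (nat_lit 77) (nat_lit 5) (nat_lit 75) (nat_lit 4) (nat_lit 520) (nat_lit 418) (nat_lit 262)) (XT.nd (nat_lit 78) (nat_lit 76) (nat_lit 0) (XT.lf (nat_lit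 0) (nat_lit 14282603754) (nat_lit 76) (nat_lit 27072963332) (nat_lit 152) (nat_lit 2755710614) (nat_lit 73) (nat_lit 5) (nat_lit 74) (nat_lit 5) (nat_lit 75) (nat_lit 4) (nat_lit 521) (nat_lit 418) (nat_lit 261)) (XT.lf (nat_lit 0) (nat_lit 9217133418) (nat_lit 152) (nat_lit 4327535885) (nat_lit 76) (nat_lit 31470714361) (nat_lit 72) (nat_lit 5) (nat_lit 74) (nat_lit 5) (nat_lit 73) (nat_lit 5) (nat_lit 522) (nat_lit 418) (nat_lit 260)))) (XT.nd (nat_lit 156) (nat_lit 228) (nat_lit 0) (XT.nd (nat_lit 78) (nat_lit 76) (nat_lit 0) (XT.lf (nat_lit 0) (nat_lit 21706900781) (nat_lit 228) (nat_lit 23612825661) (nat_lit 76) (nat_lit 619674285) (nat_lit 70) (nat_lit 5) (nat_lit 73) (nat_lit 5) (nat_lit 71) (nat_lit 4) (nat_lit 523) (nat_lit 418) (nat_lit 259)) (XT.lf (nat_lit 0) (nat_lit 2886647006) (nat_lit 76) (nat_lit 31883095439) (nat_lit 152) (nat_lit 12115444612) (nat_lit 69) (nat_lit 5) (nat_lit 70) (nat_lit 5) (nat_lit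 71) (nat_lit 4) (nat_lit 524) (nat_lit 418) (nat_lit 258))) (XT.nd (nat_lit 78) (nat_lit 152) (nat_lit 0) (XT.lf (nat_lit 0) (nat_lit 591207131) (nat_lit 152) (nat_lit 17207267279) (nat_lit 76) (nat_lit 30053771170) (nat_lit 68) (nat_lit 5) (nat_lit 70) (nat_lit 5) (nat_lit 69) (nat_lit 5) (nat_lit 525) (nat_lit 418) (nat_lit 257)) (XT.lf (nat_lit 0) (nat_lit 10457931937) (nat_lit 152) (nat_lit 3070772824) (nat_lit 228) (nat_lit 35313217983) (nat_lit 66) (nat_lit 5) (nat_lit 68) (nat_lit 5) (nat_lit 69) (nat_lit 5) (nat_lit 526) (nat_lit 418) (nat_lit 256))))) (XT.nd (nat_lit 312) (nat_lit 304) (nat_lit 0) (XT.nd (nat_lit 156) (nat_lit 228) (nat_lit 0) (XT.nd (nat_lit 78) (nat_lit 76) (nat_lit 0) (XT.lf (nat_lit 0) (nat_lit 27138754476) (nat_lit 228) (nat_lit 10682227886) (nat_lit 76) (nat_lit 12031775221) (nat_lit 66) (nat_lit 5) (nat_lit 69) (nat_lit 5) (nat_lit 67) (nat_lit 4) (nat_lit 527) (nat_lit 418) (nat_lit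 255)) (XT.lf (nat_lit 0) (nat_lit 18161028972) (nat_lit 76) (nat_lit 23193915923) (nat_lit 152) (nat_lit 9533037563) (nat_lit 65) (nat_lit 5) (nat_lit 66) (nat_lit 5) (nat_lit 67) (nat_lit 4) (nat_lit 528) (nat_lit 418) (nat_lit 254))) (XT.nd (nat_lit 78) (nat_lit 152) (nat_lit 0) (XT.lf (nat_lit 0) (nat_lit 4066263641) (nat_lit 152) (nat_lit 3915956139) (nat_lit 76) (nat_lit 43967824226) (nat_lit 64) (nat_lit 5) (nat_lit 66) (nat_lit 5) (nat_lit 65) (nat_lit 5) (nat_lit 529) (nat_lit 418) (nat_lit 253)) (XT.lf (nat_lit 0) (nat_lit 18203750488) (nat_lit 228) (nat_lit 26948695091) (nat_lit 76) (nat_lit 7879036045) (nat_lit 62) (nat_lit 5) (nat_lit 65) (nat_lit 5) (nat_lit 63) (nat_lit 4) (nat_lit 530) (nat_lit 418) (nat_lit 252)))) (XT.nd (nat_lit 156) (nat_lit 228) (nat_lit 0) (XT.nd (nat_lit 78) (nat_lit 0) (nat_lit 0) (XT.lf (nat_lit 0) (nat_lit 2881214083) (nat_lit 76) (nat_lit 30023904967) (nat_lit 152) (nat_lit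 21236050752) (nat_lit 61) (nat_lit 5) (nat_lit 62) (nat_lit 5) (nat_lit 63) (nat_lit 4) (nat_lit 531) (nat_lit 418) (nat_lit 251)) (XT.lf (nat_lit 0) (nat_lit 34145397453) (nat_lit 76) (nat_lit 14167430182) (nat_lit 152) (nat_lit 6963362168) (nat_lit 61) (nat_lit 5) (nat_lit 62) (nat_lit 5) (nat_lit 63) (nat_lit 4) (nat_lit 532) (nat_lit 418) (nat_lit 250))) (XT.nd (nat_lit 78) (nat_lit 0) (nat_lit 0) (XT.lf (nat_lit 0) (nat_lit 7698489030) (nat_lit 228) (nat_lit 46452373597) (nat_lit 76) (nat_lit 2288807527) (nat_lit 58) (nat_lit 5) (nat_lit 61) (nat_lit 5) (nat_lit 59) (nat_lit 4) (nat_lit 533) (nat_lit 418) (nat_lit 249)) (XT.lf (nat_lit 0) (nat_lit 23009321116) (nat_lit 228) (nat_lit 15383706897) (nat_lit 76) (nat_lit 19232486247) (nat_lit 58) (nat_lit 5) (nat_lit 61) (nat_lit 5) (nat_lit 59) (nat_lit 4) (nat_lit 534) (nat_lit 418) (nat_lit 248))))))) (XT.nd (nat_lit 1170) (nat_lit 76) (nat_lit 0) (XT.nd (nat_lit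 546) (nat_lit 456) (nat_lit 0) (XT.nd (nat_lit 234) (nat_lit 228) (nat_lit 0) (XT.nd (nat_lit 78) (nat_lit 152) (nat_lit 0) (XT.lf (nat_lit 0) (nat_lit 16935043108) (nat_lit 76) (nat_lit 22000737877) (nat_lit 152) (nat_lit 19906463749) (nat_lit 57) (nat_lit 5) (nat_lit 58) (nat_lit 5) (nat_lit 59) (nat_lit 4) (nat_lit 535) (nat_lit 418) (nat_lit 247)) (XT.nd (nat_lit 78) (nat_lit 152) (nat_lit 0) (XT.lf (nat_lit 0) (nat_lit 50526388104) (nat_lit 76) (nat_lit 4962575183) (nat_lit 152) (nat_lit 4602046100) (nat_lit 57) (nat_lit 5) (nat_lit 58) (nat_lit 5) (nat_lit 59) (nat_lit 4) (nat_lit 536) (nat_lit 418) (nat_lit 246)) (XT.lf (nat_lit 0) (nat_lit 11293358467) (nat_lit 152) (nat_lit 37392428081) (nat_lit 76) (nat_lit 12677742148) (nat_lit 55) (nat_lit 5) (nat_lit 57) (nat_lit 5) (nat_lit 56) (nat_lit 4) (nat_lit 537) (nat_lit 418) (nat_lit 245)))) (XT.nd (nat_lit 156) (nat_lit 152) (nat_lit 0) (XT.nd (nat_lit 78)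 (nat_lit 76) (nat_lit 0) (XT.lf (nat_lit 0) (nat_lit 27713524674) (nat_lit 152) (nat_lit 4070120121) (nat_lit 76) (nat_lit 30885000076) (nat_lit 55) (nat_lit 5) (nat_lit 57) (nat_lit 5) (nat_lit 56) (nat_lit 4) (nat_lit 538) (nat_lit 418) (nat_lit 244)) (XT.lf (nat_lit 0) (nat_lit 30841948870) (nat_lit 76) (nat_lit 14074723015) (nat_lit 152) (nat_lit 19087531478) (nat_lit 54) (nat_lit 5) (nat_lit 55) (nat_lit 5) (nat_lit 56) (nat_lit 4) (nat_lit 539) (nat_lit 418) (nat_lit 243))) (XT.nd (nat_lit 78) (nat_lit 76) (nat_lit 0) (XT.lf (nat_lit 0) (nat_lit 1482949817) (nat_lit 76) (nat_lit 61242683135) (nat_lit 76) (nat_lit 2651504180) (nat_lit 53) (nat_lit 4) (nat_lit 54) (nat_lit 5) (nat_lit 54) (nat_lit 4) (nat_lit 540) (nat_lit 418) (nat_lit 242)) (XT.lf (nat_lit 0) (nat_lit 14470461314) (nat_lit 152) (nat_lit 29225586607) (nat_lit 76) (nat_lit 23076949798) (nat_lit 52) (nat_lit 5) (nat_lit 54) (nat_lit 5) (nat_lit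 53) (nat_lit 4) (nat_lit 541) (nat_lit 418) (nat_lit 241))))) (XT.nd (nat_lit 312) (nat_lit 228) (nat_lit 0) (XT.nd (nat_lit 156) (nat_lit 152) (nat_lit 0) (XT.nd (nat_lit 78) (nat_lit 0) (nat_lit 0) (XT.lf (nat_lit 0) (nat_lit 6573674775) (nat_lit 76) (nat_lit 25536407441) (nat_lit 152) (nat_lit 36098145759) (nat_lit 51) (nat_lit 5) (nat_lit 52) (nat_lit 5) (nat_lit 53) (nat_lit 4) (nat_lit 542) (nat_lit 418) (nat_lit 240)) (XT.lf (nat_lit 0) (nat_lit 44034700941) (nat_lit 76) (nat_lit 6533473962) (nat_lit 152) (nat_lit 19109661836) (nat_lit 51) (nat_lit 5) (nat_lit 52) (nat_lit 5) (nat_lit 53) (nat_lit 4) (nat_lit 543) (nat_lit 418) (nat_lit 239))) (XT.nd (nat_lit 78) (nat_lit 76) (nat_lit 0) (XT.lf (nat_lit 0) (nat_lit 11516306009) (nat_lit 76) (nat_lit 58294031265) (nat_lit 76) (nat_lit 1374286778) (nat_lit 50) (nat_lit 4) (nat_lit 51) (nat_lit 5) (nat_lit 51) (nat_lit 4) (nat_lit 544) (nat_lit 418) (nat_lit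 238)) (XT.lf (nat_lit 0) (nat_lit 16883986244) (nat_lit 152) (nat_lit 22653398991) (nat_lit 76) (nat_lit 33184743731) (nat_lit 49) (nat_lit 5) (nat_lit 51) (nat_lit 5) (nat_lit 50) (nat_lit 4) (nat_lit 545) (nat_lit 418) (nat_lit 237)))) (XT.nd (nat_lit 156) (nat_lit 152) (nat_lit 0) (XT.nd (nat_lit 78) (nat_lit 0) (nat_lit 0) (XT.lf (nat_lit 0) (nat_lit 15755017764) (nat_lit 76) (nat_lit 20053267030) (nat_lit 152) (nat_lit 38492689140) (nat_lit 48) (nat_lit 5) (nat_lit 49) (nat_lit 5) (nat_lit 50) (nat_lit 4) (nat_lit 546) (nat_lit 418) (nat_lit 236)) (XT.lf (nat_lit 0) (nat_lit 55525941303) (nat_lit 152) (nat_lit 20153464222) (nat_lit 0) (nat_lit 241009939) (nat_lit 48) (nat_lit 5) (nat_lit 50) (nat_lit 4) (nat_lit 48) (nat_lit 4) (nat_lit 547) (nat_lit 418) (nat_lit 235))) (XT.nd (nat_lit 78) (nat_lit 76) (nat_lit 0) (XT.lf (nat_lit 0) (nat_lit 19563535156) (nat_lit 76) (nat_lit 56652818931) (nat_lit 76) (nat_lit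 1360649436) (nat_lit 47) (nat_lit 4) (nat_lit 48) (nat_lit 5) (nat_lit 48) (nat_lit 4) (nat_lit 548) (nat_lit 418) (nat_lit 234)) (XT.lf (nat_lit 0) (nat_lit 18088332475) (nat_lit 152) (nat_lit 18579881883) (nat_lit 76) (nat_lit 42603809142) (nat_lit 46) (nat_lit 5) (nat_lit 48) (nat_lit 5) (nat_lit 47) (nat_lit 4) (nat_lit 549) (nat_lit 418) (nat_lit 233)))))) (XT.nd (nat_lit 52728) (nat_lit 0) (nat_lit 21584) (XT.nd (nat_lit 52416) (nat_lit 0) (nat_lit 22420) (XT.nd (nat_lit 52260) (nat_lit 0) (nat_lit 23408) (XT.lf (nat_lit 0) (nat_lit 22451169347) (nat_lit 76) (nat_lit 15852864538) (nat_lit 152) (nat_lit 42707138178) (nat_lit 45) (nat_lit 5) (nat_lit 46) (nat_lit 5) (nat_lit 47) (nat_lit 4) (nat_lit 550) (nat_lit 418) (nat_lit 232)) (XT.nd (nat_lit 78) (nat_lit 0) (nat_lit 0) (XT.lf (nat_lit 0) (nat_lit 2765087053) (nat_lit 988) (nat_lit 611270607) (nat_lit 988) (nat_lit 611270607) (nat_lit 353) (nat_lit 3)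 (nat_lit 366) (nat_lit 3) (nat_lit 366) (nat_lit 5) (nat_lit 419) (nat_lit 419) (nat_lit 362)) (XT.lf (nat_lit 76) (nat_lit 2776596922) (nat_lit 0) (nat_lit 4069588398) (nat_lit 988) (nat_lit 1211507931) (nat_lit 354) (nat_lit 5) (nat_lit 353) (nat_lit 3) (nat_lit 366) (nat_lit 5) (nat_lit 420) (nat_lit 419) (nat_lit 361)))) (XT.nd (nat_lit 156) (nat_lit 0) (nat_lit 76) (XT.nd (nat_lit 78) (nat_lit 0) (nat_lit 76) (XT.lf (nat_lit 0) (nat_lit 22593455) (nat_lit 988) (nat_lit 1247844855) (nat_lit 1064) (nat_lit 6873215142) (nat_lit 340) (nat_lit 5) (nat_lit 353) (nat_lit 3) (nat_lit 354) (nat_lit 5) (nat_lit 421) (nat_lit 419) (nat_lit 360)) (XT.lf (nat_lit 0) (nat_lit 1267202477) (nat_lit 988) (nat_lit 5321920640) (nat_lit 1064) (nat_lit 1642781818) (nat_lit 341) (nat_lit 5) (nat_lit 354) (nat_lit 5) (nat_lit 355) (nat_lit 5) (nat_lit 422) (nat_lit 419) (nat_lit 359))) (XT.nd (nat_lit 78) (nat_lit 0) (nat_lit 0)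 (XT.lf (nat_lit 0) (nat_lit 2529362939) (nat_lit 988) (nat_lit 1143264422) (nat_lit 1064) (nat_lit 4650777362) (nat_lit 341) (nat_lit 5) (nat_lit 354) (nat_lit 5) (nat_lit 355) (nat_lit 5) (nat_lit 423) (nat_lit 419) (nat_lit 358)) (XT.lf (nat_lit 76) (nat_lit 3197651070) (nat_lit 0) (nat_lit 618697277) (nat_lit 1064) (nat_lit 4601699303) (nat_lit 342) (nat_lit 5) (nat_lit 341) (nat_lit 5) (nat_lit 355) (nat_lit 5) (nat_lit 424) (nat_lit 419) (nat_lit 357))))) (XT.nd (nat_lit 312) (nat_lit 0) (nat_lit 0) (XT.nd (nat_lit 156) (nat_lit 988) (nat_lit 0) (XT.nd (nat_lit 78) (nat_lit 0) (nat_lit 0) (XT.lf (nat_lit 0) (nat_lit 5135314913) (nat_lit 988) (nat_lit 874063049) (nat_lit 1064) (nat_lit 2506357500) (nat_lit 342) (nat_lit 5) (nat_lit 355) (nat_lit 5) (nat_lit 356) (nat_lit 5) (nat_lit 425) (nat_lit 419) (nat_lit 356)) (XT.lf (nat_lit 76) (nat_lit 3641669268) (nat_lit 0) (nat_lit 2851975909) (nat_lit 1064) (nat_lit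 2122721440) (nat_lit 343) (nat_lit 5) (nat_lit 342) (nat_lit 5) (nat_lit 356) (nat_lit 5) (nat_lit 426) (nat_lit 419) (nat_lit 355))) (XT.nd (nat_lit 78) (nat_lit 1064) (nat_lit 0) (XT.lf (nat_lit 0) (nat_lit 7865247133) (nat_lit 988) (nat_lit 439927299) (nat_lit 1064) (nat_lit 415672978) (nat_lit 343) (nat_lit 5) (nat_lit 356) (nat_lit 5) (nat_lit 357) (nat_lit 5) (nat_lit 427) (nat_lit 419) (nat_lit 354)) (XT.lf (nat_lit 0) (nat_lit 471170716) (nat_lit 1064) (nat_lit 4572662719) (nat_lit 1140) (nat_lit 3783593305) (nat_lit 329) (nat_lit 5) (nat_lit 343) (nat_lit 5) (nat_lit 344) (nat_lit 5) (nat_lit 428) (nat_lit 419) (nat_lit 353)))) (XT.nd (nat_lit 156) (nat_lit 0) (nat_lit 76) (XT.nd (nat_lit 78) (nat_lit 0) (nat_lit 76) (XT.lf (nat_lit 76) (nat_lit 129494476) (nat_lit 0) (nat_lit 1658222572) (nat_lit 1140) (nat_lit 7150223012) (nat_lit 330) (nat_lit 5) (nat_lit 329) (nat_lit 5) (nat_lit 344) (nat_lit 5) (nat_lit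 429) (nat_lit 419) (nat_lit 352)) (XT.lf (nat_lit 0) (nat_lit 3170386749) (nat_lit 1064) (nat_lit 4029713119) (nat_lit 1140) (nat_lit 1850875753) (nat_lit 330) (nat_lit 5) (nat_lit 344) (nat_lit 5) (nat_lit 345) (nat_lit 5) (nat_lit 430) (nat_lit 419) (nat_lit 351))) (XT.nd (nat_lit 78) (nat_lit 0) (nat_lit 0) (XT.lf (nat_lit 76) (nat_lit 865925800) (nat_lit 0) (nat_lit 3716861158) (nat_lit 1140) (nat_lit 4584973262) (nat_lit 331) (nat_lit 5) (nat_lit 330) (nat_lit 5) (nat_lit 345) (nat_lit 5) (nat_lit 431) (nat_lit 419) (nat_lit 350)) (XT.lf (nat_lit 76) (nat_lit 5964368318) (nat_lit 0) (nat_lit 78198105) (nat_lit 1140) (nat_lit 3245337042) (nat_lit 331) (nat_lit 5) (nat_lit 330) (nat_lit 5) (nat_lit 345) (nat_lit 5) (nat_lit 432) (nat_lit 419) (nat_lit 349))))))))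
noncomputable def xc141 : XT := (XT.nd (nat_lit 2340) (nat_lit 5548) (nat_lit 0) (XT.nd (nat_lit 1170) (nat_lit 4256) (nat_lit 0) (XT.nd (nat_lit 546) (nat_lit 3192) (nat_lit 0) (XT.nd (nat_lit 234) (nat_lit 2356) (nat_lit 0) (XT.nd (nat_lit 78) (nat_lit 1064) (nat_lit 0) (XT.lf (nat_lit 76) (nat_lit 1776481388) (nat_lit 0) (nat_lit 5787447729) (nat_lit 1140) (nat_lit 1847193365) (nat_lit 332) (nat_lit 5) (nat_lit 331) (nat_lit 5) (nat_lit 346) (nat_lit 5) (nat_lit 433) (nat_lit 419) (nat_lit 348)) (XT.nd (nat_lit 78) (nat_lit 1064) (nat_lit 0) (XT.lf (nat_lit 76) (nat_lit 7070080329) (nat_lit 0) (nat_lit 2061368175) (nat_lit 1140) (nat_lit 406579111) (nat_lit 332) (nat_lit 5) (nat_lit 331) (nat_lit 5) (nat_lit 346) (nat_lit 5) (nat_lit 434) (nat_lit 419) (nat_lit 347)) (XT.lf (nat_lit 0) (nat_lit 1068205957) (nat_lit 1140) (nat_lit 6813307522) (nat_lit 76) (nat_lit 1786561294) (nat_lit 317) (nat_lit 5) (nat_lit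 332) (nat_lit 5) (nat_lit 318) (nat_lit 5) (nat_lit 435) (nat_lit 419) (nat_lit 346)))) (XT.nd (nat_lit 156) (nat_lit 1216) (nat_lit 0) (XT.nd (nat_lit 78) (nat_lit 1140) (nat_lit 0) (XT.lf (nat_lit 0) (nat_lit 2592253916) (nat_lit 1140) (nat_lit 1465621790) (nat_lit 76) (nat_lit 5743635730) (nat_lit 317) (nat_lit 5) (nat_lit 332) (nat_lit 5) (nat_lit 318) (nat_lit 5) (nat_lit 436) (nat_lit 419) (nat_lit 345)) (XT.lf (nat_lit 0) (nat_lit 4095798937) (nat_lit 1140) (nat_lit 74152415) (nat_lit 1216) (nat_lit 5768766466) (nat_lit 302) (nat_lit 5) (nat_lit 317) (nat_lit 5) (nat_lit 318) (nat_lit 5) (nat_lit 437) (nat_lit 419) (nat_lit 344))) (XT.nd (nat_lit 78) (nat_lit 1216) (nat_lit 0) (XT.lf (nat_lit 0) (nat_lit 5817917834) (nat_lit 1216) (nat_lit 291695496) (nat_lit 76) (nat_lit 3969743249) (nat_lit 302) (nat_lit 5) (nat_lit 318) (nat_lit 5) (nat_lit 303) (nat_lit 5) (nat_lit 438) (nat_lit 419) (nat_lit 343)) (XT.lf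 (nat_lit 0) (nat_lit 5506244393) (nat_lit 1216) (nat_lit 2032899453) (nat_lit 1292) (nat_lit 2684360242) (nat_lit 286) (nat_lit 5) (nat_lit 302) (nat_lit 5) (nat_lit 303) (nat_lit 5) (nat_lit 439) (nat_lit 419) (nat_lit 342))))) (XT.nd (nat_lit 312) (nat_lit 1748) (nat_lit 0) (XT.nd (nat_lit 156) (nat_lit 608) (nat_lit 0) (XT.nd (nat_lit 78) (nat_lit 76) (nat_lit 0) (XT.lf (nat_lit 0) (nat_lit 1085360573) (nat_lit 760) (nat_lit 8231677991) (nat_lit 836) (nat_lit 1054790584) (nat_lit 276) (nat_lit 5) (nat_lit 286) (nat_lit 5) (nat_lit 287) (nat_lit 5) (nat_lit 440) (nat_lit 419) (nat_lit 341)) (XT.lf (nat_lit 0) (nat_lit 650837226) (nat_lit 836) (nat_lit 3418504881) (nat_lit 76) (nat_lit 6453905615) (nat_lit 275) (nat_lit 5) (nat_lit 286) (nat_lit 5) (nat_lit 276) (nat_lit 5) (nat_lit 441) (nat_lit 419) (nat_lit 340))) (XT.nd (nat_lit 78) (nat_lit 0) (nat_lit 0) (XT.lf (nat_lit 0) (nat_lit 2386219825) (nat_lit 684)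 (nat_lit 8041567209) (nat_lit 76) (nat_lit 251118666) (nat_lit 267) (nat_lit 5) (nat_lit 276) (nat_lit 5) (nat_lit 268) (nat_lit 5) (nat_lit 442) (nat_lit 419) (nat_lit 339)) (XT.lf (nat_lit 0) (nat_lit 4221337693) (nat_lit 684) (nat_lit 1961167110) (nat_lit 76) (nat_lit 4655302025) (nat_lit 267) (nat_lit 5) (nat_lit 276) (nat_lit 5) (nat_lit 268) (nat_lit 5) (nat_lit 443) (nat_lit 419) (nat_lit 338)))) (XT.nd (nat_lit 156) (nat_lit 1140) (nat_lit 0) (XT.nd (nat_lit 78) (nat_lit 0) (nat_lit 0) (XT.lf (nat_lit 0) (nat_lit 4360253351) (nat_lit 608) (nat_lit 1766490812) (nat_lit 684) (nat_lit 4874277296) (nat_lit 259) (nat_lit 5) (nat_lit 267) (nat_lit 5) (nat_lit 268) (nat_lit 5) (nat_lit 444) (nat_lit 419) (nat_lit 337)) (XT.lf (nat_lit 0) (nat_lit 8109901241) (nat_lit 684) (nat_lit 310962112) (nat_lit 76) (nat_lit 2747654941) (nat_lit 259) (nat_lit 5) (nat_lit 268) (nat_lit 5) (nat_lit 260) (nat_lit 5) (nat_lit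 445) (nat_lit 419) (nat_lit 336))) (XT.nd (nat_lit 78) (nat_lit 608) (nat_lit 0) (XT.lf (nat_lit 0) (nat_lit 6287727041) (nat_lit 532) (nat_lit 3917365313) (nat_lit 608) (nat_lit 1134374820) (nat_lit 252) (nat_lit 5) (nat_lit 259) (nat_lit 5) (nat_lit 260) (nat_lit 5) (nat_lit 446) (nat_lit 419) (nat_lit 335)) (XT.lf (nat_lit 0) (nat_lit 831360883) (nat_lit 608) (nat_lit 9951370965) (nat_lit 76) (nat_lit 732562197) (nat_lit 244) (nat_lit 5) (nat_lit 252) (nat_lit 5) (nat_lit 245) (nat_lit 5) (nat_lit 447) (nat_lit 419) (nat_lit 334)))))) (XT.nd (nat_lit 546) (nat_lit 2204) (nat_lit 0) (XT.nd (nat_lit 234) (nat_lit 1520) (nat_lit 0) (XT.nd (nat_lit 78) (nat_lit 532) (nat_lit 0) (XT.lf (nat_lit 0) (nat_lit 2898886489) (nat_lit 608) (nat_lit 3290708602) (nat_lit 76) (nat_lit 5504498196) (nat_lit 244) (nat_lit 5) (nat_lit 252) (nat_lit 5) (nat_lit 245) (nat_lit 5) (nat_lit 448) (nat_lit 419) (nat_lit 333)) (XT.nd (nat_lit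 78) (nat_lit 0) (nat_lit 0) (XT.lf (nat_lit 0) (nat_lit 3614150308) (nat_lit 532) (nat_lit 1425062085) (nat_lit 608) (nat_lit 6838723825) (nat_lit 237) (nat_lit 5) (nat_lit 244) (nat_lit 5) (nat_lit 245) (nat_lit 5) (nat_lit 449) (nat_lit 419) (nat_lit 332)) (XT.lf (nat_lit 0) (nat_lit 7287241270) (nat_lit 608) (nat_lit 1333067921) (nat_lit 76) (nat_lit 3445683313) (nat_lit 237) (nat_lit 5) (nat_lit 245) (nat_lit 5) (nat_lit 238) (nat_lit 5) (nat_lit 450) (nat_lit 419) (nat_lit 331)))) (XT.nd (nat_lit 156) (nat_lit 532) (nat_lit 0) (XT.nd (nat_lit 78) (nat_lit 456) (nat_lit 0) (XT.lf (nat_lit 0) (nat_lit 5880406472) (nat_lit 532) (nat_lit 3770085235) (nat_lit 608) (nat_lit 2607768129) (nat_lit 230) (nat_lit 5) (nat_lit 237) (nat_lit 5) (nat_lit 238) (nat_lit 5) (nat_lit 451) (nat_lit 419) (nat_lit 330)) (XT.lf (nat_lit 0) (nat_lit 860398534) (nat_lit 456) (nat_lit 11235423331) (nat_lit 532) (nat_lit 360140556) (nat_lit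 224) (nat_lit 5) (nat_lit 230) (nat_lit 5) (nat_lit 231) (nat_lit 5) (nat_lit 452) (nat_lit 419) (nat_lit 329))) (XT.nd (nat_lit 78) (nat_lit 456) (nat_lit 0) (XT.lf (nat_lit 0) (nat_lit 1996856655) (nat_lit 532) (nat_lit 4294268809) (nat_lit 76) (nat_lit 6365506760) (nat_lit 223) (nat_lit 5) (nat_lit 230) (nat_lit 5) (nat_lit 224) (nat_lit 5) (nat_lit 453) (nat_lit 419) (nat_lit 328)) (XT.lf (nat_lit 0) (nat_lit 3260506624) (nat_lit 456) (nat_lit 1166528838) (nat_lit 532) (nat_lit 8435890850) (nat_lit 217) (nat_lit 5) (nat_lit 223) (nat_lit 5) (nat_lit 224) (nat_lit 5) (nat_lit 454) (nat_lit 419) (nat_lit 327))))) (XT.nd (nat_lit 312) (nat_lit 1216) (nat_lit 0) (XT.nd (nat_lit 156) (nat_lit 532) (nat_lit 0) (XT.nd (nat_lit 78) (nat_lit 456) (nat_lit 0) (XT.lf (nat_lit 0) (nat_lit 6992152643) (nat_lit 532) (nat_lit 2010075217) (nat_lit 76) (nat_lit 4071322771) (nat_lit 217) (nat_lit 5) (nat_lit 224) (nat_lit 5)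 (nat_lit 218) (nat_lit 5) (nat_lit 455) (nat_lit 419) (nat_lit 326)) (XT.lf (nat_lit 0) (nat_lit 5888179693) (nat_lit 456) (nat_lit 3793528959) (nat_lit 532) (nat_lit 3607362795) (nat_lit 211) (nat_lit 5) (nat_lit 217) (nat_lit 5) (nat_lit 218) (nat_lit 5) (nat_lit 456) (nat_lit 419) (nat_lit 325))) (XT.nd (nat_lit 78) (nat_lit 76) (nat_lit 0) (XT.lf (nat_lit 0) (nat_lit 523517948) (nat_lit 456) (nat_lit 11948722006) (nat_lit 532) (nat_lit 1038211534) (nat_lit 205) (nat_lit 5) (nat_lit 211) (nat_lit 5) (nat_lit 212) (nat_lit 5) (nat_lit 457) (nat_lit 419) (nat_lit 324)) (XT.lf (nat_lit 0) (nat_lit 1669471653) (nat_lit 532) (nat_lit 4978299738) (nat_lit 76) (nat_lit 7087454887) (nat_lit 204) (nat_lit 5) (nat_lit 211) (nat_lit 5) (nat_lit 205) (nat_lit 5) (nat_lit 458) (nat_lit 419) (nat_lit 323)))) (XT.nd (nat_lit 156) (nat_lit 836) (nat_lit 0) (XT.nd (nat_lit 78) (nat_lit 0) (nat_lit 0) (XT.lf (nat_lit 0) (nat_lit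 3299769233) (nat_lit 380) (nat_lit 1149858197) (nat_lit 456) (nat_lit 9516447297) (nat_lit 199) (nat_lit 5) (nat_lit 204) (nat_lit 5) (nat_lit 205) (nat_lit 5) (nat_lit 459) (nat_lit 419) (nat_lit 322)) (XT.lf (nat_lit 0) (nat_lit 7388009832) (nat_lit 456) (nat_lit 2343208042) (nat_lit 76) (nat_lit 4470388105) (nat_lit 199) (nat_lit 5) (nat_lit 205) (nat_lit 5) (nat_lit 200) (nat_lit 5) (nat_lit 460) (nat_lit 419) (nat_lit 321))) (XT.nd (nat_lit 78) (nat_lit 380) (nat_lit 0) (XT.lf (nat_lit 0) (nat_lit 6316980461) (nat_lit 456) (nat_lit 4150905131) (nat_lit 532) (nat_lit 3974719268) (nat_lit 193) (nat_lit 5) (nat_lit 199) (nat_lit 5) (nat_lit 200) (nat_lit 5) (nat_lit 461) (nat_lit 419) (nat_lit 320)) (XT.lf (nat_lit 0) (nat_lit 565593223) (nat_lit 380) (nat_lit 13100739210) (nat_lit 456) (nat_lit 1023717924) (nat_lit 188) (nat_lit 5) (nat_lit 193) (nat_lit 5) (nat_lit 194) (nat_lit 5) (nat_lit 462) (nat_lit 419)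 (nat_lit 319))))))) (XT.nd (nat_lit 1170) (nat_lit 2356) (nat_lit 0) (XT.nd (nat_lit 546) (nat_lit 1672) (nat_lit 0) (XT.nd (nat_lit 234) (nat_lit 1064) (nat_lit 0) (XT.nd (nat_lit 78) (nat_lit 380) (nat_lit 0) (XT.lf (nat_lit 0) (nat_lit 2082054839) (nat_lit 456) (nat_lit 5344499662) (nat_lit 76) (nat_lit 7514617870) (nat_lit 187) (nat_lit 5) (nat_lit 193) (nat_lit 5) (nat_lit 188) (nat_lit 5) (nat_lit 463) (nat_lit 419) (nat_lit 318)) (XT.nd (nat_lit 78) (nat_lit 0) (nat_lit 0) (XT.lf (nat_lit 0) (nat_lit 3737508271) (nat_lit 380) (nat_lit 1540993345) (nat_lit 456) (nat_lit 9920481789) (nat_lit 182) (nat_lit 5) (nat_lit 187) (nat_lit 5) (nat_lit 188) (nat_lit 5) (nat_lit 464) (nat_lit 419) (nat_lit 317)) (XT.lf (nat_lit 0) (nat_lit 8651183443) (nat_lit 456) (nat_lit 2329745975) (nat_lit 76) (nat_lit 4481190785) (nat_lit 182) (nat_lit 5) (nat_lit 188) (nat_lit 5) (nat_lit 183) (nat_lit 5) (nat_lit 465) (nat_lit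 419) (nat_lit 316)))) (XT.nd (nat_lit 156) (nat_lit 380) (nat_lit 0) (XT.nd (nat_lit 78) (nat_lit 380) (nat_lit 0) (XT.lf (nat_lit 0) (nat_lit 7177062543) (nat_lit 304) (nat_lit 5015122526) (nat_lit 380) (nat_lit 3538953487) (nat_lit 178) (nat_lit 5) (nat_lit 182) (nat_lit 5) (nat_lit 183) (nat_lit 5) (nat_lit 466) (nat_lit 419) (nat_lit 315)) (XT.lf (nat_lit 0) (nat_lit 993733870) (nat_lit 380) (nat_lit 14872954306) (nat_lit 456) (nat_lit 140722726) (nat_lit 173) (nat_lit 5) (nat_lit 178) (nat_lit 5) (nat_lit 179) (nat_lit 5) (nat_lit 467) (nat_lit 419) (nat_lit 314))) (XT.nd (nat_lit 78) (nat_lit 304) (nat_lit 0) (XT.lf (nat_lit 0) (nat_lit 3413989222) (nat_lit 456) (nat_lit 5392833331) (nat_lit 76) (nat_lit 7480578886) (nat_lit 172) (nat_lit 5) (nat_lit 178) (nat_lit 5) (nat_lit 173) (nat_lit 5) (nat_lit 468) (nat_lit 419) (nat_lit 313)) (XT.lf (nat_lit 0) (nat_lit 4581361187) (nat_lit 304) (nat_lit 2518881138)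 (nat_lit 380) (nat_lit 9474677172) (nat_lit 168) (nat_lit 5) (nat_lit 172) (nat_lit 5) (nat_lit 173) (nat_lit 5) (nat_lit 469) (nat_lit 419) (nat_lit 312))))) (XT.nd (nat_lit 312) (nat_lit 988) (nat_lit 0) (XT.nd (nat_lit 156) (nat_lit 380) (nat_lit 0) (XT.nd (nat_lit 78) (nat_lit 304) (nat_lit 0) (XT.lf (nat_lit 0) (nat_lit 10973998642) (nat_lit 380) (nat_lit 1966150757) (nat_lit 76) (nat_lit 3928607638) (nat_lit 168) (nat_lit 5) (nat_lit 173) (nat_lit 5) (nat_lit 169) (nat_lit 5) (nat_lit 470) (nat_lit 419) (nat_lit 311)) (XT.lf (nat_lit 0) (nat_lit 8479827397) (nat_lit 304) (nat_lit 6574938179) (nat_lit 380) (nat_lit 2113921557) (nat_lit 164) (nat_lit 5) (nat_lit 168) (nat_lit 5) (nat_lit 169) (nat_lit 5) (nat_lit 471) (nat_lit 419) (nat_lit 310))) (XT.nd (nat_lit 78) (nat_lit 0) (nat_lit 0) (XT.lf (nat_lit 0) (nat_lit 1767646490) (nat_lit 380) (nat_lit 15679378386) (nat_lit 76) (nat_lit 29416723) (nat_lit 159)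 (nat_lit 5) (nat_lit 164) (nat_lit 5) (nat_lit 160) (nat_lit 5) (nat_lit 472) (nat_lit 419) (nat_lit 309)) (XT.lf (nat_lit 0) (nat_lit 5861477273) (nat_lit 380) (nat_lit 5125055248) (nat_lit 76) (nat_lit 6802120430) (nat_lit 159) (nat_lit 5) (nat_lit 164) (nat_lit 5) (nat_lit 160) (nat_lit 5) (nat_lit 473) (nat_lit 419) (nat_lit 308)))) (XT.nd (nat_lit 156) (nat_lit 684) (nat_lit 0) (XT.nd (nat_lit 78) (nat_lit 0) (nat_lit 0) (XT.lf (nat_lit 0) (nat_lit 5837439392) (nat_lit 304) (nat_lit 4281841151) (nat_lit 380) (nat_lit 7989716589) (nat_lit 155) (nat_lit 5) (nat_lit 159) (nat_lit 5) (nat_lit 160) (nat_lit 5) (nat_lit 474) (nat_lit 419) (nat_lit 307)) (XT.lf (nat_lit 0) (nat_lit 14567502667) (nat_lit 380) (nat_lit 1251787628) (nat_lit 76) (nat_lit 2617781977) (nat_lit 155) (nat_lit 5) (nat_lit 160) (nat_lit 5) (nat_lit 156) (nat_lit 5) (nat_lit 475) (nat_lit 419) (nat_lit 306))) (XT.nd (nat_lit 78) (nat_lit 304)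 (nat_lit 0) (XT.lf (nat_lit 0) (nat_lit 494527729) (nat_lit 380) (nat_lit 8542027829) (nat_lit 76) (nat_lit 9734497889) (nat_lit 150) (nat_lit 5) (nat_lit 155) (nat_lit 5) (nat_lit 151) (nat_lit 5) (nat_lit 476) (nat_lit 419) (nat_lit 305)) (XT.lf (nat_lit 0) (nat_lit 2962688121) (nat_lit 304) (nat_lit 1976026597) (nat_lit 380) (nat_lit 14174382803) (nat_lit 146) (nat_lit 5) (nat_lit 150) (nat_lit 5) (nat_lit 151) (nat_lit 5) (nat_lit 477) (nat_lit 419) (nat_lit 304)))))) (XT.nd (nat_lit 624) (nat_lit 988) (nat_lit 0) (XT.nd (nat_lit 312) (nat_lit 760) (nat_lit 0) (XT.nd (nat_lit 156) (nat_lit 380) (nat_lit 0) (XT.nd (nat_lit 78) (nat_lit 228) (nat_lit 0) (XT.lf (nat_lit 0) (nat_lit 9640081388) (nat_lit 380) (nat_lit 4549003214) (nat_lit 76) (nat_lit 5272603742) (nat_lit 146) (nat_lit 5) (nat_lit 151) (nat_lit 5) (nat_lit 147) (nat_lit 5) (nat_lit 478) (nat_lit 419) (nat_lit 303)) (XT.lf (nat_lit 0) (nat_lit 7505919631)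 (nat_lit 228) (nat_lit 7054529081) (nat_lit 304) (nat_lit 5257950406) (nat_lit 143) (nat_lit 5) (nat_lit 146) (nat_lit 5) (nat_lit 147) (nat_lit 5) (nat_lit 479) (nat_lit 419) (nat_lit 302))) (XT.nd (nat_lit 78) (nat_lit 380) (nat_lit 0) (XT.lf (nat_lit 0) (nat_lit 19664011231) (nat_lit 304) (nat_lit 193526906) (nat_lit 76) (nat_lit 327206541) (nat_lit 143) (nat_lit 5) (nat_lit 147) (nat_lit 5) (nat_lit 144) (nat_lit 5) (nat_lit 480) (nat_lit 419) (nat_lit 301)) (XT.lf (nat_lit 0) (nat_lit 4451492620) (nat_lit 380) (nat_lit 8159446411) (nat_lit 76) (nat_lit 7944547242) (nat_lit 138) (nat_lit 5) (nat_lit 143) (nat_lit 5) (nat_lit 139) (nat_lit 5) (nat_lit 481) (nat_lit 419) (nat_lit 300)))) (XT.nd (nat_lit 156) (nat_lit 532) (nat_lit 0) (XT.nd (nat_lit 78) (nat_lit 0) (nat_lit 0) (XT.lf (nat_lit 0) (nat_lit 4491455776) (nat_lit 228) (nat_lit 5102931636) (nat_lit 304) (nat_lit 11341849889) (nat_lit 135) (nat_lit 5)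 (nat_lit 138) (nat_lit 5) (nat_lit 139) (nat_lit 5) (nat_lit 482) (nat_lit 419) (nat_lit 299)) (XT.lf (nat_lit 0) (nat_lit 14986992771) (nat_lit 304) (nat_lit 3683986418) (nat_lit 76) (nat_lit 2654569837) (nat_lit 135) (nat_lit 5) (nat_lit 139) (nat_lit 5) (nat_lit 136) (nat_lit 5) (nat_lit 483) (nat_lit 419) (nat_lit 298))) (XT.nd (nat_lit 78) (nat_lit 304) (nat_lit 0) (XT.lf (nat_lit 0) (nat_lit 9575481891) (nat_lit 228) (nat_lit 11095773884) (nat_lit 304) (nat_lit 1051388795) (nat_lit 132) (nat_lit 5) (nat_lit 135) (nat_lit 5) (nat_lit 136) (nat_lit 5) (nat_lit 484) (nat_lit 419) (nat_lit 297)) (XT.lf (nat_lit 0) (nat_lit 1136757405) (nat_lit 228) (nat_lit 3207742391) (nat_lit 304) (nat_lit 17784811042) (nat_lit 128) (nat_lit 5) (nat_lit 131) (nat_lit 5) (nat_lit 132) (nat_lit 5) (nat_lit 485) (nat_lit 419) (nat_lit 296))))) (XT.nd (nat_lit 312) (nat_lit 456) (nat_lit 0) (XT.nd (nat_lit 156) (nat_lit 304) (nat_lit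 0) (XT.nd (nat_lit 78) (nat_lit 228) (nat_lit 0) (XT.lf (nat_lit 0) (nat_lit 10039731867) (nat_lit 304) (nat_lit 7555814268) (nat_lit 76) (nat_lit 4947561483) (nat_lit 128) (nat_lit 5) (nat_lit 132) (nat_lit 5) (nat_lit 129) (nat_lit 5) (nat_lit 486) (nat_lit 419) (nat_lit 295)) (XT.lf (nat_lit 0) (nat_lit 6356273603) (nat_lit 228) (nat_lit 9630229990) (nat_lit 304) (nat_lit 6980394987) (nat_lit 125) (nat_lit 5) (nat_lit 128) (nat_lit 5) (nat_lit 129) (nat_lit 5) (nat_lit 487) (nat_lit 419) (nat_lit 294))) (XT.nd (nat_lit 78) (nat_lit 304) (nat_lit 0) (XT.lf (nat_lit 0) (nat_lit 20820779808) (nat_lit 228) (nat_lit 1355184104) (nat_lit 304) (nat_lit 1225511529) (nat_lit 125) (nat_lit 5) (nat_lit 128) (nat_lit 5) (nat_lit 129) (nat_lit 5) (nat_lit 488) (nat_lit 419) (nat_lit 293)) (XT.lf (nat_lit 0) (nat_lit 4784648660) (nat_lit 304) (nat_lit 11874643394) (nat_lit 76) (nat_lit 7183210780) (nat_lit 121) (nat_lit 5)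 (nat_lit 125) (nat_lit 5) (nat_lit 122) (nat_lit 5) (nat_lit 489) (nat_lit 419) (nat_lit 292)))) (XT.nd (nat_lit 156) (nat_lit 228) (nat_lit 0) (XT.nd (nat_lit 78) (nat_lit 0) (nat_lit 0) (XT.lf (nat_lit 0) (nat_lit 2717438084) (nat_lit 228) (nat_lit 8287205409) (nat_lit 304) (nat_lit 13290129374) (nat_lit 118) (nat_lit 5) (nat_lit 121) (nat_lit 5) (nat_lit 122) (nat_lit 5) (nat_lit 490) (nat_lit 419) (nat_lit 291)) (XT.lf (nat_lit 0) (nat_lit 17523949351) (nat_lit 304) (nat_lit 6790383374) (nat_lit 76) (nat_lit 442897593) (nat_lit 118) (nat_lit 5) (nat_lit 122) (nat_lit 5) (nat_lit 119) (nat_lit 5) (nat_lit 491) (nat_lit 419) (nat_lit 290))) (XT.nd (nat_lit 78) (nat_lit 76) (nat_lit 0) (XT.lf (nat_lit 0) (nat_lit 8505008036) (nat_lit 152) (nat_lit 15886354657) (nat_lit 228) (nat_lit 837623585) (nat_lit 116) (nat_lit 5) (nat_lit 118) (nat_lit 5) (nat_lit 119) (nat_lit 5) (nat_lit 492) (nat_lit 419) (nat_lit 289))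 (XT.lf (nat_lit 0) (nat_lit 5695708155) (nat_lit 228) (nat_lit 1389448562) (nat_lit 76) (nat_lit 18626340469) (nat_lit 115) (nat_lit 5) (nat_lit 118) (nat_lit 5) (nat_lit 116) (nat_lit 5) (nat_lit 493) (nat_lit 419) (nat_lit 288))))))))
noncomputable def xc142 : XT := (XT.nd (nat_lit 2340) (nat_lit 1900) (nat_lit 0) (XT.nd (nat_lit 1170) (nat_lit 1292) (nat_lit 0) (XT.nd (nat_lit 546) (nat_lit 912) (nat_lit 0) (XT.nd (nat_lit 234) (nat_lit 608) (nat_lit 0) (XT.nd (nat_lit 78) (nat_lit 228) (nat_lit 0) (XT.lf (nat_lit 0) (nat_lit 12558690761) (nat_lit 304) (nat_lit 11560353234) (nat_lit 76) (nat_lit 2084676618) (nat_lit 112) (nat_lit 5) (nat_lit 116) (nat_lit 5) (nat_lit 113) (nat_lit 5) (nat_lit 494) (nat_lit 419) (nat_lit 287)) (XT.nd (nat_lit 78) (nat_lit 76) (nat_lit 0) (XT.lf (nat_lit 0) (nat_lit 4473740611) (nat_lit 152) (nat_lit 15270299349) (nat_lit 228) (nat_lit 6963177034) (nat_lit 110) (nat_lit 5) (nat_lit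 112) (nat_lit 5) (nat_lit 113) (nat_lit 5) (nat_lit 495) (nat_lit 419) (nat_lit 286)) (XT.lf (nat_lit 0) (nat_lit 27787259) (nat_lit 228) (nat_lit 6015524063) (nat_lit 76) (nat_lit 21179318460) (nat_lit 109) (nat_lit 5) (nat_lit 112) (nat_lit 5) (nat_lit 110) (nat_lit 5) (nat_lit 496) (nat_lit 419) (nat_lit 285)))) (XT.nd (nat_lit 156) (nat_lit 380) (nat_lit 0) (XT.nd (nat_lit 78) (nat_lit 0) (nat_lit 0) (XT.lf (nat_lit 0) (nat_lit 7216870683) (nat_lit 304) (nat_lit 16970632643) (nat_lit 76) (nat_lit 3560083577) (nat_lit 106) (nat_lit 5) (nat_lit 110) (nat_lit 5) (nat_lit 107) (nat_lit 5) (nat_lit 497) (nat_lit 419) (nat_lit 284)) (XT.lf (nat_lit 0) (nat_lit 14732368487) (nat_lit 304) (nat_lit 168567414) (nat_lit 76) (nat_lit 13384035081) (nat_lit 106) (nat_lit 5) (nat_lit 110) (nat_lit 5) (nat_lit 107) (nat_lit 5) (nat_lit 498) (nat_lit 419) (nat_lit 283))) (XT.nd (nat_lit 78) (nat_lit 228) (nat_lit 0) (XT.lf (nat_lit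 0) (nat_lit 17460628946) (nat_lit 152) (nat_lit 5170409263) (nat_lit 228) (nat_lit 6202707652) (nat_lit 104) (nat_lit 5) (nat_lit 106) (nat_lit 5) (nat_lit 107) (nat_lit 5) (nat_lit 499) (nat_lit 419) (nat_lit 282)) (XT.lf (nat_lit 0) (nat_lit 1440632848) (nat_lit 228) (nat_lit 23128715371) (nat_lit 76) (nat_lit 4826252695) (nat_lit 101) (nat_lit 5) (nat_lit 104) (nat_lit 5) (nat_lit 102) (nat_lit 5) (nat_lit 500) (nat_lit 419) (nat_lit 281))))) (XT.nd (nat_lit 312) (nat_lit 532) (nat_lit 0) (XT.nd (nat_lit 156) (nat_lit 228) (nat_lit 0) (XT.nd (nat_lit 78) (nat_lit 152) (nat_lit 0) (XT.lf (nat_lit 0) (nat_lit 9345726896) (nat_lit 228) (nat_lit 5433116018) (nat_lit 76) (nat_lit 15188913114) (nat_lit 101) (nat_lit 5) (nat_lit 104) (nat_lit 5) (nat_lit 102) (nat_lit 5) (nat_lit 501) (nat_lit 419) (nat_lit 280)) (XT.lf (nat_lit 0) (nat_lit 13030404552) (nat_lit 152) (nat_lit 4573064437) (nat_lit 228) (nat_lit 12950142381)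 (nat_lit 99) (nat_lit 5) (nat_lit 101) (nat_lit 5) (nat_lit 102) (nat_lit 5) (nat_lit 502) (nat_lit 419) (nat_lit 279))) (XT.nd (nat_lit 78) (nat_lit 76) (nat_lit 0) (XT.lf (nat_lit 0) (nat_lit 947397007) (nat_lit 152) (nat_lit 25273436761) (nat_lit 228) (nat_lit 4932852311) (nat_lit 97) (nat_lit 5) (nat_lit 99) (nat_lit 5) (nat_lit 100) (nat_lit 5) (nat_lit 503) (nat_lit 419) (nat_lit 278)) (XT.lf (nat_lit 0) (nat_lit 3474365818) (nat_lit 228) (nat_lit 11531408847) (nat_lit 76) (nat_lit 16758601176) (nat_lit 96) (nat_lit 5) (nat_lit 99) (nat_lit 5) (nat_lit 97) (nat_lit 5) (nat_lit 504) (nat_lit 419) (nat_lit 277)))) (XT.nd (nat_lit 156) (nat_lit 380) (nat_lit 0) (XT.nd (nat_lit 78) (nat_lit 0) (nat_lit 0) (XT.lf (nat_lit 0) (nat_lit 7790103785) (nat_lit 152) (nat_lit 4310028053) (nat_lit 228) (nat_lit 20289825334) (nat_lit 94) (nat_lit 5) (nat_lit 96) (nat_lit 5) (nat_lit 97) (nat_lit 5) (nat_lit 505) (nat_lit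 419) (nat_lit 276)) (XT.lf (nat_lit 0) (nat_lit 21157373512) (nat_lit 228) (nat_lit 5185619967) (nat_lit 76) (nat_lit 6686131757) (nat_lit 94) (nat_lit 5) (nat_lit 97) (nat_lit 5) (nat_lit 95) (nat_lit 5) (nat_lit 506) (nat_lit 419) (nat_lit 275))) (XT.nd (nat_lit 78) (nat_lit 228) (nat_lit 0) (XT.lf (nat_lit 0) (nat_lit 15045620416) (nat_lit 152) (nat_lit 15618923252) (nat_lit 228) (nat_lit 3017578697) (nat_lit 92) (nat_lit 5) (nat_lit 94) (nat_lit 5) (nat_lit 95) (nat_lit 5) (nat_lit 507) (nat_lit 419) (nat_lit 274)) (XT.lf (nat_lit 0) (nat_lit 1592496896) (nat_lit 152) (nat_lit 4449767390) (nat_lit 228) (nat_lit 28308912085) (nat_lit 89) (nat_lit 5) (nat_lit 91) (nat_lit 5) (nat_lit 92) (nat_lit 5) (nat_lit 508) (nat_lit 419) (nat_lit 273)))))) (XT.nd (nat_lit 546) (nat_lit 608) (nat_lit 0) (XT.nd (nat_lit 234) (nat_lit 532) (nat_lit 0) (XT.nd (nat_lit 78) (nat_lit 152) (nat_lit 0) (XT.lf (nat_lit 0) (nat_lit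 15562088241) (nat_lit 228) (nat_lit 12340213201) (nat_lit 76) (nat_lit 7129639495) (nat_lit 89) (nat_lit 5) (nat_lit 92) (nat_lit 5) (nat_lit 90) (nat_lit 5) (nat_lit 509) (nat_lit 419) (nat_lit 272)) (XT.nd (nat_lit 78) (nat_lit 0) (nat_lit 0) (XT.lf (nat_lit 0) (nat_lit 8802597453) (nat_lit 152) (nat_lit 16684814352) (nat_lit 228) (nat_lit 10242119807) (nat_lit 87) (nat_lit 5) (nat_lit 89) (nat_lit 5) (nat_lit 90) (nat_lit 5) (nat_lit 510) (nat_lit 419) (nat_lit 271)) (XT.lf (nat_lit 0) (nat_lit 30816887919) (nat_lit 152) (nat_lit 5009554777) (nat_lit 228) (nat_lit 618129197) (nat_lit 87) (nat_lit 5) (nat_lit 89) (nat_lit 5) (nat_lit 90) (nat_lit 5) (nat_lit 511) (nat_lit 419) (nat_lit 270)))) (XT.nd (nat_lit 156) (nat_lit 152) (nat_lit 0) (XT.nd (nat_lit 78) (nat_lit 152) (nat_lit 0) (XT.lf (nat_lit 0) (nat_lit 9333426722) (nat_lit 228) (nat_lit 20715456858) (nat_lit 76) (nat_lit 7122893248) (nat_lit 84) (nat_lit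 5) (nat_lit 87) (nat_lit 5) (nat_lit 85) (nat_lit 5) (nat_lit 512) (nat_lit 419) (nat_lit 269)) (XT.lf (nat_lit 0) (nat_lit 1353736221) (nat_lit 152) (nat_lit 18328910990) (nat_lit 228) (nat_lit 18234621133) (nat_lit 82) (nat_lit 5) (nat_lit 84) (nat_lit 5) (nat_lit 85) (nat_lit 5) (nat_lit 513) (nat_lit 419) (nat_lit 268))) (XT.nd (nat_lit 78) (nat_lit 152) (nat_lit 0) (XT.lf (nat_lit 0) (nat_lit 24494292990) (nat_lit 152) (nat_lit 6048873606) (nat_lit 228) (nat_lit 8135933620) (nat_lit 82) (nat_lit 5) (nat_lit 84) (nat_lit 5) (nat_lit 85) (nat_lit 5) (nat_lit 514) (nat_lit 419) (nat_lit 267)) (XT.lf (nat_lit 0) (nat_lit 2364300743) (nat_lit 152) (nat_lit 30521100736) (nat_lit 76) (nat_lit 6573448487) (nat_lit 80) (nat_lit 5) (nat_lit 82) (nat_lit 5) (nat_lit 81) (nat_lit 5) (nat_lit 515) (nat_lit 419) (nat_lit 266))))) (XT.nd (nat_lit 312) (nat_lit 304) (nat_lit 0) (XT.nd (nat_lit 156) (nat_lit 152) (nat_lit 0)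 (XT.nd (nat_lit 78) (nat_lit 152) (nat_lit 0) (XT.lf (nat_lit 0) (nat_lit 13212394204) (nat_lit 152) (nat_lit 7369904682) (nat_lit 76) (nat_lit 19671385674) (nat_lit 80) (nat_lit 5) (nat_lit 82) (nat_lit 5) (nat_lit 81) (nat_lit 5) (nat_lit 516) (nat_lit 419) (nat_lit 265)) (XT.lf (nat_lit 0) (nat_lit 16788771791) (nat_lit 152) (nat_lit 7750610091) (nat_lit 228) (nat_lit 16528379013) (nat_lit 78) (nat_lit 5) (nat_lit 80) (nat_lit 5) (nat_lit 81) (nat_lit 5) (nat_lit 517) (nat_lit 419) (nat_lit 264))) (XT.nd (nat_lit 78) (nat_lit 152) (nat_lit 0) (XT.lf (nat_lit 0) (nat_lit 36325975160) (nat_lit 228) (nat_lit 148714516) (nat_lit 76) (nat_lit 5427976206) (nat_lit 78) (nat_lit 5) (nat_lit 81) (nat_lit 5) (nat_lit 79) (nat_lit 4) (nat_lit 518) (nat_lit 419) (nat_lit 263)) (XT.lf (nat_lit 0) (nat_lit 5905706275) (nat_lit 152) (nat_lit 17706864579) (nat_lit 76) (nat_lit 19138998964) (nat_lit 76) (nat_lit 5) (nat_lit 78)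 (nat_lit 5) (nat_lit 77) (nat_lit 5) (nat_lit 519) (nat_lit 419) (nat_lit 262)))) (XT.nd (nat_lit 156) (nat_lit 152) (nat_lit 0) (XT.nd (nat_lit 78) (nat_lit 0) (nat_lit 0) (XT.lf (nat_lit 0) (nat_lit 7446888972) (nat_lit 152) (nat_lit 10239038290) (nat_lit 228) (nat_lit 25936394245) (nat_lit 74) (nat_lit 5) (nat_lit 76) (nat_lit 5) (nat_lit 77) (nat_lit 5) (nat_lit 520) (nat_lit 419) (nat_lit 261)) (XT.lf (nat_lit 0) (nat_lit 30026478752) (nat_lit 228) (nat_lit 10845662486) (nat_lit 76) (nat_lit 3640847005) (nat_lit 74) (nat_lit 5) (nat_lit 77) (nat_lit 5) (nat_lit 75) (nat_lit 4) (nat_lit 521) (nat_lit 419) (nat_lit 260))) (XT.nd (nat_lit 78) (nat_lit 76) (nat_lit 0) (XT.lf (nat_lit 0) (nat_lit 15429830454) (nat_lit 76) (nat_lit 27549697998) (nat_lit 152) (nat_lit 2443578284) (nat_lit 73) (nat_lit 5) (nat_lit 74) (nat_lit 5) (nat_lit 75) (nat_lit 4) (nat_lit 522) (nat_lit 419) (nat_lit 259)) (XT.lf (nat_lit 0)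 (nat_lit 9869472282) (nat_lit 152) (nat_lit 3752058283) (nat_lit 76) (nat_lit 32733029999) (nat_lit 72) (nat_lit 5) (nat_lit 74) (nat_lit 5) (nat_lit 73) (nat_lit 5) (nat_lit 523) (nat_lit 419) (nat_lit 258))))))) (XT.nd (nat_lit 1170) (nat_lit 608) (nat_lit 0) (XT.nd (nat_lit 546) (nat_lit 684) (nat_lit 0) (XT.nd (nat_lit 234) (nat_lit 304) (nat_lit 0) (XT.nd (nat_lit 78) (nat_lit 152) (nat_lit 0) (XT.lf (nat_lit 0) (nat_lit 22732841026) (nat_lit 228) (nat_lit 23614805537) (nat_lit 76) (nat_lit 958684613) (nat_lit 70) (nat_lit 5) (nat_lit 73) (nat_lit 5) (nat_lit 71) (nat_lit 4) (nat_lit 524) (nat_lit 419) (nat_lit 257)) (XT.nd (nat_lit 78) (nat_lit 76) (nat_lit 0) (XT.lf (nat_lit 0) (nat_lit 3672725772) (nat_lit 76) (nat_lit 32510651432) (nat_lit 152) (nat_lit 12097239894) (nat_lit 69) (nat_lit 5) (nat_lit 70) (nat_lit 5) (nat_lit 71) (nat_lit 4) (nat_lit 525) (nat_lit 419) (nat_lit 256)) (XT.lf (nat_lit 0) (nat_lit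 972264062) (nat_lit 152) (nat_lit 17037139568) (nat_lit 76) (nat_lit 31267500932) (nat_lit 68) (nat_lit 5) (nat_lit 70) (nat_lit 5) (nat_lit 69) (nat_lit 5) (nat_lit 526) (nat_lit 419) (nat_lit 255)))) (XT.nd (nat_lit 156) (nat_lit 152) (nat_lit 0) (XT.nd (nat_lit 78) (nat_lit 0) (nat_lit 0) (XT.lf (nat_lit 0) (nat_lit 11451286745) (nat_lit 152) (nat_lit 2842550613) (nat_lit 228) (nat_lit 36002556418) (nat_lit 66) (nat_lit 5) (nat_lit 68) (nat_lit 5) (nat_lit 69) (nat_lit 5) (nat_lit 527) (nat_lit 419) (nat_lit 254)) (XT.lf (nat_lit 0) (nat_lit 28304714013) (nat_lit 228) (nat_lit 10335389727) (nat_lit 76) (nat_lit 12697674404) (nat_lit 66) (nat_lit 5) (nat_lit 69) (nat_lit 5) (nat_lit 67) (nat_lit 4) (nat_lit 528) (nat_lit 419) (nat_lit 253))) (XT.nd (nat_lit 78) (nat_lit 76) (nat_lit 0) (XT.lf (nat_lit 0) (nat_lit 19366622631) (nat_lit 76) (nat_lit 23576872657) (nat_lit 152) (nat_lit 9460681563) (nat_lit 65) (nat_lit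 5) (nat_lit 66) (nat_lit 5) (nat_lit 67) (nat_lit 4) (nat_lit 529) (nat_lit 419) (nat_lit 252)) (XT.lf (nat_lit 0) (nat_lit 4529372409) (nat_lit 152) (nat_lit 3385121018) (nat_lit 76) (nat_lit 45583810714) (nat_lit 64) (nat_lit 5) (nat_lit 66) (nat_lit 5) (nat_lit 65) (nat_lit 5) (nat_lit 530) (nat_lit 419) (nat_lit 251))))) (XT.nd (nat_lit 312) (nat_lit 228) (nat_lit 0) (XT.nd (nat_lit 156) (nat_lit 228) (nat_lit 0) (XT.nd (nat_lit 78) (nat_lit 76) (nat_lit 0) (XT.lf (nat_lit 0) (nat_lit 19090147210) (nat_lit 228) (nat_lit 27107998148) (nat_lit 76) (nat_lit 8414064848) (nat_lit 62) (nat_lit 5) (nat_lit 65) (nat_lit 5) (nat_lit 63) (nat_lit 4) (nat_lit 531) (nat_lit 419) (nat_lit 250)) (XT.lf (nat_lit 0) (nat_lit 3610444009) (nat_lit 76) (nat_lit 30618380555) (nat_lit 152) (nat_lit 21526476650) (nat_lit 61) (nat_lit 5) (nat_lit 62) (nat_lit 5) (nat_lit 63) (nat_lit 4) (nat_lit 532) (nat_lit 419) (nat_lit 249)))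 (XT.nd (nat_lit 78) (nat_lit 228) (nat_lit 0) (XT.lf (nat_lit 0) (nat_lit 35793830739) (nat_lit 76) (nat_lit 14295131183) (nat_lit 152) (nat_lit 6835704174) (nat_lit 61) (nat_lit 5) (nat_lit 62) (nat_lit 5) (nat_lit 63) (nat_lit 4) (nat_lit 533) (nat_lit 419) (nat_lit 248)) (XT.lf (nat_lit 0) (nat_lit 8258691731) (nat_lit 228) (nat_lit 47214549376) (nat_lit 76) (nat_lit 2649735190) (nat_lit 58) (nat_lit 5) (nat_lit 61) (nat_lit 5) (nat_lit 59) (nat_lit 4) (nat_lit 534) (nat_lit 419) (nat_lit 247)))) (XT.nd (nat_lit 156) (nat_lit 152) (nat_lit 0) (XT.nd (nat_lit 78) (nat_lit 76) (nat_lit 0) (XT.lf (nat_lit 0) (nat_lit 24019259031) (nat_lit 228) (nat_lit 15232212833) (nat_lit 76) (nat_lit 20093211745) (nat_lit 58) (nat_lit 5) (nat_lit 61) (nat_lit 5) (nat_lit 59) (nat_lit 4) (nat_lit 535) (nat_lit 419) (nat_lit 246)) (XT.lf (nat_lit 0) (nat_lit 18050089817) (nat_lit 76) (nat_lit 22369947256) (nat_lit 152) (nat_lit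 20177983378) (nat_lit 57) (nat_lit 5) (nat_lit 58) (nat_lit 5) (nat_lit 59) (nat_lit 4) (nat_lit 536) (nat_lit 419) (nat_lit 245))) (XT.nd (nat_lit 78) (nat_lit 152) (nat_lit 0) (XT.lf (nat_lit 0) (nat_lit 52631495685) (nat_lit 76) (nat_lit 4829109955) (nat_lit 152) (nat_lit 4423918858) (nat_lit 57) (nat_lit 5) (nat_lit 58) (nat_lit 5) (nat_lit 59) (nat_lit 4) (nat_lit 537) (nat_lit 419) (nat_lit 244)) (XT.lf (nat_lit 0) (nat_lit 11941536644) (nat_lit 152) (nat_lit 37918062366) (nat_lit 76) (nat_lit 13335548600) (nat_lit 55) (nat_lit 5) (nat_lit 57) (nat_lit 5) (nat_lit 56) (nat_lit 4) (nat_lit 538) (nat_lit 419) (nat_lit 243)))))) (XT.nd (nat_lit 624) (nat_lit 152) (nat_lit 0) (XT.nd (nat_lit 312) (nat_lit 228) (nat_lit 0) (XT.nd (nat_lit 156) (nat_lit 152) (nat_lit 0) (XT.nd (nat_lit 78) (nat_lit 76) (nat_lit 0) (XT.lf (nat_lit 0) (nat_lit 28845296844) (nat_lit 152) (nat_lit 3613448426) (nat_lit 76) (nat_lit 32080942494)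 (nat_lit 55) (nat_lit 5) (nat_lit 57) (nat_lit 5) (nat_lit 56) (nat_lit 4) (nat_lit 539) (nat_lit 419) (nat_lit 242)) (XT.lf (nat_lit 0) (nat_lit 32340308367) (nat_lit 76) (nat_lit 14220990564) (nat_lit 152) (nat_lit 19354111423) (nat_lit 54) (nat_lit 5) (nat_lit 55) (nat_lit 5) (nat_lit 56) (nat_lit 4) (nat_lit 540) (nat_lit 419) (nat_lit 241))) (XT.nd (nat_lit 78) (nat_lit 76) (nat_lit 0) (XT.lf (nat_lit 0) (nat_lit 2101125548) (nat_lit 76) (nat_lit 62802839300) (nat_lit 76) (nat_lit 2425584363) (nat_lit 53) (nat_lit 4) (nat_lit 54) (nat_lit 5) (nat_lit 54) (nat_lit 4) (nat_lit 541) (nat_lit 419) (nat_lit 240)) (XT.lf (nat_lit 0) (nat_lit 15195355950) (nat_lit 152) (nat_lit 29539584346) (nat_lit 76) (nat_lit 24032519078) (nat_lit 52) (nat_lit 5) (nat_lit 54) (nat_lit 5) (nat_lit 53) (nat_lit 4) (nat_lit 542) (nat_lit 419) (nat_lit 239)))) (XT.nd (nat_lit 156) (nat_lit 152) (nat_lit 0) (XT.nd (nat_lit 78) (nat_lit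 0) (nat_lit 0) (XT.lf (nat_lit 0) (nat_lit 7328137527) (nat_lit 76) (nat_lit 26032915261) (nat_lit 152) (nat_lit 36884787272) (nat_lit 51) (nat_lit 5) (nat_lit 52) (nat_lit 5) (nat_lit 53) (nat_lit 4) (nat_lit 543) (nat_lit 419) (nat_lit 238)) (XT.lf (nat_lit 0) (nat_lit 45896763822) (nat_lit 76) (nat_lit 6467745751) (nat_lit 152) (nat_lit 19395279012) (nat_lit 51) (nat_lit 5) (nat_lit 52) (nat_lit 5) (nat_lit 53) (nat_lit 4) (nat_lit 544) (nat_lit 419) (nat_lit 237))) (XT.nd (nat_lit 78) (nat_lit 76) (nat_lit 0) (XT.lf (nat_lit 0) (nat_lit 12403322707) (nat_lit 76) (nat_lit 59780127611) (nat_lit 76) (nat_lit 1128343927) (nat_lit 50) (nat_lit 4) (nat_lit 51) (nat_lit 5) (nat_lit 51) (nat_lit 4) (nat_lit 545) (nat_lit 419) (nat_lit 236)) (XT.lf (nat_lit 0) (nat_lit 17663872535) (nat_lit 152) (nat_lit 22801801370) (nat_lit 76) (nat_lit 34429913744) (nat_lit 49) (nat_lit 5) (nat_lit 51) (nat_lit 5) (nat_lit 50) (nat_lit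 4) (nat_lit 546) (nat_lit 419) (nat_lit 235))))) (XT.nd (nat_lit 52650) (nat_lit 0) (nat_lit 22268) (XT.nd (nat_lit 156) (nat_lit 76) (nat_lit 0) (XT.nd (nat_lit 78) (nat_lit 0) (nat_lit 0) (XT.lf (nat_lit 0) (nat_lit 16753660049) (nat_lit 76) (nat_lit 20399334011) (nat_lit 152) (nat_lit 39368891208) (nat_lit 48) (nat_lit 5) (nat_lit 49) (nat_lit 5) (nat_lit 50) (nat_lit 4) (nat_lit 547) (nat_lit 419) (nat_lit 234)) (XT.lf (nat_lit 0) (nat_lit 57456687544) (nat_lit 152) (nat_lit 20241899881) (nat_lit 0) (nat_lit 491487519) (nat_lit 48) (nat_lit 5) (nat_lit 50) (nat_lit 4) (nat_lit 48) (nat_lit 4) (nat_lit 548) (nat_lit 419) (nat_lit 233))) (XT.nd (nat_lit 52416) (nat_lit 0) (nat_lit 23256) (XT.lf (nat_lit 0) (nat_lit 20661549006) (nat_lit 76) (nat_lit 58103459272) (nat_lit 76) (nat_lit 1131436614) (nat_lit 47) (nat_lit 4) (nat_lit 48) (nat_lit 5) (nat_lit 48) (nat_lit 4) (nat_lit 549) (nat_lit 419) (nat_lit 232))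 (XT.lf (nat_lit 0) (nat_lit 4042811569) (nat_lit 988) (nat_lit 14201970) (nat_lit 988) (nat_lit 14201970) (nat_lit 353) (nat_lit 3) (nat_lit 366) (nat_lit 3) (nat_lit 366) (nat_lit 5) (nat_lit 420) (nat_lit 420) (nat_lit 360)))) (XT.nd (nat_lit 156) (nat_lit 0) (nat_lit 76) (XT.nd (nat_lit 78) (nat_lit 0) (nat_lit 0) (XT.lf (nat_lit 0) (nat_lit 1131621293) (nat_lit 988) (nat_lit 4161541672) (nat_lit 1064) (nat_lit 2935593092) (nat_lit 340) (nat_lit 5) (nat_lit 353) (nat_lit 3) (nat_lit 354) (nat_lit 5) (nat_lit 421) (nat_lit 420) (nat_lit 359)) (XT.lf (nat_lit 0) (nat_lit 2309799757) (nat_lit 988) (nat_lit 56161347) (nat_lit 1064) (nat_lit 5953042878) (nat_lit 340) (nat_lit 5) (nat_lit 353) (nat_lit 3) (nat_lit 354) (nat_lit 5) (nat_lit 422) (nat_lit 420) (nat_lit 358))) (XT.nd (nat_lit 78) (nat_lit 0) (nat_lit 0) (XT.lf (nat_lit 0) (nat_lit 3527095758) (nat_lit 988) (nat_lit 4187455475) (nat_lit 1064) (nat_lit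 697301894) (nat_lit 341) (nat_lit 5) (nat_lit 354) (nat_lit 5) (nat_lit 355) (nat_lit 5) (nat_lit 423) (nat_lit 420) (nat_lit 357)) (XT.lf (nat_lit 76) (nat_lit 80437150) (nat_lit 0) (nat_lit 4682742224) (nat_lit 1064) (nat_lit 3744847056) (nat_lit 342) (nat_lit 5) (nat_lit 341) (nat_lit 5) (nat_lit 355) (nat_lit 5) (nat_lit 424) (nat_lit 420) (nat_lit 356))))))))
noncomputable def xc143 : XT := (XT.nd (nat_lit 2340) (nat_lit 6916) (nat_lit 0) (XT.nd (nat_lit 1170) (nat_lit 4788) (nat_lit 0) (XT.nd (nat_lit 546) (nat_lit 3192) (nat_lit 0) (XT.nd (nat_lit 234) (nat_lit 988) (nat_lit 0) (XT.nd (nat_lit 78) (nat_lit 0) (nat_lit 76) (XT.lf (nat_lit 76) (nat_lit 4537692550) (nat_lit 0) (nat_lit 1499437779) (nat_lit 1064) (nat_lit 2569937608) (nat_lit 342) (nat_lit 5) (nat_lit 341) (nat_lit 5) (nat_lit 355) (nat_lit 5) (nat_lit 425) (nat_lit 420) (nat_lit 355)) (XT.nd (nat_lit 78) (nat_lit 0) (nat_lit 0) (XT.lf (nat_lit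 76) (nat_lit 384817326) (nat_lit 0) (nat_lit 6945152962) (nat_lit 1064) (nat_lit 1379696645) (nat_lit 343) (nat_lit 5) (nat_lit 342) (nat_lit 5) (nat_lit 356) (nat_lit 5) (nat_lit 426) (nat_lit 420) (nat_lit 354)) (XT.lf (nat_lit 76) (nat_lit 5015987018) (nat_lit 0) (nat_lit 3662197855) (nat_lit 1064) (nat_lit 136667516) (nat_lit 343) (nat_lit 5) (nat_lit 342) (nat_lit 5) (nat_lit 356) (nat_lit 5) (nat_lit 427) (nat_lit 420) (nat_lit 353)))) (XT.nd (nat_lit 156) (nat_lit 0) (nat_lit 76) (XT.nd (nat_lit 78) (nat_lit 0) (nat_lit 76) (XT.lf (nat_lit 76) (nat_lit 843391939) (nat_lit 0) (nat_lit 247606438) (nat_lit 1140) (nat_lit 7832781166) (nat_lit 329) (nat_lit 5) (nat_lit 328) (nat_lit 5) (nat_lit 343) (nat_lit 5) (nat_lit 428) (nat_lit 420) (nat_lit 352)) (XT.lf (nat_lit 0) (nat_lit 2385476896) (nat_lit 1064) (nat_lit 3391176028) (nat_lit 1140) (nat_lit 3258304758) (nat_lit 329) (nat_lit 5) (nat_lit 343) (nat_lit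 5) (nat_lit 344) (nat_lit 5) (nat_lit 429) (nat_lit 420) (nat_lit 351))) (XT.nd (nat_lit 78) (nat_lit 0) (nat_lit 76) (XT.lf (nat_lit 76) (nat_lit 1439117779) (nat_lit 0) (nat_lit 2259608608) (nat_lit 1140) (nat_lit 5451352163) (nat_lit 330) (nat_lit 5) (nat_lit 329) (nat_lit 5) (nat_lit 344) (nat_lit 5) (nat_lit 430) (nat_lit 420) (nat_lit 350)) (XT.lf (nat_lit 0) (nat_lit 5063629548) (nat_lit 1064) (nat_lit 2823380362) (nat_lit 1140) (nat_lit 1381280775) (nat_lit 330) (nat_lit 5) (nat_lit 344) (nat_lit 5) (nat_lit 345) (nat_lit 5) (nat_lit 431) (nat_lit 420) (nat_lit 349))))) (XT.nd (nat_lit 312) (nat_lit 2280) (nat_lit 0) (XT.nd (nat_lit 156) (nat_lit 1064) (nat_lit 0) (XT.nd (nat_lit 78) (nat_lit 0) (nat_lit 0) (XT.lf (nat_lit 76) (nat_lit 2206115724) (nat_lit 0) (nat_lit 4272546298) (nat_lit 1140) (nat_lit 2911116865) (nat_lit 331) (nat_lit 5) (nat_lit 330) (nat_lit 5) (nat_lit 345) (nat_lit 5) (nat_lit 432)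 (nat_lit 420) (nat_lit 348)) (XT.lf (nat_lit 76) (nat_lit 7419233493) (nat_lit 0) (nat_lit 511786092) (nat_lit 1140) (nat_lit 1584050945) (nat_lit 331) (nat_lit 5) (nat_lit 330) (nat_lit 5) (nat_lit 345) (nat_lit 5) (nat_lit 433) (nat_lit 420) (nat_lit 347))) (XT.nd (nat_lit 78) (nat_lit 1140) (nat_lit 0) (XT.lf (nat_lit 76) (nat_lit 3148270951) (nat_lit 0) (nat_lit 6308678190) (nat_lit 1140) (nat_lit 186276617) (nat_lit 332) (nat_lit 5) (nat_lit 331) (nat_lit 5) (nat_lit 346) (nat_lit 5) (nat_lit 434) (nat_lit 420) (nat_lit 346)) (XT.lf (nat_lit 0) (nat_lit 1223221292) (nat_lit 1140) (nat_lit 1225118343) (nat_lit 1216) (nat_lit 7326701660) (nat_lit 316) (nat_lit 5) (nat_lit 331) (nat_lit 5) (nat_lit 332) (nat_lit 5) (nat_lit 435) (nat_lit 420) (nat_lit 345)))) (XT.nd (nat_lit 156) (nat_lit 2356) (nat_lit 0) (XT.nd (nat_lit 78) (nat_lit 0) (nat_lit 0) (XT.lf (nat_lit 0) (nat_lit 2696115125) (nat_lit 1140) (nat_lit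 5666675624) (nat_lit 76) (nat_lit 1547224032) (nat_lit 317) (nat_lit 5) (nat_lit 332) (nat_lit 5) (nat_lit 318) (nat_lit 5) (nat_lit 436) (nat_lit 420) (nat_lit 344)) (XT.lf (nat_lit 0) (nat_lit 4219403077) (nat_lit 1140) (nat_lit 197909741) (nat_lit 76) (nat_lit 5631542762) (nat_lit 317) (nat_lit 5) (nat_lit 332) (nat_lit 5) (nat_lit 318) (nat_lit 5) (nat_lit 437) (nat_lit 420) (nat_lit 343))) (XT.nd (nat_lit 78) (nat_lit 1216) (nat_lit 0) (XT.lf (nat_lit 0) (nat_lit 5517493993) (nat_lit 1140) (nat_lit 294294887) (nat_lit 1216) (nat_lit 4379374950) (nat_lit 302) (nat_lit 5) (nat_lit 317) (nat_lit 5) (nat_lit 318) (nat_lit 5) (nat_lit 438) (nat_lit 420) (nat_lit 342)) (XT.lf (nat_lit 0) (nat_lit 1027003269) (nat_lit 1216) (nat_lit 6445852659) (nat_lit 1292) (nat_lit 2864262192) (nat_lit 286) (nat_lit 5) (nat_lit 302) (nat_lit 5) (nat_lit 303) (nat_lit 5) (nat_lit 439) (nat_lit 420) (nat_lit 341)))))) (XT.nd (nat_lit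 546) (nat_lit 2204) (nat_lit 0) (XT.nd (nat_lit 234) (nat_lit 1748) (nat_lit 0) (XT.nd (nat_lit 78) (nat_lit 836) (nat_lit 0) (XT.lf (nat_lit 0) (nat_lit 6966023086) (nat_lit 1216) (nat_lit 2239436933) (nat_lit 1292) (nat_lit 1281343832) (nat_lit 286) (nat_lit 5) (nat_lit 302) (nat_lit 5) (nat_lit 303) (nat_lit 5) (nat_lit 440) (nat_lit 420) (nat_lit 340)) (XT.nd (nat_lit 78) (nat_lit 0) (nat_lit 0) (XT.lf (nat_lit 0) (nat_lit 358500157) (nat_lit 836) (nat_lit 8199829987) (nat_lit 76) (nat_lit 2082065594) (nat_lit 275) (nat_lit 5) (nat_lit 286) (nat_lit 5) (nat_lit 276) (nat_lit 5) (nat_lit 441) (nat_lit 420) (nat_lit 339)) (XT.lf (nat_lit 0) (nat_lit 2052628569) (nat_lit 836) (nat_lit 2205730732) (nat_lit 76) (nat_lit 6538933826) (nat_lit 275) (nat_lit 5) (nat_lit 286) (nat_lit 5) (nat_lit 276) (nat_lit 5) (nat_lit 442) (nat_lit 420) (nat_lit 338)))) (XT.nd (nat_lit 156) (nat_lit 1140) (nat_lit 0) (XT.nd (nat_lit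 78) (nat_lit 0) (nat_lit 0) (XT.lf (nat_lit 0) (nat_lit 3811831517) (nat_lit 684) (nat_lit 6939065120) (nat_lit 76) (nat_lit 207576800) (nat_lit 267) (nat_lit 5) (nat_lit 276) (nat_lit 5) (nat_lit 268) (nat_lit 5) (nat_lit 443) (nat_lit 420) (nat_lit 337)) (XT.lf (nat_lit 0) (nat_lit 5662565297) (nat_lit 684) (nat_lit 715391342) (nat_lit 76) (nat_lit 4745373295) (nat_lit 267) (nat_lit 5) (nat_lit 276) (nat_lit 5) (nat_lit 268) (nat_lit 5) (nat_lit 444) (nat_lit 420) (nat_lit 336))) (XT.nd (nat_lit 78) (nat_lit 532) (nat_lit 0) (XT.lf (nat_lit 0) (nat_lit 5782881431) (nat_lit 608) (nat_lit 1816381343) (nat_lit 684) (nat_lit 3692959417) (nat_lit 259) (nat_lit 5) (nat_lit 267) (nat_lit 5) (nat_lit 268) (nat_lit 5) (nat_lit 445) (nat_lit 420) (nat_lit 335)) (XT.lf (nat_lit 0) (nat_lit 990909857) (nat_lit 532) (nat_lit 8623023484) (nat_lit 608) (nat_lit 1851654934) (nat_lit 252) (nat_lit 5) (nat_lit 259) (nat_lit 5)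 (nat_lit 260) (nat_lit 5) (nat_lit 446) (nat_lit 420) (nat_lit 334))))) (XT.nd (nat_lit 312) (nat_lit 1064) (nat_lit 0) (XT.nd (nat_lit 156) (nat_lit 532) (nat_lit 0) (XT.nd (nat_lit 78) (nat_lit 532) (nat_lit 0) (XT.lf (nat_lit 0) (nat_lit 93761815) (nat_lit 608) (nat_lit 3888041644) (nat_lit 76) (nat_lit 7660849500) (nat_lit 251) (nat_lit 5) (nat_lit 259) (nat_lit 5) (nat_lit 252) (nat_lit 5) (nat_lit 447) (nat_lit 420) (nat_lit 333)) (XT.lf (nat_lit 0) (nat_lit 2072710077) (nat_lit 608) (nat_lit 8922783491) (nat_lit 76) (nat_lit 828617406) (nat_lit 244) (nat_lit 5) (nat_lit 252) (nat_lit 5) (nat_lit 245) (nat_lit 5) (nat_lit 448) (nat_lit 420) (nat_lit 332))) (XT.nd (nat_lit 78) (nat_lit 532) (nat_lit 0) (XT.lf (nat_lit 0) (nat_lit 4166832081) (nat_lit 608) (nat_lit 2100955488) (nat_lit 76) (nat_lit 5741553863) (nat_lit 244) (nat_lit 5) (nat_lit 252) (nat_lit 5) (nat_lit 245) (nat_lit 5) (nat_lit 449) (nat_lit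 420) (nat_lit 331)) (XT.lf (nat_lit 0) (nat_lit 4998417087) (nat_lit 532) (nat_lit 1350817405) (nat_lit 608) (nat_lit 5850133389) (nat_lit 237) (nat_lit 5) (nat_lit 244) (nat_lit 5) (nat_lit 245) (nat_lit 5) (nat_lit 450) (nat_lit 420) (nat_lit 330)))) (XT.nd (nat_lit 156) (nat_lit 532) (nat_lit 0) (XT.nd (nat_lit 78) (nat_lit 532) (nat_lit 0) (XT.lf (nat_lit 0) (nat_lit 8632043333) (nat_lit 608) (nat_lit 101580297) (nat_lit 76) (nat_lit 3660426161) (nat_lit 237) (nat_lit 5) (nat_lit 245) (nat_lit 5) (nat_lit 238) (nat_lit 5) (nat_lit 451) (nat_lit 420) (nat_lit 329)) (XT.lf (nat_lit 0) (nat_lit 7315832840) (nat_lit 532) (nat_lit 3729659358) (nat_lit 608) (nat_lit 1547217907) (nat_lit 230) (nat_lit 5) (nat_lit 237) (nat_lit 5) (nat_lit 238) (nat_lit 5) (nat_lit 452) (nat_lit 420) (nat_lit 328))) (XT.nd (nat_lit 78) (nat_lit 0) (nat_lit 0) (XT.lf (nat_lit 0) (nat_lit 734189305) (nat_lit 532) (nat_lit 10639708821)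 (nat_lit 76) (nat_lit 1422787950) (nat_lit 223) (nat_lit 5) (nat_lit 230) (nat_lit 5) (nat_lit 224) (nat_lit 5) (nat_lit 453) (nat_lit 420) (nat_lit 327)) (XT.lf (nat_lit 0) (nat_lit 3122680422) (nat_lit 532) (nat_lit 3160809266) (nat_lit 76) (nat_lit 6720742288) (nat_lit 223) (nat_lit 5) (nat_lit 230) (nat_lit 5) (nat_lit 224) (nat_lit 5) (nat_lit 454) (nat_lit 420) (nat_lit 326))))))) (XT.nd (nat_lit 1170) (nat_lit 3040) (nat_lit 0) (XT.nd (nat_lit 546) (nat_lit 2052) (nat_lit 0) (XT.nd (nat_lit 234) (nat_lit 912) (nat_lit 0) (XT.nd (nat_lit 78) (nat_lit 456) (nat_lit 0) (XT.lf (nat_lit 0) (nat_lit 4608234061) (nat_lit 456) (nat_lit 998499296) (nat_lit 532) (nat_lit 7610556011) (nat_lit 217) (nat_lit 5) (nat_lit 223) (nat_lit 5) (nat_lit 224) (nat_lit 5) (nat_lit 455) (nat_lit 420) (nat_lit 325)) (XT.nd (nat_lit 78) (nat_lit 456) (nat_lit 0) (XT.lf (nat_lit 0) (nat_lit 8220206966) (nat_lit 532) (nat_lit 828158670)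 (nat_lit 76) (nat_lit 4386728134) (nat_lit 217) (nat_lit 5) (nat_lit 224) (nat_lit 5) (nat_lit 218) (nat_lit 5) (nat_lit 456) (nat_lit 420) (nat_lit 324)) (XT.lf (nat_lit 0) (nat_lit 7294865271) (nat_lit 456) (nat_lit 3677749358) (nat_lit 532) (nat_lit 2685003972) (nat_lit 211) (nat_lit 5) (nat_lit 217) (nat_lit 5) (nat_lit 218) (nat_lit 5) (nat_lit 457) (nat_lit 420) (nat_lit 323)))) (XT.nd (nat_lit 156) (nat_lit 380) (nat_lit 0) (XT.nd (nat_lit 78) (nat_lit 76) (nat_lit 0) (XT.lf (nat_lit 0) (nat_lit 1784848822) (nat_lit 456) (nat_lit 12046989940) (nat_lit 532) (nat_lit 54255219) (nat_lit 205) (nat_lit 5) (nat_lit 211) (nat_lit 5) (nat_lit 212) (nat_lit 5) (nat_lit 458) (nat_lit 420) (nat_lit 322)) (XT.lf (nat_lit 0) (nat_lit 2685861000) (nat_lit 532) (nat_lit 3898970477) (nat_lit 76) (nat_lit 7533360536) (nat_lit 204) (nat_lit 5) (nat_lit 211) (nat_lit 5) (nat_lit 205) (nat_lit 5) (nat_lit 459) (nat_lit 420)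 (nat_lit 321))) (XT.nd (nat_lit 78) (nat_lit 0) (nat_lit 0) (XT.lf (nat_lit 0) (nat_lit 4615394698) (nat_lit 380) (nat_lit 917576955) (nat_lit 456) (nat_lit 8823490724) (nat_lit 199) (nat_lit 5) (nat_lit 204) (nat_lit 5) (nat_lit 205) (nat_lit 5) (nat_lit 460) (nat_lit 420) (nat_lit 320)) (XT.lf (nat_lit 0) (nat_lit 8534329567) (nat_lit 456) (nat_lit 1207035781) (nat_lit 76) (nat_lit 4858452378) (nat_lit 199) (nat_lit 5) (nat_lit 205) (nat_lit 5) (nat_lit 200) (nat_lit 5) (nat_lit 461) (nat_lit 420) (nat_lit 319))))) (XT.nd (nat_lit 312) (nat_lit 760) (nat_lit 0) (XT.nd (nat_lit 156) (nat_lit 456) (nat_lit 0) (XT.nd (nat_lit 78) (nat_lit 380) (nat_lit 0) (XT.lf (nat_lit 0) (nat_lit 7701130255) (nat_lit 456) (nat_lit 3990022549) (nat_lit 532) (nat_lit 3157360032) (nat_lit 193) (nat_lit 5) (nat_lit 199) (nat_lit 5) (nat_lit 200) (nat_lit 5) (nat_lit 462) (nat_lit 420) (nat_lit 318)) (XT.lf (nat_lit 0) (nat_lit 1789874439)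 (nat_lit 380) (nat_lit 13183465225) (nat_lit 456) (nat_lit 130411152) (nat_lit 188) (nat_lit 5) (nat_lit 193) (nat_lit 5) (nat_lit 194) (nat_lit 5) (nat_lit 463) (nat_lit 420) (nat_lit 317))) (XT.nd (nat_lit 78) (nat_lit 380) (nat_lit 0) (XT.lf (nat_lit 0) (nat_lit 3024115887) (nat_lit 456) (nat_lit 4315094610) (nat_lit 76) (nat_lit 8023723724) (nat_lit 187) (nat_lit 5) (nat_lit 193) (nat_lit 5) (nat_lit 188) (nat_lit 5) (nat_lit 464) (nat_lit 420) (nat_lit 316)) (XT.lf (nat_lit 0) (nat_lit 5027709442) (nat_lit 380) (nat_lit 1274451611) (nat_lit 456) (nat_lit 9326749869) (nat_lit 182) (nat_lit 5) (nat_lit 187) (nat_lit 5) (nat_lit 188) (nat_lit 5) (nat_lit 465) (nat_lit 420) (nat_lit 315)))) (XT.nd (nat_lit 156) (nat_lit 456) (nat_lit 0) (XT.nd (nat_lit 78) (nat_lit 304) (nat_lit 0) (XT.lf (nat_lit 0) (nat_lit 9753739277) (nat_lit 456) (nat_lit 1233510824) (nat_lit 76) (nat_lit 4913362659) (nat_lit 182) (nat_lit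 5) (nat_lit 188) (nat_lit 5) (nat_lit 183) (nat_lit 5) (nat_lit 466) (nat_lit 420) (nat_lit 314)) (XT.lf (nat_lit 0) (nat_lit 8547069327) (nat_lit 304) (nat_lit 4840447268) (nat_lit 380) (nat_lit 2790591041) (nat_lit 178) (nat_lit 5) (nat_lit 182) (nat_lit 5) (nat_lit 183) (nat_lit 5) (nat_lit 467) (nat_lit 420) (nat_lit 313))) (XT.nd (nat_lit 78) (nat_lit 0) (nat_lit 0) (XT.lf (nat_lit 0) (nat_lit 685710398) (nat_lit 456) (nat_lit 14281145075) (nat_lit 76) (nat_lit 1495911150) (nat_lit 172) (nat_lit 5) (nat_lit 178) (nat_lit 5) (nat_lit 173) (nat_lit 5) (nat_lit 468) (nat_lit 420) (nat_lit 312)) (XT.lf (nat_lit 0) (nat_lit 4320123869) (nat_lit 456) (nat_lit 4407483403) (nat_lit 76) (nat_lit 8024233291) (nat_lit 172) (nat_lit 5) (nat_lit 178) (nat_lit 5) (nat_lit 173) (nat_lit 5) (nat_lit 469) (nat_lit 420) (nat_lit 311)))))) (XT.nd (nat_lit 624) (nat_lit 1368) (nat_lit 0) (XT.nd (nat_lit 312) (nat_lit 684) (nat_lit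 0) (XT.nd (nat_lit 156) (nat_lit 684) (nat_lit 0) (XT.nd (nat_lit 78) (nat_lit 0) (nat_lit 0) (XT.lf (nat_lit 0) (nat_lit 5854690529) (nat_lit 304) (nat_lit 2249783717) (nat_lit 380) (nat_lit 8943886709) (nat_lit 168) (nat_lit 5) (nat_lit 172) (nat_lit 5) (nat_lit 173) (nat_lit 5) (nat_lit 470) (nat_lit 420) (nat_lit 310)) (XT.lf (nat_lit 0) (nat_lit 12074614495) (nat_lit 380) (nat_lit 902434781) (nat_lit 76) (nat_lit 4374561228) (nat_lit 168) (nat_lit 5) (nat_lit 173) (nat_lit 5) (nat_lit 169) (nat_lit 5) (nat_lit 471) (nat_lit 420) (nat_lit 309))) (XT.nd (nat_lit 78) (nat_lit 380) (nat_lit 0) (XT.lf (nat_lit 0) (nat_lit 9845915850) (nat_lit 304) (nat_lit 6420107025) (nat_lit 380) (nat_lit 1394871037) (nat_lit 164) (nat_lit 5) (nat_lit 168) (nat_lit 5) (nat_lit 169) (nat_lit 5) (nat_lit 472) (nat_lit 420) (nat_lit 308)) (XT.lf (nat_lit 0) (nat_lit 2579721457) (nat_lit 380) (nat_lit 15014518361) (nat_lit 76) (nat_lit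 383662011) (nat_lit 159) (nat_lit 5) (nat_lit 164) (nat_lit 5) (nat_lit 160) (nat_lit 5) (nat_lit 473) (nat_lit 420) (nat_lit 307)))) (XT.nd (nat_lit 156) (nat_lit 380) (nat_lit 0) (XT.nd (nat_lit 78) (nat_lit 304) (nat_lit 0) (XT.lf (nat_lit 0) (nat_lit 6774259039) (nat_lit 380) (nat_lit 4176630812) (nat_lit 76) (nat_lit 7349254710) (nat_lit 159) (nat_lit 5) (nat_lit 164) (nat_lit 5) (nat_lit 160) (nat_lit 5) (nat_lit 474) (nat_lit 420) (nat_lit 306)) (XT.lf (nat_lit 0) (nat_lit 7103933018) (nat_lit 304) (nat_lit 4044890111) (nat_lit 380) (nat_lit 7481606878) (nat_lit 155) (nat_lit 5) (nat_lit 159) (nat_lit 5) (nat_lit 160) (nat_lit 5) (nat_lit 475) (nat_lit 420) (nat_lit 305))) (XT.nd (nat_lit 78) (nat_lit 380) (nat_lit 0) (XT.lf (nat_lit 0) (nat_lit 15712757534) (nat_lit 380) (nat_lit 211967497) (nat_lit 76) (nat_lit 3044156098) (nat_lit 155) (nat_lit 5) (nat_lit 160) (nat_lit 5) (nat_lit 156) (nat_lit 5) (nat_lit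 476) (nat_lit 420) (nat_lit 304)) (XT.lf (nat_lit 0) (nat_lit 1214183316) (nat_lit 380) (nat_lit 7717396916) (nat_lit 76) (nat_lit 10381407046) (nat_lit 150) (nat_lit 5) (nat_lit 155) (nat_lit 5) (nat_lit 151) (nat_lit 5) (nat_lit 477) (nat_lit 420) (nat_lit 303))))) (XT.nd (nat_lit 312) (nat_lit 456) (nat_lit 0) (XT.nd (nat_lit 156) (nat_lit 608) (nat_lit 0) (XT.nd (nat_lit 78) (nat_lit 0) (nat_lit 0) (XT.lf (nat_lit 0) (nat_lit 4121863535) (nat_lit 304) (nat_lit 1659591977) (nat_lit 380) (nat_lit 13884145924) (nat_lit 146) (nat_lit 5) (nat_lit 150) (nat_lit 5) (nat_lit 151) (nat_lit 5) (nat_lit 478) (nat_lit 420) (nat_lit 302)) (XT.lf (nat_lit 0) (nat_lit 10607139129) (nat_lit 380) (nat_lit 3629577995) (nat_lit 76) (nat_lit 5788436083) (nat_lit 146) (nat_lit 5) (nat_lit 151) (nat_lit 5) (nat_lit 147) (nat_lit 5) (nat_lit 479) (nat_lit 420) (nat_lit 301))) (XT.nd (nat_lit 78) (nat_lit 380) (nat_lit 0) (XT.lf (nat_lit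 0) (nat_lit 8776640620) (nat_lit 228) (nat_lit 6888783897) (nat_lit 304) (nat_lit 4727433037) (nat_lit 143) (nat_lit 5) (nat_lit 146) (nat_lit 5) (nat_lit 147) (nat_lit 5) (nat_lit 480) (nat_lit 420) (nat_lit 300)) (XT.lf (nat_lit 0) (nat_lit 141073114) (nat_lit 380) (nat_lit 19923513872) (nat_lit 76) (nat_lit 705799962) (nat_lit 138) (nat_lit 5) (nat_lit 143) (nat_lit 5) (nat_lit 139) (nat_lit 5) (nat_lit 481) (nat_lit 420) (nat_lit 299)))) (XT.nd (nat_lit 156) (nat_lit 228) (nat_lit 0) (XT.nd (nat_lit 78) (nat_lit 228) (nat_lit 0) (XT.lf (nat_lit 0) (nat_lit 5234489759) (nat_lit 380) (nat_lit 7370291478) (nat_lit 76) (nat_lit 8547841516) (nat_lit 138) (nat_lit 5) (nat_lit 143) (nat_lit 5) (nat_lit 139) (nat_lit 5) (nat_lit 482) (nat_lit 420) (nat_lit 298)) (XT.lf (nat_lit 0) (nat_lit 5650001124) (nat_lit 228) (nat_lit 4872595590) (nat_lit 304) (nat_lit 11022473135) (nat_lit 135) (nat_lit 5) (nat_lit 138) (nat_lit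 5) (nat_lit 139) (nat_lit 5) (nat_lit 483) (nat_lit 420) (nat_lit 297))) (XT.nd (nat_lit 78) (nat_lit 228) (nat_lit 0) (XT.lf (nat_lit 0) (nat_lit 16061906812) (nat_lit 304) (nat_lit 2785408399) (nat_lit 76) (nat_lit 3099199176) (nat_lit 135) (nat_lit 5) (nat_lit 139) (nat_lit 5) (nat_lit 136) (nat_lit 5) (nat_lit 484) (nat_lit 420) (nat_lit 296)) (XT.lf (nat_lit 0) (nat_lit 10861950845) (nat_lit 228) (nat_lit 11046139080) (nat_lit 304) (nat_lit 447692328) (nat_lit 132) (nat_lit 5) (nat_lit 135) (nat_lit 5) (nat_lit 136) (nat_lit 5) (nat_lit 485) (nat_lit 420) (nat_lit 295))))))))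
noncomputable def xc144 : XT := (XT.nd (nat_lit 2340) (nat_lit 2356) (nat_lit 0) (XT.nd (nat_lit 1170) (nat_lit 1672) (nat_lit 0) (XT.nd (nat_lit 546) (nat_lit 1064) (nat_lit 0) (XT.nd (nat_lit 234) (nat_lit 532) (nat_lit 0) (XT.nd (nat_lit 78) (nat_lit 228) (nat_lit 0) (XT.lf (nat_lit 0) (nat_lit 2172581942) (nat_lit 228) (nat_lit 2916583318) (nat_lit 304) (nat_lit 17685556571) (nat_lit 128) (nat_lit 5) (nat_lit 131) (nat_lit 5) (nat_lit 132) (nat_lit 5) (nat_lit 486) (nat_lit 420) (nat_lit 294)) (XT.nd (nat_lit 78) (nat_lit 228) (nat_lit 0) (XT.lf (nat_lit 0) (nat_lit 10940976554) (nat_lit 304) (nat_lit 6795628206) (nat_lit 76) (nat_lit 5464757206) (nat_lit 128) (nat_lit 5) (nat_lit 132) (nat_lit 5) (nat_lit 129) (nat_lit 5) (nat_lit 487) (nat_lit 420) (nat_lit 293)) (XT.lf (nat_lit 0) (nat_lit 7524147197) (nat_lit 228) (nat_lit 9533920273) (nat_lit 304) (nat_lit 6580042790) (nat_lit 125) (nat_lit 5) (nat_lit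 128) (nat_lit 5) (nat_lit 129) (nat_lit 5) (nat_lit 488) (nat_lit 420) (nat_lit 292)))) (XT.nd (nat_lit 156) (nat_lit 228) (nat_lit 0) (XT.nd (nat_lit 78) (nat_lit 304) (nat_lit 0) (XT.lf (nat_lit 0) (nat_lit 22394126879) (nat_lit 228) (nat_lit 1021842912) (nat_lit 304) (nat_lit 670272947) (nat_lit 125) (nat_lit 5) (nat_lit 128) (nat_lit 5) (nat_lit 129) (nat_lit 5) (nat_lit 489) (nat_lit 420) (nat_lit 291)) (XT.lf (nat_lit 0) (nat_lit 5504509720) (nat_lit 304) (nat_lit 11266409416) (nat_lit 76) (nat_lit 7769535996) (nat_lit 121) (nat_lit 5) (nat_lit 125) (nat_lit 5) (nat_lit 122) (nat_lit 5) (nat_lit 490) (nat_lit 420) (nat_lit 290))) (XT.nd (nat_lit 78) (nat_lit 0) (nat_lit 0) (XT.lf (nat_lit 0) (nat_lit 3753978886) (nat_lit 228) (nat_lit 8149519659) (nat_lit 304) (nat_lit 13103023861) (nat_lit 118) (nat_lit 5) (nat_lit 121) (nat_lit 5) (nat_lit 122) (nat_lit 5) (nat_lit 491) (nat_lit 420) (nat_lit 289)) (XT.lf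 (nat_lit 0) (nat_lit 18605424257) (nat_lit 304) (nat_lit 6053902704) (nat_lit 76) (nat_lit 823916337) (nat_lit 118) (nat_lit 5) (nat_lit 122) (nat_lit 5) (nat_lit 119) (nat_lit 5) (nat_lit 492) (nat_lit 420) (nat_lit 288))))) (XT.nd (nat_lit 312) (nat_lit 456) (nat_lit 0) (XT.nd (nat_lit 156) (nat_lit 380) (nat_lit 0) (XT.nd (nat_lit 78) (nat_lit 76) (nat_lit 0) (XT.lf (nat_lit 0) (nat_lit 9691132878) (nat_lit 152) (nat_lit 15980489138) (nat_lit 228) (nat_lit 297747969) (nat_lit 116) (nat_lit 5) (nat_lit 118) (nat_lit 5) (nat_lit 119) (nat_lit 5) (nat_lit 493) (nat_lit 420) (nat_lit 287)) (XT.lf (nat_lit 0) (nat_lit 6404423141) (nat_lit 228) (nat_lit 516540451) (nat_lit 76) (nat_lit 19545714610) (nat_lit 115) (nat_lit 5) (nat_lit 118) (nat_lit 5) (nat_lit 116) (nat_lit 5) (nat_lit 494) (nat_lit 420) (nat_lit 286))) (XT.nd (nat_lit 78) (nat_lit 152) (nat_lit 0) (XT.lf (nat_lit 0) (nat_lit 13469937537) (nat_lit 304)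 (nat_lit 10989186820) (nat_lit 76) (nat_lit 2514645539) (nat_lit 112) (nat_lit 5) (nat_lit 116) (nat_lit 5) (nat_lit 113) (nat_lit 5) (nat_lit 495) (nat_lit 420) (nat_lit 285)) (XT.lf (nat_lit 0) (nat_lit 5516930066) (nat_lit 152) (nat_lit 15347087236) (nat_lit 228) (nat_lit 6628559571) (nat_lit 110) (nat_lit 5) (nat_lit 112) (nat_lit 5) (nat_lit 113) (nat_lit 5) (nat_lit 496) (nat_lit 420) (nat_lit 284)))) (XT.nd (nat_lit 156) (nat_lit 152) (nat_lit 0) (XT.nd (nat_lit 78) (nat_lit 228) (nat_lit 0) (XT.lf (nat_lit 0) (nat_lit 546006198) (nat_lit 228) (nat_lit 5303165232) (nat_lit 76) (nat_lit 22174590286) (nat_lit 109) (nat_lit 5) (nat_lit 112) (nat_lit 5) (nat_lit 110) (nat_lit 5) (nat_lit 497) (nat_lit 420) (nat_lit 283)) (XT.lf (nat_lit 0) (nat_lit 7947778862) (nat_lit 304) (nat_lit 16583919147) (nat_lit 76) (nat_lit 4032859780) (nat_lit 106) (nat_lit 5) (nat_lit 110) (nat_lit 5) (nat_lit 107) (nat_lit 5) (nat_lit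 498) (nat_lit 420) (nat_lit 282))) (XT.nd (nat_lit 78) (nat_lit 0) (nat_lit 0) (XT.lf (nat_lit 0) (nat_lit 709969900) (nat_lit 152) (nat_lit 14970613781) (nat_lit 228) (nat_lit 13437725166) (nat_lit 104) (nat_lit 5) (nat_lit 106) (nat_lit 5) (nat_lit 107) (nat_lit 5) (nat_lit 499) (nat_lit 420) (nat_lit 281)) (XT.lf (nat_lit 0) (nat_lit 18845661216) (nat_lit 152) (nat_lit 4957459925) (nat_lit 228) (nat_lit 5880819298) (nat_lit 104) (nat_lit 5) (nat_lit 106) (nat_lit 5) (nat_lit 107) (nat_lit 5) (nat_lit 500) (nat_lit 420) (nat_lit 280)))))) (XT.nd (nat_lit 546) (nat_lit 912) (nat_lit 0) (XT.nd (nat_lit 234) (nat_lit 380) (nat_lit 0) (XT.nd (nat_lit 78) (nat_lit 152) (nat_lit 0) (XT.lf (nat_lit 0) (nat_lit 1979258510) (nat_lit 228) (nat_lit 22948756048) (nat_lit 76) (nat_lit 5334570274) (nat_lit 101) (nat_lit 5) (nat_lit 104) (nat_lit 5) (nat_lit 102) (nat_lit 5) (nat_lit 501) (nat_lit 420) (nat_lit 279)) (XT.nd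 (nat_lit 78) (nat_lit 152) (nat_lit 0) (XT.lf (nat_lit 0) (nat_lit 10107076059) (nat_lit 228) (nat_lit 4747739804) (nat_lit 76) (nat_lit 15997522253) (nat_lit 101) (nat_lit 5) (nat_lit 104) (nat_lit 5) (nat_lit 102) (nat_lit 5) (nat_lit 502) (nat_lit 420) (nat_lit 278)) (XT.lf (nat_lit 0) (nat_lit 14261369032) (nat_lit 152) (nat_lit 4345247430) (nat_lit 228) (nat_lit 12849331295) (nat_lit 99) (nat_lit 5) (nat_lit 101) (nat_lit 5) (nat_lit 102) (nat_lit 5) (nat_lit 503) (nat_lit 420) (nat_lit 277)))) (XT.nd (nat_lit 156) (nat_lit 152) (nat_lit 0) (XT.nd (nat_lit 78) (nat_lit 76) (nat_lit 0) (XT.lf (nat_lit 0) (nat_lit 1818293196) (nat_lit 152) (nat_lit 25661877645) (nat_lit 228) (nat_lit 4593924407) (nat_lit 97) (nat_lit 5) (nat_lit 99) (nat_lit 5) (nat_lit 100) (nat_lit 5) (nat_lit 504) (nat_lit 420) (nat_lit 276)) (XT.lf (nat_lit 0) (nat_lit 4042103625) (nat_lit 228) (nat_lit 11050171325) (nat_lit 76) (nat_lit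 17611108062) (nat_lit 96) (nat_lit 5) (nat_lit 99) (nat_lit 5) (nat_lit 97) (nat_lit 5) (nat_lit 505) (nat_lit 420) (nat_lit 275))) (XT.nd (nat_lit 78) (nat_lit 0) (nat_lit 0) (XT.lf (nat_lit 0) (nat_lit 8842877081) (nat_lit 152) (nat_lit 4078138749) (nat_lit 228) (nat_lit 20426885308) (nat_lit 94) (nat_lit 5) (nat_lit 96) (nat_lit 5) (nat_lit 97) (nat_lit 5) (nat_lit 506) (nat_lit 420) (nat_lit 274)) (XT.lf (nat_lit 0) (nat_lit 22240009297) (nat_lit 228) (nat_lit 4535991526) (nat_lit 76) (nat_lit 7230542918) (nat_lit 94) (nat_lit 5) (nat_lit 97) (nat_lit 5) (nat_lit 95) (nat_lit 5) (nat_lit 507) (nat_lit 420) (nat_lit 273))))) (XT.nd (nat_lit 312) (nat_lit 380) (nat_lit 0) (XT.nd (nat_lit 156) (nat_lit 152) (nat_lit 0) (XT.nd (nat_lit 78) (nat_lit 228) (nat_lit 0) (XT.lf (nat_lit 0) (nat_lit 16294291980) (nat_lit 152) (nat_lit 15732720687) (nat_lit 228) (nat_lit 2652280094) (nat_lit 92) (nat_lit 5) (nat_lit 94)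 (nat_lit 5) (nat_lit 95) (nat_lit 5) (nat_lit 508) (nat_lit 420) (nat_lit 272)) (XT.lf (nat_lit 0) (nat_lit 2438582288) (nat_lit 152) (nat_lit 4226537521) (nat_lit 228) (nat_lit 28703327923) (nat_lit 89) (nat_lit 5) (nat_lit 91) (nat_lit 5) (nat_lit 92) (nat_lit 5) (nat_lit 509) (nat_lit 420) (nat_lit 271))) (XT.nd (nat_lit 78) (nat_lit 152) (nat_lit 0) (XT.lf (nat_lit 0) (nat_lit 16461005871) (nat_lit 228) (nat_lit 11925812434) (nat_lit 76) (nat_lit 7683103381) (nat_lit 89) (nat_lit 5) (nat_lit 92) (nat_lit 5) (nat_lit 90) (nat_lit 5) (nat_lit 510) (nat_lit 420) (nat_lit 270)) (XT.lf (nat_lit 0) (nat_lit 9843590312) (nat_lit 152) (nat_lit 16835382887) (nat_lit 228) (nat_lit 10109620824) (nat_lit 87) (nat_lit 5) (nat_lit 89) (nat_lit 5) (nat_lit 90) (nat_lit 5) (nat_lit 511) (nat_lit 420) (nat_lit 269)))) (XT.nd (nat_lit 156) (nat_lit 152) (nat_lit 0) (XT.nd (nat_lit 78) (nat_lit 228) (nat_lit 0) (XT.lf (nat_lit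 0) (nat_lit 32495680901) (nat_lit 152) (nat_lit 4820058997) (nat_lit 228) (nat_lit 209719114) (nat_lit 87) (nat_lit 5) (nat_lit 89) (nat_lit 5) (nat_lit 90) (nat_lit 5) (nat_lit 512) (nat_lit 420) (nat_lit 268)) (XT.lf (nat_lit 0) (nat_lit 10030400587) (nat_lit 228) (nat_lit 20572622776) (nat_lit 76) (nat_lit 7671383576) (nat_lit 84) (nat_lit 5) (nat_lit 87) (nat_lit 5) (nat_lit 85) (nat_lit 5) (nat_lit 513) (nat_lit 420) (nat_lit 267))) (XT.nd (nat_lit 78) (nat_lit 0) (nat_lit 0) (XT.lf (nat_lit 0) (nat_lit 2151152981) (nat_lit 152) (nat_lit 18534074792) (nat_lit 228) (nat_lit 18357181935) (nat_lit 82) (nat_lit 5) (nat_lit 84) (nat_lit 5) (nat_lit 85) (nat_lit 5) (nat_lit 514) (nat_lit 420) (nat_lit 266)) (XT.lf (nat_lit 0) (nat_lit 25963883597) (nat_lit 152) (nat_lit 5895676194) (nat_lit 228) (nat_lit 7967897229) (nat_lit 82) (nat_lit 5) (nat_lit 84) (nat_lit 5) (nat_lit 85) (nat_lit 5) (nat_lit 515) (nat_lit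 420) (nat_lit 265))))))) (XT.nd (nat_lit 1170) (nat_lit 1064) (nat_lit 0) (XT.nd (nat_lit 546) (nat_lit 684) (nat_lit 0) (XT.nd (nat_lit 234) (nat_lit 304) (nat_lit 0) (XT.nd (nat_lit 78) (nat_lit 152) (nat_lit 0) (XT.lf (nat_lit 0) (nat_lit 2837835005) (nat_lit 152) (nat_lit 30692437415) (nat_lit 76) (nat_lit 7100252392) (nat_lit 80) (nat_lit 5) (nat_lit 82) (nat_lit 5) (nat_lit 81) (nat_lit 5) (nat_lit 516) (nat_lit 420) (nat_lit 264)) (XT.nd (nat_lit 78) (nat_lit 152) (nat_lit 0) (XT.lf (nat_lit 0) (nat_lit 13999644903) (nat_lit 152) (nat_lit 6868384014) (nat_lit 76) (nat_lit 20581527682) (nat_lit 80) (nat_lit 5) (nat_lit 82) (nat_lit 5) (nat_lit 81) (nat_lit 5) (nat_lit 517) (nat_lit 420) (nat_lit 263)) (XT.lf (nat_lit 0) (nat_lit 18007968265) (nat_lit 152) (nat_lit 7653967270) (nat_lit 228) (nat_lit 16626255245) (nat_lit 78) (nat_lit 5) (nat_lit 80) (nat_lit 5) (nat_lit 81) (nat_lit 5) (nat_lit 518) (nat_lit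 420) (nat_lit 262)))) (XT.nd (nat_lit 156) (nat_lit 152) (nat_lit 0) (XT.nd (nat_lit 78) (nat_lit 76) (nat_lit 0) (XT.lf (nat_lit 0) (nat_lit 560649944) (nat_lit 76) (nat_lit 37238684357) (nat_lit 152) (nat_lit 5348892726) (nat_lit 77) (nat_lit 5) (nat_lit 78) (nat_lit 5) (nat_lit 79) (nat_lit 4) (nat_lit 519) (nat_lit 420) (nat_lit 261)) (XT.lf (nat_lit 0) (nat_lit 6460455631) (nat_lit 152) (nat_lit 17534550630) (nat_lit 76) (nat_lit 20027772529) (nat_lit 76) (nat_lit 5) (nat_lit 78) (nat_lit 5) (nat_lit 77) (nat_lit 5) (nat_lit 520) (nat_lit 420) (nat_lit 260))) (XT.nd (nat_lit 78) (nat_lit 0) (nat_lit 0) (XT.lf (nat_lit 0) (nat_lit 8366918274) (nat_lit 152) (nat_lit 10222863914) (nat_lit 228) (nat_lit 26330000187) (nat_lit 74) (nat_lit 5) (nat_lit 76) (nat_lit 5) (nat_lit 77) (nat_lit 5) (nat_lit 521) (nat_lit 420) (nat_lit 259)) (XT.lf (nat_lit 0) (nat_lit 31292695739) (nat_lit 228) (nat_lit 10486835065) (nat_lit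 76) (nat_lit 4057874248) (nat_lit 74) (nat_lit 5) (nat_lit 77) (nat_lit 5) (nat_lit 75) (nat_lit 4) (nat_lit 522) (nat_lit 420) (nat_lit 258))))) (XT.nd (nat_lit 312) (nat_lit 304) (nat_lit 0) (XT.nd (nat_lit 156) (nat_lit 228) (nat_lit 0) (XT.nd (nat_lit 78) (nat_lit 76) (nat_lit 0) (XT.lf (nat_lit 0) (nat_lit 16570214847) (nat_lit 76) (nat_lit 28059991149) (nat_lit 152) (nat_lit 2144745329) (nat_lit 73) (nat_lit 5) (nat_lit 74) (nat_lit 5) (nat_lit 75) (nat_lit 4) (nat_lit 523) (nat_lit 420) (nat_lit 257)) (XT.lf (nat_lit 0) (nat_lit 10519807428) (nat_lit 152) (nat_lit 3199803670) (nat_lit 76) (nat_lit 34014949457) (nat_lit 72) (nat_lit 5) (nat_lit 74) (nat_lit 5) (nat_lit 73) (nat_lit 5) (nat_lit 524) (nat_lit 420) (nat_lit 256))) (XT.nd (nat_lit 78) (nat_lit 76) (nat_lit 0) (XT.lf (nat_lit 0) (nat_lit 23768048259) (nat_lit 228) (nat_lit 23657395339) (nat_lit 76) (nat_lit 1289471827) (nat_lit 70) (nat_lit 5)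 (nat_lit 73) (nat_lit 5) (nat_lit 71) (nat_lit 4) (nat_lit 525) (nat_lit 420) (nat_lit 255)) (XT.lf (nat_lit 0) (nat_lit 4442233925) (nat_lit 76) (nat_lit 33175916426) (nat_lit 152) (nat_lit 12100398341) (nat_lit 69) (nat_lit 5) (nat_lit 70) (nat_lit 5) (nat_lit 71) (nat_lit 4) (nat_lit 526) (nat_lit 420) (nat_lit 254)))) (XT.nd (nat_lit 156) (nat_lit 76) (nat_lit 0) (XT.nd (nat_lit 78) (nat_lit 152) (nat_lit 0) (XT.lf (nat_lit 0) (nat_lit 1343896605) (nat_lit 152) (nat_lit 16901307079) (nat_lit 76) (nat_lit 32499725816) (nat_lit 68) (nat_lit 5) (nat_lit 70) (nat_lit 5) (nat_lit 69) (nat_lit 5) (nat_lit 527) (nat_lit 420) (nat_lit 253)) (XT.lf (nat_lit 0) (nat_lit 12435429410) (nat_lit 152) (nat_lit 2625870871) (nat_lit 228) (nat_lit 36733817855) (nat_lit 66) (nat_lit 5) (nat_lit 68) (nat_lit 5) (nat_lit 69) (nat_lit 5) (nat_lit 528) (nat_lit 420) (nat_lit 252))) (XT.nd (nat_lit 78) (nat_lit 76) (nat_lit 0) (XT.lf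 (nat_lit 0) (nat_lit 29485457754) (nat_lit 228) (nat_lit 10016452460) (nat_lit 76) (nat_lit 13366045419) (nat_lit 66) (nat_lit 5) (nat_lit 69) (nat_lit 5) (nat_lit 67) (nat_lit 4) (nat_lit 529) (nat_lit 420) (nat_lit 251)) (XT.lf (nat_lit 0) (nat_lit 20570453613) (nat_lit 76) (nat_lit 23989277580) (nat_lit 152) (nat_lit 9406725473) (nat_lit 65) (nat_lit 5) (nat_lit 66) (nat_lit 5) (nat_lit 67) (nat_lit 4) (nat_lit 530) (nat_lit 420) (nat_lit 250)))))) (XT.nd (nat_lit 546) (nat_lit 456) (nat_lit 0) (XT.nd (nat_lit 234) (nat_lit 304) (nat_lit 0) (XT.nd (nat_lit 78) (nat_lit 228) (nat_lit 0) (XT.lf (nat_lit 0) (nat_lit 4986792707) (nat_lit 152) (nat_lit 2875576709) (nat_lit 76) (nat_lit 47231230551) (nat_lit 64) (nat_lit 5) (nat_lit 66) (nat_lit 5) (nat_lit 65) (nat_lit 5) (nat_lit 531) (nat_lit 420) (nat_lit 249)) (XT.nd (nat_lit 78) (nat_lit 76) (nat_lit 0) (XT.lf (nat_lit 0) (nat_lit 19983602128) (nat_lit 228) (nat_lit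 27309344610) (nat_lit 76) (nat_lit 8948000341) (nat_lit 62) (nat_lit 5) (nat_lit 65) (nat_lit 5) (nat_lit 63) (nat_lit 4) (nat_lit 532) (nat_lit 420) (nat_lit 248)) (XT.lf (nat_lit 0) (nat_lit 4324651856) (nat_lit 76) (nat_lit 31248269928) (nat_lit 152) (nat_lit 21845514775) (nat_lit 61) (nat_lit 5) (nat_lit 62) (nat_lit 5) (nat_lit 63) (nat_lit 4) (nat_lit 533) (nat_lit 420) (nat_lit 247)))) (XT.nd (nat_lit 156) (nat_lit 76) (nat_lit 0) (XT.nd (nat_lit 78) (nat_lit 228) (nat_lit 0) (XT.lf (nat_lit 0) (nat_lit 37455892775) (nat_lit 76) (nat_lit 14443730707) (nat_lit 152) (nat_lit 6723536295) (nat_lit 61) (nat_lit 5) (nat_lit 62) (nat_lit 5) (nat_lit 63) (nat_lit 4) (nat_lit 534) (nat_lit 420) (nat_lit 246)) (XT.lf (nat_lit 0) (nat_lit 8816800329) (nat_lit 228) (nat_lit 48035835109) (nat_lit 76) (nat_lit 3004713566) (nat_lit 58) (nat_lit 5) (nat_lit 61) (nat_lit 5) (nat_lit 59) (nat_lit 4) (nat_lit 535) (nat_lit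 420) (nat_lit 245))) (XT.nd (nat_lit 78) (nat_lit 76) (nat_lit 0) (XT.lf (nat_lit 0) (nat_lit 25041145391) (nat_lit 228) (nat_lit 15111362957) (nat_lit 76) (nat_lit 20963470544) (nat_lit 58) (nat_lit 5) (nat_lit 61) (nat_lit 5) (nat_lit 59) (nat_lit 4) (nat_lit 536) (nat_lit 420) (nat_lit 244)) (XT.lf (nat_lit 0) (nat_lit 19163743907) (nat_lit 76) (nat_lit 22766926758) (nat_lit 152) (nat_lit 20476343631) (nat_lit 57) (nat_lit 5) (nat_lit 58) (nat_lit 5) (nat_lit 59) (nat_lit 4) (nat_lit 537) (nat_lit 420) (nat_lit 243))))) (XT.nd (nat_lit 312) (nat_lit 228) (nat_lit 0) (XT.nd (nat_lit 156) (nat_lit 76) (nat_lit 0) (XT.nd (nat_lit 78) (nat_lit 152) (nat_lit 0) (XT.lf (nat_lit 0) (nat_lit 54765927347) (nat_lit 76) (nat_lit 4707848384) (nat_lit 152) (nat_lit 4258598320) (nat_lit 57) (nat_lit 5) (nat_lit 58) (nat_lit 5) (nat_lit 59) (nat_lit 4) (nat_lit 538) (nat_lit 420) (nat_lit 242)) (XT.lf (nat_lit 0) (nat_lit 12591400636)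 (nat_lit 152) (nat_lit 38493686470) (nat_lit 76) (nat_lit 13997161093) (nat_lit 55) (nat_lit 5) (nat_lit 57) (nat_lit 5) (nat_lit 56) (nat_lit 4) (nat_lit 539) (nat_lit 420) (nat_lit 241))) (XT.nd (nat_lit 78) (nat_lit 76) (nat_lit 0) (XT.lf (nat_lit 0) (nat_lit 29993779918) (nat_lit 152) (nat_lit 3176300649) (nat_lit 76) (nat_lit 33297298957) (nat_lit 55) (nat_lit 5) (nat_lit 57) (nat_lit 5) (nat_lit 56) (nat_lit 4) (nat_lit 540) (nat_lit 420) (nat_lit 240)) (XT.lf (nat_lit 0) (nat_lit 33850720306) (nat_lit 76) (nat_lit 14387488185) (nat_lit 152) (nat_lit 19646257058) (nat_lit 54) (nat_lit 5) (nat_lit 55) (nat_lit 5) (nat_lit 56) (nat_lit 4) (nat_lit 541) (nat_lit 420) (nat_lit 239)))) (XT.nd (nat_lit 156) (nat_lit 76) (nat_lit 0) (XT.nd (nat_lit 78) (nat_lit 76) (nat_lit 0) (XT.lf (nat_lit 0) (nat_lit 2704914557) (nat_lit 76) (nat_lit 64425708220) (nat_lit 76) (nat_lit 2210421889) (nat_lit 53) (nat_lit 4) (nat_lit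 54) (nat_lit 5) (nat_lit 54) (nat_lit 4) (nat_lit 542) (nat_lit 420) (nat_lit 238)) (XT.lf (nat_lit 0) (nat_lit 15925305419) (nat_lit 152) (nat_lit 29895307308) (nat_lit 76) (nat_lit 25001643191) (nat_lit 52) (nat_lit 5) (nat_lit 54) (nat_lit 5) (nat_lit 53) (nat_lit 4) (nat_lit 543) (nat_lit 420) (nat_lit 237))) (XT.nd (nat_lit 78) (nat_lit 0) (nat_lit 0) (XT.lf (nat_lit 0) (nat_lit 8073245587) (nat_lit 76) (nat_lit 26559793564) (nat_lit 152) (nat_lit 37712037027) (nat_lit 51) (nat_lit 5) (nat_lit 52) (nat_lit 5) (nat_lit 53) (nat_lit 4) (nat_lit 544) (nat_lit 420) (nat_lit 236)) (XT.lf (nat_lit 0) (nat_lit 47783631722) (nat_lit 76) (nat_lit 6415070206) (nat_lit 152) (nat_lit 19705978292) (nat_lit 51) (nat_lit 5) (nat_lit 52) (nat_lit 5) (nat_lit 53) (nat_lit 4) (nat_lit 545) (nat_lit 420) (nat_lit 235))))))))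
noncomputable def xc145 : XT := (XT.nd (nat_lit 54756) (nat_lit 0) (nat_lit 7828) (XT.nd (nat_lit 53586) (nat_lit 0) (nat_lit 16036) (XT.nd (nat_lit 52962) (nat_lit 0) (nat_lit 21280) (XT.nd (nat_lit 234) (nat_lit 0) (nat_lit 0) (XT.nd (nat_lit 78) (nat_lit 152) (nat_lit 0) (XT.lf (nat_lit 0) (nat_lit 13285864012) (nat_lit 76) (nat_lit 61325888314) (nat_lit 76) (nat_lit 891507607) (nat_lit 50) (nat_lit 4) (nat_lit 51) (nat_lit 5) (nat_lit 51) (nat_lit 4) (nat_lit 546) (nat_lit 420) (nat_lit 234)) (XT.nd (nat_lit 78) (nat_lit 76) (nat_lit 0) (XT.lf (nat_lit 0) (nat_lit 18451463048) (nat_lit 152) (nat_lit 22985148850) (nat_lit 76) (nat_lit 35698109205) (nat_lit 49) (nat_lit 5) (nat_lit 51) (nat_lit 5) (nat_lit 50) (nat_lit 4) (nat_lit 547) (nat_lit 420) (nat_lit 233)) (XT.lf (nat_lit 0) (nat_lit 17752067524) (nat_lit 76) (nat_lit 20770451527) (nat_lit 152) (nat_lit 40287370889) (nat_lit 48) (nat_lit 5) (nat_lit 49)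 (nat_lit 5) (nat_lit 50) (nat_lit 4) (nat_lit 548) (nat_lit 420) (nat_lit 232)))) (XT.nd (nat_lit 52572) (nat_lit 0) (nat_lit 22192) (XT.nd (nat_lit 52494) (nat_lit 0) (nat_lit 22192) (XT.lf (nat_lit 0) (nat_lit 59430145924) (nat_lit 152) (nat_lit 20362618779) (nat_lit 0) (nat_lit 735516037) (nat_lit 48) (nat_lit 5) (nat_lit 50) (nat_lit 4) (nat_lit 48) (nat_lit 4) (nat_lit 549) (nat_lit 420) (nat_lit 231)) (XT.lf (nat_lit 0) (nat_lit 559908214) (nat_lit 0) (nat_lit 559908214) (nat_lit 988) (nat_lit 3038907326) (nat_lit 340) (nat_lit 5) (nat_lit 340) (nat_lit 3) (nat_lit 353) (nat_lit 3) (nat_lit 421) (nat_lit 421) (nat_lit 358))) (XT.nd (nat_lit 78) (nat_lit 0) (nat_lit 0) (XT.lf (nat_lit 0) (nat_lit 3385500512) (nat_lit 988) (nat_lit 3093068647) (nat_lit 1064) (nat_lit 1930099022) (nat_lit 340) (nat_lit 5) (nat_lit 353) (nat_lit 3) (nat_lit 354) (nat_lit 5) (nat_lit 422) (nat_lit 421) (nat_lit 357)) (XT.lf (nat_lit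 76) (nat_lit 1122622626) (nat_lit 0) (nat_lit 3422534867) (nat_lit 1064) (nat_lit 3958092327) (nat_lit 341) (nat_lit 5) (nat_lit 340) (nat_lit 5) (nat_lit 354) (nat_lit 5) (nat_lit 423) (nat_lit 421) (nat_lit 356))))) (XT.nd (nat_lit 312) (nat_lit 0) (nat_lit 0) (XT.nd (nat_lit 156) (nat_lit 912) (nat_lit 0) (XT.nd (nat_lit 78) (nat_lit 0) (nat_lit 76) (XT.lf (nat_lit 76) (nat_lit 5505586154) (nat_lit 0) (nat_lit 223806205) (nat_lit 1064) (nat_lit 2871589454) (nat_lit 341) (nat_lit 5) (nat_lit 340) (nat_lit 5) (nat_lit 354) (nat_lit 5) (nat_lit 424) (nat_lit 421) (nat_lit 355)) (XT.lf (nat_lit 76) (nat_lit 1290725942) (nat_lit 0) (nat_lit 5660292048) (nat_lit 1064) (nat_lit 1750578221) (nat_lit 342) (nat_lit 5) (nat_lit 341) (nat_lit 5) (nat_lit 355) (nat_lit 5) (nat_lit 425) (nat_lit 421) (nat_lit 354))) (XT.nd (nat_lit 78) (nat_lit 988) (nat_lit 0) (XT.lf (nat_lit 76) (nat_lit 5846518159) (nat_lit 0) (nat_lit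 2357107860) (nat_lit 1064) (nat_lit 601779186) (nat_lit 342) (nat_lit 5) (nat_lit 341) (nat_lit 5) (nat_lit 355) (nat_lit 5) (nat_lit 426) (nat_lit 421) (nat_lit 353)) (XT.lf (nat_lit 0) (nat_lit 557844781) (nat_lit 1064) (nat_lit 7293585620) (nat_lit 1140) (nat_lit 1061104967) (nat_lit 328) (nat_lit 5) (nat_lit 342) (nat_lit 5) (nat_lit 343) (nat_lit 5) (nat_lit 427) (nat_lit 421) (nat_lit 352)))) (XT.nd (nat_lit 156) (nat_lit 0) (nat_lit 76) (XT.nd (nat_lit 78) (nat_lit 0) (nat_lit 0) (XT.lf (nat_lit 0) (nat_lit 1756350008) (nat_lit 1064) (nat_lit 2681042157) (nat_lit 1140) (nat_lit 4584828542) (nat_lit 328) (nat_lit 5) (nat_lit 342) (nat_lit 5) (nat_lit 343) (nat_lit 5) (nat_lit 428) (nat_lit 421) (nat_lit 351)) (XT.lf (nat_lit 76) (nat_lit 2087066631) (nat_lit 0) (nat_lit 887568269) (nat_lit 1140) (nat_lit 6161052456) (nat_lit 329) (nat_lit 5) (nat_lit 328) (nat_lit 5) (nat_lit 343) (nat_lit 5) (nat_lit 429)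 (nat_lit 421) (nat_lit 350))) (XT.nd (nat_lit 78) (nat_lit 0) (nat_lit 0) (XT.lf (nat_lit 0) (nat_lit 4248134669) (nat_lit 1064) (nat_lit 2249941592) (nat_lit 1140) (nat_lit 2753927078) (nat_lit 329) (nat_lit 5) (nat_lit 343) (nat_lit 5) (nat_lit 344) (nat_lit 5) (nat_lit 430) (nat_lit 421) (nat_lit 349)) (XT.lf (nat_lit 76) (nat_lit 2713075052) (nat_lit 0) (nat_lit 2847369869) (nat_lit 1140) (nat_lit 3811350887) (nat_lit 330) (nat_lit 5) (nat_lit 329) (nat_lit 5) (nat_lit 344) (nat_lit 5) (nat_lit 431) (nat_lit 421) (nat_lit 348)))))) (XT.nd (nat_lit 546) (nat_lit 3268) (nat_lit 0) (XT.nd (nat_lit 234) (nat_lit 988) (nat_lit 0) (XT.nd (nat_lit 78) (nat_lit 1140) (nat_lit 0) (XT.lf (nat_lit 0) (nat_lit 6910449544) (nat_lit 1064) (nat_lit 1657045717) (nat_lit 1140) (nat_lit 927742056) (nat_lit 330) (nat_lit 5) (nat_lit 344) (nat_lit 5) (nat_lit 345) (nat_lit 5) (nat_lit 432) (nat_lit 421) (nat_lit 347)) (XT.nd (nat_lit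 78) (nat_lit 1140) (nat_lit 0) (XT.lf (nat_lit 76) (nat_lit 3511070191) (nat_lit 0) (nat_lit 4819404282) (nat_lit 1140) (nat_lit 1291026867) (nat_lit 331) (nat_lit 5) (nat_lit 330) (nat_lit 5) (nat_lit 345) (nat_lit 5) (nat_lit 433) (nat_lit 421) (nat_lit 346)) (XT.lf (nat_lit 0) (nat_lit 25610548) (nat_lit 1140) (nat_lit 907757496) (nat_lit 1216) (nat_lit 8818631621) (nat_lit 315) (nat_lit 5) (nat_lit 330) (nat_lit 5) (nat_lit 331) (nat_lit 5) (nat_lit 434) (nat_lit 421) (nat_lit 345)))) (XT.nd (nat_lit 156) (nat_lit 1064) (nat_lit 0) (XT.nd (nat_lit 78) (nat_lit 0) (nat_lit 0) (XT.lf (nat_lit 0) (nat_lit 1398117836) (nat_lit 1140) (nat_lit 5413355415) (nat_lit 1216) (nat_lit 3073291101) (nat_lit 316) (nat_lit 5) (nat_lit 331) (nat_lit 5) (nat_lit 332) (nat_lit 5) (nat_lit 435) (nat_lit 421) (nat_lit 344)) (XT.lf (nat_lit 0) (nat_lit 2799955578) (nat_lit 1140) (nat_lit 24392559) (nat_lit 1216) (nat_lit 7197523514)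 (nat_lit 316) (nat_lit 5) (nat_lit 331) (nat_lit 5) (nat_lit 332) (nat_lit 5) (nat_lit 436) (nat_lit 421) (nat_lit 343))) (XT.nd (nat_lit 78) (nat_lit 1140) (nat_lit 0) (XT.lf (nat_lit 0) (nat_lit 4281252503) (nat_lit 1140) (nat_lit 4563199482) (nat_lit 76) (nat_lit 1317522267) (nat_lit 317) (nat_lit 5) (nat_lit 332) (nat_lit 5) (nat_lit 318) (nat_lit 5) (nat_lit 437) (nat_lit 421) (nat_lit 342)) (XT.lf (nat_lit 0) (nat_lit 1053087357) (nat_lit 1140) (nat_lit 4763461435) (nat_lit 1216) (nat_lit 4489448408) (nat_lit 302) (nat_lit 5) (nat_lit 317) (nat_lit 5) (nat_lit 318) (nat_lit 5) (nat_lit 438) (nat_lit 421) (nat_lit 341))))) (XT.nd (nat_lit 312) (nat_lit 1216) (nat_lit 0) (XT.nd (nat_lit 156) (nat_lit 836) (nat_lit 0) (XT.nd (nat_lit 78) (nat_lit 1216) (nat_lit 0) (XT.lf (nat_lit 0) (nat_lit 6907282257) (nat_lit 1140) (nat_lit 508532255) (nat_lit 1216) (nat_lit 3037992969) (nat_lit 302) (nat_lit 5) (nat_lit 317)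 (nat_lit 5) (nat_lit 318) (nat_lit 5) (nat_lit 439) (nat_lit 421) (nat_lit 340)) (XT.lf (nat_lit 0) (nat_lit 2314698184) (nat_lit 1216) (nat_lit 6780539400) (nat_lit 1292) (nat_lit 1509852953) (nat_lit 286) (nat_lit 5) (nat_lit 302) (nat_lit 5) (nat_lit 303) (nat_lit 5) (nat_lit 440) (nat_lit 421) (nat_lit 339))) (XT.nd (nat_lit 78) (nat_lit 760) (nat_lit 0) (XT.lf (nat_lit 0) (nat_lit 77067595) (nat_lit 1292) (nat_lit 2365969515) (nat_lit 76) (nat_lit 8317434473) (nat_lit 285) (nat_lit 5) (nat_lit 302) (nat_lit 5) (nat_lit 286) (nat_lit 5) (nat_lit 441) (nat_lit 421) (nat_lit 338)) (XT.lf (nat_lit 0) (nat_lit 1711261208) (nat_lit 836) (nat_lit 7168806152) (nat_lit 76) (nat_lit 2039101390) (nat_lit 275) (nat_lit 5) (nat_lit 286) (nat_lit 5) (nat_lit 276) (nat_lit 5) (nat_lit 442) (nat_lit 421) (nat_lit 337)))) (XT.nd (nat_lit 156) (nat_lit 608) (nat_lit 0) (XT.nd (nat_lit 78) (nat_lit 608) (nat_lit 0) (XT.lf (nat_lit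 0) (nat_lit 3417125917) (nat_lit 836) (nat_lit 1032078640) (nat_lit 76) (nat_lit 6632746333) (nat_lit 275) (nat_lit 5) (nat_lit 286) (nat_lit 5) (nat_lit 276) (nat_lit 5) (nat_lit 443) (nat_lit 421) (nat_lit 336)) (XT.lf (nat_lit 0) (nat_lit 5202484981) (nat_lit 684) (nat_lit 5880624665) (nat_lit 76) (nat_lit 165660617) (nat_lit 267) (nat_lit 5) (nat_lit 276) (nat_lit 5) (nat_lit 268) (nat_lit 5) (nat_lit 444) (nat_lit 421) (nat_lit 335))) (XT.nd (nat_lit 78) (nat_lit 0) (nat_lit 0) (XT.lf (nat_lit 0) (nat_lit 502676736) (nat_lit 608) (nat_lit 6573722330) (nat_lit 684) (nat_lit 4343148544) (nat_lit 259) (nat_lit 5) (nat_lit 267) (nat_lit 5) (nat_lit 268) (nat_lit 5) (nat_lit 445) (nat_lit 421) (nat_lit 334)) (XT.lf (nat_lit 0) (nat_lit 7174032574) (nat_lit 608) (nat_lit 1867946784) (nat_lit 684) (nat_lit 2552408584) (nat_lit 259) (nat_lit 5) (nat_lit 267) (nat_lit 5) (nat_lit 268) (nat_lit 5) (nat_lit 446) (nat_lit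 421) (nat_lit 333))))))) (XT.nd (nat_lit 1170) (nat_lit 3648) (nat_lit 0) (XT.nd (nat_lit 546) (nat_lit 2356) (nat_lit 0) (XT.nd (nat_lit 234) (nat_lit 1064) (nat_lit 0) (XT.nd (nat_lit 78) (nat_lit 608) (nat_lit 0) (XT.lf (nat_lit 0) (nat_lit 2262578195) (nat_lit 532) (nat_lit 8831096711) (nat_lit 608) (nat_lit 679987179) (nat_lit 252) (nat_lit 5) (nat_lit 259) (nat_lit 5) (nat_lit 260) (nat_lit 5) (nat_lit 447) (nat_lit 421) (nat_lit 332)) (XT.nd (nat_lit 78) (nat_lit 532) (nat_lit 0) (XT.lf (nat_lit 0) (nat_lit 1264797943) (nat_lit 608) (nat_lit 2775519674) (nat_lit 76) (nat_lit 7916422950) (nat_lit 251) (nat_lit 5) (nat_lit 259) (nat_lit 5) (nat_lit 252) (nat_lit 5) (nat_lit 448) (nat_lit 421) (nat_lit 331)) (XT.lf (nat_lit 0) (nat_lit 3281472931) (nat_lit 608) (nat_lit 7939521004) (nat_lit 76) (nat_lit 923301871) (nat_lit 244) (nat_lit 5) (nat_lit 252) (nat_lit 5) (nat_lit 245) (nat_lit 5) (nat_lit 449) (nat_lit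 421) (nat_lit 330)))) (XT.nd (nat_lit 156) (nat_lit 532) (nat_lit 0) (XT.nd (nat_lit 78) (nat_lit 532) (nat_lit 0) (XT.lf (nat_lit 0) (nat_lit 5405023016) (nat_lit 608) (nat_lit 949473481) (nat_lit 76) (nat_lit 5981592657) (nat_lit 244) (nat_lit 5) (nat_lit 252) (nat_lit 5) (nat_lit 245) (nat_lit 5) (nat_lit 450) (nat_lit 421) (nat_lit 329)) (XT.lf (nat_lit 0) (nat_lit 6350973304) (nat_lit 532) (nat_lit 1281061465) (nat_lit 608) (nat_lit 4900411497) (nat_lit 237) (nat_lit 5) (nat_lit 244) (nat_lit 5) (nat_lit 245) (nat_lit 5) (nat_lit 451) (nat_lit 421) (nat_lit 328))) (XT.nd (nat_lit 78) (nat_lit 0) (nat_lit 0) (XT.lf (nat_lit 0) (nat_lit 1115633855) (nat_lit 532) (nat_lit 8847632142) (nat_lit 608) (nat_lit 2770308365) (nat_lit 230) (nat_lit 5) (nat_lit 237) (nat_lit 5) (nat_lit 238) (nat_lit 5) (nat_lit 452) (nat_lit 421) (nat_lit 327)) (XT.lf (nat_lit 0) (nat_lit 8722049436) (nat_lit 532) (nat_lit 3696833865)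 (nat_lit 608) (nat_lit 520221996) (nat_lit 230) (nat_lit 5) (nat_lit 237) (nat_lit 5) (nat_lit 238) (nat_lit 5) (nat_lit 453) (nat_lit 421) (nat_lit 326))))) (XT.nd (nat_lit 312) (nat_lit 912) (nat_lit 0) (XT.nd (nat_lit 156) (nat_lit 912) (nat_lit 0) (XT.nd (nat_lit 78) (nat_lit 0) (nat_lit 0) (XT.lf (nat_lit 0) (nat_lit 1791086894) (nat_lit 532) (nat_lit 9733378137) (nat_lit 76) (nat_lit 1624957342) (nat_lit 223) (nat_lit 5) (nat_lit 230) (nat_lit 5) (nat_lit 224) (nat_lit 5) (nat_lit 454) (nat_lit 421) (nat_lit 325)) (XT.lf (nat_lit 0) (nat_lit 4221090845) (nat_lit 532) (nat_lit 2065806409) (nat_lit 76) (nat_lit 7077205094) (nat_lit 223) (nat_lit 5) (nat_lit 230) (nat_lit 5) (nat_lit 224) (nat_lit 5) (nat_lit 455) (nat_lit 421) (nat_lit 324))) (XT.nd (nat_lit 78) (nat_lit 456) (nat_lit 0) (XT.lf (nat_lit 0) (nat_lit 5924643246) (nat_lit 456) (nat_lit 837083356) (nat_lit 532) (nat_lit 6822366363) (nat_lit 217)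 (nat_lit 5) (nat_lit 223) (nat_lit 5) (nat_lit 224) (nat_lit 5) (nat_lit 456) (nat_lit 421) (nat_lit 323)) (XT.lf (nat_lit 0) (nat_lit 324233902) (nat_lit 456) (nat_lit 9105531753) (nat_lit 532) (nat_lit 4379384249) (nat_lit 211) (nat_lit 5) (nat_lit 217) (nat_lit 5) (nat_lit 218) (nat_lit 5) (nat_lit 457) (nat_lit 421) (nat_lit 322)))) (XT.nd (nat_lit 156) (nat_lit 380) (nat_lit 0) (XT.nd (nat_lit 78) (nat_lit 532) (nat_lit 0) (XT.lf (nat_lit 0) (nat_lit 8673142078) (nat_lit 456) (nat_lit 3571675514) (nat_lit 532) (nat_lit 1794133876) (nat_lit 211) (nat_lit 5) (nat_lit 217) (nat_lit 5) (nat_lit 218) (nat_lit 5) (nat_lit 458) (nat_lit 421) (nat_lit 321)) (XT.lf (nat_lit 0) (nat_lit 883367985) (nat_lit 532) (nat_lit 11270853825) (nat_lit 76) (nat_lit 2120227363) (nat_lit 204) (nat_lit 5) (nat_lit 211) (nat_lit 5) (nat_lit 205) (nat_lit 5) (nat_lit 459) (nat_lit 421) (nat_lit 320))) (XT.nd (nat_lit 78) (nat_lit 380)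 (nat_lit 0) (XT.lf (nat_lit 0) (nat_lit 3677272155) (nat_lit 532) (nat_lit 2857792496) (nat_lit 76) (nat_lit 7979252013) (nat_lit 204) (nat_lit 5) (nat_lit 211) (nat_lit 5) (nat_lit 205) (nat_lit 5) (nat_lit 460) (nat_lit 421) (nat_lit 319)) (XT.lf (nat_lit 0) (nat_lit 5900649251) (nat_lit 380) (nat_lit 693641366) (nat_lit 456) (nat_lit 8165912485) (nat_lit 199) (nat_lit 5) (nat_lit 204) (nat_lit 5) (nat_lit 205) (nat_lit 5) (nat_lit 461) (nat_lit 421) (nat_lit 318)))))) (XT.nd (nat_lit 624) (nat_lit 1596) (nat_lit 0) (XT.nd (nat_lit 312) (nat_lit 1140) (nat_lit 0) (XT.nd (nat_lit 156) (nat_lit 456) (nat_lit 0) (XT.nd (nat_lit 78) (nat_lit 456) (nat_lit 0) (XT.lf (nat_lit 0) (nat_lit 9661958512) (nat_lit 456) (nat_lit 106034580) (nat_lit 76) (nat_lit 5243580659) (nat_lit 199) (nat_lit 5) (nat_lit 205) (nat_lit 5) (nat_lit 200) (nat_lit 5) (nat_lit 462) (nat_lit 421) (nat_lit 317)) (XT.lf (nat_lit 0) (nat_lit 9058227297)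 (nat_lit 456) (nat_lit 3840697176) (nat_lit 532) (nat_lit 2369244737) (nat_lit 193) (nat_lit 5) (nat_lit 199) (nat_lit 5) (nat_lit 200) (nat_lit 5) (nat_lit 463) (nat_lit 421) (nat_lit 316))) (XT.nd (nat_lit 78) (nat_lit 0) (nat_lit 0) (XT.lf (nat_lit 0) (nat_lit 722277651) (nat_lit 456) (nat_lit 12556914049) (nat_lit 76) (nat_lit 2252008122) (nat_lit 187) (nat_lit 5) (nat_lit 193) (nat_lit 5) (nat_lit 188) (nat_lit 5) (nat_lit 464) (nat_lit 421) (nat_lit 315)) (XT.lf (nat_lit 0) (nat_lit 3943946162) (nat_lit 456) (nat_lit 3323103352) (nat_lit 76) (nat_lit 8531819090) (nat_lit 187) (nat_lit 5) (nat_lit 193) (nat_lit 5) (nat_lit 188) (nat_lit 5) (nat_lit 465) (nat_lit 421) (nat_lit 314)))) (XT.nd (nat_lit 156) (nat_lit 760) (nat_lit 0) (XT.nd (nat_lit 78) (nat_lit 0) (nat_lit 0) (XT.lf (nat_lit 0) (nat_lit 6288990272) (nat_lit 380) (nat_lit 1017867990) (nat_lit 456) (nat_lit 8766372920) (nat_lit 182) (nat_lit 5)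 (nat_lit 187) (nat_lit 5) (nat_lit 188) (nat_lit 5) (nat_lit 466) (nat_lit 421) (nat_lit 313)) (XT.lf (nat_lit 0) (nat_lit 10840978970) (nat_lit 456) (nat_lit 171329108) (nat_lit 76) (nat_lit 5341408416) (nat_lit 182) (nat_lit 5) (nat_lit 188) (nat_lit 5) (nat_lit 183) (nat_lit 5) (nat_lit 467) (nat_lit 421) (nat_lit 312))) (XT.nd (nat_lit 78) (nat_lit 456) (nat_lit 0) (XT.lf (nat_lit 0) (nat_lit 9891892104) (nat_lit 304) (nat_lit 4679195483) (nat_lit 380) (nat_lit 2068831300) (nat_lit 178) (nat_lit 5) (nat_lit 182) (nat_lit 5) (nat_lit 183) (nat_lit 5) (nat_lit 468) (nat_lit 421) (nat_lit 311)) (XT.lf (nat_lit 0) (nat_lit 1486587506) (nat_lit 456) (nat_lit 13595856196) (nat_lit 76) (nat_lit 1850727357) (nat_lit 172) (nat_lit 5) (nat_lit 178) (nat_lit 5) (nat_lit 173) (nat_lit 5) (nat_lit 469) (nat_lit 421) (nat_lit 310))))) (XT.nd (nat_lit 312) (nat_lit 988) (nat_lit 0) (XT.nd (nat_lit 156) (nat_lit 304) (nat_lit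 0) (XT.nd (nat_lit 78) (nat_lit 304) (nat_lit 0) (XT.lf (nat_lit 0) (nat_lit 5207306027) (nat_lit 456) (nat_lit 3458423216) (nat_lit 76) (nat_lit 8565871817) (nat_lit 172) (nat_lit 5) (nat_lit 178) (nat_lit 5) (nat_lit 173) (nat_lit 5) (nat_lit 470) (nat_lit 421) (nat_lit 309)) (XT.lf (nat_lit 0) (nat_lit 7101015104) (nat_lit 304) (nat_lit 1992398489) (nat_lit 380) (nat_lit 8443958632) (nat_lit 168) (nat_lit 5) (nat_lit 172) (nat_lit 5) (nat_lit 173) (nat_lit 5) (nat_lit 471) (nat_lit 421) (nat_lit 308))) (XT.nd (nat_lit 78) (nat_lit 0) (nat_lit 0) (XT.lf (nat_lit 0) (nat_lit 131307352) (nat_lit 304) (nat_lit 13033922399) (nat_lit 380) (nat_lit 4685014265) (nat_lit 164) (nat_lit 5) (nat_lit 168) (nat_lit 5) (nat_lit 169) (nat_lit 5) (nat_lit 472) (nat_lit 421) (nat_lit 307)) (XT.lf (nat_lit 0) (nat_lit 11189171195) (nat_lit 304) (nat_lit 6280841729) (nat_lit 380) (nat_lit 699165875) (nat_lit 164) (nat_lit 5) (nat_lit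 168) (nat_lit 5) (nat_lit 169) (nat_lit 5) (nat_lit 473) (nat_lit 421) (nat_lit 306)))) (XT.nd (nat_lit 156) (nat_lit 608) (nat_lit 0) (XT.nd (nat_lit 78) (nat_lit 0) (nat_lit 0) (XT.lf (nat_lit 0) (nat_lit 3372586352) (nat_lit 380) (nat_lit 14394880035) (nat_lit 76) (nat_lit 728250189) (nat_lit 159) (nat_lit 5) (nat_lit 164) (nat_lit 5) (nat_lit 160) (nat_lit 5) (nat_lit 474) (nat_lit 421) (nat_lit 305)) (XT.lf (nat_lit 0) (nat_lit 7672121035) (nat_lit 380) (nat_lit 3263023060) (nat_lit 76) (nat_lit 7893109358) (nat_lit 159) (nat_lit 5) (nat_lit 164) (nat_lit 5) (nat_lit 160) (nat_lit 5) (nat_lit 475) (nat_lit 421) (nat_lit 304))) (XT.nd (nat_lit 78) (nat_lit 304) (nat_lit 0) (XT.lf (nat_lit 0) (nat_lit 8345772326) (nat_lit 304) (nat_lit 3821806356) (nat_lit 380) (nat_lit 7001180726) (nat_lit 155) (nat_lit 5) (nat_lit 159) (nat_lit 5) (nat_lit 160) (nat_lit 5) (nat_lit 476) (nat_lit 421) (nat_lit 303)) (XT.lf (nat_lit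 0) (nat_lit 813067451) (nat_lit 304) (nat_lit 16046463010) (nat_lit 380) (nat_lit 2658102216) (nat_lit 151) (nat_lit 5) (nat_lit 155) (nat_lit 5) (nat_lit 156) (nat_lit 5) (nat_lit 477) (nat_lit 421) (nat_lit 302))))))))
noncomputable def xc146 : XT := (XT.nd (nat_lit 2340) (nat_lit 2812) (nat_lit 0) (XT.nd (nat_lit 1170) (nat_lit 1824) (nat_lit 0) (XT.nd (nat_lit 546) (nat_lit 1292) (nat_lit 0) (XT.nd (nat_lit 234) (nat_lit 836) (nat_lit 0) (XT.nd (nat_lit 78) (nat_lit 304) (nat_lit 0) (XT.lf (nat_lit 0) (nat_lit 1914969033) (nat_lit 380) (nat_lit 6930074684) (nat_lit 76) (nat_lit 11027352245) (nat_lit 150) (nat_lit 5) (nat_lit 155) (nat_lit 5) (nat_lit 151) (nat_lit 5) (nat_lit 478) (nat_lit 421) (nat_lit 301)) (XT.nd (nat_lit 78) (nat_lit 0) (nat_lit 0) (XT.lf (nat_lit 0) (nat_lit 5254374912) (nat_lit 304) (nat_lit 1355231921) (nat_lit 380) (nat_lit 13626272749) (nat_lit 146) (nat_lit 5) (nat_lit 150) (nat_lit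 5) (nat_lit 151) (nat_lit 5) (nat_lit 479) (nat_lit 421) (nat_lit 300)) (XT.lf (nat_lit 0) (nat_lit 11564296935) (nat_lit 380) (nat_lit 2743182730) (nat_lit 76) (nat_lit 6299212580) (nat_lit 146) (nat_lit 5) (nat_lit 151) (nat_lit 5) (nat_lit 147) (nat_lit 5) (nat_lit 480) (nat_lit 421) (nat_lit 299)))) (XT.nd (nat_lit 156) (nat_lit 228) (nat_lit 0) (XT.nd (nat_lit 78) (nat_lit 380) (nat_lit 0) (XT.lf (nat_lit 0) (nat_lit 10025464771) (nat_lit 228) (nat_lit 6739729574) (nat_lit 304) (nat_lit 4220508849) (nat_lit 143) (nat_lit 5) (nat_lit 146) (nat_lit 5) (nat_lit 147) (nat_lit 5) (nat_lit 481) (nat_lit 421) (nat_lit 298)) (XT.lf (nat_lit 0) (nat_lit 775841579) (nat_lit 380) (nat_lit 19517395672) (nat_lit 76) (nat_lit 1081301977) (nat_lit 138) (nat_lit 5) (nat_lit 143) (nat_lit 5) (nat_lit 139) (nat_lit 5) (nat_lit 482) (nat_lit 421) (nat_lit 297))) (XT.nd (nat_lit 78) (nat_lit 228) (nat_lit 0) (XT.lf (nat_lit 0)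 (nat_lit 6003695589) (nat_lit 380) (nat_lit 6616814187) (nat_lit 76) (nat_lit 9148284545) (nat_lit 138) (nat_lit 5) (nat_lit 143) (nat_lit 5) (nat_lit 139) (nat_lit 5) (nat_lit 483) (nat_lit 421) (nat_lit 296)) (XT.lf (nat_lit 0) (nat_lit 6784532428) (nat_lit 228) (nat_lit 4657359569) (nat_lit 304) (nat_lit 10731380669) (nat_lit 135) (nat_lit 5) (nat_lit 138) (nat_lit 5) (nat_lit 139) (nat_lit 5) (nat_lit 484) (nat_lit 421) (nat_lit 295))))) (XT.nd (nat_lit 312) (nat_lit 760) (nat_lit 0) (XT.nd (nat_lit 156) (nat_lit 228) (nat_lit 0) (XT.nd (nat_lit 78) (nat_lit 304) (nat_lit 0) (XT.lf (nat_lit 0) (nat_lit 17133173252) (nat_lit 304) (nat_lit 1917799371) (nat_lit 76) (nat_lit 3536215348) (nat_lit 135) (nat_lit 5) (nat_lit 139) (nat_lit 5) (nat_lit 136) (nat_lit 5) (nat_lit 485) (nat_lit 421) (nat_lit 294)) (XT.lf (nat_lit 0) (nat_lit 134963721) (nat_lit 304) (nat_lit 10880646168) (nat_lit 76) (nat_lit 11993328851)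 (nat_lit 131) (nat_lit 5) (nat_lit 135) (nat_lit 5) (nat_lit 132) (nat_lit 5) (nat_lit 486) (nat_lit 421) (nat_lit 293))) (XT.nd (nat_lit 78) (nat_lit 0) (nat_lit 0) (XT.lf (nat_lit 0) (nat_lit 3181978284) (nat_lit 228) (nat_lit 2638927320) (nat_lit 304) (nat_lit 17619649705) (nat_lit 128) (nat_lit 5) (nat_lit 131) (nat_lit 5) (nat_lit 132) (nat_lit 5) (nat_lit 487) (nat_lit 421) (nat_lit 292)) (XT.lf (nat_lit 0) (nat_lit 11834813099) (nat_lit 304) (nat_lit 6069286392) (nat_lit 76) (nat_lit 5976299958) (nat_lit 128) (nat_lit 5) (nat_lit 132) (nat_lit 5) (nat_lit 129) (nat_lit 5) (nat_lit 488) (nat_lit 421) (nat_lit 291)))) (XT.nd (nat_lit 156) (nat_lit 532) (nat_lit 0) (XT.nd (nat_lit 78) (nat_lit 0) (nat_lit 0) (XT.lf (nat_lit 0) (nat_lit 8670962561) (nat_lit 228) (nat_lit 9456834274) (nat_lit 304) (nat_lit 6202682979) (nat_lit 125) (nat_lit 5) (nat_lit 128) (nat_lit 5) (nat_lit 129) (nat_lit 5) (nat_lit 489) (nat_lit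 421) (nat_lit 290)) (XT.lf (nat_lit 0) (nat_lit 23960213741) (nat_lit 228) (nat_lit 699970426) (nat_lit 304) (nat_lit 132360654) (nat_lit 125) (nat_lit 5) (nat_lit 128) (nat_lit 5) (nat_lit 129) (nat_lit 5) (nat_lit 490) (nat_lit 421) (nat_lit 289))) (XT.nd (nat_lit 78) (nat_lit 228) (nat_lit 0) (XT.lf (nat_lit 0) (nat_lit 6212883393) (nat_lit 304) (nat_lit 10695293131) (nat_lit 76) (nat_lit 8352163872) (nat_lit 121) (nat_lit 5) (nat_lit 125) (nat_lit 5) (nat_lit 122) (nat_lit 5) (nat_lit 491) (nat_lit 421) (nat_lit 288)) (XT.lf (nat_lit 0) (nat_lit 4766793991) (nat_lit 228) (nat_lit 8029878647) (nat_lit 304) (nat_lit 12943933038) (nat_lit 118) (nat_lit 5) (nat_lit 121) (nat_lit 5) (nat_lit 122) (nat_lit 5) (nat_lit 492) (nat_lit 421) (nat_lit 287)))))) (XT.nd (nat_lit 546) (nat_lit 912) (nat_lit 0) (XT.nd (nat_lit 234) (nat_lit 456) (nat_lit 0) (XT.nd (nat_lit 78) (nat_lit 456) (nat_lit 0) (XT.lf (nat_lit 0) (nat_lit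 19687440717) (nat_lit 304) (nat_lit 5349298491) (nat_lit 76) (nat_lit 1195256332) (nat_lit 118) (nat_lit 5) (nat_lit 122) (nat_lit 5) (nat_lit 119) (nat_lit 5) (nat_lit 493) (nat_lit 421) (nat_lit 286)) (XT.nd (nat_lit 78) (nat_lit 228) (nat_lit 0) (XT.lf (nat_lit 0) (nat_lit 221482420) (nat_lit 228) (nat_lit 15875683243) (nat_lit 76) (nat_lit 10635680755) (nat_lit 115) (nat_lit 5) (nat_lit 118) (nat_lit 5) (nat_lit 116) (nat_lit 5) (nat_lit 494) (nat_lit 421) (nat_lit 285)) (XT.lf (nat_lit 0) (nat_lit 336622318) (nat_lit 228) (nat_lit 6770138646) (nat_lit 304) (nat_lit 20138584484) (nat_lit 112) (nat_lit 5) (nat_lit 115) (nat_lit 5) (nat_lit 116) (nat_lit 5) (nat_lit 495) (nat_lit 421) (nat_lit 284)))) (XT.nd (nat_lit 156) (nat_lit 304) (nat_lit 0) (XT.nd (nat_lit 78) (nat_lit 152) (nat_lit 0) (XT.lf (nat_lit 0) (nat_lit 14377840030) (nat_lit 304) (nat_lit 10453581050) (nat_lit 76) (nat_lit 2936421622) (nat_lit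 112) (nat_lit 5) (nat_lit 116) (nat_lit 5) (nat_lit 113) (nat_lit 5) (nat_lit 496) (nat_lit 421) (nat_lit 283)) (XT.lf (nat_lit 0) (nat_lit 6539236192) (nat_lit 152) (nat_lit 15448068150) (nat_lit 228) (nat_lit 6315103442) (nat_lit 110) (nat_lit 5) (nat_lit 112) (nat_lit 5) (nat_lit 113) (nat_lit 5) (nat_lit 497) (nat_lit 421) (nat_lit 282))) (XT.nd (nat_lit 78) (nat_lit 228) (nat_lit 0) (XT.lf (nat_lit 0) (nat_lit 1050071672) (nat_lit 228) (nat_lit 4620687418) (nat_lit 76) (nat_lit 23179060978) (nat_lit 109) (nat_lit 5) (nat_lit 112) (nat_lit 5) (nat_lit 110) (nat_lit 5) (nat_lit 498) (nat_lit 421) (nat_lit 281)) (XT.lf (nat_lit 0) (nat_lit 8671085503) (nat_lit 304) (nat_lit 16237028695) (nat_lit 76) (nat_lit 4498810882) (nat_lit 106) (nat_lit 5) (nat_lit 110) (nat_lit 5) (nat_lit 107) (nat_lit 5) (nat_lit 499) (nat_lit 421) (nat_lit 280))))) (XT.nd (nat_lit 312) (nat_lit 532) (nat_lit 0) (XT.nd (nat_lit 156) (nat_lit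 228) (nat_lit 0) (XT.nd (nat_lit 78) (nat_lit 0) (nat_lit 0) (XT.lf (nat_lit 0) (nat_lit 1567398513) (nat_lit 152) (nat_lit 15062390820) (nat_lit 228) (nat_lit 13347682568) (nat_lit 104) (nat_lit 5) (nat_lit 106) (nat_lit 5) (nat_lit 107) (nat_lit 5) (nat_lit 500) (nat_lit 421) (nat_lit 279)) (XT.lf (nat_lit 0) (nat_lit 20222807282) (nat_lit 152) (nat_lit 4759250349) (nat_lit 228) (nat_lit 5578433825) (nat_lit 104) (nat_lit 5) (nat_lit 106) (nat_lit 5) (nat_lit 107) (nat_lit 5) (nat_lit 501) (nat_lit 421) (nat_lit 278))) (XT.nd (nat_lit 78) (nat_lit 0) (nat_lit 0) (XT.lf (nat_lit 0) (nat_lit 2505604572) (nat_lit 228) (nat_lit 22813558832) (nat_lit 76) (nat_lit 5837269272) (nat_lit 101) (nat_lit 5) (nat_lit 104) (nat_lit 5) (nat_lit 102) (nat_lit 5) (nat_lit 502) (nat_lit 421) (nat_lit 277)) (XT.lf (nat_lit 0) (nat_lit 10863655629) (nat_lit 228) (nat_lit 4090502195) (nat_lit 76) (nat_lit 16810129367) (nat_lit 101)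 (nat_lit 5) (nat_lit 104) (nat_lit 5) (nat_lit 102) (nat_lit 5) (nat_lit 503) (nat_lit 421) (nat_lit 276)))) (XT.nd (nat_lit 156) (nat_lit 228) (nat_lit 0) (XT.nd (nat_lit 78) (nat_lit 152) (nat_lit 0) (XT.lf (nat_lit 0) (nat_lit 15481040006) (nat_lit 152) (nat_lit 4131548918) (nat_lit 228) (nat_lit 12773584580) (nat_lit 99) (nat_lit 5) (nat_lit 101) (nat_lit 5) (nat_lit 102) (nat_lit 5) (nat_lit 504) (nat_lit 421) (nat_lit 275)) (XT.lf (nat_lit 0) (nat_lit 2666954802) (nat_lit 152) (nat_lit 26083197620) (nat_lit 228) (nat_lit 4272779492) (nat_lit 97) (nat_lit 5) (nat_lit 99) (nat_lit 5) (nat_lit 100) (nat_lit 5) (nat_lit 505) (nat_lit 421) (nat_lit 274))) (XT.nd (nat_lit 78) (nat_lit 152) (nat_lit 0) (XT.lf (nat_lit 0) (nat_lit 4600266377) (nat_lit 228) (nat_lit 10601980181) (nat_lit 76) (nat_lit 18469113141) (nat_lit 96) (nat_lit 5) (nat_lit 99) (nat_lit 5) (nat_lit 97) (nat_lit 5) (nat_lit 506) (nat_lit 421)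 (nat_lit 273)) (XT.lf (nat_lit 0) (nat_lit 9880215596) (nat_lit 152) (nat_lit 3860026559) (nat_lit 228) (nat_lit 20595130846) (nat_lit 94) (nat_lit 5) (nat_lit 96) (nat_lit 5) (nat_lit 97) (nat_lit 5) (nat_lit 507) (nat_lit 421) (nat_lit 272))))))) (XT.nd (nat_lit 1170) (nat_lit 1292) (nat_lit 0) (XT.nd (nat_lit 546) (nat_lit 760) (nat_lit 0) (XT.nd (nat_lit 234) (nat_lit 380) (nat_lit 0) (XT.nd (nat_lit 78) (nat_lit 380) (nat_lit 0) (XT.lf (nat_lit 0) (nat_lit 23329412026) (nat_lit 228) (nat_lit 3913095836) (nat_lit 76) (nat_lit 7771549326) (nat_lit 94) (nat_lit 5) (nat_lit 97) (nat_lit 5) (nat_lit 95) (nat_lit 5) (nat_lit 508) (nat_lit 421) (nat_lit 271)) (XT.nd (nat_lit 78) (nat_lit 228) (nat_lit 0) (XT.lf (nat_lit 0) (nat_lit 17534655240) (nat_lit 152) (nat_lit 15870297308) (nat_lit 228) (nat_lit 2302188808) (nat_lit 92) (nat_lit 5) (nat_lit 94) (nat_lit 5) (nat_lit 95) (nat_lit 5) (nat_lit 509) (nat_lit 421)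 (nat_lit 270)) (XT.lf (nat_lit 0) (nat_lit 3264223954) (nat_lit 152) (nat_lit 4017088109) (nat_lit 228) (nat_lit 29135686574) (nat_lit 89) (nat_lit 5) (nat_lit 91) (nat_lit 5) (nat_lit 92) (nat_lit 5) (nat_lit 510) (nat_lit 421) (nat_lit 269)))) (XT.nd (nat_lit 156) (nat_lit 228) (nat_lit 0) (XT.nd (nat_lit 78) (nat_lit 152) (nat_lit 0) (XT.lf (nat_lit 0) (nat_lit 17362089307) (nat_lit 228) (nat_lit 11544019306) (nat_lit 76) (nat_lit 8233678207) (nat_lit 89) (nat_lit 5) (nat_lit 92) (nat_lit 5) (nat_lit 90) (nat_lit 5) (nat_lit 511) (nat_lit 421) (nat_lit 268)) (XT.lf (nat_lit 0) (nat_lit 10871214861) (nat_lit 152) (nat_lit 17010558526) (nat_lit 228) (nat_lit 9998391042) (nat_lit 87) (nat_lit 5) (nat_lit 89) (nat_lit 5) (nat_lit 90) (nat_lit 5) (nat_lit 512) (nat_lit 421) (nat_lit 267))) (XT.nd (nat_lit 78) (nat_lit 152) (nat_lit 0) (XT.lf (nat_lit 0) (nat_lit 182796360) (nat_lit 228) (nat_lit 4459740999) (nat_lit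 76) (nat_lit 33996896306) (nat_lit 86) (nat_lit 5) (nat_lit 89) (nat_lit 5) (nat_lit 87) (nat_lit 5) (nat_lit 513) (nat_lit 421) (nat_lit 266)) (XT.lf (nat_lit 0) (nat_lit 10724347822) (nat_lit 228) (nat_lit 20469377491) (nat_lit 76) (nat_lit 8217109521) (nat_lit 84) (nat_lit 5) (nat_lit 87) (nat_lit 5) (nat_lit 85) (nat_lit 5) (nat_lit 514) (nat_lit 421) (nat_lit 265))))) (XT.nd (nat_lit 312) (nat_lit 456) (nat_lit 0) (XT.nd (nat_lit 156) (nat_lit 152) (nat_lit 0) (XT.nd (nat_lit 78) (nat_lit 0) (nat_lit 0) (XT.lf (nat_lit 0) (nat_lit 2929048558) (nat_lit 152) (nat_lit 18765180900) (nat_lit 228) (nat_lit 18507786325) (nat_lit 82) (nat_lit 5) (nat_lit 84) (nat_lit 5) (nat_lit 85) (nat_lit 5) (nat_lit 515) (nat_lit 421) (nat_lit 264)) (XT.lf (nat_lit 0) (nat_lit 27435383589) (nat_lit 152) (nat_lit 5757093921) (nat_lit 228) (nat_lit 7818476798) (nat_lit 82) (nat_lit 5) (nat_lit 84) (nat_lit 5) (nat_lit 85) (nat_lit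 5) (nat_lit 516) (nat_lit 421) (nat_lit 263))) (XT.nd (nat_lit 78) (nat_lit 0) (nat_lit 0) (XT.lf (nat_lit 0) (nat_lit 3302464107) (nat_lit 152) (nat_lit 30911639850) (nat_lit 76) (nat_lit 7623940001) (nat_lit 80) (nat_lit 5) (nat_lit 82) (nat_lit 5) (nat_lit 81) (nat_lit 5) (nat_lit 517) (nat_lit 421) (nat_lit 262)) (XT.lf (nat_lit 0) (nat_lit 14788075077) (nat_lit 152) (nat_lit 6393298945) (nat_lit 76) (nat_lit 21500604617) (nat_lit 80) (nat_lit 5) (nat_lit 82) (nat_lit 5) (nat_lit 81) (nat_lit 5) (nat_lit 518) (nat_lit 421) (nat_lit 261)))) (XT.nd (nat_lit 156) (nat_lit 228) (nat_lit 0) (XT.nd (nat_lit 78) (nat_lit 76) (nat_lit 0) (XT.lf (nat_lit 0) (nat_lit 19222666093) (nat_lit 152) (nat_lit 7573320359) (nat_lit 228) (nat_lit 16749913164) (nat_lit 78) (nat_lit 5) (nat_lit 80) (nat_lit 5) (nat_lit 81) (nat_lit 5) (nat_lit 519) (nat_lit 421) (nat_lit 260)) (XT.lf (nat_lit 0) (nat_lit 1253192318) (nat_lit 76)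 (nat_lit 38043098364) (nat_lit 152) (nat_lit 5135483088) (nat_lit 77) (nat_lit 5) (nat_lit 78) (nat_lit 5) (nat_lit 79) (nat_lit 4) (nat_lit 520) (nat_lit 421) (nat_lit 259))) (XT.nd (nat_lit 78) (nat_lit 152) (nat_lit 0) (XT.lf (nat_lit 0) (nat_lit 7010172935) (nat_lit 152) (nat_lit 17397452183) (nat_lit 76) (nat_lit 20925149767) (nat_lit 76) (nat_lit 5) (nat_lit 78) (nat_lit 5) (nat_lit 77) (nat_lit 5) (nat_lit 521) (nat_lit 421) (nat_lit 258)) (XT.lf (nat_lit 0) (nat_lit 9274559465) (nat_lit 152) (nat_lit 10224765663) (nat_lit 228) (nat_lit 26757485370) (nat_lit 74) (nat_lit 5) (nat_lit 76) (nat_lit 5) (nat_lit 77) (nat_lit 5) (nat_lit 522) (nat_lit 421) (nat_lit 257)))))) (XT.nd (nat_lit 624) (nat_lit 684) (nat_lit 0) (XT.nd (nat_lit 312) (nat_lit 304) (nat_lit 0) (XT.nd (nat_lit 156) (nat_lit 228) (nat_lit 0) (XT.nd (nat_lit 78) (nat_lit 76) (nat_lit 0) (XT.lf (nat_lit 0) (nat_lit 32575922481) (nat_lit 228)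 (nat_lit 10156518545) (nat_lit 76) (nat_lit 4469743225) (nat_lit 74) (nat_lit 5) (nat_lit 77) (nat_lit 5) (nat_lit 75) (nat_lit 4) (nat_lit 523) (nat_lit 421) (nat_lit 256)) (XT.lf (nat_lit 0) (nat_lit 17705920104) (nat_lit 76) (nat_lit 28603744142) (nat_lit 152) (nat_lit 1858309760) (nat_lit 73) (nat_lit 5) (nat_lit 74) (nat_lit 5) (nat_lit 75) (nat_lit 4) (nat_lit 524) (nat_lit 421) (nat_lit 255))) (XT.nd (nat_lit 78) (nat_lit 152) (nat_lit 0) (XT.lf (nat_lit 0) (nat_lit 11169317172) (nat_lit 152) (nat_lit 2669144597) (nat_lit 76) (nat_lit 35318109373) (nat_lit 72) (nat_lit 5) (nat_lit 74) (nat_lit 5) (nat_lit 73) (nat_lit 5) (nat_lit 525) (nat_lit 421) (nat_lit 254)) (XT.lf (nat_lit 0) (nat_lit 24814035320) (nat_lit 228) (nat_lit 23739485600) (nat_lit 76) (nat_lit 1612845091) (nat_lit 70) (nat_lit 5) (nat_lit 73) (nat_lit 5) (nat_lit 71) (nat_lit 4) (nat_lit 526) (nat_lit 421) (nat_lit 253)))) (XT.nd (nat_lit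 156) (nat_lit 152) (nat_lit 0) (XT.nd (nat_lit 78) (nat_lit 76) (nat_lit 0) (XT.lf (nat_lit 0) (nat_lit 5196979291) (nat_lit 76) (nat_lit 33878937769) (nat_lit 152) (nat_lit 12124303166) (nat_lit 69) (nat_lit 5) (nat_lit 70) (nat_lit 5) (nat_lit 71) (nat_lit 4) (nat_lit 527) (nat_lit 421) (nat_lit 252)) (XT.lf (nat_lit 0) (nat_lit 1707019254) (nat_lit 152) (nat_lit 16798537000) (nat_lit 76) (nat_lit 33752029171) (nat_lit 68) (nat_lit 5) (nat_lit 70) (nat_lit 5) (nat_lit 69) (nat_lit 5) (nat_lit 528) (nat_lit 421) (nat_lit 251))) (XT.nd (nat_lit 78) (nat_lit 0) (nat_lit 0) (XT.lf (nat_lit 0) (nat_lit 13412323060) (nat_lit 152) (nat_lit 2420024261) (nat_lit 228) (nat_lit 37507040557) (nat_lit 66) (nat_lit 5) (nat_lit 68) (nat_lit 5) (nat_lit 69) (nat_lit 5) (nat_lit 529) (nat_lit 421) (nat_lit 250)) (XT.lf (nat_lit 0) (nat_lit 30682588477) (nat_lit 228) (nat_lit 9724054189) (nat_lit 76) (nat_lit 14037967287) (nat_lit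 66) (nat_lit 5) (nat_lit 69) (nat_lit 5) (nat_lit 67) (nat_lit 4) (nat_lit 530) (nat_lit 421) (nat_lit 249))))) (XT.nd (nat_lit 312) (nat_lit 304) (nat_lit 0) (XT.nd (nat_lit 156) (nat_lit 228) (nat_lit 0) (XT.nd (nat_lit 78) (nat_lit 76) (nat_lit 0) (XT.lf (nat_lit 0) (nat_lit 21774646402) (nat_lit 76) (nat_lit 24430983189) (nat_lit 152) (nat_lit 9370540456) (nat_lit 65) (nat_lit 5) (nat_lit 66) (nat_lit 5) (nat_lit 67) (nat_lit 4) (nat_lit 531) (nat_lit 421) (nat_lit 248)) (XT.lf (nat_lit 0) (nat_lit 5439477953) (nat_lit 152) (nat_lit 2385825591) (nat_lit 76) (nat_lit 48912005261) (nat_lit 64) (nat_lit 5) (nat_lit 66) (nat_lit 5) (nat_lit 65) (nat_lit 5) (nat_lit 532) (nat_lit 421) (nat_lit 247))) (XT.nd (nat_lit 78) (nat_lit 76) (nat_lit 0) (XT.lf (nat_lit 0) (nat_lit 20885448303) (nat_lit 228) (nat_lit 27551856655) (nat_lit 76) (nat_lit 9481793870) (nat_lit 62) (nat_lit 5) (nat_lit 65) (nat_lit 5) (nat_lit 63)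 (nat_lit 4) (nat_lit 533) (nat_lit 421) (nat_lit 246)) (XT.lf (nat_lit 0) (nat_lit 5025505114) (nat_lit 76) (nat_lit 31913626364) (nat_lit 152) (nat_lit 22192881185) (nat_lit 61) (nat_lit 5) (nat_lit 62) (nat_lit 5) (nat_lit 63) (nat_lit 4) (nat_lit 534) (nat_lit 421) (nat_lit 245)))) (XT.nd (nat_lit 156) (nat_lit 76) (nat_lit 0) (XT.nd (nat_lit 78) (nat_lit 228) (nat_lit 0) (XT.lf (nat_lit 0) (nat_lit 39134048881) (nat_lit 76) (nat_lit 14612875967) (nat_lit 152) (nat_lit 6626214197) (nat_lit 61) (nat_lit 5) (nat_lit 62) (nat_lit 5) (nat_lit 63) (nat_lit 4) (nat_lit 535) (nat_lit 421) (nat_lit 244)) (XT.lf (nat_lit 0) (nat_lit 9373836950) (nat_lit 228) (nat_lit 48915923501) (nat_lit 76) (nat_lit 3354527251) (nat_lit 58) (nat_lit 5) (nat_lit 61) (nat_lit 5) (nat_lit 59) (nat_lit 4) (nat_lit 536) (nat_lit 421) (nat_lit 243))) (XT.nd (nat_lit 78) (nat_lit 76) (nat_lit 0) (XT.lf (nat_lit 0) (nat_lit 26076391996) (nat_lit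 228) (nat_lit 15020056602) (nat_lit 76) (nat_lit 21844483669) (nat_lit 58) (nat_lit 5) (nat_lit 61) (nat_lit 5) (nat_lit 59) (nat_lit 4) (nat_lit 537) (nat_lit 421) (nat_lit 242)) (XT.lf (nat_lit 0) (nat_lit 20277963788) (nat_lit 76) (nat_lit 23191551192) (nat_lit 152) (nat_lit 20801276557) (nat_lit 57) (nat_lit 5) (nat_lit 58) (nat_lit 5) (nat_lit 59) (nat_lit 4) (nat_lit 538) (nat_lit 421) (nat_lit 241))))))))
noncomputable def xc147 : XT := (XT.nd (nat_lit 54834) (nat_lit 0) (nat_lit 9424) (XT.nd (nat_lit 53664) (nat_lit 0) (nat_lit 19304) (XT.nd (nat_lit 546) (nat_lit 228) (nat_lit 0) (XT.nd (nat_lit 234) (nat_lit 304) (nat_lit 0) (XT.nd (nat_lit 78) (nat_lit 152) (nat_lit 0) (XT.lf (nat_lit 0) (nat_lit 56932504745) (nat_lit 76) (nat_lit 4598226196) (nat_lit 152) (nat_lit 4105426771) (nat_lit 57) (nat_lit 5) (nat_lit 58) (nat_lit 5) (nat_lit 59) (nat_lit 4) (nat_lit 539) (nat_lit 421) (nat_lit 240)) (XT.nd (nat_lit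 78) (nat_lit 0) (nat_lit 0) (XT.lf (nat_lit 0) (nat_lit 13244020488) (nat_lit 152) (nat_lit 39118835677) (nat_lit 76) (nat_lit 14663608148) (nat_lit 55) (nat_lit 5) (nat_lit 57) (nat_lit 5) (nat_lit 56) (nat_lit 4) (nat_lit 540) (nat_lit 421) (nat_lit 239)) (XT.lf (nat_lit 0) (nat_lit 31160464998) (nat_lit 152) (nat_lit 2757355311) (nat_lit 76) (nat_lit 34535569598) (nat_lit 55) (nat_lit 5) (nat_lit 57) (nat_lit 5) (nat_lit 56) (nat_lit 4) (nat_lit 541) (nat_lit 421) (nat_lit 238)))) (XT.nd (nat_lit 156) (nat_lit 152) (nat_lit 0) (XT.nd (nat_lit 78) (nat_lit 76) (nat_lit 0) (XT.lf (nat_lit 0) (nat_lit 35375434759) (nat_lit 76) (nat_lit 14573913381) (nat_lit 152) (nat_lit 19963726863) (nat_lit 54) (nat_lit 5) (nat_lit 55) (nat_lit 5) (nat_lit 56) (nat_lit 4) (nat_lit 542) (nat_lit 421) (nat_lit 237)) (XT.lf (nat_lit 0) (nat_lit 3295775673) (nat_lit 76) (nat_lit 66112258090) (nat_lit 76) (nat_lit 2005332901) (nat_lit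 53) (nat_lit 4) (nat_lit 54) (nat_lit 5) (nat_lit 54) (nat_lit 4) (nat_lit 543) (nat_lit 421) (nat_lit 236))) (XT.nd (nat_lit 78) (nat_lit 76) (nat_lit 0) (XT.lf (nat_lit 0) (nat_lit 16661419553) (nat_lit 152) (nat_lit 30292152796) (nat_lit 76) (nat_lit 25985596286) (nat_lit 52) (nat_lit 5) (nat_lit 54) (nat_lit 5) (nat_lit 53) (nat_lit 4) (nat_lit 544) (nat_lit 421) (nat_lit 235)) (XT.lf (nat_lit 0) (nat_lit 8810554591) (nat_lit 76) (nat_lit 27117065121) (nat_lit 152) (nat_lit 38580136885) (nat_lit 51) (nat_lit 5) (nat_lit 52) (nat_lit 5) (nat_lit 53) (nat_lit 4) (nat_lit 545) (nat_lit 421) (nat_lit 234))))) (XT.nd (nat_lit 52806) (nat_lit 0) (nat_lit 22192) (XT.nd (nat_lit 156) (nat_lit 152) (nat_lit 0) (XT.nd (nat_lit 78) (nat_lit 76) (nat_lit 0) (XT.lf (nat_lit 0) (nat_lit 49697831582) (nat_lit 76) (nat_lit 6374976438) (nat_lit 152) (nat_lit 20041564191) (nat_lit 51) (nat_lit 5) (nat_lit 52) (nat_lit 5) (nat_lit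 53) (nat_lit 4) (nat_lit 546) (nat_lit 421) (nat_lit 233)) (XT.lf (nat_lit 0) (nat_lit 14165580118) (nat_lit 76) (nat_lit 62932237566) (nat_lit 76) (nat_lit 663104718) (nat_lit 50) (nat_lit 4) (nat_lit 51) (nat_lit 5) (nat_lit 51) (nat_lit 4) (nat_lit 547) (nat_lit 421) (nat_lit 232))) (XT.nd (nat_lit 78) (nat_lit 76) (nat_lit 0) (XT.lf (nat_lit 0) (nat_lit 19247889715) (nat_lit 152) (nat_lit 23202739359) (nat_lit 76) (nat_lit 36990843461) (nat_lit 49) (nat_lit 5) (nat_lit 51) (nat_lit 5) (nat_lit 50) (nat_lit 4) (nat_lit 548) (nat_lit 421) (nat_lit 231)) (XT.lf (nat_lit 0) (nat_lit 18751966408) (nat_lit 76) (nat_lit 21166529061) (nat_lit 152) (nat_lit 41248478533) (nat_lit 48) (nat_lit 5) (nat_lit 49) (nat_lit 5) (nat_lit 50) (nat_lit 4) (nat_lit 549) (nat_lit 421) (nat_lit 230)))) (XT.nd (nat_lit 156) (nat_lit 0) (nat_lit 0) (XT.nd (nat_lit 78) (nat_lit 0) (nat_lit 0) (XT.lf (nat_lit 0) (nat_lit 1118125794) (nat_lit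 0) (nat_lit 1118125794) (nat_lit 988) (nat_lit 2014577474) (nat_lit 340) (nat_lit 5) (nat_lit 340) (nat_lit 3) (nat_lit 353) (nat_lit 3) (nat_lit 422) (nat_lit 422) (nat_lit 356)) (XT.lf (nat_lit 0) (nat_lit 5579563011) (nat_lit 988) (nat_lit 2061042839) (nat_lit 1064) (nat_lit 957215055) (nat_lit 340) (nat_lit 5) (nat_lit 353) (nat_lit 3) (nat_lit 354) (nat_lit 5) (nat_lit 423) (nat_lit 422) (nat_lit 355))) (XT.nd (nat_lit 78) (nat_lit 0) (nat_lit 0) (XT.lf (nat_lit 76) (nat_lit 2270091546) (nat_lit 0) (nat_lit 4453678060) (nat_lit 1064) (nat_lit 1972987272) (nat_lit 341) (nat_lit 5) (nat_lit 340) (nat_lit 5) (nat_lit 354) (nat_lit 5) (nat_lit 424) (nat_lit 422) (nat_lit 354)) (XT.lf (nat_lit 76) (nat_lit 6752103487) (nat_lit 0) (nat_lit 1131944806) (nat_lit 1064) (nat_lit 915166433) (nat_lit 341) (nat_lit 5) (nat_lit 340) (nat_lit 5) (nat_lit 354) (nat_lit 5) (nat_lit 425) (nat_lit 422) (nat_lit 353)))))) (XT.nd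 (nat_lit 546) (nat_lit 1900) (nat_lit 0) (XT.nd (nat_lit 234) (nat_lit 0) (nat_lit 76) (XT.nd (nat_lit 78) (nat_lit 0) (nat_lit 0) (XT.lf (nat_lit 0) (nat_lit 179027406) (nat_lit 1064) (nat_lit 6438282032) (nat_lit 1140) (nat_lit 2287151161) (nat_lit 327) (nat_lit 5) (nat_lit 341) (nat_lit 5) (nat_lit 342) (nat_lit 5) (nat_lit 426) (nat_lit 422) (nat_lit 352)) (XT.nd (nat_lit 78) (nat_lit 0) (nat_lit 76) (XT.lf (nat_lit 0) (nat_lit 1282493754) (nat_lit 1064) (nat_lit 1898412063) (nat_lit 1140) (nat_lit 5831846629) (nat_lit 327) (nat_lit 5) (nat_lit 341) (nat_lit 5) (nat_lit 342) (nat_lit 5) (nat_lit 427) (nat_lit 422) (nat_lit 351)) (XT.lf (nat_lit 0) (nat_lit 2413774949) (nat_lit 1064) (nat_lit 6317795099) (nat_lit 1140) (nat_lit 392887159) (nat_lit 328) (nat_lit 5) (nat_lit 342) (nat_lit 5) (nat_lit 343) (nat_lit 5) (nat_lit 428) (nat_lit 422) (nat_lit 350)))) (XT.nd (nat_lit 156) (nat_lit 0) (nat_lit 76) (XT.nd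 (nat_lit 78) (nat_lit 0) (nat_lit 0) (XT.lf (nat_lit 0) (nat_lit 3594666552) (nat_lit 1064) (nat_lit 1601669451) (nat_lit 1140) (nat_lit 4042712274) (nat_lit 328) (nat_lit 5) (nat_lit 342) (nat_lit 5) (nat_lit 343) (nat_lit 5) (nat_lit 429) (nat_lit 422) (nat_lit 349)) (XT.lf (nat_lit 76) (nat_lit 3298111973) (nat_lit 0) (nat_lit 1510418935) (nat_lit 1140) (nat_lit 4548624962) (nat_lit 329) (nat_lit 5) (nat_lit 328) (nat_lit 5) (nat_lit 343) (nat_lit 5) (nat_lit 430) (nat_lit 422) (nat_lit 348))) (XT.nd (nat_lit 78) (nat_lit 0) (nat_lit 0) (XT.lf (nat_lit 0) (nat_lit 6063856083) (nat_lit 1064) (nat_lit 1145821670) (nat_lit 1140) (nat_lit 2268982611) (nat_lit 329) (nat_lit 5) (nat_lit 343) (nat_lit 5) (nat_lit 344) (nat_lit 5) (nat_lit 431) (nat_lit 422) (nat_lit 347)) (XT.lf (nat_lit 76) (nat_lit 3954599021) (nat_lit 0) (nat_lit 3422915390) (nat_lit 1140) (nat_lit 2225680252) (nat_lit 330) (nat_lit 5) (nat_lit 329)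 (nat_lit 5) (nat_lit 344) (nat_lit 5) (nat_lit 432) (nat_lit 422) (nat_lit 346))))) (XT.nd (nat_lit 312) (nat_lit 988) (nat_lit 0) (XT.nd (nat_lit 156) (nat_lit 0) (nat_lit 0) (XT.nd (nat_lit 78) (nat_lit 1140) (nat_lit 0) (XT.lf (nat_lit 0) (nat_lit 8715379309) (nat_lit 1064) (nat_lit 527535621) (nat_lit 1140) (nat_lit 489010888) (nat_lit 330) (nat_lit 5) (nat_lit 344) (nat_lit 5) (nat_lit 345) (nat_lit 5) (nat_lit 433) (nat_lit 422) (nat_lit 345)) (XT.lf (nat_lit 0) (nat_lit 274195704) (nat_lit 1140) (nat_lit 5081669427) (nat_lit 1216) (nat_lit 4507098227) (nat_lit 315) (nat_lit 5) (nat_lit 330) (nat_lit 5) (nat_lit 331) (nat_lit 5) (nat_lit 434) (nat_lit 422) (nat_lit 344))) (XT.nd (nat_lit 78) (nat_lit 0) (nat_lit 76) (XT.lf (nat_lit 76) (nat_lit 233936085) (nat_lit 0) (nat_lit 1326735220) (nat_lit 1216) (nat_lit 8437639823) (nat_lit 316) (nat_lit 5) (nat_lit 315) (nat_lit 5) (nat_lit 331) (nat_lit 5) (nat_lit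 435) (nat_lit 422) (nat_lit 343)) (XT.lf (nat_lit 0) (nat_lit 2935243553) (nat_lit 1140) (nat_lit 4374319830) (nat_lit 1216) (nat_lit 2826675081) (nat_lit 316) (nat_lit 5) (nat_lit 331) (nat_lit 5) (nat_lit 332) (nat_lit 5) (nat_lit 436) (nat_lit 422) (nat_lit 342)))) (XT.nd (nat_lit 156) (nat_lit 1064) (nat_lit 0) (XT.nd (nat_lit 78) (nat_lit 0) (nat_lit 76) (XT.lf (nat_lit 76) (nat_lit 1164033100) (nat_lit 0) (nat_lit 3182743730) (nat_lit 1216) (nat_lit 5931659155) (nat_lit 317) (nat_lit 5) (nat_lit 316) (nat_lit 5) (nat_lit 332) (nat_lit 5) (nat_lit 437) (nat_lit 422) (nat_lit 341)) (XT.lf (nat_lit 0) (nat_lit 5827593674) (nat_lit 1140) (nat_lit 3499721812) (nat_lit 76) (nat_lit 1096779781) (nat_lit 317) (nat_lit 5) (nat_lit 332) (nat_lit 5) (nat_lit 318) (nat_lit 5) (nat_lit 438) (nat_lit 422) (nat_lit 340))) (XT.nd (nat_lit 78) (nat_lit 0) (nat_lit 0) (XT.lf (nat_lit 0) (nat_lit 2273285263) (nat_lit 1140) (nat_lit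 5105791026) (nat_lit 1216) (nat_lit 3194264647) (nat_lit 302) (nat_lit 5) (nat_lit 317) (nat_lit 5) (nat_lit 318) (nat_lit 5) (nat_lit 439) (nat_lit 422) (nat_lit 339)) (XT.lf (nat_lit 0) (nat_lit 8268486439) (nat_lit 1140) (nat_lit 717405454) (nat_lit 1216) (nat_lit 1740912163) (nat_lit 302) (nat_lit 5) (nat_lit 317) (nat_lit 5) (nat_lit 318) (nat_lit 5) (nat_lit 440) (nat_lit 422) (nat_lit 338))))))) (XT.nd (nat_lit 1170) (nat_lit 3876) (nat_lit 0) (XT.nd (nat_lit 546) (nat_lit 2736) (nat_lit 0) (XT.nd (nat_lit 234) (nat_lit 1216) (nat_lit 0) (XT.nd (nat_lit 78) (nat_lit 836) (nat_lit 0) (XT.lf (nat_lit 0) (nat_lit 3568873616) (nat_lit 1216) (nat_lit 7117154903) (nat_lit 1292) (nat_lit 197492679) (nat_lit 286) (nat_lit 5) (nat_lit 302) (nat_lit 5) (nat_lit 303) (nat_lit 5) (nat_lit 441) (nat_lit 422) (nat_lit 337)) (XT.nd (nat_lit 78) (nat_lit 760) (nat_lit 0) (XT.lf (nat_lit 0) (nat_lit 1371770989) (nat_lit 1292)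 (nat_lit 1260826346) (nat_lit 76) (nat_lit 8411743179) (nat_lit 285) (nat_lit 5) (nat_lit 302) (nat_lit 5) (nat_lit 286) (nat_lit 5) (nat_lit 442) (nat_lit 422) (nat_lit 336)) (XT.lf (nat_lit 0) (nat_lit 3027568453) (nat_lit 836) (nat_lit 6180157702) (nat_lit 76) (nat_lit 2000900152) (nat_lit 275) (nat_lit 5) (nat_lit 286) (nat_lit 5) (nat_lit 276) (nat_lit 5) (nat_lit 443) (nat_lit 422) (nat_lit 335)))) (XT.nd (nat_lit 156) (nat_lit 608) (nat_lit 0) (XT.nd (nat_lit 78) (nat_lit 0) (nat_lit 0) (XT.lf (nat_lit 0) (nat_lit 107713929) (nat_lit 608) (nat_lit 4641086817) (nat_lit 684) (nat_lit 6628570323) (nat_lit 267) (nat_lit 5) (nat_lit 275) (nat_lit 5) (nat_lit 276) (nat_lit 5) (nat_lit 444) (nat_lit 422) (nat_lit 334)) (XT.lf (nat_lit 0) (nat_lit 6561593292) (nat_lit 684) (nat_lit 4863139729) (nat_lit 76) (nat_lit 125250582) (nat_lit 267) (nat_lit 5) (nat_lit 276) (nat_lit 5) (nat_lit 268) (nat_lit 5) (nat_lit 445)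 (nat_lit 422) (nat_lit 333))) (XT.nd (nat_lit 78) (nat_lit 0) (nat_lit 0) (XT.lf (nat_lit 0) (nat_lit 1699955775) (nat_lit 608) (nat_lit 6768093224) (nat_lit 684) (nat_lit 3258550170) (nat_lit 259) (nat_lit 5) (nat_lit 267) (nat_lit 5) (nat_lit 268) (nat_lit 5) (nat_lit 446) (nat_lit 422) (nat_lit 332)) (XT.lf (nat_lit 0) (nat_lit 8537019315) (nat_lit 608) (nat_lit 1921227152) (nat_lit 684) (nat_lit 1449473240) (nat_lit 259) (nat_lit 5) (nat_lit 267) (nat_lit 5) (nat_lit 268) (nat_lit 5) (nat_lit 447) (nat_lit 422) (nat_lit 331))))) (XT.nd (nat_lit 312) (nat_lit 1064) (nat_lit 0) (XT.nd (nat_lit 156) (nat_lit 1064) (nat_lit 0) (XT.nd (nat_lit 78) (nat_lit 0) (nat_lit 0) (XT.lf (nat_lit 0) (nat_lit 447477626) (nat_lit 608) (nat_lit 8596321512) (nat_lit 76) (nat_lit 3049107814) (nat_lit 251) (nat_lit 5) (nat_lit 259) (nat_lit 5) (nat_lit 252) (nat_lit 5) (nat_lit 448) (nat_lit 422) (nat_lit 330)) (XT.lf (nat_lit 0)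 (nat_lit 2403904359) (nat_lit 608) (nat_lit 1700181043) (nat_lit 76) (nat_lit 8178185565) (nat_lit 251) (nat_lit 5) (nat_lit 259) (nat_lit 5) (nat_lit 252) (nat_lit 5) (nat_lit 449) (nat_lit 422) (nat_lit 329))) (XT.nd (nat_lit 78) (nat_lit 532) (nat_lit 0) (XT.lf (nat_lit 0) (nat_lit 4460680198) (nat_lit 608) (nat_lit 6998570059) (nat_lit 76) (nat_lit 1016818575) (nat_lit 244) (nat_lit 5) (nat_lit 252) (nat_lit 5) (nat_lit 245) (nat_lit 5) (nat_lit 450) (nat_lit 422) (nat_lit 328)) (XT.lf (nat_lit 0) (nat_lit 170155450) (nat_lit 532) (nat_lit 6447938437) (nat_lit 608) (nat_lit 6056421253) (nat_lit 237) (nat_lit 5) (nat_lit 244) (nat_lit 5) (nat_lit 245) (nat_lit 5) (nat_lit 451) (nat_lit 422) (nat_lit 327)))) (XT.nd (nat_lit 156) (nat_lit 532) (nat_lit 0) (XT.nd (nat_lit 78) (nat_lit 532) (nat_lit 0) (XT.lf (nat_lit 0) (nat_lit 7675071836) (nat_lit 532) (nat_lit 1215543396) (nat_lit 608) (nat_lit 3986790517) (nat_lit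 237) (nat_lit 5) (nat_lit 244) (nat_lit 5) (nat_lit 245) (nat_lit 5) (nat_lit 452) (nat_lit 422) (nat_lit 326)) (XT.lf (nat_lit 0) (nat_lit 2301279191) (nat_lit 532) (nat_lit 8972560840) (nat_lit 608) (nat_lit 1811269608) (nat_lit 230) (nat_lit 5) (nat_lit 237) (nat_lit 5) (nat_lit 238) (nat_lit 5) (nat_lit 453) (nat_lit 422) (nat_lit 325))) (XT.nd (nat_lit 78) (nat_lit 456) (nat_lit 0) (XT.lf (nat_lit 0) (nat_lit 466677724) (nat_lit 608) (nat_lit 3199940600) (nat_lit 76) (nat_lit 9630938451) (nat_lit 229) (nat_lit 5) (nat_lit 237) (nat_lit 5) (nat_lit 230) (nat_lit 5) (nat_lit 454) (nat_lit 422) (nat_lit 324)) (XT.lf (nat_lit 0) (nat_lit 2820285530) (nat_lit 532) (nat_lit 8870207505) (nat_lit 76) (nat_lit 1824036680) (nat_lit 223) (nat_lit 5) (nat_lit 230) (nat_lit 5) (nat_lit 224) (nat_lit 5) (nat_lit 455) (nat_lit 422) (nat_lit 323)))))) (XT.nd (nat_lit 624) (nat_lit 1596) (nat_lit 0) (XT.nd (nat_lit 312) (nat_lit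 1368) (nat_lit 0) (XT.nd (nat_lit 156) (nat_lit 456) (nat_lit 0) (XT.nd (nat_lit 78) (nat_lit 456) (nat_lit 0) (XT.lf (nat_lit 0) (nat_lit 5294777967) (nat_lit 532) (nat_lit 1006254412) (nat_lit 76) (nat_lit 7435473303) (nat_lit 223) (nat_lit 5) (nat_lit 230) (nat_lit 5) (nat_lit 224) (nat_lit 5) (nat_lit 456) (nat_lit 422) (nat_lit 322)) (XT.lf (nat_lit 0) (nat_lit 7212913379) (nat_lit 456) (nat_lit 681810412) (nat_lit 532) (nat_lit 6068882646) (nat_lit 217) (nat_lit 5) (nat_lit 223) (nat_lit 5) (nat_lit 224) (nat_lit 5) (nat_lit 457) (nat_lit 422) (nat_lit 321))) (XT.nd (nat_lit 78) (nat_lit 0) (nat_lit 0) (XT.lf (nat_lit 0) (nat_lit 1459621938) (nat_lit 456) (nat_lit 9168594478) (nat_lit 532) (nat_lit 3567639354) (nat_lit 211) (nat_lit 5) (nat_lit 217) (nat_lit 5) (nat_lit 218) (nat_lit 5) (nat_lit 458) (nat_lit 422) (nat_lit 320)) (XT.lf (nat_lit 0) (nat_lit 10026211116) (nat_lit 456) (nat_lit 3474842063) (nat_lit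 532) (nat_lit 932301171) (nat_lit 211) (nat_lit 5) (nat_lit 217) (nat_lit 5) (nat_lit 218) (nat_lit 5) (nat_lit 459) (nat_lit 422) (nat_lit 319)))) (XT.nd (nat_lit 156) (nat_lit 836) (nat_lit 0) (XT.nd (nat_lit 78) (nat_lit 0) (nat_lit 0) (XT.lf (nat_lit 0) (nat_lit 1794175166) (nat_lit 532) (nat_lit 10484564785) (nat_lit 76) (nat_lit 2397320263) (nat_lit 204) (nat_lit 5) (nat_lit 211) (nat_lit 5) (nat_lit 205) (nat_lit 5) (nat_lit 460) (nat_lit 422) (nat_lit 318)) (XT.lf (nat_lit 0) (nat_lit 4646139972) (nat_lit 532) (nat_lit 1851861557) (nat_lit 76) (nat_lit 8425897611) (nat_lit 204) (nat_lit 5) (nat_lit 211) (nat_lit 5) (nat_lit 205) (nat_lit 5) (nat_lit 461) (nat_lit 422) (nat_lit 317))) (XT.nd (nat_lit 78) (nat_lit 456) (nat_lit 0) (XT.lf (nat_lit 0) (nat_lit 7158630847) (nat_lit 380) (nat_lit 477422709) (nat_lit 456) (nat_lit 7541549714) (nat_lit 199) (nat_lit 5) (nat_lit 204) (nat_lit 5) (nat_lit 205) (nat_lit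 5) (nat_lit 462) (nat_lit 422) (nat_lit 316)) (XT.lf (nat_lit 0) (nat_lit 981875955) (nat_lit 456) (nat_lit 9800945410) (nat_lit 532) (nat_lit 4654084137) (nat_lit 193) (nat_lit 5) (nat_lit 199) (nat_lit 5) (nat_lit 200) (nat_lit 5) (nat_lit 463) (nat_lit 422) (nat_lit 315))))) (XT.nd (nat_lit 312) (nat_lit 760) (nat_lit 0) (XT.nd (nat_lit 156) (nat_lit 380) (nat_lit 0) (XT.nd (nat_lit 78) (nat_lit 456) (nat_lit 0) (XT.lf (nat_lit 0) (nat_lit 10391396620) (nat_lit 456) (nat_lit 3702335238) (nat_lit 532) (nat_lit 1608164386) (nat_lit 193) (nat_lit 5) (nat_lit 199) (nat_lit 5) (nat_lit 200) (nat_lit 5) (nat_lit 464) (nat_lit 422) (nat_lit 314)) (XT.lf (nat_lit 0) (nat_lit 1548904037) (nat_lit 456) (nat_lit 11844840795) (nat_lit 76) (nat_lit 2579164147) (nat_lit 187) (nat_lit 5) (nat_lit 193) (nat_lit 5) (nat_lit 188) (nat_lit 5) (nat_lit 465) (nat_lit 422) (nat_lit 313))) (XT.nd (nat_lit 78) (nat_lit 380) (nat_lit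 0) (XT.lf (nat_lit 0) (nat_lit 4843777224) (nat_lit 456) (nat_lit 2365727835) (nat_lit 76) (nat_lit 9039808401) (nat_lit 187) (nat_lit 5) (nat_lit 193) (nat_lit 5) (nat_lit 188) (nat_lit 5) (nat_lit 466) (nat_lit 422) (nat_lit 312)) (XT.lf (nat_lit 0) (nat_lit 7524365180) (nat_lit 380) (nat_lit 770510573) (nat_lit 456) (nat_lit 8237414399) (nat_lit 182) (nat_lit 5) (nat_lit 187) (nat_lit 5) (nat_lit 188) (nat_lit 5) (nat_lit 467) (nat_lit 422) (nat_lit 311)))) (XT.nd (nat_lit 156) (nat_lit 456) (nat_lit 0) (XT.nd (nat_lit 78) (nat_lit 0) (nat_lit 0) (XT.lf (nat_lit 0) (nat_lit 876728353) (nat_lit 304) (nat_lit 11046920280) (nat_lit 380) (nat_lit 4897884678) (nat_lit 178) (nat_lit 5) (nat_lit 182) (nat_lit 5) (nat_lit 183) (nat_lit 5) (nat_lit 468) (nat_lit 422) (nat_lit 310)) (XT.lf (nat_lit 0) (nat_lit 11214580337) (nat_lit 304) (nat_lit 4530698501) (nat_lit 380) (nat_lit 1371656469) (nat_lit 178) (nat_lit 5) (nat_lit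 182) (nat_lit 5) (nat_lit 183) (nat_lit 5) (nat_lit 469) (nat_lit 422) (nat_lit 309))) (XT.nd (nat_lit 78) (nat_lit 0) (nat_lit 0) (XT.lf (nat_lit 0) (nat_lit 2266698182) (nat_lit 456) (nat_lit 12953940922) (nat_lit 76) (nat_lit 2198396291) (nat_lit 172) (nat_lit 5) (nat_lit 178) (nat_lit 5) (nat_lit 173) (nat_lit 5) (nat_lit 470) (nat_lit 422) (nat_lit 308)) (XT.lf (nat_lit 0) (nat_lit 6077615549) (nat_lit 456) (nat_lit 2542961387) (nat_lit 76) (nat_lit 9106485945) (nat_lit 172) (nat_lit 5) (nat_lit 178) (nat_lit 5) (nat_lit 173) (nat_lit 5) (nat_lit 471) (nat_lit 422) (nat_lit 307))))))))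
noncomputable def xc148 : XT := (XT.nd (nat_lit 2340) (nat_lit 2888) (nat_lit 0) (XT.nd (nat_lit 1170) (nat_lit 2356) (nat_lit 0) (XT.nd (nat_lit 546) (nat_lit 1216) (nat_lit 0) (XT.nd (nat_lit 234) (nat_lit 988) (nat_lit 0) (XT.nd (nat_lit 78) (nat_lit 304) (nat_lit 0) (XT.lf (nat_lit 0) (nat_lit 8323267783) (nat_lit 304) (nat_lit 1745941072) (nat_lit 380) (nat_lit 7973133101) (nat_lit 168) (nat_lit 5) (nat_lit 172) (nat_lit 5) (nat_lit 173) (nat_lit 5) (nat_lit 472) (nat_lit 422) (nat_lit 306)) (XT.nd (nat_lit 78) (nat_lit 0) (nat_lit 0) (XT.lf (nat_lit 0) (nat_lit 1152603727) (nat_lit 304) (nat_lit 13102737637) (nat_lit 380) (nat_lit 4109495477) (nat_lit 164) (nat_lit 5) (nat_lit 168) (nat_lit 5) (nat_lit 169) (nat_lit 5) (nat_lit 473) (nat_lit 422) (nat_lit 305)) (XT.lf (nat_lit 0) (nat_lit 12512571723) (nat_lit 304) (nat_lit 6156449083) (nat_lit 380) (nat_lit 24928020) (nat_lit 164) (nat_lit 5) (nat_lit 168)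 (nat_lit 5) (nat_lit 169) (nat_lit 5) (nat_lit 474) (nat_lit 422) (nat_lit 304)))) (XT.nd (nat_lit 156) (nat_lit 608) (nat_lit 0) (XT.nd (nat_lit 78) (nat_lit 0) (nat_lit 0) (XT.lf (nat_lit 0) (nat_lit 4148166102) (nat_lit 380) (nat_lit 13818079178) (nat_lit 76) (nat_lit 1064055953) (nat_lit 159) (nat_lit 5) (nat_lit 164) (nat_lit 5) (nat_lit 160) (nat_lit 5) (nat_lit 475) (nat_lit 422) (nat_lit 303)) (XT.lf (nat_lit 0) (nat_lit 8557044044) (nat_lit 380) (nat_lit 2381644568) (nat_lit 76) (nat_lit 8434716482) (nat_lit 159) (nat_lit 5) (nat_lit 164) (nat_lit 5) (nat_lit 160) (nat_lit 5) (nat_lit 476) (nat_lit 422) (nat_lit 302))) (XT.nd (nat_lit 78) (nat_lit 304) (nat_lit 0) (XT.lf (nat_lit 0) (nat_lit 9565814001) (nat_lit 304) (nat_lit 3611801805) (nat_lit 380) (nat_lit 6546804460) (nat_lit 155) (nat_lit 5) (nat_lit 159) (nat_lit 5) (nat_lit 160) (nat_lit 5) (nat_lit 477) (nat_lit 422) (nat_lit 301)) (XT.lf (nat_lit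 0) (nat_lit 1813742912) (nat_lit 304) (nat_lit 16190211088) (nat_lit 380) (nat_lit 2079998401) (nat_lit 151) (nat_lit 5) (nat_lit 155) (nat_lit 5) (nat_lit 156) (nat_lit 5) (nat_lit 478) (nat_lit 422) (nat_lit 300))))) (XT.nd (nat_lit 312) (nat_lit 608) (nat_lit 0) (XT.nd (nat_lit 156) (nat_lit 228) (nat_lit 0) (XT.nd (nat_lit 78) (nat_lit 304) (nat_lit 0) (XT.lf (nat_lit 0) (nat_lit 2598641327) (nat_lit 380) (nat_lit 6177618607) (nat_lit 76) (nat_lit 11673473961) (nat_lit 150) (nat_lit 5) (nat_lit 155) (nat_lit 5) (nat_lit 151) (nat_lit 5) (nat_lit 479) (nat_lit 422) (nat_lit 299)) (XT.lf (nat_lit 0) (nat_lit 6362949200) (nat_lit 304) (nat_lit 1062070596) (nat_lit 380) (nat_lit 13399376557) (nat_lit 146) (nat_lit 5) (nat_lit 150) (nat_lit 5) (nat_lit 151) (nat_lit 5) (nat_lit 480) (nat_lit 422) (nat_lit 298))) (XT.nd (nat_lit 78) (nat_lit 228) (nat_lit 0) (XT.lf (nat_lit 0) (nat_lit 12513491497) (nat_lit 380) (nat_lit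 1887328900) (nat_lit 76) (nat_lit 6805960108) (nat_lit 146) (nat_lit 5) (nat_lit 151) (nat_lit 5) (nat_lit 147) (nat_lit 5) (nat_lit 481) (nat_lit 422) (nat_lit 297)) (XT.lf (nat_lit 0) (nat_lit 11255180484) (nat_lit 228) (nat_lit 6606623280) (nat_lit 304) (nat_lit 3735617679) (nat_lit 143) (nat_lit 5) (nat_lit 146) (nat_lit 5) (nat_lit 147) (nat_lit 5) (nat_lit 482) (nat_lit 422) (nat_lit 296)))) (XT.nd (nat_lit 156) (nat_lit 228) (nat_lit 0) (XT.nd (nat_lit 78) (nat_lit 0) (nat_lit 0) (XT.lf (nat_lit 0) (nat_lit 1393457737) (nat_lit 380) (nat_lit 19156717508) (nat_lit 76) (nat_lit 1447729175) (nat_lit 138) (nat_lit 5) (nat_lit 143) (nat_lit 5) (nat_lit 139) (nat_lit 5) (nat_lit 483) (nat_lit 422) (nat_lit 295)) (XT.lf (nat_lit 0) (nat_lit 6760836467) (nat_lit 380) (nat_lit 5896677803) (nat_lit 76) (nat_lit 9746993410) (nat_lit 138) (nat_lit 5) (nat_lit 143) (nat_lit 5) (nat_lit 139) (nat_lit 5) (nat_lit 484) (nat_lit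 422) (nat_lit 294))) (XT.nd (nat_lit 78) (nat_lit 0) (nat_lit 0) (XT.lf (nat_lit 0) (nat_lit 7897702928) (nat_lit 228) (nat_lit 4456413102) (nat_lit 304) (nat_lit 10467247378) (nat_lit 135) (nat_lit 5) (nat_lit 138) (nat_lit 5) (nat_lit 139) (nat_lit 5) (nat_lit 485) (nat_lit 422) (nat_lit 293)) (XT.lf (nat_lit 0) (nat_lit 18202743184) (nat_lit 304) (nat_lit 1078763195) (nat_lit 76) (nat_lit 3966592690) (nat_lit 135) (nat_lit 5) (nat_lit 139) (nat_lit 5) (nat_lit 136) (nat_lit 5) (nat_lit 486) (nat_lit 422) (nat_lit 292)))))) (XT.nd (nat_lit 546) (nat_lit 1064) (nat_lit 0) (XT.nd (nat_lit 234) (nat_lit 760) (nat_lit 0) (XT.nd (nat_lit 78) (nat_lit 228) (nat_lit 0) (XT.lf (nat_lit 0) (nat_lit 692399990) (nat_lit 304) (nat_lit 10308236647) (nat_lit 76) (nat_lit 12681933486) (nat_lit 131) (nat_lit 5) (nat_lit 135) (nat_lit 5) (nat_lit 132) (nat_lit 5) (nat_lit 487) (nat_lit 422) (nat_lit 291)) (XT.nd (nat_lit 78) (nat_lit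 0) (nat_lit 0) (XT.lf (nat_lit 0) (nat_lit 4167454490) (nat_lit 228) (nat_lit 2373902948) (nat_lit 304) (nat_lit 17586005657) (nat_lit 128) (nat_lit 5) (nat_lit 131) (nat_lit 5) (nat_lit 132) (nat_lit 5) (nat_lit 488) (nat_lit 422) (nat_lit 290)) (XT.lf (nat_lit 0) (nat_lit 12722996571) (nat_lit 304) (nat_lit 5374552221) (nat_lit 76) (nat_lit 6483235328) (nat_lit 128) (nat_lit 5) (nat_lit 132) (nat_lit 5) (nat_lit 129) (nat_lit 5) (nat_lit 489) (nat_lit 422) (nat_lit 289)))) (XT.nd (nat_lit 156) (nat_lit 456) (nat_lit 0) (XT.nd (nat_lit 78) (nat_lit 76) (nat_lit 0) (XT.lf (nat_lit 0) (nat_lit 9799307998) (nat_lit 228) (nat_lit 9398279328) (nat_lit 304) (nat_lit 5846996010) (nat_lit 125) (nat_lit 5) (nat_lit 128) (nat_lit 5) (nat_lit 129) (nat_lit 5) (nat_lit 490) (nat_lit 422) (nat_lit 288)) (XT.lf (nat_lit 0) (nat_lit 382052749) (nat_lit 304) (nat_lit 2767568) (nat_lit 76) (nat_lit 25136038119) (nat_lit 124) (nat_lit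 5) (nat_lit 128) (nat_lit 5) (nat_lit 125) (nat_lit 5) (nat_lit 491) (nat_lit 422) (nat_lit 287))) (XT.nd (nat_lit 78) (nat_lit 228) (nat_lit 0) (XT.lf (nat_lit 0) (nat_lit 6911324172) (nat_lit 304) (nat_lit 10159229908) (nat_lit 76) (nat_lit 8932205456) (nat_lit 121) (nat_lit 5) (nat_lit 125) (nat_lit 5) (nat_lit 122) (nat_lit 5) (nat_lit 492) (nat_lit 422) (nat_lit 286)) (XT.lf (nat_lit 0) (nat_lit 5758318632) (nat_lit 228) (nat_lit 7927550761) (nat_lit 304) (nat_lit 12811766969) (nat_lit 118) (nat_lit 5) (nat_lit 121) (nat_lit 5) (nat_lit 122) (nat_lit 5) (nat_lit 493) (nat_lit 422) (nat_lit 285))))) (XT.nd (nat_lit 312) (nat_lit 608) (nat_lit 0) (XT.nd (nat_lit 156) (nat_lit 228) (nat_lit 0) (XT.nd (nat_lit 78) (nat_lit 228) (nat_lit 0) (XT.lf (nat_lit 0) (nat_lit 20771846324) (nat_lit 304) (nat_lit 4674428879) (nat_lit 76) (nat_lit 1557838977) (nat_lit 118) (nat_lit 5) (nat_lit 122) (nat_lit 5) (nat_lit 119)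 (nat_lit 5) (nat_lit 494) (nat_lit 422) (nat_lit 284)) (XT.lf (nat_lit 0) (nat_lit 720330107) (nat_lit 228) (nat_lit 15514972895) (nat_lit 76) (nat_lit 11284736551) (nat_lit 115) (nat_lit 5) (nat_lit 118) (nat_lit 5) (nat_lit 116) (nat_lit 5) (nat_lit 495) (nat_lit 422) (nat_lit 283))) (XT.nd (nat_lit 78) (nat_lit 0) (nat_lit 0) (XT.lf (nat_lit 0) (nat_lit 1175496138) (nat_lit 228) (nat_lit 6630301547) (nat_lit 304) (nat_lit 20242307711) (nat_lit 112) (nat_lit 5) (nat_lit 115) (nat_lit 5) (nat_lit 116) (nat_lit 5) (nat_lit 496) (nat_lit 422) (nat_lit 282)) (XT.lf (nat_lit 0) (nat_lit 15284059165) (nat_lit 304) (nat_lit 9951577797) (nat_lit 76) (nat_lit 3350969842) (nat_lit 112) (nat_lit 5) (nat_lit 116) (nat_lit 5) (nat_lit 113) (nat_lit 5) (nat_lit 497) (nat_lit 422) (nat_lit 281)))) (XT.nd (nat_lit 156) (nat_lit 380) (nat_lit 0) (XT.nd (nat_lit 78) (nat_lit 76) (nat_lit 0) (XT.lf (nat_lit 0) (nat_lit 7543027780)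 (nat_lit 152) (nat_lit 15572711342) (nat_lit 228) (nat_lit 6021652486) (nat_lit 110) (nat_lit 5) (nat_lit 112) (nat_lit 5) (nat_lit 113) (nat_lit 5) (nat_lit 498) (nat_lit 422) (nat_lit 280)) (XT.lf (nat_lit 0) (nat_lit 1541263979) (nat_lit 228) (nat_lit 3966044990) (nat_lit 76) (nat_lit 24194192430) (nat_lit 109) (nat_lit 5) (nat_lit 112) (nat_lit 5) (nat_lit 110) (nat_lit 5) (nat_lit 499) (nat_lit 422) (nat_lit 279))) (XT.nd (nat_lit 78) (nat_lit 152) (nat_lit 0) (XT.lf (nat_lit 0) (nat_lit 9388257635) (nat_lit 304) (nat_lit 15928204005) (nat_lit 76) (nat_lit 4958938097) (nat_lit 106) (nat_lit 5) (nat_lit 110) (nat_lit 5) (nat_lit 107) (nat_lit 5) (nat_lit 500) (nat_lit 422) (nat_lit 278)) (XT.lf (nat_lit 0) (nat_lit 2402552730) (nat_lit 152) (nat_lit 15177434026) (nat_lit 228) (nat_lit 13283248918) (nat_lit 104) (nat_lit 5) (nat_lit 106) (nat_lit 5) (nat_lit 107) (nat_lit 5) (nat_lit 501) (nat_lit 422) (nat_lit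 277))))))) (XT.nd (nat_lit 1170) (nat_lit 1216) (nat_lit 0) (XT.nd (nat_lit 546) (nat_lit 912) (nat_lit 0) (XT.nd (nat_lit 234) (nat_lit 532) (nat_lit 0) (XT.nd (nat_lit 78) (nat_lit 228) (nat_lit 0) (XT.lf (nat_lit 0) (nat_lit 21594668453) (nat_lit 152) (nat_lit 4575009881) (nat_lit 228) (nat_lit 5294462445) (nat_lit 104) (nat_lit 5) (nat_lit 106) (nat_lit 5) (nat_lit 107) (nat_lit 5) (nat_lit 502) (nat_lit 422) (nat_lit 276)) (XT.nd (nat_lit 78) (nat_lit 0) (nat_lit 0) (XT.lf (nat_lit 0) (nat_lit 3020935125) (nat_lit 228) (nat_lit 22721587147) (nat_lit 76) (nat_lit 6335379045) (nat_lit 101) (nat_lit 5) (nat_lit 104) (nat_lit 5) (nat_lit 102) (nat_lit 5) (nat_lit 503) (nat_lit 422) (nat_lit 275)) (XT.lf (nat_lit 0) (nat_lit 11616907449) (nat_lit 228) (nat_lit 3459451776) (nat_lit 76) (nat_lit 17628017418) (nat_lit 101) (nat_lit 5) (nat_lit 104) (nat_lit 5) (nat_lit 102) (nat_lit 5) (nat_lit 504) (nat_lit 422) (nat_lit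 274)))) (XT.nd (nat_lit 156) (nat_lit 228) (nat_lit 0) (XT.nd (nat_lit 78) (nat_lit 152) (nat_lit 0) (XT.lf (nat_lit 0) (nat_lit 16691846834) (nat_lit 152) (nat_lit 3931189670) (nat_lit 228) (nat_lit 12722041760) (nat_lit 99) (nat_lit 5) (nat_lit 101) (nat_lit 5) (nat_lit 102) (nat_lit 5) (nat_lit 505) (nat_lit 422) (nat_lit 273)) (XT.lf (nat_lit 0) (nat_lit 3495490931) (nat_lit 152) (nat_lit 26537164606) (nat_lit 228) (nat_lit 3968346563) (nat_lit 97) (nat_lit 5) (nat_lit 99) (nat_lit 5) (nat_lit 100) (nat_lit 5) (nat_lit 506) (nat_lit 422) (nat_lit 272))) (XT.nd (nat_lit 78) (nat_lit 152) (nat_lit 0) (XT.lf (nat_lit 0) (nat_lit 5150094186) (nat_lit 228) (nat_lit 10185101059) (nat_lit 76) (nat_lit 19333933859) (nat_lit 96) (nat_lit 5) (nat_lit 99) (nat_lit 5) (nat_lit 97) (nat_lit 5) (nat_lit 507) (nat_lit 422) (nat_lit 271)) (XT.lf (nat_lit 0) (nat_lit 10904355311) (nat_lit 152) (nat_lit 3654914590) (nat_lit 228)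 (nat_lit 20793943372) (nat_lit 94) (nat_lit 5) (nat_lit 96) (nat_lit 5) (nat_lit 97) (nat_lit 5) (nat_lit 508) (nat_lit 422) (nat_lit 270))))) (XT.nd (nat_lit 312) (nat_lit 532) (nat_lit 0) (XT.nd (nat_lit 156) (nat_lit 228) (nat_lit 0) (XT.nd (nat_lit 78) (nat_lit 152) (nat_lit 0) (XT.lf (nat_lit 0) (nat_lit 24427260690) (nat_lit 228) (nat_lit 3315081570) (nat_lit 76) (nat_lit 8310181827) (nat_lit 94) (nat_lit 5) (nat_lit 97) (nat_lit 5) (nat_lit 95) (nat_lit 5) (nat_lit 509) (nat_lit 422) (nat_lit 269)) (XT.lf (nat_lit 0) (nat_lit 18769088242) (nat_lit 152) (nat_lit 16031197444) (nat_lit 228) (nat_lit 1966259007) (nat_lit 92) (nat_lit 5) (nat_lit 94) (nat_lit 5) (nat_lit 95) (nat_lit 5) (nat_lit 510) (nat_lit 422) (nat_lit 268))) (XT.nd (nat_lit 78) (nat_lit 0) (nat_lit 0) (XT.lf (nat_lit 0) (nat_lit 4071439199) (nat_lit 152) (nat_lit 3820657083) (nat_lit 228) (nat_lit 29605627483) (nat_lit 89) (nat_lit 5) (nat_lit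 91) (nat_lit 5) (nat_lit 92) (nat_lit 5) (nat_lit 511) (nat_lit 422) (nat_lit 267)) (XT.lf (nat_lit 0) (nat_lit 18266827243) (nat_lit 228) (nat_lit 11193226584) (nat_lit 76) (nat_lit 8782396277) (nat_lit 89) (nat_lit 5) (nat_lit 92) (nat_lit 5) (nat_lit 90) (nat_lit 5) (nat_lit 512) (nat_lit 422) (nat_lit 266)))) (XT.nd (nat_lit 156) (nat_lit 304) (nat_lit 0) (XT.nd (nat_lit 78) (nat_lit 76) (nat_lit 0) (XT.lf (nat_lit 0) (nat_lit 11887630164) (nat_lit 152) (nat_lit 17209926231) (nat_lit 228) (nat_lit 9907619419) (nat_lit 87) (nat_lit 5) (nat_lit 89) (nat_lit 5) (nat_lit 90) (nat_lit 5) (nat_lit 513) (nat_lit 422) (nat_lit 265)) (XT.lf (nat_lit 0) (nat_lit 560220964) (nat_lit 228) (nat_lit 3915944362) (nat_lit 76) (nat_lit 35311280258) (nat_lit 86) (nat_lit 5) (nat_lit 89) (nat_lit 5) (nat_lit 87) (nat_lit 5) (nat_lit 514) (nat_lit 422) (nat_lit 264))) (XT.nd (nat_lit 78) (nat_lit 152) (nat_lit 0) (XT.lf (nat_lit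 0) (nat_lit 11416551646) (nat_lit 228) (nat_lit 20404390130) (nat_lit 76) (nat_lit 8761091407) (nat_lit 84) (nat_lit 5) (nat_lit 87) (nat_lit 5) (nat_lit 85) (nat_lit 5) (nat_lit 515) (nat_lit 422) (nat_lit 263)) (XT.lf (nat_lit 0) (nat_lit 3689331164) (nat_lit 152) (nat_lit 19021871707) (nat_lit 228) (nat_lit 18685876859) (nat_lit 82) (nat_lit 5) (nat_lit 84) (nat_lit 5) (nat_lit 85) (nat_lit 5) (nat_lit 516) (nat_lit 422) (nat_lit 262)))))) (XT.nd (nat_lit 546) (nat_lit 608) (nat_lit 0) (XT.nd (nat_lit 234) (nat_lit 456) (nat_lit 0) (XT.nd (nat_lit 78) (nat_lit 152) (nat_lit 0) (XT.lf (nat_lit 0) (nat_lit 28911271455) (nat_lit 152) (nat_lit 5632462447) (nat_lit 228) (nat_lit 7686872796) (nat_lit 82) (nat_lit 5) (nat_lit 84) (nat_lit 5) (nat_lit 85) (nat_lit 5) (nat_lit 517) (nat_lit 422) (nat_lit 261)) (XT.nd (nat_lit 78) (nat_lit 0) (nat_lit 0) (XT.lf (nat_lit 0) (nat_lit 3759247571) (nat_lit 152) (nat_lit 31177691386)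 (nat_lit 76) (nat_lit 8145503933) (nat_lit 80) (nat_lit 5) (nat_lit 82) (nat_lit 5) (nat_lit 81) (nat_lit 5) (nat_lit 518) (nat_lit 422) (nat_lit 260)) (XT.lf (nat_lit 0) (nat_lit 15579008146) (nat_lit 152) (nat_lit 5943061350) (nat_lit 76) (nat_lit 22429938999) (nat_lit 80) (nat_lit 5) (nat_lit 82) (nat_lit 5) (nat_lit 81) (nat_lit 5) (nat_lit 519) (nat_lit 422) (nat_lit 259)))) (XT.nd (nat_lit 156) (nat_lit 228) (nat_lit 0) (XT.nd (nat_lit 78) (nat_lit 76) (nat_lit 0) (XT.lf (nat_lit 0) (nat_lit 20435088163) (nat_lit 152) (nat_lit 7508064574) (nat_lit 228) (nat_lit 16898814803) (nat_lit 78) (nat_lit 5) (nat_lit 80) (nat_lit 5) (nat_lit 81) (nat_lit 5) (nat_lit 520) (nat_lit 422) (nat_lit 258)) (XT.lf (nat_lit 0) (nat_lit 1927721706) (nat_lit 76) (nat_lit 38889597721) (nat_lit 152) (nat_lit 4937133196) (nat_lit 77) (nat_lit 5) (nat_lit 78) (nat_lit 5) (nat_lit 79) (nat_lit 4) (nat_lit 521) (nat_lit 422) (nat_lit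 257))) (XT.nd (nat_lit 78) (nat_lit 152) (nat_lit 0) (XT.lf (nat_lit 0) (nat_lit 7555951435) (nat_lit 152) (nat_lit 17294307442) (nat_lit 76) (nat_lit 21832425479) (nat_lit 76) (nat_lit 5) (nat_lit 78) (nat_lit 5) (nat_lit 77) (nat_lit 5) (nat_lit 522) (nat_lit 422) (nat_lit 256)) (XT.lf (nat_lit 0) (nat_lit 10171736435) (nat_lit 152) (nat_lit 10244220323) (nat_lit 228) (nat_lit 27218599202) (nat_lit 74) (nat_lit 5) (nat_lit 76) (nat_lit 5) (nat_lit 77) (nat_lit 5) (nat_lit 523) (nat_lit 422) (nat_lit 255))))) (XT.nd (nat_lit 312) (nat_lit 304) (nat_lit 0) (XT.nd (nat_lit 156) (nat_lit 228) (nat_lit 0) (XT.nd (nat_lit 78) (nat_lit 76) (nat_lit 0) (XT.lf (nat_lit 0) (nat_lit 33877873424) (nat_lit 228) (nat_lit 9853313666) (nat_lit 76) (nat_lit 4877313464) (nat_lit 74) (nat_lit 5) (nat_lit 77) (nat_lit 5) (nat_lit 75) (nat_lit 4) (nat_lit 524) (nat_lit 422) (nat_lit 254)) (XT.lf (nat_lit 0) (nat_lit 18839038334) (nat_lit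 76) (nat_lit 29180918826) (nat_lit 152) (nat_lit 1583417213) (nat_lit 73) (nat_lit 5) (nat_lit 74) (nat_lit 5) (nat_lit 75) (nat_lit 4) (nat_lit 525) (nat_lit 422) (nat_lit 253))) (XT.nd (nat_lit 78) (nat_lit 152) (nat_lit 0) (XT.lf (nat_lit 0) (nat_lit 11819144092) (nat_lit 152) (nat_lit 2158538209) (nat_lit 76) (nat_lit 36644135294) (nat_lit 72) (nat_lit 5) (nat_lit 74) (nat_lit 5) (nat_lit 73) (nat_lit 5) (nat_lit 526) (nat_lit 422) (nat_lit 252)) (XT.lf (nat_lit 0) (nat_lit 25872289553) (nat_lit 228) (nat_lit 23860067190) (nat_lit 76) (nat_lit 1929577233) (nat_lit 70) (nat_lit 5) (nat_lit 73) (nat_lit 5) (nat_lit 71) (nat_lit 4) (nat_lit 527) (nat_lit 422) (nat_lit 251)))) (XT.nd (nat_lit 156) (nat_lit 152) (nat_lit 0) (XT.nd (nat_lit 78) (nat_lit 76) (nat_lit 0) (XT.lf (nat_lit 0) (nat_lit 5938691618) (nat_lit 76) (nat_lit 34619826451) (nat_lit 152) (nat_lit 12168391272) (nat_lit 69) (nat_lit 5) (nat_lit 70)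 (nat_lit 5) (nat_lit 71) (nat_lit 4) (nat_lit 528) (nat_lit 422) (nat_lit 250)) (XT.lf (nat_lit 0) (nat_lit 2062505213) (nat_lit 152) (nat_lit 16727689368) (nat_lit 76) (nat_lit 35025982808) (nat_lit 68) (nat_lit 5) (nat_lit 70) (nat_lit 5) (nat_lit 69) (nat_lit 5) (nat_lit 529) (nat_lit 422) (nat_lit 249))) (XT.nd (nat_lit 78) (nat_lit 0) (nat_lit 0) (XT.lf (nat_lit 0) (nat_lit 14383861164) (nat_lit 152) (nat_lit 2224340763) (nat_lit 228) (nat_lit 38322333937) (nat_lit 66) (nat_lit 5) (nat_lit 68) (nat_lit 5) (nat_lit 69) (nat_lit 5) (nat_lit 530) (nat_lit 422) (nat_lit 248)) (XT.lf (nat_lit 0) (nat_lit 31897690498) (nat_lit 228) (nat_lit 9456918386) (nat_lit 76) (nat_lit 14714493718) (nat_lit 66) (nat_lit 5) (nat_lit 69) (nat_lit 5) (nat_lit 67) (nat_lit 4) (nat_lit 531) (nat_lit 422) (nat_lit 247))))))))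
noncomputable def xc149 : XT := (XT.nd (nat_lit 54912) (nat_lit 0) (nat_lit 10944) (XT.nd (nat_lit 1170) (nat_lit 152) (nat_lit 0) (XT.nd (nat_lit 546) (nat_lit 532) (nat_lit 0) (XT.nd (nat_lit 234) (nat_lit 304) (nat_lit 0) (XT.nd (nat_lit 78) (nat_lit 228) (nat_lit 0) (XT.lf (nat_lit 0) (nat_lit 22981264227) (nat_lit 76) (nat_lit 24901896738) (nat_lit 152) (nat_lit 9351546592) (nat_lit 65) (nat_lit 5) (nat_lit 66) (nat_lit 5) (nat_lit 67) (nat_lit 4) (nat_lit 532) (nat_lit 422) (nat_lit 246)) (XT.nd (nat_lit 78) (nat_lit 152) (nat_lit 0) (XT.lf (nat_lit 0) (nat_lit 5888345641) (nat_lit 152) (nat_lit 1914447754) (nat_lit 76) (nat_lit 50628057844) (nat_lit 64) (nat_lit 5) (nat_lit 66) (nat_lit 5) (nat_lit 65) (nat_lit 5) (nat_lit 533) (nat_lit 422) (nat_lit 245)) (XT.lf (nat_lit 0) (nat_lit 21796994419) (nat_lit 228) (nat_lit 27834752921) (nat_lit 76) (nat_lit 10016368826) (nat_lit 62) (nat_lit 5) (nat_lit 65) (nat_lit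 5) (nat_lit 63) (nat_lit 4) (nat_lit 534) (nat_lit 422) (nat_lit 244)))) (XT.nd (nat_lit 156) (nat_lit 228) (nat_lit 0) (XT.nd (nat_lit 78) (nat_lit 0) (nat_lit 0) (XT.lf (nat_lit 0) (nat_lit 5714599706) (nat_lit 76) (nat_lit 32614562668) (nat_lit 152) (nat_lit 22568348992) (nat_lit 61) (nat_lit 5) (nat_lit 62) (nat_lit 5) (nat_lit 63) (nat_lit 4) (nat_lit 535) (nat_lit 422) (nat_lit 243)) (XT.lf (nat_lit 0) (nat_lit 40830720288) (nat_lit 76) (nat_lit 14802259832) (nat_lit 152) (nat_lit 6543137876) (nat_lit 61) (nat_lit 5) (nat_lit 62) (nat_lit 5) (nat_lit 63) (nat_lit 4) (nat_lit 536) (nat_lit 422) (nat_lit 242))) (XT.nd (nat_lit 78) (nat_lit 0) (nat_lit 0) (XT.lf (nat_lit 0) (nat_lit 9930792100) (nat_lit 228) (nat_lit 49854617475) (nat_lit 76) (nat_lit 3699929097) (nat_lit 58) (nat_lit 5) (nat_lit 61) (nat_lit 5) (nat_lit 59) (nat_lit 4) (nat_lit 537) (nat_lit 422) (nat_lit 241)) (XT.lf (nat_lit 0) (nat_lit 27126392534)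 (nat_lit 228) (nat_lit 14957276037) (nat_lit 76) (nat_lit 22737455099) (nat_lit 58) (nat_lit 5) (nat_lit 61) (nat_lit 5) (nat_lit 59) (nat_lit 4) (nat_lit 538) (nat_lit 422) (nat_lit 240))))) (XT.nd (nat_lit 312) (nat_lit 304) (nat_lit 0) (XT.nd (nat_lit 156) (nat_lit 152) (nat_lit 0) (XT.nd (nat_lit 78) (nat_lit 0) (nat_lit 0) (XT.lf (nat_lit 0) (nat_lit 21394651806) (nat_lit 76) (nat_lit 23643746621) (nat_lit 152) (nat_lit 21152567769) (nat_lit 57) (nat_lit 5) (nat_lit 58) (nat_lit 5) (nat_lit 59) (nat_lit 4) (nat_lit 539) (nat_lit 422) (nat_lit 239)) (XT.lf (nat_lit 0) (nat_lit 59134022707) (nat_lit 76) (nat_lit 4499715597) (nat_lit 152) (nat_lit 3963786579) (nat_lit 57) (nat_lit 5) (nat_lit 58) (nat_lit 5) (nat_lit 59) (nat_lit 4) (nat_lit 540) (nat_lit 422) (nat_lit 238))) (XT.nd (nat_lit 78) (nat_lit 0) (nat_lit 0) (XT.lf (nat_lit 0) (nat_lit 13900439824) (nat_lit 152) (nat_lit 39793144089) (nat_lit 76) (nat_lit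 15335896656) (nat_lit 55) (nat_lit 5) (nat_lit 57) (nat_lit 5) (nat_lit 56) (nat_lit 4) (nat_lit 541) (nat_lit 422) (nat_lit 237)) (XT.lf (nat_lit 0) (nat_lit 32346831104) (nat_lit 152) (nat_lit 2355360769) (nat_lit 76) (nat_lit 35797248593) (nat_lit 55) (nat_lit 5) (nat_lit 57) (nat_lit 5) (nat_lit 56) (nat_lit 4) (nat_lit 542) (nat_lit 422) (nat_lit 236)))) (XT.nd (nat_lit 156) (nat_lit 152) (nat_lit 0) (XT.nd (nat_lit 78) (nat_lit 76) (nat_lit 0) (XT.lf (nat_lit 0) (nat_lit 36916660894) (nat_lit 76) (nat_lit 14780006784) (nat_lit 152) (nat_lit 20306329963) (nat_lit 54) (nat_lit 5) (nat_lit 55) (nat_lit 5) (nat_lit 56) (nat_lit 4) (nat_lit 543) (nat_lit 422) (nat_lit 235)) (XT.lf (nat_lit 0) (nat_lit 3875102972) (nat_lit 76) (nat_lit 67863538570) (nat_lit 76) (nat_lit 1809670807) (nat_lit 53) (nat_lit 4) (nat_lit 54) (nat_lit 5) (nat_lit 54) (nat_lit 4) (nat_lit 544) (nat_lit 422) (nat_lit 234))) (XT.nd (nat_lit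 78) (nat_lit 76) (nat_lit 0) (XT.lf (nat_lit 0) (nat_lit 17404786480) (nat_lit 152) (nat_lit 30729606482) (nat_lit 76) (nat_lit 26985640939) (nat_lit 52) (nat_lit 5) (nat_lit 54) (nat_lit 5) (nat_lit 53) (nat_lit 4) (nat_lit 545) (nat_lit 422) (nat_lit 233)) (XT.lf (nat_lit 0) (nat_lit 9541561431) (nat_lit 76) (nat_lit 27704804381) (nat_lit 152) (nat_lit 39489392011) (nat_lit 51) (nat_lit 5) (nat_lit 52) (nat_lit 5) (nat_lit 53) (nat_lit 4) (nat_lit 546) (nat_lit 422) (nat_lit 232)))))) (XT.nd (nat_lit 53118) (nat_lit 0) (nat_lit 20216) (XT.nd (nat_lit 52806) (nat_lit 0) (nat_lit 21052) (XT.nd (nat_lit 78) (nat_lit 152) (nat_lit 0) (XT.lf (nat_lit 0) (nat_lit 51641863814) (nat_lit 76) (nat_lit 6347028942) (nat_lit 152) (nat_lit 20401889777) (nat_lit 51) (nat_lit 5) (nat_lit 52) (nat_lit 5) (nat_lit 53) (nat_lit 4) (nat_lit 547) (nat_lit 422) (nat_lit 231)) (XT.nd (nat_lit 78) (nat_lit 76) (nat_lit 0) (XT.lf (nat_lit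 0) (nat_lit 15044068292) (nat_lit 76) (nat_lit 64600176983) (nat_lit 76) (nat_lit 442496288) (nat_lit 50) (nat_lit 4) (nat_lit 51) (nat_lit 5) (nat_lit 51) (nat_lit 4) (nat_lit 548) (nat_lit 422) (nat_lit 230)) (XT.lf (nat_lit 0) (nat_lit 20054266716) (nat_lit 152) (nat_lit 23453950245) (nat_lit 76) (nat_lit 38309628034) (nat_lit 49) (nat_lit 5) (nat_lit 51) (nat_lit 5) (nat_lit 50) (nat_lit 4) (nat_lit 549) (nat_lit 422) (nat_lit 229)))) (XT.nd (nat_lit 156) (nat_lit 1064) (nat_lit 0) (XT.nd (nat_lit 78) (nat_lit 0) (nat_lit 0) (XT.lf (nat_lit 0) (nat_lit 1662010160) (nat_lit 0) (nat_lit 1662010160) (nat_lit 988) (nat_lit 1023551821) (nat_lit 340) (nat_lit 5) (nat_lit 340) (nat_lit 3) (nat_lit 353) (nat_lit 3) (nat_lit 423) (nat_lit 423) (nat_lit 354)) (XT.lf (nat_lit 0) (nat_lit 7719329470) (nat_lit 988) (nat_lit 1062625404) (nat_lit 1064) (nat_lit 14315956) (nat_lit 340) (nat_lit 5) (nat_lit 353) (nat_lit 3)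 (nat_lit 354) (nat_lit 5) (nat_lit 424) (nat_lit 423) (nat_lit 353))) (XT.nd (nat_lit 78) (nat_lit 1064) (nat_lit 0) (XT.lf (nat_lit 76) (nat_lit 3388048417) (nat_lit 0) (nat_lit 5462457737) (nat_lit 1064) (nat_lit 49098536) (nat_lit 341) (nat_lit 5) (nat_lit 340) (nat_lit 5) (nat_lit 354) (nat_lit 5) (nat_lit 425) (nat_lit 423) (nat_lit 352)) (XT.lf (nat_lit 0) (nat_lit 963521398) (nat_lit 1064) (nat_lit 1042331041) (nat_lit 1140) (nat_lit 7000691366) (nat_lit 326) (nat_lit 5) (nat_lit 340) (nat_lit 5) (nat_lit 341) (nat_lit 5) (nat_lit 426) (nat_lit 423) (nat_lit 351))))) (XT.nd (nat_lit 312) (nat_lit 912) (nat_lit 0) (XT.nd (nat_lit 156) (nat_lit 0) (nat_lit 0) (XT.nd (nat_lit 78) (nat_lit 0) (nat_lit 0) (XT.lf (nat_lit 0) (nat_lit 2019574102) (nat_lit 1064) (nat_lit 5521446623) (nat_lit 1140) (nat_lit 1575240038) (nat_lit 327) (nat_lit 5) (nat_lit 341) (nat_lit 5) (nat_lit 342) (nat_lit 5) (nat_lit 427) (nat_lit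 423) (nat_lit 350)) (XT.lf (nat_lit 0) (nat_lit 3102692716) (nat_lit 1064) (nat_lit 877710182) (nat_lit 1140) (nat_lit 5249010127) (nat_lit 327) (nat_lit 5) (nat_lit 341) (nat_lit 5) (nat_lit 342) (nat_lit 5) (nat_lit 428) (nat_lit 423) (nat_lit 349))) (XT.nd (nat_lit 78) (nat_lit 0) (nat_lit 76) (XT.lf (nat_lit 76) (nat_lit 3962037388) (nat_lit 0) (nat_lit 260270203) (nat_lit 1140) (nat_lit 5123537354) (nat_lit 328) (nat_lit 5) (nat_lit 327) (nat_lit 5) (nat_lit 342) (nat_lit 5) (nat_lit 429) (nat_lit 423) (nat_lit 348)) (XT.lf (nat_lit 0) (nat_lit 5385630352) (nat_lit 1064) (nat_lit 556493057) (nat_lit 1140) (nat_lit 3523347848) (nat_lit 328) (nat_lit 5) (nat_lit 342) (nat_lit 5) (nat_lit 343) (nat_lit 5) (nat_lit 430) (nat_lit 423) (nat_lit 347)))) (XT.nd (nat_lit 156) (nat_lit 988) (nat_lit 0) (XT.nd (nat_lit 78) (nat_lit 0) (nat_lit 76) (XT.lf (nat_lit 76) (nat_lit 4479563903) (nat_lit 0) (nat_lit 2117729447)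 (nat_lit 1140) (nat_lit 2990994666) (nat_lit 329) (nat_lit 5) (nat_lit 328) (nat_lit 5) (nat_lit 343) (nat_lit 5) (nat_lit 431) (nat_lit 423) (nat_lit 346)) (XT.lf (nat_lit 0) (nat_lit 7837135112) (nat_lit 1064) (nat_lit 75833826) (nat_lit 1140) (nat_lit 1802070206) (nat_lit 329) (nat_lit 5) (nat_lit 343) (nat_lit 5) (nat_lit 344) (nat_lit 5) (nat_lit 432) (nat_lit 423) (nat_lit 345))) (XT.nd (nat_lit 78) (nat_lit 1064) (nat_lit 0) (XT.lf (nat_lit 76) (nat_lit 5166772402) (nat_lit 0) (nat_lit 3987592130) (nat_lit 1140) (nat_lit 690027094) (nat_lit 330) (nat_lit 5) (nat_lit 329) (nat_lit 5) (nat_lit 344) (nat_lit 5) (nat_lit 433) (nat_lit 423) (nat_lit 344)) (XT.lf (nat_lit 0) (nat_lit 500052558) (nat_lit 1140) (nat_lit 9403740127) (nat_lit 1216) (nat_lit 74373182) (nat_lit 315) (nat_lit 5) (nat_lit 330) (nat_lit 5) (nat_lit 331) (nat_lit 5) (nat_lit 434) (nat_lit 423) (nat_lit 343))))))) (XT.nd (nat_lit 1170) (nat_lit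 4408) (nat_lit 0) (XT.nd (nat_lit 546) (nat_lit 3876) (nat_lit 0) (XT.nd (nat_lit 234) (nat_lit 988) (nat_lit 0) (XT.nd (nat_lit 78) (nat_lit 0) (nat_lit 0) (XT.lf (nat_lit 0) (nat_lit 1769842647) (nat_lit 1140) (nat_lit 4103671576) (nat_lit 1216) (nat_lit 4240502051) (nat_lit 315) (nat_lit 5) (nat_lit 330) (nat_lit 5) (nat_lit 331) (nat_lit 5) (nat_lit 435) (nat_lit 423) (nat_lit 342)) (XT.nd (nat_lit 78) (nat_lit 0) (nat_lit 76) (XT.lf (nat_lit 76) (nat_lit 1360319279) (nat_lit 0) (nat_lit 1702030316) (nat_lit 1216) (nat_lit 7192057984) (nat_lit 316) (nat_lit 5) (nat_lit 315) (nat_lit 5) (nat_lit 331) (nat_lit 5) (nat_lit 436) (nat_lit 423) (nat_lit 341)) (XT.lf (nat_lit 0) (nat_lit 4432653467) (nat_lit 1140) (nat_lit 3373080533) (nat_lit 1216) (nat_lit 2592109933) (nat_lit 316) (nat_lit 5) (nat_lit 331) (nat_lit 5) (nat_lit 332) (nat_lit 5) (nat_lit 437) (nat_lit 423) (nat_lit 340)))) (XT.nd (nat_lit 156) (nat_lit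 1064) (nat_lit 0) (XT.nd (nat_lit 78) (nat_lit 0) (nat_lit 76) (XT.lf (nat_lit 76) (nat_lit 2320320349) (nat_lit 0) (nat_lit 3535942547) (nat_lit 1216) (nat_lit 4688958437) (nat_lit 317) (nat_lit 5) (nat_lit 316) (nat_lit 5) (nat_lit 332) (nat_lit 5) (nat_lit 438) (nat_lit 423) (nat_lit 339)) (XT.lf (nat_lit 0) (nat_lit 7338931613) (nat_lit 1140) (nat_lit 2473246170) (nat_lit 76) (nat_lit 884355477) (nat_lit 317) (nat_lit 5) (nat_lit 332) (nat_lit 5) (nat_lit 318) (nat_lit 5) (nat_lit 439) (nat_lit 423) (nat_lit 338))) (XT.nd (nat_lit 78) (nat_lit 0) (nat_lit 0) (XT.lf (nat_lit 0) (nat_lit 3461858301) (nat_lit 1140) (nat_lit 5446942652) (nat_lit 1216) (nat_lit 1942305601) (nat_lit 302) (nat_lit 5) (nat_lit 317) (nat_lit 5) (nat_lit 318) (nat_lit 5) (nat_lit 440) (nat_lit 423) (nat_lit 337)) (XT.lf (nat_lit 0) (nat_lit 9604283245) (nat_lit 1140) (nat_lit 921430428) (nat_lit 1216) (nat_lit 484608474) (nat_lit 302)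 (nat_lit 5) (nat_lit 317) (nat_lit 5) (nat_lit 318) (nat_lit 5) (nat_lit 441) (nat_lit 423) (nat_lit 336))))) (XT.nd (nat_lit 312) (nat_lit 1216) (nat_lit 0) (XT.nd (nat_lit 156) (nat_lit 1368) (nat_lit 0) (XT.nd (nat_lit 78) (nat_lit 0) (nat_lit 0) (XT.lf (nat_lit 0) (nat_lit 1055300846) (nat_lit 1292) (nat_lit 6390265371) (nat_lit 76) (nat_lit 3726708389) (nat_lit 285) (nat_lit 5) (nat_lit 302) (nat_lit 5) (nat_lit 286) (nat_lit 5) (nat_lit 442) (nat_lit 423) (nat_lit 335)) (XT.lf (nat_lit 0) (nat_lit 2631126933) (nat_lit 1292) (nat_lit 190043111) (nat_lit 76) (nat_lit 8517791084) (nat_lit 285) (nat_lit 5) (nat_lit 302) (nat_lit 5) (nat_lit 286) (nat_lit 5) (nat_lit 443) (nat_lit 423) (nat_lit 334))) (XT.nd (nat_lit 78) (nat_lit 608) (nat_lit 0) (XT.lf (nat_lit 0) (nat_lit 4310750496) (nat_lit 836) (nat_lit 5230947829) (nat_lit 76) (nat_lit 1967257368) (nat_lit 275) (nat_lit 5) (nat_lit 286) (nat_lit 5) (nat_lit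 276) (nat_lit 5) (nat_lit 444) (nat_lit 423) (nat_lit 333)) (XT.lf (nat_lit 0) (nat_lit 1234436279) (nat_lit 608) (nat_lit 4825254375) (nat_lit 684) (nat_lit 5623794640) (nat_lit 267) (nat_lit 5) (nat_lit 275) (nat_lit 5) (nat_lit 276) (nat_lit 5) (nat_lit 445) (nat_lit 423) (nat_lit 332)))) (XT.nd (nat_lit 156) (nat_lit 608) (nat_lit 0) (XT.nd (nat_lit 78) (nat_lit 608) (nat_lit 0) (XT.lf (nat_lit 0) (nat_lit 7892415793) (nat_lit 684) (nat_lit 3883665201) (nat_lit 76) (nat_lit 86233235) (nat_lit 267) (nat_lit 5) (nat_lit 276) (nat_lit 5) (nat_lit 268) (nat_lit 5) (nat_lit 446) (nat_lit 423) (nat_lit 331)) (XT.lf (nat_lit 0) (nat_lit 2865290142) (nat_lit 608) (nat_lit 6968458316) (nat_lit 684) (nat_lit 2211153663) (nat_lit 259) (nat_lit 5) (nat_lit 267) (nat_lit 5) (nat_lit 268) (nat_lit 5) (nat_lit 447) (nat_lit 423) (nat_lit 330))) (XT.nd (nat_lit 78) (nat_lit 608) (nat_lit 0) (XT.lf (nat_lit 0) (nat_lit 9875009209)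 (nat_lit 608) (nat_lit 1976264254) (nat_lit 684) (nat_lit 381158396) (nat_lit 259) (nat_lit 5) (nat_lit 267) (nat_lit 5) (nat_lit 268) (nat_lit 5) (nat_lit 448) (nat_lit 423) (nat_lit 329)) (XT.lf (nat_lit 0) (nat_lit 1529991739) (nat_lit 608) (nat_lit 7729352690) (nat_lit 76) (nat_lit 3164144084) (nat_lit 251) (nat_lit 5) (nat_lit 259) (nat_lit 5) (nat_lit 252) (nat_lit 5) (nat_lit 449) (nat_lit 423) (nat_lit 328)))))) (XT.nd (nat_lit 624) (nat_lit 1824) (nat_lit 0) (XT.nd (nat_lit 312) (nat_lit 1520) (nat_lit 0) (XT.nd (nat_lit 156) (nat_lit 532) (nat_lit 0) (XT.nd (nat_lit 78) (nat_lit 532) (nat_lit 0) (XT.lf (nat_lit 0) (nat_lit 3513972737) (nat_lit 608) (nat_lit 659090874) (nat_lit 76) (nat_lit 8446407866) (nat_lit 251) (nat_lit 5) (nat_lit 259) (nat_lit 5) (nat_lit 252) (nat_lit 5) (nat_lit 450) (nat_lit 423) (nat_lit 327)) (XT.lf (nat_lit 0) (nat_lit 5613223462) (nat_lit 608) (nat_lit 6097077849) (nat_lit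 76) (nat_lit 1109362578) (nat_lit 244) (nat_lit 5) (nat_lit 252) (nat_lit 5) (nat_lit 245) (nat_lit 5) (nat_lit 451) (nat_lit 423) (nat_lit 326))) (XT.nd (nat_lit 78) (nat_lit 0) (nat_lit 0) (XT.lf (nat_lit 0) (nat_lit 1275812864) (nat_lit 532) (nat_lit 6540454345) (nat_lit 608) (nat_lit 5208372799) (nat_lit 237) (nat_lit 5) (nat_lit 244) (nat_lit 5) (nat_lit 245) (nat_lit 5) (nat_lit 452) (nat_lit 423) (nat_lit 325)) (XT.lf (nat_lit 0) (nat_lit 8973821806) (nat_lit 532) (nat_lit 1154026936) (nat_lit 608) (nat_lit 3106645600) (nat_lit 237) (nat_lit 5) (nat_lit 244) (nat_lit 5) (nat_lit 245) (nat_lit 5) (nat_lit 453) (nat_lit 423) (nat_lit 324)))) (XT.nd (nat_lit 156) (nat_lit 912) (nat_lit 0) (XT.nd (nat_lit 78) (nat_lit 76) (nat_lit 0) (XT.lf (nat_lit 0) (nat_lit 3456354253) (nat_lit 532) (nat_lit 9109302689) (nat_lit 608) (nat_lit 883283247) (nat_lit 230) (nat_lit 5) (nat_lit 237) (nat_lit 5) (nat_lit 238) (nat_lit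 5) (nat_lit 454) (nat_lit 423) (nat_lit 323)) (XT.lf (nat_lit 0) (nat_lit 1415780737) (nat_lit 608) (nat_lit 2222815787) (nat_lit 76) (nat_lit 10029725770) (nat_lit 229) (nat_lit 5) (nat_lit 237) (nat_lit 5) (nat_lit 230) (nat_lit 5) (nat_lit 455) (nat_lit 423) (nat_lit 322))) (XT.nd (nat_lit 78) (nat_lit 456) (nat_lit 0) (XT.lf (nat_lit 0) (nat_lit 3824364384) (nat_lit 532) (nat_lit 8047453352) (nat_lit 76) (nat_lit 2020458806) (nat_lit 223) (nat_lit 5) (nat_lit 230) (nat_lit 5) (nat_lit 224) (nat_lit 5) (nat_lit 456) (nat_lit 423) (nat_lit 321)) (XT.lf (nat_lit 0) (nat_lit 21116003) (nat_lit 456) (nat_lit 6325397883) (nat_lit 532) (nat_lit 7775198290) (nat_lit 217) (nat_lit 5) (nat_lit 223) (nat_lit 5) (nat_lit 224) (nat_lit 5) (nat_lit 457) (nat_lit 423) (nat_lit 320))))) (XT.nd (nat_lit 312) (nat_lit 836) (nat_lit 0) (XT.nd (nat_lit 156) (nat_lit 532) (nat_lit 0) (XT.nd (nat_lit 78) (nat_lit 456) (nat_lit 0)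 (XT.lf (nat_lit 0) (nat_lit 8476082602) (nat_lit 456) (nat_lit 532234142) (nat_lit 532) (nat_lit 5347796418) (nat_lit 217) (nat_lit 5) (nat_lit 223) (nat_lit 5) (nat_lit 224) (nat_lit 5) (nat_lit 458) (nat_lit 423) (nat_lit 319)) (XT.lf (nat_lit 0) (nat_lit 2564454067) (nat_lit 456) (nat_lit 9245609869) (nat_lit 532) (nat_lit 2785681426) (nat_lit 211) (nat_lit 5) (nat_lit 217) (nat_lit 5) (nat_lit 218) (nat_lit 5) (nat_lit 459) (nat_lit 423) (nat_lit 318))) (XT.nd (nat_lit 78) (nat_lit 532) (nat_lit 0) (XT.lf (nat_lit 0) (nat_lit 11357136741) (nat_lit 456) (nat_lit 3386813108) (nat_lit 532) (nat_lit 97175927) (nat_lit 211) (nat_lit 5) (nat_lit 217) (nat_lit 5) (nat_lit 218) (nat_lit 5) (nat_lit 460) (nat_lit 423) (nat_lit 317)) (XT.lf (nat_lit 0) (nat_lit 2681543772) (nat_lit 532) (nat_lit 9739233074) (nat_lit 76) (nat_lit 2670470975) (nat_lit 204) (nat_lit 5) (nat_lit 211) (nat_lit 5) (nat_lit 205) (nat_lit 5)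 (nat_lit 461) (nat_lit 423) (nat_lit 316)))) (XT.nd (nat_lit 156) (nat_lit 456) (nat_lit 0) (XT.nd (nat_lit 78) (nat_lit 380) (nat_lit 0) (XT.lf (nat_lit 0) (nat_lit 5594789560) (nat_lit 532) (nat_lit 878418710) (nat_lit 76) (nat_lit 8874044543) (nat_lit 204) (nat_lit 5) (nat_lit 211) (nat_lit 5) (nat_lit 205) (nat_lit 5) (nat_lit 462) (nat_lit 423) (nat_lit 315)) (XT.lf (nat_lit 0) (nat_lit 8392300244) (nat_lit 380) (nat_lit 268323862) (nat_lit 456) (nat_lit 6948359741) (nat_lit 199) (nat_lit 5) (nat_lit 204) (nat_lit 5) (nat_lit 205) (nat_lit 5) (nat_lit 463) (nat_lit 423) (nat_lit 314))) (XT.nd (nat_lit 78) (nat_lit 0) (nat_lit 0) (XT.lf (nat_lit 0) (nat_lit 2041839519) (nat_lit 456) (nat_lit 9848776827) (nat_lit 532) (nat_lit 3985786571) (nat_lit 193) (nat_lit 5) (nat_lit 199) (nat_lit 5) (nat_lit 200) (nat_lit 5) (nat_lit 464) (nat_lit 423) (nat_lit 313)) (XT.lf (nat_lit 0) (nat_lit 11703631029) (nat_lit 456)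 (nat_lit 3574379135) (nat_lit 532) (nat_lit 872020881) (nat_lit 193) (nat_lit 5) (nat_lit 199) (nat_lit 5) (nat_lit 200) (nat_lit 5) (nat_lit 465) (nat_lit 423) (nat_lit 312))))))))
noncomputable def xc150 : XT := (XT.nd (nat_lit 2340) (nat_lit 3420) (nat_lit 0) (XT.nd (nat_lit 1170) (nat_lit 2432) (nat_lit 0) (XT.nd (nat_lit 546) (nat_lit 1672) (nat_lit 0) (XT.nd (nat_lit 234) (nat_lit 760) (nat_lit 0) (XT.nd (nat_lit 78) (nat_lit 380) (nat_lit 0) (XT.lf (nat_lit 0) (nat_lit 2354121330) (nat_lit 456) (nat_lit 11173905807) (nat_lit 76) (nat_lit 2901232992) (nat_lit 187) (nat_lit 5) (nat_lit 193) (nat_lit 5) (nat_lit 188) (nat_lit 5) (nat_lit 466) (nat_lit 423) (nat_lit 311)) (XT.nd (nat_lit 78) (nat_lit 380) (nat_lit 0) (XT.lf (nat_lit 0) (nat_lit 5725741193) (nat_lit 456) (nat_lit 1440311116) (nat_lit 76) (nat_lit 9548569566) (nat_lit 187) (nat_lit 5) (nat_lit 193) (nat_lit 5) (nat_lit 188) (nat_lit 5) (nat_lit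 467) (nat_lit 423) (nat_lit 310)) (XT.lf (nat_lit 0) (nat_lit 8736716175) (nat_lit 380) (nat_lit 531684654) (nat_lit 456) (nat_lit 7738048276) (nat_lit 182) (nat_lit 5) (nat_lit 187) (nat_lit 5) (nat_lit 188) (nat_lit 5) (nat_lit 468) (nat_lit 423) (nat_lit 309)))) (XT.nd (nat_lit 156) (nat_lit 456) (nat_lit 0) (XT.nd (nat_lit 78) (nat_lit 0) (nat_lit 0) (XT.lf (nat_lit 0) (nat_lit 1899080175) (nat_lit 304) (nat_lit 11097868814) (nat_lit 380) (nat_lit 4307695228) (nat_lit 178) (nat_lit 5) (nat_lit 182) (nat_lit 5) (nat_lit 183) (nat_lit 5) (nat_lit 469) (nat_lit 423) (nat_lit 308)) (XT.lf (nat_lit 0) (nat_lit 12518056554) (nat_lit 304) (nat_lit 4394329093) (nat_lit 380) (nat_lit 697149862) (nat_lit 178) (nat_lit 5) (nat_lit 182) (nat_lit 5) (nat_lit 183) (nat_lit 5) (nat_lit 470) (nat_lit 423) (nat_lit 307))) (XT.nd (nat_lit 78) (nat_lit 0) (nat_lit 0) (XT.lf (nat_lit 0) (nat_lit 3027990721) (nat_lit 456) (nat_lit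 12353030484) (nat_lit 76) (nat_lit 2539724854) (nat_lit 172) (nat_lit 5) (nat_lit 178) (nat_lit 5) (nat_lit 173) (nat_lit 5) (nat_lit 471) (nat_lit 423) (nat_lit 306)) (XT.lf (nat_lit 0) (nat_lit 6933042650) (nat_lit 456) (nat_lit 1658542787) (nat_lit 76) (nat_lit 9647036518) (nat_lit 172) (nat_lit 5) (nat_lit 178) (nat_lit 5) (nat_lit 173) (nat_lit 5) (nat_lit 472) (nat_lit 423) (nat_lit 305))))) (XT.nd (nat_lit 312) (nat_lit 684) (nat_lit 0) (XT.nd (nat_lit 156) (nat_lit 380) (nat_lit 0) (XT.nd (nat_lit 78) (nat_lit 304) (nat_lit 0) (XT.lf (nat_lit 0) (nat_lit 9524254558) (nat_lit 304) (nat_lit 1509668752) (nat_lit 380) (nat_lit 7529751648) (nat_lit 168) (nat_lit 5) (nat_lit 172) (nat_lit 5) (nat_lit 173) (nat_lit 5) (nat_lit 473) (nat_lit 423) (nat_lit 304)) (XT.lf (nat_lit 0) (nat_lit 2146138530) (nat_lit 304) (nat_lit 13192113069) (nat_lit 380) (nat_lit 3557816427) (nat_lit 164) (nat_lit 5) (nat_lit 168) (nat_lit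 5) (nat_lit 169) (nat_lit 5) (nat_lit 474) (nat_lit 423) (nat_lit 303))) (XT.nd (nat_lit 78) (nat_lit 304) (nat_lit 0) (XT.lf (nat_lit 0) (nat_lit 617342582) (nat_lit 380) (nat_lit 5422705154) (nat_lit 76) (nat_lit 13195398258) (nat_lit 163) (nat_lit 5) (nat_lit 168) (nat_lit 5) (nat_lit 164) (nat_lit 5) (nat_lit 475) (nat_lit 423) (nat_lit 302)) (XT.lf (nat_lit 0) (nat_lit 4908299802) (nat_lit 380) (nat_lit 13281874773) (nat_lit 76) (nat_lit 1391913403) (nat_lit 159) (nat_lit 5) (nat_lit 164) (nat_lit 5) (nat_lit 160) (nat_lit 5) (nat_lit 476) (nat_lit 423) (nat_lit 301)))) (XT.nd (nat_lit 156) (nat_lit 380) (nat_lit 0) (XT.nd (nat_lit 78) (nat_lit 304) (nat_lit 0) (XT.lf (nat_lit 0) (nat_lit 9430928877) (nat_lit 380) (nat_lit 1530038779) (nat_lit 76) (nat_lit 8975074259) (nat_lit 159) (nat_lit 5) (nat_lit 164) (nat_lit 5) (nat_lit 160) (nat_lit 5) (nat_lit 477) (nat_lit 423) (nat_lit 300)) (XT.lf (nat_lit 0) (nat_lit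 10766793987) (nat_lit 304) (nat_lit 3414133857) (nat_lit 380) (nat_lit 6116936855) (nat_lit 155) (nat_lit 5) (nat_lit 159) (nat_lit 5) (nat_lit 160) (nat_lit 5) (nat_lit 478) (nat_lit 423) (nat_lit 299))) (XT.nd (nat_lit 78) (nat_lit 76) (nat_lit 0) (XT.lf (nat_lit 0) (nat_lit 2788395974) (nat_lit 304) (nat_lit 16357653859) (nat_lit 380) (nat_lit 1522314573) (nat_lit 151) (nat_lit 5) (nat_lit 155) (nat_lit 5) (nat_lit 156) (nat_lit 5) (nat_lit 479) (nat_lit 423) (nat_lit 298)) (XT.lf (nat_lit 0) (nat_lit 3266876015) (nat_lit 380) (nat_lit 5457717343) (nat_lit 76) (nat_lit 12320879753) (nat_lit 150) (nat_lit 5) (nat_lit 155) (nat_lit 5) (nat_lit 151) (nat_lit 5) (nat_lit 480) (nat_lit 423) (nat_lit 297)))))) (XT.nd (nat_lit 546) (nat_lit 1292) (nat_lit 0) (XT.nd (nat_lit 234) (nat_lit 608) (nat_lit 0) (XT.nd (nat_lit 78) (nat_lit 228) (nat_lit 0) (XT.lf (nat_lit 0) (nat_lit 7450192695) (nat_lit 304) (nat_lit 779276967)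 (nat_lit 380) (nat_lit 13202164363) (nat_lit 146) (nat_lit 5) (nat_lit 150) (nat_lit 5) (nat_lit 151) (nat_lit 5) (nat_lit 481) (nat_lit 423) (nat_lit 296)) (XT.nd (nat_lit 78) (nat_lit 228) (nat_lit 0) (XT.lf (nat_lit 0) (nat_lit 13456589384) (nat_lit 380) (nat_lit 1059653064) (nat_lit 76) (nat_lit 7309668698) (nat_lit 146) (nat_lit 5) (nat_lit 151) (nat_lit 5) (nat_lit 147) (nat_lit 5) (nat_lit 482) (nat_lit 423) (nat_lit 295)) (XT.lf (nat_lit 0) (nat_lit 12468462036) (nat_lit 228) (nat_lit 6488771285) (nat_lit 304) (nat_lit 3271282744) (nat_lit 143) (nat_lit 5) (nat_lit 146) (nat_lit 5) (nat_lit 147) (nat_lit 5) (nat_lit 483) (nat_lit 423) (nat_lit 294)))) (XT.nd (nat_lit 156) (nat_lit 228) (nat_lit 0) (XT.nd (nat_lit 78) (nat_lit 0) (nat_lit 0) (XT.lf (nat_lit 0) (nat_lit 1995484780) (nat_lit 380) (nat_lit 18839534752) (nat_lit 76) (nat_lit 1805976904) (nat_lit 138) (nat_lit 5) (nat_lit 143) (nat_lit 5) (nat_lit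 139) (nat_lit 5) (nat_lit 484) (nat_lit 423) (nat_lit 293)) (XT.lf (nat_lit 0) (nat_lit 7507567688) (nat_lit 380) (nat_lit 5207671067) (nat_lit 76) (nat_lit 10345049671) (nat_lit 138) (nat_lit 5) (nat_lit 143) (nat_lit 5) (nat_lit 139) (nat_lit 5) (nat_lit 485) (nat_lit 423) (nat_lit 292))) (XT.nd (nat_lit 78) (nat_lit 0) (nat_lit 0) (XT.lf (nat_lit 0) (nat_lit 8992051801) (nat_lit 228) (nat_lit 4268993936) (nat_lit 304) (nat_lit 10228833174) (nat_lit 135) (nat_lit 5) (nat_lit 138) (nat_lit 5) (nat_lit 139) (nat_lit 5) (nat_lit 486) (nat_lit 423) (nat_lit 291)) (XT.lf (nat_lit 0) (nat_lit 19272507951) (nat_lit 304) (nat_lit 266022728) (nat_lit 76) (nat_lit 4391265730) (nat_lit 135) (nat_lit 5) (nat_lit 139) (nat_lit 5) (nat_lit 136) (nat_lit 5) (nat_lit 487) (nat_lit 423) (nat_lit 290))))) (XT.nd (nat_lit 312) (nat_lit 532) (nat_lit 0) (XT.nd (nat_lit 156) (nat_lit 228) (nat_lit 0) (XT.nd (nat_lit 78) (nat_lit 228)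 (nat_lit 0) (XT.lf (nat_lit 0) (nat_lit 1234792649) (nat_lit 304) (nat_lit 9770251297) (nat_lit 76) (nat_lit 13372321522) (nat_lit 131) (nat_lit 5) (nat_lit 135) (nat_lit 5) (nat_lit 132) (nat_lit 5) (nat_lit 488) (nat_lit 423) (nat_lit 289)) (XT.lf (nat_lit 0) (nat_lit 5131404374) (nat_lit 228) (nat_lit 2120685884) (nat_lit 304) (nat_lit 17583626792) (nat_lit 128) (nat_lit 5) (nat_lit 131) (nat_lit 5) (nat_lit 132) (nat_lit 5) (nat_lit 489) (nat_lit 423) (nat_lit 288))) (XT.nd (nat_lit 78) (nat_lit 228) (nat_lit 0) (XT.lf (nat_lit 0) (nat_lit 13607221183) (nat_lit 304) (nat_lit 4709308664) (nat_lit 76) (nat_lit 6986570517) (nat_lit 128) (nat_lit 5) (nat_lit 132) (nat_lit 5) (nat_lit 129) (nat_lit 5) (nat_lit 490) (nat_lit 423) (nat_lit 287)) (XT.lf (nat_lit 0) (nat_lit 10911664615) (nat_lit 228) (nat_lit 9357614856) (nat_lit 304) (nat_lit 5511738102) (nat_lit 125) (nat_lit 5) (nat_lit 128) (nat_lit 5) (nat_lit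 129) (nat_lit 5) (nat_lit 491) (nat_lit 423) (nat_lit 286)))) (XT.nd (nat_lit 156) (nat_lit 228) (nat_lit 0) (XT.nd (nat_lit 78) (nat_lit 0) (nat_lit 0) (XT.lf (nat_lit 0) (nat_lit 817343169) (nat_lit 228) (nat_lit 70147208) (nat_lit 304) (nat_lit 25384145943) (nat_lit 121) (nat_lit 5) (nat_lit 124) (nat_lit 5) (nat_lit 125) (nat_lit 5) (nat_lit 492) (nat_lit 423) (nat_lit 285)) (XT.lf (nat_lit 0) (nat_lit 7601324163) (nat_lit 304) (nat_lit 9656275617) (nat_lit 76) (nat_lit 9510734979) (nat_lit 121) (nat_lit 5) (nat_lit 125) (nat_lit 5) (nat_lit 122) (nat_lit 5) (nat_lit 493) (nat_lit 423) (nat_lit 284))) (XT.nd (nat_lit 78) (nat_lit 0) (nat_lit 0) (XT.lf (nat_lit 0) (nat_lit 6730880446) (nat_lit 228) (nat_lit 7841855515) (nat_lit 304) (nat_lit 12705513833) (nat_lit 118) (nat_lit 5) (nat_lit 121) (nat_lit 5) (nat_lit 122) (nat_lit 5) (nat_lit 494) (nat_lit 423) (nat_lit 283)) (XT.lf (nat_lit 0) (nat_lit 21860438970)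 (nat_lit 304) (nat_lit 4027265603) (nat_lit 76) (nat_lit 1912543753) (nat_lit 118) (nat_lit 5) (nat_lit 122) (nat_lit 5) (nat_lit 119) (nat_lit 5) (nat_lit 495) (nat_lit 423) (nat_lit 282))))))) (XT.nd (nat_lit 1170) (nat_lit 1596) (nat_lit 0) (XT.nd (nat_lit 546) (nat_lit 760) (nat_lit 0) (XT.nd (nat_lit 234) (nat_lit 608) (nat_lit 0) (XT.nd (nat_lit 78) (nat_lit 228) (nat_lit 0) (XT.lf (nat_lit 0) (nat_lit 1205888746) (nat_lit 228) (nat_lit 15191487361) (nat_lit 76) (nat_lit 11934321511) (nat_lit 115) (nat_lit 5) (nat_lit 118) (nat_lit 5) (nat_lit 116) (nat_lit 5) (nat_lit 496) (nat_lit 423) (nat_lit 281)) (XT.nd (nat_lit 78) (nat_lit 0) (nat_lit 0) (XT.lf (nat_lit 0) (nat_lit 1991961089) (nat_lit 228) (nat_lit 6505955566) (nat_lit 304) (nat_lit 20377869611) (nat_lit 112) (nat_lit 5) (nat_lit 115) (nat_lit 5) (nat_lit 116) (nat_lit 5) (nat_lit 497) (nat_lit 423) (nat_lit 280)) (XT.lf (nat_lit 0) (nat_lit 16190204595)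 (nat_lit 304) (nat_lit 9481333836) (nat_lit 76) (nat_lit 3759214624) (nat_lit 112) (nat_lit 5) (nat_lit 116) (nat_lit 5) (nat_lit 113) (nat_lit 5) (nat_lit 498) (nat_lit 423) (nat_lit 279)))) (XT.nd (nat_lit 156) (nat_lit 380) (nat_lit 0) (XT.nd (nat_lit 78) (nat_lit 76) (nat_lit 0) (XT.lf (nat_lit 0) (nat_lit 8530572738) (nat_lit 152) (nat_lit 15720542270) (nat_lit 228) (nat_lit 5747118670) (nat_lit 110) (nat_lit 5) (nat_lit 112) (nat_lit 5) (nat_lit 113) (nat_lit 5) (nat_lit 499) (nat_lit 423) (nat_lit 278)) (XT.lf (nat_lit 0) (nat_lit 2020803960) (nat_lit 228) (nat_lit 3337299832) (nat_lit 76) (nat_lit 25221422315) (nat_lit 109) (nat_lit 5) (nat_lit 112) (nat_lit 5) (nat_lit 110) (nat_lit 5) (nat_lit 500) (nat_lit 423) (nat_lit 277))) (XT.nd (nat_lit 78) (nat_lit 152) (nat_lit 0) (XT.lf (nat_lit 0) (nat_lit 10100708990) (nat_lit 304) (nat_lit 15655804531) (nat_lit 76) (nat_lit 5414203448) (nat_lit 106) (nat_lit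 5) (nat_lit 110) (nat_lit 5) (nat_lit 107) (nat_lit 5) (nat_lit 501) (nat_lit 423) (nat_lit 276)) (XT.lf (nat_lit 0) (nat_lit 3217519557) (nat_lit 152) (nat_lit 15315263864) (nat_lit 228) (nat_lit 13243567361) (nat_lit 104) (nat_lit 5) (nat_lit 106) (nat_lit 5) (nat_lit 107) (nat_lit 5) (nat_lit 502) (nat_lit 423) (nat_lit 275))))) (XT.nd (nat_lit 312) (nat_lit 380) (nat_lit 0) (XT.nd (nat_lit 156) (nat_lit 152) (nat_lit 0) (XT.nd (nat_lit 78) (nat_lit 228) (nat_lit 0) (XT.lf (nat_lit 0) (nat_lit 22963761172) (nat_lit 152) (nat_lit 4404014369) (nat_lit 228) (nat_lit 5027879789) (nat_lit 104) (nat_lit 5) (nat_lit 106) (nat_lit 5) (nat_lit 107) (nat_lit 5) (nat_lit 503) (nat_lit 423) (nat_lit 274)) (XT.lf (nat_lit 0) (nat_lit 3526458471) (nat_lit 228) (nat_lit 22671423611) (nat_lit 76) (nat_lit 6829891067) (nat_lit 101) (nat_lit 5) (nat_lit 104) (nat_lit 5) (nat_lit 102) (nat_lit 5) (nat_lit 504) (nat_lit 423) (nat_lit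 273))) (XT.nd (nat_lit 78) (nat_lit 152) (nat_lit 0) (XT.lf (nat_lit 0) (nat_lit 12368225636) (nat_lit 228) (nat_lit 2852739067) (nat_lit 76) (nat_lit 18452441096) (nat_lit 101) (nat_lit 5) (nat_lit 104) (nat_lit 5) (nat_lit 102) (nat_lit 5) (nat_lit 505) (nat_lit 423) (nat_lit 272)) (XT.lf (nat_lit 0) (nat_lit 17896132851) (nat_lit 152) (nat_lit 3743436119) (nat_lit 228) (nat_lit 12693909104) (nat_lit 99) (nat_lit 5) (nat_lit 101) (nat_lit 5) (nat_lit 102) (nat_lit 5) (nat_lit 506) (nat_lit 423) (nat_lit 271)))) (XT.nd (nat_lit 156) (nat_lit 152) (nat_lit 0) (XT.nd (nat_lit 78) (nat_lit 76) (nat_lit 0) (XT.lf (nat_lit 0) (nat_lit 4305914604) (nat_lit 152) (nat_lit 27023609508) (nat_lit 228) (nat_lit 3679614592) (nat_lit 97) (nat_lit 5) (nat_lit 99) (nat_lit 5) (nat_lit 100) (nat_lit 5) (nat_lit 507) (nat_lit 423) (nat_lit 270)) (XT.lf (nat_lit 0) (nat_lit 5692776686) (nat_lit 228) (nat_lit 9797904041) (nat_lit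 76) (nat_lit 20206861032) (nat_lit 96) (nat_lit 5) (nat_lit 99) (nat_lit 5) (nat_lit 97) (nat_lit 5) (nat_lit 508) (nat_lit 423) (nat_lit 269))) (XT.nd (nat_lit 78) (nat_lit 0) (nat_lit 0) (XT.lf (nat_lit 0) (nat_lit 11917444353) (nat_lit 152) (nat_lit 3462070968) (nat_lit 228) (nat_lit 21022774965) (nat_lit 94) (nat_lit 5) (nat_lit 96) (nat_lit 5) (nat_lit 97) (nat_lit 5) (nat_lit 509) (nat_lit 423) (nat_lit 268)) (XT.lf (nat_lit 0) (nat_lit 25535199920) (nat_lit 228) (nat_lit 2740194173) (nat_lit 76) (nat_lit 8847437155) (nat_lit 94) (nat_lit 5) (nat_lit 97) (nat_lit 5) (nat_lit 95) (nat_lit 5) (nat_lit 510) (nat_lit 423) (nat_lit 267)))))) (XT.nd (nat_lit 624) (nat_lit 684) (nat_lit 0) (XT.nd (nat_lit 312) (nat_lit 380) (nat_lit 0) (XT.nd (nat_lit 156) (nat_lit 152) (nat_lit 0) (XT.nd (nat_lit 78) (nat_lit 228) (nat_lit 0) (XT.lf (nat_lit 0) (nat_lit 19999889559) (nat_lit 152) (nat_lit 16215018857) (nat_lit 228)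 (nat_lit 1643499708) (nat_lit 92) (nat_lit 5) (nat_lit 94) (nat_lit 5) (nat_lit 95) (nat_lit 5) (nat_lit 511) (nat_lit 423) (nat_lit 266)) (XT.lf (nat_lit 0) (nat_lit 4862154838) (nat_lit 152) (nat_lit 3636526991) (nat_lit 228) (nat_lit 30112865317) (nat_lit 89) (nat_lit 5) (nat_lit 91) (nat_lit 5) (nat_lit 92) (nat_lit 5) (nat_lit 512) (nat_lit 423) (nat_lit 265))) (XT.nd (nat_lit 78) (nat_lit 152) (nat_lit 0) (XT.lf (nat_lit 0) (nat_lit 19176671307) (nat_lit 228) (nat_lit 10871927235) (nat_lit 76) (nat_lit 9330256632) (nat_lit 89) (nat_lit 5) (nat_lit 92) (nat_lit 5) (nat_lit 90) (nat_lit 5) (nat_lit 513) (nat_lit 423) (nat_lit 264)) (XT.lf (nat_lit 0) (nat_lit 12894913096) (nat_lit 152) (nat_lit 17433124715) (nat_lit 228) (nat_lit 9836553767) (nat_lit 87) (nat_lit 5) (nat_lit 89) (nat_lit 5) (nat_lit 90) (nat_lit 5) (nat_lit 514) (nat_lit 423) (nat_lit 263)))) (XT.nd (nat_lit 156) (nat_lit 152) (nat_lit 0) (XT.nd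 (nat_lit 78) (nat_lit 152) (nat_lit 0) (XT.lf (nat_lit 0) (nat_lit 927617387) (nat_lit 228) (nat_lit 3394730199) (nat_lit 76) (nat_lit 36648191541) (nat_lit 86) (nat_lit 5) (nat_lit 89) (nat_lit 5) (nat_lit 87) (nat_lit 5) (nat_lit 515) (nat_lit 423) (nat_lit 262)) (XT.lf (nat_lit 0) (nat_lit 12108254896) (nat_lit 228) (nat_lit 20376434469) (nat_lit 76) (nat_lit 9304316835) (nat_lit 84) (nat_lit 5) (nat_lit 87) (nat_lit 5) (nat_lit 85) (nat_lit 5) (nat_lit 516) (nat_lit 423) (nat_lit 261))) (XT.nd (nat_lit 78) (nat_lit 0) (nat_lit 0) (XT.lf (nat_lit 0) (nat_lit 4433823098) (nat_lit 152) (nat_lit 19303844080) (nat_lit 228) (nat_lit 18890959664) (nat_lit 82) (nat_lit 5) (nat_lit 84) (nat_lit 5) (nat_lit 85) (nat_lit 5) (nat_lit 517) (nat_lit 423) (nat_lit 260)) (XT.lf (nat_lit 0) (nat_lit 30393961054) (nat_lit 152) (nat_lit 5521160808) (nat_lit 228) (nat_lit 7572339658) (nat_lit 82) (nat_lit 5) (nat_lit 84) (nat_lit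 5) (nat_lit 85) (nat_lit 5) (nat_lit 518) (nat_lit 423) (nat_lit 259))))) (XT.nd (nat_lit 312) (nat_lit 304) (nat_lit 0) (XT.nd (nat_lit 156) (nat_lit 228) (nat_lit 0) (XT.nd (nat_lit 78) (nat_lit 0) (nat_lit 0) (XT.lf (nat_lit 0) (nat_lit 4209200548) (nat_lit 152) (nat_lit 31489685658) (nat_lit 76) (nat_lit 8665904239) (nat_lit 80) (nat_lit 5) (nat_lit 82) (nat_lit 5) (nat_lit 81) (nat_lit 5) (nat_lit 519) (nat_lit 423) (nat_lit 258)) (XT.lf (nat_lit 0) (nat_lit 16373733293) (nat_lit 152) (nat_lit 5516172152) (nat_lit 76) (nat_lit 23370832498) (nat_lit 80) (nat_lit 5) (nat_lit 82) (nat_lit 5) (nat_lit 81) (nat_lit 5) (nat_lit 520) (nat_lit 423) (nat_lit 257))) (XT.nd (nat_lit 78) (nat_lit 76) (nat_lit 0) (XT.lf (nat_lit 0) (nat_lit 21647388698) (nat_lit 152) (nat_lit 7457639252) (nat_lit 228) (nat_lit 17072481333) (nat_lit 78) (nat_lit 5) (nat_lit 80) (nat_lit 5) (nat_lit 81) (nat_lit 5) (nat_lit 521) (nat_lit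 423) (nat_lit 256)) (XT.lf (nat_lit 0) (nat_lit 2585924380) (nat_lit 76) (nat_lit 39778414417) (nat_lit 152) (nat_lit 4753062835) (nat_lit 77) (nat_lit 5) (nat_lit 78) (nat_lit 5) (nat_lit 79) (nat_lit 4) (nat_lit 522) (nat_lit 423) (nat_lit 255)))) (XT.nd (nat_lit 156) (nat_lit 76) (nat_lit 0) (XT.nd (nat_lit 78) (nat_lit 152) (nat_lit 0) (XT.lf (nat_lit 0) (nat_lit 8098845748) (nat_lit 152) (nat_lit 17223949837) (nat_lit 76) (nat_lit 22750873802) (nat_lit 76) (nat_lit 5) (nat_lit 78) (nat_lit 5) (nat_lit 77) (nat_lit 5) (nat_lit 523) (nat_lit 423) (nat_lit 254)) (XT.lf (nat_lit 0) (nat_lit 11060299015) (nat_lit 152) (nat_lit 10280750147) (nat_lit 228) (nat_lit 27713156303) (nat_lit 74) (nat_lit 5) (nat_lit 76) (nat_lit 5) (nat_lit 77) (nat_lit 5) (nat_lit 524) (nat_lit 423) (nat_lit 253))) (XT.nd (nat_lit 78) (nat_lit 76) (nat_lit 0) (XT.lf (nat_lit 0) (nat_lit 35200245322) (nat_lit 228) (nat_lit 9575908613) (nat_lit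 76) (nat_lit 5281412057) (nat_lit 74) (nat_lit 5) (nat_lit 77) (nat_lit 5) (nat_lit 75) (nat_lit 4) (nat_lit 525) (nat_lit 423) (nat_lit 252)) (XT.lf (nat_lit 0) (nat_lit 19971596256) (nat_lit 76) (nat_lit 29791535721) (nat_lit 152) (nat_lit 1319258083) (nat_lit 73) (nat_lit 5) (nat_lit 74) (nat_lit 5) (nat_lit 75) (nat_lit 4) (nat_lit 526) (nat_lit 423) (nat_lit 251))))))))
noncomputable def xc151 : XT := (XT.nd (nat_lit 54990) (nat_lit 0) (nat_lit 12160) (XT.nd (nat_lit 1170) (nat_lit 532) (nat_lit 0) (XT.nd (nat_lit 546) (nat_lit 608) (nat_lit 0) (XT.nd (nat_lit 234) (nat_lit 304) (nat_lit 0) (XT.nd (nat_lit 78) (nat_lit 228) (nat_lit 0) (XT.lf (nat_lit 0) (nat_lit 12470398031) (nat_lit 152) (nat_lit 1666521118) (nat_lit 76) (nat_lit 37994644798) (nat_lit 72) (nat_lit 5) (nat_lit 74) (nat_lit 5) (nat_lit 73) (nat_lit 5) (nat_lit 527) (nat_lit 423) (nat_lit 250)) (XT.nd (nat_lit 78) (nat_lit 76) (nat_lit 0) (XT.lf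 (nat_lit 0) (nat_lit 26944276105) (nat_lit 228) (nat_lit 24018226659) (nat_lit 76) (nat_lit 2240407135) (nat_lit 70) (nat_lit 5) (nat_lit 73) (nat_lit 5) (nat_lit 71) (nat_lit 4) (nat_lit 528) (nat_lit 423) (nat_lit 249)) (XT.lf (nat_lit 0) (nat_lit 6669027830) (nat_lit 76) (nat_lit 35398755441) (nat_lit 152) (nat_lit 12232150722) (nat_lit 69) (nat_lit 5) (nat_lit 70) (nat_lit 5) (nat_lit 71) (nat_lit 4) (nat_lit 529) (nat_lit 423) (nat_lit 248)))) (XT.nd (nat_lit 156) (nat_lit 76) (nat_lit 0) (XT.nd (nat_lit 78) (nat_lit 152) (nat_lit 0) (XT.lf (nat_lit 0) (nat_lit 2411189098) (nat_lit 152) (nat_lit 16687712392) (nat_lit 76) (nat_lit 36323150040) (nat_lit 68) (nat_lit 5) (nat_lit 70) (nat_lit 5) (nat_lit 69) (nat_lit 5) (nat_lit 530) (nat_lit 423) (nat_lit 247)) (XT.lf (nat_lit 0) (nat_lit 15351872816) (nat_lit 152) (nat_lit 2038187372) (nat_lit 228) (nat_lit 39179876670) (nat_lit 66) (nat_lit 5) (nat_lit 68) (nat_lit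 5) (nat_lit 69) (nat_lit 5) (nat_lit 531) (nat_lit 423) (nat_lit 246))) (XT.nd (nat_lit 78) (nat_lit 76) (nat_lit 0) (XT.lf (nat_lit 0) (nat_lit 33132332936) (nat_lit 228) (nat_lit 9213849212) (nat_lit 76) (nat_lit 15396655659) (nat_lit 66) (nat_lit 5) (nat_lit 69) (nat_lit 5) (nat_lit 67) (nat_lit 4) (nat_lit 532) (nat_lit 423) (nat_lit 245)) (XT.lf (nat_lit 0) (nat_lit 24192314402) (nat_lit 76) (nat_lit 25401978480) (nat_lit 152) (nat_lit 9349210458) (nat_lit 65) (nat_lit 5) (nat_lit 66) (nat_lit 5) (nat_lit 67) (nat_lit 4) (nat_lit 533) (nat_lit 423) (nat_lit 244))))) (XT.nd (nat_lit 312) (nat_lit 304) (nat_lit 0) (XT.nd (nat_lit 156) (nat_lit 76) (nat_lit 0) (XT.nd (nat_lit 78) (nat_lit 152) (nat_lit 0) (XT.lf (nat_lit 0) (nat_lit 6334279966) (nat_lit 152) (nat_lit 1460096282) (nat_lit 76) (nat_lit 52381316042) (nat_lit 64) (nat_lit 5) (nat_lit 66) (nat_lit 5) (nat_lit 65) (nat_lit 5) (nat_lit 534) (nat_lit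 423) (nat_lit 243)) (XT.lf (nat_lit 0) (nat_lit 22719527747) (nat_lit 228) (nat_lit 28157344350) (nat_lit 76) (nat_lit 10552623055) (nat_lit 62) (nat_lit 5) (nat_lit 65) (nat_lit 5) (nat_lit 63) (nat_lit 4) (nat_lit 535) (nat_lit 423) (nat_lit 242))) (XT.nd (nat_lit 78) (nat_lit 0) (nat_lit 0) (XT.lf (nat_lit 0) (nat_lit 6393464825) (nat_lit 76) (nat_lit 33351249632) (nat_lit 152) (nat_lit 22971746310) (nat_lit 61) (nat_lit 5) (nat_lit 62) (nat_lit 5) (nat_lit 63) (nat_lit 4) (nat_lit 536) (nat_lit 423) (nat_lit 241)) (XT.lf (nat_lit 0) (nat_lit 42548289593) (nat_lit 76) (nat_lit 15011618969) (nat_lit 152) (nat_lit 6473749341) (nat_lit 61) (nat_lit 5) (nat_lit 62) (nat_lit 5) (nat_lit 63) (nat_lit 4) (nat_lit 537) (nat_lit 423) (nat_lit 240)))) (XT.nd (nat_lit 156) (nat_lit 76) (nat_lit 0) (XT.nd (nat_lit 78) (nat_lit 0) (nat_lit 0) (XT.lf (nat_lit 0) (nat_lit 10488627298) (nat_lit 228) (nat_lit 50851826617) (nat_lit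 76) (nat_lit 4041642426) (nat_lit 58) (nat_lit 5) (nat_lit 61) (nat_lit 5) (nat_lit 59) (nat_lit 4) (nat_lit 538) (nat_lit 423) (nat_lit 239)) (XT.lf (nat_lit 0) (nat_lit 28192525510) (nat_lit 228) (nat_lit 14922082296) (nat_lit 76) (nat_lit 23643574340) (nat_lit 58) (nat_lit 5) (nat_lit 61) (nat_lit 5) (nat_lit 59) (nat_lit 4) (nat_lit 539) (nat_lit 423) (nat_lit 238))) (XT.nd (nat_lit 78) (nat_lit 0) (nat_lit 0) (XT.lf (nat_lit 0) (nat_lit 22515659147) (nat_lit 76) (nat_lit 24123488743) (nat_lit 152) (nat_lit 21530054515) (nat_lit 57) (nat_lit 5) (nat_lit 58) (nat_lit 5) (nat_lit 59) (nat_lit 4) (nat_lit 540) (nat_lit 423) (nat_lit 237)) (XT.lf (nat_lit 0) (nat_lit 61373254831) (nat_lit 76) (nat_lit 4411823302) (nat_lit 152) (nat_lit 3833097956) (nat_lit 57) (nat_lit 5) (nat_lit 58) (nat_lit 5) (nat_lit 59) (nat_lit 4) (nat_lit 541) (nat_lit 423) (nat_lit 236)))))) (XT.nd (nat_lit 546) (nat_lit 76) (nat_lit 0)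 (XT.nd (nat_lit 234) (nat_lit 228) (nat_lit 0) (XT.nd (nat_lit 78) (nat_lit 76) (nat_lit 0) (XT.lf (nat_lit 0) (nat_lit 14561678413) (nat_lit 152) (nat_lit 40516341129) (nat_lit 76) (nat_lit 16015014242) (nat_lit 55) (nat_lit 5) (nat_lit 57) (nat_lit 5) (nat_lit 56) (nat_lit 4) (nat_lit 542) (nat_lit 423) (nat_lit 235)) (XT.nd (nat_lit 78) (nat_lit 76) (nat_lit 0) (XT.lf (nat_lit 0) (nat_lit 33554348070) (nat_lit 152) (nat_lit 1969131026) (nat_lit 76) (nat_lit 37083826911) (nat_lit 55) (nat_lit 5) (nat_lit 57) (nat_lit 5) (nat_lit 56) (nat_lit 4) (nat_lit 543) (nat_lit 423) (nat_lit 234)) (XT.lf (nat_lit 0) (nat_lit 38476571967) (nat_lit 76) (nat_lit 15005550452) (nat_lit 152) (nat_lit 20673924324) (nat_lit 54) (nat_lit 5) (nat_lit 55) (nat_lit 5) (nat_lit 56) (nat_lit 4) (nat_lit 544) (nat_lit 423) (nat_lit 233)))) (XT.nd (nat_lit 156) (nat_lit 76) (nat_lit 0) (XT.nd (nat_lit 78) (nat_lit 76) (nat_lit 0) (XT.lf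 (nat_lit 0) (nat_lit 4444230064) (nat_lit 76) (nat_lit 69680680222) (nat_lit 76) (nat_lit 1622824085) (nat_lit 53) (nat_lit 4) (nat_lit 54) (nat_lit 5) (nat_lit 54) (nat_lit 4) (nat_lit 545) (nat_lit 423) (nat_lit 232)) (XT.lf (nat_lit 0) (nat_lit 18156475121) (nat_lit 152) (nat_lit 31207238953) (nat_lit 76) (nat_lit 28003030663) (nat_lit 52) (nat_lit 5) (nat_lit 54) (nat_lit 5) (nat_lit 53) (nat_lit 4) (nat_lit 546) (nat_lit 423) (nat_lit 231))) (XT.nd (nat_lit 78) (nat_lit 0) (nat_lit 0) (XT.lf (nat_lit 0) (nat_lit 10267708550) (nat_lit 76) (nat_lit 28323136096) (nat_lit 152) (nat_lit 40440169558) (nat_lit 51) (nat_lit 5) (nat_lit 52) (nat_lit 5) (nat_lit 53) (nat_lit 4) (nat_lit 547) (nat_lit 423) (nat_lit 230)) (XT.lf (nat_lit 0) (nat_lit 53618207375) (nat_lit 76) (nat_lit 6330825813) (nat_lit 152) (nat_lit 20786855001) (nat_lit 51) (nat_lit 5) (nat_lit 52) (nat_lit 5) (nat_lit 53) (nat_lit 4) (nat_lit 548)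 (nat_lit 423) (nat_lit 229))))) (XT.nd (nat_lit 52962) (nat_lit 0) (nat_lit 20976) (XT.nd (nat_lit 52806) (nat_lit 0) (nat_lit 20900) (XT.nd (nat_lit 52728) (nat_lit 0) (nat_lit 22040) (XT.lf (nat_lit 0) (nat_lit 15922877165) (nat_lit 76) (nat_lit 66330785073) (nat_lit 76) (nat_lit 229075379) (nat_lit 50) (nat_lit 4) (nat_lit 51) (nat_lit 5) (nat_lit 51) (nat_lit 4) (nat_lit 549) (nat_lit 423) (nat_lit 228)) (XT.lf (nat_lit 0) (nat_lit 2192915419) (nat_lit 0) (nat_lit 2192915419) (nat_lit 988) (nat_lit 63153675) (nat_lit 340) (nat_lit 5) (nat_lit 340) (nat_lit 3) (nat_lit 353) (nat_lit 3) (nat_lit 424) (nat_lit 424) (nat_lit 352))) (XT.nd (nat_lit 78) (nat_lit 0) (nat_lit 76) (XT.lf (nat_lit 0) (nat_lit 799171563) (nat_lit 1140) (nat_lit 111787344) (nat_lit 1140) (nat_lit 8092629931) (nat_lit 325) (nat_lit 3) (nat_lit 340) (nat_lit 3) (nat_lit 340) (nat_lit 5) (nat_lit 425) (nat_lit 424) (nat_lit 351)) (XT.lf (nat_lit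 0) (nat_lit 1783181247) (nat_lit 1064) (nat_lit 4650074622) (nat_lit 1140) (nat_lit 2678090191) (nat_lit 326) (nat_lit 5) (nat_lit 340) (nat_lit 5) (nat_lit 341) (nat_lit 5) (nat_lit 426) (nat_lit 424) (nat_lit 350)))) (XT.nd (nat_lit 156) (nat_lit 0) (nat_lit 76) (XT.nd (nat_lit 78) (nat_lit 0) (nat_lit 76) (XT.lf (nat_lit 0) (nat_lit 2771811417) (nat_lit 1064) (nat_lit 77152219) (nat_lit 1140) (nat_lit 6374124683) (nat_lit 326) (nat_lit 5) (nat_lit 340) (nat_lit 5) (nat_lit 341) (nat_lit 5) (nat_lit 427) (nat_lit 424) (nat_lit 349)) (XT.lf (nat_lit 0) (nat_lit 3809990597) (nat_lit 1064) (nat_lit 4640823766) (nat_lit 1140) (nat_lit 886776947) (nat_lit 327) (nat_lit 5) (nat_lit 341) (nat_lit 5) (nat_lit 342) (nat_lit 5) (nat_lit 428) (nat_lit 424) (nat_lit 348))) (XT.nd (nat_lit 78) (nat_lit 0) (nat_lit 0) (XT.lf (nat_lit 76) (nat_lit 113975056) (nat_lit 0) (nat_lit 4762339934) (nat_lit 1140) (nat_lit 4579309426)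 (nat_lit 328) (nat_lit 5) (nat_lit 327) (nat_lit 5) (nat_lit 342) (nat_lit 5) (nat_lit 429) (nat_lit 424) (nat_lit 347)) (XT.lf (nat_lit 76) (nat_lit 5086732241) (nat_lit 0) (nat_lit 902443262) (nat_lit 1140) (nat_lit 3587591495) (nat_lit 328) (nat_lit 5) (nat_lit 327) (nat_lit 5) (nat_lit 342) (nat_lit 5) (nat_lit 430) (nat_lit 424) (nat_lit 346))))))) (XT.nd (nat_lit 1170) (nat_lit 4940) (nat_lit 0) (XT.nd (nat_lit 546) (nat_lit 2964) (nat_lit 0) (XT.nd (nat_lit 234) (nat_lit 1064) (nat_lit 0) (XT.nd (nat_lit 78) (nat_lit 0) (nat_lit 0) (XT.lf (nat_lit 76) (nat_lit 466383783) (nat_lit 0) (nat_lit 6671804257) (nat_lit 1140) (nat_lit 2563277561) (nat_lit 329) (nat_lit 5) (nat_lit 328) (nat_lit 5) (nat_lit 343) (nat_lit 5) (nat_lit 431) (nat_lit 424) (nat_lit 345)) (XT.nd (nat_lit 78) (nat_lit 0) (nat_lit 76) (XT.lf (nat_lit 76) (nat_lit 5634318971) (nat_lit 0) (nat_lit 2710998293) (nat_lit 1140) (nat_lit 1483883103)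 (nat_lit 329) (nat_lit 5) (nat_lit 328) (nat_lit 5) (nat_lit 343) (nat_lit 5) (nat_lit 432) (nat_lit 424) (nat_lit 344)) (XT.lf (nat_lit 76) (nat_lit 982021504) (nat_lit 0) (nat_lit 8599680033) (nat_lit 1140) (nat_lit 379278864) (nat_lit 330) (nat_lit 5) (nat_lit 329) (nat_lit 5) (nat_lit 344) (nat_lit 5) (nat_lit 433) (nat_lit 424) (nat_lit 343)))) (XT.nd (nat_lit 156) (nat_lit 0) (nat_lit 76) (XT.nd (nat_lit 78) (nat_lit 0) (nat_lit 0) (XT.lf (nat_lit 0) (nat_lit 784104768) (nat_lit 1140) (nat_lit 3750666408) (nat_lit 1216) (nat_lit 5560514890) (nat_lit 314) (nat_lit 5) (nat_lit 329) (nat_lit 5) (nat_lit 330) (nat_lit 5) (nat_lit 434) (nat_lit 424) (nat_lit 342)) (XT.lf (nat_lit 76) (nat_lit 1642484945) (nat_lit 0) (nat_lit 319740863) (nat_lit 1216) (nat_lit 8271662747) (nat_lit 315) (nat_lit 5) (nat_lit 314) (nat_lit 5) (nat_lit 330) (nat_lit 5) (nat_lit 435) (nat_lit 424) (nat_lit 341))) (XT.nd (nat_lit 78)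 (nat_lit 0) (nat_lit 0) (XT.lf (nat_lit 0) (nat_lit 3224974945) (nat_lit 1140) (nat_lit 3161226125) (nat_lit 1216) (nat_lit 3988973476) (nat_lit 315) (nat_lit 5) (nat_lit 330) (nat_lit 5) (nat_lit 331) (nat_lit 5) (nat_lit 436) (nat_lit 424) (nat_lit 340)) (XT.lf (nat_lit 76) (nat_lit 2456237832) (nat_lit 0) (nat_lit 2069325592) (nat_lit 1216) (nat_lit 5995140834) (nat_lit 316) (nat_lit 5) (nat_lit 315) (nat_lit 5) (nat_lit 331) (nat_lit 5) (nat_lit 437) (nat_lit 424) (nat_lit 339))))) (XT.nd (nat_lit 312) (nat_lit 2052) (nat_lit 0) (XT.nd (nat_lit 156) (nat_lit 1064) (nat_lit 0) (XT.nd (nat_lit 78) (nat_lit 0) (nat_lit 0) (XT.lf (nat_lit 0) (nat_lit 5894083075) (nat_lit 1140) (nat_lit 2406812405) (nat_lit 1216) (nat_lit 2368840712) (nat_lit 316) (nat_lit 5) (nat_lit 331) (nat_lit 5) (nat_lit 332) (nat_lit 5) (nat_lit 438) (nat_lit 424) (nat_lit 338)) (XT.lf (nat_lit 76) (nat_lit 3446925204) (nat_lit 0) (nat_lit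 3884943348) (nat_lit 1216) (nat_lit 3490527848) (nat_lit 317) (nat_lit 5) (nat_lit 316) (nat_lit 5) (nat_lit 332) (nat_lit 5) (nat_lit 439) (nat_lit 424) (nat_lit 337))) (XT.nd (nat_lit 78) (nat_lit 1140) (nat_lit 0) (XT.lf (nat_lit 0) (nat_lit 8818888542) (nat_lit 1140) (nat_lit 1480927111) (nat_lit 76) (nat_lit 679641257) (nat_lit 317) (nat_lit 5) (nat_lit 332) (nat_lit 5) (nat_lit 318) (nat_lit 5) (nat_lit 440) (nat_lit 424) (nat_lit 336)) (XT.lf (nat_lit 0) (nat_lit 4621774451) (nat_lit 1140) (nat_lit 5787538126) (nat_lit 1216) (nat_lit 730156270) (nat_lit 302) (nat_lit 5) (nat_lit 317) (nat_lit 5) (nat_lit 318) (nat_lit 5) (nat_lit 441) (nat_lit 424) (nat_lit 335)))) (XT.nd (nat_lit 156) (nat_lit 760) (nat_lit 0) (XT.nd (nat_lit 78) (nat_lit 1216) (nat_lit 0) (XT.lf (nat_lit 0) (nat_lit 719941051) (nat_lit 1216) (nat_lit 393888699) (nat_lit 76) (nat_lit 10190502059) (nat_lit 301) (nat_lit 5) (nat_lit 317) (nat_lit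 5) (nat_lit 302) (nat_lit 5) (nat_lit 442) (nat_lit 424) (nat_lit 334)) (XT.lf (nat_lit 0) (nat_lit 2269681050) (nat_lit 1292) (nat_lit 5505654861) (nat_lit 76) (nat_lit 3696466543) (nat_lit 285) (nat_lit 5) (nat_lit 302) (nat_lit 5) (nat_lit 286) (nat_lit 5) (nat_lit 443) (nat_lit 424) (nat_lit 333))) (XT.nd (nat_lit 78) (nat_lit 0) (nat_lit 0) (XT.lf (nat_lit 0) (nat_lit 866126227) (nat_lit 760) (nat_lit 3000533238) (nat_lit 836) (nat_lit 7777618405) (nat_lit 275) (nat_lit 5) (nat_lit 285) (nat_lit 5) (nat_lit 286) (nat_lit 5) (nat_lit 444) (nat_lit 424) (nat_lit 332)) (XT.lf (nat_lit 0) (nat_lit 5563981946) (nat_lit 836) (nat_lit 4318393178) (nat_lit 76) (nat_lit 1937982329) (nat_lit 275) (nat_lit 5) (nat_lit 286) (nat_lit 5) (nat_lit 276) (nat_lit 5) (nat_lit 445) (nat_lit 424) (nat_lit 331)))))) (XT.nd (nat_lit 624) (nat_lit 2052) (nat_lit 0) (XT.nd (nat_lit 312) (nat_lit 1596) (nat_lit 0) (XT.nd (nat_lit 156)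 (nat_lit 684) (nat_lit 0) (XT.nd (nat_lit 78) (nat_lit 0) (nat_lit 0) (XT.lf (nat_lit 0) (nat_lit 2330467325) (nat_lit 608) (nat_lit 5012367509) (nat_lit 684) (nat_lit 4657969133) (nat_lit 267) (nat_lit 5) (nat_lit 275) (nat_lit 5) (nat_lit 276) (nat_lit 5) (nat_lit 446) (nat_lit 424) (nat_lit 330)) (XT.lf (nat_lit 0) (nat_lit 9198068182) (nat_lit 684) (nat_lit 2939407205) (nat_lit 76) (nat_lit 48500820) (nat_lit 267) (nat_lit 5) (nat_lit 276) (nat_lit 5) (nat_lit 268) (nat_lit 5) (nat_lit 447) (nat_lit 424) (nat_lit 329))) (XT.nd (nat_lit 78) (nat_lit 76) (nat_lit 0) (XT.lf (nat_lit 0) (nat_lit 4001617113) (nat_lit 608) (nat_lit 7174988073) (nat_lit 684) (nat_lit 1198071729) (nat_lit 259) (nat_lit 5) (nat_lit 267) (nat_lit 5) (nat_lit 268) (nat_lit 5) (nat_lit 448) (nat_lit 424) (nat_lit 328)) (XT.lf (nat_lit 0) (nat_lit 642595175) (nat_lit 684) (nat_lit 1384017576) (nat_lit 76) (nat_lit 10541950375) (nat_lit 258)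 (nat_lit 5) (nat_lit 267) (nat_lit 5) (nat_lit 259) (nat_lit 5) (nat_lit 449) (nat_lit 424) (nat_lit 327)))) (XT.nd (nat_lit 156) (nat_lit 532) (nat_lit 0) (XT.nd (nat_lit 78) (nat_lit 532) (nat_lit 0) (XT.lf (nat_lit 0) (nat_lit 2583611149) (nat_lit 608) (nat_lit 6900946280) (nat_lit 76) (nat_lit 3281278827) (nat_lit 251) (nat_lit 5) (nat_lit 259) (nat_lit 5) (nat_lit 252) (nat_lit 5) (nat_lit 450) (nat_lit 424) (nat_lit 326)) (XT.lf (nat_lit 0) (nat_lit 357517702) (nat_lit 532) (nat_lit 4243679495) (nat_lit 608) (nat_lit 8367282594) (nat_lit 244) (nat_lit 5) (nat_lit 251) (nat_lit 5) (nat_lit 252) (nat_lit 5) (nat_lit 451) (nat_lit 424) (nat_lit 325))) (XT.nd (nat_lit 78) (nat_lit 532) (nat_lit 0) (XT.lf (nat_lit 0) (nat_lit 6741864164) (nat_lit 608) (nat_lit 5232342610) (nat_lit 76) (nat_lit 1201121584) (nat_lit 244) (nat_lit 5) (nat_lit 252) (nat_lit 5) (nat_lit 245) (nat_lit 5) (nat_lit 452) (nat_lit 424) (nat_lit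 324)) (XT.lf (nat_lit 0) (nat_lit 2351463769) (nat_lit 532) (nat_lit 6641539079) (nat_lit 608) (nat_lit 4393994242) (nat_lit 237) (nat_lit 5) (nat_lit 244) (nat_lit 5) (nat_lit 245) (nat_lit 5) (nat_lit 453) (nat_lit 424) (nat_lit 323))))) (XT.nd (nat_lit 312) (nat_lit 988) (nat_lit 0) (XT.nd (nat_lit 156) (nat_lit 456) (nat_lit 0) (XT.nd (nat_lit 78) (nat_lit 608) (nat_lit 0) (XT.lf (nat_lit 0) (nat_lit 10250198130) (nat_lit 532) (nat_lit 1096289593) (nat_lit 608) (nat_lit 2257485997) (nat_lit 237) (nat_lit 5) (nat_lit 244) (nat_lit 5) (nat_lit 245) (nat_lit 5) (nat_lit 454) (nat_lit 424) (nat_lit 322)) (XT.lf (nat_lit 0) (nat_lit 15838054) (nat_lit 608) (nat_lit 9241751115) (nat_lit 76) (nat_lit 4567740631) (nat_lit 229) (nat_lit 5) (nat_lit 237) (nat_lit 5) (nat_lit 230) (nat_lit 5) (nat_lit 455) (nat_lit 424) (nat_lit 321))) (XT.nd (nat_lit 78) (nat_lit 456) (nat_lit 0) (XT.lf (nat_lit 0) (nat_lit 2339678120)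 (nat_lit 608) (nat_lit 1277978882) (nat_lit 76) (nat_lit 10434170343) (nat_lit 229) (nat_lit 5) (nat_lit 237) (nat_lit 5) (nat_lit 230) (nat_lit 5) (nat_lit 456) (nat_lit 424) (nat_lit 320)) (XT.lf (nat_lit 0) (nat_lit 4805784248) (nat_lit 532) (nat_lit 7262521614) (nat_lit 76) (nat_lit 2214639378) (nat_lit 223) (nat_lit 5) (nat_lit 230) (nat_lit 5) (nat_lit 224) (nat_lit 5) (nat_lit 457) (nat_lit 424) (nat_lit 319)))) (XT.nd (nat_lit 156) (nat_lit 532) (nat_lit 0) (XT.nd (nat_lit 78) (nat_lit 0) (nat_lit 0) (XT.lf (nat_lit 0) (nat_lit 1038042514) (nat_lit 456) (nat_lit 6350081585) (nat_lit 532) (nat_lit 7131606950) (nat_lit 217) (nat_lit 5) (nat_lit 223) (nat_lit 5) (nat_lit 224) (nat_lit 5) (nat_lit 458) (nat_lit 424) (nat_lit 318)) (XT.lf (nat_lit 0) (nat_lit 9717057343) (nat_lit 456) (nat_lit 387931035) (nat_lit 532) (nat_lit 4656922263) (nat_lit 217) (nat_lit 5) (nat_lit 223) (nat_lit 5) (nat_lit 224) (nat_lit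 5) (nat_lit 459) (nat_lit 424) (nat_lit 317))) (XT.nd (nat_lit 78) (nat_lit 76) (nat_lit 0) (XT.lf (nat_lit 0) (nat_lit 3641522924) (nat_lit 456) (nat_lit 9336304168) (nat_lit 532) (nat_lit 2031296258) (nat_lit 211) (nat_lit 5) (nat_lit 217) (nat_lit 5) (nat_lit 218) (nat_lit 5) (nat_lit 460) (nat_lit 424) (nat_lit 316)) (XT.lf (nat_lit 0) (nat_lit 699535797) (nat_lit 532) (nat_lit 2600580874) (nat_lit 76) (nat_lit 11962256189) (nat_lit 210) (nat_lit 5) (nat_lit 217) (nat_lit 5) (nat_lit 211) (nat_lit 5) (nat_lit 461) (nat_lit 424) (nat_lit 315))))))))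
noncomputable def xc152 : XT := (XT.nd (nat_lit 2340) (nat_lit 3648) (nat_lit 0) (XT.nd (nat_lit 1170) (nat_lit 2660) (nat_lit 0) (XT.nd (nat_lit 546) (nat_lit 1824) (nat_lit 0) (XT.nd (nat_lit 234) (nat_lit 912) (nat_lit 0) (XT.nd (nat_lit 78) (nat_lit 380) (nat_lit 0) (XT.lf (nat_lit 0) (nat_lit 3547684638) (nat_lit 532) (nat_lit 9032382208) (nat_lit 76) (nat_lit 2940264720) (nat_lit 204) (nat_lit 5) (nat_lit 211) (nat_lit 5) (nat_lit 205) (nat_lit 5) (nat_lit 462) (nat_lit 424) (nat_lit 314)) (XT.nd (nat_lit 78) (nat_lit 0) (nat_lit 0) (XT.lf (nat_lit 0) (nat_lit 66455472) (nat_lit 380) (nat_lit 6459626830) (nat_lit 456) (nat_lit 9258604184) (nat_lit 199) (nat_lit 5) (nat_lit 204) (nat_lit 5) (nat_lit 205) (nat_lit 5) (nat_lit 463) (nat_lit 424) (nat_lit 313)) (XT.lf (nat_lit 0) (nat_lit 9604490093) (nat_lit 380) (nat_lit 65777360) (nat_lit 456) (nat_lit 6384413074) (nat_lit 199) (nat_lit 5) (nat_lit 204) (nat_lit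 5) (nat_lit 205) (nat_lit 5) (nat_lit 464) (nat_lit 424) (nat_lit 312)))) (XT.nd (nat_lit 156) (nat_lit 456) (nat_lit 0) (XT.nd (nat_lit 78) (nat_lit 0) (nat_lit 0) (XT.lf (nat_lit 0) (nat_lit 3074446657) (nat_lit 456) (nat_lit 9912175898) (nat_lit 532) (nat_lit 3343817996) (nat_lit 193) (nat_lit 5) (nat_lit 199) (nat_lit 5) (nat_lit 200) (nat_lit 5) (nat_lit 465) (nat_lit 424) (nat_lit 311)) (XT.lf (nat_lit 0) (nat_lit 12997800107) (nat_lit 456) (nat_lit 3456305428) (nat_lit 532) (nat_lit 158820175) (nat_lit 193) (nat_lit 5) (nat_lit 199) (nat_lit 5) (nat_lit 200) (nat_lit 5) (nat_lit 466) (nat_lit 424) (nat_lit 310))) (XT.nd (nat_lit 78) (nat_lit 0) (nat_lit 0) (XT.lf (nat_lit 0) (nat_lit 3139939778) (nat_lit 456) (nat_lit 10541755453) (nat_lit 76) (nat_lit 3218917470) (nat_lit 187) (nat_lit 5) (nat_lit 193) (nat_lit 5) (nat_lit 188) (nat_lit 5) (nat_lit 467) (nat_lit 424) (nat_lit 309)) (XT.lf (nat_lit 0) (nat_lit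 6591877320) (nat_lit 456) (nat_lit 544328674) (nat_lit 76) (nat_lit 10058956254) (nat_lit 187) (nat_lit 5) (nat_lit 193) (nat_lit 5) (nat_lit 188) (nat_lit 5) (nat_lit 468) (nat_lit 424) (nat_lit 308))))) (XT.nd (nat_lit 312) (nat_lit 684) (nat_lit 0) (XT.nd (nat_lit 156) (nat_lit 456) (nat_lit 0) (XT.nd (nat_lit 78) (nat_lit 304) (nat_lit 0) (XT.lf (nat_lit 0) (nat_lit 9928801673) (nat_lit 380) (nat_lit 300730456) (nat_lit 456) (nat_lit 7266552666) (nat_lit 182) (nat_lit 5) (nat_lit 187) (nat_lit 5) (nat_lit 188) (nat_lit 5) (nat_lit 469) (nat_lit 424) (nat_lit 307)) (XT.lf (nat_lit 0) (nat_lit 2894925208) (nat_lit 304) (nat_lit 11166445302) (nat_lit 380) (nat_lit 3742114142) (nat_lit 178) (nat_lit 5) (nat_lit 182) (nat_lit 5) (nat_lit 183) (nat_lit 5) (nat_lit 470) (nat_lit 424) (nat_lit 306))) (XT.nd (nat_lit 78) (nat_lit 456) (nat_lit 0) (XT.lf (nat_lit 0) (nat_lit 13805125074) (nat_lit 304) (nat_lit 4269499183)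 (nat_lit 380) (nat_lit 43489656) (nat_lit 178) (nat_lit 5) (nat_lit 182) (nat_lit 5) (nat_lit 183) (nat_lit 5) (nat_lit 471) (nat_lit 424) (nat_lit 305)) (XT.lf (nat_lit 0) (nat_lit 3772324262) (nat_lit 456) (nat_lit 11790895727) (nat_lit 76) (nat_lit 2875485525) (nat_lit 172) (nat_lit 5) (nat_lit 178) (nat_lit 5) (nat_lit 173) (nat_lit 5) (nat_lit 472) (nat_lit 424) (nat_lit 304)))) (XT.nd (nat_lit 156) (nat_lit 380) (nat_lit 0) (XT.nd (nat_lit 78) (nat_lit 304) (nat_lit 0) (XT.lf (nat_lit 0) (nat_lit 7775493948) (nat_lit 456) (nat_lit 802740166) (nat_lit 76) (nat_lit 10188456279) (nat_lit 172) (nat_lit 5) (nat_lit 178) (nat_lit 5) (nat_lit 173) (nat_lit 5) (nat_lit 473) (nat_lit 424) (nat_lit 303)) (XT.lf (nat_lit 0) (nat_lit 10706663071) (nat_lit 304) (nat_lit 1282877984) (nat_lit 380) (nat_lit 7112251375) (nat_lit 168) (nat_lit 5) (nat_lit 172) (nat_lit 5) (nat_lit 173) (nat_lit 5) (nat_lit 474) (nat_lit 424)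 (nat_lit 302))) (XT.nd (nat_lit 78) (nat_lit 76) (nat_lit 0) (XT.lf (nat_lit 0) (nat_lit 3114431341) (nat_lit 304) (nat_lit 13301603772) (nat_lit 380) (nat_lit 3028332696) (nat_lit 164) (nat_lit 5) (nat_lit 168) (nat_lit 5) (nat_lit 169) (nat_lit 5) (nat_lit 475) (nat_lit 424) (nat_lit 301)) (XT.lf (nat_lit 0) (nat_lit 1241497145) (nat_lit 380) (nat_lit 4695701653) (nat_lit 76) (nat_lit 13857091419) (nat_lit 163) (nat_lit 5) (nat_lit 168) (nat_lit 5) (nat_lit 164) (nat_lit 5) (nat_lit 476) (nat_lit 424) (nat_lit 300)))))) (XT.nd (nat_lit 546) (nat_lit 1368) (nat_lit 0) (XT.nd (nat_lit 234) (nat_lit 684) (nat_lit 0) (XT.nd (nat_lit 78) (nat_lit 304) (nat_lit 0) (XT.lf (nat_lit 0) (nat_lit 5654746380) (nat_lit 380) (nat_lit 12784160991) (nat_lit 76) (nat_lit 1712618652) (nat_lit 159) (nat_lit 5) (nat_lit 164) (nat_lit 5) (nat_lit 160) (nat_lit 5) (nat_lit 477) (nat_lit 424) (nat_lit 299)) (XT.nd (nat_lit 78) (nat_lit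 304) (nat_lit 0) (XT.lf (nat_lit 0) (nat_lit 10295601970) (nat_lit 380) (nat_lit 705871957) (nat_lit 76) (nat_lit 9515149639) (nat_lit 159) (nat_lit 5) (nat_lit 164) (nat_lit 5) (nat_lit 160) (nat_lit 5) (nat_lit 478) (nat_lit 424) (nat_lit 298)) (XT.lf (nat_lit 0) (nat_lit 11951335714) (nat_lit 304) (nat_lit 3228102786) (nat_lit 380) (nat_lit 5710123782) (nat_lit 155) (nat_lit 5) (nat_lit 159) (nat_lit 5) (nat_lit 160) (nat_lit 5) (nat_lit 479) (nat_lit 424) (nat_lit 297)))) (XT.nd (nat_lit 156) (nat_lit 304) (nat_lit 0) (XT.nd (nat_lit 78) (nat_lit 76) (nat_lit 0) (XT.lf (nat_lit 0) (nat_lit 3739463043) (nat_lit 304) (nat_lit 16548389544) (nat_lit 380) (nat_lit 983495576) (nat_lit 151) (nat_lit 5) (nat_lit 155) (nat_lit 5) (nat_lit 156) (nat_lit 5) (nat_lit 480) (nat_lit 424) (nat_lit 296)) (XT.lf (nat_lit 0) (nat_lit 3921273518) (nat_lit 380) (nat_lit 4768182937) (nat_lit 76) (nat_lit 12970647132) (nat_lit 150)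 (nat_lit 5) (nat_lit 155) (nat_lit 5) (nat_lit 151) (nat_lit 5) (nat_lit 481) (nat_lit 424) (nat_lit 295))) (XT.nd (nat_lit 78) (nat_lit 0) (nat_lit 0) (XT.lf (nat_lit 0) (nat_lit 8518599051) (nat_lit 304) (nat_lit 506062056) (nat_lit 380) (nat_lit 13033431961) (nat_lit 146) (nat_lit 5) (nat_lit 150) (nat_lit 5) (nat_lit 151) (nat_lit 5) (nat_lit 482) (nat_lit 424) (nat_lit 294)) (XT.lf (nat_lit 0) (nat_lit 14395392298) (nat_lit 380) (nat_lit 257909144) (nat_lit 76) (nat_lit 7811294310) (nat_lit 146) (nat_lit 5) (nat_lit 151) (nat_lit 5) (nat_lit 147) (nat_lit 5) (nat_lit 483) (nat_lit 424) (nat_lit 293))))) (XT.nd (nat_lit 312) (nat_lit 532) (nat_lit 0) (XT.nd (nat_lit 156) (nat_lit 228) (nat_lit 0) (XT.nd (nat_lit 78) (nat_lit 380) (nat_lit 0) (XT.lf (nat_lit 0) (nat_lit 13667877512) (nat_lit 228) (nat_lit 6385526333) (nat_lit 304) (nat_lit 2826105677) (nat_lit 143) (nat_lit 5) (nat_lit 146) (nat_lit 5) (nat_lit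 147) (nat_lit 5) (nat_lit 484) (nat_lit 424) (nat_lit 292)) (XT.lf (nat_lit 0) (nat_lit 2583413524) (nat_lit 380) (nat_lit 18564034319) (nat_lit 76) (nat_lit 2156900346) (nat_lit 138) (nat_lit 5) (nat_lit 143) (nat_lit 5) (nat_lit 139) (nat_lit 5) (nat_lit 485) (nat_lit 424) (nat_lit 291))) (XT.nd (nat_lit 78) (nat_lit 228) (nat_lit 0) (XT.lf (nat_lit 0) (nat_lit 8245478409) (nat_lit 380) (nat_lit 4547700738) (nat_lit 76) (nat_lit 10943502264) (nat_lit 138) (nat_lit 5) (nat_lit 143) (nat_lit 5) (nat_lit 139) (nat_lit 5) (nat_lit 486) (nat_lit 424) (nat_lit 290)) (XT.lf (nat_lit 0) (nat_lit 10070011851) (nat_lit 228) (nat_lit 4094385312) (nat_lit 304) (nat_lit 10014978380) (nat_lit 135) (nat_lit 5) (nat_lit 138) (nat_lit 5) (nat_lit 139) (nat_lit 5) (nat_lit 487) (nat_lit 424) (nat_lit 289)))) (XT.nd (nat_lit 156) (nat_lit 228) (nat_lit 0) (XT.nd (nat_lit 78) (nat_lit 76) (nat_lit 0) (XT.lf (nat_lit 0) (nat_lit 532988079)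 (nat_lit 228) (nat_lit 19816439473) (nat_lit 304) (nat_lit 4283267278) (nat_lit 132) (nat_lit 5) (nat_lit 135) (nat_lit 5) (nat_lit 136) (nat_lit 5) (nat_lit 488) (nat_lit 424) (nat_lit 288)) (XT.lf (nat_lit 0) (nat_lit 1763513928) (nat_lit 304) (nat_lit 9264760995) (nat_lit 76) (nat_lit 14065629946) (nat_lit 131) (nat_lit 5) (nat_lit 135) (nat_lit 5) (nat_lit 132) (nat_lit 5) (nat_lit 489) (nat_lit 424) (nat_lit 287))) (XT.nd (nat_lit 78) (nat_lit 0) (nat_lit 0) (XT.lf (nat_lit 0) (nat_lit 6076114956) (nat_lit 228) (nat_lit 1878496156) (nat_lit 304) (nat_lit 17611598378) (nat_lit 128) (nat_lit 5) (nat_lit 131) (nat_lit 5) (nat_lit 132) (nat_lit 5) (nat_lit 490) (nat_lit 424) (nat_lit 286)) (XT.lf (nat_lit 0) (nat_lit 14489124985) (nat_lit 304) (nat_lit 4071551140) (nat_lit 76) (nat_lit 7487277190) (nat_lit 128) (nat_lit 5) (nat_lit 132) (nat_lit 5) (nat_lit 129) (nat_lit 5) (nat_lit 491) (nat_lit 424) (nat_lit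 285))))))) (XT.nd (nat_lit 1170) (nat_lit 1596) (nat_lit 0) (XT.nd (nat_lit 546) (nat_lit 836) (nat_lit 0) (XT.nd (nat_lit 234) (nat_lit 684) (nat_lit 0) (XT.nd (nat_lit 78) (nat_lit 304) (nat_lit 0) (XT.lf (nat_lit 0) (nat_lit 12010413721) (nat_lit 228) (nat_lit 9334249748) (nat_lit 304) (nat_lit 5195736876) (nat_lit 125) (nat_lit 5) (nat_lit 128) (nat_lit 5) (nat_lit 129) (nat_lit 5) (nat_lit 492) (nat_lit 424) (nat_lit 284)) (XT.nd (nat_lit 78) (nat_lit 0) (nat_lit 0) (XT.lf (nat_lit 0) (nat_lit 1382022763) (nat_lit 304) (nat_lit 25433022383) (nat_lit 76) (nat_lit 230676088) (nat_lit 121) (nat_lit 5) (nat_lit 125) (nat_lit 5) (nat_lit 122) (nat_lit 5) (nat_lit 493) (nat_lit 424) (nat_lit 283)) (XT.lf (nat_lit 0) (nat_lit 8284317481) (nat_lit 304) (nat_lit 9184599772) (nat_lit 76) (nat_lit 10088792780) (nat_lit 121) (nat_lit 5) (nat_lit 125) (nat_lit 5) (nat_lit 122) (nat_lit 5) (nat_lit 494) (nat_lit 424) (nat_lit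 282)))) (XT.nd (nat_lit 156) (nat_lit 456) (nat_lit 0) (XT.nd (nat_lit 78) (nat_lit 0) (nat_lit 0) (XT.lf (nat_lit 0) (nat_lit 7686706618) (nat_lit 228) (nat_lit 7772160884) (nat_lit 304) (nat_lit 12624235902) (nat_lit 118) (nat_lit 5) (nat_lit 121) (nat_lit 5) (nat_lit 122) (nat_lit 5) (nat_lit 495) (nat_lit 424) (nat_lit 281)) (XT.lf (nat_lit 0) (nat_lit 22954971393) (nat_lit 304) (nat_lit 3405887190) (nat_lit 76) (nat_lit 2260210957) (nat_lit 118) (nat_lit 5) (nat_lit 122) (nat_lit 5) (nat_lit 119) (nat_lit 5) (nat_lit 496) (nat_lit 424) (nat_lit 280))) (XT.nd (nat_lit 78) (nat_lit 228) (nat_lit 0) (XT.lf (nat_lit 0) (nat_lit 1679381589) (nat_lit 228) (nat_lit 14903585342) (nat_lit 76) (nat_lit 12585538886) (nat_lit 115) (nat_lit 5) (nat_lit 118) (nat_lit 5) (nat_lit 116) (nat_lit 5) (nat_lit 497) (nat_lit 424) (nat_lit 279)) (XT.lf (nat_lit 0) (nat_lit 2788075908) (nat_lit 228) (nat_lit 6396435367) (nat_lit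 304) (nat_lit 20544576299) (nat_lit 112) (nat_lit 5) (nat_lit 115) (nat_lit 5) (nat_lit 116) (nat_lit 5) (nat_lit 498) (nat_lit 424) (nat_lit 278))))) (XT.nd (nat_lit 312) (nat_lit 380) (nat_lit 0) (XT.nd (nat_lit 156) (nat_lit 304) (nat_lit 0) (XT.nd (nat_lit 78) (nat_lit 152) (nat_lit 0) (XT.lf (nat_lit 0) (nat_lit 17097838958) (nat_lit 304) (nat_lit 9041114322) (nat_lit 76) (nat_lit 4162042611) (nat_lit 112) (nat_lit 5) (nat_lit 116) (nat_lit 5) (nat_lit 113) (nat_lit 5) (nat_lit 499) (nat_lit 424) (nat_lit 277)) (XT.lf (nat_lit 0) (nat_lit 9504044944) (nat_lit 152) (nat_lit 15891140146) (nat_lit 228) (nat_lit 5490478228) (nat_lit 110) (nat_lit 5) (nat_lit 112) (nat_lit 5) (nat_lit 113) (nat_lit 5) (nat_lit 500) (nat_lit 424) (nat_lit 276))) (XT.nd (nat_lit 78) (nat_lit 228) (nat_lit 0) (XT.lf (nat_lit 0) (nat_lit 2489856829) (nat_lit 228) (nat_lit 2732614881) (nat_lit 76) (nat_lit 26262167268) (nat_lit 109)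 (nat_lit 5) (nat_lit 112) (nat_lit 5) (nat_lit 110) (nat_lit 5) (nat_lit 501) (nat_lit 424) (nat_lit 275)) (XT.lf (nat_lit 0) (nat_lit 10809803994) (nat_lit 304) (nat_lit 15418300238) (nat_lit 76) (nat_lit 5865532566) (nat_lit 106) (nat_lit 5) (nat_lit 110) (nat_lit 5) (nat_lit 107) (nat_lit 5) (nat_lit 502) (nat_lit 424) (nat_lit 274)))) (XT.nd (nat_lit 156) (nat_lit 228) (nat_lit 0) (XT.nd (nat_lit 78) (nat_lit 0) (nat_lit 0) (XT.lf (nat_lit 0) (nat_lit 4014290450) (nat_lit 152) (nat_lit 15475454005) (nat_lit 228) (nat_lit 13227848625) (nat_lit 104) (nat_lit 5) (nat_lit 106) (nat_lit 5) (nat_lit 107) (nat_lit 5) (nat_lit 503) (nat_lit 424) (nat_lit 273)) (XT.lf (nat_lit 0) (nat_lit 24332523820) (nat_lit 152) (nat_lit 4245583562) (nat_lit 228) (nat_lit 4777720303) (nat_lit 104) (nat_lit 5) (nat_lit 106) (nat_lit 5) (nat_lit 107) (nat_lit 5) (nat_lit 504) (nat_lit 424) (nat_lit 272))) (XT.nd (nat_lit 78) (nat_lit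 0) (nat_lit 0) (XT.lf (nat_lit 0) (nat_lit 4023330830) (nat_lit 228) (nat_lit 22661764123) (nat_lit 76) (nat_lit 7321761737) (nat_lit 101) (nat_lit 5) (nat_lit 104) (nat_lit 5) (nat_lit 102) (nat_lit 5) (nat_lit 505) (nat_lit 424) (nat_lit 271)) (XT.lf (nat_lit 0) (nat_lit 13118960371) (nat_lit 228) (nat_lit 2268610369) (nat_lit 76) (nat_lit 19284629803) (nat_lit 101) (nat_lit 5) (nat_lit 104) (nat_lit 5) (nat_lit 102) (nat_lit 5) (nat_lit 506) (nat_lit 424) (nat_lit 270)))))) (XT.nd (nat_lit 546) (nat_lit 684) (nat_lit 0) (XT.nd (nat_lit 234) (nat_lit 532) (nat_lit 0) (XT.nd (nat_lit 78) (nat_lit 228) (nat_lit 0) (XT.lf (nat_lit 0) (nat_lit 19096161915) (nat_lit 152) (nat_lit 3567597775) (nat_lit 228) (nat_lit 12688456315) (nat_lit 99) (nat_lit 5) (nat_lit 101) (nat_lit 5) (nat_lit 102) (nat_lit 5) (nat_lit 507) (nat_lit 424) (nat_lit 269)) (XT.nd (nat_lit 78) (nat_lit 76) (nat_lit 0) (XT.lf (nat_lit 0) (nat_lit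 5100149018) (nat_lit 152) (nat_lit 27542424083) (nat_lit 228) (nat_lit 3405629038) (nat_lit 97) (nat_lit 5) (nat_lit 99) (nat_lit 5) (nat_lit 100) (nat_lit 5) (nat_lit 508) (nat_lit 424) (nat_lit 268)) (XT.lf (nat_lit 0) (nat_lit 6229456560) (nat_lit 228) (nat_lit 9438857799) (nat_lit 76) (nat_lit 21089161835) (nat_lit 96) (nat_lit 5) (nat_lit 99) (nat_lit 5) (nat_lit 97) (nat_lit 5) (nat_lit 509) (nat_lit 424) (nat_lit 267)))) (XT.nd (nat_lit 156) (nat_lit 380) (nat_lit 0) (XT.nd (nat_lit 78) (nat_lit 0) (nat_lit 0) (XT.lf (nat_lit 0) (nat_lit 12921549249) (nat_lit 152) (nat_lit 3280806261) (nat_lit 228) (nat_lit 21281145358) (nat_lit 94) (nat_lit 5) (nat_lit 96) (nat_lit 5) (nat_lit 97) (nat_lit 5) (nat_lit 510) (nat_lit 424) (nat_lit 266)) (XT.lf (nat_lit 0) (nat_lit 26654843823) (nat_lit 228) (nat_lit 2186770019) (nat_lit 76) (nat_lit 9384280643) (nat_lit 94) (nat_lit 5) (nat_lit 97) (nat_lit 5) (nat_lit 95)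 (nat_lit 5) (nat_lit 511) (nat_lit 424) (nat_lit 265))) (XT.nd (nat_lit 78) (nat_lit 228) (nat_lit 0) (XT.lf (nat_lit 0) (nat_lit 21229284558) (nat_lit 152) (nat_lit 16421410500) (nat_lit 228) (nat_lit 1332971474) (nat_lit 92) (nat_lit 5) (nat_lit 94) (nat_lit 5) (nat_lit 95) (nat_lit 5) (nat_lit 512) (nat_lit 424) (nat_lit 264)) (XT.lf (nat_lit 0) (nat_lit 5638213153) (nat_lit 152) (nat_lit 3464022456) (nat_lit 228) (nat_lit 30657187282) (nat_lit 89) (nat_lit 5) (nat_lit 91) (nat_lit 5) (nat_lit 92) (nat_lit 5) (nat_lit 513) (nat_lit 424) (nat_lit 263))))) (XT.nd (nat_lit 312) (nat_lit 304) (nat_lit 0) (XT.nd (nat_lit 156) (nat_lit 228) (nat_lit 0) (XT.nd (nat_lit 78) (nat_lit 152) (nat_lit 0) (XT.lf (nat_lit 0) (nat_lit 20093039640) (nat_lit 228) (nat_lit 10578708913) (nat_lit 76) (nat_lit 9878227736) (nat_lit 89) (nat_lit 5) (nat_lit 92) (nat_lit 5) (nat_lit 90) (nat_lit 5) (nat_lit 514) (nat_lit 424) (nat_lit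 262)) (XT.lf (nat_lit 0) (nat_lit 13895064313) (nat_lit 152) (nat_lit 17679844252) (nat_lit 228) (nat_lit 9784497741) (nat_lit 87) (nat_lit 5) (nat_lit 89) (nat_lit 5) (nat_lit 90) (nat_lit 5) (nat_lit 515) (nat_lit 424) (nat_lit 261))) (XT.nd (nat_lit 78) (nat_lit 152) (nat_lit 0) (XT.lf (nat_lit 0) (nat_lit 1285910414) (nat_lit 228) (nat_lit 2894543173) (nat_lit 76) (nat_lit 38009276344) (nat_lit 86) (nat_lit 5) (nat_lit 89) (nat_lit 5) (nat_lit 87) (nat_lit 5) (nat_lit 516) (nat_lit 424) (nat_lit 260)) (XT.lf (nat_lit 0) (nat_lit 12800663350) (nat_lit 228) (nat_lit 20384383772) (nat_lit 76) (nat_lit 9847743339) (nat_lit 84) (nat_lit 5) (nat_lit 87) (nat_lit 5) (nat_lit 85) (nat_lit 5) (nat_lit 517) (nat_lit 424) (nat_lit 259)))) (XT.nd (nat_lit 156) (nat_lit 152) (nat_lit 0) (XT.nd (nat_lit 78) (nat_lit 0) (nat_lit 0) (XT.lf (nat_lit 0) (nat_lit 5164266388) (nat_lit 152) (nat_lit 19610847254) (nat_lit 228) (nat_lit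 19122601734) (nat_lit 82) (nat_lit 5) (nat_lit 84) (nat_lit 5) (nat_lit 85) (nat_lit 5) (nat_lit 518) (nat_lit 424) (nat_lit 258)) (XT.lf (nat_lit 0) (nat_lit 31885807649) (nat_lit 152) (nat_lit 5422609080) (nat_lit 228) (nat_lit 7474182935) (nat_lit 82) (nat_lit 5) (nat_lit 84) (nat_lit 5) (nat_lit 85) (nat_lit 5) (nat_lit 519) (nat_lit 424) (nat_lit 257))) (XT.nd (nat_lit 78) (nat_lit 0) (nat_lit 0) (XT.lf (nat_lit 0) (nat_lit 4653296858) (nat_lit 152) (nat_lit 31846821822) (nat_lit 76) (nat_lit 9186071006) (nat_lit 80) (nat_lit 5) (nat_lit 82) (nat_lit 5) (nat_lit 81) (nat_lit 5) (nat_lit 520) (nat_lit 424) (nat_lit 256)) (XT.lf (nat_lit 0) (nat_lit 17173508684) (nat_lit 152) (nat_lit 5111216146) (nat_lit 76) (nat_lit 24324568774) (nat_lit 80) (nat_lit 5) (nat_lit 82) (nat_lit 5) (nat_lit 81) (nat_lit 5) (nat_lit 521) (nat_lit 424) (nat_lit 255))))))))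
noncomputable def xc153 : XT := (XT.nd (nat_lit 55068) (nat_lit 0) (nat_lit 13528) (XT.nd (nat_lit 1170) (nat_lit 836) (nat_lit 0) (XT.nd (nat_lit 546) (nat_lit 760) (nat_lit 0) (XT.nd (nat_lit 234) (nat_lit 304) (nat_lit 0) (XT.nd (nat_lit 78) (nat_lit 152) (nat_lit 0) (XT.lf (nat_lit 0) (nat_lit 22861658969) (nat_lit 152) (nat_lit 7421525599) (nat_lit 228) (nat_lit 17270490524) (nat_lit 78) (nat_lit 5) (nat_lit 80) (nat_lit 5) (nat_lit 81) (nat_lit 5) (nat_lit 522) (nat_lit 424) (nat_lit 254)) (XT.nd (nat_lit 78) (nat_lit 76) (nat_lit 0) (XT.lf (nat_lit 0) (nat_lit 3229409382) (nat_lit 76) (nat_lit 40709846560) (nat_lit 152) (nat_lit 4582539103) (nat_lit 77) (nat_lit 5) (nat_lit 78) (nat_lit 5) (nat_lit 79) (nat_lit 4) (nat_lit 523) (nat_lit 424) (nat_lit 253)) (XT.lf (nat_lit 0) (nat_lit 8639874813) (nat_lit 152) (nat_lit 17185303237) (nat_lit 76) (nat_lit 23681751000) (nat_lit 76) (nat_lit 5) (nat_lit 78) (nat_lit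 5) (nat_lit 77) (nat_lit 5) (nat_lit 524) (nat_lit 424) (nat_lit 252)))) (XT.nd (nat_lit 156) (nat_lit 152) (nat_lit 0) (XT.nd (nat_lit 78) (nat_lit 0) (nat_lit 0) (XT.lf (nat_lit 0) (nat_lit 11942028324) (nat_lit 152) (nat_lit 10333920708) (nat_lit 228) (nat_lit 28241034284) (nat_lit 74) (nat_lit 5) (nat_lit 76) (nat_lit 5) (nat_lit 77) (nat_lit 5) (nat_lit 525) (nat_lit 424) (nat_lit 251)) (XT.lf (nat_lit 0) (nat_lit 36544720675) (nat_lit 228) (nat_lit 9323074208) (nat_lit 76) (nat_lit 5682836029) (nat_lit 74) (nat_lit 5) (nat_lit 77) (nat_lit 5) (nat_lit 75) (nat_lit 4) (nat_lit 526) (nat_lit 424) (nat_lit 250))) (XT.nd (nat_lit 78) (nat_lit 76) (nat_lit 0) (XT.lf (nat_lit 0) (nat_lit 21105560595) (nat_lit 76) (nat_lit 30435672338) (nat_lit 152) (nat_lit 1065064833) (nat_lit 73) (nat_lit 5) (nat_lit 74) (nat_lit 5) (nat_lit 75) (nat_lit 4) (nat_lit 527) (nat_lit 424) (nat_lit 249)) (XT.lf (nat_lit 0) (nat_lit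 13124158965) (nat_lit 152) (nat_lit 1191704577) (nat_lit 76) (nat_lit 39371250516) (nat_lit 72) (nat_lit 5) (nat_lit 74) (nat_lit 5) (nat_lit 73) (nat_lit 5) (nat_lit 528) (nat_lit 424) (nat_lit 248))))) (XT.nd (nat_lit 312) (nat_lit 304) (nat_lit 0) (XT.nd (nat_lit 156) (nat_lit 228) (nat_lit 0) (XT.nd (nat_lit 78) (nat_lit 76) (nat_lit 0) (XT.lf (nat_lit 0) (nat_lit 28031441098) (nat_lit 228) (nat_lit 24213141876) (nat_lit 76) (nat_lit 2546041996) (nat_lit 70) (nat_lit 5) (nat_lit 73) (nat_lit 5) (nat_lit 71) (nat_lit 4) (nat_lit 529) (nat_lit 424) (nat_lit 247)) (XT.lf (nat_lit 0) (nat_lit 7389576997) (nat_lit 76) (nat_lit 36215958180) (nat_lit 152) (nat_lit 12315118365) (nat_lit 69) (nat_lit 5) (nat_lit 70) (nat_lit 5) (nat_lit 71) (nat_lit 4) (nat_lit 530) (nat_lit 424) (nat_lit 246))) (XT.nd (nat_lit 78) (nat_lit 152) (nat_lit 0) (XT.lf (nat_lit 0) (nat_lit 2753869506) (nat_lit 152) (nat_lit 16677638083) (nat_lit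 76) (nat_lit 37645088624) (nat_lit 68) (nat_lit 5) (nat_lit 70) (nat_lit 5) (nat_lit 69) (nat_lit 5) (nat_lit 531) (nat_lit 424) (nat_lit 245)) (XT.lf (nat_lit 0) (nat_lit 16318127762) (nat_lit 152) (nat_lit 1860965933) (nat_lit 228) (nat_lit 40079914986) (nat_lit 66) (nat_lit 5) (nat_lit 68) (nat_lit 5) (nat_lit 69) (nat_lit 5) (nat_lit 532) (nat_lit 424) (nat_lit 244)))) (XT.nd (nat_lit 156) (nat_lit 228) (nat_lit 0) (XT.nd (nat_lit 78) (nat_lit 76) (nat_lit 0) (XT.lf (nat_lit 0) (nat_lit 34388072858) (nat_lit 228) (nat_lit 8993727102) (nat_lit 76) (nat_lit 16085463737) (nat_lit 66) (nat_lit 5) (nat_lit 69) (nat_lit 5) (nat_lit 67) (nat_lit 4) (nat_lit 533) (nat_lit 424) (nat_lit 243)) (XT.lf (nat_lit 0) (nat_lit 25409753405) (nat_lit 76) (nat_lit 25931240059) (nat_lit 152) (nat_lit 9363042854) (nat_lit 65) (nat_lit 5) (nat_lit 66) (nat_lit 5) (nat_lit 67) (nat_lit 4) (nat_lit 534) (nat_lit 424) (nat_lit 242)))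 (XT.nd (nat_lit 78) (nat_lit 152) (nat_lit 0) (XT.lf (nat_lit 0) (nat_lit 6778134320) (nat_lit 152) (nat_lit 1021492813) (nat_lit 76) (nat_lit 54173715521) (nat_lit 64) (nat_lit 5) (nat_lit 66) (nat_lit 5) (nat_lit 65) (nat_lit 5) (nat_lit 535) (nat_lit 424) (nat_lit 241)) (XT.lf (nat_lit 0) (nat_lit 23654316988) (nat_lit 228) (nat_lit 28519030315) (nat_lit 76) (nat_lit 11091431141) (nat_lit 62) (nat_lit 5) (nat_lit 65) (nat_lit 5) (nat_lit 63) (nat_lit 4) (nat_lit 536) (nat_lit 424) (nat_lit 240)))))) (XT.nd (nat_lit 546) (nat_lit 304) (nat_lit 0) (XT.nd (nat_lit 234) (nat_lit 228) (nat_lit 0) (XT.nd (nat_lit 78) (nat_lit 228) (nat_lit 0) (XT.lf (nat_lit 0) (nat_lit 7063567504) (nat_lit 76) (nat_lit 34123914638) (nat_lit 152) (nat_lit 23402954358) (nat_lit 61) (nat_lit 5) (nat_lit 62) (nat_lit 5) (nat_lit 63) (nat_lit 4) (nat_lit 537) (nat_lit 424) (nat_lit 239)) (XT.nd (nat_lit 78) (nat_lit 228) (nat_lit 0) (XT.lf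 (nat_lit 0) (nat_lit 44289105984) (nat_lit 76) (nat_lit 15240732118) (nat_lit 152) (nat_lit 6417530422) (nat_lit 61) (nat_lit 5) (nat_lit 62) (nat_lit 5) (nat_lit 63) (nat_lit 4) (nat_lit 538) (nat_lit 424) (nat_lit 238)) (XT.lf (nat_lit 0) (nat_lit 11048277573) (nat_lit 228) (nat_lit 51907563918) (nat_lit 76) (nat_lit 4380363144) (nat_lit 58) (nat_lit 5) (nat_lit 61) (nat_lit 5) (nat_lit 59) (nat_lit 4) (nat_lit 539) (nat_lit 424) (nat_lit 237)))) (XT.nd (nat_lit 156) (nat_lit 152) (nat_lit 0) (XT.nd (nat_lit 78) (nat_lit 76) (nat_lit 0) (XT.lf (nat_lit 0) (nat_lit 29276157057) (nat_lit 228) (nat_lit 14913611273) (nat_lit 76) (nat_lit 24564018896) (nat_lit 58) (nat_lit 5) (nat_lit 61) (nat_lit 5) (nat_lit 59) (nat_lit 4) (nat_lit 540) (nat_lit 424) (nat_lit 236)) (XT.lf (nat_lit 0) (nat_lit 23642790516) (nat_lit 76) (nat_lit 24630801402) (nat_lit 152) (nat_lit 21933623897) (nat_lit 57) (nat_lit 5) (nat_lit 58)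 (nat_lit 5) (nat_lit 59) (nat_lit 4) (nat_lit 541) (nat_lit 424) (nat_lit 235))) (XT.nd (nat_lit 78) (nat_lit 152) (nat_lit 0) (XT.lf (nat_lit 0) (nat_lit 63652958879) (nat_lit 76) (nat_lit 4334088677) (nat_lit 152) (nat_lit 3712816862) (nat_lit 57) (nat_lit 5) (nat_lit 58) (nat_lit 5) (nat_lit 59) (nat_lit 4) (nat_lit 542) (nat_lit 424) (nat_lit 234)) (XT.lf (nat_lit 0) (nat_lit 15228734623) (nat_lit 152) (nat_lit 41288248289) (nat_lit 76) (nat_lit 16701931524) (nat_lit 55) (nat_lit 5) (nat_lit 57) (nat_lit 5) (nat_lit 56) (nat_lit 4) (nat_lit 543) (nat_lit 424) (nat_lit 233))))) (XT.nd (nat_lit 312) (nat_lit 76) (nat_lit 0) (XT.nd (nat_lit 156) (nat_lit 152) (nat_lit 0) (XT.nd (nat_lit 78) (nat_lit 76) (nat_lit 0) (XT.lf (nat_lit 0) (nat_lit 34784479345) (nat_lit 152) (nat_lit 1597541779) (nat_lit 76) (nat_lit 38396794975) (nat_lit 55) (nat_lit 5) (nat_lit 57) (nat_lit 5) (nat_lit 56) (nat_lit 4) (nat_lit 544)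 (nat_lit 424) (nat_lit 232)) (XT.lf (nat_lit 0) (nat_lit 40057310117) (nat_lit 76) (nat_lit 15250366286) (nat_lit 152) (nat_lit 21066415087) (nat_lit 54) (nat_lit 5) (nat_lit 55) (nat_lit 5) (nat_lit 56) (nat_lit 4) (nat_lit 545) (nat_lit 424) (nat_lit 231))) (XT.nd (nat_lit 78) (nat_lit 76) (nat_lit 0) (XT.lf (nat_lit 0) (nat_lit 5004434147) (nat_lit 76) (nat_lit 71564894102) (nat_lit 76) (nat_lit 1444214203) (nat_lit 53) (nat_lit 4) (nat_lit 54) (nat_lit 5) (nat_lit 54) (nat_lit 4) (nat_lit 546) (nat_lit 424) (nat_lit 230)) (XT.lf (nat_lit 0) (nat_lit 18917537596) (nat_lit 152) (nat_lit 31724702493) (nat_lit 76) (nat_lit 29039012332) (nat_lit 52) (nat_lit 5) (nat_lit 54) (nat_lit 5) (nat_lit 53) (nat_lit 4) (nat_lit 547) (nat_lit 424) (nat_lit 229)))) (XT.nd (nat_lit 52884) (nat_lit 0) (nat_lit 20824) (XT.nd (nat_lit 78) (nat_lit 0) (nat_lit 0) (XT.lf (nat_lit 0) (nat_lit 10990388007) (nat_lit 76) (nat_lit 28972234065)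 (nat_lit 152) (nat_lit 41432897490) (nat_lit 51) (nat_lit 5) (nat_lit 52) (nat_lit 5) (nat_lit 53) (nat_lit 4) (nat_lit 548) (nat_lit 424) (nat_lit 228)) (XT.lf (nat_lit 0) (nat_lit 55629324664) (nat_lit 76) (nat_lit 6325997080) (nat_lit 152) (nat_lit 21196405161) (nat_lit 51) (nat_lit 5) (nat_lit 52) (nat_lit 5) (nat_lit 53) (nat_lit 4) (nat_lit 549) (nat_lit 424) (nat_lit 227))) (XT.nd (nat_lit 78) (nat_lit 0) (nat_lit 0) (XT.lf (nat_lit 0) (nat_lit 852202450) (nat_lit 1140) (nat_lit 1851325863) (nat_lit 1140) (nat_lit 1851325863) (nat_lit 325) (nat_lit 3) (nat_lit 340) (nat_lit 3) (nat_lit 340) (nat_lit 5) (nat_lit 425) (nat_lit 425) (nat_lit 350)) (XT.lf (nat_lit 76) (nat_lit 816916564) (nat_lit 0) (nat_lit 1792687527) (nat_lit 1140) (nat_lit 6610228422) (nat_lit 326) (nat_lit 5) (nat_lit 325) (nat_lit 3) (nat_lit 340) (nat_lit 5) (nat_lit 426) (nat_lit 425) (nat_lit 349))))))) (XT.nd (nat_lit 1170) (nat_lit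 6460) (nat_lit 0) (XT.nd (nat_lit 546) (nat_lit 912) (nat_lit 0) (XT.nd (nat_lit 234) (nat_lit 0) (nat_lit 76) (XT.nd (nat_lit 78) (nat_lit 0) (nat_lit 0) (XT.lf (nat_lit 0) (nat_lit 3564234332) (nat_lit 1064) (nat_lit 3822150887) (nat_lit 1140) (nat_lit 1946212097) (nat_lit 326) (nat_lit 5) (nat_lit 340) (nat_lit 5) (nat_lit 341) (nat_lit 5) (nat_lit 427) (nat_lit 425) (nat_lit 348)) (XT.nd (nat_lit 78) (nat_lit 0) (nat_lit 76) (XT.lf (nat_lit 76) (nat_lit 876893074) (nat_lit 0) (nat_lit 3663742352) (nat_lit 1140) (nat_lit 4908320697) (nat_lit 327) (nat_lit 5) (nat_lit 326) (nat_lit 5) (nat_lit 341) (nat_lit 5) (nat_lit 428) (nat_lit 425) (nat_lit 347)) (XT.lf (nat_lit 0) (nat_lit 5554820310) (nat_lit 1064) (nat_lit 3793842187) (nat_lit 1140) (nat_lit 219893318) (nat_lit 327) (nat_lit 5) (nat_lit 341) (nat_lit 5) (nat_lit 342) (nat_lit 5) (nat_lit 429) (nat_lit 425) (nat_lit 346)))) (XT.nd (nat_lit 156) (nat_lit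 0) (nat_lit 76) (XT.nd (nat_lit 78) (nat_lit 0) (nat_lit 0) (XT.lf (nat_lit 76) (nat_lit 1093931911) (nat_lit 0) (nat_lit 5521098436) (nat_lit 1140) (nat_lit 3076249894) (nat_lit 328) (nat_lit 5) (nat_lit 327) (nat_lit 5) (nat_lit 342) (nat_lit 5) (nat_lit 430) (nat_lit 425) (nat_lit 345)) (XT.lf (nat_lit 76) (nat_lit 6187428968) (nat_lit 0) (nat_lit 1527466370) (nat_lit 1140) (nat_lit 2102560196) (nat_lit 328) (nat_lit 5) (nat_lit 327) (nat_lit 5) (nat_lit 342) (nat_lit 5) (nat_lit 431) (nat_lit 425) (nat_lit 344))) (XT.nd (nat_lit 78) (nat_lit 0) (nat_lit 0) (XT.lf (nat_lit 76) (nat_lit 1471023987) (nat_lit 0) (nat_lit 7386266116) (nat_lit 1140) (nat_lit 1089844428) (nat_lit 329) (nat_lit 5) (nat_lit 328) (nat_lit 5) (nat_lit 343) (nat_lit 5) (nat_lit 432) (nat_lit 425) (nat_lit 343)) (XT.lf (nat_lit 76) (nat_lit 6765143385) (nat_lit 0) (nat_lit 3291656136) (nat_lit 1140) (nat_lit 23223422) (nat_lit 329) (nat_lit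 5) (nat_lit 328) (nat_lit 5) (nat_lit 343) (nat_lit 5) (nat_lit 433) (nat_lit 425) (nat_lit 342))))) (XT.nd (nat_lit 312) (nat_lit 0) (nat_lit 76) (XT.nd (nat_lit 156) (nat_lit 0) (nat_lit 0) (XT.nd (nat_lit 78) (nat_lit 0) (nat_lit 0) (XT.lf (nat_lit 0) (nat_lit 1054794845) (nat_lit 1140) (nat_lit 8215009864) (nat_lit 1216) (nat_lit 946775755) (nat_lit 314) (nat_lit 5) (nat_lit 329) (nat_lit 5) (nat_lit 330) (nat_lit 5) (nat_lit 434) (nat_lit 425) (nat_lit 341)) (XT.lf (nat_lit 0) (nat_lit 2203578344) (nat_lit 1140) (nat_lit 2863611095) (nat_lit 1216) (nat_lit 5288875590) (nat_lit 314) (nat_lit 5) (nat_lit 329) (nat_lit 5) (nat_lit 330) (nat_lit 5) (nat_lit 435) (nat_lit 425) (nat_lit 340))) (XT.nd (nat_lit 78) (nat_lit 0) (nat_lit 76) (XT.lf (nat_lit 76) (nat_lit 2681535041) (nat_lit 0) (nat_lit 704363552) (nat_lit 1216) (nat_lit 7113867190) (nat_lit 315) (nat_lit 5) (nat_lit 314) (nat_lit 5) (nat_lit 330) (nat_lit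 5) (nat_lit 436) (nat_lit 425) (nat_lit 339)) (XT.lf (nat_lit 0) (nat_lit 4643278551) (nat_lit 1140) (nat_lit 2251674562) (nat_lit 1216) (nat_lit 3751640478) (nat_lit 315) (nat_lit 5) (nat_lit 330) (nat_lit 5) (nat_lit 331) (nat_lit 5) (nat_lit 437) (nat_lit 425) (nat_lit 338)))) (XT.nd (nat_lit 156) (nat_lit 0) (nat_lit 76) (XT.nd (nat_lit 78) (nat_lit 0) (nat_lit 76) (XT.lf (nat_lit 76) (nat_lit 3524466370) (nat_lit 0) (nat_lit 2429486581) (nat_lit 1216) (nat_lit 4843409717) (nat_lit 316) (nat_lit 5) (nat_lit 315) (nat_lit 5) (nat_lit 331) (nat_lit 5) (nat_lit 438) (nat_lit 425) (nat_lit 337)) (XT.lf (nat_lit 0) (nat_lit 7323097105) (nat_lit 1140) (nat_lit 1472832834) (nat_lit 1216) (nat_lit 2156153911) (nat_lit 316) (nat_lit 5) (nat_lit 331) (nat_lit 5) (nat_lit 332) (nat_lit 5) (nat_lit 439) (nat_lit 425) (nat_lit 336))) (XT.nd (nat_lit 78) (nat_lit 0) (nat_lit 76) (XT.lf (nat_lit 76) (nat_lit 4546652355) (nat_lit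 0) (nat_lit 4230469426) (nat_lit 1216) (nat_lit 2333014121) (nat_lit 317) (nat_lit 5) (nat_lit 316) (nat_lit 5) (nat_lit 332) (nat_lit 5) (nat_lit 440) (nat_lit 425) (nat_lit 335)) (XT.lf (nat_lit 0) (nat_lit 10270927137) (nat_lit 1140) (nat_lit 520060886) (nat_lit 76) (nat_lit 482060012) (nat_lit 317) (nat_lit 5) (nat_lit 332) (nat_lit 5) (nat_lit 318) (nat_lit 5) (nat_lit 441) (nat_lit 425) (nat_lit 334)))))) (XT.nd (nat_lit 624) (nat_lit 2280) (nat_lit 0) (XT.nd (nat_lit 312) (nat_lit 1216) (nat_lit 0) (XT.nd (nat_lit 156) (nat_lit 760) (nat_lit 0) (XT.nd (nat_lit 78) (nat_lit 1216) (nat_lit 0) (XT.lf (nat_lit 0) (nat_lit 436738371) (nat_lit 1216) (nat_lit 5687031622) (nat_lit 76) (nat_lit 5314717326) (nat_lit 301) (nat_lit 5) (nat_lit 317) (nat_lit 5) (nat_lit 302) (nat_lit 5) (nat_lit 442) (nat_lit 425) (nat_lit 333)) (XT.lf (nat_lit 0) (nat_lit 595194797) (nat_lit 1216) (nat_lit 1291991990) (nat_lit 1292)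 (nat_lit 9721751421) (nat_lit 285) (nat_lit 5) (nat_lit 301) (nat_lit 5) (nat_lit 302) (nat_lit 5) (nat_lit 443) (nat_lit 425) (nat_lit 332))) (XT.nd (nat_lit 78) (nat_lit 760) (nat_lit 0) (XT.lf (nat_lit 0) (nat_lit 3452599627) (nat_lit 1292) (nat_lit 4656291118) (nat_lit 76) (nat_lit 3673471297) (nat_lit 285) (nat_lit 5) (nat_lit 302) (nat_lit 5) (nat_lit 286) (nat_lit 5) (nat_lit 444) (nat_lit 425) (nat_lit 331)) (XT.lf (nat_lit 0) (nat_lit 1896696996) (nat_lit 760) (nat_lit 3177976379) (nat_lit 836) (nat_lit 6886027123) (nat_lit 275) (nat_lit 5) (nat_lit 285) (nat_lit 5) (nat_lit 286) (nat_lit 5) (nat_lit 445) (nat_lit 425) (nat_lit 330)))) (XT.nd (nat_lit 156) (nat_lit 608) (nat_lit 0) (XT.nd (nat_lit 78) (nat_lit 608) (nat_lit 0) (XT.lf (nat_lit 0) (nat_lit 6790293369) (nat_lit 836) (nat_lit 3439854593) (nat_lit 76) (nat_lit 1912897405) (nat_lit 275) (nat_lit 5) (nat_lit 286) (nat_lit 5) (nat_lit 276) (nat_lit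 5) (nat_lit 446) (nat_lit 425) (nat_lit 329)) (XT.lf (nat_lit 0) (nat_lit 3398588486) (nat_lit 608) (nat_lit 5202662658) (nat_lit 684) (nat_lit 3728296060) (nat_lit 267) (nat_lit 5) (nat_lit 275) (nat_lit 5) (nat_lit 276) (nat_lit 5) (nat_lit 447) (nat_lit 425) (nat_lit 328))) (XT.nd (nat_lit 78) (nat_lit 608) (nat_lit 0) (XT.lf (nat_lit 0) (nat_lit 10481532064) (nat_lit 684) (nat_lit 2027713889) (nat_lit 76) (nat_lit 11950931) (nat_lit 267) (nat_lit 5) (nat_lit 276) (nat_lit 5) (nat_lit 268) (nat_lit 5) (nat_lit 448) (nat_lit 425) (nat_lit 327)) (XT.lf (nat_lit 0) (nat_lit 5111738457) (nat_lit 608) (nat_lit 7387858609) (nat_lit 684) (nat_lit 216560261) (nat_lit 259) (nat_lit 5) (nat_lit 267) (nat_lit 5) (nat_lit 268) (nat_lit 5) (nat_lit 449) (nat_lit 425) (nat_lit 326))))) (XT.nd (nat_lit 312) (nat_lit 1140) (nat_lit 0) (XT.nd (nat_lit 156) (nat_lit 532) (nat_lit 0) (XT.nd (nat_lit 78) (nat_lit 532) (nat_lit 0)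 (XT.lf (nat_lit 0) (nat_lit 1630416170) (nat_lit 684) (nat_lit 444904766) (nat_lit 76) (nat_lit 10841121117) (nat_lit 258) (nat_lit 5) (nat_lit 267) (nat_lit 5) (nat_lit 259) (nat_lit 5) (nat_lit 450) (nat_lit 425) (nat_lit 325)) (XT.lf (nat_lit 0) (nat_lit 3610991910) (nat_lit 608) (nat_lit 6108552489) (nat_lit 76) (nat_lit 3400652644) (nat_lit 251) (nat_lit 5) (nat_lit 259) (nat_lit 5) (nat_lit 252) (nat_lit 5) (nat_lit 451) (nat_lit 425) (nat_lit 324))) (XT.nd (nat_lit 78) (nat_lit 0) (nat_lit 0) (XT.lf (nat_lit 0) (nat_lit 1357867156) (nat_lit 532) (nat_lit 4313085067) (nat_lit 608) (nat_lit 7658515701) (nat_lit 244) (nat_lit 5) (nat_lit 251) (nat_lit 5) (nat_lit 252) (nat_lit 5) (nat_lit 452) (nat_lit 425) (nat_lit 323)) (XT.lf (nat_lit 0) (nat_lit 7849242153) (nat_lit 608) (nat_lit 4401804571) (nat_lit 76) (nat_lit 1292276475) (nat_lit 244) (nat_lit 5) (nat_lit 252) (nat_lit 5) (nat_lit 245) (nat_lit 5) (nat_lit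 453) (nat_lit 425) (nat_lit 322)))) (XT.nd (nat_lit 156) (nat_lit 608) (nat_lit 0) (XT.nd (nat_lit 78) (nat_lit 0) (nat_lit 0) (XT.lf (nat_lit 0) (nat_lit 3399834546) (nat_lit 532) (nat_lit 6751117144) (nat_lit 608) (nat_lit 3610902447) (nat_lit 237) (nat_lit 5) (nat_lit 244) (nat_lit 5) (nat_lit 245) (nat_lit 5) (nat_lit 454) (nat_lit 425) (nat_lit 321)) (XT.lf (nat_lit 0) (nat_lit 11507050543) (nat_lit 532) (nat_lit 1042121865) (nat_lit 608) (nat_lit 1436946866) (nat_lit 237) (nat_lit 5) (nat_lit 244) (nat_lit 5) (nat_lit 245) (nat_lit 5) (nat_lit 455) (nat_lit 425) (nat_lit 320))) (XT.nd (nat_lit 78) (nat_lit 0) (nat_lit 0) (XT.lf (nat_lit 0) (nat_lit 872064614) (nat_lit 608) (nat_lit 8536944058) (nat_lit 76) (nat_lit 4805309550) (nat_lit 229) (nat_lit 5) (nat_lit 237) (nat_lit 5) (nat_lit 230) (nat_lit 5) (nat_lit 456) (nat_lit 425) (nat_lit 319)) (XT.lf (nat_lit 0) (nat_lit 3240695084) (nat_lit 608) (nat_lit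 362862335) (nat_lit 76) (nat_lit 10844803900) (nat_lit 229) (nat_lit 5) (nat_lit 237) (nat_lit 5) (nat_lit 230) (nat_lit 5) (nat_lit 457) (nat_lit 425) (nat_lit 318))))))))
noncomputable def xc154 : XT := (XT.nd (nat_lit 2340) (nat_lit 4104) (nat_lit 0) (XT.nd (nat_lit 1170) (nat_lit 2964) (nat_lit 0) (XT.nd (nat_lit 546) (nat_lit 1672) (nat_lit 0) (XT.nd (nat_lit 234) (nat_lit 1368) (nat_lit 0) (XT.nd (nat_lit 78) (nat_lit 456) (nat_lit 0) (XT.lf (nat_lit 0) (nat_lit 5766895218) (nat_lit 532) (nat_lit 6512958919) (nat_lit 76) (nat_lit 2406978086) (nat_lit 223) (nat_lit 5) (nat_lit 230) (nat_lit 5) (nat_lit 224) (nat_lit 5) (nat_lit 458) (nat_lit 425) (nat_lit 317)) (XT.nd (nat_lit 78) (nat_lit 0) (nat_lit 0) (XT.lf (nat_lit 0) (nat_lit 2027137443) (nat_lit 456) (nat_lit 6384981963) (nat_lit 532) (nat_lit 6519042491) (nat_lit 217) (nat_lit 5) (nat_lit 223) (nat_lit 5) (nat_lit 224) (nat_lit 5) (nat_lit 459) (nat_lit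 425) (nat_lit 316)) (XT.lf (nat_lit 0) (nat_lit 10938621154) (nat_lit 456) (nat_lit 248498996) (nat_lit 532) (nat_lit 3994190448) (nat_lit 217) (nat_lit 5) (nat_lit 223) (nat_lit 5) (nat_lit 224) (nat_lit 5) (nat_lit 460) (nat_lit 425) (nat_lit 315)))) (XT.nd (nat_lit 156) (nat_lit 836) (nat_lit 0) (XT.nd (nat_lit 78) (nat_lit 76) (nat_lit 0) (XT.lf (nat_lit 0) (nat_lit 4693491993) (nat_lit 456) (nat_lit 9440435148) (nat_lit 532) (nat_lit 1302381615) (nat_lit 211) (nat_lit 5) (nat_lit 217) (nat_lit 5) (nat_lit 218) (nat_lit 5) (nat_lit 461) (nat_lit 425) (nat_lit 314)) (XT.lf (nat_lit 0) (nat_lit 1472405991) (nat_lit 532) (nat_lit 1748288474) (nat_lit 76) (nat_lit 12476912618) (nat_lit 210) (nat_lit 5) (nat_lit 217) (nat_lit 5) (nat_lit 211) (nat_lit 5) (nat_lit 462) (nat_lit 425) (nat_lit 313))) (XT.nd (nat_lit 78) (nat_lit 380) (nat_lit 0) (XT.lf (nat_lit 0) (nat_lit 4394707649) (nat_lit 532) (nat_lit 8361674102)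 (nat_lit 76) (nat_lit 3207263891) (nat_lit 204) (nat_lit 5) (nat_lit 211) (nat_lit 5) (nat_lit 205) (nat_lit 5) (nat_lit 463) (nat_lit 425) (nat_lit 312)) (XT.lf (nat_lit 0) (nat_lit 1000896556) (nat_lit 380) (nat_lit 6448953288) (nat_lit 456) (nat_lit 8786461864) (nat_lit 199) (nat_lit 5) (nat_lit 204) (nat_lit 5) (nat_lit 205) (nat_lit 5) (nat_lit 464) (nat_lit 425) (nat_lit 311))))) (XT.nd (nat_lit 312) (nat_lit 760) (nat_lit 0) (XT.nd (nat_lit 156) (nat_lit 456) (nat_lit 0) (XT.nd (nat_lit 78) (nat_lit 456) (nat_lit 0) (XT.lf (nat_lit 0) (nat_lit 10668414012) (nat_lit 456) (nat_lit 5718387240) (nat_lit 76) (nat_lit 128204922) (nat_lit 199) (nat_lit 5) (nat_lit 205) (nat_lit 5) (nat_lit 200) (nat_lit 5) (nat_lit 465) (nat_lit 425) (nat_lit 310)) (XT.lf (nat_lit 0) (nat_lit 4082272432) (nat_lit 456) (nat_lit 9990798378) (nat_lit 532) (nat_lit 2726306000) (nat_lit 193) (nat_lit 5) (nat_lit 199) (nat_lit 5) (nat_lit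 200) (nat_lit 5) (nat_lit 466) (nat_lit 425) (nat_lit 309))) (XT.nd (nat_lit 78) (nat_lit 380) (nat_lit 0) (XT.lf (nat_lit 0) (nat_lit 522926914) (nat_lit 532) (nat_lit 2819415492) (nat_lit 76) (nat_lit 13748451295) (nat_lit 192) (nat_lit 5) (nat_lit 199) (nat_lit 5) (nat_lit 193) (nat_lit 5) (nat_lit 467) (nat_lit 425) (nat_lit 308)) (XT.lf (nat_lit 0) (nat_lit 3908277671) (nat_lit 456) (nat_lit 9946171442) (nat_lit 76) (nat_lit 3532892374) (nat_lit 187) (nat_lit 5) (nat_lit 193) (nat_lit 5) (nat_lit 188) (nat_lit 5) (nat_lit 468) (nat_lit 425) (nat_lit 307)))) (XT.nd (nat_lit 156) (nat_lit 380) (nat_lit 0) (XT.nd (nat_lit 78) (nat_lit 0) (nat_lit 0) (XT.lf (nat_lit 0) (nat_lit 331080360) (nat_lit 380) (nat_lit 7116240388) (nat_lit 456) (nat_lit 10243902253) (nat_lit 182) (nat_lit 5) (nat_lit 187) (nat_lit 5) (nat_lit 188) (nat_lit 5) (nat_lit 469) (nat_lit 425) (nat_lit 306)) (XT.lf (nat_lit 0) (nat_lit 11103264849)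 (nat_lit 380) (nat_lit 77020974) (nat_lit 456) (nat_lit 6821303833) (nat_lit 182) (nat_lit 5) (nat_lit 187) (nat_lit 5) (nat_lit 188) (nat_lit 5) (nat_lit 470) (nat_lit 425) (nat_lit 305))) (XT.nd (nat_lit 78) (nat_lit 76) (nat_lit 0) (XT.lf (nat_lit 0) (nat_lit 3866750462) (nat_lit 304) (nat_lit 11252254406) (nat_lit 380) (nat_lit 3199450671) (nat_lit 178) (nat_lit 5) (nat_lit 182) (nat_lit 5) (nat_lit 183) (nat_lit 5) (nat_lit 471) (nat_lit 425) (nat_lit 304)) (XT.lf (nat_lit 0) (nat_lit 579523357) (nat_lit 380) (nat_lit 3570282290) (nat_lit 76) (nat_lit 14493104874) (nat_lit 177) (nat_lit 5) (nat_lit 182) (nat_lit 5) (nat_lit 178) (nat_lit 5) (nat_lit 472) (nat_lit 425) (nat_lit 303)))))) (XT.nd (nat_lit 546) (nat_lit 1292) (nat_lit 0) (XT.nd (nat_lit 234) (nat_lit 988) (nat_lit 0) (XT.nd (nat_lit 78) (nat_lit 304) (nat_lit 0) (XT.lf (nat_lit 0) (nat_lit 4501474591) (nat_lit 456) (nat_lit 11265439196) (nat_lit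 76) (nat_lit 3206418699) (nat_lit 172) (nat_lit 5) (nat_lit 178) (nat_lit 5) (nat_lit 173) (nat_lit 5) (nat_lit 473) (nat_lit 425) (nat_lit 302)) (XT.nd (nat_lit 78) (nat_lit 0) (nat_lit 0) (XT.lf (nat_lit 0) (nat_lit 27286199) (nat_lit 304) (nat_lit 8579774278) (nat_lit 380) (nat_lit 10704628398) (nat_lit 168) (nat_lit 5) (nat_lit 172) (nat_lit 5) (nat_lit 173) (nat_lit 5) (nat_lit 474) (nat_lit 425) (nat_lit 301)) (XT.lf (nat_lit 0) (nat_lit 11873070688) (nat_lit 304) (nat_lit 1064902047) (nat_lit 380) (nat_lit 6719159473) (nat_lit 168) (nat_lit 5) (nat_lit 172) (nat_lit 5) (nat_lit 173) (nat_lit 5) (nat_lit 475) (nat_lit 425) (nat_lit 300)))) (XT.nd (nat_lit 156) (nat_lit 608) (nat_lit 0) (XT.nd (nat_lit 78) (nat_lit 76) (nat_lit 0) (XT.lf (nat_lit 0) (nat_lit 4059884882) (nat_lit 304) (nat_lit 13430812418) (nat_lit 380) (nat_lit 2519485981) (nat_lit 164) (nat_lit 5) (nat_lit 168) (nat_lit 5) (nat_lit 169) (nat_lit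 5) (nat_lit 476) (nat_lit 425) (nat_lit 299)) (XT.lf (nat_lit 0) (nat_lit 1849610461) (nat_lit 380) (nat_lit 3997959586) (nat_lit 76) (nat_lit 14523375575) (nat_lit 163) (nat_lit 5) (nat_lit 168) (nat_lit 5) (nat_lit 164) (nat_lit 5) (nat_lit 477) (nat_lit 425) (nat_lit 298))) (XT.nd (nat_lit 78) (nat_lit 304) (nat_lit 0) (XT.lf (nat_lit 0) (nat_lit 6389189962) (nat_lit 380) (nat_lit 12322959621) (nat_lit 76) (nat_lit 2026932310) (nat_lit 159) (nat_lit 5) (nat_lit 164) (nat_lit 5) (nat_lit 160) (nat_lit 5) (nat_lit 478) (nat_lit 425) (nat_lit 297)) (XT.lf (nat_lit 0) (nat_lit 94926771) (nat_lit 304) (nat_lit 11058806423) (nat_lit 380) (nat_lit 9961866647) (nat_lit 155) (nat_lit 5) (nat_lit 159) (nat_lit 5) (nat_lit 160) (nat_lit 5) (nat_lit 479) (nat_lit 425) (nat_lit 296))))) (XT.nd (nat_lit 312) (nat_lit 608) (nat_lit 0) (XT.nd (nat_lit 156) (nat_lit 380) (nat_lit 0) (XT.nd (nat_lit 78) (nat_lit 304) (nat_lit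 0) (XT.lf (nat_lit 0) (nat_lit 13121957893) (nat_lit 304) (nat_lit 3053049285) (nat_lit 380) (nat_lit 5324993167) (nat_lit 155) (nat_lit 5) (nat_lit 159) (nat_lit 5) (nat_lit 160) (nat_lit 5) (nat_lit 480) (nat_lit 425) (nat_lit 295)) (XT.lf (nat_lit 0) (nat_lit 4669268944) (nat_lit 304) (nat_lit 16762068178) (nat_lit 380) (nat_lit 462064036) (nat_lit 151) (nat_lit 5) (nat_lit 155) (nat_lit 5) (nat_lit 156) (nat_lit 5) (nat_lit 481) (nat_lit 425) (nat_lit 294))) (XT.nd (nat_lit 78) (nat_lit 304) (nat_lit 0) (XT.lf (nat_lit 0) (nat_lit 4563363814) (nat_lit 380) (nat_lit 4106943453) (nat_lit 76) (nat_lit 13623826293) (nat_lit 150) (nat_lit 5) (nat_lit 155) (nat_lit 5) (nat_lit 151) (nat_lit 5) (nat_lit 482) (nat_lit 425) (nat_lit 293)) (XT.lf (nat_lit 0) (nat_lit 9570556847) (nat_lit 304) (nat_lit 241676361) (nat_lit 380) (nat_lit 12892059264) (nat_lit 146) (nat_lit 5) (nat_lit 150) (nat_lit 5) (nat_lit 151) (nat_lit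 5) (nat_lit 483) (nat_lit 425) (nat_lit 292)))) (XT.nd (nat_lit 156) (nat_lit 380) (nat_lit 0) (XT.nd (nat_lit 78) (nat_lit 0) (nat_lit 0) (XT.lf (nat_lit 0) (nat_lit 530388653) (nat_lit 228) (nat_lit 14806351837) (nat_lit 304) (nat_lit 7786471242) (nat_lit 143) (nat_lit 5) (nat_lit 146) (nat_lit 5) (nat_lit 147) (nat_lit 5) (nat_lit 484) (nat_lit 425) (nat_lit 291)) (XT.lf (nat_lit 0) (nat_lit 14855896320) (nat_lit 228) (nat_lit 6296285175) (nat_lit 304) (nat_lit 2398761834) (nat_lit 143) (nat_lit 5) (nat_lit 146) (nat_lit 5) (nat_lit 147) (nat_lit 5) (nat_lit 485) (nat_lit 425) (nat_lit 290))) (XT.nd (nat_lit 78) (nat_lit 0) (nat_lit 0) (XT.lf (nat_lit 0) (nat_lit 3158667085) (nat_lit 380) (nat_lit 18328527716) (nat_lit 76) (nat_lit 2501317165) (nat_lit 138) (nat_lit 5) (nat_lit 143) (nat_lit 5) (nat_lit 139) (nat_lit 5) (nat_lit 486) (nat_lit 425) (nat_lit 289)) (XT.lf (nat_lit 0) (nat_lit 8976096310) (nat_lit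 380) (nat_lit 3914784544) (nat_lit 76) (nat_lit 11543370252) (nat_lit 138) (nat_lit 5) (nat_lit 143) (nat_lit 5) (nat_lit 139) (nat_lit 5) (nat_lit 487) (nat_lit 425) (nat_lit 288))))))) (XT.nd (nat_lit 1170) (nat_lit 1900) (nat_lit 0) (XT.nd (nat_lit 546) (nat_lit 912) (nat_lit 0) (XT.nd (nat_lit 234) (nat_lit 760) (nat_lit 0) (XT.nd (nat_lit 78) (nat_lit 304) (nat_lit 0) (XT.lf (nat_lit 0) (nat_lit 11133916803) (nat_lit 228) (nat_lit 3931913410) (nat_lit 304) (nat_lit 9824599387) (nat_lit 135) (nat_lit 5) (nat_lit 138) (nat_lit 5) (nat_lit 139) (nat_lit 5) (nat_lit 488) (nat_lit 425) (nat_lit 287)) (XT.nd (nat_lit 78) (nat_lit 76) (nat_lit 0) (XT.lf (nat_lit 0) (nat_lit 1314784767) (nat_lit 228) (nat_lit 20117772111) (nat_lit 304) (nat_lit 3924908164) (nat_lit 132) (nat_lit 5) (nat_lit 135) (nat_lit 5) (nat_lit 136) (nat_lit 5) (nat_lit 489) (nat_lit 425) (nat_lit 286)) (XT.lf (nat_lit 0) (nat_lit 2279872545)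 (nat_lit 304) (nat_lit 8789948767) (nat_lit 76) (nat_lit 14762967662) (nat_lit 131) (nat_lit 5) (nat_lit 135) (nat_lit 5) (nat_lit 132) (nat_lit 5) (nat_lit 490) (nat_lit 425) (nat_lit 285)))) (XT.nd (nat_lit 156) (nat_lit 532) (nat_lit 0) (XT.nd (nat_lit 78) (nat_lit 0) (nat_lit 0) (XT.lf (nat_lit 0) (nat_lit 7003773511) (nat_lit 228) (nat_lit 1646595498) (nat_lit 304) (nat_lit 17669084591) (nat_lit 128) (nat_lit 5) (nat_lit 131) (nat_lit 5) (nat_lit 132) (nat_lit 5) (nat_lit 491) (nat_lit 425) (nat_lit 284)) (XT.lf (nat_lit 0) (nat_lit 15370294320) (nat_lit 304) (nat_lit 3459380789) (nat_lit 76) (nat_lit 7986294184) (nat_lit 128) (nat_lit 5) (nat_lit 132) (nat_lit 5) (nat_lit 129) (nat_lit 5) (nat_lit 492) (nat_lit 425) (nat_lit 283))) (XT.nd (nat_lit 78) (nat_lit 304) (nat_lit 0) (XT.lf (nat_lit 0) (nat_lit 13097843833) (nat_lit 228) (nat_lit 9327639900) (nat_lit 304) (nat_lit 4897887266) (nat_lit 125) (nat_lit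 5) (nat_lit 128) (nat_lit 5) (nat_lit 129) (nat_lit 5) (nat_lit 493) (nat_lit 425) (nat_lit 282)) (XT.lf (nat_lit 0) (nat_lit 1865185963) (nat_lit 304) (nat_lit 25456824595) (nat_lit 76) (nat_lit 521805839) (nat_lit 121) (nat_lit 5) (nat_lit 125) (nat_lit 5) (nat_lit 122) (nat_lit 5) (nat_lit 494) (nat_lit 425) (nat_lit 281))))) (XT.nd (nat_lit 312) (nat_lit 456) (nat_lit 0) (XT.nd (nat_lit 156) (nat_lit 228) (nat_lit 0) (XT.nd (nat_lit 78) (nat_lit 228) (nat_lit 0) (XT.lf (nat_lit 0) (nat_lit 8961684401) (nat_lit 304) (nat_lit 8742479067) (nat_lit 76) (nat_lit 10667388086) (nat_lit 121) (nat_lit 5) (nat_lit 125) (nat_lit 5) (nat_lit 122) (nat_lit 5) (nat_lit 495) (nat_lit 425) (nat_lit 280)) (XT.lf (nat_lit 0) (nat_lit 8627930646) (nat_lit 228) (nat_lit 7717880808) (nat_lit 304) (nat_lit 12567065773) (nat_lit 118) (nat_lit 5) (nat_lit 121) (nat_lit 5) (nat_lit 122) (nat_lit 5) (nat_lit 496) (nat_lit 425) (nat_lit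 279))) (XT.nd (nat_lit 78) (nat_lit 228) (nat_lit 0) (XT.lf (nat_lit 0) (nat_lit 24057155509) (nat_lit 304) (nat_lit 2808472532) (nat_lit 76) (nat_lit 2601644292) (nat_lit 118) (nat_lit 5) (nat_lit 122) (nat_lit 5) (nat_lit 119) (nat_lit 5) (nat_lit 497) (nat_lit 425) (nat_lit 278)) (XT.lf (nat_lit 0) (nat_lit 2141975480) (nat_lit 228) (nat_lit 14649734622) (nat_lit 76) (nat_lit 13239462608) (nat_lit 115) (nat_lit 5) (nat_lit 118) (nat_lit 5) (nat_lit 116) (nat_lit 5) (nat_lit 498) (nat_lit 425) (nat_lit 277)))) (XT.nd (nat_lit 156) (nat_lit 228) (nat_lit 0) (XT.nd (nat_lit 78) (nat_lit 0) (nat_lit 0) (XT.lf (nat_lit 0) (nat_lit 3565804326) (nat_lit 228) (nat_lit 6301120523) (nat_lit 304) (nat_lit 20741807733) (nat_lit 112) (nat_lit 5) (nat_lit 115) (nat_lit 5) (nat_lit 116) (nat_lit 5) (nat_lit 499) (nat_lit 425) (nat_lit 276)) (XT.lf (nat_lit 0) (nat_lit 18008481946) (nat_lit 304) (nat_lit 8629286644) (nat_lit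 76) (nat_lit 4560305291) (nat_lit 112) (nat_lit 5) (nat_lit 116) (nat_lit 5) (nat_lit 113) (nat_lit 5) (nat_lit 500) (nat_lit 425) (nat_lit 275))) (XT.nd (nat_lit 78) (nat_lit 76) (nat_lit 0) (XT.lf (nat_lit 0) (nat_lit 10465530723) (nat_lit 152) (nat_lit 16084135645) (nat_lit 228) (nat_lit 5250768028) (nat_lit 110) (nat_lit 5) (nat_lit 112) (nat_lit 5) (nat_lit 113) (nat_lit 5) (nat_lit 501) (nat_lit 425) (nat_lit 274)) (XT.lf (nat_lit 0) (nat_lit 2949535804) (nat_lit 228) (nat_lit 2150248011) (nat_lit 76) (nat_lit 27317825936) (nat_lit 109) (nat_lit 5) (nat_lit 112) (nat_lit 5) (nat_lit 110) (nat_lit 5) (nat_lit 502) (nat_lit 425) (nat_lit 273)))))) (XT.nd (nat_lit 624) (nat_lit 912) (nat_lit 0) (XT.nd (nat_lit 312) (nat_lit 380) (nat_lit 0) (XT.nd (nat_lit 156) (nat_lit 228) (nat_lit 0) (XT.nd (nat_lit 78) (nat_lit 152) (nat_lit 0) (XT.lf (nat_lit 0) (nat_lit 11516861556) (nat_lit 304) (nat_lit 15214265752) (nat_lit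 76) (nat_lit 6313817343) (nat_lit 106) (nat_lit 5) (nat_lit 110) (nat_lit 5) (nat_lit 107) (nat_lit 5) (nat_lit 503) (nat_lit 425) (nat_lit 272)) (XT.lf (nat_lit 0) (nat_lit 4794767525) (nat_lit 152) (nat_lit 15657629044) (nat_lit 228) (nat_lit 13235367696) (nat_lit 104) (nat_lit 5) (nat_lit 106) (nat_lit 5) (nat_lit 107) (nat_lit 5) (nat_lit 504) (nat_lit 425) (nat_lit 271))) (XT.nd (nat_lit 78) (nat_lit 228) (nat_lit 0) (XT.lf (nat_lit 0) (nat_lit 25703323186) (nat_lit 152) (nat_lit 4099078660) (nat_lit 228) (nat_lit 4543074836) (nat_lit 104) (nat_lit 5) (nat_lit 106) (nat_lit 5) (nat_lit 107) (nat_lit 5) (nat_lit 505) (nat_lit 425) (nat_lit 270)) (XT.lf (nat_lit 0) (nat_lit 4512659848) (nat_lit 228) (nat_lit 22691412318) (nat_lit 76) (nat_lit 7811915049) (nat_lit 101) (nat_lit 5) (nat_lit 104) (nat_lit 5) (nat_lit 102) (nat_lit 5) (nat_lit 506) (nat_lit 425) (nat_lit 269)))) (XT.nd (nat_lit 156) (nat_lit 228)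 (nat_lit 0) (XT.nd (nat_lit 78) (nat_lit 152) (nat_lit 0) (XT.lf (nat_lit 0) (nat_lit 13870421506) (nat_lit 228) (nat_lit 1705401953) (nat_lit 76) (nat_lit 20125790503) (nat_lit 101) (nat_lit 5) (nat_lit 104) (nat_lit 5) (nat_lit 102) (nat_lit 5) (nat_lit 507) (nat_lit 425) (nat_lit 268)) (XT.lf (nat_lit 0) (nat_lit 20294124610) (nat_lit 152) (nat_lit 3403024776) (nat_lit 228) (nat_lit 12705013425) (nat_lit 99) (nat_lit 5) (nat_lit 101) (nat_lit 5) (nat_lit 102) (nat_lit 5) (nat_lit 508) (nat_lit 425) (nat_lit 267))) (XT.nd (nat_lit 78) (nat_lit 76) (nat_lit 0) (XT.lf (nat_lit 0) (nat_lit 5880033473) (nat_lit 152) (nat_lit 28093558988) (nat_lit 228) (nat_lit 3145488557) (nat_lit 97) (nat_lit 5) (nat_lit 99) (nat_lit 5) (nat_lit 100) (nat_lit 5) (nat_lit 509) (nat_lit 425) (nat_lit 266)) (XT.lf (nat_lit 0) (nat_lit 6761232870) (nat_lit 228) (nat_lit 9106524087) (nat_lit 76) (nat_lit 21982082682) (nat_lit 96) (nat_lit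 5) (nat_lit 99) (nat_lit 5) (nat_lit 97) (nat_lit 5) (nat_lit 510) (nat_lit 425) (nat_lit 265))))) (XT.nd (nat_lit 312) (nat_lit 380) (nat_lit 0) (XT.nd (nat_lit 156) (nat_lit 380) (nat_lit 0) (XT.nd (nat_lit 78) (nat_lit 0) (nat_lit 0) (XT.lf (nat_lit 0) (nat_lit 13918660864) (nat_lit 152) (nat_lit 3110471060) (nat_lit 228) (nat_lit 21568639144) (nat_lit 94) (nat_lit 5) (nat_lit 96) (nat_lit 5) (nat_lit 97) (nat_lit 5) (nat_lit 511) (nat_lit 425) (nat_lit 264)) (XT.lf (nat_lit 0) (nat_lit 27787779651) (nat_lit 228) (nat_lit 1653230902) (nat_lit 76) (nat_lit 9921648796) (nat_lit 94) (nat_lit 5) (nat_lit 97) (nat_lit 5) (nat_lit 95) (nat_lit 5) (nat_lit 512) (nat_lit 425) (nat_lit 263))) (XT.nd (nat_lit 78) (nat_lit 228) (nat_lit 0) (XT.lf (nat_lit 0) (nat_lit 22459431369) (nat_lit 152) (nat_lit 16650070421) (nat_lit 228) (nat_lit 1033783293) (nat_lit 92) (nat_lit 5) (nat_lit 94) (nat_lit 5) (nat_lit 95) (nat_lit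 5) (nat_lit 513) (nat_lit 425) (nat_lit 262)) (XT.lf (nat_lit 0) (nat_lit 6401377521) (nat_lit 152) (nat_lit 3302507797) (nat_lit 228) (nat_lit 31238450649) (nat_lit 89) (nat_lit 5) (nat_lit 91) (nat_lit 5) (nat_lit 92) (nat_lit 5) (nat_lit 514) (nat_lit 425) (nat_lit 261)))) (XT.nd (nat_lit 156) (nat_lit 228) (nat_lit 0) (XT.nd (nat_lit 78) (nat_lit 152) (nat_lit 0) (XT.lf (nat_lit 0) (nat_lit 21017320313) (nat_lit 228) (nat_lit 10312248766) (nat_lit 76) (nat_lit 10427250038) (nat_lit 89) (nat_lit 5) (nat_lit 92) (nat_lit 5) (nat_lit 90) (nat_lit 5) (nat_lit 515) (nat_lit 425) (nat_lit 260)) (XT.lf (nat_lit 0) (nat_lit 14890013918) (nat_lit 152) (nat_lit 17949824645) (nat_lit 228) (nat_lit 9750808015) (nat_lit 87) (nat_lit 5) (nat_lit 89) (nat_lit 5) (nat_lit 90) (nat_lit 5) (nat_lit 516) (nat_lit 425) (nat_lit 259))) (XT.nd (nat_lit 78) (nat_lit 152) (nat_lit 0) (XT.lf (nat_lit 0) (nat_lit 1635982218) (nat_lit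 228) (nat_lit 2413909460) (nat_lit 76) (nat_lit 39396174539) (nat_lit 86) (nat_lit 5) (nat_lit 89) (nat_lit 5) (nat_lit 87) (nat_lit 5) (nat_lit 517) (nat_lit 425) (nat_lit 258)) (XT.lf (nat_lit 0) (nat_lit 13494948881) (nat_lit 228) (nat_lit 20427205952) (nat_lit 76) (nat_lit 10392300908) (nat_lit 84) (nat_lit 5) (nat_lit 87) (nat_lit 5) (nat_lit 85) (nat_lit 5) (nat_lit 518) (nat_lit 425) (nat_lit 257))))))))
noncomputable def xc155 : XT := (XT.nd (nat_lit 2340) (nat_lit 76) (nat_lit 0) (XT.nd (nat_lit 1170) (nat_lit 1064) (nat_lit 0) (XT.nd (nat_lit 546) (nat_lit 760) (nat_lit 0) (XT.nd (nat_lit 234) (nat_lit 304) (nat_lit 0) (XT.nd (nat_lit 78) (nat_lit 152) (nat_lit 0) (XT.lf (nat_lit 0) (nat_lit 5882328131) (nat_lit 152) (nat_lit 19942680873) (nat_lit 228) (nat_lit 19380428414) (nat_lit 82) (nat_lit 5) (nat_lit 84) (nat_lit 5) (nat_lit 85) (nat_lit 5) (nat_lit 519) (nat_lit 425) (nat_lit 256)) (XT.nd (nat_lit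 78) (nat_lit 152) (nat_lit 0) (XT.lf (nat_lit 0) (nat_lit 33389113676) (nat_lit 152) (nat_lit 5336266190) (nat_lit 228) (nat_lit 7391756606) (nat_lit 82) (nat_lit 5) (nat_lit 84) (nat_lit 5) (nat_lit 85) (nat_lit 5) (nat_lit 520) (nat_lit 425) (nat_lit 255)) (XT.lf (nat_lit 0) (nat_lit 5092471872) (nat_lit 152) (nat_lit 32248400098) (nat_lit 76) (nat_lit 9706906826) (nat_lit 80) (nat_lit 5) (nat_lit 82) (nat_lit 5) (nat_lit 81) (nat_lit 5) (nat_lit 521) (nat_lit 425) (nat_lit 254)))) (XT.nd (nat_lit 156) (nat_lit 152) (nat_lit 0) (XT.nd (nat_lit 78) (nat_lit 152) (nat_lit 0) (XT.lf (nat_lit 0) (nat_lit 17979564535) (nat_lit 152) (nat_lit 4726857117) (nat_lit 76) (nat_lit 25292416216) (nat_lit 80) (nat_lit 5) (nat_lit 82) (nat_lit 5) (nat_lit 81) (nat_lit 5) (nat_lit 522) (nat_lit 425) (nat_lit 253)) (XT.lf (nat_lit 0) (nat_lit 24079932727) (nat_lit 152) (nat_lit 7399244577) (nat_lit 228) (nat_lit 17492474360) (nat_lit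 78) (nat_lit 5) (nat_lit 80) (nat_lit 5) (nat_lit 81) (nat_lit 5) (nat_lit 523) (nat_lit 425) (nat_lit 252))) (XT.nd (nat_lit 78) (nat_lit 76) (nat_lit 0) (XT.lf (nat_lit 0) (nat_lit 3859713541) (nat_lit 76) (nat_lit 41684256963) (nat_lit 152) (nat_lit 4424873778) (nat_lit 77) (nat_lit 5) (nat_lit 78) (nat_lit 5) (nat_lit 79) (nat_lit 4) (nat_lit 524) (nat_lit 425) (nat_lit 251)) (XT.lf (nat_lit 0) (nat_lit 9180024674) (nat_lit 152) (nat_lit 17177377468) (nat_lit 76) (nat_lit 24626298151) (nat_lit 76) (nat_lit 5) (nat_lit 78) (nat_lit 5) (nat_lit 77) (nat_lit 5) (nat_lit 525) (nat_lit 425) (nat_lit 250))))) (XT.nd (nat_lit 312) (nat_lit 456) (nat_lit 0) (XT.nd (nat_lit 156) (nat_lit 152) (nat_lit 0) (XT.nd (nat_lit 78) (nat_lit 0) (nat_lit 0) (XT.lf (nat_lit 0) (nat_lit 12818641835) (nat_lit 152) (nat_lit 10403338893) (nat_lit 228) (nat_lit 28802171705) (nat_lit 74) (nat_lit 5) (nat_lit 76) (nat_lit 5) (nat_lit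 77) (nat_lit 5) (nat_lit 526) (nat_lit 425) (nat_lit 249)) (XT.lf (nat_lit 0) (nat_lit 37912971046) (nat_lit 228) (nat_lit 9093659390) (nat_lit 76) (nat_lit 6082354581) (nat_lit 74) (nat_lit 5) (nat_lit 77) (nat_lit 5) (nat_lit 75) (nat_lit 4) (nat_lit 527) (nat_lit 425) (nat_lit 248))) (XT.nd (nat_lit 78) (nat_lit 76) (nat_lit 0) (XT.lf (nat_lit 0) (nat_lit 22242843211) (nat_lit 76) (nat_lit 31113461657) (nat_lit 152) (nat_lit 820109443) (nat_lit 73) (nat_lit 5) (nat_lit 74) (nat_lit 5) (nat_lit 75) (nat_lit 4) (nat_lit 528) (nat_lit 425) (nat_lit 247)) (XT.lf (nat_lit 0) (nat_lit 13781479730) (nat_lit 152) (nat_lit 732769905) (nat_lit 76) (nat_lit 40775563046) (nat_lit 72) (nat_lit 5) (nat_lit 74) (nat_lit 5) (nat_lit 73) (nat_lit 5) (nat_lit 529) (nat_lit 425) (nat_lit 246)))) (XT.nd (nat_lit 156) (nat_lit 228) (nat_lit 0) (XT.nd (nat_lit 78) (nat_lit 76) (nat_lit 0) (XT.lf (nat_lit 0) (nat_lit 29135214673) (nat_lit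 228) (nat_lit 24444077952) (nat_lit 76) (nat_lit 2847159467) (nat_lit 70) (nat_lit 5) (nat_lit 73) (nat_lit 5) (nat_lit 71) (nat_lit 4) (nat_lit 530) (nat_lit 425) (nat_lit 245)) (XT.lf (nat_lit 0) (nat_lit 8101865054) (nat_lit 76) (nat_lit 37071727223) (nat_lit 152) (nat_lit 12416877620) (nat_lit 69) (nat_lit 5) (nat_lit 70) (nat_lit 5) (nat_lit 71) (nat_lit 4) (nat_lit 531) (nat_lit 425) (nat_lit 244))) (XT.nd (nat_lit 78) (nat_lit 152) (nat_lit 0) (XT.lf (nat_lit 0) (nat_lit 3091311432) (nat_lit 152) (nat_lit 16696578140) (nat_lit 76) (nat_lit 38993353606) (nat_lit 68) (nat_lit 5) (nat_lit 70) (nat_lit 5) (nat_lit 69) (nat_lit 5) (nat_lit 532) (nat_lit 425) (nat_lit 243)) (XT.lf (nat_lit 0) (nat_lit 17284341180) (nat_lit 152) (nat_lit 1692111095) (nat_lit 228) (nat_lit 41022761126) (nat_lit 66) (nat_lit 5) (nat_lit 68) (nat_lit 5) (nat_lit 69) (nat_lit 5) (nat_lit 533) (nat_lit 425) (nat_lit 242)))))) (XT.nd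 (nat_lit 546) (nat_lit 456) (nat_lit 0) (XT.nd (nat_lit 234) (nat_lit 456) (nat_lit 0) (XT.nd (nat_lit 78) (nat_lit 152) (nat_lit 0) (XT.lf (nat_lit 0) (nat_lit 35666458313) (nat_lit 228) (nat_lit 8795504617) (nat_lit 76) (nat_lit 16781910586) (nat_lit 66) (nat_lit 5) (nat_lit 69) (nat_lit 5) (nat_lit 67) (nat_lit 4) (nat_lit 534) (nat_lit 425) (nat_lit 241)) (XT.nd (nat_lit 78) (nat_lit 76) (nat_lit 0) (XT.lf (nat_lit 0) (nat_lit 26635491734) (nat_lit 76) (nat_lit 26489743031) (nat_lit 152) (nat_lit 9392596675) (nat_lit 65) (nat_lit 5) (nat_lit 66) (nat_lit 5) (nat_lit 67) (nat_lit 4) (nat_lit 535) (nat_lit 425) (nat_lit 240)) (XT.lf (nat_lit 0) (nat_lit 7220733657) (nat_lit 152) (nat_lit 597423339) (nat_lit 76) (nat_lit 56007202978) (nat_lit 64) (nat_lit 5) (nat_lit 66) (nat_lit 5) (nat_lit 65) (nat_lit 5) (nat_lit 536) (nat_lit 425) (nat_lit 239)))) (XT.nd (nat_lit 156) (nat_lit 228) (nat_lit 0) (XT.nd (nat_lit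 78) (nat_lit 76) (nat_lit 0) (XT.lf (nat_lit 0) (nat_lit 24602614994) (nat_lit 228) (nat_lit 28919295008) (nat_lit 76) (nat_lit 11633646592) (nat_lit 62) (nat_lit 5) (nat_lit 65) (nat_lit 5) (nat_lit 63) (nat_lit 4) (nat_lit 537) (nat_lit 425) (nat_lit 238)) (XT.lf (nat_lit 0) (nat_lit 7726316960) (nat_lit 76) (nat_lit 34932840407) (nat_lit 152) (nat_lit 23861905708) (nat_lit 61) (nat_lit 5) (nat_lit 62) (nat_lit 5) (nat_lit 63) (nat_lit 4) (nat_lit 538) (nat_lit 425) (nat_lit 237))) (XT.nd (nat_lit 78) (nat_lit 228) (nat_lit 0) (XT.lf (nat_lit 0) (nat_lit 46055490261) (nat_lit 76) (nat_lit 15489418480) (nat_lit 152) (nat_lit 6374000722) (nat_lit 61) (nat_lit 5) (nat_lit 62) (nat_lit 5) (nat_lit 63) (nat_lit 4) (nat_lit 539) (nat_lit 425) (nat_lit 236)) (XT.lf (nat_lit 0) (nat_lit 11610653844) (nat_lit 228) (nat_lit 53021942786) (nat_lit 76) (nat_lit 4716761732) (nat_lit 58) (nat_lit 5) (nat_lit 61) (nat_lit 5)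 (nat_lit 59) (nat_lit 4) (nat_lit 540) (nat_lit 425) (nat_lit 235))))) (XT.nd (nat_lit 312) (nat_lit 228) (nat_lit 0) (XT.nd (nat_lit 156) (nat_lit 152) (nat_lit 0) (XT.nd (nat_lit 78) (nat_lit 76) (nat_lit 0) (XT.lf (nat_lit 0) (nat_lit 30378643656) (nat_lit 228) (nat_lit 14931070048) (nat_lit 76) (nat_lit 25499956642) (nat_lit 58) (nat_lit 5) (nat_lit 61) (nat_lit 5) (nat_lit 59) (nat_lit 4) (nat_lit 541) (nat_lit 425) (nat_lit 234)) (XT.lf (nat_lit 0) (nat_lit 24777808603) (nat_lit 76) (nat_lit 25165755227) (nat_lit 152) (nat_lit 22363211224) (nat_lit 57) (nat_lit 5) (nat_lit 58) (nat_lit 5) (nat_lit 59) (nat_lit 4) (nat_lit 542) (nat_lit 425) (nat_lit 233))) (XT.nd (nat_lit 78) (nat_lit 152) (nat_lit 0) (XT.lf (nat_lit 0) (nat_lit 65975881987) (nat_lit 76) (nat_lit 4266082000) (nat_lit 152) (nat_lit 3602433028) (nat_lit 57) (nat_lit 5) (nat_lit 58) (nat_lit 5) (nat_lit 59) (nat_lit 4) (nat_lit 543) (nat_lit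 425) (nat_lit 232)) (XT.lf (nat_lit 0) (nat_lit 15902587761) (nat_lit 152) (nat_lit 42108776148) (nat_lit 76) (nat_lit 17397604283) (nat_lit 55) (nat_lit 5) (nat_lit 57) (nat_lit 5) (nat_lit 56) (nat_lit 4) (nat_lit 544) (nat_lit 425) (nat_lit 231)))) (XT.nd (nat_lit 156) (nat_lit 152) (nat_lit 0) (XT.nd (nat_lit 78) (nat_lit 76) (nat_lit 0) (XT.lf (nat_lit 0) (nat_lit 36038684696) (nat_lit 152) (nat_lit 1239526682) (nat_lit 76) (nat_lit 39737645245) (nat_lit 55) (nat_lit 5) (nat_lit 57) (nat_lit 5) (nat_lit 56) (nat_lit 4) (nat_lit 545) (nat_lit 425) (nat_lit 230)) (XT.lf (nat_lit 0) (nat_lit 41660990953) (nat_lit 76) (nat_lit 15514314565) (nat_lit 152) (nat_lit 21483753034) (nat_lit 54) (nat_lit 5) (nat_lit 55) (nat_lit 5) (nat_lit 56) (nat_lit 4) (nat_lit 546) (nat_lit 425) (nat_lit 229))) (XT.nd (nat_lit 78) (nat_lit 76) (nat_lit 0) (XT.lf (nat_lit 0) (nat_lit 5556939857) (nat_lit 76) (nat_lit 73517471496) (nat_lit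 76) (nat_lit 1273293665) (nat_lit 53) (nat_lit 4) (nat_lit 54) (nat_lit 5) (nat_lit 54) (nat_lit 4) (nat_lit 547) (nat_lit 425) (nat_lit 228)) (XT.lf (nat_lit 0) (nat_lit 19689011525) (nat_lit 152) (nat_lit 32281728111) (nat_lit 76) (nat_lit 30094828521) (nat_lit 52) (nat_lit 5) (nat_lit 54) (nat_lit 5) (nat_lit 53) (nat_lit 4) (nat_lit 548) (nat_lit 425) (nat_lit 227))))))) (XT.nd (nat_lit 53976) (nat_lit 0) (nat_lit 14136) (XT.nd (nat_lit 53352) (nat_lit 0) (nat_lit 19912) (XT.nd (nat_lit 53040) (nat_lit 0) (nat_lit 20900) (XT.nd (nat_lit 52884) (nat_lit 0) (nat_lit 20824) (XT.lf (nat_lit 0) (nat_lit 11710945345) (nat_lit 76) (nat_lit 29652320011) (nat_lit 152) (nat_lit 42468063551) (nat_lit 51) (nat_lit 5) (nat_lit 52) (nat_lit 5) (nat_lit 53) (nat_lit 4) (nat_lit 549) (nat_lit 425) (nat_lit 226)) (XT.nd (nat_lit 78) (nat_lit 0) (nat_lit 0) (XT.lf (nat_lit 0) (nat_lit 1741168853) (nat_lit 1140) (nat_lit 1462148870)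 (nat_lit 1140) (nat_lit 1462148870) (nat_lit 325) (nat_lit 3) (nat_lit 340) (nat_lit 3) (nat_lit 340) (nat_lit 5) (nat_lit 426) (nat_lit 426) (nat_lit 348)) (XT.lf (nat_lit 76) (nat_lit 1722137663) (nat_lit 0) (nat_lit 2650726004) (nat_lit 1140) (nat_lit 5072759924) (nat_lit 326) (nat_lit 5) (nat_lit 325) (nat_lit 3) (nat_lit 340) (nat_lit 5) (nat_lit 427) (nat_lit 426) (nat_lit 347)))) (XT.nd (nat_lit 156) (nat_lit 0) (nat_lit 0) (XT.nd (nat_lit 78) (nat_lit 0) (nat_lit 0) (XT.lf (nat_lit 0) (nat_lit 5299550133) (nat_lit 1064) (nat_lit 3024923649) (nat_lit 1140) (nat_lit 1239002456) (nat_lit 326) (nat_lit 5) (nat_lit 340) (nat_lit 5) (nat_lit 341) (nat_lit 5) (nat_lit 428) (nat_lit 426) (nat_lit 346)) (XT.lf (nat_lit 76) (nat_lit 1806151516) (nat_lit 0) (nat_lit 4460342668) (nat_lit 1140) (nat_lit 3418001301) (nat_lit 327) (nat_lit 5) (nat_lit 326) (nat_lit 5) (nat_lit 341) (nat_lit 5) (nat_lit 429) (nat_lit 426)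 (nat_lit 345))) (XT.nd (nat_lit 78) (nat_lit 0) (nat_lit 76) (XT.lf (nat_lit 76) (nat_lit 6826894231) (nat_lit 0) (nat_lit 435689707) (nat_lit 1140) (nat_lit 2546561845) (nat_lit 327) (nat_lit 5) (nat_lit 326) (nat_lit 5) (nat_lit 341) (nat_lit 5) (nat_lit 430) (nat_lit 426) (nat_lit 344)) (XT.lf (nat_lit 76) (nat_lit 2047230218) (nat_lit 0) (nat_lit 6267265186) (nat_lit 1140) (nat_lit 1622266475) (nat_lit 328) (nat_lit 5) (nat_lit 327) (nat_lit 5) (nat_lit 342) (nat_lit 5) (nat_lit 431) (nat_lit 426) (nat_lit 343))))) (XT.nd (nat_lit 312) (nat_lit 0) (nat_lit 76) (XT.nd (nat_lit 156) (nat_lit 0) (nat_lit 0) (XT.nd (nat_lit 78) (nat_lit 1064) (nat_lit 0) (XT.lf (nat_lit 76) (nat_lit 7266722080) (nat_lit 0) (nat_lit 2136915406) (nat_lit 1140) (nat_lit 664403103) (nat_lit 328) (nat_lit 5) (nat_lit 327) (nat_lit 5) (nat_lit 342) (nat_lit 5) (nat_lit 432) (nat_lit 426) (nat_lit 342)) (XT.lf (nat_lit 0) (nat_lit 332185193)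 (nat_lit 1140) (nat_lit 7757098850) (nat_lit 1216) (nat_lit 2113396497) (nat_lit 313) (nat_lit 5) (nat_lit 328) (nat_lit 5) (nat_lit 329) (nat_lit 5) (nat_lit 433) (nat_lit 426) (nat_lit 341))) (XT.nd (nat_lit 78) (nat_lit 0) (nat_lit 76) (XT.lf (nat_lit 0) (nat_lit 1367634177) (nat_lit 1140) (nat_lit 2479625649) (nat_lit 1216) (nat_lit 6493236972) (nat_lit 313) (nat_lit 5) (nat_lit 328) (nat_lit 5) (nat_lit 329) (nat_lit 5) (nat_lit 434) (nat_lit 426) (nat_lit 340)) (XT.lf (nat_lit 0) (nat_lit 2441730372) (nat_lit 1140) (nat_lit 7490998698) (nat_lit 1216) (nat_lit 549494808) (nat_lit 314) (nat_lit 5) (nat_lit 329) (nat_lit 5) (nat_lit 330) (nat_lit 5) (nat_lit 435) (nat_lit 426) (nat_lit 339)))) (XT.nd (nat_lit 156) (nat_lit 0) (nat_lit 76) (XT.nd (nat_lit 78) (nat_lit 0) (nat_lit 0) (XT.lf (nat_lit 0) (nat_lit 3585502862) (nat_lit 1140) (nat_lit 2007323835) (nat_lit 1216) (nat_lit 5034256208) (nat_lit 314) (nat_lit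 5) (nat_lit 329) (nat_lit 5) (nat_lit 330) (nat_lit 5) (nat_lit 436) (nat_lit 426) (nat_lit 338)) (XT.lf (nat_lit 76) (nat_lit 3694939474) (nat_lit 0) (nat_lit 1078996639) (nat_lit 1216) (nat_lit 6002044787) (nat_lit 315) (nat_lit 5) (nat_lit 314) (nat_lit 5) (nat_lit 330) (nat_lit 5) (nat_lit 437) (nat_lit 426) (nat_lit 337))) (XT.nd (nat_lit 78) (nat_lit 0) (nat_lit 0) (XT.lf (nat_lit 0) (nat_lit 6028268638) (nat_lit 1140) (nat_lit 1372492451) (nat_lit 1216) (nat_lit 3527680877) (nat_lit 315) (nat_lit 5) (nat_lit 330) (nat_lit 5) (nat_lit 331) (nat_lit 5) (nat_lit 438) (nat_lit 426) (nat_lit 336)) (XT.lf (nat_lit 76) (nat_lit 4567651019) (nat_lit 0) (nat_lit 2783341317) (nat_lit 1216) (nat_lit 3733565112) (nat_lit 316) (nat_lit 5) (nat_lit 315) (nat_lit 5) (nat_lit 331) (nat_lit 5) (nat_lit 439) (nat_lit 426) (nat_lit 335)))))) (XT.nd (nat_lit 624) (nat_lit 2888) (nat_lit 0) (XT.nd (nat_lit 312) (nat_lit 1976)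 (nat_lit 0) (XT.nd (nat_lit 156) (nat_lit 1140) (nat_lit 0) (XT.nd (nat_lit 78) (nat_lit 0) (nat_lit 0) (XT.lf (nat_lit 0) (nat_lit 8723100640) (nat_lit 1140) (nat_lit 568592951) (nat_lit 1216) (nat_lit 1953375034) (nat_lit 316) (nat_lit 5) (nat_lit 331) (nat_lit 5) (nat_lit 332) (nat_lit 5) (nat_lit 440) (nat_lit 426) (nat_lit 334)) (XT.lf (nat_lit 76) (nat_lit 5622178510) (nat_lit 0) (nat_lit 4573217025) (nat_lit 1216) (nat_lit 1213232123) (nat_lit 317) (nat_lit 5) (nat_lit 316) (nat_lit 5) (nat_lit 332) (nat_lit 5) (nat_lit 441) (nat_lit 426) (nat_lit 333))) (XT.nd (nat_lit 78) (nat_lit 0) (nat_lit 0) (XT.lf (nat_lit 0) (nat_lit 122579648) (nat_lit 1216) (nat_lit 11158460728) (nat_lit 76) (nat_lit 296303954) (nat_lit 301) (nat_lit 5) (nat_lit 317) (nat_lit 5) (nat_lit 302) (nat_lit 5) (nat_lit 442) (nat_lit 426) (nat_lit 332)) (XT.lf (nat_lit 0) (nat_lit 1556564919) (nat_lit 1216) (nat_lit 4897170955) (nat_lit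 76) (nat_lit 5294554691) (nat_lit 301) (nat_lit 5) (nat_lit 317) (nat_lit 5) (nat_lit 302) (nat_lit 5) (nat_lit 443) (nat_lit 426) (nat_lit 331)))) (XT.nd (nat_lit 156) (nat_lit 760) (nat_lit 0) (XT.nd (nat_lit 78) (nat_lit 0) (nat_lit 0) (XT.lf (nat_lit 0) (nat_lit 1564105867) (nat_lit 1216) (nat_lit 1463328352) (nat_lit 1292) (nat_lit 8897117896) (nat_lit 285) (nat_lit 5) (nat_lit 301) (nat_lit 5) (nat_lit 302) (nat_lit 5) (nat_lit 444) (nat_lit 426) (nat_lit 330)) (XT.lf (nat_lit 0) (nat_lit 4607010064) (nat_lit 1292) (nat_lit 3839684831) (nat_lit 76) (nat_lit 3657471984) (nat_lit 285) (nat_lit 5) (nat_lit 302) (nat_lit 5) (nat_lit 286) (nat_lit 5) (nat_lit 445) (nat_lit 426) (nat_lit 329))) (XT.nd (nat_lit 78) (nat_lit 0) (nat_lit 0) (XT.lf (nat_lit 0) (nat_lit 2900517486) (nat_lit 760) (nat_lit 3355724140) (nat_lit 836) (nat_lit 6032263103) (nat_lit 275) (nat_lit 5) (nat_lit 285) (nat_lit 5) (nat_lit 286) (nat_lit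 5) (nat_lit 446) (nat_lit 426) (nat_lit 328)) (XT.lf (nat_lit 0) (nat_lit 7992580703) (nat_lit 836) (nat_lit 2592828362) (nat_lit 76) (nat_lit 1891837353) (nat_lit 275) (nat_lit 5) (nat_lit 286) (nat_lit 5) (nat_lit 276) (nat_lit 5) (nat_lit 447) (nat_lit 426) (nat_lit 327))))) (XT.nd (nat_lit 312) (nat_lit 1064) (nat_lit 0) (XT.nd (nat_lit 156) (nat_lit 1216) (nat_lit 0) (XT.nd (nat_lit 78) (nat_lit 0) (nat_lit 0) (XT.lf (nat_lit 0) (nat_lit 4441452109) (nat_lit 608) (nat_lit 5396374854) (nat_lit 684) (nat_lit 2832121427) (nat_lit 267) (nat_lit 5) (nat_lit 275) (nat_lit 5) (nat_lit 276) (nat_lit 5) (nat_lit 448) (nat_lit 426) (nat_lit 326)) (XT.lf (nat_lit 0) (nat_lit 11721912727) (nat_lit 608) (nat_lit 23981787) (nat_lit 684) (nat_lit 1122315460) (nat_lit 267) (nat_lit 5) (nat_lit 275) (nat_lit 5) (nat_lit 276) (nat_lit 5) (nat_lit 449) (nat_lit 426) (nat_lit 325))) (XT.nd (nat_lit 78) (nat_lit 532) (nat_lit 0)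 (XT.lf (nat_lit 0) (nat_lit 721628722) (nat_lit 684) (nat_lit 6878336075) (nat_lit 76) (nat_lit 5469413453) (nat_lit 258) (nat_lit 5) (nat_lit 267) (nat_lit 5) (nat_lit 259) (nat_lit 5) (nat_lit 450) (nat_lit 426) (nat_lit 324)) (XT.lf (nat_lit 0) (nat_lit 475365149) (nat_lit 532) (nat_lit 2121477808) (nat_lit 608) (nat_lit 10679452241) (nat_lit 251) (nat_lit 5) (nat_lit 258) (nat_lit 5) (nat_lit 259) (nat_lit 5) (nat_lit 451) (nat_lit 426) (nat_lit 323)))) (XT.nd (nat_lit 156) (nat_lit 532) (nat_lit 0) (XT.nd (nat_lit 78) (nat_lit 532) (nat_lit 0) (XT.lf (nat_lit 0) (nat_lit 4614667531) (nat_lit 608) (nat_lit 5349757806) (nat_lit 76) (nat_lit 3522405895) (nat_lit 251) (nat_lit 5) (nat_lit 259) (nat_lit 5) (nat_lit 252) (nat_lit 5) (nat_lit 452) (nat_lit 426) (nat_lit 322)) (XT.lf (nat_lit 0) (nat_lit 2331418632) (nat_lit 532) (nat_lit 4387896779) (nat_lit 608) (nat_lit 6983581408) (nat_lit 244) (nat_lit 5) (nat_lit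 251) (nat_lit 5) (nat_lit 252) (nat_lit 5) (nat_lit 453) (nat_lit 426) (nat_lit 321))) (XT.nd (nat_lit 78) (nat_lit 532) (nat_lit 0) (XT.lf (nat_lit 0) (nat_lit 8937883773) (nat_lit 608) (nat_lit 3603037407) (nat_lit 76) (nat_lit 1383001829) (nat_lit 244) (nat_lit 5) (nat_lit 252) (nat_lit 5) (nat_lit 245) (nat_lit 5) (nat_lit 454) (nat_lit 426) (nat_lit 320)) (XT.lf (nat_lit 0) (nat_lit 4423525184) (nat_lit 532) (nat_lit 6869129867) (nat_lit 608) (nat_lit 2856837568) (nat_lit 237) (nat_lit 5) (nat_lit 244) (nat_lit 5) (nat_lit 245) (nat_lit 5) (nat_lit 455) (nat_lit 426) (nat_lit 319))))))))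
noncomputable def xc156 : XT := (XT.nd (nat_lit 2340) (nat_lit 4104) (nat_lit 0) (XT.nd (nat_lit 1170) (nat_lit 2964) (nat_lit 0) (XT.nd (nat_lit 546) (nat_lit 2204) (nat_lit 0) (XT.nd (nat_lit 234) (nat_lit 912) (nat_lit 0) (XT.nd (nat_lit 78) (nat_lit 1064) (nat_lit 0) (XT.lf (nat_lit 0) (nat_lit 12747112158) (nat_lit 532) (nat_lit 991326500) (nat_lit 608) (nat_lit 642781531) (nat_lit 237) (nat_lit 5) (nat_lit 244) (nat_lit 5) (nat_lit 245) (nat_lit 5) (nat_lit 456) (nat_lit 426) (nat_lit 318)) (XT.nd (nat_lit 78) (nat_lit 456) (nat_lit 0) (XT.lf (nat_lit 0) (nat_lit 1704854339) (nat_lit 608) (nat_lit 7867367026) (nat_lit 76) (nat_lit 5044234318) (nat_lit 229) (nat_lit 5) (nat_lit 237) (nat_lit 5) (nat_lit 230) (nat_lit 5) (nat_lit 457) (nat_lit 426) (nat_lit 317)) (XT.lf (nat_lit 0) (nat_lit 535423479) (nat_lit 456) (nat_lit 3590773049) (nat_lit 532) (nat_lit 10731876677) (nat_lit 223) (nat_lit 5) (nat_lit 229)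 (nat_lit 5) (nat_lit 230) (nat_lit 5) (nat_lit 458) (nat_lit 426) (nat_lit 316)))) (XT.nd (nat_lit 156) (nat_lit 456) (nat_lit 0) (XT.nd (nat_lit 78) (nat_lit 456) (nat_lit 0) (XT.lf (nat_lit 0) (nat_lit 6709943966) (nat_lit 532) (nat_lit 5796444262) (nat_lit 76) (nat_lit 2597859806) (nat_lit 223) (nat_lit 5) (nat_lit 230) (nat_lit 5) (nat_lit 224) (nat_lit 5) (nat_lit 459) (nat_lit 426) (nat_lit 315)) (XT.lf (nat_lit 0) (nat_lit 2990914761) (nat_lit 456) (nat_lit 6429861548) (nat_lit 532) (nat_lit 5935546307) (nat_lit 217) (nat_lit 5) (nat_lit 223) (nat_lit 5) (nat_lit 224) (nat_lit 5) (nat_lit 460) (nat_lit 426) (nat_lit 314))) (XT.nd (nat_lit 78) (nat_lit 456) (nat_lit 0) (XT.lf (nat_lit 0) (nat_lit 12143443085) (nat_lit 456) (nat_lit 113556030) (nat_lit 532) (nat_lit 3357639988) (nat_lit 217) (nat_lit 5) (nat_lit 223) (nat_lit 5) (nat_lit 224) (nat_lit 5) (nat_lit 461) (nat_lit 426) (nat_lit 313)) (XT.lf (nat_lit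 0) (nat_lit 5722903955) (nat_lit 456) (nat_lit 9557790774) (nat_lit 532) (nat_lit 596940356) (nat_lit 211) (nat_lit 5) (nat_lit 217) (nat_lit 5) (nat_lit 218) (nat_lit 5) (nat_lit 462) (nat_lit 426) (nat_lit 312))))) (XT.nd (nat_lit 312) (nat_lit 1292) (nat_lit 0) (XT.nd (nat_lit 156) (nat_lit 380) (nat_lit 0) (XT.nd (nat_lit 78) (nat_lit 456) (nat_lit 0) (XT.lf (nat_lit 0) (nat_lit 2225301066) (nat_lit 532) (nat_lit 923830891) (nat_lit 76) (nat_lit 12998065828) (nat_lit 210) (nat_lit 5) (nat_lit 217) (nat_lit 5) (nat_lit 211) (nat_lit 5) (nat_lit 463) (nat_lit 426) (nat_lit 311)) (XT.lf (nat_lit 0) (nat_lit 5224628312) (nat_lit 532) (nat_lit 7724901013) (nat_lit 76) (nat_lit 3472009690) (nat_lit 204) (nat_lit 5) (nat_lit 211) (nat_lit 5) (nat_lit 205) (nat_lit 5) (nat_lit 464) (nat_lit 426) (nat_lit 310))) (XT.nd (nat_lit 78) (nat_lit 0) (nat_lit 0) (XT.lf (nat_lit 0) (nat_lit 1909844575) (nat_lit 380) (nat_lit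 6449696514) (nat_lit 456) (nat_lit 8343202627) (nat_lit 199) (nat_lit 5) (nat_lit 204) (nat_lit 5) (nat_lit 205) (nat_lit 5) (nat_lit 465) (nat_lit 426) (nat_lit 309)) (XT.lf (nat_lit 0) (nat_lit 11656474534) (nat_lit 456) (nat_lit 5018360342) (nat_lit 76) (nat_lit 315511852) (nat_lit 199) (nat_lit 5) (nat_lit 205) (nat_lit 5) (nat_lit 200) (nat_lit 5) (nat_lit 466) (nat_lit 426) (nat_lit 308)))) (XT.nd (nat_lit 156) (nat_lit 760) (nat_lit 0) (XT.nd (nat_lit 78) (nat_lit 76) (nat_lit 0) (XT.lf (nat_lit 0) (nat_lit 5067774233) (nat_lit 456) (nat_lit 10084336264) (nat_lit 532) (nat_lit 2131474824) (nat_lit 193) (nat_lit 5) (nat_lit 199) (nat_lit 5) (nat_lit 200) (nat_lit 5) (nat_lit 467) (nat_lit 426) (nat_lit 307)) (XT.lf (nat_lit 0) (nat_lit 1182708951) (nat_lit 532) (nat_lit 2053218993) (nat_lit 76) (nat_lit 14348203243) (nat_lit 192) (nat_lit 5) (nat_lit 199) (nat_lit 5) (nat_lit 193) (nat_lit 5) (nat_lit 468)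 (nat_lit 426) (nat_lit 306))) (XT.nd (nat_lit 78) (nat_lit 380) (nat_lit 0) (XT.lf (nat_lit 0) (nat_lit 4660967325) (nat_lit 456) (nat_lit 9385063065) (nat_lit 76) (nat_lit 3843806451) (nat_lit 187) (nat_lit 5) (nat_lit 193) (nat_lit 5) (nat_lit 188) (nat_lit 5) (nat_lit 469) (nat_lit 426) (nat_lit 305)) (XT.lf (nat_lit 0) (nat_lit 1192079884) (nat_lit 380) (nat_lit 7103774789) (nat_lit 456) (nat_lit 9907291736) (nat_lit 182) (nat_lit 5) (nat_lit 187) (nat_lit 5) (nat_lit 188) (nat_lit 5) (nat_lit 470) (nat_lit 426) (nat_lit 304)))))) (XT.nd (nat_lit 546) (nat_lit 1596) (nat_lit 0) (XT.nd (nat_lit 234) (nat_lit 988) (nat_lit 0) (XT.nd (nat_lit 78) (nat_lit 380) (nat_lit 0) (XT.lf (nat_lit 0) (nat_lit 12123947638) (nat_lit 456) (nat_lit 6262076629) (nat_lit 76) (nat_lit 137307371) (nat_lit 182) (nat_lit 5) (nat_lit 188) (nat_lit 5) (nat_lit 183) (nat_lit 5) (nat_lit 471) (nat_lit 426) (nat_lit 303)) (XT.nd (nat_lit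 78) (nat_lit 76) (nat_lit 0) (XT.lf (nat_lit 0) (nat_lit 4816929146) (nat_lit 304) (nat_lit 11354941979) (nat_lit 380) (nat_lit 2678102779) (nat_lit 178) (nat_lit 5) (nat_lit 182) (nat_lit 5) (nat_lit 183) (nat_lit 5) (nat_lit 472) (nat_lit 426) (nat_lit 302)) (XT.lf (nat_lit 0) (nat_lit 1184564449) (nat_lit 380) (nat_lit 2855762308) (nat_lit 76) (nat_lit 15144188238) (nat_lit 177) (nat_lit 5) (nat_lit 182) (nat_lit 5) (nat_lit 178) (nat_lit 5) (nat_lit 473) (nat_lit 426) (nat_lit 301)))) (XT.nd (nat_lit 156) (nat_lit 304) (nat_lit 0) (XT.nd (nat_lit 78) (nat_lit 304) (nat_lit 0) (XT.lf (nat_lit 0) (nat_lit 5217139623) (nat_lit 456) (nat_lit 10774687694) (nat_lit 76) (nat_lit 3533234889) (nat_lit 172) (nat_lit 5) (nat_lit 178) (nat_lit 5) (nat_lit 173) (nat_lit 5) (nat_lit 474) (nat_lit 426) (nat_lit 300)) (XT.lf (nat_lit 0) (nat_lit 848694809) (nat_lit 304) (nat_lit 8588175004) (nat_lit 380) (nat_lit 10436971675)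 (nat_lit 168) (nat_lit 5) (nat_lit 172) (nat_lit 5) (nat_lit 173) (nat_lit 5) (nat_lit 475) (nat_lit 426) (nat_lit 299))) (XT.nd (nat_lit 78) (nat_lit 304) (nat_lit 0) (XT.lf (nat_lit 0) (nat_lit 13025952153) (nat_lit 304) (nat_lit 855108815) (nat_lit 380) (nat_lit 6349088067) (nat_lit 168) (nat_lit 5) (nat_lit 172) (nat_lit 5) (nat_lit 173) (nat_lit 5) (nat_lit 476) (nat_lit 426) (nat_lit 298)) (XT.lf (nat_lit 0) (nat_lit 4984792561) (nat_lit 304) (nat_lit 13579387214) (nat_lit 380) (nat_lit 2029798909) (nat_lit 164) (nat_lit 5) (nat_lit 168) (nat_lit 5) (nat_lit 169) (nat_lit 5) (nat_lit 477) (nat_lit 426) (nat_lit 297))))) (XT.nd (nat_lit 312) (nat_lit 912) (nat_lit 0) (XT.nd (nat_lit 156) (nat_lit 304) (nat_lit 0) (XT.nd (nat_lit 78) (nat_lit 304) (nat_lit 0) (XT.lf (nat_lit 0) (nat_lit 2443196994) (nat_lit 380) (nat_lit 3327425080) (nat_lit 76) (nat_lit 15195264432) (nat_lit 163) (nat_lit 5) (nat_lit 168) (nat_lit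 5) (nat_lit 164) (nat_lit 5) (nat_lit 478) (nat_lit 426) (nat_lit 296)) (XT.lf (nat_lit 0) (nat_lit 7113244954) (nat_lit 380) (nat_lit 11896412949) (nat_lit 76) (nat_lit 2335581829) (nat_lit 159) (nat_lit 5) (nat_lit 164) (nat_lit 5) (nat_lit 160) (nat_lit 5) (nat_lit 479) (nat_lit 426) (nat_lit 295))) (XT.nd (nat_lit 78) (nat_lit 0) (nat_lit 0) (XT.lf (nat_lit 0) (nat_lit 886203804) (nat_lit 304) (nat_lit 11126593349) (nat_lit 380) (nat_lit 9720495143) (nat_lit 155) (nat_lit 5) (nat_lit 159) (nat_lit 5) (nat_lit 160) (nat_lit 5) (nat_lit 480) (nat_lit 426) (nat_lit 294)) (XT.lf (nat_lit 0) (nat_lit 14281081902) (nat_lit 304) (nat_lit 2888352155) (nat_lit 380) (nat_lit 4960250240) (nat_lit 155) (nat_lit 5) (nat_lit 159) (nat_lit 5) (nat_lit 160) (nat_lit 5) (nat_lit 481) (nat_lit 426) (nat_lit 293)))) (XT.nd (nat_lit 156) (nat_lit 532) (nat_lit 0) (XT.nd (nat_lit 78) (nat_lit 0) (nat_lit 0) (XT.lf (nat_lit 0) (nat_lit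 42537858) (nat_lit 380) (nat_lit 16955422094) (nat_lit 76) (nat_lit 5537066766) (nat_lit 150) (nat_lit 5) (nat_lit 155) (nat_lit 5) (nat_lit 151) (nat_lit 5) (nat_lit 482) (nat_lit 426) (nat_lit 292)) (XT.lf (nat_lit 0) (nat_lit 5194611124) (nat_lit 380) (nat_lit 3472036032) (nat_lit 76) (nat_lit 14281442720) (nat_lit 150) (nat_lit 5) (nat_lit 155) (nat_lit 5) (nat_lit 151) (nat_lit 5) (nat_lit 483) (nat_lit 426) (nat_lit 291))) (XT.nd (nat_lit 78) (nat_lit 228) (nat_lit 0) (XT.lf (nat_lit 0) (nat_lit 10593904461) (nat_lit 380) (nat_lit 12762553617) (nat_lit 76) (nat_lit 14307827) (nat_lit 146) (nat_lit 5) (nat_lit 151) (nat_lit 5) (nat_lit 147) (nat_lit 5) (nat_lit 484) (nat_lit 426) (nat_lit 290)) (XT.lf (nat_lit 0) (nat_lit 1301623111) (nat_lit 228) (nat_lit 14977914288) (nat_lit 304) (nat_lit 7522854687) (nat_lit 143) (nat_lit 5) (nat_lit 146) (nat_lit 5) (nat_lit 147) (nat_lit 5) (nat_lit 485) (nat_lit 426)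 (nat_lit 289))))))) (XT.nd (nat_lit 1170) (nat_lit 1748) (nat_lit 0) (XT.nd (nat_lit 546) (nat_lit 1216) (nat_lit 0) (XT.nd (nat_lit 234) (nat_lit 760) (nat_lit 0) (XT.nd (nat_lit 78) (nat_lit 380) (nat_lit 0) (XT.lf (nat_lit 0) (nat_lit 16034896314) (nat_lit 228) (nat_lit 6220486250) (nat_lit 304) (nat_lit 1987995862) (nat_lit 143) (nat_lit 5) (nat_lit 146) (nat_lit 5) (nat_lit 147) (nat_lit 5) (nat_lit 486) (nat_lit 426) (nat_lit 288)) (XT.nd (nat_lit 78) (nat_lit 0) (nat_lit 0) (XT.lf (nat_lit 0) (nat_lit 3722605301) (nat_lit 380) (nat_lit 18131444503) (nat_lit 76) (nat_lit 2840010000) (nat_lit 138) (nat_lit 5) (nat_lit 143) (nat_lit 5) (nat_lit 139) (nat_lit 5) (nat_lit 487) (nat_lit 426) (nat_lit 287)) (XT.lf (nat_lit 0) (nat_lit 9700892018) (nat_lit 380) (nat_lit 3307044542) (nat_lit 76) (nat_lit 12145645458) (nat_lit 138) (nat_lit 5) (nat_lit 143) (nat_lit 5) (nat_lit 139) (nat_lit 5) (nat_lit 488) (nat_lit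 426) (nat_lit 286)))) (XT.nd (nat_lit 156) (nat_lit 304) (nat_lit 0) (XT.nd (nat_lit 78) (nat_lit 228) (nat_lit 0) (XT.lf (nat_lit 0) (nat_lit 12186008203) (nat_lit 228) (nat_lit 3780944937) (nat_lit 304) (nat_lit 9656684580) (nat_lit 135) (nat_lit 5) (nat_lit 138) (nat_lit 5) (nat_lit 139) (nat_lit 5) (nat_lit 489) (nat_lit 426) (nat_lit 285)) (XT.lf (nat_lit 0) (nat_lit 2076074898) (nat_lit 228) (nat_lit 20444973342) (nat_lit 304) (nat_lit 3583745868) (nat_lit 132) (nat_lit 5) (nat_lit 135) (nat_lit 5) (nat_lit 136) (nat_lit 5) (nat_lit 490) (nat_lit 426) (nat_lit 284))) (XT.nd (nat_lit 78) (nat_lit 228) (nat_lit 0) (XT.lf (nat_lit 0) (nat_lit 2785117812) (nat_lit 304) (nat_lit 8344103392) (nat_lit 76) (nat_lit 15465418214) (nat_lit 131) (nat_lit 5) (nat_lit 135) (nat_lit 5) (nat_lit 132) (nat_lit 5) (nat_lit 491) (nat_lit 426) (nat_lit 283)) (XT.lf (nat_lit 0) (nat_lit 7916474243) (nat_lit 228) (nat_lit 1424284868)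 (nat_lit 304) (nat_lit 17755324781) (nat_lit 128) (nat_lit 5) (nat_lit 131) (nat_lit 5) (nat_lit 132) (nat_lit 5) (nat_lit 492) (nat_lit 426) (nat_lit 282))))) (XT.nd (nat_lit 312) (nat_lit 684) (nat_lit 0) (XT.nd (nat_lit 156) (nat_lit 304) (nat_lit 0) (XT.nd (nat_lit 78) (nat_lit 228) (nat_lit 0) (XT.lf (nat_lit 0) (nat_lit 16252268062) (nat_lit 304) (nat_lit 2870998121) (nat_lit 76) (nat_lit 8484530081) (nat_lit 128) (nat_lit 5) (nat_lit 132) (nat_lit 5) (nat_lit 129) (nat_lit 5) (nat_lit 493) (nat_lit 426) (nat_lit 281)) (XT.lf (nat_lit 0) (nat_lit 14176157318) (nat_lit 228) (nat_lit 9337285912) (nat_lit 304) (nat_lit 4617147650) (nat_lit 125) (nat_lit 5) (nat_lit 128) (nat_lit 5) (nat_lit 129) (nat_lit 5) (nat_lit 494) (nat_lit 426) (nat_lit 280))) (XT.nd (nat_lit 78) (nat_lit 0) (nat_lit 0) (XT.lf (nat_lit 0) (nat_lit 2337488528) (nat_lit 304) (nat_lit 25523773315) (nat_lit 76) (nat_lit 805354695) (nat_lit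 121) (nat_lit 5) (nat_lit 125) (nat_lit 5) (nat_lit 122) (nat_lit 5) (nat_lit 495) (nat_lit 426) (nat_lit 279)) (XT.lf (nat_lit 0) (nat_lit 9634755307) (nat_lit 304) (nat_lit 8328291286) (nat_lit 76) (nat_lit 11247501652) (nat_lit 121) (nat_lit 5) (nat_lit 125) (nat_lit 5) (nat_lit 122) (nat_lit 5) (nat_lit 496) (nat_lit 426) (nat_lit 278)))) (XT.nd (nat_lit 156) (nat_lit 456) (nat_lit 0) (XT.nd (nat_lit 78) (nat_lit 0) (nat_lit 0) (XT.lf (nat_lit 0) (nat_lit 9556598736) (nat_lit 228) (nat_lit 7678472844) (nat_lit 304) (nat_lit 12533202823) (nat_lit 118) (nat_lit 5) (nat_lit 121) (nat_lit 5) (nat_lit 122) (nat_lit 5) (nat_lit 497) (nat_lit 426) (nat_lit 277)) (XT.lf (nat_lit 0) (nat_lit 25168666549) (nat_lit 304) (nat_lit 2233294836) (nat_lit 76) (nat_lit 2937613317) (nat_lit 118) (nat_lit 5) (nat_lit 122) (nat_lit 5) (nat_lit 119) (nat_lit 5) (nat_lit 498) (nat_lit 426) (nat_lit 276))) (XT.nd (nat_lit 78) (nat_lit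 228) (nat_lit 0) (XT.lf (nat_lit 0) (nat_lit 2594784507) (nat_lit 228) (nat_lit 14428506252) (nat_lit 76) (nat_lit 13897139987) (nat_lit 115) (nat_lit 5) (nat_lit 118) (nat_lit 5) (nat_lit 116) (nat_lit 5) (nat_lit 499) (nat_lit 426) (nat_lit 275)) (XT.lf (nat_lit 0) (nat_lit 4327021213) (nat_lit 228) (nat_lit 6219433143) (nat_lit 304) (nat_lit 20969014502) (nat_lit 112) (nat_lit 5) (nat_lit 115) (nat_lit 5) (nat_lit 116) (nat_lit 5) (nat_lit 500) (nat_lit 426) (nat_lit 274)))))) (XT.nd (nat_lit 546) (nat_lit 912) (nat_lit 0) (XT.nd (nat_lit 234) (nat_lit 608) (nat_lit 0) (XT.nd (nat_lit 78) (nat_lit 228) (nat_lit 0) (XT.lf (nat_lit 0) (nat_lit 18923614168) (nat_lit 304) (nat_lit 8244314637) (nat_lit 76) (nat_lit 4954821493) (nat_lit 112) (nat_lit 5) (nat_lit 116) (nat_lit 5) (nat_lit 113) (nat_lit 5) (nat_lit 501) (nat_lit 426) (nat_lit 273)) (XT.nd (nat_lit 78) (nat_lit 76) (nat_lit 0) (XT.lf (nat_lit 0) (nat_lit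 11417034990) (nat_lit 152) (nat_lit 16299208772) (nat_lit 228) (nat_lit 5027082145) (nat_lit 110) (nat_lit 5) (nat_lit 112) (nat_lit 5) (nat_lit 113) (nat_lit 5) (nat_lit 502) (nat_lit 426) (nat_lit 272)) (XT.lf (nat_lit 0) (nat_lit 3400905533) (nat_lit 228) (nat_lit 1588546273) (nat_lit 76) (nat_lit 28389781912) (nat_lit 109) (nat_lit 5) (nat_lit 112) (nat_lit 5) (nat_lit 110) (nat_lit 5) (nat_lit 503) (nat_lit 426) (nat_lit 271)))) (XT.nd (nat_lit 156) (nat_lit 228) (nat_lit 0) (XT.nd (nat_lit 78) (nat_lit 152) (nat_lit 0) (XT.lf (nat_lit 0) (nat_lit 12223158657) (nat_lit 304) (nat_lit 15042374851) (nat_lit 76) (nat_lit 6759918450) (nat_lit 106) (nat_lit 5) (nat_lit 110) (nat_lit 5) (nat_lit 107) (nat_lit 5) (nat_lit 504) (nat_lit 426) (nat_lit 270)) (XT.lf (nat_lit 0) (nat_lit 5560769436) (nat_lit 152) (nat_lit 15861462373) (nat_lit 228) (nat_lit 13265460692) (nat_lit 104) (nat_lit 5) (nat_lit 106) (nat_lit 5)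 (nat_lit 107) (nat_lit 5) (nat_lit 505) (nat_lit 426) (nat_lit 269))) (XT.nd (nat_lit 78) (nat_lit 228) (nat_lit 0) (XT.lf (nat_lit 0) (nat_lit 27078460634) (nat_lit 152) (nat_lit 3963900008) (nat_lit 228) (nat_lit 4323087436) (nat_lit 104) (nat_lit 5) (nat_lit 106) (nat_lit 5) (nat_lit 107) (nat_lit 5) (nat_lit 506) (nat_lit 426) (nat_lit 268)) (XT.lf (nat_lit 0) (nat_lit 4995507919) (nat_lit 228) (nat_lit 22759274370) (nat_lit 76) (nat_lit 8301245127) (nat_lit 101) (nat_lit 5) (nat_lit 104) (nat_lit 5) (nat_lit 102) (nat_lit 5) (nat_lit 507) (nat_lit 426) (nat_lit 267))))) (XT.nd (nat_lit 312) (nat_lit 532) (nat_lit 0) (XT.nd (nat_lit 156) (nat_lit 228) (nat_lit 0) (XT.nd (nat_lit 78) (nat_lit 152) (nat_lit 0) (XT.lf (nat_lit 0) (nat_lit 14623881991) (nat_lit 228) (nat_lit 1161534577) (nat_lit 76) (nat_lit 20977110457) (nat_lit 101) (nat_lit 5) (nat_lit 104) (nat_lit 5) (nat_lit 102) (nat_lit 5) (nat_lit 508)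 (nat_lit 426) (nat_lit 266)) (XT.lf (nat_lit 0) (nat_lit 21492144160) (nat_lit 152) (nat_lit 3249105593) (nat_lit 228) (nat_lit 12742967881) (nat_lit 99) (nat_lit 5) (nat_lit 101) (nat_lit 5) (nat_lit 102) (nat_lit 5) (nat_lit 509) (nat_lit 426) (nat_lit 265))) (XT.nd (nat_lit 78) (nat_lit 76) (nat_lit 0) (XT.lf (nat_lit 0) (nat_lit 6647328987) (nat_lit 152) (nat_lit 28677021978) (nat_lit 228) (nat_lit 2898341901) (nat_lit 97) (nat_lit 5) (nat_lit 99) (nat_lit 5) (nat_lit 100) (nat_lit 5) (nat_lit 510) (nat_lit 426) (nat_lit 264)) (XT.lf (nat_lit 0) (nat_lit 7289164222) (nat_lit 228) (nat_lit 8799552549) (nat_lit 76) (nat_lit 22886851970) (nat_lit 96) (nat_lit 5) (nat_lit 99) (nat_lit 5) (nat_lit 97) (nat_lit 5) (nat_lit 511) (nat_lit 426) (nat_lit 263)))) (XT.nd (nat_lit 156) (nat_lit 380) (nat_lit 0) (XT.nd (nat_lit 78) (nat_lit 0) (nat_lit 0) (XT.lf (nat_lit 0) (nat_lit 14910700036) (nat_lit 152) (nat_lit 2950453691)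 (nat_lit 228) (nat_lit 21884903168) (nat_lit 94) (nat_lit 5) (nat_lit 96) (nat_lit 5) (nat_lit 97) (nat_lit 5) (nat_lit 512) (nat_lit 426) (nat_lit 262)) (XT.lf (nat_lit 0) (nat_lit 28935571315) (nat_lit 228) (nat_lit 1138078826) (nat_lit 76) (nat_lit 10460451745) (nat_lit 94) (nat_lit 5) (nat_lit 97) (nat_lit 5) (nat_lit 95) (nat_lit 5) (nat_lit 513) (nat_lit 426) (nat_lit 261))) (XT.nd (nat_lit 78) (nat_lit 228) (nat_lit 0) (XT.lf (nat_lit 0) (nat_lit 23692426559) (nat_lit 152) (nat_lit 16900743809) (nat_lit 228) (nat_lit 745089631) (nat_lit 92) (nat_lit 5) (nat_lit 94) (nat_lit 5) (nat_lit 95) (nat_lit 5) (nat_lit 514) (nat_lit 426) (nat_lit 260)) (XT.lf (nat_lit 0) (nat_lit 7153337760) (nat_lit 152) (nat_lit 3151384773) (nat_lit 228) (nat_lit 31856580461) (nat_lit 89) (nat_lit 5) (nat_lit 91) (nat_lit 5) (nat_lit 92) (nat_lit 5) (nat_lit 515) (nat_lit 426) (nat_lit 259))))))))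
noncomputable def xc157 : XT := (XT.nd (nat_lit 2340) (nat_lit 228) (nat_lit 0) (XT.nd (nat_lit 1170) (nat_lit 1292) (nat_lit 0) (XT.nd (nat_lit 546) (nat_lit 608) (nat_lit 0) (XT.nd (nat_lit 234) (nat_lit 456) (nat_lit 0) (XT.nd (nat_lit 78) (nat_lit 228) (nat_lit 0) (XT.lf (nat_lit 0) (nat_lit 21950874595) (nat_lit 228) (nat_lit 10071308551) (nat_lit 76) (nat_lit 10978238402) (nat_lit 89) (nat_lit 5) (nat_lit 92) (nat_lit 5) (nat_lit 90) (nat_lit 5) (nat_lit 516) (nat_lit 426) (nat_lit 258)) (XT.nd (nat_lit 78) (nat_lit 76) (nat_lit 0) (XT.lf (nat_lit 0) (nat_lit 15881626840) (nat_lit 152) (nat_lit 18242853333) (nat_lit 228) (nat_lit 9734891632) (nat_lit 87) (nat_lit 5) (nat_lit 89) (nat_lit 5) (nat_lit 90) (nat_lit 5) (nat_lit 517) (nat_lit 426) (nat_lit 257)) (XT.lf (nat_lit 0) (nat_lit 1978675118) (nat_lit 228) (nat_lit 1951431835) (nat_lit 76) (nat_lit 40810522688) (nat_lit 86) (nat_lit 5) (nat_lit 89) (nat_lit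 5) (nat_lit 87) (nat_lit 5) (nat_lit 518) (nat_lit 426) (nat_lit 256)))) (XT.nd (nat_lit 156) (nat_lit 152) (nat_lit 0) (XT.nd (nat_lit 78) (nat_lit 152) (nat_lit 0) (XT.lf (nat_lit 0) (nat_lit 14192252462) (nat_lit 228) (nat_lit 20503959039) (nat_lit 76) (nat_lit 10938894396) (nat_lit 84) (nat_lit 5) (nat_lit 87) (nat_lit 5) (nat_lit 85) (nat_lit 5) (nat_lit 519) (nat_lit 426) (nat_lit 255)) (XT.lf (nat_lit 0) (nat_lit 6589605545) (nat_lit 152) (nat_lit 20299193180) (nat_lit 228) (nat_lit 19664121056) (nat_lit 82) (nat_lit 5) (nat_lit 84) (nat_lit 5) (nat_lit 85) (nat_lit 5) (nat_lit 520) (nat_lit 426) (nat_lit 254))) (XT.nd (nat_lit 78) (nat_lit 152) (nat_lit 0) (XT.lf (nat_lit 0) (nat_lit 34906134243) (nat_lit 152) (nat_lit 5261627846) (nat_lit 228) (nat_lit 7324460556) (nat_lit 82) (nat_lit 5) (nat_lit 84) (nat_lit 5) (nat_lit 85) (nat_lit 5) (nat_lit 521) (nat_lit 426) (nat_lit 253)) (XT.lf (nat_lit 0) (nat_lit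 5527625243) (nat_lit 152) (nat_lit 32693817621) (nat_lit 76) (nat_lit 10229289156) (nat_lit 80) (nat_lit 5) (nat_lit 82) (nat_lit 5) (nat_lit 81) (nat_lit 5) (nat_lit 522) (nat_lit 426) (nat_lit 252))))) (XT.nd (nat_lit 312) (nat_lit 304) (nat_lit 0) (XT.nd (nat_lit 156) (nat_lit 152) (nat_lit 0) (XT.nd (nat_lit 78) (nat_lit 152) (nat_lit 0) (XT.lf (nat_lit 0) (nat_lit 18793106049) (nat_lit 152) (nat_lit 4361833239) (nat_lit 76) (nat_lit 26275630571) (nat_lit 80) (nat_lit 5) (nat_lit 82) (nat_lit 5) (nat_lit 81) (nat_lit 5) (nat_lit 523) (nat_lit 426) (nat_lit 251)) (XT.lf (nat_lit 0) (nat_lit 25304191383) (nat_lit 152) (nat_lit 7390354925) (nat_lit 228) (nat_lit 17738116836) (nat_lit 78) (nat_lit 5) (nat_lit 80) (nat_lit 5) (nat_lit 81) (nat_lit 5) (nat_lit 524) (nat_lit 426) (nat_lit 250))) (XT.nd (nat_lit 78) (nat_lit 76) (nat_lit 0) (XT.lf (nat_lit 0) (nat_lit 4478306227) (nat_lit 76) (nat_lit 42702071886) (nat_lit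 152) (nat_lit 4279420822) (nat_lit 77) (nat_lit 5) (nat_lit 78) (nat_lit 5) (nat_lit 79) (nat_lit 4) (nat_lit 525) (nat_lit 426) (nat_lit 249)) (XT.lf (nat_lit 0) (nat_lit 9720251144) (nat_lit 152) (nat_lit 17199264099) (nat_lit 76) (nat_lit 25585743727) (nat_lit 76) (nat_lit 5) (nat_lit 78) (nat_lit 5) (nat_lit 77) (nat_lit 5) (nat_lit 526) (nat_lit 426) (nat_lit 248)))) (XT.nd (nat_lit 156) (nat_lit 152) (nat_lit 0) (XT.nd (nat_lit 78) (nat_lit 0) (nat_lit 0) (XT.lf (nat_lit 0) (nat_lit 13691798188) (nat_lit 152) (nat_lit 10488651015) (nat_lit 228) (nat_lit 29396566192) (nat_lit 74) (nat_lit 5) (nat_lit 76) (nat_lit 5) (nat_lit 77) (nat_lit 5) (nat_lit 527) (nat_lit 426) (nat_lit 247)) (XT.lf (nat_lit 0) (nat_lit 39306660254) (nat_lit 228) (nat_lit 8886586955) (nat_lit 76) (nat_lit 6480711231) (nat_lit 74) (nat_lit 5) (nat_lit 77) (nat_lit 5) (nat_lit 75) (nat_lit 4) (nat_lit 528) (nat_lit 426) (nat_lit 246)))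 (XT.nd (nat_lit 78) (nat_lit 76) (nat_lit 0) (XT.lf (nat_lit 0) (nat_lit 23385305997) (nat_lit 76) (nat_lit 31825090740) (nat_lit 152) (nat_lit 583701004) (nat_lit 73) (nat_lit 5) (nat_lit 74) (nat_lit 5) (nat_lit 75) (nat_lit 4) (nat_lit 529) (nat_lit 426) (nat_lit 245)) (XT.lf (nat_lit 0) (nat_lit 14443388630) (nat_lit 152) (nat_lit 288464182) (nat_lit 76) (nat_lit 42209193794) (nat_lit 72) (nat_lit 5) (nat_lit 74) (nat_lit 5) (nat_lit 73) (nat_lit 5) (nat_lit 530) (nat_lit 426) (nat_lit 244)))))) (XT.nd (nat_lit 546) (nat_lit 684) (nat_lit 0) (XT.nd (nat_lit 234) (nat_lit 304) (nat_lit 0) (XT.nd (nat_lit 78) (nat_lit 152) (nat_lit 0) (XT.lf (nat_lit 0) (nat_lit 30257013919) (nat_lit 228) (nat_lit 24710383437) (nat_lit 76) (nat_lit 3144409685) (nat_lit 70) (nat_lit 5) (nat_lit 73) (nat_lit 5) (nat_lit 71) (nat_lit 4) (nat_lit 531) (nat_lit 426) (nat_lit 243)) (XT.nd (nat_lit 78) (nat_lit 76) (nat_lit 0) (XT.lf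 (nat_lit 0) (nat_lit 8807359263) (nat_lit 76) (nat_lit 37966413017) (nat_lit 152) (nat_lit 12537056400) (nat_lit 69) (nat_lit 5) (nat_lit 70) (nat_lit 5) (nat_lit 71) (nat_lit 4) (nat_lit 532) (nat_lit 426) (nat_lit 242)) (XT.lf (nat_lit 0) (nat_lit 3424248570) (nat_lit 152) (nat_lit 16743720102) (nat_lit 76) (nat_lit 40369500074) (nat_lit 68) (nat_lit 5) (nat_lit 70) (nat_lit 5) (nat_lit 69) (nat_lit 5) (nat_lit 533) (nat_lit 426) (nat_lit 241)))) (XT.nd (nat_lit 156) (nat_lit 152) (nat_lit 0) (XT.nd (nat_lit 78) (nat_lit 0) (nat_lit 0) (XT.lf (nat_lit 0) (nat_lit 18252178216) (nat_lit 152) (nat_lit 1531088382) (nat_lit 228) (nat_lit 42008791958) (nat_lit 66) (nat_lit 5) (nat_lit 68) (nat_lit 5) (nat_lit 69) (nat_lit 5) (nat_lit 534) (nat_lit 426) (nat_lit 240)) (XT.lf (nat_lit 0) (nat_lit 36969031258) (nat_lit 228) (nat_lit 8618202541) (nat_lit 76) (nat_lit 17486973086) (nat_lit 66) (nat_lit 5) (nat_lit 69) (nat_lit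 5) (nat_lit 67) (nat_lit 4) (nat_lit 535) (nat_lit 426) (nat_lit 239))) (XT.nd (nat_lit 78) (nat_lit 76) (nat_lit 0) (XT.lf (nat_lit 0) (nat_lit 27871398531) (nat_lit 76) (nat_lit 27077597513) (nat_lit 152) (nat_lit 9437464908) (nat_lit 65) (nat_lit 5) (nat_lit 66) (nat_lit 5) (nat_lit 67) (nat_lit 4) (nat_lit 536) (nat_lit 426) (nat_lit 238)) (XT.lf (nat_lit 0) (nat_lit 7662876740) (nat_lit 152) (nat_lit 186734239) (nat_lit 76) (nat_lit 57883739164) (nat_lit 64) (nat_lit 5) (nat_lit 66) (nat_lit 5) (nat_lit 65) (nat_lit 5) (nat_lit 537) (nat_lit 426) (nat_lit 237))))) (XT.nd (nat_lit 312) (nat_lit 228) (nat_lit 0) (XT.nd (nat_lit 156) (nat_lit 228) (nat_lit 0) (XT.nd (nat_lit 78) (nat_lit 76) (nat_lit 0) (XT.lf (nat_lit 0) (nat_lit 25565661392) (nat_lit 228) (nat_lit 29357704081) (nat_lit 76) (nat_lit 12180103928) (nat_lit 62) (nat_lit 5) (nat_lit 65) (nat_lit 5) (nat_lit 63) (nat_lit 4) (nat_lit 538) (nat_lit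 426) (nat_lit 236)) (XT.lf (nat_lit 0) (nat_lit 8383068699) (nat_lit 76) (nat_lit 35778363870) (nat_lit 152) (nat_lit 24348582673) (nat_lit 61) (nat_lit 5) (nat_lit 62) (nat_lit 5) (nat_lit 63) (nat_lit 4) (nat_lit 539) (nat_lit 426) (nat_lit 235))) (XT.nd (nat_lit 78) (nat_lit 228) (nat_lit 0) (XT.lf (nat_lit 0) (nat_lit 47849739659) (nat_lit 76) (nat_lit 15757536229) (nat_lit 152) (nat_lit 6342715689) (nat_lit 61) (nat_lit 5) (nat_lit 62) (nat_lit 5) (nat_lit 63) (nat_lit 4) (nat_lit 540) (nat_lit 426) (nat_lit 234)) (XT.lf (nat_lit 0) (nat_lit 12176645195) (nat_lit 228) (nat_lit 54195174308) (nat_lit 76) (nat_lit 5051485147) (nat_lit 58) (nat_lit 5) (nat_lit 61) (nat_lit 5) (nat_lit 59) (nat_lit 4) (nat_lit 541) (nat_lit 426) (nat_lit 233)))) (XT.nd (nat_lit 156) (nat_lit 152) (nat_lit 0) (XT.nd (nat_lit 78) (nat_lit 76) (nat_lit 0) (XT.lf (nat_lit 0) (nat_lit 31501334748) (nat_lit 228) (nat_lit 14973733450)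 (nat_lit 76) (nat_lit 26452548120) (nat_lit 58) (nat_lit 5) (nat_lit 61) (nat_lit 5) (nat_lit 59) (nat_lit 4) (nat_lit 542) (nat_lit 426) (nat_lit 232)) (XT.lf (nat_lit 0) (nat_lit 25922438339) (nat_lit 76) (nat_lit 25728466391) (nat_lit 152) (nat_lit 22818798493) (nat_lit 57) (nat_lit 5) (nat_lit 58) (nat_lit 5) (nat_lit 59) (nat_lit 4) (nat_lit 543) (nat_lit 426) (nat_lit 231))) (XT.nd (nat_lit 78) (nat_lit 152) (nat_lit 0) (XT.lf (nat_lit 0) (nat_lit 68344765706) (nat_lit 76) (nat_lit 4207402817) (nat_lit 152) (nat_lit 3501468089) (nat_lit 57) (nat_lit 5) (nat_lit 58) (nat_lit 5) (nat_lit 59) (nat_lit 4) (nat_lit 544) (nat_lit 426) (nat_lit 230)) (XT.lf (nat_lit 0) (nat_lit 16584200317) (nat_lit 152) (nat_lit 42977921616) (nat_lit 76) (nat_lit 18102975537) (nat_lit 55) (nat_lit 5) (nat_lit 57) (nat_lit 5) (nat_lit 56) (nat_lit 4) (nat_lit 545) (nat_lit 426) (nat_lit 229))))))) (XT.nd (nat_lit 54054) (nat_lit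 0) (nat_lit 15124) (XT.nd (nat_lit 53430) (nat_lit 0) (nat_lit 19760) (XT.nd (nat_lit 234) (nat_lit 76) (nat_lit 0) (XT.nd (nat_lit 78) (nat_lit 152) (nat_lit 0) (XT.lf (nat_lit 0) (nat_lit 37318422832) (nat_lit 152) (nat_lit 894073827) (nat_lit 76) (nat_lit 41107874725) (nat_lit 55) (nat_lit 5) (nat_lit 57) (nat_lit 5) (nat_lit 56) (nat_lit 4) (nat_lit 546) (nat_lit 426) (nat_lit 228)) (XT.nd (nat_lit 78) (nat_lit 76) (nat_lit 0) (XT.lf (nat_lit 0) (nat_lit 43289707978) (nat_lit 76) (nat_lit 15797292584) (nat_lit 152) (nat_lit 21925933165) (nat_lit 54) (nat_lit 5) (nat_lit 55) (nat_lit 5) (nat_lit 56) (nat_lit 4) (nat_lit 547) (nat_lit 426) (nat_lit 227)) (XT.lf (nat_lit 0) (nat_lit 6102922900) (nat_lit 76) (nat_lit 75539783813) (nat_lit 76) (nat_lit 1109544162) (nat_lit 53) (nat_lit 4) (nat_lit 54) (nat_lit 5) (nat_lit 54) (nat_lit 4) (nat_lit 548) (nat_lit 426) (nat_lit 226)))) (XT.nd (nat_lit 53040) (nat_lit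 0) (nat_lit 20748) (XT.nd (nat_lit 52962) (nat_lit 0) (nat_lit 20748) (XT.lf (nat_lit 0) (nat_lit 20471922233) (nat_lit 152) (nat_lit 32878122780) (nat_lit 76) (nat_lit 31171719770) (nat_lit 52) (nat_lit 5) (nat_lit 54) (nat_lit 5) (nat_lit 53) (nat_lit 4) (nat_lit 549) (nat_lit 426) (nat_lit 225)) (XT.lf (nat_lit 0) (nat_lit 2607241538) (nat_lit 1140) (nat_lit 1086825129) (nat_lit 1140) (nat_lit 1086825129) (nat_lit 325) (nat_lit 3) (nat_lit 340) (nat_lit 3) (nat_lit 340) (nat_lit 5) (nat_lit 427) (nat_lit 427) (nat_lit 346))) (XT.nd (nat_lit 78) (nat_lit 0) (nat_lit 76) (XT.lf (nat_lit 76) (nat_lit 2603958831) (nat_lit 0) (nat_lit 3488337945) (nat_lit 1140) (nat_lit 3588807976) (nat_lit 326) (nat_lit 5) (nat_lit 325) (nat_lit 3) (nat_lit 340) (nat_lit 5) (nat_lit 428) (nat_lit 427) (nat_lit 345)) (XT.lf (nat_lit 0) (nat_lit 6993449231) (nat_lit 1064) (nat_lit 2256125910) (nat_lit 1140) (nat_lit 554524869) (nat_lit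 326) (nat_lit 5) (nat_lit 340) (nat_lit 5) (nat_lit 341) (nat_lit 5) (nat_lit 429) (nat_lit 427) (nat_lit 344))))) (XT.nd (nat_lit 312) (nat_lit 0) (nat_lit 76) (XT.nd (nat_lit 156) (nat_lit 1064) (nat_lit 0) (XT.nd (nat_lit 78) (nat_lit 0) (nat_lit 0) (XT.lf (nat_lit 76) (nat_lit 2711454593) (nat_lit 0) (nat_lit 5241422291) (nat_lit 1140) (nat_lit 1976975484) (nat_lit 327) (nat_lit 5) (nat_lit 326) (nat_lit 5) (nat_lit 341) (nat_lit 5) (nat_lit 430) (nat_lit 427) (nat_lit 343)) (XT.lf (nat_lit 76) (nat_lit 7858029729) (nat_lit 0) (nat_lit 1077177236) (nat_lit 1140) (nat_lit 1124351072) (nat_lit 327) (nat_lit 5) (nat_lit 326) (nat_lit 5) (nat_lit 341) (nat_lit 5) (nat_lit 431) (nat_lit 427) (nat_lit 342))) (XT.nd (nat_lit 78) (nat_lit 1140) (nat_lit 0) (XT.lf (nat_lit 76) (nat_lit 2976288136) (nat_lit 0) (nat_lit 7002491922) (nat_lit 1140) (nat_lit 213425830) (nat_lit 328) (nat_lit 5) (nat_lit 327) (nat_lit 5) (nat_lit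 342) (nat_lit 5) (nat_lit 432) (nat_lit 427) (nat_lit 341)) (XT.lf (nat_lit 0) (nat_lit 716462722) (nat_lit 1140) (nat_lit 2008595939) (nat_lit 1216) (nat_lit 7603396066) (nat_lit 312) (nat_lit 5) (nat_lit 327) (nat_lit 5) (nat_lit 328) (nat_lit 5) (nat_lit 433) (nat_lit 427) (nat_lit 340)))) (XT.nd (nat_lit 156) (nat_lit 0) (nat_lit 76) (XT.nd (nat_lit 78) (nat_lit 0) (nat_lit 0) (XT.lf (nat_lit 0) (nat_lit 1692721171) (nat_lit 1140) (nat_lit 7082559038) (nat_lit 1216) (nat_lit 1692768386) (nat_lit 313) (nat_lit 5) (nat_lit 328) (nat_lit 5) (nat_lit 329) (nat_lit 5) (nat_lit 434) (nat_lit 427) (nat_lit 339)) (XT.lf (nat_lit 0) (nat_lit 2719896622) (nat_lit 1140) (nat_lit 1673186479) (nat_lit 1216) (nat_lit 6218102037) (nat_lit 313) (nat_lit 5) (nat_lit 328) (nat_lit 5) (nat_lit 329) (nat_lit 5) (nat_lit 435) (nat_lit 427) (nat_lit 338))) (XT.nd (nat_lit 78) (nat_lit 0) (nat_lit 0) (XT.lf (nat_lit 0) (nat_lit 3792474679)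 (nat_lit 1140) (nat_lit 6800975656) (nat_lit 1216) (nat_lit 164731448) (nat_lit 314) (nat_lit 5) (nat_lit 329) (nat_lit 5) (nat_lit 330) (nat_lit 5) (nat_lit 436) (nat_lit 427) (nat_lit 337)) (XT.lf (nat_lit 0) (nat_lit 4933351827) (nat_lit 1140) (nat_lit 1179433837) (nat_lit 1216) (nat_lit 4795722531) (nat_lit 314) (nat_lit 5) (nat_lit 329) (nat_lit 5) (nat_lit 330) (nat_lit 5) (nat_lit 437) (nat_lit 427) (nat_lit 336)))))) (XT.nd (nat_lit 624) (nat_lit 2584) (nat_lit 0) (XT.nd (nat_lit 312) (nat_lit 2204) (nat_lit 0) (XT.nd (nat_lit 156) (nat_lit 0) (nat_lit 76) (XT.nd (nat_lit 78) (nat_lit 0) (nat_lit 76) (XT.lf (nat_lit 76) (nat_lit 4685190413) (nat_lit 0) (nat_lit 1444576247) (nat_lit 1216) (nat_lit 4932941818) (nat_lit 315) (nat_lit 5) (nat_lit 314) (nat_lit 5) (nat_lit 330) (nat_lit 5) (nat_lit 438) (nat_lit 427) (nat_lit 335)) (XT.lf (nat_lit 0) (nat_lit 7383300627) (nat_lit 1140) (nat_lit 521281187) (nat_lit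 1216) (nat_lit 3316319471) (nat_lit 315) (nat_lit 5) (nat_lit 330) (nat_lit 5) (nat_lit 331) (nat_lit 5) (nat_lit 439) (nat_lit 427) (nat_lit 334))) (XT.nd (nat_lit 78) (nat_lit 0) (nat_lit 76) (XT.lf (nat_lit 76) (nat_lit 5588317705) (nat_lit 0) (nat_lit 3131682860) (nat_lit 1216) (nat_lit 2662475735) (nat_lit 316) (nat_lit 5) (nat_lit 315) (nat_lit 5) (nat_lit 331) (nat_lit 5) (nat_lit 440) (nat_lit 427) (nat_lit 333)) (XT.lf (nat_lit 76) (nat_lit 314467045) (nat_lit 0) (nat_lit 9785905427) (nat_lit 1216) (nat_lit 1448422094) (nat_lit 317) (nat_lit 5) (nat_lit 316) (nat_lit 5) (nat_lit 332) (nat_lit 5) (nat_lit 441) (nat_lit 427) (nat_lit 332)))) (XT.nd (nat_lit 156) (nat_lit 1216) (nat_lit 0) (XT.nd (nat_lit 78) (nat_lit 1140) (nat_lit 0) (XT.lf (nat_lit 76) (nat_lit 6676060743) (nat_lit 0) (nat_lit 4913857326) (nat_lit 1216) (nat_lit 128154470) (nat_lit 317) (nat_lit 5) (nat_lit 316) (nat_lit 5) (nat_lit 332)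 (nat_lit 5) (nat_lit 442) (nat_lit 427) (nat_lit 331)) (XT.lf (nat_lit 0) (nat_lit 1200746743) (nat_lit 1216) (nat_lit 10560717836) (nat_lit 76) (nat_lit 130820107) (nat_lit 301) (nat_lit 5) (nat_lit 317) (nat_lit 5) (nat_lit 302) (nat_lit 5) (nat_lit 443) (nat_lit 427) (nat_lit 330))) (XT.nd (nat_lit 78) (nat_lit 1216) (nat_lit 0) (XT.lf (nat_lit 0) (nat_lit 2646455755) (nat_lit 1216) (nat_lit 4138749468) (nat_lit 76) (nat_lit 5284097191) (nat_lit 301) (nat_lit 5) (nat_lit 317) (nat_lit 5) (nat_lit 302) (nat_lit 5) (nat_lit 444) (nat_lit 427) (nat_lit 329)) (XT.lf (nat_lit 0) (nat_lit 2507489810) (nat_lit 1216) (nat_lit 1632194366) (nat_lit 1292) (nat_lit 8111824753) (nat_lit 285) (nat_lit 5) (nat_lit 301) (nat_lit 5) (nat_lit 302) (nat_lit 5) (nat_lit 445) (nat_lit 427) (nat_lit 328))))) (XT.nd (nat_lit 312) (nat_lit 1216) (nat_lit 0) (XT.nd (nat_lit 156) (nat_lit 608) (nat_lit 0) (XT.nd (nat_lit 78) (nat_lit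 760) (nat_lit 0) (XT.lf (nat_lit 0) (nat_lit 5735730734) (nat_lit 1292) (nat_lit 3053475600) (nat_lit 76) (nat_lit 3648237285) (nat_lit 285) (nat_lit 5) (nat_lit 302) (nat_lit 5) (nat_lit 286) (nat_lit 5) (nat_lit 446) (nat_lit 427) (nat_lit 327)) (XT.lf (nat_lit 0) (nat_lit 3880095533) (nat_lit 760) (nat_lit 3534073749) (nat_lit 836) (nat_lit 5213754294) (nat_lit 275) (nat_lit 5) (nat_lit 285) (nat_lit 5) (nat_lit 286) (nat_lit 5) (nat_lit 447) (nat_lit 427) (nat_lit 326))) (XT.nd (nat_lit 78) (nat_lit 608) (nat_lit 0) (XT.lf (nat_lit 0) (nat_lit 9173614163) (nat_lit 836) (nat_lit 1774937966) (nat_lit 76) (nat_lit 1874648678) (nat_lit 275) (nat_lit 5) (nat_lit 286) (nat_lit 5) (nat_lit 276) (nat_lit 5) (nat_lit 448) (nat_lit 427) (nat_lit 325)) (XT.lf (nat_lit 0) (nat_lit 5461589789) (nat_lit 608) (nat_lit 5593738167) (nat_lit 684) (nat_lit 1966926228) (nat_lit 267) (nat_lit 5) (nat_lit 275) (nat_lit 5) (nat_lit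 276) (nat_lit 5) (nat_lit 449) (nat_lit 427) (nat_lit 324)))) (XT.nd (nat_lit 156) (nat_lit 532) (nat_lit 0) (XT.nd (nat_lit 78) (nat_lit 684) (nat_lit 0) (XT.lf (nat_lit 0) (nat_lit 12934632358) (nat_lit 608) (nat_lit 59140140) (nat_lit 684) (nat_lit 233500612) (nat_lit 267) (nat_lit 5) (nat_lit 275) (nat_lit 5) (nat_lit 276) (nat_lit 5) (nat_lit 450) (nat_lit 427) (nat_lit 323)) (XT.lf (nat_lit 0) (nat_lit 1629631760) (nat_lit 684) (nat_lit 6187267737) (nat_lit 76) (nat_lit 5617858127) (nat_lit 258) (nat_lit 5) (nat_lit 267) (nat_lit 5) (nat_lit 259) (nat_lit 5) (nat_lit 451) (nat_lit 427) (nat_lit 322))) (XT.nd (nat_lit 78) (nat_lit 0) (nat_lit 0) (XT.lf (nat_lit 0) (nat_lit 1378246303) (nat_lit 532) (nat_lit 2165581938) (nat_lit 608) (nat_lit 10104575308) (nat_lit 251) (nat_lit 5) (nat_lit 258) (nat_lit 5) (nat_lit 259) (nat_lit 5) (nat_lit 452) (nat_lit 427) (nat_lit 321)) (XT.lf (nat_lit 0) (nat_lit 5597056905)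 (nat_lit 608) (nat_lit 4622276878) (nat_lit 76) (nat_lit 3646678949) (nat_lit 251) (nat_lit 5) (nat_lit 259) (nat_lit 5) (nat_lit 252) (nat_lit 5) (nat_lit 453) (nat_lit 427) (nat_lit 320))))))))
noncomputable def xc158 : XT := (XT.nd (nat_lit 2340) (nat_lit 4256) (nat_lit 0) (XT.nd (nat_lit 1170) (nat_lit 3268) (nat_lit 0) (XT.nd (nat_lit 546) (nat_lit 2280) (nat_lit 0) (XT.nd (nat_lit 234) (nat_lit 1064) (nat_lit 0) (XT.nd (nat_lit 78) (nat_lit 532) (nat_lit 0) (XT.lf (nat_lit 0) (nat_lit 3280629228) (nat_lit 532) (nat_lit 4468086006) (nat_lit 608) (nat_lit 6340331979) (nat_lit 244) (nat_lit 5) (nat_lit 251) (nat_lit 5) (nat_lit 252) (nat_lit 5) (nat_lit 454) (nat_lit 427) (nat_lit 319)) (XT.nd (nat_lit 78) (nat_lit 532) (nat_lit 0) (XT.lf (nat_lit 0) (nat_lit 10010209517) (nat_lit 608) (nat_lit 2833740180) (nat_lit 76) (nat_lit 1473466395) (nat_lit 244) (nat_lit 5) (nat_lit 252) (nat_lit 5) (nat_lit 245) (nat_lit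 5) (nat_lit 455) (nat_lit 427) (nat_lit 318)) (XT.lf (nat_lit 0) (nat_lit 5425017443) (nat_lit 532) (nat_lit 6995534810) (nat_lit 608) (nat_lit 2129655568) (nat_lit 237) (nat_lit 5) (nat_lit 244) (nat_lit 5) (nat_lit 245) (nat_lit 5) (nat_lit 456) (nat_lit 427) (nat_lit 317)))) (XT.nd (nat_lit 156) (nat_lit 456) (nat_lit 0) (XT.nd (nat_lit 78) (nat_lit 532) (nat_lit 0) (XT.lf (nat_lit 0) (nat_lit 124664752) (nat_lit 608) (nat_lit 817794176) (nat_lit 76) (nat_lit 13847083943) (nat_lit 236) (nat_lit 5) (nat_lit 244) (nat_lit 5) (nat_lit 237) (nat_lit 5) (nat_lit 457) (nat_lit 427) (nat_lit 316)) (XT.lf (nat_lit 0) (nat_lit 2516324021) (nat_lit 608) (nat_lit 7230840810) (nat_lit 76) (nat_lit 5284886902) (nat_lit 229) (nat_lit 5) (nat_lit 237) (nat_lit 5) (nat_lit 230) (nat_lit 5) (nat_lit 458) (nat_lit 427) (nat_lit 315))) (XT.nd (nat_lit 78) (nat_lit 0) (nat_lit 0) (XT.lf (nat_lit 0) (nat_lit 1415479026) (nat_lit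 456) (nat_lit 3580987317) (nat_lit 532) (nat_lit 10284869203) (nat_lit 223) (nat_lit 5) (nat_lit 229) (nat_lit 5) (nat_lit 230) (nat_lit 5) (nat_lit 459) (nat_lit 427) (nat_lit 314)) (XT.lf (nat_lit 0) (nat_lit 7637080621) (nat_lit 532) (nat_lit 5110781152) (nat_lit 76) (nat_lit 2787655699) (nat_lit 223) (nat_lit 5) (nat_lit 230) (nat_lit 5) (nat_lit 224) (nat_lit 5) (nat_lit 460) (nat_lit 427) (nat_lit 313))))) (XT.nd (nat_lit 312) (nat_lit 1292) (nat_lit 0) (XT.nd (nat_lit 156) (nat_lit 532) (nat_lit 0) (XT.nd (nat_lit 78) (nat_lit 0) (nat_lit 0) (XT.lf (nat_lit 0) (nat_lit 3931771618) (nat_lit 456) (nat_lit 6484506971) (nat_lit 532) (nat_lit 5379266896) (nat_lit 217) (nat_lit 5) (nat_lit 223) (nat_lit 5) (nat_lit 224) (nat_lit 5) (nat_lit 461) (nat_lit 427) (nat_lit 312)) (XT.lf (nat_lit 0) (nat_lit 13316990537) (nat_lit 532) (nat_lit 2728317023) (nat_lit 76) (nat_lit 16924176) (nat_lit 217) (nat_lit 5) (nat_lit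 224) (nat_lit 5) (nat_lit 218) (nat_lit 5) (nat_lit 462) (nat_lit 427) (nat_lit 311))) (XT.nd (nat_lit 78) (nat_lit 0) (nat_lit 0) (XT.lf (nat_lit 0) (nat_lit 85229823) (nat_lit 532) (nat_lit 9602097486) (nat_lit 76) (nat_lit 6646098110) (nat_lit 210) (nat_lit 5) (nat_lit 217) (nat_lit 5) (nat_lit 211) (nat_lit 5) (nat_lit 463) (nat_lit 427) (nat_lit 310)) (XT.lf (nat_lit 0) (nat_lit 2960099401) (nat_lit 532) (nat_lit 124977587) (nat_lit 76) (nat_lit 13526424084) (nat_lit 210) (nat_lit 5) (nat_lit 217) (nat_lit 5) (nat_lit 211) (nat_lit 5) (nat_lit 464) (nat_lit 427) (nat_lit 309)))) (XT.nd (nat_lit 156) (nat_lit 456) (nat_lit 0) (XT.nd (nat_lit 78) (nat_lit 380) (nat_lit 0) (XT.lf (nat_lit 0) (nat_lit 6039373980) (nat_lit 532) (nat_lit 7119977940) (nat_lit 76) (nat_lit 3735023672) (nat_lit 204) (nat_lit 5) (nat_lit 211) (nat_lit 5) (nat_lit 205) (nat_lit 5) (nat_lit 465) (nat_lit 427) (nat_lit 308)) (XT.lf (nat_lit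 0) (nat_lit 2795607368) (nat_lit 380) (nat_lit 6461525262) (nat_lit 456) (nat_lit 7927221872) (nat_lit 199) (nat_lit 5) (nat_lit 204) (nat_lit 5) (nat_lit 205) (nat_lit 5) (nat_lit 466) (nat_lit 427) (nat_lit 307))) (XT.nd (nat_lit 78) (nat_lit 456) (nat_lit 0) (XT.lf (nat_lit 0) (nat_lit 12635830474) (nat_lit 456) (nat_lit 4347364809) (nat_lit 76) (nat_lit 497906591) (nat_lit 199) (nat_lit 5) (nat_lit 205) (nat_lit 5) (nat_lit 200) (nat_lit 5) (nat_lit 467) (nat_lit 427) (nat_lit 306)) (XT.lf (nat_lit 0) (nat_lit 6033299427) (nat_lit 456) (nat_lit 10192516210) (nat_lit 532) (nat_lit 1557639489) (nat_lit 193) (nat_lit 5) (nat_lit 199) (nat_lit 5) (nat_lit 200) (nat_lit 5) (nat_lit 468) (nat_lit 427) (nat_lit 305)))))) (XT.nd (nat_lit 546) (nat_lit 1672) (nat_lit 0) (XT.nd (nat_lit 234) (nat_lit 760) (nat_lit 0) (XT.nd (nat_lit 78) (nat_lit 760) (nat_lit 0) (XT.lf (nat_lit 0) (nat_lit 1825310804) (nat_lit 532) (nat_lit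 1312874791) (nat_lit 76) (nat_lit 14955196054) (nat_lit 192) (nat_lit 5) (nat_lit 199) (nat_lit 5) (nat_lit 193) (nat_lit 5) (nat_lit 469) (nat_lit 427) (nat_lit 304)) (XT.nd (nat_lit 78) (nat_lit 380) (nat_lit 0) (XT.lf (nat_lit 0) (nat_lit 5399760737) (nat_lit 456) (nat_lit 8856459881) (nat_lit 76) (nat_lit 4152284285) (nat_lit 187) (nat_lit 5) (nat_lit 193) (nat_lit 5) (nat_lit 188) (nat_lit 5) (nat_lit 470) (nat_lit 427) (nat_lit 303)) (XT.lf (nat_lit 0) (nat_lit 2030054659) (nat_lit 380) (nat_lit 7103905837) (nat_lit 456) (nat_lit 9597546980) (nat_lit 182) (nat_lit 5) (nat_lit 187) (nat_lit 5) (nat_lit 188) (nat_lit 5) (nat_lit 471) (nat_lit 427) (nat_lit 302)))) (XT.nd (nat_lit 156) (nat_lit 456) (nat_lit 0) (XT.nd (nat_lit 78) (nat_lit 304) (nat_lit 0) (XT.lf (nat_lit 0) (nat_lit 13061721891) (nat_lit 456) (nat_lit 5655862823) (nat_lit 76) (nat_lit 344170423) (nat_lit 182) (nat_lit 5) (nat_lit 188) (nat_lit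 5) (nat_lit 183) (nat_lit 5) (nat_lit 472) (nat_lit 427) (nat_lit 301)) (XT.lf (nat_lit 0) (nat_lit 5747728065) (nat_lit 304) (nat_lit 11474193255) (nat_lit 380) (nat_lit 2176551799) (nat_lit 178) (nat_lit 5) (nat_lit 182) (nat_lit 5) (nat_lit 183) (nat_lit 5) (nat_lit 473) (nat_lit 427) (nat_lit 300))) (XT.nd (nat_lit 78) (nat_lit 380) (nat_lit 0) (XT.lf (nat_lit 0) (nat_lit 1774022950) (nat_lit 380) (nat_lit 2166971561) (nat_lit 76) (nat_lit 15802388160) (nat_lit 177) (nat_lit 5) (nat_lit 182) (nat_lit 5) (nat_lit 178) (nat_lit 5) (nat_lit 474) (nat_lit 427) (nat_lit 299)) (XT.lf (nat_lit 0) (nat_lit 5920944597) (nat_lit 456) (nat_lit 10316785259) (nat_lit 76) (nat_lit 3856616825) (nat_lit 172) (nat_lit 5) (nat_lit 178) (nat_lit 5) (nat_lit 173) (nat_lit 5) (nat_lit 475) (nat_lit 427) (nat_lit 298))))) (XT.nd (nat_lit 312) (nat_lit 988) (nat_lit 0) (XT.nd (nat_lit 156) (nat_lit 380) (nat_lit 0) (XT.nd (nat_lit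 78) (nat_lit 0) (nat_lit 0) (XT.lf (nat_lit 0) (nat_lit 1647640454) (nat_lit 304) (nat_lit 8611120940) (nat_lit 380) (nat_lit 10195084524) (nat_lit 168) (nat_lit 5) (nat_lit 172) (nat_lit 5) (nat_lit 173) (nat_lit 5) (nat_lit 476) (nat_lit 427) (nat_lit 297)) (XT.lf (nat_lit 0) (nat_lit 14167686835) (nat_lit 304) (nat_lit 652898668) (nat_lit 380) (nat_lit 6000729349) (nat_lit 168) (nat_lit 5) (nat_lit 172) (nat_lit 5) (nat_lit 173) (nat_lit 5) (nat_lit 477) (nat_lit 427) (nat_lit 296))) (XT.nd (nat_lit 78) (nat_lit 76) (nat_lit 0) (XT.lf (nat_lit 0) (nat_lit 5891345605) (nat_lit 304) (nat_lit 13747019960) (nat_lit 380) (nat_lit 1557870129) (nat_lit 164) (nat_lit 5) (nat_lit 168) (nat_lit 5) (nat_lit 169) (nat_lit 5) (nat_lit 478) (nat_lit 427) (nat_lit 295)) (XT.lf (nat_lit 0) (nat_lit 3023702084) (nat_lit 380) (nat_lit 2682150940) (nat_lit 76) (nat_lit 15873751821) (nat_lit 163) (nat_lit 5) (nat_lit 168) (nat_lit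 5) (nat_lit 164) (nat_lit 5) (nat_lit 479) (nat_lit 427) (nat_lit 294)))) (XT.nd (nat_lit 156) (nat_lit 380) (nat_lit 0) (XT.nd (nat_lit 78) (nat_lit 304) (nat_lit 0) (XT.lf (nat_lit 0) (nat_lit 7828460845) (nat_lit 380) (nat_lit 11502777050) (nat_lit 76) (nat_lit 2639263714) (nat_lit 159) (nat_lit 5) (nat_lit 164) (nat_lit 5) (nat_lit 160) (nat_lit 5) (nat_lit 480) (nat_lit 427) (nat_lit 293)) (XT.lf (nat_lit 0) (nat_lit 1655960085) (nat_lit 304) (nat_lit 11211567258) (nat_lit 380) (nat_lit 9502893763) (nat_lit 155) (nat_lit 5) (nat_lit 159) (nat_lit 5) (nat_lit 160) (nat_lit 5) (nat_lit 481) (nat_lit 427) (nat_lit 292))) (XT.nd (nat_lit 78) (nat_lit 380) (nat_lit 0) (XT.lf (nat_lit 0) (nat_lit 15431038793) (nat_lit 304) (nat_lit 2733426126) (nat_lit 380) (nat_lit 4614673054) (nat_lit 155) (nat_lit 5) (nat_lit 159) (nat_lit 5) (nat_lit 160) (nat_lit 5) (nat_lit 482) (nat_lit 427) (nat_lit 291)) (XT.lf (nat_lit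 0) (nat_lit 523761950) (nat_lit 380) (nat_lit 16728050073) (nat_lit 76) (nat_lit 5944830845) (nat_lit 150) (nat_lit 5) (nat_lit 155) (nat_lit 5) (nat_lit 151) (nat_lit 5) (nat_lit 483) (nat_lit 427) (nat_lit 290))))))) (XT.nd (nat_lit 1170) (nat_lit 1824) (nat_lit 0) (XT.nd (nat_lit 546) (nat_lit 1292) (nat_lit 0) (XT.nd (nat_lit 234) (nat_lit 608) (nat_lit 0) (XT.nd (nat_lit 78) (nat_lit 532) (nat_lit 0) (XT.lf (nat_lit 0) (nat_lit 5816418347) (nat_lit 380) (nat_lit 2861600333) (nat_lit 76) (nat_lit 14944499668) (nat_lit 150) (nat_lit 5) (nat_lit 155) (nat_lit 5) (nat_lit 151) (nat_lit 5) (nat_lit 484) (nat_lit 427) (nat_lit 289)) (XT.nd (nat_lit 78) (nat_lit 228) (nat_lit 0) (XT.lf (nat_lit 0) (nat_lit 11373308069) (nat_lit 380) (nat_lit 12426416896) (nat_lit 76) (nat_lit 258282189) (nat_lit 146) (nat_lit 5) (nat_lit 151) (nat_lit 5) (nat_lit 147) (nat_lit 5) (nat_lit 485) (nat_lit 427) (nat_lit 288)) (XT.lf (nat_lit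 0) (nat_lit 2052635984) (nat_lit 228) (nat_lit 15170273580) (nat_lit 304) (nat_lit 7279871563) (nat_lit 143) (nat_lit 5) (nat_lit 146) (nat_lit 5) (nat_lit 147) (nat_lit 5) (nat_lit 486) (nat_lit 427) (nat_lit 287)))) (XT.nd (nat_lit 156) (nat_lit 228) (nat_lit 0) (XT.nd (nat_lit 78) (nat_lit 380) (nat_lit 0) (XT.lf (nat_lit 0) (nat_lit 17207170563) (nat_lit 228) (nat_lit 6157607501) (nat_lit 304) (nat_lit 1592617519) (nat_lit 143) (nat_lit 5) (nat_lit 146) (nat_lit 5) (nat_lit 147) (nat_lit 5) (nat_lit 487) (nat_lit 427) (nat_lit 286)) (XT.lf (nat_lit 0) (nat_lit 4276528915) (nat_lit 380) (nat_lit 17971326150) (nat_lit 76) (nat_lit 3173728842) (nat_lit 138) (nat_lit 5) (nat_lit 143) (nat_lit 5) (nat_lit 139) (nat_lit 5) (nat_lit 488) (nat_lit 427) (nat_lit 285))) (XT.nd (nat_lit 78) (nat_lit 228) (nat_lit 0) (XT.lf (nat_lit 0) (nat_lit 10421283297) (nat_lit 380) (nat_lit 2722700841) (nat_lit 76) (nat_lit 12751294959)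 (nat_lit 138) (nat_lit 5) (nat_lit 143) (nat_lit 5) (nat_lit 139) (nat_lit 5) (nat_lit 489) (nat_lit 427) (nat_lit 284)) (XT.lf (nat_lit 0) (nat_lit 13228441966) (nat_lit 228) (nat_lit 3640884854) (nat_lit 304) (nat_lit 9510290492) (nat_lit 135) (nat_lit 5) (nat_lit 138) (nat_lit 5) (nat_lit 139) (nat_lit 5) (nat_lit 490) (nat_lit 427) (nat_lit 283))))) (XT.nd (nat_lit 312) (nat_lit 760) (nat_lit 0) (XT.nd (nat_lit 156) (nat_lit 228) (nat_lit 0) (XT.nd (nat_lit 78) (nat_lit 76) (nat_lit 0) (XT.lf (nat_lit 0) (nat_lit 2818766787) (nat_lit 228) (nat_lit 20797853194) (nat_lit 304) (nat_lit 3258691989) (nat_lit 132) (nat_lit 5) (nat_lit 135) (nat_lit 5) (nat_lit 136) (nat_lit 5) (nat_lit 491) (nat_lit 427) (nat_lit 282)) (XT.lf (nat_lit 0) (nat_lit 3280443511) (nat_lit 304) (nat_lit 7925613374) (nat_lit 76) (nat_lit 16174042388) (nat_lit 131) (nat_lit 5) (nat_lit 135) (nat_lit 5) (nat_lit 132) (nat_lit 5) (nat_lit 492)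 (nat_lit 427) (nat_lit 281))) (XT.nd (nat_lit 78) (nat_lit 0) (nat_lit 0) (XT.lf (nat_lit 0) (nat_lit 8816224598) (nat_lit 228) (nat_lit 1210902099) (nat_lit 304) (nat_lit 17869629969) (nat_lit 128) (nat_lit 5) (nat_lit 131) (nat_lit 5) (nat_lit 132) (nat_lit 5) (nat_lit 493) (nat_lit 427) (nat_lit 280)) (XT.lf (nat_lit 0) (nat_lit 17136541649) (nat_lit 304) (nat_lit 2304697023) (nat_lit 76) (nat_lit 8982865655) (nat_lit 128) (nat_lit 5) (nat_lit 132) (nat_lit 5) (nat_lit 129) (nat_lit 5) (nat_lit 494) (nat_lit 427) (nat_lit 279)))) (XT.nd (nat_lit 156) (nat_lit 228) (nat_lit 0) (XT.nd (nat_lit 78) (nat_lit 304) (nat_lit 0) (XT.lf (nat_lit 0) (nat_lit 15247476696) (nat_lit 228) (nat_lit 9362730925) (nat_lit 304) (nat_lit 4352536211) (nat_lit 125) (nat_lit 5) (nat_lit 128) (nat_lit 5) (nat_lit 129) (nat_lit 5) (nat_lit 495) (nat_lit 427) (nat_lit 278)) (XT.lf (nat_lit 0) (nat_lit 2800060149) (nat_lit 304) (nat_lit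 25632727142) (nat_lit 76) (nat_lit 1082031767) (nat_lit 121) (nat_lit 5) (nat_lit 125) (nat_lit 5) (nat_lit 122) (nat_lit 5) (nat_lit 496) (nat_lit 427) (nat_lit 277))) (XT.nd (nat_lit 78) (nat_lit 228) (nat_lit 0) (XT.lf (nat_lit 0) (nat_lit 10304814438) (nat_lit 304) (nat_lit 7940509566) (nat_lit 76) (nat_lit 11830088285) (nat_lit 121) (nat_lit 5) (nat_lit 125) (nat_lit 5) (nat_lit 122) (nat_lit 5) (nat_lit 497) (nat_lit 427) (nat_lit 276)) (XT.lf (nat_lit 0) (nat_lit 10474675878) (nat_lit 228) (nat_lit 7653435957) (nat_lit 304) (nat_lit 12521909886) (nat_lit 118) (nat_lit 5) (nat_lit 121) (nat_lit 5) (nat_lit 122) (nat_lit 5) (nat_lit 498) (nat_lit 427) (nat_lit 275)))))) (XT.nd (nat_lit 624) (nat_lit 760) (nat_lit 0) (XT.nd (nat_lit 312) (nat_lit 608) (nat_lit 0) (XT.nd (nat_lit 156) (nat_lit 228) (nat_lit 0) (XT.nd (nat_lit 78) (nat_lit 228) (nat_lit 0) (XT.lf (nat_lit 0) (nat_lit 26291147014) (nat_lit 304)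 (nat_lit 1678715896) (nat_lit 76) (nat_lit 3268855768) (nat_lit 118) (nat_lit 5) (nat_lit 122) (nat_lit 5) (nat_lit 119) (nat_lit 5) (nat_lit 499) (nat_lit 427) (nat_lit 274)) (XT.lf (nat_lit 0) (nat_lit 3038873458) (nat_lit 228) (nat_lit 14238569086) (nat_lit 76) (nat_lit 14559594295) (nat_lit 115) (nat_lit 5) (nat_lit 118) (nat_lit 5) (nat_lit 116) (nat_lit 5) (nat_lit 500) (nat_lit 427) (nat_lit 273))) (XT.nd (nat_lit 78) (nat_lit 0) (nat_lit 0) (XT.lf (nat_lit 0) (nat_lit 5073518395) (nat_lit 228) (nat_lit 6150835634) (nat_lit 304) (nat_lit 21225714813) (nat_lit 112) (nat_lit 5) (nat_lit 115) (nat_lit 5) (nat_lit 116) (nat_lit 5) (nat_lit 501) (nat_lit 427) (nat_lit 272)) (XT.lf (nat_lit 0) (nat_lit 19844680840) (nat_lit 304) (nat_lit 7884753129) (nat_lit 76) (nat_lit 5346379743) (nat_lit 112) (nat_lit 5) (nat_lit 116) (nat_lit 5) (nat_lit 113) (nat_lit 5) (nat_lit 502) (nat_lit 427) (nat_lit 271)))) (XT.nd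 (nat_lit 156) (nat_lit 380) (nat_lit 0) (XT.nd (nat_lit 78) (nat_lit 76) (nat_lit 0) (XT.lf (nat_lit 0) (nat_lit 12360487075) (nat_lit 152) (nat_lit 16536086870) (nat_lit 228) (nat_lit 4818568637) (nat_lit 110) (nat_lit 5) (nat_lit 112) (nat_lit 5) (nat_lit 113) (nat_lit 5) (nat_lit 503) (nat_lit 427) (nat_lit 270)) (XT.lf (nat_lit 0) (nat_lit 3844985347) (nat_lit 228) (nat_lit 1045940452) (nat_lit 76) (nat_lit 29479406559) (nat_lit 109) (nat_lit 5) (nat_lit 112) (nat_lit 5) (nat_lit 110) (nat_lit 5) (nat_lit 504) (nat_lit 427) (nat_lit 269))) (XT.nd (nat_lit 78) (nat_lit 152) (nat_lit 0) (XT.lf (nat_lit 0) (nat_lit 12929933776) (nat_lit 304) (nat_lit 14901395296) (nat_lit 76) (nat_lit 7204667730) (nat_lit 106) (nat_lit 5) (nat_lit 110) (nat_lit 5) (nat_lit 107) (nat_lit 5) (nat_lit 505) (nat_lit 427) (nat_lit 268)) (XT.lf (nat_lit 0) (nat_lit 6314036939) (nat_lit 152) (nat_lit 16086674194) (nat_lit 228) (nat_lit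 13317521944) (nat_lit 104) (nat_lit 5) (nat_lit 106) (nat_lit 5) (nat_lit 107) (nat_lit 5) (nat_lit 506) (nat_lit 427) (nat_lit 267))))) (XT.nd (nat_lit 312) (nat_lit 380) (nat_lit 0) (XT.nd (nat_lit 156) (nat_lit 152) (nat_lit 0) (XT.nd (nat_lit 78) (nat_lit 228) (nat_lit 0) (XT.lf (nat_lit 0) (nat_lit 28460177967) (nat_lit 152) (nat_lit 3839484921) (nat_lit 228) (nat_lit 4116952322) (nat_lit 104) (nat_lit 5) (nat_lit 106) (nat_lit 5) (nat_lit 107) (nat_lit 5) (nat_lit 507) (nat_lit 427) (nat_lit 266)) (XT.lf (nat_lit 0) (nat_lit 5472895332) (nat_lit 228) (nat_lit 22864354121) (nat_lit 76) (nat_lit 8790618636) (nat_lit 101) (nat_lit 5) (nat_lit 104) (nat_lit 5) (nat_lit 102) (nat_lit 5) (nat_lit 508) (nat_lit 427) (nat_lit 265))) (XT.nd (nat_lit 78) (nat_lit 152) (nat_lit 0) (XT.lf (nat_lit 0) (nat_lit 15380581145) (nat_lit 228) (nat_lit 635508304) (nat_lit 76) (nat_lit 21839759844) (nat_lit 101) (nat_lit 5) (nat_lit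 104) (nat_lit 5) (nat_lit 102) (nat_lit 5) (nat_lit 509) (nat_lit 427) (nat_lit 264)) (XT.lf (nat_lit 0) (nat_lit 22692282048) (nat_lit 152) (nat_lit 3105264851) (nat_lit 228) (nat_lit 12801761822) (nat_lit 99) (nat_lit 5) (nat_lit 101) (nat_lit 5) (nat_lit 102) (nat_lit 5) (nat_lit 510) (nat_lit 427) (nat_lit 263)))) (XT.nd (nat_lit 156) (nat_lit 152) (nat_lit 0) (XT.nd (nat_lit 78) (nat_lit 76) (nat_lit 0) (XT.lf (nat_lit 0) (nat_lit 7403723603) (nat_lit 152) (nat_lit 29292876250) (nat_lit 228) (nat_lit 2663384991) (nat_lit 97) (nat_lit 5) (nat_lit 99) (nat_lit 5) (nat_lit 100) (nat_lit 5) (nat_lit 511) (nat_lit 427) (nat_lit 262)) (XT.lf (nat_lit 0) (nat_lit 7814271769) (nat_lit 228) (nat_lit 8516675840) (nat_lit 76) (nat_lit 23804682722) (nat_lit 96) (nat_lit 5) (nat_lit 99) (nat_lit 5) (nat_lit 97) (nat_lit 5) (nat_lit 512) (nat_lit 427) (nat_lit 261))) (XT.nd (nat_lit 78) (nat_lit 0) (nat_lit 0) (XT.lf (nat_lit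 0) (nat_lit 15899522919) (nat_lit 152) (nat_lit 2800178065) (nat_lit 228) (nat_lit 22229644108) (nat_lit 94) (nat_lit 5) (nat_lit 96) (nat_lit 5) (nat_lit 97) (nat_lit 5) (nat_lit 513) (nat_lit 427) (nat_lit 260)) (XT.lf (nat_lit 0) (nat_lit 30099762759) (nat_lit 228) (nat_lit 639891090) (nat_lit 76) (nat_lit 11001575587) (nat_lit 94) (nat_lit 5) (nat_lit 97) (nat_lit 5) (nat_lit 95) (nat_lit 5) (nat_lit 514) (nat_lit 427) (nat_lit 259))))))))
noncomputable def xc159 : XT := (XT.nd (nat_lit 2340) (nat_lit 304) (nat_lit 0) (XT.nd (nat_lit 1170) (nat_lit 1292) (nat_lit 0) (XT.nd (nat_lit 546) (nat_lit 608) (nat_lit 0) (XT.nd (nat_lit 234) (nat_lit 532) (nat_lit 0) (XT.nd (nat_lit 78) (nat_lit 228) (nat_lit 0) (XT.lf (nat_lit 0) (nat_lit 24930310533) (nat_lit 152) (nat_lit 17173221185) (nat_lit 228) (nat_lit 466087659) (nat_lit 92) (nat_lit 5) (nat_lit 94) (nat_lit 5) (nat_lit 95) (nat_lit 5) (nat_lit 515) (nat_lit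 427) (nat_lit 258)) (XT.nd (nat_lit 78) (nat_lit 0) (nat_lit 0) (XT.lf (nat_lit 0) (nat_lit 7895715169) (nat_lit 152) (nat_lit 3010090461) (nat_lit 228) (nat_lit 32511567432) (nat_lit 89) (nat_lit 5) (nat_lit 91) (nat_lit 5) (nat_lit 92) (nat_lit 5) (nat_lit 516) (nat_lit 427) (nat_lit 257)) (XT.lf (nat_lit 0) (nat_lit 22895040075) (nat_lit 228) (nat_lit 9854730042) (nat_lit 76) (nat_lit 11532084436) (nat_lit 89) (nat_lit 5) (nat_lit 92) (nat_lit 5) (nat_lit 90) (nat_lit 5) (nat_lit 517) (nat_lit 427) (nat_lit 256)))) (XT.nd (nat_lit 156) (nat_lit 304) (nat_lit 0) (XT.nd (nat_lit 78) (nat_lit 76) (nat_lit 0) (XT.lf (nat_lit 0) (nat_lit 16871707942) (nat_lit 152) (nat_lit 18558763636) (nat_lit 228) (nat_lit 9736203511) (nat_lit 87) (nat_lit 5) (nat_lit 89) (nat_lit 5) (nat_lit 90) (nat_lit 5) (nat_lit 518) (nat_lit 427) (nat_lit 255)) (XT.lf (nat_lit 0) (nat_lit 2314794192) (nat_lit 228) (nat_lit 1505785038) (nat_lit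 76) (nat_lit 42253956959) (nat_lit 86) (nat_lit 5) (nat_lit 89) (nat_lit 5) (nat_lit 87) (nat_lit 5) (nat_lit 519) (nat_lit 427) (nat_lit 254))) (XT.nd (nat_lit 78) (nat_lit 152) (nat_lit 0) (XT.lf (nat_lit 0) (nat_lit 14893687030) (nat_lit 228) (nat_lit 20613786934) (nat_lit 76) (nat_lit 11488405803) (nat_lit 84) (nat_lit 5) (nat_lit 87) (nat_lit 5) (nat_lit 85) (nat_lit 5) (nat_lit 520) (nat_lit 427) (nat_lit 253)) (XT.lf (nat_lit 0) (nat_lit 7287630756) (nat_lit 152) (nat_lit 20680279335) (nat_lit 228) (nat_lit 19973414835) (nat_lit 82) (nat_lit 5) (nat_lit 84) (nat_lit 5) (nat_lit 85) (nat_lit 5) (nat_lit 521) (nat_lit 427) (nat_lit 252))))) (XT.nd (nat_lit 312) (nat_lit 304) (nat_lit 0) (XT.nd (nat_lit 156) (nat_lit 152) (nat_lit 0) (XT.nd (nat_lit 78) (nat_lit 152) (nat_lit 0) (XT.lf (nat_lit 0) (nat_lit 36439082391) (nat_lit 152) (nat_lit 5198224603) (nat_lit 228) (nat_lit 7271738205) (nat_lit 82) (nat_lit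 5) (nat_lit 84) (nat_lit 5) (nat_lit 85) (nat_lit 5) (nat_lit 522) (nat_lit 427) (nat_lit 251)) (XT.lf (nat_lit 0) (nat_lit 5959623493) (nat_lit 152) (nat_lit 33182564585) (nat_lit 76) (nat_lit 10754072558) (nat_lit 80) (nat_lit 5) (nat_lit 82) (nat_lit 5) (nat_lit 81) (nat_lit 5) (nat_lit 523) (nat_lit 427) (nat_lit 250))) (XT.nd (nat_lit 78) (nat_lit 152) (nat_lit 0) (XT.lf (nat_lit 0) (nat_lit 19615316213) (nat_lit 152) (nat_lit 4014952736) (nat_lit 76) (nat_lit 27275457476) (nat_lit 80) (nat_lit 5) (nat_lit 82) (nat_lit 5) (nat_lit 81) (nat_lit 5) (nat_lit 524) (nat_lit 427) (nat_lit 249)) (XT.lf (nat_lit 0) (nat_lit 26536368943) (nat_lit 152) (nat_lit 7394451292) (nat_lit 228) (nat_lit 18007151890) (nat_lit 78) (nat_lit 5) (nat_lit 80) (nat_lit 5) (nat_lit 81) (nat_lit 5) (nat_lit 525) (nat_lit 427) (nat_lit 248)))) (XT.nd (nat_lit 156) (nat_lit 152) (nat_lit 0) (XT.nd (nat_lit 78) (nat_lit 76) (nat_lit 0)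 (XT.lf (nat_lit 0) (nat_lit 5086593844) (nat_lit 76) (nat_lit 43763779924) (nat_lit 152) (nat_lit 4145574047) (nat_lit 77) (nat_lit 5) (nat_lit 78) (nat_lit 5) (nat_lit 79) (nat_lit 4) (nat_lit 526) (nat_lit 427) (nat_lit 247)) (XT.lf (nat_lit 0) (nat_lit 10261482328) (nat_lit 152) (nat_lit 17250132499) (nat_lit 76) (nat_lit 26561306078) (nat_lit 76) (nat_lit 5) (nat_lit 78) (nat_lit 5) (nat_lit 77) (nat_lit 5) (nat_lit 527) (nat_lit 427) (nat_lit 246))) (XT.nd (nat_lit 78) (nat_lit 0) (nat_lit 0) (XT.lf (nat_lit 0) (nat_lit 14563101760) (nat_lit 152) (nat_lit 10589541062) (nat_lit 228) (nat_lit 30024272713) (nat_lit 74) (nat_lit 5) (nat_lit 76) (nat_lit 5) (nat_lit 77) (nat_lit 5) (nat_lit 528) (nat_lit 427) (nat_lit 245)) (XT.lf (nat_lit 0) (nat_lit 40727447465) (nat_lit 228) (nat_lit 8700849549) (nat_lit 76) (nat_lit 6878625841) (nat_lit 74) (nat_lit 5) (nat_lit 77) (nat_lit 5) (nat_lit 75) (nat_lit 4) (nat_lit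 529) (nat_lit 427) (nat_lit 244)))))) (XT.nd (nat_lit 546) (nat_lit 684) (nat_lit 0) (XT.nd (nat_lit 234) (nat_lit 304) (nat_lit 0) (XT.nd (nat_lit 78) (nat_lit 228) (nat_lit 0) (XT.lf (nat_lit 0) (nat_lit 24534765535) (nat_lit 76) (nat_lit 32570799474) (nat_lit 152) (nat_lit 355183453) (nat_lit 73) (nat_lit 5) (nat_lit 74) (nat_lit 5) (nat_lit 75) (nat_lit 4) (nat_lit 530) (nat_lit 427) (nat_lit 243)) (XT.nd (nat_lit 78) (nat_lit 0) (nat_lit 0) (XT.lf (nat_lit 0) (nat_lit 145237942) (nat_lit 152) (nat_lit 14967050091) (nat_lit 228) (nat_lit 43529915892) (nat_lit 70) (nat_lit 5) (nat_lit 72) (nat_lit 5) (nat_lit 73) (nat_lit 5) (nat_lit 531) (nat_lit 427) (nat_lit 242)) (XT.lf (nat_lit 0) (nat_lit 31398245691) (nat_lit 228) (nat_lit 25011486764) (nat_lit 76) (nat_lit 3438417188) (nat_lit 70) (nat_lit 5) (nat_lit 73) (nat_lit 5) (nat_lit 71) (nat_lit 4) (nat_lit 532) (nat_lit 427) (nat_lit 241)))) (XT.nd (nat_lit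 156) (nat_lit 152) (nat_lit 0) (XT.nd (nat_lit 78) (nat_lit 76) (nat_lit 0) (XT.lf (nat_lit 0) (nat_lit 9507472451) (nat_lit 76) (nat_lit 38900422825) (nat_lit 152) (nat_lit 12675325177) (nat_lit 69) (nat_lit 5) (nat_lit 70) (nat_lit 5) (nat_lit 71) (nat_lit 4) (nat_lit 533) (nat_lit 427) (nat_lit 240)) (XT.lf (nat_lit 0) (nat_lit 3753385486) (nat_lit 152) (nat_lit 16818323738) (nat_lit 76) (nat_lit 41775085839) (nat_lit 68) (nat_lit 5) (nat_lit 70) (nat_lit 5) (nat_lit 69) (nat_lit 5) (nat_lit 534) (nat_lit 427) (nat_lit 239))) (XT.nd (nat_lit 78) (nat_lit 0) (nat_lit 0) (XT.lf (nat_lit 0) (nat_lit 19223258314) (nat_lit 152) (nat_lit 1377392374) (nat_lit 228) (nat_lit 43038447740) (nat_lit 66) (nat_lit 5) (nat_lit 68) (nat_lit 5) (nat_lit 69) (nat_lit 5) (nat_lit 535) (nat_lit 427) (nat_lit 238)) (XT.lf (nat_lit 0) (nat_lit 38297330395) (nat_lit 228) (nat_lit 8460906206) (nat_lit 76) (nat_lit 18201614498) (nat_lit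 66) (nat_lit 5) (nat_lit 69) (nat_lit 5) (nat_lit 67) (nat_lit 4) (nat_lit 536) (nat_lit 427) (nat_lit 237))))) (XT.nd (nat_lit 312) (nat_lit 304) (nat_lit 0) (XT.nd (nat_lit 156) (nat_lit 76) (nat_lit 0) (XT.nd (nat_lit 78) (nat_lit 228) (nat_lit 0) (XT.lf (nat_lit 0) (nat_lit 29119306013) (nat_lit 76) (nat_lit 27694960967) (nat_lit 152) (nat_lit 9497278773) (nat_lit 65) (nat_lit 5) (nat_lit 66) (nat_lit 5) (nat_lit 67) (nat_lit 4) (nat_lit 537) (nat_lit 427) (nat_lit 236)) (XT.lf (nat_lit 0) (nat_lit 215884140) (nat_lit 152) (nat_lit 7891529354) (nat_lit 228) (nat_lit 59591492929) (nat_lit 62) (nat_lit 5) (nat_lit 64) (nat_lit 5) (nat_lit 65) (nat_lit 5) (nat_lit 538) (nat_lit 427) (nat_lit 235))) (XT.nd (nat_lit 78) (nat_lit 76) (nat_lit 0) (XT.lf (nat_lit 0) (nat_lit 26544685102) (nat_lit 228) (nat_lit 29833901527) (nat_lit 76) (nat_lit 12731620665) (nat_lit 62) (nat_lit 5) (nat_lit 65) (nat_lit 5) (nat_lit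 63) (nat_lit 4) (nat_lit 539) (nat_lit 427) (nat_lit 234)) (XT.lf (nat_lit 0) (nat_lit 9035128420) (nat_lit 76) (nat_lit 36660875169) (nat_lit 152) (nat_lit 24863015829) (nat_lit 61) (nat_lit 5) (nat_lit 62) (nat_lit 5) (nat_lit 63) (nat_lit 4) (nat_lit 540) (nat_lit 427) (nat_lit 233)))) (XT.nd (nat_lit 156) (nat_lit 76) (nat_lit 0) (XT.nd (nat_lit 78) (nat_lit 228) (nat_lit 0) (XT.lf (nat_lit 0) (nat_lit 49674132490) (nat_lit 76) (nat_lit 16044981135) (nat_lit 152) (nat_lit 6323264806) (nat_lit 61) (nat_lit 5) (nat_lit 62) (nat_lit 5) (nat_lit 63) (nat_lit 4) (nat_lit 541) (nat_lit 427) (nat_lit 232)) (XT.lf (nat_lit 0) (nat_lit 12747121038) (nat_lit 228) (nat_lit 55427564781) (nat_lit 76) (nat_lit 5385158613) (nat_lit 58) (nat_lit 5) (nat_lit 61) (nat_lit 5) (nat_lit 59) (nat_lit 4) (nat_lit 542) (nat_lit 427) (nat_lit 231))) (XT.nd (nat_lit 78) (nat_lit 76) (nat_lit 0) (XT.lf (nat_lit 0) (nat_lit 32645575263)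 (nat_lit 228) (nat_lit 15040940835) (nat_lit 76) (nat_lit 27422948750) (nat_lit 58) (nat_lit 5) (nat_lit 61) (nat_lit 5) (nat_lit 59) (nat_lit 4) (nat_lit 543) (nat_lit 427) (nat_lit 230)) (XT.lf (nat_lit 0) (nat_lit 27078370964) (nat_lit 76) (nat_lit 26319095487) (nat_lit 152) (nat_lit 23300413001) (nat_lit 57) (nat_lit 5) (nat_lit 58) (nat_lit 5) (nat_lit 59) (nat_lit 4) (nat_lit 544) (nat_lit 427) (nat_lit 229))))))) (XT.nd (nat_lit 54132) (nat_lit 0) (nat_lit 15048) (XT.nd (nat_lit 53508) (nat_lit 0) (nat_lit 19608) (XT.nd (nat_lit 234) (nat_lit 152) (nat_lit 0) (XT.nd (nat_lit 78) (nat_lit 152) (nat_lit 0) (XT.lf (nat_lit 0) (nat_lit 70762350886) (nat_lit 76) (nat_lit 4157678400) (nat_lit 152) (nat_lit 3409473834) (nat_lit 57) (nat_lit 5) (nat_lit 58) (nat_lit 5) (nat_lit 59) (nat_lit 4) (nat_lit 545) (nat_lit 427) (nat_lit 228)) (XT.nd (nat_lit 78) (nat_lit 0) (nat_lit 0) (XT.lf (nat_lit 0) (nat_lit 17274520108)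 (nat_lit 152) (nat_lit 43895765424) (nat_lit 76) (nat_lit 18818977544) (nat_lit 55) (nat_lit 5) (nat_lit 57) (nat_lit 5) (nat_lit 56) (nat_lit 4) (nat_lit 546) (nat_lit 427) (nat_lit 227)) (XT.lf (nat_lit 0) (nat_lit 38625153946) (nat_lit 152) (nat_lit 560222410) (nat_lit 76) (nat_lit 42508987414) (nat_lit 55) (nat_lit 5) (nat_lit 57) (nat_lit 5) (nat_lit 56) (nat_lit 4) (nat_lit 547) (nat_lit 427) (nat_lit 226)))) (XT.nd (nat_lit 53118) (nat_lit 0) (nat_lit 20672) (XT.nd (nat_lit 78) (nat_lit 76) (nat_lit 0) (XT.lf (nat_lit 0) (nat_lit 44945536833) (nat_lit 76) (nat_lit 16099233400) (nat_lit 152) (nat_lit 22392993411) (nat_lit 54) (nat_lit 5) (nat_lit 55) (nat_lit 5) (nat_lit 56) (nat_lit 4) (nat_lit 548) (nat_lit 427) (nat_lit 225)) (XT.lf (nat_lit 0) (nat_lit 6643513506) (nat_lit 76) (nat_lit 77633282607) (nat_lit 76) (nat_lit 952474834) (nat_lit 53) (nat_lit 4) (nat_lit 54) (nat_lit 5) (nat_lit 54) (nat_lit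 4) (nat_lit 549) (nat_lit 427) (nat_lit 224))) (XT.nd (nat_lit 78) (nat_lit 0) (nat_lit 0) (XT.lf (nat_lit 0) (nat_lit 3452578794) (nat_lit 1140) (nat_lit 724304793) (nat_lit 1140) (nat_lit 724304793) (nat_lit 325) (nat_lit 3) (nat_lit 340) (nat_lit 3) (nat_lit 340) (nat_lit 5) (nat_lit 428) (nat_lit 428) (nat_lit 344)) (XT.lf (nat_lit 76) (nat_lit 3464580224) (nat_lit 0) (nat_lit 4307560767) (nat_lit 1140) (nat_lit 2154258298) (nat_lit 326) (nat_lit 5) (nat_lit 325) (nat_lit 3) (nat_lit 340) (nat_lit 5) (nat_lit 429) (nat_lit 428) (nat_lit 343))))) (XT.nd (nat_lit 312) (nat_lit 0) (nat_lit 76) (XT.nd (nat_lit 156) (nat_lit 1064) (nat_lit 0) (XT.nd (nat_lit 78) (nat_lit 0) (nat_lit 76) (XT.lf (nat_lit 76) (nat_lit 8539892215) (nat_lit 0) (nat_lit 111232056) (nat_lit 1140) (nat_lit 1403442840) (nat_lit 326) (nat_lit 5) (nat_lit 325) (nat_lit 3) (nat_lit 340) (nat_lit 5) (nat_lit 430) (nat_lit 428) (nat_lit 342))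 (XT.lf (nat_lit 76) (nat_lit 3595059077) (nat_lit 0) (nat_lit 6008778395) (nat_lit 1140) (nat_lit 581325886) (nat_lit 327) (nat_lit 5) (nat_lit 326) (nat_lit 5) (nat_lit 341) (nat_lit 5) (nat_lit 431) (nat_lit 428) (nat_lit 341))) (XT.nd (nat_lit 78) (nat_lit 0) (nat_lit 76) (XT.lf (nat_lit 0) (nat_lit 249533606) (nat_lit 1140) (nat_lit 1449782288) (nat_lit 1216) (nat_lit 8620611240) (nat_lit 311) (nat_lit 5) (nat_lit 326) (nat_lit 5) (nat_lit 327) (nat_lit 5) (nat_lit 432) (nat_lit 428) (nat_lit 340)) (XT.lf (nat_lit 0) (nat_lit 1131494124) (nat_lit 1140) (nat_lit 6585443442) (nat_lit 1216) (nat_lit 2740491652) (nat_lit 312) (nat_lit 5) (nat_lit 327) (nat_lit 5) (nat_lit 328) (nat_lit 5) (nat_lit 433) (nat_lit 428) (nat_lit 339)))) (XT.nd (nat_lit 156) (nat_lit 0) (nat_lit 76) (XT.nd (nat_lit 78) (nat_lit 0) (nat_lit 76) (XT.lf (nat_lit 0) (nat_lit 2045755712) (nat_lit 1140) (nat_lit 1248622054) (nat_lit 1216)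 (nat_lit 7304507068) (nat_lit 312) (nat_lit 5) (nat_lit 327) (nat_lit 5) (nat_lit 328) (nat_lit 5) (nat_lit 434) (nat_lit 428) (nat_lit 338)) (XT.lf (nat_lit 0) (nat_lit 3016544961) (nat_lit 1140) (nat_lit 6439863053) (nat_lit 1216) (nat_lit 1287306735) (nat_lit 313) (nat_lit 5) (nat_lit 328) (nat_lit 5) (nat_lit 329) (nat_lit 5) (nat_lit 435) (nat_lit 428) (nat_lit 337))) (XT.nd (nat_lit 78) (nat_lit 0) (nat_lit 0) (XT.lf (nat_lit 0) (nat_lit 4037456778) (nat_lit 1140) (nat_lit 893117261) (nat_lit 1216) (nat_lit 5961689076) (nat_lit 313) (nat_lit 5) (nat_lit 328) (nat_lit 5) (nat_lit 329) (nat_lit 5) (nat_lit 436) (nat_lit 428) (nat_lit 336)) (XT.lf (nat_lit 76) (nat_lit 4899760642) (nat_lit 0) (nat_lit 212691908) (nat_lit 1216) (nat_lit 5932115102) (nat_lit 314) (nat_lit 5) (nat_lit 313) (nat_lit 5) (nat_lit 329) (nat_lit 5) (nat_lit 437) (nat_lit 428) (nat_lit 335)))))) (XT.nd (nat_lit 624) (nat_lit 3724) (nat_lit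 0) (XT.nd (nat_lit 312) (nat_lit 1064) (nat_lit 0) (XT.nd (nat_lit 156) (nat_lit 0) (nat_lit 76) (XT.nd (nat_lit 78) (nat_lit 0) (nat_lit 0) (XT.lf (nat_lit 0) (nat_lit 6250438893) (nat_lit 1140) (nat_lit 377688271) (nat_lit 1216) (nat_lit 4572395260) (nat_lit 314) (nat_lit 5) (nat_lit 329) (nat_lit 5) (nat_lit 330) (nat_lit 5) (nat_lit 438) (nat_lit 428) (nat_lit 334)) (XT.lf (nat_lit 76) (nat_lit 5654667564) (nat_lit 0) (nat_lit 1801995643) (nat_lit 1216) (nat_lit 3903472901) (nat_lit 315) (nat_lit 5) (nat_lit 314) (nat_lit 5) (nat_lit 330) (nat_lit 5) (nat_lit 439) (nat_lit 428) (nat_lit 333))) (XT.nd (nat_lit 78) (nat_lit 0) (nat_lit 0) (XT.lf (nat_lit 76) (nat_lit 310294774) (nat_lit 0) (nat_lit 8404268583) (nat_lit 1216) (nat_lit 2809513300) (nat_lit 316) (nat_lit 5) (nat_lit 315) (nat_lit 5) (nat_lit 331) (nat_lit 5) (nat_lit 440) (nat_lit 428) (nat_lit 332)) (XT.lf (nat_lit 76) (nat_lit 6588880003) (nat_lit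 0) (nat_lit 3475271676) (nat_lit 1216) (nat_lit 1627168247) (nat_lit 316) (nat_lit 5) (nat_lit 315) (nat_lit 5) (nat_lit 331) (nat_lit 5) (nat_lit 441) (nat_lit 428) (nat_lit 331)))) (XT.nd (nat_lit 156) (nat_lit 0) (nat_lit 0) (XT.nd (nat_lit 78) (nat_lit 1216) (nat_lit 0) (XT.lf (nat_lit 76) (nat_lit 1183334917) (nat_lit 0) (nat_lit 10277000832) (nat_lit 1216) (nat_lit 403064448) (nat_lit 317) (nat_lit 5) (nat_lit 316) (nat_lit 5) (nat_lit 332) (nat_lit 5) (nat_lit 442) (nat_lit 428) (nat_lit 330)) (XT.lf (nat_lit 0) (nat_lit 907046282) (nat_lit 1216) (nat_lit 4336832658) (nat_lit 1292) (nat_lit 6794538700) (nat_lit 300) (nat_lit 5) (nat_lit 316) (nat_lit 5) (nat_lit 317) (nat_lit 5) (nat_lit 443) (nat_lit 428) (nat_lit 329))) (XT.nd (nat_lit 78) (nat_lit 0) (nat_lit 76) (XT.lf (nat_lit 76) (nat_lit 2219661123) (nat_lit 0) (nat_lit 30208000) (nat_lit 1292) (nat_lit 9968654161) (nat_lit 301) (nat_lit 5) (nat_lit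 300) (nat_lit 5) (nat_lit 317) (nat_lit 5) (nat_lit 444) (nat_lit 428) (nat_lit 328)) (XT.lf (nat_lit 0) (nat_lit 3709159719) (nat_lit 1216) (nat_lit 3409545362) (nat_lit 76) (nat_lit 5283044142) (nat_lit 301) (nat_lit 5) (nat_lit 317) (nat_lit 5) (nat_lit 302) (nat_lit 5) (nat_lit 445) (nat_lit 428) (nat_lit 327))))) (XT.nd (nat_lit 312) (nat_lit 1824) (nat_lit 0) (XT.nd (nat_lit 156) (nat_lit 760) (nat_lit 0) (XT.nd (nat_lit 78) (nat_lit 0) (nat_lit 0) (XT.lf (nat_lit 0) (nat_lit 3427714755) (nat_lit 1216) (nat_lit 1798952792) (nat_lit 1292) (nat_lit 7363373782) (nat_lit 285) (nat_lit 5) (nat_lit 301) (nat_lit 5) (nat_lit 302) (nat_lit 5) (nat_lit 446) (nat_lit 428) (nat_lit 326)) (XT.lf (nat_lit 0) (nat_lit 6841453676) (nat_lit 1292) (nat_lit 2295424128) (nat_lit 76) (nat_lit 3645554271) (nat_lit 285) (nat_lit 5) (nat_lit 302) (nat_lit 5) (nat_lit 286) (nat_lit 5) (nat_lit 447) (nat_lit 428) (nat_lit 325))) (XT.nd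 (nat_lit 78) (nat_lit 0) (nat_lit 0) (XT.lf (nat_lit 0) (nat_lit 4837824181) (nat_lit 760) (nat_lit 3713314819) (nat_lit 836) (nat_lit 4428064272) (nat_lit 275) (nat_lit 5) (nat_lit 285) (nat_lit 5) (nat_lit 286) (nat_lit 5) (nat_lit 448) (nat_lit 428) (nat_lit 324)) (XT.lf (nat_lit 0) (nat_lit 10336046680) (nat_lit 836) (nat_lit 983926281) (nat_lit 76) (nat_lit 1861189018) (nat_lit 275) (nat_lit 5) (nat_lit 286) (nat_lit 5) (nat_lit 276) (nat_lit 5) (nat_lit 449) (nat_lit 428) (nat_lit 323)))) (XT.nd (nat_lit 156) (nat_lit 532) (nat_lit 0) (XT.nd (nat_lit 78) (nat_lit 684) (nat_lit 0) (XT.lf (nat_lit 0) (nat_lit 6461420249) (nat_lit 608) (nat_lit 5794986137) (nat_lit 684) (nat_lit 1130318178) (nat_lit 267) (nat_lit 5) (nat_lit 275) (nat_lit 5) (nat_lit 276) (nat_lit 5) (nat_lit 450) (nat_lit 428) (nat_lit 322)) (XT.lf (nat_lit 0) (nat_lit 540141536) (nat_lit 608) (nat_lit 81800411) (nat_lit 684) (nat_lit 12976377974)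 (nat_lit 258) (nat_lit 5) (nat_lit 266) (nat_lit 5) (nat_lit 267) (nat_lit 5) (nat_lit 451) (nat_lit 428) (nat_lit 321))) (XT.nd (nat_lit 78) (nat_lit 532) (nat_lit 0) (XT.lf (nat_lit 0) (nat_lit 2513994534) (nat_lit 684) (nat_lit 5526982838) (nat_lit 76) (nat_lit 5771653812) (nat_lit 258) (nat_lit 5) (nat_lit 267) (nat_lit 5) (nat_lit 259) (nat_lit 5) (nat_lit 452) (nat_lit 428) (nat_lit 320)) (XT.lf (nat_lit 0) (nat_lit 2257203458) (nat_lit 532) (nat_lit 2212130880) (nat_lit 608) (nat_lit 9563843683) (nat_lit 251) (nat_lit 5) (nat_lit 258) (nat_lit 5) (nat_lit 259) (nat_lit 5) (nat_lit 453) (nat_lit 428) (nat_lit 319))))))))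
noncomputable def xc160 : XT := (XT.nd (nat_lit 2340) (nat_lit 4484) (nat_lit 0) (XT.nd (nat_lit 1170) (nat_lit 3344) (nat_lit 0) (XT.nd (nat_lit 546) (nat_lit 1824) (nat_lit 0) (XT.nd (nat_lit 234) (nat_lit 1596) (nat_lit 0) (XT.nd (nat_lit 78) (nat_lit 532) (nat_lit 0) (XT.lf (nat_lit 0) (nat_lit 6560471815) (nat_lit 608) (nat_lit 3923944843) (nat_lit 76) (nat_lit 3773612429) (nat_lit 251) (nat_lit 5) (nat_lit 259) (nat_lit 5) (nat_lit 252) (nat_lit 5) (nat_lit 454) (nat_lit 428) (nat_lit 318)) (XT.nd (nat_lit 78) (nat_lit 0) (nat_lit 0) (XT.lf (nat_lit 0) (nat_lit 4207842561) (nat_lit 532) (nat_lit 4553634217) (nat_lit 608) (nat_lit 5726736801) (nat_lit 244) (nat_lit 5) (nat_lit 251) (nat_lit 5) (nat_lit 252) (nat_lit 5) (nat_lit 455) (nat_lit 428) (nat_lit 317)) (XT.lf (nat_lit 0) (nat_lit 11068541282) (nat_lit 608) (nat_lit 2091729716) (nat_lit 76) (nat_lit 1563833561) (nat_lit 244) (nat_lit 5) (nat_lit 252)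 (nat_lit 5) (nat_lit 245) (nat_lit 5) (nat_lit 456) (nat_lit 428) (nat_lit 316)))) (XT.nd (nat_lit 156) (nat_lit 988) (nat_lit 0) (XT.nd (nat_lit 78) (nat_lit 76) (nat_lit 0) (XT.lf (nat_lit 0) (nat_lit 6406682570) (nat_lit 532) (nat_lit 7130305226) (nat_lit 608) (nat_lit 1427321155) (nat_lit 237) (nat_lit 5) (nat_lit 244) (nat_lit 5) (nat_lit 245) (nat_lit 5) (nat_lit 457) (nat_lit 428) (nat_lit 315)) (XT.lf (nat_lit 0) (nat_lit 857795266) (nat_lit 608) (nat_lit 32663638) (nat_lit 76) (nat_lit 14320803198) (nat_lit 236) (nat_lit 5) (nat_lit 244) (nat_lit 5) (nat_lit 237) (nat_lit 5) (nat_lit 458) (nat_lit 428) (nat_lit 314))) (XT.nd (nat_lit 78) (nat_lit 456) (nat_lit 0) (XT.lf (nat_lit 0) (nat_lit 3308492083) (nat_lit 608) (nat_lit 6625306587) (nat_lit 76) (nat_lit 5527631412) (nat_lit 229) (nat_lit 5) (nat_lit 237) (nat_lit 5) (nat_lit 230) (nat_lit 5) (nat_lit 459) (nat_lit 428) (nat_lit 313)) (XT.lf (nat_lit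 0) (nat_lit 2272339515) (nat_lit 456) (nat_lit 3577653505) (nat_lit 532) (nat_lit 9868593170) (nat_lit 223) (nat_lit 5) (nat_lit 229) (nat_lit 5) (nat_lit 230) (nat_lit 5) (nat_lit 460) (nat_lit 428) (nat_lit 312))))) (XT.nd (nat_lit 312) (nat_lit 836) (nat_lit 0) (XT.nd (nat_lit 156) (nat_lit 532) (nat_lit 0) (XT.nd (nat_lit 78) (nat_lit 456) (nat_lit 0) (XT.lf (nat_lit 0) (nat_lit 8550365286) (nat_lit 532) (nat_lit 4453890205) (nat_lit 76) (nat_lit 2976724241) (nat_lit 223) (nat_lit 5) (nat_lit 230) (nat_lit 5) (nat_lit 224) (nat_lit 5) (nat_lit 461) (nat_lit 428) (nat_lit 311)) (XT.lf (nat_lit 0) (nat_lit 4851995870) (nat_lit 456) (nat_lit 6548727897) (nat_lit 532) (nat_lit 4848453556) (nat_lit 217) (nat_lit 5) (nat_lit 223) (nat_lit 5) (nat_lit 224) (nat_lit 5) (nat_lit 462) (nat_lit 428) (nat_lit 310))) (XT.nd (nat_lit 78) (nat_lit 532) (nat_lit 0) (XT.lf (nat_lit 0) (nat_lit 14370101691) (nat_lit 532) (nat_lit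 2012833553) (nat_lit 76) (nat_lit 141481787) (nat_lit 217) (nat_lit 5) (nat_lit 224) (nat_lit 5) (nat_lit 218) (nat_lit 5) (nat_lit 463) (nat_lit 428) (nat_lit 309)) (XT.lf (nat_lit 0) (nat_lit 736368565) (nat_lit 532) (nat_lit 9087666982) (nat_lit 76) (nat_lit 6979865792) (nat_lit 210) (nat_lit 5) (nat_lit 217) (nat_lit 5) (nat_lit 211) (nat_lit 5) (nat_lit 464) (nat_lit 428) (nat_lit 308)))) (XT.nd (nat_lit 156) (nat_lit 380) (nat_lit 0) (XT.nd (nat_lit 78) (nat_lit 0) (nat_lit 0) (XT.lf (nat_lit 0) (nat_lit 663337013) (nat_lit 456) (nat_lit 3021632884) (nat_lit 532) (nat_lit 13405726814) (nat_lit 204) (nat_lit 5) (nat_lit 210) (nat_lit 5) (nat_lit 211) (nat_lit 5) (nat_lit 465) (nat_lit 428) (nat_lit 307)) (XT.lf (nat_lit 0) (nat_lit 6840789735) (nat_lit 532) (nat_lit 6544935462) (nat_lit 76) (nat_lit 3996809223) (nat_lit 204) (nat_lit 5) (nat_lit 211) (nat_lit 5) (nat_lit 205) (nat_lit 5) (nat_lit 466) (nat_lit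 428) (nat_lit 306))) (XT.nd (nat_lit 78) (nat_lit 0) (nat_lit 0) (XT.lf (nat_lit 0) (nat_lit 3660385623) (nat_lit 380) (nat_lit 6484137023) (nat_lit 456) (nat_lit 7537008711) (nat_lit 199) (nat_lit 5) (nat_lit 204) (nat_lit 5) (nat_lit 205) (nat_lit 5) (nat_lit 467) (nat_lit 428) (nat_lit 305)) (XT.lf (nat_lit 0) (nat_lit 13608421934) (nat_lit 456) (nat_lit 3703399531) (nat_lit 76) (nat_lit 675846318) (nat_lit 199) (nat_lit 5) (nat_lit 205) (nat_lit 5) (nat_lit 200) (nat_lit 5) (nat_lit 468) (nat_lit 428) (nat_lit 304)))))) (XT.nd (nat_lit 546) (nat_lit 1672) (nat_lit 0) (XT.nd (nat_lit 234) (nat_lit 760) (nat_lit 0) (XT.nd (nat_lit 78) (nat_lit 456) (nat_lit 0) (XT.lf (nat_lit 0) (nat_lit 6981092611) (nat_lit 456) (nat_lit 10315098048) (nat_lit 532) (nat_lit 1003200251) (nat_lit 193) (nat_lit 5) (nat_lit 199) (nat_lit 5) (nat_lit 200) (nat_lit 5) (nat_lit 469) (nat_lit 428) (nat_lit 303)) (XT.nd (nat_lit 78) (nat_lit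 380) (nat_lit 0) (XT.lf (nat_lit 0) (nat_lit 2452339509) (nat_lit 532) (nat_lit 596354945) (nat_lit 76) (nat_lit 15570264145) (nat_lit 192) (nat_lit 5) (nat_lit 199) (nat_lit 5) (nat_lit 193) (nat_lit 5) (nat_lit 470) (nat_lit 428) (nat_lit 302)) (XT.lf (nat_lit 0) (nat_lit 6126334944) (nat_lit 456) (nat_lit 8358504818) (nat_lit 76) (nat_lit 4458928071) (nat_lit 187) (nat_lit 5) (nat_lit 193) (nat_lit 5) (nat_lit 188) (nat_lit 5) (nat_lit 471) (nat_lit 428) (nat_lit 301)))) (XT.nd (nat_lit 156) (nat_lit 380) (nat_lit 0) (XT.nd (nat_lit 78) (nat_lit 0) (nat_lit 0) (XT.lf (nat_lit 0) (nat_lit 2847118406) (nat_lit 380) (nat_lit 7116266866) (nat_lit 456) (nat_lit 9313352070) (nat_lit 182) (nat_lit 5) (nat_lit 187) (nat_lit 5) (nat_lit 188) (nat_lit 5) (nat_lit 472) (nat_lit 428) (nat_lit 300)) (XT.lf (nat_lit 0) (nat_lit 13994676219) (nat_lit 456) (nat_lit 5077045819) (nat_lit 76) (nat_lit 545601042) (nat_lit 182) (nat_lit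 5) (nat_lit 188) (nat_lit 5) (nat_lit 183) (nat_lit 5) (nat_lit 473) (nat_lit 428) (nat_lit 299))) (XT.nd (nat_lit 78) (nat_lit 76) (nat_lit 0) (XT.lf (nat_lit 0) (nat_lit 6661314630) (nat_lit 304) (nat_lit 11609731162) (nat_lit 380) (nat_lit 1693357389) (nat_lit 178) (nat_lit 5) (nat_lit 182) (nat_lit 5) (nat_lit 183) (nat_lit 5) (nat_lit 474) (nat_lit 428) (nat_lit 298)) (XT.lf (nat_lit 0) (nat_lit 2349367842) (nat_lit 380) (nat_lit 1501974471) (nat_lit 76) (nat_lit 16468630862) (nat_lit 177) (nat_lit 5) (nat_lit 182) (nat_lit 5) (nat_lit 178) (nat_lit 5) (nat_lit 475) (nat_lit 428) (nat_lit 297))))) (XT.nd (nat_lit 312) (nat_lit 684) (nat_lit 0) (XT.nd (nat_lit 156) (nat_lit 304) (nat_lit 0) (XT.nd (nat_lit 78) (nat_lit 304) (nat_lit 0) (XT.lf (nat_lit 0) (nat_lit 6614446991) (nat_lit 456) (nat_lit 9889986558) (nat_lit 76) (nat_lit 4177221437) (nat_lit 172) (nat_lit 5) (nat_lit 178) (nat_lit 5) (nat_lit 173)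 (nat_lit 5) (nat_lit 476) (nat_lit 428) (nat_lit 296)) (XT.lf (nat_lit 0) (nat_lit 2426153276) (nat_lit 304) (nat_lit 8648227955) (nat_lit 380) (nat_lit 9977799817) (nat_lit 168) (nat_lit 5) (nat_lit 172) (nat_lit 5) (nat_lit 173) (nat_lit 5) (nat_lit 477) (nat_lit 428) (nat_lit 295))) (XT.nd (nat_lit 78) (nat_lit 304) (nat_lit 0) (XT.lf (nat_lit 0) (nat_lit 15300565604) (nat_lit 304) (nat_lit 457702508) (nat_lit 380) (nat_lit 5672850994) (nat_lit 168) (nat_lit 5) (nat_lit 172) (nat_lit 5) (nat_lit 173) (nat_lit 5) (nat_lit 478) (nat_lit 428) (nat_lit 294)) (XT.lf (nat_lit 0) (nat_lit 6781639813) (nat_lit 304) (nat_lit 13933444254) (nat_lit 380) (nat_lit 1102369692) (nat_lit 164) (nat_lit 5) (nat_lit 168) (nat_lit 5) (nat_lit 169) (nat_lit 5) (nat_lit 479) (nat_lit 428) (nat_lit 293)))) (XT.nd (nat_lit 156) (nat_lit 304) (nat_lit 0) (XT.nd (nat_lit 78) (nat_lit 304) (nat_lit 0) (XT.lf (nat_lit 0) (nat_lit 3592506445)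 (nat_lit 380) (nat_lit 2060290186) (nat_lit 76) (nat_lit 16559813990) (nat_lit 163) (nat_lit 5) (nat_lit 168) (nat_lit 5) (nat_lit 164) (nat_lit 5) (nat_lit 480) (nat_lit 428) (nat_lit 292)) (XT.lf (nat_lit 0) (nat_lit 8536326777) (nat_lit 380) (nat_lit 11140415468) (nat_lit 76) (nat_lit 2938645631) (nat_lit 159) (nat_lit 5) (nat_lit 164) (nat_lit 5) (nat_lit 160) (nat_lit 5) (nat_lit 481) (nat_lit 428) (nat_lit 291))) (XT.nd (nat_lit 78) (nat_lit 0) (nat_lit 0) (XT.lf (nat_lit 0) (nat_lit 2406148047) (nat_lit 304) (nat_lit 11313373893) (nat_lit 380) (nat_lit 9307995436) (nat_lit 155) (nat_lit 5) (nat_lit 159) (nat_lit 5) (nat_lit 160) (nat_lit 5) (nat_lit 482) (nat_lit 428) (nat_lit 290)) (XT.lf (nat_lit 0) (nat_lit 16574075937) (nat_lit 304) (nat_lit 2587719800) (nat_lit 380) (nat_lit 4287108256) (nat_lit 155) (nat_lit 5) (nat_lit 159) (nat_lit 5) (nat_lit 160) (nat_lit 5) (nat_lit 483) (nat_lit 428) (nat_lit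 289))))))) (XT.nd (nat_lit 1170) (nat_lit 1900) (nat_lit 0) (XT.nd (nat_lit 546) (nat_lit 1292) (nat_lit 0) (XT.nd (nat_lit 234) (nat_lit 608) (nat_lit 0) (XT.nd (nat_lit 78) (nat_lit 304) (nat_lit 0) (XT.lf (nat_lit 0) (nat_lit 991871789) (nat_lit 380) (nat_lit 16536108293) (nat_lit 76) (nat_lit 6350956028) (nat_lit 150) (nat_lit 5) (nat_lit 155) (nat_lit 5) (nat_lit 151) (nat_lit 5) (nat_lit 484) (nat_lit 428) (nat_lit 288)) (XT.nd (nat_lit 78) (nat_lit 304) (nat_lit 0) (XT.lf (nat_lit 0) (nat_lit 6430131267) (nat_lit 380) (nat_lit 2273872341) (nat_lit 76) (nat_lit 15613980539) (nat_lit 150) (nat_lit 5) (nat_lit 155) (nat_lit 5) (nat_lit 151) (nat_lit 5) (nat_lit 485) (nat_lit 428) (nat_lit 287)) (XT.lf (nat_lit 0) (nat_lit 12149596834) (nat_lit 380) (nat_lit 12121470380) (nat_lit 76) (nat_lit 495595295) (nat_lit 146) (nat_lit 5) (nat_lit 151) (nat_lit 5) (nat_lit 147) (nat_lit 5) (nat_lit 486) (nat_lit 428) (nat_lit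 286)))) (XT.nd (nat_lit 156) (nat_lit 380) (nat_lit 0) (XT.nd (nat_lit 78) (nat_lit 0) (nat_lit 0) (XT.lf (nat_lit 0) (nat_lit 2785309586) (nat_lit 228) (nat_lit 15383155248) (nat_lit 304) (nat_lit 7056502449) (nat_lit 143) (nat_lit 5) (nat_lit 146) (nat_lit 5) (nat_lit 147) (nat_lit 5) (nat_lit 487) (nat_lit 428) (nat_lit 285)) (XT.lf (nat_lit 0) (nat_lit 18374933760) (nat_lit 228) (nat_lit 6107164328) (nat_lit 304) (nat_lit 1211497734) (nat_lit 143) (nat_lit 5) (nat_lit 146) (nat_lit 5) (nat_lit 147) (nat_lit 5) (nat_lit 488) (nat_lit 428) (nat_lit 284))) (XT.nd (nat_lit 78) (nat_lit 0) (nat_lit 0) (XT.lf (nat_lit 0) (nat_lit 4821683539) (nat_lit 380) (nat_lit 17846820268) (nat_lit 76) (nat_lit 3503193268) (nat_lit 138) (nat_lit 5) (nat_lit 143) (nat_lit 5) (nat_lit 139) (nat_lit 5) (nat_lit 489) (nat_lit 428) (nat_lit 283)) (XT.lf (nat_lit 0) (nat_lit 11138639036) (nat_lit 380) (nat_lit 2160065685) (nat_lit 76)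 (nat_lit 13361263478) (nat_lit 138) (nat_lit 5) (nat_lit 143) (nat_lit 5) (nat_lit 139) (nat_lit 5) (nat_lit 490) (nat_lit 428) (nat_lit 282))))) (XT.nd (nat_lit 312) (nat_lit 532) (nat_lit 0) (XT.nd (nat_lit 156) (nat_lit 304) (nat_lit 0) (XT.nd (nat_lit 78) (nat_lit 228) (nat_lit 0) (XT.lf (nat_lit 0) (nat_lit 14263294581) (nat_lit 228) (nat_lit 3511174243) (nat_lit 304) (nat_lit 9384538196) (nat_lit 135) (nat_lit 5) (nat_lit 138) (nat_lit 5) (nat_lit 139) (nat_lit 5) (nat_lit 491) (nat_lit 428) (nat_lit 281)) (XT.lf (nat_lit 0) (nat_lit 3544681135) (nat_lit 228) (nat_lit 21176271448) (nat_lit 304) (nat_lit 2948717565) (nat_lit 132) (nat_lit 5) (nat_lit 135) (nat_lit 5) (nat_lit 136) (nat_lit 5) (nat_lit 492) (nat_lit 428) (nat_lit 280))) (XT.nd (nat_lit 78) (nat_lit 228) (nat_lit 0) (XT.lf (nat_lit 0) (nat_lit 3766991575) (nat_lit 304) (nat_lit 7532961265) (nat_lit 76) (nat_lit 16889880710) (nat_lit 131) (nat_lit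 5) (nat_lit 135) (nat_lit 5) (nat_lit 132) (nat_lit 5) (nat_lit 493) (nat_lit 428) (nat_lit 279)) (XT.lf (nat_lit 0) (nat_lit 9704951253) (nat_lit 228) (nat_lit 1005819683) (nat_lit 304) (nat_lit 18011379575) (nat_lit 128) (nat_lit 5) (nat_lit 131) (nat_lit 5) (nat_lit 132) (nat_lit 5) (nat_lit 494) (nat_lit 428) (nat_lit 278)))) (XT.nd (nat_lit 156) (nat_lit 304) (nat_lit 0) (XT.nd (nat_lit 78) (nat_lit 228) (nat_lit 0) (XT.lf (nat_lit 0) (nat_lit 18024570921) (nat_lit 304) (nat_lit 1758859103) (nat_lit 76) (nat_lit 9482156197) (nat_lit 128) (nat_lit 5) (nat_lit 132) (nat_lit 5) (nat_lit 129) (nat_lit 5) (nat_lit 495) (nat_lit 428) (nat_lit 277)) (XT.lf (nat_lit 0) (nat_lit 16313850623) (nat_lit 228) (nat_lit 9403558593) (nat_lit 304) (nat_lit 4103127503) (nat_lit 125) (nat_lit 5) (nat_lit 128) (nat_lit 5) (nat_lit 129) (nat_lit 5) (nat_lit 496) (nat_lit 428) (nat_lit 276))) (XT.nd (nat_lit 78) (nat_lit 0) (nat_lit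 0) (XT.lf (nat_lit 0) (nat_lit 3253980858) (nat_lit 304) (nat_lit 25782650259) (nat_lit 76) (nat_lit 1352513675) (nat_lit 121) (nat_lit 5) (nat_lit 125) (nat_lit 5) (nat_lit 122) (nat_lit 5) (nat_lit 497) (nat_lit 428) (nat_lit 275)) (XT.lf (nat_lit 0) (nat_lit 10973103438) (nat_lit 304) (nat_lit 7577696991) (nat_lit 76) (nat_lit 12416079240) (nat_lit 121) (nat_lit 5) (nat_lit 125) (nat_lit 5) (nat_lit 122) (nat_lit 5) (nat_lit 498) (nat_lit 428) (nat_lit 274)))))) (XT.nd (nat_lit 546) (nat_lit 988) (nat_lit 0) (XT.nd (nat_lit 234) (nat_lit 456) (nat_lit 0) (XT.nd (nat_lit 78) (nat_lit 228) (nat_lit 0) (XT.lf (nat_lit 0) (nat_lit 11384051586) (nat_lit 228) (nat_lit 7642308456) (nat_lit 304) (nat_lit 12532510135) (nat_lit 118) (nat_lit 5) (nat_lit 121) (nat_lit 5) (nat_lit 122) (nat_lit 5) (nat_lit 499) (nat_lit 428) (nat_lit 273)) (XT.nd (nat_lit 78) (nat_lit 228) (nat_lit 0) (XT.lf (nat_lit 0) (nat_lit 27426210455)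 (nat_lit 304) (nat_lit 1143180695) (nat_lit 76) (nat_lit 3596079751) (nat_lit 118) (nat_lit 5) (nat_lit 122) (nat_lit 5) (nat_lit 119) (nat_lit 5) (nat_lit 500) (nat_lit 428) (nat_lit 272)) (XT.lf (nat_lit 0) (nat_lit 3475261093) (nat_lit 228) (nat_lit 14078684634) (nat_lit 76) (nat_lit 15227827226) (nat_lit 115) (nat_lit 5) (nat_lit 118) (nat_lit 5) (nat_lit 116) (nat_lit 5) (nat_lit 501) (nat_lit 428) (nat_lit 271)))) (XT.nd (nat_lit 156) (nat_lit 228) (nat_lit 0) (XT.nd (nat_lit 78) (nat_lit 0) (nat_lit 0) (XT.lf (nat_lit 0) (nat_lit 5807010163) (nat_lit 228) (nat_lit 6094828604) (nat_lit 304) (nat_lit 21511491703) (nat_lit 112) (nat_lit 5) (nat_lit 115) (nat_lit 5) (nat_lit 116) (nat_lit 5) (nat_lit 502) (nat_lit 428) (nat_lit 270)) (XT.lf (nat_lit 0) (nat_lit 20773095302) (nat_lit 304) (nat_lit 7549242799) (nat_lit 76) (nat_lit 5735740505) (nat_lit 112) (nat_lit 5) (nat_lit 116) (nat_lit 5) (nat_lit 113) (nat_lit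 5) (nat_lit 503) (nat_lit 428) (nat_lit 269))) (XT.nd (nat_lit 78) (nat_lit 76) (nat_lit 0) (XT.lf (nat_lit 0) (nat_lit 13297746250) (nat_lit 152) (nat_lit 16794542778) (nat_lit 228) (nat_lit 4624426505) (nat_lit 110) (nat_lit 5) (nat_lit 112) (nat_lit 5) (nat_lit 113) (nat_lit 5) (nat_lit 504) (nat_lit 428) (nat_lit 268)) (XT.lf (nat_lit 0) (nat_lit 4282752335) (nat_lit 228) (nat_lit 520939922) (nat_lit 76) (nat_lit 30588061722) (nat_lit 109) (nat_lit 5) (nat_lit 112) (nat_lit 5) (nat_lit 110) (nat_lit 5) (nat_lit 505) (nat_lit 428) (nat_lit 267))))) (XT.nd (nat_lit 312) (nat_lit 380) (nat_lit 0) (XT.nd (nat_lit 156) (nat_lit 228) (nat_lit 0) (XT.nd (nat_lit 78) (nat_lit 152) (nat_lit 0) (XT.lf (nat_lit 0) (nat_lit 13638390146) (nat_lit 304) (nat_lit 14790183973) (nat_lit 76) (nat_lit 7648870470) (nat_lit 106) (nat_lit 5) (nat_lit 110) (nat_lit 5) (nat_lit 107) (nat_lit 5) (nat_lit 506) (nat_lit 428) (nat_lit 266))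 (XT.lf (nat_lit 0) (nat_lit 7056238158) (nat_lit 152) (nat_lit 16333029675) (nat_lit 228) (nat_lit 13391001256) (nat_lit 104) (nat_lit 5) (nat_lit 106) (nat_lit 5) (nat_lit 107) (nat_lit 5) (nat_lit 507) (nat_lit 428) (nat_lit 265))) (XT.nd (nat_lit 78) (nat_lit 228) (nat_lit 0) (XT.lf (nat_lit 0) (nat_lit 29850663026) (nat_lit 152) (nat_lit 3725305638) (nat_lit 228) (nat_lit 3923911042) (nat_lit 104) (nat_lit 5) (nat_lit 106) (nat_lit 5) (nat_lit 107) (nat_lit 5) (nat_lit 508) (nat_lit 428) (nat_lit 264)) (XT.lf (nat_lit 0) (nat_lit 5945803254) (nat_lit 228) (nat_lit 23005748521) (nat_lit 76) (nat_lit 9280877072) (nat_lit 101) (nat_lit 5) (nat_lit 104) (nat_lit 5) (nat_lit 102) (nat_lit 5) (nat_lit 509) (nat_lit 428) (nat_lit 263)))) (XT.nd (nat_lit 156) (nat_lit 228) (nat_lit 0) (XT.nd (nat_lit 78) (nat_lit 152) (nat_lit 0) (XT.lf (nat_lit 0) (nat_lit 16141727766) (nat_lit 228) (nat_lit 125897607) (nat_lit 76)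 (nat_lit 22714894267) (nat_lit 101) (nat_lit 5) (nat_lit 104) (nat_lit 5) (nat_lit 102) (nat_lit 5) (nat_lit 510) (nat_lit 428) (nat_lit 262)) (XT.lf (nat_lit 0) (nat_lit 23896543357) (nat_lit 152) (nat_lit 2970961292) (nat_lit 228) (nat_lit 12880889523) (nat_lit 99) (nat_lit 5) (nat_lit 101) (nat_lit 5) (nat_lit 102) (nat_lit 5) (nat_lit 511) (nat_lit 428) (nat_lit 261))) (XT.nd (nat_lit 78) (nat_lit 76) (nat_lit 0) (XT.lf (nat_lit 0) (nat_lit 8150837429) (nat_lit 152) (nat_lit 29941238948) (nat_lit 228) (nat_lit 2439858163) (nat_lit 97) (nat_lit 5) (nat_lit 99) (nat_lit 5) (nat_lit 100) (nat_lit 5) (nat_lit 512) (nat_lit 428) (nat_lit 260)) (XT.lf (nat_lit 0) (nat_lit 8337542056) (nat_lit 228) (nat_lit 8256705019) (nat_lit 76) (nat_lit 24736775125) (nat_lit 96) (nat_lit 5) (nat_lit 99) (nat_lit 5) (nat_lit 97) (nat_lit 5) (nat_lit 513) (nat_lit 428) (nat_lit 259))))))))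
noncomputable def xc161 : XT := (XT.nd (nat_lit 2340) (nat_lit 228) (nat_lit 0) (XT.nd (nat_lit 1170) (nat_lit 1368) (nat_lit 0) (XT.nd (nat_lit 546) (nat_lit 760) (nat_lit 0) (XT.nd (nat_lit 234) (nat_lit 456) (nat_lit 0) (XT.nd (nat_lit 78) (nat_lit 152) (nat_lit 0) (XT.lf (nat_lit 0) (nat_lit 16886926064) (nat_lit 152) (nat_lit 2659101650) (nat_lit 228) (nat_lit 22602626225) (nat_lit 94) (nat_lit 5) (nat_lit 96) (nat_lit 5) (nat_lit 97) (nat_lit 5) (nat_lit 514) (nat_lit 428) (nat_lit 258)) (XT.nd (nat_lit 78) (nat_lit 152) (nat_lit 0) (XT.lf (nat_lit 0) (nat_lit 31281881200) (nat_lit 228) (nat_lit 157315648) (nat_lit 76) (nat_lit 11545884604) (nat_lit 94) (nat_lit 5) (nat_lit 97) (nat_lit 5) (nat_lit 95) (nat_lit 5) (nat_lit 515) (nat_lit 428) (nat_lit 257)) (XT.lf (nat_lit 0) (nat_lit 26175072689) (nat_lit 152) (nat_lit 17467336722) (nat_lit 228) (nat_lit 196014618) (nat_lit 92) (nat_lit 5) (nat_lit 94) (nat_lit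 5) (nat_lit 95) (nat_lit 5) (nat_lit 516) (nat_lit 428) (nat_lit 256)))) (XT.nd (nat_lit 156) (nat_lit 228) (nat_lit 0) (XT.nd (nat_lit 78) (nat_lit 0) (nat_lit 0) (XT.lf (nat_lit 0) (nat_lit 8630067325) (nat_lit 152) (nat_lit 2878095262) (nat_lit 228) (nat_lit 33203466023) (nat_lit 89) (nat_lit 5) (nat_lit 91) (nat_lit 5) (nat_lit 92) (nat_lit 5) (nat_lit 517) (nat_lit 428) (nat_lit 255)) (XT.lf (nat_lit 0) (nat_lit 23851133659) (nat_lit 228) (nat_lit 9661430700) (nat_lit 76) (nat_lit 12089658696) (nat_lit 89) (nat_lit 5) (nat_lit 92) (nat_lit 5) (nat_lit 90) (nat_lit 5) (nat_lit 518) (nat_lit 428) (nat_lit 254))) (XT.nd (nat_lit 78) (nat_lit 76) (nat_lit 0) (XT.lf (nat_lit 0) (nat_lit 17862006882) (nat_lit 152) (nat_lit 18897433137) (nat_lit 228) (nat_lit 9754244117) (nat_lit 87) (nat_lit 5) (nat_lit 89) (nat_lit 5) (nat_lit 90) (nat_lit 5) (nat_lit 519) (nat_lit 428) (nat_lit 253)) (XT.lf (nat_lit 0) (nat_lit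 2645109751) (nat_lit 228) (nat_lit 1075711391) (nat_lit 76) (nat_lit 43728115955) (nat_lit 86) (nat_lit 5) (nat_lit 89) (nat_lit 5) (nat_lit 87) (nat_lit 5) (nat_lit 520) (nat_lit 428) (nat_lit 252))))) (XT.nd (nat_lit 312) (nat_lit 304) (nat_lit 0) (XT.nd (nat_lit 156) (nat_lit 152) (nat_lit 0) (XT.nd (nat_lit 78) (nat_lit 152) (nat_lit 0) (XT.lf (nat_lit 0) (nat_lit 15600340222) (nat_lit 228) (nat_lit 20755915429) (nat_lit 76) (nat_lit 12041696468) (nat_lit 84) (nat_lit 5) (nat_lit 87) (nat_lit 5) (nat_lit 85) (nat_lit 5) (nat_lit 521) (nat_lit 428) (nat_lit 251)) (XT.lf (nat_lit 0) (nat_lit 7977875330) (nat_lit 152) (nat_lit 21085879873) (nat_lit 228) (nat_lit 20308096729) (nat_lit 82) (nat_lit 5) (nat_lit 84) (nat_lit 5) (nat_lit 85) (nat_lit 5) (nat_lit 522) (nat_lit 428) (nat_lit 250))) (XT.nd (nat_lit 78) (nat_lit 152) (nat_lit 0) (XT.lf (nat_lit 0) (nat_lit 37990134136) (nat_lit 152) (nat_lit 5145620038)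 (nat_lit 228) (nat_lit 7233074282) (nat_lit 82) (nat_lit 5) (nat_lit 84) (nat_lit 5) (nat_lit 85) (nat_lit 5) (nat_lit 523) (nat_lit 428) (nat_lit 249)) (XT.lf (nat_lit 0) (nat_lit 6389302473) (nat_lit 152) (nat_lit 33714220649) (nat_lit 76) (nat_lit 11282090839) (nat_lit 80) (nat_lit 5) (nat_lit 82) (nat_lit 5) (nat_lit 81) (nat_lit 5) (nat_lit 524) (nat_lit 428) (nat_lit 248)))) (XT.nd (nat_lit 156) (nat_lit 152) (nat_lit 0) (XT.nd (nat_lit 78) (nat_lit 152) (nat_lit 0) (XT.lf (nat_lit 0) (nat_lit 20447358491) (nat_lit 152) (nat_lit 3685089791) (nat_lit 76) (nat_lit 28293134893) (nat_lit 80) (nat_lit 5) (nat_lit 82) (nat_lit 5) (nat_lit 81) (nat_lit 5) (nat_lit 525) (nat_lit 428) (nat_lit 247)) (XT.lf (nat_lit 0) (nat_lit 27778356720) (nat_lit 152) (nat_lit 7411162501) (nat_lit 228) (nat_lit 18299361497) (nat_lit 78) (nat_lit 5) (nat_lit 80) (nat_lit 5) (nat_lit 81) (nat_lit 5) (nat_lit 526) (nat_lit 428) (nat_lit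 246))) (XT.nd (nat_lit 78) (nat_lit 76) (nat_lit 0) (XT.lf (nat_lit 0) (nat_lit 5685924084) (nat_lit 76) (nat_lit 44869931026) (nat_lit 152) (nat_lit 4022764910) (nat_lit 77) (nat_lit 5) (nat_lit 78) (nat_lit 5) (nat_lit 79) (nat_lit 4) (nat_lit 527) (nat_lit 428) (nat_lit 245)) (XT.lf (nat_lit 0) (nat_lit 10804621028) (nat_lit 152) (nat_lit 17329226140) (nat_lit 76) (nat_lit 27554195820) (nat_lit 76) (nat_lit 5) (nat_lit 78) (nat_lit 5) (nat_lit 77) (nat_lit 5) (nat_lit 528) (nat_lit 428) (nat_lit 244)))))) (XT.nd (nat_lit 546) (nat_lit 760) (nat_lit 0) (XT.nd (nat_lit 234) (nat_lit 380) (nat_lit 0) (XT.nd (nat_lit 78) (nat_lit 76) (nat_lit 0) (XT.lf (nat_lit 0) (nat_lit 15434107006) (nat_lit 152) (nat_lit 10705729053) (nat_lit 228) (nat_lit 30685402002) (nat_lit 74) (nat_lit 5) (nat_lit 76) (nat_lit 5) (nat_lit 77) (nat_lit 5) (nat_lit 529) (nat_lit 428) (nat_lit 243)) (XT.nd (nat_lit 78) (nat_lit 76) (nat_lit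 0) (XT.lf (nat_lit 0) (nat_lit 42176990187) (nat_lit 228) (nat_lit 8535505901) (nat_lit 76) (nat_lit 7276796543) (nat_lit 74) (nat_lit 5) (nat_lit 77) (nat_lit 5) (nat_lit 75) (nat_lit 4) (nat_lit 530) (nat_lit 428) (nat_lit 242)) (XT.lf (nat_lit 0) (nat_lit 25692997546) (nat_lit 76) (nat_lit 33350879450) (nat_lit 152) (nat_lit 133933422) (nat_lit 73) (nat_lit 5) (nat_lit 74) (nat_lit 5) (nat_lit 75) (nat_lit 4) (nat_lit 531) (nat_lit 428) (nat_lit 241)))) (XT.nd (nat_lit 156) (nat_lit 152) (nat_lit 0) (XT.nd (nat_lit 78) (nat_lit 0) (nat_lit 0) (XT.lf (nat_lit 0) (nat_lit 572131872) (nat_lit 152) (nat_lit 15218343981) (nat_lit 228) (nat_lit 44604243820) (nat_lit 70) (nat_lit 5) (nat_lit 72) (nat_lit 5) (nat_lit 73) (nat_lit 5) (nat_lit 532) (nat_lit 428) (nat_lit 240)) (XT.lf (nat_lit 0) (nat_lit 32560309336) (nat_lit 228) (nat_lit 25346892941) (nat_lit 76) (nat_lit 3729782743) (nat_lit 70) (nat_lit 5) (nat_lit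 73) (nat_lit 5) (nat_lit 71) (nat_lit 4) (nat_lit 533) (nat_lit 428) (nat_lit 239))) (XT.nd (nat_lit 78) (nat_lit 76) (nat_lit 0) (XT.lf (nat_lit 0) (nat_lit 10203567026) (nat_lit 76) (nat_lit 39874219765) (nat_lit 152) (nat_lit 12831395174) (nat_lit 69) (nat_lit 5) (nat_lit 70) (nat_lit 5) (nat_lit 71) (nat_lit 4) (nat_lit 534) (nat_lit 428) (nat_lit 238)) (XT.lf (nat_lit 0) (nat_lit 4079399681) (nat_lit 152) (nat_lit 16919717670) (nat_lit 76) (nat_lit 43211674038) (nat_lit 68) (nat_lit 5) (nat_lit 70) (nat_lit 5) (nat_lit 69) (nat_lit 5) (nat_lit 535) (nat_lit 428) (nat_lit 237))))) (XT.nd (nat_lit 312) (nat_lit 304) (nat_lit 0) (XT.nd (nat_lit 156) (nat_lit 304) (nat_lit 0) (XT.nd (nat_lit 78) (nat_lit 0) (nat_lit 0) (XT.lf (nat_lit 0) (nat_lit 20199159336) (nat_lit 152) (nat_lit 1230544986) (nat_lit 228) (nat_lit 44112231037) (nat_lit 66) (nat_lit 5) (nat_lit 68) (nat_lit 5) (nat_lit 69) (nat_lit 5) (nat_lit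 536) (nat_lit 428) (nat_lit 236)) (XT.lf (nat_lit 0) (nat_lit 39652893910) (nat_lit 228) (nat_lit 8322762036) (nat_lit 76) (nat_lit 18926786525) (nat_lit 66) (nat_lit 5) (nat_lit 69) (nat_lit 5) (nat_lit 67) (nat_lit 4) (nat_lit 537) (nat_lit 428) (nat_lit 235))) (XT.nd (nat_lit 78) (nat_lit 228) (nat_lit 0) (XT.lf (nat_lit 0) (nat_lit 30381013693) (nat_lit 76) (nat_lit 28342037082) (nat_lit 152) (nat_lit 9571705966) (nat_lit 65) (nat_lit 5) (nat_lit 66) (nat_lit 5) (nat_lit 67) (nat_lit 4) (nat_lit 538) (nat_lit 428) (nat_lit 234)) (XT.lf (nat_lit 0) (nat_lit 610755683) (nat_lit 152) (nat_lit 7943986259) (nat_lit 228) (nat_lit 61169004051) (nat_lit 62) (nat_lit 5) (nat_lit 64) (nat_lit 5) (nat_lit 65) (nat_lit 5) (nat_lit 539) (nat_lit 428) (nat_lit 233)))) (XT.nd (nat_lit 156) (nat_lit 228) (nat_lit 0) (XT.nd (nat_lit 78) (nat_lit 76) (nat_lit 0) (XT.lf (nat_lit 0) (nat_lit 27540906764) (nat_lit 228) (nat_lit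 30347606784) (nat_lit 76) (nat_lit 13288999220) (nat_lit 62) (nat_lit 5) (nat_lit 65) (nat_lit 5) (nat_lit 63) (nat_lit 4) (nat_lit 540) (nat_lit 428) (nat_lit 232)) (XT.lf (nat_lit 0) (nat_lit 9683755710) (nat_lit 76) (nat_lit 37580816782) (nat_lit 152) (nat_lit 25405282659) (nat_lit 61) (nat_lit 5) (nat_lit 62) (nat_lit 5) (nat_lit 63) (nat_lit 4) (nat_lit 541) (nat_lit 428) (nat_lit 231))) (XT.nd (nat_lit 78) (nat_lit 228) (nat_lit 0) (XT.lf (nat_lit 0) (nat_lit 51530932617) (nat_lit 76) (nat_lit 16351685285) (nat_lit 152) (nat_lit 6315269891) (nat_lit 61) (nat_lit 5) (nat_lit 62) (nat_lit 5) (nat_lit 63) (nat_lit 4) (nat_lit 542) (nat_lit 428) (nat_lit 230)) (XT.lf (nat_lit 0) (nat_lit 13322933186) (nat_lit 228) (nat_lit 56719513454) (nat_lit 76) (nat_lit 5718387338) (nat_lit 58) (nat_lit 5) (nat_lit 61) (nat_lit 5) (nat_lit 59) (nat_lit 4) (nat_lit 543) (nat_lit 428) (nat_lit 229))))))) (XT.nd (nat_lit 54288)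 (nat_lit 0) (nat_lit 14896) (XT.nd (nat_lit 53664) (nat_lit 0) (nat_lit 19456) (XT.nd (nat_lit 234) (nat_lit 152) (nat_lit 0) (XT.nd (nat_lit 78) (nat_lit 76) (nat_lit 0) (XT.lf (nat_lit 0) (nat_lit 33812708072) (nat_lit 228) (nat_lit 15132093069) (nat_lit 76) (nat_lit 28412310966) (nat_lit 58) (nat_lit 5) (nat_lit 61) (nat_lit 5) (nat_lit 59) (nat_lit 4) (nat_lit 544) (nat_lit 428) (nat_lit 228)) (XT.nd (nat_lit 78) (nat_lit 0) (nat_lit 0) (XT.lf (nat_lit 0) (nat_lit 28247267927) (nat_lit 76) (nat_lit 26937846506) (nat_lit 152) (nat_lit 23808126073) (nat_lit 57) (nat_lit 5) (nat_lit 58) (nat_lit 5) (nat_lit 59) (nat_lit 4) (nat_lit 545) (nat_lit 428) (nat_lit 227)) (XT.lf (nat_lit 0) (nat_lit 73231382416) (nat_lit 76) (nat_lit 4116562300) (nat_lit 152) (nat_lit 3326030556) (nat_lit 57) (nat_lit 5) (nat_lit 58) (nat_lit 5) (nat_lit 59) (nat_lit 4) (nat_lit 546) (nat_lit 428) (nat_lit 226)))) (XT.nd (nat_lit 53274)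 (nat_lit 0) (nat_lit 20520) (XT.nd (nat_lit 78) (nat_lit 0) (nat_lit 0) (XT.lf (nat_lit 0) (nat_lit 17974482341) (nat_lit 152) (nat_lit 44862469812) (nat_lit 76) (nat_lit 19546533712) (nat_lit 55) (nat_lit 5) (nat_lit 57) (nat_lit 5) (nat_lit 56) (nat_lit 4) (nat_lit 547) (nat_lit 428) (nat_lit 225)) (XT.lf (nat_lit 0) (nat_lit 39960342185) (nat_lit 152) (nat_lit 237059592) (nat_lit 76) (nat_lit 43942496688) (nat_lit 55) (nat_lit 5) (nat_lit 57) (nat_lit 5) (nat_lit 56) (nat_lit 4) (nat_lit 548) (nat_lit 428) (nat_lit 224))) (XT.nd (nat_lit 78) (nat_lit 0) (nat_lit 0) (XT.lf (nat_lit 0) (nat_lit 4279240342) (nat_lit 1140) (nat_lit 373590644) (nat_lit 1140) (nat_lit 373590644) (nat_lit 325) (nat_lit 3) (nat_lit 340) (nat_lit 3) (nat_lit 340) (nat_lit 5) (nat_lit 429) (nat_lit 429) (nat_lit 342)) (XT.lf (nat_lit 76) (nat_lit 4306101407) (nat_lit 0) (nat_lit 5110340879) (nat_lit 1140) (nat_lit 765201517) (nat_lit 326)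 (nat_lit 5) (nat_lit 325) (nat_lit 3) (nat_lit 340) (nat_lit 5) (nat_lit 430) (nat_lit 429) (nat_lit 341))))) (XT.nd (nat_lit 312) (nat_lit 0) (nat_lit 76) (XT.nd (nat_lit 156) (nat_lit 0) (nat_lit 0) (XT.nd (nat_lit 78) (nat_lit 1064) (nat_lit 0) (XT.lf (nat_lit 76) (nat_lit 9512189735) (nat_lit 0) (nat_lit 768504249) (nat_lit 1140) (nat_lit 34201921) (nat_lit 326) (nat_lit 5) (nat_lit 325) (nat_lit 3) (nat_lit 340) (nat_lit 5) (nat_lit 431) (nat_lit 429) (nat_lit 340)) (XT.lf (nat_lit 0) (nat_lit 757594982) (nat_lit 1140) (nat_lit 5998886968) (nat_lit 1216) (nat_lit 3693873435) (nat_lit 311) (nat_lit 5) (nat_lit 326) (nat_lit 5) (nat_lit 327) (nat_lit 5) (nat_lit 432) (nat_lit 429) (nat_lit 339))) (XT.nd (nat_lit 78) (nat_lit 0) (nat_lit 76) (XT.lf (nat_lit 0) (nat_lit 1562530848) (nat_lit 1140) (nat_lit 732921640) (nat_lit 1216) (nat_lit 8294717561) (nat_lit 311) (nat_lit 5) (nat_lit 326) (nat_lit 5) (nat_lit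 327) (nat_lit 5) (nat_lit 433) (nat_lit 429) (nat_lit 338)) (XT.lf (nat_lit 0) (nat_lit 2435146820) (nat_lit 1140) (nat_lit 5986665228) (nat_lit 1216) (nat_lit 2311064771) (nat_lit 312) (nat_lit 5) (nat_lit 327) (nat_lit 5) (nat_lit 328) (nat_lit 5) (nat_lit 434) (nat_lit 429) (nat_lit 337)))) (XT.nd (nat_lit 156) (nat_lit 0) (nat_lit 76) (XT.nd (nat_lit 78) (nat_lit 0) (nat_lit 76) (XT.lf (nat_lit 0) (nat_lit 3339854473) (nat_lit 1140) (nat_lit 512933611) (nat_lit 1216) (nat_lit 7026902832) (nat_lit 312) (nat_lit 5) (nat_lit 327) (nat_lit 5) (nat_lit 328) (nat_lit 5) (nat_lit 435) (nat_lit 429) (nat_lit 336)) (XT.lf (nat_lit 0) (nat_lit 4307005637) (nat_lit 1140) (nat_lit 5826976602) (nat_lit 1216) (nat_lit 895871547) (nat_lit 313) (nat_lit 5) (nat_lit 328) (nat_lit 5) (nat_lit 329) (nat_lit 5) (nat_lit 436) (nat_lit 429) (nat_lit 335))) (XT.nd (nat_lit 78) (nat_lit 0) (nat_lit 0) (XT.lf (nat_lit 0) (nat_lit 5323594392)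 (nat_lit 1140) (nat_lit 137306563) (nat_lit 1216) (nat_lit 5723011214) (nat_lit 313) (nat_lit 5) (nat_lit 328) (nat_lit 5) (nat_lit 329) (nat_lit 5) (nat_lit 437) (nat_lit 429) (nat_lit 334)) (XT.lf (nat_lit 76) (nat_lit 5821685087) (nat_lit 0) (nat_lit 582671623) (nat_lit 1216) (nat_lit 4937228538) (nat_lit 314) (nat_lit 5) (nat_lit 313) (nat_lit 5) (nat_lit 329) (nat_lit 5) (nat_lit 438) (nat_lit 429) (nat_lit 333)))))) (XT.nd (nat_lit 624) (nat_lit 3724) (nat_lit 0) (XT.nd (nat_lit 312) (nat_lit 1064) (nat_lit 0) (XT.nd (nat_lit 156) (nat_lit 0) (nat_lit 76) (XT.nd (nat_lit 78) (nat_lit 0) (nat_lit 0) (XT.lf (nat_lit 76) (nat_lit 408016936) (nat_lit 0) (nat_lit 7135833394) (nat_lit 1216) (nat_lit 3959352064) (nat_lit 315) (nat_lit 5) (nat_lit 314) (nat_lit 5) (nat_lit 330) (nat_lit 5) (nat_lit 439) (nat_lit 429) (nat_lit 332)) (XT.lf (nat_lit 76) (nat_lit 6605645548) (nat_lit 0) (nat_lit 2152108023) (nat_lit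 1216) (nat_lit 2910710776) (nat_lit 315) (nat_lit 5) (nat_lit 314) (nat_lit 5) (nat_lit 330) (nat_lit 5) (nat_lit 440) (nat_lit 429) (nat_lit 331))) (XT.nd (nat_lit 78) (nat_lit 0) (nat_lit 0) (XT.lf (nat_lit 76) (nat_lit 1128256790) (nat_lit 0) (nat_lit 8898763951) (nat_lit 1216) (nat_lit 1811097961) (nat_lit 316) (nat_lit 5) (nat_lit 315) (nat_lit 5) (nat_lit 331) (nat_lit 5) (nat_lit 441) (nat_lit 429) (nat_lit 330)) (XT.lf (nat_lit 76) (nat_lit 7571646571) (nat_lit 0) (nat_lit 3814837894) (nat_lit 1216) (nat_lit 624817529) (nat_lit 316) (nat_lit 5) (nat_lit 315) (nat_lit 5) (nat_lit 331) (nat_lit 5) (nat_lit 442) (nat_lit 429) (nat_lit 329)))) (XT.nd (nat_lit 156) (nat_lit 0) (nat_lit 0) (XT.nd (nat_lit 78) (nat_lit 0) (nat_lit 0) (XT.lf (nat_lit 0) (nat_lit 599225988) (nat_lit 1216) (nat_lit 10166213748) (nat_lit 1292) (nat_lit 1423656811) (nat_lit 300) (nat_lit 5) (nat_lit 316) (nat_lit 5) (nat_lit 317) (nat_lit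 5) (nat_lit 443) (nat_lit 429) (nat_lit 328)) (XT.lf (nat_lit 0) (nat_lit 1911229684) (nat_lit 1216) (nat_lit 3660857294) (nat_lit 1292) (nat_lit 6798041076) (nat_lit 300) (nat_lit 5) (nat_lit 316) (nat_lit 5) (nat_lit 317) (nat_lit 5) (nat_lit 444) (nat_lit 429) (nat_lit 327))) (XT.nd (nat_lit 78) (nat_lit 0) (nat_lit 76) (XT.lf (nat_lit 76) (nat_lit 3084428551) (nat_lit 0) (nat_lit 189125734) (nat_lit 1292) (nat_lit 9282709942) (nat_lit 301) (nat_lit 5) (nat_lit 300) (nat_lit 5) (nat_lit 317) (nat_lit 5) (nat_lit 445) (nat_lit 429) (nat_lit 326)) (XT.lf (nat_lit 0) (nat_lit 4747298769) (nat_lit 1216) (nat_lit 2707451866) (nat_lit 76) (nat_lit 5291119814) (nat_lit 301) (nat_lit 5) (nat_lit 317) (nat_lit 5) (nat_lit 302) (nat_lit 5) (nat_lit 446) (nat_lit 429) (nat_lit 325))))) (XT.nd (nat_lit 312) (nat_lit 1824) (nat_lit 0) (XT.nd (nat_lit 156) (nat_lit 760) (nat_lit 0) (XT.nd (nat_lit 78) (nat_lit 0) (nat_lit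 0) (XT.lf (nat_lit 0) (nat_lit 4327039977) (nat_lit 1216) (nat_lit 1963952193) (nat_lit 1292) (nat_lit 6649402988) (nat_lit 285) (nat_lit 5) (nat_lit 301) (nat_lit 5) (nat_lit 302) (nat_lit 5) (nat_lit 447) (nat_lit 429) (nat_lit 324)) (XT.lf (nat_lit 0) (nat_lit 7926752919) (nat_lit 1292) (nat_lit 1563404827) (nat_lit 76) (nat_lit 3649227495) (nat_lit 285) (nat_lit 5) (nat_lit 302) (nat_lit 5) (nat_lit 286) (nat_lit 5) (nat_lit 448) (nat_lit 429) (nat_lit 323))) (XT.nd (nat_lit 78) (nat_lit 0) (nat_lit 0) (XT.lf (nat_lit 0) (nat_lit 5775989147) (nat_lit 760) (nat_lit 3893730059) (nat_lit 836) (nat_lit 3672884096) (nat_lit 275) (nat_lit 5) (nat_lit 285) (nat_lit 5) (nat_lit 286) (nat_lit 5) (nat_lit 449) (nat_lit 429) (nat_lit 322)) (XT.lf (nat_lit 0) (nat_lit 11482421881) (nat_lit 836) (nat_lit 217648214) (nat_lit 76) (nat_lit 1851326583) (nat_lit 275) (nat_lit 5) (nat_lit 286) (nat_lit 5) (nat_lit 276) (nat_lit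 5) (nat_lit 450) (nat_lit 429) (nat_lit 321)))) (XT.nd (nat_lit 156) (nat_lit 532) (nat_lit 0) (XT.nd (nat_lit 78) (nat_lit 684) (nat_lit 0) (XT.lf (nat_lit 0) (nat_lit 7443256792) (nat_lit 608) (nat_lit 6000352193) (nat_lit 684) (nat_lit 320023899) (nat_lit 267) (nat_lit 5) (nat_lit 275) (nat_lit 5) (nat_lit 276) (nat_lit 5) (nat_lit 451) (nat_lit 429) (nat_lit 320)) (XT.lf (nat_lit 0) (nat_lit 1353030167) (nat_lit 608) (nat_lit 98849973) (nat_lit 684) (nat_lit 12529949084) (nat_lit 258) (nat_lit 5) (nat_lit 266) (nat_lit 5) (nat_lit 267) (nat_lit 5) (nat_lit 452) (nat_lit 429) (nat_lit 319))) (XT.nd (nat_lit 78) (nat_lit 532) (nat_lit 0) (XT.lf (nat_lit 0) (nat_lit 3376928575) (nat_lit 684) (nat_lit 4895447680) (nat_lit 76) (nat_lit 5930909507) (nat_lit 258) (nat_lit 5) (nat_lit 267) (nat_lit 5) (nat_lit 259) (nat_lit 5) (nat_lit 453) (nat_lit 429) (nat_lit 318)) (XT.lf (nat_lit 0) (nat_lit 3114447100) (nat_lit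 532) (nat_lit 2261133588) (nat_lit 608) (nat_lit 9055331634) (nat_lit 251) (nat_lit 5) (nat_lit 258) (nat_lit 5) (nat_lit 259) (nat_lit 5) (nat_lit 454) (nat_lit 429) (nat_lit 317))))))))
noncomputable def xc162 : XT := (XT.nd (nat_lit 2340) (nat_lit 4636) (nat_lit 0) (XT.nd (nat_lit 1170) (nat_lit 3344) (nat_lit 0) (XT.nd (nat_lit 546) (nat_lit 1824) (nat_lit 0) (XT.nd (nat_lit 234) (nat_lit 1596) (nat_lit 0) (XT.nd (nat_lit 78) (nat_lit 532) (nat_lit 0) (XT.lf (nat_lit 0) (nat_lit 7507124034) (nat_lit 608) (nat_lit 3252710091) (nat_lit 76) (nat_lit 3903347441) (nat_lit 251) (nat_lit 5) (nat_lit 259) (nat_lit 5) (nat_lit 252) (nat_lit 5) (nat_lit 455) (nat_lit 429) (nat_lit 316)) (XT.nd (nat_lit 78) (nat_lit 0) (nat_lit 0) (XT.lf (nat_lit 0) (nat_lit 5115296101) (nat_lit 532) (nat_lit 4644532649) (nat_lit 608) (nat_lit 5140875470) (nat_lit 244) (nat_lit 5) (nat_lit 251) (nat_lit 5) (nat_lit 252) (nat_lit 5) (nat_lit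 456) (nat_lit 429) (nat_lit 315)) (XT.lf (nat_lit 0) (nat_lit 12115109237) (nat_lit 608) (nat_lit 1374933422) (nat_lit 76) (nat_lit 1654261787) (nat_lit 244) (nat_lit 5) (nat_lit 252) (nat_lit 5) (nat_lit 245) (nat_lit 5) (nat_lit 457) (nat_lit 429) (nat_lit 314)))) (XT.nd (nat_lit 156) (nat_lit 456) (nat_lit 0) (XT.nd (nat_lit 78) (nat_lit 608) (nat_lit 0) (XT.lf (nat_lit 0) (nat_lit 7370788603) (nat_lit 532) (nat_lit 7273429550) (nat_lit 608) (nat_lit 747901106) (nat_lit 237) (nat_lit 5) (nat_lit 244) (nat_lit 5) (nat_lit 245) (nat_lit 5) (nat_lit 458) (nat_lit 429) (nat_lit 313)) (XT.lf (nat_lit 0) (nat_lit 744062100) (nat_lit 532) (nat_lit 834139972) (nat_lit 608) (nat_lit 14068477264) (nat_lit 229) (nat_lit 5) (nat_lit 236) (nat_lit 5) (nat_lit 237) (nat_lit 5) (nat_lit 459) (nat_lit 429) (nat_lit 312))) (XT.nd (nat_lit 78) (nat_lit 456) (nat_lit 0) (XT.lf (nat_lit 0) (nat_lit 4083284917) (nat_lit 608) (nat_lit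 6048818875) (nat_lit 76) (nat_lit 5772824953) (nat_lit 229) (nat_lit 5) (nat_lit 237) (nat_lit 5) (nat_lit 230) (nat_lit 5) (nat_lit 460) (nat_lit 429) (nat_lit 311)) (XT.lf (nat_lit 0) (nat_lit 3108156151) (nat_lit 456) (nat_lit 3580577954) (nat_lit 532) (nat_lit 9481436611) (nat_lit 223) (nat_lit 5) (nat_lit 229) (nat_lit 5) (nat_lit 230) (nat_lit 5) (nat_lit 461) (nat_lit 429) (nat_lit 310))))) (XT.nd (nat_lit 312) (nat_lit 836) (nat_lit 0) (XT.nd (nat_lit 156) (nat_lit 532) (nat_lit 0) (XT.nd (nat_lit 78) (nat_lit 456) (nat_lit 0) (XT.lf (nat_lit 0) (nat_lit 9451774206) (nat_lit 532) (nat_lit 3823802150) (nat_lit 76) (nat_lit 3165412217) (nat_lit 223) (nat_lit 5) (nat_lit 230) (nat_lit 5) (nat_lit 224) (nat_lit 5) (nat_lit 462) (nat_lit 429) (nat_lit 309)) (XT.lf (nat_lit 0) (nat_lit 5753773206) (nat_lit 456) (nat_lit 6622356024) (nat_lit 532) (nat_lit 4341450431) (nat_lit 217) (nat_lit 5) (nat_lit 223) (nat_lit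 5) (nat_lit 224) (nat_lit 5) (nat_lit 463) (nat_lit 429) (nat_lit 308))) (XT.nd (nat_lit 78) (nat_lit 532) (nat_lit 0) (XT.lf (nat_lit 0) (nat_lit 15417286783) (nat_lit 532) (nat_lit 1321655755) (nat_lit 76) (nat_lit 262655155) (nat_lit 217) (nat_lit 5) (nat_lit 224) (nat_lit 5) (nat_lit 218) (nat_lit 5) (nat_lit 464) (nat_lit 429) (nat_lit 307)) (XT.lf (nat_lit 0) (nat_lit 1369810217) (nat_lit 532) (nat_lit 8603869968) (nat_lit 76) (nat_lit 7315932270) (nat_lit 210) (nat_lit 5) (nat_lit 217) (nat_lit 5) (nat_lit 211) (nat_lit 5) (nat_lit 465) (nat_lit 429) (nat_lit 306)))) (XT.nd (nat_lit 156) (nat_lit 380) (nat_lit 0) (XT.nd (nat_lit 78) (nat_lit 0) (nat_lit 0) (XT.lf (nat_lit 0) (nat_lit 1432248195) (nat_lit 456) (nat_lit 2964015019) (nat_lit 532) (nat_lit 13189068572) (nat_lit 204) (nat_lit 5) (nat_lit 210) (nat_lit 5) (nat_lit 211) (nat_lit 5) (nat_lit 466) (nat_lit 429) (nat_lit 305)) (XT.lf (nat_lit 0) (nat_lit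 7630643962) (nat_lit 532) (nat_lit 5997912976) (nat_lit 76) (nat_lit 4257852947) (nat_lit 204) (nat_lit 5) (nat_lit 211) (nat_lit 5) (nat_lit 205) (nat_lit 5) (nat_lit 467) (nat_lit 429) (nat_lit 304))) (XT.nd (nat_lit 78) (nat_lit 0) (nat_lit 0) (XT.lf (nat_lit 0) (nat_lit 4506279795) (nat_lit 380) (nat_lit 6517256668) (nat_lit 456) (nat_lit 7171140635) (nat_lit 199) (nat_lit 5) (nat_lit 204) (nat_lit 5) (nat_lit 205) (nat_lit 5) (nat_lit 468) (nat_lit 429) (nat_lit 303)) (XT.lf (nat_lit 0) (nat_lit 14576120861) (nat_lit 456) (nat_lit 3084568232) (nat_lit 76) (nat_lit 849767225) (nat_lit 199) (nat_lit 5) (nat_lit 205) (nat_lit 5) (nat_lit 200) (nat_lit 5) (nat_lit 469) (nat_lit 429) (nat_lit 302)))))) (XT.nd (nat_lit 546) (nat_lit 1672) (nat_lit 0) (XT.nd (nat_lit 234) (nat_lit 760) (nat_lit 0) (XT.nd (nat_lit 78) (nat_lit 456) (nat_lit 0) (XT.lf (nat_lit 0) (nat_lit 7913302465) (nat_lit 456) (nat_lit 10451873405)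 (nat_lit 532) (nat_lit 466637363) (nat_lit 193) (nat_lit 5) (nat_lit 199) (nat_lit 5) (nat_lit 200) (nat_lit 5) (nat_lit 470) (nat_lit 429) (nat_lit 301)) (XT.nd (nat_lit 78) (nat_lit 0) (nat_lit 0) (XT.lf (nat_lit 0) (nat_lit 100224128) (nat_lit 380) (nat_lit 2966067758) (nat_lit 456) (nat_lit 16094970825) (nat_lit 187) (nat_lit 5) (nat_lit 192) (nat_lit 5) (nat_lit 193) (nat_lit 5) (nat_lit 471) (nat_lit 429) (nat_lit 300)) (XT.lf (nat_lit 0) (nat_lit 6842297097) (nat_lit 456) (nat_lit 7889447671) (nat_lit 76) (nat_lit 4764319306) (nat_lit 187) (nat_lit 5) (nat_lit 193) (nat_lit 5) (nat_lit 188) (nat_lit 5) (nat_lit 472) (nat_lit 429) (nat_lit 299)))) (XT.nd (nat_lit 156) (nat_lit 380) (nat_lit 0) (XT.nd (nat_lit 78) (nat_lit 0) (nat_lit 0) (XT.lf (nat_lit 0) (nat_lit 3645287266) (nat_lit 380) (nat_lit 7140522950) (nat_lit 456) (nat_lit 9053473417) (nat_lit 182) (nat_lit 5) (nat_lit 187) (nat_lit 5) (nat_lit 188)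 (nat_lit 5) (nat_lit 473) (nat_lit 429) (nat_lit 298)) (XT.lf (nat_lit 0) (nat_lit 14924557669) (nat_lit 456) (nat_lit 4523830860) (nat_lit 76) (nat_lit 742104341) (nat_lit 182) (nat_lit 5) (nat_lit 188) (nat_lit 5) (nat_lit 183) (nat_lit 5) (nat_lit 474) (nat_lit 429) (nat_lit 297))) (XT.nd (nat_lit 78) (nat_lit 76) (nat_lit 0) (XT.lf (nat_lit 0) (nat_lit 7559763478) (nat_lit 304) (nat_lit 11761314745) (nat_lit 380) (nat_lit 1227152772) (nat_lit 178) (nat_lit 5) (nat_lit 182) (nat_lit 5) (nat_lit 183) (nat_lit 5) (nat_lit 475) (nat_lit 429) (nat_lit 296)) (XT.lf (nat_lit 0) (nat_lit 2912001015) (nat_lit 380) (nat_lit 858932812) (nat_lit 76) (nat_lit 17143829441) (nat_lit 177) (nat_lit 5) (nat_lit 182) (nat_lit 5) (nat_lit 178) (nat_lit 5) (nat_lit 476) (nat_lit 429) (nat_lit 295))))) (XT.nd (nat_lit 312) (nat_lit 684) (nat_lit 0) (XT.nd (nat_lit 156) (nat_lit 304) (nat_lit 0) (XT.nd (nat_lit 78) (nat_lit 304) (nat_lit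 0) (XT.lf (nat_lit 0) (nat_lit 7299141175) (nat_lit 456) (nat_lit 9492650659) (nat_lit 76) (nat_lit 4495681739) (nat_lit 172) (nat_lit 5) (nat_lit 178) (nat_lit 5) (nat_lit 173) (nat_lit 5) (nat_lit 477) (nat_lit 429) (nat_lit 294)) (XT.lf (nat_lit 0) (nat_lit 3186169102) (nat_lit 304) (nat_lit 8699147493) (nat_lit 380) (nat_lit 9784026787) (nat_lit 168) (nat_lit 5) (nat_lit 172) (nat_lit 5) (nat_lit 173) (nat_lit 5) (nat_lit 478) (nat_lit 429) (nat_lit 293))) (XT.nd (nat_lit 78) (nat_lit 304) (nat_lit 0) (XT.lf (nat_lit 0) (nat_lit 16426797356) (nat_lit 304) (nat_lit 268979893) (nat_lit 380) (nat_lit 5364291840) (nat_lit 168) (nat_lit 5) (nat_lit 172) (nat_lit 5) (nat_lit 173) (nat_lit 5) (nat_lit 479) (nat_lit 429) (nat_lit 292)) (XT.lf (nat_lit 0) (nat_lit 7657681937) (nat_lit 304) (nat_lit 14138433815) (nat_lit 380) (nat_lit 662034674) (nat_lit 164) (nat_lit 5) (nat_lit 168) (nat_lit 5) (nat_lit 169) (nat_lit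 5) (nat_lit 480) (nat_lit 429) (nat_lit 291)))) (XT.nd (nat_lit 156) (nat_lit 304) (nat_lit 0) (XT.nd (nat_lit 78) (nat_lit 304) (nat_lit 0) (XT.lf (nat_lit 0) (nat_lit 4150930425) (nat_lit 380) (nat_lit 1460089953) (nat_lit 76) (nat_lit 17254411798) (nat_lit 163) (nat_lit 5) (nat_lit 168) (nat_lit 5) (nat_lit 164) (nat_lit 5) (nat_lit 481) (nat_lit 429) (nat_lit 290)) (XT.lf (nat_lit 0) (nat_lit 9238275856) (nat_lit 380) (nat_lit 10807793269) (nat_lit 76) (nat_lit 3234368395) (nat_lit 159) (nat_lit 5) (nat_lit 164) (nat_lit 5) (nat_lit 160) (nat_lit 5) (nat_lit 482) (nat_lit 429) (nat_lit 289))) (XT.nd (nat_lit 78) (nat_lit 0) (nat_lit 0) (XT.lf (nat_lit 0) (nat_lit 3138629557) (nat_lit 304) (nat_lit 11431698305) (nat_lit 380) (nat_lit 9134803270) (nat_lit 155) (nat_lit 5) (nat_lit 159) (nat_lit 5) (nat_lit 160) (nat_lit 5) (nat_lit 483) (nat_lit 429) (nat_lit 288)) (XT.lf (nat_lit 0) (nat_lit 17712363329) (nat_lit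 304) (nat_lit 2450713720) (nat_lit 380) (nat_lit 3976467106) (nat_lit 155) (nat_lit 5) (nat_lit 159) (nat_lit 5) (nat_lit 160) (nat_lit 5) (nat_lit 484) (nat_lit 429) (nat_lit 287))))))) (XT.nd (nat_lit 1170) (nat_lit 2052) (nat_lit 0) (XT.nd (nat_lit 546) (nat_lit 1292) (nat_lit 0) (XT.nd (nat_lit 234) (nat_lit 608) (nat_lit 0) (XT.nd (nat_lit 78) (nat_lit 304) (nat_lit 0) (XT.lf (nat_lit 0) (nat_lit 1448055486) (nat_lit 380) (nat_lit 16378234259) (nat_lit 76) (nat_lit 6756189449) (nat_lit 150) (nat_lit 5) (nat_lit 155) (nat_lit 5) (nat_lit 151) (nat_lit 5) (nat_lit 485) (nat_lit 429) (nat_lit 286)) (XT.nd (nat_lit 78) (nat_lit 304) (nat_lit 0) (XT.lf (nat_lit 0) (nat_lit 7037042528) (nat_lit 380) (nat_lit 1707178527) (nat_lit 76) (nat_lit 16290851159) (nat_lit 150) (nat_lit 5) (nat_lit 155) (nat_lit 5) (nat_lit 151) (nat_lit 5) (nat_lit 486) (nat_lit 429) (nat_lit 285)) (XT.lf (nat_lit 0) (nat_lit 12924198343)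 (nat_lit 380) (nat_lit 11846280460) (nat_lit 76) (nat_lit 726849845) (nat_lit 146) (nat_lit 5) (nat_lit 151) (nat_lit 5) (nat_lit 147) (nat_lit 5) (nat_lit 487) (nat_lit 429) (nat_lit 284)))) (XT.nd (nat_lit 156) (nat_lit 380) (nat_lit 0) (XT.nd (nat_lit 78) (nat_lit 0) (nat_lit 0) (XT.lf (nat_lit 0) (nat_lit 3501439826) (nat_lit 228) (nat_lit 15616328160) (nat_lit 304) (nat_lit 6851791395) (nat_lit 143) (nat_lit 5) (nat_lit 146) (nat_lit 5) (nat_lit 147) (nat_lit 5) (nat_lit 488) (nat_lit 429) (nat_lit 283)) (XT.lf (nat_lit 0) (nat_lit 19540328329) (nat_lit 228) (nat_lit 6068707661) (nat_lit 304) (nat_lit 843564872) (nat_lit 143) (nat_lit 5) (nat_lit 146) (nat_lit 5) (nat_lit 147) (nat_lit 5) (nat_lit 489) (nat_lit 429) (nat_lit 282))) (XT.nd (nat_lit 78) (nat_lit 0) (nat_lit 0) (XT.lf (nat_lit 0) (nat_lit 5359263403) (nat_lit 380) (nat_lit 17756675185) (nat_lit 76) (nat_lit 3829094571) (nat_lit 138) (nat_lit 5)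 (nat_lit 143) (nat_lit 5) (nat_lit 139) (nat_lit 5) (nat_lit 490) (nat_lit 429) (nat_lit 281)) (XT.lf (nat_lit 0) (nat_lit 11854283021) (nat_lit 380) (nat_lit 1617537859) (nat_lit 76) (nat_lit 13976475660) (nat_lit 138) (nat_lit 5) (nat_lit 143) (nat_lit 5) (nat_lit 139) (nat_lit 5) (nat_lit 491) (nat_lit 429) (nat_lit 280))))) (XT.nd (nat_lit 312) (nat_lit 532) (nat_lit 0) (XT.nd (nat_lit 156) (nat_lit 304) (nat_lit 0) (XT.nd (nat_lit 78) (nat_lit 228) (nat_lit 0) (XT.lf (nat_lit 0) (nat_lit 15292569001) (nat_lit 228) (nat_lit 3391288283) (nat_lit 304) (nat_lit 9278609915) (nat_lit 135) (nat_lit 5) (nat_lit 138) (nat_lit 5) (nat_lit 139) (nat_lit 5) (nat_lit 492) (nat_lit 429) (nat_lit 279)) (XT.lf (nat_lit 0) (nat_lit 4255556723) (nat_lit 228) (nat_lit 21580135948) (nat_lit 304) (nat_lit 2652849576) (nat_lit 132) (nat_lit 5) (nat_lit 135) (nat_lit 5) (nat_lit 136) (nat_lit 5) (nat_lit 493) (nat_lit 429) (nat_lit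 278))) (XT.nd (nat_lit 78) (nat_lit 228) (nat_lit 0) (XT.lf (nat_lit 0) (nat_lit 4245855558) (nat_lit 304) (nat_lit 7164718309) (nat_lit 76) (nat_lit 17613955819) (nat_lit 131) (nat_lit 5) (nat_lit 135) (nat_lit 5) (nat_lit 132) (nat_lit 5) (nat_lit 494) (nat_lit 429) (nat_lit 277)) (XT.lf (nat_lit 0) (nat_lit 10584505783) (nat_lit 228) (nat_lit 808442687) (nat_lit 304) (nat_lit 18180018358) (nat_lit 128) (nat_lit 5) (nat_lit 131) (nat_lit 5) (nat_lit 132) (nat_lit 5) (nat_lit 495) (nat_lit 429) (nat_lit 276)))) (XT.nd (nat_lit 156) (nat_lit 304) (nat_lit 0) (XT.nd (nat_lit 78) (nat_lit 228) (nat_lit 0) (XT.lf (nat_lit 0) (nat_lit 18917775787) (nat_lit 304) (nat_lit 1231948346) (nat_lit 76) (nat_lit 9983233734) (nat_lit 128) (nat_lit 5) (nat_lit 132) (nat_lit 5) (nat_lit 129) (nat_lit 5) (nat_lit 496) (nat_lit 429) (nat_lit 275)) (XT.lf (nat_lit 0) (nat_lit 17377259569) (nat_lit 228) (nat_lit 9459391188) (nat_lit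 304) (nat_lit 3868049216) (nat_lit 125) (nat_lit 5) (nat_lit 128) (nat_lit 5) (nat_lit 129) (nat_lit 5) (nat_lit 497) (nat_lit 429) (nat_lit 274))) (XT.nd (nat_lit 78) (nat_lit 0) (nat_lit 0) (XT.lf (nat_lit 0) (nat_lit 3700284329) (nat_lit 304) (nat_lit 25972607571) (nat_lit 76) (nat_lit 1617446664) (nat_lit 121) (nat_lit 5) (nat_lit 125) (nat_lit 5) (nat_lit 122) (nat_lit 5) (nat_lit 498) (nat_lit 429) (nat_lit 273)) (XT.lf (nat_lit 0) (nat_lit 11640824741) (nat_lit 304) (nat_lit 7238501497) (nat_lit 76) (nat_lit 13006384508) (nat_lit 121) (nat_lit 5) (nat_lit 125) (nat_lit 5) (nat_lit 122) (nat_lit 5) (nat_lit 499) (nat_lit 429) (nat_lit 272)))))) (XT.nd (nat_lit 624) (nat_lit 912) (nat_lit 0) (XT.nd (nat_lit 312) (nat_lit 456) (nat_lit 0) (XT.nd (nat_lit 156) (nat_lit 456) (nat_lit 0) (XT.nd (nat_lit 78) (nat_lit 0) (nat_lit 0) (XT.lf (nat_lit 0) (nat_lit 12286545357) (nat_lit 228) (nat_lit 7644666049) (nat_lit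 304) (nat_lit 12564384160) (nat_lit 118) (nat_lit 5) (nat_lit 121) (nat_lit 5) (nat_lit 122) (nat_lit 5) (nat_lit 500) (nat_lit 429) (nat_lit 271)) (XT.lf (nat_lit 0) (nat_lit 28575445096) (nat_lit 304) (nat_lit 625212304) (nat_lit 76) (nat_lit 3919965829) (nat_lit 118) (nat_lit 5) (nat_lit 122) (nat_lit 5) (nat_lit 119) (nat_lit 5) (nat_lit 501) (nat_lit 429) (nat_lit 270))) (XT.nd (nat_lit 78) (nat_lit 228) (nat_lit 0) (XT.lf (nat_lit 0) (nat_lit 3904923235) (nat_lit 228) (nat_lit 13947702234) (nat_lit 76) (nat_lit 15902821248) (nat_lit 115) (nat_lit 5) (nat_lit 118) (nat_lit 5) (nat_lit 116) (nat_lit 5) (nat_lit 502) (nat_lit 429) (nat_lit 269)) (XT.lf (nat_lit 0) (nat_lit 6529138477) (nat_lit 228) (nat_lit 6050948890) (nat_lit 304) (nat_lit 21825990423) (nat_lit 112) (nat_lit 5) (nat_lit 115) (nat_lit 5) (nat_lit 116) (nat_lit 5) (nat_lit 503) (nat_lit 429) (nat_lit 268)))) (XT.nd (nat_lit 156) (nat_lit 304)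 (nat_lit 0) (XT.nd (nat_lit 78) (nat_lit 152) (nat_lit 0) (XT.lf (nat_lit 0) (nat_lit 21710242387) (nat_lit 304) (nat_lit 7236505337) (nat_lit 76) (nat_lit 6123638312) (nat_lit 112) (nat_lit 5) (nat_lit 116) (nat_lit 5) (nat_lit 113) (nat_lit 5) (nat_lit 504) (nat_lit 429) (nat_lit 267)) (XT.lf (nat_lit 0) (nat_lit 14230606964) (nat_lit 152) (nat_lit 17074393107) (nat_lit 228) (nat_lit 4443902828) (nat_lit 110) (nat_lit 5) (nat_lit 112) (nat_lit 5) (nat_lit 113) (nat_lit 5) (nat_lit 505) (nat_lit 429) (nat_lit 266))) (XT.nd (nat_lit 78) (nat_lit 228) (nat_lit 0) (XT.lf (nat_lit 0) (nat_lit 4715144253) (nat_lit 228) (nat_lit 12127792) (nat_lit 76) (nat_lit 31717102353) (nat_lit 109) (nat_lit 5) (nat_lit 112) (nat_lit 5) (nat_lit 110) (nat_lit 5) (nat_lit 506) (nat_lit 429) (nat_lit 265)) (XT.lf (nat_lit 0) (nat_lit 14349698846) (nat_lit 304) (nat_lit 14707682327) (nat_lit 76) (nat_lit 8093307559) (nat_lit 106) (nat_lit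 5) (nat_lit 110) (nat_lit 5) (nat_lit 107) (nat_lit 5) (nat_lit 507) (nat_lit 429) (nat_lit 264))))) (XT.nd (nat_lit 312) (nat_lit 380) (nat_lit 0) (XT.nd (nat_lit 156) (nat_lit 380) (nat_lit 0) (XT.nd (nat_lit 78) (nat_lit 0) (nat_lit 0) (XT.lf (nat_lit 0) (nat_lit 7788973574) (nat_lit 152) (nat_lit 16600337234) (nat_lit 228) (nat_lit 13485401342) (nat_lit 104) (nat_lit 5) (nat_lit 106) (nat_lit 5) (nat_lit 107) (nat_lit 5) (nat_lit 508) (nat_lit 429) (nat_lit 263)) (XT.lf (nat_lit 0) (nat_lit 31252055025) (nat_lit 152) (nat_lit 3620867399) (nat_lit 228) (nat_lit 3743249779) (nat_lit 104) (nat_lit 5) (nat_lit 106) (nat_lit 5) (nat_lit 107) (nat_lit 5) (nat_lit 509) (nat_lit 429) (nat_lit 262))) (XT.nd (nat_lit 78) (nat_lit 152) (nat_lit 0) (XT.lf (nat_lit 0) (nat_lit 6415176562) (nat_lit 228) (nat_lit 23182643360) (nat_lit 76) (nat_lit 9772838945) (nat_lit 101) (nat_lit 5) (nat_lit 104) (nat_lit 5) (nat_lit 102)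 (nat_lit 5) (nat_lit 510) (nat_lit 429) (nat_lit 261)) (XT.lf (nat_lit 0) (nat_lit 375990169) (nat_lit 152) (nat_lit 16536127182) (nat_lit 228) (nat_lit 23231281251) (nat_lit 99) (nat_lit 5) (nat_lit 101) (nat_lit 5) (nat_lit 102) (nat_lit 5) (nat_lit 511) (nat_lit 429) (nat_lit 260)))) (XT.nd (nat_lit 156) (nat_lit 228) (nat_lit 0) (XT.nd (nat_lit 78) (nat_lit 152) (nat_lit 0) (XT.lf (nat_lit 0) (nat_lit 25106881875) (nat_lit 152) (nat_lit 2845685848) (nat_lit 228) (nat_lit 12979895006) (nat_lit 99) (nat_lit 5) (nat_lit 101) (nat_lit 5) (nat_lit 102) (nat_lit 5) (nat_lit 512) (nat_lit 429) (nat_lit 259)) (XT.lf (nat_lit 0) (nat_lit 8890227401) (nat_lit 152) (nat_lit 30622279783) (nat_lit 228) (nat_lit 2227043559) (nat_lit 97) (nat_lit 5) (nat_lit 99) (nat_lit 5) (nat_lit 100) (nat_lit 5) (nat_lit 513) (nat_lit 429) (nat_lit 258))) (XT.nd (nat_lit 78) (nat_lit 152) (nat_lit 0) (XT.lf (nat_lit 0) (nat_lit 8859929731)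 (nat_lit 228) (nat_lit 8018525222) (nat_lit 76) (nat_lit 25684318968) (nat_lit 96) (nat_lit 5) (nat_lit 99) (nat_lit 5) (nat_lit 97) (nat_lit 5) (nat_lit 514) (nat_lit 429) (nat_lit 257)) (XT.lf (nat_lit 0) (nat_lit 17874651254) (nat_lit 152) (nat_lit 2526713556) (nat_lit 228) (nat_lit 23003669281) (nat_lit 94) (nat_lit 5) (nat_lit 96) (nat_lit 5) (nat_lit 97) (nat_lit 5) (nat_lit 515) (nat_lit 429) (nat_lit 256))))))))
noncomputable def xc163 : XT := (XT.nd (nat_lit 2340) (nat_lit 228) (nat_lit 0) (XT.nd (nat_lit 1170) (nat_lit 1216) (nat_lit 0) (XT.nd (nat_lit 546) (nat_lit 760) (nat_lit 0) (XT.nd (nat_lit 234) (nat_lit 380) (nat_lit 0) (XT.nd (nat_lit 78) (nat_lit 228) (nat_lit 0) (XT.lf (nat_lit 0) (nat_lit 317121462) (nat_lit 152) (nat_lit 32169367147) (nat_lit 228) (nat_lit 11780150292) (nat_lit 92) (nat_lit 5) (nat_lit 94) (nat_lit 5) (nat_lit 95) (nat_lit 5) (nat_lit 516) (nat_lit 429) (nat_lit 255)) (XT.nd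 (nat_lit 78) (nat_lit 152) (nat_lit 0) (XT.lf (nat_lit 0) (nat_lit 64569594) (nat_lit 228) (nat_lit 17717745063) (nat_lit 76) (nat_lit 27363434703) (nat_lit 91) (nat_lit 5) (nat_lit 94) (nat_lit 5) (nat_lit 92) (nat_lit 5) (nat_lit 517) (nat_lit 429) (nat_lit 254)) (XT.lf (nat_lit 0) (nat_lit 9357892619) (nat_lit 152) (nat_lit 2754901018) (nat_lit 228) (nat_lit 33932392671) (nat_lit 89) (nat_lit 5) (nat_lit 91) (nat_lit 5) (nat_lit 92) (nat_lit 5) (nat_lit 518) (nat_lit 429) (nat_lit 253)))) (XT.nd (nat_lit 156) (nat_lit 228) (nat_lit 0) (XT.nd (nat_lit 78) (nat_lit 152) (nat_lit 0) (XT.lf (nat_lit 0) (nat_lit 24820454436) (nat_lit 228) (nat_lit 9490399605) (nat_lit 76) (nat_lit 12651812806) (nat_lit 89) (nat_lit 5) (nat_lit 92) (nat_lit 5) (nat_lit 90) (nat_lit 5) (nat_lit 519) (nat_lit 429) (nat_lit 252)) (XT.lf (nat_lit 0) (nat_lit 18854222732) (nat_lit 152) (nat_lit 19258782178) (nat_lit 228) (nat_lit 9788557274)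 (nat_lit 87) (nat_lit 5) (nat_lit 89) (nat_lit 5) (nat_lit 90) (nat_lit 5) (nat_lit 520) (nat_lit 429) (nat_lit 251))) (XT.nd (nat_lit 78) (nat_lit 152) (nat_lit 0) (XT.lf (nat_lit 0) (nat_lit 2970359671) (nat_lit 228) (nat_lit 660016668) (nat_lit 76) (nat_lit 45234643464) (nat_lit 86) (nat_lit 5) (nat_lit 89) (nat_lit 5) (nat_lit 87) (nat_lit 5) (nat_lit 521) (nat_lit 429) (nat_lit 250)) (XT.lf (nat_lit 0) (nat_lit 16313276982) (nat_lit 228) (nat_lit 20929648492) (nat_lit 76) (nat_lit 12599609151) (nat_lit 84) (nat_lit 5) (nat_lit 87) (nat_lit 5) (nat_lit 85) (nat_lit 5) (nat_lit 522) (nat_lit 429) (nat_lit 249))))) (XT.nd (nat_lit 312) (nat_lit 456) (nat_lit 0) (XT.nd (nat_lit 156) (nat_lit 152) (nat_lit 0) (XT.nd (nat_lit 78) (nat_lit 0) (nat_lit 0) (XT.lf (nat_lit 0) (nat_lit 8661754574) (nat_lit 152) (nat_lit 21515979275) (nat_lit 228) (nat_lit 20668003641) (nat_lit 82) (nat_lit 5) (nat_lit 84) (nat_lit 5)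 (nat_lit 85) (nat_lit 5) (nat_lit 523) (nat_lit 429) (nat_lit 248)) (XT.lf (nat_lit 0) (nat_lit 39561433289) (nat_lit 152) (nat_lit 5103409033) (nat_lit 228) (nat_lit 7207992734) (nat_lit 82) (nat_lit 5) (nat_lit 84) (nat_lit 5) (nat_lit 85) (nat_lit 5) (nat_lit 524) (nat_lit 429) (nat_lit 247))) (XT.nd (nat_lit 78) (nat_lit 0) (nat_lit 0) (XT.lf (nat_lit 0) (nat_lit 6817469694) (nat_lit 152) (nat_lit 34288451611) (nat_lit 76) (nat_lit 11814159092) (nat_lit 80) (nat_lit 5) (nat_lit 82) (nat_lit 5) (nat_lit 81) (nat_lit 5) (nat_lit 525) (nat_lit 429) (nat_lit 246)) (XT.lf (nat_lit 0) (nat_lit 21290379388) (nat_lit 152) (nat_lit 3371180680) (nat_lit 76) (nat_lit 29329895472) (nat_lit 80) (nat_lit 5) (nat_lit 82) (nat_lit 5) (nat_lit 81) (nat_lit 5) (nat_lit 526) (nat_lit 429) (nat_lit 245)))) (XT.nd (nat_lit 156) (nat_lit 228) (nat_lit 0) (XT.nd (nat_lit 78) (nat_lit 76) (nat_lit 0) (XT.lf (nat_lit 0) (nat_lit 29032007836)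 (nat_lit 152) (nat_lit 7440149907) (nat_lit 228) (nat_lit 18614573892) (nat_lit 78) (nat_lit 5) (nat_lit 80) (nat_lit 5) (nat_lit 81) (nat_lit 5) (nat_lit 527) (nat_lit 429) (nat_lit 244)) (XT.lf (nat_lit 0) (nat_lit 6277589962) (nat_lit 76) (nat_lit 46021135663) (nat_lit 152) (nat_lit 3910460433) (nat_lit 77) (nat_lit 5) (nat_lit 78) (nat_lit 5) (nat_lit 79) (nat_lit 4) (nat_lit 528) (nat_lit 429) (nat_lit 243))) (XT.nd (nat_lit 78) (nat_lit 152) (nat_lit 0) (XT.lf (nat_lit 0) (nat_lit 11350547038) (nat_lit 152) (nat_lit 17435859137) (nat_lit 76) (nat_lit 28565618150) (nat_lit 76) (nat_lit 5) (nat_lit 78) (nat_lit 5) (nat_lit 77) (nat_lit 5) (nat_lit 529) (nat_lit 429) (nat_lit 242)) (XT.lf (nat_lit 0) (nat_lit 16306322594) (nat_lit 152) (nat_lit 10836969507) (nat_lit 228) (nat_lit 31380119127) (nat_lit 74) (nat_lit 5) (nat_lit 76) (nat_lit 5) (nat_lit 77) (nat_lit 5) (nat_lit 530) (nat_lit 429) (nat_lit 241))))))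 (XT.nd (nat_lit 546) (nat_lit 608) (nat_lit 0) (XT.nd (nat_lit 234) (nat_lit 304) (nat_lit 0) (XT.nd (nat_lit 78) (nat_lit 304) (nat_lit 0) (XT.lf (nat_lit 0) (nat_lit 43656947172) (nat_lit 228) (nat_lit 8389677276) (nat_lit 76) (nat_lit 7675901576) (nat_lit 74) (nat_lit 5) (nat_lit 77) (nat_lit 5) (nat_lit 75) (nat_lit 4) (nat_lit 531) (nat_lit 429) (nat_lit 240)) (XT.nd (nat_lit 78) (nat_lit 152) (nat_lit 0) (XT.lf (nat_lit 0) (nat_lit 79068170) (nat_lit 152) (nat_lit 34085806353) (nat_lit 76) (nat_lit 26781874534) (nat_lit 72) (nat_lit 5) (nat_lit 74) (nat_lit 5) (nat_lit 73) (nat_lit 5) (nat_lit 532) (nat_lit 429) (nat_lit 239)) (XT.lf (nat_lit 0) (nat_lit 987577280) (nat_lit 152) (nat_lit 15488526487) (nat_lit 228) (nat_lit 45724094626) (nat_lit 70) (nat_lit 5) (nat_lit 72) (nat_lit 5) (nat_lit 73) (nat_lit 5) (nat_lit 533) (nat_lit 429) (nat_lit 238)))) (XT.nd (nat_lit 156) (nat_lit 228) (nat_lit 0) (XT.nd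 (nat_lit 78) (nat_lit 76) (nat_lit 0) (XT.lf (nat_lit 0) (nat_lit 33744599315) (nat_lit 228) (nat_lit 25716180467) (nat_lit 76) (nat_lit 4019085066) (nat_lit 70) (nat_lit 5) (nat_lit 73) (nat_lit 5) (nat_lit 71) (nat_lit 4) (nat_lit 534) (nat_lit 429) (nat_lit 237)) (XT.lf (nat_lit 0) (nat_lit 10896958797) (nat_lit 76) (nat_lit 40888321988) (nat_lit 152) (nat_lit 13005016680) (nat_lit 69) (nat_lit 5) (nat_lit 70) (nat_lit 5) (nat_lit 71) (nat_lit 4) (nat_lit 535) (nat_lit 429) (nat_lit 236))) (XT.nd (nat_lit 78) (nat_lit 152) (nat_lit 0) (XT.lf (nat_lit 0) (nat_lit 4402943543) (nat_lit 152) (nat_lit 17047296211) (nat_lit 76) (nat_lit 44680835668) (nat_lit 68) (nat_lit 5) (nat_lit 70) (nat_lit 5) (nat_lit 69) (nat_lit 5) (nat_lit 536) (nat_lit 429) (nat_lit 235)) (XT.lf (nat_lit 0) (nat_lit 21181421488) (nat_lit 152) (nat_lit 1090093857) (nat_lit 228) (nat_lit 45230705768) (nat_lit 66) (nat_lit 5) (nat_lit 68) (nat_lit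 5) (nat_lit 69) (nat_lit 5) (nat_lit 537) (nat_lit 429) (nat_lit 234))))) (XT.nd (nat_lit 312) (nat_lit 304) (nat_lit 0) (XT.nd (nat_lit 156) (nat_lit 228) (nat_lit 0) (XT.nd (nat_lit 78) (nat_lit 76) (nat_lit 0) (XT.lf (nat_lit 0) (nat_lit 41037262142) (nat_lit 228) (nat_lit 8202974300) (nat_lit 76) (nat_lit 19663431287) (nat_lit 66) (nat_lit 5) (nat_lit 69) (nat_lit 5) (nat_lit 67) (nat_lit 4) (nat_lit 538) (nat_lit 429) (nat_lit 233)) (XT.lf (nat_lit 0) (nat_lit 31658292439) (nat_lit 76) (nat_lit 29019074787) (nat_lit 152) (nat_lit 9660449028) (nat_lit 65) (nat_lit 5) (nat_lit 66) (nat_lit 5) (nat_lit 67) (nat_lit 4) (nat_lit 539) (nat_lit 429) (nat_lit 232))) (XT.nd (nat_lit 78) (nat_lit 0) (nat_lit 0) (XT.lf (nat_lit 0) (nat_lit 995177909) (nat_lit 152) (nat_lit 8008595812) (nat_lit 228) (nat_lit 62805908780) (nat_lit 62) (nat_lit 5) (nat_lit 64) (nat_lit 5) (nat_lit 65) (nat_lit 5) (nat_lit 540) (nat_lit 429)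 (nat_lit 231)) (XT.lf (nat_lit 0) (nat_lit 28555541082) (nat_lit 228) (nat_lit 30898612056) (nat_lit 76) (nat_lit 13853028737) (nat_lit 62) (nat_lit 5) (nat_lit 65) (nat_lit 5) (nat_lit 63) (nat_lit 4) (nat_lit 541) (nat_lit 429) (nat_lit 230)))) (XT.nd (nat_lit 156) (nat_lit 228) (nat_lit 0) (XT.nd (nat_lit 78) (nat_lit 0) (nat_lit 0) (XT.lf (nat_lit 0) (nat_lit 10330167559) (nat_lit 76) (nat_lit 38538682758) (nat_lit 152) (nat_lit 25975506324) (nat_lit 61) (nat_lit 5) (nat_lit 62) (nat_lit 5) (nat_lit 63) (nat_lit 4) (nat_lit 542) (nat_lit 429) (nat_lit 229)) (XT.lf (nat_lit 0) (nat_lit 53422393778) (nat_lit 76) (nat_lit 16677615914) (nat_lit 152) (nat_lit 6318383507) (nat_lit 61) (nat_lit 5) (nat_lit 62) (nat_lit 5) (nat_lit 63) (nat_lit 4) (nat_lit 543) (nat_lit 429) (nat_lit 228))) (XT.nd (nat_lit 78) (nat_lit 0) (nat_lit 0) (XT.lf (nat_lit 0) (nat_lit 13904917833) (nat_lit 228) (nat_lit 58071510517) (nat_lit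 76) (nat_lit 6051758137) (nat_lit 58) (nat_lit 5) (nat_lit 61) (nat_lit 5) (nat_lit 59) (nat_lit 4) (nat_lit 544) (nat_lit 429) (nat_lit 227)) (XT.lf (nat_lit 0) (nat_lit 35004076354) (nat_lit 228) (nat_lit 15246649706) (nat_lit 76) (nat_lit 29421786295) (nat_lit 58) (nat_lit 5) (nat_lit 61) (nat_lit 5) (nat_lit 59) (nat_lit 4) (nat_lit 545) (nat_lit 429) (nat_lit 226))))))) (XT.nd (nat_lit 54366) (nat_lit 0) (nat_lit 14364) (XT.nd (nat_lit 53742) (nat_lit 0) (nat_lit 19456) (XT.nd (nat_lit 53430) (nat_lit 0) (nat_lit 19380) (XT.nd (nat_lit 78) (nat_lit 152) (nat_lit 0) (XT.lf (nat_lit 0) (nat_lit 29430764609) (nat_lit 76) (nat_lit 27584965928) (nat_lit 152) (nat_lit 24342051900) (nat_lit 57) (nat_lit 5) (nat_lit 58) (nat_lit 5) (nat_lit 59) (nat_lit 4) (nat_lit 546) (nat_lit 429) (nat_lit 225)) (XT.nd (nat_lit 78) (nat_lit 152) (nat_lit 0) (XT.lf (nat_lit 0) (nat_lit 75754613835) (nat_lit 76) (nat_lit 4083732982)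 (nat_lit 152) (nat_lit 3250745497) (nat_lit 57) (nat_lit 5) (nat_lit 58) (nat_lit 5) (nat_lit 59) (nat_lit 4) (nat_lit 547) (nat_lit 429) (nat_lit 224)) (XT.lf (nat_lit 0) (nat_lit 18685011589) (nat_lit 152) (nat_lit 45878276441) (nat_lit 76) (nat_lit 20286560454) (nat_lit 55) (nat_lit 5) (nat_lit 57) (nat_lit 5) (nat_lit 56) (nat_lit 4) (nat_lit 548) (nat_lit 429) (nat_lit 223)))) (XT.nd (nat_lit 156) (nat_lit 0) (nat_lit 0) (XT.nd (nat_lit 78) (nat_lit 1140) (nat_lit 0) (XT.lf (nat_lit 0) (nat_lit 5089193745) (nat_lit 1140) (nat_lit 33734839) (nat_lit 1140) (nat_lit 33734839) (nat_lit 325) (nat_lit 3) (nat_lit 340) (nat_lit 3) (nat_lit 340) (nat_lit 5) (nat_lit 430) (nat_lit 430) (nat_lit 340)) (XT.lf (nat_lit 0) (nat_lit 570721059) (nat_lit 1140) (nat_lit 5322055457) (nat_lit 1216) (nat_lit 4554043676) (nat_lit 310) (nat_lit 5) (nat_lit 325) (nat_lit 3) (nat_lit 326) (nat_lit 5) (nat_lit 431) (nat_lit 430) (nat_lit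 339))) (XT.nd (nat_lit 78) (nat_lit 0) (nat_lit 76) (XT.lf (nat_lit 0) (nat_lit 1269827241) (nat_lit 1140) (nat_lit 125306044) (nat_lit 1216) (nat_lit 9189899062) (nat_lit 310) (nat_lit 5) (nat_lit 325) (nat_lit 3) (nat_lit 326) (nat_lit 5) (nat_lit 432) (nat_lit 430) (nat_lit 338)) (XT.lf (nat_lit 0) (nat_lit 2047809466) (nat_lit 1140) (nat_lit 5440645697) (nat_lit 1216) (nat_lit 3237202244) (nat_lit 311) (nat_lit 5) (nat_lit 326) (nat_lit 5) (nat_lit 327) (nat_lit 5) (nat_lit 433) (nat_lit 430) (nat_lit 337))))) (XT.nd (nat_lit 312) (nat_lit 0) (nat_lit 152) (XT.nd (nat_lit 156) (nat_lit 0) (nat_lit 76) (XT.nd (nat_lit 78) (nat_lit 0) (nat_lit 76) (XT.lf (nat_lit 0) (nat_lit 2839976321) (nat_lit 1140) (nat_lit 38202610) (nat_lit 1216) (nat_lit 7992600453) (nat_lit 311) (nat_lit 5) (nat_lit 326) (nat_lit 5) (nat_lit 327) (nat_lit 5) (nat_lit 434) (nat_lit 430) (nat_lit 336)) (XT.lf (nat_lit 0) (nat_lit 3705022671)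 (nat_lit 1140) (nat_lit 5415636928) (nat_lit 1216) (nat_lit 1898125405) (nat_lit 312) (nat_lit 5) (nat_lit 327) (nat_lit 5) (nat_lit 328) (nat_lit 5) (nat_lit 435) (nat_lit 430) (nat_lit 335))) (XT.nd (nat_lit 78) (nat_lit 0) (nat_lit 76) (XT.lf (nat_lit 76) (nat_lit 204432900) (nat_lit 0) (nat_lit 4399544910) (nat_lit 1216) (nat_lit 6567017580) (nat_lit 313) (nat_lit 5) (nat_lit 312) (nat_lit 5) (nat_lit 328) (nat_lit 5) (nat_lit 436) (nat_lit 430) (nat_lit 334)) (XT.lf (nat_lit 0) (nat_lit 5567297272) (nat_lit 1140) (nat_lit 5241975982) (nat_lit 1216) (nat_lit 517380184) (nat_lit 313) (nat_lit 5) (nat_lit 328) (nat_lit 5) (nat_lit 329) (nat_lit 5) (nat_lit 437) (nat_lit 430) (nat_lit 333)))) (XT.nd (nat_lit 156) (nat_lit 0) (nat_lit 76) (XT.nd (nat_lit 78) (nat_lit 0) (nat_lit 0) (XT.lf (nat_lit 76) (nat_lit 608120390) (nat_lit 0) (nat_lit 5979164803) (nat_lit 1216) (nat_lit 4898866096) (nat_lit 314) (nat_lit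 5) (nat_lit 313) (nat_lit 5) (nat_lit 329) (nat_lit 5) (nat_lit 438) (nat_lit 430) (nat_lit 332)) (XT.lf (nat_lit 76) (nat_lit 6726783019) (nat_lit 0) (nat_lit 942878662) (nat_lit 1216) (nat_lit 3979821765) (nat_lit 314) (nat_lit 5) (nat_lit 313) (nat_lit 5) (nat_lit 329) (nat_lit 5) (nat_lit 439) (nat_lit 430) (nat_lit 331))) (XT.nd (nat_lit 78) (nat_lit 0) (nat_lit 0) (XT.lf (nat_lit 76) (nat_lit 1178837985) (nat_lit 0) (nat_lit 7637338018) (nat_lit 1216) (nat_lit 3000592516) (nat_lit 315) (nat_lit 5) (nat_lit 314) (nat_lit 5) (nat_lit 330) (nat_lit 5) (nat_lit 440) (nat_lit 430) (nat_lit 330)) (XT.lf (nat_lit 76) (nat_lit 7540300876) (nat_lit 0) (nat_lit 2495729149) (nat_lit 1216) (nat_lit 1951876653) (nat_lit 315) (nat_lit 5) (nat_lit 314) (nat_lit 5) (nat_lit 330) (nat_lit 5) (nat_lit 441) (nat_lit 430) (nat_lit 329)))))) (XT.nd (nat_lit 624) (nat_lit 3116) (nat_lit 0) (XT.nd (nat_lit 312) (nat_lit 1064) (nat_lit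 0) (XT.nd (nat_lit 156) (nat_lit 0) (nat_lit 76) (XT.nd (nat_lit 78) (nat_lit 1216) (nat_lit 0) (XT.lf (nat_lit 76) (nat_lit 1924337666) (nat_lit 0) (nat_lit 9394181305) (nat_lit 1216) (nat_lit 844881613) (nat_lit 316) (nat_lit 5) (nat_lit 315) (nat_lit 5) (nat_lit 331) (nat_lit 5) (nat_lit 442) (nat_lit 430) (nat_lit 328)) (XT.lf (nat_lit 0) (nat_lit 340486153) (nat_lit 1216) (nat_lit 3807159058) (nat_lit 1292) (nat_lit 8194903779) (nat_lit 299) (nat_lit 5) (nat_lit 315) (nat_lit 5) (nat_lit 316) (nat_lit 5) (nat_lit 443) (nat_lit 430) (nat_lit 327))) (XT.nd (nat_lit 78) (nat_lit 0) (nat_lit 0) (XT.lf (nat_lit 0) (nat_lit 1565719285) (nat_lit 1216) (nat_lit 9688597886) (nat_lit 1292) (nat_lit 1271867695) (nat_lit 300) (nat_lit 5) (nat_lit 316) (nat_lit 5) (nat_lit 317) (nat_lit 5) (nat_lit 444) (nat_lit 430) (nat_lit 326)) (XT.lf (nat_lit 0) (nat_lit 2889456398) (nat_lit 1216) (nat_lit 3010874979) (nat_lit 1292)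 (nat_lit 6813148502) (nat_lit 300) (nat_lit 5) (nat_lit 316) (nat_lit 5) (nat_lit 317) (nat_lit 5) (nat_lit 445) (nat_lit 430) (nat_lit 325)))) (XT.nd (nat_lit 156) (nat_lit 1140) (nat_lit 0) (XT.nd (nat_lit 78) (nat_lit 0) (nat_lit 76) (XT.lf (nat_lit 76) (nat_lit 3929320343) (nat_lit 0) (nat_lit 343740495) (nat_lit 1292) (nat_lit 8632730646) (nat_lit 301) (nat_lit 5) (nat_lit 300) (nat_lit 5) (nat_lit 317) (nat_lit 5) (nat_lit 446) (nat_lit 430) (nat_lit 324)) (XT.lf (nat_lit 0) (nat_lit 5763376190) (nat_lit 1216) (nat_lit 2030470260) (nat_lit 76) (nat_lit 5308072231) (nat_lit 301) (nat_lit 5) (nat_lit 317) (nat_lit 5) (nat_lit 302) (nat_lit 5) (nat_lit 447) (nat_lit 430) (nat_lit 323))) (XT.nd (nat_lit 78) (nat_lit 0) (nat_lit 0) (XT.lf (nat_lit 0) (nat_lit 5207622955) (nat_lit 1216) (nat_lit 2127527954) (nat_lit 1292) (nat_lit 5967678548) (nat_lit 285) (nat_lit 5) (nat_lit 301) (nat_lit 5) (nat_lit 302) (nat_lit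 5) (nat_lit 448) (nat_lit 430) (nat_lit 322)) (XT.lf (nat_lit 0) (nat_lit 8994092345) (nat_lit 1292) (nat_lit 855398851) (nat_lit 76) (nat_lit 3659078149) (nat_lit 285) (nat_lit 5) (nat_lit 302) (nat_lit 5) (nat_lit 286) (nat_lit 5) (nat_lit 449) (nat_lit 430) (nat_lit 321))))) (XT.nd (nat_lit 312) (nat_lit 1064) (nat_lit 0) (XT.nd (nat_lit 156) (nat_lit 684) (nat_lit 0) (XT.nd (nat_lit 78) (nat_lit 608) (nat_lit 0) (XT.lf (nat_lit 0) (nat_lit 6696775883) (nat_lit 760) (nat_lit 4075595967) (nat_lit 836) (nat_lit 2946024616) (nat_lit 275) (nat_lit 5) (nat_lit 285) (nat_lit 5) (nat_lit 286) (nat_lit 5) (nat_lit 450) (nat_lit 430) (nat_lit 320)) (XT.lf (nat_lit 0) (nat_lit 536403419) (nat_lit 608) (nat_lit 12083934470) (nat_lit 684) (nat_lit 1313692434) (nat_lit 267) (nat_lit 5) (nat_lit 275) (nat_lit 5) (nat_lit 276) (nat_lit 5) (nat_lit 451) (nat_lit 430) (nat_lit 319))) (XT.nd (nat_lit 78) (nat_lit 608) (nat_lit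 0) (XT.lf (nat_lit 0) (nat_lit 457022804) (nat_lit 684) (nat_lit 5748432218) (nat_lit 76) (nat_lit 7947676517) (nat_lit 266) (nat_lit 5) (nat_lit 275) (nat_lit 5) (nat_lit 267) (nat_lit 5) (nat_lit 452) (nat_lit 430) (nat_lit 318)) (XT.lf (nat_lit 0) (nat_lit 2144572513) (nat_lit 608) (nat_lit 115573177) (nat_lit 684) (nat_lit 12118101087) (nat_lit 258) (nat_lit 5) (nat_lit 266) (nat_lit 5) (nat_lit 267) (nat_lit 5) (nat_lit 453) (nat_lit 430) (nat_lit 317)))) (XT.nd (nat_lit 156) (nat_lit 532) (nat_lit 0) (XT.nd (nat_lit 78) (nat_lit 532) (nat_lit 0) (XT.lf (nat_lit 0) (nat_lit 4220544101) (nat_lit 684) (nat_lit 4290737312) (nat_lit 76) (nat_lit 6095740440) (nat_lit 258) (nat_lit 5) (nat_lit 267) (nat_lit 5) (nat_lit 259) (nat_lit 5) (nat_lit 454) (nat_lit 430) (nat_lit 316)) (XT.lf (nat_lit 0) (nat_lit 3952085941) (nat_lit 532) (nat_lit 2312602983) (nat_lit 608) (nat_lit 8577225009) (nat_lit 251) (nat_lit 5) (nat_lit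 258) (nat_lit 5) (nat_lit 259) (nat_lit 5) (nat_lit 455) (nat_lit 430) (nat_lit 315))) (XT.nd (nat_lit 78) (nat_lit 532) (nat_lit 0) (XT.lf (nat_lit 0) (nat_lit 8439132048) (nat_lit 608) (nat_lit 2606627432) (nat_lit 76) (nat_lit 4036025807) (nat_lit 251) (nat_lit 5) (nat_lit 259) (nat_lit 5) (nat_lit 252) (nat_lit 5) (nat_lit 456) (nat_lit 430) (nat_lit 314)) (XT.lf (nat_lit 0) (nat_lit 6005128123) (nat_lit 532) (nat_lit 4740782010) (nat_lit 608) (nat_lit 4580931280) (nat_lit 244) (nat_lit 5) (nat_lit 251) (nat_lit 5) (nat_lit 252) (nat_lit 5) (nat_lit 457) (nat_lit 430) (nat_lit 313))))))))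
noncomputable def xc164 : XT := (XT.nd (nat_lit 2340) (nat_lit 4408) (nat_lit 0) (XT.nd (nat_lit 1170) (nat_lit 2812) (nat_lit 0) (XT.nd (nat_lit 546) (nat_lit 2280) (nat_lit 0) (XT.nd (nat_lit 234) (nat_lit 912) (nat_lit 0) (XT.nd (nat_lit 78) (nat_lit 1140) (nat_lit 0) (XT.lf (nat_lit 0) (nat_lit 13152058334) (nat_lit 608) (nat_lit 681382495) (nat_lit 76) (nat_lit 1744905023) (nat_lit 244) (nat_lit 5) (nat_lit 252) (nat_lit 5) (nat_lit 245) (nat_lit 5) (nat_lit 458) (nat_lit 430) (nat_lit 312)) (XT.nd (nat_lit 78) (nat_lit 608) (nat_lit 0) (XT.lf (nat_lit 0) (nat_lit 8319507281) (nat_lit 532) (nat_lit 7424910944) (nat_lit 608) (nat_lit 89557968) (nat_lit 237) (nat_lit 5) (nat_lit 244) (nat_lit 5) (nat_lit 245) (nat_lit 5) (nat_lit 459) (nat_lit 430) (nat_lit 311)) (XT.lf (nat_lit 0) (nat_lit 1500077262) (nat_lit 532) (nat_lit 780577656) (nat_lit 608) (nat_lit 13815695772) (nat_lit 229) (nat_lit 5) (nat_lit 236)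 (nat_lit 5) (nat_lit 237) (nat_lit 5) (nat_lit 460) (nat_lit 430) (nat_lit 310)))) (XT.nd (nat_lit 156) (nat_lit 456) (nat_lit 0) (XT.nd (nat_lit 78) (nat_lit 456) (nat_lit 0) (XT.lf (nat_lit 0) (nat_lit 4842542888) (nat_lit 608) (nat_lit 5499538876) (nat_lit 76) (nat_lit 6020818448) (nat_lit 229) (nat_lit 5) (nat_lit 237) (nat_lit 5) (nat_lit 230) (nat_lit 5) (nat_lit 461) (nat_lit 430) (nat_lit 309)) (XT.lf (nat_lit 0) (nat_lit 3924981239) (nat_lit 456) (nat_lit 3589583419) (nat_lit 532) (nat_lit 9121884654) (nat_lit 223) (nat_lit 5) (nat_lit 229) (nat_lit 5) (nat_lit 230) (nat_lit 5) (nat_lit 462) (nat_lit 430) (nat_lit 308))) (XT.nd (nat_lit 78) (nat_lit 456) (nat_lit 0) (XT.lf (nat_lit 0) (nat_lit 10343205612) (nat_lit 532) (nat_lit 3218651230) (nat_lit 76) (nat_lit 3354055655) (nat_lit 223) (nat_lit 5) (nat_lit 230) (nat_lit 5) (nat_lit 224) (nat_lit 5) (nat_lit 463) (nat_lit 430) (nat_lit 307)) (XT.lf (nat_lit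 0) (nat_lit 6639193887) (nat_lit 456) (nat_lit 6705244151) (nat_lit 532) (nat_lit 3856690897) (nat_lit 217) (nat_lit 5) (nat_lit 223) (nat_lit 5) (nat_lit 224) (nat_lit 5) (nat_lit 464) (nat_lit 430) (nat_lit 306))))) (XT.nd (nat_lit 312) (nat_lit 1292) (nat_lit 0) (XT.nd (nat_lit 156) (nat_lit 456) (nat_lit 0) (XT.nd (nat_lit 78) (nat_lit 532) (nat_lit 0) (XT.lf (nat_lit 0) (nat_lit 16460521799) (nat_lit 532) (nat_lit 652885402) (nat_lit 76) (nat_lit 380751526) (nat_lit 217) (nat_lit 5) (nat_lit 224) (nat_lit 5) (nat_lit 218) (nat_lit 5) (nat_lit 465) (nat_lit 430) (nat_lit 305)) (XT.lf (nat_lit 0) (nat_lit 1987161094) (nat_lit 532) (nat_lit 8148981050) (nat_lit 76) (nat_lit 7654809338) (nat_lit 210) (nat_lit 5) (nat_lit 217) (nat_lit 5) (nat_lit 211) (nat_lit 5) (nat_lit 466) (nat_lit 430) (nat_lit 304))) (XT.nd (nat_lit 78) (nat_lit 0) (nat_lit 0) (XT.lf (nat_lit 0) (nat_lit 2181230413) (nat_lit 456) (nat_lit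 2913179742) (nat_lit 532) (nat_lit 13001433959) (nat_lit 204) (nat_lit 5) (nat_lit 210) (nat_lit 5) (nat_lit 211) (nat_lit 5) (nat_lit 467) (nat_lit 430) (nat_lit 303)) (XT.lf (nat_lit 0) (nat_lit 8410633633) (nat_lit 532) (nat_lit 5477152326) (nat_lit 76) (nat_lit 4518626002) (nat_lit 204) (nat_lit 5) (nat_lit 211) (nat_lit 5) (nat_lit 205) (nat_lit 5) (nat_lit 468) (nat_lit 430) (nat_lit 302)))) (XT.nd (nat_lit 156) (nat_lit 912) (nat_lit 0) (XT.nd (nat_lit 78) (nat_lit 0) (nat_lit 0) (XT.lf (nat_lit 0) (nat_lit 5335296639) (nat_lit 380) (nat_lit 6560635180) (nat_lit 456) (nat_lit 6828278495) (nat_lit 199) (nat_lit 5) (nat_lit 204) (nat_lit 5) (nat_lit 205) (nat_lit 5) (nat_lit 469) (nat_lit 430) (nat_lit 301)) (XT.lf (nat_lit 0) (nat_lit 15540736251) (nat_lit 456) (nat_lit 2489073151) (nat_lit 76) (nat_lit 1020085877) (nat_lit 199) (nat_lit 5) (nat_lit 205) (nat_lit 5) (nat_lit 200) (nat_lit 5) (nat_lit 470)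 (nat_lit 430) (nat_lit 300))) (XT.nd (nat_lit 78) (nat_lit 380) (nat_lit 0) (XT.lf (nat_lit 0) (nat_lit 52450014) (nat_lit 532) (nat_lit 10549684766) (nat_lit 76) (nat_lit 8779008598) (nat_lit 192) (nat_lit 5) (nat_lit 199) (nat_lit 5) (nat_lit 193) (nat_lit 5) (nat_lit 471) (nat_lit 430) (nat_lit 299)) (XT.lf (nat_lit 0) (nat_lit 788210033) (nat_lit 380) (nat_lit 2885108980) (nat_lit 456) (nat_lit 16047280301) (nat_lit 187) (nat_lit 5) (nat_lit 192) (nat_lit 5) (nat_lit 193) (nat_lit 5) (nat_lit 472) (nat_lit 430) (nat_lit 298)))))) (XT.nd (nat_lit 546) (nat_lit 1368) (nat_lit 0) (XT.nd (nat_lit 234) (nat_lit 1064) (nat_lit 0) (XT.nd (nat_lit 78) (nat_lit 380) (nat_lit 0) (XT.lf (nat_lit 0) (nat_lit 7549189259) (nat_lit 456) (nat_lit 7447638979) (nat_lit 76) (nat_lit 5069020394) (nat_lit 187) (nat_lit 5) (nat_lit 193) (nat_lit 5) (nat_lit 188) (nat_lit 5) (nat_lit 473) (nat_lit 430) (nat_lit 297)) (XT.nd (nat_lit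 78) (nat_lit 0) (nat_lit 0) (XT.lf (nat_lit 0) (nat_lit 4426486122) (nat_lit 380) (nat_lit 7176369402) (nat_lit 456) (nat_lit 8816755238) (nat_lit 182) (nat_lit 5) (nat_lit 187) (nat_lit 5) (nat_lit 188) (nat_lit 5) (nat_lit 474) (nat_lit 430) (nat_lit 296)) (XT.lf (nat_lit 0) (nat_lit 15853057114) (nat_lit 456) (nat_lit 3994519549) (nat_lit 76) (nat_lit 934162237) (nat_lit 182) (nat_lit 5) (nat_lit 188) (nat_lit 5) (nat_lit 183) (nat_lit 5) (nat_lit 475) (nat_lit 430) (nat_lit 295)))) (XT.nd (nat_lit 156) (nat_lit 684) (nat_lit 0) (XT.nd (nat_lit 78) (nat_lit 76) (nat_lit 0) (XT.lf (nat_lit 0) (nat_lit 8445062753) (nat_lit 304) (nat_lit 11928737699) (nat_lit 380) (nat_lit 776640238) (nat_lit 178) (nat_lit 5) (nat_lit 182) (nat_lit 5) (nat_lit 183) (nat_lit 5) (nat_lit 476) (nat_lit 430) (nat_lit 294)) (XT.lf (nat_lit 0) (nat_lit 3463261638) (nat_lit 380) (nat_lit 236099710) (nat_lit 76) (nat_lit 17828885819) (nat_lit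 177) (nat_lit 5) (nat_lit 182) (nat_lit 5) (nat_lit 178) (nat_lit 5) (nat_lit 477) (nat_lit 430) (nat_lit 293))) (XT.nd (nat_lit 78) (nat_lit 304) (nat_lit 0) (XT.lf (nat_lit 0) (nat_lit 7976462827) (nat_lit 456) (nat_lit 9123235158) (nat_lit 76) (nat_lit 4812608614) (nat_lit 172) (nat_lit 5) (nat_lit 178) (nat_lit 5) (nat_lit 173) (nat_lit 5) (nat_lit 478) (nat_lit 430) (nat_lit 292)) (XT.lf (nat_lit 0) (nat_lit 3929535518) (nat_lit 304) (nat_lit 8763564937) (nat_lit 380) (nat_lit 9612746926) (nat_lit 168) (nat_lit 5) (nat_lit 172) (nat_lit 5) (nat_lit 173) (nat_lit 5) (nat_lit 479) (nat_lit 430) (nat_lit 291))))) (XT.nd (nat_lit 312) (nat_lit 684) (nat_lit 0) (XT.nd (nat_lit 156) (nat_lit 380) (nat_lit 0) (XT.nd (nat_lit 78) (nat_lit 304) (nat_lit 0) (XT.lf (nat_lit 0) (nat_lit 17548515202) (nat_lit 304) (nat_lit 86217270) (nat_lit 380) (nat_lit 5073957814) (nat_lit 168) (nat_lit 5) (nat_lit 172) (nat_lit 5) (nat_lit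 173) (nat_lit 5) (nat_lit 480) (nat_lit 430) (nat_lit 290)) (XT.lf (nat_lit 0) (nat_lit 8521395739) (nat_lit 304) (nat_lit 14361800925) (nat_lit 380) (nat_lit 235665052) (nat_lit 164) (nat_lit 5) (nat_lit 168) (nat_lit 5) (nat_lit 169) (nat_lit 5) (nat_lit 481) (nat_lit 430) (nat_lit 289))) (XT.nd (nat_lit 78) (nat_lit 304) (nat_lit 0) (XT.lf (nat_lit 0) (nat_lit 4700238041) (nat_lit 380) (nat_lit 879885735) (nat_lit 76) (nat_lit 17958492816) (nat_lit 163) (nat_lit 5) (nat_lit 168) (nat_lit 5) (nat_lit 164) (nat_lit 5) (nat_lit 482) (nat_lit 430) (nat_lit 288)) (XT.lf (nat_lit 0) (nat_lit 9935689261) (nat_lit 380) (nat_lit 10503471443) (nat_lit 76) (nat_lit 3527047855) (nat_lit 159) (nat_lit 5) (nat_lit 164) (nat_lit 5) (nat_lit 160) (nat_lit 5) (nat_lit 483) (nat_lit 430) (nat_lit 287)))) (XT.nd (nat_lit 156) (nat_lit 380) (nat_lit 0) (XT.nd (nat_lit 78) (nat_lit 0) (nat_lit 0) (XT.lf (nat_lit 0) (nat_lit 3855181758)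 (nat_lit 304) (nat_lit 11566263162) (nat_lit 380) (nat_lit 8982386789) (nat_lit 155) (nat_lit 5) (nat_lit 159) (nat_lit 5) (nat_lit 160) (nat_lit 5) (nat_lit 484) (nat_lit 430) (nat_lit 286)) (XT.lf (nat_lit 0) (nat_lit 18847999583) (nat_lit 304) (nat_lit 2321918537) (nat_lit 380) (nat_lit 3681721722) (nat_lit 155) (nat_lit 5) (nat_lit 159) (nat_lit 5) (nat_lit 160) (nat_lit 5) (nat_lit 485) (nat_lit 430) (nat_lit 285))) (XT.nd (nat_lit 78) (nat_lit 0) (nat_lit 0) (XT.lf (nat_lit 0) (nat_lit 1893446008) (nat_lit 380) (nat_lit 16253163826) (nat_lit 76) (nat_lit 7161254941) (nat_lit 150) (nat_lit 5) (nat_lit 155) (nat_lit 5) (nat_lit 151) (nat_lit 5) (nat_lit 486) (nat_lit 430) (nat_lit 284)) (XT.lf (nat_lit 0) (nat_lit 7638395413) (nat_lit 380) (nat_lit 1159930329) (nat_lit 76) (nat_lit 16976061945) (nat_lit 150) (nat_lit 5) (nat_lit 155) (nat_lit 5) (nat_lit 151) (nat_lit 5) (nat_lit 487) (nat_lit 430) (nat_lit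 283))))))) (XT.nd (nat_lit 1170) (nat_lit 1976) (nat_lit 0) (XT.nd (nat_lit 546) (nat_lit 1064) (nat_lit 0) (XT.nd (nat_lit 234) (nat_lit 836) (nat_lit 0) (XT.nd (nat_lit 78) (nat_lit 228) (nat_lit 0) (XT.lf (nat_lit 0) (nat_lit 13698495699) (nat_lit 380) (nat_lit 11599506530) (nat_lit 76) (nat_lit 952620550) (nat_lit 146) (nat_lit 5) (nat_lit 151) (nat_lit 5) (nat_lit 147) (nat_lit 5) (nat_lit 488) (nat_lit 430) (nat_lit 282)) (XT.nd (nat_lit 78) (nat_lit 0) (nat_lit 0) (XT.lf (nat_lit 0) (nat_lit 4202741813) (nat_lit 228) (nat_lit 15869602861) (nat_lit 304) (nat_lit 6664842425) (nat_lit 143) (nat_lit 5) (nat_lit 146) (nat_lit 5) (nat_lit 147) (nat_lit 5) (nat_lit 489) (nat_lit 430) (nat_lit 281)) (XT.lf (nat_lit 0) (nat_lit 20705430209) (nat_lit 228) (nat_lit 6041822149) (nat_lit 304) (nat_lit 487801224) (nat_lit 143) (nat_lit 5) (nat_lit 146) (nat_lit 5) (nat_lit 147) (nat_lit 5) (nat_lit 490) (nat_lit 430) (nat_lit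 280)))) (XT.nd (nat_lit 156) (nat_lit 456) (nat_lit 0) (XT.nd (nat_lit 78) (nat_lit 0) (nat_lit 0) (XT.lf (nat_lit 0) (nat_lit 5890414911) (nat_lit 380) (nat_lit 17699734861) (nat_lit 76) (nat_lit 4152097775) (nat_lit 138) (nat_lit 5) (nat_lit 143) (nat_lit 5) (nat_lit 139) (nat_lit 5) (nat_lit 491) (nat_lit 430) (nat_lit 279)) (XT.lf (nat_lit 0) (nat_lit 12569497537) (nat_lit 380) (nat_lit 1093597413) (nat_lit 76) (nat_lit 14597838246) (nat_lit 138) (nat_lit 5) (nat_lit 143) (nat_lit 5) (nat_lit 139) (nat_lit 5) (nat_lit 492) (nat_lit 430) (nat_lit 278))) (XT.nd (nat_lit 78) (nat_lit 228) (nat_lit 0) (XT.lf (nat_lit 0) (nat_lit 16318200236) (nat_lit 228) (nat_lit 3280734362) (nat_lit 304) (nat_lit 9191745828) (nat_lit 135) (nat_lit 5) (nat_lit 138) (nat_lit 5) (nat_lit 139) (nat_lit 5) (nat_lit 493) (nat_lit 430) (nat_lit 277)) (XT.lf (nat_lit 0) (nat_lit 4953055787) (nat_lit 228) (nat_lit 22009401048) (nat_lit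 304) (nat_lit 2370167634) (nat_lit 132) (nat_lit 5) (nat_lit 135) (nat_lit 5) (nat_lit 136) (nat_lit 5) (nat_lit 494) (nat_lit 430) (nat_lit 276))))) (XT.nd (nat_lit 312) (nat_lit 532) (nat_lit 0) (XT.nd (nat_lit 156) (nat_lit 228) (nat_lit 0) (XT.nd (nat_lit 78) (nat_lit 228) (nat_lit 0) (XT.lf (nat_lit 0) (nat_lit 4718083930) (nat_lit 304) (nat_lit 6819539400) (nat_lit 76) (nat_lit 18347274755) (nat_lit 131) (nat_lit 5) (nat_lit 135) (nat_lit 5) (nat_lit 132) (nat_lit 5) (nat_lit 495) (nat_lit 430) (nat_lit 275)) (XT.lf (nat_lit 0) (nat_lit 11456670037) (nat_lit 228) (nat_lit 618206772) (nat_lit 304) (nat_lit 18375053555) (nat_lit 128) (nat_lit 5) (nat_lit 131) (nat_lit 5) (nat_lit 132) (nat_lit 5) (nat_lit 496) (nat_lit 430) (nat_lit 274))) (XT.nd (nat_lit 78) (nat_lit 228) (nat_lit 0) (XT.lf (nat_lit 0) (nat_lit 19817543709) (nat_lit 304) (nat_lit 722506071) (nat_lit 76) (nat_lit 10486909132) (nat_lit 128) (nat_lit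 5) (nat_lit 132) (nat_lit 5) (nat_lit 129) (nat_lit 5) (nat_lit 497) (nat_lit 430) (nat_lit 273)) (XT.lf (nat_lit 0) (nat_lit 18439621212) (nat_lit 228) (nat_lit 9529887822) (nat_lit 304) (nat_lit 3646479124) (nat_lit 125) (nat_lit 5) (nat_lit 128) (nat_lit 5) (nat_lit 129) (nat_lit 5) (nat_lit 498) (nat_lit 430) (nat_lit 272)))) (XT.nd (nat_lit 156) (nat_lit 228) (nat_lit 0) (XT.nd (nat_lit 78) (nat_lit 0) (nat_lit 0) (XT.lf (nat_lit 0) (nat_lit 4139961014) (nat_lit 304) (nat_lit 26201760163) (nat_lit 76) (nat_lit 1877448599) (nat_lit 121) (nat_lit 5) (nat_lit 125) (nat_lit 5) (nat_lit 122) (nat_lit 5) (nat_lit 499) (nat_lit 430) (nat_lit 271)) (XT.lf (nat_lit 0) (nat_lit 12309144779) (nat_lit 304) (nat_lit 6921651072) (nat_lit 76) (nat_lit 13601895010) (nat_lit 121) (nat_lit 5) (nat_lit 125) (nat_lit 5) (nat_lit 122) (nat_lit 5) (nat_lit 500) (nat_lit 430) (nat_lit 270))) (XT.nd (nat_lit 78) (nat_lit 0) (nat_lit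 0) (XT.lf (nat_lit 0) (nat_lit 13183911840) (nat_lit 228) (nat_lit 7660120028) (nat_lit 304) (nat_lit 12616967226) (nat_lit 118) (nat_lit 5) (nat_lit 121) (nat_lit 5) (nat_lit 122) (nat_lit 5) (nat_lit 501) (nat_lit 430) (nat_lit 269)) (XT.lf (nat_lit 0) (nat_lit 29740417306) (nat_lit 304) (nat_lit 123407064) (nat_lit 76) (nat_lit 4241168994) (nat_lit 118) (nat_lit 5) (nat_lit 122) (nat_lit 5) (nat_lit 119) (nat_lit 5) (nat_lit 502) (nat_lit 430) (nat_lit 268)))))) (XT.nd (nat_lit 546) (nat_lit 912) (nat_lit 0) (XT.nd (nat_lit 234) (nat_lit 608) (nat_lit 0) (XT.nd (nat_lit 78) (nat_lit 228) (nat_lit 0) (XT.lf (nat_lit 0) (nat_lit 4328795703) (nat_lit 228) (nat_lit 13844554509) (nat_lit 76) (nat_lit 16585541861) (nat_lit 115) (nat_lit 5) (nat_lit 118) (nat_lit 5) (nat_lit 116) (nat_lit 5) (nat_lit 503) (nat_lit 430) (nat_lit 267)) (XT.nd (nat_lit 78) (nat_lit 0) (nat_lit 0) (XT.lf (nat_lit 0) (nat_lit 7241477905)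 (nat_lit 228) (nat_lit 6018767702) (nat_lit 304) (nat_lit 22168916019) (nat_lit 112) (nat_lit 5) (nat_lit 115) (nat_lit 5) (nat_lit 116) (nat_lit 5) (nat_lit 504) (nat_lit 430) (nat_lit 266)) (XT.lf (nat_lit 0) (nat_lit 22657481626) (nat_lit 304) (nat_lit 6945338883) (nat_lit 76) (nat_lit 6510783781) (nat_lit 112) (nat_lit 5) (nat_lit 116) (nat_lit 5) (nat_lit 113) (nat_lit 5) (nat_lit 505) (nat_lit 430) (nat_lit 265)))) (XT.nd (nat_lit 156) (nat_lit 152) (nat_lit 0) (XT.nd (nat_lit 78) (nat_lit 304) (nat_lit 0) (XT.lf (nat_lit 0) (nat_lit 15160803830) (nat_lit 152) (nat_lit 17375496656) (nat_lit 228) (nat_lit 4276290069) (nat_lit 110) (nat_lit 5) (nat_lit 112) (nat_lit 5) (nat_lit 113) (nat_lit 5) (nat_lit 506) (nat_lit 430) (nat_lit 264)) (XT.lf (nat_lit 0) (nat_lit 491433315) (nat_lit 228) (nat_lit 4656352931) (nat_lit 304) (nat_lit 32381169692) (nat_lit 106) (nat_lit 5) (nat_lit 109) (nat_lit 5) (nat_lit 110)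 (nat_lit 5) (nat_lit 507) (nat_lit 430) (nat_lit 263))) (XT.nd (nat_lit 78) (nat_lit 152) (nat_lit 0) (XT.lf (nat_lit 0) (nat_lit 15065001759) (nat_lit 304) (nat_lit 14652912076) (nat_lit 76) (nat_lit 8538737548) (nat_lit 106) (nat_lit 5) (nat_lit 110) (nat_lit 5) (nat_lit 107) (nat_lit 5) (nat_lit 508) (nat_lit 430) (nat_lit 262)) (XT.lf (nat_lit 0) (nat_lit 8513780751) (nat_lit 152) (nat_lit 16888446955) (nat_lit 228) (nat_lit 13600275427) (nat_lit 104) (nat_lit 5) (nat_lit 106) (nat_lit 5) (nat_lit 107) (nat_lit 5) (nat_lit 509) (nat_lit 430) (nat_lit 261))))) (XT.nd (nat_lit 312) (nat_lit 532) (nat_lit 0) (XT.nd (nat_lit 156) (nat_lit 152) (nat_lit 0) (XT.nd (nat_lit 78) (nat_lit 228) (nat_lit 0) (XT.lf (nat_lit 0) (nat_lit 32666449655) (nat_lit 152) (nat_lit 3525706628) (nat_lit 228) (nat_lit 3574296830) (nat_lit 104) (nat_lit 5) (nat_lit 106) (nat_lit 5) (nat_lit 107) (nat_lit 5) (nat_lit 510) (nat_lit 430)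 (nat_lit 260)) (XT.lf (nat_lit 0) (nat_lit 6881926524) (nat_lit 228) (nat_lit 23394309279) (nat_lit 76) (nat_lit 10267301859) (nat_lit 101) (nat_lit 5) (nat_lit 104) (nat_lit 5) (nat_lit 102) (nat_lit 5) (nat_lit 511) (nat_lit 430) (nat_lit 259))) (XT.nd (nat_lit 78) (nat_lit 0) (nat_lit 0) (XT.lf (nat_lit 0) (nat_lit 866339988) (nat_lit 152) (nat_lit 16824051499) (nat_lit 228) (nat_lit 23649169977) (nat_lit 99) (nat_lit 5) (nat_lit 101) (nat_lit 5) (nat_lit 102) (nat_lit 5) (nat_lit 512) (nat_lit 430) (nat_lit 258)) (XT.lf (nat_lit 0) (nat_lit 26325204946) (nat_lit 152) (nat_lit 2728959823) (nat_lit 228) (nat_lit 13098369806) (nat_lit 99) (nat_lit 5) (nat_lit 101) (nat_lit 5) (nat_lit 102) (nat_lit 5) (nat_lit 513) (nat_lit 430) (nat_lit 257)))) (XT.nd (nat_lit 156) (nat_lit 304) (nat_lit 0) (XT.nd (nat_lit 78) (nat_lit 76) (nat_lit 0) (XT.lf (nat_lit 0) (nat_lit 9623391805) (nat_lit 152) (nat_lit 31336219801)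 (nat_lit 228) (nat_lit 2024262682) (nat_lit 97) (nat_lit 5) (nat_lit 99) (nat_lit 5) (nat_lit 100) (nat_lit 5) (nat_lit 514) (nat_lit 430) (nat_lit 256)) (XT.lf (nat_lit 0) (nat_lit 9382360118) (nat_lit 228) (nat_lit 7801091586) (nat_lit 76) (nat_lit 26648495996) (nat_lit 96) (nat_lit 5) (nat_lit 99) (nat_lit 5) (nat_lit 97) (nat_lit 5) (nat_lit 515) (nat_lit 430) (nat_lit 255))) (XT.nd (nat_lit 78) (nat_lit 152) (nat_lit 0) (XT.lf (nat_lit 0) (nat_lit 18864390093) (nat_lit 152) (nat_lit 2402532737) (nat_lit 228) (nat_lit 23432646613) (nat_lit 94) (nat_lit 5) (nat_lit 96) (nat_lit 5) (nat_lit 97) (nat_lit 5) (nat_lit 516) (nat_lit 430) (nat_lit 254)) (XT.lf (nat_lit 0) (nat_lit 781325839) (nat_lit 152) (nat_lit 32932127638) (nat_lit 228) (nat_lit 11873603623) (nat_lit 92) (nat_lit 5) (nat_lit 94) (nat_lit 5) (nat_lit 95) (nat_lit 5) (nat_lit 517) (nat_lit 430) (nat_lit 253))))))))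
noncomputable def xc165 : XT := (XT.nd (nat_lit 2340) (nat_lit 0) (nat_lit 0) (XT.nd (nat_lit 1170) (nat_lit 1292) (nat_lit 0) (XT.nd (nat_lit 546) (nat_lit 608) (nat_lit 0) (XT.nd (nat_lit 234) (nat_lit 532) (nat_lit 0) (XT.nd (nat_lit 78) (nat_lit 152) (nat_lit 0) (XT.lf (nat_lit 0) (nat_lit 313961628) (nat_lit 228) (nat_lit 17802895966) (nat_lit 76) (nat_lit 28375831301) (nat_lit 91) (nat_lit 5) (nat_lit 94) (nat_lit 5) (nat_lit 92) (nat_lit 5) (nat_lit 518) (nat_lit 430) (nat_lit 252)) (XT.nd (nat_lit 78) (nat_lit 0) (nat_lit 0) (XT.lf (nat_lit 0) (nat_lit 10080634558) (nat_lit 152) (nat_lit 2640039232) (nat_lit 228) (nat_lit 34698524190) (nat_lit 89) (nat_lit 5) (nat_lit 91) (nat_lit 5) (nat_lit 92) (nat_lit 5) (nat_lit 519) (nat_lit 430) (nat_lit 251)) (XT.lf (nat_lit 0) (nat_lit 25804286438) (nat_lit 228) (nat_lit 9340693630) (nat_lit 76) (nat_lit 13219381469) (nat_lit 89) (nat_lit 5) (nat_lit 92) (nat_lit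 5) (nat_lit 90) (nat_lit 5) (nat_lit 520) (nat_lit 430) (nat_lit 250)))) (XT.nd (nat_lit 156) (nat_lit 304) (nat_lit 0) (XT.nd (nat_lit 78) (nat_lit 76) (nat_lit 0) (XT.lf (nat_lit 0) (nat_lit 19850008377) (nat_lit 152) (nat_lit 19642772475) (nat_lit 228) (nat_lit 9838728115) (nat_lit 87) (nat_lit 5) (nat_lit 89) (nat_lit 5) (nat_lit 90) (nat_lit 5) (nat_lit 521) (nat_lit 430) (nat_lit 249)) (XT.lf (nat_lit 0) (nat_lit 3291251617) (nat_lit 228) (nat_lit 257566188) (nat_lit 76) (nat_lit 46775191138) (nat_lit 86) (nat_lit 5) (nat_lit 89) (nat_lit 5) (nat_lit 87) (nat_lit 5) (nat_lit 522) (nat_lit 430) (nat_lit 248))) (XT.nd (nat_lit 78) (nat_lit 152) (nat_lit 0) (XT.lf (nat_lit 0) (nat_lit 17033542060) (nat_lit 228) (nat_lit 21134364793) (nat_lit 76) (nat_lit 13162970023) (nat_lit 84) (nat_lit 5) (nat_lit 87) (nat_lit 5) (nat_lit 85) (nat_lit 5) (nat_lit 523) (nat_lit 430) (nat_lit 247)) (XT.lf (nat_lit 0) (nat_lit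 9340631609) (nat_lit 152) (nat_lit 21970604667) (nat_lit 228) (nat_lit 21053020667) (nat_lit 82) (nat_lit 5) (nat_lit 84) (nat_lit 5) (nat_lit 85) (nat_lit 5) (nat_lit 524) (nat_lit 430) (nat_lit 246))))) (XT.nd (nat_lit 312) (nat_lit 304) (nat_lit 0) (XT.nd (nat_lit 156) (nat_lit 152) (nat_lit 0) (XT.nd (nat_lit 78) (nat_lit 152) (nat_lit 0) (XT.lf (nat_lit 0) (nat_lit 41155096092) (nat_lit 152) (nat_lit 5071216172) (nat_lit 228) (nat_lit 7196054765) (nat_lit 82) (nat_lit 5) (nat_lit 84) (nat_lit 5) (nat_lit 85) (nat_lit 5) (nat_lit 525) (nat_lit 430) (nat_lit 245)) (XT.lf (nat_lit 0) (nat_lit 7244906544) (nat_lit 152) (nat_lit 34905006320) (nat_lit 76) (nat_lit 12351075643) (nat_lit 80) (nat_lit 5) (nat_lit 82) (nat_lit 5) (nat_lit 81) (nat_lit 5) (nat_lit 526) (nat_lit 430) (nat_lit 244))) (XT.nd (nat_lit 78) (nat_lit 152) (nat_lit 0) (XT.lf (nat_lit 0) (nat_lit 22145510925) (nat_lit 152) (nat_lit 3072220141)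 (nat_lit 76) (nat_lit 30386968820) (nat_lit 80) (nat_lit 5) (nat_lit 82) (nat_lit 5) (nat_lit 81) (nat_lit 5) (nat_lit 527) (nat_lit 430) (nat_lit 243)) (XT.lf (nat_lit 0) (nat_lit 30299141521) (nat_lit 152) (nat_lit 7481105870) (nat_lit 228) (nat_lit 18952661923) (nat_lit 78) (nat_lit 5) (nat_lit 80) (nat_lit 5) (nat_lit 81) (nat_lit 5) (nat_lit 528) (nat_lit 430) (nat_lit 242)))) (XT.nd (nat_lit 156) (nat_lit 152) (nat_lit 0) (XT.nd (nat_lit 78) (nat_lit 76) (nat_lit 0) (XT.lf (nat_lit 0) (nat_lit 6862833635) (nat_lit 76) (nat_lit 47218064111) (nat_lit 152) (nat_lit 3808161252) (nat_lit 77) (nat_lit 5) (nat_lit 78) (nat_lit 5) (nat_lit 79) (nat_lit 4) (nat_lit 529) (nat_lit 430) (nat_lit 241)) (XT.lf (nat_lit 0) (nat_lit 11900119326) (nat_lit 152) (nat_lit 17569413008) (nat_lit 76) (nat_lit 29596775078) (nat_lit 76) (nat_lit 5) (nat_lit 78) (nat_lit 5) (nat_lit 77) (nat_lit 5) (nat_lit 530) (nat_lit 430) (nat_lit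 240))) (XT.nd (nat_lit 78) (nat_lit 0) (nat_lit 0) (XT.lf (nat_lit 0) (nat_lit 17181215333) (nat_lit 152) (nat_lit 10983050015) (nat_lit 228) (nat_lit 32108642188) (nat_lit 74) (nat_lit 5) (nat_lit 76) (nat_lit 5) (nat_lit 77) (nat_lit 5) (nat_lit 531) (nat_lit 430) (nat_lit 239)) (XT.lf (nat_lit 0) (nat_lit 45168981234) (nat_lit 228) (nat_lit 8262544141) (nat_lit 76) (nat_lit 8076601035) (nat_lit 74) (nat_lit 5) (nat_lit 77) (nat_lit 5) (nat_lit 75) (nat_lit 4) (nat_lit 532) (nat_lit 430) (nat_lit 238)))))) (XT.nd (nat_lit 546) (nat_lit 684) (nat_lit 0) (XT.nd (nat_lit 234) (nat_lit 304) (nat_lit 0) (XT.nd (nat_lit 78) (nat_lit 152) (nat_lit 0) (XT.lf (nat_lit 0) (nat_lit 283464598) (nat_lit 152) (nat_lit 34729245062) (nat_lit 76) (nat_lit 27756375836) (nat_lit 72) (nat_lit 5) (nat_lit 74) (nat_lit 5) (nat_lit 73) (nat_lit 5) (nat_lit 533) (nat_lit 430) (nat_lit 237)) (XT.nd (nat_lit 78) (nat_lit 0) (nat_lit 0)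 (XT.lf (nat_lit 0) (nat_lit 1392623065) (nat_lit 152) (nat_lit 15777512744) (nat_lit 228) (nat_lit 46890070920) (nat_lit 70) (nat_lit 5) (nat_lit 72) (nat_lit 5) (nat_lit 73) (nat_lit 5) (nat_lit 534) (nat_lit 430) (nat_lit 236)) (XT.lf (nat_lit 0) (nat_lit 34952507752) (nat_lit 228) (nat_lit 26118998464) (nat_lit 76) (nat_lit 4306882465) (nat_lit 70) (nat_lit 5) (nat_lit 73) (nat_lit 5) (nat_lit 71) (nat_lit 4) (nat_lit 535) (nat_lit 430) (nat_lit 235)))) (XT.nd (nat_lit 156) (nat_lit 152) (nat_lit 0) (XT.nd (nat_lit 78) (nat_lit 76) (nat_lit 0) (XT.lf (nat_lit 0) (nat_lit 11588920591) (nat_lit 76) (nat_lit 41943301961) (nat_lit 152) (nat_lit 13195977484) (nat_lit 69) (nat_lit 5) (nat_lit 70) (nat_lit 5) (nat_lit 71) (nat_lit 4) (nat_lit 536) (nat_lit 430) (nat_lit 234)) (XT.lf (nat_lit 0) (nat_lit 4724646207) (nat_lit 152) (nat_lit 17200516408) (nat_lit 76) (nat_lit 46184152065) (nat_lit 68) (nat_lit 5) (nat_lit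 70) (nat_lit 5) (nat_lit 69) (nat_lit 5) (nat_lit 537) (nat_lit 430) (nat_lit 233))) (XT.nd (nat_lit 78) (nat_lit 0) (nat_lit 0) (XT.lf (nat_lit 0) (nat_lit 22171551070) (nat_lit 152) (nat_lit 955610813) (nat_lit 228) (nat_lit 46394496391) (nat_lit 66) (nat_lit 5) (nat_lit 68) (nat_lit 5) (nat_lit 69) (nat_lit 5) (nat_lit 538) (nat_lit 430) (nat_lit 232)) (XT.lf (nat_lit 0) (nat_lit 42451980171) (nat_lit 228) (nat_lit 8100802056) (nat_lit 76) (nat_lit 20412483217) (nat_lit 66) (nat_lit 5) (nat_lit 69) (nat_lit 5) (nat_lit 67) (nat_lit 4) (nat_lit 539) (nat_lit 430) (nat_lit 231))))) (XT.nd (nat_lit 312) (nat_lit 304) (nat_lit 0) (XT.nd (nat_lit 156) (nat_lit 76) (nat_lit 0) (XT.nd (nat_lit 78) (nat_lit 228) (nat_lit 0) (XT.lf (nat_lit 0) (nat_lit 32952888357) (nat_lit 76) (nat_lit 29726367355) (nat_lit 152) (nat_lit 9763243821) (nat_lit 65) (nat_lit 5) (nat_lit 66) (nat_lit 5) (nat_lit 67) (nat_lit 4) (nat_lit 540)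 (nat_lit 430) (nat_lit 230)) (XT.lf (nat_lit 0) (nat_lit 1370117190) (nat_lit 152) (nat_lit 8085115319) (nat_lit 228) (nat_lit 64503296155) (nat_lit 62) (nat_lit 5) (nat_lit 64) (nat_lit 5) (nat_lit 65) (nat_lit 5) (nat_lit 541) (nat_lit 430) (nat_lit 229))) (XT.nd (nat_lit 78) (nat_lit 76) (nat_lit 0) (XT.lf (nat_lit 0) (nat_lit 29589799091) (nat_lit 228) (nat_lit 31486779832) (nat_lit 76) (nat_lit 14424486825) (nat_lit 62) (nat_lit 5) (nat_lit 65) (nat_lit 5) (nat_lit 63) (nat_lit 4) (nat_lit 542) (nat_lit 430) (nat_lit 228)) (XT.lf (nat_lit 0) (nat_lit 10975541695) (nat_lit 76) (nat_lit 39535018066) (nat_lit 152) (nat_lit 26573854542) (nat_lit 61) (nat_lit 5) (nat_lit 62) (nat_lit 5) (nat_lit 63) (nat_lit 4) (nat_lit 543) (nat_lit 430) (nat_lit 227)))) (XT.nd (nat_lit 156) (nat_lit 76) (nat_lit 0) (XT.nd (nat_lit 78) (nat_lit 228) (nat_lit 0) (XT.lf (nat_lit 0) (nat_lit 55350763756) (nat_lit 76) (nat_lit 17022774319)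 (nat_lit 152) (nat_lit 6332287468) (nat_lit 61) (nat_lit 5) (nat_lit 62) (nat_lit 5) (nat_lit 63) (nat_lit 4) (nat_lit 544) (nat_lit 430) (nat_lit 226)) (XT.lf (nat_lit 0) (nat_lit 14493897446) (nat_lit 228) (nat_lit 59484135293) (nat_lit 76) (nat_lit 6385840978) (nat_lit 58) (nat_lit 5) (nat_lit 61) (nat_lit 5) (nat_lit 59) (nat_lit 4) (nat_lit 545) (nat_lit 430) (nat_lit 225))) (XT.nd (nat_lit 78) (nat_lit 76) (nat_lit 0) (XT.lf (nat_lit 0) (nat_lit 36221025905) (nat_lit 228) (nat_lit 15384126343) (nat_lit 76) (nat_lit 30452527355) (nat_lit 58) (nat_lit 5) (nat_lit 61) (nat_lit 5) (nat_lit 59) (nat_lit 4) (nat_lit 546) (nat_lit 430) (nat_lit 224)) (XT.lf (nat_lit 0) (nat_lit 30630473903) (nat_lit 76) (nat_lit 28260741908) (nat_lit 152) (nat_lit 24902346491) (nat_lit 57) (nat_lit 5) (nat_lit 58) (nat_lit 5) (nat_lit 59) (nat_lit 4) (nat_lit 547) (nat_lit 430) (nat_lit 223))))))) (XT.nd (nat_lit 54444) (nat_lit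 0) (nat_lit 13604) (XT.nd (nat_lit 53820) (nat_lit 0) (nat_lit 18392) (XT.nd (nat_lit 53508) (nat_lit 0) (nat_lit 19228) (XT.nd (nat_lit 53352) (nat_lit 0) (nat_lit 19228) (XT.lf (nat_lit 0) (nat_lit 78334811818) (nat_lit 76) (nat_lit 4058892546) (nat_lit 152) (nat_lit 3183251390) (nat_lit 57) (nat_lit 5) (nat_lit 58) (nat_lit 5) (nat_lit 59) (nat_lit 4) (nat_lit 548) (nat_lit 430) (nat_lit 222)) (XT.nd (nat_lit 78) (nat_lit 0) (nat_lit 0) (XT.lf (nat_lit 0) (nat_lit 293260586) (nat_lit 0) (nat_lit 293260586) (nat_lit 1140) (nat_lit 4705127647) (nat_lit 310) (nat_lit 5) (nat_lit 310) (nat_lit 3) (nat_lit 325) (nat_lit 3) (nat_lit 431) (nat_lit 431) (nat_lit 338)) (XT.lf (nat_lit 0) (nat_lit 1854219191) (nat_lit 1140) (nat_lit 4800996073) (nat_lit 1216) (nat_lit 4066834198) (nat_lit 310) (nat_lit 5) (nat_lit 325) (nat_lit 3) (nat_lit 326) (nat_lit 5) (nat_lit 432) (nat_lit 431) (nat_lit 337)))) (XT.nd (nat_lit 156)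 (nat_lit 0) (nat_lit 76) (XT.nd (nat_lit 78) (nat_lit 0) (nat_lit 76) (XT.lf (nat_lit 76) (nat_lit 542413434) (nat_lit 0) (nat_lit 2000214382) (nat_lit 1216) (nat_lit 8322735650) (nat_lit 311) (nat_lit 5) (nat_lit 310) (nat_lit 5) (nat_lit 326) (nat_lit 5) (nat_lit 433) (nat_lit 431) (nat_lit 336)) (XT.lf (nat_lit 0) (nat_lit 3303971466) (nat_lit 1140) (nat_lit 4908033341) (nat_lit 1216) (nat_lit 2799407015) (nat_lit 311) (nat_lit 5) (nat_lit 326) (nat_lit 5) (nat_lit 327) (nat_lit 5) (nat_lit 434) (nat_lit 431) (nat_lit 335))) (XT.nd (nat_lit 78) (nat_lit 0) (nat_lit 76) (XT.lf (nat_lit 76) (nat_lit 648878043) (nat_lit 0) (nat_lit 3442464802) (nat_lit 1216) (nat_lit 7070406481) (nat_lit 312) (nat_lit 5) (nat_lit 311) (nat_lit 5) (nat_lit 327) (nat_lit 5) (nat_lit 435) (nat_lit 431) (nat_lit 334)) (XT.lf (nat_lit 0) (nat_lit 4944292351) (nat_lit 1140) (nat_lit 4870566911) (nat_lit 1216) (nat_lit 1500482205) (nat_lit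 312) (nat_lit 5) (nat_lit 327) (nat_lit 5) (nat_lit 328) (nat_lit 5) (nat_lit 436) (nat_lit 431) (nat_lit 333))))) (XT.nd (nat_lit 312) (nat_lit 988) (nat_lit 0) (XT.nd (nat_lit 156) (nat_lit 0) (nat_lit 76) (XT.nd (nat_lit 78) (nat_lit 0) (nat_lit 76) (XT.lf (nat_lit 76) (nat_lit 911168353) (nat_lit 0) (nat_lit 4932924575) (nat_lit 1216) (nat_lit 5628813695) (nat_lit 313) (nat_lit 5) (nat_lit 312) (nat_lit 5) (nat_lit 328) (nat_lit 5) (nat_lit 437) (nat_lit 431) (nat_lit 332)) (XT.lf (nat_lit 0) (nat_lit 6800468953) (nat_lit 1140) (nat_lit 4683041541) (nat_lit 1216) (nat_lit 150803834) (nat_lit 313) (nat_lit 5) (nat_lit 328) (nat_lit 5) (nat_lit 329) (nat_lit 5) (nat_lit 438) (nat_lit 431) (nat_lit 331))) (XT.nd (nat_lit 78) (nat_lit 0) (nat_lit 0) (XT.lf (nat_lit 76) (nat_lit 1335536216) (nat_lit 0) (nat_lit 6491284301) (nat_lit 1216) (nat_lit 3972508168) (nat_lit 314) (nat_lit 5) (nat_lit 313) (nat_lit 5) (nat_lit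 329) (nat_lit 5) (nat_lit 439) (nat_lit 431) (nat_lit 330)) (XT.lf (nat_lit 76) (nat_lit 7617103222) (nat_lit 0) (nat_lit 1294217986) (nat_lit 1216) (nat_lit 3057154368) (nat_lit 314) (nat_lit 5) (nat_lit 313) (nat_lit 5) (nat_lit 329) (nat_lit 5) (nat_lit 440) (nat_lit 431) (nat_lit 329)))) (XT.nd (nat_lit 156) (nat_lit 1140) (nat_lit 0) (XT.nd (nat_lit 78) (nat_lit 0) (nat_lit 0) (XT.lf (nat_lit 76) (nat_lit 1929238039) (nat_lit 0) (nat_lit 8137388144) (nat_lit 1216) (nat_lit 2074925393) (nat_lit 315) (nat_lit 5) (nat_lit 314) (nat_lit 5) (nat_lit 330) (nat_lit 5) (nat_lit 441) (nat_lit 431) (nat_lit 328)) (XT.lf (nat_lit 76) (nat_lit 8460718557) (nat_lit 0) (nat_lit 2833639845) (nat_lit 1216) (nat_lit 1024331109) (nat_lit 315) (nat_lit 5) (nat_lit 314) (nat_lit 5) (nat_lit 330) (nat_lit 5) (nat_lit 442) (nat_lit 431) (nat_lit 327))) (XT.nd (nat_lit 78) (nat_lit 0) (nat_lit 0) (XT.lf (nat_lit 0) (nat_lit 89947391)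 (nat_lit 1216) (nat_lit 9800491275) (nat_lit 1292) (nat_lit 2609689982) (nat_lit 299) (nat_lit 5) (nat_lit 315) (nat_lit 5) (nat_lit 316) (nat_lit 5) (nat_lit 443) (nat_lit 431) (nat_lit 326)) (XT.lf (nat_lit 0) (nat_lit 1266423232) (nat_lit 1216) (nat_lit 3205472504) (nat_lit 1292) (nat_lit 8213332726) (nat_lit 299) (nat_lit 5) (nat_lit 315) (nat_lit 5) (nat_lit 316) (nat_lit 5) (nat_lit 444) (nat_lit 431) (nat_lit 325)))))) (XT.nd (nat_lit 624) (nat_lit 2356) (nat_lit 0) (XT.nd (nat_lit 312) (nat_lit 2508) (nat_lit 0) (XT.nd (nat_lit 156) (nat_lit 0) (nat_lit 0) (XT.nd (nat_lit 78) (nat_lit 0) (nat_lit 0) (XT.lf (nat_lit 0) (nat_lit 2506758653) (nat_lit 1216) (nat_lit 9241578120) (nat_lit 1292) (nat_lit 1126689933) (nat_lit 300) (nat_lit 5) (nat_lit 316) (nat_lit 5) (nat_lit 317) (nat_lit 5) (nat_lit 445) (nat_lit 431) (nat_lit 324)) (XT.lf (nat_lit 0) (nat_lit 3844167070) (nat_lit 1216) (nat_lit 2385009284) (nat_lit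 1292) (nat_lit 6839548984) (nat_lit 300) (nat_lit 5) (nat_lit 316) (nat_lit 5) (nat_lit 317) (nat_lit 5) (nat_lit 446) (nat_lit 431) (nat_lit 323))) (XT.nd (nat_lit 78) (nat_lit 0) (nat_lit 76) (XT.lf (nat_lit 76) (nat_lit 4756370408) (nat_lit 0) (nat_lit 494443876) (nat_lit 1292) (nat_lit 8016549408) (nat_lit 301) (nat_lit 5) (nat_lit 300) (nat_lit 5) (nat_lit 317) (nat_lit 5) (nat_lit 447) (nat_lit 431) (nat_lit 322)) (XT.lf (nat_lit 0) (nat_lit 6759784365) (nat_lit 1216) (nat_lit 1376703284) (nat_lit 76) (nat_lit 5333672040) (nat_lit 301) (nat_lit 5) (nat_lit 317) (nat_lit 5) (nat_lit 302) (nat_lit 5) (nat_lit 448) (nat_lit 431) (nat_lit 321)))) (XT.nd (nat_lit 156) (nat_lit 1368) (nat_lit 0) (XT.nd (nat_lit 78) (nat_lit 0) (nat_lit 0) (XT.lf (nat_lit 0) (nat_lit 6071526051) (nat_lit 1216) (nat_lit 2290003236) (nat_lit 1292) (nat_lit 5316087234) (nat_lit 285) (nat_lit 5) (nat_lit 301) (nat_lit 5) (nat_lit 302)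 (nat_lit 5) (nat_lit 449) (nat_lit 431) (nat_lit 320)) (XT.lf (nat_lit 0) (nat_lit 10045833147) (nat_lit 1292) (nat_lit 169487510) (nat_lit 76) (nat_lit 3674943273) (nat_lit 285) (nat_lit 5) (nat_lit 302) (nat_lit 5) (nat_lit 286) (nat_lit 5) (nat_lit 450) (nat_lit 431) (nat_lit 319))) (XT.nd (nat_lit 78) (nat_lit 608) (nat_lit 0) (XT.lf (nat_lit 0) (nat_lit 7602276256) (nat_lit 760) (nat_lit 4259183486) (nat_lit 836) (nat_lit 2245409216) (nat_lit 275) (nat_lit 5) (nat_lit 285) (nat_lit 5) (nat_lit 286) (nat_lit 5) (nat_lit 451) (nat_lit 431) (nat_lit 318)) (XT.lf (nat_lit 0) (nat_lit 1273621600) (nat_lit 608) (nat_lit 12475294540) (nat_lit 684) (nat_lit 580537118) (nat_lit 267) (nat_lit 5) (nat_lit 275) (nat_lit 5) (nat_lit 276) (nat_lit 5) (nat_lit 452) (nat_lit 431) (nat_lit 317))))) (XT.nd (nat_lit 312) (nat_lit 1140) (nat_lit 0) (XT.nd (nat_lit 156) (nat_lit 532) (nat_lit 0) (XT.nd (nat_lit 78) (nat_lit 608)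 (nat_lit 0) (XT.lf (nat_lit 0) (nat_lit 1206161198) (nat_lit 684) (nat_lit 5206033074) (nat_lit 76) (nat_lit 8143375131) (nat_lit 266) (nat_lit 5) (nat_lit 275) (nat_lit 5) (nat_lit 267) (nat_lit 5) (nat_lit 453) (nat_lit 431) (nat_lit 316)) (XT.lf (nat_lit 0) (nat_lit 2916753445) (nat_lit 608) (nat_lit 132008328) (nat_lit 684) (nat_lit 11739117520) (nat_lit 258) (nat_lit 5) (nat_lit 266) (nat_lit 5) (nat_lit 267) (nat_lit 5) (nat_lit 454) (nat_lit 431) (nat_lit 315))) (XT.nd (nat_lit 78) (nat_lit 532) (nat_lit 0) (XT.lf (nat_lit 0) (nat_lit 5046856595) (nat_lit 684) (nat_lit 3711029044) (nat_lit 76) (nat_lit 6266268086) (nat_lit 258) (nat_lit 5) (nat_lit 267) (nat_lit 5) (nat_lit 259) (nat_lit 5) (nat_lit 455) (nat_lit 431) (nat_lit 314)) (XT.lf (nat_lit 0) (nat_lit 4772133511) (nat_lit 532) (nat_lit 2366555855) (nat_lit 608) (nat_lit 8127814853) (nat_lit 251) (nat_lit 5) (nat_lit 258) (nat_lit 5) (nat_lit 259)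 (nat_lit 5) (nat_lit 456) (nat_lit 431) (nat_lit 313)))) (XT.nd (nat_lit 156) (nat_lit 608) (nat_lit 0) (XT.nd (nat_lit 78) (nat_lit 532) (nat_lit 0) (XT.lf (nat_lit 0) (nat_lit 9358527418) (nat_lit 608) (nat_lit 1983851646) (nat_lit 76) (nat_lit 4171790286) (nat_lit 251) (nat_lit 5) (nat_lit 259) (nat_lit 5) (nat_lit 252) (nat_lit 5) (nat_lit 457) (nat_lit 431) (nat_lit 312)) (XT.lf (nat_lit 0) (nat_lit 6879384275) (nat_lit 532) (nat_lit 4842392200) (nat_lit 608) (nat_lit 4045185070) (nat_lit 244) (nat_lit 5) (nat_lit 251) (nat_lit 5) (nat_lit 252) (nat_lit 5) (nat_lit 458) (nat_lit 431) (nat_lit 311))) (XT.nd (nat_lit 78) (nat_lit 608) (nat_lit 0) (XT.lf (nat_lit 0) (nat_lit 14181454489) (nat_lit 608) (nat_lit 9205504) (nat_lit 76) (nat_lit 1835913106) (nat_lit 244) (nat_lit 5) (nat_lit 252) (nat_lit 5) (nat_lit 245) (nat_lit 5) (nat_lit 459) (nat_lit 431) (nat_lit 310)) (XT.lf (nat_lit 0) (nat_lit 538734032)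 (nat_lit 608) (nat_lit 7040592675) (nat_lit 76) (nat_lit 8710746397) (nat_lit 236) (nat_lit 5) (nat_lit 244) (nat_lit 5) (nat_lit 237) (nat_lit 5) (nat_lit 460) (nat_lit 431) (nat_lit 309))))))))
noncomputable def xc166 : XT := (XT.nd (nat_lit 2340) (nat_lit 4104) (nat_lit 0) (XT.nd (nat_lit 1170) (nat_lit 2964) (nat_lit 0) (XT.nd (nat_lit 546) (nat_lit 2128) (nat_lit 0) (XT.nd (nat_lit 234) (nat_lit 988) (nat_lit 0) (XT.nd (nat_lit 78) (nat_lit 456) (nat_lit 0) (XT.lf (nat_lit 0) (nat_lit 2236655882) (nat_lit 532) (nat_lit 729919659) (nat_lit 608) (nat_lit 13594069172) (nat_lit 229) (nat_lit 5) (nat_lit 236) (nat_lit 5) (nat_lit 237) (nat_lit 5) (nat_lit 461) (nat_lit 431) (nat_lit 308)) (XT.nd (nat_lit 78) (nat_lit 456) (nat_lit 0) (XT.lf (nat_lit 0) (nat_lit 5588026003) (nat_lit 608) (nat_lit 4975728203) (nat_lit 76) (nat_lit 6271957420) (nat_lit 229) (nat_lit 5) (nat_lit 237) (nat_lit 5) (nat_lit 230) (nat_lit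 5) (nat_lit 462) (nat_lit 431) (nat_lit 307)) (XT.lf (nat_lit 0) (nat_lit 4724774604) (nat_lit 456) (nat_lit 3604508292) (nat_lit 532) (nat_lit 8788514089) (nat_lit 223) (nat_lit 5) (nat_lit 229) (nat_lit 5) (nat_lit 230) (nat_lit 5) (nat_lit 463) (nat_lit 431) (nat_lit 306)))) (XT.nd (nat_lit 156) (nat_lit 532) (nat_lit 0) (XT.nd (nat_lit 78) (nat_lit 456) (nat_lit 0) (XT.lf (nat_lit 0) (nat_lit 11226485265) (nat_lit 532) (nat_lit 2636668977) (nat_lit 76) (nat_lit 3542980719) (nat_lit 223) (nat_lit 5) (nat_lit 230) (nat_lit 5) (nat_lit 224) (nat_lit 5) (nat_lit 464) (nat_lit 431) (nat_lit 305)) (XT.lf (nat_lit 0) (nat_lit 7510259123) (nat_lit 456) (nat_lit 6797265315) (nat_lit 532) (nat_lit 3392692269) (nat_lit 217) (nat_lit 5) (nat_lit 223) (nat_lit 5) (nat_lit 224) (nat_lit 5) (nat_lit 465) (nat_lit 431) (nat_lit 304))) (XT.nd (nat_lit 78) (nat_lit 532) (nat_lit 0) (XT.lf (nat_lit 0) (nat_lit 17501718367) (nat_lit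 532) (nat_lit 4718145) (nat_lit 76) (nat_lit 496063898) (nat_lit 217) (nat_lit 5) (nat_lit 224) (nat_lit 5) (nat_lit 218) (nat_lit 5) (nat_lit 466) (nat_lit 431) (nat_lit 303)) (XT.lf (nat_lit 0) (nat_lit 2589953013) (nat_lit 532) (nat_lit 7721374869) (nat_lit 76) (nat_lit 7996998721) (nat_lit 210) (nat_lit 5) (nat_lit 217) (nat_lit 5) (nat_lit 211) (nat_lit 5) (nat_lit 467) (nat_lit 431) (nat_lit 302))))) (XT.nd (nat_lit 312) (nat_lit 1292) (nat_lit 0) (XT.nd (nat_lit 156) (nat_lit 380) (nat_lit 0) (XT.nd (nat_lit 78) (nat_lit 0) (nat_lit 0) (XT.lf (nat_lit 0) (nat_lit 2912153961) (nat_lit 456) (nat_lit 2868841957) (nat_lit 532) (nat_lit 12841654497) (nat_lit 204) (nat_lit 5) (nat_lit 210) (nat_lit 5) (nat_lit 211) (nat_lit 5) (nat_lit 468) (nat_lit 431) (nat_lit 301)) (XT.lf (nat_lit 0) (nat_lit 9182389300) (nat_lit 532) (nat_lit 4980991791) (nat_lit 76) (nat_lit 4779585353) (nat_lit 204) (nat_lit 5) (nat_lit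 211) (nat_lit 5) (nat_lit 205) (nat_lit 5) (nat_lit 469) (nat_lit 431) (nat_lit 300))) (XT.nd (nat_lit 78) (nat_lit 0) (nat_lit 0) (XT.lf (nat_lit 0) (nat_lit 6149355398) (nat_lit 380) (nat_lit 6614048458) (nat_lit 456) (nat_lit 6507161765) (nat_lit 199) (nat_lit 5) (nat_lit 204) (nat_lit 5) (nat_lit 205) (nat_lit 5) (nat_lit 470) (nat_lit 431) (nat_lit 299)) (XT.lf (nat_lit 0) (nat_lit 16504019102) (nat_lit 456) (nat_lit 1915209075) (nat_lit 76) (nat_lit 1187200506) (nat_lit 199) (nat_lit 5) (nat_lit 205) (nat_lit 5) (nat_lit 200) (nat_lit 5) (nat_lit 471) (nat_lit 431) (nat_lit 298)))) (XT.nd (nat_lit 156) (nat_lit 380) (nat_lit 0) (XT.nd (nat_lit 78) (nat_lit 380) (nat_lit 0) (XT.lf (nat_lit 0) (nat_lit 547668109) (nat_lit 532) (nat_lit 10214124075) (nat_lit 76) (nat_lit 9185927490) (nat_lit 192) (nat_lit 5) (nat_lit 199) (nat_lit 5) (nat_lit 193) (nat_lit 5) (nat_lit 472) (nat_lit 431) (nat_lit 297)) (XT.lf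 (nat_lit 0) (nat_lit 1457514909) (nat_lit 380) (nat_lit 2811476737) (nat_lit 456) (nat_lit 16028614206) (nat_lit 187) (nat_lit 5) (nat_lit 192) (nat_lit 5) (nat_lit 193) (nat_lit 5) (nat_lit 473) (nat_lit 431) (nat_lit 296))) (XT.nd (nat_lit 78) (nat_lit 380) (nat_lit 0) (XT.lf (nat_lit 0) (nat_lit 8248492959) (nat_lit 456) (nat_lit 7031524251) (nat_lit 76) (nat_lit 5373576167) (nat_lit 187) (nat_lit 5) (nat_lit 193) (nat_lit 5) (nat_lit 188) (nat_lit 5) (nat_lit 474) (nat_lit 431) (nat_lit 295)) (XT.lf (nat_lit 0) (nat_lit 5192554566) (nat_lit 380) (nat_lit 7223530373) (nat_lit 456) (nat_lit 8602115297) (nat_lit 182) (nat_lit 5) (nat_lit 187) (nat_lit 5) (nat_lit 188) (nat_lit 5) (nat_lit 475) (nat_lit 431) (nat_lit 294)))))) (XT.nd (nat_lit 546) (nat_lit 1520) (nat_lit 0) (XT.nd (nat_lit 234) (nat_lit 684) (nat_lit 0) (XT.nd (nat_lit 78) (nat_lit 760) (nat_lit 0) (XT.lf (nat_lit 0) (nat_lit 16781813796) (nat_lit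 456) (nat_lit 3487504126) (nat_lit 76) (nat_lit 1122234957) (nat_lit 182) (nat_lit 5) (nat_lit 188) (nat_lit 5) (nat_lit 183) (nat_lit 5) (nat_lit 476) (nat_lit 431) (nat_lit 293)) (XT.nd (nat_lit 78) (nat_lit 456) (nat_lit 0) (XT.lf (nat_lit 0) (nat_lit 9319120048) (nat_lit 304) (nat_lit 12111827007) (nat_lit 380) (nat_lit 340586897) (nat_lit 178) (nat_lit 5) (nat_lit 182) (nat_lit 5) (nat_lit 183) (nat_lit 5) (nat_lit 477) (nat_lit 431) (nat_lit 292)) (XT.lf (nat_lit 0) (nat_lit 375513652) (nat_lit 380) (nat_lit 3632526302) (nat_lit 456) (nat_lit 18152788644) (nat_lit 172) (nat_lit 5) (nat_lit 177) (nat_lit 5) (nat_lit 178) (nat_lit 5) (nat_lit 478) (nat_lit 431) (nat_lit 291)))) (XT.nd (nat_lit 156) (nat_lit 380) (nat_lit 0) (XT.nd (nat_lit 78) (nat_lit 304) (nat_lit 0) (XT.lf (nat_lit 0) (nat_lit 8647793112) (nat_lit 456) (nat_lit 8780290664) (nat_lit 76) (nat_lit 5128592511) (nat_lit 172) (nat_lit 5) (nat_lit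 178) (nat_lit 5) (nat_lit 173) (nat_lit 5) (nat_lit 479) (nat_lit 431) (nat_lit 290)) (XT.lf (nat_lit 0) (nat_lit 4658017628) (nat_lit 304) (nat_lit 8841198080) (nat_lit 380) (nat_lit 9463010129) (nat_lit 168) (nat_lit 5) (nat_lit 172) (nat_lit 5) (nat_lit 173) (nat_lit 5) (nat_lit 480) (nat_lit 431) (nat_lit 289))) (XT.nd (nat_lit 78) (nat_lit 380) (nat_lit 0) (XT.lf (nat_lit 0) (nat_lit 18577584114) (nat_lit 380) (nat_lit 4710619860) (nat_lit 76) (nat_lit 89296516) (nat_lit 168) (nat_lit 5) (nat_lit 173) (nat_lit 5) (nat_lit 169) (nat_lit 5) (nat_lit 481) (nat_lit 431) (nat_lit 288)) (XT.lf (nat_lit 0) (nat_lit 174409108) (nat_lit 380) (nat_lit 14427224681) (nat_lit 76) (nat_lit 9198457419) (nat_lit 163) (nat_lit 5) (nat_lit 168) (nat_lit 5) (nat_lit 164) (nat_lit 5) (nat_lit 482) (nat_lit 431) (nat_lit 287))))) (XT.nd (nat_lit 312) (nat_lit 912) (nat_lit 0) (XT.nd (nat_lit 156) (nat_lit 304) (nat_lit 0) (XT.nd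 (nat_lit 78) (nat_lit 304) (nat_lit 0) (XT.lf (nat_lit 0) (nat_lit 5241640793) (nat_lit 380) (nat_lit 318095939) (nat_lit 76) (nat_lit 18672993349) (nat_lit 163) (nat_lit 5) (nat_lit 168) (nat_lit 5) (nat_lit 164) (nat_lit 5) (nat_lit 483) (nat_lit 431) (nat_lit 286)) (XT.lf (nat_lit 0) (nat_lit 10629900131) (nat_lit 380) (nat_lit 10226101625) (nat_lit 76) (nat_lit 3817276679) (nat_lit 159) (nat_lit 5) (nat_lit 164) (nat_lit 5) (nat_lit 160) (nat_lit 5) (nat_lit 484) (nat_lit 431) (nat_lit 285))) (XT.nd (nat_lit 78) (nat_lit 0) (nat_lit 0) (XT.lf (nat_lit 0) (nat_lit 4557502604) (nat_lit 304) (nat_lit 11716827179) (nat_lit 380) (nat_lit 8849878395) (nat_lit 155) (nat_lit 5) (nat_lit 159) (nat_lit 5) (nat_lit 160) (nat_lit 5) (nat_lit 485) (nat_lit 431) (nat_lit 284)) (XT.lf (nat_lit 0) (nat_lit 19983017622) (nat_lit 304) (nat_lit 2200873299) (nat_lit 380) (nat_lit 3401901531) (nat_lit 155) (nat_lit 5) (nat_lit 159)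 (nat_lit 5) (nat_lit 160) (nat_lit 5) (nat_lit 486) (nat_lit 431) (nat_lit 283)))) (XT.nd (nat_lit 156) (nat_lit 532) (nat_lit 0) (XT.nd (nat_lit 78) (nat_lit 0) (nat_lit 0) (XT.lf (nat_lit 0) (nat_lit 2329124737) (nat_lit 380) (nat_lit 16159726165) (nat_lit 76) (nat_lit 7566854970) (nat_lit 150) (nat_lit 5) (nat_lit 155) (nat_lit 5) (nat_lit 151) (nat_lit 5) (nat_lit 487) (nat_lit 431) (nat_lit 282)) (XT.lf (nat_lit 0) (nat_lit 8235387420) (nat_lit 380) (nat_lit 630618942) (nat_lit 76) (nat_lit 17670549998) (nat_lit 150) (nat_lit 5) (nat_lit 155) (nat_lit 5) (nat_lit 151) (nat_lit 5) (nat_lit 488) (nat_lit 431) (nat_lit 281))) (XT.nd (nat_lit 78) (nat_lit 228) (nat_lit 0) (XT.lf (nat_lit 0) (nat_lit 14473831195) (nat_lit 380) (nat_lit 11379895963) (nat_lit 76) (nat_lit 1173455939) (nat_lit 146) (nat_lit 5) (nat_lit 151) (nat_lit 5) (nat_lit 147) (nat_lit 5) (nat_lit 489) (nat_lit 431) (nat_lit 280)) (XT.lf (nat_lit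 0) (nat_lit 4890855165) (nat_lit 228) (nat_lit 16142830033) (nat_lit 304) (nat_lit 6494816247) (nat_lit 143) (nat_lit 5) (nat_lit 146) (nat_lit 5) (nat_lit 147) (nat_lit 5) (nat_lit 490) (nat_lit 431) (nat_lit 279))))))) (XT.nd (nat_lit 1170) (nat_lit 1748) (nat_lit 0) (XT.nd (nat_lit 546) (nat_lit 1216) (nat_lit 0) (XT.nd (nat_lit 234) (nat_lit 760) (nat_lit 0) (XT.nd (nat_lit 78) (nat_lit 380) (nat_lit 0) (XT.lf (nat_lit 0) (nat_lit 21872254376) (nat_lit 228) (nat_lit 6026124471) (nat_lit 304) (nat_lit 143239677) (nat_lit 143) (nat_lit 5) (nat_lit 146) (nat_lit 5) (nat_lit 147) (nat_lit 5) (nat_lit 491) (nat_lit 431) (nat_lit 278)) (XT.nd (nat_lit 78) (nat_lit 0) (nat_lit 0) (XT.lf (nat_lit 0) (nat_lit 6416240005) (nat_lit 380) (nat_lit 17674934109) (nat_lit 76) (nat_lit 4472843540) (nat_lit 138) (nat_lit 5) (nat_lit 143) (nat_lit 5) (nat_lit 139) (nat_lit 5) (nat_lit 492) (nat_lit 431) (nat_lit 277)) (XT.lf (nat_lit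 0) (nat_lit 13285526779) (nat_lit 380) (nat_lit 586800677) (nat_lit 76) (nat_lit 15226242162) (nat_lit 138) (nat_lit 5) (nat_lit 143) (nat_lit 5) (nat_lit 139) (nat_lit 5) (nat_lit 493) (nat_lit 431) (nat_lit 276)))) (XT.nd (nat_lit 156) (nat_lit 304) (nat_lit 0) (XT.nd (nat_lit 78) (nat_lit 228) (nat_lit 0) (XT.lf (nat_lit 0) (nat_lit 17342060659) (nat_lit 228) (nat_lit 3179050285) (nat_lit 304) (nat_lit 9123241078) (nat_lit 135) (nat_lit 5) (nat_lit 138) (nat_lit 5) (nat_lit 139) (nat_lit 5) (nat_lit 494) (nat_lit 431) (nat_lit 275)) (XT.lf (nat_lit 0) (nat_lit 5638769115) (nat_lit 228) (nat_lit 22464066171) (nat_lit 304) (nat_lit 2099800867) (nat_lit 132) (nat_lit 5) (nat_lit 135) (nat_lit 5) (nat_lit 136) (nat_lit 5) (nat_lit 495) (nat_lit 431) (nat_lit 274))) (XT.nd (nat_lit 78) (nat_lit 228) (nat_lit 0) (XT.lf (nat_lit 0) (nat_lit 5184683198) (nat_lit 304) (nat_lit 6496158330) (nat_lit 76) (nat_lit 19090831146)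 (nat_lit 131) (nat_lit 5) (nat_lit 135) (nat_lit 5) (nat_lit 132) (nat_lit 5) (nat_lit 496) (nat_lit 431) (nat_lit 273)) (XT.lf (nat_lit 0) (nat_lit 12323161241) (nat_lit 228) (nat_lit 434576338) (nat_lit 304) (nat_lit 18596052212) (nat_lit 128) (nat_lit 5) (nat_lit 131) (nat_lit 5) (nat_lit 132) (nat_lit 5) (nat_lit 497) (nat_lit 431) (nat_lit 272))))) (XT.nd (nat_lit 312) (nat_lit 684) (nat_lit 0) (XT.nd (nat_lit 156) (nat_lit 304) (nat_lit 0) (XT.nd (nat_lit 78) (nat_lit 228) (nat_lit 0) (XT.lf (nat_lit 0) (nat_lit 20725233040) (nat_lit 304) (nat_lit 229146164) (nat_lit 76) (nat_lit 10993974118) (nat_lit 128) (nat_lit 5) (nat_lit 132) (nat_lit 5) (nat_lit 129) (nat_lit 5) (nat_lit 498) (nat_lit 431) (nat_lit 271)) (XT.lf (nat_lit 0) (nat_lit 19502795574) (nat_lit 228) (nat_lit 9614742794) (nat_lit 304) (nat_lit 3437642215) (nat_lit 125) (nat_lit 5) (nat_lit 128) (nat_lit 5) (nat_lit 129) (nat_lit 5) (nat_lit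 499) (nat_lit 431) (nat_lit 270))) (XT.nd (nat_lit 78) (nat_lit 0) (nat_lit 0) (XT.lf (nat_lit 0) (nat_lit 4573961103) (nat_lit 304) (nat_lit 26469361055) (nat_lit 76) (nat_lit 2133110860) (nat_lit 121) (nat_lit 5) (nat_lit 125) (nat_lit 5) (nat_lit 122) (nat_lit 5) (nat_lit 500) (nat_lit 431) (nat_lit 269)) (XT.lf (nat_lit 0) (nat_lit 12979197044) (nat_lit 304) (nat_lit 6625949232) (nat_lit 76) (nat_lit 14203484679) (nat_lit 121) (nat_lit 5) (nat_lit 125) (nat_lit 5) (nat_lit 122) (nat_lit 5) (nat_lit 501) (nat_lit 431) (nat_lit 268)))) (XT.nd (nat_lit 156) (nat_lit 304) (nat_lit 0) (XT.nd (nat_lit 78) (nat_lit 152) (nat_lit 0) (XT.lf (nat_lit 0) (nat_lit 14077845750) (nat_lit 228) (nat_lit 7688315558) (nat_lit 304) (nat_lit 12689746713) (nat_lit 118) (nat_lit 5) (nat_lit 121) (nat_lit 5) (nat_lit 122) (nat_lit 5) (nat_lit 502) (nat_lit 431) (nat_lit 267)) (XT.lf (nat_lit 0) (nat_lit 370805722) (nat_lit 152) (nat_lit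 30555433625) (nat_lit 228) (nat_lit 4193079230) (nat_lit 116) (nat_lit 5) (nat_lit 118) (nat_lit 5) (nat_lit 119) (nat_lit 5) (nat_lit 503) (nat_lit 431) (nat_lit 266))) (XT.nd (nat_lit 78) (nat_lit 228) (nat_lit 0) (XT.lf (nat_lit 0) (nat_lit 4747777087) (nat_lit 228) (nat_lit 13768253110) (nat_lit 76) (nat_lit 17276939746) (nat_lit 115) (nat_lit 5) (nat_lit 118) (nat_lit 5) (nat_lit 116) (nat_lit 5) (nat_lit 504) (nat_lit 431) (nat_lit 265)) (XT.lf (nat_lit 0) (nat_lit 7945540296) (nat_lit 228) (nat_lit 5997888887) (nat_lit 304) (nat_lit 22540031086) (nat_lit 112) (nat_lit 5) (nat_lit 115) (nat_lit 5) (nat_lit 116) (nat_lit 5) (nat_lit 505) (nat_lit 431) (nat_lit 264)))))) (XT.nd (nat_lit 624) (nat_lit 760) (nat_lit 0) (XT.nd (nat_lit 312) (nat_lit 532) (nat_lit 0) (XT.nd (nat_lit 156) (nat_lit 304) (nat_lit 0) (XT.nd (nat_lit 78) (nat_lit 152) (nat_lit 0) (XT.lf (nat_lit 0) (nat_lit 23616150338) (nat_lit 304)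 (nat_lit 6674613731) (nat_lit 76) (nat_lit 6897865537) (nat_lit 112) (nat_lit 5) (nat_lit 116) (nat_lit 5) (nat_lit 113) (nat_lit 5) (nat_lit 506) (nat_lit 431) (nat_lit 263)) (XT.lf (nat_lit 0) (nat_lit 16090016348) (nat_lit 152) (nat_lit 17697752937) (nat_lit 228) (nat_lit 4120923530) (nat_lit 110) (nat_lit 5) (nat_lit 112) (nat_lit 5) (nat_lit 113) (nat_lit 5) (nat_lit 507) (nat_lit 431) (nat_lit 262))) (XT.nd (nat_lit 78) (nat_lit 0) (nat_lit 0) (XT.lf (nat_lit 0) (nat_lit 981408239) (nat_lit 228) (nat_lit 4595399333) (nat_lit 304) (nat_lit 33069766155) (nat_lit 106) (nat_lit 5) (nat_lit 109) (nat_lit 5) (nat_lit 110) (nat_lit 5) (nat_lit 508) (nat_lit 431) (nat_lit 261)) (XT.lf (nat_lit 0) (nat_lit 15785414388) (nat_lit 304) (nat_lit 14624971187) (nat_lit 76) (nat_lit 8985898602) (nat_lit 106) (nat_lit 5) (nat_lit 110) (nat_lit 5) (nat_lit 107) (nat_lit 5) (nat_lit 509) (nat_lit 431) (nat_lit 260)))) (XT.nd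 (nat_lit 156) (nat_lit 380) (nat_lit 0) (XT.nd (nat_lit 78) (nat_lit 0) (nat_lit 0) (XT.lf (nat_lit 0) (nat_lit 9232138814) (nat_lit 152) (nat_lit 17197249109) (nat_lit 228) (nat_lit 13735225008) (nat_lit 104) (nat_lit 5) (nat_lit 106) (nat_lit 5) (nat_lit 107) (nat_lit 5) (nat_lit 510) (nat_lit 431) (nat_lit 259)) (XT.lf (nat_lit 0) (nat_lit 34095903961) (nat_lit 152) (nat_lit 3439389230) (nat_lit 228) (nat_lit 3416420219) (nat_lit 104) (nat_lit 5) (nat_lit 106) (nat_lit 5) (nat_lit 107) (nat_lit 5) (nat_lit 511) (nat_lit 431) (nat_lit 258))) (XT.nd (nat_lit 78) (nat_lit 152) (nat_lit 0) (XT.lf (nat_lit 0) (nat_lit 7346933349) (nat_lit 228) (nat_lit 23640098042) (nat_lit 76) (nat_lit 10765044495) (nat_lit 101) (nat_lit 5) (nat_lit 104) (nat_lit 5) (nat_lit 102) (nat_lit 5) (nat_lit 512) (nat_lit 431) (nat_lit 257)) (XT.lf (nat_lit 0) (nat_lit 1343899717) (nat_lit 152) (nat_lit 17132562752) (nat_lit 228) (nat_lit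 24095613961) (nat_lit 99) (nat_lit 5) (nat_lit 101) (nat_lit 5) (nat_lit 102) (nat_lit 5) (nat_lit 513) (nat_lit 431) (nat_lit 256))))) (XT.nd (nat_lit 312) (nat_lit 380) (nat_lit 0) (XT.nd (nat_lit 156) (nat_lit 228) (nat_lit 0) (XT.nd (nat_lit 78) (nat_lit 152) (nat_lit 0) (XT.lf (nat_lit 0) (nat_lit 27553378113) (nat_lit 152) (nat_lit 2620333189) (nat_lit 228) (nat_lit 13235950885) (nat_lit 99) (nat_lit 5) (nat_lit 101) (nat_lit 5) (nat_lit 102) (nat_lit 5) (nat_lit 514) (nat_lit 431) (nat_lit 255)) (XT.lf (nat_lit 0) (nat_lit 10351774568) (nat_lit 152) (nat_lit 32083330266) (nat_lit 228) (nat_lit 1830874072) (nat_lit 97) (nat_lit 5) (nat_lit 99) (nat_lit 5) (nat_lit 100) (nat_lit 5) (nat_lit 515) (nat_lit 431) (nat_lit 254))) (XT.nd (nat_lit 78) (nat_lit 152) (nat_lit 0) (XT.lf (nat_lit 0) (nat_lit 9905731661) (nat_lit 228) (nat_lit 7603425406) (nat_lit 76) (nat_lit 27630482179) (nat_lit 96) (nat_lit 5) (nat_lit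 99) (nat_lit 5) (nat_lit 97) (nat_lit 5) (nat_lit 516) (nat_lit 431) (nat_lit 253)) (XT.lf (nat_lit 0) (nat_lit 19857788381) (nat_lit 152) (nat_lit 2286106291) (nat_lit 228) (nat_lit 23889483353) (nat_lit 94) (nat_lit 5) (nat_lit 96) (nat_lit 5) (nat_lit 97) (nat_lit 5) (nat_lit 517) (nat_lit 431) (nat_lit 252)))) (XT.nd (nat_lit 156) (nat_lit 152) (nat_lit 0) (XT.nd (nat_lit 78) (nat_lit 76) (nat_lit 0) (XT.lf (nat_lit 0) (nat_lit 1233355238) (nat_lit 152) (nat_lit 33729384969) (nat_lit 228) (nat_lit 11984782815) (nat_lit 92) (nat_lit 5) (nat_lit 94) (nat_lit 5) (nat_lit 95) (nat_lit 5) (nat_lit 518) (nat_lit 431) (nat_lit 251)) (XT.lf (nat_lit 0) (nat_lit 556630497) (nat_lit 228) (nat_lit 17916225517) (nat_lit 76) (nat_lit 29407607284) (nat_lit 91) (nat_lit 5) (nat_lit 94) (nat_lit 5) (nat_lit 92) (nat_lit 5) (nat_lit 519) (nat_lit 431) (nat_lit 250))) (XT.nd (nat_lit 78) (nat_lit 0) (nat_lit 0) (XT.lf (nat_lit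 0) (nat_lit 10799685850) (nat_lit 152) (nat_lit 2533069408) (nat_lit 228) (nat_lit 35502096316) (nat_lit 89) (nat_lit 5) (nat_lit 91) (nat_lit 5) (nat_lit 92) (nat_lit 5) (nat_lit 520) (nat_lit 431) (nat_lit 249)) (XT.lf (nat_lit 0) (nat_lit 26803901287) (nat_lit 228) (nat_lit 9211433845) (nat_lit 76) (nat_lit 13793184403) (nat_lit 89) (nat_lit 5) (nat_lit 92) (nat_lit 5) (nat_lit 90) (nat_lit 5) (nat_lit 521) (nat_lit 431) (nat_lit 248))))))))
noncomputable def xc167 : XT := (XT.nd (nat_lit 55692) (nat_lit 0) (nat_lit 12616) (XT.nd (nat_lit 1170) (nat_lit 988) (nat_lit 0) (XT.nd (nat_lit 546) (nat_lit 760) (nat_lit 0) (XT.nd (nat_lit 234) (nat_lit 304) (nat_lit 0) (XT.nd (nat_lit 78) (nat_lit 228) (nat_lit 0) (XT.lf (nat_lit 0) (nat_lit 20850974707) (nat_lit 152) (nat_lit 20049405853) (nat_lit 228) (nat_lit 9904381168) (nat_lit 87) (nat_lit 5) (nat_lit 89) (nat_lit 5) (nat_lit 90) (nat_lit 5) (nat_lit 522) (nat_lit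 431) (nat_lit 247)) (XT.nd (nat_lit 78) (nat_lit 0) (nat_lit 0) (XT.lf (nat_lit 0) (nat_lit 135360238) (nat_lit 152) (nat_lit 3474406061) (nat_lit 228) (nat_lit 48217362038) (nat_lit 84) (nat_lit 5) (nat_lit 86) (nat_lit 5) (nat_lit 87) (nat_lit 5) (nat_lit 523) (nat_lit 431) (nat_lit 246)) (XT.lf (nat_lit 0) (nat_lit 17762162392) (nat_lit 228) (nat_lit 21369514453) (nat_lit 76) (nat_lit 13732590575) (nat_lit 84) (nat_lit 5) (nat_lit 87) (nat_lit 5) (nat_lit 85) (nat_lit 5) (nat_lit 524) (nat_lit 431) (nat_lit 245)))) (XT.nd (nat_lit 156) (nat_lit 152) (nat_lit 0) (XT.nd (nat_lit 78) (nat_lit 0) (nat_lit 0) (XT.lf (nat_lit 0) (nat_lit 10015821240) (nat_lit 152) (nat_lit 22449824621) (nat_lit 228) (nat_lit 21463079490) (nat_lit 82) (nat_lit 5) (nat_lit 84) (nat_lit 5) (nat_lit 85) (nat_lit 5) (nat_lit 525) (nat_lit 431) (nat_lit 244)) (XT.lf (nat_lit 0) (nat_lit 42773215657) (nat_lit 152) (nat_lit 5048694224) (nat_lit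 228) (nat_lit 7196856994) (nat_lit 82) (nat_lit 5) (nat_lit 84) (nat_lit 5) (nat_lit 85) (nat_lit 5) (nat_lit 526) (nat_lit 431) (nat_lit 243))) (XT.nd (nat_lit 78) (nat_lit 0) (nat_lit 0) (XT.lf (nat_lit 0) (nat_lit 7672370396) (nat_lit 152) (nat_lit 35563713831) (nat_lit 76) (nat_lit 12893623916) (nat_lit 80) (nat_lit 5) (nat_lit 82) (nat_lit 5) (nat_lit 81) (nat_lit 5) (nat_lit 527) (nat_lit 431) (nat_lit 242)) (XT.lf (nat_lit 0) (nat_lit 23013873005) (nat_lit 152) (nat_lit 2787257930) (nat_lit 76) (nat_lit 31465583713) (nat_lit 80) (nat_lit 5) (nat_lit 82) (nat_lit 5) (nat_lit 81) (nat_lit 5) (nat_lit 528) (nat_lit 431) (nat_lit 241))))) (XT.nd (nat_lit 312) (nat_lit 304) (nat_lit 0) (XT.nd (nat_lit 156) (nat_lit 228) (nat_lit 0) (XT.nd (nat_lit 78) (nat_lit 76) (nat_lit 0) (XT.lf (nat_lit 0) (nat_lit 31581547241) (nat_lit 152) (nat_lit 7533752324) (nat_lit 228) (nat_lit 19313541540) (nat_lit 78) (nat_lit 5)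 (nat_lit 80) (nat_lit 5) (nat_lit 81) (nat_lit 5) (nat_lit 529) (nat_lit 431) (nat_lit 240)) (XT.lf (nat_lit 0) (nat_lit 7442850016) (nat_lit 76) (nat_lit 48461445867) (nat_lit 152) (nat_lit 3715399781) (nat_lit 77) (nat_lit 5) (nat_lit 78) (nat_lit 5) (nat_lit 79) (nat_lit 4) (nat_lit 530) (nat_lit 431) (nat_lit 239))) (XT.nd (nat_lit 78) (nat_lit 152) (nat_lit 0) (XT.lf (nat_lit 0) (nat_lit 12454178120) (nat_lit 152) (nat_lit 17729333646) (nat_lit 76) (nat_lit 30648867587) (nat_lit 76) (nat_lit 5) (nat_lit 78) (nat_lit 5) (nat_lit 77) (nat_lit 5) (nat_lit 531) (nat_lit 431) (nat_lit 238)) (XT.lf (nat_lit 0) (nat_lit 18060213920) (nat_lit 152) (nat_lit 11143789912) (nat_lit 228) (nat_lit 32871241154) (nat_lit 74) (nat_lit 5) (nat_lit 76) (nat_lit 5) (nat_lit 77) (nat_lit 5) (nat_lit 532) (nat_lit 431) (nat_lit 237)))) (XT.nd (nat_lit 156) (nat_lit 152) (nat_lit 0) (XT.nd (nat_lit 78) (nat_lit 152) (nat_lit 0) (XT.lf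 (nat_lit 0) (nat_lit 46714761998) (nat_lit 228) (nat_lit 8153343027) (nat_lit 76) (nat_lit 8479538535) (nat_lit 74) (nat_lit 5) (nat_lit 77) (nat_lit 5) (nat_lit 75) (nat_lit 4) (nat_lit 533) (nat_lit 431) (nat_lit 236)) (XT.lf (nat_lit 0) (nat_lit 482395892) (nat_lit 152) (nat_lit 35413750860) (nat_lit 76) (nat_lit 28750293490) (nat_lit 72) (nat_lit 5) (nat_lit 74) (nat_lit 5) (nat_lit 73) (nat_lit 5) (nat_lit 534) (nat_lit 431) (nat_lit 235))) (XT.nd (nat_lit 78) (nat_lit 0) (nat_lit 0) (XT.lf (nat_lit 0) (nat_lit 1788269669) (nat_lit 152) (nat_lit 16085252738) (nat_lit 228) (nat_lit 48102837197) (nat_lit 70) (nat_lit 5) (nat_lit 72) (nat_lit 5) (nat_lit 73) (nat_lit 5) (nat_lit 535) (nat_lit 431) (nat_lit 234)) (XT.lf (nat_lit 0) (nat_lit 36185426899) (nat_lit 228) (nat_lit 26555064019) (nat_lit 76) (nat_lit 4593714396) (nat_lit 70) (nat_lit 5) (nat_lit 73) (nat_lit 5) (nat_lit 71) (nat_lit 4) (nat_lit 536) (nat_lit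 431) (nat_lit 233)))))) (XT.nd (nat_lit 546) (nat_lit 380) (nat_lit 0) (XT.nd (nat_lit 234) (nat_lit 304) (nat_lit 0) (XT.nd (nat_lit 78) (nat_lit 228) (nat_lit 0) (XT.lf (nat_lit 0) (nat_lit 12280685702) (nat_lit 76) (nat_lit 43039785876) (nat_lit 152) (nat_lit 13404101415) (nat_lit 69) (nat_lit 5) (nat_lit 70) (nat_lit 5) (nat_lit 71) (nat_lit 4) (nat_lit 537) (nat_lit 431) (nat_lit 232)) (XT.nd (nat_lit 78) (nat_lit 152) (nat_lit 0) (XT.lf (nat_lit 0) (nat_lit 5045115311) (nat_lit 152) (nat_lit 17378895281) (nat_lit 76) (nat_lit 47723217326) (nat_lit 68) (nat_lit 5) (nat_lit 70) (nat_lit 5) (nat_lit 69) (nat_lit 5) (nat_lit 538) (nat_lit 431) (nat_lit 231)) (XT.lf (nat_lit 0) (nat_lit 23171024058) (nat_lit 152) (nat_lit 826690429) (nat_lit 228) (nat_lit 47604287216) (nat_lit 66) (nat_lit 5) (nat_lit 68) (nat_lit 5) (nat_lit 69) (nat_lit 5) (nat_lit 539) (nat_lit 431) (nat_lit 230)))) (XT.nd (nat_lit 156) (nat_lit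 228) (nat_lit 0) (XT.nd (nat_lit 78) (nat_lit 76) (nat_lit 0) (XT.lf (nat_lit 0) (nat_lit 43898600341) (nat_lit 228) (nat_lit 8015556278) (nat_lit 76) (nat_lit 21174870903) (nat_lit 66) (nat_lit 5) (nat_lit 69) (nat_lit 5) (nat_lit 67) (nat_lit 4) (nat_lit 540) (nat_lit 431) (nat_lit 229)) (XT.lf (nat_lit 0) (nat_lit 34266526516) (nat_lit 76) (nat_lit 30464251621) (nat_lit 152) (nat_lit 9879858094) (nat_lit 65) (nat_lit 5) (nat_lit 66) (nat_lit 5) (nat_lit 67) (nat_lit 4) (nat_lit 541) (nat_lit 431) (nat_lit 228))) (XT.nd (nat_lit 78) (nat_lit 0) (nat_lit 0) (XT.lf (nat_lit 0) (nat_lit 1736495420) (nat_lit 152) (nat_lit 8173329663) (nat_lit 228) (nat_lit 66262327655) (nat_lit 62) (nat_lit 5) (nat_lit 64) (nat_lit 5) (nat_lit 65) (nat_lit 5) (nat_lit 542) (nat_lit 431) (nat_lit 227)) (XT.lf (nat_lit 0) (nat_lit 30644890345) (nat_lit 228) (nat_lit 32112040607) (nat_lit 76) (nat_lit 15004141239) (nat_lit 62) (nat_lit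 5) (nat_lit 65) (nat_lit 5) (nat_lit 63) (nat_lit 4) (nat_lit 543) (nat_lit 431) (nat_lit 226))))) (XT.nd (nat_lit 312) (nat_lit 76) (nat_lit 0) (XT.nd (nat_lit 156) (nat_lit 228) (nat_lit 0) (XT.nd (nat_lit 78) (nat_lit 0) (nat_lit 0) (XT.lf (nat_lit 0) (nat_lit 11621019756) (nat_lit 76) (nat_lit 40570418052) (nat_lit 152) (nat_lit 27200538582) (nat_lit 61) (nat_lit 5) (nat_lit 62) (nat_lit 5) (nat_lit 63) (nat_lit 4) (nat_lit 544) (nat_lit 431) (nat_lit 225)) (XT.lf (nat_lit 0) (nat_lit 57318288425) (nat_lit 76) (nat_lit 17387194873) (nat_lit 152) (nat_lit 6356691434) (nat_lit 61) (nat_lit 5) (nat_lit 62) (nat_lit 5) (nat_lit 63) (nat_lit 4) (nat_lit 545) (nat_lit 431) (nat_lit 224))) (XT.nd (nat_lit 78) (nat_lit 0) (nat_lit 0) (XT.lf (nat_lit 0) (nat_lit 15090682583) (nat_lit 228) (nat_lit 60958054639) (nat_lit 76) (nat_lit 6721190452) (nat_lit 58) (nat_lit 5) (nat_lit 61) (nat_lit 5) (nat_lit 59) (nat_lit 4)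 (nat_lit 546) (nat_lit 431) (nat_lit 223)) (XT.lf (nat_lit 0) (nat_lit 37464907375) (nat_lit 228) (nat_lit 15544092160) (nat_lit 76) (nat_lit 31505689821) (nat_lit 58) (nat_lit 5) (nat_lit 61) (nat_lit 5) (nat_lit 59) (nat_lit 4) (nat_lit 547) (nat_lit 431) (nat_lit 222)))) (XT.nd (nat_lit 53508) (nat_lit 0) (nat_lit 19228) (XT.nd (nat_lit 53430) (nat_lit 0) (nat_lit 19228) (XT.lf (nat_lit 0) (nat_lit 31847989642) (nat_lit 76) (nat_lit 28965503559) (nat_lit 152) (nat_lit 25489206718) (nat_lit 57) (nat_lit 5) (nat_lit 58) (nat_lit 5) (nat_lit 59) (nat_lit 4) (nat_lit 548) (nat_lit 431) (nat_lit 221)) (XT.lf (nat_lit 0) (nat_lit 610915804) (nat_lit 0) (nat_lit 610915804) (nat_lit 1140) (nat_lit 4209945892) (nat_lit 310) (nat_lit 5) (nat_lit 310) (nat_lit 3) (nat_lit 325) (nat_lit 3) (nat_lit 432) (nat_lit 432) (nat_lit 336))) (XT.nd (nat_lit 78) (nat_lit 0) (nat_lit 0) (XT.lf (nat_lit 0) (nat_lit 3103527076) (nat_lit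 1140) (nat_lit 4303381081) (nat_lit 1216) (nat_lit 3600818875) (nat_lit 310) (nat_lit 5) (nat_lit 325) (nat_lit 3) (nat_lit 326) (nat_lit 5) (nat_lit 433) (nat_lit 432) (nat_lit 335)) (XT.lf (nat_lit 76) (nat_lit 1194040075) (nat_lit 0) (nat_lit 2589887881) (nat_lit 1216) (nat_lit 7372277351) (nat_lit 311) (nat_lit 5) (nat_lit 310) (nat_lit 5) (nat_lit 326) (nat_lit 5) (nat_lit 434) (nat_lit 432) (nat_lit 334))))))) (XT.nd (nat_lit 1170) (nat_lit 5776) (nat_lit 0) (XT.nd (nat_lit 546) (nat_lit 912) (nat_lit 0) (XT.nd (nat_lit 234) (nat_lit 0) (nat_lit 76) (XT.nd (nat_lit 78) (nat_lit 0) (nat_lit 0) (XT.lf (nat_lit 0) (nat_lit 4529236069) (nat_lit 1140) (nat_lit 4399386201) (nat_lit 1216) (nat_lit 2379184026) (nat_lit 311) (nat_lit 5) (nat_lit 326) (nat_lit 5) (nat_lit 327) (nat_lit 5) (nat_lit 435) (nat_lit 432) (nat_lit 333)) (XT.nd (nat_lit 78) (nat_lit 0) (nat_lit 76) (XT.lf (nat_lit 76) (nat_lit 1317802248)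 (nat_lit 0) (nat_lit 3995868974) (nat_lit 1216) (nat_lit 6149784187) (nat_lit 312) (nat_lit 5) (nat_lit 311) (nat_lit 5) (nat_lit 327) (nat_lit 5) (nat_lit 436) (nat_lit 432) (nat_lit 332)) (XT.lf (nat_lit 0) (nat_lit 6155981475) (nat_lit 1140) (nat_lit 4349760435) (nat_lit 1216) (nat_lit 1117004860) (nat_lit 312) (nat_lit 5) (nat_lit 327) (nat_lit 5) (nat_lit 328) (nat_lit 5) (nat_lit 437) (nat_lit 432) (nat_lit 331)))) (XT.nd (nat_lit 156) (nat_lit 0) (nat_lit 76) (XT.nd (nat_lit 78) (nat_lit 0) (nat_lit 0) (XT.lf (nat_lit 76) (nat_lit 1598888422) (nat_lit 0) (nat_lit 5459264012) (nat_lit 1216) (nat_lit 4727629645) (nat_lit 313) (nat_lit 5) (nat_lit 312) (nat_lit 5) (nat_lit 328) (nat_lit 5) (nat_lit 438) (nat_lit 432) (nat_lit 330)) (XT.lf (nat_lit 76) (nat_lit 7802529983) (nat_lit 0) (nat_lit 208912466) (nat_lit 1216) (nat_lit 3941547244) (nat_lit 313) (nat_lit 5) (nat_lit 312) (nat_lit 5) (nat_lit 328) (nat_lit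 5) (nat_lit 439) (nat_lit 432) (nat_lit 329))) (XT.nd (nat_lit 78) (nat_lit 0) (nat_lit 0) (XT.lf (nat_lit 76) (nat_lit 2044065130) (nat_lit 0) (nat_lit 6999666485) (nat_lit 1216) (nat_lit 3079972685) (nat_lit 314) (nat_lit 5) (nat_lit 313) (nat_lit 5) (nat_lit 329) (nat_lit 5) (nat_lit 440) (nat_lit 432) (nat_lit 328)) (XT.lf (nat_lit 76) (nat_lit 8494609355) (nat_lit 0) (nat_lit 1637552928) (nat_lit 1216) (nat_lit 2166625574) (nat_lit 314) (nat_lit 5) (nat_lit 313) (nat_lit 5) (nat_lit 329) (nat_lit 5) (nat_lit 441) (nat_lit 432) (nat_lit 327))))) (XT.nd (nat_lit 312) (nat_lit 0) (nat_lit 76) (XT.nd (nat_lit 156) (nat_lit 1140) (nat_lit 0) (XT.nd (nat_lit 78) (nat_lit 0) (nat_lit 0) (XT.lf (nat_lit 76) (nat_lit 2661104166) (nat_lit 0) (nat_lit 8636887285) (nat_lit 1216) (nat_lit 1179792724) (nat_lit 315) (nat_lit 5) (nat_lit 314) (nat_lit 5) (nat_lit 330) (nat_lit 5) (nat_lit 442) (nat_lit 432) (nat_lit 326))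 (XT.lf (nat_lit 76) (nat_lit 9368898352) (nat_lit 0) (nat_lit 3166588358) (nat_lit 1216) (nat_lit 125565479) (nat_lit 315) (nat_lit 5) (nat_lit 314) (nat_lit 5) (nat_lit 330) (nat_lit 5) (nat_lit 443) (nat_lit 432) (nat_lit 325))) (XT.nd (nat_lit 78) (nat_lit 0) (nat_lit 0) (XT.lf (nat_lit 0) (nat_lit 981696779) (nat_lit 1216) (nat_lit 9399456183) (nat_lit 1292) (nat_lit 2467186345) (nat_lit 299) (nat_lit 5) (nat_lit 315) (nat_lit 5) (nat_lit 316) (nat_lit 5) (nat_lit 444) (nat_lit 432) (nat_lit 324)) (XT.lf (nat_lit 0) (nat_lit 2167572206) (nat_lit 1216) (nat_lit 2626831018) (nat_lit 1292) (nat_lit 8245369274) (nat_lit 299) (nat_lit 5) (nat_lit 315) (nat_lit 5) (nat_lit 316) (nat_lit 5) (nat_lit 445) (nat_lit 432) (nat_lit 323)))) (XT.nd (nat_lit 156) (nat_lit 0) (nat_lit 0) (XT.nd (nat_lit 78) (nat_lit 0) (nat_lit 0) (XT.lf (nat_lit 0) (nat_lit 3424706054) (nat_lit 1216) (nat_lit 8823493479) (nat_lit 1292) (nat_lit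 987680948) (nat_lit 300) (nat_lit 5) (nat_lit 316) (nat_lit 5) (nat_lit 317) (nat_lit 5) (nat_lit 446) (nat_lit 432) (nat_lit 322)) (XT.lf (nat_lit 0) (nat_lit 4777690763) (nat_lit 1216) (nat_lit 1781479966) (nat_lit 1292) (nat_lit 6876959062) (nat_lit 300) (nat_lit 5) (nat_lit 316) (nat_lit 5) (nat_lit 317) (nat_lit 5) (nat_lit 447) (nat_lit 432) (nat_lit 321))) (XT.nd (nat_lit 78) (nat_lit 0) (nat_lit 76) (XT.lf (nat_lit 76) (nat_lit 5567522690) (nat_lit 0) (nat_lit 641609331) (nat_lit 1292) (nat_lit 7432120679) (nat_lit 301) (nat_lit 5) (nat_lit 300) (nat_lit 5) (nat_lit 317) (nat_lit 5) (nat_lit 448) (nat_lit 432) (nat_lit 320)) (XT.lf (nat_lit 0) (nat_lit 7738812120) (nat_lit 1216) (nat_lit 744348916) (nat_lit 76) (nat_lit 5367711461) (nat_lit 301) (nat_lit 5) (nat_lit 317) (nat_lit 5) (nat_lit 302) (nat_lit 5) (nat_lit 449) (nat_lit 432) (nat_lit 319)))))) (XT.nd (nat_lit 624) (nat_lit 2128) (nat_lit 0) (XT.nd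 (nat_lit 312) (nat_lit 1140) (nat_lit 0) (XT.nd (nat_lit 156) (nat_lit 684) (nat_lit 0) (XT.nd (nat_lit 78) (nat_lit 760) (nat_lit 0) (XT.lf (nat_lit 0) (nat_lit 6920722833) (nat_lit 1216) (nat_lit 2451689895) (nat_lit 1292) (nat_lit 4692629263) (nat_lit 285) (nat_lit 5) (nat_lit 301) (nat_lit 5) (nat_lit 302) (nat_lit 5) (nat_lit 450) (nat_lit 432) (nat_lit 318)) (XT.lf (nat_lit 0) (nat_lit 506028388) (nat_lit 760) (nat_lit 10583076744) (nat_lit 836) (nat_lit 3195510875) (nat_lit 275) (nat_lit 5) (nat_lit 285) (nat_lit 5) (nat_lit 286) (nat_lit 5) (nat_lit 451) (nat_lit 432) (nat_lit 317))) (XT.nd (nat_lit 78) (nat_lit 684) (nat_lit 0) (XT.lf (nat_lit 0) (nat_lit 8494494886) (nat_lit 760) (nat_lit 4444758633) (nat_lit 836) (nat_lit 1569066961) (nat_lit 275) (nat_lit 5) (nat_lit 285) (nat_lit 5) (nat_lit 286) (nat_lit 5) (nat_lit 452) (nat_lit 432) (nat_lit 316)) (XT.lf (nat_lit 0) (nat_lit 127722474) (nat_lit 684)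 (nat_lit 12747727541) (nat_lit 76) (nat_lit 1862548517) (nat_lit 266) (nat_lit 5) (nat_lit 275) (nat_lit 5) (nat_lit 267) (nat_lit 5) (nat_lit 453) (nat_lit 432) (nat_lit 315)))) (XT.nd (nat_lit 156) (nat_lit 532) (nat_lit 0) (XT.nd (nat_lit 78) (nat_lit 608) (nat_lit 0) (XT.lf (nat_lit 0) (nat_lit 1935557185) (nat_lit 684) (nat_lit 4688397391) (nat_lit 76) (nat_lit 8347397676) (nat_lit 266) (nat_lit 5) (nat_lit 275) (nat_lit 5) (nat_lit 267) (nat_lit 5) (nat_lit 454) (nat_lit 432) (nat_lit 314)) (XT.lf (nat_lit 0) (nat_lit 3671466678) (nat_lit 608) (nat_lit 148192120) (nat_lit 684) (nat_lit 11391388511) (nat_lit 258) (nat_lit 5) (nat_lit 266) (nat_lit 5) (nat_lit 267) (nat_lit 5) (nat_lit 455) (nat_lit 432) (nat_lit 313))) (XT.nd (nat_lit 78) (nat_lit 532) (nat_lit 0) (XT.lf (nat_lit 0) (nat_lit 5857793042) (nat_lit 684) (nat_lit 3154596330) (nat_lit 76) (nat_lit 6442620190) (nat_lit 258) (nat_lit 5) (nat_lit 267)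 (nat_lit 5) (nat_lit 259) (nat_lit 5) (nat_lit 456) (nat_lit 432) (nat_lit 312)) (XT.lf (nat_lit 0) (nat_lit 5576514400) (nat_lit 532) (nat_lit 2423012783) (nat_lit 608) (nat_lit 7705491408) (nat_lit 251) (nat_lit 5) (nat_lit 258) (nat_lit 5) (nat_lit 259) (nat_lit 5) (nat_lit 457) (nat_lit 432) (nat_lit 311))))) (XT.nd (nat_lit 312) (nat_lit 988) (nat_lit 0) (XT.nd (nat_lit 156) (nat_lit 608) (nat_lit 0) (XT.nd (nat_lit 78) (nat_lit 532) (nat_lit 0) (XT.lf (nat_lit 0) (nat_lit 10267260815) (nat_lit 608) (nat_lit 1382631397) (nat_lit 76) (nat_lit 4310784794) (nat_lit 251) (nat_lit 5) (nat_lit 259) (nat_lit 5) (nat_lit 252) (nat_lit 5) (nat_lit 458) (nat_lit 432) (nat_lit 310)) (XT.lf (nat_lit 0) (nat_lit 7740023799) (nat_lit 532) (nat_lit 4949382063) (nat_lit 608) (nat_lit 3532009424) (nat_lit 244) (nat_lit 5) (nat_lit 251) (nat_lit 5) (nat_lit 252) (nat_lit 5) (nat_lit 459) (nat_lit 432) (nat_lit 309))) (XT.nd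 (nat_lit 78) (nat_lit 76) (nat_lit 0) (XT.lf (nat_lit 0) (nat_lit 656182139) (nat_lit 532) (nat_lit 14555415922) (nat_lit 608) (nat_lit 1277557619) (nat_lit 237) (nat_lit 5) (nat_lit 244) (nat_lit 5) (nat_lit 245) (nat_lit 5) (nat_lit 460) (nat_lit 432) (nat_lit 308)) (XT.lf (nat_lit 0) (nat_lit 1147957335) (nat_lit 608) (nat_lit 6593479234) (nat_lit 76) (nat_lit 9019477501) (nat_lit 236) (nat_lit 5) (nat_lit 244) (nat_lit 5) (nat_lit 237) (nat_lit 5) (nat_lit 461) (nat_lit 432) (nat_lit 307)))) (XT.nd (nat_lit 156) (nat_lit 456) (nat_lit 0) (XT.nd (nat_lit 78) (nat_lit 0) (nat_lit 0) (XT.lf (nat_lit 0) (nat_lit 2955632552) (nat_lit 532) (nat_lit 681994149) (nat_lit 608) (nat_lit 13402308370) (nat_lit 229) (nat_lit 5) (nat_lit 236) (nat_lit 5) (nat_lit 237) (nat_lit 5) (nat_lit 462) (nat_lit 432) (nat_lit 306)) (XT.lf (nat_lit 0) (nat_lit 6321419283) (nat_lit 608) (nat_lit 4475742967) (nat_lit 76) (nat_lit 6526582744)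 (nat_lit 229) (nat_lit 5) (nat_lit 237) (nat_lit 5) (nat_lit 230) (nat_lit 5) (nat_lit 463) (nat_lit 432) (nat_lit 305))) (XT.nd (nat_lit 78) (nat_lit 0) (nat_lit 0) (XT.lf (nat_lit 0) (nat_lit 5509409659) (nat_lit 456) (nat_lit 3625205866) (nat_lit 532) (nat_lit 8479988246) (nat_lit 223) (nat_lit 5) (nat_lit 229) (nat_lit 5) (nat_lit 230) (nat_lit 5) (nat_lit 464) (nat_lit 432) (nat_lit 304)) (XT.lf (nat_lit 0) (nat_lit 12103371713) (nat_lit 532) (nat_lit 2076178332) (nat_lit 76) (nat_lit 3732504559) (nat_lit 223) (nat_lit 5) (nat_lit 230) (nat_lit 5) (nat_lit 224) (nat_lit 5) (nat_lit 465) (nat_lit 432) (nat_lit 303))))))))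
noncomputable def xc168 : XT := (XT.nd (nat_lit 2340) (nat_lit 3876) (nat_lit 0) (XT.nd (nat_lit 1170) (nat_lit 2812) (nat_lit 0) (XT.nd (nat_lit 546) (nat_lit 2052) (nat_lit 0) (XT.nd (nat_lit 234) (nat_lit 836) (nat_lit 0) (XT.nd (nat_lit 78) (nat_lit 532) (nat_lit 0) (XT.lf (nat_lit 0) (nat_lit 8368887114) (nat_lit 456) (nat_lit 6898311976) (nat_lit 532) (nat_lit 2948050796) (nat_lit 217) (nat_lit 5) (nat_lit 223) (nat_lit 5) (nat_lit 224) (nat_lit 5) (nat_lit 466) (nat_lit 432) (nat_lit 302)) (XT.nd (nat_lit 78) (nat_lit 0) (nat_lit 0) (XT.lf (nat_lit 0) (nat_lit 21567995) (nat_lit 532) (nat_lit 17890073957) (nat_lit 76) (nat_lit 615206552) (nat_lit 210) (nat_lit 5) (nat_lit 217) (nat_lit 5) (nat_lit 211) (nat_lit 5) (nat_lit 467) (nat_lit 432) (nat_lit 301)) (XT.lf (nat_lit 0) (nat_lit 3179648102) (nat_lit 532) (nat_lit 7319520392) (nat_lit 76) (nat_lit 8342993236) (nat_lit 210) (nat_lit 5) (nat_lit 217) (nat_lit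 5) (nat_lit 211) (nat_lit 5) (nat_lit 468) (nat_lit 432) (nat_lit 300)))) (XT.nd (nat_lit 156) (nat_lit 380) (nat_lit 0) (XT.nd (nat_lit 78) (nat_lit 0) (nat_lit 0) (XT.lf (nat_lit 0) (nat_lit 3626803560) (nat_lit 456) (nat_lit 2830736062) (nat_lit 532) (nat_lit 12708643710) (nat_lit 204) (nat_lit 5) (nat_lit 210) (nat_lit 5) (nat_lit 211) (nat_lit 5) (nat_lit 469) (nat_lit 432) (nat_lit 299)) (XT.lf (nat_lit 0) (nat_lit 9947479849) (nat_lit 532) (nat_lit 4507860412) (nat_lit 76) (nat_lit 5041174979) (nat_lit 204) (nat_lit 5) (nat_lit 211) (nat_lit 5) (nat_lit 205) (nat_lit 5) (nat_lit 470) (nat_lit 432) (nat_lit 298))) (XT.nd (nat_lit 78) (nat_lit 0) (nat_lit 0) (XT.lf (nat_lit 0) (nat_lit 6950293651) (nat_lit 380) (nat_lit 6677296214) (nat_lit 456) (nat_lit 6206604081) (nat_lit 199) (nat_lit 5) (nat_lit 204) (nat_lit 5) (nat_lit 205) (nat_lit 5) (nat_lit 471) (nat_lit 432) (nat_lit 297)) (XT.lf (nat_lit 0) (nat_lit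 17467667118) (nat_lit 456) (nat_lit 1361357713) (nat_lit 76) (nat_lit 1351492223) (nat_lit 199) (nat_lit 5) (nat_lit 205) (nat_lit 5) (nat_lit 200) (nat_lit 5) (nat_lit 472) (nat_lit 432) (nat_lit 296))))) (XT.nd (nat_lit 312) (nat_lit 760) (nat_lit 0) (XT.nd (nat_lit 156) (nat_lit 380) (nat_lit 0) (XT.nd (nat_lit 78) (nat_lit 380) (nat_lit 0) (XT.lf (nat_lit 0) (nat_lit 1029405527) (nat_lit 532) (nat_lit 9905926972) (nat_lit 76) (nat_lit 9596813670) (nat_lit 192) (nat_lit 5) (nat_lit 199) (nat_lit 5) (nat_lit 193) (nat_lit 5) (nat_lit 473) (nat_lit 432) (nat_lit 295)) (XT.lf (nat_lit 0) (nat_lit 2109835487) (nat_lit 380) (nat_lit 2744830830) (nat_lit 456) (nat_lit 16038095026) (nat_lit 187) (nat_lit 5) (nat_lit 192) (nat_lit 5) (nat_lit 193) (nat_lit 5) (nat_lit 474) (nat_lit 432) (nat_lit 294))) (XT.nd (nat_lit 78) (nat_lit 380) (nat_lit 0) (XT.lf (nat_lit 0) (nat_lit 8941633507) (nat_lit 456) (nat_lit 6639638516)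 (nat_lit 76) (nat_lit 5678515342) (nat_lit 187) (nat_lit 5) (nat_lit 193) (nat_lit 5) (nat_lit 188) (nat_lit 5) (nat_lit 475) (nat_lit 432) (nat_lit 293)) (XT.lf (nat_lit 0) (nat_lit 5945252552) (nat_lit 380) (nat_lit 7281757528) (nat_lit 456) (nat_lit 8408540904) (nat_lit 182) (nat_lit 5) (nat_lit 187) (nat_lit 5) (nat_lit 188) (nat_lit 5) (nat_lit 476) (nat_lit 432) (nat_lit 292)))) (XT.nd (nat_lit 156) (nat_lit 380) (nat_lit 0) (XT.nd (nat_lit 78) (nat_lit 380) (nat_lit 0) (XT.lf (nat_lit 0) (nat_lit 17712419655) (nat_lit 456) (nat_lit 3001262052) (nat_lit 76) (nat_lit 1306762456) (nat_lit 182) (nat_lit 5) (nat_lit 188) (nat_lit 5) (nat_lit 183) (nat_lit 5) (nat_lit 477) (nat_lit 432) (nat_lit 291)) (XT.lf (nat_lit 0) (nat_lit 80575712) (nat_lit 380) (nat_lit 12229052300) (nat_lit 76) (nat_lit 10102378662) (nat_lit 177) (nat_lit 5) (nat_lit 182) (nat_lit 5) (nat_lit 178) (nat_lit 5) (nat_lit 478) (nat_lit 432)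 (nat_lit 290))) (XT.nd (nat_lit 78) (nat_lit 0) (nat_lit 0) (XT.lf (nat_lit 0) (nat_lit 974521702) (nat_lit 380) (nat_lit 3571578861) (nat_lit 456) (nat_lit 18266981012) (nat_lit 172) (nat_lit 5) (nat_lit 177) (nat_lit 5) (nat_lit 178) (nat_lit 5) (nat_lit 479) (nat_lit 432) (nat_lit 289)) (XT.lf (nat_lit 0) (nat_lit 9314462649) (nat_lit 456) (nat_lit 8462455582) (nat_lit 76) (nat_lit 5444205060) (nat_lit 172) (nat_lit 5) (nat_lit 178) (nat_lit 5) (nat_lit 173) (nat_lit 5) (nat_lit 480) (nat_lit 432) (nat_lit 288)))))) (XT.nd (nat_lit 546) (nat_lit 1520) (nat_lit 0) (XT.nd (nat_lit 234) (nat_lit 608) (nat_lit 0) (XT.nd (nat_lit 78) (nat_lit 380) (nat_lit 0) (XT.lf (nat_lit 0) (nat_lit 5373303490) (nat_lit 304) (nat_lit 8931795691) (nat_lit 380) (nat_lit 9333931062) (nat_lit 168) (nat_lit 5) (nat_lit 172) (nat_lit 5) (nat_lit 173) (nat_lit 5) (nat_lit 481) (nat_lit 432) (nat_lit 287)) (XT.nd (nat_lit 78) (nat_lit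 380) (nat_lit 0) (XT.lf (nat_lit 0) (nat_lit 19525771572) (nat_lit 380) (nat_lit 4283075377) (nat_lit 76) (nat_lit 258218624) (nat_lit 168) (nat_lit 5) (nat_lit 173) (nat_lit 5) (nat_lit 169) (nat_lit 5) (nat_lit 482) (nat_lit 432) (nat_lit 286)) (XT.lf (nat_lit 0) (nat_lit 568374984) (nat_lit 380) (nat_lit 14288986696) (nat_lit 76) (nat_lit 9645038081) (nat_lit 163) (nat_lit 5) (nat_lit 168) (nat_lit 5) (nat_lit 164) (nat_lit 5) (nat_lit 483) (nat_lit 432) (nat_lit 285)))) (XT.nd (nat_lit 156) (nat_lit 304) (nat_lit 0) (XT.nd (nat_lit 78) (nat_lit 0) (nat_lit 0) (XT.lf (nat_lit 0) (nat_lit 231296676) (nat_lit 304) (nat_lit 5547227970) (nat_lit 380) (nat_lit 19169767061) (nat_lit 159) (nat_lit 5) (nat_lit 163) (nat_lit 5) (nat_lit 164) (nat_lit 5) (nat_lit 484) (nat_lit 432) (nat_lit 284)) (XT.lf (nat_lit 0) (nat_lit 11322197259) (nat_lit 380) (nat_lit 9974421142) (nat_lit 76) (nat_lit 4105626055) (nat_lit 159)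 (nat_lit 5) (nat_lit 164) (nat_lit 5) (nat_lit 160) (nat_lit 5) (nat_lit 485) (nat_lit 432) (nat_lit 283))) (XT.nd (nat_lit 78) (nat_lit 0) (nat_lit 0) (XT.lf (nat_lit 0) (nat_lit 5247216081) (nat_lit 304) (nat_lit 11883183651) (nat_lit 380) (nat_lit 8736470045) (nat_lit 155) (nat_lit 5) (nat_lit 159) (nat_lit 5) (nat_lit 160) (nat_lit 5) (nat_lit 486) (nat_lit 432) (nat_lit 282)) (XT.lf (nat_lit 0) (nat_lit 21119390091) (nat_lit 304) (nat_lit 2087143824) (nat_lit 380) (nat_lit 3136089935) (nat_lit 155) (nat_lit 5) (nat_lit 159) (nat_lit 5) (nat_lit 160) (nat_lit 5) (nat_lit 487) (nat_lit 432) (nat_lit 281))))) (XT.nd (nat_lit 312) (nat_lit 608) (nat_lit 0) (XT.nd (nat_lit 156) (nat_lit 532) (nat_lit 0) (XT.nd (nat_lit 78) (nat_lit 0) (nat_lit 0) (XT.lf (nat_lit 0) (nat_lit 2756124833) (nat_lit 380) (nat_lit 16096839020) (nat_lit 76) (nat_lit 7973672458) (nat_lit 150) (nat_lit 5) (nat_lit 155) (nat_lit 5) (nat_lit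 151) (nat_lit 5) (nat_lit 488) (nat_lit 432) (nat_lit 280)) (XT.lf (nat_lit 0) (nat_lit 8829173658) (nat_lit 380) (nat_lit 117810394) (nat_lit 76) (nat_lit 18375241099) (nat_lit 150) (nat_lit 5) (nat_lit 155) (nat_lit 5) (nat_lit 151) (nat_lit 5) (nat_lit 489) (nat_lit 432) (nat_lit 279))) (XT.nd (nat_lit 78) (nat_lit 228) (nat_lit 0) (XT.lf (nat_lit 0) (nat_lit 15251509818) (nat_lit 380) (nat_lit 11186279399) (nat_lit 76) (nat_lit 1389880064) (nat_lit 146) (nat_lit 5) (nat_lit 151) (nat_lit 5) (nat_lit 147) (nat_lit 5) (nat_lit 490) (nat_lit 432) (nat_lit 278)) (XT.lf (nat_lit 0) (nat_lit 5567349034) (nat_lit 228) (nat_lit 16435899067) (nat_lit 304) (nat_lit 6340927159) (nat_lit 143) (nat_lit 5) (nat_lit 146) (nat_lit 5) (nat_lit 147) (nat_lit 5) (nat_lit 491) (nat_lit 432) (nat_lit 277)))) (XT.nd (nat_lit 156) (nat_lit 228) (nat_lit 0) (XT.nd (nat_lit 78) (nat_lit 304) (nat_lit 0) (XT.lf (nat_lit 0) (nat_lit 187311551)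 (nat_lit 304) (nat_lit 5832058700) (nat_lit 76) (nat_lit 22853557047) (nat_lit 142) (nat_lit 5) (nat_lit 146) (nat_lit 5) (nat_lit 143) (nat_lit 5) (nat_lit 492) (nat_lit 432) (nat_lit 276)) (XT.lf (nat_lit 0) (nat_lit 6937799357) (nat_lit 380) (nat_lit 17681294115) (nat_lit 76) (nat_lit 4791949980) (nat_lit 138) (nat_lit 5) (nat_lit 143) (nat_lit 5) (nat_lit 139) (nat_lit 5) (nat_lit 493) (nat_lit 432) (nat_lit 275))) (XT.nd (nat_lit 78) (nat_lit 228) (nat_lit 0) (XT.lf (nat_lit 0) (nat_lit 14003580109) (nat_lit 380) (nat_lit 95775554) (nat_lit 76) (nat_lit 15862564509) (nat_lit 138) (nat_lit 5) (nat_lit 143) (nat_lit 5) (nat_lit 139) (nat_lit 5) (nat_lit 494) (nat_lit 432) (nat_lit 274)) (XT.lf (nat_lit 0) (nat_lit 18365965062) (nat_lit 228) (nat_lit 3085802595) (nat_lit 304) (nat_lit 9072442953) (nat_lit 135) (nat_lit 5) (nat_lit 138) (nat_lit 5) (nat_lit 139) (nat_lit 5) (nat_lit 495) (nat_lit 432) (nat_lit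 273))))))) (XT.nd (nat_lit 1170) (nat_lit 1672) (nat_lit 0) (XT.nd (nat_lit 546) (nat_lit 1140) (nat_lit 0) (XT.nd (nat_lit 234) (nat_lit 532) (nat_lit 0) (XT.nd (nat_lit 78) (nat_lit 304) (nat_lit 0) (XT.lf (nat_lit 0) (nat_lit 6314220862) (nat_lit 228) (nat_lit 22944174498) (nat_lit 304) (nat_lit 1840924974) (nat_lit 132) (nat_lit 5) (nat_lit 135) (nat_lit 5) (nat_lit 136) (nat_lit 5) (nat_lit 496) (nat_lit 432) (nat_lit 272)) (XT.nd (nat_lit 78) (nat_lit 228) (nat_lit 0) (XT.lf (nat_lit 0) (nat_lit 5646620856) (nat_lit 304) (nat_lit 6193383307) (nat_lit 76) (nat_lit 19845607309) (nat_lit 131) (nat_lit 5) (nat_lit 135) (nat_lit 5) (nat_lit 132) (nat_lit 5) (nat_lit 497) (nat_lit 432) (nat_lit 271)) (XT.lf (nat_lit 0) (nat_lit 13185636833) (nat_lit 228) (nat_lit 257042756) (nat_lit 304) (nat_lit 18842638699) (nat_lit 128) (nat_lit 5) (nat_lit 131) (nat_lit 5) (nat_lit 132) (nat_lit 5) (nat_lit 498) (nat_lit 432)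 (nat_lit 270)))) (XT.nd (nat_lit 156) (nat_lit 304) (nat_lit 0) (XT.nd (nat_lit 78) (nat_lit 0) (nat_lit 0) (XT.lf (nat_lit 0) (nat_lit 254413950) (nat_lit 228) (nat_lit 21390207845) (nat_lit 304) (nat_lit 11253234825) (nat_lit 125) (nat_lit 5) (nat_lit 128) (nat_lit 5) (nat_lit 129) (nat_lit 5) (nat_lit 499) (nat_lit 432) (nat_lit 269)) (XT.lf (nat_lit 0) (nat_lit 20568589899) (nat_lit 228) (nat_lit 9713684028) (nat_lit 304) (nat_lit 3240807976) (nat_lit 125) (nat_lit 5) (nat_lit 128) (nat_lit 5) (nat_lit 129) (nat_lit 5) (nat_lit 500) (nat_lit 432) (nat_lit 268))) (XT.nd (nat_lit 78) (nat_lit 0) (nat_lit 0) (XT.lf (nat_lit 0) (nat_lit 5003197335) (nat_lit 304) (nat_lit 26774751234) (nat_lit 76) (nat_lit 2385000125) (nat_lit 121) (nat_lit 5) (nat_lit 125) (nat_lit 5) (nat_lit 122) (nat_lit 5) (nat_lit 501) (nat_lit 432) (nat_lit 267)) (XT.lf (nat_lit 0) (nat_lit 13652084993) (nat_lit 304) (nat_lit 6350270765) (nat_lit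 76) (nat_lit 14812012461) (nat_lit 121) (nat_lit 5) (nat_lit 125) (nat_lit 5) (nat_lit 122) (nat_lit 5) (nat_lit 502) (nat_lit 432) (nat_lit 266))))) (XT.nd (nat_lit 312) (nat_lit 456) (nat_lit 0) (XT.nd (nat_lit 156) (nat_lit 304) (nat_lit 0) (XT.nd (nat_lit 78) (nat_lit 152) (nat_lit 0) (XT.lf (nat_lit 0) (nat_lit 14969986528) (nat_lit 228) (nat_lit 7728930082) (nat_lit 304) (nat_lit 12782259710) (nat_lit 118) (nat_lit 5) (nat_lit 121) (nat_lit 5) (nat_lit 122) (nat_lit 5) (nat_lit 503) (nat_lit 432) (nat_lit 265)) (XT.lf (nat_lit 0) (nat_lit 853647042) (nat_lit 152) (nat_lit 31278309254) (nat_lit 228) (nat_lit 4032588579) (nat_lit 116) (nat_lit 5) (nat_lit 118) (nat_lit 5) (nat_lit 119) (nat_lit 5) (nat_lit 504) (nat_lit 432) (nat_lit 264))) (XT.nd (nat_lit 78) (nat_lit 228) (nat_lit 0) (XT.lf (nat_lit 0) (nat_lit 5162731386) (nat_lit 228) (nat_lit 13717884703) (nat_lit 76) (nat_lit 17977952838) (nat_lit 115)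 (nat_lit 5) (nat_lit 118) (nat_lit 5) (nat_lit 116) (nat_lit 5) (nat_lit 505) (nat_lit 432) (nat_lit 263)) (XT.lf (nat_lit 0) (nat_lit 8642779211) (nat_lit 228) (nat_lit 5987947294) (nat_lit 304) (nat_lit 22939153676) (nat_lit 112) (nat_lit 5) (nat_lit 115) (nat_lit 5) (nat_lit 116) (nat_lit 5) (nat_lit 506) (nat_lit 432) (nat_lit 262)))) (XT.nd (nat_lit 156) (nat_lit 304) (nat_lit 0) (XT.nd (nat_lit 78) (nat_lit 152) (nat_lit 0) (XT.lf (nat_lit 0) (nat_lit 24587566569) (nat_lit 304) (nat_lit 6423268283) (nat_lit 76) (nat_lit 7285552038) (nat_lit 112) (nat_lit 5) (nat_lit 116) (nat_lit 5) (nat_lit 113) (nat_lit 5) (nat_lit 507) (nat_lit 432) (nat_lit 261)) (XT.lf (nat_lit 0) (nat_lit 17019873407) (nat_lit 152) (nat_lit 18041100815) (nat_lit 228) (nat_lit 3977178967) (nat_lit 110) (nat_lit 5) (nat_lit 112) (nat_lit 5) (nat_lit 113) (nat_lit 5) (nat_lit 508) (nat_lit 432) (nat_lit 260))) (XT.nd (nat_lit 78) (nat_lit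 0) (nat_lit 0) (XT.lf (nat_lit 0) (nat_lit 1458802155) (nat_lit 228) (nat_lit 4544134925) (nat_lit 304) (nat_lit 33795256607) (nat_lit 106) (nat_lit 5) (nat_lit 109) (nat_lit 5) (nat_lit 110) (nat_lit 5) (nat_lit 509) (nat_lit 432) (nat_lit 259)) (XT.lf (nat_lit 0) (nat_lit 16512028547) (nat_lit 304) (nat_lit 14623030106) (nat_lit 76) (nat_lit 9435510367) (nat_lit 106) (nat_lit 5) (nat_lit 110) (nat_lit 5) (nat_lit 107) (nat_lit 5) (nat_lit 510) (nat_lit 432) (nat_lit 258)))))) (XT.nd (nat_lit 546) (nat_lit 912) (nat_lit 0) (XT.nd (nat_lit 234) (nat_lit 380) (nat_lit 0) (XT.nd (nat_lit 78) (nat_lit 228) (nat_lit 0) (XT.lf (nat_lit 0) (nat_lit 9945472703) (nat_lit 152) (nat_lit 17526672798) (nat_lit 228) (nat_lit 13889897762) (nat_lit 104) (nat_lit 5) (nat_lit 106) (nat_lit 5) (nat_lit 107) (nat_lit 5) (nat_lit 511) (nat_lit 432) (nat_lit 257)) (XT.nd (nat_lit 78) (nat_lit 228) (nat_lit 0) (XT.lf (nat_lit 0) (nat_lit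 35542441007) (nat_lit 152) (nat_lit 3361508981) (nat_lit 228) (nat_lit 3269025450) (nat_lit 104) (nat_lit 5) (nat_lit 106) (nat_lit 5) (nat_lit 107) (nat_lit 5) (nat_lit 512) (nat_lit 432) (nat_lit 256)) (XT.lf (nat_lit 0) (nat_lit 7811048607) (nat_lit 228) (nat_lit 23919439060) (nat_lit 76) (nat_lit 11266828500) (nat_lit 101) (nat_lit 5) (nat_lit 104) (nat_lit 5) (nat_lit 102) (nat_lit 5) (nat_lit 513) (nat_lit 432) (nat_lit 255)))) (XT.nd (nat_lit 156) (nat_lit 228) (nat_lit 0) (XT.nd (nat_lit 78) (nat_lit 0) (nat_lit 0) (XT.lf (nat_lit 0) (nat_lit 1809864300) (nat_lit 152) (nat_lit 17461592617) (nat_lit 228) (nat_lit 24570550325) (nat_lit 99) (nat_lit 5) (nat_lit 101) (nat_lit 5) (nat_lit 102) (nat_lit 5) (nat_lit 514) (nat_lit 432) (nat_lit 254)) (XT.lf (nat_lit 0) (nat_lit 28793229545) (nat_lit 152) (nat_lit 2519382973) (nat_lit 228) (nat_lit 13392318679) (nat_lit 99) (nat_lit 5) (nat_lit 101) (nat_lit 5) (nat_lit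 102) (nat_lit 5) (nat_lit 515) (nat_lit 432) (nat_lit 253))) (XT.nd (nat_lit 78) (nat_lit 76) (nat_lit 0) (XT.lf (nat_lit 0) (nat_lit 11076769325) (nat_lit 152) (nat_lit 32863931664) (nat_lit 228) (nat_lit 1646271131) (nat_lit 97) (nat_lit 5) (nat_lit 99) (nat_lit 5) (nat_lit 100) (nat_lit 5) (nat_lit 516) (nat_lit 432) (nat_lit 252)) (XT.lf (nat_lit 0) (nat_lit 10430918259) (nat_lit 228) (nat_lit 7424610525) (nat_lit 76) (nat_lit 28631449903) (nat_lit 96) (nat_lit 5) (nat_lit 99) (nat_lit 5) (nat_lit 97) (nat_lit 5) (nat_lit 517) (nat_lit 432) (nat_lit 251))))) (XT.nd (nat_lit 312) (nat_lit 380) (nat_lit 0) (XT.nd (nat_lit 156) (nat_lit 228) (nat_lit 0) (XT.nd (nat_lit 78) (nat_lit 152) (nat_lit 0) (XT.lf (nat_lit 0) (nat_lit 20856450287) (nat_lit 152) (nat_lit 2177007862) (nat_lit 228) (nat_lit 24374154791) (nat_lit 94) (nat_lit 5) (nat_lit 96) (nat_lit 5) (nat_lit 97) (nat_lit 5) (nat_lit 518) (nat_lit 432) (nat_lit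 250)) (XT.lf (nat_lit 0) (nat_lit 1674342721) (nat_lit 152) (nat_lit 34561507353) (nat_lit 228) (nat_lit 12113363045) (nat_lit 92) (nat_lit 5) (nat_lit 94) (nat_lit 5) (nat_lit 95) (nat_lit 5) (nat_lit 519) (nat_lit 432) (nat_lit 249))) (XT.nd (nat_lit 78) (nat_lit 152) (nat_lit 0) (XT.lf (nat_lit 0) (nat_lit 793189926) (nat_lit 228) (nat_lit 18057108147) (nat_lit 76) (nat_lit 30459975048) (nat_lit 91) (nat_lit 5) (nat_lit 94) (nat_lit 5) (nat_lit 92) (nat_lit 5) (nat_lit 520) (nat_lit 432) (nat_lit 248)) (XT.lf (nat_lit 0) (nat_lit 11516392286) (nat_lit 152) (nat_lit 2433577465) (nat_lit 228) (nat_lit 36343402395) (nat_lit 89) (nat_lit 5) (nat_lit 91) (nat_lit 5) (nat_lit 92) (nat_lit 5) (nat_lit 521) (nat_lit 432) (nat_lit 247)))) (XT.nd (nat_lit 156) (nat_lit 228) (nat_lit 0) (XT.nd (nat_lit 78) (nat_lit 152) (nat_lit 0) (XT.lf (nat_lit 0) (nat_lit 27820560748) (nat_lit 228) (nat_lit 9101802128) (nat_lit 76)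 (nat_lit 14374028187) (nat_lit 89) (nat_lit 5) (nat_lit 92) (nat_lit 5) (nat_lit 90) (nat_lit 5) (nat_lit 522) (nat_lit 432) (nat_lit 246)) (XT.lf (nat_lit 0) (nat_lit 21858694615) (nat_lit 152) (nat_lit 20478723079) (nat_lit 228) (nat_lit 9985178555) (nat_lit 87) (nat_lit 5) (nat_lit 89) (nat_lit 5) (nat_lit 90) (nat_lit 5) (nat_lit 523) (nat_lit 432) (nat_lit 245))) (XT.nd (nat_lit 78) (nat_lit 0) (nat_lit 0) (XT.lf (nat_lit 0) (nat_lit 522052082) (nat_lit 152) (nat_lit 3405619845) (nat_lit 228) (nat_lit 49447974756) (nat_lit 84) (nat_lit 5) (nat_lit 86) (nat_lit 5) (nat_lit 87) (nat_lit 5) (nat_lit 524) (nat_lit 432) (nat_lit 244)) (XT.lf (nat_lit 0) (nat_lit 18500149397) (nat_lit 228) (nat_lit 21634616020) (nat_lit 76) (nat_lit 14309269444) (nat_lit 84) (nat_lit 5) (nat_lit 87) (nat_lit 5) (nat_lit 85) (nat_lit 5) (nat_lit 525) (nat_lit 432) (nat_lit 243))))))))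
noncomputable def xc169 : XT := (XT.nd (nat_lit 55770) (nat_lit 0) (nat_lit 11096) (XT.nd (nat_lit 1170) (nat_lit 608) (nat_lit 0) (XT.nd (nat_lit 546) (nat_lit 760) (nat_lit 0) (XT.nd (nat_lit 234) (nat_lit 304) (nat_lit 0) (XT.nd (nat_lit 78) (nat_lit 152) (nat_lit 0) (XT.lf (nat_lit 0) (nat_lit 10688593628) (nat_lit 152) (nat_lit 22953748065) (nat_lit 228) (nat_lit 21898156909) (nat_lit 82) (nat_lit 5) (nat_lit 84) (nat_lit 5) (nat_lit 85) (nat_lit 5) (nat_lit 526) (nat_lit 432) (nat_lit 242)) (XT.nd (nat_lit 78) (nat_lit 152) (nat_lit 0) (XT.lf (nat_lit 0) (nat_lit 44417866253) (nat_lit 152) (nat_lit 5035522726) (nat_lit 228) (nat_lit 7210029727) (nat_lit 82) (nat_lit 5) (nat_lit 84) (nat_lit 5) (nat_lit 85) (nat_lit 5) (nat_lit 527) (nat_lit 432) (nat_lit 241)) (XT.lf (nat_lit 0) (nat_lit 8100596607) (nat_lit 152) (nat_lit 36264480765) (nat_lit 76) (nat_lit 13442574215) (nat_lit 80) (nat_lit 5) (nat_lit 82)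 (nat_lit 5) (nat_lit 81) (nat_lit 5) (nat_lit 528) (nat_lit 432) (nat_lit 240)))) (XT.nd (nat_lit 156) (nat_lit 152) (nat_lit 0) (XT.nd (nat_lit 78) (nat_lit 152) (nat_lit 0) (XT.lf (nat_lit 0) (nat_lit 23896575700) (nat_lit 152) (nat_lit 2515395590) (nat_lit 76) (nat_lit 32566970236) (nat_lit 80) (nat_lit 5) (nat_lit 82) (nat_lit 5) (nat_lit 81) (nat_lit 5) (nat_lit 529) (nat_lit 432) (nat_lit 239)) (XT.lf (nat_lit 0) (nat_lit 32880988637) (nat_lit 152) (nat_lit 7597839432) (nat_lit 228) (nat_lit 19697170390) (nat_lit 78) (nat_lit 5) (nat_lit 80) (nat_lit 5) (nat_lit 81) (nat_lit 5) (nat_lit 530) (nat_lit 432) (nat_lit 238))) (XT.nd (nat_lit 78) (nat_lit 76) (nat_lit 0) (XT.lf (nat_lit 0) (nat_lit 8018790218) (nat_lit 76) (nat_lit 49752069178) (nat_lit 152) (nat_lit 3631738474) (nat_lit 77) (nat_lit 5) (nat_lit 78) (nat_lit 5) (nat_lit 79) (nat_lit 4) (nat_lit 531) (nat_lit 432) (nat_lit 237)) (XT.lf (nat_lit 0)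 (nat_lit 13013546902) (nat_lit 152) (nat_lit 17915128489) (nat_lit 76) (nat_lit 31723097737) (nat_lit 76) (nat_lit 5) (nat_lit 78) (nat_lit 5) (nat_lit 77) (nat_lit 5) (nat_lit 532) (nat_lit 432) (nat_lit 236))))) (XT.nd (nat_lit 312) (nat_lit 304) (nat_lit 0) (XT.nd (nat_lit 156) (nat_lit 304) (nat_lit 0) (XT.nd (nat_lit 78) (nat_lit 0) (nat_lit 0) (XT.lf (nat_lit 0) (nat_lit 18944712512) (nat_lit 152) (nat_lit 11319039037) (nat_lit 228) (nat_lit 33668236810) (nat_lit 74) (nat_lit 5) (nat_lit 76) (nat_lit 5) (nat_lit 77) (nat_lit 5) (nat_lit 533) (nat_lit 432) (nat_lit 235)) (XT.lf (nat_lit 0) (nat_lit 48295968575) (nat_lit 228) (nat_lit 8061363586) (nat_lit 76) (nat_lit 8885342797) (nat_lit 74) (nat_lit 5) (nat_lit 77) (nat_lit 5) (nat_lit 75) (nat_lit 4) (nat_lit 534) (nat_lit 432) (nat_lit 234))) (XT.nd (nat_lit 78) (nat_lit 152) (nat_lit 0) (XT.lf (nat_lit 0) (nat_lit 676363816) (nat_lit 152) (nat_lit 36139306421)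 (nat_lit 76) (nat_lit 29764773621) (nat_lit 72) (nat_lit 5) (nat_lit 74) (nat_lit 5) (nat_lit 73) (nat_lit 5) (nat_lit 535) (nat_lit 432) (nat_lit 233)) (XT.lf (nat_lit 0) (nat_lit 2175472204) (nat_lit 152) (nat_lit 16411730211) (nat_lit 228) (nat_lit 49363119173) (nat_lit 70) (nat_lit 5) (nat_lit 72) (nat_lit 5) (nat_lit 73) (nat_lit 5) (nat_lit 536) (nat_lit 432) (nat_lit 232)))) (XT.nd (nat_lit 156) (nat_lit 228) (nat_lit 0) (XT.nd (nat_lit 78) (nat_lit 76) (nat_lit 0) (XT.lf (nat_lit 0) (nat_lit 37444751525) (nat_lit 228) (nat_lit 27024159714) (nat_lit 76) (nat_lit 4880102939) (nat_lit 70) (nat_lit 5) (nat_lit 73) (nat_lit 5) (nat_lit 71) (nat_lit 4) (nat_lit 537) (nat_lit 432) (nat_lit 231)) (XT.lf (nat_lit 0) (nat_lit 12973451163) (nat_lit 76) (nat_lit 44178453160) (nat_lit 152) (nat_lit 13629246992) (nat_lit 69) (nat_lit 5) (nat_lit 70) (nat_lit 5) (nat_lit 71) (nat_lit 4) (nat_lit 538) (nat_lit 432) (nat_lit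 230))) (XT.nd (nat_lit 78) (nat_lit 152) (nat_lit 0) (XT.lf (nat_lit 0) (nat_lit 5364938671) (nat_lit 152) (nat_lit 17582007244) (nat_lit 76) (nat_lit 49299640680) (nat_lit 68) (nat_lit 5) (nat_lit 70) (nat_lit 5) (nat_lit 69) (nat_lit 5) (nat_lit 539) (nat_lit 432) (nat_lit 229)) (XT.lf (nat_lit 0) (nat_lit 24181289529) (nat_lit 152) (nat_lit 702948671) (nat_lit 228) (nat_lit 48860821841) (nat_lit 66) (nat_lit 5) (nat_lit 68) (nat_lit 5) (nat_lit 69) (nat_lit 5) (nat_lit 540) (nat_lit 432) (nat_lit 228)))))) (XT.nd (nat_lit 546) (nat_lit 0) (nat_lit 0) (XT.nd (nat_lit 234) (nat_lit 304) (nat_lit 0) (XT.nd (nat_lit 78) (nat_lit 304) (nat_lit 0) (XT.lf (nat_lit 0) (nat_lit 45378684720) (nat_lit 228) (nat_lit 7946597159) (nat_lit 76) (nat_lit 21951518848) (nat_lit 66) (nat_lit 5) (nat_lit 69) (nat_lit 5) (nat_lit 67) (nat_lit 4) (nat_lit 541) (nat_lit 432) (nat_lit 227)) (XT.nd (nat_lit 78) (nat_lit 228) (nat_lit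 0) (XT.lf (nat_lit 0) (nat_lit 35600914533) (nat_lit 76) (nat_lit 31233107292) (nat_lit 152) (nat_lit 10010090163) (nat_lit 65) (nat_lit 5) (nat_lit 66) (nat_lit 5) (nat_lit 67) (nat_lit 4) (nat_lit 542) (nat_lit 432) (nat_lit 226)) (XT.lf (nat_lit 0) (nat_lit 2095192897) (nat_lit 152) (nat_lit 8273050134) (nat_lit 228) (nat_lit 68084237088) (nat_lit 62) (nat_lit 5) (nat_lit 64) (nat_lit 5) (nat_lit 65) (nat_lit 5) (nat_lit 543) (nat_lit 432) (nat_lit 225)))) (XT.nd (nat_lit 156) (nat_lit 228) (nat_lit 0) (XT.nd (nat_lit 78) (nat_lit 76) (nat_lit 0) (XT.lf (nat_lit 0) (nat_lit 31722025048) (nat_lit 228) (nat_lit 32774390778) (nat_lit 76) (nat_lit 15592751487) (nat_lit 62) (nat_lit 5) (nat_lit 65) (nat_lit 5) (nat_lit 63) (nat_lit 4) (nat_lit 544) (nat_lit 432) (nat_lit 224)) (XT.lf (nat_lit 0) (nat_lit 12267710307) (nat_lit 76) (nat_lit 41645527996) (nat_lit 152) (nat_lit 27855812353) (nat_lit 61) (nat_lit 5) (nat_lit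 62) (nat_lit 5) (nat_lit 63) (nat_lit 4) (nat_lit 545) (nat_lit 432) (nat_lit 223))) (XT.nd (nat_lit 78) (nat_lit 228) (nat_lit 0) (XT.lf (nat_lit 0) (nat_lit 59327215678) (nat_lit 76) (nat_lit 17770944120) (nat_lit 152) (nat_lit 6391331609) (nat_lit 61) (nat_lit 5) (nat_lit 62) (nat_lit 5) (nat_lit 63) (nat_lit 4) (nat_lit 546) (nat_lit 432) (nat_lit 222)) (XT.lf (nat_lit 0) (nat_lit 15696073636) (nat_lit 228) (nat_lit 62494021547) (nat_lit 76) (nat_lit 7058347180) (nat_lit 58) (nat_lit 5) (nat_lit 61) (nat_lit 5) (nat_lit 59) (nat_lit 4) (nat_lit 547) (nat_lit 432) (nat_lit 221))))) (XT.nd (nat_lit 53742) (nat_lit 0) (nat_lit 19228) (XT.nd (nat_lit 53586) (nat_lit 0) (nat_lit 19152) (XT.nd (nat_lit 53508) (nat_lit 0) (nat_lit 19152) (XT.lf (nat_lit 0) (nat_lit 38737078456) (nat_lit 228) (nat_lit 15726167612) (nat_lit 76) (nat_lit 32582434317) (nat_lit 58) (nat_lit 5) (nat_lit 61) (nat_lit 5) (nat_lit 59) (nat_lit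 4) (nat_lit 548) (nat_lit 432) (nat_lit 220)) (XT.lf (nat_lit 0) (nat_lit 920371000) (nat_lit 0) (nat_lit 920371000) (nat_lit 1140) (nat_lit 3736436950) (nat_lit 310) (nat_lit 5) (nat_lit 310) (nat_lit 3) (nat_lit 325) (nat_lit 3) (nat_lit 433) (nat_lit 433) (nat_lit 334))) (XT.nd (nat_lit 78) (nat_lit 0) (nat_lit 0) (XT.lf (nat_lit 0) (nat_lit 4321792007) (nat_lit 1140) (nat_lit 3827670680) (nat_lit 1216) (nat_lit 3154577865) (nat_lit 310) (nat_lit 5) (nat_lit 325) (nat_lit 3) (nat_lit 326) (nat_lit 5) (nat_lit 434) (nat_lit 433) (nat_lit 333)) (XT.lf (nat_lit 76) (nat_lit 1828743583) (nat_lit 0) (nat_lit 3166846528) (nat_lit 1216) (nat_lit 6462198271) (nat_lit 311) (nat_lit 5) (nat_lit 310) (nat_lit 5) (nat_lit 326) (nat_lit 5) (nat_lit 435) (nat_lit 433) (nat_lit 332)))) (XT.nd (nat_lit 156) (nat_lit 0) (nat_lit 76) (XT.nd (nat_lit 78) (nat_lit 0) (nat_lit 0) (XT.lf (nat_lit 0) (nat_lit 5726613253) (nat_lit 1140)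 (nat_lit 3913130309) (nat_lit 1216) (nat_lit 1975297789) (nat_lit 311) (nat_lit 5) (nat_lit 326) (nat_lit 5) (nat_lit 327) (nat_lit 5) (nat_lit 436) (nat_lit 433) (nat_lit 331)) (XT.lf (nat_lit 76) (nat_lit 1969512642) (nat_lit 0) (nat_lit 4540035954) (nat_lit 1216) (nat_lit 5266566817) (nat_lit 312) (nat_lit 5) (nat_lit 311) (nat_lit 5) (nat_lit 327) (nat_lit 5) (nat_lit 437) (nat_lit 433) (nat_lit 330))) (XT.nd (nat_lit 78) (nat_lit 0) (nat_lit 0) (XT.lf (nat_lit 0) (nat_lit 7342980039) (nat_lit 1140) (nat_lit 3851613900) (nat_lit 1216) (nat_lit 746620378) (nat_lit 312) (nat_lit 5) (nat_lit 327) (nat_lit 5) (nat_lit 328) (nat_lit 5) (nat_lit 438) (nat_lit 433) (nat_lit 329)) (XT.lf (nat_lit 76) (nat_lit 2269331292) (nat_lit 0) (nat_lit 5979674696) (nat_lit 1216) (nat_lit 3860835233) (nat_lit 313) (nat_lit 5) (nat_lit 312) (nat_lit 5) (nat_lit 328) (nat_lit 5) (nat_lit 439) (nat_lit 433) (nat_lit 328))))))) (XT.nd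 (nat_lit 1170) (nat_lit 4712) (nat_lit 0) (XT.nd (nat_lit 546) (nat_lit 2432) (nat_lit 0) (XT.nd (nat_lit 234) (nat_lit 1064) (nat_lit 0) (XT.nd (nat_lit 78) (nat_lit 0) (nat_lit 76) (XT.lf (nat_lit 76) (nat_lit 8640951724) (nat_lit 0) (nat_lit 561425242) (nat_lit 1216) (nat_lit 3080547737) (nat_lit 313) (nat_lit 5) (nat_lit 312) (nat_lit 5) (nat_lit 328) (nat_lit 5) (nat_lit 440) (nat_lit 433) (nat_lit 327)) (XT.nd (nat_lit 78) (nat_lit 0) (nat_lit 0) (XT.lf (nat_lit 76) (nat_lit 2735477410) (nat_lit 0) (nat_lit 7505295705) (nat_lit 1216) (nat_lit 2218737472) (nat_lit 314) (nat_lit 5) (nat_lit 313) (nat_lit 5) (nat_lit 329) (nat_lit 5) (nat_lit 441) (nat_lit 433) (nat_lit 326)) (XT.lf (nat_lit 76) (nat_lit 9361185817) (nat_lit 0) (nat_lit 1973707891) (nat_lit 1216) (nat_lit 1305765707) (nat_lit 314) (nat_lit 5) (nat_lit 313) (nat_lit 5) (nat_lit 329) (nat_lit 5) (nat_lit 442) (nat_lit 433) (nat_lit 325)))) (XT.nd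 (nat_lit 156) (nat_lit 0) (nat_lit 76) (XT.nd (nat_lit 78) (nat_lit 1216) (nat_lit 0) (XT.lf (nat_lit 76) (nat_lit 3376236551) (nat_lit 0) (nat_lit 9136711687) (nat_lit 1216) (nat_lit 312763628) (nat_lit 315) (nat_lit 5) (nat_lit 314) (nat_lit 5) (nat_lit 330) (nat_lit 5) (nat_lit 443) (nat_lit 433) (nat_lit 324)) (XT.lf (nat_lit 0) (nat_lit 732233391) (nat_lit 1216) (nat_lit 2755665081) (nat_lit 1292) (nat_lit 9527133188) (nat_lit 298) (nat_lit 5) (nat_lit 314) (nat_lit 5) (nat_lit 315) (nat_lit 5) (nat_lit 444) (nat_lit 433) (nat_lit 323))) (XT.nd (nat_lit 78) (nat_lit 0) (nat_lit 0) (XT.lf (nat_lit 0) (nat_lit 1849163485) (nat_lit 1216) (nat_lit 9026288742) (nat_lit 1292) (nat_lit 2333082097) (nat_lit 299) (nat_lit 5) (nat_lit 315) (nat_lit 5) (nat_lit 316) (nat_lit 5) (nat_lit 445) (nat_lit 433) (nat_lit 322)) (XT.lf (nat_lit 0) (nat_lit 3046206948) (nat_lit 1216) (nat_lit 2069566893) (nat_lit 1292) (nat_lit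 8290672257) (nat_lit 299) (nat_lit 5) (nat_lit 315) (nat_lit 5) (nat_lit 316) (nat_lit 5) (nat_lit 446) (nat_lit 433) (nat_lit 321))))) (XT.nd (nat_lit 312) (nat_lit 2584) (nat_lit 0) (XT.nd (nat_lit 156) (nat_lit 0) (nat_lit 0) (XT.nd (nat_lit 78) (nat_lit 0) (nat_lit 0) (XT.lf (nat_lit 0) (nat_lit 4321814887) (nat_lit 1216) (nat_lit 8432781199) (nat_lit 1292) (nat_lit 854421676) (nat_lit 300) (nat_lit 5) (nat_lit 316) (nat_lit 5) (nat_lit 317) (nat_lit 5) (nat_lit 447) (nat_lit 433) (nat_lit 320)) (XT.lf (nat_lit 0) (nat_lit 5692252215) (nat_lit 1216) (nat_lit 1198597098) (nat_lit 1292) (nat_lit 6925122494) (nat_lit 300) (nat_lit 5) (nat_lit 316) (nat_lit 5) (nat_lit 317) (nat_lit 5) (nat_lit 448) (nat_lit 433) (nat_lit 319))) (XT.nd (nat_lit 78) (nat_lit 0) (nat_lit 76) (XT.lf (nat_lit 76) (nat_lit 6364637135) (nat_lit 0) (nat_lit 785593344) (nat_lit 1292) (nat_lit 6877513169) (nat_lit 301) (nat_lit 5) (nat_lit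 300) (nat_lit 5) (nat_lit 317) (nat_lit 5) (nat_lit 449) (nat_lit 433) (nat_lit 318)) (XT.lf (nat_lit 0) (nat_lit 8702651688) (nat_lit 1216) (nat_lit 131694496) (nat_lit 76) (nat_lit 5410003300) (nat_lit 301) (nat_lit 5) (nat_lit 317) (nat_lit 5) (nat_lit 302) (nat_lit 5) (nat_lit 450) (nat_lit 433) (nat_lit 317)))) (XT.nd (nat_lit 156) (nat_lit 684) (nat_lit 0) (XT.nd (nat_lit 78) (nat_lit 760) (nat_lit 0) (XT.lf (nat_lit 0) (nat_lit 7757104063) (nat_lit 1216) (nat_lit 2612889345) (nat_lit 1292) (nat_lit 4095411545) (nat_lit 285) (nat_lit 5) (nat_lit 301) (nat_lit 5) (nat_lit 302) (nat_lit 5) (nat_lit 451) (nat_lit 433) (nat_lit 316)) (XT.lf (nat_lit 0) (nat_lit 1166015396) (nat_lit 760) (nat_lit 10956685204) (nat_lit 836) (nat_lit 2569332966) (nat_lit 275) (nat_lit 5) (nat_lit 285) (nat_lit 5) (nat_lit 286) (nat_lit 5) (nat_lit 452) (nat_lit 433) (nat_lit 315))) (XT.nd (nat_lit 78) (nat_lit 684) (nat_lit 0) (XT.lf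 (nat_lit 0) (nat_lit 9375355127) (nat_lit 760) (nat_lit 4632583098) (nat_lit 836) (nat_lit 915126120) (nat_lit 275) (nat_lit 5) (nat_lit 285) (nat_lit 5) (nat_lit 286) (nat_lit 5) (nat_lit 453) (nat_lit 433) (nat_lit 314)) (XT.lf (nat_lit 0) (nat_lit 804574683) (nat_lit 684) (nat_lit 12475968421) (nat_lit 76) (nat_lit 1879319430) (nat_lit 266) (nat_lit 5) (nat_lit 275) (nat_lit 5) (nat_lit 267) (nat_lit 5) (nat_lit 454) (nat_lit 433) (nat_lit 313)))))) (XT.nd (nat_lit 624) (nat_lit 2432) (nat_lit 0) (XT.nd (nat_lit 312) (nat_lit 1140) (nat_lit 0) (XT.nd (nat_lit 156) (nat_lit 532) (nat_lit 0) (XT.nd (nat_lit 78) (nat_lit 608) (nat_lit 0) (XT.lf (nat_lit 0) (nat_lit 2647041896) (nat_lit 684) (nat_lit 4193912472) (nat_lit 76) (nat_lit 8559853060) (nat_lit 266) (nat_lit 5) (nat_lit 275) (nat_lit 5) (nat_lit 267) (nat_lit 5) (nat_lit 455) (nat_lit 433) (nat_lit 312)) (XT.lf (nat_lit 0) (nat_lit 4410520688) (nat_lit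 608) (nat_lit 164159745) (nat_lit 684) (nat_lit 11073404900) (nat_lit 258) (nat_lit 5) (nat_lit 266) (nat_lit 5) (nat_lit 267) (nat_lit 5) (nat_lit 456) (nat_lit 433) (nat_lit 311))) (XT.nd (nat_lit 78) (nat_lit 532) (nat_lit 0) (XT.lf (nat_lit 0) (nat_lit 6655197820) (nat_lit 684) (nat_lit 2619802996) (nat_lit 76) (nat_lit 6624930807) (nat_lit 258) (nat_lit 5) (nat_lit 267) (nat_lit 5) (nat_lit 259) (nat_lit 5) (nat_lit 457) (nat_lit 433) (nat_lit 310)) (XT.lf (nat_lit 0) (nat_lit 6367070161) (nat_lit 532) (nat_lit 2481998061) (nat_lit 608) (nat_lit 7308738448) (nat_lit 251) (nat_lit 5) (nat_lit 258) (nat_lit 5) (nat_lit 259) (nat_lit 5) (nat_lit 458) (nat_lit 433) (nat_lit 309)))) (XT.nd (nat_lit 156) (nat_lit 608) (nat_lit 0) (XT.nd (nat_lit 78) (nat_lit 532) (nat_lit 0) (XT.lf (nat_lit 0) (nat_lit 11167207732) (nat_lit 608) (nat_lit 801303479) (nat_lit 76) (nat_lit 4453154620) (nat_lit 251) (nat_lit 5) (nat_lit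 259) (nat_lit 5) (nat_lit 252) (nat_lit 5) (nat_lit 459) (nat_lit 433) (nat_lit 308)) (XT.lf (nat_lit 0) (nat_lit 8588925424) (nat_lit 532) (nat_lit 5061779160) (nat_lit 608) (nat_lit 3039863195) (nat_lit 244) (nat_lit 5) (nat_lit 251) (nat_lit 5) (nat_lit 252) (nat_lit 5) (nat_lit 460) (nat_lit 433) (nat_lit 307))) (XT.nd (nat_lit 78) (nat_lit 76) (nat_lit 0) (XT.lf (nat_lit 0) (nat_lit 1303497459) (nat_lit 532) (nat_lit 14934523853) (nat_lit 608) (nat_lit 728637392) (nat_lit 237) (nat_lit 5) (nat_lit 244) (nat_lit 5) (nat_lit 245) (nat_lit 5) (nat_lit 461) (nat_lit 433) (nat_lit 306)) (XT.lf (nat_lit 0) (nat_lit 1741413194) (nat_lit 608) (nat_lit 6170743296) (nat_lit 76) (nat_lit 9334749085) (nat_lit 236) (nat_lit 5) (nat_lit 244) (nat_lit 5) (nat_lit 237) (nat_lit 5) (nat_lit 462) (nat_lit 433) (nat_lit 305))))) (XT.nd (nat_lit 312) (nat_lit 1444) (nat_lit 0) (XT.nd (nat_lit 156) (nat_lit 456) (nat_lit 0) (XT.nd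 (nat_lit 78) (nat_lit 0) (nat_lit 0) (XT.lf (nat_lit 0) (nat_lit 3658758116) (nat_lit 532) (nat_lit 636639004) (nat_lit 608) (nat_lit 13239213254) (nat_lit 229) (nat_lit 5) (nat_lit 236) (nat_lit 5) (nat_lit 237) (nat_lit 5) (nat_lit 463) (nat_lit 433) (nat_lit 304)) (XT.lf (nat_lit 0) (nat_lit 7044337854) (nat_lit 608) (nat_lit 3998028187) (nat_lit 76) (nat_lit 6785031374) (nat_lit 229) (nat_lit 5) (nat_lit 237) (nat_lit 5) (nat_lit 230) (nat_lit 5) (nat_lit 464) (nat_lit 433) (nat_lit 303))) (XT.nd (nat_lit 78) (nat_lit 0) (nat_lit 0) (XT.lf (nat_lit 0) (nat_lit 6280679145) (nat_lit 456) (nat_lit 3651543647) (nat_lit 532) (nat_lit 8195052174) (nat_lit 223) (nat_lit 5) (nat_lit 229) (nat_lit 5) (nat_lit 230) (nat_lit 5) (nat_lit 465) (nat_lit 433) (nat_lit 302)) (XT.lf (nat_lit 0) (nat_lit 12975561270) (nat_lit 532) (nat_lit 1535588091) (nat_lit 76) (nat_lit 3922936118) (nat_lit 223) (nat_lit 5) (nat_lit 230) (nat_lit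 5) (nat_lit 224) (nat_lit 5) (nat_lit 466) (nat_lit 433) (nat_lit 301)))) (XT.nd (nat_lit 156) (nat_lit 456) (nat_lit 0) (XT.nd (nat_lit 78) (nat_lit 532) (nat_lit 0) (XT.lf (nat_lit 0) (nat_lit 9216918773) (nat_lit 456) (nat_lit 7008295270) (nat_lit 532) (nat_lit 2521436950) (nat_lit 217) (nat_lit 5) (nat_lit 223) (nat_lit 5) (nat_lit 224) (nat_lit 5) (nat_lit 467) (nat_lit 433) (nat_lit 300)) (XT.lf (nat_lit 0) (nat_lit 519299014) (nat_lit 532) (nat_lit 17811731784) (nat_lit 76) (nat_lit 736657460) (nat_lit 210) (nat_lit 5) (nat_lit 217) (nat_lit 5) (nat_lit 211) (nat_lit 5) (nat_lit 468) (nat_lit 433) (nat_lit 299))) (XT.nd (nat_lit 78) (nat_lit 456) (nat_lit 0) (XT.lf (nat_lit 0) (nat_lit 3757643351) (nat_lit 532) (nat_lit 6941975527) (nat_lit 76) (nat_lit 8693277899) (nat_lit 210) (nat_lit 5) (nat_lit 217) (nat_lit 5) (nat_lit 211) (nat_lit 5) (nat_lit 469) (nat_lit 433) (nat_lit 298)) (XT.lf (nat_lit 0) (nat_lit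 4326883924) (nat_lit 456) (nat_lit 2798614922) (nat_lit 532) (nat_lit 12601392868) (nat_lit 204) (nat_lit 5) (nat_lit 210) (nat_lit 5) (nat_lit 211) (nat_lit 5) (nat_lit 470) (nat_lit 433) (nat_lit 297))))))))
noncomputable def xc170 : XT := (XT.nd (nat_lit 2340) (nat_lit 3572) (nat_lit 0) (XT.nd (nat_lit 1170) (nat_lit 2584) (nat_lit 0) (XT.nd (nat_lit 546) (nat_lit 1748) (nat_lit 0) (XT.nd (nat_lit 234) (nat_lit 1292) (nat_lit 0) (XT.nd (nat_lit 78) (nat_lit 380) (nat_lit 0) (XT.lf (nat_lit 0) (nat_lit 10707416988) (nat_lit 532) (nat_lit 4056272648) (nat_lit 76) (nat_lit 5303827012) (nat_lit 204) (nat_lit 5) (nat_lit 211) (nat_lit 5) (nat_lit 205) (nat_lit 5) (nat_lit 471) (nat_lit 433) (nat_lit 296)) (XT.nd (nat_lit 78) (nat_lit 0) (nat_lit 0) (XT.lf (nat_lit 0) (nat_lit 7739872865) (nat_lit 380) (nat_lit 6750200925) (nat_lit 456) (nat_lit 5925489037) (nat_lit 199) (nat_lit 5) (nat_lit 204) (nat_lit 5) (nat_lit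 205) (nat_lit 5) (nat_lit 472) (nat_lit 433) (nat_lit 295)) (XT.lf (nat_lit 0) (nat_lit 18433329182) (nat_lit 456) (nat_lit 825982369) (nat_lit 76) (nat_lit 1513326179) (nat_lit 199) (nat_lit 5) (nat_lit 205) (nat_lit 5) (nat_lit 200) (nat_lit 5) (nat_lit 473) (nat_lit 433) (nat_lit 294)))) (XT.nd (nat_lit 156) (nat_lit 380) (nat_lit 0) (XT.nd (nat_lit 78) (nat_lit 380) (nat_lit 0) (XT.lf (nat_lit 0) (nat_lit 1498884521) (nat_lit 532) (nat_lit 9623765706) (nat_lit 76) (nat_lit 10012259182) (nat_lit 192) (nat_lit 5) (nat_lit 199) (nat_lit 5) (nat_lit 193) (nat_lit 5) (nat_lit 474) (nat_lit 433) (nat_lit 293)) (XT.lf (nat_lit 0) (nat_lit 2746789832) (nat_lit 380) (nat_lit 2684853001) (nat_lit 456) (nat_lit 16074919272) (nat_lit 187) (nat_lit 5) (nat_lit 192) (nat_lit 5) (nat_lit 193) (nat_lit 5) (nat_lit 475) (nat_lit 433) (nat_lit 292))) (XT.nd (nat_lit 78) (nat_lit 380) (nat_lit 0) (XT.lf (nat_lit 0) (nat_lit 9629984085)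 (nat_lit 456) (nat_lit 6270601202) (nat_lit 76) (nat_lit 5984351893) (nat_lit 187) (nat_lit 5) (nat_lit 193) (nat_lit 5) (nat_lit 188) (nat_lit 5) (nat_lit 476) (nat_lit 433) (nat_lit 291)) (XT.lf (nat_lit 0) (nat_lit 6686265751) (nat_lit 380) (nat_lit 7350828827) (nat_lit 456) (nat_lit 8235085139) (nat_lit 182) (nat_lit 5) (nat_lit 187) (nat_lit 5) (nat_lit 188) (nat_lit 5) (nat_lit 477) (nat_lit 433) (nat_lit 290))))) (XT.nd (nat_lit 312) (nat_lit 988) (nat_lit 0) (XT.nd (nat_lit 156) (nat_lit 380) (nat_lit 0) (XT.nd (nat_lit 78) (nat_lit 380) (nat_lit 0) (XT.lf (nat_lit 0) (nat_lit 18646423450) (nat_lit 456) (nat_lit 2534350911) (nat_lit 76) (nat_lit 1488165774) (nat_lit 182) (nat_lit 5) (nat_lit 188) (nat_lit 5) (nat_lit 183) (nat_lit 5) (nat_lit 478) (nat_lit 433) (nat_lit 289)) (XT.lf (nat_lit 0) (nat_lit 483157709) (nat_lit 380) (nat_lit 12036434875) (nat_lit 76) (nat_lit 10552733136) (nat_lit 177) (nat_lit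 5) (nat_lit 182) (nat_lit 5) (nat_lit 178) (nat_lit 5) (nat_lit 479) (nat_lit 433) (nat_lit 288))) (XT.nd (nat_lit 78) (nat_lit 0) (nat_lit 0) (XT.lf (nat_lit 0) (nat_lit 1557761161) (nat_lit 380) (nat_lit 3518557284) (nat_lit 456) (nat_lit 18409305372) (nat_lit 172) (nat_lit 5) (nat_lit 177) (nat_lit 5) (nat_lit 178) (nat_lit 5) (nat_lit 480) (nat_lit 433) (nat_lit 287)) (XT.lf (nat_lit 0) (nat_lit 9977755274) (nat_lit 456) (nat_lit 8168451219) (nat_lit 76) (nat_lit 5760000599) (nat_lit 172) (nat_lit 5) (nat_lit 178) (nat_lit 5) (nat_lit 173) (nat_lit 5) (nat_lit 481) (nat_lit 433) (nat_lit 286)))) (XT.nd (nat_lit 156) (nat_lit 684) (nat_lit 0) (XT.nd (nat_lit 78) (nat_lit 0) (nat_lit 0) (XT.lf (nat_lit 0) (nat_lit 6077009271) (nat_lit 304) (nat_lit 9035136185) (nat_lit 380) (nat_lit 9224685755) (nat_lit 168) (nat_lit 5) (nat_lit 172) (nat_lit 5) (nat_lit 173) (nat_lit 5) (nat_lit 482) (nat_lit 433) (nat_lit 285))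 (XT.lf (nat_lit 0) (nat_lit 20479967695) (nat_lit 380) (nat_lit 3875359628) (nat_lit 76) (nat_lit 422665354) (nat_lit 168) (nat_lit 5) (nat_lit 173) (nat_lit 5) (nat_lit 169) (nat_lit 5) (nat_lit 483) (nat_lit 433) (nat_lit 284))) (XT.nd (nat_lit 78) (nat_lit 304) (nat_lit 0) (XT.lf (nat_lit 0) (nat_lit 951844937) (nat_lit 380) (nat_lit 14179382448) (nat_lit 76) (nat_lit 10095221480) (nat_lit 163) (nat_lit 5) (nat_lit 168) (nat_lit 5) (nat_lit 164) (nat_lit 5) (nat_lit 484) (nat_lit 433) (nat_lit 283)) (XT.lf (nat_lit 0) (nat_lit 771232230) (nat_lit 304) (nat_lit 5541517959) (nat_lit 380) (nat_lit 19373134731) (nat_lit 159) (nat_lit 5) (nat_lit 163) (nat_lit 5) (nat_lit 164) (nat_lit 5) (nat_lit 485) (nat_lit 433) (nat_lit 282)))))) (XT.nd (nat_lit 546) (nat_lit 1368) (nat_lit 0) (XT.nd (nat_lit 234) (nat_lit 912) (nat_lit 0) (XT.nd (nat_lit 78) (nat_lit 304) (nat_lit 0) (XT.lf (nat_lit 0) (nat_lit 12013828606)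 (nat_lit 380) (nat_lit 9747248336) (nat_lit 76) (nat_lit 4392647298) (nat_lit 159) (nat_lit 5) (nat_lit 164) (nat_lit 5) (nat_lit 160) (nat_lit 5) (nat_lit 486) (nat_lit 433) (nat_lit 281)) (XT.nd (nat_lit 78) (nat_lit 0) (nat_lit 0) (XT.lf (nat_lit 0) (nat_lit 5925877166) (nat_lit 304) (nat_lit 12065159089) (nat_lit 380) (nat_lit 8641410125) (nat_lit 155) (nat_lit 5) (nat_lit 159) (nat_lit 5) (nat_lit 160) (nat_lit 5) (nat_lit 487) (nat_lit 433) (nat_lit 280)) (XT.lf (nat_lit 0) (nat_lit 22259034515) (nat_lit 304) (nat_lit 1980321177) (nat_lit 380) (nat_lit 2883421155) (nat_lit 155) (nat_lit 5) (nat_lit 159) (nat_lit 5) (nat_lit 160) (nat_lit 5) (nat_lit 488) (nat_lit 433) (nat_lit 279)))) (XT.nd (nat_lit 156) (nat_lit 228) (nat_lit 0) (XT.nd (nat_lit 78) (nat_lit 304) (nat_lit 0) (XT.lf (nat_lit 0) (nat_lit 3175434418) (nat_lit 380) (nat_lit 16063504273) (nat_lit 76) (nat_lit 8382372536) (nat_lit 150) (nat_lit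 5) (nat_lit 155) (nat_lit 5) (nat_lit 151) (nat_lit 5) (nat_lit 489) (nat_lit 433) (nat_lit 278)) (XT.lf (nat_lit 0) (nat_lit 387419038) (nat_lit 304) (nat_lit 9037175142) (nat_lit 380) (nat_lit 18707356707) (nat_lit 146) (nat_lit 5) (nat_lit 150) (nat_lit 5) (nat_lit 151) (nat_lit 5) (nat_lit 490) (nat_lit 433) (nat_lit 277))) (XT.nd (nat_lit 78) (nat_lit 228) (nat_lit 0) (XT.lf (nat_lit 0) (nat_lit 16032802579) (nat_lit 380) (nat_lit 11017566298) (nat_lit 76) (nat_lit 1602394118) (nat_lit 146) (nat_lit 5) (nat_lit 151) (nat_lit 5) (nat_lit 147) (nat_lit 5) (nat_lit 491) (nat_lit 433) (nat_lit 276)) (XT.lf (nat_lit 0) (nat_lit 6233726856) (nat_lit 228) (nat_lit 16748736745) (nat_lit 304) (nat_lit 6202440131) (nat_lit 143) (nat_lit 5) (nat_lit 146) (nat_lit 5) (nat_lit 147) (nat_lit 5) (nat_lit 492) (nat_lit 433) (nat_lit 275))))) (XT.nd (nat_lit 312) (nat_lit 760) (nat_lit 0) (XT.nd (nat_lit 156) (nat_lit 228)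 (nat_lit 0) (XT.nd (nat_lit 78) (nat_lit 304) (nat_lit 0) (XT.lf (nat_lit 0) (nat_lit 505843938) (nat_lit 304) (nat_lit 5515958006) (nat_lit 76) (nat_lit 23707903872) (nat_lit 142) (nat_lit 5) (nat_lit 146) (nat_lit 5) (nat_lit 143) (nat_lit 5) (nat_lit 493) (nat_lit 433) (nat_lit 274)) (XT.lf (nat_lit 0) (nat_lit 7456115401) (nat_lit 380) (nat_lit 17717918236) (nat_lit 76) (nat_lit 5110014385) (nat_lit 138) (nat_lit 5) (nat_lit 143) (nat_lit 5) (nat_lit 139) (nat_lit 5) (nat_lit 494) (nat_lit 433) (nat_lit 273))) (XT.nd (nat_lit 78) (nat_lit 0) (nat_lit 0) (XT.lf (nat_lit 0) (nat_lit 388361255) (nat_lit 228) (nat_lit 14340207057) (nat_lit 304) (nat_lit 16123042388) (nat_lit 135) (nat_lit 5) (nat_lit 138) (nat_lit 5) (nat_lit 139) (nat_lit 5) (nat_lit 495) (nat_lit 433) (nat_lit 272)) (XT.lf (nat_lit 0) (nat_lit 19391675452) (nat_lit 228) (nat_lit 3000584988) (nat_lit 304) (nat_lit 9038748245) (nat_lit 135) (nat_lit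 5) (nat_lit 138) (nat_lit 5) (nat_lit 139) (nat_lit 5) (nat_lit 496) (nat_lit 433) (nat_lit 271)))) (XT.nd (nat_lit 156) (nat_lit 456) (nat_lit 0) (XT.nd (nat_lit 78) (nat_lit 76) (nat_lit 0) (XT.lf (nat_lit 0) (nat_lit 6980873120) (nat_lit 228) (nat_lit 23449811773) (nat_lit 304) (nat_lit 1592759454) (nat_lit 132) (nat_lit 5) (nat_lit 135) (nat_lit 5) (nat_lit 136) (nat_lit 5) (nat_lit 497) (nat_lit 433) (nat_lit 270)) (XT.lf (nat_lit 0) (nat_lit 6104828194) (nat_lit 304) (nat_lit 5910092741) (nat_lit 76) (nat_lit 20612576272) (nat_lit 131) (nat_lit 5) (nat_lit 135) (nat_lit 5) (nat_lit 132) (nat_lit 5) (nat_lit 498) (nat_lit 433) (nat_lit 269))) (XT.nd (nat_lit 78) (nat_lit 228) (nat_lit 0) (XT.lf (nat_lit 0) (nat_lit 14045699062) (nat_lit 228) (nat_lit 85122715) (nat_lit 304) (nat_lit 19114492392) (nat_lit 128) (nat_lit 5) (nat_lit 131) (nat_lit 5) (nat_lit 132) (nat_lit 5) (nat_lit 499) (nat_lit 433) (nat_lit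 268)) (XT.lf (nat_lit 0) (nat_lit 728755552) (nat_lit 228) (nat_lit 21847932479) (nat_lit 304) (nat_lit 11299605166) (nat_lit 125) (nat_lit 5) (nat_lit 128) (nat_lit 5) (nat_lit 129) (nat_lit 5) (nat_lit 500) (nat_lit 433) (nat_lit 267))))))) (XT.nd (nat_lit 1170) (nat_lit 1596) (nat_lit 0) (XT.nd (nat_lit 546) (nat_lit 988) (nat_lit 0) (XT.nd (nat_lit 234) (nat_lit 684) (nat_lit 0) (XT.nd (nat_lit 78) (nat_lit 304) (nat_lit 0) (XT.lf (nat_lit 0) (nat_lit 21638763308) (nat_lit 228) (nat_lit 9826471635) (nat_lit 304) (nat_lit 3055287842) (nat_lit 125) (nat_lit 5) (nat_lit 128) (nat_lit 5) (nat_lit 129) (nat_lit 5) (nat_lit 501) (nat_lit 433) (nat_lit 266)) (XT.nd (nat_lit 78) (nat_lit 0) (nat_lit 0) (XT.lf (nat_lit 0) (nat_lit 5428547661) (nat_lit 304) (nat_lit 27117355962) (nat_lit 76) (nat_lit 2633660073) (nat_lit 121) (nat_lit 5) (nat_lit 125) (nat_lit 5) (nat_lit 122) (nat_lit 5) (nat_lit 502) (nat_lit 433) (nat_lit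 265)) (XT.lf (nat_lit 0) (nat_lit 14328884830) (nat_lit 304) (nat_lit 6093557713) (nat_lit 76) (nat_lit 15428324237) (nat_lit 121) (nat_lit 5) (nat_lit 125) (nat_lit 5) (nat_lit 122) (nat_lit 5) (nat_lit 503) (nat_lit 433) (nat_lit 264)))) (XT.nd (nat_lit 156) (nat_lit 304) (nat_lit 0) (XT.nd (nat_lit 78) (nat_lit 152) (nat_lit 0) (XT.lf (nat_lit 0) (nat_lit 15861922777) (nat_lit 228) (nat_lit 7781671825) (nat_lit 304) (nat_lit 12894090774) (nat_lit 118) (nat_lit 5) (nat_lit 121) (nat_lit 5) (nat_lit 122) (nat_lit 5) (nat_lit 504) (nat_lit 433) (nat_lit 263)) (XT.lf (nat_lit 0) (nat_lit 1323895107) (nat_lit 152) (nat_lit 32033995340) (nat_lit 228) (nat_lit 3883717025) (nat_lit 116) (nat_lit 5) (nat_lit 118) (nat_lit 5) (nat_lit 119) (nat_lit 5) (nat_lit 505) (nat_lit 433) (nat_lit 262))) (XT.nd (nat_lit 78) (nat_lit 228) (nat_lit 0) (XT.lf (nat_lit 0) (nat_lit 5574490494) (nat_lit 228) (nat_lit 13692607217) (nat_lit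 76) (nat_lit 18689508315) (nat_lit 115) (nat_lit 5) (nat_lit 118) (nat_lit 5) (nat_lit 116) (nat_lit 5) (nat_lit 506) (nat_lit 433) (nat_lit 261)) (XT.lf (nat_lit 0) (nat_lit 9334594124) (nat_lit 228) (nat_lit 5988607242) (nat_lit 304) (nat_lit 23366155374) (nat_lit 112) (nat_lit 5) (nat_lit 115) (nat_lit 5) (nat_lit 116) (nat_lit 5) (nat_lit 507) (nat_lit 433) (nat_lit 260))))) (XT.nd (nat_lit 312) (nat_lit 532) (nat_lit 0) (XT.nd (nat_lit 156) (nat_lit 304) (nat_lit 0) (XT.nd (nat_lit 78) (nat_lit 152) (nat_lit 0) (XT.lf (nat_lit 0) (nat_lit 25573031931) (nat_lit 304) (nat_lit 6190305231) (nat_lit 76) (nat_lit 7674493314) (nat_lit 112) (nat_lit 5) (nat_lit 116) (nat_lit 5) (nat_lit 113) (nat_lit 5) (nat_lit 508) (nat_lit 433) (nat_lit 259)) (XT.lf (nat_lit 0) (nat_lit 17951957561) (nat_lit 152) (nat_lit 18405517259) (nat_lit 228) (nat_lit 3844470329) (nat_lit 110) (nat_lit 5) (nat_lit 112) (nat_lit 5) (nat_lit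 113) (nat_lit 5) (nat_lit 509) (nat_lit 433) (nat_lit 258))) (XT.nd (nat_lit 78) (nat_lit 0) (nat_lit 0) (XT.lf (nat_lit 0) (nat_lit 1924803630) (nat_lit 228) (nat_lit 4502189212) (nat_lit 304) (nat_lit 34557815848) (nat_lit 106) (nat_lit 5) (nat_lit 109) (nat_lit 5) (nat_lit 110) (nat_lit 5) (nat_lit 510) (nat_lit 433) (nat_lit 257)) (XT.lf (nat_lit 0) (nat_lit 17245914925) (nat_lit 304) (nat_lit 14646328214) (nat_lit 76) (nat_lit 9888275751) (nat_lit 106) (nat_lit 5) (nat_lit 110) (nat_lit 5) (nat_lit 107) (nat_lit 5) (nat_lit 511) (nat_lit 433) (nat_lit 256)))) (XT.nd (nat_lit 156) (nat_lit 380) (nat_lit 0) (XT.nd (nat_lit 78) (nat_lit 0) (nat_lit 0) (XT.lf (nat_lit 0) (nat_lit 10655157201) (nat_lit 152) (nat_lit 17876684705) (nat_lit 228) (nat_lit 14063985593) (nat_lit 104) (nat_lit 5) (nat_lit 106) (nat_lit 5) (nat_lit 107) (nat_lit 5) (nat_lit 512) (nat_lit 433) (nat_lit 255)) (XT.lf (nat_lit 0) (nat_lit 37008054350)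 (nat_lit 152) (nat_lit 3291686020) (nat_lit 228) (nat_lit 3131553396) (nat_lit 104) (nat_lit 5) (nat_lit 106) (nat_lit 5) (nat_lit 107) (nat_lit 5) (nat_lit 513) (nat_lit 433) (nat_lit 254))) (XT.nd (nat_lit 78) (nat_lit 152) (nat_lit 0) (XT.lf (nat_lit 0) (nat_lit 8275097529) (nat_lit 228) (nat_lit 24231836141) (nat_lit 76) (nat_lit 11773400299) (nat_lit 101) (nat_lit 5) (nat_lit 104) (nat_lit 5) (nat_lit 102) (nat_lit 5) (nat_lit 514) (nat_lit 433) (nat_lit 253)) (XT.lf (nat_lit 0) (nat_lit 2265373907) (nat_lit 152) (nat_lit 17811110093) (nat_lit 228) (nat_lit 25073967095) (nat_lit 99) (nat_lit 5) (nat_lit 101) (nat_lit 5) (nat_lit 102) (nat_lit 5) (nat_lit 515) (nat_lit 433) (nat_lit 252)))))) (XT.nd (nat_lit 624) (nat_lit 836) (nat_lit 0) (XT.nd (nat_lit 312) (nat_lit 380) (nat_lit 0) (XT.nd (nat_lit 156) (nat_lit 228) (nat_lit 0) (XT.nd (nat_lit 78) (nat_lit 152) (nat_lit 0) (XT.lf (nat_lit 0) (nat_lit 30046554274)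 (nat_lit 152) (nat_lit 2425711741) (nat_lit 228) (nat_lit 13567195288) (nat_lit 99) (nat_lit 5) (nat_lit 101) (nat_lit 5) (nat_lit 102) (nat_lit 5) (nat_lit 516) (nat_lit 433) (nat_lit 251)) (XT.lf (nat_lit 0) (nat_lit 11799723286) (nat_lit 152) (nat_lit 33678392823) (nat_lit 228) (nat_lit 1469880055) (nat_lit 97) (nat_lit 5) (nat_lit 99) (nat_lit 5) (nat_lit 100) (nat_lit 5) (nat_lit 517) (nat_lit 433) (nat_lit 250))) (XT.nd (nat_lit 78) (nat_lit 152) (nat_lit 0) (XT.lf (nat_lit 0) (nat_lit 10958771481) (nat_lit 228) (nat_lit 7263789934) (nat_lit 76) (nat_lit 29652570098) (nat_lit 96) (nat_lit 5) (nat_lit 99) (nat_lit 5) (nat_lit 97) (nat_lit 5) (nat_lit 518) (nat_lit 433) (nat_lit 249)) (XT.lf (nat_lit 0) (nat_lit 21861942321) (nat_lit 152) (nat_lit 2074836132) (nat_lit 228) (nat_lit 24886684871) (nat_lit 94) (nat_lit 5) (nat_lit 96) (nat_lit 5) (nat_lit 97) (nat_lit 5) (nat_lit 519) (nat_lit 433) (nat_lit 248))))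 (XT.nd (nat_lit 156) (nat_lit 152) (nat_lit 0) (XT.nd (nat_lit 78) (nat_lit 76) (nat_lit 0) (XT.lf (nat_lit 0) (nat_lit 2105369333) (nat_lit 152) (nat_lit 35428912320) (nat_lit 228) (nat_lit 12259058917) (nat_lit 92) (nat_lit 5) (nat_lit 94) (nat_lit 5) (nat_lit 95) (nat_lit 5) (nat_lit 520) (nat_lit 433) (nat_lit 247)) (XT.lf (nat_lit 0) (nat_lit 1024225245) (nat_lit 228) (nat_lit 18224983956) (nat_lit 76) (nat_lit 31534147138) (nat_lit 91) (nat_lit 5) (nat_lit 94) (nat_lit 5) (nat_lit 92) (nat_lit 5) (nat_lit 521) (nat_lit 433) (nat_lit 246))) (XT.nd (nat_lit 78) (nat_lit 0) (nat_lit 0) (XT.lf (nat_lit 0) (nat_lit 12232056417) (nat_lit 152) (nat_lit 2341174265) (nat_lit 228) (nat_lit 37222792214) (nat_lit 89) (nat_lit 5) (nat_lit 91) (nat_lit 5) (nat_lit 92) (nat_lit 5) (nat_lit 522) (nat_lit 433) (nat_lit 245)) (XT.lf (nat_lit 0) (nat_lit 28855519188) (nat_lit 228) (nat_lit 9011037987) (nat_lit 76) (nat_lit 14962708032)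 (nat_lit 89) (nat_lit 5) (nat_lit 92) (nat_lit 5) (nat_lit 90) (nat_lit 5) (nat_lit 523) (nat_lit 433) (nat_lit 244))))) (XT.nd (nat_lit 312) (nat_lit 304) (nat_lit 0) (XT.nd (nat_lit 156) (nat_lit 152) (nat_lit 0) (XT.nd (nat_lit 78) (nat_lit 228) (nat_lit 0) (XT.lf (nat_lit 0) (nat_lit 22874706813) (nat_lit 152) (nat_lit 20930802794) (nat_lit 228) (nat_lit 10080818323) (nat_lit 87) (nat_lit 5) (nat_lit 89) (nat_lit 5) (nat_lit 90) (nat_lit 5) (nat_lit 524) (nat_lit 433) (nat_lit 243)) (XT.lf (nat_lit 0) (nat_lit 898380094) (nat_lit 152) (nat_lit 3344702005) (nat_lit 228) (nat_lit 50727899867) (nat_lit 84) (nat_lit 5) (nat_lit 86) (nat_lit 5) (nat_lit 87) (nat_lit 5) (nat_lit 525) (nat_lit 433) (nat_lit 242))) (XT.nd (nat_lit 78) (nat_lit 152) (nat_lit 0) (XT.lf (nat_lit 0) (nat_lit 19248501162) (nat_lit 228) (nat_lit 21929253646) (nat_lit 76) (nat_lit 14893794159) (nat_lit 84) (nat_lit 5) (nat_lit 87) (nat_lit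 5) (nat_lit 85) (nat_lit 5) (nat_lit 526) (nat_lit 433) (nat_lit 241)) (XT.lf (nat_lit 0) (nat_lit 11360177773) (nat_lit 152) (nat_lit 23482523298) (nat_lit 228) (nat_lit 22358273483) (nat_lit 82) (nat_lit 5) (nat_lit 84) (nat_lit 5) (nat_lit 85) (nat_lit 5) (nat_lit 527) (nat_lit 433) (nat_lit 240)))) (XT.nd (nat_lit 156) (nat_lit 152) (nat_lit 0) (XT.nd (nat_lit 78) (nat_lit 152) (nat_lit 0) (XT.lf (nat_lit 0) (nat_lit 46091107422) (nat_lit 152) (nat_lit 5031406652) (nat_lit 228) (nat_lit 7235235344) (nat_lit 82) (nat_lit 5) (nat_lit 84) (nat_lit 5) (nat_lit 85) (nat_lit 5) (nat_lit 528) (nat_lit 433) (nat_lit 239)) (XT.lf (nat_lit 0) (nat_lit 8530300432) (nat_lit 152) (nat_lit 37007288898) (nat_lit 76) (nat_lit 13998685432) (nat_lit 80) (nat_lit 5) (nat_lit 82) (nat_lit 5) (nat_lit 81) (nat_lit 5) (nat_lit 529) (nat_lit 433) (nat_lit 238))) (XT.nd (nat_lit 78) (nat_lit 152) (nat_lit 0) (XT.lf (nat_lit 0) (nat_lit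 24794721443) (nat_lit 152) (nat_lit 2255783390) (nat_lit 76) (nat_lit 33692361859) (nat_lit 80) (nat_lit 5) (nat_lit 82) (nat_lit 5) (nat_lit 81) (nat_lit 5) (nat_lit 530) (nat_lit 433) (nat_lit 237)) (XT.lf (nat_lit 0) (nat_lit 34199207324) (nat_lit 152) (nat_lit 7673144338) (nat_lit 228) (nat_lit 20103546528) (nat_lit 78) (nat_lit 5) (nat_lit 80) (nat_lit 5) (nat_lit 81) (nat_lit 5) (nat_lit 531) (nat_lit 433) (nat_lit 236))))))))
noncomputable def xc171 : XT := (XT.nd (nat_lit 55848) (nat_lit 0) (nat_lit 9804) (XT.nd (nat_lit 1170) (nat_lit 228) (nat_lit 0) (XT.nd (nat_lit 546) (nat_lit 684) (nat_lit 0) (XT.nd (nat_lit 234) (nat_lit 304) (nat_lit 0) (XT.nd (nat_lit 78) (nat_lit 228) (nat_lit 0) (XT.lf (nat_lit 0) (nat_lit 8591764804) (nat_lit 76) (nat_lit 51090780687) (nat_lit 152) (nat_lit 3556768204) (nat_lit 77) (nat_lit 5) (nat_lit 78) (nat_lit 5) (nat_lit 79) (nat_lit 4) (nat_lit 532) (nat_lit 433) (nat_lit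 235)) (XT.nd (nat_lit 78) (nat_lit 152) (nat_lit 0) (XT.lf (nat_lit 0) (nat_lit 13579034314) (nat_lit 152) (nat_lit 18126363882) (nat_lit 76) (nat_lit 32820670697) (nat_lit 76) (nat_lit 5) (nat_lit 78) (nat_lit 5) (nat_lit 77) (nat_lit 5) (nat_lit 533) (nat_lit 433) (nat_lit 234)) (XT.lf (nat_lit 0) (nat_lit 19836074129) (nat_lit 152) (nat_lit 11508676594) (nat_lit 228) (nat_lit 34499999837) (nat_lit 74) (nat_lit 5) (nat_lit 76) (nat_lit 5) (nat_lit 77) (nat_lit 5) (nat_lit 534) (nat_lit 433) (nat_lit 233)))) (XT.nd (nat_lit 156) (nat_lit 152) (nat_lit 0) (XT.nd (nat_lit 78) (nat_lit 152) (nat_lit 0) (XT.lf (nat_lit 0) (nat_lit 49914292176) (nat_lit 228) (nat_lit 7985945816) (nat_lit 76) (nat_lit 9294629168) (nat_lit 74) (nat_lit 5) (nat_lit 77) (nat_lit 5) (nat_lit 75) (nat_lit 4) (nat_lit 535) (nat_lit 433) (nat_lit 232)) (XT.lf (nat_lit 0) (nat_lit 865846970) (nat_lit 152) (nat_lit 36905965616) (nat_lit 76) (nat_lit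 30800964379) (nat_lit 72) (nat_lit 5) (nat_lit 74) (nat_lit 5) (nat_lit 73) (nat_lit 5) (nat_lit 536) (nat_lit 433) (nat_lit 231))) (XT.nd (nat_lit 78) (nat_lit 0) (nat_lit 0) (XT.lf (nat_lit 0) (nat_lit 2555143426) (nat_lit 152) (nat_lit 16756961645) (nat_lit 228) (nat_lit 50671703256) (nat_lit 70) (nat_lit 5) (nat_lit 72) (nat_lit 5) (nat_lit 73) (nat_lit 5) (nat_lit 537) (nat_lit 433) (nat_lit 230)) (XT.lf (nat_lit 0) (nat_lit 38731881250) (nat_lit 228) (nat_lit 27526131348) (nat_lit 76) (nat_lit 5166554204) (nat_lit 70) (nat_lit 5) (nat_lit 73) (nat_lit 5) (nat_lit 71) (nat_lit 4) (nat_lit 538) (nat_lit 433) (nat_lit 229))))) (XT.nd (nat_lit 312) (nat_lit 380) (nat_lit 0) (XT.nd (nat_lit 156) (nat_lit 152) (nat_lit 0) (XT.nd (nat_lit 78) (nat_lit 76) (nat_lit 0) (XT.lf (nat_lit 0) (nat_lit 13668380863) (nat_lit 76) (nat_lit 45360036095) (nat_lit 152) (nat_lit 13871306166) (nat_lit 69) (nat_lit 5) (nat_lit 70)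 (nat_lit 5) (nat_lit 71) (nat_lit 4) (nat_lit 539) (nat_lit 433) (nat_lit 228)) (XT.lf (nat_lit 0) (nat_lit 5684685871) (nat_lit 152) (nat_lit 17809481698) (nat_lit 76) (nat_lit 50915048823) (nat_lit 68) (nat_lit 5) (nat_lit 70) (nat_lit 5) (nat_lit 69) (nat_lit 5) (nat_lit 540) (nat_lit 433) (nat_lit 227))) (XT.nd (nat_lit 78) (nat_lit 0) (nat_lit 0) (XT.lf (nat_lit 0) (nat_lit 25203772941) (nat_lit 152) (nat_lit 584021605) (nat_lit 228) (nat_lit 50164902701) (nat_lit 66) (nat_lit 5) (nat_lit 68) (nat_lit 5) (nat_lit 69) (nat_lit 5) (nat_lit 541) (nat_lit 433) (nat_lit 226)) (XT.lf (nat_lit 0) (nat_lit 46893807509) (nat_lit 228) (nat_lit 7893331572) (nat_lit 76) (nat_lit 22743349188) (nat_lit 66) (nat_lit 5) (nat_lit 69) (nat_lit 5) (nat_lit 67) (nat_lit 4) (nat_lit 542) (nat_lit 433) (nat_lit 225)))) (XT.nd (nat_lit 156) (nat_lit 76) (nat_lit 0) (XT.nd (nat_lit 78) (nat_lit 228) (nat_lit 0) (XT.lf (nat_lit 0)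 (nat_lit 36957746024) (nat_lit 76) (nat_lit 32033356353) (nat_lit 152) (nat_lit 10153767669) (nat_lit 65) (nat_lit 5) (nat_lit 66) (nat_lit 5) (nat_lit 67) (nat_lit 4) (nat_lit 543) (nat_lit 433) (nat_lit 224)) (XT.lf (nat_lit 0) (nat_lit 2447051054) (nat_lit 152) (nat_lit 8384113333) (nat_lit 228) (nat_lit 69970330610) (nat_lit 62) (nat_lit 5) (nat_lit 64) (nat_lit 5) (nat_lit 65) (nat_lit 5) (nat_lit 544) (nat_lit 433) (nat_lit 223))) (XT.nd (nat_lit 78) (nat_lit 76) (nat_lit 0) (XT.lf (nat_lit 0) (nat_lit 32822416116) (nat_lit 228) (nat_lit 33473890720) (nat_lit 76) (nat_lit 16191070379) (nat_lit 62) (nat_lit 5) (nat_lit 65) (nat_lit 5) (nat_lit 63) (nat_lit 4) (nat_lit 545) (nat_lit 433) (nat_lit 222)) (XT.lf (nat_lit 0) (nat_lit 12916691713) (nat_lit 76) (nat_lit 42761042768) (nat_lit 152) (nat_lit 28539971609) (nat_lit 61) (nat_lit 5) (nat_lit 62) (nat_lit 5) (nat_lit 63) (nat_lit 4) (nat_lit 546) (nat_lit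 433) (nat_lit 221)))))) (XT.nd (nat_lit 54054) (nat_lit 0) (nat_lit 18240) (XT.nd (nat_lit 53742) (nat_lit 0) (nat_lit 19152) (XT.nd (nat_lit 78) (nat_lit 228) (nat_lit 0) (XT.lf (nat_lit 0) (nat_lit 61379799234) (nat_lit 76) (nat_lit 18174119950) (nat_lit 152) (nat_lit 6435969504) (nat_lit 61) (nat_lit 5) (nat_lit 62) (nat_lit 5) (nat_lit 63) (nat_lit 4) (nat_lit 547) (nat_lit 433) (nat_lit 220)) (XT.nd (nat_lit 53586) (nat_lit 0) (nat_lit 19152) (XT.lf (nat_lit 0) (nat_lit 16310862505) (nat_lit 228) (nat_lit 64092873929) (nat_lit 76) (nat_lit 7397839150) (nat_lit 58) (nat_lit 5) (nat_lit 61) (nat_lit 5) (nat_lit 59) (nat_lit 4) (nat_lit 548) (nat_lit 433) (nat_lit 219)) (XT.lf (nat_lit 0) (nat_lit 1222397930) (nat_lit 0) (nat_lit 1222397930) (nat_lit 1140) (nat_lit 3283154134) (nat_lit 310) (nat_lit 5) (nat_lit 310) (nat_lit 3) (nat_lit 325) (nat_lit 3) (nat_lit 434) (nat_lit 434) (nat_lit 332)))) (XT.nd (nat_lit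 156) (nat_lit 0) (nat_lit 76) (XT.nd (nat_lit 78) (nat_lit 0) (nat_lit 0) (XT.lf (nat_lit 0) (nat_lit 5512016150) (nat_lit 1140) (nat_lit 3372407640) (nat_lit 1216) (nat_lit 2726766737) (nat_lit 310) (nat_lit 5) (nat_lit 325) (nat_lit 3) (nat_lit 326) (nat_lit 5) (nat_lit 435) (nat_lit 434) (nat_lit 331)) (XT.lf (nat_lit 76) (nat_lit 2448109903) (nat_lit 0) (nat_lit 3732454253) (nat_lit 1216) (nat_lit 5589755046) (nat_lit 311) (nat_lit 5) (nat_lit 310) (nat_lit 5) (nat_lit 326) (nat_lit 5) (nat_lit 436) (nat_lit 434) (nat_lit 330))) (XT.nd (nat_lit 78) (nat_lit 0) (nat_lit 0) (XT.lf (nat_lit 0) (nat_lit 6898977304) (nat_lit 1140) (nat_lit 3447776101) (nat_lit 1216) (nat_lit 1586576934) (nat_lit 311) (nat_lit 5) (nat_lit 326) (nat_lit 5) (nat_lit 327) (nat_lit 5) (nat_lit 437) (nat_lit 434) (nat_lit 329)) (XT.lf (nat_lit 76) (nat_lit 2605632921) (nat_lit 0) (nat_lit 5076171910) (nat_lit 1216) (nat_lit 4418143900)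 (nat_lit 312) (nat_lit 5) (nat_lit 311) (nat_lit 5) (nat_lit 327) (nat_lit 5) (nat_lit 438) (nat_lit 434) (nat_lit 328))))) (XT.nd (nat_lit 312) (nat_lit 1064) (nat_lit 0) (XT.nd (nat_lit 156) (nat_lit 0) (nat_lit 0) (XT.nd (nat_lit 78) (nat_lit 0) (nat_lit 0) (XT.lf (nat_lit 0) (nat_lit 8508051342) (nat_lit 1140) (nat_lit 3374609440) (nat_lit 1216) (nat_lit 388309565) (nat_lit 312) (nat_lit 5) (nat_lit 327) (nat_lit 5) (nat_lit 328) (nat_lit 5) (nat_lit 439) (nat_lit 434) (nat_lit 327)) (XT.lf (nat_lit 76) (nat_lit 2924154766) (nat_lit 0) (nat_lit 6495225521) (nat_lit 1216) (nat_lit 3025936092) (nat_lit 313) (nat_lit 5) (nat_lit 312) (nat_lit 5) (nat_lit 328) (nat_lit 5) (nat_lit 440) (nat_lit 434) (nat_lit 326))) (XT.nd (nat_lit 78) (nat_lit 0) (nat_lit 76) (XT.lf (nat_lit 76) (nat_lit 9469834193) (nat_lit 0) (nat_lit 904637498) (nat_lit 1216) (nat_lit 2249930967) (nat_lit 313) (nat_lit 5) (nat_lit 312) (nat_lit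 5) (nat_lit 328) (nat_lit 5) (nat_lit 441) (nat_lit 434) (nat_lit 325)) (XT.lf (nat_lit 76) (nat_lit 3411462296) (nat_lit 0) (nat_lit 8009122901) (nat_lit 1216) (nat_lit 1386407718) (nat_lit 314) (nat_lit 5) (nat_lit 313) (nat_lit 5) (nat_lit 329) (nat_lit 5) (nat_lit 442) (nat_lit 434) (nat_lit 324)))) (XT.nd (nat_lit 156) (nat_lit 0) (nat_lit 0) (XT.nd (nat_lit 78) (nat_lit 1140) (nat_lit 0) (XT.lf (nat_lit 76) (nat_lit 10218643298) (nat_lit 0) (nat_lit 2303470899) (nat_lit 1216) (nat_lit 472228117) (nat_lit 314) (nat_lit 5) (nat_lit 313) (nat_lit 5) (nat_lit 329) (nat_lit 5) (nat_lit 443) (nat_lit 434) (nat_lit 323)) (XT.lf (nat_lit 0) (nat_lit 518161151) (nat_lit 1216) (nat_lit 9114319072) (nat_lit 1292) (nat_lit 3552960568) (nat_lit 298) (nat_lit 5) (nat_lit 314) (nat_lit 5) (nat_lit 315) (nat_lit 5) (nat_lit 444) (nat_lit 434) (nat_lit 322))) (XT.nd (nat_lit 78) (nat_lit 0) (nat_lit 76) (XT.lf (nat_lit 0)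 (nat_lit 1563929957) (nat_lit 1216) (nat_lit 2240719661) (nat_lit 1292) (nat_lit 9576429758) (nat_lit 298) (nat_lit 5) (nat_lit 314) (nat_lit 5) (nat_lit 315) (nat_lit 5) (nat_lit 445) (nat_lit 434) (nat_lit 321)) (XT.lf (nat_lit 0) (nat_lit 2694548658) (nat_lit 1216) (nat_lit 8679534632) (nat_lit 1292) (nat_lit 2206901653) (nat_lit 299) (nat_lit 5) (nat_lit 315) (nat_lit 5) (nat_lit 316) (nat_lit 5) (nat_lit 446) (nat_lit 434) (nat_lit 320))))))) (XT.nd (nat_lit 1170) (nat_lit 4332) (nat_lit 0) (XT.nd (nat_lit 546) (nat_lit 2356) (nat_lit 0) (XT.nd (nat_lit 234) (nat_lit 1824) (nat_lit 0) (XT.nd (nat_lit 78) (nat_lit 0) (nat_lit 76) (XT.lf (nat_lit 0) (nat_lit 3904496329) (nat_lit 1216) (nat_lit 1532097811) (nat_lit 1292) (nat_lit 8348933291) (nat_lit 299) (nat_lit 5) (nat_lit 315) (nat_lit 5) (nat_lit 316) (nat_lit 5) (nat_lit 447) (nat_lit 434) (nat_lit 319)) (XT.nd (nat_lit 78) (nat_lit 0) (nat_lit 0) (XT.lf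 (nat_lit 0) (nat_lit 5200237031) (nat_lit 1216) (nat_lit 8067971172) (nat_lit 1292) (nat_lit 726515162) (nat_lit 300) (nat_lit 5) (nat_lit 316) (nat_lit 5) (nat_lit 317) (nat_lit 5) (nat_lit 448) (nat_lit 434) (nat_lit 318)) (XT.lf (nat_lit 0) (nat_lit 6589978712) (nat_lit 1216) (nat_lit 634755533) (nat_lit 1292) (nat_lit 6983809018) (nat_lit 300) (nat_lit 5) (nat_lit 316) (nat_lit 5) (nat_lit 317) (nat_lit 5) (nat_lit 449) (nat_lit 434) (nat_lit 317)))) (XT.nd (nat_lit 156) (nat_lit 760) (nat_lit 0) (XT.nd (nat_lit 78) (nat_lit 1140) (nat_lit 0) (XT.lf (nat_lit 76) (nat_lit 7149495340) (nat_lit 0) (nat_lit 926736536) (nat_lit 1292) (nat_lit 6350903197) (nat_lit 301) (nat_lit 5) (nat_lit 300) (nat_lit 5) (nat_lit 317) (nat_lit 5) (nat_lit 450) (nat_lit 434) (nat_lit 316)) (XT.lf (nat_lit 0) (nat_lit 472101220) (nat_lit 1216) (nat_lit 9185842199) (nat_lit 1292) (nat_lit 4992816934) (nat_lit 285) (nat_lit 5) (nat_lit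 301) (nat_lit 5) (nat_lit 302) (nat_lit 5) (nat_lit 451) (nat_lit 434) (nat_lit 315))) (XT.nd (nat_lit 78) (nat_lit 760) (nat_lit 0) (XT.lf (nat_lit 0) (nat_lit 8582483360) (nat_lit 1216) (nat_lit 2773893381) (nat_lit 1292) (nat_lit 3522641320) (nat_lit 285) (nat_lit 5) (nat_lit 301) (nat_lit 5) (nat_lit 302) (nat_lit 5) (nat_lit 452) (nat_lit 434) (nat_lit 314)) (XT.lf (nat_lit 0) (nat_lit 1808787504) (nat_lit 760) (nat_lit 11338280620) (nat_lit 836) (nat_lit 1965817955) (nat_lit 275) (nat_lit 5) (nat_lit 285) (nat_lit 5) (nat_lit 286) (nat_lit 5) (nat_lit 453) (nat_lit 434) (nat_lit 313))))) (XT.nd (nat_lit 312) (nat_lit 1064) (nat_lit 0) (XT.nd (nat_lit 156) (nat_lit 608) (nat_lit 0) (XT.nd (nat_lit 78) (nat_lit 684) (nat_lit 0) (XT.lf (nat_lit 0) (nat_lit 10246704757) (nat_lit 760) (nat_lit 4822914824) (nat_lit 836) (nat_lit 281808059) (nat_lit 275) (nat_lit 5) (nat_lit 285) (nat_lit 5) (nat_lit 286) (nat_lit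 5) (nat_lit 454) (nat_lit 434) (nat_lit 312)) (XT.lf (nat_lit 0) (nat_lit 1463098327) (nat_lit 684) (nat_lit 12233609764) (nat_lit 76) (nat_lit 1898838289) (nat_lit 266) (nat_lit 5) (nat_lit 275) (nat_lit 5) (nat_lit 267) (nat_lit 5) (nat_lit 455) (nat_lit 434) (nat_lit 311))) (XT.nd (nat_lit 78) (nat_lit 608) (nat_lit 0) (XT.lf (nat_lit 0) (nat_lit 3342362282) (nat_lit 684) (nat_lit 3721052457) (nat_lit 76) (nat_lit 8780861540) (nat_lit 266) (nat_lit 5) (nat_lit 275) (nat_lit 5) (nat_lit 267) (nat_lit 5) (nat_lit 456) (nat_lit 434) (nat_lit 310)) (XT.lf (nat_lit 0) (nat_lit 5135644311) (nat_lit 608) (nat_lit 179944996) (nat_lit 684) (nat_lit 10783752709) (nat_lit 258) (nat_lit 5) (nat_lit 266) (nat_lit 5) (nat_lit 267) (nat_lit 5) (nat_lit 457) (nat_lit 434) (nat_lit 309)))) (XT.nd (nat_lit 156) (nat_lit 532) (nat_lit 0) (XT.nd (nat_lit 78) (nat_lit 532) (nat_lit 0) (XT.lf (nat_lit 0) (nat_lit 7440838282) (nat_lit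 684) (nat_lit 2105097789) (nat_lit 76) (nat_lit 6813340350) (nat_lit 258) (nat_lit 5) (nat_lit 267) (nat_lit 5) (nat_lit 259) (nat_lit 5) (nat_lit 458) (nat_lit 434) (nat_lit 308)) (XT.lf (nat_lit 0) (nat_lit 7145564903) (nat_lit 532) (nat_lit 2543539626) (nat_lit 608) (nat_lit 6936127944) (nat_lit 251) (nat_lit 5) (nat_lit 258) (nat_lit 5) (nat_lit 259) (nat_lit 5) (nat_lit 459) (nat_lit 434) (nat_lit 307))) (XT.nd (nat_lit 78) (nat_lit 532) (nat_lit 0) (XT.lf (nat_lit 0) (nat_lit 12060173905) (nat_lit 608) (nat_lit 238287384) (nat_lit 76) (nat_lit 4599046630) (nat_lit 251) (nat_lit 5) (nat_lit 259) (nat_lit 5) (nat_lit 252) (nat_lit 5) (nat_lit 460) (nat_lit 434) (nat_lit 306)) (XT.lf (nat_lit 0) (nat_lit 9427892943) (nat_lit 532) (nat_lit 5179619559) (nat_lit 608) (nat_lit 2567286339) (nat_lit 244) (nat_lit 5) (nat_lit 251) (nat_lit 5) (nat_lit 252) (nat_lit 5) (nat_lit 461) (nat_lit 434) (nat_lit 305)))))) (XT.nd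 (nat_lit 624) (nat_lit 1748) (nat_lit 0) (XT.nd (nat_lit 312) (nat_lit 1444) (nat_lit 0) (XT.nd (nat_lit 156) (nat_lit 532) (nat_lit 0) (XT.nd (nat_lit 78) (nat_lit 76) (nat_lit 0) (XT.lf (nat_lit 0) (nat_lit 1934203716) (nat_lit 532) (nat_lit 15328308889) (nat_lit 608) (nat_lit 196959935) (nat_lit 237) (nat_lit 5) (nat_lit 244) (nat_lit 5) (nat_lit 245) (nat_lit 5) (nat_lit 462) (nat_lit 434) (nat_lit 304)) (XT.lf (nat_lit 0) (nat_lit 2320582858) (nat_lit 608) (nat_lit 5770946831) (nat_lit 76) (nat_lit 9656913584) (nat_lit 236) (nat_lit 5) (nat_lit 244) (nat_lit 5) (nat_lit 237) (nat_lit 5) (nat_lit 463) (nat_lit 434) (nat_lit 303))) (XT.nd (nat_lit 78) (nat_lit 0) (nat_lit 0) (XT.lf (nat_lit 0) (nat_lit 4347705124) (nat_lit 532) (nat_lit 593701254) (nat_lit 608) (nat_lit 13103668032) (nat_lit 229) (nat_lit 5) (nat_lit 236) (nat_lit 5) (nat_lit 237) (nat_lit 5) (nat_lit 464) (nat_lit 434) (nat_lit 302)) (XT.lf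 (nat_lit 0) (nat_lit 7758331758) (nat_lit 608) (nat_lit 3541112524) (nat_lit 76) (nat_lit 7047637030) (nat_lit 229) (nat_lit 5) (nat_lit 237) (nat_lit 5) (nat_lit 230) (nat_lit 5) (nat_lit 465) (nat_lit 434) (nat_lit 301)))) (XT.nd (nat_lit 156) (nat_lit 988) (nat_lit 0) (XT.nd (nat_lit 78) (nat_lit 0) (nat_lit 0) (XT.lf (nat_lit 0) (nat_lit 7040300572) (nat_lit 456) (nat_lit 3683402715) (nat_lit 532) (nat_lit 7932528095) (nat_lit 223) (nat_lit 5) (nat_lit 229) (nat_lit 5) (nat_lit 230) (nat_lit 5) (nat_lit 466) (nat_lit 434) (nat_lit 300)) (XT.lf (nat_lit 0) (nat_lit 13844692756) (nat_lit 532) (nat_lit 1013387668) (nat_lit 76) (nat_lit 4114576904) (nat_lit 223) (nat_lit 5) (nat_lit 230) (nat_lit 5) (nat_lit 224) (nat_lit 5) (nat_lit 467) (nat_lit 434) (nat_lit 299))) (XT.nd (nat_lit 78) (nat_lit 532) (nat_lit 0) (XT.lf (nat_lit 0) (nat_lit 10056123147) (nat_lit 456) (nat_lit 7127144312) (nat_lit 532) (nat_lit 2111590975)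 (nat_lit 217) (nat_lit 5) (nat_lit 223) (nat_lit 5) (nat_lit 224) (nat_lit 5) (nat_lit 468) (nat_lit 434) (nat_lit 298)) (XT.lf (nat_lit 0) (nat_lit 1003427311) (nat_lit 532) (nat_lit 17766345411) (nat_lit 76) (nat_lit 855839579) (nat_lit 210) (nat_lit 5) (nat_lit 217) (nat_lit 5) (nat_lit 211) (nat_lit 5) (nat_lit 469) (nat_lit 434) (nat_lit 297))))) (XT.nd (nat_lit 312) (nat_lit 912) (nat_lit 0) (XT.nd (nat_lit 156) (nat_lit 380) (nat_lit 0) (XT.nd (nat_lit 78) (nat_lit 456) (nat_lit 0) (XT.lf (nat_lit 0) (nat_lit 4325274910) (nat_lit 532) (nat_lit 6587382048) (nat_lit 76) (nat_lit 9048330988) (nat_lit 210) (nat_lit 5) (nat_lit 217) (nat_lit 5) (nat_lit 211) (nat_lit 5) (nat_lit 470) (nat_lit 434) (nat_lit 296)) (XT.lf (nat_lit 0) (nat_lit 5014025022) (nat_lit 456) (nat_lit 2772248907) (nat_lit 532) (nat_lit 12518966982) (nat_lit 204) (nat_lit 5) (nat_lit 210) (nat_lit 5) (nat_lit 211) (nat_lit 5) (nat_lit 471)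 (nat_lit 434) (nat_lit 295))) (XT.nd (nat_lit 78) (nat_lit 380) (nat_lit 0) (XT.lf (nat_lit 0) (nat_lit 11463659522) (nat_lit 532) (nat_lit 3624823325) (nat_lit 76) (nat_lit 5567962827) (nat_lit 204) (nat_lit 5) (nat_lit 211) (nat_lit 5) (nat_lit 205) (nat_lit 5) (nat_lit 472) (nat_lit 434) (nat_lit 294)) (XT.lf (nat_lit 0) (nat_lit 8519783637) (nat_lit 380) (nat_lit 6832606872) (nat_lit 456) (nat_lit 5662766230) (nat_lit 199) (nat_lit 5) (nat_lit 204) (nat_lit 5) (nat_lit 205) (nat_lit 5) (nat_lit 473) (nat_lit 434) (nat_lit 293)))) (XT.nd (nat_lit 156) (nat_lit 380) (nat_lit 0) (XT.nd (nat_lit 78) (nat_lit 532) (nat_lit 0) (XT.lf (nat_lit 0) (nat_lit 19402609621) (nat_lit 456) (nat_lit 307622924) (nat_lit 76) (nat_lit 1673052659) (nat_lit 199) (nat_lit 5) (nat_lit 205) (nat_lit 5) (nat_lit 200) (nat_lit 5) (nat_lit 474) (nat_lit 434) (nat_lit 292)) (XT.lf (nat_lit 0) (nat_lit 1957270633) (nat_lit 532) (nat_lit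 9366396035) (nat_lit 76) (nat_lit 10432846679) (nat_lit 192) (nat_lit 5) (nat_lit 199) (nat_lit 5) (nat_lit 193) (nat_lit 5) (nat_lit 475) (nat_lit 434) (nat_lit 291))) (XT.nd (nat_lit 78) (nat_lit 0) (nat_lit 0) (XT.lf (nat_lit 0) (nat_lit 3369922418) (nat_lit 380) (nat_lit 2631245746) (nat_lit 456) (nat_lit 16138353952) (nat_lit 187) (nat_lit 5) (nat_lit 192) (nat_lit 5) (nat_lit 193) (nat_lit 5) (nat_lit 476) (nat_lit 434) (nat_lit 290)) (XT.lf (nat_lit 0) (nat_lit 10314869633) (nat_lit 456) (nat_lit 5923111292) (nat_lit 76) (nat_lit 6291586372) (nat_lit 187) (nat_lit 5) (nat_lit 193) (nat_lit 5) (nat_lit 188) (nat_lit 5) (nat_lit 477) (nat_lit 434) (nat_lit 289))))))))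
noncomputable def xc172 : XT := (XT.nd (nat_lit 2340) (nat_lit 3268) (nat_lit 0) (XT.nd (nat_lit 1170) (nat_lit 2356) (nat_lit 0) (XT.nd (nat_lit 546) (nat_lit 1672) (nat_lit 0) (XT.nd (nat_lit 234) (nat_lit 684) (nat_lit 0) (XT.nd (nat_lit 78) (nat_lit 380) (nat_lit 0) (XT.lf (nat_lit 0) (nat_lit 7417210611) (nat_lit 380) (nat_lit 7430547370) (nat_lit 456) (nat_lit 8080863310) (nat_lit 182) (nat_lit 5) (nat_lit 187) (nat_lit 5) (nat_lit 188) (nat_lit 5) (nat_lit 478) (nat_lit 434) (nat_lit 288)) (XT.nd (nat_lit 78) (nat_lit 380) (nat_lit 0) (XT.lf (nat_lit 0) (nat_lit 19585334680) (nat_lit 456) (nat_lit 2085403586) (nat_lit 76) (nat_lit 1666848303) (nat_lit 182) (nat_lit 5) (nat_lit 188) (nat_lit 5) (nat_lit 183) (nat_lit 5) (nat_lit 479) (nat_lit 434) (nat_lit 287)) (XT.lf (nat_lit 0) (nat_lit 874846074) (nat_lit 380) (nat_lit 11870155883) (nat_lit 76) (nat_lit 11008143590) (nat_lit 177) (nat_lit 5) (nat_lit 182)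 (nat_lit 5) (nat_lit 178) (nat_lit 5) (nat_lit 480) (nat_lit 434) (nat_lit 286)))) (XT.nd (nat_lit 156) (nat_lit 304) (nat_lit 0) (XT.nd (nat_lit 78) (nat_lit 0) (nat_lit 0) (XT.lf (nat_lit 0) (nat_lit 2126695719) (nat_lit 380) (nat_lit 3473139413) (nat_lit 456) (nat_lit 18579187445) (nat_lit 172) (nat_lit 5) (nat_lit 177) (nat_lit 5) (nat_lit 178) (nat_lit 5) (nat_lit 481) (nat_lit 434) (nat_lit 285)) (XT.lf (nat_lit 0) (nat_lit 10638911616) (nat_lit 456) (nat_lit 7897077166) (nat_lit 76) (nat_lit 6076517638) (nat_lit 172) (nat_lit 5) (nat_lit 178) (nat_lit 5) (nat_lit 173) (nat_lit 5) (nat_lit 482) (nat_lit 434) (nat_lit 284))) (XT.nd (nat_lit 78) (nat_lit 0) (nat_lit 0) (XT.lf (nat_lit 0) (nat_lit 6770684123) (nat_lit 304) (nat_lit 9151026375) (nat_lit 380) (nat_lit 9134508391) (nat_lit 168) (nat_lit 5) (nat_lit 172) (nat_lit 5) (nat_lit 173) (nat_lit 5) (nat_lit 483) (nat_lit 434) (nat_lit 283)) (XT.lf (nat_lit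 0) (nat_lit 21441640715) (nat_lit 380) (nat_lit 3486192939) (nat_lit 76) (nat_lit 583050256) (nat_lit 168) (nat_lit 5) (nat_lit 173) (nat_lit 5) (nat_lit 169) (nat_lit 5) (nat_lit 484) (nat_lit 434) (nat_lit 282))))) (XT.nd (nat_lit 312) (nat_lit 684) (nat_lit 0) (XT.nd (nat_lit 156) (nat_lit 304) (nat_lit 0) (XT.nd (nat_lit 78) (nat_lit 304) (nat_lit 0) (XT.lf (nat_lit 0) (nat_lit 1325785056) (nat_lit 380) (nat_lit 14097389195) (nat_lit 76) (nat_lit 10549677950) (nat_lit 163) (nat_lit 5) (nat_lit 168) (nat_lit 5) (nat_lit 164) (nat_lit 5) (nat_lit 485) (nat_lit 434) (nat_lit 281)) (XT.lf (nat_lit 0) (nat_lit 1296769662) (nat_lit 304) (nat_lit 5545517434) (nat_lit 380) (nat_lit 19603941985) (nat_lit 159) (nat_lit 5) (nat_lit 163) (nat_lit 5) (nat_lit 164) (nat_lit 5) (nat_lit 486) (nat_lit 434) (nat_lit 280))) (XT.nd (nat_lit 78) (nat_lit 304) (nat_lit 0) (XT.lf (nat_lit 0) (nat_lit 12706004639) (nat_lit 380) (nat_lit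 9543478171) (nat_lit 76) (nat_lit 4678873376) (nat_lit 159) (nat_lit 5) (nat_lit 164) (nat_lit 5) (nat_lit 160) (nat_lit 5) (nat_lit 487) (nat_lit 434) (nat_lit 279)) (XT.lf (nat_lit 0) (nat_lit 6594976511) (nat_lit 304) (nat_lit 12262611956) (nat_lit 380) (nat_lit 8564000509) (nat_lit 155) (nat_lit 5) (nat_lit 159) (nat_lit 5) (nat_lit 160) (nat_lit 5) (nat_lit 488) (nat_lit 434) (nat_lit 278)))) (XT.nd (nat_lit 156) (nat_lit 304) (nat_lit 0) (XT.nd (nat_lit 78) (nat_lit 380) (nat_lit 0) (XT.lf (nat_lit 0) (nat_lit 23403818201) (nat_lit 304) (nat_lit 1880020224) (nat_lit 380) (nat_lit 2643077266) (nat_lit 155) (nat_lit 5) (nat_lit 159) (nat_lit 5) (nat_lit 160) (nat_lit 5) (nat_lit 489) (nat_lit 434) (nat_lit 277)) (XT.lf (nat_lit 0) (nat_lit 3587999590) (nat_lit 380) (nat_lit 16058803766) (nat_lit 76) (nat_lit 8793604202) (nat_lit 150) (nat_lit 5) (nat_lit 155) (nat_lit 5) (nat_lit 151) (nat_lit 5) (nat_lit 490)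 (nat_lit 434) (nat_lit 276))) (XT.nd (nat_lit 78) (nat_lit 0) (nat_lit 0) (XT.lf (nat_lit 0) (nat_lit 880876601) (nat_lit 304) (nat_lit 9139147427) (nat_lit 380) (nat_lit 18946481381) (nat_lit 146) (nat_lit 5) (nat_lit 150) (nat_lit 5) (nat_lit 151) (nat_lit 5) (nat_lit 491) (nat_lit 434) (nat_lit 275)) (XT.lf (nat_lit 0) (nat_lit 16818949693) (nat_lit 380) (nat_lit 10872740772) (nat_lit 76) (nat_lit 1811477961) (nat_lit 146) (nat_lit 5) (nat_lit 151) (nat_lit 5) (nat_lit 147) (nat_lit 5) (nat_lit 492) (nat_lit 434) (nat_lit 274)))))) (XT.nd (nat_lit 546) (nat_lit 1216) (nat_lit 0) (XT.nd (nat_lit 234) (nat_lit 532) (nat_lit 0) (XT.nd (nat_lit 78) (nat_lit 380) (nat_lit 0) (XT.lf (nat_lit 0) (nat_lit 6891430858) (nat_lit 228) (nat_lit 17081306025) (nat_lit 304) (nat_lit 6078668070) (nat_lit 143) (nat_lit 5) (nat_lit 146) (nat_lit 5) (nat_lit 147) (nat_lit 5) (nat_lit 493) (nat_lit 434) (nat_lit 273)) (XT.nd (nat_lit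 78) (nat_lit 304) (nat_lit 0) (XT.lf (nat_lit 0) (nat_lit 815969808) (nat_lit 304) (nat_lit 5218563286) (nat_lit 76) (nat_lit 24578194729) (nat_lit 142) (nat_lit 5) (nat_lit 146) (nat_lit 5) (nat_lit 143) (nat_lit 5) (nat_lit 494) (nat_lit 434) (nat_lit 272)) (XT.lf (nat_lit 0) (nat_lit 7972175208) (nat_lit 380) (nat_lit 17783988065) (nat_lit 76) (nat_lit 5427614849) (nat_lit 138) (nat_lit 5) (nat_lit 143) (nat_lit 5) (nat_lit 139) (nat_lit 5) (nat_lit 495) (nat_lit 434) (nat_lit 271)))) (XT.nd (nat_lit 156) (nat_lit 304) (nat_lit 0) (XT.nd (nat_lit 78) (nat_lit 0) (nat_lit 0) (XT.lf (nat_lit 0) (nat_lit 860916402) (nat_lit 228) (nat_lit 14597799983) (nat_lit 304) (nat_lit 16309774440) (nat_lit 135) (nat_lit 5) (nat_lit 138) (nat_lit 5) (nat_lit 139) (nat_lit 5) (nat_lit 496) (nat_lit 434) (nat_lit 270)) (XT.lf (nat_lit 0) (nat_lit 20420905628) (nat_lit 228) (nat_lit 2923016823) (nat_lit 304) (nat_lit 9021600770)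 (nat_lit 135) (nat_lit 5) (nat_lit 138) (nat_lit 5) (nat_lit 139) (nat_lit 5) (nat_lit 497) (nat_lit 434) (nat_lit 269))) (XT.nd (nat_lit 78) (nat_lit 76) (nat_lit 0) (XT.lf (nat_lit 0) (nat_lit 7640130243) (nat_lit 228) (nat_lit 23981105202) (nat_lit 304) (nat_lit 1354564984) (nat_lit 132) (nat_lit 5) (nat_lit 135) (nat_lit 5) (nat_lit 136) (nat_lit 5) (nat_lit 498) (nat_lit 434) (nat_lit 268)) (XT.lf (nat_lit 0) (nat_lit 6560202950) (nat_lit 304) (nat_lit 5645231261) (nat_lit 76) (nat_lit 21392703719) (nat_lit 131) (nat_lit 5) (nat_lit 135) (nat_lit 5) (nat_lit 132) (nat_lit 5) (nat_lit 499) (nat_lit 434) (nat_lit 267))))) (XT.nd (nat_lit 312) (nat_lit 456) (nat_lit 0) (XT.nd (nat_lit 156) (nat_lit 304) (nat_lit 0) (XT.nd (nat_lit 78) (nat_lit 228) (nat_lit 0) (XT.lf (nat_lit 0) (nat_lit 14824040804) (nat_lit 304) (nat_lit 19330486970) (nat_lit 76) (nat_lit 80050198) (nat_lit 128) (nat_lit 5) (nat_lit 132) (nat_lit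 5) (nat_lit 129) (nat_lit 5) (nat_lit 500) (nat_lit 434) (nat_lit 266)) (XT.lf (nat_lit 0) (nat_lit 1190536385) (nat_lit 228) (nat_lit 22329950148) (nat_lit 304) (nat_lit 11364084220) (nat_lit 125) (nat_lit 5) (nat_lit 128) (nat_lit 5) (nat_lit 129) (nat_lit 5) (nat_lit 501) (nat_lit 434) (nat_lit 265))) (XT.nd (nat_lit 78) (nat_lit 304) (nat_lit 0) (XT.lf (nat_lit 0) (nat_lit 22715031223) (nat_lit 228) (nat_lit 9952896556) (nat_lit 304) (nat_lit 2880432787) (nat_lit 125) (nat_lit 5) (nat_lit 128) (nat_lit 5) (nat_lit 129) (nat_lit 5) (nat_lit 502) (nat_lit 434) (nat_lit 264)) (XT.lf (nat_lit 0) (nat_lit 5850857768) (nat_lit 304) (nat_lit 27496681325) (nat_lit 76) (nat_lit 2879612984) (nat_lit 121) (nat_lit 5) (nat_lit 125) (nat_lit 5) (nat_lit 122) (nat_lit 5) (nat_lit 503) (nat_lit 434) (nat_lit 263)))) (XT.nd (nat_lit 156) (nat_lit 228) (nat_lit 0) (XT.nd (nat_lit 78) (nat_lit 228) (nat_lit 0) (XT.lf (nat_lit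 0) (nat_lit 15010648148) (nat_lit 304) (nat_lit 5854815595) (nat_lit 76) (nat_lit 16053254653) (nat_lit 121) (nat_lit 5) (nat_lit 125) (nat_lit 5) (nat_lit 122) (nat_lit 5) (nat_lit 504) (nat_lit 434) (nat_lit 262)) (XT.lf (nat_lit 0) (nat_lit 16755196478) (nat_lit 228) (nat_lit 7846278395) (nat_lit 304) (nat_lit 13024869829) (nat_lit 118) (nat_lit 5) (nat_lit 121) (nat_lit 5) (nat_lit 122) (nat_lit 5) (nat_lit 505) (nat_lit 434) (nat_lit 261))) (XT.nd (nat_lit 78) (nat_lit 76) (nat_lit 0) (XT.lf (nat_lit 0) (nat_lit 1782726537) (nat_lit 152) (nat_lit 32822837624) (nat_lit 228) (nat_lit 3745869773) (nat_lit 116) (nat_lit 5) (nat_lit 118) (nat_lit 5) (nat_lit 119) (nat_lit 5) (nat_lit 506) (nat_lit 434) (nat_lit 260)) (XT.lf (nat_lit 0) (nat_lit 5983856575) (nat_lit 228) (nat_lit 13691646320) (nat_lit 76) (nat_lit 19412524502) (nat_lit 115) (nat_lit 5) (nat_lit 118) (nat_lit 5) (nat_lit 116) (nat_lit 5) (nat_lit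 507) (nat_lit 434) (nat_lit 259))))))) (XT.nd (nat_lit 1170) (nat_lit 1444) (nat_lit 0) (XT.nd (nat_lit 546) (nat_lit 988) (nat_lit 0) (XT.nd (nat_lit 234) (nat_lit 456) (nat_lit 0) (XT.nd (nat_lit 78) (nat_lit 152) (nat_lit 0) (XT.lf (nat_lit 0) (nat_lit 10022334404) (nat_lit 228) (nat_lit 5999561084) (nat_lit 304) (nat_lit 23820959516) (nat_lit 112) (nat_lit 5) (nat_lit 115) (nat_lit 5) (nat_lit 116) (nat_lit 5) (nat_lit 508) (nat_lit 434) (nat_lit 258)) (XT.nd (nat_lit 78) (nat_lit 152) (nat_lit 0) (XT.lf (nat_lit 0) (nat_lit 26573834317) (nat_lit 304) (nat_lit 5974787977) (nat_lit 76) (nat_lit 8065322623) (nat_lit 112) (nat_lit 5) (nat_lit 116) (nat_lit 5) (nat_lit 113) (nat_lit 5) (nat_lit 509) (nat_lit 434) (nat_lit 257)) (XT.lf (nat_lit 0) (nat_lit 18887809107) (nat_lit 152) (nat_lit 18791016191) (nat_lit 228) (nat_lit 3722247640) (nat_lit 110) (nat_lit 5) (nat_lit 112) (nat_lit 5) (nat_lit 113) (nat_lit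 5) (nat_lit 510) (nat_lit 434) (nat_lit 256)))) (XT.nd (nat_lit 156) (nat_lit 152) (nat_lit 0) (XT.nd (nat_lit 78) (nat_lit 0) (nat_lit 0) (XT.lf (nat_lit 0) (nat_lit 2380546995) (nat_lit 228) (nat_lit 4469218542) (nat_lit 304) (nat_lit 35357677426) (nat_lit 106) (nat_lit 5) (nat_lit 109) (nat_lit 5) (nat_lit 110) (nat_lit 5) (nat_lit 511) (nat_lit 434) (nat_lit 255)) (XT.lf (nat_lit 0) (nat_lit 17988125555) (nat_lit 304) (nat_lit 14694170511) (nat_lit 76) (nat_lit 10344882618) (nat_lit 106) (nat_lit 5) (nat_lit 110) (nat_lit 5) (nat_lit 107) (nat_lit 5) (nat_lit 512) (nat_lit 434) (nat_lit 254))) (XT.nd (nat_lit 78) (nat_lit 0) (nat_lit 0) (XT.lf (nat_lit 0) (nat_lit 11362520765) (nat_lit 152) (nat_lit 18247287935) (nat_lit 228) (nat_lit 14257222814) (nat_lit 104) (nat_lit 5) (nat_lit 106) (nat_lit 5) (nat_lit 107) (nat_lit 5) (nat_lit 513) (nat_lit 434) (nat_lit 253)) (XT.lf (nat_lit 0) (nat_lit 38494712338) (nat_lit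 152) (nat_lit 3229565425) (nat_lit 228) (nat_lit 3003478302) (nat_lit 104) (nat_lit 5) (nat_lit 106) (nat_lit 5) (nat_lit 107) (nat_lit 5) (nat_lit 514) (nat_lit 434) (nat_lit 252))))) (XT.nd (nat_lit 312) (nat_lit 456) (nat_lit 0) (XT.nd (nat_lit 156) (nat_lit 152) (nat_lit 0) (XT.nd (nat_lit 78) (nat_lit 152) (nat_lit 0) (XT.lf (nat_lit 0) (nat_lit 8739881197) (nat_lit 228) (nat_lit 24576864474) (nat_lit 76) (nat_lit 12285492819) (nat_lit 101) (nat_lit 5) (nat_lit 104) (nat_lit 5) (nat_lit 102) (nat_lit 5) (nat_lit 515) (nat_lit 434) (nat_lit 251)) (XT.lf (nat_lit 0) (nat_lit 2711517495) (nat_lit 152) (nat_lit 18181120365) (nat_lit 228) (nat_lit 25605901689) (nat_lit 99) (nat_lit 5) (nat_lit 101) (nat_lit 5) (nat_lit 102) (nat_lit 5) (nat_lit 516) (nat_lit 434) (nat_lit 250))) (XT.nd (nat_lit 78) (nat_lit 152) (nat_lit 0) (XT.lf (nat_lit 0) (nat_lit 31315118254) (nat_lit 152) (nat_lit 2338946170) (nat_lit 228)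 (nat_lit 13760342779) (nat_lit 99) (nat_lit 5) (nat_lit 101) (nat_lit 5) (nat_lit 102) (nat_lit 5) (nat_lit 517) (nat_lit 434) (nat_lit 249)) (XT.lf (nat_lit 0) (nat_lit 12521940907) (nat_lit 152) (nat_lit 34527130138) (nat_lit 228) (nat_lit 1301157897) (nat_lit 97) (nat_lit 5) (nat_lit 99) (nat_lit 5) (nat_lit 100) (nat_lit 5) (nat_lit 518) (nat_lit 434) (nat_lit 248)))) (XT.nd (nat_lit 156) (nat_lit 228) (nat_lit 0) (XT.nd (nat_lit 78) (nat_lit 152) (nat_lit 0) (XT.lf (nat_lit 0) (nat_lit 11490122687) (nat_lit 228) (nat_lit 7120162576) (nat_lit 76) (nat_lit 30695014294) (nat_lit 96) (nat_lit 5) (nat_lit 99) (nat_lit 5) (nat_lit 97) (nat_lit 5) (nat_lit 519) (nat_lit 434) (nat_lit 247)) (XT.lf (nat_lit 0) (nat_lit 22875797126) (nat_lit 152) (nat_lit 1979213400) (nat_lit 228) (nat_lit 25427144816) (nat_lit 94) (nat_lit 5) (nat_lit 96) (nat_lit 5) (nat_lit 97) (nat_lit 5) (nat_lit 520) (nat_lit 434) (nat_lit 246)))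 (XT.nd (nat_lit 78) (nat_lit 76) (nat_lit 0) (XT.lf (nat_lit 0) (nat_lit 2527467476) (nat_lit 152) (nat_lit 36332065999) (nat_lit 228) (nat_lit 12421622824) (nat_lit 92) (nat_lit 5) (nat_lit 94) (nat_lit 5) (nat_lit 95) (nat_lit 5) (nat_lit 521) (nat_lit 434) (nat_lit 245)) (XT.lf (nat_lit 0) (nat_lit 1250295222) (nat_lit 228) (nat_lit 18419355837) (nat_lit 76) (nat_lit 32631338335) (nat_lit 91) (nat_lit 5) (nat_lit 94) (nat_lit 5) (nat_lit 92) (nat_lit 5) (nat_lit 522) (nat_lit 434) (nat_lit 244)))))) (XT.nd (nat_lit 546) (nat_lit 760) (nat_lit 0) (XT.nd (nat_lit 234) (nat_lit 380) (nat_lit 0) (XT.nd (nat_lit 78) (nat_lit 152) (nat_lit 0) (XT.lf (nat_lit 0) (nat_lit 12947941064) (nat_lit 152) (nat_lit 2255494210) (nat_lit 228) (nat_lit 38140670952) (nat_lit 89) (nat_lit 5) (nat_lit 91) (nat_lit 5) (nat_lit 92) (nat_lit 5) (nat_lit 523) (nat_lit 434) (nat_lit 243)) (XT.nd (nat_lit 78) (nat_lit 152) (nat_lit 0) (XT.lf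 (nat_lit 0) (nat_lit 29910025953) (nat_lit 228) (nat_lit 8938435576) (nat_lit 76) (nat_lit 15560009480) (nat_lit 89) (nat_lit 5) (nat_lit 92) (nat_lit 5) (nat_lit 90) (nat_lit 5) (nat_lit 524) (nat_lit 434) (nat_lit 242)) (XT.lf (nat_lit 0) (nat_lit 23900519474) (nat_lit 152) (nat_lit 21405760549) (nat_lit 228) (nat_lit 10191032873) (nat_lit 87) (nat_lit 5) (nat_lit 89) (nat_lit 5) (nat_lit 90) (nat_lit 5) (nat_lit 525) (nat_lit 434) (nat_lit 241)))) (XT.nd (nat_lit 156) (nat_lit 152) (nat_lit 0) (XT.nd (nat_lit 78) (nat_lit 0) (nat_lit 0) (XT.lf (nat_lit 0) (nat_lit 1265294217) (nat_lit 152) (nat_lit 3291318460) (nat_lit 228) (nat_lit 52057905274) (nat_lit 84) (nat_lit 5) (nat_lit 86) (nat_lit 5) (nat_lit 87) (nat_lit 5) (nat_lit 526) (nat_lit 434) (nat_lit 240)) (XT.lf (nat_lit 0) (nat_lit 20008204556) (nat_lit 228) (nat_lit 22253074459) (nat_lit 76) (nat_lit 15486942824) (nat_lit 84) (nat_lit 5) (nat_lit 87)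 (nat_lit 5) (nat_lit 85) (nat_lit 5) (nat_lit 527) (nat_lit 434) (nat_lit 239))) (XT.nd (nat_lit 78) (nat_lit 0) (nat_lit 0) (XT.lf (nat_lit 0) (nat_lit 12031764835) (nat_lit 152) (nat_lit 24036337098) (nat_lit 228) (nat_lit 22843492295) (nat_lit 82) (nat_lit 5) (nat_lit 84) (nat_lit 5) (nat_lit 85) (nat_lit 5) (nat_lit 528) (nat_lit 434) (nat_lit 238)) (XT.lf (nat_lit 0) (nat_lit 47794987954) (nat_lit 152) (nat_lit 5036075163) (nat_lit 228) (nat_lit 7272166781) (nat_lit 82) (nat_lit 5) (nat_lit 84) (nat_lit 5) (nat_lit 85) (nat_lit 5) (nat_lit 529) (nat_lit 434) (nat_lit 237))))) (XT.nd (nat_lit 312) (nat_lit 380) (nat_lit 0) (XT.nd (nat_lit 156) (nat_lit 228) (nat_lit 0) (XT.nd (nat_lit 78) (nat_lit 0) (nat_lit 0) (XT.lf (nat_lit 0) (nat_lit 8962178836) (nat_lit 152) (nat_lit 37792192936) (nat_lit 76) (nat_lit 14562706690) (nat_lit 80) (nat_lit 5) (nat_lit 82) (nat_lit 5) (nat_lit 81) (nat_lit 5) (nat_lit 530)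 (nat_lit 434) (nat_lit 236)) (XT.lf (nat_lit 0) (nat_lit 25709407156) (nat_lit 152) (nat_lit 2007617446) (nat_lit 76) (nat_lit 34842997467) (nat_lit 80) (nat_lit 5) (nat_lit 82) (nat_lit 5) (nat_lit 81) (nat_lit 5) (nat_lit 531) (nat_lit 434) (nat_lit 235))) (XT.nd (nat_lit 78) (nat_lit 76) (nat_lit 0) (XT.lf (nat_lit 0) (nat_lit 35537926524) (nat_lit 152) (nat_lit 7759469992) (nat_lit 228) (nat_lit 20532707242) (nat_lit 78) (nat_lit 5) (nat_lit 80) (nat_lit 5) (nat_lit 81) (nat_lit 5) (nat_lit 532) (nat_lit 434) (nat_lit 234)) (XT.lf (nat_lit 0) (nat_lit 9162846883) (nat_lit 76) (nat_lit 52478485194) (nat_lit 152) (nat_lit 3490106725) (nat_lit 77) (nat_lit 5) (nat_lit 78) (nat_lit 5) (nat_lit 79) (nat_lit 4) (nat_lit 533) (nat_lit 434) (nat_lit 233)))) (XT.nd (nat_lit 156) (nat_lit 152) (nat_lit 0) (XT.nd (nat_lit 78) (nat_lit 152) (nat_lit 0) (XT.lf (nat_lit 0) (nat_lit 14151435983) (nat_lit 152) (nat_lit 18362662611)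 (nat_lit 76) (nat_lit 33942796736) (nat_lit 76) (nat_lit 5) (nat_lit 78) (nat_lit 5) (nat_lit 77) (nat_lit 5) (nat_lit 534) (nat_lit 434) (nat_lit 232)) (XT.lf (nat_lit 0) (nat_lit 20735633911) (nat_lit 152) (nat_lit 11712610080) (nat_lit 228) (nat_lit 35366949990) (nat_lit 74) (nat_lit 5) (nat_lit 76) (nat_lit 5) (nat_lit 77) (nat_lit 5) (nat_lit 535) (nat_lit 434) (nat_lit 231))) (XT.nd (nat_lit 78) (nat_lit 152) (nat_lit 0) (XT.lf (nat_lit 0) (nat_lit 51571438676) (nat_lit 228) (nat_lit 7926477458) (nat_lit 76) (nat_lit 9708001069) (nat_lit 74) (nat_lit 5) (nat_lit 77) (nat_lit 5) (nat_lit 75) (nat_lit 4) (nat_lit 536) (nat_lit 434) (nat_lit 230)) (XT.lf (nat_lit 0) (nat_lit 1051302292) (nat_lit 152) (nat_lit 37713851535) (nat_lit 76) (nat_lit 31860017865) (nat_lit 72) (nat_lit 5) (nat_lit 74) (nat_lit 5) (nat_lit 73) (nat_lit 5) (nat_lit 537) (nat_lit 434) (nat_lit 229))))))))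
noncomputable def xc173 : XT := (XT.nd (nat_lit 55926) (nat_lit 0) (nat_lit 8132) (XT.nd (nat_lit 54756) (nat_lit 0) (nat_lit 17024) (XT.nd (nat_lit 546) (nat_lit 304) (nat_lit 0) (XT.nd (nat_lit 234) (nat_lit 304) (nat_lit 0) (XT.nd (nat_lit 78) (nat_lit 76) (nat_lit 0) (XT.lf (nat_lit 0) (nat_lit 2928156533) (nat_lit 152) (nat_lit 17120995339) (nat_lit 228) (nat_lit 52029436132) (nat_lit 70) (nat_lit 5) (nat_lit 72) (nat_lit 5) (nat_lit 73) (nat_lit 5) (nat_lit 538) (nat_lit 434) (nat_lit 228)) (XT.nd (nat_lit 78) (nat_lit 76) (nat_lit 0) (XT.lf (nat_lit 0) (nat_lit 40048222814) (nat_lit 228) (nat_lit 28060885825) (nat_lit 76) (nat_lit 5453559669) (nat_lit 70) (nat_lit 5) (nat_lit 73) (nat_lit 5) (nat_lit 71) (nat_lit 4) (nat_lit 539) (nat_lit 434) (nat_lit 227)) (XT.lf (nat_lit 0) (nat_lit 14366608523) (nat_lit 76) (nat_lit 46585319542) (nat_lit 152) (nat_lit 14130203165) (nat_lit 69) (nat_lit 5) (nat_lit 70)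 (nat_lit 5) (nat_lit 71) (nat_lit 4) (nat_lit 540) (nat_lit 434) (nat_lit 226)))) (XT.nd (nat_lit 156) (nat_lit 76) (nat_lit 0) (XT.nd (nat_lit 78) (nat_lit 152) (nat_lit 0) (XT.lf (nat_lit 0) (nat_lit 6004909772) (nat_lit 152) (nat_lit 18061000796) (nat_lit 76) (nat_lit 52571088205) (nat_lit 68) (nat_lit 5) (nat_lit 70) (nat_lit 5) (nat_lit 69) (nat_lit 5) (nat_lit 541) (nat_lit 434) (nat_lit 225)) (XT.lf (nat_lit 0) (nat_lit 26239879273) (nat_lit 152) (nat_lit 469564192) (nat_lit 228) (nat_lit 51517390743) (nat_lit 66) (nat_lit 5) (nat_lit 68) (nat_lit 5) (nat_lit 69) (nat_lit 5) (nat_lit 542) (nat_lit 434) (nat_lit 224))) (XT.nd (nat_lit 78) (nat_lit 76) (nat_lit 0) (XT.lf (nat_lit 0) (nat_lit 48445557400) (nat_lit 228) (nat_lit 7855210697) (nat_lit 76) (nat_lit 23551283348) (nat_lit 66) (nat_lit 5) (nat_lit 69) (nat_lit 5) (nat_lit 67) (nat_lit 4) (nat_lit 543) (nat_lit 434) (nat_lit 223)) (XT.lf (nat_lit 0)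 (nat_lit 38338703925) (nat_lit 76) (nat_lit 32865462560) (nat_lit 152) (nat_lit 10310746427) (nat_lit 65) (nat_lit 5) (nat_lit 66) (nat_lit 5) (nat_lit 67) (nat_lit 4) (nat_lit 544) (nat_lit 434) (nat_lit 222))))) (XT.nd (nat_lit 53898) (nat_lit 0) (nat_lit 18924) (XT.nd (nat_lit 156) (nat_lit 76) (nat_lit 0) (XT.nd (nat_lit 78) (nat_lit 0) (nat_lit 0) (XT.lf (nat_lit 0) (nat_lit 2792875037) (nat_lit 152) (nat_lit 8506380153) (nat_lit 228) (nat_lit 71921986865) (nat_lit 62) (nat_lit 5) (nat_lit 64) (nat_lit 5) (nat_lit 65) (nat_lit 5) (nat_lit 545) (nat_lit 434) (nat_lit 221)) (XT.lf (nat_lit 0) (nat_lit 33947281188) (nat_lit 228) (nat_lit 34210663025) (nat_lit 76) (nat_lit 16799845518) (nat_lit 62) (nat_lit 5) (nat_lit 65) (nat_lit 5) (nat_lit 63) (nat_lit 4) (nat_lit 546) (nat_lit 434) (nat_lit 220))) (XT.nd (nat_lit 78) (nat_lit 0) (nat_lit 0) (XT.lf (nat_lit 0) (nat_lit 13569014877) (nat_lit 76) (nat_lit 43917706583)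 (nat_lit 152) (nat_lit 29253353229) (nat_lit 61) (nat_lit 5) (nat_lit 62) (nat_lit 5) (nat_lit 63) (nat_lit 4) (nat_lit 547) (nat_lit 434) (nat_lit 219)) (XT.lf (nat_lit 0) (nat_lit 63478302349) (nat_lit 76) (nat_lit 18596850861) (nat_lit 152) (nat_lit 6490390795) (nat_lit 61) (nat_lit 5) (nat_lit 62) (nat_lit 5) (nat_lit 63) (nat_lit 4) (nat_lit 548) (nat_lit 434) (nat_lit 218)))) (XT.nd (nat_lit 156) (nat_lit 0) (nat_lit 0) (XT.nd (nat_lit 78) (nat_lit 0) (nat_lit 0) (XT.lf (nat_lit 0) (nat_lit 1517733078) (nat_lit 0) (nat_lit 1517733078) (nat_lit 1140) (nat_lit 2848727724) (nat_lit 310) (nat_lit 5) (nat_lit 310) (nat_lit 3) (nat_lit 325) (nat_lit 3) (nat_lit 435) (nat_lit 435) (nat_lit 330)) (XT.lf (nat_lit 0) (nat_lit 6677065938) (nat_lit 1140) (nat_lit 2936212388) (nat_lit 1216) (nat_lit 2316111954) (nat_lit 310) (nat_lit 5) (nat_lit 325) (nat_lit 3) (nat_lit 326) (nat_lit 5) (nat_lit 436) (nat_lit 435) (nat_lit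 329))) (XT.nd (nat_lit 78) (nat_lit 0) (nat_lit 76) (XT.lf (nat_lit 76) (nat_lit 3053652372) (nat_lit 0) (nat_lit 4288015711) (nat_lit 1216) (nat_lit 4752349034) (nat_lit 311) (nat_lit 5) (nat_lit 310) (nat_lit 5) (nat_lit 326) (nat_lit 5) (nat_lit 437) (nat_lit 435) (nat_lit 328)) (XT.lf (nat_lit 0) (nat_lit 8049075716) (nat_lit 1140) (nat_lit 3001913393) (nat_lit 1216) (nat_lit 1211910325) (nat_lit 311) (nat_lit 5) (nat_lit 326) (nat_lit 5) (nat_lit 327) (nat_lit 5) (nat_lit 438) (nat_lit 435) (nat_lit 327)))))) (XT.nd (nat_lit 546) (nat_lit 912) (nat_lit 0) (XT.nd (nat_lit 234) (nat_lit 1064) (nat_lit 0) (XT.nd (nat_lit 78) (nat_lit 0) (nat_lit 76) (XT.lf (nat_lit 76) (nat_lit 3227712645) (nat_lit 0) (nat_lit 5605434046) (nat_lit 1216) (nat_lit 3602040915) (nat_lit 312) (nat_lit 5) (nat_lit 311) (nat_lit 5) (nat_lit 327) (nat_lit 5) (nat_lit 439) (nat_lit 435) (nat_lit 326)) (XT.nd (nat_lit 78) (nat_lit 0) (nat_lit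 0) (XT.lf (nat_lit 0) (nat_lit 9653840437) (nat_lit 1140) (nat_lit 2917309805) (nat_lit 1216) (nat_lit 41103706) (nat_lit 312) (nat_lit 5) (nat_lit 327) (nat_lit 5) (nat_lit 328) (nat_lit 5) (nat_lit 440) (nat_lit 435) (nat_lit 325)) (XT.lf (nat_lit 76) (nat_lit 3564941465) (nat_lit 0) (nat_lit 7006945879) (nat_lit 1216) (nat_lit 2220565435) (nat_lit 313) (nat_lit 5) (nat_lit 312) (nat_lit 5) (nat_lit 328) (nat_lit 5) (nat_lit 441) (nat_lit 435) (nat_lit 324)))) (XT.nd (nat_lit 156) (nat_lit 1140) (nat_lit 0) (XT.nd (nat_lit 78) (nat_lit 0) (nat_lit 76) (XT.lf (nat_lit 76) (nat_lit 10290882672) (nat_lit 0) (nat_lit 1239411178) (nat_lit 1216) (nat_lit 1447381576) (nat_lit 313) (nat_lit 5) (nat_lit 312) (nat_lit 5) (nat_lit 328) (nat_lit 5) (nat_lit 442) (nat_lit 435) (nat_lit 323)) (XT.lf (nat_lit 76) (nat_lit 4073633259) (nat_lit 0) (nat_lit 8512068211) (nat_lit 1216) (nat_lit 580708143) (nat_lit 314) (nat_lit 5)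 (nat_lit 313) (nat_lit 5) (nat_lit 329) (nat_lit 5) (nat_lit 443) (nat_lit 435) (nat_lit 322))) (XT.nd (nat_lit 78) (nat_lit 0) (nat_lit 76) (XT.lf (nat_lit 0) (nat_lit 329657610) (nat_lit 1216) (nat_lit 2294609513) (nat_lit 1292) (nat_lit 10735737541) (nat_lit 297) (nat_lit 5) (nat_lit 313) (nat_lit 5) (nat_lit 314) (nat_lit 5) (nat_lit 444) (nat_lit 435) (nat_lit 321)) (XT.lf (nat_lit 0) (nat_lit 1319851193) (nat_lit 1216) (nat_lit 8807539545) (nat_lit 1292) (nat_lit 3429920817) (nat_lit 298) (nat_lit 5) (nat_lit 314) (nat_lit 5) (nat_lit 315) (nat_lit 5) (nat_lit 445) (nat_lit 435) (nat_lit 320))))) (XT.nd (nat_lit 312) (nat_lit 988) (nat_lit 0) (XT.nd (nat_lit 156) (nat_lit 0) (nat_lit 76) (XT.nd (nat_lit 78) (nat_lit 0) (nat_lit 76) (XT.lf (nat_lit 0) (nat_lit 2374095629) (nat_lit 1216) (nat_lit 1744631445) (nat_lit 1292) (nat_lit 9640782294) (nat_lit 298) (nat_lit 5) (nat_lit 314) (nat_lit 5) (nat_lit 315)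 (nat_lit 5) (nat_lit 446) (nat_lit 435) (nat_lit 319)) (XT.lf (nat_lit 0) (nat_lit 3519951305) (nat_lit 1216) (nat_lit 8357827380) (nat_lit 1292) (nat_lit 2088196922) (nat_lit 299) (nat_lit 5) (nat_lit 315) (nat_lit 5) (nat_lit 316) (nat_lit 5) (nat_lit 447) (nat_lit 435) (nat_lit 318))) (XT.nd (nat_lit 78) (nat_lit 0) (nat_lit 76) (XT.lf (nat_lit 0) (nat_lit 4744511013) (nat_lit 1216) (nat_lit 1012921628) (nat_lit 1292) (nat_lit 8419875290) (nat_lit 299) (nat_lit 5) (nat_lit 315) (nat_lit 5) (nat_lit 316) (nat_lit 5) (nat_lit 448) (nat_lit 435) (nat_lit 317)) (XT.lf (nat_lit 0) (nat_lit 6062029511) (nat_lit 1216) (nat_lit 7727680717) (nat_lit 1292) (nat_lit 603585228) (nat_lit 300) (nat_lit 5) (nat_lit 316) (nat_lit 5) (nat_lit 317) (nat_lit 5) (nat_lit 449) (nat_lit 435) (nat_lit 316)))) (XT.nd (nat_lit 156) (nat_lit 1140) (nat_lit 0) (XT.nd (nat_lit 78) (nat_lit 0) (nat_lit 0) (XT.lf (nat_lit 0) (nat_lit 7472906587)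 (nat_lit 1216) (nat_lit 88429665) (nat_lit 1292) (nat_lit 7052813203) (nat_lit 300) (nat_lit 5) (nat_lit 316) (nat_lit 5) (nat_lit 317) (nat_lit 5) (nat_lit 450) (nat_lit 435) (nat_lit 315)) (XT.lf (nat_lit 76) (nat_lit 7923805906) (nat_lit 0) (nat_lit 1065364716) (nat_lit 1292) (nat_lit 5850568415) (nat_lit 301) (nat_lit 5) (nat_lit 300) (nat_lit 5) (nat_lit 317) (nat_lit 5) (nat_lit 451) (nat_lit 435) (nat_lit 314))) (XT.nd (nat_lit 78) (nat_lit 0) (nat_lit 0) (XT.lf (nat_lit 0) (nat_lit 1061668309) (nat_lit 1216) (nat_lit 9541628490) (nat_lit 1292) (nat_lit 4467230012) (nat_lit 285) (nat_lit 5) (nat_lit 301) (nat_lit 5) (nat_lit 302) (nat_lit 5) (nat_lit 452) (nat_lit 435) (nat_lit 313)) (XT.lf (nat_lit 0) (nat_lit 9398602572) (nat_lit 1216) (nat_lit 2934984964) (nat_lit 1292) (nat_lit 2972620143) (nat_lit 285) (nat_lit 5) (nat_lit 301) (nat_lit 5) (nat_lit 302) (nat_lit 5) (nat_lit 453) (nat_lit 435) (nat_lit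 312))))))) (XT.nd (nat_lit 1170) (nat_lit 4180) (nat_lit 0) (XT.nd (nat_lit 546) (nat_lit 2128) (nat_lit 0) (XT.nd (nat_lit 234) (nat_lit 1140) (nat_lit 0) (XT.nd (nat_lit 78) (nat_lit 684) (nat_lit 0) (XT.lf (nat_lit 0) (nat_lit 2435953048) (nat_lit 760) (nat_lit 11728287518) (nat_lit 836) (nat_lit 1383266432) (nat_lit 275) (nat_lit 5) (nat_lit 285) (nat_lit 5) (nat_lit 286) (nat_lit 5) (nat_lit 454) (nat_lit 435) (nat_lit 311)) (XT.nd (nat_lit 78) (nat_lit 608) (nat_lit 0) (XT.lf (nat_lit 0) (nat_lit 326088730) (nat_lit 836) (nat_lit 4686626971) (nat_lit 76) (nat_lit 10780939768) (nat_lit 274) (nat_lit 5) (nat_lit 285) (nat_lit 5) (nat_lit 275) (nat_lit 5) (nat_lit 455) (nat_lit 435) (nat_lit 310)) (XT.lf (nat_lit 0) (nat_lit 2104961305) (nat_lit 684) (nat_lit 12019377873) (nat_lit 76) (nat_lit 1921058669) (nat_lit 266) (nat_lit 5) (nat_lit 275) (nat_lit 5) (nat_lit 267) (nat_lit 5) (nat_lit 456) (nat_lit 435)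 (nat_lit 309)))) (XT.nd (nat_lit 156) (nat_lit 532) (nat_lit 0) (XT.nd (nat_lit 78) (nat_lit 608) (nat_lit 0) (XT.lf (nat_lit 0) (nat_lit 4023186576) (nat_lit 684) (nat_lit 3268373174) (nat_lit 76) (nat_lit 9010554602) (nat_lit 266) (nat_lit 5) (nat_lit 275) (nat_lit 5) (nat_lit 267) (nat_lit 5) (nat_lit 457) (nat_lit 435) (nat_lit 308)) (XT.lf (nat_lit 0) (nat_lit 5848492038) (nat_lit 608) (nat_lit 195580371) (nat_lit 684) (nat_lit 10521107936) (nat_lit 258) (nat_lit 5) (nat_lit 266) (nat_lit 5) (nat_lit 267) (nat_lit 5) (nat_lit 458) (nat_lit 435) (nat_lit 307))) (XT.nd (nat_lit 78) (nat_lit 532) (nat_lit 0) (XT.lf (nat_lit 0) (nat_lit 8216410050) (nat_lit 684) (nat_lit 1609009233) (nat_lit 76) (nat_lit 7007995645) (nat_lit 258) (nat_lit 5) (nat_lit 267) (nat_lit 5) (nat_lit 259) (nat_lit 5) (nat_lit 459) (nat_lit 435) (nat_lit 306)) (XT.lf (nat_lit 0) (nat_lit 7913690580) (nat_lit 532) (nat_lit 2607669006) (nat_lit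 608) (nat_lit 6586315036) (nat_lit 251) (nat_lit 5) (nat_lit 258) (nat_lit 5) (nat_lit 259) (nat_lit 5) (nat_lit 460) (nat_lit 435) (nat_lit 305))))) (XT.nd (nat_lit 312) (nat_lit 988) (nat_lit 0) (XT.nd (nat_lit 156) (nat_lit 608) (nat_lit 0) (XT.nd (nat_lit 78) (nat_lit 0) (nat_lit 0) (XT.lf (nat_lit 0) (nat_lit 314048031) (nat_lit 532) (nat_lit 12636871245) (nat_lit 608) (nat_lit 4437580271) (nat_lit 244) (nat_lit 5) (nat_lit 251) (nat_lit 5) (nat_lit 252) (nat_lit 5) (nat_lit 461) (nat_lit 435) (nat_lit 304)) (XT.lf (nat_lit 0) (nat_lit 10258660503) (nat_lit 532) (nat_lit 5302947655) (nat_lit 608) (nat_lit 2112895040) (nat_lit 244) (nat_lit 5) (nat_lit 251) (nat_lit 5) (nat_lit 252) (nat_lit 5) (nat_lit 462) (nat_lit 435) (nat_lit 303))) (XT.nd (nat_lit 78) (nat_lit 0) (nat_lit 0) (XT.lf (nat_lit 0) (nat_lit 312669837) (nat_lit 608) (nat_lit 15421194497) (nat_lit 76) (nat_lit 2234043635) (nat_lit 236) (nat_lit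 5) (nat_lit 244) (nat_lit 5) (nat_lit 237) (nat_lit 5) (nat_lit 463) (nat_lit 435) (nat_lit 302)) (XT.lf (nat_lit 0) (nat_lit 2886879830) (nat_lit 608) (nat_lit 5392733203) (nat_lit 76) (nat_lit 9986325042) (nat_lit 236) (nat_lit 5) (nat_lit 244) (nat_lit 5) (nat_lit 237) (nat_lit 5) (nat_lit 464) (nat_lit 435) (nat_lit 301)))) (XT.nd (nat_lit 156) (nat_lit 456) (nat_lit 0) (XT.nd (nat_lit 78) (nat_lit 0) (nat_lit 0) (XT.lf (nat_lit 0) (nat_lit 5024072997) (nat_lit 532) (nat_lit 553036545) (nat_lit 608) (nat_lit 12994636853) (nat_lit 229) (nat_lit 5) (nat_lit 236) (nat_lit 5) (nat_lit 237) (nat_lit 5) (nat_lit 465) (nat_lit 435) (nat_lit 300)) (XT.lf (nat_lit 0) (nat_lit 8464890523) (nat_lit 608) (nat_lit 3103603315) (nat_lit 76) (nat_lit 7314730874) (nat_lit 229) (nat_lit 5) (nat_lit 237) (nat_lit 5) (nat_lit 230) (nat_lit 5) (nat_lit 466) (nat_lit 435) (nat_lit 299))) (XT.nd (nat_lit 78) (nat_lit 0) (nat_lit 0)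 (XT.lf (nat_lit 0) (nat_lit 7789921364) (nat_lit 456) (nat_lit 3720677120) (nat_lit 532) (nat_lit 7691311136) (nat_lit 223) (nat_lit 5) (nat_lit 229) (nat_lit 5) (nat_lit 230) (nat_lit 5) (nat_lit 467) (nat_lit 435) (nat_lit 298)) (XT.lf (nat_lit 0) (nat_lit 14712351993) (nat_lit 532) (nat_lit 508142143) (nat_lit 76) (nat_lit 4307721727) (nat_lit 223) (nat_lit 5) (nat_lit 230) (nat_lit 5) (nat_lit 224) (nat_lit 5) (nat_lit 468) (nat_lit 435) (nat_lit 297)))))) (XT.nd (nat_lit 624) (nat_lit 1824) (nat_lit 0) (XT.nd (nat_lit 312) (nat_lit 912) (nat_lit 0) (XT.nd (nat_lit 156) (nat_lit 456) (nat_lit 0) (XT.nd (nat_lit 78) (nat_lit 532) (nat_lit 0) (XT.lf (nat_lit 0) (nat_lit 10888202553) (nat_lit 456) (nat_lit 7254805548) (nat_lit 532) (nat_lit 1717318680) (nat_lit 217) (nat_lit 5) (nat_lit 223) (nat_lit 5) (nat_lit 224) (nat_lit 5) (nat_lit 469) (nat_lit 435) (nat_lit 296)) (XT.lf (nat_lit 0) (nat_lit 1475182808)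 (nat_lit 532) (nat_lit 17752876798) (nat_lit 76) (nat_lit 973024234) (nat_lit 210) (nat_lit 5) (nat_lit 217) (nat_lit 5) (nat_lit 211) (nat_lit 5) (nat_lit 470) (nat_lit 435) (nat_lit 295))) (XT.nd (nat_lit 78) (nat_lit 456) (nat_lit 0) (XT.lf (nat_lit 0) (nat_lit 4883822164) (nat_lit 532) (nat_lit 6254460815) (nat_lit 76) (nat_lit 9408625061) (nat_lit 210) (nat_lit 5) (nat_lit 217) (nat_lit 5) (nat_lit 211) (nat_lit 5) (nat_lit 471) (nat_lit 435) (nat_lit 294)) (XT.lf (nat_lit 0) (nat_lit 5689787069) (nat_lit 456) (nat_lit 2751424988) (nat_lit 532) (nat_lit 12460501048) (nat_lit 204) (nat_lit 5) (nat_lit 210) (nat_lit 5) (nat_lit 211) (nat_lit 5) (nat_lit 472) (nat_lit 435) (nat_lit 293)))) (XT.nd (nat_lit 156) (nat_lit 532) (nat_lit 0) (XT.nd (nat_lit 78) (nat_lit 380) (nat_lit 0) (XT.lf (nat_lit 0) (nat_lit 12217617403) (nat_lit 532) (nat_lit 3212182877) (nat_lit 76) (nat_lit 5833994081) (nat_lit 204) (nat_lit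 5) (nat_lit 211) (nat_lit 5) (nat_lit 205) (nat_lit 5) (nat_lit 473) (nat_lit 435) (nat_lit 292)) (XT.lf (nat_lit 0) (nat_lit 9291650674) (nat_lit 380) (nat_lit 6924379234) (nat_lit 456) (nat_lit 5417447522) (nat_lit 199) (nat_lit 5) (nat_lit 204) (nat_lit 5) (nat_lit 205) (nat_lit 5) (nat_lit 474) (nat_lit 435) (nat_lit 291))) (XT.nd (nat_lit 78) (nat_lit 76) (nat_lit 0) (XT.lf (nat_lit 0) (nat_lit 198991957) (nat_lit 456) (nat_lit 20179993142) (nat_lit 532) (nat_lit 1633928988) (nat_lit 193) (nat_lit 5) (nat_lit 199) (nat_lit 5) (nat_lit 200) (nat_lit 5) (nat_lit 475) (nat_lit 435) (nat_lit 290)) (XT.lf (nat_lit 0) (nat_lit 2405676353) (nat_lit 532) (nat_lit 9132652651) (nat_lit 76) (nat_lit 10859150697) (nat_lit 192) (nat_lit 5) (nat_lit 199) (nat_lit 5) (nat_lit 193) (nat_lit 5) (nat_lit 476) (nat_lit 435) (nat_lit 289))))) (XT.nd (nat_lit 312) (nat_lit 1064) (nat_lit 0) (XT.nd (nat_lit 156) (nat_lit 380) (nat_lit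 0) (XT.nd (nat_lit 78) (nat_lit 0) (nat_lit 0) (XT.lf (nat_lit 0) (nat_lit 3980708932) (nat_lit 380) (nat_lit 2583731196) (nat_lit 456) (nat_lit 16227733246) (nat_lit 187) (nat_lit 5) (nat_lit 192) (nat_lit 5) (nat_lit 193) (nat_lit 5) (nat_lit 477) (nat_lit 435) (nat_lit 288)) (XT.lf (nat_lit 0) (nat_lit 10997570529) (nat_lit 456) (nat_lit 5595942772) (nat_lit 76) (nat_lit 6600707158) (nat_lit 187) (nat_lit 5) (nat_lit 193) (nat_lit 5) (nat_lit 188) (nat_lit 5) (nat_lit 478) (nat_lit 435) (nat_lit 287))) (XT.nd (nat_lit 78) (nat_lit 0) (nat_lit 0) (XT.lf (nat_lit 0) (nat_lit 8139639162) (nat_lit 380) (nat_lit 7520740328) (nat_lit 456) (nat_lit 7945049619) (nat_lit 182) (nat_lit 5) (nat_lit 187) (nat_lit 5) (nat_lit 188) (nat_lit 5) (nat_lit 479) (nat_lit 435) (nat_lit 286)) (XT.lf (nat_lit 0) (nat_lit 20530627331) (nat_lit 456) (nat_lit 1653123718) (nat_lit 76) (nat_lit 1843197005) (nat_lit 182) (nat_lit 5) (nat_lit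 188) (nat_lit 5) (nat_lit 183) (nat_lit 5) (nat_lit 480) (nat_lit 435) (nat_lit 285)))) (XT.nd (nat_lit 156) (nat_lit 304) (nat_lit 0) (XT.nd (nat_lit 78) (nat_lit 380) (nat_lit 0) (XT.lf (nat_lit 0) (nat_lit 1256632633) (nat_lit 380) (nat_lit 11729161835) (nat_lit 76) (nat_lit 11469247037) (nat_lit 177) (nat_lit 5) (nat_lit 182) (nat_lit 5) (nat_lit 178) (nat_lit 5) (nat_lit 481) (nat_lit 435) (nat_lit 284)) (XT.lf (nat_lit 0) (nat_lit 2682721799) (nat_lit 380) (nat_lit 3435025565) (nat_lit 456) (nat_lit 18776117138) (nat_lit 172) (nat_lit 5) (nat_lit 177) (nat_lit 5) (nat_lit 178) (nat_lit 5) (nat_lit 482) (nat_lit 435) (nat_lit 283))) (XT.nd (nat_lit 78) (nat_lit 304) (nat_lit 0) (XT.lf (nat_lit 0) (nat_lit 11299132488) (nat_lit 456) (nat_lit 7647206948) (nat_lit 76) (nat_lit 6394280243) (nat_lit 172) (nat_lit 5) (nat_lit 178) (nat_lit 5) (nat_lit 173) (nat_lit 5) (nat_lit 483) (nat_lit 435) (nat_lit 282)) (XT.lf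 (nat_lit 0) (nat_lit 7455814803) (nat_lit 304) (nat_lit 9279300313) (nat_lit 380) (nat_lit 9062688297) (nat_lit 168) (nat_lit 5) (nat_lit 172) (nat_lit 5) (nat_lit 173) (nat_lit 5) (nat_lit 484) (nat_lit 435) (nat_lit 281))))))))
noncomputable def xc174 : XT := (XT.nd (nat_lit 2340) (nat_lit 2964) (nat_lit 0) (XT.nd (nat_lit 1170) (nat_lit 2128) (nat_lit 0) (XT.nd (nat_lit 546) (nat_lit 1368) (nat_lit 0) (XT.nd (nat_lit 234) (nat_lit 684) (nat_lit 0) (XT.nd (nat_lit 78) (nat_lit 684) (nat_lit 0) (XT.lf (nat_lit 0) (nat_lit 22412228978) (nat_lit 380) (nat_lit 3114364855) (nat_lit 76) (nat_lit 739767837) (nat_lit 168) (nat_lit 5) (nat_lit 173) (nat_lit 5) (nat_lit 169) (nat_lit 5) (nat_lit 485) (nat_lit 435) (nat_lit 280)) (XT.nd (nat_lit 78) (nat_lit 304) (nat_lit 0) (XT.lf (nat_lit 0) (nat_lit 1691116880) (nat_lit 380) (nat_lit 14042061528) (nat_lit 76) (nat_lit 11009065665) (nat_lit 163) (nat_lit 5) (nat_lit 168)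 (nat_lit 5) (nat_lit 164) (nat_lit 5) (nat_lit 486) (nat_lit 435) (nat_lit 279)) (XT.lf (nat_lit 0) (nat_lit 1809233375) (nat_lit 304) (nat_lit 5558950480) (nat_lit 380) (nat_lit 19861787093) (nat_lit 159) (nat_lit 5) (nat_lit 163) (nat_lit 5) (nat_lit 164) (nat_lit 5) (nat_lit 487) (nat_lit 435) (nat_lit 278)))) (XT.nd (nat_lit 156) (nat_lit 380) (nat_lit 0) (XT.nd (nat_lit 78) (nat_lit 304) (nat_lit 0) (XT.lf (nat_lit 0) (nat_lit 13399901503) (nat_lit 380) (nat_lit 9362078101) (nat_lit 76) (nat_lit 4964820367) (nat_lit 159) (nat_lit 5) (nat_lit 164) (nat_lit 5) (nat_lit 160) (nat_lit 5) (nat_lit 488) (nat_lit 435) (nat_lit 277)) (XT.lf (nat_lit 0) (nat_lit 7255944885) (nat_lit 304) (nat_lit 12475431492) (nat_lit 380) (nat_lit 8503593802) (nat_lit 155) (nat_lit 5) (nat_lit 159) (nat_lit 5) (nat_lit 160) (nat_lit 5) (nat_lit 489) (nat_lit 435) (nat_lit 276))) (XT.nd (nat_lit 78) (nat_lit 380) (nat_lit 0) (XT.lf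 (nat_lit 0) (nat_lit 24555562921) (nat_lit 304) (nat_lit 1785878284) (nat_lit 380) (nat_lit 2414285388) (nat_lit 155) (nat_lit 5) (nat_lit 159) (nat_lit 5) (nat_lit 160) (nat_lit 5) (nat_lit 490) (nat_lit 435) (nat_lit 275)) (XT.lf (nat_lit 0) (nat_lit 3994727277) (nat_lit 380) (nat_lit 16081895397) (nat_lit 76) (nat_lit 9208001912) (nat_lit 150) (nat_lit 5) (nat_lit 155) (nat_lit 5) (nat_lit 151) (nat_lit 5) (nat_lit 491) (nat_lit 435) (nat_lit 274))))) (XT.nd (nat_lit 312) (nat_lit 760) (nat_lit 0) (XT.nd (nat_lit 156) (nat_lit 304) (nat_lit 0) (XT.nd (nat_lit 78) (nat_lit 0) (nat_lit 0) (XT.lf (nat_lit 0) (nat_lit 1361478591) (nat_lit 304) (nat_lit 9253888379) (nat_lit 380) (nat_lit 19211269425) (nat_lit 146) (nat_lit 5) (nat_lit 150) (nat_lit 5) (nat_lit 151) (nat_lit 5) (nat_lit 492) (nat_lit 435) (nat_lit 273)) (XT.lf (nat_lit 0) (nat_lit 17611163615) (nat_lit 380) (nat_lit 10750857659) (nat_lit 76) (nat_lit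 2017591571) (nat_lit 146) (nat_lit 5) (nat_lit 151) (nat_lit 5) (nat_lit 147) (nat_lit 5) (nat_lit 493) (nat_lit 435) (nat_lit 272))) (XT.nd (nat_lit 78) (nat_lit 76) (nat_lit 0) (XT.lf (nat_lit 0) (nat_lit 7541846322) (nat_lit 228) (nat_lit 17433604928) (nat_lit 304) (nat_lit 5968969232) (nat_lit 143) (nat_lit 5) (nat_lit 146) (nat_lit 5) (nat_lit 147) (nat_lit 5) (nat_lit 494) (nat_lit 435) (nat_lit 271)) (XT.lf (nat_lit 0) (nat_lit 1118468086) (nat_lit 304) (nat_lit 4938817554) (nat_lit 76) (nat_lit 25465463976) (nat_lit 142) (nat_lit 5) (nat_lit 146) (nat_lit 5) (nat_lit 143) (nat_lit 5) (nat_lit 495) (nat_lit 435) (nat_lit 270)))) (XT.nd (nat_lit 156) (nat_lit 228) (nat_lit 0) (XT.nd (nat_lit 78) (nat_lit 228) (nat_lit 0) (XT.lf (nat_lit 0) (nat_lit 8486933211) (nat_lit 380) (nat_lit 17878759740) (nat_lit 76) (nat_lit 5745311834) (nat_lit 138) (nat_lit 5) (nat_lit 143) (nat_lit 5) (nat_lit 139) (nat_lit 5)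 (nat_lit 496) (nat_lit 435) (nat_lit 269)) (XT.lf (nat_lit 0) (nat_lit 1321190411) (nat_lit 228) (nat_lit 14873029405) (nat_lit 304) (nat_lit 16519155127) (nat_lit 135) (nat_lit 5) (nat_lit 138) (nat_lit 5) (nat_lit 139) (nat_lit 5) (nat_lit 497) (nat_lit 435) (nat_lit 268))) (XT.nd (nat_lit 78) (nat_lit 228) (nat_lit 0) (XT.lf (nat_lit 0) (nat_lit 21455325531) (nat_lit 228) (nat_lit 2852741719) (nat_lit 304) (nat_lit 9020489040) (nat_lit 135) (nat_lit 5) (nat_lit 138) (nat_lit 5) (nat_lit 139) (nat_lit 5) (nat_lit 498) (nat_lit 435) (nat_lit 267)) (XT.lf (nat_lit 0) (nat_lit 8293342944) (nat_lit 228) (nat_lit 24538222471) (nat_lit 304) (nat_lit 1125640944) (nat_lit 132) (nat_lit 5) (nat_lit 135) (nat_lit 5) (nat_lit 136) (nat_lit 5) (nat_lit 499) (nat_lit 435) (nat_lit 266)))))) (XT.nd (nat_lit 546) (nat_lit 1064) (nat_lit 0) (XT.nd (nat_lit 234) (nat_lit 532) (nat_lit 0) (XT.nd (nat_lit 78) (nat_lit 456) (nat_lit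 0) (XT.lf (nat_lit 0) (nat_lit 7013611838) (nat_lit 304) (nat_lit 5397805975) (nat_lit 76) (nat_lit 22186949868) (nat_lit 131) (nat_lit 5) (nat_lit 135) (nat_lit 5) (nat_lit 132) (nat_lit 5) (nat_lit 500) (nat_lit 435) (nat_lit 265)) (XT.nd (nat_lit 78) (nat_lit 228) (nat_lit 0) (XT.lf (nat_lit 0) (nat_lit 15523392222) (nat_lit 304) (nat_lit 19491630920) (nat_lit 76) (nat_lit 238937435) (nat_lit 128) (nat_lit 5) (nat_lit 132) (nat_lit 5) (nat_lit 129) (nat_lit 5) (nat_lit 501) (nat_lit 435) (nat_lit 264)) (XT.lf (nat_lit 0) (nat_lit 1640917541) (nat_lit 228) (nat_lit 22836383383) (nat_lit 304) (nat_lit 11446255592) (nat_lit 125) (nat_lit 5) (nat_lit 128) (nat_lit 5) (nat_lit 129) (nat_lit 5) (nat_lit 502) (nat_lit 435) (nat_lit 263)))) (XT.nd (nat_lit 156) (nat_lit 228) (nat_lit 0) (XT.nd (nat_lit 78) (nat_lit 304) (nat_lit 0) (XT.lf (nat_lit 0) (nat_lit 23799069601) (nat_lit 228) (nat_lit 10092779307) (nat_lit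 304) (nat_lit 2715631057) (nat_lit 125) (nat_lit 5) (nat_lit 128) (nat_lit 5) (nat_lit 129) (nat_lit 5) (nat_lit 503) (nat_lit 435) (nat_lit 262)) (XT.lf (nat_lit 0) (nat_lit 6270943475) (nat_lit 304) (nat_lit 27912311037) (nat_lit 76) (nat_lit 3123361265) (nat_lit 121) (nat_lit 5) (nat_lit 125) (nat_lit 5) (nat_lit 122) (nat_lit 5) (nat_lit 504) (nat_lit 435) (nat_lit 261))) (XT.nd (nat_lit 78) (nat_lit 228) (nat_lit 0) (XT.lf (nat_lit 0) (nat_lit 15698404461) (nat_lit 304) (nat_lit 5633109842) (nat_lit 76) (nat_lit 16687628886) (nat_lit 121) (nat_lit 5) (nat_lit 125) (nat_lit 5) (nat_lit 122) (nat_lit 5) (nat_lit 505) (nat_lit 435) (nat_lit 260)) (XT.lf (nat_lit 0) (nat_lit 17651307003) (nat_lit 228) (nat_lit 7922515474) (nat_lit 304) (nat_lit 13174270210) (nat_lit 118) (nat_lit 5) (nat_lit 121) (nat_lit 5) (nat_lit 122) (nat_lit 5) (nat_lit 506) (nat_lit 435) (nat_lit 259))))) (XT.nd (nat_lit 312) (nat_lit 608)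 (nat_lit 0) (XT.nd (nat_lit 156) (nat_lit 228) (nat_lit 0) (XT.nd (nat_lit 78) (nat_lit 76) (nat_lit 0) (XT.lf (nat_lit 0) (nat_lit 2231264018) (nat_lit 152) (nat_lit 33645228873) (nat_lit 228) (nat_lit 3618488337) (nat_lit 116) (nat_lit 5) (nat_lit 118) (nat_lit 5) (nat_lit 119) (nat_lit 5) (nat_lit 507) (nat_lit 435) (nat_lit 258)) (XT.lf (nat_lit 0) (nat_lit 6391604307) (nat_lit 228) (nat_lit 13714292104) (nat_lit 76) (nat_lit 20147912715) (nat_lit 115) (nat_lit 5) (nat_lit 118) (nat_lit 5) (nat_lit 116) (nat_lit 5) (nat_lit 508) (nat_lit 435) (nat_lit 257))) (XT.nd (nat_lit 78) (nat_lit 0) (nat_lit 0) (XT.lf (nat_lit 0) (nat_lit 10707303103) (nat_lit 228) (nat_lit 6020527863) (nat_lit 304) (nat_lit 24303539552) (nat_lit 112) (nat_lit 5) (nat_lit 115) (nat_lit 5) (nat_lit 116) (nat_lit 5) (nat_lit 509) (nat_lit 435) (nat_lit 256)) (XT.lf (nat_lit 0) (nat_lit 27591250523) (nat_lit 304) (nat_lit 5775837242) (nat_lit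 76) (nat_lit 8458658029) (nat_lit 112) (nat_lit 5) (nat_lit 116) (nat_lit 5) (nat_lit 113) (nat_lit 5) (nat_lit 510) (nat_lit 435) (nat_lit 255)))) (XT.nd (nat_lit 156) (nat_lit 152) (nat_lit 0) (XT.nd (nat_lit 78) (nat_lit 304) (nat_lit 0) (XT.lf (nat_lit 0) (nat_lit 19828929966) (nat_lit 152) (nat_lit 19197647435) (nat_lit 228) (nat_lit 3609995003) (nat_lit 110) (nat_lit 5) (nat_lit 112) (nat_lit 5) (nat_lit 113) (nat_lit 5) (nat_lit 511) (nat_lit 435) (nat_lit 254)) (XT.lf (nat_lit 0) (nat_lit 2827115875) (nat_lit 228) (nat_lit 4444904725) (nat_lit 304) (nat_lit 36195132325) (nat_lit 106) (nat_lit 5) (nat_lit 109) (nat_lit 5) (nat_lit 110) (nat_lit 5) (nat_lit 512) (nat_lit 435) (nat_lit 253))) (XT.nd (nat_lit 78) (nat_lit 152) (nat_lit 0) (XT.lf (nat_lit 0) (nat_lit 18739696158) (nat_lit 304) (nat_lit 14765924508) (nat_lit 76) (nat_lit 10806005414) (nat_lit 106) (nat_lit 5) (nat_lit 110) (nat_lit 5) (nat_lit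 107) (nat_lit 5) (nat_lit 513) (nat_lit 435) (nat_lit 252)) (XT.lf (nat_lit 0) (nat_lit 12068849162) (nat_lit 152) (nat_lit 18638520965) (nat_lit 228) (nat_lit 14469384453) (nat_lit 104) (nat_lit 5) (nat_lit 106) (nat_lit 5) (nat_lit 107) (nat_lit 5) (nat_lit 514) (nat_lit 435) (nat_lit 251))))))) (XT.nd (nat_lit 1170) (nat_lit 1292) (nat_lit 0) (XT.nd (nat_lit 546) (nat_lit 912) (nat_lit 0) (XT.nd (nat_lit 234) (nat_lit 380) (nat_lit 0) (XT.nd (nat_lit 78) (nat_lit 380) (nat_lit 0) (XT.lf (nat_lit 0) (nat_lit 40004362227) (nat_lit 152) (nat_lit 3174815875) (nat_lit 228) (nat_lit 2884305908) (nat_lit 104) (nat_lit 5) (nat_lit 106) (nat_lit 5) (nat_lit 107) (nat_lit 5) (nat_lit 515) (nat_lit 435) (nat_lit 250)) (XT.nd (nat_lit 78) (nat_lit 152) (nat_lit 0) (XT.lf (nat_lit 0) (nat_lit 9206178624) (nat_lit 228) (nat_lit 24954167815) (nat_lit 76) (nat_lit 12803827150) (nat_lit 101) (nat_lit 5) (nat_lit 104) (nat_lit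 5) (nat_lit 102) (nat_lit 5) (nat_lit 516) (nat_lit 435) (nat_lit 249)) (XT.lf (nat_lit 0) (nat_lit 3149336177) (nat_lit 152) (nat_lit 18571663760) (nat_lit 228) (nat_lit 26166439548) (nat_lit 99) (nat_lit 5) (nat_lit 101) (nat_lit 5) (nat_lit 102) (nat_lit 5) (nat_lit 517) (nat_lit 435) (nat_lit 248)))) (XT.nd (nat_lit 156) (nat_lit 228) (nat_lit 0) (XT.nd (nat_lit 78) (nat_lit 152) (nat_lit 0) (XT.lf (nat_lit 0) (nat_lit 32600662244) (nat_lit 152) (nat_lit 2258735705) (nat_lit 228) (nat_lit 13971561614) (nat_lit 99) (nat_lit 5) (nat_lit 101) (nat_lit 5) (nat_lit 102) (nat_lit 5) (nat_lit 518) (nat_lit 435) (nat_lit 247)) (XT.lf (nat_lit 0) (nat_lit 13244687382) (nat_lit 152) (nat_lit 35410606904) (nat_lit 228) (nat_lit 1139590730) (nat_lit 97) (nat_lit 5) (nat_lit 99) (nat_lit 5) (nat_lit 100) (nat_lit 5) (nat_lit 519) (nat_lit 435) (nat_lit 246))) (XT.nd (nat_lit 78) (nat_lit 152) (nat_lit 0) (XT.lf (nat_lit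 0) (nat_lit 12025785045) (nat_lit 228) (nat_lit 6992980334) (nat_lit 76) (nat_lit 31759956618) (nat_lit 96) (nat_lit 5) (nat_lit 99) (nat_lit 5) (nat_lit 97) (nat_lit 5) (nat_lit 520) (nat_lit 435) (nat_lit 245)) (XT.lf (nat_lit 0) (nat_lit 23899517110) (nat_lit 152) (nat_lit 1889784245) (nat_lit 228) (nat_lit 25995651873) (nat_lit 94) (nat_lit 5) (nat_lit 96) (nat_lit 5) (nat_lit 97) (nat_lit 5) (nat_lit 521) (nat_lit 435) (nat_lit 244))))) (XT.nd (nat_lit 312) (nat_lit 532) (nat_lit 0) (XT.nd (nat_lit 156) (nat_lit 152) (nat_lit 0) (XT.nd (nat_lit 78) (nat_lit 76) (nat_lit 0) (XT.lf (nat_lit 0) (nat_lit 2941624107) (nat_lit 152) (nat_lit 37271482509) (nat_lit 228) (nat_lit 12600843419) (nat_lit 92) (nat_lit 5) (nat_lit 94) (nat_lit 5) (nat_lit 95) (nat_lit 5) (nat_lit 522) (nat_lit 435) (nat_lit 243)) (XT.lf (nat_lit 0) (nat_lit 1471933798) (nat_lit 228) (nat_lit 18639786793) (nat_lit 76) (nat_lit 33752767676)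 (nat_lit 91) (nat_lit 5) (nat_lit 94) (nat_lit 5) (nat_lit 92) (nat_lit 5) (nat_lit 523) (nat_lit 435) (nat_lit 242))) (XT.nd (nat_lit 78) (nat_lit 0) (nat_lit 0) (XT.lf (nat_lit 0) (nat_lit 13665272646) (nat_lit 152) (nat_lit 2176193929) (nat_lit 228) (nat_lit 39097498275) (nat_lit 89) (nat_lit 5) (nat_lit 91) (nat_lit 5) (nat_lit 92) (nat_lit 5) (nat_lit 524) (nat_lit 435) (nat_lit 241)) (XT.lf (nat_lit 0) (nat_lit 30985327664) (nat_lit 228) (nat_lit 8883340881) (nat_lit 76) (nat_lit 16166710046) (nat_lit 89) (nat_lit 5) (nat_lit 92) (nat_lit 5) (nat_lit 90) (nat_lit 5) (nat_lit 525) (nat_lit 435) (nat_lit 240)))) (XT.nd (nat_lit 156) (nat_lit 152) (nat_lit 0) (XT.nd (nat_lit 78) (nat_lit 228) (nat_lit 0) (XT.lf (nat_lit 0) (nat_lit 24937613725) (nat_lit 152) (nat_lit 21903747930) (nat_lit 228) (nat_lit 10315587500) (nat_lit 87) (nat_lit 5) (nat_lit 89) (nat_lit 5) (nat_lit 90) (nat_lit 5) (nat_lit 526) (nat_lit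 435) (nat_lit 239)) (XT.lf (nat_lit 0) (nat_lit 1623700513) (nat_lit 152) (nat_lit 3245157829) (nat_lit 228) (nat_lit 53438822762) (nat_lit 84) (nat_lit 5) (nat_lit 86) (nat_lit 5) (nat_lit 87) (nat_lit 5) (nat_lit 527) (nat_lit 435) (nat_lit 238))) (XT.nd (nat_lit 78) (nat_lit 152) (nat_lit 0) (XT.lf (nat_lit 0) (nat_lit 20780237249) (nat_lit 228) (nat_lit 22605786124) (nat_lit 76) (nat_lit 16089485730) (nat_lit 84) (nat_lit 5) (nat_lit 87) (nat_lit 5) (nat_lit 85) (nat_lit 5) (nat_lit 528) (nat_lit 435) (nat_lit 237)) (XT.lf (nat_lit 0) (nat_lit 12704511285) (nat_lit 152) (nat_lit 24615413922) (nat_lit 228) (nat_lit 23353917818) (nat_lit 82) (nat_lit 5) (nat_lit 84) (nat_lit 5) (nat_lit 85) (nat_lit 5) (nat_lit 529) (nat_lit 435) (nat_lit 236)))))) (XT.nd (nat_lit 624) (nat_lit 684) (nat_lit 0) (XT.nd (nat_lit 312) (nat_lit 304) (nat_lit 0) (XT.nd (nat_lit 156) (nat_lit 152) (nat_lit 0) (XT.nd (nat_lit 78) (nat_lit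 152) (nat_lit 0) (XT.lf (nat_lit 0) (nat_lit 49531549733) (nat_lit 152) (nat_lit 5049280438) (nat_lit 228) (nat_lit 7320546108) (nat_lit 82) (nat_lit 5) (nat_lit 84) (nat_lit 5) (nat_lit 85) (nat_lit 5) (nat_lit 530) (nat_lit 435) (nat_lit 235)) (XT.lf (nat_lit 0) (nat_lit 9396912229) (nat_lit 152) (nat_lit 38619318486) (nat_lit 76) (nat_lit 15135378913) (nat_lit 80) (nat_lit 5) (nat_lit 82) (nat_lit 5) (nat_lit 81) (nat_lit 5) (nat_lit 531) (nat_lit 435) (nat_lit 234))) (XT.nd (nat_lit 78) (nat_lit 152) (nat_lit 0) (XT.lf (nat_lit 0) (nat_lit 26641726291) (nat_lit 152) (nat_lit 1770137000) (nat_lit 76) (nat_lit 36020123334) (nat_lit 80) (nat_lit 5) (nat_lit 82) (nat_lit 5) (nat_lit 81) (nat_lit 5) (nat_lit 532) (nat_lit 435) (nat_lit 233)) (XT.lf (nat_lit 0) (nat_lit 36898854574) (nat_lit 152) (nat_lit 7856644067) (nat_lit 228) (nat_lit 20984727971) (nat_lit 78) (nat_lit 5) (nat_lit 80) (nat_lit 5) (nat_lit 81)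 (nat_lit 5) (nat_lit 533) (nat_lit 435) (nat_lit 232)))) (XT.nd (nat_lit 156) (nat_lit 152) (nat_lit 0) (XT.nd (nat_lit 78) (nat_lit 76) (nat_lit 0) (XT.lf (nat_lit 0) (nat_lit 9733075050) (nat_lit 76) (nat_lit 53916145514) (nat_lit 152) (nat_lit 3431397235) (nat_lit 77) (nat_lit 5) (nat_lit 78) (nat_lit 5) (nat_lit 79) (nat_lit 4) (nat_lit 534) (nat_lit 435) (nat_lit 231)) (XT.lf (nat_lit 0) (nat_lit 14731536268) (nat_lit 152) (nat_lit 18623701612) (nat_lit 76) (nat_lit 35090693154) (nat_lit 76) (nat_lit 5) (nat_lit 78) (nat_lit 5) (nat_lit 77) (nat_lit 5) (nat_lit 535) (nat_lit 435) (nat_lit 230))) (XT.nd (nat_lit 78) (nat_lit 0) (nat_lit 0) (XT.lf (nat_lit 0) (nat_lit 21644702229) (nat_lit 152) (nat_lit 11930774307) (nat_lit 228) (nat_lit 36269555395) (nat_lit 74) (nat_lit 5) (nat_lit 76) (nat_lit 5) (nat_lit 77) (nat_lit 5) (nat_lit 536) (nat_lit 435) (nat_lit 229)) (XT.lf (nat_lit 0) (nat_lit 53269131119) (nat_lit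 228) (nat_lit 7882391555) (nat_lit 76) (nat_lit 10126051381) (nat_lit 74) (nat_lit 5) (nat_lit 77) (nat_lit 5) (nat_lit 75) (nat_lit 4) (nat_lit 537) (nat_lit 435) (nat_lit 228))))) (XT.nd (nat_lit 312) (nat_lit 304) (nat_lit 0) (XT.nd (nat_lit 156) (nat_lit 76) (nat_lit 0) (XT.nd (nat_lit 78) (nat_lit 152) (nat_lit 0) (XT.lf (nat_lit 0) (nat_lit 1233166474) (nat_lit 152) (nat_lit 38563154676) (nat_lit 76) (nat_lit 32943091993) (nat_lit 72) (nat_lit 5) (nat_lit 74) (nat_lit 5) (nat_lit 73) (nat_lit 5) (nat_lit 538) (nat_lit 435) (nat_lit 227)) (XT.lf (nat_lit 0) (nat_lit 3295347826) (nat_lit 152) (nat_lit 17503910564) (nat_lit 228) (nat_lit 53437224464) (nat_lit 70) (nat_lit 5) (nat_lit 72) (nat_lit 5) (nat_lit 73) (nat_lit 5) (nat_lit 539) (nat_lit 435) (nat_lit 226))) (XT.nd (nat_lit 78) (nat_lit 76) (nat_lit 0) (XT.lf (nat_lit 0) (nat_lit 41395192286) (nat_lit 228) (nat_lit 28628389219) (nat_lit 76) (nat_lit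 5741597450) (nat_lit 70) (nat_lit 5) (nat_lit 73) (nat_lit 5) (nat_lit 71) (nat_lit 4) (nat_lit 540) (nat_lit 435) (nat_lit 225)) (XT.lf (nat_lit 0) (nat_lit 15069240517) (nat_lit 76) (nat_lit 47855140760) (nat_lit 152) (nat_lit 14405893419) (nat_lit 69) (nat_lit 5) (nat_lit 70) (nat_lit 5) (nat_lit 71) (nat_lit 4) (nat_lit 541) (nat_lit 435) (nat_lit 224)))) (XT.nd (nat_lit 156) (nat_lit 76) (nat_lit 0) (XT.nd (nat_lit 78) (nat_lit 152) (nat_lit 0) (XT.lf (nat_lit 0) (nat_lit 6326147955) (nat_lit 152) (nat_lit 18336297355) (nat_lit 76) (nat_lit 54269427297) (nat_lit 68) (nat_lit 5) (nat_lit 70) (nat_lit 5) (nat_lit 69) (nat_lit 5) (nat_lit 542) (nat_lit 435) (nat_lit 223)) (XT.lf (nat_lit 0) (nat_lit 27290996043) (nat_lit 152) (nat_lit 359249136) (nat_lit 228) (nat_lit 52919205198) (nat_lit 66) (nat_lit 5) (nat_lit 68) (nat_lit 5) (nat_lit 69) (nat_lit 5) (nat_lit 543) (nat_lit 435) (nat_lit 222))) (XT.nd (nat_lit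 78) (nat_lit 76) (nat_lit 0) (XT.lf (nat_lit 0) (nat_lit 50035539887) (nat_lit 228) (nat_lit 7831727775) (nat_lit 76) (nat_lit 24376243645) (nat_lit 66) (nat_lit 5) (nat_lit 69) (nat_lit 5) (nat_lit 67) (nat_lit 4) (nat_lit 544) (nat_lit 435) (nat_lit 221)) (XT.lf (nat_lit 0) (nat_lit 39745463705) (nat_lit 76) (nat_lit 33729931024) (nat_lit 152) (nat_lit 10480909359) (nat_lit 65) (nat_lit 5) (nat_lit 66) (nat_lit 5) (nat_lit 67) (nat_lit 4) (nat_lit 545) (nat_lit 435) (nat_lit 220))))))))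
noncomputable def xc175 : XT := (XT.nd (nat_lit 56004) (nat_lit 0) (nat_lit 6460) (XT.nd (nat_lit 54834) (nat_lit 0) (nat_lit 13908) (XT.nd (nat_lit 54210) (nat_lit 0) (nat_lit 17936) (XT.nd (nat_lit 53898) (nat_lit 0) (nat_lit 18924) (XT.nd (nat_lit 78) (nat_lit 76) (nat_lit 0) (XT.lf (nat_lit 0) (nat_lit 3133436151) (nat_lit 152) (nat_lit 8639734835) (nat_lit 228) (nat_lit 73940657252) (nat_lit 62) (nat_lit 5) (nat_lit 64) (nat_lit 5) (nat_lit 65) (nat_lit 5) (nat_lit 546) (nat_lit 435) (nat_lit 219)) (XT.nd (nat_lit 78) (nat_lit 76) (nat_lit 0) (XT.lf (nat_lit 0) (nat_lit 35097844583) (nat_lit 228) (nat_lit 34984890903) (nat_lit 76) (nat_lit 17419820737) (nat_lit 62) (nat_lit 5) (nat_lit 65) (nat_lit 5) (nat_lit 63) (nat_lit 4) (nat_lit 547) (nat_lit 435) (nat_lit 218)) (XT.lf (nat_lit 0) (nat_lit 14225705846) (nat_lit 76) (nat_lit 45116312840) (nat_lit 152) (nat_lit 29996334609) (nat_lit 61) (nat_lit 5) (nat_lit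 62) (nat_lit 5) (nat_lit 63) (nat_lit 4) (nat_lit 548) (nat_lit 435) (nat_lit 217)))) (XT.nd (nat_lit 156) (nat_lit 0) (nat_lit 0) (XT.nd (nat_lit 78) (nat_lit 0) (nat_lit 0) (XT.lf (nat_lit 0) (nat_lit 1807079955) (nat_lit 0) (nat_lit 1807079955) (nat_lit 1140) (nat_lit 2431860370) (nat_lit 310) (nat_lit 5) (nat_lit 310) (nat_lit 3) (nat_lit 325) (nat_lit 3) (nat_lit 436) (nat_lit 436) (nat_lit 328)) (XT.lf (nat_lit 0) (nat_lit 7819680965) (nat_lit 1140) (nat_lit 2517778371) (nat_lit 1216) (nat_lit 1921406619) (nat_lit 310) (nat_lit 5) (nat_lit 325) (nat_lit 3) (nat_lit 326) (nat_lit 5) (nat_lit 437) (nat_lit 436) (nat_lit 327))) (XT.nd (nat_lit 78) (nat_lit 0) (nat_lit 76) (XT.lf (nat_lit 76) (nat_lit 3646816446) (nat_lit 0) (nat_lit 4834780257) (nat_lit 1216) (nat_lit 3947517616) (nat_lit 311) (nat_lit 5) (nat_lit 310) (nat_lit 5) (nat_lit 326) (nat_lit 5) (nat_lit 438) (nat_lit 436) (nat_lit 326)) (XT.lf (nat_lit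 0) (nat_lit 9179537611) (nat_lit 1140) (nat_lit 2574206641) (nat_lit 1216) (nat_lit 850243394) (nat_lit 311) (nat_lit 5) (nat_lit 326) (nat_lit 5) (nat_lit 327) (nat_lit 5) (nat_lit 439) (nat_lit 436) (nat_lit 325))))) (XT.nd (nat_lit 312) (nat_lit 1064) (nat_lit 0) (XT.nd (nat_lit 156) (nat_lit 0) (nat_lit 76) (XT.nd (nat_lit 78) (nat_lit 0) (nat_lit 0) (XT.lf (nat_lit 76) (nat_lit 3837232060) (nat_lit 0) (nat_lit 6128934025) (nat_lit 1216) (nat_lit 2815911077) (nat_lit 312) (nat_lit 5) (nat_lit 311) (nat_lit 5) (nat_lit 327) (nat_lit 5) (nat_lit 440) (nat_lit 436) (nat_lit 324)) (XT.lf (nat_lit 76) (nat_lit 10483975361) (nat_lit 0) (nat_lit 301807934) (nat_lit 1216) (nat_lit 2179446770) (nat_lit 312) (nat_lit 5) (nat_lit 311) (nat_lit 5) (nat_lit 327) (nat_lit 5) (nat_lit 441) (nat_lit 436) (nat_lit 323))) (XT.nd (nat_lit 78) (nat_lit 0) (nat_lit 0) (XT.lf (nat_lit 76) (nat_lit 4193203741) (nat_lit 0) (nat_lit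 7515828580) (nat_lit 1216) (nat_lit 1442476262) (nat_lit 313) (nat_lit 5) (nat_lit 312) (nat_lit 5) (nat_lit 328) (nat_lit 5) (nat_lit 442) (nat_lit 436) (nat_lit 322)) (XT.lf (nat_lit 76) (nat_lit 11105739280) (nat_lit 0) (nat_lit 1566568587) (nat_lit 1216) (nat_lit 670699979) (nat_lit 313) (nat_lit 5) (nat_lit 312) (nat_lit 5) (nat_lit 328) (nat_lit 5) (nat_lit 443) (nat_lit 436) (nat_lit 321)))) (XT.nd (nat_lit 156) (nat_lit 0) (nat_lit 76) (XT.nd (nat_lit 78) (nat_lit 0) (nat_lit 0) (XT.lf (nat_lit 0) (nat_lit 196611450) (nat_lit 1216) (nat_lit 8816426615) (nat_lit 1292) (nat_lit 4524936146) (nat_lit 297) (nat_lit 5) (nat_lit 313) (nat_lit 5) (nat_lit 314) (nat_lit 5) (nat_lit 444) (nat_lit 436) (nat_lit 320)) (XT.lf (nat_lit 0) (nat_lit 1099808678) (nat_lit 1216) (nat_lit 1835891056) (nat_lit 1292) (nat_lit 10802192276) (nat_lit 297) (nat_lit 5) (nat_lit 313) (nat_lit 5) (nat_lit 314) (nat_lit 5) (nat_lit 445)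 (nat_lit 436) (nat_lit 319))) (XT.nd (nat_lit 78) (nat_lit 0) (nat_lit 0) (XT.lf (nat_lit 0) (nat_lit 2100463985) (nat_lit 1216) (nat_lit 8524863007) (nat_lit 1292) (nat_lit 3316371493) (nat_lit 298) (nat_lit 5) (nat_lit 314) (nat_lit 5) (nat_lit 315) (nat_lit 5) (nat_lit 446) (nat_lit 436) (nat_lit 318)) (XT.lf (nat_lit 0) (nat_lit 3164752728) (nat_lit 1216) (nat_lit 1265996870) (nat_lit 1292) (nat_lit 9719863094) (nat_lit 298) (nat_lit 5) (nat_lit 314) (nat_lit 5) (nat_lit 315) (nat_lit 5) (nat_lit 447) (nat_lit 436) (nat_lit 317)))))) (XT.nd (nat_lit 546) (nat_lit 3116) (nat_lit 0) (XT.nd (nat_lit 234) (nat_lit 1064) (nat_lit 0) (XT.nd (nat_lit 78) (nat_lit 0) (nat_lit 0) (XT.lf (nat_lit 0) (nat_lit 4327374886) (nat_lit 1216) (nat_lit 8059883447) (nat_lit 1292) (nat_lit 1976545741) (nat_lit 299) (nat_lit 5) (nat_lit 315) (nat_lit 5) (nat_lit 316) (nat_lit 5) (nat_lit 448) (nat_lit 436) (nat_lit 316)) (XT.nd (nat_lit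 78) (nat_lit 0) (nat_lit 76) (XT.lf (nat_lit 0) (nat_lit 5568229879) (nat_lit 1216) (nat_lit 510611456) (nat_lit 1292) (nat_lit 8503251075) (nat_lit 299) (nat_lit 5) (nat_lit 315) (nat_lit 5) (nat_lit 316) (nat_lit 5) (nat_lit 449) (nat_lit 436) (nat_lit 315)) (XT.lf (nat_lit 0) (nat_lit 6909160799) (nat_lit 1216) (nat_lit 7410609648) (nat_lit 1292) (nat_lit 485275225) (nat_lit 300) (nat_lit 5) (nat_lit 316) (nat_lit 5) (nat_lit 317) (nat_lit 5) (nat_lit 450) (nat_lit 436) (nat_lit 314)))) (XT.nd (nat_lit 156) (nat_lit 1140) (nat_lit 0) (XT.nd (nat_lit 78) (nat_lit 0) (nat_lit 0) (XT.lf (nat_lit 76) (nat_lit 450624826) (nat_lit 0) (nat_lit 7896694234) (nat_lit 1292) (nat_lit 6685660222) (nat_lit 301) (nat_lit 5) (nat_lit 300) (nat_lit 5) (nat_lit 317) (nat_lit 5) (nat_lit 451) (nat_lit 436) (nat_lit 313)) (XT.lf (nat_lit 76) (nat_lit 8689209503) (nat_lit 0) (nat_lit 1201789870) (nat_lit 1292) (nat_lit 5374881888)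 (nat_lit 301) (nat_lit 5) (nat_lit 300) (nat_lit 5) (nat_lit 317) (nat_lit 5) (nat_lit 452) (nat_lit 436) (nat_lit 312))) (XT.nd (nat_lit 78) (nat_lit 0) (nat_lit 0) (XT.lf (nat_lit 0) (nat_lit 1635891865) (nat_lit 1216) (nat_lit 9903483929) (nat_lit 1292) (nat_lit 3964644567) (nat_lit 285) (nat_lit 5) (nat_lit 301) (nat_lit 5) (nat_lit 302) (nat_lit 5) (nat_lit 453) (nat_lit 436) (nat_lit 311)) (XT.lf (nat_lit 0) (nat_lit 10207136869) (nat_lit 1216) (nat_lit 3096438964) (nat_lit 1292) (nat_lit 2443738217) (nat_lit 285) (nat_lit 5) (nat_lit 301) (nat_lit 5) (nat_lit 302) (nat_lit 5) (nat_lit 454) (nat_lit 436) (nat_lit 310))))) (XT.nd (nat_lit 312) (nat_lit 1672) (nat_lit 0) (XT.nd (nat_lit 156) (nat_lit 608) (nat_lit 0) (XT.nd (nat_lit 78) (nat_lit 76) (nat_lit 0) (XT.lf (nat_lit 0) (nat_lit 3049046644) (nat_lit 760) (nat_lit 12127132542) (nat_lit 836) (nat_lit 820064583) (nat_lit 275) (nat_lit 5) (nat_lit 285)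 (nat_lit 5) (nat_lit 286) (nat_lit 5) (nat_lit 455) (nat_lit 436) (nat_lit 309)) (XT.lf (nat_lit 0) (nat_lit 911502431) (nat_lit 836) (nat_lit 4291409568) (nat_lit 76) (nat_lit 11047210590) (nat_lit 274) (nat_lit 5) (nat_lit 285) (nat_lit 5) (nat_lit 275) (nat_lit 5) (nat_lit 456) (nat_lit 436) (nat_lit 308))) (XT.nd (nat_lit 78) (nat_lit 0) (nat_lit 0) (XT.lf (nat_lit 0) (nat_lit 2731754246) (nat_lit 684) (nat_lit 11832084591) (nat_lit 76) (nat_lit 1945940153) (nat_lit 266) (nat_lit 5) (nat_lit 275) (nat_lit 5) (nat_lit 267) (nat_lit 5) (nat_lit 457) (nat_lit 436) (nat_lit 307)) (XT.lf (nat_lit 0) (nat_lit 4691109457) (nat_lit 684) (nat_lit 2834507263) (nat_lit 76) (nat_lit 9249074855) (nat_lit 266) (nat_lit 5) (nat_lit 275) (nat_lit 5) (nat_lit 267) (nat_lit 5) (nat_lit 458) (nat_lit 436) (nat_lit 306)))) (XT.nd (nat_lit 156) (nat_lit 1064) (nat_lit 0) (XT.nd (nat_lit 78) (nat_lit 0) (nat_lit 0) (XT.lf (nat_lit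 0) (nat_lit 6550649031) (nat_lit 608) (nat_lit 211097159) (nat_lit 684) (nat_lit 10284231650) (nat_lit 258) (nat_lit 5) (nat_lit 266) (nat_lit 5) (nat_lit 267) (nat_lit 5) (nat_lit 459) (nat_lit 436) (nat_lit 305)) (XT.lf (nat_lit 0) (nat_lit 8983542015) (nat_lit 684) (nat_lit 1130140769) (nat_lit 76) (nat_lit 7209049997) (nat_lit 258) (nat_lit 5) (nat_lit 267) (nat_lit 5) (nat_lit 259) (nat_lit 5) (nat_lit 460) (nat_lit 436) (nat_lit 304))) (XT.nd (nat_lit 78) (nat_lit 532) (nat_lit 0) (XT.lf (nat_lit 0) (nat_lit 8673072012) (nat_lit 532) (nat_lit 2674421266) (nat_lit 608) (nat_lit 6258033297) (nat_lit 251) (nat_lit 5) (nat_lit 258) (nat_lit 5) (nat_lit 259) (nat_lit 5) (nat_lit 461) (nat_lit 436) (nat_lit 303)) (XT.lf (nat_lit 0) (nat_lit 855441095) (nat_lit 532) (nat_lit 12984850692) (nat_lit 608) (nat_lit 4054775748) (nat_lit 244) (nat_lit 5) (nat_lit 251) (nat_lit 5) (nat_lit 252) (nat_lit 5) (nat_lit 462)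 (nat_lit 436) (nat_lit 302))))))) (XT.nd (nat_lit 1170) (nat_lit 3496) (nat_lit 0) (XT.nd (nat_lit 546) (nat_lit 2356) (nat_lit 0) (XT.nd (nat_lit 234) (nat_lit 988) (nat_lit 0) (XT.nd (nat_lit 78) (nat_lit 608) (nat_lit 0) (XT.lf (nat_lit 0) (nat_lit 11082897622) (nat_lit 532) (nat_lit 5431815997) (nat_lit 608) (nat_lit 1675377104) (nat_lit 244) (nat_lit 5) (nat_lit 251) (nat_lit 5) (nat_lit 252) (nat_lit 5) (nat_lit 463) (nat_lit 436) (nat_lit 301)) (XT.nd (nat_lit 78) (nat_lit 0) (nat_lit 0) (XT.lf (nat_lit 0) (nat_lit 804263026) (nat_lit 608) (nat_lit 15348546804) (nat_lit 76) (nat_lit 2339612566) (nat_lit 236) (nat_lit 5) (nat_lit 244) (nat_lit 5) (nat_lit 237) (nat_lit 5) (nat_lit 464) (nat_lit 436) (nat_lit 300)) (XT.lf (nat_lit 0) (nat_lit 3441654278) (nat_lit 608) (nat_lit 5034822454) (nat_lit 76) (nat_lit 10323339669) (nat_lit 236) (nat_lit 5) (nat_lit 244) (nat_lit 5) (nat_lit 237) (nat_lit 5) (nat_lit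 465) (nat_lit 436) (nat_lit 299)))) (XT.nd (nat_lit 156) (nat_lit 456) (nat_lit 0) (XT.nd (nat_lit 78) (nat_lit 0) (nat_lit 0) (XT.lf (nat_lit 0) (nat_lit 5689392905) (nat_lit 532) (nat_lit 514508641) (nat_lit 608) (nat_lit 12911159699) (nat_lit 229) (nat_lit 5) (nat_lit 236) (nat_lit 5) (nat_lit 237) (nat_lit 5) (nat_lit 466) (nat_lit 436) (nat_lit 298)) (XT.lf (nat_lit 0) (nat_lit 9165447487) (nat_lit 608) (nat_lit 2684181879) (nat_lit 76) (nat_lit 7586642149) (nat_lit 229) (nat_lit 5) (nat_lit 237) (nat_lit 5) (nat_lit 230) (nat_lit 5) (nat_lit 467) (nat_lit 436) (nat_lit 297))) (XT.nd (nat_lit 78) (nat_lit 0) (nat_lit 0) (XT.lf (nat_lit 0) (nat_lit 8531123742) (nat_lit 456) (nat_lit 3763273326) (nat_lit 532) (nat_lit 7470365295) (nat_lit 223) (nat_lit 5) (nat_lit 229) (nat_lit 5) (nat_lit 230) (nat_lit 5) (nat_lit 468) (nat_lit 436) (nat_lit 296)) (XT.lf (nat_lit 0) (nat_lit 15580076078) (nat_lit 532) (nat_lit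 18487591) (nat_lit 76) (nat_lit 4502659397) (nat_lit 223) (nat_lit 5) (nat_lit 230) (nat_lit 5) (nat_lit 224) (nat_lit 5) (nat_lit 469) (nat_lit 436) (nat_lit 295))))) (XT.nd (nat_lit 312) (nat_lit 912) (nat_lit 0) (XT.nd (nat_lit 156) (nat_lit 456) (nat_lit 0) (XT.nd (nat_lit 78) (nat_lit 532) (nat_lit 0) (XT.lf (nat_lit 0) (nat_lit 11714797458) (nat_lit 456) (nat_lit 7391242162) (nat_lit 532) (nat_lit 1337487477) (nat_lit 217) (nat_lit 5) (nat_lit 223) (nat_lit 5) (nat_lit 224) (nat_lit 5) (nat_lit 470) (nat_lit 436) (nat_lit 294)) (XT.lf (nat_lit 0) (nat_lit 1935738299) (nat_lit 532) (nat_lit 17770373107) (nat_lit 76) (nat_lit 1088471411) (nat_lit 210) (nat_lit 5) (nat_lit 217) (nat_lit 5) (nat_lit 211) (nat_lit 5) (nat_lit 471) (nat_lit 436) (nat_lit 293))) (XT.nd (nat_lit 78) (nat_lit 456) (nat_lit 0) (XT.lf (nat_lit 0) (nat_lit 5434511594) (nat_lit 532) (nat_lit 5942007265) (nat_lit 76) (nat_lit 9774627939)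 (nat_lit 210) (nat_lit 5) (nat_lit 217) (nat_lit 5) (nat_lit 211) (nat_lit 5) (nat_lit 472) (nat_lit 436) (nat_lit 292)) (XT.lf (nat_lit 0) (nat_lit 6355665237) (nat_lit 456) (nat_lit 2735945882) (nat_lit 532) (nat_lit 12425196517) (nat_lit 204) (nat_lit 5) (nat_lit 210) (nat_lit 5) (nat_lit 211) (nat_lit 5) (nat_lit 473) (nat_lit 436) (nat_lit 291)))) (XT.nd (nat_lit 156) (nat_lit 532) (nat_lit 0) (XT.nd (nat_lit 78) (nat_lit 380) (nat_lit 0) (XT.lf (nat_lit 0) (nat_lit 12970655582) (nat_lit 532) (nat_lit 2817092857) (nat_lit 76) (nat_lit 6102323705) (nat_lit 204) (nat_lit 5) (nat_lit 211) (nat_lit 5) (nat_lit 205) (nat_lit 5) (nat_lit 474) (nat_lit 436) (nat_lit 290)) (XT.lf (nat_lit 0) (nat_lit 10057037510) (nat_lit 380) (nat_lit 7025403245) (nat_lit 456) (nat_lit 5188603529) (nat_lit 199) (nat_lit 5) (nat_lit 204) (nat_lit 5) (nat_lit 205) (nat_lit 5) (nat_lit 475) (nat_lit 436) (nat_lit 289))) (XT.nd (nat_lit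 78) (nat_lit 76) (nat_lit 0) (XT.lf (nat_lit 0) (nat_lit 697137734) (nat_lit 456) (nat_lit 20667807904) (nat_lit 532) (nat_lit 1297079723) (nat_lit 193) (nat_lit 5) (nat_lit 199) (nat_lit 5) (nat_lit 200) (nat_lit 5) (nat_lit 476) (nat_lit 436) (nat_lit 288)) (XT.lf (nat_lit 0) (nat_lit 2845164583) (nat_lit 532) (nat_lit 8921444875) (nat_lit 76) (nat_lit 11291738883) (nat_lit 192) (nat_lit 5) (nat_lit 199) (nat_lit 5) (nat_lit 193) (nat_lit 5) (nat_lit 477) (nat_lit 436) (nat_lit 287)))))) (XT.nd (nat_lit 624) (nat_lit 1672) (nat_lit 0) (XT.nd (nat_lit 312) (nat_lit 1064) (nat_lit 0) (XT.nd (nat_lit 156) (nat_lit 380) (nat_lit 0) (XT.nd (nat_lit 78) (nat_lit 0) (nat_lit 0) (XT.lf (nat_lit 0) (nat_lit 4580560816) (nat_lit 380) (nat_lit 2542050066) (nat_lit 456) (nat_lit 16342455408) (nat_lit 187) (nat_lit 5) (nat_lit 192) (nat_lit 5) (nat_lit 193) (nat_lit 5) (nat_lit 478) (nat_lit 436) (nat_lit 286)) (XT.lf (nat_lit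 0) (nat_lit 11679326098) (nat_lit 456) (nat_lit 5287940332) (nat_lit 76) (nat_lit 6912191654) (nat_lit 187) (nat_lit 5) (nat_lit 193) (nat_lit 5) (nat_lit 188) (nat_lit 5) (nat_lit 479) (nat_lit 436) (nat_lit 285))) (XT.nd (nat_lit 78) (nat_lit 0) (nat_lit 0) (XT.lf (nat_lit 0) (nat_lit 8855043563) (nat_lit 380) (nat_lit 7621257945) (nat_lit 456) (nat_lit 7826874016) (nat_lit 182) (nat_lit 5) (nat_lit 187) (nat_lit 5) (nat_lit 188) (nat_lit 5) (nat_lit 480) (nat_lit 436) (nat_lit 284)) (XT.lf (nat_lit 0) (nat_lit 21483743446) (nat_lit 456) (nat_lit 1236281407) (nat_lit 76) (nat_lit 2017583548) (nat_lit 182) (nat_lit 5) (nat_lit 188) (nat_lit 5) (nat_lit 183) (nat_lit 5) (nat_lit 481) (nat_lit 436) (nat_lit 283)))) (XT.nd (nat_lit 156) (nat_lit 304) (nat_lit 0) (XT.nd (nat_lit 78) (nat_lit 380) (nat_lit 0) (XT.lf (nat_lit 0) (nat_lit 1629463270) (nat_lit 380) (nat_lit 11612473465) (nat_lit 76) (nat_lit 11936671737)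 (nat_lit 177) (nat_lit 5) (nat_lit 182) (nat_lit 5) (nat_lit 178) (nat_lit 5) (nat_lit 482) (nat_lit 436) (nat_lit 282)) (XT.lf (nat_lit 0) (nat_lit 3227172921) (nat_lit 380) (nat_lit 3403937365) (nat_lit 456) (nat_lit 18999645792) (nat_lit 172) (nat_lit 5) (nat_lit 177) (nat_lit 5) (nat_lit 178) (nat_lit 5) (nat_lit 483) (nat_lit 436) (nat_lit 281))) (XT.nd (nat_lit 78) (nat_lit 304) (nat_lit 0) (XT.lf (nat_lit 0) (nat_lit 11959582119) (nat_lit 456) (nat_lit 7417783932) (nat_lit 76) (nat_lit 6713799362) (nat_lit 172) (nat_lit 5) (nat_lit 178) (nat_lit 5) (nat_lit 173) (nat_lit 5) (nat_lit 484) (nat_lit 436) (nat_lit 280)) (XT.lf (nat_lit 0) (nat_lit 8133830048) (nat_lit 304) (nat_lit 9419818211) (nat_lit 380) (nat_lit 9008567111) (nat_lit 168) (nat_lit 5) (nat_lit 172) (nat_lit 5) (nat_lit 173) (nat_lit 5) (nat_lit 485) (nat_lit 436) (nat_lit 279))))) (XT.nd (nat_lit 312) (nat_lit 988) (nat_lit 0) (XT.nd (nat_lit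 156) (nat_lit 304) (nat_lit 0) (XT.nd (nat_lit 78) (nat_lit 380) (nat_lit 0) (XT.lf (nat_lit 0) (nat_lit 23393144289) (nat_lit 380) (nat_lit 2758730033) (nat_lit 76) (nat_lit 893194798) (nat_lit 168) (nat_lit 5) (nat_lit 173) (nat_lit 5) (nat_lit 169) (nat_lit 5) (nat_lit 486) (nat_lit 436) (nat_lit 278)) (XT.lf (nat_lit 0) (nat_lit 2048720282) (nat_lit 380) (nat_lit 14012527500) (nat_lit 76) (nat_lit 11474032117) (nat_lit 163) (nat_lit 5) (nat_lit 168) (nat_lit 5) (nat_lit 164) (nat_lit 5) (nat_lit 487) (nat_lit 436) (nat_lit 277))) (XT.nd (nat_lit 78) (nat_lit 0) (nat_lit 0) (XT.lf (nat_lit 0) (nat_lit 2309886683) (nat_lit 304) (nat_lit 5581565468) (nat_lit 380) (nat_lit 20146326583) (nat_lit 159) (nat_lit 5) (nat_lit 163) (nat_lit 5) (nat_lit 164) (nat_lit 5) (nat_lit 488) (nat_lit 436) (nat_lit 276)) (XT.lf (nat_lit 0) (nat_lit 14096664055) (nat_lit 380) (nat_lit 9202084175) (nat_lit 76) (nat_lit 5250988834)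 (nat_lit 159) (nat_lit 5) (nat_lit 164) (nat_lit 5) (nat_lit 160) (nat_lit 5) (nat_lit 489) (nat_lit 436) (nat_lit 275)))) (XT.nd (nat_lit 156) (nat_lit 684) (nat_lit 0) (XT.nd (nat_lit 78) (nat_lit 0) (nat_lit 0) (XT.lf (nat_lit 0) (nat_lit 7910157380) (nat_lit 304) (nat_lit 12703536624) (nat_lit 380) (nat_lit 8459590746) (nat_lit 155) (nat_lit 5) (nat_lit 159) (nat_lit 5) (nat_lit 160) (nat_lit 5) (nat_lit 490) (nat_lit 436) (nat_lit 274)) (XT.lf (nat_lit 0) (nat_lit 25716049370) (nat_lit 304) (nat_lit 1697553844) (nat_lit 380) (nat_lit 2196315046) (nat_lit 155) (nat_lit 5) (nat_lit 159) (nat_lit 5) (nat_lit 160) (nat_lit 5) (nat_lit 491) (nat_lit 436) (nat_lit 273))) (XT.nd (nat_lit 78) (nat_lit 304) (nat_lit 0) (XT.lf (nat_lit 0) (nat_lit 4396487937) (nat_lit 380) (nat_lit 16132009455) (nat_lit 76) (nat_lit 9626187096) (nat_lit 150) (nat_lit 5) (nat_lit 155) (nat_lit 5) (nat_lit 151) (nat_lit 5) (nat_lit 492)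 (nat_lit 436) (nat_lit 272)) (XT.lf (nat_lit 0) (nat_lit 1830427098) (nat_lit 304) (nat_lit 9381223693) (nat_lit 380) (nat_lit 19501429360) (nat_lit 146) (nat_lit 5) (nat_lit 150) (nat_lit 5) (nat_lit 151) (nat_lit 5) (nat_lit 493) (nat_lit 436) (nat_lit 271))))))))
noncomputable def xc176 : XT := (XT.nd (nat_lit 2340) (nat_lit 2280) (nat_lit 0) (XT.nd (nat_lit 1170) (nat_lit 1824) (nat_lit 0) (XT.nd (nat_lit 546) (nat_lit 1216) (nat_lit 0) (XT.nd (nat_lit 234) (nat_lit 760) (nat_lit 0) (XT.nd (nat_lit 78) (nat_lit 304) (nat_lit 0) (XT.lf (nat_lit 0) (nat_lit 18410631929) (nat_lit 380) (nat_lit 10651038836) (nat_lit 76) (nat_lit 2221176413) (nat_lit 146) (nat_lit 5) (nat_lit 151) (nat_lit 5) (nat_lit 147) (nat_lit 5) (nat_lit 494) (nat_lit 436) (nat_lit 270)) (XT.nd (nat_lit 78) (nat_lit 76) (nat_lit 0) (XT.lf (nat_lit 0) (nat_lit 8186305632) (nat_lit 228) (nat_lit 17805665504) (nat_lit 304) (nat_lit 5872744804)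 (nat_lit 143) (nat_lit 5) (nat_lit 146) (nat_lit 5) (nat_lit 147) (nat_lit 5) (nat_lit 495) (nat_lit 436) (nat_lit 269)) (XT.lf (nat_lit 0) (nat_lit 1414081874) (nat_lit 304) (nat_lit 4675725005) (nat_lit 76) (nat_lit 26370745084) (nat_lit 142) (nat_lit 5) (nat_lit 146) (nat_lit 5) (nat_lit 143) (nat_lit 5) (nat_lit 496) (nat_lit 436) (nat_lit 268)))) (XT.nd (nat_lit 156) (nat_lit 228) (nat_lit 0) (XT.nd (nat_lit 78) (nat_lit 228) (nat_lit 0) (XT.lf (nat_lit 0) (nat_lit 9001313802) (nat_lit 380) (nat_lit 18001560493) (nat_lit 76) (nat_lit 6063649640) (nat_lit 138) (nat_lit 5) (nat_lit 143) (nat_lit 5) (nat_lit 139) (nat_lit 5) (nat_lit 497) (nat_lit 436) (nat_lit 267)) (XT.lf (nat_lit 0) (nat_lit 1770333632) (nat_lit 228) (nat_lit 15165855618) (nat_lit 304) (nat_lit 16750885360) (nat_lit 135) (nat_lit 5) (nat_lit 138) (nat_lit 5) (nat_lit 139) (nat_lit 5) (nat_lit 498) (nat_lit 436) (nat_lit 266))) (XT.nd (nat_lit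 78) (nat_lit 228) (nat_lit 0) (XT.lf (nat_lit 0) (nat_lit 22496565403) (nat_lit 228) (nat_lit 2789426233) (nat_lit 304) (nat_lit 9034944079) (nat_lit 135) (nat_lit 5) (nat_lit 138) (nat_lit 5) (nat_lit 139) (nat_lit 5) (nat_lit 499) (nat_lit 436) (nat_lit 265)) (XT.lf (nat_lit 0) (nat_lit 8941812187) (nat_lit 228) (nat_lit 25121370855) (nat_lit 304) (nat_lit 905323086) (nat_lit 132) (nat_lit 5) (nat_lit 135) (nat_lit 5) (nat_lit 136) (nat_lit 5) (nat_lit 500) (nat_lit 436) (nat_lit 264))))) (XT.nd (nat_lit 312) (nat_lit 684) (nat_lit 0) (XT.nd (nat_lit 156) (nat_lit 228) (nat_lit 0) (XT.nd (nat_lit 78) (nat_lit 228) (nat_lit 0) (XT.lf (nat_lit 0) (nat_lit 7465892943) (nat_lit 304) (nat_lit 5166882934) (nat_lit 76) (nat_lit 22996271285) (nat_lit 131) (nat_lit 5) (nat_lit 135) (nat_lit 5) (nat_lit 132) (nat_lit 5) (nat_lit 501) (nat_lit 436) (nat_lit 263)) (XT.lf (nat_lit 0) (nat_lit 16229107367) (nat_lit 304) (nat_lit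 19681648338) (nat_lit 76) (nat_lit 393608369) (nat_lit 128) (nat_lit 5) (nat_lit 132) (nat_lit 5) (nat_lit 129) (nat_lit 5) (nat_lit 502) (nat_lit 436) (nat_lit 262))) (XT.nd (nat_lit 78) (nat_lit 0) (nat_lit 0) (XT.lf (nat_lit 0) (nat_lit 2081006660) (nat_lit 228) (nat_lit 23367393189) (nat_lit 304) (nat_lit 11545745480) (nat_lit 125) (nat_lit 5) (nat_lit 128) (nat_lit 5) (nat_lit 129) (nat_lit 5) (nat_lit 503) (nat_lit 436) (nat_lit 261)) (XT.lf (nat_lit 0) (nat_lit 24892518964) (nat_lit 228) (nat_lit 10245968808) (nat_lit 304) (nat_lit 2560306028) (nat_lit 125) (nat_lit 5) (nat_lit 128) (nat_lit 5) (nat_lit 129) (nat_lit 5) (nat_lit 504) (nat_lit 436) (nat_lit 260)))) (XT.nd (nat_lit 156) (nat_lit 380) (nat_lit 0) (XT.nd (nat_lit 78) (nat_lit 0) (nat_lit 0) (XT.lf (nat_lit 0) (nat_lit 6689593010) (nat_lit 304) (nat_lit 28363903455) (nat_lit 76) (nat_lit 3365388893) (nat_lit 121) (nat_lit 5) (nat_lit 125) (nat_lit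 5) (nat_lit 122) (nat_lit 5) (nat_lit 505) (nat_lit 436) (nat_lit 259)) (XT.lf (nat_lit 0) (nat_lit 16393163615) (nat_lit 304) (nat_lit 5427562444) (nat_lit 76) (nat_lit 17332264345) (nat_lit 121) (nat_lit 5) (nat_lit 125) (nat_lit 5) (nat_lit 122) (nat_lit 5) (nat_lit 506) (nat_lit 436) (nat_lit 258))) (XT.nd (nat_lit 78) (nat_lit 152) (nat_lit 0) (XT.lf (nat_lit 0) (nat_lit 18551714939) (nat_lit 228) (nat_lit 8010175599) (nat_lit 304) (nat_lit 13342006833) (nat_lit 118) (nat_lit 5) (nat_lit 121) (nat_lit 5) (nat_lit 122) (nat_lit 5) (nat_lit 507) (nat_lit 436) (nat_lit 257)) (XT.lf (nat_lit 0) (nat_lit 2670579812) (nat_lit 152) (nat_lit 34501608192) (nat_lit 228) (nat_lit 3501048521) (nat_lit 116) (nat_lit 5) (nat_lit 118) (nat_lit 5) (nat_lit 119) (nat_lit 5) (nat_lit 508) (nat_lit 436) (nat_lit 256)))))) (XT.nd (nat_lit 546) (nat_lit 912) (nat_lit 0) (XT.nd (nat_lit 234) (nat_lit 608) (nat_lit 0) (XT.nd (nat_lit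 78) (nat_lit 228) (nat_lit 0) (XT.lf (nat_lit 0) (nat_lit 6798483019) (nat_lit 228) (nat_lit 13759895997) (nat_lit 76) (nat_lit 20896579032) (nat_lit 115) (nat_lit 5) (nat_lit 118) (nat_lit 5) (nat_lit 116) (nat_lit 5) (nat_lit 509) (nat_lit 436) (nat_lit 255)) (XT.nd (nat_lit 78) (nat_lit 0) (nat_lit 0) (XT.lf (nat_lit 0) (nat_lit 11390760548) (nat_lit 228) (nat_lit 6051252048) (nat_lit 304) (nat_lit 24813917536) (nat_lit 112) (nat_lit 5) (nat_lit 115) (nat_lit 5) (nat_lit 116) (nat_lit 5) (nat_lit 510) (nat_lit 436) (nat_lit 254)) (XT.lf (nat_lit 0) (nat_lit 28626548767) (nat_lit 304) (nat_lit 5592627889) (nat_lit 76) (nat_lit 8855103912) (nat_lit 112) (nat_lit 5) (nat_lit 116) (nat_lit 5) (nat_lit 113) (nat_lit 5) (nat_lit 511) (nat_lit 436) (nat_lit 253)))) (XT.nd (nat_lit 156) (nat_lit 152) (nat_lit 0) (XT.nd (nat_lit 78) (nat_lit 304) (nat_lit 0) (XT.lf (nat_lit 0) (nat_lit 20776787389) (nat_lit 152) (nat_lit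 19625495756) (nat_lit 228) (nat_lit 3507228715) (nat_lit 110) (nat_lit 5) (nat_lit 112) (nat_lit 5) (nat_lit 113) (nat_lit 5) (nat_lit 512) (nat_lit 436) (nat_lit 252)) (XT.lf (nat_lit 0) (nat_lit 3265546535) (nat_lit 228) (nat_lit 4428953749) (nat_lit 304) (nat_lit 37070527794) (nat_lit 106) (nat_lit 5) (nat_lit 109) (nat_lit 5) (nat_lit 110) (nat_lit 5) (nat_lit 513) (nat_lit 436) (nat_lit 251))) (XT.nd (nat_lit 78) (nat_lit 152) (nat_lit 0) (XT.lf (nat_lit 0) (nat_lit 19501648413) (nat_lit 304) (nat_lit 14861017317) (nat_lit 76) (nat_lit 11272306716) (nat_lit 106) (nat_lit 5) (nat_lit 110) (nat_lit 5) (nat_lit 107) (nat_lit 5) (nat_lit 514) (nat_lit 436) (nat_lit 250)) (XT.lf (nat_lit 0) (nat_lit 12775388927) (nat_lit 152) (nat_lit 19050456679) (nat_lit 228) (nat_lit 14700284683) (nat_lit 104) (nat_lit 5) (nat_lit 106) (nat_lit 5) (nat_lit 107) (nat_lit 5) (nat_lit 515) (nat_lit 436) (nat_lit 249))))) (XT.nd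 (nat_lit 312) (nat_lit 532) (nat_lit 0) (XT.nd (nat_lit 156) (nat_lit 152) (nat_lit 0) (XT.nd (nat_lit 78) (nat_lit 228) (nat_lit 0) (XT.lf (nat_lit 0) (nat_lit 41538934152) (nat_lit 152) (nat_lit 3127128395) (nat_lit 228) (nat_lit 2773571684) (nat_lit 104) (nat_lit 5) (nat_lit 106) (nat_lit 5) (nat_lit 107) (nat_lit 5) (nat_lit 516) (nat_lit 436) (nat_lit 248)) (XT.lf (nat_lit 0) (nat_lit 9674748742) (nat_lit 228) (nat_lit 25363455877) (nat_lit 76) (nat_lit 13329114126) (nat_lit 101) (nat_lit 5) (nat_lit 104) (nat_lit 5) (nat_lit 102) (nat_lit 5) (nat_lit 517) (nat_lit 436) (nat_lit 247))) (XT.nd (nat_lit 78) (nat_lit 0) (nat_lit 0) (XT.lf (nat_lit 0) (nat_lit 3579826401) (nat_lit 152) (nat_lit 18982814789) (nat_lit 228) (nat_lit 26755712881) (nat_lit 99) (nat_lit 5) (nat_lit 101) (nat_lit 5) (nat_lit 102) (nat_lit 5) (nat_lit 518) (nat_lit 436) (nat_lit 246)) (XT.lf (nat_lit 0) (nat_lit 33904905547) (nat_lit 152)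 (nat_lit 2184751287) (nat_lit 228) (nat_lit 14200689188) (nat_lit 99) (nat_lit 5) (nat_lit 101) (nat_lit 5) (nat_lit 102) (nat_lit 5) (nat_lit 519) (nat_lit 436) (nat_lit 245)))) (XT.nd (nat_lit 156) (nat_lit 304) (nat_lit 0) (XT.nd (nat_lit 78) (nat_lit 76) (nat_lit 0) (XT.lf (nat_lit 0) (nat_lit 13969191967) (nat_lit 152) (nat_lit 36329332747) (nat_lit 228) (nat_lit 984691918) (nat_lit 97) (nat_lit 5) (nat_lit 99) (nat_lit 5) (nat_lit 100) (nat_lit 5) (nat_lit 520) (nat_lit 436) (nat_lit 244)) (XT.lf (nat_lit 0) (nat_lit 12566555465) (nat_lit 228) (nat_lit 6881545198) (nat_lit 76) (nat_lit 32848575748) (nat_lit 96) (nat_lit 5) (nat_lit 99) (nat_lit 5) (nat_lit 97) (nat_lit 5) (nat_lit 521) (nat_lit 436) (nat_lit 243))) (XT.nd (nat_lit 78) (nat_lit 152) (nat_lit 0) (XT.lf (nat_lit 0) (nat_lit 24934577908) (nat_lit 152) (nat_lit 1806214262) (nat_lit 228) (nat_lit 26592368175) (nat_lit 94) (nat_lit 5) (nat_lit 96)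 (nat_lit 5) (nat_lit 97) (nat_lit 5) (nat_lit 522) (nat_lit 436) (nat_lit 242)) (XT.lf (nat_lit 0) (nat_lit 3348783762) (nat_lit 152) (nat_lit 38247723439) (nat_lit 228) (nat_lit 12796544196) (nat_lit 92) (nat_lit 5) (nat_lit 94) (nat_lit 5) (nat_lit 95) (nat_lit 5) (nat_lit 523) (nat_lit 436) (nat_lit 241))))))) (XT.nd (nat_lit 1170) (nat_lit 912) (nat_lit 0) (XT.nd (nat_lit 546) (nat_lit 608) (nat_lit 0) (XT.nd (nat_lit 234) (nat_lit 532) (nat_lit 0) (XT.nd (nat_lit 78) (nat_lit 152) (nat_lit 0) (XT.lf (nat_lit 0) (nat_lit 1689651732) (nat_lit 228) (nat_lit 18885897429) (nat_lit 76) (nat_lit 34899660434) (nat_lit 91) (nat_lit 5) (nat_lit 94) (nat_lit 5) (nat_lit 92) (nat_lit 5) (nat_lit 524) (nat_lit 436) (nat_lit 240)) (XT.nd (nat_lit 78) (nat_lit 0) (nat_lit 0) (XT.lf (nat_lit 0) (nat_lit 14385244352) (nat_lit 152) (nat_lit 2102951037) (nat_lit 228) (nat_lit 40093787531) (nat_lit 89) (nat_lit 5) (nat_lit 91)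 (nat_lit 5) (nat_lit 92) (nat_lit 5) (nat_lit 525) (nat_lit 436) (nat_lit 239)) (XT.lf (nat_lit 0) (nat_lit 32082670445) (nat_lit 228) (nat_lit 8845149089) (nat_lit 76) (nat_lit 16783580780) (nat_lit 89) (nat_lit 5) (nat_lit 92) (nat_lit 5) (nat_lit 90) (nat_lit 5) (nat_lit 526) (nat_lit 436) (nat_lit 238)))) (XT.nd (nat_lit 156) (nat_lit 152) (nat_lit 0) (XT.nd (nat_lit 78) (nat_lit 228) (nat_lit 0) (XT.lf (nat_lit 0) (nat_lit 25987446979) (nat_lit 152) (nat_lit 22424951767) (nat_lit 228) (nat_lit 10454279030) (nat_lit 87) (nat_lit 5) (nat_lit 89) (nat_lit 5) (nat_lit 90) (nat_lit 5) (nat_lit 527) (nat_lit 436) (nat_lit 237)) (XT.lf (nat_lit 0) (nat_lit 1974464002) (nat_lit 152) (nat_lit 3205930242) (nat_lit 228) (nat_lit 54871547563) (nat_lit 84) (nat_lit 5) (nat_lit 86) (nat_lit 5) (nat_lit 87) (nat_lit 5) (nat_lit 528) (nat_lit 436) (nat_lit 236))) (XT.nd (nat_lit 78) (nat_lit 152) (nat_lit 0) (XT.lf (nat_lit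 0) (nat_lit 21565569673) (nat_lit 228) (nat_lit 22987154572) (nat_lit 76) (nat_lit 16702186912) (nat_lit 84) (nat_lit 5) (nat_lit 87) (nat_lit 5) (nat_lit 85) (nat_lit 5) (nat_lit 529) (nat_lit 436) (nat_lit 235)) (XT.lf (nat_lit 0) (nat_lit 13379541905) (nat_lit 152) (nat_lit 25220015193) (nat_lit 228) (nat_lit 23889694890) (nat_lit 82) (nat_lit 5) (nat_lit 84) (nat_lit 5) (nat_lit 85) (nat_lit 5) (nat_lit 530) (nat_lit 436) (nat_lit 234))))) (XT.nd (nat_lit 312) (nat_lit 304) (nat_lit 0) (XT.nd (nat_lit 156) (nat_lit 152) (nat_lit 0) (XT.nd (nat_lit 78) (nat_lit 152) (nat_lit 0) (XT.lf (nat_lit 0) (nat_lit 51302831451) (nat_lit 152) (nat_lit 5070796573) (nat_lit 228) (nat_lit 7380123208) (nat_lit 82) (nat_lit 5) (nat_lit 84) (nat_lit 5) (nat_lit 85) (nat_lit 5) (nat_lit 531) (nat_lit 436) (nat_lit 233)) (XT.lf (nat_lit 0) (nat_lit 9835166121) (nat_lit 152) (nat_lit 39488860207) (nat_lit 76) (nat_lit 15717436342)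 (nat_lit 80) (nat_lit 5) (nat_lit 82) (nat_lit 5) (nat_lit 81) (nat_lit 5) (nat_lit 532) (nat_lit 436) (nat_lit 232))) (XT.nd (nat_lit 78) (nat_lit 152) (nat_lit 0) (XT.lf (nat_lit 0) (nat_lit 27592770822) (nat_lit 152) (nat_lit 1542621854) (nat_lit 76) (nat_lit 37224995056) (nat_lit 80) (nat_lit 5) (nat_lit 82) (nat_lit 5) (nat_lit 81) (nat_lit 5) (nat_lit 533) (nat_lit 436) (nat_lit 231)) (XT.lf (nat_lit 0) (nat_lit 38283688298) (nat_lit 152) (nat_lit 7964517935) (nat_lit 228) (nat_lit 21459721325) (nat_lit 78) (nat_lit 5) (nat_lit 80) (nat_lit 5) (nat_lit 81) (nat_lit 5) (nat_lit 534) (nat_lit 436) (nat_lit 230)))) (XT.nd (nat_lit 156) (nat_lit 152) (nat_lit 0) (XT.nd (nat_lit 78) (nat_lit 76) (nat_lit 0) (XT.lf (nat_lit 0) (nat_lit 10303456179) (nat_lit 76) (nat_lit 55404782453) (nat_lit 152) (nat_lit 3380307017) (nat_lit 77) (nat_lit 5) (nat_lit 78) (nat_lit 5) (nat_lit 79) (nat_lit 4) (nat_lit 535) (nat_lit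 436) (nat_lit 229)) (XT.lf (nat_lit 0) (nat_lit 15320109942) (nat_lit 152) (nat_lit 18909209834) (nat_lit 76) (nat_lit 36265586176) (nat_lit 76) (nat_lit 5) (nat_lit 78) (nat_lit 5) (nat_lit 77) (nat_lit 5) (nat_lit 536) (nat_lit 436) (nat_lit 228))) (XT.nd (nat_lit 78) (nat_lit 0) (nat_lit 0) (XT.lf (nat_lit 0) (nat_lit 22564567663) (nat_lit 152) (nat_lit 12163130495) (nat_lit 228) (nat_lit 37208331949) (nat_lit 74) (nat_lit 5) (nat_lit 76) (nat_lit 5) (nat_lit 77) (nat_lit 5) (nat_lit 537) (nat_lit 436) (nat_lit 227)) (XT.lf (nat_lit 0) (nat_lit 55009112190) (nat_lit 228) (nat_lit 7853164153) (nat_lit 76) (nat_lit 10549363774) (nat_lit 74) (nat_lit 5) (nat_lit 77) (nat_lit 5) (nat_lit 75) (nat_lit 4) (nat_lit 538) (nat_lit 436) (nat_lit 226)))))) (XT.nd (nat_lit 546) (nat_lit 304) (nat_lit 0) (XT.nd (nat_lit 234) (nat_lit 304) (nat_lit 0) (XT.nd (nat_lit 78) (nat_lit 152) (nat_lit 0) (XT.lf (nat_lit 0) (nat_lit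 1411857305) (nat_lit 152) (nat_lit 39454131318) (nat_lit 76) (nat_lit 34051352321) (nat_lit 72) (nat_lit 5) (nat_lit 74) (nat_lit 5) (nat_lit 73) (nat_lit 5) (nat_lit 539) (nat_lit 436) (nat_lit 225)) (XT.nd (nat_lit 78) (nat_lit 0) (nat_lit 0) (XT.lf (nat_lit 0) (nat_lit 3657519221) (nat_lit 152) (nat_lit 17905816802) (nat_lit 228) (nat_lit 54896034712) (nat_lit 70) (nat_lit 5) (nat_lit 72) (nat_lit 5) (nat_lit 73) (nat_lit 5) (nat_lit 540) (nat_lit 436) (nat_lit 224)) (XT.lf (nat_lit 0) (nat_lit 42774217239) (nat_lit 228) (nat_lit 29228664987) (nat_lit 76) (nat_lit 6031133517) (nat_lit 70) (nat_lit 5) (nat_lit 73) (nat_lit 5) (nat_lit 71) (nat_lit 4) (nat_lit 541) (nat_lit 436) (nat_lit 223)))) (XT.nd (nat_lit 156) (nat_lit 152) (nat_lit 0) (XT.nd (nat_lit 78) (nat_lit 76) (nat_lit 0) (XT.lf (nat_lit 0) (nat_lit 15777358583) (nat_lit 76) (nat_lit 49170389319) (nat_lit 152) (nat_lit 14698362576) (nat_lit 69) (nat_lit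 5) (nat_lit 70) (nat_lit 5) (nat_lit 71) (nat_lit 4) (nat_lit 542) (nat_lit 436) (nat_lit 222)) (XT.lf (nat_lit 0) (nat_lit 6648924089) (nat_lit 152) (nat_lit 18635152922) (nat_lit 76) (nat_lit 56011758815) (nat_lit 68) (nat_lit 5) (nat_lit 70) (nat_lit 5) (nat_lit 69) (nat_lit 5) (nat_lit 543) (nat_lit 436) (nat_lit 221))) (XT.nd (nat_lit 78) (nat_lit 0) (nat_lit 0) (XT.lf (nat_lit 0) (nat_lit 28358496206) (nat_lit 152) (nat_lit 252765812) (nat_lit 228) (nat_lit 54371323472) (nat_lit 66) (nat_lit 5) (nat_lit 68) (nat_lit 5) (nat_lit 69) (nat_lit 5) (nat_lit 544) (nat_lit 436) (nat_lit 220)) (XT.lf (nat_lit 0) (nat_lit 51665379546) (nat_lit 228) (nat_lit 7822416018) (nat_lit 76) (nat_lit 25219154855) (nat_lit 66) (nat_lit 5) (nat_lit 69) (nat_lit 5) (nat_lit 67) (nat_lit 4) (nat_lit 545) (nat_lit 436) (nat_lit 219))))) (XT.nd (nat_lit 54132) (nat_lit 0) (nat_lit 18848) (XT.nd (nat_lit 53976) (nat_lit 0) (nat_lit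 18848) (XT.nd (nat_lit 78) (nat_lit 228) (nat_lit 0) (XT.lf (nat_lit 0) (nat_lit 41179696465) (nat_lit 76) (nat_lit 34627307875) (nat_lit 152) (nat_lit 10664165502) (nat_lit 65) (nat_lit 5) (nat_lit 66) (nat_lit 5) (nat_lit 67) (nat_lit 4) (nat_lit 546) (nat_lit 436) (nat_lit 218)) (XT.lf (nat_lit 0) (nat_lit 3469474171) (nat_lit 152) (nat_lit 8784084083) (nat_lit 228) (nat_lit 76027866300) (nat_lit 62) (nat_lit 5) (nat_lit 64) (nat_lit 5) (nat_lit 65) (nat_lit 5) (nat_lit 547) (nat_lit 436) (nat_lit 217))) (XT.nd (nat_lit 78) (nat_lit 0) (nat_lit 0) (XT.lf (nat_lit 0) (nat_lit 2091111265) (nat_lit 0) (nat_lit 2091111265) (nat_lit 1140) (nat_lit 2031322745) (nat_lit 310) (nat_lit 5) (nat_lit 310) (nat_lit 3) (nat_lit 325) (nat_lit 3) (nat_lit 437) (nat_lit 437) (nat_lit 326)) (XT.lf (nat_lit 0) (nat_lit 8942482392) (nat_lit 1140) (nat_lit 2115867675) (nat_lit 1216) (nat_lit 1541506453) (nat_lit 310) (nat_lit 5)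 (nat_lit 325) (nat_lit 3) (nat_lit 326) (nat_lit 5) (nat_lit 438) (nat_lit 437) (nat_lit 325)))) (XT.nd (nat_lit 156) (nat_lit 0) (nat_lit 76) (XT.nd (nat_lit 78) (nat_lit 0) (nat_lit 76) (XT.lf (nat_lit 76) (nat_lit 4228984162) (nat_lit 0) (nat_lit 5373945707) (nat_lit 1216) (nat_lit 3172926000) (nat_lit 311) (nat_lit 5) (nat_lit 310) (nat_lit 5) (nat_lit 326) (nat_lit 5) (nat_lit 439) (nat_lit 437) (nat_lit 324)) (XT.lf (nat_lit 0) (nat_lit 10292881722) (nat_lit 1140) (nat_lit 2163390466) (nat_lit 1216) (nat_lit 500574676) (nat_lit 311) (nat_lit 5) (nat_lit 326) (nat_lit 5) (nat_lit 327) (nat_lit 5) (nat_lit 440) (nat_lit 437) (nat_lit 323))) (XT.nd (nat_lit 78) (nat_lit 0) (nat_lit 0) (XT.lf (nat_lit 76) (nat_lit 4435606666) (nat_lit 0) (nat_lit 6647741209) (nat_lit 1216) (nat_lit 2057527569) (nat_lit 312) (nat_lit 5) (nat_lit 311) (nat_lit 5) (nat_lit 327) (nat_lit 5) (nat_lit 441) (nat_lit 437) (nat_lit 322))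 (XT.lf (nat_lit 76) (nat_lit 11267676801) (nat_lit 0) (nat_lit 636045825) (nat_lit 1216) (nat_lit 1426518678) (nat_lit 312) (nat_lit 5) (nat_lit 311) (nat_lit 5) (nat_lit 327) (nat_lit 5) (nat_lit 442) (nat_lit 437) (nat_lit 321))))))))
noncomputable def xc177 : XT := (XT.nd (nat_lit 2340) (nat_lit 6232) (nat_lit 0) (XT.nd (nat_lit 1170) (nat_lit 4864) (nat_lit 0) (XT.nd (nat_lit 546) (nat_lit 1672) (nat_lit 0) (XT.nd (nat_lit 234) (nat_lit 0) (nat_lit 76) (XT.nd (nat_lit 78) (nat_lit 1216) (nat_lit 0) (XT.lf (nat_lit 76) (nat_lit 4810388327) (nat_lit 0) (nat_lit 8022832635) (nat_lit 1216) (nat_lit 689534002) (nat_lit 313) (nat_lit 5) (nat_lit 312) (nat_lit 5) (nat_lit 328) (nat_lit 5) (nat_lit 443) (nat_lit 437) (nat_lit 320)) (XT.nd (nat_lit 78) (nat_lit 0) (nat_lit 76) (XT.lf (nat_lit 0) (nat_lit 80600684) (nat_lit 1216) (nat_lit 1805480369) (nat_lit 1292) (nat_lit 11834573053) (nat_lit 296) (nat_lit 5) (nat_lit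 312) (nat_lit 5) (nat_lit 313) (nat_lit 5) (nat_lit 444) (nat_lit 437) (nat_lit 319)) (XT.lf (nat_lit 0) (nat_lit 940627598) (nat_lit 1216) (nat_lit 8568728401) (nat_lit 1292) (nat_lit 4412512005) (nat_lit 297) (nat_lit 5) (nat_lit 313) (nat_lit 5) (nat_lit 314) (nat_lit 5) (nat_lit 445) (nat_lit 437) (nat_lit 318)))) (XT.nd (nat_lit 156) (nat_lit 0) (nat_lit 76) (XT.nd (nat_lit 78) (nat_lit 0) (nat_lit 76) (XT.lf (nat_lit 0) (nat_lit 1849422166) (nat_lit 1216) (nat_lit 1393694960) (nat_lit 1292) (nat_lit 10885314136) (nat_lit 297) (nat_lit 5) (nat_lit 313) (nat_lit 5) (nat_lit 314) (nat_lit 5) (nat_lit 446) (nat_lit 437) (nat_lit 317)) (XT.lf (nat_lit 0) (nat_lit 2861957739) (nat_lit 1216) (nat_lit 8265100627) (nat_lit 1292) (nat_lit 3211840629) (nat_lit 298) (nat_lit 5) (nat_lit 314) (nat_lit 5) (nat_lit 315) (nat_lit 5) (nat_lit 447) (nat_lit 437) (nat_lit 316))) (XT.nd (nat_lit 78) (nat_lit 0) (nat_lit 76) (XT.lf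 (nat_lit 0) (nat_lit 3937831071) (nat_lit 1216) (nat_lit 803483310) (nat_lit 1292) (nat_lit 9813379367) (nat_lit 298) (nat_lit 5) (nat_lit 314) (nat_lit 5) (nat_lit 315) (nat_lit 5) (nat_lit 448) (nat_lit 437) (nat_lit 315)) (XT.lf (nat_lit 0) (nat_lit 5118733546) (nat_lit 1216) (nat_lit 7784497600) (nat_lit 1292) (nat_lit 1871550392) (nat_lit 299) (nat_lit 5) (nat_lit 315) (nat_lit 5) (nat_lit 316) (nat_lit 5) (nat_lit 449) (nat_lit 437) (nat_lit 314))))) (XT.nd (nat_lit 312) (nat_lit 1900) (nat_lit 0) (XT.nd (nat_lit 156) (nat_lit 0) (nat_lit 76) (XT.nd (nat_lit 78) (nat_lit 0) (nat_lit 76) (XT.lf (nat_lit 0) (nat_lit 6377546109) (nat_lit 1216) (nat_lit 23811014) (nat_lit 1292) (nat_lit 8598842081) (nat_lit 299) (nat_lit 5) (nat_lit 315) (nat_lit 5) (nat_lit 316) (nat_lit 5) (nat_lit 450) (nat_lit 437) (nat_lit 313)) (XT.lf (nat_lit 0) (nat_lit 7743516782) (nat_lit 1216) (nat_lit 7115535639) (nat_lit 1292) (nat_lit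 371246848) (nat_lit 300) (nat_lit 5) (nat_lit 316) (nat_lit 5) (nat_lit 317) (nat_lit 5) (nat_lit 451) (nat_lit 437) (nat_lit 312))) (XT.nd (nat_lit 78) (nat_lit 0) (nat_lit 0) (XT.lf (nat_lit 76) (nat_lit 976463396) (nat_lit 0) (nat_lit 8235016626) (nat_lit 1292) (nat_lit 6253993543) (nat_lit 301) (nat_lit 5) (nat_lit 300) (nat_lit 5) (nat_lit 317) (nat_lit 5) (nat_lit 452) (nat_lit 437) (nat_lit 311)) (XT.lf (nat_lit 76) (nat_lit 9447283677) (nat_lit 0) (nat_lit 1336311105) (nat_lit 1292) (nat_lit 4922306514) (nat_lit 301) (nat_lit 5) (nat_lit 300) (nat_lit 5) (nat_lit 317) (nat_lit 5) (nat_lit 453) (nat_lit 437) (nat_lit 310)))) (XT.nd (nat_lit 156) (nat_lit 836) (nat_lit 0) (XT.nd (nat_lit 78) (nat_lit 0) (nat_lit 0) (XT.lf (nat_lit 0) (nat_lit 2196207670) (nat_lit 1216) (nat_lit 10271854904) (nat_lit 1292) (nat_lit 3483525136) (nat_lit 285) (nat_lit 5) (nat_lit 301) (nat_lit 5) (nat_lit 302) (nat_lit 5) (nat_lit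 454) (nat_lit 437) (nat_lit 309)) (XT.lf (nat_lit 0) (nat_lit 11009699566) (nat_lit 1216) (nat_lit 3258522867) (nat_lit 1292) (nat_lit 1934469036) (nat_lit 285) (nat_lit 5) (nat_lit 301) (nat_lit 5) (nat_lit 302) (nat_lit 5) (nat_lit 455) (nat_lit 437) (nat_lit 308))) (XT.nd (nat_lit 78) (nat_lit 76) (nat_lit 0) (XT.lf (nat_lit 0) (nat_lit 3649533978) (nat_lit 760) (nat_lit 12535245131) (nat_lit 836) (nat_lit 274678923) (nat_lit 275) (nat_lit 5) (nat_lit 285) (nat_lit 5) (nat_lit 286) (nat_lit 5) (nat_lit 456) (nat_lit 437) (nat_lit 307)) (XT.lf (nat_lit 0) (nat_lit 1481434967) (nat_lit 836) (nat_lit 3915093685) (nat_lit 76) (nat_lit 11324750603) (nat_lit 274) (nat_lit 5) (nat_lit 285) (nat_lit 5) (nat_lit 275) (nat_lit 5) (nat_lit 457) (nat_lit 437) (nat_lit 306)))))) (XT.nd (nat_lit 546) (nat_lit 2584) (nat_lit 0) (XT.nd (nat_lit 234) (nat_lit 1064) (nat_lit 0) (XT.nd (nat_lit 78) (nat_lit 608) (nat_lit 0) (XT.lf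 (nat_lit 0) (nat_lit 3344995499) (nat_lit 684) (nat_lit 11670622754) (nat_lit 76) (nat_lit 1973448081) (nat_lit 266) (nat_lit 5) (nat_lit 275) (nat_lit 5) (nat_lit 267) (nat_lit 5) (nat_lit 458) (nat_lit 437) (nat_lit 305)) (XT.nd (nat_lit 78) (nat_lit 608) (nat_lit 0) (XT.lf (nat_lit 0) (nat_lit 5347656940) (nat_lit 684) (nat_lit 2418159594) (nat_lit 76) (nat_lit 9496575959) (nat_lit 266) (nat_lit 5) (nat_lit 275) (nat_lit 5) (nat_lit 267) (nat_lit 5) (nat_lit 459) (nat_lit 437) (nat_lit 304)) (XT.lf (nat_lit 0) (nat_lit 7243635871) (nat_lit 608) (nat_lit 226525537) (nat_lit 684) (nat_lit 10071965382) (nat_lit 258) (nat_lit 5) (nat_lit 266) (nat_lit 5) (nat_lit 267) (nat_lit 5) (nat_lit 460) (nat_lit 437) (nat_lit 303)))) (XT.nd (nat_lit 156) (nat_lit 532) (nat_lit 0) (XT.nd (nat_lit 78) (nat_lit 532) (nat_lit 0) (XT.lf (nat_lit 0) (nat_lit 9743801093) (nat_lit 684) (nat_lit 667166172) (nat_lit 76) (nat_lit 7416663266)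 (nat_lit 258) (nat_lit 5) (nat_lit 267) (nat_lit 5) (nat_lit 259) (nat_lit 5) (nat_lit 461) (nat_lit 437) (nat_lit 302)) (XT.lf (nat_lit 0) (nat_lit 9425271632) (nat_lit 532) (nat_lit 2743834967) (nat_lit 608) (nat_lit 5950090264) (nat_lit 251) (nat_lit 5) (nat_lit 258) (nat_lit 5) (nat_lit 259) (nat_lit 5) (nat_lit 462) (nat_lit 437) (nat_lit 301))) (XT.nd (nat_lit 78) (nat_lit 0) (nat_lit 0) (XT.lf (nat_lit 0) (nat_lit 1382538603) (nat_lit 532) (nat_lit 13345056322) (nat_lit 608) (nat_lit 3690103693) (nat_lit 244) (nat_lit 5) (nat_lit 251) (nat_lit 5) (nat_lit 252) (nat_lit 5) (nat_lit 463) (nat_lit 437) (nat_lit 300)) (XT.lf (nat_lit 0) (nat_lit 11902213945) (nat_lit 532) (nat_lit 5566285146) (nat_lit 608) (nat_lit 1253487614) (nat_lit 244) (nat_lit 5) (nat_lit 251) (nat_lit 5) (nat_lit 252) (nat_lit 5) (nat_lit 464) (nat_lit 437) (nat_lit 299))))) (XT.nd (nat_lit 312) (nat_lit 1444) (nat_lit 0) (XT.nd (nat_lit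 156) (nat_lit 532) (nat_lit 0) (XT.nd (nat_lit 78) (nat_lit 0) (nat_lit 0) (XT.lf (nat_lit 0) (nat_lit 1282923007) (nat_lit 608) (nat_lit 15304447145) (nat_lit 76) (nat_lit 2446135773) (nat_lit 236) (nat_lit 5) (nat_lit 244) (nat_lit 5) (nat_lit 237) (nat_lit 5) (nat_lit 465) (nat_lit 437) (nat_lit 298)) (XT.lf (nat_lit 0) (nat_lit 3986197197) (nat_lit 608) (nat_lit 4696006873) (nat_lit 76) (nat_lit 10668316393) (nat_lit 236) (nat_lit 5) (nat_lit 244) (nat_lit 5) (nat_lit 237) (nat_lit 5) (nat_lit 466) (nat_lit 437) (nat_lit 297))) (XT.nd (nat_lit 78) (nat_lit 0) (nat_lit 0) (XT.lf (nat_lit 0) (nat_lit 6345132396) (nat_lit 532) (nat_lit 477988956) (nat_lit 608) (nat_lit 12852348520) (nat_lit 229) (nat_lit 5) (nat_lit 236) (nat_lit 5) (nat_lit 237) (nat_lit 5) (nat_lit 467) (nat_lit 437) (nat_lit 296)) (XT.lf (nat_lit 0) (nat_lit 9861383905) (nat_lit 608) (nat_lit 2281599091) (nat_lit 76) (nat_lit 7863698808) (nat_lit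 229) (nat_lit 5) (nat_lit 237) (nat_lit 5) (nat_lit 230) (nat_lit 5) (nat_lit 468) (nat_lit 437) (nat_lit 295)))) (XT.nd (nat_lit 156) (nat_lit 532) (nat_lit 0) (XT.nd (nat_lit 78) (nat_lit 456) (nat_lit 0) (XT.lf (nat_lit 0) (nat_lit 9265429342) (nat_lit 456) (nat_lit 3811109683) (nat_lit 532) (nat_lit 7268719656) (nat_lit 223) (nat_lit 5) (nat_lit 229) (nat_lit 5) (nat_lit 230) (nat_lit 5) (nat_lit 469) (nat_lit 437) (nat_lit 294)) (XT.lf (nat_lit 0) (nat_lit 465966014) (nat_lit 456) (nat_lit 15987870584) (nat_lit 532) (nat_lit 4238186539) (nat_lit 217) (nat_lit 5) (nat_lit 223) (nat_lit 5) (nat_lit 224) (nat_lit 5) (nat_lit 470) (nat_lit 437) (nat_lit 293))) (XT.nd (nat_lit 78) (nat_lit 532) (nat_lit 0) (XT.lf (nat_lit 0) (nat_lit 12537491102) (nat_lit 456) (nat_lit 7536433519) (nat_lit 532) (nat_lit 971022637) (nat_lit 217) (nat_lit 5) (nat_lit 223) (nat_lit 5) (nat_lit 224) (nat_lit 5) (nat_lit 471) (nat_lit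 437) (nat_lit 292)) (XT.lf (nat_lit 0) (nat_lit 2386213132) (nat_lit 532) (nat_lit 17817962578) (nat_lit 76) (nat_lit 1202430530) (nat_lit 210) (nat_lit 5) (nat_lit 217) (nat_lit 5) (nat_lit 211) (nat_lit 5) (nat_lit 472) (nat_lit 437) (nat_lit 291))))))) (XT.nd (nat_lit 1170) (nat_lit 3040) (nat_lit 0) (XT.nd (nat_lit 546) (nat_lit 1444) (nat_lit 0) (XT.nd (nat_lit 234) (nat_lit 1292) (nat_lit 0) (XT.nd (nat_lit 78) (nat_lit 456) (nat_lit 0) (XT.lf (nat_lit 0) (nat_lit 5978520421) (nat_lit 532) (nat_lit 5648887171) (nat_lit 76) (nat_lit 10146803648) (nat_lit 210) (nat_lit 5) (nat_lit 217) (nat_lit 5) (nat_lit 211) (nat_lit 5) (nat_lit 473) (nat_lit 437) (nat_lit 290)) (XT.nd (nat_lit 78) (nat_lit 0) (nat_lit 0) (XT.lf (nat_lit 0) (nat_lit 7013094131) (nat_lit 456) (nat_lit 2725629259) (nat_lit 532) (nat_lit 12412317986) (nat_lit 204) (nat_lit 5) (nat_lit 210) (nat_lit 5) (nat_lit 211) (nat_lit 5) (nat_lit 474)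 (nat_lit 437) (nat_lit 289)) (XT.lf (nat_lit 0) (nat_lit 13724097671) (nat_lit 532) (nat_lit 2438361692) (nat_lit 76) (nat_lit 6373346854) (nat_lit 204) (nat_lit 5) (nat_lit 211) (nat_lit 5) (nat_lit 205) (nat_lit 5) (nat_lit 475) (nat_lit 437) (nat_lit 288)))) (XT.nd (nat_lit 156) (nat_lit 456) (nat_lit 0) (XT.nd (nat_lit 78) (nat_lit 456) (nat_lit 0) (XT.lf (nat_lit 0) (nat_lit 10817450979) (nat_lit 380) (nat_lit 7135583416) (nat_lit 456) (nat_lit 4975360306) (nat_lit 199) (nat_lit 5) (nat_lit 204) (nat_lit 5) (nat_lit 205) (nat_lit 5) (nat_lit 476) (nat_lit 437) (nat_lit 287)) (XT.lf (nat_lit 0) (nat_lit 1181974968) (nat_lit 456) (nat_lit 21177006971) (nat_lit 532) (nat_lit 972275333) (nat_lit 193) (nat_lit 5) (nat_lit 199) (nat_lit 5) (nat_lit 200) (nat_lit 5) (nat_lit 477) (nat_lit 437) (nat_lit 286))) (XT.nd (nat_lit 78) (nat_lit 380) (nat_lit 0) (XT.lf (nat_lit 0) (nat_lit 3276751907) (nat_lit 532) (nat_lit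 8731752605) (nat_lit 76) (nat_lit 11731173173) (nat_lit 192) (nat_lit 5) (nat_lit 199) (nat_lit 5) (nat_lit 193) (nat_lit 5) (nat_lit 478) (nat_lit 437) (nat_lit 285)) (XT.lf (nat_lit 0) (nat_lit 5170829574) (nat_lit 380) (nat_lit 2505960672) (nat_lit 456) (nat_lit 16481979861) (nat_lit 187) (nat_lit 5) (nat_lit 192) (nat_lit 5) (nat_lit 193) (nat_lit 5) (nat_lit 479) (nat_lit 437) (nat_lit 284))))) (XT.nd (nat_lit 312) (nat_lit 684) (nat_lit 0) (XT.nd (nat_lit 156) (nat_lit 380) (nat_lit 0) (XT.nd (nat_lit 78) (nat_lit 380) (nat_lit 0) (XT.lf (nat_lit 0) (nat_lit 12361337943) (nat_lit 456) (nat_lit 4998015320) (nat_lit 76) (nat_lit 7226507428) (nat_lit 187) (nat_lit 5) (nat_lit 193) (nat_lit 5) (nat_lit 188) (nat_lit 5) (nat_lit 480) (nat_lit 437) (nat_lit 283)) (XT.lf (nat_lit 0) (nat_lit 9564860413) (nat_lit 380) (nat_lit 7731972606) (nat_lit 456) (nat_lit 7725619258) (nat_lit 182) (nat_lit 5) (nat_lit 187) (nat_lit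 5) (nat_lit 188) (nat_lit 5) (nat_lit 481) (nat_lit 437) (nat_lit 282))) (XT.nd (nat_lit 78) (nat_lit 380) (nat_lit 0) (XT.lf (nat_lit 0) (nat_lit 22446096541) (nat_lit 456) (nat_lit 833709163) (nat_lit 76) (nat_lit 2190365398) (nat_lit 182) (nat_lit 5) (nat_lit 188) (nat_lit 5) (nat_lit 183) (nat_lit 5) (nat_lit 482) (nat_lit 437) (nat_lit 281)) (XT.lf (nat_lit 0) (nat_lit 1994240898) (nat_lit 380) (nat_lit 11519181890) (nat_lit 76) (nat_lit 12411038540) (nat_lit 177) (nat_lit 5) (nat_lit 182) (nat_lit 5) (nat_lit 178) (nat_lit 5) (nat_lit 483) (nat_lit 437) (nat_lit 280)))) (XT.nd (nat_lit 156) (nat_lit 304) (nat_lit 0) (XT.nd (nat_lit 78) (nat_lit 0) (nat_lit 0) (XT.lf (nat_lit 0) (nat_lit 3761323831) (nat_lit 380) (nat_lit 3379616644) (nat_lit 456) (nat_lit 19249383625) (nat_lit 172) (nat_lit 5) (nat_lit 177) (nat_lit 5) (nat_lit 178) (nat_lit 5) (nat_lit 484) (nat_lit 437) (nat_lit 279)) (XT.lf (nat_lit 0)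 (nat_lit 12621391221) (nat_lit 456) (nat_lit 7207817473) (nat_lit 76) (nat_lit 7035574086) (nat_lit 172) (nat_lit 5) (nat_lit 178) (nat_lit 5) (nat_lit 173) (nat_lit 5) (nat_lit 485) (nat_lit 437) (nat_lit 278))) (XT.nd (nat_lit 78) (nat_lit 0) (nat_lit 0) (XT.lf (nat_lit 0) (nat_lit 8806104729) (nat_lit 304) (nat_lit 9572465437) (nat_lit 380) (nat_lit 8971536129) (nat_lit 168) (nat_lit 5) (nat_lit 172) (nat_lit 5) (nat_lit 173) (nat_lit 5) (nat_lit 486) (nat_lit 437) (nat_lit 277)) (XT.lf (nat_lit 0) (nat_lit 24385775116) (nat_lit 380) (nat_lit 2418204378) (nat_lit 76) (nat_lit 1043691205) (nat_lit 168) (nat_lit 5) (nat_lit 173) (nat_lit 5) (nat_lit 169) (nat_lit 5) (nat_lit 487) (nat_lit 437) (nat_lit 276)))))) (XT.nd (nat_lit 624) (nat_lit 1368) (nat_lit 0) (XT.nd (nat_lit 312) (nat_lit 684) (nat_lit 0) (XT.nd (nat_lit 156) (nat_lit 304) (nat_lit 0) (XT.nd (nat_lit 78) (nat_lit 304) (nat_lit 0) (XT.lf (nat_lit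 0) (nat_lit 2399436199) (nat_lit 380) (nat_lit 14007984979) (nat_lit 76) (nat_lit 11945215549) (nat_lit 163) (nat_lit 5) (nat_lit 168) (nat_lit 5) (nat_lit 164) (nat_lit 5) (nat_lit 488) (nat_lit 437) (nat_lit 275)) (XT.lf (nat_lit 0) (nat_lit 2799935764) (nat_lit 304) (nat_lit 5613133908) (nat_lit 380) (nat_lit 20457272963) (nat_lit 159) (nat_lit 5) (nat_lit 163) (nat_lit 5) (nat_lit 164) (nat_lit 5) (nat_lit 489) (nat_lit 437) (nat_lit 274))) (XT.nd (nat_lit 78) (nat_lit 304) (nat_lit 0) (XT.lf (nat_lit 0) (nat_lit 14797408737) (nat_lit 380) (nat_lit 9062597384) (nat_lit 76) (nat_lit 5537865145) (nat_lit 159) (nat_lit 5) (nat_lit 164) (nat_lit 5) (nat_lit 160) (nat_lit 5) (nat_lit 490) (nat_lit 437) (nat_lit 273)) (XT.lf (nat_lit 0) (nat_lit 8558937404) (nat_lit 304) (nat_lit 12946874967) (nat_lit 380) (nat_lit 8431437785) (nat_lit 155) (nat_lit 5) (nat_lit 159) (nat_lit 5) (nat_lit 160) (nat_lit 5) (nat_lit 491)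 (nat_lit 437) (nat_lit 272)))) (XT.nd (nat_lit 156) (nat_lit 304) (nat_lit 0) (XT.nd (nat_lit 78) (nat_lit 380) (nat_lit 0) (XT.lf (nat_lit 0) (nat_lit 26887021437) (nat_lit 304) (nat_lit 1614725357) (nat_lit 380) (nat_lit 1988475680) (nat_lit 155) (nat_lit 5) (nat_lit 159) (nat_lit 5) (nat_lit 160) (nat_lit 5) (nat_lit 492) (nat_lit 437) (nat_lit 271)) (XT.lf (nat_lit 0) (nat_lit 4794118121) (nat_lit 380) (nat_lit 16208445180) (nat_lit 76) (nat_lit 10048769604) (nat_lit 150) (nat_lit 5) (nat_lit 155) (nat_lit 5) (nat_lit 151) (nat_lit 5) (nat_lit 493) (nat_lit 437) (nat_lit 270))) (XT.nd (nat_lit 78) (nat_lit 0) (nat_lit 0) (XT.lf (nat_lit 0) (nat_lit 2288869131) (nat_lit 304) (nat_lit 9521005830) (nat_lit 380) (nat_lit 19816721889) (nat_lit 146) (nat_lit 5) (nat_lit 150) (nat_lit 5) (nat_lit 151) (nat_lit 5) (nat_lit 494) (nat_lit 437) (nat_lit 269)) (XT.lf (nat_lit 0) (nat_lit 19218520127) (nat_lit 380) (nat_lit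 10572469753) (nat_lit 76) (nat_lit 2422656737) (nat_lit 146) (nat_lit 5) (nat_lit 151) (nat_lit 5) (nat_lit 147) (nat_lit 5) (nat_lit 495) (nat_lit 437) (nat_lit 268))))) (XT.nd (nat_lit 312) (nat_lit 532) (nat_lit 0) (XT.nd (nat_lit 156) (nat_lit 532) (nat_lit 0) (XT.nd (nat_lit 78) (nat_lit 76) (nat_lit 0) (XT.lf (nat_lit 0) (nat_lit 8826092105) (nat_lit 228) (nat_lit 18197552906) (nat_lit 304) (nat_lit 5789436616) (nat_lit 143) (nat_lit 5) (nat_lit 146) (nat_lit 5) (nat_lit 147) (nat_lit 5) (nat_lit 496) (nat_lit 437) (nat_lit 267)) (XT.lf (nat_lit 0) (nat_lit 1703520773) (nat_lit 304) (nat_lit 4428347519) (nat_lit 76) (nat_lit 27295072441) (nat_lit 142) (nat_lit 5) (nat_lit 146) (nat_lit 5) (nat_lit 143) (nat_lit 5) (nat_lit 497) (nat_lit 437) (nat_lit 266))) (XT.nd (nat_lit 78) (nat_lit 228) (nat_lit 0) (XT.lf (nat_lit 0) (nat_lit 9516213802) (nat_lit 380) (nat_lit 18151785422) (nat_lit 76) (nat_lit 6383157820)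 (nat_lit 138) (nat_lit 5) (nat_lit 143) (nat_lit 5) (nat_lit 139) (nat_lit 5) (nat_lit 498) (nat_lit 437) (nat_lit 265)) (XT.lf (nat_lit 0) (nat_lit 2209443744) (nat_lit 228) (nat_lit 15476270377) (nat_lit 304) (nat_lit 17004713250) (nat_lit 135) (nat_lit 5) (nat_lit 138) (nat_lit 5) (nat_lit 139) (nat_lit 5) (nat_lit 499) (nat_lit 437) (nat_lit 264)))) (XT.nd (nat_lit 156) (nat_lit 304) (nat_lit 0) (XT.nd (nat_lit 78) (nat_lit 228) (nat_lit 0) (XT.lf (nat_lit 0) (nat_lit 23546219747) (nat_lit 228) (nat_lit 2732758623) (nat_lit 304) (nat_lit 9064537381) (nat_lit 135) (nat_lit 5) (nat_lit 138) (nat_lit 5) (nat_lit 139) (nat_lit 5) (nat_lit 500) (nat_lit 437) (nat_lit 263)) (XT.lf (nat_lit 0) (nat_lit 9586792874) (nat_lit 228) (nat_lit 25730796417) (nat_lit 304) (nat_lit 692981331) (nat_lit 132) (nat_lit 5) (nat_lit 135) (nat_lit 5) (nat_lit 136) (nat_lit 5) (nat_lit 501) (nat_lit 437) (nat_lit 262))) (XT.nd (nat_lit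 78) (nat_lit 228) (nat_lit 0) (XT.lf (nat_lit 0) (nat_lit 7917857995) (nat_lit 304) (nat_lit 4951583814) (nat_lit 76) (nat_lit 23821622636) (nat_lit 131) (nat_lit 5) (nat_lit 135) (nat_lit 5) (nat_lit 132) (nat_lit 5) (nat_lit 502) (nat_lit 437) (nat_lit 261)) (XT.lf (nat_lit 0) (nat_lit 16942216217) (nat_lit 304) (nat_lit 19900025482) (nat_lit 76) (nat_lit 544452166) (nat_lit 128) (nat_lit 5) (nat_lit 132) (nat_lit 5) (nat_lit 129) (nat_lit 5) (nat_lit 503) (nat_lit 437) (nat_lit 260))))))))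
noncomputable def xc178 : XT := (XT.nd (nat_lit 2340) (nat_lit 1140) (nat_lit 0) (XT.nd (nat_lit 1170) (nat_lit 1596) (nat_lit 0) (XT.nd (nat_lit 546) (nat_lit 1064) (nat_lit 0) (XT.nd (nat_lit 234) (nat_lit 456) (nat_lit 0) (XT.nd (nat_lit 78) (nat_lit 304) (nat_lit 0) (XT.lf (nat_lit 0) (nat_lit 2511861399) (nat_lit 228) (nat_lit 23923178210) (nat_lit 304) (nat_lit 11662220794) (nat_lit 125) (nat_lit 5) (nat_lit 128) (nat_lit 5) (nat_lit 129) (nat_lit 5) (nat_lit 504) (nat_lit 437) (nat_lit 259)) (XT.nd (nat_lit 78) (nat_lit 304) (nat_lit 0) (XT.lf (nat_lit 0) (nat_lit 25996988260) (nat_lit 228) (nat_lit 10412341294) (nat_lit 304) (nat_lit 2413914190) (nat_lit 125) (nat_lit 5) (nat_lit 128) (nat_lit 5) (nat_lit 129) (nat_lit 5) (nat_lit 505) (nat_lit 437) (nat_lit 258)) (XT.lf (nat_lit 0) (nat_lit 7107569170) (nat_lit 304) (nat_lit 28851188818) (nat_lit 76) (nat_lit 3606162785) (nat_lit 121) (nat_lit 5) (nat_lit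 125) (nat_lit 5) (nat_lit 122) (nat_lit 5) (nat_lit 506) (nat_lit 437) (nat_lit 257)))) (XT.nd (nat_lit 156) (nat_lit 228) (nat_lit 0) (XT.nd (nat_lit 78) (nat_lit 228) (nat_lit 0) (XT.lf (nat_lit 0) (nat_lit 17095918106) (nat_lit 304) (nat_lit 5237348792) (nat_lit 76) (nat_lit 17987972299) (nat_lit 121) (nat_lit 5) (nat_lit 125) (nat_lit 5) (nat_lit 122) (nat_lit 5) (nat_lit 507) (nat_lit 437) (nat_lit 256)) (XT.lf (nat_lit 0) (nat_lit 19457845730) (nat_lit 228) (nat_lit 8109077022) (nat_lit 304) (nat_lit 13527834497) (nat_lit 118) (nat_lit 5) (nat_lit 121) (nat_lit 5) (nat_lit 122) (nat_lit 5) (nat_lit 508) (nat_lit 437) (nat_lit 255))) (XT.nd (nat_lit 78) (nat_lit 76) (nat_lit 0) (XT.lf (nat_lit 0) (nat_lit 3101699066) (nat_lit 152) (nat_lit 35392460428) (nat_lit 228) (nat_lit 3393058517) (nat_lit 116) (nat_lit 5) (nat_lit 118) (nat_lit 5) (nat_lit 119) (nat_lit 5) (nat_lit 509) (nat_lit 437) (nat_lit 254)) (XT.lf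 (nat_lit 0) (nat_lit 7205218717) (nat_lit 228) (nat_lit 13827867851) (nat_lit 76) (nat_lit 21659426008) (nat_lit 115) (nat_lit 5) (nat_lit 118) (nat_lit 5) (nat_lit 116) (nat_lit 5) (nat_lit 510) (nat_lit 437) (nat_lit 253))))) (XT.nd (nat_lit 312) (nat_lit 380) (nat_lit 0) (XT.nd (nat_lit 156) (nat_lit 456) (nat_lit 0) (XT.nd (nat_lit 78) (nat_lit 0) (nat_lit 0) (XT.lf (nat_lit 0) (nat_lit 12073927753) (nat_lit 228) (nat_lit 6091502351) (nat_lit 304) (nat_lit 25352162753) (nat_lit 112) (nat_lit 5) (nat_lit 115) (nat_lit 5) (nat_lit 116) (nat_lit 5) (nat_lit 511) (nat_lit 437) (nat_lit 252)) (XT.lf (nat_lit 0) (nat_lit 29680991124) (nat_lit 304) (nat_lit 5424385923) (nat_lit 76) (nat_lit 9255252402) (nat_lit 112) (nat_lit 5) (nat_lit 116) (nat_lit 5) (nat_lit 113) (nat_lit 5) (nat_lit 512) (nat_lit 437) (nat_lit 251))) (XT.nd (nat_lit 78) (nat_lit 304) (nat_lit 0) (XT.lf (nat_lit 0) (nat_lit 21732817492) (nat_lit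 152) (nat_lit 20074679987) (nat_lit 228) (nat_lit 3413495498) (nat_lit 110) (nat_lit 5) (nat_lit 112) (nat_lit 5) (nat_lit 113) (nat_lit 5) (nat_lit 513) (nat_lit 437) (nat_lit 250)) (XT.lf (nat_lit 0) (nat_lit 3696831042) (nat_lit 228) (nat_lit 4421094566) (nat_lit 304) (nat_lit 37984266305) (nat_lit 106) (nat_lit 5) (nat_lit 109) (nat_lit 5) (nat_lit 110) (nat_lit 5) (nat_lit 514) (nat_lit 437) (nat_lit 249)))) (XT.nd (nat_lit 156) (nat_lit 228) (nat_lit 0) (XT.nd (nat_lit 78) (nat_lit 152) (nat_lit 0) (XT.lf (nat_lit 0) (nat_lit 20274992115) (nat_lit 304) (nat_lit 14978932928) (nat_lit 76) (nat_lit 11744438722) (nat_lit 106) (nat_lit 5) (nat_lit 110) (nat_lit 5) (nat_lit 107) (nat_lit 5) (nat_lit 515) (nat_lit 437) (nat_lit 248)) (XT.lf (nat_lit 0) (nat_lit 13483350651) (nat_lit 152) (nat_lit 19483201490) (nat_lit 228) (nat_lit 14949775358) (nat_lit 104) (nat_lit 5) (nat_lit 106) (nat_lit 5) (nat_lit 107) (nat_lit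 5) (nat_lit 516) (nat_lit 437) (nat_lit 247))) (XT.nd (nat_lit 78) (nat_lit 228) (nat_lit 0) (XT.lf (nat_lit 0) (nat_lit 43100344950) (nat_lit 152) (nat_lit 3086215170) (nat_lit 228) (nat_lit 2670839159) (nat_lit 104) (nat_lit 5) (nat_lit 106) (nat_lit 5) (nat_lit 107) (nat_lit 5) (nat_lit 517) (nat_lit 437) (nat_lit 246)) (XT.lf (nat_lit 0) (nat_lit 10146332292) (nat_lit 228) (nat_lit 25804501912) (nat_lit 76) (nat_lit 13862055852) (nat_lit 101) (nat_lit 5) (nat_lit 104) (nat_lit 5) (nat_lit 102) (nat_lit 5) (nat_lit 518) (nat_lit 437) (nat_lit 245)))))) (XT.nd (nat_lit 546) (nat_lit 836) (nat_lit 0) (XT.nd (nat_lit 234) (nat_lit 456) (nat_lit 0) (XT.nd (nat_lit 78) (nat_lit 152) (nat_lit 0) (XT.lf (nat_lit 0) (nat_lit 4003942975) (nat_lit 152) (nat_lit 19414681282) (nat_lit 228) (nat_lit 27373899535) (nat_lit 99) (nat_lit 5) (nat_lit 101) (nat_lit 5) (nat_lit 102) (nat_lit 5) (nat_lit 519) (nat_lit 437) (nat_lit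 244)) (XT.nd (nat_lit 78) (nat_lit 152) (nat_lit 0) (XT.lf (nat_lit 0) (nat_lit 35229549590) (nat_lit 152) (nat_lit 2116684164) (nat_lit 228) (nat_lit 14447598473) (nat_lit 99) (nat_lit 5) (nat_lit 101) (nat_lit 5) (nat_lit 102) (nat_lit 5) (nat_lit 520) (nat_lit 437) (nat_lit 243)) (XT.lf (nat_lit 0) (nat_lit 14696651139) (nat_lit 152) (nat_lit 37283863156) (nat_lit 228) (nat_lit 836000482) (nat_lit 97) (nat_lit 5) (nat_lit 99) (nat_lit 5) (nat_lit 100) (nat_lit 5) (nat_lit 521) (nat_lit 437) (nat_lit 242)))) (XT.nd (nat_lit 156) (nat_lit 228) (nat_lit 0) (XT.nd (nat_lit 78) (nat_lit 152) (nat_lit 0) (XT.lf (nat_lit 0) (nat_lit 13113216441) (nat_lit 228) (nat_lit 6785206612) (nat_lit 76) (nat_lit 33962056804) (nat_lit 96) (nat_lit 5) (nat_lit 99) (nat_lit 5) (nat_lit 97) (nat_lit 5) (nat_lit 522) (nat_lit 437) (nat_lit 241)) (XT.lf (nat_lit 0) (nat_lit 25982431708) (nat_lit 152) (nat_lit 1728188880) (nat_lit 228)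 (nat_lit 27217499712) (nat_lit 94) (nat_lit 5) (nat_lit 96) (nat_lit 5) (nat_lit 97) (nat_lit 5) (nat_lit 523) (nat_lit 437) (nat_lit 240))) (XT.nd (nat_lit 78) (nat_lit 76) (nat_lit 0) (XT.lf (nat_lit 0) (nat_lit 3749851414) (nat_lit 152) (nat_lit 39261397442) (nat_lit 228) (nat_lit 13008582169) (nat_lit 92) (nat_lit 5) (nat_lit 94) (nat_lit 5) (nat_lit 95) (nat_lit 5) (nat_lit 524) (nat_lit 437) (nat_lit 239)) (XT.lf (nat_lit 0) (nat_lit 1903938155) (nat_lit 228) (nat_lit 19157363628) (nat_lit 76) (nat_lit 36073250048) (nat_lit 91) (nat_lit 5) (nat_lit 94) (nat_lit 5) (nat_lit 92) (nat_lit 5) (nat_lit 525) (nat_lit 437) (nat_lit 238))))) (XT.nd (nat_lit 312) (nat_lit 304) (nat_lit 0) (XT.nd (nat_lit 156) (nat_lit 380) (nat_lit 0) (XT.nd (nat_lit 78) (nat_lit 0) (nat_lit 0) (XT.lf (nat_lit 0) (nat_lit 15109019164) (nat_lit 152) (nat_lit 2035462973) (nat_lit 228) (nat_lit 41130105077) (nat_lit 89) (nat_lit 5) (nat_lit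 91) (nat_lit 5) (nat_lit 92) (nat_lit 5) (nat_lit 526) (nat_lit 437) (nat_lit 237)) (XT.lf (nat_lit 0) (nat_lit 33203302081) (nat_lit 228) (nat_lit 8823302112) (nat_lit 76) (nat_lit 17411387791) (nat_lit 89) (nat_lit 5) (nat_lit 92) (nat_lit 5) (nat_lit 90) (nat_lit 5) (nat_lit 527) (nat_lit 437) (nat_lit 236))) (XT.nd (nat_lit 78) (nat_lit 228) (nat_lit 0) (XT.lf (nat_lit 0) (nat_lit 27051456137) (nat_lit 152) (nat_lit 22969593428) (nat_lit 228) (nat_lit 10606934553) (nat_lit 87) (nat_lit 5) (nat_lit 89) (nat_lit 5) (nat_lit 90) (nat_lit 5) (nat_lit 528) (nat_lit 437) (nat_lit 235)) (XT.lf (nat_lit 0) (nat_lit 2318411348) (nat_lit 152) (nat_lit 3173366212) (nat_lit 228) (nat_lit 56357038054) (nat_lit 84) (nat_lit 5) (nat_lit 86) (nat_lit 5) (nat_lit 87) (nat_lit 5) (nat_lit 529) (nat_lit 437) (nat_lit 234)))) (XT.nd (nat_lit 156) (nat_lit 152) (nat_lit 0) (XT.nd (nat_lit 78) (nat_lit 152) (nat_lit 0) (XT.lf (nat_lit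 0) (nat_lit 22365166894) (nat_lit 228) (nat_lit 23397001902) (nat_lit 76) (nat_lit 17325805644) (nat_lit 84) (nat_lit 5) (nat_lit 87) (nat_lit 5) (nat_lit 85) (nat_lit 5) (nat_lit 530) (nat_lit 437) (nat_lit 233)) (XT.lf (nat_lit 0) (nat_lit 14057952653) (nat_lit 152) (nat_lit 25850438681) (nat_lit 228) (nat_lit 24451007791) (nat_lit 82) (nat_lit 5) (nat_lit 84) (nat_lit 5) (nat_lit 85) (nat_lit 5) (nat_lit 531) (nat_lit 437) (nat_lit 232))) (XT.nd (nat_lit 78) (nat_lit 152) (nat_lit 0) (XT.lf (nat_lit 0) (nat_lit 53110872210) (nat_lit 152) (nat_lit 5100418559) (nat_lit 228) (nat_lit 7450674530) (nat_lit 82) (nat_lit 5) (nat_lit 84) (nat_lit 5) (nat_lit 85) (nat_lit 5) (nat_lit 532) (nat_lit 437) (nat_lit 231)) (XT.lf (nat_lit 0) (nat_lit 10277592699) (nat_lit 152) (nat_lit 40401080133) (nat_lit 76) (nat_lit 16309607996) (nat_lit 80) (nat_lit 5) (nat_lit 82) (nat_lit 5) (nat_lit 81) (nat_lit 5) (nat_lit 533) (nat_lit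 437) (nat_lit 230))))))) (XT.nd (nat_lit 55068) (nat_lit 0) (nat_lit 17556) (XT.nd (nat_lit 546) (nat_lit 532) (nat_lit 0) (XT.nd (nat_lit 234) (nat_lit 380) (nat_lit 0) (XT.nd (nat_lit 78) (nat_lit 228) (nat_lit 0) (XT.lf (nat_lit 0) (nat_lit 28563633164) (nat_lit 152) (nat_lit 1324389946) (nat_lit 76) (nat_lit 38458879435) (nat_lit 80) (nat_lit 5) (nat_lit 82) (nat_lit 5) (nat_lit 81) (nat_lit 5) (nat_lit 534) (nat_lit 437) (nat_lit 229)) (XT.nd (nat_lit 78) (nat_lit 76) (nat_lit 0) (XT.lf (nat_lit 0) (nat_lit 39694116269) (nat_lit 152) (nat_lit 8082965722) (nat_lit 228) (nat_lit 21957836195) (nat_lit 78) (nat_lit 5) (nat_lit 80) (nat_lit 5) (nat_lit 81) (nat_lit 5) (nat_lit 535) (nat_lit 437) (nat_lit 228)) (XT.lf (nat_lit 0) (nat_lit 10874968082) (nat_lit 76) (nat_lit 56945474869) (nat_lit 152) (nat_lit 3336526167) (nat_lit 77) (nat_lit 5) (nat_lit 78) (nat_lit 5) (nat_lit 79) (nat_lit 4) (nat_lit 536) (nat_lit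 437) (nat_lit 227)))) (XT.nd (nat_lit 156) (nat_lit 152) (nat_lit 0) (XT.nd (nat_lit 78) (nat_lit 152) (nat_lit 0) (XT.lf (nat_lit 0) (nat_lit 15917923803) (nat_lit 152) (nat_lit 19218966263) (nat_lit 76) (nat_lit 37468712803) (nat_lit 76) (nat_lit 5) (nat_lit 78) (nat_lit 5) (nat_lit 77) (nat_lit 5) (nat_lit 537) (nat_lit 437) (nat_lit 226)) (XT.lf (nat_lit 0) (nat_lit 23496499854) (nat_lit 152) (nat_lit 12409665429) (nat_lit 228) (nat_lit 38183842810) (nat_lit 74) (nat_lit 5) (nat_lit 76) (nat_lit 5) (nat_lit 77) (nat_lit 5) (nat_lit 538) (nat_lit 437) (nat_lit 225))) (XT.nd (nat_lit 78) (nat_lit 152) (nat_lit 0) (XT.lf (nat_lit 0) (nat_lit 56793146644) (nat_lit 228) (nat_lit 7838312147) (nat_lit 76) (nat_lit 10978513978) (nat_lit 74) (nat_lit 5) (nat_lit 77) (nat_lit 5) (nat_lit 75) (nat_lit 4) (nat_lit 539) (nat_lit 437) (nat_lit 224)) (XT.lf (nat_lit 0) (nat_lit 1587774941) (nat_lit 152) (nat_lit 40387102040)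 (nat_lit 76) (nat_lit 35185973829) (nat_lit 72) (nat_lit 5) (nat_lit 74) (nat_lit 5) (nat_lit 73) (nat_lit 5) (nat_lit 540) (nat_lit 437) (nat_lit 223))))) (XT.nd (nat_lit 312) (nat_lit 228) (nat_lit 0) (XT.nd (nat_lit 156) (nat_lit 152) (nat_lit 0) (XT.nd (nat_lit 78) (nat_lit 0) (nat_lit 0) (XT.lf (nat_lit 0) (nat_lit 4015440630) (nat_lit 152) (nat_lit 18326853046) (nat_lit 228) (nat_lit 56406893049) (nat_lit 70) (nat_lit 5) (nat_lit 72) (nat_lit 5) (nat_lit 73) (nat_lit 5) (nat_lit 541) (nat_lit 437) (nat_lit 222)) (XT.lf (nat_lit 0) (nat_lit 44186738868) (nat_lit 228) (nat_lit 29861792342) (nat_lit 76) (nat_lit 6322622847) (nat_lit 70) (nat_lit 5) (nat_lit 73) (nat_lit 5) (nat_lit 71) (nat_lit 4) (nat_lit 542) (nat_lit 437) (nat_lit 221))) (XT.nd (nat_lit 78) (nat_lit 76) (nat_lit 0) (XT.lf (nat_lit 0) (nat_lit 16492022399) (nat_lit 76) (nat_lit 50532007112) (nat_lit 152) (nat_lit 15007625598) (nat_lit 69) (nat_lit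 5) (nat_lit 70) (nat_lit 5) (nat_lit 71) (nat_lit 4) (nat_lit 543) (nat_lit 437) (nat_lit 220)) (XT.lf (nat_lit 0) (nat_lit 6973749239) (nat_lit 152) (nat_lit 18957395979) (nat_lit 76) (nat_lit 57799801936) (nat_lit 68) (nat_lit 5) (nat_lit 70) (nat_lit 5) (nat_lit 69) (nat_lit 5) (nat_lit 544) (nat_lit 437) (nat_lit 219)))) (XT.nd (nat_lit 156) (nat_lit 76) (nat_lit 0) (XT.nd (nat_lit 78) (nat_lit 0) (nat_lit 0) (XT.lf (nat_lit 0) (nat_lit 29443740942) (nat_lit 152) (nat_lit 149819237) (nat_lit 228) (nat_lit 55874781131) (nat_lit 66) (nat_lit 5) (nat_lit 68) (nat_lit 5) (nat_lit 69) (nat_lit 5) (nat_lit 545) (nat_lit 437) (nat_lit 218)) (XT.lf (nat_lit 0) (nat_lit 53336722270) (nat_lit 228) (nat_lit 7826846638) (nat_lit 76) (nat_lit 26080945733) (nat_lit 66) (nat_lit 5) (nat_lit 69) (nat_lit 5) (nat_lit 67) (nat_lit 4) (nat_lit 546) (nat_lit 437) (nat_lit 217))) (XT.nd (nat_lit 53976) (nat_lit 0) (nat_lit 18620)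 (XT.lf (nat_lit 0) (nat_lit 42643071947) (nat_lit 76) (nat_lit 35558180010) (nat_lit 152) (nat_lit 10860449088) (nat_lit 65) (nat_lit 5) (nat_lit 66) (nat_lit 5) (nat_lit 67) (nat_lit 4) (nat_lit 547) (nat_lit 437) (nat_lit 216)) (XT.lf (nat_lit 0) (nat_lit 2370470970) (nat_lit 0) (nat_lit 2370470970) (nat_lit 1140) (nat_lit 1645949451) (nat_lit 310) (nat_lit 5) (nat_lit 310) (nat_lit 3) (nat_lit 325) (nat_lit 3) (nat_lit 438) (nat_lit 438) (nat_lit 324)))))) (XT.nd (nat_lit 624) (nat_lit 0) (nat_lit 76) (XT.nd (nat_lit 312) (nat_lit 1064) (nat_lit 0) (XT.nd (nat_lit 156) (nat_lit 0) (nat_lit 76) (XT.nd (nat_lit 78) (nat_lit 0) (nat_lit 0) (XT.lf (nat_lit 0) (nat_lit 10047980918) (nat_lit 1140) (nat_lit 1729306901) (nat_lit 1216) (nat_lit 1175326005) (nat_lit 310) (nat_lit 5) (nat_lit 325) (nat_lit 3) (nat_lit 326) (nat_lit 5) (nat_lit 439) (nat_lit 438) (nat_lit 323)) (XT.lf (nat_lit 76) (nat_lit 4801478366) (nat_lit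 0) (nat_lit 5906661902) (nat_lit 1216) (nat_lit 2426359472) (nat_lit 311) (nat_lit 5) (nat_lit 310) (nat_lit 5) (nat_lit 326) (nat_lit 5) (nat_lit 440) (nat_lit 438) (nat_lit 322))) (XT.nd (nat_lit 78) (nat_lit 0) (nat_lit 0) (XT.lf (nat_lit 0) (nat_lit 11391523941) (nat_lit 1140) (nat_lit 1768265435) (nat_lit 1216) (nat_lit 161952534) (nat_lit 311) (nat_lit 5) (nat_lit 326) (nat_lit 5) (nat_lit 327) (nat_lit 5) (nat_lit 441) (nat_lit 438) (nat_lit 321)) (XT.lf (nat_lit 76) (nat_lit 5024191545) (nat_lit 0) (nat_lit 7162885731) (nat_lit 1216) (nat_lit 1324776216) (nat_lit 312) (nat_lit 5) (nat_lit 311) (nat_lit 5) (nat_lit 327) (nat_lit 5) (nat_lit 442) (nat_lit 438) (nat_lit 320)))) (XT.nd (nat_lit 156) (nat_lit 0) (nat_lit 0) (XT.nd (nat_lit 78) (nat_lit 1140) (nat_lit 0) (XT.lf (nat_lit 76) (nat_lit 12047956308) (nat_lit 0) (nat_lit 961643982) (nat_lit 1216) (nat_lit 697977170) (nat_lit 312) (nat_lit 5) (nat_lit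 311) (nat_lit 5) (nat_lit 327) (nat_lit 5) (nat_lit 443) (nat_lit 438) (nat_lit 319)) (XT.lf (nat_lit 0) (nat_lit 39504226) (nat_lit 1216) (nat_lit 8488982741) (nat_lit 1292) (nat_lit 5377977600) (nat_lit 296) (nat_lit 5) (nat_lit 312) (nat_lit 5) (nat_lit 313) (nat_lit 5) (nat_lit 444) (nat_lit 438) (nat_lit 318))) (XT.nd (nat_lit 78) (nat_lit 0) (nat_lit 76) (XT.lf (nat_lit 0) (nat_lit 797451034) (nat_lit 1216) (nat_lit 1395637182) (nat_lit 1292) (nat_lit 11917653613) (nat_lit 296) (nat_lit 5) (nat_lit 312) (nat_lit 5) (nat_lit 313) (nat_lit 5) (nat_lit 445) (nat_lit 438) (nat_lit 317)) (XT.lf (nat_lit 0) (nat_lit 1664593249) (nat_lit 1216) (nat_lit 8343001100) (nat_lit 1292) (nat_lit 4310961241) (nat_lit 297) (nat_lit 5) (nat_lit 313) (nat_lit 5) (nat_lit 314) (nat_lit 5) (nat_lit 446) (nat_lit 438) (nat_lit 316))))) (XT.nd (nat_lit 312) (nat_lit 0) (nat_lit 152) (XT.nd (nat_lit 156) (nat_lit 0) (nat_lit 76)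 (XT.nd (nat_lit 78) (nat_lit 0) (nat_lit 76) (XT.lf (nat_lit 0) (nat_lit 2580387183) (nat_lit 1216) (nat_lit 966778476) (nat_lit 1292) (nat_lit 10984760818) (nat_lit 297) (nat_lit 5) (nat_lit 313) (nat_lit 5) (nat_lit 314) (nat_lit 5) (nat_lit 447) (nat_lit 438) (nat_lit 315)) (XT.lf (nat_lit 0) (nat_lit 3606200706) (nat_lit 1216) (nat_lit 8027137660) (nat_lit 1292) (nat_lit 3115885537) (nat_lit 298) (nat_lit 5) (nat_lit 314) (nat_lit 5) (nat_lit 315) (nat_lit 5) (nat_lit 448) (nat_lit 438) (nat_lit 314))) (XT.nd (nat_lit 78) (nat_lit 0) (nat_lit 76) (XT.lf (nat_lit 0) (nat_lit 4695173998) (nat_lit 1216) (nat_lit 355824716) (nat_lit 1292) (nat_lit 9921071708) (nat_lit 298) (nat_lit 5) (nat_lit 314) (nat_lit 5) (nat_lit 315) (nat_lit 5) (nat_lit 449) (nat_lit 438) (nat_lit 313)) (XT.lf (nat_lit 0) (nat_lit 5895858012) (nat_lit 1216) (nat_lit 7530538562) (nat_lit 1292) (nat_lit 1772836199) (nat_lit 299) (nat_lit 5)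 (nat_lit 315) (nat_lit 5) (nat_lit 316) (nat_lit 5) (nat_lit 450) (nat_lit 438) (nat_lit 312)))) (XT.nd (nat_lit 156) (nat_lit 0) (nat_lit 76) (XT.nd (nat_lit 78) (nat_lit 0) (nat_lit 76) (XT.lf (nat_lit 76) (nat_lit 457701166) (nat_lit 0) (nat_lit 6720971476) (nat_lit 1292) (nat_lit 8253155681) (nat_lit 300) (nat_lit 5) (nat_lit 299) (nat_lit 5) (nat_lit 316) (nat_lit 5) (nat_lit 451) (nat_lit 438) (nat_lit 311)) (XT.lf (nat_lit 0) (nat_lit 8566906420) (nat_lit 1216) (nat_lit 6841309844) (nat_lit 1292) (nat_lit 261179019) (nat_lit 300) (nat_lit 5) (nat_lit 316) (nat_lit 5) (nat_lit 317) (nat_lit 5) (nat_lit 452) (nat_lit 438) (nat_lit 310))) (XT.nd (nat_lit 78) (nat_lit 0) (nat_lit 0) (XT.lf (nat_lit 76) (nat_lit 1488667869) (nat_lit 0) (nat_lit 8577666678) (nat_lit 1292) (nat_lit 5845669824) (nat_lit 301) (nat_lit 5) (nat_lit 300) (nat_lit 5) (nat_lit 317) (nat_lit 5) (nat_lit 453) (nat_lit 438) (nat_lit 309))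 (XT.lf (nat_lit 76) (nat_lit 10199547402) (nat_lit 0) (nat_lit 1469215538) (nat_lit 1292) (nat_lit 4491389763) (nat_lit 301) (nat_lit 5) (nat_lit 300) (nat_lit 5) (nat_lit 317) (nat_lit 5) (nat_lit 454) (nat_lit 438) (nat_lit 308))))))))
noncomputable def xc179 : XT := (XT.nd (nat_lit 2340) (nat_lit 5396) (nat_lit 0) (XT.nd (nat_lit 1170) (nat_lit 3952) (nat_lit 0) (XT.nd (nat_lit 546) (nat_lit 2204) (nat_lit 0) (XT.nd (nat_lit 234) (nat_lit 1216) (nat_lit 0) (XT.nd (nat_lit 78) (nat_lit 836) (nat_lit 0) (XT.lf (nat_lit 0) (nat_lit 2743985736) (nat_lit 1216) (nat_lit 10647186022) (nat_lit 1292) (nat_lit 3022417951) (nat_lit 285) (nat_lit 5) (nat_lit 301) (nat_lit 5) (nat_lit 302) (nat_lit 5) (nat_lit 455) (nat_lit 438) (nat_lit 307)) (XT.nd (nat_lit 78) (nat_lit 836) (nat_lit 0) (XT.lf (nat_lit 0) (nat_lit 11807846705) (nat_lit 1216) (nat_lit 3421497457) (nat_lit 1292) (nat_lit 1443364331) (nat_lit 285) (nat_lit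 5) (nat_lit 301) (nat_lit 5) (nat_lit 302) (nat_lit 5) (nat_lit 456) (nat_lit 438) (nat_lit 306)) (XT.lf (nat_lit 0) (nat_lit 249385427) (nat_lit 836) (nat_lit 12701154444) (nat_lit 76) (nat_lit 3986912604) (nat_lit 274) (nat_lit 5) (nat_lit 285) (nat_lit 5) (nat_lit 275) (nat_lit 5) (nat_lit 457) (nat_lit 438) (nat_lit 305)))) (XT.nd (nat_lit 156) (nat_lit 608) (nat_lit 0) (XT.nd (nat_lit 78) (nat_lit 608) (nat_lit 0) (XT.lf (nat_lit 0) (nat_lit 2037318738) (nat_lit 836) (nat_lit 3556480730) (nat_lit 76) (nat_lit 11613709537) (nat_lit 274) (nat_lit 5) (nat_lit 285) (nat_lit 5) (nat_lit 275) (nat_lit 5) (nat_lit 458) (nat_lit 438) (nat_lit 304)) (XT.lf (nat_lit 0) (nat_lit 3946135848) (nat_lit 684) (nat_lit 11533961934) (nat_lit 76) (nat_lit 2003553327) (nat_lit 266) (nat_lit 5) (nat_lit 275) (nat_lit 5) (nat_lit 267) (nat_lit 5) (nat_lit 459) (nat_lit 438) (nat_lit 303))) (XT.nd (nat_lit 78) (nat_lit 608) (nat_lit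 0) (XT.lf (nat_lit 0) (nat_lit 5994291002) (nat_lit 684) (nat_lit 2018102923) (nat_lit 76) (nat_lit 9753222561) (nat_lit 266) (nat_lit 5) (nat_lit 275) (nat_lit 5) (nat_lit 267) (nat_lit 5) (nat_lit 460) (nat_lit 438) (nat_lit 302)) (XT.lf (nat_lit 0) (nat_lit 7928913058) (nat_lit 608) (nat_lit 241894650) (nat_lit 684) (nat_lit 9883226787) (nat_lit 258) (nat_lit 5) (nat_lit 266) (nat_lit 5) (nat_lit 267) (nat_lit 5) (nat_lit 461) (nat_lit 438) (nat_lit 301))))) (XT.nd (nat_lit 312) (nat_lit 1140) (nat_lit 0) (XT.nd (nat_lit 156) (nat_lit 532) (nat_lit 0) (XT.nd (nat_lit 78) (nat_lit 532) (nat_lit 0) (XT.lf (nat_lit 0) (nat_lit 10498696723) (nat_lit 684) (nat_lit 218825213) (nat_lit 76) (nat_lit 7631001950) (nat_lit 258) (nat_lit 5) (nat_lit 267) (nat_lit 5) (nat_lit 259) (nat_lit 5) (nat_lit 462) (nat_lit 438) (nat_lit 300)) (XT.lf (nat_lit 0) (nat_lit 10171793999) (nat_lit 532) (nat_lit 2815952130) (nat_lit 608)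 (nat_lit 5661363230) (nat_lit 251) (nat_lit 5) (nat_lit 258) (nat_lit 5) (nat_lit 259) (nat_lit 5) (nat_lit 463) (nat_lit 438) (nat_lit 299))) (XT.nd (nat_lit 78) (nat_lit 0) (nat_lit 0) (XT.lf (nat_lit 0) (nat_lit 1896664658) (nat_lit 532) (nat_lit 13717752351) (nat_lit 608) (nat_lit 3342407966) (nat_lit 244) (nat_lit 5) (nat_lit 251) (nat_lit 5) (nat_lit 252) (nat_lit 5) (nat_lit 464) (nat_lit 438) (nat_lit 298)) (XT.lf (nat_lit 0) (nat_lit 12718163758) (nat_lit 532) (nat_lit 5706423544) (nat_lit 608) (nat_lit 846044826) (nat_lit 244) (nat_lit 5) (nat_lit 251) (nat_lit 5) (nat_lit 252) (nat_lit 5) (nat_lit 465) (nat_lit 438) (nat_lit 297)))) (XT.nd (nat_lit 156) (nat_lit 532) (nat_lit 0) (XT.nd (nat_lit 78) (nat_lit 0) (nat_lit 0) (XT.lf (nat_lit 0) (nat_lit 1749850786) (nat_lit 608) (nat_lit 15287988079) (nat_lit 76) (nat_lit 2553768909) (nat_lit 236) (nat_lit 5) (nat_lit 244) (nat_lit 5) (nat_lit 237) (nat_lit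 5) (nat_lit 466) (nat_lit 438) (nat_lit 296)) (XT.lf (nat_lit 0) (nat_lit 4521744364) (nat_lit 608) (nat_lit 4375146806) (nat_lit 76) (nat_lit 11021617402) (nat_lit 236) (nat_lit 5) (nat_lit 244) (nat_lit 5) (nat_lit 237) (nat_lit 5) (nat_lit 467) (nat_lit 438) (nat_lit 295))) (XT.nd (nat_lit 78) (nat_lit 0) (nat_lit 0) (XT.lf (nat_lit 0) (nat_lit 6992699776) (nat_lit 532) (nat_lit 443356107) (nat_lit 608) (nat_lit 12817383610) (nat_lit 229) (nat_lit 5) (nat_lit 236) (nat_lit 5) (nat_lit 237) (nat_lit 5) (nat_lit 468) (nat_lit 438) (nat_lit 294)) (XT.lf (nat_lit 0) (nat_lit 10554032843) (nat_lit 608) (nat_lit 1894671209) (nat_lit 76) (nat_lit 8146228109) (nat_lit 229) (nat_lit 5) (nat_lit 237) (nat_lit 5) (nat_lit 230) (nat_lit 5) (nat_lit 469) (nat_lit 438) (nat_lit 293)))))) (XT.nd (nat_lit 546) (nat_lit 2052) (nat_lit 0) (XT.nd (nat_lit 234) (nat_lit 988) (nat_lit 0) (XT.nd (nat_lit 78) (nat_lit 456) (nat_lit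 0) (XT.lf (nat_lit 0) (nat_lit 9994303608) (nat_lit 456) (nat_lit 3864115948) (nat_lit 532) (nat_lit 7085464819) (nat_lit 223) (nat_lit 5) (nat_lit 229) (nat_lit 5) (nat_lit 230) (nat_lit 5) (nat_lit 470) (nat_lit 438) (nat_lit 292)) (XT.nd (nat_lit 78) (nat_lit 0) (nat_lit 0) (XT.lf (nat_lit 0) (nat_lit 937468995) (nat_lit 456) (nat_lit 16393190287) (nat_lit 532) (nat_lit 3970585082) (nat_lit 217) (nat_lit 5) (nat_lit 223) (nat_lit 5) (nat_lit 224) (nat_lit 5) (nat_lit 471) (nat_lit 438) (nat_lit 291)) (XT.lf (nat_lit 0) (nat_lit 13357813893) (nat_lit 456) (nat_lit 7690374666) (nat_lit 532) (nat_lit 616903750) (nat_lit 217) (nat_lit 5) (nat_lit 223) (nat_lit 5) (nat_lit 224) (nat_lit 5) (nat_lit 472) (nat_lit 438) (nat_lit 290)))) (XT.nd (nat_lit 156) (nat_lit 456) (nat_lit 0) (XT.nd (nat_lit 78) (nat_lit 0) (nat_lit 0) (XT.lf (nat_lit 0) (nat_lit 2827676690) (nat_lit 532) (nat_lit 17894850666) (nat_lit 76) (nat_lit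 1315141184) (nat_lit 210) (nat_lit 5) (nat_lit 217) (nat_lit 5) (nat_lit 211) (nat_lit 5) (nat_lit 473) (nat_lit 438) (nat_lit 289)) (XT.lf (nat_lit 0) (nat_lit 6516980077) (nat_lit 532) (nat_lit 5374032632) (nat_lit 76) (nat_lit 10525613329) (nat_lit 210) (nat_lit 5) (nat_lit 217) (nat_lit 5) (nat_lit 211) (nat_lit 5) (nat_lit 474) (nat_lit 438) (nat_lit 288))) (XT.nd (nat_lit 78) (nat_lit 0) (nat_lit 0) (XT.lf (nat_lit 0) (nat_lit 7663452020) (nat_lit 456) (nat_lit 2720306987) (nat_lit 532) (nat_lit 12421190094) (nat_lit 204) (nat_lit 5) (nat_lit 210) (nat_lit 5) (nat_lit 211) (nat_lit 5) (nat_lit 475) (nat_lit 438) (nat_lit 287)) (XT.lf (nat_lit 0) (nat_lit 14479229425) (nat_lit 532) (nat_lit 2074860690) (nat_lit 76) (nat_lit 6647451810) (nat_lit 204) (nat_lit 5) (nat_lit 211) (nat_lit 5) (nat_lit 205) (nat_lit 5) (nat_lit 476) (nat_lit 438) (nat_lit 286))))) (XT.nd (nat_lit 312) (nat_lit 760) (nat_lit 0) (XT.nd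 (nat_lit 156) (nat_lit 456) (nat_lit 0) (XT.nd (nat_lit 78) (nat_lit 456) (nat_lit 0) (XT.lf (nat_lit 0) (nat_lit 11574345460) (nat_lit 380) (nat_lit 7254842806) (nat_lit 456) (nat_lit 4776896232) (nat_lit 199) (nat_lit 5) (nat_lit 204) (nat_lit 5) (nat_lit 205) (nat_lit 5) (nat_lit 477) (nat_lit 438) (nat_lit 285)) (XT.lf (nat_lit 0) (nat_lit 1654726235) (nat_lit 456) (nat_lit 21707844402) (nat_lit 532) (nat_lit 658605641) (nat_lit 193) (nat_lit 5) (nat_lit 199) (nat_lit 5) (nat_lit 200) (nat_lit 5) (nat_lit 478) (nat_lit 438) (nat_lit 284))) (XT.nd (nat_lit 78) (nat_lit 380) (nat_lit 0) (XT.lf (nat_lit 0) (nat_lit 3701411695) (nat_lit 532) (nat_lit 8562622503) (nat_lit 76) (nat_lit 12178010926) (nat_lit 192) (nat_lit 5) (nat_lit 199) (nat_lit 5) (nat_lit 193) (nat_lit 5) (nat_lit 479) (nat_lit 438) (nat_lit 283)) (XT.lf (nat_lit 0) (nat_lit 5752810841) (nat_lit 380) (nat_lit 2475237998) (nat_lit 456) (nat_lit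 16645824487) (nat_lit 187) (nat_lit 5) (nat_lit 192) (nat_lit 5) (nat_lit 193) (nat_lit 5) (nat_lit 480) (nat_lit 438) (nat_lit 282)))) (XT.nd (nat_lit 156) (nat_lit 380) (nat_lit 0) (XT.nd (nat_lit 78) (nat_lit 380) (nat_lit 0) (XT.lf (nat_lit 0) (nat_lit 13044773106) (nat_lit 456) (nat_lit 4725141921) (nat_lit 76) (nat_lit 7544113306) (nat_lit 187) (nat_lit 5) (nat_lit 193) (nat_lit 5) (nat_lit 188) (nat_lit 5) (nat_lit 481) (nat_lit 438) (nat_lit 281)) (XT.lf (nat_lit 0) (nat_lit 10270474851) (nat_lit 380) (nat_lit 7852777973) (nat_lit 456) (nat_lit 7640618133) (nat_lit 182) (nat_lit 5) (nat_lit 187) (nat_lit 5) (nat_lit 188) (nat_lit 5) (nat_lit 482) (nat_lit 438) (nat_lit 280))) (XT.nd (nat_lit 78) (nat_lit 380) (nat_lit 0) (XT.lf (nat_lit 0) (nat_lit 23419074867) (nat_lit 456) (nat_lit 444298074) (nat_lit 76) (nat_lit 2361886845) (nat_lit 182) (nat_lit 5) (nat_lit 188) (nat_lit 5) (nat_lit 183) (nat_lit 5)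 (nat_lit 483) (nat_lit 438) (nat_lit 279)) (XT.lf (nat_lit 0) (nat_lit 2351828262) (nat_lit 380) (nat_lit 11448444991) (nat_lit 76) (nat_lit 12892962165) (nat_lit 177) (nat_lit 5) (nat_lit 182) (nat_lit 5) (nat_lit 178) (nat_lit 5) (nat_lit 484) (nat_lit 438) (nat_lit 278))))))) (XT.nd (nat_lit 1170) (nat_lit 2432) (nat_lit 0) (XT.nd (nat_lit 546) (nat_lit 1596) (nat_lit 0) (XT.nd (nat_lit 234) (nat_lit 684) (nat_lit 0) (XT.nd (nat_lit 78) (nat_lit 304) (nat_lit 0) (XT.lf (nat_lit 0) (nat_lit 4286394408) (nat_lit 380) (nat_lit 3361824408) (nat_lit 456) (nat_lit 19524997341) (nat_lit 172) (nat_lit 5) (nat_lit 177) (nat_lit 5) (nat_lit 178) (nat_lit 5) (nat_lit 485) (nat_lit 438) (nat_lit 277)) (XT.nd (nat_lit 78) (nat_lit 304) (nat_lit 0) (XT.lf (nat_lit 0) (nat_lit 13285659915) (nat_lit 456) (nat_lit 7016379289) (nat_lit 76) (nat_lit 7360092852) (nat_lit 172) (nat_lit 5) (nat_lit 178) (nat_lit 5) (nat_lit 173) (nat_lit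 5) (nat_lit 486) (nat_lit 438) (nat_lit 276)) (XT.lf (nat_lit 0) (nat_lit 9473963788) (nat_lit 304) (nat_lit 9737151589) (nat_lit 380) (nat_lit 8951033806) (nat_lit 168) (nat_lit 5) (nat_lit 172) (nat_lit 5) (nat_lit 173) (nat_lit 5) (nat_lit 487) (nat_lit 438) (nat_lit 275)))) (XT.nd (nat_lit 156) (nat_lit 304) (nat_lit 0) (XT.nd (nat_lit 78) (nat_lit 380) (nat_lit 0) (XT.lf (nat_lit 0) (nat_lit 25391489663) (nat_lit 380) (nat_lit 2091761392) (nat_lit 76) (nat_lit 1191601585) (nat_lit 168) (nat_lit 5) (nat_lit 173) (nat_lit 5) (nat_lit 169) (nat_lit 5) (nat_lit 488) (nat_lit 438) (nat_lit 274)) (XT.lf (nat_lit 0) (nat_lit 2744069212) (nat_lit 380) (nat_lit 14027698233) (nat_lit 76) (nat_lit 12423246318) (nat_lit 163) (nat_lit 5) (nat_lit 168) (nat_lit 5) (nat_lit 164) (nat_lit 5) (nat_lit 489) (nat_lit 438) (nat_lit 273))) (XT.nd (nat_lit 78) (nat_lit 0) (nat_lit 0) (XT.lf (nat_lit 0) (nat_lit 3280533403) (nat_lit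 304) (nat_lit 5653449383) (nat_lit 380) (nat_lit 20794392586) (nat_lit 159) (nat_lit 5) (nat_lit 163) (nat_lit 5) (nat_lit 164) (nat_lit 5) (nat_lit 490) (nat_lit 438) (nat_lit 272)) (XT.lf (nat_lit 0) (nat_lit 15503226333) (nat_lit 380) (nat_lit 8942780221) (nat_lit 76) (nat_lit 5825922718) (nat_lit 159) (nat_lit 5) (nat_lit 164) (nat_lit 5) (nat_lit 160) (nat_lit 5) (nat_lit 491) (nat_lit 438) (nat_lit 271))))) (XT.nd (nat_lit 312) (nat_lit 608) (nat_lit 0) (XT.nd (nat_lit 156) (nat_lit 684) (nat_lit 0) (XT.nd (nat_lit 78) (nat_lit 0) (nat_lit 0) (XT.lf (nat_lit 0) (nat_lit 9203560464) (nat_lit 304) (nat_lit 13205421893) (nat_lit 380) (nat_lit 8418624785) (nat_lit 155) (nat_lit 5) (nat_lit 159) (nat_lit 5) (nat_lit 160) (nat_lit 5) (nat_lit 492) (nat_lit 438) (nat_lit 270)) (XT.lf (nat_lit 0) (nat_lit 28070190271) (nat_lit 304) (nat_lit 1537090105) (nat_lit 380) (nat_lit 1790114286) (nat_lit 155) (nat_lit 5) (nat_lit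 159) (nat_lit 5) (nat_lit 160) (nat_lit 5) (nat_lit 493) (nat_lit 438) (nat_lit 269))) (XT.nd (nat_lit 78) (nat_lit 304) (nat_lit 0) (XT.lf (nat_lit 0) (nat_lit 5188422904) (nat_lit 380) (nat_lit 16310567554) (nat_lit 76) (nat_lit 10476349098) (nat_lit 150) (nat_lit 5) (nat_lit 155) (nat_lit 5) (nat_lit 151) (nat_lit 5) (nat_lit 494) (nat_lit 438) (nat_lit 268)) (XT.lf (nat_lit 0) (nat_lit 2737900197) (nat_lit 304) (nat_lit 9673112984) (nat_lit 380) (nat_lit 20156957967) (nat_lit 146) (nat_lit 5) (nat_lit 150) (nat_lit 5) (nat_lit 151) (nat_lit 5) (nat_lit 495) (nat_lit 438) (nat_lit 267)))) (XT.nd (nat_lit 156) (nat_lit 380) (nat_lit 0) (XT.nd (nat_lit 78) (nat_lit 228) (nat_lit 0) (XT.lf (nat_lit 0) (nat_lit 20035974250) (nat_lit 380) (nat_lit 10514396181) (nat_lit 76) (nat_lit 2622440815) (nat_lit 146) (nat_lit 5) (nat_lit 151) (nat_lit 5) (nat_lit 147) (nat_lit 5) (nat_lit 496) (nat_lit 438) (nat_lit 266)) (XT.lf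 (nat_lit 0) (nat_lit 9462443634) (nat_lit 228) (nat_lit 18609364531) (nat_lit 304) (nat_lit 5718525001) (nat_lit 143) (nat_lit 5) (nat_lit 146) (nat_lit 5) (nat_lit 147) (nat_lit 5) (nat_lit 497) (nat_lit 438) (nat_lit 265))) (XT.nd (nat_lit 78) (nat_lit 304) (nat_lit 0) (XT.lf (nat_lit 0) (nat_lit 1987463086) (nat_lit 304) (nat_lit 4195801360) (nat_lit 76) (nat_lit 28239483106) (nat_lit 142) (nat_lit 5) (nat_lit 146) (nat_lit 5) (nat_lit 143) (nat_lit 5) (nat_lit 498) (nat_lit 438) (nat_lit 264)) (XT.lf (nat_lit 0) (nat_lit 10032504803) (nat_lit 380) (nat_lit 18328894469) (nat_lit 76) (nat_lit 6704352518) (nat_lit 138) (nat_lit 5) (nat_lit 143) (nat_lit 5) (nat_lit 139) (nat_lit 5) (nat_lit 499) (nat_lit 438) (nat_lit 263)))))) (XT.nd (nat_lit 624) (nat_lit 1140) (nat_lit 0) (XT.nd (nat_lit 312) (nat_lit 760) (nat_lit 0) (XT.nd (nat_lit 156) (nat_lit 304) (nat_lit 0) (XT.nd (nat_lit 78) (nat_lit 0) (nat_lit 0)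 (XT.lf (nat_lit 0) (nat_lit 2639569174) (nat_lit 228) (nat_lit 15804295966) (nat_lit 304) (nat_lit 17280432297) (nat_lit 135) (nat_lit 5) (nat_lit 138) (nat_lit 5) (nat_lit 139) (nat_lit 5) (nat_lit 500) (nat_lit 438) (nat_lit 262)) (XT.lf (nat_lit 0) (nat_lit 24605851114) (nat_lit 228) (nat_lit 2682447671) (nat_lit 304) (nat_lit 9108878987) (nat_lit 135) (nat_lit 5) (nat_lit 138) (nat_lit 5) (nat_lit 139) (nat_lit 5) (nat_lit 501) (nat_lit 438) (nat_lit 261))) (XT.nd (nat_lit 78) (nat_lit 76) (nat_lit 0) (XT.lf (nat_lit 0) (nat_lit 10229497349) (nat_lit 228) (nat_lit 26366783310) (nat_lit 304) (nat_lit 488017686) (nat_lit 132) (nat_lit 5) (nat_lit 135) (nat_lit 5) (nat_lit 136) (nat_lit 5) (nat_lit 502) (nat_lit 438) (nat_lit 260)) (XT.lf (nat_lit 0) (nat_lit 8370294540) (nat_lit 304) (nat_lit 4751082777) (nat_lit 76) (nat_lit 24663958384) (nat_lit 131) (nat_lit 5) (nat_lit 135) (nat_lit 5) (nat_lit 132) (nat_lit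 5) (nat_lit 503) (nat_lit 438) (nat_lit 259)))) (XT.nd (nat_lit 156) (nat_lit 304) (nat_lit 0) (XT.nd (nat_lit 78) (nat_lit 228) (nat_lit 0) (XT.lf (nat_lit 0) (nat_lit 17663731481) (nat_lit 304) (nat_lit 20146312412) (nat_lit 76) (nat_lit 691840068) (nat_lit 128) (nat_lit 5) (nat_lit 132) (nat_lit 5) (nat_lit 129) (nat_lit 5) (nat_lit 504) (nat_lit 438) (nat_lit 258)) (XT.lf (nat_lit 0) (nat_lit 2934492704) (nat_lit 228) (nat_lit 24503973966) (nat_lit 304) (nat_lit 11795387400) (nat_lit 125) (nat_lit 5) (nat_lit 128) (nat_lit 5) (nat_lit 129) (nat_lit 5) (nat_lit 505) (nat_lit 438) (nat_lit 257))) (XT.nd (nat_lit 78) (nat_lit 304) (nat_lit 0) (XT.lf (nat_lit 0) (nat_lit 27114058551) (nat_lit 228) (nat_lit 10591799310) (nat_lit 304) (nat_lit 2275943248) (nat_lit 125) (nat_lit 5) (nat_lit 128) (nat_lit 5) (nat_lit 129) (nat_lit 5) (nat_lit 506) (nat_lit 438) (nat_lit 256)) (XT.lf (nat_lit 0) (nat_lit 7525611374)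 (nat_lit 304) (nat_lit 29373966691) (nat_lit 76) (nat_lit 3846134100) (nat_lit 121) (nat_lit 5) (nat_lit 125) (nat_lit 5) (nat_lit 122) (nat_lit 5) (nat_lit 507) (nat_lit 438) (nat_lit 255))))) (XT.nd (nat_lit 312) (nat_lit 684) (nat_lit 0) (XT.nd (nat_lit 156) (nat_lit 228) (nat_lit 0) (XT.nd (nat_lit 78) (nat_lit 228) (nat_lit 0) (XT.lf (nat_lit 0) (nat_lit 17807645288) (nat_lit 304) (nat_lit 5061694702) (nat_lit 76) (nat_lit 18655559460) (nat_lit 121) (nat_lit 5) (nat_lit 125) (nat_lit 5) (nat_lit 122) (nat_lit 5) (nat_lit 508) (nat_lit 438) (nat_lit 254)) (XT.lf (nat_lit 0) (nat_lit 20371093161) (nat_lit 228) (nat_lit 8219062648) (nat_lit 304) (nat_lit 13731546296) (nat_lit 118) (nat_lit 5) (nat_lit 121) (nat_lit 5) (nat_lit 122) (nat_lit 5) (nat_lit 509) (nat_lit 438) (nat_lit 253))) (XT.nd (nat_lit 78) (nat_lit 76) (nat_lit 0) (XT.lf (nat_lit 0) (nat_lit 3525602954) (nat_lit 152) (nat_lit 36318315671) (nat_lit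 228) (nat_lit 3294057116) (nat_lit 116) (nat_lit 5) (nat_lit 118) (nat_lit 5) (nat_lit 119) (nat_lit 5) (nat_lit 510) (nat_lit 438) (nat_lit 252)) (XT.lf (nat_lit 0) (nat_lit 7612516015) (nat_lit 228) (nat_lit 13917673228) (nat_lit 76) (nat_lit 22437354329) (nat_lit 115) (nat_lit 5) (nat_lit 118) (nat_lit 5) (nat_lit 116) (nat_lit 5) (nat_lit 511) (nat_lit 438) (nat_lit 251)))) (XT.nd (nat_lit 156) (nat_lit 456) (nat_lit 0) (XT.nd (nat_lit 78) (nat_lit 0) (nat_lit 0) (XT.lf (nat_lit 0) (nat_lit 12757989670) (nat_lit 228) (nat_lit 6141070631) (nat_lit 304) (nat_lit 25918390461) (nat_lit 112) (nat_lit 5) (nat_lit 115) (nat_lit 5) (nat_lit 116) (nat_lit 5) (nat_lit 512) (nat_lit 438) (nat_lit 250)) (XT.lf (nat_lit 0) (nat_lit 30755835877) (nat_lit 304) (nat_lit 5270385667) (nat_lit 76) (nat_lit 9659684763) (nat_lit 112) (nat_lit 5) (nat_lit 116) (nat_lit 5) (nat_lit 113) (nat_lit 5) (nat_lit 513) (nat_lit 438) (nat_lit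 249))) (XT.nd (nat_lit 78) (nat_lit 304) (nat_lit 0) (XT.lf (nat_lit 0) (nat_lit 22698428637) (nat_lit 152) (nat_lit 20545352245) (nat_lit 228) (nat_lit 3328370833) (nat_lit 110) (nat_lit 5) (nat_lit 112) (nat_lit 5) (nat_lit 113) (nat_lit 5) (nat_lit 514) (nat_lit 438) (nat_lit 248)) (XT.lf (nat_lit 0) (nat_lit 4121920260) (nat_lit 228) (nat_lit 4421077959) (nat_lit 304) (nat_lit 38936804642) (nat_lit 106) (nat_lit 5) (nat_lit 109) (nat_lit 5) (nat_lit 110) (nat_lit 5) (nat_lit 515) (nat_lit 438) (nat_lit 247))))))))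
noncomputable def xc180 : XT := (XT.nd (nat_lit 2340) (nat_lit 152) (nat_lit 0) (XT.nd (nat_lit 1170) (nat_lit 1216) (nat_lit 0) (XT.nd (nat_lit 546) (nat_lit 988) (nat_lit 0) (XT.nd (nat_lit 234) (nat_lit 532) (nat_lit 0) (XT.nd (nat_lit 78) (nat_lit 152) (nat_lit 0) (XT.lf (nat_lit 0) (nat_lit 21060727268) (nat_lit 304) (nat_lit 15119209664) (nat_lit 76) (nat_lit 12223044675) (nat_lit 106) (nat_lit 5) (nat_lit 110) (nat_lit 5) (nat_lit 107) (nat_lit 5) (nat_lit 516) (nat_lit 438) (nat_lit 246)) (XT.nd (nat_lit 78) (nat_lit 0) (nat_lit 0) (XT.lf (nat_lit 0) (nat_lit 14193912116) (nat_lit 152) (nat_lit 19936894547) (nat_lit 228) (nat_lit 15217744663) (nat_lit 104) (nat_lit 5) (nat_lit 106) (nat_lit 5) (nat_lit 107) (nat_lit 5) (nat_lit 517) (nat_lit 438) (nat_lit 245)) (XT.lf (nat_lit 0) (nat_lit 44690501847) (nat_lit 152) (nat_lit 3051808433) (nat_lit 228) (nat_lit 2575698357) (nat_lit 104) (nat_lit 5) (nat_lit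 106) (nat_lit 5) (nat_lit 107) (nat_lit 5) (nat_lit 518) (nat_lit 438) (nat_lit 244)))) (XT.nd (nat_lit 156) (nat_lit 152) (nat_lit 0) (XT.nd (nat_lit 78) (nat_lit 152) (nat_lit 0) (XT.lf (nat_lit 0) (nat_lit 10621653627) (nat_lit 228) (nat_lit 26277140465) (nat_lit 76) (nat_lit 14403347164) (nat_lit 101) (nat_lit 5) (nat_lit 104) (nat_lit 5) (nat_lit 102) (nat_lit 5) (nat_lit 519) (nat_lit 438) (nat_lit 243)) (XT.lf (nat_lit 0) (nat_lit 4422601921) (nat_lit 152) (nat_lit 19867403603) (nat_lit 228) (nat_lit 28021221967) (nat_lit 99) (nat_lit 5) (nat_lit 101) (nat_lit 5) (nat_lit 102) (nat_lit 5) (nat_lit 520) (nat_lit 438) (nat_lit 242))) (XT.nd (nat_lit 78) (nat_lit 152) (nat_lit 0) (XT.lf (nat_lit 0) (nat_lit 36576281375) (nat_lit 152) (nat_lit 2054244769) (nat_lit 228) (nat_lit 14712196762) (nat_lit 99) (nat_lit 5) (nat_lit 101) (nat_lit 5) (nat_lit 102) (nat_lit 5) (nat_lit 521) (nat_lit 438) (nat_lit 241))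 (XT.lf (nat_lit 0) (nat_lit 15428231616) (nat_lit 152) (nat_lit 38274799095) (nat_lit 228) (nat_lit 693079560) (nat_lit 97) (nat_lit 5) (nat_lit 99) (nat_lit 5) (nat_lit 100) (nat_lit 5) (nat_lit 522) (nat_lit 438) (nat_lit 240))))) (XT.nd (nat_lit 312) (nat_lit 532) (nat_lit 0) (XT.nd (nat_lit 156) (nat_lit 228) (nat_lit 0) (XT.nd (nat_lit 78) (nat_lit 152) (nat_lit 0) (XT.lf (nat_lit 0) (nat_lit 13666537820) (nat_lit 228) (nat_lit 6703358962) (nat_lit 76) (nat_lit 35101593203) (nat_lit 96) (nat_lit 5) (nat_lit 99) (nat_lit 5) (nat_lit 97) (nat_lit 5) (nat_lit 523) (nat_lit 438) (nat_lit 239)) (XT.lf (nat_lit 0) (nat_lit 27044510430) (nat_lit 152) (nat_lit 1655412235) (nat_lit 228) (nat_lit 27871295409) (nat_lit 94) (nat_lit 5) (nat_lit 96) (nat_lit 5) (nat_lit 97) (nat_lit 5) (nat_lit 524) (nat_lit 438) (nat_lit 238))) (XT.nd (nat_lit 78) (nat_lit 76) (nat_lit 0) (XT.lf (nat_lit 0) (nat_lit 4145695188) (nat_lit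 152) (nat_lit 40313159903) (nat_lit 228) (nat_lit 13236846654) (nat_lit 92) (nat_lit 5) (nat_lit 94) (nat_lit 5) (nat_lit 95) (nat_lit 5) (nat_lit 525) (nat_lit 438) (nat_lit 237)) (XT.lf (nat_lit 0) (nat_lit 2115262041) (nat_lit 228) (nat_lit 19453914376) (nat_lit 76) (nat_lit 37274780003) (nat_lit 91) (nat_lit 5) (nat_lit 94) (nat_lit 5) (nat_lit 92) (nat_lit 5) (nat_lit 526) (nat_lit 438) (nat_lit 236)))) (XT.nd (nat_lit 156) (nat_lit 380) (nat_lit 0) (XT.nd (nat_lit 78) (nat_lit 0) (nat_lit 0) (XT.lf (nat_lit 0) (nat_lit 15837732742) (nat_lit 152) (nat_lit 1973445898) (nat_lit 228) (nat_lit 42207069704) (nat_lit 89) (nat_lit 5) (nat_lit 91) (nat_lit 5) (nat_lit 92) (nat_lit 5) (nat_lit 527) (nat_lit 438) (nat_lit 235)) (XT.lf (nat_lit 0) (nat_lit 34348474122) (nat_lit 228) (nat_lit 8817286263) (nat_lit 76) (nat_lit 18050893707) (nat_lit 89) (nat_lit 5) (nat_lit 92) (nat_lit 5) (nat_lit 90) (nat_lit 5) (nat_lit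 528) (nat_lit 438) (nat_lit 234))) (XT.nd (nat_lit 78) (nat_lit 228) (nat_lit 0) (XT.lf (nat_lit 0) (nat_lit 28131060666) (nat_lit 152) (nat_lit 23537928199) (nat_lit 228) (nat_lit 10773410241) (nat_lit 87) (nat_lit 5) (nat_lit 89) (nat_lit 5) (nat_lit 90) (nat_lit 5) (nat_lit 529) (nat_lit 438) (nat_lit 233)) (XT.lf (nat_lit 0) (nat_lit 2656333399) (nat_lit 152) (nat_lit 3147215575) (nat_lit 228) (nat_lit 57896315569) (nat_lit 84) (nat_lit 5) (nat_lit 86) (nat_lit 5) (nat_lit 87) (nat_lit 5) (nat_lit 530) (nat_lit 438) (nat_lit 232)))))) (XT.nd (nat_lit 546) (nat_lit 684) (nat_lit 0) (XT.nd (nat_lit 234) (nat_lit 380) (nat_lit 0) (XT.nd (nat_lit 78) (nat_lit 152) (nat_lit 0) (XT.lf (nat_lit 0) (nat_lit 23179990438) (nat_lit 228) (nat_lit 23835204440) (nat_lit 76) (nat_lit 17961097887) (nat_lit 84) (nat_lit 5) (nat_lit 87) (nat_lit 5) (nat_lit 85) (nat_lit 5) (nat_lit 531) (nat_lit 438) (nat_lit 231)) (XT.nd (nat_lit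 78) (nat_lit 0) (nat_lit 0) (XT.lf (nat_lit 0) (nat_lit 14740813384) (nat_lit 152) (nat_lit 26507017947) (nat_lit 228) (nat_lit 25038079410) (nat_lit 82) (nat_lit 5) (nat_lit 84) (nat_lit 5) (nat_lit 85) (nat_lit 5) (nat_lit 532) (nat_lit 438) (nat_lit 230)) (XT.lf (nat_lit 0) (nat_lit 54957715028) (nat_lit 152) (nat_lit 5137961316) (nat_lit 228) (nat_lit 7532001935) (nat_lit 82) (nat_lit 5) (nat_lit 84) (nat_lit 5) (nat_lit 85) (nat_lit 5) (nat_lit 533) (nat_lit 438) (nat_lit 229)))) (XT.nd (nat_lit 156) (nat_lit 228) (nat_lit 0) (XT.nd (nat_lit 78) (nat_lit 0) (nat_lit 0) (XT.lf (nat_lit 0) (nat_lit 10724832342) (nat_lit 152) (nat_lit 41356306165) (nat_lit 76) (nat_lit 16912619079) (nat_lit 80) (nat_lit 5) (nat_lit 82) (nat_lit 5) (nat_lit 81) (nat_lit 5) (nat_lit 534) (nat_lit 438) (nat_lit 228)) (XT.lf (nat_lit 0) (nat_lit 29555408045) (nat_lit 152) (nat_lit 1114795070) (nat_lit 76) (nat_lit 39723056346) (nat_lit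 80) (nat_lit 5) (nat_lit 82) (nat_lit 5) (nat_lit 81) (nat_lit 5) (nat_lit 535) (nat_lit 438) (nat_lit 227))) (XT.nd (nat_lit 78) (nat_lit 76) (nat_lit 0) (XT.lf (nat_lit 0) (nat_lit 41131821954) (nat_lit 152) (nat_lit 8211883433) (nat_lit 228) (nat_lit 22479256954) (nat_lit 78) (nat_lit 5) (nat_lit 80) (nat_lit 5) (nat_lit 81) (nat_lit 5) (nat_lit 536) (nat_lit 438) (nat_lit 226)) (XT.lf (nat_lit 0) (nat_lit 11448562036) (nat_lit 76) (nat_lit 58539359845) (nat_lit 152) (nat_lit 3299766396) (nat_lit 77) (nat_lit 5) (nat_lit 78) (nat_lit 5) (nat_lit 79) (nat_lit 4) (nat_lit 537) (nat_lit 438) (nat_lit 225))))) (XT.nd (nat_lit 312) (nat_lit 304) (nat_lit 0) (XT.nd (nat_lit 156) (nat_lit 152) (nat_lit 0) (XT.nd (nat_lit 78) (nat_lit 152) (nat_lit 0) (XT.lf (nat_lit 0) (nat_lit 16525738228) (nat_lit 152) (nat_lit 19552798079) (nat_lit 76) (nat_lit 38701322629) (nat_lit 76) (nat_lit 5) (nat_lit 78) (nat_lit 5) (nat_lit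 77) (nat_lit 5) (nat_lit 538) (nat_lit 438) (nat_lit 224)) (XT.lf (nat_lit 0) (nat_lit 24441752246) (nat_lit 152) (nat_lit 12670390702) (nat_lit 228) (nat_lit 39196697997) (nat_lit 74) (nat_lit 5) (nat_lit 76) (nat_lit 5) (nat_lit 77) (nat_lit 5) (nat_lit 539) (nat_lit 438) (nat_lit 223))) (XT.nd (nat_lit 78) (nat_lit 152) (nat_lit 0) (XT.lf (nat_lit 0) (nat_lit 58623023697) (nat_lit 228) (nat_lit 7837391259) (nat_lit 76) (nat_lit 11414071011) (nat_lit 74) (nat_lit 5) (nat_lit 77) (nat_lit 5) (nat_lit 75) (nat_lit 4) (nat_lit 540) (nat_lit 438) (nat_lit 222)) (XT.lf (nat_lit 0) (nat_lit 1761303105) (nat_lit 152) (nat_lit 41362450403) (nat_lit 76) (nat_lit 36348142674) (nat_lit 72) (nat_lit 5) (nat_lit 74) (nat_lit 5) (nat_lit 73) (nat_lit 5) (nat_lit 541) (nat_lit 438) (nat_lit 221)))) (XT.nd (nat_lit 156) (nat_lit 152) (nat_lit 0) (XT.nd (nat_lit 78) (nat_lit 0) (nat_lit 0) (XT.lf (nat_lit 0) (nat_lit 4369852226)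 (nat_lit 152) (nat_lit 18767187189) (nat_lit 228) (nat_lit 57970885396) (nat_lit 70) (nat_lit 5) (nat_lit 72) (nat_lit 5) (nat_lit 73) (nat_lit 5) (nat_lit 542) (nat_lit 438) (nat_lit 220)) (XT.lf (nat_lit 0) (nat_lit 45634214078) (nat_lit 228) (nat_lit 30527904767) (nat_lit 76) (nat_lit 6616510528) (nat_lit 70) (nat_lit 5) (nat_lit 73) (nat_lit 5) (nat_lit 71) (nat_lit 4) (nat_lit 543) (nat_lit 438) (nat_lit 219))) (XT.nd (nat_lit 78) (nat_lit 76) (nat_lit 0) (XT.lf (nat_lit 0) (nat_lit 17214272051) (nat_lit 76) (nat_lit 51940988452) (nat_lit 152) (nat_lit 15333725932) (nat_lit 69) (nat_lit 5) (nat_lit 70) (nat_lit 5) (nat_lit 71) (nat_lit 4) (nat_lit 544) (nat_lit 438) (nat_lit 218)) (XT.lf (nat_lit 0) (nat_lit 7301123115) (nat_lit 152) (nat_lit 19302900277) (nat_lit 76) (nat_lit 59635304484) (nat_lit 68) (nat_lit 5) (nat_lit 70) (nat_lit 5) (nat_lit 69) (nat_lit 5) (nat_lit 545) (nat_lit 438) (nat_lit 217)))))))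 (XT.nd (nat_lit 55146) (nat_lit 0) (nat_lit 13528) (XT.nd (nat_lit 54522) (nat_lit 0) (nat_lit 17404) (XT.nd (nat_lit 54210) (nat_lit 0) (nat_lit 18544) (XT.nd (nat_lit 78) (nat_lit 0) (nat_lit 0) (XT.lf (nat_lit 0) (nat_lit 30548082343) (nat_lit 152) (nat_lit 50129114) (nat_lit 228) (nat_lit 57430671991) (nat_lit 66) (nat_lit 5) (nat_lit 68) (nat_lit 5) (nat_lit 69) (nat_lit 5) (nat_lit 546) (nat_lit 438) (nat_lit 216)) (XT.nd (nat_lit 54054) (nat_lit 0) (nat_lit 18544) (XT.lf (nat_lit 0) (nat_lit 55051237491) (nat_lit 228) (nat_lit 7844627001) (nat_lit 76) (nat_lit 26962550496) (nat_lit 66) (nat_lit 5) (nat_lit 69) (nat_lit 5) (nat_lit 67) (nat_lit 4) (nat_lit 547) (nat_lit 438) (nat_lit 215)) (XT.lf (nat_lit 0) (nat_lit 2645776226) (nat_lit 0) (nat_lit 2645776226) (nat_lit 1140) (nat_lit 1274635149) (nat_lit 310) (nat_lit 5) (nat_lit 310) (nat_lit 3) (nat_lit 325) (nat_lit 3) (nat_lit 439) (nat_lit 439) (nat_lit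 322)))) (XT.nd (nat_lit 156) (nat_lit 0) (nat_lit 0) (XT.nd (nat_lit 78) (nat_lit 0) (nat_lit 0) (XT.lf (nat_lit 0) (nat_lit 11138584313) (nat_lit 1140) (nat_lit 1356983256) (nat_lit 1216) (nat_lit 821835062) (nat_lit 310) (nat_lit 5) (nat_lit 325) (nat_lit 3) (nat_lit 326) (nat_lit 5) (nat_lit 440) (nat_lit 439) (nat_lit 321)) (XT.lf (nat_lit 76) (nat_lit 5365566717) (nat_lit 0) (nat_lit 6434034089) (nat_lit 1216) (nat_lit 1705716090) (nat_lit 311) (nat_lit 5) (nat_lit 310) (nat_lit 5) (nat_lit 326) (nat_lit 5) (nat_lit 441) (nat_lit 439) (nat_lit 320))) (XT.nd (nat_lit 78) (nat_lit 0) (nat_lit 76) (XT.lf (nat_lit 76) (nat_lit 12309574943) (nat_lit 0) (nat_lit 169842157) (nat_lit 1216) (nat_lit 1219484540) (nat_lit 311) (nat_lit 5) (nat_lit 310) (nat_lit 5) (nat_lit 326) (nat_lit 5) (nat_lit 442) (nat_lit 439) (nat_lit 319)) (XT.lf (nat_lit 76) (nat_lit 5604285450) (nat_lit 0) (nat_lit 7675361411) (nat_lit 1216)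 (nat_lit 615648563) (nat_lit 312) (nat_lit 5) (nat_lit 311) (nat_lit 5) (nat_lit 327) (nat_lit 5) (nat_lit 443) (nat_lit 439) (nat_lit 318))))) (XT.nd (nat_lit 312) (nat_lit 0) (nat_lit 152) (XT.nd (nat_lit 156) (nat_lit 0) (nat_lit 76) (XT.nd (nat_lit 78) (nat_lit 0) (nat_lit 76) (XT.lf (nat_lit 0) (nat_lit 7983785) (nat_lit 1216) (nat_lit 1271350359) (nat_lit 1292) (nat_lit 12818192881) (nat_lit 295) (nat_lit 5) (nat_lit 311) (nat_lit 5) (nat_lit 312) (nat_lit 5) (nat_lit 444) (nat_lit 439) (nat_lit 317)) (XT.lf (nat_lit 0) (nat_lit 734312974) (nat_lit 1216) (nat_lit 8293159410) (nat_lit 1292) (nat_lit 5275281363) (nat_lit 296) (nat_lit 5) (nat_lit 312) (nat_lit 5) (nat_lit 313) (nat_lit 5) (nat_lit 445) (nat_lit 439) (nat_lit 316))) (XT.nd (nat_lit 78) (nat_lit 0) (nat_lit 76) (XT.lf (nat_lit 0) (nat_lit 1494795555) (nat_lit 1216) (nat_lit 1000134634) (nat_lit 1292) (nat_lit 12018838013) (nat_lit 296) (nat_lit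 5) (nat_lit 312) (nat_lit 5) (nat_lit 313) (nat_lit 5) (nat_lit 446) (nat_lit 439) (nat_lit 315)) (XT.lf (nat_lit 0) (nat_lit 2370339156) (nat_lit 1216) (nat_lit 8138216053) (nat_lit 1292) (nat_lit 4219792270) (nat_lit 297) (nat_lit 5) (nat_lit 313) (nat_lit 5) (nat_lit 314) (nat_lit 5) (nat_lit 447) (nat_lit 439) (nat_lit 314)))) (XT.nd (nat_lit 156) (nat_lit 0) (nat_lit 76) (XT.nd (nat_lit 78) (nat_lit 0) (nat_lit 76) (XT.lf (nat_lit 0) (nat_lit 3294505701) (nat_lit 1216) (nat_lit 553961364) (nat_lit 1292) (nat_lit 11100228102) (nat_lit 297) (nat_lit 5) (nat_lit 313) (nat_lit 5) (nat_lit 314) (nat_lit 5) (nat_lit 448) (nat_lit 439) (nat_lit 313)) (XT.lf (nat_lit 0) (nat_lit 4334977013) (nat_lit 1216) (nat_lit 7809929369) (nat_lit 1292) (nat_lit 3028091192) (nat_lit 298) (nat_lit 5) (nat_lit 314) (nat_lit 5) (nat_lit 315) (nat_lit 5) (nat_lit 449) (nat_lit 439) (nat_lit 312))) (XT.nd (nat_lit 78) (nat_lit 0) (nat_lit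 76) (XT.lf (nat_lit 76) (nat_lit 79738489) (nat_lit 0) (nat_lit 5359572065) (nat_lit 1292) (nat_lit 9963740689) (nat_lit 299) (nat_lit 5) (nat_lit 298) (nat_lit 5) (nat_lit 315) (nat_lit 5) (nat_lit 450) (nat_lit 439) (nat_lit 311)) (XT.lf (nat_lit 0) (nat_lit 6660501177) (nat_lit 1216) (nat_lit 7296944899) (nat_lit 1292) (nat_lit 1680050217) (nat_lit 299) (nat_lit 5) (nat_lit 315) (nat_lit 5) (nat_lit 316) (nat_lit 5) (nat_lit 451) (nat_lit 439) (nat_lit 310)))))) (XT.nd (nat_lit 546) (nat_lit 2280) (nat_lit 0) (XT.nd (nat_lit 234) (nat_lit 1900) (nat_lit 0) (XT.nd (nat_lit 78) (nat_lit 0) (nat_lit 76) (XT.lf (nat_lit 76) (nat_lit 926437022) (nat_lit 0) (nat_lit 7042617568) (nat_lit 1292) (nat_lit 7908399833) (nat_lit 300) (nat_lit 5) (nat_lit 299) (nat_lit 5) (nat_lit 316) (nat_lit 5) (nat_lit 452) (nat_lit 439) (nat_lit 309)) (XT.nd (nat_lit 78) (nat_lit 0) (nat_lit 0) (XT.lf (nat_lit 0) (nat_lit 9381067101)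 (nat_lit 1216) (nat_lit 6586852783) (nat_lit 1292) (nat_lit 154766831) (nat_lit 300) (nat_lit 5) (nat_lit 316) (nat_lit 5) (nat_lit 317) (nat_lit 5) (nat_lit 453) (nat_lit 439) (nat_lit 308)) (XT.lf (nat_lit 76) (nat_lit 1988517434) (nat_lit 0) (nat_lit 8925108426) (nat_lit 1292) (nat_lit 5459305991) (nat_lit 301) (nat_lit 5) (nat_lit 300) (nat_lit 5) (nat_lit 317) (nat_lit 5) (nat_lit 454) (nat_lit 439) (nat_lit 307)))) (XT.nd (nat_lit 156) (nat_lit 836) (nat_lit 0) (XT.nd (nat_lit 78) (nat_lit 1140) (nat_lit 0) (XT.lf (nat_lit 76) (nat_lit 10947465406) (nat_lit 0) (nat_lit 1600779138) (nat_lit 1292) (nat_lit 4080758710) (nat_lit 301) (nat_lit 5) (nat_lit 300) (nat_lit 5) (nat_lit 317) (nat_lit 5) (nat_lit 455) (nat_lit 439) (nat_lit 306)) (XT.lf (nat_lit 0) (nat_lit 3280534581) (nat_lit 1216) (nat_lit 11029920926) (nat_lit 1292) (nat_lit 2579946047) (nat_lit 285) (nat_lit 5) (nat_lit 301) (nat_lit 5) (nat_lit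 302) (nat_lit 5) (nat_lit 456) (nat_lit 439) (nat_lit 305))) (XT.nd (nat_lit 78) (nat_lit 836) (nat_lit 0) (XT.lf (nat_lit 0) (nat_lit 12603081400) (nat_lit 1216) (nat_lit 3585617453) (nat_lit 1292) (nat_lit 969049297) (nat_lit 285) (nat_lit 5) (nat_lit 301) (nat_lit 5) (nat_lit 302) (nat_lit 5) (nat_lit 457) (nat_lit 439) (nat_lit 304)) (XT.lf (nat_lit 0) (nat_lit 753411381) (nat_lit 836) (nat_lit 12619989306) (nat_lit 76) (nat_lit 4057215531) (nat_lit 274) (nat_lit 5) (nat_lit 285) (nat_lit 5) (nat_lit 275) (nat_lit 5) (nat_lit 458) (nat_lit 439) (nat_lit 303))))) (XT.nd (nat_lit 312) (nat_lit 1064) (nat_lit 0) (XT.nd (nat_lit 156) (nat_lit 608) (nat_lit 0) (XT.nd (nat_lit 78) (nat_lit 608) (nat_lit 0) (XT.lf (nat_lit 0) (nat_lit 2580520233) (nat_lit 836) (nat_lit 3214437510) (nat_lit 76) (nat_lit 11914252425) (nat_lit 274) (nat_lit 5) (nat_lit 285) (nat_lit 5) (nat_lit 275) (nat_lit 5) (nat_lit 459) (nat_lit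 439) (nat_lit 302)) (XT.lf (nat_lit 0) (nat_lit 4536562986) (nat_lit 684) (nat_lit 11421144425) (nat_lit 76) (nat_lit 2036232086) (nat_lit 266) (nat_lit 5) (nat_lit 275) (nat_lit 5) (nat_lit 267) (nat_lit 5) (nat_lit 460) (nat_lit 439) (nat_lit 301))) (XT.nd (nat_lit 78) (nat_lit 608) (nat_lit 0) (XT.lf (nat_lit 0) (nat_lit 6632413967) (nat_lit 684) (nat_lit 1633173809) (nat_lit 76) (nat_lit 10019190266) (nat_lit 266) (nat_lit 5) (nat_lit 275) (nat_lit 5) (nat_lit 267) (nat_lit 5) (nat_lit 461) (nat_lit 439) (nat_lit 300)) (XT.lf (nat_lit 0) (nat_lit 8607885277) (nat_lit 608) (nat_lit 257232691) (nat_lit 684) (nat_lit 9717005562) (nat_lit 258) (nat_lit 5) (nat_lit 266) (nat_lit 5) (nat_lit 267) (nat_lit 5) (nat_lit 462) (nat_lit 439) (nat_lit 299)))) (XT.nd (nat_lit 156) (nat_lit 532) (nat_lit 0) (XT.nd (nat_lit 78) (nat_lit 0) (nat_lit 0) (XT.lf (nat_lit 0) (nat_lit 220380850) (nat_lit 532) (nat_lit 11031422732)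 (nat_lit 608) (nat_lit 7633976867) (nat_lit 251) (nat_lit 5) (nat_lit 258) (nat_lit 5) (nat_lit 259) (nat_lit 5) (nat_lit 463) (nat_lit 439) (nat_lit 298)) (XT.lf (nat_lit 0) (nat_lit 10914090074) (nat_lit 532) (nat_lit 2890818208) (nat_lit 608) (nat_lit 5390795284) (nat_lit 251) (nat_lit 5) (nat_lit 258) (nat_lit 5) (nat_lit 259) (nat_lit 5) (nat_lit 464) (nat_lit 439) (nat_lit 297))) (XT.nd (nat_lit 78) (nat_lit 0) (nat_lit 0) (XT.lf (nat_lit 0) (nat_lit 2399082458) (nat_lit 532) (nat_lit 14103216808) (nat_lit 608) (nat_lit 3010595335) (nat_lit 244) (nat_lit 5) (nat_lit 251) (nat_lit 5) (nat_lit 252) (nat_lit 5) (nat_lit 465) (nat_lit 439) (nat_lit 296)) (XT.lf (nat_lit 0) (nat_lit 13532250282) (nat_lit 532) (nat_lit 5852307403) (nat_lit 608) (nat_lit 451926297) (nat_lit 244) (nat_lit 5) (nat_lit 251) (nat_lit 5) (nat_lit 252) (nat_lit 5) (nat_lit 466) (nat_lit 439) (nat_lit 295))))))))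
noncomputable def xc181 : XT := (XT.nd (nat_lit 2340) (nat_lit 4180) (nat_lit 0) (XT.nd (nat_lit 1170) (nat_lit 3116) (nat_lit 0) (XT.nd (nat_lit 546) (nat_lit 2280) (nat_lit 0) (XT.nd (nat_lit 234) (nat_lit 912) (nat_lit 0) (XT.nd (nat_lit 78) (nat_lit 532) (nat_lit 0) (XT.lf (nat_lit 0) (nat_lit 2206192184) (nat_lit 608) (nat_lit 15298336194) (nat_lit 76) (nat_lit 2662665002) (nat_lit 236) (nat_lit 5) (nat_lit 244) (nat_lit 5) (nat_lit 237) (nat_lit 5) (nat_lit 467) (nat_lit 439) (nat_lit 294)) (XT.nd (nat_lit 78) (nat_lit 532) (nat_lit 0) (XT.lf (nat_lit 0) (nat_lit 5049480069) (nat_lit 608) (nat_lit 4071166718) (nat_lit 76) (nat_lit 11383608668) (nat_lit 236) (nat_lit 5) (nat_lit 244) (nat_lit 5) (nat_lit 237) (nat_lit 5) (nat_lit 468) (nat_lit 439) (nat_lit 293)) (XT.lf (nat_lit 0) (nat_lit 7633448256) (nat_lit 532) (nat_lit 410495496) (nat_lit 608) (nat_lit 12805510202) (nat_lit 229) (nat_lit 5) (nat_lit 236)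 (nat_lit 5) (nat_lit 237) (nat_lit 5) (nat_lit 469) (nat_lit 439) (nat_lit 292)))) (XT.nd (nat_lit 156) (nat_lit 456) (nat_lit 0) (XT.nd (nat_lit 78) (nat_lit 456) (nat_lit 0) (XT.lf (nat_lit 0) (nat_lit 11244682880) (nat_lit 608) (nat_lit 1522275928) (nat_lit 76) (nat_lit 8434557207) (nat_lit 229) (nat_lit 5) (nat_lit 237) (nat_lit 5) (nat_lit 230) (nat_lit 5) (nat_lit 470) (nat_lit 439) (nat_lit 291)) (XT.lf (nat_lit 0) (nat_lit 10719159943) (nat_lit 456) (nat_lit 3922232822) (nat_lit 532) (nat_lit 6919749540) (nat_lit 223) (nat_lit 5) (nat_lit 229) (nat_lit 5) (nat_lit 230) (nat_lit 5) (nat_lit 471) (nat_lit 439) (nat_lit 290))) (XT.nd (nat_lit 78) (nat_lit 0) (nat_lit 0) (XT.lf (nat_lit 0) (nat_lit 1396853315) (nat_lit 456) (nat_lit 16814935647) (nat_lit 532) (nat_lit 3717615677) (nat_lit 217) (nat_lit 5) (nat_lit 223) (nat_lit 5) (nat_lit 224) (nat_lit 5) (nat_lit 472) (nat_lit 439) (nat_lit 289)) (XT.lf (nat_lit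 0) (nat_lit 14177247582) (nat_lit 456) (nat_lit 7853075859) (nat_lit 532) (nat_lit 274161389) (nat_lit 217) (nat_lit 5) (nat_lit 223) (nat_lit 5) (nat_lit 224) (nat_lit 5) (nat_lit 473) (nat_lit 439) (nat_lit 288))))) (XT.nd (nat_lit 312) (nat_lit 1292) (nat_lit 0) (XT.nd (nat_lit 156) (nat_lit 456) (nat_lit 0) (XT.nd (nat_lit 78) (nat_lit 0) (nat_lit 0) (XT.lf (nat_lit 0) (nat_lit 3261151693) (nat_lit 532) (nat_lit 18000316425) (nat_lit 76) (nat_lit 1426833839) (nat_lit 210) (nat_lit 5) (nat_lit 217) (nat_lit 5) (nat_lit 211) (nat_lit 5) (nat_lit 474) (nat_lit 439) (nat_lit 287)) (XT.lf (nat_lit 0) (nat_lit 7050979481) (nat_lit 532) (nat_lit 5116438308) (nat_lit 76) (nat_lit 10911516116) (nat_lit 210) (nat_lit 5) (nat_lit 217) (nat_lit 5) (nat_lit 211) (nat_lit 5) (nat_lit 475) (nat_lit 439) (nat_lit 286))) (XT.nd (nat_lit 78) (nat_lit 0) (nat_lit 0) (XT.lf (nat_lit 0) (nat_lit 8308064850) (nat_lit 456) (nat_lit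 2719824436) (nat_lit 532) (nat_lit 12451194604) (nat_lit 204) (nat_lit 5) (nat_lit 210) (nat_lit 5) (nat_lit 211) (nat_lit 5) (nat_lit 476) (nat_lit 439) (nat_lit 285)) (XT.lf (nat_lit 0) (nat_lit 15237302061) (nat_lit 532) (nat_lit 1725520261) (nat_lit 76) (nat_lit 6925020855) (nat_lit 204) (nat_lit 5) (nat_lit 211) (nat_lit 5) (nat_lit 205) (nat_lit 5) (nat_lit 477) (nat_lit 439) (nat_lit 284)))) (XT.nd (nat_lit 156) (nat_lit 456) (nat_lit 0) (XT.nd (nat_lit 78) (nat_lit 456) (nat_lit 0) (XT.lf (nat_lit 0) (nat_lit 12329126914) (nat_lit 380) (nat_lit 7383122351) (nat_lit 456) (nat_lit 4592439067) (nat_lit 199) (nat_lit 5) (nat_lit 204) (nat_lit 5) (nat_lit 205) (nat_lit 5) (nat_lit 478) (nat_lit 439) (nat_lit 283)) (XT.lf (nat_lit 0) (nat_lit 2116557689) (nat_lit 456) (nat_lit 22260604121) (nat_lit 532) (nat_lit 355206160) (nat_lit 193) (nat_lit 5) (nat_lit 199) (nat_lit 5) (nat_lit 200) (nat_lit 5) (nat_lit 479)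 (nat_lit 439) (nat_lit 282))) (XT.nd (nat_lit 78) (nat_lit 380) (nat_lit 0) (XT.lf (nat_lit 0) (nat_lit 4120077037) (nat_lit 532) (nat_lit 8413164406) (nat_lit 76) (nat_lit 12632806017) (nat_lit 192) (nat_lit 5) (nat_lit 199) (nat_lit 5) (nat_lit 193) (nat_lit 5) (nat_lit 480) (nat_lit 439) (nat_lit 281)) (XT.lf (nat_lit 0) (nat_lit 6327748244) (nat_lit 380) (nat_lit 2449672822) (nat_lit 456) (nat_lit 16833563092) (nat_lit 187) (nat_lit 5) (nat_lit 192) (nat_lit 5) (nat_lit 193) (nat_lit 5) (nat_lit 481) (nat_lit 439) (nat_lit 280)))))) (XT.nd (nat_lit 546) (nat_lit 1672) (nat_lit 0) (XT.nd (nat_lit 234) (nat_lit 1064) (nat_lit 0) (XT.nd (nat_lit 78) (nat_lit 380) (nat_lit 0) (XT.lf (nat_lit 0) (nat_lit 13730767090) (nat_lit 456) (nat_lit 4468353565) (nat_lit 76) (nat_lit 7865460417) (nat_lit 187) (nat_lit 5) (nat_lit 193) (nat_lit 5) (nat_lit 188) (nat_lit 5) (nat_lit 482) (nat_lit 439) (nat_lit 279)) (XT.nd (nat_lit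 78) (nat_lit 0) (nat_lit 0) (XT.lf (nat_lit 0) (nat_lit 10973224429) (nat_lit 380) (nat_lit 7983588185) (nat_lit 456) (nat_lit 7571250851) (nat_lit 182) (nat_lit 5) (nat_lit 187) (nat_lit 5) (nat_lit 188) (nat_lit 5) (nat_lit 483) (nat_lit 439) (nat_lit 278)) (XT.lf (nat_lit 0) (nat_lit 24404044539) (nat_lit 456) (nat_lit 66994191) (nat_lit 76) (nat_lit 2532479981) (nat_lit 182) (nat_lit 5) (nat_lit 188) (nat_lit 5) (nat_lit 183) (nat_lit 5) (nat_lit 484) (nat_lit 439) (nat_lit 277)))) (XT.nd (nat_lit 156) (nat_lit 304) (nat_lit 0) (XT.nd (nat_lit 78) (nat_lit 380) (nat_lit 0) (XT.lf (nat_lit 0) (nat_lit 2703050598) (nat_lit 380) (nat_lit 11399484016) (nat_lit 76) (nat_lit 13383052442) (nat_lit 177) (nat_lit 5) (nat_lit 182) (nat_lit 5) (nat_lit 178) (nat_lit 5) (nat_lit 485) (nat_lit 439) (nat_lit 276)) (XT.lf (nat_lit 0) (nat_lit 4803553365) (nat_lit 380) (nat_lit 3350339866) (nat_lit 456) (nat_lit 19826207916)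 (nat_lit 172) (nat_lit 5) (nat_lit 177) (nat_lit 5) (nat_lit 178) (nat_lit 5) (nat_lit 486) (nat_lit 439) (nat_lit 275))) (XT.nd (nat_lit 78) (nat_lit 304) (nat_lit 0) (XT.lf (nat_lit 0) (nat_lit 13953460513) (nat_lit 456) (nat_lit 6842600041) (nat_lit 76) (nat_lit 7687834598) (nat_lit 172) (nat_lit 5) (nat_lit 178) (nat_lit 5) (nat_lit 173) (nat_lit 5) (nat_lit 487) (nat_lit 439) (nat_lit 274)) (XT.lf (nat_lit 0) (nat_lit 10138685970) (nat_lit 304) (nat_lit 9913809626) (nat_lit 380) (nat_lit 8946543416) (nat_lit 168) (nat_lit 5) (nat_lit 172) (nat_lit 5) (nat_lit 173) (nat_lit 5) (nat_lit 488) (nat_lit 439) (nat_lit 273))))) (XT.nd (nat_lit 312) (nat_lit 988) (nat_lit 0) (XT.nd (nat_lit 156) (nat_lit 304) (nat_lit 0) (XT.nd (nat_lit 78) (nat_lit 380) (nat_lit 0) (XT.lf (nat_lit 0) (nat_lit 26411638815) (nat_lit 380) (nat_lit 1778428723) (nat_lit 76) (nat_lit 1337255981) (nat_lit 168) (nat_lit 5) (nat_lit 173) (nat_lit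 5) (nat_lit 169) (nat_lit 5) (nat_lit 489) (nat_lit 439) (nat_lit 272)) (XT.lf (nat_lit 0) (nat_lit 3083389995) (nat_lit 380) (nat_lit 14070994733) (nat_lit 76) (nat_lit 12908748216) (nat_lit 163) (nat_lit 5) (nat_lit 168) (nat_lit 5) (nat_lit 164) (nat_lit 5) (nat_lit 490) (nat_lit 439) (nat_lit 271))) (XT.nd (nat_lit 78) (nat_lit 0) (nat_lit 0) (XT.lf (nat_lit 0) (nat_lit 3752782534) (nat_lit 304) (nat_lit 5702326556) (nat_lit 380) (nat_lit 21157503688) (nat_lit 159) (nat_lit 5) (nat_lit 163) (nat_lit 5) (nat_lit 164) (nat_lit 5) (nat_lit 491) (nat_lit 439) (nat_lit 270)) (XT.lf (nat_lit 0) (nat_lit 16215184594) (nat_lit 380) (nat_lit 8841853443) (nat_lit 76) (nat_lit 6115623219) (nat_lit 159) (nat_lit 5) (nat_lit 164) (nat_lit 5) (nat_lit 160) (nat_lit 5) (nat_lit 492) (nat_lit 439) (nat_lit 269)))) (XT.nd (nat_lit 156) (nat_lit 684) (nat_lit 0) (XT.nd (nat_lit 78) (nat_lit 0) (nat_lit 0) (XT.lf (nat_lit 0) (nat_lit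 9845257755) (nat_lit 304) (nat_lit 13479179683) (nat_lit 380) (nat_lit 8420682883) (nat_lit 155) (nat_lit 5) (nat_lit 159) (nat_lit 5) (nat_lit 160) (nat_lit 5) (nat_lit 493) (nat_lit 439) (nat_lit 268)) (XT.lf (nat_lit 0) (nat_lit 29267238190) (nat_lit 304) (nat_lit 1464363131) (nat_lit 380) (nat_lit 1600613205) (nat_lit 155) (nat_lit 5) (nat_lit 159) (nat_lit 5) (nat_lit 160) (nat_lit 5) (nat_lit 494) (nat_lit 439) (nat_lit 267))) (XT.nd (nat_lit 78) (nat_lit 304) (nat_lit 0) (XT.lf (nat_lit 0) (nat_lit 5580178183) (nat_lit 380) (nat_lit 16437804288) (nat_lit 76) (nat_lit 10909516380) (nat_lit 150) (nat_lit 5) (nat_lit 155) (nat_lit 5) (nat_lit 151) (nat_lit 5) (nat_lit 495) (nat_lit 439) (nat_lit 266)) (XT.lf (nat_lit 0) (nat_lit 3178567688) (nat_lit 304) (nat_lit 9837448119) (nat_lit 380) (nat_lit 20521997012) (nat_lit 146) (nat_lit 5) (nat_lit 150) (nat_lit 5) (nat_lit 151) (nat_lit 5) (nat_lit 496) (nat_lit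 439) (nat_lit 265))))))) (XT.nd (nat_lit 1170) (nat_lit 1900) (nat_lit 0) (XT.nd (nat_lit 546) (nat_lit 1216) (nat_lit 0) (XT.nd (nat_lit 234) (nat_lit 760) (nat_lit 0) (XT.nd (nat_lit 78) (nat_lit 304) (nat_lit 0) (XT.lf (nat_lit 0) (nat_lit 20864123436) (nat_lit 380) (nat_lit 10476121152) (nat_lit 76) (nat_lit 2820922103) (nat_lit 146) (nat_lit 5) (nat_lit 151) (nat_lit 5) (nat_lit 147) (nat_lit 5) (nat_lit 497) (nat_lit 439) (nat_lit 264)) (XT.nd (nat_lit 78) (nat_lit 76) (nat_lit 0) (XT.lf (nat_lit 0) (nat_lit 10096556142) (nat_lit 228) (nat_lit 19041229252) (nat_lit 304) (nat_lit 5659526774) (nat_lit 143) (nat_lit 5) (nat_lit 146) (nat_lit 5) (nat_lit 147) (nat_lit 5) (nat_lit 498) (nat_lit 439) (nat_lit 263)) (XT.lf (nat_lit 0) (nat_lit 2266557889) (nat_lit 304) (nat_lit 3977254076) (nat_lit 76) (nat_lit 29205018520) (nat_lit 142) (nat_lit 5) (nat_lit 146) (nat_lit 5) (nat_lit 143) (nat_lit 5) (nat_lit 499)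 (nat_lit 439) (nat_lit 262)))) (XT.nd (nat_lit 156) (nat_lit 228) (nat_lit 0) (XT.nd (nat_lit 78) (nat_lit 228) (nat_lit 0) (XT.lf (nat_lit 0) (nat_lit 10551035406) (nat_lit 380) (nat_lit 18532409607) (nat_lit 76) (nat_lit 7027737748) (nat_lit 138) (nat_lit 5) (nat_lit 143) (nat_lit 5) (nat_lit 139) (nat_lit 5) (nat_lit 500) (nat_lit 439) (nat_lit 261)) (XT.lf (nat_lit 0) (nat_lit 3061712341) (nat_lit 228) (nat_lit 16149984349) (nat_lit 304) (nat_lit 17577879717) (nat_lit 135) (nat_lit 5) (nat_lit 138) (nat_lit 5) (nat_lit 139) (nat_lit 5) (nat_lit 501) (nat_lit 439) (nat_lit 260))) (XT.nd (nat_lit 78) (nat_lit 228) (nat_lit 0) (XT.lf (nat_lit 0) (nat_lit 25676993726) (nat_lit 228) (nat_lit 2638221590) (nat_lit 304) (nat_lit 9167615698) (nat_lit 135) (nat_lit 5) (nat_lit 138) (nat_lit 5) (nat_lit 139) (nat_lit 5) (nat_lit 502) (nat_lit 439) (nat_lit 259)) (XT.lf (nat_lit 0) (nat_lit 10871098727) (nat_lit 228) (nat_lit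 27029653150) (nat_lit 304) (nat_lit 289864282) (nat_lit 132) (nat_lit 5) (nat_lit 135) (nat_lit 5) (nat_lit 136) (nat_lit 5) (nat_lit 503) (nat_lit 439) (nat_lit 258))))) (XT.nd (nat_lit 312) (nat_lit 684) (nat_lit 0) (XT.nd (nat_lit 156) (nat_lit 228) (nat_lit 0) (XT.nd (nat_lit 78) (nat_lit 228) (nat_lit 0) (XT.lf (nat_lit 0) (nat_lit 8823967996) (nat_lit 304) (nat_lit 4564603523) (nat_lit 76) (nat_lit 25524234444) (nat_lit 131) (nat_lit 5) (nat_lit 135) (nat_lit 5) (nat_lit 132) (nat_lit 5) (nat_lit 504) (nat_lit 439) (nat_lit 257)) (XT.lf (nat_lit 0) (nat_lit 18394650852) (nat_lit 304) (nat_lit 20420120359) (nat_lit 76) (nat_lit 836126552) (nat_lit 128) (nat_lit 5) (nat_lit 132) (nat_lit 5) (nat_lit 129) (nat_lit 5) (nat_lit 505) (nat_lit 439) (nat_lit 256))) (XT.nd (nat_lit 78) (nat_lit 0) (nat_lit 0) (XT.lf (nat_lit 0) (nat_lit 3349867916) (nat_lit 228) (nat_lit 25110052192) (nat_lit 304) (nat_lit 11944988471)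 (nat_lit 125) (nat_lit 5) (nat_lit 128) (nat_lit 5) (nat_lit 129) (nat_lit 5) (nat_lit 506) (nat_lit 439) (nat_lit 255)) (XT.lf (nat_lit 0) (nat_lit 28245286551) (nat_lit 228) (nat_lit 10784270771) (nat_lit 304) (nat_lit 2145910330) (nat_lit 125) (nat_lit 5) (nat_lit 128) (nat_lit 5) (nat_lit 129) (nat_lit 5) (nat_lit 507) (nat_lit 439) (nat_lit 254)))) (XT.nd (nat_lit 156) (nat_lit 380) (nat_lit 0) (XT.nd (nat_lit 78) (nat_lit 0) (nat_lit 0) (XT.lf (nat_lit 0) (nat_lit 7944437617) (nat_lit 304) (nat_lit 29932103600) (nat_lit 76) (nat_lit 4085739475) (nat_lit 121) (nat_lit 5) (nat_lit 125) (nat_lit 5) (nat_lit 122) (nat_lit 5) (nat_lit 508) (nat_lit 439) (nat_lit 253)) (XT.lf (nat_lit 0) (nat_lit 18529309503) (nat_lit 304) (nat_lit 4899873609) (nat_lit 76) (nat_lit 19335829498) (nat_lit 121) (nat_lit 5) (nat_lit 125) (nat_lit 5) (nat_lit 122) (nat_lit 5) (nat_lit 509) (nat_lit 439) (nat_lit 252))) (XT.nd (nat_lit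 78) (nat_lit 152) (nat_lit 0) (XT.lf (nat_lit 0) (nat_lit 21292822675) (nat_lit 228) (nat_lit 8339999043) (nat_lit 304) (nat_lit 13952972149) (nat_lit 118) (nat_lit 5) (nat_lit 121) (nat_lit 5) (nat_lit 122) (nat_lit 5) (nat_lit 510) (nat_lit 439) (nat_lit 251)) (XT.lf (nat_lit 0) (nat_lit 3943231649) (nat_lit 152) (nat_lit 37279748854) (nat_lit 228) (nat_lit 3203612022) (nat_lit 116) (nat_lit 5) (nat_lit 118) (nat_lit 5) (nat_lit 119) (nat_lit 5) (nat_lit 511) (nat_lit 439) (nat_lit 250)))))) (XT.nd (nat_lit 624) (nat_lit 988) (nat_lit 0) (XT.nd (nat_lit 312) (nat_lit 456) (nat_lit 0) (XT.nd (nat_lit 156) (nat_lit 152) (nat_lit 0) (XT.nd (nat_lit 78) (nat_lit 228) (nat_lit 0) (XT.lf (nat_lit 0) (nat_lit 8021059972) (nat_lit 228) (nat_lit 14028830855) (nat_lit 76) (nat_lit 23231264422) (nat_lit 115) (nat_lit 5) (nat_lit 118) (nat_lit 5) (nat_lit 116) (nat_lit 5) (nat_lit 512) (nat_lit 439) (nat_lit 249)) (XT.lf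 (nat_lit 0) (nat_lit 13444098276) (nat_lit 228) (nat_lit 6199770851) (nat_lit 304) (nat_lit 26512760749) (nat_lit 112) (nat_lit 5) (nat_lit 115) (nat_lit 5) (nat_lit 116) (nat_lit 5) (nat_lit 513) (nat_lit 439) (nat_lit 248))) (XT.nd (nat_lit 78) (nat_lit 152) (nat_lit 0) (XT.lf (nat_lit 0) (nat_lit 31852339795) (nat_lit 304) (nat_lit 5129947105) (nat_lit 76) (nat_lit 10068972703) (nat_lit 112) (nat_lit 5) (nat_lit 116) (nat_lit 5) (nat_lit 113) (nat_lit 5) (nat_lit 514) (nat_lit 439) (nat_lit 247)) (XT.lf (nat_lit 0) (nat_lit 23675004666) (nat_lit 152) (nat_lit 21037697221) (nat_lit 228) (nat_lit 3251457390) (nat_lit 110) (nat_lit 5) (nat_lit 112) (nat_lit 5) (nat_lit 113) (nat_lit 5) (nat_lit 515) (nat_lit 439) (nat_lit 246)))) (XT.nd (nat_lit 156) (nat_lit 152) (nat_lit 0) (XT.nd (nat_lit 78) (nat_lit 0) (nat_lit 0) (XT.lf (nat_lit 0) (nat_lit 4541726693) (nat_lit 228) (nat_lit 4428675475) (nat_lit 304) (nat_lit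 39928653099) (nat_lit 106) (nat_lit 5) (nat_lit 109) (nat_lit 5) (nat_lit 110) (nat_lit 5) (nat_lit 516) (nat_lit 439) (nat_lit 245)) (XT.lf (nat_lit 0) (nat_lit 21859846089) (nat_lit 304) (nat_lit 15281437805) (nat_lit 76) (nat_lit 12708760232) (nat_lit 106) (nat_lit 5) (nat_lit 110) (nat_lit 5) (nat_lit 107) (nat_lit 5) (nat_lit 517) (nat_lit 439) (nat_lit 244))) (XT.nd (nat_lit 78) (nat_lit 0) (nat_lit 0) (XT.lf (nat_lit 0) (nat_lit 14908221274) (nat_lit 152) (nat_lit 20411707023) (nat_lit 228) (nat_lit 15504115859) (nat_lit 104) (nat_lit 5) (nat_lit 106) (nat_lit 5) (nat_lit 107) (nat_lit 5) (nat_lit 518) (nat_lit 439) (nat_lit 243)) (XT.lf (nat_lit 0) (nat_lit 46311306023) (nat_lit 152) (nat_lit 3023659423) (nat_lit 228) (nat_lit 2487764315) (nat_lit 104) (nat_lit 5) (nat_lit 106) (nat_lit 5) (nat_lit 107) (nat_lit 5) (nat_lit 519) (nat_lit 439) (nat_lit 242))))) (XT.nd (nat_lit 312) (nat_lit 456) (nat_lit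 0) (XT.nd (nat_lit 156) (nat_lit 152) (nat_lit 0) (XT.nd (nat_lit 78) (nat_lit 152) (nat_lit 0) (XT.lf (nat_lit 0) (nat_lit 11101422444) (nat_lit 228) (nat_lit 26781265307) (nat_lit 76) (nat_lit 14953677042) (nat_lit 101) (nat_lit 5) (nat_lit 104) (nat_lit 5) (nat_lit 102) (nat_lit 5) (nat_lit 520) (nat_lit 439) (nat_lit 241)) (XT.lf (nat_lit 0) (nat_lit 4836683180) (nat_lit 152) (nat_lit 20341153944) (nat_lit 228) (nat_lit 28697946330) (nat_lit 99) (nat_lit 5) (nat_lit 101) (nat_lit 5) (nat_lit 102) (nat_lit 5) (nat_lit 521) (nat_lit 439) (nat_lit 240))) (XT.nd (nat_lit 78) (nat_lit 152) (nat_lit 0) (XT.lf (nat_lit 0) (nat_lit 37946776808) (nat_lit 152) (nat_lit 1997161659) (nat_lit 228) (nat_lit 14994424514) (nat_lit 99) (nat_lit 5) (nat_lit 101) (nat_lit 5) (nat_lit 102) (nat_lit 5) (nat_lit 522) (nat_lit 439) (nat_lit 239)) (XT.lf (nat_lit 0) (nat_lit 16165073233) (nat_lit 152) (nat_lit 39302786725) (nat_lit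 228) (nat_lit 555514952) (nat_lit 97) (nat_lit 5) (nat_lit 99) (nat_lit 5) (nat_lit 100) (nat_lit 5) (nat_lit 523) (nat_lit 439) (nat_lit 238)))) (XT.nd (nat_lit 156) (nat_lit 228) (nat_lit 0) (XT.nd (nat_lit 78) (nat_lit 152) (nat_lit 0) (XT.lf (nat_lit 0) (nat_lit 14227278498) (nat_lit 228) (nat_lit 6635439231) (nat_lit 76) (nat_lit 36268388472) (nat_lit 96) (nat_lit 5) (nat_lit 99) (nat_lit 5) (nat_lit 97) (nat_lit 5) (nat_lit 524) (nat_lit 439) (nat_lit 237)) (XT.lf (nat_lit 0) (nat_lit 28122228787) (nat_lit 152) (nat_lit 1587606120) (nat_lit 228) (nat_lit 28554046304) (nat_lit 94) (nat_lit 5) (nat_lit 96) (nat_lit 5) (nat_lit 97) (nat_lit 5) (nat_lit 525) (nat_lit 439) (nat_lit 236))) (XT.nd (nat_lit 78) (nat_lit 76) (nat_lit 0) (XT.lf (nat_lit 0) (nat_lit 4537148928) (nat_lit 152) (nat_lit 41403712716) (nat_lit 228) (nat_lit 13481258134) (nat_lit 92) (nat_lit 5) (nat_lit 94) (nat_lit 5) (nat_lit 95) (nat_lit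 5) (nat_lit 526) (nat_lit 439) (nat_lit 235)) (XT.lf (nat_lit 0) (nat_lit 2324073603) (nat_lit 228) (nat_lit 19775329751) (nat_lit 76) (nat_lit 38505505686) (nat_lit 91) (nat_lit 5) (nat_lit 94) (nat_lit 5) (nat_lit 92) (nat_lit 5) (nat_lit 527) (nat_lit 439) (nat_lit 234))))))))
noncomputable def xc182 : XT := (XT.nd (nat_lit 56394) (nat_lit 0) (nat_lit 9652) (XT.nd (nat_lit 1170) (nat_lit 456) (nat_lit 0) (XT.nd (nat_lit 546) (nat_lit 760) (nat_lit 0) (XT.nd (nat_lit 234) (nat_lit 380) (nat_lit 0) (XT.nd (nat_lit 78) (nat_lit 152) (nat_lit 0) (XT.lf (nat_lit 0) (nat_lit 16572496171) (nat_lit 152) (nat_lit 1916633662) (nat_lit 228) (nat_lit 43325352184) (nat_lit 89) (nat_lit 5) (nat_lit 91) (nat_lit 5) (nat_lit 92) (nat_lit 5) (nat_lit 528) (nat_lit 439) (nat_lit 233)) (XT.nd (nat_lit 78) (nat_lit 152) (nat_lit 0) (XT.lf (nat_lit 0) (nat_lit 35519443926) (nat_lit 228) (nat_lit 8826630083) (nat_lit 76) (nat_lit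 18702859092) (nat_lit 89) (nat_lit 5) (nat_lit 92) (nat_lit 5) (nat_lit 90) (nat_lit 5) (nat_lit 529) (nat_lit 439) (nat_lit 232)) (XT.lf (nat_lit 0) (nat_lit 29227665541) (nat_lit 152) (nat_lit 24130244731) (nat_lit 228) (nat_lit 10953590257) (nat_lit 87) (nat_lit 5) (nat_lit 89) (nat_lit 5) (nat_lit 90) (nat_lit 5) (nat_lit 530) (nat_lit 439) (nat_lit 231)))) (XT.nd (nat_lit 156) (nat_lit 152) (nat_lit 0) (XT.nd (nat_lit 78) (nat_lit 0) (nat_lit 0) (XT.lf (nat_lit 0) (nat_lit 2988987592) (nat_lit 152) (nat_lit 3127246499) (nat_lit 228) (nat_lit 59490464318) (nat_lit 84) (nat_lit 5) (nat_lit 86) (nat_lit 5) (nat_lit 87) (nat_lit 5) (nat_lit 531) (nat_lit 439) (nat_lit 230)) (XT.lf (nat_lit 0) (nat_lit 24011000045) (nat_lit 228) (nat_lit 24301690944) (nat_lit 76) (nat_lit 18608817688) (nat_lit 84) (nat_lit 5) (nat_lit 87) (nat_lit 5) (nat_lit 85) (nat_lit 5) (nat_lit 532) (nat_lit 439) (nat_lit 229))) (XT.nd (nat_lit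 78) (nat_lit 0) (nat_lit 0) (XT.lf (nat_lit 0) (nat_lit 15429170457) (nat_lit 152) (nat_lit 27190121883) (nat_lit 228) (nat_lit 25651170500) (nat_lit 82) (nat_lit 5) (nat_lit 84) (nat_lit 5) (nat_lit 85) (nat_lit 5) (nat_lit 533) (nat_lit 439) (nat_lit 228)) (XT.lf (nat_lit 0) (nat_lit 56845410238) (nat_lit 152) (nat_lit 5183258794) (nat_lit 228) (nat_lit 7623931613) (nat_lit 82) (nat_lit 5) (nat_lit 84) (nat_lit 5) (nat_lit 85) (nat_lit 5) (nat_lit 534) (nat_lit 439) (nat_lit 227))))) (XT.nd (nat_lit 312) (nat_lit 380) (nat_lit 0) (XT.nd (nat_lit 156) (nat_lit 228) (nat_lit 0) (XT.nd (nat_lit 78) (nat_lit 0) (nat_lit 0) (XT.lf (nat_lit 0) (nat_lit 11177515065) (nat_lit 152) (nat_lit 42354930714) (nat_lit 76) (nat_lit 17527192338) (nat_lit 80) (nat_lit 5) (nat_lit 82) (nat_lit 5) (nat_lit 81) (nat_lit 5) (nat_lit 535) (nat_lit 439) (nat_lit 226)) (XT.lf (nat_lit 0) (nat_lit 30569194318) (nat_lit 152) (nat_lit 913224713)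 (nat_lit 76) (nat_lit 41018820547) (nat_lit 80) (nat_lit 5) (nat_lit 82) (nat_lit 5) (nat_lit 81) (nat_lit 5) (nat_lit 536) (nat_lit 439) (nat_lit 225))) (XT.nd (nat_lit 78) (nat_lit 76) (nat_lit 0) (XT.lf (nat_lit 0) (nat_lit 42598486761) (nat_lit 152) (nat_lit 8351188130) (nat_lit 228) (nat_lit 23024202739) (nat_lit 78) (nat_lit 5) (nat_lit 80) (nat_lit 5) (nat_lit 81) (nat_lit 5) (nat_lit 537) (nat_lit 439) (nat_lit 224)) (XT.lf (nat_lit 0) (nat_lit 12025165200) (nat_lit 76) (nat_lit 60187632949) (nat_lit 152) (nat_lit 3269759899) (nat_lit 77) (nat_lit 5) (nat_lit 78) (nat_lit 5) (nat_lit 79) (nat_lit 4) (nat_lit 538) (nat_lit 439) (nat_lit 223)))) (XT.nd (nat_lit 156) (nat_lit 152) (nat_lit 0) (XT.nd (nat_lit 78) (nat_lit 152) (nat_lit 0) (XT.lf (nat_lit 0) (nat_lit 17144308669) (nat_lit 152) (nat_lit 19910578955) (nat_lit 76) (nat_lit 39964679624) (nat_lit 76) (nat_lit 5) (nat_lit 78) (nat_lit 5) (nat_lit 77)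 (nat_lit 5) (nat_lit 539) (nat_lit 439) (nat_lit 222)) (XT.lf (nat_lit 0) (nat_lit 25401564711) (nat_lit 152) (nat_lit 12945342002) (nat_lit 228) (nat_lit 40247554072) (nat_lit 74) (nat_lit 5) (nat_lit 76) (nat_lit 5) (nat_lit 77) (nat_lit 5) (nat_lit 540) (nat_lit 439) (nat_lit 221))) (XT.nd (nat_lit 78) (nat_lit 152) (nat_lit 0) (XT.lf (nat_lit 0) (nat_lit 60500559402) (nat_lit 228) (nat_lit 7849994143) (nat_lit 76) (nat_lit 11856598347) (nat_lit 74) (nat_lit 5) (nat_lit 77) (nat_lit 5) (nat_lit 75) (nat_lit 4) (nat_lit 541) (nat_lit 439) (nat_lit 220)) (XT.lf (nat_lit 0) (nat_lit 1932810231) (nat_lit 152) (nat_lit 42380621778) (nat_lit 76) (nat_lit 37539057904) (nat_lit 72) (nat_lit 5) (nat_lit 74) (nat_lit 5) (nat_lit 73) (nat_lit 5) (nat_lit 542) (nat_lit 439) (nat_lit 219)))))) (XT.nd (nat_lit 54600) (nat_lit 0) (nat_lit 17404) (XT.nd (nat_lit 234) (nat_lit 228) (nat_lit 0) (XT.nd (nat_lit 78) (nat_lit 76)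 (nat_lit 0) (XT.lf (nat_lit 0) (nat_lit 4721466576) (nat_lit 152) (nat_lit 19227015465) (nat_lit 228) (nat_lit 59589157547) (nat_lit 70) (nat_lit 5) (nat_lit 72) (nat_lit 5) (nat_lit 73) (nat_lit 5) (nat_lit 543) (nat_lit 439) (nat_lit 218)) (XT.nd (nat_lit 78) (nat_lit 76) (nat_lit 0) (XT.lf (nat_lit 0) (nat_lit 47118117533) (nat_lit 228) (nat_lit 31227188657) (nat_lit 76) (nat_lit 6913232818) (nat_lit 70) (nat_lit 5) (nat_lit 73) (nat_lit 5) (nat_lit 71) (nat_lit 4) (nat_lit 544) (nat_lit 439) (nat_lit 217)) (XT.lf (nat_lit 0) (nat_lit 17945130394) (nat_lit 76) (nat_lit 53398380258) (nat_lit 152) (nat_lit 15676734757) (nat_lit 69) (nat_lit 5) (nat_lit 70) (nat_lit 5) (nat_lit 71) (nat_lit 4) (nat_lit 545) (nat_lit 439) (nat_lit 216)))) (XT.nd (nat_lit 54210) (nat_lit 0) (nat_lit 18544) (XT.nd (nat_lit 78) (nat_lit 152) (nat_lit 0) (XT.lf (nat_lit 0) (nat_lit 7631535260) (nat_lit 152) (nat_lit 19671583307) (nat_lit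 76) (nat_lit 61520045106) (nat_lit 68) (nat_lit 5) (nat_lit 70) (nat_lit 5) (nat_lit 69) (nat_lit 5) (nat_lit 546) (nat_lit 439) (nat_lit 215)) (XT.lf (nat_lit 0) (nat_lit 31626742592) (nat_lit 228) (nat_lit 58994024892) (nat_lit 76) (nat_lit 45662315) (nat_lit 66) (nat_lit 5) (nat_lit 69) (nat_lit 5) (nat_lit 67) (nat_lit 4) (nat_lit 547) (nat_lit 439) (nat_lit 214))) (XT.nd (nat_lit 78) (nat_lit 0) (nat_lit 0) (XT.lf (nat_lit 0) (nat_lit 2917619233) (nat_lit 0) (nat_lit 2917619233) (nat_lit 1140) (nat_lit 916330905) (nat_lit 310) (nat_lit 5) (nat_lit 310) (nat_lit 3) (nat_lit 325) (nat_lit 3) (nat_lit 440) (nat_lit 440) (nat_lit 320)) (XT.lf (nat_lit 0) (nat_lit 12216604570) (nat_lit 1140) (nat_lit 997840881) (nat_lit 1216) (nat_lit 480055272) (nat_lit 310) (nat_lit 5) (nat_lit 325) (nat_lit 3) (nat_lit 326) (nat_lit 5) (nat_lit 441) (nat_lit 440) (nat_lit 319))))) (XT.nd (nat_lit 312) (nat_lit 0) (nat_lit 76)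 (XT.nd (nat_lit 156) (nat_lit 1140) (nat_lit 0) (XT.nd (nat_lit 78) (nat_lit 0) (nat_lit 0) (XT.lf (nat_lit 76) (nat_lit 5922465475) (nat_lit 0) (nat_lit 6957126117) (nat_lit 1216) (nat_lit 1008999773) (nat_lit 311) (nat_lit 5) (nat_lit 310) (nat_lit 5) (nat_lit 326) (nat_lit 5) (nat_lit 442) (nat_lit 440) (nat_lit 318)) (XT.lf (nat_lit 76) (nat_lit 13063261955) (nat_lit 0) (nat_lit 495394708) (nat_lit 1216) (nat_lit 529964416) (nat_lit 311) (nat_lit 5) (nat_lit 310) (nat_lit 5) (nat_lit 326) (nat_lit 5) (nat_lit 443) (nat_lit 440) (nat_lit 317))) (XT.nd (nat_lit 78) (nat_lit 0) (nat_lit 0) (XT.lf (nat_lit 0) (nat_lit 70364276) (nat_lit 1216) (nat_lit 8115053711) (nat_lit 1292) (nat_lit 6106059865) (nat_lit 295) (nat_lit 5) (nat_lit 311) (nat_lit 5) (nat_lit 312) (nat_lit 5) (nat_lit 444) (nat_lit 440) (nat_lit 316)) (XT.lf (nat_lit 0) (nat_lit 680173173) (nat_lit 1216) (nat_lit 903091809) (nat_lit 1292) (nat_lit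 12916936105) (nat_lit 295) (nat_lit 5) (nat_lit 311) (nat_lit 5) (nat_lit 312) (nat_lit 5) (nat_lit 445) (nat_lit 440) (nat_lit 315)))) (XT.nd (nat_lit 156) (nat_lit 0) (nat_lit 76) (XT.nd (nat_lit 78) (nat_lit 0) (nat_lit 0) (XT.lf (nat_lit 0) (nat_lit 1410149150) (nat_lit 1216) (nat_lit 8117321509) (nat_lit 1292) (nat_lit 5184660961) (nat_lit 296) (nat_lit 5) (nat_lit 312) (nat_lit 5) (nat_lit 313) (nat_lit 5) (nat_lit 446) (nat_lit 440) (nat_lit 314)) (XT.lf (nat_lit 0) (nat_lit 2174403293) (nat_lit 1216) (nat_lit 617873932) (nat_lit 1292) (nat_lit 12137773209) (nat_lit 296) (nat_lit 5) (nat_lit 312) (nat_lit 5) (nat_lit 313) (nat_lit 5) (nat_lit 447) (nat_lit 440) (nat_lit 313))) (XT.nd (nat_lit 78) (nat_lit 0) (nat_lit 0) (XT.lf (nat_lit 0) (nat_lit 3059611372) (nat_lit 1216) (nat_lit 7953410625) (nat_lit 1292) (nat_lit 4138545707) (nat_lit 297) (nat_lit 5) (nat_lit 313) (nat_lit 5) (nat_lit 314) (nat_lit 5)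 (nat_lit 448) (nat_lit 440) (nat_lit 312)) (XT.lf (nat_lit 0) (nat_lit 3993498194) (nat_lit 1216) (nat_lit 154122041) (nat_lit 1292) (nat_lit 11231448215) (nat_lit 297) (nat_lit 5) (nat_lit 313) (nat_lit 5) (nat_lit 314) (nat_lit 5) (nat_lit 449) (nat_lit 440) (nat_lit 311))))))) (XT.nd (nat_lit 1170) (nat_lit 4408) (nat_lit 0) (XT.nd (nat_lit 546) (nat_lit 3572) (nat_lit 0) (XT.nd (nat_lit 234) (nat_lit 0) (nat_lit 76) (XT.nd (nat_lit 78) (nat_lit 0) (nat_lit 0) (XT.lf (nat_lit 0) (nat_lit 5049992189) (nat_lit 1216) (nat_lit 7612497189) (nat_lit 1292) (nat_lit 2948068707) (nat_lit 298) (nat_lit 5) (nat_lit 314) (nat_lit 5) (nat_lit 315) (nat_lit 5) (nat_lit 450) (nat_lit 440) (nat_lit 310)) (XT.nd (nat_lit 78) (nat_lit 0) (nat_lit 76) (XT.lf (nat_lit 76) (nat_lit 509628056) (nat_lit 0) (nat_lit 5664899205) (nat_lit 1292) (nat_lit 9673376300) (nat_lit 299) (nat_lit 5) (nat_lit 298) (nat_lit 5) (nat_lit 315) (nat_lit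 5) (nat_lit 451) (nat_lit 440) (nat_lit 309)) (XT.lf (nat_lit 0) (nat_lit 7414343381) (nat_lit 1216) (nat_lit 7082721171) (nat_lit 1292) (nat_lit 1592859993) (nat_lit 299) (nat_lit 5) (nat_lit 315) (nat_lit 5) (nat_lit 316) (nat_lit 5) (nat_lit 452) (nat_lit 440) (nat_lit 308)))) (XT.nd (nat_lit 156) (nat_lit 0) (nat_lit 76) (XT.nd (nat_lit 78) (nat_lit 0) (nat_lit 76) (XT.lf (nat_lit 76) (nat_lit 1383115815) (nat_lit 0) (nat_lit 7367023579) (nat_lit 1292) (nat_lit 7587304652) (nat_lit 300) (nat_lit 5) (nat_lit 299) (nat_lit 5) (nat_lit 316) (nat_lit 5) (nat_lit 453) (nat_lit 440) (nat_lit 307)) (XT.lf (nat_lit 0) (nat_lit 10187669712) (nat_lit 1216) (nat_lit 6351150462) (nat_lit 1292) (nat_lit 51720555) (nat_lit 300) (nat_lit 5) (nat_lit 316) (nat_lit 5) (nat_lit 317) (nat_lit 5) (nat_lit 454) (nat_lit 440) (nat_lit 306))) (XT.nd (nat_lit 78) (nat_lit 0) (nat_lit 0) (XT.lf (nat_lit 76) (nat_lit 2477232745) (nat_lit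 0) (nat_lit 9277800643) (nat_lit 1292) (nat_lit 5093597067) (nat_lit 301) (nat_lit 5) (nat_lit 300) (nat_lit 5) (nat_lit 317) (nat_lit 5) (nat_lit 455) (nat_lit 440) (nat_lit 305)) (XT.lf (nat_lit 76) (nat_lit 11692452269) (nat_lit 0) (nat_lit 1731267526) (nat_lit 1292) (nat_lit 3689115351) (nat_lit 301) (nat_lit 5) (nat_lit 300) (nat_lit 5) (nat_lit 317) (nat_lit 5) (nat_lit 456) (nat_lit 440) (nat_lit 304))))) (XT.nd (nat_lit 312) (nat_lit 1748) (nat_lit 0) (XT.nd (nat_lit 156) (nat_lit 836) (nat_lit 0) (XT.nd (nat_lit 78) (nat_lit 0) (nat_lit 0) (XT.lf (nat_lit 0) (nat_lit 3807105273) (nat_lit 1216) (nat_lit 11420503090) (nat_lit 1292) (nat_lit 2154804657) (nat_lit 285) (nat_lit 5) (nat_lit 301) (nat_lit 5) (nat_lit 302) (nat_lit 5) (nat_lit 457) (nat_lit 440) (nat_lit 303)) (XT.lf (nat_lit 0) (nat_lit 13396857973) (nat_lit 1216) (nat_lit 3751132127) (nat_lit 1292) (nat_lit 510218086) (nat_lit 285) (nat_lit 5)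 (nat_lit 301) (nat_lit 5) (nat_lit 302) (nat_lit 5) (nat_lit 458) (nat_lit 440) (nat_lit 302))) (XT.nd (nat_lit 78) (nat_lit 0) (nat_lit 0) (XT.lf (nat_lit 0) (nat_lit 1244054434) (nat_lit 836) (nat_lit 12562921371) (nat_lit 76) (nat_lit 4132457824) (nat_lit 274) (nat_lit 5) (nat_lit 285) (nat_lit 5) (nat_lit 275) (nat_lit 5) (nat_lit 459) (nat_lit 440) (nat_lit 301)) (XT.lf (nat_lit 0) (nat_lit 3112344298) (nat_lit 836) (nat_lit 2887892369) (nat_lit 76) (nat_lit 12226559441) (nat_lit 274) (nat_lit 5) (nat_lit 285) (nat_lit 5) (nat_lit 275) (nat_lit 5) (nat_lit 460) (nat_lit 440) (nat_lit 300)))) (XT.nd (nat_lit 156) (nat_lit 1140) (nat_lit 0) (XT.nd (nat_lit 78) (nat_lit 0) (nat_lit 0) (XT.lf (nat_lit 0) (nat_lit 5117605735) (nat_lit 684) (nat_lit 11331281474) (nat_lit 76) (nat_lit 2071465678) (nat_lit 266) (nat_lit 5) (nat_lit 275) (nat_lit 5) (nat_lit 267) (nat_lit 5) (nat_lit 461) (nat_lit 440) (nat_lit 299))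 (XT.lf (nat_lit 0) (nat_lit 7263372657) (nat_lit 684) (nat_lit 1262268748) (nat_lit 76) (nat_lit 10294665615) (nat_lit 266) (nat_lit 5) (nat_lit 275) (nat_lit 5) (nat_lit 267) (nat_lit 5) (nat_lit 462) (nat_lit 440) (nat_lit 298))) (XT.nd (nat_lit 78) (nat_lit 532) (nat_lit 0) (XT.lf (nat_lit 0) (nat_lit 9281905441) (nat_lit 608) (nat_lit 272566980) (nat_lit 684) (nat_lit 9572359609) (nat_lit 258) (nat_lit 5) (nat_lit 266) (nat_lit 5) (nat_lit 267) (nat_lit 5) (nat_lit 463) (nat_lit 440) (nat_lit 297)) (XT.lf (nat_lit 0) (nat_lit 651402232) (nat_lit 532) (nat_lit 11353032903) (nat_lit 608) (nat_lit 7435414773) (nat_lit 251) (nat_lit 5) (nat_lit 258) (nat_lit 5) (nat_lit 259) (nat_lit 5) (nat_lit 464) (nat_lit 440) (nat_lit 296)))))) (XT.nd (nat_lit 624) (nat_lit 2280) (nat_lit 0) (XT.nd (nat_lit 312) (nat_lit 988) (nat_lit 0) (XT.nd (nat_lit 156) (nat_lit 608) (nat_lit 0) (XT.nd (nat_lit 78) (nat_lit 532) (nat_lit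 0) (XT.lf (nat_lit 0) (nat_lit 11653561278) (nat_lit 532) (nat_lit 2968482065) (nat_lit 608) (nat_lit 5137391569) (nat_lit 251) (nat_lit 5) (nat_lit 258) (nat_lit 5) (nat_lit 259) (nat_lit 5) (nat_lit 465) (nat_lit 440) (nat_lit 295)) (XT.lf (nat_lit 0) (nat_lit 2890998243) (nat_lit 532) (nat_lit 14501741616) (nat_lit 608) (nat_lit 2693631764) (nat_lit 244) (nat_lit 5) (nat_lit 251) (nat_lit 5) (nat_lit 252) (nat_lit 5) (nat_lit 466) (nat_lit 440) (nat_lit 294))) (XT.nd (nat_lit 78) (nat_lit 608) (nat_lit 0) (XT.lf (nat_lit 0) (nat_lit 14345929744) (nat_lit 532) (nat_lit 6004020609) (nat_lit 608) (nat_lit 70065221) (nat_lit 244) (nat_lit 5) (nat_lit 251) (nat_lit 5) (nat_lit 252) (nat_lit 5) (nat_lit 467) (nat_lit 440) (nat_lit 293)) (XT.lf (nat_lit 0) (nat_lit 2653041419) (nat_lit 608) (nat_lit 15334728521) (nat_lit 76) (nat_lit 2772974801) (nat_lit 236) (nat_lit 5) (nat_lit 244) (nat_lit 5) (nat_lit 237) (nat_lit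 5) (nat_lit 468) (nat_lit 440) (nat_lit 292)))) (XT.nd (nat_lit 156) (nat_lit 456) (nat_lit 0) (XT.nd (nat_lit 78) (nat_lit 532) (nat_lit 0) (XT.lf (nat_lit 0) (nat_lit 5570540655) (nat_lit 608) (nat_lit 3783051468) (nat_lit 76) (nat_lit 11754660470) (nat_lit 236) (nat_lit 5) (nat_lit 244) (nat_lit 5) (nat_lit 237) (nat_lit 5) (nat_lit 469) (nat_lit 440) (nat_lit 291)) (XT.lf (nat_lit 0) (nat_lit 8268679895) (nat_lit 532) (nat_lit 379298913) (nat_lit 608) (nat_lit 12816035282) (nat_lit 229) (nat_lit 5) (nat_lit 236) (nat_lit 5) (nat_lit 237) (nat_lit 5) (nat_lit 470) (nat_lit 440) (nat_lit 290))) (XT.nd (nat_lit 78) (nat_lit 456) (nat_lit 0) (XT.lf (nat_lit 0) (nat_lit 11934581620) (nat_lit 608) (nat_lit 1163348657) (nat_lit 76) (nat_lit 8729013712) (nat_lit 229) (nat_lit 5) (nat_lit 237) (nat_lit 5) (nat_lit 230) (nat_lit 5) (nat_lit 471) (nat_lit 440) (nat_lit 289)) (XT.lf (nat_lit 0) (nat_lit 11441363667) (nat_lit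 456) (nat_lit 3985411539) (nat_lit 532) (nat_lit 6770777579) (nat_lit 223) (nat_lit 5) (nat_lit 229) (nat_lit 5) (nat_lit 230) (nat_lit 5) (nat_lit 472) (nat_lit 440) (nat_lit 288))))) (XT.nd (nat_lit 312) (nat_lit 1292) (nat_lit 0) (XT.nd (nat_lit 156) (nat_lit 456) (nat_lit 0) (XT.nd (nat_lit 78) (nat_lit 76) (nat_lit 0) (XT.lf (nat_lit 0) (nat_lit 1845263063) (nat_lit 456) (nat_lit 17253354544) (nat_lit 532) (nat_lit 3478416504) (nat_lit 217) (nat_lit 5) (nat_lit 223) (nat_lit 5) (nat_lit 224) (nat_lit 5) (nat_lit 473) (nat_lit 440) (nat_lit 287)) (XT.lf (nat_lit 0) (nat_lit 56991795) (nat_lit 532) (nat_lit 7966994841) (nat_lit 76) (nat_lit 14939661931) (nat_lit 216) (nat_lit 5) (nat_lit 223) (nat_lit 5) (nat_lit 217) (nat_lit 5) (nat_lit 474) (nat_lit 440) (nat_lit 286))) (XT.nd (nat_lit 78) (nat_lit 0) (nat_lit 0) (XT.lf (nat_lit 0) (nat_lit 3687617314) (nat_lit 532) (nat_lit 18133709119) (nat_lit 76) (nat_lit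 1537730492) (nat_lit 210) (nat_lit 5) (nat_lit 217) (nat_lit 5) (nat_lit 211) (nat_lit 5) (nat_lit 475) (nat_lit 440) (nat_lit 285)) (XT.lf (nat_lit 0) (nat_lit 7581568157) (nat_lit 532) (nat_lit 4875157867) (nat_lit 76) (nat_lit 11304969986) (nat_lit 210) (nat_lit 5) (nat_lit 217) (nat_lit 5) (nat_lit 211) (nat_lit 5) (nat_lit 476) (nat_lit 440) (nat_lit 284)))) (XT.nd (nat_lit 156) (nat_lit 836) (nat_lit 0) (XT.nd (nat_lit 78) (nat_lit 0) (nat_lit 0) (XT.lf (nat_lit 0) (nat_lit 8948210057) (nat_lit 456) (nat_lit 2724039811) (nat_lit 532) (nat_lit 12501767681) (nat_lit 204) (nat_lit 5) (nat_lit 210) (nat_lit 5) (nat_lit 211) (nat_lit 5) (nat_lit 477) (nat_lit 440) (nat_lit 283)) (XT.lf (nat_lit 0) (nat_lit 15999535415) (nat_lit 532) (nat_lit 1389326354) (nat_lit 76) (nat_lit 7206431100) (nat_lit 204) (nat_lit 5) (nat_lit 211) (nat_lit 5) (nat_lit 205) (nat_lit 5) (nat_lit 478) (nat_lit 440) (nat_lit 282))) (XT.nd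 (nat_lit 78) (nat_lit 456) (nat_lit 0) (XT.lf (nat_lit 0) (nat_lit 13083156712) (nat_lit 380) (nat_lit 7520380242) (nat_lit 456) (nat_lit 4421263185) (nat_lit 199) (nat_lit 5) (nat_lit 204) (nat_lit 5) (nat_lit 205) (nat_lit 5) (nat_lit 479) (nat_lit 440) (nat_lit 281)) (XT.lf (nat_lit 0) (nat_lit 2568582714) (nat_lit 456) (nat_lit 22835599534) (nat_lit 532) (nat_lit 61255266) (nat_lit 193) (nat_lit 5) (nat_lit 199) (nat_lit 5) (nat_lit 200) (nat_lit 5) (nat_lit 480) (nat_lit 440) (nat_lit 280))))))))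
noncomputable def xc183 : XT := (XT.nd (nat_lit 2340) (nat_lit 3572) (nat_lit 0) (XT.nd (nat_lit 1170) (nat_lit 2584) (nat_lit 0) (XT.nd (nat_lit 546) (nat_lit 1292) (nat_lit 0) (XT.nd (nat_lit 234) (nat_lit 1140) (nat_lit 0) (XT.nd (nat_lit 78) (nat_lit 380) (nat_lit 0) (XT.lf (nat_lit 0) (nat_lit 4533643521) (nat_lit 532) (nat_lit 8282547960) (nat_lit 76) (nat_lit 13096109891) (nat_lit 192) (nat_lit 5) (nat_lit 199) (nat_lit 5) (nat_lit 193) (nat_lit 5) (nat_lit 481) (nat_lit 440) (nat_lit 279)) (XT.nd (nat_lit 78) (nat_lit 0) (nat_lit 0) (XT.lf (nat_lit 0) (nat_lit 6896837057) (nat_lit 380) (nat_lit 2429070900) (nat_lit 456) (nat_lit 17044823045) (nat_lit 187) (nat_lit 5) (nat_lit 192) (nat_lit 5) (nat_lit 193) (nat_lit 5) (nat_lit 482) (nat_lit 440) (nat_lit 278)) (XT.lf (nat_lit 0) (nat_lit 14420426733) (nat_lit 456) (nat_lit 4226739535) (nat_lit 76) (nat_lit 8190993191) (nat_lit 187) (nat_lit 5) (nat_lit 193)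 (nat_lit 5) (nat_lit 188) (nat_lit 5) (nat_lit 483) (nat_lit 440) (nat_lit 277)))) (XT.nd (nat_lit 156) (nat_lit 456) (nat_lit 0) (XT.nd (nat_lit 78) (nat_lit 304) (nat_lit 0) (XT.lf (nat_lit 0) (nat_lit 11674402812) (nat_lit 380) (nat_lit 8124337110) (nat_lit 456) (nat_lit 7516942599) (nat_lit 182) (nat_lit 5) (nat_lit 187) (nat_lit 5) (nat_lit 188) (nat_lit 5) (nat_lit 484) (nat_lit 440) (nat_lit 276)) (XT.lf (nat_lit 0) (nat_lit 305159649) (nat_lit 304) (nat_lit 25100126266) (nat_lit 380) (nat_lit 2400239357) (nat_lit 178) (nat_lit 5) (nat_lit 182) (nat_lit 5) (nat_lit 183) (nat_lit 5) (nat_lit 485) (nat_lit 440) (nat_lit 275))) (XT.nd (nat_lit 78) (nat_lit 380) (nat_lit 0) (XT.lf (nat_lit 0) (nat_lit 3048698141) (nat_lit 380) (nat_lit 11371580400) (nat_lit 76) (nat_lit 13881915505) (nat_lit 177) (nat_lit 5) (nat_lit 182) (nat_lit 5) (nat_lit 178) (nat_lit 5) (nat_lit 486) (nat_lit 440) (nat_lit 274)) (XT.lf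 (nat_lit 0) (nat_lit 5313921749) (nat_lit 380) (nat_lit 3344959523) (nat_lit 456) (nat_lit 20152788529) (nat_lit 172) (nat_lit 5) (nat_lit 177) (nat_lit 5) (nat_lit 178) (nat_lit 5) (nat_lit 487) (nat_lit 440) (nat_lit 273))))) (XT.nd (nat_lit 312) (nat_lit 608) (nat_lit 0) (XT.nd (nat_lit 156) (nat_lit 380) (nat_lit 0) (XT.nd (nat_lit 78) (nat_lit 304) (nat_lit 0) (XT.lf (nat_lit 0) (nat_lit 14625840180) (nat_lit 456) (nat_lit 6685666121) (nat_lit 76) (nat_lit 8019269863) (nat_lit 172) (nat_lit 5) (nat_lit 178) (nat_lit 5) (nat_lit 173) (nat_lit 5) (nat_lit 488) (nat_lit 440) (nat_lit 272)) (XT.lf (nat_lit 0) (nat_lit 10801507373) (nat_lit 304) (nat_lit 10102395080) (nat_lit 380) (nat_lit 8957590860) (nat_lit 168) (nat_lit 5) (nat_lit 172) (nat_lit 5) (nat_lit 173) (nat_lit 5) (nat_lit 489) (nat_lit 440) (nat_lit 271))) (XT.nd (nat_lit 78) (nat_lit 380) (nat_lit 0) (XT.lf (nat_lit 0) (nat_lit 27447558969) (nat_lit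 380) (nat_lit 1477284921) (nat_lit 76) (nat_lit 1480970934) (nat_lit 168) (nat_lit 5) (nat_lit 173) (nat_lit 5) (nat_lit 169) (nat_lit 5) (nat_lit 490) (nat_lit 440) (nat_lit 270)) (XT.lf (nat_lit 0) (nat_lit 3418137624) (nat_lit 380) (nat_lit 14137262150) (nat_lit 76) (nat_lit 13402339730) (nat_lit 163) (nat_lit 5) (nat_lit 168) (nat_lit 5) (nat_lit 164) (nat_lit 5) (nat_lit 491) (nat_lit 440) (nat_lit 269)))) (XT.nd (nat_lit 156) (nat_lit 304) (nat_lit 0) (XT.nd (nat_lit 78) (nat_lit 0) (nat_lit 0) (XT.lf (nat_lit 0) (nat_lit 4217739588) (nat_lit 304) (nat_lit 5759600227) (nat_lit 380) (nat_lit 21546474555) (nat_lit 159) (nat_lit 5) (nat_lit 163) (nat_lit 5) (nat_lit 164) (nat_lit 5) (nat_lit 492) (nat_lit 440) (nat_lit 268)) (XT.lf (nat_lit 0) (nat_lit 16934330745) (nat_lit 380) (nat_lit 8759093036) (nat_lit 76) (nat_lit 6407417696) (nat_lit 159) (nat_lit 5) (nat_lit 164) (nat_lit 5) (nat_lit 160) (nat_lit 5)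 (nat_lit 493) (nat_lit 440) (nat_lit 267))) (XT.nd (nat_lit 78) (nat_lit 0) (nat_lit 0) (XT.lf (nat_lit 0) (nat_lit 10485219575) (nat_lit 304) (nat_lit 13768176747) (nat_lit 380) (nat_lit 8437182487) (nat_lit 155) (nat_lit 5) (nat_lit 159) (nat_lit 5) (nat_lit 160) (nat_lit 5) (nat_lit 494) (nat_lit 440) (nat_lit 266)) (XT.lf (nat_lit 0) (nat_lit 30479822411) (nat_lit 304) (nat_lit 1396276232) (nat_lit 380) (nat_lit 1419388025) (nat_lit 155) (nat_lit 5) (nat_lit 159) (nat_lit 5) (nat_lit 160) (nat_lit 5) (nat_lit 495) (nat_lit 440) (nat_lit 265)))))) (XT.nd (nat_lit 546) (nat_lit 1064) (nat_lit 0) (XT.nd (nat_lit 234) (nat_lit 836) (nat_lit 0) (XT.nd (nat_lit 78) (nat_lit 304) (nat_lit 0) (XT.lf (nat_lit 0) (nat_lit 5970132865) (nat_lit 380) (nat_lit 16589643015) (nat_lit 76) (nat_lit 11348854665) (nat_lit 150) (nat_lit 5) (nat_lit 155) (nat_lit 5) (nat_lit 151) (nat_lit 5) (nat_lit 496) (nat_lit 440) (nat_lit 264))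 (XT.nd (nat_lit 78) (nat_lit 0) (nat_lit 0) (XT.lf (nat_lit 0) (nat_lit 3611874087) (nat_lit 304) (nat_lit 10013938087) (nat_lit 380) (nat_lit 20911745250) (nat_lit 146) (nat_lit 5) (nat_lit 150) (nat_lit 5) (nat_lit 151) (nat_lit 5) (nat_lit 497) (nat_lit 440) (nat_lit 263)) (XT.lf (nat_lit 0) (nat_lit 21704082354) (nat_lit 380) (nat_lit 10457002097) (nat_lit 76) (nat_lit 3018480358) (nat_lit 146) (nat_lit 5) (nat_lit 151) (nat_lit 5) (nat_lit 147) (nat_lit 5) (nat_lit 498) (nat_lit 440) (nat_lit 262)))) (XT.nd (nat_lit 156) (nat_lit 532) (nat_lit 0) (XT.nd (nat_lit 78) (nat_lit 76) (nat_lit 0) (XT.lf (nat_lit 0) (nat_lit 10729586863) (nat_lit 228) (nat_lit 19493306723) (nat_lit 304) (nat_lit 5611993342) (nat_lit 143) (nat_lit 5) (nat_lit 146) (nat_lit 5) (nat_lit 147) (nat_lit 5) (nat_lit 499) (nat_lit 440) (nat_lit 261)) (XT.lf (nat_lit 0) (nat_lit 2541427009) (nat_lit 304) (nat_lit 3771921565) (nat_lit 76) (nat_lit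 30192726169) (nat_lit 142) (nat_lit 5) (nat_lit 146) (nat_lit 5) (nat_lit 143) (nat_lit 5) (nat_lit 500) (nat_lit 440) (nat_lit 260))) (XT.nd (nat_lit 78) (nat_lit 228) (nat_lit 0) (XT.lf (nat_lit 0) (nat_lit 11072633354) (nat_lit 380) (nat_lit 18761912203) (nat_lit 76) (nat_lit 7353806618) (nat_lit 138) (nat_lit 5) (nat_lit 143) (nat_lit 5) (nat_lit 139) (nat_lit 5) (nat_lit 501) (nat_lit 440) (nat_lit 259)) (XT.lf (nat_lit 0) (nat_lit 3476832721) (nat_lit 228) (nat_lit 16513416393) (nat_lit 304) (nat_lit 17896934886) (nat_lit 135) (nat_lit 5) (nat_lit 138) (nat_lit 5) (nat_lit 139) (nat_lit 5) (nat_lit 502) (nat_lit 440) (nat_lit 258))))) (XT.nd (nat_lit 312) (nat_lit 532) (nat_lit 0) (XT.nd (nat_lit 156) (nat_lit 304) (nat_lit 0) (XT.nd (nat_lit 78) (nat_lit 228) (nat_lit 0) (XT.lf (nat_lit 0) (nat_lit 26761156945) (nat_lit 228) (nat_lit 2599826989) (nat_lit 304) (nat_lit 9240429390) (nat_lit 135) (nat_lit 5)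 (nat_lit 138) (nat_lit 5) (nat_lit 139) (nat_lit 5) (nat_lit 503) (nat_lit 440) (nat_lit 257)) (XT.lf (nat_lit 0) (nat_lit 11512734052) (nat_lit 228) (nat_lit 27719764481) (nat_lit 304) (nat_lit 97981518) (nat_lit 132) (nat_lit 5) (nat_lit 135) (nat_lit 5) (nat_lit 136) (nat_lit 5) (nat_lit 504) (nat_lit 440) (nat_lit 256))) (XT.nd (nat_lit 78) (nat_lit 228) (nat_lit 0) (XT.lf (nat_lit 0) (nat_lit 9279623618) (nat_lit 304) (nat_lit 4391416512) (nat_lit 76) (nat_lit 26403409784) (nat_lit 131) (nat_lit 5) (nat_lit 135) (nat_lit 5) (nat_lit 132) (nat_lit 5) (nat_lit 505) (nat_lit 440) (nat_lit 255)) (XT.lf (nat_lit 0) (nat_lit 19135959155) (nat_lit 304) (nat_lit 20721119271) (nat_lit 76) (nat_lit 977650429) (nat_lit 128) (nat_lit 5) (nat_lit 132) (nat_lit 5) (nat_lit 129) (nat_lit 5) (nat_lit 506) (nat_lit 440) (nat_lit 254)))) (XT.nd (nat_lit 156) (nat_lit 304) (nat_lit 0) (XT.nd (nat_lit 78) (nat_lit 0) (nat_lit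 0) (XT.lf (nat_lit 0) (nat_lit 3758913704) (nat_lit 228) (nat_lit 25741720245) (nat_lit 304) (nat_lit 12110802965) (nat_lit 125) (nat_lit 5) (nat_lit 128) (nat_lit 5) (nat_lit 129) (nat_lit 5) (nat_lit 507) (nat_lit 440) (nat_lit 253)) (XT.lf (nat_lit 0) (nat_lit 29392208013) (nat_lit 228) (nat_lit 10989708105) (nat_lit 304) (nat_lit 2023360301) (nat_lit 125) (nat_lit 5) (nat_lit 128) (nat_lit 5) (nat_lit 129) (nat_lit 5) (nat_lit 508) (nat_lit 440) (nat_lit 252))) (XT.nd (nat_lit 78) (nat_lit 0) (nat_lit 0) (XT.lf (nat_lit 0) (nat_lit 8364746334) (nat_lit 304) (nat_lit 30525530850) (nat_lit 76) (nat_lit 4325402197) (nat_lit 121) (nat_lit 5) (nat_lit 125) (nat_lit 5) (nat_lit 122) (nat_lit 5) (nat_lit 509) (nat_lit 440) (nat_lit 251)) (XT.lf (nat_lit 0) (nat_lit 19261864117) (nat_lit 304) (nat_lit 4751203936) (nat_lit 76) (nat_lit 20029584517) (nat_lit 121) (nat_lit 5) (nat_lit 125) (nat_lit 5) (nat_lit 122) (nat_lit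 5) (nat_lit 510) (nat_lit 440) (nat_lit 250))))))) (XT.nd (nat_lit 1170) (nat_lit 1672) (nat_lit 0) (XT.nd (nat_lit 546) (nat_lit 760) (nat_lit 0) (XT.nd (nat_lit 234) (nat_lit 684) (nat_lit 0) (XT.nd (nat_lit 78) (nat_lit 228) (nat_lit 0) (XT.lf (nat_lit 0) (nat_lit 22224374552) (nat_lit 228) (nat_lit 8471775520) (nat_lit 304) (nat_lit 14191977436) (nat_lit 118) (nat_lit 5) (nat_lit 121) (nat_lit 5) (nat_lit 122) (nat_lit 5) (nat_lit 511) (nat_lit 440) (nat_lit 249)) (XT.nd (nat_lit 78) (nat_lit 76) (nat_lit 0) (XT.lf (nat_lit 0) (nat_lit 4355487130) (nat_lit 152) (nat_lit 38277379431) (nat_lit 228) (nat_lit 3121318264) (nat_lit 116) (nat_lit 5) (nat_lit 118) (nat_lit 5) (nat_lit 119) (nat_lit 5) (nat_lit 512) (nat_lit 440) (nat_lit 248)) (XT.lf (nat_lit 0) (nat_lit 8431517839) (nat_lit 228) (nat_lit 14160910250) (nat_lit 76) (nat_lit 24042058008) (nat_lit 115) (nat_lit 5) (nat_lit 118) (nat_lit 5) (nat_lit 116)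 (nat_lit 5) (nat_lit 513) (nat_lit 440) (nat_lit 247)))) (XT.nd (nat_lit 156) (nat_lit 456) (nat_lit 0) (XT.nd (nat_lit 78) (nat_lit 0) (nat_lit 0) (XT.lf (nat_lit 0) (nat_lit 14133375525) (nat_lit 228) (nat_lit 6267438123) (nat_lit 304) (nat_lit 27135477509) (nat_lit 112) (nat_lit 5) (nat_lit 115) (nat_lit 5) (nat_lit 116) (nat_lit 5) (nat_lit 514) (nat_lit 440) (nat_lit 246)) (XT.lf (nat_lit 0) (nat_lit 32971760345) (nat_lit 304) (nat_lit 5002433386) (nat_lit 76) (nat_lit 10483679642) (nat_lit 112) (nat_lit 5) (nat_lit 116) (nat_lit 5) (nat_lit 113) (nat_lit 5) (nat_lit 515) (nat_lit 440) (nat_lit 245))) (XT.nd (nat_lit 78) (nat_lit 304) (nat_lit 0) (XT.lf (nat_lit 0) (nat_lit 24663907995) (nat_lit 152) (nat_lit 21551931548) (nat_lit 228) (nat_lit 3182383553) (nat_lit 110) (nat_lit 5) (nat_lit 112) (nat_lit 5) (nat_lit 113) (nat_lit 5) (nat_lit 516) (nat_lit 440) (nat_lit 244)) (XT.lf (nat_lit 0) (nat_lit 4957127164)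 (nat_lit 228) (nat_lit 4443678427) (nat_lit 304) (nat_lit 40960374808) (nat_lit 106) (nat_lit 5) (nat_lit 109) (nat_lit 5) (nat_lit 110) (nat_lit 5) (nat_lit 517) (nat_lit 440) (nat_lit 243))))) (XT.nd (nat_lit 312) (nat_lit 380) (nat_lit 0) (XT.nd (nat_lit 156) (nat_lit 228) (nat_lit 0) (XT.nd (nat_lit 78) (nat_lit 152) (nat_lit 0) (XT.lf (nat_lit 0) (nat_lit 22673334941) (nat_lit 304) (nat_lit 15465257366) (nat_lit 76) (nat_lit 13202214779) (nat_lit 106) (nat_lit 5) (nat_lit 110) (nat_lit 5) (nat_lit 107) (nat_lit 5) (nat_lit 518) (nat_lit 440) (nat_lit 242)) (XT.lf (nat_lit 0) (nat_lit 15627399097) (nat_lit 152) (nat_lit 20907841473) (nat_lit 228) (nat_lit 15808846138) (nat_lit 104) (nat_lit 5) (nat_lit 106) (nat_lit 5) (nat_lit 107) (nat_lit 5) (nat_lit 519) (nat_lit 440) (nat_lit 241))) (XT.nd (nat_lit 78) (nat_lit 228) (nat_lit 0) (XT.lf (nat_lit 0) (nat_lit 47964656064) (nat_lit 152) (nat_lit 3001537399)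 (nat_lit 228) (nat_lit 2406675693) (nat_lit 104) (nat_lit 5) (nat_lit 106) (nat_lit 5) (nat_lit 107) (nat_lit 5) (nat_lit 520) (nat_lit 440) (nat_lit 240)) (XT.lf (nat_lit 0) (nat_lit 11586335423) (nat_lit 228) (nat_lit 27316827527) (nat_lit 76) (nat_lit 15513729961) (nat_lit 101) (nat_lit 5) (nat_lit 104) (nat_lit 5) (nat_lit 102) (nat_lit 5) (nat_lit 521) (nat_lit 440) (nat_lit 239)))) (XT.nd (nat_lit 156) (nat_lit 228) (nat_lit 0) (XT.nd (nat_lit 78) (nat_lit 0) (nat_lit 0) (XT.lf (nat_lit 0) (nat_lit 5247033182) (nat_lit 152) (nat_lit 20836135695) (nat_lit 228) (nat_lit 29404381661) (nat_lit 99) (nat_lit 5) (nat_lit 101) (nat_lit 5) (nat_lit 102) (nat_lit 5) (nat_lit 522) (nat_lit 440) (nat_lit 238)) (XT.lf (nat_lit 0) (nat_lit 39342703905) (nat_lit 152) (nat_lit 1945180522) (nat_lit 228) (nat_lit 15294254279) (nat_lit 99) (nat_lit 5) (nat_lit 101) (nat_lit 5) (nat_lit 102) (nat_lit 5) (nat_lit 523) (nat_lit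 440) (nat_lit 237))) (XT.nd (nat_lit 78) (nat_lit 76) (nat_lit 0) (XT.lf (nat_lit 0) (nat_lit 16908291684) (nat_lit 152) (nat_lit 40368517189) (nat_lit 228) (nat_lit 422913744) (nat_lit 97) (nat_lit 5) (nat_lit 99) (nat_lit 5) (nat_lit 100) (nat_lit 5) (nat_lit 524) (nat_lit 440) (nat_lit 236)) (XT.lf (nat_lit 0) (nat_lit 14796188043) (nat_lit 228) (nat_lit 6580924786) (nat_lit 76) (nat_lit 37463658029) (nat_lit 96) (nat_lit 5) (nat_lit 99) (nat_lit 5) (nat_lit 97) (nat_lit 5) (nat_lit 525) (nat_lit 440) (nat_lit 235)))))) (XT.nd (nat_lit 624) (nat_lit 760) (nat_lit 0) (XT.nd (nat_lit 312) (nat_lit 380) (nat_lit 0) (XT.nd (nat_lit 156) (nat_lit 228) (nat_lit 0) (XT.nd (nat_lit 78) (nat_lit 152) (nat_lit 0) (XT.lf (nat_lit 0) (nat_lit 29216987218) (nat_lit 152) (nat_lit 1524508994) (nat_lit 228) (nat_lit 29266084823) (nat_lit 94) (nat_lit 5) (nat_lit 96) (nat_lit 5) (nat_lit 97) (nat_lit 5) (nat_lit 526) (nat_lit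 440) (nat_lit 234)) (XT.lf (nat_lit 0) (nat_lit 4925014630) (nat_lit 152) (nat_lit 42533804128) (nat_lit 228) (nat_lit 13741767213) (nat_lit 92) (nat_lit 5) (nat_lit 94) (nat_lit 5) (nat_lit 95) (nat_lit 5) (nat_lit 527) (nat_lit 440) (nat_lit 233))) (XT.nd (nat_lit 78) (nat_lit 152) (nat_lit 0) (XT.lf (nat_lit 0) (nat_lit 2530805615) (nat_lit 228) (nat_lit 20121439059) (nat_lit 76) (nat_lit 39766696197) (nat_lit 91) (nat_lit 5) (nat_lit 94) (nat_lit 5) (nat_lit 92) (nat_lit 5) (nat_lit 528) (nat_lit 440) (nat_lit 232)) (XT.lf (nat_lit 0) (nat_lit 17314398597) (nat_lit 152) (nat_lit 1864776829) (nat_lit 228) (nat_lit 44485674903) (nat_lit 89) (nat_lit 5) (nat_lit 91) (nat_lit 5) (nat_lit 92) (nat_lit 5) (nat_lit 529) (nat_lit 440) (nat_lit 231)))) (XT.nd (nat_lit 156) (nat_lit 228) (nat_lit 0) (XT.nd (nat_lit 78) (nat_lit 152) (nat_lit 0) (XT.lf (nat_lit 0) (nat_lit 36717476654) (nat_lit 228) (nat_lit 8850902292)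 (nat_lit 76) (nat_lit 19368043813) (nat_lit 89) (nat_lit 5) (nat_lit 92) (nat_lit 5) (nat_lit 90) (nat_lit 5) (nat_lit 530) (nat_lit 440) (nat_lit 230)) (XT.lf (nat_lit 0) (nat_lit 30342664095) (nat_lit 152) (nat_lit 24746864568) (nat_lit 228) (nat_lit 11147385739) (nat_lit 87) (nat_lit 5) (nat_lit 89) (nat_lit 5) (nat_lit 90) (nat_lit 5) (nat_lit 531) (nat_lit 440) (nat_lit 229))) (XT.nd (nat_lit 78) (nat_lit 0) (nat_lit 0) (XT.lf (nat_lit 0) (nat_lit 3317100232) (nat_lit 152) (nat_lit 3113244548) (nat_lit 228) (nat_lit 61140631431) (nat_lit 84) (nat_lit 5) (nat_lit 86) (nat_lit 5) (nat_lit 87) (nat_lit 5) (nat_lit 532) (nat_lit 440) (nat_lit 228)) (XT.lf (nat_lit 0) (nat_lit 24859155378) (nat_lit 228) (nat_lit 24796440957) (nat_lit 76) (nat_lit 19269718531) (nat_lit 84) (nat_lit 5) (nat_lit 87) (nat_lit 5) (nat_lit 85) (nat_lit 5) (nat_lit 533) (nat_lit 440) (nat_lit 227))))) (XT.nd (nat_lit 312) (nat_lit 456)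 (nat_lit 0) (XT.nd (nat_lit 156) (nat_lit 152) (nat_lit 0) (XT.nd (nat_lit 78) (nat_lit 0) (nat_lit 0) (XT.lf (nat_lit 0) (nat_lit 16124049221) (nat_lit 152) (nat_lit 27900154315) (nat_lit 228) (nat_lit 26290579032) (nat_lit 82) (nat_lit 5) (nat_lit 84) (nat_lit 5) (nat_lit 85) (nat_lit 5) (nat_lit 534) (nat_lit 440) (nat_lit 226)) (XT.lf (nat_lit 0) (nat_lit 58776018807) (nat_lit 152) (nat_lit 5236163136) (nat_lit 228) (nat_lit 7726313073) (nat_lit 82) (nat_lit 5) (nat_lit 84) (nat_lit 5) (nat_lit 85) (nat_lit 5) (nat_lit 535) (nat_lit 440) (nat_lit 225))) (XT.nd (nat_lit 78) (nat_lit 0) (nat_lit 0) (XT.lf (nat_lit 0) (nat_lit 11636261907) (nat_lit 152) (nat_lit 43397409500) (nat_lit 76) (nat_lit 18154049381) (nat_lit 80) (nat_lit 5) (nat_lit 82) (nat_lit 5) (nat_lit 81) (nat_lit 5) (nat_lit 536) (nat_lit 440) (nat_lit 224)) (XT.lf (nat_lit 0) (nat_lit 31606096740) (nat_lit 152) (nat_lit 719098022) (nat_lit 76)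 (nat_lit 42347483487) (nat_lit 80) (nat_lit 5) (nat_lit 82) (nat_lit 5) (nat_lit 81) (nat_lit 5) (nat_lit 537) (nat_lit 440) (nat_lit 223)))) (XT.nd (nat_lit 156) (nat_lit 228) (nat_lit 0) (XT.nd (nat_lit 78) (nat_lit 76) (nat_lit 0) (XT.lf (nat_lit 0) (nat_lit 44095792998) (nat_lit 152) (nat_lit 8500817179) (nat_lit 228) (nat_lit 23592926820) (nat_lit 78) (nat_lit 5) (nat_lit 80) (nat_lit 5) (nat_lit 81) (nat_lit 5) (nat_lit 538) (nat_lit 440) (nat_lit 222)) (XT.lf (nat_lit 0) (nat_lit 12605682907) (nat_lit 76) (nat_lit 61891548589) (nat_lit 152) (nat_lit 3246258307) (nat_lit 77) (nat_lit 5) (nat_lit 78) (nat_lit 5) (nat_lit 79) (nat_lit 4) (nat_lit 539) (nat_lit 440) (nat_lit 221))) (XT.nd (nat_lit 78) (nat_lit 152) (nat_lit 0) (XT.lf (nat_lit 0) (nat_lit 17774387099) (nat_lit 152) (nat_lit 20292227491) (nat_lit 76) (nat_lit 41260063898) (nat_lit 76) (nat_lit 5) (nat_lit 78) (nat_lit 5) (nat_lit 77) (nat_lit 5)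 (nat_lit 540) (nat_lit 440) (nat_lit 220)) (XT.lf (nat_lit 0) (nat_lit 26377166086) (nat_lit 152) (nat_lit 13234578480) (nat_lit 228) (nat_lit 41337113916) (nat_lit 74) (nat_lit 5) (nat_lit 76) (nat_lit 5) (nat_lit 77) (nat_lit 5) (nat_lit 541) (nat_lit 440) (nat_lit 219))))))))
noncomputable def xc184 : XT := (XT.nd (nat_lit 56472) (nat_lit 0) (nat_lit 6916) (XT.nd (nat_lit 55302) (nat_lit 0) (nat_lit 14440) (XT.nd (nat_lit 54678) (nat_lit 0) (nat_lit 17176) (XT.nd (nat_lit 234) (nat_lit 152) (nat_lit 0) (XT.nd (nat_lit 78) (nat_lit 304) (nat_lit 0) (XT.lf (nat_lit 0) (nat_lit 62427598989) (nat_lit 228) (nat_lit 7875748606) (nat_lit 76) (nat_lit 12306655055) (nat_lit 74) (nat_lit 5) (nat_lit 77) (nat_lit 5) (nat_lit 75) (nat_lit 4) (nat_lit 542) (nat_lit 440) (nat_lit 218)) (XT.nd (nat_lit 78) (nat_lit 152) (nat_lit 0) (XT.lf (nat_lit 0) (nat_lit 2102650540) (nat_lit 152) (nat_lit 43442122308) (nat_lit 76) (nat_lit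 38759933147) (nat_lit 72) (nat_lit 5) (nat_lit 74) (nat_lit 5) (nat_lit 73) (nat_lit 5) (nat_lit 543) (nat_lit 440) (nat_lit 217)) (XT.lf (nat_lit 0) (nat_lit 5070970676) (nat_lit 152) (nat_lit 19706561965) (nat_lit 228) (nat_lit 61262915401) (nat_lit 70) (nat_lit 5) (nat_lit 72) (nat_lit 5) (nat_lit 73) (nat_lit 5) (nat_lit 544) (nat_lit 440) (nat_lit 216)))) (XT.nd (nat_lit 156) (nat_lit 76) (nat_lit 0) (XT.nd (nat_lit 78) (nat_lit 76) (nat_lit 0) (XT.lf (nat_lit 0) (nat_lit 48639943680) (nat_lit 228) (nat_lit 31959882107) (nat_lit 76) (nat_lit 7213218146) (nat_lit 70) (nat_lit 5) (nat_lit 73) (nat_lit 5) (nat_lit 71) (nat_lit 4) (nat_lit 545) (nat_lit 440) (nat_lit 215)) (XT.lf (nat_lit 0) (nat_lit 18685605318) (nat_lit 76) (nat_lit 54905282323) (nat_lit 152) (nat_lit 16036750294) (nat_lit 69) (nat_lit 5) (nat_lit 70) (nat_lit 5) (nat_lit 71) (nat_lit 4) (nat_lit 546) (nat_lit 440) (nat_lit 214))) (XT.nd (nat_lit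 54210) (nat_lit 0) (nat_lit 18392) (XT.lf (nat_lit 0) (nat_lit 7965466190) (nat_lit 152) (nat_lit 20063404877) (nat_lit 76) (nat_lit 63455835438) (nat_lit 68) (nat_lit 5) (nat_lit 70) (nat_lit 5) (nat_lit 69) (nat_lit 5) (nat_lit 547) (nat_lit 440) (nat_lit 213)) (XT.lf (nat_lit 0) (nat_lit 3186568982) (nat_lit 0) (nat_lit 3186568982) (nat_lit 1140) (nat_lit 570040742) (nat_lit 310) (nat_lit 5) (nat_lit 310) (nat_lit 3) (nat_lit 325) (nat_lit 3) (nat_lit 441) (nat_lit 441) (nat_lit 318))))) (XT.nd (nat_lit 312) (nat_lit 0) (nat_lit 76) (XT.nd (nat_lit 156) (nat_lit 1216) (nat_lit 0) (XT.nd (nat_lit 78) (nat_lit 0) (nat_lit 0) (XT.lf (nat_lit 0) (nat_lit 13284264672) (nat_lit 1140) (nat_lit 650877369) (nat_lit 1216) (nat_lit 149056948) (nat_lit 310) (nat_lit 5) (nat_lit 325) (nat_lit 3) (nat_lit 326) (nat_lit 5) (nat_lit 442) (nat_lit 441) (nat_lit 317)) (XT.lf (nat_lit 76) (nat_lit 6473343093) (nat_lit 0) (nat_lit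 7476963479) (nat_lit 1216) (nat_lit 334313786) (nat_lit 311) (nat_lit 5) (nat_lit 310) (nat_lit 5) (nat_lit 326) (nat_lit 5) (nat_lit 443) (nat_lit 441) (nat_lit 316))) (XT.nd (nat_lit 78) (nat_lit 0) (nat_lit 76) (XT.lf (nat_lit 0) (nat_lit 135856129) (nat_lit 1216) (nat_lit 675090267) (nat_lit 1292) (nat_lit 13680265447) (nat_lit 294) (nat_lit 5) (nat_lit 310) (nat_lit 5) (nat_lit 311) (nat_lit 5) (nat_lit 444) (nat_lit 441) (nat_lit 315)) (XT.lf (nat_lit 0) (nat_lit 724853723) (nat_lit 1216) (nat_lit 7963943128) (nat_lit 1292) (nat_lit 6011763445) (nat_lit 295) (nat_lit 5) (nat_lit 311) (nat_lit 5) (nat_lit 312) (nat_lit 5) (nat_lit 445) (nat_lit 441) (nat_lit 314)))) (XT.nd (nat_lit 156) (nat_lit 0) (nat_lit 76) (XT.nd (nat_lit 78) (nat_lit 0) (nat_lit 76) (XT.lf (nat_lit 0) (nat_lit 1333955571) (nat_lit 1216) (nat_lit 547114472) (nat_lit 1292) (nat_lit 13035047863) (nat_lit 295) (nat_lit 5) (nat_lit 311) (nat_lit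 5) (nat_lit 312) (nat_lit 5) (nat_lit 446) (nat_lit 441) (nat_lit 313)) (XT.lf (nat_lit 0) (nat_lit 2068729227) (nat_lit 1216) (nat_lit 7960584124) (nat_lit 1292) (nat_lit 5105608611) (nat_lit 296) (nat_lit 5) (nat_lit 312) (nat_lit 5) (nat_lit 313) (nat_lit 5) (nat_lit 447) (nat_lit 441) (nat_lit 312))) (XT.nd (nat_lit 78) (nat_lit 0) (nat_lit 76) (XT.lf (nat_lit 0) (nat_lit 2837961220) (nat_lit 1216) (nat_lit 247811091) (nat_lit 1292) (nat_lit 12274147008) (nat_lit 296) (nat_lit 5) (nat_lit 312) (nat_lit 5) (nat_lit 313) (nat_lit 5) (nat_lit 448) (nat_lit 441) (nat_lit 311)) (XT.lf (nat_lit 0) (nat_lit 3734076724) (nat_lit 1216) (nat_lit 7787684629) (nat_lit 1292) (nat_lit 4066792632) (nat_lit 297) (nat_lit 5) (nat_lit 313) (nat_lit 5) (nat_lit 314) (nat_lit 5) (nat_lit 449) (nat_lit 441) (nat_lit 310)))))) (XT.nd (nat_lit 546) (nat_lit 2964) (nat_lit 0) (XT.nd (nat_lit 234) (nat_lit 0) (nat_lit 152) (XT.nd (nat_lit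 78) (nat_lit 0) (nat_lit 76) (XT.lf (nat_lit 76) (nat_lit 238459258) (nat_lit 0) (nat_lit 4442841933) (nat_lit 1292) (nat_lit 11142021273) (nat_lit 298) (nat_lit 5) (nat_lit 297) (nat_lit 5) (nat_lit 314) (nat_lit 5) (nat_lit 450) (nat_lit 441) (nat_lit 309)) (XT.nd (nat_lit 78) (nat_lit 0) (nat_lit 0) (XT.lf (nat_lit 0) (nat_lit 5752878386) (nat_lit 1216) (nat_lit 7433925116) (nat_lit 1292) (nat_lit 2875453911) (nat_lit 298) (nat_lit 5) (nat_lit 314) (nat_lit 5) (nat_lit 315) (nat_lit 5) (nat_lit 451) (nat_lit 441) (nat_lit 308)) (XT.lf (nat_lit 76) (nat_lit 927874210) (nat_lit 0) (nat_lit 5971088973) (nat_lit 1292) (nat_lit 9408127868) (nat_lit 299) (nat_lit 5) (nat_lit 298) (nat_lit 5) (nat_lit 315) (nat_lit 5) (nat_lit 452) (nat_lit 441) (nat_lit 307)))) (XT.nd (nat_lit 156) (nat_lit 0) (nat_lit 0) (XT.nd (nat_lit 78) (nat_lit 0) (nat_lit 0) (XT.lf (nat_lit 0) (nat_lit 8158997425) (nat_lit 1216) (nat_lit 6886934283)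 (nat_lit 1292) (nat_lit 1510952391) (nat_lit 299) (nat_lit 5) (nat_lit 315) (nat_lit 5) (nat_lit 316) (nat_lit 5) (nat_lit 453) (nat_lit 441) (nat_lit 306)) (XT.lf (nat_lit 76) (nat_lit 1828875180) (nat_lit 0) (nat_lit 7694667791) (nat_lit 1292) (nat_lit 7288628028) (nat_lit 300) (nat_lit 5) (nat_lit 299) (nat_lit 5) (nat_lit 316) (nat_lit 5) (nat_lit 454) (nat_lit 441) (nat_lit 305))) (XT.nd (nat_lit 78) (nat_lit 0) (nat_lit 76) (XT.lf (nat_lit 76) (nat_lit 10939601076) (nat_lit 0) (nat_lit 49195280) (nat_lit 1292) (nat_lit 6084528332) (nat_lit 300) (nat_lit 5) (nat_lit 299) (nat_lit 5) (nat_lit 316) (nat_lit 5) (nat_lit 455) (nat_lit 441) (nat_lit 304)) (XT.lf (nat_lit 76) (nat_lit 2955979729) (nat_lit 0) (nat_lit 9636197783) (nat_lit 1292) (nat_lit 4747311659) (nat_lit 301) (nat_lit 5) (nat_lit 300) (nat_lit 5) (nat_lit 317) (nat_lit 5) (nat_lit 456) (nat_lit 441) (nat_lit 303))))) (XT.nd (nat_lit 312) (nat_lit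 1216) (nat_lit 0) (XT.nd (nat_lit 156) (nat_lit 836) (nat_lit 0) (XT.nd (nat_lit 78) (nat_lit 1140) (nat_lit 0) (XT.lf (nat_lit 76) (nat_lit 12435876324) (nat_lit 0) (nat_lit 1860936737) (nat_lit 1292) (nat_lit 3315232191) (nat_lit 301) (nat_lit 5) (nat_lit 300) (nat_lit 5) (nat_lit 317) (nat_lit 5) (nat_lit 457) (nat_lit 441) (nat_lit 302)) (XT.lf (nat_lit 0) (nat_lit 4324895257) (nat_lit 1216) (nat_lit 11819376582) (nat_lit 1292) (nat_lit 1745756865) (nat_lit 285) (nat_lit 5) (nat_lit 301) (nat_lit 5) (nat_lit 302) (nat_lit 5) (nat_lit 458) (nat_lit 441) (nat_lit 301))) (XT.nd (nat_lit 78) (nat_lit 836) (nat_lit 0) (XT.lf (nat_lit 0) (nat_lit 14190585873) (nat_lit 1216) (nat_lit 3918285896) (nat_lit 1292) (nat_lit 65629549) (nat_lit 285) (nat_lit 5) (nat_lit 301) (nat_lit 5) (nat_lit 302) (nat_lit 5) (nat_lit 459) (nat_lit 441) (nat_lit 300)) (XT.lf (nat_lit 0) (nat_lit 1722549327) (nat_lit 836) (nat_lit 12529150501)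 (nat_lit 76) (nat_lit 4212625193) (nat_lit 274) (nat_lit 5) (nat_lit 285) (nat_lit 5) (nat_lit 275) (nat_lit 5) (nat_lit 460) (nat_lit 441) (nat_lit 299)))) (XT.nd (nat_lit 156) (nat_lit 608) (nat_lit 0) (XT.nd (nat_lit 78) (nat_lit 608) (nat_lit 0) (XT.lf (nat_lit 0) (nat_lit 3634038180) (nat_lit 836) (nat_lit 2575831557) (nat_lit 76) (nat_lit 12550825772) (nat_lit 274) (nat_lit 5) (nat_lit 285) (nat_lit 5) (nat_lit 275) (nat_lit 5) (nat_lit 461) (nat_lit 441) (nat_lit 298)) (XT.lf (nat_lit 0) (nat_lit 5690538054) (nat_lit 684) (nat_lit 11263549749) (nat_lit 76) (nat_lit 2109240367) (nat_lit 266) (nat_lit 5) (nat_lit 275) (nat_lit 5) (nat_lit 267) (nat_lit 5) (nat_lit 462) (nat_lit 441) (nat_lit 297))) (XT.nd (nat_lit 78) (nat_lit 608) (nat_lit 0) (XT.lf (nat_lit 0) (nat_lit 7888462329) (nat_lit 684) (nat_lit 904340529) (nat_lit 76) (nat_lit 10579846087) (nat_lit 266) (nat_lit 5) (nat_lit 275) (nat_lit 5) (nat_lit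 267) (nat_lit 5) (nat_lit 463) (nat_lit 441) (nat_lit 296)) (XT.lf (nat_lit 0) (nat_lit 9952278530) (nat_lit 608) (nat_lit 287924032) (nat_lit 684) (nat_lit 9448411422) (nat_lit 258) (nat_lit 5) (nat_lit 266) (nat_lit 5) (nat_lit 267) (nat_lit 5) (nat_lit 464) (nat_lit 441) (nat_lit 295))))))) (XT.nd (nat_lit 1170) (nat_lit 3420) (nat_lit 0) (XT.nd (nat_lit 546) (nat_lit 1900) (nat_lit 0) (XT.nd (nat_lit 234) (nat_lit 1140) (nat_lit 0) (XT.nd (nat_lit 78) (nat_lit 532) (nat_lit 0) (XT.lf (nat_lit 0) (nat_lit 1070991388) (nat_lit 532) (nat_lit 11684827105) (nat_lit 608) (nat_lit 7255440737) (nat_lit 251) (nat_lit 5) (nat_lit 258) (nat_lit 5) (nat_lit 259) (nat_lit 5) (nat_lit 465) (nat_lit 441) (nat_lit 294)) (XT.nd (nat_lit 78) (nat_lit 532) (nat_lit 0) (XT.lf (nat_lit 0) (nat_lit 12391563348) (nat_lit 532) (nat_lit 3048995958) (nat_lit 608) (nat_lit 4900215764) (nat_lit 251) (nat_lit 5) (nat_lit 258) (nat_lit 5)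 (nat_lit 259) (nat_lit 5) (nat_lit 466) (nat_lit 441) (nat_lit 293)) (XT.lf (nat_lit 0) (nat_lit 3373565038) (nat_lit 532) (nat_lit 14913632684) (nat_lit 608) (nat_lit 2390538907) (nat_lit 244) (nat_lit 5) (nat_lit 251) (nat_lit 5) (nat_lit 252) (nat_lit 5) (nat_lit 467) (nat_lit 441) (nat_lit 292)))) (XT.nd (nat_lit 156) (nat_lit 532) (nat_lit 0) (XT.nd (nat_lit 78) (nat_lit 532) (nat_lit 0) (XT.lf (nat_lit 0) (nat_lit 294688153) (nat_lit 608) (nat_lit 5863990718) (nat_lit 76) (nat_lit 14862951329) (nat_lit 243) (nat_lit 5) (nat_lit 251) (nat_lit 5) (nat_lit 244) (nat_lit 5) (nat_lit 468) (nat_lit 441) (nat_lit 291)) (XT.lf (nat_lit 0) (nat_lit 3091444491) (nat_lit 608) (nat_lit 15396469161) (nat_lit 76) (nat_lit 2884847096) (nat_lit 236) (nat_lit 5) (nat_lit 244) (nat_lit 5) (nat_lit 237) (nat_lit 5) (nat_lit 469) (nat_lit 441) (nat_lit 290))) (XT.nd (nat_lit 78) (nat_lit 532) (nat_lit 0) (XT.lf (nat_lit 0) (nat_lit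 6086017874) (nat_lit 608) (nat_lit 3509842802) (nat_lit 76) (nat_lit 12135147906) (nat_lit 236) (nat_lit 5) (nat_lit 244) (nat_lit 5) (nat_lit 237) (nat_lit 5) (nat_lit 470) (nat_lit 441) (nat_lit 289)) (XT.lf (nat_lit 0) (nat_lit 8899649322) (nat_lit 532) (nat_lit 349664168) (nat_lit 608) (nat_lit 12848324592) (nat_lit 229) (nat_lit 5) (nat_lit 236) (nat_lit 5) (nat_lit 237) (nat_lit 5) (nat_lit 471) (nat_lit 441) (nat_lit 288))))) (XT.nd (nat_lit 312) (nat_lit 912) (nat_lit 0) (XT.nd (nat_lit 156) (nat_lit 532) (nat_lit 0) (XT.nd (nat_lit 78) (nat_lit 456) (nat_lit 0) (XT.lf (nat_lit 0) (nat_lit 12624939037) (nat_lit 608) (nat_lit 816879008) (nat_lit 76) (nat_lit 9029926247) (nat_lit 229) (nat_lit 5) (nat_lit 237) (nat_lit 5) (nat_lit 230) (nat_lit 5) (nat_lit 472) (nat_lit 441) (nat_lit 287)) (XT.lf (nat_lit 0) (nat_lit 12162235764) (nat_lit 456) (nat_lit 4053613466) (nat_lit 532) (nat_lit 6637804716) (nat_lit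 223) (nat_lit 5) (nat_lit 229) (nat_lit 5) (nat_lit 230) (nat_lit 5) (nat_lit 473) (nat_lit 441) (nat_lit 286))) (XT.nd (nat_lit 78) (nat_lit 76) (nat_lit 0) (XT.lf (nat_lit 0) (nat_lit 2283790102) (nat_lit 456) (nat_lit 17708716353) (nat_lit 532) (nat_lit 3252174557) (nat_lit 217) (nat_lit 5) (nat_lit 223) (nat_lit 5) (nat_lit 224) (nat_lit 5) (nat_lit 474) (nat_lit 441) (nat_lit 285)) (XT.lf (nat_lit 0) (nat_lit 373403834) (nat_lit 532) (nat_lit 7827698479) (nat_lit 76) (nat_lit 15441980508) (nat_lit 216) (nat_lit 5) (nat_lit 223) (nat_lit 5) (nat_lit 217) (nat_lit 5) (nat_lit 475) (nat_lit 441) (nat_lit 284)))) (XT.nd (nat_lit 156) (nat_lit 456) (nat_lit 0) (XT.nd (nat_lit 78) (nat_lit 0) (nat_lit 0) (XT.lf (nat_lit 0) (nat_lit 4108012135) (nat_lit 532) (nat_lit 18294445062) (nat_lit 76) (nat_lit 1648045306) (nat_lit 210) (nat_lit 5) (nat_lit 217) (nat_lit 5) (nat_lit 211) (nat_lit 5) (nat_lit 476) (nat_lit 441)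 (nat_lit 283)) (XT.lf (nat_lit 0) (nat_lit 8109759184) (nat_lit 532) (nat_lit 4649300631) (nat_lit 76) (nat_lit 11706432580) (nat_lit 210) (nat_lit 5) (nat_lit 217) (nat_lit 5) (nat_lit 211) (nat_lit 5) (nat_lit 477) (nat_lit 441) (nat_lit 282))) (XT.nd (nat_lit 78) (nat_lit 0) (nat_lit 0) (XT.lf (nat_lit 0) (nat_lit 9585120174) (nat_lit 456) (nat_lit 2732823539) (nat_lit 532) (nat_lit 12572397335) (nat_lit 204) (nat_lit 5) (nat_lit 210) (nat_lit 5) (nat_lit 211) (nat_lit 5) (nat_lit 478) (nat_lit 441) (nat_lit 281)) (XT.lf (nat_lit 0) (nat_lit 16767120961) (nat_lit 532) (nat_lit 1065317092) (nat_lit 76) (nat_lit 7492055289) (nat_lit 204) (nat_lit 5) (nat_lit 211) (nat_lit 5) (nat_lit 205) (nat_lit 5) (nat_lit 479) (nat_lit 441) (nat_lit 280)))))) (XT.nd (nat_lit 546) (nat_lit 1444) (nat_lit 0) (XT.nd (nat_lit 234) (nat_lit 1064) (nat_lit 0) (XT.nd (nat_lit 78) (nat_lit 532) (nat_lit 0) (XT.lf (nat_lit 0) (nat_lit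 13837755279) (nat_lit 380) (nat_lit 7666591347) (nat_lit 456) (nat_lit 4262686965) (nat_lit 199) (nat_lit 5) (nat_lit 204) (nat_lit 5) (nat_lit 205) (nat_lit 5) (nat_lit 480) (nat_lit 441) (nat_lit 279)) (XT.nd (nat_lit 78) (nat_lit 0) (nat_lit 0) (XT.lf (nat_lit 0) (nat_lit 219656860) (nat_lit 532) (nat_lit 23211298249) (nat_lit 76) (nat_lit 2789990412) (nat_lit 192) (nat_lit 5) (nat_lit 199) (nat_lit 5) (nat_lit 193) (nat_lit 5) (nat_lit 481) (nat_lit 441) (nat_lit 278)) (XT.lf (nat_lit 0) (nat_lit 4942971869) (nat_lit 532) (nat_lit 8169999440) (nat_lit 76) (nat_lit 13568472586) (nat_lit 192) (nat_lit 5) (nat_lit 199) (nat_lit 5) (nat_lit 193) (nat_lit 5) (nat_lit 482) (nat_lit 441) (nat_lit 277)))) (XT.nd (nat_lit 156) (nat_lit 684) (nat_lit 0) (XT.nd (nat_lit 78) (nat_lit 0) (nat_lit 0) (XT.lf (nat_lit 0) (nat_lit 7461227666) (nat_lit 380) (nat_lit 2413252193) (nat_lit 456) (nat_lit 17279283072) (nat_lit 187)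 (nat_lit 5) (nat_lit 192) (nat_lit 5) (nat_lit 193) (nat_lit 5) (nat_lit 483) (nat_lit 441) (nat_lit 276)) (XT.lf (nat_lit 0) (nat_lit 15114832947) (nat_lit 456) (nat_lit 3999441771) (nat_lit 76) (nat_lit 8521150323) (nat_lit 187) (nat_lit 5) (nat_lit 193) (nat_lit 5) (nat_lit 188) (nat_lit 5) (nat_lit 484) (nat_lit 441) (nat_lit 275))) (XT.nd (nat_lit 78) (nat_lit 304) (nat_lit 0) (XT.lf (nat_lit 0) (nat_lit 12375263278) (nat_lit 380) (nat_lit 8274977657) (nat_lit 456) (nat_lit 7477161237) (nat_lit 182) (nat_lit 5) (nat_lit 187) (nat_lit 5) (nat_lit 188) (nat_lit 5) (nat_lit 485) (nat_lit 441) (nat_lit 274)) (XT.lf (nat_lit 0) (nat_lit 668294062) (nat_lit 304) (nat_lit 25753459555) (nat_lit 380) (nat_lit 2210284199) (nat_lit 178) (nat_lit 5) (nat_lit 182) (nat_lit 5) (nat_lit 183) (nat_lit 5) (nat_lit 486) (nat_lit 441) (nat_lit 273))))) (XT.nd (nat_lit 312) (nat_lit 684) (nat_lit 0) (XT.nd (nat_lit 156) (nat_lit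 304) (nat_lit 0) (XT.nd (nat_lit 78) (nat_lit 380) (nat_lit 0) (XT.lf (nat_lit 0) (nat_lit 3389528513) (nat_lit 380) (nat_lit 11364072768) (nat_lit 76) (nat_lit 14390154937) (nat_lit 177) (nat_lit 5) (nat_lit 182) (nat_lit 5) (nat_lit 178) (nat_lit 5) (nat_lit 487) (nat_lit 441) (nat_lit 272)) (XT.lf (nat_lit 0) (nat_lit 5818576259) (nat_lit 380) (nat_lit 3345496319) (nat_lit 456) (nat_lit 20504562662) (nat_lit 172) (nat_lit 5) (nat_lit 177) (nat_lit 5) (nat_lit 178) (nat_lit 5) (nat_lit 488) (nat_lit 441) (nat_lit 271))) (XT.nd (nat_lit 78) (nat_lit 304) (nat_lit 0) (XT.lf (nat_lit 0) (nat_lit 15303823465) (nat_lit 456) (nat_lit 6544816630) (nat_lit 76) (nat_lit 8354861840) (nat_lit 172) (nat_lit 5) (nat_lit 178) (nat_lit 5) (nat_lit 173) (nat_lit 5) (nat_lit 489) (nat_lit 441) (nat_lit 270)) (XT.lf (nat_lit 0) (nat_lit 11463624819) (nat_lit 304) (nat_lit 10302885319) (nat_lit 380) (nat_lit 8983742605) (nat_lit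 168) (nat_lit 5) (nat_lit 172) (nat_lit 5) (nat_lit 173) (nat_lit 5) (nat_lit 490) (nat_lit 441) (nat_lit 269)))) (XT.nd (nat_lit 156) (nat_lit 304) (nat_lit 0) (XT.nd (nat_lit 78) (nat_lit 380) (nat_lit 0) (XT.lf (nat_lit 0) (nat_lit 28500574756) (nat_lit 380) (nat_lit 1187456364) (nat_lit 76) (nat_lit 1623050428) (nat_lit 168) (nat_lit 5) (nat_lit 173) (nat_lit 5) (nat_lit 169) (nat_lit 5) (nat_lit 491) (nat_lit 441) (nat_lit 268)) (XT.lf (nat_lit 0) (nat_lit 3749021775) (nat_lit 380) (nat_lit 14225945548) (nat_lit 76) (nat_lit 13904635267) (nat_lit 163) (nat_lit 5) (nat_lit 168) (nat_lit 5) (nat_lit 164) (nat_lit 5) (nat_lit 492) (nat_lit 441) (nat_lit 267))) (XT.nd (nat_lit 78) (nat_lit 0) (nat_lit 0) (XT.lf (nat_lit 0) (nat_lit 4676417669) (nat_lit 304) (nat_lit 5825124472) (nat_lit 380) (nat_lit 21961221848) (nat_lit 159) (nat_lit 5) (nat_lit 163) (nat_lit 5) (nat_lit 164) (nat_lit 5) (nat_lit 493) (nat_lit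 441) (nat_lit 266)) (XT.lf (nat_lit 0) (nat_lit 17661693886) (nat_lit 380) (nat_lit 8693827360) (nat_lit 76) (nat_lit 6701747663) (nat_lit 159) (nat_lit 5) (nat_lit 164) (nat_lit 5) (nat_lit 160) (nat_lit 5) (nat_lit 494) (nat_lit 441) (nat_lit 265))))))))
noncomputable def xc185 : XT := (XT.nd (nat_lit 2340) (nat_lit 2280) (nat_lit 0) (XT.nd (nat_lit 1170) (nat_lit 1976) (nat_lit 0) (XT.nd (nat_lit 546) (nat_lit 1292) (nat_lit 0) (XT.nd (nat_lit 234) (nat_lit 608) (nat_lit 0) (XT.nd (nat_lit 78) (nat_lit 380) (nat_lit 0) (XT.lf (nat_lit 0) (nat_lit 11124598566) (nat_lit 304) (nat_lit 14072466910) (nat_lit 380) (nat_lit 8467731383) (nat_lit 155) (nat_lit 5) (nat_lit 159) (nat_lit 5) (nat_lit 160) (nat_lit 5) (nat_lit 495) (nat_lit 441) (nat_lit 264)) (XT.nd (nat_lit 78) (nat_lit 380) (nat_lit 0) (XT.lf (nat_lit 0) (nat_lit 31709578641) (nat_lit 304) (nat_lit 1332577006) (nat_lit 380) (nat_lit 1245885609) (nat_lit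 155) (nat_lit 5) (nat_lit 159) (nat_lit 5) (nat_lit 160) (nat_lit 5) (nat_lit 496) (nat_lit 441) (nat_lit 263)) (XT.lf (nat_lit 0) (nat_lit 6359010946) (nat_lit 380) (nat_lit 16765628655) (nat_lit 76) (nat_lit 11794940809) (nat_lit 150) (nat_lit 5) (nat_lit 155) (nat_lit 5) (nat_lit 151) (nat_lit 5) (nat_lit 497) (nat_lit 441) (nat_lit 262)))) (XT.nd (nat_lit 156) (nat_lit 304) (nat_lit 0) (XT.nd (nat_lit 78) (nat_lit 0) (nat_lit 0) (XT.lf (nat_lit 0) (nat_lit 4038780003) (nat_lit 304) (nat_lit 10202532801) (nat_lit 380) (nat_lit 21326154189) (nat_lit 146) (nat_lit 5) (nat_lit 150) (nat_lit 5) (nat_lit 151) (nat_lit 5) (nat_lit 498) (nat_lit 441) (nat_lit 261)) (XT.lf (nat_lit 0) (nat_lit 22556953542) (nat_lit 380) (nat_lit 10456448148) (nat_lit 76) (nat_lit 3215482682) (nat_lit 146) (nat_lit 5) (nat_lit 151) (nat_lit 5) (nat_lit 147) (nat_lit 5) (nat_lit 499) (nat_lit 441) (nat_lit 260))) (XT.nd (nat_lit 78) (nat_lit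 76) (nat_lit 0) (XT.lf (nat_lit 0) (nat_lit 11362657461) (nat_lit 228) (nat_lit 19965786755) (nat_lit 304) (nat_lit 5575508921) (nat_lit 143) (nat_lit 5) (nat_lit 146) (nat_lit 5) (nat_lit 147) (nat_lit 5) (nat_lit 500) (nat_lit 441) (nat_lit 259)) (XT.lf (nat_lit 0) (nat_lit 2812666881) (nat_lit 304) (nat_lit 3579065326) (nat_lit 76) (nat_lit 31203661214) (nat_lit 142) (nat_lit 5) (nat_lit 146) (nat_lit 5) (nat_lit 143) (nat_lit 5) (nat_lit 501) (nat_lit 441) (nat_lit 258))))) (XT.nd (nat_lit 312) (nat_lit 456) (nat_lit 0) (XT.nd (nat_lit 156) (nat_lit 304) (nat_lit 0) (XT.nd (nat_lit 78) (nat_lit 228) (nat_lit 0) (XT.lf (nat_lit 0) (nat_lit 11598107562) (nat_lit 380) (nat_lit 19017040572) (nat_lit 76) (nat_lit 7683042494) (nat_lit 138) (nat_lit 5) (nat_lit 143) (nat_lit 5) (nat_lit 139) (nat_lit 5) (nat_lit 502) (nat_lit 441) (nat_lit 257)) (XT.lf (nat_lit 0) (nat_lit 3885849748) (nat_lit 228) (nat_lit 16894701168)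 (nat_lit 304) (nat_lit 18237517905) (nat_lit 135) (nat_lit 5) (nat_lit 138) (nat_lit 5) (nat_lit 139) (nat_lit 5) (nat_lit 503) (nat_lit 441) (nat_lit 256))) (XT.nd (nat_lit 78) (nat_lit 304) (nat_lit 0) (XT.lf (nat_lit 0) (nat_lit 27859828591) (nat_lit 228) (nat_lit 2567027899) (nat_lit 304) (nat_lit 9327035449) (nat_lit 135) (nat_lit 5) (nat_lit 138) (nat_lit 5) (nat_lit 139) (nat_lit 5) (nat_lit 504) (nat_lit 441) (nat_lit 255)) (XT.lf (nat_lit 0) (nat_lit 86423689) (nat_lit 304) (nat_lit 28350215919) (nat_lit 76) (nat_lit 12068210911) (nat_lit 131) (nat_lit 5) (nat_lit 135) (nat_lit 5) (nat_lit 132) (nat_lit 5) (nat_lit 505) (nat_lit 441) (nat_lit 254)))) (XT.nd (nat_lit 156) (nat_lit 228) (nat_lit 0) (XT.nd (nat_lit 78) (nat_lit 228) (nat_lit 0) (XT.lf (nat_lit 0) (nat_lit 9737988367) (nat_lit 304) (nat_lit 4230836341) (nat_lit 76) (nat_lit 27302447988) (nat_lit 131) (nat_lit 5) (nat_lit 135) (nat_lit 5) (nat_lit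 132) (nat_lit 5) (nat_lit 506) (nat_lit 441) (nat_lit 253)) (XT.lf (nat_lit 0) (nat_lit 19888630424) (nat_lit 304) (nat_lit 21049035535) (nat_lit 76) (nat_lit 1116735886) (nat_lit 128) (nat_lit 5) (nat_lit 132) (nat_lit 5) (nat_lit 129) (nat_lit 5) (nat_lit 507) (nat_lit 441) (nat_lit 252))) (XT.nd (nat_lit 78) (nat_lit 0) (nat_lit 0) (XT.lf (nat_lit 0) (nat_lit 4162518848) (nat_lit 228) (nat_lit 26399320601) (nat_lit 304) (nat_lit 12292644200) (nat_lit 125) (nat_lit 5) (nat_lit 128) (nat_lit 5) (nat_lit 129) (nat_lit 5) (nat_lit 508) (nat_lit 441) (nat_lit 251)) (XT.lf (nat_lit 0) (nat_lit 30556340984) (nat_lit 228) (nat_lit 11208087454) (nat_lit 304) (nat_lit 1907864164) (nat_lit 125) (nat_lit 5) (nat_lit 128) (nat_lit 5) (nat_lit 129) (nat_lit 5) (nat_lit 509) (nat_lit 441) (nat_lit 250)))))) (XT.nd (nat_lit 546) (nat_lit 988) (nat_lit 0) (XT.nd (nat_lit 234) (nat_lit 456) (nat_lit 0) (XT.nd (nat_lit 78) (nat_lit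 228) (nat_lit 0) (XT.lf (nat_lit 0) (nat_lit 8787218170) (nat_lit 304) (nat_lit 31154242521) (nat_lit 76) (nat_lit 4565533324) (nat_lit 121) (nat_lit 5) (nat_lit 125) (nat_lit 5) (nat_lit 122) (nat_lit 5) (nat_lit 510) (nat_lit 441) (nat_lit 249)) (XT.nd (nat_lit 78) (nat_lit 228) (nat_lit 0) (XT.lf (nat_lit 0) (nat_lit 20006253483) (nat_lit 304) (nat_lit 4615046603) (nat_lit 76) (nat_lit 20737626481) (nat_lit 121) (nat_lit 5) (nat_lit 125) (nat_lit 5) (nat_lit 122) (nat_lit 5) (nat_lit 511) (nat_lit 441) (nat_lit 248)) (XT.lf (nat_lit 0) (nat_lit 23167066950) (nat_lit 228) (nat_lit 8614303285) (nat_lit 304) (nat_lit 14448461731) (nat_lit 118) (nat_lit 5) (nat_lit 121) (nat_lit 5) (nat_lit 122) (nat_lit 5) (nat_lit 512) (nat_lit 441) (nat_lit 247)))) (XT.nd (nat_lit 156) (nat_lit 228) (nat_lit 0) (XT.nd (nat_lit 78) (nat_lit 76) (nat_lit 0) (XT.lf (nat_lit 0) (nat_lit 4763235853) (nat_lit 152) (nat_lit 39311871152)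 (nat_lit 228) (nat_lit 3046796705) (nat_lit 116) (nat_lit 5) (nat_lit 118) (nat_lit 5) (nat_lit 119) (nat_lit 5) (nat_lit 513) (nat_lit 441) (nat_lit 246)) (XT.lf (nat_lit 0) (nat_lit 8844540732) (nat_lit 228) (nat_lit 14313529498) (nat_lit 76) (nat_lit 24870639622) (nat_lit 115) (nat_lit 5) (nat_lit 118) (nat_lit 5) (nat_lit 116) (nat_lit 5) (nat_lit 514) (nat_lit 441) (nat_lit 245))) (XT.nd (nat_lit 78) (nat_lit 0) (nat_lit 0) (XT.lf (nat_lit 0) (nat_lit 14826916144) (nat_lit 228) (nat_lit 6343927800) (nat_lit 304) (nat_lit 27786787510) (nat_lit 112) (nat_lit 5) (nat_lit 115) (nat_lit 5) (nat_lit 116) (nat_lit 5) (nat_lit 515) (nat_lit 441) (nat_lit 244)) (XT.lf (nat_lit 0) (nat_lit 34115357830) (nat_lit 304) (nat_lit 4887248463) (nat_lit 76) (nat_lit 10904361921) (nat_lit 112) (nat_lit 5) (nat_lit 116) (nat_lit 5) (nat_lit 113) (nat_lit 5) (nat_lit 516) (nat_lit 441) (nat_lit 243))))) (XT.nd (nat_lit 312) (nat_lit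 380) (nat_lit 0) (XT.nd (nat_lit 156) (nat_lit 152) (nat_lit 0) (XT.nd (nat_lit 78) (nat_lit 304) (nat_lit 0) (XT.lf (nat_lit 0) (nat_lit 25666482592) (nat_lit 152) (nat_lit 22088303247) (nat_lit 228) (nat_lit 3120802031) (nat_lit 110) (nat_lit 5) (nat_lit 112) (nat_lit 5) (nat_lit 113) (nat_lit 5) (nat_lit 517) (nat_lit 441) (nat_lit 242)) (XT.lf (nat_lit 0) (nat_lit 5368965373) (nat_lit 228) (nat_lit 4465896958) (nat_lit 304) (nat_lit 42032585162) (nat_lit 106) (nat_lit 5) (nat_lit 109) (nat_lit 5) (nat_lit 110) (nat_lit 5) (nat_lit 518) (nat_lit 441) (nat_lit 241))) (XT.nd (nat_lit 78) (nat_lit 152) (nat_lit 0) (XT.lf (nat_lit 0) (nat_lit 23502176209) (nat_lit 304) (nat_lit 15670356030) (nat_lit 76) (nat_lit 13704032698) (nat_lit 106) (nat_lit 5) (nat_lit 110) (nat_lit 5) (nat_lit 107) (nat_lit 5) (nat_lit 519) (nat_lit 441) (nat_lit 240)) (XT.lf (nat_lit 0) (nat_lit 16352542293) (nat_lit 152) (nat_lit 21425531274)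 (nat_lit 228) (nat_lit 16131925551) (nat_lit 104) (nat_lit 5) (nat_lit 106) (nat_lit 5) (nat_lit 107) (nat_lit 5) (nat_lit 520) (nat_lit 441) (nat_lit 239)))) (XT.nd (nat_lit 156) (nat_lit 152) (nat_lit 0) (XT.nd (nat_lit 78) (nat_lit 228) (nat_lit 0) (XT.lf (nat_lit 0) (nat_lit 49652451302) (nat_lit 152) (nat_lit 2985228723) (nat_lit 228) (nat_lit 2332093467) (nat_lit 104) (nat_lit 5) (nat_lit 106) (nat_lit 5) (nat_lit 107) (nat_lit 5) (nat_lit 521) (nat_lit 441) (nat_lit 238)) (XT.lf (nat_lit 0) (nat_lit 12077077814) (nat_lit 228) (nat_lit 27883833777) (nat_lit 76) (nat_lit 16084187206) (nat_lit 101) (nat_lit 5) (nat_lit 104) (nat_lit 5) (nat_lit 102) (nat_lit 5) (nat_lit 522) (nat_lit 441) (nat_lit 237))) (XT.nd (nat_lit 78) (nat_lit 0) (nat_lit 0) (XT.lf (nat_lit 0) (nat_lit 5654467277) (nat_lit 152) (nat_lit 21352582885) (nat_lit 228) (nat_lit 30140879159) (nat_lit 99) (nat_lit 5) (nat_lit 101) (nat_lit 5)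 (nat_lit 102) (nat_lit 5) (nat_lit 523) (nat_lit 441) (nat_lit 236)) (XT.lf (nat_lit 0) (nat_lit 40765725895) (nat_lit 152) (nat_lit 1898063237) (nat_lit 228) (nat_lit 15611689722) (nat_lit 99) (nat_lit 5) (nat_lit 101) (nat_lit 5) (nat_lit 102) (nat_lit 5) (nat_lit 524) (nat_lit 441) (nat_lit 235))))))) (XT.nd (nat_lit 1170) (nat_lit 684) (nat_lit 0) (XT.nd (nat_lit 546) (nat_lit 836) (nat_lit 0) (XT.nd (nat_lit 234) (nat_lit 380) (nat_lit 0) (XT.nd (nat_lit 78) (nat_lit 228) (nat_lit 0) (XT.lf (nat_lit 0) (nat_lit 17658981148) (nat_lit 152) (nat_lit 41472726501) (nat_lit 228) (nat_lit 294903017) (nat_lit 97) (nat_lit 5) (nat_lit 99) (nat_lit 5) (nat_lit 100) (nat_lit 5) (nat_lit 525) (nat_lit 441) (nat_lit 234)) (XT.nd (nat_lit 78) (nat_lit 152) (nat_lit 0) (XT.lf (nat_lit 0) (nat_lit 15374008259) (nat_lit 228) (nat_lit 6539331300) (nat_lit 76) (nat_lit 38688630926) (nat_lit 96) (nat_lit 5) (nat_lit 99) (nat_lit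 5) (nat_lit 97) (nat_lit 5) (nat_lit 526) (nat_lit 441) (nat_lit 233)) (XT.lf (nat_lit 0) (nat_lit 30330174719) (nat_lit 152) (nat_lit 1465875040) (nat_lit 228) (nat_lit 30007784146) (nat_lit 94) (nat_lit 5) (nat_lit 96) (nat_lit 5) (nat_lit 97) (nat_lit 5) (nat_lit 527) (nat_lit 441) (nat_lit 232)))) (XT.nd (nat_lit 156) (nat_lit 152) (nat_lit 0) (XT.nd (nat_lit 78) (nat_lit 76) (nat_lit 0) (XT.lf (nat_lit 0) (nat_lit 5310064752) (nat_lit 152) (nat_lit 43704228688) (nat_lit 228) (nat_lit 14018353659) (nat_lit 92) (nat_lit 5) (nat_lit 94) (nat_lit 5) (nat_lit 95) (nat_lit 5) (nat_lit 528) (nat_lit 441) (nat_lit 231)) (XT.lf (nat_lit 0) (nat_lit 2735874664) (nat_lit 228) (nat_lit 20492119100) (nat_lit 76) (nat_lit 41059636134) (nat_lit 91) (nat_lit 5) (nat_lit 94) (nat_lit 5) (nat_lit 92) (nat_lit 5) (nat_lit 529) (nat_lit 441) (nat_lit 230))) (XT.nd (nat_lit 78) (nat_lit 0) (nat_lit 0) (XT.lf (nat_lit 0) (nat_lit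 18064509733) (nat_lit 152) (nat_lit 1817641765) (nat_lit 228) (nat_lit 45688811607) (nat_lit 89) (nat_lit 5) (nat_lit 91) (nat_lit 5) (nat_lit 92) (nat_lit 5) (nat_lit 530) (nat_lit 441) (nat_lit 229)) (XT.lf (nat_lit 0) (nat_lit 37943847227) (nat_lit 228) (nat_lit 8889709884) (nat_lit 76) (nat_lit 20047208369) (nat_lit 89) (nat_lit 5) (nat_lit 92) (nat_lit 5) (nat_lit 90) (nat_lit 5) (nat_lit 531) (nat_lit 441) (nat_lit 228))))) (XT.nd (nat_lit 312) (nat_lit 304) (nat_lit 0) (XT.nd (nat_lit 156) (nat_lit 152) (nat_lit 0) (XT.nd (nat_lit 78) (nat_lit 228) (nat_lit 0) (XT.lf (nat_lit 0) (nat_lit 31477440755) (nat_lit 152) (nat_lit 25388141741) (nat_lit 228) (nat_lit 11354733858) (nat_lit 87) (nat_lit 5) (nat_lit 89) (nat_lit 5) (nat_lit 90) (nat_lit 5) (nat_lit 532) (nat_lit 441) (nat_lit 227)) (XT.lf (nat_lit 0) (nat_lit 3641368646) (nat_lit 152) (nat_lit 3105011810) (nat_lit 228) (nat_lit 62848027095) (nat_lit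 84) (nat_lit 5) (nat_lit 86) (nat_lit 5) (nat_lit 87) (nat_lit 5) (nat_lit 533) (nat_lit 441) (nat_lit 226))) (XT.nd (nat_lit 78) (nat_lit 152) (nat_lit 0) (XT.lf (nat_lit 0) (nat_lit 25725417674) (nat_lit 228) (nat_lit 25319483290) (nat_lit 76) (nat_lit 19944554656) (nat_lit 84) (nat_lit 5) (nat_lit 87) (nat_lit 5) (nat_lit 85) (nat_lit 5) (nat_lit 534) (nat_lit 441) (nat_lit 225)) (XT.lf (nat_lit 0) (nat_lit 16826456388) (nat_lit 152) (nat_lit 28637553680) (nat_lit 228) (nat_lit 26956639618) (nat_lit 82) (nat_lit 5) (nat_lit 84) (nat_lit 5) (nat_lit 85) (nat_lit 5) (nat_lit 535) (nat_lit 441) (nat_lit 224)))) (XT.nd (nat_lit 156) (nat_lit 152) (nat_lit 0) (XT.nd (nat_lit 78) (nat_lit 152) (nat_lit 0) (XT.lf (nat_lit 0) (nat_lit 60751615576) (nat_lit 152) (nat_lit 5296543890) (nat_lit 228) (nat_lit 7839018208) (nat_lit 82) (nat_lit 5) (nat_lit 84) (nat_lit 5) (nat_lit 85) (nat_lit 5) (nat_lit 536) (nat_lit 441)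 (nat_lit 223)) (XT.lf (nat_lit 0) (nat_lit 12101686262) (nat_lit 152) (nat_lit 44484260492) (nat_lit 76) (nat_lit 18793911953) (nat_lit 80) (nat_lit 5) (nat_lit 82) (nat_lit 5) (nat_lit 81) (nat_lit 5) (nat_lit 537) (nat_lit 441) (nat_lit 222))) (XT.nd (nat_lit 78) (nat_lit 152) (nat_lit 0) (XT.lf (nat_lit 0) (nat_lit 32667227698) (nat_lit 152) (nat_lit 531863882) (nat_lit 76) (nat_lit 43710375070) (nat_lit 80) (nat_lit 5) (nat_lit 82) (nat_lit 5) (nat_lit 81) (nat_lit 5) (nat_lit 538) (nat_lit 441) (nat_lit 221)) (XT.lf (nat_lit 0) (nat_lit 45625426741) (nat_lit 152) (nat_lit 8660727552) (nat_lit 228) (nat_lit 24185716037) (nat_lit 78) (nat_lit 5) (nat_lit 80) (nat_lit 5) (nat_lit 81) (nat_lit 5) (nat_lit 539) (nat_lit 441) (nat_lit 220)))))) (XT.nd (nat_lit 54834) (nat_lit 0) (nat_lit 17100) (XT.nd (nat_lit 312) (nat_lit 380) (nat_lit 0) (XT.nd (nat_lit 156) (nat_lit 152) (nat_lit 0) (XT.nd (nat_lit 78) (nat_lit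 76) (nat_lit 0) (XT.lf (nat_lit 0) (nat_lit 13191000864) (nat_lit 76) (nat_lit 63652420461) (nat_lit 152) (nat_lit 3229031682) (nat_lit 77) (nat_lit 5) (nat_lit 78) (nat_lit 5) (nat_lit 79) (nat_lit 4) (nat_lit 540) (nat_lit 441) (nat_lit 219)) (XT.lf (nat_lit 0) (nat_lit 18416723406) (nat_lit 152) (nat_lit 20697705755) (nat_lit 76) (nat_lit 42588773425) (nat_lit 76) (nat_lit 5) (nat_lit 78) (nat_lit 5) (nat_lit 77) (nat_lit 5) (nat_lit 541) (nat_lit 441) (nat_lit 218))) (XT.nd (nat_lit 78) (nat_lit 0) (nat_lit 0) (XT.lf (nat_lit 0) (nat_lit 27369776604) (nat_lit 152) (nat_lit 13538182163) (nat_lit 228) (nat_lit 42466126590) (nat_lit 74) (nat_lit 5) (nat_lit 76) (nat_lit 5) (nat_lit 77) (nat_lit 5) (nat_lit 542) (nat_lit 441) (nat_lit 217)) (XT.lf (nat_lit 0) (nat_lit 64406019197) (nat_lit 228) (nat_lit 7914315945) (nat_lit 76) (nat_lit 12764796886) (nat_lit 74) (nat_lit 5) (nat_lit 77) (nat_lit 5) (nat_lit 75)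 (nat_lit 4) (nat_lit 543) (nat_lit 441) (nat_lit 216)))) (XT.nd (nat_lit 156) (nat_lit 76) (nat_lit 0) (XT.nd (nat_lit 78) (nat_lit 152) (nat_lit 0) (XT.lf (nat_lit 0) (nat_lit 2271165066) (nat_lit 152) (nat_lit 44547518012) (nat_lit 76) (nat_lit 40011998278) (nat_lit 72) (nat_lit 5) (nat_lit 74) (nat_lit 5) (nat_lit 73) (nat_lit 5) (nat_lit 544) (nat_lit 441) (nat_lit 215)) (XT.lf (nat_lit 0) (nat_lit 5419027879) (nat_lit 152) (nat_lit 20206078210) (nat_lit 228) (nat_lit 62993425284) (nat_lit 70) (nat_lit 5) (nat_lit 72) (nat_lit 5) (nat_lit 73) (nat_lit 5) (nat_lit 545) (nat_lit 441) (nat_lit 214))) (XT.nd (nat_lit 78) (nat_lit 76) (nat_lit 0) (XT.lf (nat_lit 0) (nat_lit 50201208746) (nat_lit 228) (nat_lit 32726273810) (nat_lit 76) (nat_lit 7516888084) (nat_lit 70) (nat_lit 5) (nat_lit 73) (nat_lit 5) (nat_lit 71) (nat_lit 4) (nat_lit 546) (nat_lit 441) (nat_lit 213)) (XT.lf (nat_lit 0) (nat_lit 19436691917) (nat_lit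 76) (nat_lit 56462847671) (nat_lit 152) (nat_lit 16413897193) (nat_lit 69) (nat_lit 5) (nat_lit 70) (nat_lit 5) (nat_lit 71) (nat_lit 4) (nat_lit 547) (nat_lit 441) (nat_lit 212))))) (XT.nd (nat_lit 312) (nat_lit 0) (nat_lit 76) (XT.nd (nat_lit 156) (nat_lit 1216) (nat_lit 0) (XT.nd (nat_lit 78) (nat_lit 0) (nat_lit 0) (XT.lf (nat_lit 0) (nat_lit 3453172905) (nat_lit 0) (nat_lit 3453172905) (nat_lit 1140) (nat_lit 234818379) (nat_lit 310) (nat_lit 5) (nat_lit 310) (nat_lit 3) (nat_lit 325) (nat_lit 3) (nat_lit 442) (nat_lit 442) (nat_lit 316)) (XT.lf (nat_lit 0) (nat_lit 14169923751) (nat_lit 0) (nat_lit 175467965) (nat_lit 1140) (nat_lit 141359220) (nat_lit 310) (nat_lit 5) (nat_lit 310) (nat_lit 3) (nat_lit 325) (nat_lit 3) (nat_lit 443) (nat_lit 442) (nat_lit 315))) (XT.nd (nat_lit 78) (nat_lit 0) (nat_lit 0) (XT.lf (nat_lit 0) (nat_lit 313898233) (nat_lit 1216) (nat_lit 7677468207) (nat_lit 1292) (nat_lit 6702255633)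 (nat_lit 294) (nat_lit 5) (nat_lit 310) (nat_lit 5) (nat_lit 311) (nat_lit 5) (nat_lit 444) (nat_lit 442) (nat_lit 314)) (XT.lf (nat_lit 0) (nat_lit 772477499) (nat_lit 1216) (nat_lit 341131966) (nat_lit 1292) (nat_lit 13793274464) (nat_lit 294) (nat_lit 5) (nat_lit 310) (nat_lit 5) (nat_lit 311) (nat_lit 5) (nat_lit 445) (nat_lit 442) (nat_lit 313)))) (XT.nd (nat_lit 156) (nat_lit 0) (nat_lit 76) (XT.nd (nat_lit 78) (nat_lit 0) (nat_lit 0) (XT.lf (nat_lit 0) (nat_lit 1361528658) (nat_lit 1216) (nat_lit 7830948711) (nat_lit 1292) (nat_lit 5930566518) (nat_lit 295) (nat_lit 5) (nat_lit 311) (nat_lit 5) (nat_lit 312) (nat_lit 5) (nat_lit 446) (nat_lit 442) (nat_lit 312)) (XT.lf (nat_lit 0) (nat_lit 1970992999) (nat_lit 1216) (nat_lit 202447605) (nat_lit 1292) (nat_lit 13172167424) (nat_lit 295) (nat_lit 5) (nat_lit 311) (nat_lit 5) (nat_lit 312) (nat_lit 5) (nat_lit 447) (nat_lit 442) (nat_lit 311))) (XT.nd (nat_lit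 78) (nat_lit 0) (nat_lit 0) (XT.lf (nat_lit 0) (nat_lit 2711689966) (nat_lit 1216) (nat_lit 7822121009) (nat_lit 1292) (nat_lit 5037651241) (nat_lit 296) (nat_lit 5) (nat_lit 312) (nat_lit 5) (nat_lit 313) (nat_lit 5) (nat_lit 448) (nat_lit 442) (nat_lit 310)) (XT.lf (nat_lit 76) (nat_lit 113256500) (nat_lit 0) (nat_lit 3374911724) (nat_lit 1292) (nat_lit 12315518533) (nat_lit 297) (nat_lit 5) (nat_lit 296) (nat_lit 5) (nat_lit 313) (nat_lit 5) (nat_lit 449) (nat_lit 442) (nat_lit 309))))))))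
noncomputable def xc186 : XT := (XT.nd (nat_lit 2340) (nat_lit 6004) (nat_lit 0) (XT.nd (nat_lit 1170) (nat_lit 4712) (nat_lit 0) (XT.nd (nat_lit 546) (nat_lit 2356) (nat_lit 0) (XT.nd (nat_lit 234) (nat_lit 0) (nat_lit 76) (XT.nd (nat_lit 78) (nat_lit 0) (nat_lit 0) (XT.lf (nat_lit 0) (nat_lit 4395327993) (nat_lit 1216) (nat_lit 7640196952) (nat_lit 1292) (nat_lit 4004132969) (nat_lit 297) (nat_lit 5) (nat_lit 313) (nat_lit 5) (nat_lit 314) (nat_lit 5) (nat_lit 450) (nat_lit 442) (nat_lit 308)) (XT.nd (nat_lit 78) (nat_lit 0) (nat_lit 76) (XT.lf (nat_lit 76) (nat_lit 622994798) (nat_lit 0) (nat_lit 4735605060) (nat_lit 1292) (nat_lit 10923242878) (nat_lit 298) (nat_lit 5) (nat_lit 297) (nat_lit 5) (nat_lit 314) (nat_lit 5) (nat_lit 451) (nat_lit 442) (nat_lit 307)) (XT.lf (nat_lit 0) (nat_lit 6445199332) (nat_lit 1216) (nat_lit 7273356303) (nat_lit 1292) (nat_lit 2809905993) (nat_lit 298) (nat_lit 5) (nat_lit 314)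 (nat_lit 5) (nat_lit 315) (nat_lit 5) (nat_lit 452) (nat_lit 442) (nat_lit 306)))) (XT.nd (nat_lit 156) (nat_lit 0) (nat_lit 76) (XT.nd (nat_lit 78) (nat_lit 0) (nat_lit 76) (XT.lf (nat_lit 76) (nat_lit 1335536351) (nat_lit 0) (nat_lit 6278643541) (nat_lit 1292) (nat_lit 9166807069) (nat_lit 299) (nat_lit 5) (nat_lit 298) (nat_lit 5) (nat_lit 315) (nat_lit 5) (nat_lit 453) (nat_lit 442) (nat_lit 305)) (XT.lf (nat_lit 0) (nat_lit 8896013312) (nat_lit 1216) (nat_lit 6708710073) (nat_lit 1292) (nat_lit 1434032492) (nat_lit 299) (nat_lit 5) (nat_lit 315) (nat_lit 5) (nat_lit 316) (nat_lit 5) (nat_lit 454) (nat_lit 442) (nat_lit 304))) (XT.nd (nat_lit 78) (nat_lit 0) (nat_lit 0) (XT.lf (nat_lit 76) (nat_lit 2264800809) (nat_lit 0) (nat_lit 8026020129) (nat_lit 1292) (nat_lit 7011202635) (nat_lit 300) (nat_lit 5) (nat_lit 299) (nat_lit 5) (nat_lit 316) (nat_lit 5) (nat_lit 455) (nat_lit 442) (nat_lit 303)) (XT.lf (nat_lit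 76) (nat_lit 11637749665) (nat_lit 0) (nat_lit 148255900) (nat_lit 1292) (nat_lit 5785429003) (nat_lit 300) (nat_lit 5) (nat_lit 299) (nat_lit 5) (nat_lit 316) (nat_lit 5) (nat_lit 456) (nat_lit 442) (nat_lit 302))))) (XT.nd (nat_lit 312) (nat_lit 1368) (nat_lit 0) (XT.nd (nat_lit 156) (nat_lit 1216) (nat_lit 0) (XT.nd (nat_lit 78) (nat_lit 0) (nat_lit 0) (XT.lf (nat_lit 76) (nat_lit 3425873185) (nat_lit 0) (nat_lit 10000750886) (nat_lit 1292) (nat_lit 4419287688) (nat_lit 301) (nat_lit 5) (nat_lit 300) (nat_lit 5) (nat_lit 317) (nat_lit 5) (nat_lit 457) (nat_lit 442) (nat_lit 301)) (XT.lf (nat_lit 76) (nat_lit 13179063356) (nat_lit 0) (nat_lit 1990033936) (nat_lit 1292) (nat_lit 2957948067) (nat_lit 301) (nat_lit 5) (nat_lit 300) (nat_lit 5) (nat_lit 317) (nat_lit 5) (nat_lit 458) (nat_lit 442) (nat_lit 300))) (XT.nd (nat_lit 78) (nat_lit 76) (nat_lit 0) (XT.lf (nat_lit 0) (nat_lit 4835051980) (nat_lit 1216) (nat_lit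 12226986816) (nat_lit 1292) (nat_lit 1351629494) (nat_lit 285) (nat_lit 5) (nat_lit 301) (nat_lit 5) (nat_lit 302) (nat_lit 5) (nat_lit 459) (nat_lit 442) (nat_lit 299)) (XT.lf (nat_lit 0) (nat_lit 358756820) (nat_lit 1292) (nat_lit 3724939316) (nat_lit 76) (nat_lit 14623253854) (nat_lit 284) (nat_lit 5) (nat_lit 301) (nat_lit 5) (nat_lit 285) (nat_lit 5) (nat_lit 460) (nat_lit 442) (nat_lit 298)))) (XT.nd (nat_lit 156) (nat_lit 608) (nat_lit 0) (XT.nd (nat_lit 78) (nat_lit 0) (nat_lit 0) (XT.lf (nat_lit 0) (nat_lit 2190073916) (nat_lit 836) (nat_lit 12517939984) (nat_lit 76) (nat_lit 4297712248) (nat_lit 274) (nat_lit 5) (nat_lit 285) (nat_lit 5) (nat_lit 275) (nat_lit 5) (nat_lit 461) (nat_lit 442) (nat_lit 297)) (XT.lf (nat_lit 0) (nat_lit 4146795355) (nat_lit 836) (nat_lit 2277295792) (nat_lit 76) (nat_lit 12887261516) (nat_lit 274) (nat_lit 5) (nat_lit 285) (nat_lit 5) (nat_lit 275) (nat_lit 5) (nat_lit 462)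 (nat_lit 442) (nat_lit 296))) (XT.nd (nat_lit 78) (nat_lit 0) (nat_lit 0) (XT.lf (nat_lit 0) (nat_lit 6256582828) (nat_lit 684) (nat_lit 11217188007) (nat_lit 76) (nat_lit 2149547193) (nat_lit 266) (nat_lit 5) (nat_lit 275) (nat_lit 5) (nat_lit 267) (nat_lit 5) (nat_lit 463) (nat_lit 442) (nat_lit 295)) (XT.lf (nat_lit 0) (nat_lit 8508930406) (nat_lit 684) (nat_lit 558394789) (nat_lit 76) (nat_lit 10874940125) (nat_lit 266) (nat_lit 5) (nat_lit 275) (nat_lit 5) (nat_lit 267) (nat_lit 5) (nat_lit 464) (nat_lit 442) (nat_lit 294)))))) (XT.nd (nat_lit 546) (nat_lit 2432) (nat_lit 0) (XT.nd (nat_lit 234) (nat_lit 1140) (nat_lit 0) (XT.nd (nat_lit 78) (nat_lit 532) (nat_lit 0) (XT.lf (nat_lit 0) (nat_lit 10620265235) (nat_lit 608) (nat_lit 303329632) (nat_lit 684) (nat_lit 9344344701) (nat_lit 258) (nat_lit 5) (nat_lit 266) (nat_lit 5) (nat_lit 267) (nat_lit 5) (nat_lit 465) (nat_lit 442) (nat_lit 293)) (XT.nd (nat_lit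 78) (nat_lit 0) (nat_lit 0) (XT.lf (nat_lit 0) (nat_lit 1480203879) (nat_lit 532) (nat_lit 12027080103) (nat_lit 608) (nat_lit 7093203422) (nat_lit 251) (nat_lit 5) (nat_lit 258) (nat_lit 5) (nat_lit 259) (nat_lit 5) (nat_lit 466) (nat_lit 442) (nat_lit 292)) (XT.lf (nat_lit 0) (nat_lit 13129410005) (nat_lit 532) (nat_lit 3132415531) (nat_lit 608) (nat_lit 4678386764) (nat_lit 251) (nat_lit 5) (nat_lit 258) (nat_lit 5) (nat_lit 259) (nat_lit 5) (nat_lit 467) (nat_lit 442) (nat_lit 291)))) (XT.nd (nat_lit 156) (nat_lit 532) (nat_lit 0) (XT.nd (nat_lit 78) (nat_lit 76) (nat_lit 0) (XT.lf (nat_lit 0) (nat_lit 3847886182) (nat_lit 532) (nat_lit 15339210030) (nat_lit 608) (nat_lit 2100390798) (nat_lit 244) (nat_lit 5) (nat_lit 251) (nat_lit 5) (nat_lit 252) (nat_lit 5) (nat_lit 468) (nat_lit 442) (nat_lit 290)) (XT.lf (nat_lit 0) (nat_lit 647997730) (nat_lit 608) (nat_lit 5670767284) (nat_lit 76) (nat_lit 15323139265)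 (nat_lit 243) (nat_lit 5) (nat_lit 251) (nat_lit 5) (nat_lit 244) (nat_lit 5) (nat_lit 469) (nat_lit 442) (nat_lit 289))) (XT.nd (nat_lit 78) (nat_lit 0) (nat_lit 0) (XT.lf (nat_lit 0) (nat_lit 3522402387) (nat_lit 608) (nat_lit 15482926139) (nat_lit 76) (nat_lit 2998429035) (nat_lit 236) (nat_lit 5) (nat_lit 244) (nat_lit 5) (nat_lit 237) (nat_lit 5) (nat_lit 470) (nat_lit 442) (nat_lit 288)) (XT.lf (nat_lit 0) (nat_lit 6596962062) (nat_lit 608) (nat_lit 3250636051) (nat_lit 76) (nat_lit 12525451398) (nat_lit 236) (nat_lit 5) (nat_lit 244) (nat_lit 5) (nat_lit 237) (nat_lit 5) (nat_lit 471) (nat_lit 442) (nat_lit 287))))) (XT.nd (nat_lit 312) (nat_lit 988) (nat_lit 0) (XT.nd (nat_lit 156) (nat_lit 912) (nat_lit 0) (XT.nd (nat_lit 78) (nat_lit 0) (nat_lit 0) (XT.lf (nat_lit 0) (nat_lit 9527567288) (nat_lit 532) (nat_lit 321494735) (nat_lit 608) (nat_lit 12901799828) (nat_lit 229) (nat_lit 5) (nat_lit 236) (nat_lit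 5) (nat_lit 237) (nat_lit 5) (nat_lit 472) (nat_lit 442) (nat_lit 286)) (XT.lf (nat_lit 0) (nat_lit 13316930650) (nat_lit 608) (nat_lit 481907474) (nat_lit 76) (nat_lit 9337624980) (nat_lit 229) (nat_lit 5) (nat_lit 237) (nat_lit 5) (nat_lit 230) (nat_lit 5) (nat_lit 473) (nat_lit 442) (nat_lit 285))) (XT.nd (nat_lit 78) (nat_lit 456) (nat_lit 0) (XT.lf (nat_lit 0) (nat_lit 12883056448) (nat_lit 456) (nat_lit 4126809750) (nat_lit 532) (nat_lit 6520135964) (nat_lit 223) (nat_lit 5) (nat_lit 229) (nat_lit 5) (nat_lit 230) (nat_lit 5) (nat_lit 474) (nat_lit 442) (nat_lit 284)) (XT.lf (nat_lit 0) (nat_lit 2713477476) (nat_lit 456) (nat_lit 18181311780) (nat_lit 532) (nat_lit 3038122824) (nat_lit 217) (nat_lit 5) (nat_lit 223) (nat_lit 5) (nat_lit 224) (nat_lit 5) (nat_lit 475) (nat_lit 442) (nat_lit 283)))) (XT.nd (nat_lit 156) (nat_lit 456) (nat_lit 0) (XT.nd (nat_lit 78) (nat_lit 456) (nat_lit 0) (XT.lf (nat_lit 0)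 (nat_lit 681243036) (nat_lit 532) (nat_lit 7705939550) (nat_lit 76) (nat_lit 15956261432) (nat_lit 216) (nat_lit 5) (nat_lit 223) (nat_lit 5) (nat_lit 217) (nat_lit 5) (nat_lit 476) (nat_lit 442) (nat_lit 282)) (XT.lf (nat_lit 0) (nat_lit 4523236949) (nat_lit 532) (nat_lit 18482004655) (nat_lit 76) (nat_lit 1757985204) (nat_lit 210) (nat_lit 5) (nat_lit 217) (nat_lit 5) (nat_lit 211) (nat_lit 5) (nat_lit 477) (nat_lit 442) (nat_lit 281))) (XT.nd (nat_lit 78) (nat_lit 456) (nat_lit 0) (XT.lf (nat_lit 0) (nat_lit 8636532007) (nat_lit 532) (nat_lit 4438028428) (nat_lit 76) (nat_lit 12116362003) (nat_lit 210) (nat_lit 5) (nat_lit 217) (nat_lit 5) (nat_lit 211) (nat_lit 5) (nat_lit 478) (nat_lit 442) (nat_lit 280)) (XT.lf (nat_lit 0) (nat_lit 10219986264) (nat_lit 456) (nat_lit 2746057688) (nat_lit 532) (nat_lit 12662621025) (nat_lit 204) (nat_lit 5) (nat_lit 210) (nat_lit 5) (nat_lit 211) (nat_lit 5) (nat_lit 479) (nat_lit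 442) (nat_lit 279))))))) (XT.nd (nat_lit 1170) (nat_lit 2584) (nat_lit 0) (XT.nd (nat_lit 546) (nat_lit 1748) (nat_lit 0) (XT.nd (nat_lit 234) (nat_lit 760) (nat_lit 0) (XT.nd (nat_lit 78) (nat_lit 912) (nat_lit 0) (XT.lf (nat_lit 0) (nat_lit 17541224687) (nat_lit 532) (nat_lit 752579600) (nat_lit 76) (nat_lit 7782262565) (nat_lit 204) (nat_lit 5) (nat_lit 211) (nat_lit 5) (nat_lit 205) (nat_lit 5) (nat_lit 480) (nat_lit 442) (nat_lit 278)) (XT.nd (nat_lit 78) (nat_lit 532) (nat_lit 0) (XT.lf (nat_lit 0) (nat_lit 14594205560) (nat_lit 380) (nat_lit 7821746688) (nat_lit 456) (nat_lit 4116070340) (nat_lit 199) (nat_lit 5) (nat_lit 204) (nat_lit 5) (nat_lit 205) (nat_lit 5) (nat_lit 481) (nat_lit 442) (nat_lit 277)) (XT.lf (nat_lit 0) (nat_lit 491604860) (nat_lit 532) (nat_lit 23557127528) (nat_lit 76) (nat_lit 2950854589) (nat_lit 192) (nat_lit 5) (nat_lit 199) (nat_lit 5) (nat_lit 193) (nat_lit 5) (nat_lit 482) (nat_lit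 442) (nat_lit 276)))) (XT.nd (nat_lit 156) (nat_lit 380) (nat_lit 0) (XT.nd (nat_lit 78) (nat_lit 380) (nat_lit 0) (XT.lf (nat_lit 0) (nat_lit 5348890437) (nat_lit 532) (nat_lit 8074798774) (nat_lit 76) (nat_lit 14050443720) (nat_lit 192) (nat_lit 5) (nat_lit 199) (nat_lit 5) (nat_lit 193) (nat_lit 5) (nat_lit 483) (nat_lit 442) (nat_lit 275)) (XT.lf (nat_lit 0) (nat_lit 8022028865) (nat_lit 380) (nat_lit 2402050141) (nat_lit 456) (nat_lit 17536671212) (nat_lit 187) (nat_lit 5) (nat_lit 192) (nat_lit 5) (nat_lit 193) (nat_lit 5) (nat_lit 484) (nat_lit 442) (nat_lit 274))) (XT.nd (nat_lit 78) (nat_lit 380) (nat_lit 0) (XT.lf (nat_lit 0) (nat_lit 15815043334) (nat_lit 456) (nat_lit 3785651860) (nat_lit 76) (nat_lit 8856365695) (nat_lit 187) (nat_lit 5) (nat_lit 193) (nat_lit 5) (nat_lit 188) (nat_lit 5) (nat_lit 485) (nat_lit 442) (nat_lit 273)) (XT.lf (nat_lit 0) (nat_lit 13077022055) (nat_lit 380) (nat_lit 8435481142)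 (nat_lit 456) (nat_lit 7451415146) (nat_lit 182) (nat_lit 5) (nat_lit 187) (nat_lit 5) (nat_lit 188) (nat_lit 5) (nat_lit 486) (nat_lit 442) (nat_lit 272))))) (XT.nd (nat_lit 312) (nat_lit 988) (nat_lit 0) (XT.nd (nat_lit 156) (nat_lit 380) (nat_lit 0) (XT.nd (nat_lit 78) (nat_lit 76) (nat_lit 0) (XT.lf (nat_lit 0) (nat_lit 1022002628) (nat_lit 304) (nat_lit 26432114337) (nat_lit 380) (nat_lit 2029668095) (nat_lit 178) (nat_lit 5) (nat_lit 182) (nat_lit 5) (nat_lit 183) (nat_lit 5) (nat_lit 487) (nat_lit 442) (nat_lit 271)) (XT.lf (nat_lit 0) (nat_lit 3726268971) (nat_lit 380) (nat_lit 11376354133) (nat_lit 76) (nat_lit 14908372892) (nat_lit 177) (nat_lit 5) (nat_lit 182) (nat_lit 5) (nat_lit 178) (nat_lit 5) (nat_lit 488) (nat_lit 442) (nat_lit 270))) (XT.nd (nat_lit 78) (nat_lit 0) (nat_lit 0) (XT.lf (nat_lit 0) (nat_lit 6318552396) (nat_lit 380) (nat_lit 3351778836) (nat_lit 456) (nat_lit 20881402319) (nat_lit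 172) (nat_lit 5) (nat_lit 177) (nat_lit 5) (nat_lit 178) (nat_lit 5) (nat_lit 489) (nat_lit 442) (nat_lit 269)) (XT.lf (nat_lit 0) (nat_lit 15988414727) (nat_lit 456) (nat_lit 6419340529) (nat_lit 76) (nat_lit 8695067392) (nat_lit 172) (nat_lit 5) (nat_lit 178) (nat_lit 5) (nat_lit 173) (nat_lit 5) (nat_lit 490) (nat_lit 442) (nat_lit 268)))) (XT.nd (nat_lit 156) (nat_lit 684) (nat_lit 0) (XT.nd (nat_lit 78) (nat_lit 0) (nat_lit 0) (XT.lf (nat_lit 0) (nat_lit 12126199060) (nat_lit 304) (nat_lit 10515278868) (nat_lit 380) (nat_lit 9024603755) (nat_lit 168) (nat_lit 5) (nat_lit 172) (nat_lit 5) (nat_lit 173) (nat_lit 5) (nat_lit 491) (nat_lit 442) (nat_lit 267)) (XT.lf (nat_lit 0) (nat_lit 29572001667) (nat_lit 380) (nat_lit 908114360) (nat_lit 76) (nat_lit 1763786777) (nat_lit 168) (nat_lit 5) (nat_lit 173) (nat_lit 5) (nat_lit 169) (nat_lit 5) (nat_lit 492) (nat_lit 442) (nat_lit 266))) (XT.nd (nat_lit 78) (nat_lit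 304) (nat_lit 0) (XT.lf (nat_lit 0) (nat_lit 4076724799) (nat_lit 380) (nat_lit 14336544759) (nat_lit 76) (nat_lit 14416246324) (nat_lit 163) (nat_lit 5) (nat_lit 168) (nat_lit 5) (nat_lit 164) (nat_lit 5) (nat_lit 493) (nat_lit 442) (nat_lit 265)) (XT.lf (nat_lit 0) (nat_lit 5129789560) (nat_lit 304) (nat_lit 5898771823) (nat_lit 380) (nat_lit 22401709042) (nat_lit 159) (nat_lit 5) (nat_lit 163) (nat_lit 5) (nat_lit 164) (nat_lit 5) (nat_lit 494) (nat_lit 442) (nat_lit 264)))))) (XT.nd (nat_lit 624) (nat_lit 1292) (nat_lit 0) (XT.nd (nat_lit 312) (nat_lit 608) (nat_lit 0) (XT.nd (nat_lit 156) (nat_lit 380) (nat_lit 0) (XT.nd (nat_lit 78) (nat_lit 304) (nat_lit 0) (XT.lf (nat_lit 0) (nat_lit 18398287298) (nat_lit 380) (nat_lit 8645434464) (nat_lit 76) (nat_lit 6999046145) (nat_lit 159) (nat_lit 5) (nat_lit 164) (nat_lit 5) (nat_lit 160) (nat_lit 5) (nat_lit 495) (nat_lit 442) (nat_lit 263)) (XT.lf (nat_lit 0) (nat_lit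 11764512792) (nat_lit 304) (nat_lit 14392128769) (nat_lit 380) (nat_lit 8511972978) (nat_lit 155) (nat_lit 5) (nat_lit 159) (nat_lit 5) (nat_lit 160) (nat_lit 5) (nat_lit 496) (nat_lit 442) (nat_lit 262))) (XT.nd (nat_lit 78) (nat_lit 380) (nat_lit 0) (XT.lf (nat_lit 0) (nat_lit 32958124513) (nat_lit 304) (nat_lit 1273027958) (nat_lit 380) (nat_lit 1079582230) (nat_lit 155) (nat_lit 5) (nat_lit 159) (nat_lit 5) (nat_lit 160) (nat_lit 5) (nat_lit 497) (nat_lit 442) (nat_lit 261)) (XT.lf (nat_lit 0) (nat_lit 6747513477) (nat_lit 380) (nat_lit 16965360971) (nat_lit 76) (nat_lit 12248346489) (nat_lit 150) (nat_lit 5) (nat_lit 155) (nat_lit 5) (nat_lit 151) (nat_lit 5) (nat_lit 498) (nat_lit 442) (nat_lit 260)))) (XT.nd (nat_lit 156) (nat_lit 304) (nat_lit 0) (XT.nd (nat_lit 78) (nat_lit 0) (nat_lit 0) (XT.lf (nat_lit 0) (nat_lit 4460207040) (nat_lit 304) (nat_lit 10403204479) (nat_lit 380) (nat_lit 21765219219) (nat_lit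 146) (nat_lit 5) (nat_lit 150) (nat_lit 5) (nat_lit 151) (nat_lit 5) (nat_lit 499) (nat_lit 442) (nat_lit 259)) (XT.lf (nat_lit 0) (nat_lit 23423829664) (nat_lit 380) (nat_lit 10473917621) (nat_lit 76) (nat_lit 3412284530) (nat_lit 146) (nat_lit 5) (nat_lit 151) (nat_lit 5) (nat_lit 147) (nat_lit 5) (nat_lit 500) (nat_lit 442) (nat_lit 258))) (XT.nd (nat_lit 78) (nat_lit 76) (nat_lit 0) (XT.lf (nat_lit 0) (nat_lit 11996857000) (nat_lit 228) (nat_lit 20458888768) (nat_lit 304) (nat_lit 5549688863) (nat_lit 143) (nat_lit 5) (nat_lit 146) (nat_lit 5) (nat_lit 147) (nat_lit 5) (nat_lit 501) (nat_lit 442) (nat_lit 257)) (XT.lf (nat_lit 0) (nat_lit 3080850319) (nat_lit 304) (nat_lit 3397989847) (nat_lit 76) (nat_lit 32238888084) (nat_lit 142) (nat_lit 5) (nat_lit 146) (nat_lit 5) (nat_lit 143) (nat_lit 5) (nat_lit 502) (nat_lit 442) (nat_lit 256))))) (XT.nd (nat_lit 312) (nat_lit 456) (nat_lit 0) (XT.nd (nat_lit 156)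 (nat_lit 304) (nat_lit 0) (XT.nd (nat_lit 78) (nat_lit 228) (nat_lit 0) (XT.lf (nat_lit 0) (nat_lit 12128250060) (nat_lit 380) (nat_lit 19297487696) (nat_lit 76) (nat_lit 8015920117) (nat_lit 138) (nat_lit 5) (nat_lit 143) (nat_lit 5) (nat_lit 139) (nat_lit 5) (nat_lit 503) (nat_lit 442) (nat_lit 255)) (XT.lf (nat_lit 0) (nat_lit 4289645568) (nat_lit 228) (nat_lit 17293975310) (nat_lit 304) (nat_lit 18599588274) (nat_lit 135) (nat_lit 5) (nat_lit 138) (nat_lit 5) (nat_lit 139) (nat_lit 5) (nat_lit 504) (nat_lit 442) (nat_lit 254))) (XT.nd (nat_lit 78) (nat_lit 304) (nat_lit 0) (XT.lf (nat_lit 0) (nat_lit 28974478136) (nat_lit 228) (nat_lit 2539604859) (nat_lit 304) (nat_lit 9427181300) (nat_lit 135) (nat_lit 5) (nat_lit 138) (nat_lit 5) (nat_lit 139) (nat_lit 5) (nat_lit 505) (nat_lit 442) (nat_lit 253)) (XT.lf (nat_lit 0) (nat_lit 263750420) (nat_lit 304) (nat_lit 28916913982) (nat_lit 76) (nat_lit 12534078510)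 (nat_lit 131) (nat_lit 5) (nat_lit 135) (nat_lit 5) (nat_lit 132) (nat_lit 5) (nat_lit 506) (nat_lit 442) (nat_lit 252)))) (XT.nd (nat_lit 156) (nat_lit 228) (nat_lit 0) (XT.nd (nat_lit 78) (nat_lit 228) (nat_lit 0) (XT.lf (nat_lit 0) (nat_lit 10199772698) (nat_lit 304) (nat_lit 4082219281) (nat_lit 76) (nat_lit 28222318779) (nat_lit 131) (nat_lit 5) (nat_lit 135) (nat_lit 5) (nat_lit 132) (nat_lit 5) (nat_lit 507) (nat_lit 442) (nat_lit 251)) (XT.lf (nat_lit 0) (nat_lit 20653629891) (nat_lit 304) (nat_lit 21403649862) (nat_lit 76) (nat_lit 1253693466) (nat_lit 128) (nat_lit 5) (nat_lit 132) (nat_lit 5) (nat_lit 129) (nat_lit 5) (nat_lit 508) (nat_lit 442) (nat_lit 250))) (XT.nd (nat_lit 78) (nat_lit 0) (nat_lit 0) (XT.lf (nat_lit 0) (nat_lit 4561536871) (nat_lit 228) (nat_lit 27083230418) (nat_lit 304) (nat_lit 12490358530) (nat_lit 125) (nat_lit 5) (nat_lit 128) (nat_lit 5) (nat_lit 129) (nat_lit 5) (nat_lit 509)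 (nat_lit 442) (nat_lit 249)) (XT.lf (nat_lit 0) (nat_lit 31739188940) (nat_lit 228) (nat_lit 11439407941) (nat_lit 304) (nat_lit 1799017569) (nat_lit 125) (nat_lit 5) (nat_lit 128) (nat_lit 5) (nat_lit 129) (nat_lit 5) (nat_lit 510) (nat_lit 442) (nat_lit 248))))))))
noncomputable def xc187 : XT := (XT.nd (nat_lit 2340) (nat_lit 608) (nat_lit 0) (XT.nd (nat_lit 1170) (nat_lit 1596) (nat_lit 0) (XT.nd (nat_lit 546) (nat_lit 988) (nat_lit 0) (XT.nd (nat_lit 234) (nat_lit 456) (nat_lit 0) (XT.nd (nat_lit 78) (nat_lit 228) (nat_lit 0) (XT.lf (nat_lit 0) (nat_lit 9212517668) (nat_lit 304) (nat_lit 31818293631) (nat_lit 76) (nat_lit 4806532750) (nat_lit 121) (nat_lit 5) (nat_lit 125) (nat_lit 5) (nat_lit 122) (nat_lit 5) (nat_lit 511) (nat_lit 442) (nat_lit 247)) (XT.nd (nat_lit 78) (nat_lit 228) (nat_lit 0) (XT.lf (nat_lit 0) (nat_lit 20763414829) (nat_lit 304) (nat_lit 4490802695) (nat_lit 76) (nat_lit 21460758602)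 (nat_lit 121) (nat_lit 5) (nat_lit 125) (nat_lit 5) (nat_lit 122) (nat_lit 5) (nat_lit 512) (nat_lit 442) (nat_lit 246)) (XT.lf (nat_lit 0) (nat_lit 24122198821) (nat_lit 228) (nat_lit 8767514644) (nat_lit 304) (nat_lit 14722357634) (nat_lit 118) (nat_lit 5) (nat_lit 121) (nat_lit 5) (nat_lit 122) (nat_lit 5) (nat_lit 513) (nat_lit 442) (nat_lit 245)))) (XT.nd (nat_lit 156) (nat_lit 228) (nat_lit 0) (XT.nd (nat_lit 78) (nat_lit 76) (nat_lit 0) (XT.lf (nat_lit 0) (nat_lit 5167311277) (nat_lit 152) (nat_lit 40383931913) (nat_lit 228) (nat_lit 2979692635) (nat_lit 116) (nat_lit 5) (nat_lit 118) (nat_lit 5) (nat_lit 119) (nat_lit 5) (nat_lit 514) (nat_lit 442) (nat_lit 244)) (XT.lf (nat_lit 0) (nat_lit 9260765216) (nat_lit 228) (nat_lit 14486353179) (nat_lit 76) (nat_lit 25717918084) (nat_lit 115) (nat_lit 5) (nat_lit 118) (nat_lit 5) (nat_lit 116) (nat_lit 5) (nat_lit 515) (nat_lit 442) (nat_lit 243))) (XT.nd (nat_lit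 78) (nat_lit 0) (nat_lit 0) (XT.lf (nat_lit 0) (nat_lit 15525790320) (nat_lit 228) (nat_lit 6429114645) (nat_lit 304) (nat_lit 28466979574) (nat_lit 112) (nat_lit 5) (nat_lit 115) (nat_lit 5) (nat_lit 116) (nat_lit 5) (nat_lit 516) (nat_lit 442) (nat_lit 242)) (XT.lf (nat_lit 0) (nat_lit 35284397484) (nat_lit 304) (nat_lit 4783834882) (nat_lit 76) (nat_lit 11331569967) (nat_lit 112) (nat_lit 5) (nat_lit 116) (nat_lit 5) (nat_lit 113) (nat_lit 5) (nat_lit 517) (nat_lit 442) (nat_lit 241))))) (XT.nd (nat_lit 312) (nat_lit 380) (nat_lit 0) (XT.nd (nat_lit 156) (nat_lit 152) (nat_lit 0) (XT.nd (nat_lit 78) (nat_lit 304) (nat_lit 0) (XT.lf (nat_lit 0) (nat_lit 26684056820) (nat_lit 152) (nat_lit 22647091238) (nat_lit 228) (nat_lit 3066388549) (nat_lit 110) (nat_lit 5) (nat_lit 112) (nat_lit 5) (nat_lit 113) (nat_lit 5) (nat_lit 518) (nat_lit 442) (nat_lit 240)) (XT.lf (nat_lit 0) (nat_lit 5778054312) (nat_lit 228) (nat_lit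 4495159171) (nat_lit 304) (nat_lit 43145951358) (nat_lit 106) (nat_lit 5) (nat_lit 109) (nat_lit 5) (nat_lit 110) (nat_lit 5) (nat_lit 519) (nat_lit 442) (nat_lit 239))) (XT.nd (nat_lit 78) (nat_lit 152) (nat_lit 0) (XT.lf (nat_lit 0) (nat_lit 24347350101) (nat_lit 304) (nat_lit 15896467223) (nat_lit 76) (nat_lit 14214834587) (nat_lit 106) (nat_lit 5) (nat_lit 110) (nat_lit 5) (nat_lit 107) (nat_lit 5) (nat_lit 520) (nat_lit 442) (nat_lit 238)) (XT.lf (nat_lit 0) (nat_lit 17084725898) (nat_lit 152) (nat_lit 21965040126) (nat_lit 228) (nat_lit 16473376039) (nat_lit 104) (nat_lit 5) (nat_lit 106) (nat_lit 5) (nat_lit 107) (nat_lit 5) (nat_lit 521) (nat_lit 442) (nat_lit 237)))) (XT.nd (nat_lit 156) (nat_lit 152) (nat_lit 0) (XT.nd (nat_lit 78) (nat_lit 228) (nat_lit 0) (XT.lf (nat_lit 0) (nat_lit 51376595070) (nat_lit 152) (nat_lit 2974535986) (nat_lit 228) (nat_lit 2263699691) (nat_lit 104) (nat_lit 5) (nat_lit 106)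 (nat_lit 5) (nat_lit 107) (nat_lit 5) (nat_lit 522) (nat_lit 442) (nat_lit 236)) (XT.lf (nat_lit 0) (nat_lit 12574324948) (nat_lit 228) (nat_lit 28482344666) (nat_lit 76) (nat_lit 16665728136) (nat_lit 101) (nat_lit 5) (nat_lit 104) (nat_lit 5) (nat_lit 102) (nat_lit 5) (nat_lit 523) (nat_lit 442) (nat_lit 235))) (XT.nd (nat_lit 78) (nat_lit 0) (nat_lit 0) (XT.lf (nat_lit 0) (nat_lit 6059772046) (nat_lit 152) (nat_lit 21890759692) (nat_lit 228) (nat_lit 30907831567) (nat_lit 99) (nat_lit 5) (nat_lit 101) (nat_lit 5) (nat_lit 102) (nat_lit 5) (nat_lit 524) (nat_lit 442) (nat_lit 234)) (XT.lf (nat_lit 0) (nat_lit 42217504227) (nat_lit 152) (nat_lit 1855586998) (nat_lit 228) (nat_lit 15946764717) (nat_lit 99) (nat_lit 5) (nat_lit 101) (nat_lit 5) (nat_lit 102) (nat_lit 5) (nat_lit 525) (nat_lit 442) (nat_lit 233)))))) (XT.nd (nat_lit 546) (nat_lit 836) (nat_lit 0) (XT.nd (nat_lit 234) (nat_lit 380) (nat_lit 0) (XT.nd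 (nat_lit 78) (nat_lit 228) (nat_lit 0) (XT.lf (nat_lit 0) (nat_lit 18418216804) (nat_lit 152) (nat_lit 42616195501) (nat_lit 228) (nat_lit 171128618) (nat_lit 97) (nat_lit 5) (nat_lit 99) (nat_lit 5) (nat_lit 100) (nat_lit 5) (nat_lit 526) (nat_lit 442) (nat_lit 232)) (XT.nd (nat_lit 78) (nat_lit 152) (nat_lit 0) (XT.lf (nat_lit 0) (nat_lit 15961474689) (nat_lit 228) (nat_lit 6510210806) (nat_lit 76) (nat_lit 39944551572) (nat_lit 96) (nat_lit 5) (nat_lit 99) (nat_lit 5) (nat_lit 97) (nat_lit 5) (nat_lit 527) (nat_lit 442) (nat_lit 231)) (XT.lf (nat_lit 0) (nat_lit 31463171566) (nat_lit 152) (nat_lit 1411473288) (nat_lit 228) (nat_lit 30779557663) (nat_lit 94) (nat_lit 5) (nat_lit 96) (nat_lit 5) (nat_lit 97) (nat_lit 5) (nat_lit 528) (nat_lit 442) (nat_lit 230)))) (XT.nd (nat_lit 156) (nat_lit 152) (nat_lit 0) (XT.nd (nat_lit 78) (nat_lit 76) (nat_lit 0) (XT.lf (nat_lit 0) (nat_lit 5693044406) (nat_lit 152) (nat_lit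 44915827258) (nat_lit 228) (nat_lit 14311025515) (nat_lit 92) (nat_lit 5) (nat_lit 94) (nat_lit 5) (nat_lit 95) (nat_lit 5) (nat_lit 529) (nat_lit 442) (nat_lit 229)) (XT.lf (nat_lit 0) (nat_lit 2939682340) (nat_lit 228) (nat_lit 20887292579) (nat_lit 76) (nat_lit 42385627359) (nat_lit 91) (nat_lit 5) (nat_lit 94) (nat_lit 5) (nat_lit 92) (nat_lit 5) (nat_lit 530) (nat_lit 442) (nat_lit 228))) (XT.nd (nat_lit 78) (nat_lit 0) (nat_lit 0) (XT.lf (nat_lit 0) (nat_lit 18823882275) (nat_lit 152) (nat_lit 1775009768) (nat_lit 228) (nat_lit 46935587235) (nat_lit 89) (nat_lit 5) (nat_lit 91) (nat_lit 5) (nat_lit 92) (nat_lit 5) (nat_lit 531) (nat_lit 442) (nat_lit 227)) (XT.lf (nat_lit 0) (nat_lit 39199842229) (nat_lit 228) (nat_lit 8942696329) (nat_lit 76) (nat_lit 20741115187) (nat_lit 89) (nat_lit 5) (nat_lit 92) (nat_lit 5) (nat_lit 90) (nat_lit 5) (nat_lit 532) (nat_lit 442) (nat_lit 226))))) (XT.nd (nat_lit 312) (nat_lit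 304) (nat_lit 0) (XT.nd (nat_lit 156) (nat_lit 152) (nat_lit 0) (XT.nd (nat_lit 78) (nat_lit 228) (nat_lit 0) (XT.lf (nat_lit 0) (nat_lit 32633373683) (nat_lit 152) (nat_lit 26054462435) (nat_lit 228) (nat_lit 11575596956) (nat_lit 87) (nat_lit 5) (nat_lit 89) (nat_lit 5) (nat_lit 90) (nat_lit 5) (nat_lit 533) (nat_lit 442) (nat_lit 225)) (XT.lf (nat_lit 0) (nat_lit 3962463233) (nat_lit 152) (nat_lit 3102366072) (nat_lit 228) (nat_lit 64613924804) (nat_lit 84) (nat_lit 5) (nat_lit 86) (nat_lit 5) (nat_lit 87) (nat_lit 5) (nat_lit 534) (nat_lit 442) (nat_lit 224))) (XT.nd (nat_lit 78) (nat_lit 152) (nat_lit 0) (XT.lf (nat_lit 0) (nat_lit 26610751356) (nat_lit 228) (nat_lit 25870894638) (nat_lit 76) (nat_lit 20634082330) (nat_lit 84) (nat_lit 5) (nat_lit 87) (nat_lit 5) (nat_lit 85) (nat_lit 5) (nat_lit 535) (nat_lit 442) (nat_lit 223)) (XT.lf (nat_lit 0) (nat_lit 17537382317) (nat_lit 152) (nat_lit 29402792776) (nat_lit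 228) (nat_lit 27649723023) (nat_lit 82) (nat_lit 5) (nat_lit 84) (nat_lit 5) (nat_lit 85) (nat_lit 5) (nat_lit 536) (nat_lit 442) (nat_lit 222)))) (XT.nd (nat_lit 156) (nat_lit 152) (nat_lit 0) (XT.nd (nat_lit 78) (nat_lit 152) (nat_lit 0) (XT.lf (nat_lit 0) (nat_lit 62774292429) (nat_lit 152) (nat_lit 5364287280) (nat_lit 228) (nat_lit 7961940420) (nat_lit 82) (nat_lit 5) (nat_lit 84) (nat_lit 5) (nat_lit 85) (nat_lit 5) (nat_lit 537) (nat_lit 442) (nat_lit 221)) (XT.lf (nat_lit 0) (nat_lit 12574395157) (nat_lit 152) (nat_lit 45616062985) (nat_lit 76) (nat_lit 19447503174) (nat_lit 80) (nat_lit 5) (nat_lit 82) (nat_lit 5) (nat_lit 81) (nat_lit 5) (nat_lit 538) (nat_lit 442) (nat_lit 220))) (XT.nd (nat_lit 78) (nat_lit 152) (nat_lit 0) (XT.lf (nat_lit 0) (nat_lit 33753708905) (nat_lit 152) (nat_lit 350999098) (nat_lit 76) (nat_lit 45108845412) (nat_lit 80) (nat_lit 5) (nat_lit 82) (nat_lit 5) (nat_lit 81) (nat_lit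 5) (nat_lit 539) (nat_lit 442) (nat_lit 219)) (XT.lf (nat_lit 0) (nat_lit 47189080629) (nat_lit 152) (nat_lit 8830895176) (nat_lit 228) (nat_lit 24802890320) (nat_lit 78) (nat_lit 5) (nat_lit 80) (nat_lit 5) (nat_lit 81) (nat_lit 5) (nat_lit 540) (nat_lit 442) (nat_lit 218))))))) (XT.nd (nat_lit 55458) (nat_lit 0) (nat_lit 14288) (XT.nd (nat_lit 54834) (nat_lit 0) (nat_lit 16948) (XT.nd (nat_lit 234) (nat_lit 304) (nat_lit 0) (XT.nd (nat_lit 78) (nat_lit 228) (nat_lit 0) (XT.lf (nat_lit 0) (nat_lit 13781987248) (nat_lit 76) (nat_lit 65471622082) (nat_lit 152) (nat_lit 3217867592) (nat_lit 77) (nat_lit 5) (nat_lit 78) (nat_lit 5) (nat_lit 79) (nat_lit 4) (nat_lit 541) (nat_lit 442) (nat_lit 217)) (XT.nd (nat_lit 78) (nat_lit 152) (nat_lit 0) (XT.lf (nat_lit 0) (nat_lit 19072066747) (nat_lit 152) (nat_lit 21127017962) (nat_lit 76) (nat_lit 43952125770) (nat_lit 76) (nat_lit 5) (nat_lit 78) (nat_lit 5) (nat_lit 77)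 (nat_lit 5) (nat_lit 542) (nat_lit 442) (nat_lit 216)) (XT.lf (nat_lit 0) (nat_lit 28380610250) (nat_lit 152) (nat_lit 13856257431) (nat_lit 228) (nat_lit 43635387282) (nat_lit 74) (nat_lit 5) (nat_lit 76) (nat_lit 5) (nat_lit 77) (nat_lit 5) (nat_lit 543) (nat_lit 442) (nat_lit 215)))) (XT.nd (nat_lit 156) (nat_lit 152) (nat_lit 0) (XT.nd (nat_lit 78) (nat_lit 152) (nat_lit 0) (XT.lf (nat_lit 0) (nat_lit 66437730584) (nat_lit 228) (nat_lit 7965389386) (nat_lit 76) (nat_lit 13231577326) (nat_lit 74) (nat_lit 5) (nat_lit 77) (nat_lit 5) (nat_lit 75) (nat_lit 4) (nat_lit 544) (nat_lit 442) (nat_lit 214)) (XT.lf (nat_lit 0) (nat_lit 2438682627) (nat_lit 152) (nat_lit 45697434019) (nat_lit 76) (nat_lit 41296501065) (nat_lit 72) (nat_lit 5) (nat_lit 74) (nat_lit 5) (nat_lit 73) (nat_lit 5) (nat_lit 545) (nat_lit 442) (nat_lit 213))) (XT.nd (nat_lit 78) (nat_lit 0) (nat_lit 0) (XT.lf (nat_lit 0) (nat_lit 5766279725) (nat_lit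 152) (nat_lit 20725842784) (nat_lit 228) (nat_lit 64782014376) (nat_lit 70) (nat_lit 5) (nat_lit 72) (nat_lit 5) (nat_lit 73) (nat_lit 5) (nat_lit 546) (nat_lit 442) (nat_lit 212)) (XT.lf (nat_lit 0) (nat_lit 51803452715) (nat_lit 228) (nat_lit 33526702084) (nat_lit 76) (nat_lit 7824658270) (nat_lit 70) (nat_lit 5) (nat_lit 73) (nat_lit 5) (nat_lit 71) (nat_lit 4) (nat_lit 547) (nat_lit 442) (nat_lit 211))))) (XT.nd (nat_lit 312) (nat_lit 0) (nat_lit 152) (XT.nd (nat_lit 156) (nat_lit 0) (nat_lit 76) (XT.nd (nat_lit 78) (nat_lit 0) (nat_lit 0) (XT.lf (nat_lit 0) (nat_lit 88475011) (nat_lit 1292) (nat_lit 3628590017) (nat_lit 1292) (nat_lit 3628590017) (nat_lit 293) (nat_lit 3) (nat_lit 310) (nat_lit 3) (nat_lit 310) (nat_lit 5) (nat_lit 443) (nat_lit 443) (nat_lit 314)) (XT.lf (nat_lit 76) (nat_lit 744396) (nat_lit 0) (nat_lit 488772537) (nat_lit 1292) (nat_lit 14412822348) (nat_lit 294) (nat_lit 5) (nat_lit 293)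 (nat_lit 3) (nat_lit 310) (nat_lit 5) (nat_lit 444) (nat_lit 443) (nat_lit 313))) (XT.nd (nat_lit 78) (nat_lit 0) (nat_lit 0) (XT.lf (nat_lit 0) (nat_lit 937437205) (nat_lit 1216) (nat_lit 7563898070) (nat_lit 1292) (nat_lit 6614586460) (nat_lit 294) (nat_lit 5) (nat_lit 310) (nat_lit 5) (nat_lit 311) (nat_lit 5) (nat_lit 445) (nat_lit 443) (nat_lit 312)) (XT.lf (nat_lit 0) (nat_lit 1391886801) (nat_lit 1216) (nat_lit 17488077) (nat_lit 1292) (nat_lit 13926745668) (nat_lit 294) (nat_lit 5) (nat_lit 310) (nat_lit 5) (nat_lit 311) (nat_lit 5) (nat_lit 446) (nat_lit 443) (nat_lit 311)))) (XT.nd (nat_lit 156) (nat_lit 0) (nat_lit 76) (XT.nd (nat_lit 78) (nat_lit 0) (nat_lit 0) (XT.lf (nat_lit 0) (nat_lit 1982004382) (nat_lit 1216) (nat_lit 7715313773) (nat_lit 1292) (nat_lit 5861947713) (nat_lit 295) (nat_lit 5) (nat_lit 311) (nat_lit 5) (nat_lit 312) (nat_lit 5) (nat_lit 447) (nat_lit 443) (nat_lit 310)) (XT.lf (nat_lit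 76) (nat_lit 134455492) (nat_lit 0) (nat_lit 2459707206) (nat_lit 1292) (nat_lit 13194814277) (nat_lit 296) (nat_lit 5) (nat_lit 295) (nat_lit 5) (nat_lit 312) (nat_lit 5) (nat_lit 448) (nat_lit 443) (nat_lit 309))) (XT.nd (nat_lit 78) (nat_lit 0) (nat_lit 0) (XT.lf (nat_lit 0) (nat_lit 3340593556) (nat_lit 1216) (nat_lit 7701161452) (nat_lit 1292) (nat_lit 4980348665) (nat_lit 296) (nat_lit 5) (nat_lit 312) (nat_lit 5) (nat_lit 313) (nat_lit 5) (nat_lit 449) (nat_lit 443) (nat_lit 308)) (XT.lf (nat_lit 76) (nat_lit 468790880) (nat_lit 0) (nat_lit 3659012093) (nat_lit 1292) (nat_lit 12133871082) (nat_lit 297) (nat_lit 5) (nat_lit 296) (nat_lit 5) (nat_lit 313) (nat_lit 5) (nat_lit 450) (nat_lit 443) (nat_lit 307)))))) (XT.nd (nat_lit 624) (nat_lit 2964) (nat_lit 0) (XT.nd (nat_lit 312) (nat_lit 0) (nat_lit 152) (XT.nd (nat_lit 156) (nat_lit 0) (nat_lit 76) (XT.nd (nat_lit 78) (nat_lit 0) (nat_lit 0) (XT.lf (nat_lit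 0) (nat_lit 5044888810) (nat_lit 1216) (nat_lit 7510162390) (nat_lit 1292) (nat_lit 3950193952) (nat_lit 297) (nat_lit 5) (nat_lit 313) (nat_lit 5) (nat_lit 314) (nat_lit 5) (nat_lit 451) (nat_lit 443) (nat_lit 306)) (XT.lf (nat_lit 76) (nat_lit 997403148) (nat_lit 0) (nat_lit 5027996398) (nat_lit 1292) (nat_lit 10729647834) (nat_lit 298) (nat_lit 5) (nat_lit 297) (nat_lit 5) (nat_lit 314) (nat_lit 5) (nat_lit 452) (nat_lit 443) (nat_lit 305))) (XT.nd (nat_lit 78) (nat_lit 0) (nat_lit 0) (XT.lf (nat_lit 0) (nat_lit 7128455014) (nat_lit 1216) (nat_lit 7129989863) (nat_lit 1292) (nat_lit 2751106241) (nat_lit 298) (nat_lit 5) (nat_lit 314) (nat_lit 5) (nat_lit 315) (nat_lit 5) (nat_lit 453) (nat_lit 443) (nat_lit 304)) (XT.lf (nat_lit 76) (nat_lit 1733624794) (nat_lit 0) (nat_lit 6588052803) (nat_lit 1292) (nat_lit 8948301398) (nat_lit 299) (nat_lit 5) (nat_lit 298) (nat_lit 5) (nat_lit 315) (nat_lit 5) (nat_lit 454)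 (nat_lit 443) (nat_lit 303)))) (XT.nd (nat_lit 156) (nat_lit 0) (nat_lit 0) (XT.nd (nat_lit 78) (nat_lit 0) (nat_lit 0) (XT.lf (nat_lit 0) (nat_lit 9626882743) (nat_lit 1216) (nat_lit 6547230081) (nat_lit 1292) (nat_lit 1361822558) (nat_lit 299) (nat_lit 5) (nat_lit 315) (nat_lit 5) (nat_lit 316) (nat_lit 5) (nat_lit 455) (nat_lit 443) (nat_lit 302)) (XT.lf (nat_lit 76) (nat_lit 2691929841) (nat_lit 0) (nat_lit 8361543220) (nat_lit 1292) (nat_lit 6753931745) (nat_lit 300) (nat_lit 5) (nat_lit 299) (nat_lit 5) (nat_lit 316) (nat_lit 5) (nat_lit 456) (nat_lit 443) (nat_lit 301))) (XT.nd (nat_lit 78) (nat_lit 0) (nat_lit 76) (XT.lf (nat_lit 76) (nat_lit 12335605463) (nat_lit 0) (nat_lit 244686575) (nat_lit 1292) (nat_lit 5505004524) (nat_lit 300) (nat_lit 5) (nat_lit 299) (nat_lit 5) (nat_lit 316) (nat_lit 5) (nat_lit 457) (nat_lit 443) (nat_lit 300)) (XT.lf (nat_lit 76) (nat_lit 3887980198) (nat_lit 0) (nat_lit 10371908459)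 (nat_lit 1292) (nat_lit 4108428368) (nat_lit 301) (nat_lit 5) (nat_lit 300) (nat_lit 5) (nat_lit 317) (nat_lit 5) (nat_lit 458) (nat_lit 443) (nat_lit 299))))) (XT.nd (nat_lit 312) (nat_lit 1216) (nat_lit 0) (XT.nd (nat_lit 156) (nat_lit 836) (nat_lit 0) (XT.nd (nat_lit 78) (nat_lit 1140) (nat_lit 0) (XT.lf (nat_lit 76) (nat_lit 13923300128) (nat_lit 0) (nat_lit 2118798105) (nat_lit 1292) (nat_lit 2616164228) (nat_lit 301) (nat_lit 5) (nat_lit 300) (nat_lit 5) (nat_lit 317) (nat_lit 5) (nat_lit 459) (nat_lit 443) (nat_lit 298)) (XT.lf (nat_lit 0) (nat_lit 5338676322) (nat_lit 1216) (nat_lit 12643781280) (nat_lit 1292) (nat_lit 971309232) (nat_lit 285) (nat_lit 5) (nat_lit 301) (nat_lit 5) (nat_lit 302) (nat_lit 5) (nat_lit 460) (nat_lit 443) (nat_lit 297))) (XT.nd (nat_lit 78) (nat_lit 760) (nat_lit 0) (XT.lf (nat_lit 0) (nat_lit 770156878) (nat_lit 1292) (nat_lit 3480533481) (nat_lit 76) (nat_lit 15005397380) (nat_lit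 284) (nat_lit 5) (nat_lit 301) (nat_lit 5) (nat_lit 285) (nat_lit 5) (nat_lit 461) (nat_lit 443) (nat_lit 296)) (XT.lf (nat_lit 0) (nat_lit 2647752861) (nat_lit 836) (nat_lit 12528613415) (nat_lit 76) (nat_lit 4387722227) (nat_lit 274) (nat_lit 5) (nat_lit 285) (nat_lit 5) (nat_lit 275) (nat_lit 5) (nat_lit 462) (nat_lit 443) (nat_lit 295)))) (XT.nd (nat_lit 156) (nat_lit 608) (nat_lit 0) (XT.nd (nat_lit 78) (nat_lit 608) (nat_lit 0) (XT.lf (nat_lit 0) (nat_lit 4651759145) (nat_lit 836) (nat_lit 1991377027) (nat_lit 76) (nat_lit 13236091605) (nat_lit 274) (nat_lit 5) (nat_lit 285) (nat_lit 5) (nat_lit 275) (nat_lit 5) (nat_lit 463) (nat_lit 443) (nat_lit 294)) (XT.lf (nat_lit 0) (nat_lit 6816915465) (nat_lit 684) (nat_lit 11191493981) (nat_lit 76) (nat_lit 2192381818) (nat_lit 266) (nat_lit 5) (nat_lit 275) (nat_lit 5) (nat_lit 267) (nat_lit 5) (nat_lit 464) (nat_lit 443) (nat_lit 293))) (XT.nd (nat_lit 78) (nat_lit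 608) (nat_lit 0) (XT.lf (nat_lit 0) (nat_lit 9125980019) (nat_lit 684) (nat_lit 223486763) (nat_lit 76) (nat_lit 11180167172) (nat_lit 266) (nat_lit 5) (nat_lit 275) (nat_lit 5) (nat_lit 267) (nat_lit 5) (nat_lit 465) (nat_lit 443) (nat_lit 292)) (XT.lf (nat_lit 0) (nat_lit 11287085416) (nat_lit 608) (nat_lit 318808896) (nat_lit 684) (nat_lit 9259401157) (nat_lit 258) (nat_lit 5) (nat_lit 266) (nat_lit 5) (nat_lit 267) (nat_lit 5) (nat_lit 466) (nat_lit 443) (nat_lit 291))))))))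
noncomputable def xc188 : XT := (XT.nd (nat_lit 2340) (nat_lit 4560) (nat_lit 0) (XT.nd (nat_lit 1170) (nat_lit 3420) (nat_lit 0) (XT.nd (nat_lit 546) (nat_lit 1900) (nat_lit 0) (XT.nd (nat_lit 234) (nat_lit 1140) (nat_lit 0) (XT.nd (nat_lit 78) (nat_lit 532) (nat_lit 0) (XT.lf (nat_lit 0) (nat_lit 1880046652) (nat_lit 532) (nat_lit 12380076676) (nat_lit 608) (nat_lit 6947906833) (nat_lit 251) (nat_lit 5) (nat_lit 258) (nat_lit 5) (nat_lit 259) (nat_lit 5) (nat_lit 467) (nat_lit 443) (nat_lit 290)) (XT.nd (nat_lit 78) (nat_lit 532) (nat_lit 0) (XT.lf (nat_lit 0) (nat_lit 13868376439) (nat_lit 532) (nat_lit 3218799812) (nat_lit 608) (nat_lit 4471075560) (nat_lit 251) (nat_lit 5) (nat_lit 258) (nat_lit 5) (nat_lit 259) (nat_lit 5) (nat_lit 468) (nat_lit 443) (nat_lit 289)) (XT.lf (nat_lit 0) (nat_lit 4315018680) (nat_lit 532) (nat_lit 15778807922) (nat_lit 608) (nat_lit 1822310736) (nat_lit 244) (nat_lit 5) (nat_lit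 251) (nat_lit 5) (nat_lit 252) (nat_lit 5) (nat_lit 469) (nat_lit 443) (nat_lit 288)))) (XT.nd (nat_lit 156) (nat_lit 532) (nat_lit 0) (XT.nd (nat_lit 78) (nat_lit 532) (nat_lit 0) (XT.lf (nat_lit 0) (nat_lit 992132669) (nat_lit 608) (nat_lit 5492937475) (nat_lit 76) (nat_lit 15796311995) (nat_lit 243) (nat_lit 5) (nat_lit 251) (nat_lit 5) (nat_lit 244) (nat_lit 5) (nat_lit 470) (nat_lit 443) (nat_lit 287)) (XT.lf (nat_lit 0) (nat_lit 3946874122) (nat_lit 608) (nat_lit 15593528452) (nat_lit 76) (nat_lit 3113866425) (nat_lit 236) (nat_lit 5) (nat_lit 244) (nat_lit 5) (nat_lit 237) (nat_lit 5) (nat_lit 471) (nat_lit 443) (nat_lit 286))) (XT.nd (nat_lit 78) (nat_lit 532) (nat_lit 0) (XT.lf (nat_lit 0) (nat_lit 7104385160) (nat_lit 608) (nat_lit 3004577006) (nat_lit 76) (nat_lit 12925957192) (nat_lit 236) (nat_lit 5) (nat_lit 244) (nat_lit 5) (nat_lit 237) (nat_lit 5) (nat_lit 472) (nat_lit 443) (nat_lit 285)) (XT.lf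 (nat_lit 0) (nat_lit 10153604021) (nat_lit 532) (nat_lit 294699425) (nat_lit 608) (nat_lit 12975936016) (nat_lit 229) (nat_lit 5) (nat_lit 236) (nat_lit 5) (nat_lit 237) (nat_lit 5) (nat_lit 473) (nat_lit 443) (nat_lit 284))))) (XT.nd (nat_lit 312) (nat_lit 912) (nat_lit 0) (XT.nd (nat_lit 156) (nat_lit 532) (nat_lit 0) (XT.nd (nat_lit 78) (nat_lit 456) (nat_lit 0) (XT.lf (nat_lit 0) (nat_lit 14011700557) (nat_lit 608) (nat_lit 157522296) (nat_lit 76) (nat_lit 9652442151) (nat_lit 229) (nat_lit 5) (nat_lit 237) (nat_lit 5) (nat_lit 230) (nat_lit 5) (nat_lit 474) (nat_lit 443) (nat_lit 283)) (XT.lf (nat_lit 0) (nat_lit 13605068560) (nat_lit 456) (nat_lit 4204980975) (nat_lit 532) (nat_lit 6417122931) (nat_lit 223) (nat_lit 5) (nat_lit 229) (nat_lit 5) (nat_lit 230) (nat_lit 5) (nat_lit 475) (nat_lit 443) (nat_lit 282))) (XT.nd (nat_lit 78) (nat_lit 76) (nat_lit 0) (XT.lf (nat_lit 0) (nat_lit 3135322624) (nat_lit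 456) (nat_lit 18671452741) (nat_lit 532) (nat_lit 2835537629) (nat_lit 217) (nat_lit 5) (nat_lit 223) (nat_lit 5) (nat_lit 224) (nat_lit 5) (nat_lit 476) (nat_lit 443) (nat_lit 281)) (XT.lf (nat_lit 0) (nat_lit 981289232) (nat_lit 532) (nat_lit 7600997571) (nat_lit 76) (nat_lit 16483041941) (nat_lit 216) (nat_lit 5) (nat_lit 223) (nat_lit 5) (nat_lit 217) (nat_lit 5) (nat_lit 477) (nat_lit 443) (nat_lit 280)))) (XT.nd (nat_lit 156) (nat_lit 456) (nat_lit 0) (XT.nd (nat_lit 78) (nat_lit 0) (nat_lit 0) (XT.lf (nat_lit 0) (nat_lit 4934157405) (nat_lit 532) (nat_lit 18695929627) (nat_lit 76) (nat_lit 1867750435) (nat_lit 210) (nat_lit 5) (nat_lit 217) (nat_lit 5) (nat_lit 211) (nat_lit 5) (nat_lit 478) (nat_lit 443) (nat_lit 279)) (XT.lf (nat_lit 0) (nat_lit 9162835101) (nat_lit 532) (nat_lit 4240552614) (nat_lit 76) (nat_lit 12535217596) (nat_lit 210) (nat_lit 5) (nat_lit 217) (nat_lit 5) (nat_lit 211) (nat_lit 5)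 (nat_lit 479) (nat_lit 443) (nat_lit 278))) (XT.nd (nat_lit 78) (nat_lit 0) (nat_lit 0) (XT.lf (nat_lit 0) (nat_lit 10853961179) (nat_lit 456) (nat_lit 2763635425) (nat_lit 532) (nat_lit 12772023428) (nat_lit 204) (nat_lit 5) (nat_lit 210) (nat_lit 5) (nat_lit 211) (nat_lit 5) (nat_lit 480) (nat_lit 443) (nat_lit 277)) (XT.lf (nat_lit 0) (nat_lit 18322989844) (nat_lit 532) (nat_lit 450247002) (nat_lit 76) (nat_lit 8077419214) (nat_lit 204) (nat_lit 5) (nat_lit 211) (nat_lit 5) (nat_lit 205) (nat_lit 5) (nat_lit 481) (nat_lit 443) (nat_lit 276)))))) (XT.nd (nat_lit 546) (nat_lit 1444) (nat_lit 0) (XT.nd (nat_lit 234) (nat_lit 1064) (nat_lit 0) (XT.nd (nat_lit 78) (nat_lit 532) (nat_lit 0) (XT.lf (nat_lit 0) (nat_lit 15353756321) (nat_lit 380) (nat_lit 7985852950) (nat_lit 456) (nat_lit 3980812481) (nat_lit 199) (nat_lit 5) (nat_lit 204) (nat_lit 5) (nat_lit 205) (nat_lit 5) (nat_lit 482) (nat_lit 443) (nat_lit 275))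 (XT.nd (nat_lit 78) (nat_lit 0) (nat_lit 0) (XT.lf (nat_lit 0) (nat_lit 756478648) (nat_lit 532) (nat_lit 23933452375) (nat_lit 76) (nat_lit 3112115135) (nat_lit 192) (nat_lit 5) (nat_lit 199) (nat_lit 5) (nat_lit 193) (nat_lit 5) (nat_lit 483) (nat_lit 443) (nat_lit 274)) (XT.lf (nat_lit 0) (nat_lit 5752197580) (nat_lit 532) (nat_lit 7996276738) (nat_lit 76) (nat_lit 14542573447) (nat_lit 192) (nat_lit 5) (nat_lit 199) (nat_lit 5) (nat_lit 193) (nat_lit 5) (nat_lit 484) (nat_lit 443) (nat_lit 273)))) (XT.nd (nat_lit 156) (nat_lit 684) (nat_lit 0) (XT.nd (nat_lit 78) (nat_lit 0) (nat_lit 0) (XT.lf (nat_lit 0) (nat_lit 8580310965) (nat_lit 380) (nat_lit 2395310987) (nat_lit 456) (nat_lit 17816762910) (nat_lit 187) (nat_lit 5) (nat_lit 192) (nat_lit 5) (nat_lit 193) (nat_lit 5) (nat_lit 485) (nat_lit 443) (nat_lit 272)) (XT.lf (nat_lit 0) (nat_lit 16522094690) (nat_lit 456) (nat_lit 3584608196) (nat_lit 76) (nat_lit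 9197069262) (nat_lit 187) (nat_lit 5) (nat_lit 193) (nat_lit 5) (nat_lit 188) (nat_lit 5) (nat_lit 486) (nat_lit 443) (nat_lit 271))) (XT.nd (nat_lit 78) (nat_lit 304) (nat_lit 0) (XT.lf (nat_lit 0) (nat_lit 13780861493) (nat_lit 380) (nat_lit 8605836702) (nat_lit 456) (nat_lit 7439251192) (nat_lit 182) (nat_lit 5) (nat_lit 187) (nat_lit 5) (nat_lit 188) (nat_lit 5) (nat_lit 487) (nat_lit 443) (nat_lit 270)) (XT.lf (nat_lit 0) (nat_lit 1367169017) (nat_lit 304) (nat_lit 27136521820) (nat_lit 380) (nat_lit 1857807993) (nat_lit 178) (nat_lit 5) (nat_lit 182) (nat_lit 5) (nat_lit 183) (nat_lit 5) (nat_lit 488) (nat_lit 443) (nat_lit 269))))) (XT.nd (nat_lit 312) (nat_lit 684) (nat_lit 0) (XT.nd (nat_lit 156) (nat_lit 304) (nat_lit 0) (XT.nd (nat_lit 78) (nat_lit 380) (nat_lit 0) (XT.lf (nat_lit 0) (nat_lit 4059618546) (nat_lit 380) (nat_lit 11407869266) (nat_lit 76) (nat_lit 15437171168) (nat_lit 177) (nat_lit 5) (nat_lit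 182) (nat_lit 5) (nat_lit 178) (nat_lit 5) (nat_lit 489) (nat_lit 443) (nat_lit 268)) (XT.lf (nat_lit 0) (nat_lit 6814847445) (nat_lit 380) (nat_lit 3363650541) (nat_lit 456) (nat_lit 21283226401) (nat_lit 172) (nat_lit 5) (nat_lit 177) (nat_lit 5) (nat_lit 178) (nat_lit 5) (nat_lit 490) (nat_lit 443) (nat_lit 267))) (XT.nd (nat_lit 78) (nat_lit 304) (nat_lit 0) (XT.lf (nat_lit 0) (nat_lit 16680600449) (nat_lit 456) (nat_lit 6308573963) (nat_lit 76) (nat_lit 9040338017) (nat_lit 172) (nat_lit 5) (nat_lit 178) (nat_lit 5) (nat_lit 173) (nat_lit 5) (nat_lit 491) (nat_lit 443) (nat_lit 266)) (XT.lf (nat_lit 0) (nat_lit 12790357825) (nat_lit 304) (nat_lit 10739594799) (nat_lit 380) (nat_lit 9079816251) (nat_lit 168) (nat_lit 5) (nat_lit 172) (nat_lit 5) (nat_lit 173) (nat_lit 5) (nat_lit 492) (nat_lit 443) (nat_lit 265)))) (XT.nd (nat_lit 156) (nat_lit 304) (nat_lit 0) (XT.nd (nat_lit 78) (nat_lit 380) (nat_lit 0) (XT.lf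 (nat_lit 0) (nat_lit 30663148586) (nat_lit 380) (nat_lit 638472416) (nat_lit 76) (nat_lit 1903461466) (nat_lit 168) (nat_lit 5) (nat_lit 173) (nat_lit 5) (nat_lit 169) (nat_lit 5) (nat_lit 493) (nat_lit 443) (nat_lit 264)) (XT.lf (nat_lit 0) (nat_lit 4401903695) (nat_lit 380) (nat_lit 14468611923) (nat_lit 76) (nat_lit 14937782635) (nat_lit 163) (nat_lit 5) (nat_lit 168) (nat_lit 5) (nat_lit 164) (nat_lit 5) (nat_lit 494) (nat_lit 443) (nat_lit 263))) (XT.nd (nat_lit 78) (nat_lit 0) (nat_lit 0) (XT.lf (nat_lit 0) (nat_lit 5578790571) (nat_lit 304) (nat_lit 5980432514) (nat_lit 380) (nat_lit 22867945004) (nat_lit 159) (nat_lit 5) (nat_lit 163) (nat_lit 5) (nat_lit 164) (nat_lit 5) (nat_lit 495) (nat_lit 443) (nat_lit 262)) (XT.lf (nat_lit 0) (nat_lit 19145110642) (nat_lit 380) (nat_lit 8613339569) (nat_lit 76) (nat_lit 7299738664) (nat_lit 159) (nat_lit 5) (nat_lit 164) (nat_lit 5) (nat_lit 160) (nat_lit 5) (nat_lit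 496) (nat_lit 443) (nat_lit 261))))))) (XT.nd (nat_lit 1170) (nat_lit 1976) (nat_lit 0) (XT.nd (nat_lit 546) (nat_lit 1292) (nat_lit 0) (XT.nd (nat_lit 234) (nat_lit 608) (nat_lit 0) (XT.nd (nat_lit 78) (nat_lit 380) (nat_lit 0) (XT.lf (nat_lit 0) (nat_lit 12406048674) (nat_lit 304) (nat_lit 14727265100) (nat_lit 380) (nat_lit 8569584645) (nat_lit 155) (nat_lit 5) (nat_lit 159) (nat_lit 5) (nat_lit 160) (nat_lit 5) (nat_lit 497) (nat_lit 443) (nat_lit 260)) (XT.nd (nat_lit 78) (nat_lit 380) (nat_lit 0) (XT.lf (nat_lit 0) (nat_lit 34227062908) (nat_lit 304) (nat_lit 1217405659) (nat_lit 380) (nat_lit 919981811) (nat_lit 155) (nat_lit 5) (nat_lit 159) (nat_lit 5) (nat_lit 160) (nat_lit 5) (nat_lit 498) (nat_lit 443) (nat_lit 259)) (XT.lf (nat_lit 0) (nat_lit 7136320447) (nat_lit 380) (nat_lit 17188492274) (nat_lit 76) (nat_lit 12709639334) (nat_lit 150) (nat_lit 5) (nat_lit 155) (nat_lit 5) (nat_lit 151) (nat_lit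 5) (nat_lit 499) (nat_lit 443) (nat_lit 258)))) (XT.nd (nat_lit 156) (nat_lit 304) (nat_lit 0) (XT.nd (nat_lit 78) (nat_lit 0) (nat_lit 0) (XT.lf (nat_lit 0) (nat_lit 4877040527) (nat_lit 304) (nat_lit 10615946945) (nat_lit 380) (nat_lit 22228978326) (nat_lit 146) (nat_lit 5) (nat_lit 150) (nat_lit 5) (nat_lit 151) (nat_lit 5) (nat_lit 500) (nat_lit 443) (nat_lit 257)) (XT.lf (nat_lit 0) (nat_lit 24305795677) (nat_lit 380) (nat_lit 10508915645) (nat_lit 76) (nat_lit 3609230658) (nat_lit 146) (nat_lit 5) (nat_lit 151) (nat_lit 5) (nat_lit 147) (nat_lit 5) (nat_lit 501) (nat_lit 443) (nat_lit 256))) (XT.nd (nat_lit 78) (nat_lit 76) (nat_lit 0) (XT.lf (nat_lit 0) (nat_lit 12633244768) (nat_lit 228) (nat_lit 20972861304) (nat_lit 304) (nat_lit 5534178090) (nat_lit 143) (nat_lit 5) (nat_lit 146) (nat_lit 5) (nat_lit 147) (nat_lit 5) (nat_lit 502) (nat_lit 443) (nat_lit 255)) (XT.lf (nat_lit 0) (nat_lit 3346528193) (nat_lit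 304) (nat_lit 3228040168) (nat_lit 76) (nat_lit 33299482036) (nat_lit 142) (nat_lit 5) (nat_lit 146) (nat_lit 5) (nat_lit 143) (nat_lit 5) (nat_lit 503) (nat_lit 443) (nat_lit 254))))) (XT.nd (nat_lit 312) (nat_lit 456) (nat_lit 0) (XT.nd (nat_lit 156) (nat_lit 304) (nat_lit 0) (XT.nd (nat_lit 78) (nat_lit 228) (nat_lit 0) (XT.lf (nat_lit 0) (nat_lit 12663837851) (nat_lit 380) (nat_lit 19602999099) (nat_lit 76) (nat_lit 8352906674) (nat_lit 138) (nat_lit 5) (nat_lit 143) (nat_lit 5) (nat_lit 139) (nat_lit 5) (nat_lit 504) (nat_lit 443) (nat_lit 253)) (XT.lf (nat_lit 0) (nat_lit 4689067641) (nat_lit 228) (nat_lit 17711402456) (nat_lit 304) (nat_lit 18983143678) (nat_lit 135) (nat_lit 5) (nat_lit 138) (nat_lit 5) (nat_lit 139) (nat_lit 5) (nat_lit 505) (nat_lit 443) (nat_lit 252))) (XT.nd (nat_lit 78) (nat_lit 304) (nat_lit 0) (XT.lf (nat_lit 0) (nat_lit 30106559767) (nat_lit 228) (nat_lit 2517354059) (nat_lit 304)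 (nat_lit 9540645046) (nat_lit 135) (nat_lit 5) (nat_lit 138) (nat_lit 5) (nat_lit 139) (nat_lit 5) (nat_lit 506) (nat_lit 443) (nat_lit 251)) (XT.lf (nat_lit 0) (nat_lit 436366505) (nat_lit 304) (nat_lit 29516904751) (nat_lit 76) (nat_lit 13007962372) (nat_lit 131) (nat_lit 5) (nat_lit 135) (nat_lit 5) (nat_lit 132) (nat_lit 5) (nat_lit 507) (nat_lit 443) (nat_lit 250)))) (XT.nd (nat_lit 156) (nat_lit 228) (nat_lit 0) (XT.nd (nat_lit 78) (nat_lit 228) (nat_lit 0) (XT.lf (nat_lit 0) (nat_lit 10665672261) (nat_lit 304) (nat_lit 3944960957) (nat_lit 76) (nat_lit 29163999513) (nat_lit 131) (nat_lit 5) (nat_lit 135) (nat_lit 5) (nat_lit 132) (nat_lit 5) (nat_lit 508) (nat_lit 443) (nat_lit 249)) (XT.lf (nat_lit 0) (nat_lit 21431915906) (nat_lit 304) (nat_lit 21784795328) (nat_lit 76) (nat_lit 1388821005) (nat_lit 128) (nat_lit 5) (nat_lit 132) (nat_lit 5) (nat_lit 129) (nat_lit 5) (nat_lit 509) (nat_lit 443) (nat_lit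 248))) (XT.nd (nat_lit 78) (nat_lit 0) (nat_lit 0) (XT.lf (nat_lit 0) (nat_lit 4956788536) (nat_lit 228) (nat_lit 27793861179) (nat_lit 304) (nat_lit 12703824121) (nat_lit 125) (nat_lit 5) (nat_lit 128) (nat_lit 5) (nat_lit 129) (nat_lit 5) (nat_lit 510) (nat_lit 443) (nat_lit 247)) (XT.lf (nat_lit 0) (nat_lit 32942243791) (nat_lit 228) (nat_lit 11683691002) (nat_lit 304) (nat_lit 1696439392) (nat_lit 125) (nat_lit 5) (nat_lit 128) (nat_lit 5) (nat_lit 129) (nat_lit 5) (nat_lit 511) (nat_lit 443) (nat_lit 246)))))) (XT.nd (nat_lit 546) (nat_lit 988) (nat_lit 0) (XT.nd (nat_lit 234) (nat_lit 456) (nat_lit 0) (XT.nd (nat_lit 78) (nat_lit 228) (nat_lit 0) (XT.lf (nat_lit 0) (nat_lit 9641294889) (nat_lit 304) (nat_lit 32517798454) (nat_lit 76) (nat_lit 5048790215) (nat_lit 121) (nat_lit 5) (nat_lit 125) (nat_lit 5) (nat_lit 122) (nat_lit 5) (nat_lit 512) (nat_lit 443) (nat_lit 245)) (XT.nd (nat_lit 78) (nat_lit 228)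 (nat_lit 0) (XT.lf (nat_lit 0) (nat_lit 21534280080) (nat_lit 304) (nat_lit 4377911255) (nat_lit 76) (nat_lit 22199786682) (nat_lit 121) (nat_lit 5) (nat_lit 125) (nat_lit 5) (nat_lit 122) (nat_lit 5) (nat_lit 513) (nat_lit 443) (nat_lit 244)) (XT.lf (nat_lit 0) (nat_lit 25091052703) (nat_lit 228) (nat_lit 8931362271) (nat_lit 304) (nat_lit 15013629693) (nat_lit 118) (nat_lit 5) (nat_lit 121) (nat_lit 5) (nat_lit 122) (nat_lit 5) (nat_lit 514) (nat_lit 443) (nat_lit 243)))) (XT.nd (nat_lit 156) (nat_lit 228) (nat_lit 0) (XT.nd (nat_lit 78) (nat_lit 76) (nat_lit 0) (XT.lf (nat_lit 0) (nat_lit 5568516257) (nat_lit 152) (nat_lit 41494313690) (nat_lit 228) (nat_lit 2919674448) (nat_lit 116) (nat_lit 5) (nat_lit 118) (nat_lit 5) (nat_lit 119) (nat_lit 5) (nat_lit 515) (nat_lit 443) (nat_lit 242)) (XT.lf (nat_lit 0) (nat_lit 9680814832) (nat_lit 228) (nat_lit 14679090439) (nat_lit 76) (nat_lit 26584807944) (nat_lit 115)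 (nat_lit 5) (nat_lit 118) (nat_lit 5) (nat_lit 116) (nat_lit 5) (nat_lit 516) (nat_lit 443) (nat_lit 241))) (XT.nd (nat_lit 78) (nat_lit 0) (nat_lit 0) (XT.lf (nat_lit 0) (nat_lit 16231046254) (nat_lit 228) (nat_lit 6522892045) (nat_lit 304) (nat_lit 29176383852) (nat_lit 112) (nat_lit 5) (nat_lit 115) (nat_lit 5) (nat_lit 116) (nat_lit 5) (nat_lit 517) (nat_lit 443) (nat_lit 240)) (XT.lf (nat_lit 0) (nat_lit 36480151502) (nat_lit 304) (nat_lit 4691671698) (nat_lit 76) (nat_lit 11765849415) (nat_lit 112) (nat_lit 5) (nat_lit 116) (nat_lit 5) (nat_lit 113) (nat_lit 5) (nat_lit 518) (nat_lit 443) (nat_lit 239))))) (XT.nd (nat_lit 312) (nat_lit 380) (nat_lit 0) (XT.nd (nat_lit 156) (nat_lit 152) (nat_lit 0) (XT.nd (nat_lit 78) (nat_lit 304) (nat_lit 0) (XT.lf (nat_lit 0) (nat_lit 27717946184) (nat_lit 152) (nat_lit 23228604922) (nat_lit 228) (nat_lit 3018840623) (nat_lit 110) (nat_lit 5) (nat_lit 112) (nat_lit 5) (nat_lit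 113) (nat_lit 5) (nat_lit 519) (nat_lit 443) (nat_lit 238)) (XT.lf (nat_lit 0) (nat_lit 6185178558) (nat_lit 228) (nat_lit 4531310303) (nat_lit 304) (nat_lit 44301192036) (nat_lit 106) (nat_lit 5) (nat_lit 109) (nat_lit 5) (nat_lit 110) (nat_lit 5) (nat_lit 520) (nat_lit 443) (nat_lit 237))) (XT.nd (nat_lit 78) (nat_lit 152) (nat_lit 0) (XT.lf (nat_lit 0) (nat_lit 25209836403) (nat_lit 304) (nat_lit 16143368320) (nat_lit 76) (nat_lit 14735238440) (nat_lit 106) (nat_lit 5) (nat_lit 110) (nat_lit 5) (nat_lit 107) (nat_lit 5) (nat_lit 521) (nat_lit 443) (nat_lit 236)) (XT.lf (nat_lit 0) (nat_lit 17825005762) (nat_lit 152) (nat_lit 22526661623) (nat_lit 228) (nat_lit 16833250543) (nat_lit 104) (nat_lit 5) (nat_lit 106) (nat_lit 5) (nat_lit 107) (nat_lit 5) (nat_lit 522) (nat_lit 443) (nat_lit 235)))) (XT.nd (nat_lit 156) (nat_lit 152) (nat_lit 0) (XT.nd (nat_lit 78) (nat_lit 228) (nat_lit 0) (XT.lf (nat_lit 0) (nat_lit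 53138997861) (nat_lit 152) (nat_lit 2969277204) (nat_lit 228) (nat_lit 2201196334) (nat_lit 104) (nat_lit 5) (nat_lit 106) (nat_lit 5) (nat_lit 107) (nat_lit 5) (nat_lit 523) (nat_lit 443) (nat_lit 234)) (XT.lf (nat_lit 0) (nat_lit 13078743687) (nat_lit 228) (nat_lit 29112473291) (nat_lit 76) (nat_lit 17259031410) (nat_lit 101) (nat_lit 5) (nat_lit 104) (nat_lit 5) (nat_lit 102) (nat_lit 5) (nat_lit 524) (nat_lit 443) (nat_lit 233))) (XT.nd (nat_lit 78) (nat_lit 0) (nat_lit 0) (XT.lf (nat_lit 0) (nat_lit 6463707493) (nat_lit 152) (nat_lit 22450960020) (nat_lit 228) (nat_lit 31705672634) (nat_lit 99) (nat_lit 5) (nat_lit 101) (nat_lit 5) (nat_lit 102) (nat_lit 5) (nat_lit 525) (nat_lit 443) (nat_lit 232)) (XT.lf (nat_lit 0) (nat_lit 43699701476) (nat_lit 152) (nat_lit 1817543480) (nat_lit 228) (nat_lit 16299542533) (nat_lit 99) (nat_lit 5) (nat_lit 101) (nat_lit 5) (nat_lit 102) (nat_lit 5) (nat_lit 526) (nat_lit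 443) (nat_lit 231))))))))
noncomputable def xc189 : XT := (XT.nd (nat_lit 56784) (nat_lit 0) (nat_lit 9120) (XT.nd (nat_lit 1170) (nat_lit 456) (nat_lit 0) (XT.nd (nat_lit 546) (nat_lit 836) (nat_lit 0) (XT.nd (nat_lit 234) (nat_lit 380) (nat_lit 0) (XT.nd (nat_lit 78) (nat_lit 228) (nat_lit 0) (XT.lf (nat_lit 0) (nat_lit 19187057229) (nat_lit 152) (nat_lit 43799749898) (nat_lit 228) (nat_lit 51254002) (nat_lit 97) (nat_lit 5) (nat_lit 99) (nat_lit 5) (nat_lit 100) (nat_lit 5) (nat_lit 527) (nat_lit 443) (nat_lit 230)) (XT.nd (nat_lit 78) (nat_lit 152) (nat_lit 0) (XT.lf (nat_lit 0) (nat_lit 16559318065) (nat_lit 228) (nat_lit 6493149863) (nat_lit 76) (nat_lit 41232681425) (nat_lit 96) (nat_lit 5) (nat_lit 99) (nat_lit 5) (nat_lit 97) (nat_lit 5) (nat_lit 528) (nat_lit 443) (nat_lit 229)) (XT.lf (nat_lit 0) (nat_lit 32617351947) (nat_lit 152) (nat_lit 1361086783) (nat_lit 228) (nat_lit 31581858515) (nat_lit 94)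 (nat_lit 5) (nat_lit 96) (nat_lit 5) (nat_lit 97) (nat_lit 5) (nat_lit 529) (nat_lit 443) (nat_lit 228)))) (XT.nd (nat_lit 156) (nat_lit 152) (nat_lit 0) (XT.nd (nat_lit 78) (nat_lit 76) (nat_lit 0) (XT.lf (nat_lit 0) (nat_lit 6074673433) (nat_lit 152) (nat_lit 46169487115) (nat_lit 228) (nat_lit 14619818290) (nat_lit 92) (nat_lit 5) (nat_lit 94) (nat_lit 5) (nat_lit 95) (nat_lit 5) (nat_lit 530) (nat_lit 443) (nat_lit 227)) (XT.lf (nat_lit 0) (nat_lit 3142616364) (nat_lit 228) (nat_lit 21306926632) (nat_lit 76) (nat_lit 43745990733) (nat_lit 91) (nat_lit 5) (nat_lit 94) (nat_lit 5) (nat_lit 92) (nat_lit 5) (nat_lit 531) (nat_lit 443) (nat_lit 226))) (XT.nd (nat_lit 78) (nat_lit 0) (nat_lit 0) (XT.lf (nat_lit 0) (nat_lit 19593554205) (nat_lit 152) (nat_lit 1736676264) (nat_lit 228) (nat_lit 48226877850) (nat_lit 89) (nat_lit 5) (nat_lit 91) (nat_lit 5) (nat_lit 92) (nat_lit 5) (nat_lit 532) (nat_lit 443) (nat_lit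 225)) (XT.lf (nat_lit 0) (nat_lit 40486761792) (nat_lit 228) (nat_lit 9009539901) (nat_lit 76) (nat_lit 21450529873) (nat_lit 89) (nat_lit 5) (nat_lit 92) (nat_lit 5) (nat_lit 90) (nat_lit 5) (nat_lit 533) (nat_lit 443) (nat_lit 224))))) (XT.nd (nat_lit 312) (nat_lit 304) (nat_lit 0) (XT.nd (nat_lit 156) (nat_lit 152) (nat_lit 0) (XT.nd (nat_lit 78) (nat_lit 228) (nat_lit 0) (XT.lf (nat_lit 0) (nat_lit 33811837337) (nat_lit 152) (nat_lit 26746244712) (nat_lit 228) (nat_lit 11809961748) (nat_lit 87) (nat_lit 5) (nat_lit 89) (nat_lit 5) (nat_lit 90) (nat_lit 5) (nat_lit 534) (nat_lit 443) (nat_lit 223)) (XT.lf (nat_lit 0) (nat_lit 4281029399) (nat_lit 152) (nat_lit 3105140050) (nat_lit 228) (nat_lit 66439661708) (nat_lit 84) (nat_lit 5) (nat_lit 86) (nat_lit 5) (nat_lit 87) (nat_lit 5) (nat_lit 535) (nat_lit 443) (nat_lit 222))) (XT.nd (nat_lit 78) (nat_lit 152) (nat_lit 0) (XT.lf (nat_lit 0) (nat_lit 27516125600)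 (nat_lit 228) (nat_lit 26450798316) (nat_lit 76) (nat_lit 21339061095) (nat_lit 84) (nat_lit 5) (nat_lit 87) (nat_lit 5) (nat_lit 85) (nat_lit 5) (nat_lit 536) (nat_lit 443) (nat_lit 221)) (XT.lf (nat_lit 0) (nat_lit 18257803191) (nat_lit 152) (nat_lit 30196378573) (nat_lit 228) (nat_lit 28370235749) (nat_lit 82) (nat_lit 5) (nat_lit 84) (nat_lit 5) (nat_lit 85) (nat_lit 5) (nat_lit 537) (nat_lit 443) (nat_lit 220)))) (XT.nd (nat_lit 156) (nat_lit 152) (nat_lit 0) (XT.nd (nat_lit 78) (nat_lit 152) (nat_lit 0) (XT.lf (nat_lit 0) (nat_lit 64846161400) (nat_lit 152) (nat_lit 5439295523) (nat_lit 228) (nat_lit 8094993813) (nat_lit 82) (nat_lit 5) (nat_lit 84) (nat_lit 5) (nat_lit 85) (nat_lit 5) (nat_lit 538) (nat_lit 443) (nat_lit 219)) (XT.lf (nat_lit 0) (nat_lit 13054990483) (nat_lit 152) (nat_lit 46793456816) (nat_lit 76) (nat_lit 20115548745) (nat_lit 80) (nat_lit 5) (nat_lit 82) (nat_lit 5) (nat_lit 81) (nat_lit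 5) (nat_lit 539) (nat_lit 443) (nat_lit 218))) (XT.nd (nat_lit 78) (nat_lit 152) (nat_lit 0) (XT.lf (nat_lit 0) (nat_lit 34866673057) (nat_lit 152) (nat_lit 176006683) (nat_lit 76) (nat_lit 46544266575) (nat_lit 80) (nat_lit 5) (nat_lit 82) (nat_lit 5) (nat_lit 81) (nat_lit 5) (nat_lit 540) (nat_lit 443) (nat_lit 217)) (XT.lf (nat_lit 0) (nat_lit 48788456588) (nat_lit 152) (nat_lit 9011314347) (nat_lit 228) (nat_lit 25444802275) (nat_lit 78) (nat_lit 5) (nat_lit 80) (nat_lit 5) (nat_lit 81) (nat_lit 5) (nat_lit 541) (nat_lit 443) (nat_lit 216)))))) (XT.nd (nat_lit 54990) (nat_lit 0) (nat_lit 16872) (XT.nd (nat_lit 234) (nat_lit 152) (nat_lit 0) (XT.nd (nat_lit 78) (nat_lit 228) (nat_lit 0) (XT.lf (nat_lit 0) (nat_lit 14379494709) (nat_lit 76) (nat_lit 67350587416) (nat_lit 152) (nat_lit 3212570232) (nat_lit 77) (nat_lit 5) (nat_lit 78) (nat_lit 5) (nat_lit 79) (nat_lit 4) (nat_lit 542) (nat_lit 443) (nat_lit 215))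 (XT.nd (nat_lit 78) (nat_lit 152) (nat_lit 0) (XT.lf (nat_lit 0) (nat_lit 19741166857) (nat_lit 152) (nat_lit 21580209248) (nat_lit 76) (nat_lit 45351459778) (nat_lit 76) (nat_lit 5) (nat_lit 78) (nat_lit 5) (nat_lit 77) (nat_lit 5) (nat_lit 543) (nat_lit 443) (nat_lit 214)) (XT.lf (nat_lit 0) (nat_lit 29410877033) (nat_lit 152) (nat_lit 14188930547) (nat_lit 228) (nat_lit 44845737330) (nat_lit 74) (nat_lit 5) (nat_lit 76) (nat_lit 5) (nat_lit 77) (nat_lit 5) (nat_lit 544) (nat_lit 443) (nat_lit 213)))) (XT.nd (nat_lit 54600) (nat_lit 0) (nat_lit 16796) (XT.nd (nat_lit 78) (nat_lit 152) (nat_lit 0) (XT.lf (nat_lit 0) (nat_lit 68524679838) (nat_lit 228) (nat_lit 8028692630) (nat_lit 76) (nat_lit 13707548620) (nat_lit 74) (nat_lit 5) (nat_lit 77) (nat_lit 5) (nat_lit 75) (nat_lit 4) (nat_lit 545) (nat_lit 443) (nat_lit 212)) (XT.lf (nat_lit 0) (nat_lit 2605520747) (nat_lit 152) (nat_lit 46892553915) (nat_lit 76) (nat_lit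 42614708792) (nat_lit 72) (nat_lit 5) (nat_lit 74) (nat_lit 5) (nat_lit 73) (nat_lit 5) (nat_lit 546) (nat_lit 443) (nat_lit 211))) (XT.nd (nat_lit 78) (nat_lit 0) (nat_lit 0) (XT.lf (nat_lit 0) (nat_lit 398055764) (nat_lit 1292) (nat_lit 3579359234) (nat_lit 1292) (nat_lit 3579359234) (nat_lit 293) (nat_lit 3) (nat_lit 310) (nat_lit 3) (nat_lit 310) (nat_lit 5) (nat_lit 444) (nat_lit 444) (nat_lit 312)) (XT.lf (nat_lit 76) (nat_lit 313843920) (nat_lit 0) (nat_lit 789341801) (nat_lit 1292) (nat_lit 14228171387) (nat_lit 294) (nat_lit 5) (nat_lit 293) (nat_lit 3) (nat_lit 310) (nat_lit 5) (nat_lit 445) (nat_lit 444) (nat_lit 311))))) (XT.nd (nat_lit 312) (nat_lit 0) (nat_lit 152) (XT.nd (nat_lit 156) (nat_lit 0) (nat_lit 76) (XT.nd (nat_lit 78) (nat_lit 0) (nat_lit 0) (XT.lf (nat_lit 0) (nat_lit 1544429230) (nat_lit 1216) (nat_lit 7466661762) (nat_lit 1292) (nat_lit 6540861889) (nat_lit 294) (nat_lit 5) (nat_lit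 310) (nat_lit 5) (nat_lit 311) (nat_lit 5) (nat_lit 446) (nat_lit 444) (nat_lit 310)) (XT.lf (nat_lit 76) (nat_lit 302604069) (nat_lit 0) (nat_lit 1695956800) (nat_lit 1292) (nat_lit 13780617672) (nat_lit 295) (nat_lit 5) (nat_lit 294) (nat_lit 5) (nat_lit 311) (nat_lit 5) (nat_lit 447) (nat_lit 444) (nat_lit 309))) (XT.nd (nat_lit 78) (nat_lit 0) (nat_lit 0) (XT.lf (nat_lit 0) (nat_lit 2587821253) (nat_lit 1216) (nat_lit 7616333561) (nat_lit 1292) (nat_lit 5805422507) (nat_lit 295) (nat_lit 5) (nat_lit 311) (nat_lit 5) (nat_lit 312) (nat_lit 5) (nat_lit 448) (nat_lit 444) (nat_lit 308)) (XT.lf (nat_lit 76) (nat_lit 465689179) (nat_lit 0) (nat_lit 2739887083) (nat_lit 1292) (nat_lit 13040988748) (nat_lit 296) (nat_lit 5) (nat_lit 295) (nat_lit 5) (nat_lit 312) (nat_lit 5) (nat_lit 449) (nat_lit 444) (nat_lit 307)))) (XT.nd (nat_lit 156) (nat_lit 0) (nat_lit 76) (XT.nd (nat_lit 78) (nat_lit 0) (nat_lit 0) (XT.lf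 (nat_lit 0) (nat_lit 3956932478) (nat_lit 1216) (nat_lit 7596987334) (nat_lit 1292) (nat_lit 4933291868) (nat_lit 296) (nat_lit 5) (nat_lit 312) (nat_lit 5) (nat_lit 313) (nat_lit 5) (nat_lit 450) (nat_lit 444) (nat_lit 306)) (XT.lf (nat_lit 76) (nat_lit 814777205) (nat_lit 0) (nat_lit 3941138961) (nat_lit 1292) (nat_lit 11978410349) (nat_lit 297) (nat_lit 5) (nat_lit 296) (nat_lit 5) (nat_lit 313) (nat_lit 5) (nat_lit 451) (nat_lit 444) (nat_lit 305))) (XT.nd (nat_lit 78) (nat_lit 0) (nat_lit 0) (XT.lf (nat_lit 0) (nat_lit 5684218298) (nat_lit 1216) (nat_lit 7396848663) (nat_lit 1292) (nat_lit 3904628694) (nat_lit 297) (nat_lit 5) (nat_lit 313) (nat_lit 5) (nat_lit 314) (nat_lit 5) (nat_lit 452) (nat_lit 444) (nat_lit 304)) (XT.lf (nat_lit 76) (nat_lit 1362624050) (nat_lit 0) (nat_lit 5320530311) (nat_lit 1292) (nat_lit 10560169250) (nat_lit 298) (nat_lit 5) (nat_lit 297) (nat_lit 5) (nat_lit 314) (nat_lit 5) (nat_lit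 453) (nat_lit 444) (nat_lit 303))))))) (XT.nd (nat_lit 1170) (nat_lit 4484) (nat_lit 0) (XT.nd (nat_lit 546) (nat_lit 3572) (nat_lit 0) (XT.nd (nat_lit 234) (nat_lit 0) (nat_lit 76) (XT.nd (nat_lit 78) (nat_lit 0) (nat_lit 0) (XT.lf (nat_lit 0) (nat_lit 7804086120) (nat_lit 1216) (nat_lit 7003077863) (nat_lit 1292) (nat_lit 2698756846) (nat_lit 298) (nat_lit 5) (nat_lit 314) (nat_lit 5) (nat_lit 315) (nat_lit 5) (nat_lit 454) (nat_lit 444) (nat_lit 302)) (XT.nd (nat_lit 78) (nat_lit 0) (nat_lit 76) (XT.lf (nat_lit 76) (nat_lit 2123103943) (nat_lit 0) (nat_lit 6899795581) (nat_lit 1292) (nat_lit 8751570043) (nat_lit 299) (nat_lit 5) (nat_lit 298) (nat_lit 5) (nat_lit 315) (nat_lit 5) (nat_lit 455) (nat_lit 444) (nat_lit 301)) (XT.lf (nat_lit 0) (nat_lit 10353043389) (nat_lit 1216) (nat_lit 6401728523) (nat_lit 1292) (nat_lit 1294061052) (nat_lit 299) (nat_lit 5) (nat_lit 315) (nat_lit 5) (nat_lit 316) (nat_lit 5)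 (nat_lit 456) (nat_lit 444) (nat_lit 300)))) (XT.nd (nat_lit 156) (nat_lit 0) (nat_lit 76) (XT.nd (nat_lit 78) (nat_lit 0) (nat_lit 0) (XT.lf (nat_lit 76) (nat_lit 3111254054) (nat_lit 0) (nat_lit 8701693397) (nat_lit 1292) (nat_lit 6515785281) (nat_lit 300) (nat_lit 5) (nat_lit 299) (nat_lit 5) (nat_lit 316) (nat_lit 5) (nat_lit 457) (nat_lit 444) (nat_lit 299)) (XT.lf (nat_lit 76) (nat_lit 13034378791) (nat_lit 0) (nat_lit 338729969) (nat_lit 1292) (nat_lit 5242228042) (nat_lit 300) (nat_lit 5) (nat_lit 299) (nat_lit 5) (nat_lit 316) (nat_lit 5) (nat_lit 458) (nat_lit 444) (nat_lit 298))) (XT.nd (nat_lit 78) (nat_lit 0) (nat_lit 0) (XT.lf (nat_lit 76) (nat_lit 4343323363) (nat_lit 0) (nat_lit 10750117315) (nat_lit 1292) (nat_lit 3813698421) (nat_lit 301) (nat_lit 5) (nat_lit 300) (nat_lit 5) (nat_lit 317) (nat_lit 5) (nat_lit 459) (nat_lit 444) (nat_lit 297)) (XT.lf (nat_lit 76) (nat_lit 14669837732) (nat_lit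 0) (nat_lit 2247460692) (nat_lit 1292) (nat_lit 2288840613) (nat_lit 301) (nat_lit 5) (nat_lit 300) (nat_lit 5) (nat_lit 317) (nat_lit 5) (nat_lit 460) (nat_lit 444) (nat_lit 296))))) (XT.nd (nat_lit 312) (nat_lit 1748) (nat_lit 0) (XT.nd (nat_lit 156) (nat_lit 760) (nat_lit 0) (XT.nd (nat_lit 78) (nat_lit 76) (nat_lit 0) (XT.lf (nat_lit 0) (nat_lit 5836825849) (nat_lit 1216) (nat_lit 13070210242) (nat_lit 1292) (nat_lit 603738974) (nat_lit 285) (nat_lit 5) (nat_lit 301) (nat_lit 5) (nat_lit 302) (nat_lit 5) (nat_lit 461) (nat_lit 444) (nat_lit 295)) (XT.lf (nat_lit 0) (nat_lit 1170900714) (nat_lit 1292) (nat_lit 3249240167) (nat_lit 76) (nat_lit 15402251648) (nat_lit 284) (nat_lit 5) (nat_lit 301) (nat_lit 5) (nat_lit 285) (nat_lit 5) (nat_lit 462) (nat_lit 444) (nat_lit 294))) (XT.nd (nat_lit 78) (nat_lit 0) (nat_lit 0) (XT.lf (nat_lit 0) (nat_lit 3096661107) (nat_lit 836) (nat_lit 12560551780) (nat_lit 76) (nat_lit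 4482666752) (nat_lit 274) (nat_lit 5) (nat_lit 285) (nat_lit 5) (nat_lit 275) (nat_lit 5) (nat_lit 463) (nat_lit 444) (nat_lit 293)) (XT.lf (nat_lit 0) (nat_lit 5150026152) (nat_lit 836) (nat_lit 1717215389) (nat_lit 76) (nat_lit 13597555769) (nat_lit 274) (nat_lit 5) (nat_lit 285) (nat_lit 5) (nat_lit 275) (nat_lit 5) (nat_lit 464) (nat_lit 444) (nat_lit 292)))) (XT.nd (nat_lit 156) (nat_lit 532) (nat_lit 0) (XT.nd (nat_lit 78) (nat_lit 608) (nat_lit 0) (XT.lf (nat_lit 0) (nat_lit 7372667300) (nat_lit 684) (nat_lit 11185821451) (nat_lit 76) (nat_lit 2237744383) (nat_lit 266) (nat_lit 5) (nat_lit 275) (nat_lit 5) (nat_lit 267) (nat_lit 5) (nat_lit 465) (nat_lit 444) (nat_lit 291)) (XT.lf (nat_lit 0) (nat_lit 103297494) (nat_lit 608) (nat_lit 9638468836) (nat_lit 684) (nat_lit 11393453196) (nat_lit 258) (nat_lit 5) (nat_lit 266) (nat_lit 5) (nat_lit 267) (nat_lit 5) (nat_lit 466) (nat_lit 444) (nat_lit 290))) (XT.nd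 (nat_lit 78) (nat_lit 532) (nat_lit 0) (XT.lf (nat_lit 0) (nat_lit 11953921396) (nat_lit 608) (nat_lit 334386336) (nat_lit 684) (nat_lit 9192877523) (nat_lit 258) (nat_lit 5) (nat_lit 266) (nat_lit 5) (nat_lit 267) (nat_lit 5) (nat_lit 467) (nat_lit 444) (nat_lit 289)) (XT.lf (nat_lit 0) (nat_lit 2271481191) (nat_lit 532) (nat_lit 12744111806) (nat_lit 608) (nat_lit 6818807332) (nat_lit 251) (nat_lit 5) (nat_lit 258) (nat_lit 5) (nat_lit 259) (nat_lit 5) (nat_lit 468) (nat_lit 444) (nat_lit 288)))))) (XT.nd (nat_lit 624) (nat_lit 2356) (nat_lit 0) (XT.nd (nat_lit 312) (nat_lit 988) (nat_lit 0) (XT.nd (nat_lit 156) (nat_lit 608) (nat_lit 0) (XT.nd (nat_lit 78) (nat_lit 532) (nat_lit 0) (XT.lf (nat_lit 0) (nat_lit 14609702624) (nat_lit 532) (nat_lit 3308211215) (nat_lit 608) (nat_lit 4277502286) (nat_lit 251) (nat_lit 5) (nat_lit 258) (nat_lit 5) (nat_lit 259) (nat_lit 5) (nat_lit 469) (nat_lit 444) (nat_lit 287))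 (XT.lf (nat_lit 0) (nat_lit 4775976369) (nat_lit 532) (nat_lit 16232775035) (nat_lit 608) (nat_lit 1555468335) (nat_lit 244) (nat_lit 5) (nat_lit 251) (nat_lit 5) (nat_lit 252) (nat_lit 5) (nat_lit 470) (nat_lit 444) (nat_lit 286))) (XT.nd (nat_lit 78) (nat_lit 532) (nat_lit 0) (XT.lf (nat_lit 0) (nat_lit 1327952834) (nat_lit 608) (nat_lit 5329746687) (nat_lit 76) (nat_lit 16282906184) (nat_lit 243) (nat_lit 5) (nat_lit 251) (nat_lit 5) (nat_lit 244) (nat_lit 5) (nat_lit 471) (nat_lit 444) (nat_lit 285)) (XT.lf (nat_lit 0) (nat_lit 4365779604) (nat_lit 608) (nat_lit 15727763309) (nat_lit 76) (nat_lit 3231304021) (nat_lit 236) (nat_lit 5) (nat_lit 244) (nat_lit 5) (nat_lit 237) (nat_lit 5) (nat_lit 472) (nat_lit 444) (nat_lit 284)))) (XT.nd (nat_lit 156) (nat_lit 456) (nat_lit 0) (XT.nd (nat_lit 78) (nat_lit 532) (nat_lit 0) (XT.lf (nat_lit 0) (nat_lit 7609263567) (nat_lit 608) (nat_lit 2770858978) (nat_lit 76) (nat_lit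 13337057853) (nat_lit 236) (nat_lit 5) (nat_lit 244) (nat_lit 5) (nat_lit 237) (nat_lit 5) (nat_lit 473) (nat_lit 444) (nat_lit 283)) (XT.lf (nat_lit 0) (nat_lit 10778892426) (nat_lit 532) (nat_lit 269192069) (nat_lit 608) (nat_lit 13070259052) (nat_lit 229) (nat_lit 5) (nat_lit 236) (nat_lit 5) (nat_lit 237) (nat_lit 5) (nat_lit 474) (nat_lit 444) (nat_lit 282))) (XT.nd (nat_lit 78) (nat_lit 0) (nat_lit 0) (XT.lf (nat_lit 0) (nat_lit 160270960) (nat_lit 456) (nat_lit 14551633976) (nat_lit 532) (nat_lit 9815982241) (nat_lit 223) (nat_lit 5) (nat_lit 229) (nat_lit 5) (nat_lit 230) (nat_lit 5) (nat_lit 475) (nat_lit 444) (nat_lit 281)) (XT.lf (nat_lit 0) (nat_lit 14329480790) (nat_lit 456) (nat_lit 4288116862) (nat_lit 532) (nat_lit 6328161351) (nat_lit 223) (nat_lit 5) (nat_lit 229) (nat_lit 5) (nat_lit 230) (nat_lit 5) (nat_lit 476) (nat_lit 444) (nat_lit 280))))) (XT.nd (nat_lit 312) (nat_lit 1368) (nat_lit 0)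 (XT.nd (nat_lit 156) (nat_lit 456) (nat_lit 0) (XT.nd (nat_lit 78) (nat_lit 76) (nat_lit 0) (XT.lf (nat_lit 0) (nat_lit 3550280432) (nat_lit 456) (nat_lit 19179472285) (nat_lit 532) (nat_lit 2643736117) (nat_lit 217) (nat_lit 5) (nat_lit 223) (nat_lit 5) (nat_lit 224) (nat_lit 5) (nat_lit 477) (nat_lit 444) (nat_lit 279)) (XT.lf (nat_lit 0) (nat_lit 1274286118) (nat_lit 532) (nat_lit 7512202005) (nat_lit 76) (nat_lit 17022865150) (nat_lit 216) (nat_lit 5) (nat_lit 223) (nat_lit 5) (nat_lit 217) (nat_lit 5) (nat_lit 478) (nat_lit 444) (nat_lit 278))) (XT.nd (nat_lit 78) (nat_lit 0) (nat_lit 0) (XT.lf (nat_lit 0) (nat_lit 5341606528) (nat_lit 532) (nat_lit 18935820461) (nat_lit 76) (nat_lit 1977535116) (nat_lit 210) (nat_lit 5) (nat_lit 217) (nat_lit 5) (nat_lit 211) (nat_lit 5) (nat_lit 479) (nat_lit 444) (nat_lit 277)) (XT.lf (nat_lit 0) (nat_lit 9689588505) (nat_lit 532) (nat_lit 4056131274) (nat_lit 76) (nat_lit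 12963460695) (nat_lit 210) (nat_lit 5) (nat_lit 217) (nat_lit 5) (nat_lit 211) (nat_lit 5) (nat_lit 480) (nat_lit 444) (nat_lit 276)))) (XT.nd (nat_lit 156) (nat_lit 912) (nat_lit 0) (XT.nd (nat_lit 78) (nat_lit 0) (nat_lit 0) (XT.lf (nat_lit 0) (nat_lit 11488162659) (nat_lit 456) (nat_lit 2785460508) (nat_lit 532) (nat_lit 12900234346) (nat_lit 204) (nat_lit 5) (nat_lit 210) (nat_lit 5) (nat_lit 211) (nat_lit 5) (nat_lit 481) (nat_lit 444) (nat_lit 275)) (XT.lf (nat_lit 0) (nat_lit 19113539579) (nat_lit 532) (nat_lit 157495588) (nat_lit 76) (nat_lit 8377889374) (nat_lit 204) (nat_lit 5) (nat_lit 211) (nat_lit 5) (nat_lit 205) (nat_lit 5) (nat_lit 482) (nat_lit 444) (nat_lit 274))) (XT.nd (nat_lit 78) (nat_lit 532) (nat_lit 0) (XT.lf (nat_lit 0) (nat_lit 16117625297) (nat_lit 380) (nat_lit 8158932035) (nat_lit 456) (nat_lit 3856349619) (nat_lit 199) (nat_lit 5) (nat_lit 204) (nat_lit 5) (nat_lit 205) (nat_lit 5)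 (nat_lit 483) (nat_lit 444) (nat_lit 273)) (XT.lf (nat_lit 0) (nat_lit 1014940415) (nat_lit 532) (nat_lit 24340032645) (nat_lit 76) (nat_lit 3274038217) (nat_lit 192) (nat_lit 5) (nat_lit 199) (nat_lit 5) (nat_lit 193) (nat_lit 5) (nat_lit 484) (nat_lit 444) (nat_lit 272))))))))
noncomputable def xc190 : XT := (XT.nd (nat_lit 2340) (nat_lit 3572) (nat_lit 0) (XT.nd (nat_lit 1170) (nat_lit 2584) (nat_lit 0) (XT.nd (nat_lit 546) (nat_lit 1292) (nat_lit 0) (XT.nd (nat_lit 234) (nat_lit 1140) (nat_lit 0) (XT.nd (nat_lit 78) (nat_lit 380) (nat_lit 0) (XT.lf (nat_lit 0) (nat_lit 6153663903) (nat_lit 532) (nat_lit 7933812321) (nat_lit 76) (nat_lit 15045413395) (nat_lit 192) (nat_lit 5) (nat_lit 199) (nat_lit 5) (nat_lit 193) (nat_lit 5) (nat_lit 485) (nat_lit 444) (nat_lit 271)) (XT.nd (nat_lit 78) (nat_lit 0) (nat_lit 0) (XT.lf (nat_lit 0) (nat_lit 9137108771) (nat_lit 380) (nat_lit 2392893139) (nat_lit 456) (nat_lit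 18119379250) (nat_lit 187) (nat_lit 5) (nat_lit 192) (nat_lit 5) (nat_lit 193) (nat_lit 5) (nat_lit 486) (nat_lit 444) (nat_lit 270)) (XT.lf (nat_lit 0) (nat_lit 17237005392) (nat_lit 456) (nat_lit 3395593309) (nat_lit 76) (nat_lit 9543687905) (nat_lit 187) (nat_lit 5) (nat_lit 193) (nat_lit 5) (nat_lit 188) (nat_lit 5) (nat_lit 487) (nat_lit 444) (nat_lit 269)))) (XT.nd (nat_lit 156) (nat_lit 456) (nat_lit 0) (XT.nd (nat_lit 78) (nat_lit 304) (nat_lit 0) (XT.lf (nat_lit 0) (nat_lit 14487933087) (nat_lit 380) (nat_lit 8786050756) (nat_lit 456) (nat_lit 7440252831) (nat_lit 182) (nat_lit 5) (nat_lit 187) (nat_lit 5) (nat_lit 188) (nat_lit 5) (nat_lit 488) (nat_lit 444) (nat_lit 268)) (XT.lf (nat_lit 0) (nat_lit 1704636450) (nat_lit 304) (nat_lit 27867145001) (nat_lit 380) (nat_lit 1694152898) (nat_lit 178) (nat_lit 5) (nat_lit 182) (nat_lit 5) (nat_lit 183) (nat_lit 5) (nat_lit 489) (nat_lit 444) (nat_lit 267)))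 (XT.nd (nat_lit 78) (nat_lit 380) (nat_lit 0) (XT.lf (nat_lit 0) (nat_lit 4390250072) (nat_lit 380) (nat_lit 11458112233) (nat_lit 76) (nat_lit 15977152255) (nat_lit 177) (nat_lit 5) (nat_lit 182) (nat_lit 5) (nat_lit 178) (nat_lit 5) (nat_lit 490) (nat_lit 444) (nat_lit 266)) (XT.lf (nat_lit 0) (nat_lit 7308423301) (nat_lit 380) (nat_lit 3380969087) (nat_lit 456) (nat_lit 21709999197) (nat_lit 172) (nat_lit 5) (nat_lit 177) (nat_lit 5) (nat_lit 178) (nat_lit 5) (nat_lit 491) (nat_lit 444) (nat_lit 265))))) (XT.nd (nat_lit 312) (nat_lit 608) (nat_lit 0) (XT.nd (nat_lit 156) (nat_lit 380) (nat_lit 0) (XT.nd (nat_lit 78) (nat_lit 304) (nat_lit 0) (XT.lf (nat_lit 0) (nat_lit 17381351463) (nat_lit 456) (nat_lit 6211897747) (nat_lit 76) (nat_lit 9391120787) (nat_lit 172) (nat_lit 5) (nat_lit 178) (nat_lit 5) (nat_lit 173) (nat_lit 5) (nat_lit 492) (nat_lit 444) (nat_lit 264)) (XT.lf (nat_lit 0) (nat_lit 13457198726)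 (nat_lit 304) (nat_lit 10975872156) (nat_lit 380) (nat_lit 9149057173) (nat_lit 168) (nat_lit 5) (nat_lit 172) (nat_lit 5) (nat_lit 173) (nat_lit 5) (nat_lit 493) (nat_lit 444) (nat_lit 263))) (XT.nd (nat_lit 78) (nat_lit 380) (nat_lit 0) (XT.lf (nat_lit 0) (nat_lit 31775320232) (nat_lit 380) (nat_lit 377783649) (nat_lit 76) (nat_lit 2042345954) (nat_lit 168) (nat_lit 5) (nat_lit 173) (nat_lit 5) (nat_lit 169) (nat_lit 5) (nat_lit 494) (nat_lit 444) (nat_lit 262)) (XT.lf (nat_lit 0) (nat_lit 4725191979) (nat_lit 380) (nat_lit 14621749196) (nat_lit 76) (nat_lit 15469853262) (nat_lit 163) (nat_lit 5) (nat_lit 168) (nat_lit 5) (nat_lit 164) (nat_lit 5) (nat_lit 495) (nat_lit 444) (nat_lit 261)))) (XT.nd (nat_lit 156) (nat_lit 304) (nat_lit 0) (XT.nd (nat_lit 78) (nat_lit 0) (nat_lit 0) (XT.lf (nat_lit 0) (nat_lit 6024321244) (nat_lit 304) (nat_lit 6070013778) (nat_lit 380) (nat_lit 23359982685) (nat_lit 159) (nat_lit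 5) (nat_lit 163) (nat_lit 5) (nat_lit 164) (nat_lit 5) (nat_lit 496) (nat_lit 444) (nat_lit 260)) (XT.lf (nat_lit 0) (nat_lit 19903152080) (nat_lit 380) (nat_lit 8597012704) (nat_lit 76) (nat_lit 7604244195) (nat_lit 159) (nat_lit 5) (nat_lit 164) (nat_lit 5) (nat_lit 160) (nat_lit 5) (nat_lit 497) (nat_lit 444) (nat_lit 259))) (XT.nd (nat_lit 78) (nat_lit 0) (nat_lit 0) (XT.lf (nat_lit 0) (nat_lit 13050263784) (nat_lit 304) (nat_lit 15078002336) (nat_lit 380) (nat_lit 8640276179) (nat_lit 155) (nat_lit 5) (nat_lit 159) (nat_lit 5) (nat_lit 160) (nat_lit 5) (nat_lit 498) (nat_lit 444) (nat_lit 258)) (XT.lf (nat_lit 0) (nat_lit 35517985134) (nat_lit 304) (nat_lit 1165499948) (nat_lit 380) (nat_lit 766614269) (nat_lit 155) (nat_lit 5) (nat_lit 159) (nat_lit 5) (nat_lit 160) (nat_lit 5) (nat_lit 499) (nat_lit 444) (nat_lit 257)))))) (XT.nd (nat_lit 546) (nat_lit 1064) (nat_lit 0) (XT.nd (nat_lit 234) (nat_lit 836)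 (nat_lit 0) (XT.nd (nat_lit 78) (nat_lit 304) (nat_lit 0) (XT.lf (nat_lit 0) (nat_lit 7526092562) (nat_lit 380) (nat_lit 17434725300) (nat_lit 76) (nat_lit 13179384024) (nat_lit 150) (nat_lit 5) (nat_lit 155) (nat_lit 5) (nat_lit 151) (nat_lit 5) (nat_lit 500) (nat_lit 444) (nat_lit 256)) (XT.nd (nat_lit 78) (nat_lit 0) (nat_lit 0) (XT.lf (nat_lit 0) (nat_lit 5290132095) (nat_lit 304) (nat_lit 10840774993) (nat_lit 380) (nat_lit 22717510915) (nat_lit 146) (nat_lit 5) (nat_lit 150) (nat_lit 5) (nat_lit 151) (nat_lit 5) (nat_lit 501) (nat_lit 444) (nat_lit 255)) (XT.lf (nat_lit 0) (nat_lit 25203930922) (nat_lit 380) (nat_lit 10560991952) (nat_lit 76) (nat_lit 3806656030) (nat_lit 146) (nat_lit 5) (nat_lit 151) (nat_lit 5) (nat_lit 147) (nat_lit 5) (nat_lit 502) (nat_lit 444) (nat_lit 254)))) (XT.nd (nat_lit 156) (nat_lit 532) (nat_lit 0) (XT.nd (nat_lit 78) (nat_lit 76) (nat_lit 0) (XT.lf (nat_lit 0) (nat_lit 13272852968)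 (nat_lit 228) (nat_lit 21507981607) (nat_lit 304) (nat_lit 5528649622) (nat_lit 143) (nat_lit 5) (nat_lit 146) (nat_lit 5) (nat_lit 147) (nat_lit 5) (nat_lit 503) (nat_lit 444) (nat_lit 253)) (XT.lf (nat_lit 0) (nat_lit 3610231008) (nat_lit 304) (nat_lit 3068599560) (nat_lit 76) (nat_lit 34386530697) (nat_lit 142) (nat_lit 5) (nat_lit 146) (nat_lit 5) (nat_lit 143) (nat_lit 5) (nat_lit 504) (nat_lit 444) (nat_lit 252))) (XT.nd (nat_lit 78) (nat_lit 228) (nat_lit 0) (XT.lf (nat_lit 0) (nat_lit 13205634679) (nat_lit 380) (nat_lit 19933370882) (nat_lit 76) (nat_lit 8694462819) (nat_lit 138) (nat_lit 5) (nat_lit 143) (nat_lit 5) (nat_lit 139) (nat_lit 5) (nat_lit 505) (nat_lit 444) (nat_lit 251)) (XT.lf (nat_lit 0) (nat_lit 5084931211) (nat_lit 228) (nat_lit 18147172738) (nat_lit 304) (nat_lit 19388218868) (nat_lit 135) (nat_lit 5) (nat_lit 138) (nat_lit 5) (nat_lit 139) (nat_lit 5) (nat_lit 506) (nat_lit 444) (nat_lit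 250))))) (XT.nd (nat_lit 312) (nat_lit 532) (nat_lit 0) (XT.nd (nat_lit 156) (nat_lit 228) (nat_lit 0) (XT.nd (nat_lit 78) (nat_lit 304) (nat_lit 0) (XT.lf (nat_lit 0) (nat_lit 31257515338) (nat_lit 228) (nat_lit 2500086534) (nat_lit 304) (nat_lit 9667234183) (nat_lit 135) (nat_lit 5) (nat_lit 138) (nat_lit 5) (nat_lit 139) (nat_lit 5) (nat_lit 507) (nat_lit 444) (nat_lit 249)) (XT.lf (nat_lit 0) (nat_lit 604706414) (nat_lit 304) (nat_lit 30150251794) (nat_lit 76) (nat_lit 13490445098) (nat_lit 131) (nat_lit 5) (nat_lit 135) (nat_lit 5) (nat_lit 132) (nat_lit 5) (nat_lit 508) (nat_lit 444) (nat_lit 248))) (XT.nd (nat_lit 78) (nat_lit 228) (nat_lit 0) (XT.lf (nat_lit 0) (nat_lit 11136369529) (nat_lit 304) (nat_lit 3818494154) (nat_lit 76) (nat_lit 30128476640) (nat_lit 131) (nat_lit 5) (nat_lit 135) (nat_lit 5) (nat_lit 132) (nat_lit 5) (nat_lit 509) (nat_lit 444) (nat_lit 247)) (XT.lf (nat_lit 0) (nat_lit 22224441786)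 (nat_lit 304) (nat_lit 22192355561) (nat_lit 76) (nat_lit 1522404510) (nat_lit 128) (nat_lit 5) (nat_lit 132) (nat_lit 5) (nat_lit 129) (nat_lit 5) (nat_lit 510) (nat_lit 444) (nat_lit 246)))) (XT.nd (nat_lit 156) (nat_lit 304) (nat_lit 0) (XT.nd (nat_lit 78) (nat_lit 0) (nat_lit 0) (XT.lf (nat_lit 0) (nat_lit 5349064215) (nat_lit 228) (nat_lit 28531658396) (nat_lit 304) (nat_lit 12932949811) (nat_lit 125) (nat_lit 5) (nat_lit 128) (nat_lit 5) (nat_lit 129) (nat_lit 5) (nat_lit 511) (nat_lit 444) (nat_lit 245)) (XT.lf (nat_lit 0) (nat_lit 34166988797) (nat_lit 228) (nat_lit 11940979773) (nat_lit 304) (nat_lit 1599770406) (nat_lit 125) (nat_lit 5) (nat_lit 128) (nat_lit 5) (nat_lit 129) (nat_lit 5) (nat_lit 512) (nat_lit 444) (nat_lit 244))) (XT.nd (nat_lit 78) (nat_lit 0) (nat_lit 0) (XT.lf (nat_lit 0) (nat_lit 10074186946) (nat_lit 304) (nat_lit 33252928989) (nat_lit 76) (nat_lit 5292686273) (nat_lit 121) (nat_lit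 5) (nat_lit 125) (nat_lit 5) (nat_lit 122) (nat_lit 5) (nat_lit 513) (nat_lit 444) (nat_lit 243)) (XT.lf (nat_lit 0) (nat_lit 22319777618) (nat_lit 304) (nat_lit 4275847215) (nat_lit 76) (nat_lit 22955520430) (nat_lit 121) (nat_lit 5) (nat_lit 125) (nat_lit 5) (nat_lit 122) (nat_lit 5) (nat_lit 514) (nat_lit 444) (nat_lit 242))))))) (XT.nd (nat_lit 1170) (nat_lit 1672) (nat_lit 0) (XT.nd (nat_lit 546) (nat_lit 760) (nat_lit 0) (XT.nd (nat_lit 234) (nat_lit 684) (nat_lit 0) (XT.nd (nat_lit 78) (nat_lit 228) (nat_lit 0) (XT.lf (nat_lit 0) (nat_lit 26074897413) (nat_lit 228) (nat_lit 9105818540) (nat_lit 304) (nat_lit 15322273413) (nat_lit 118) (nat_lit 5) (nat_lit 121) (nat_lit 5) (nat_lit 122) (nat_lit 5) (nat_lit 515) (nat_lit 444) (nat_lit 241)) (XT.nd (nat_lit 78) (nat_lit 76) (nat_lit 0) (XT.lf (nat_lit 0) (nat_lit 5967625324) (nat_lit 152) (nat_lit 42643812551) (nat_lit 228) (nat_lit 2866432402) (nat_lit 116)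 (nat_lit 5) (nat_lit 118) (nat_lit 5) (nat_lit 119) (nat_lit 5) (nat_lit 516) (nat_lit 444) (nat_lit 240)) (XT.lf (nat_lit 0) (nat_lit 10105301543) (nat_lit 228) (nat_lit 14891493188) (nat_lit 76) (nat_lit 27472230887) (nat_lit 115) (nat_lit 5) (nat_lit 118) (nat_lit 5) (nat_lit 116) (nat_lit 5) (nat_lit 517) (nat_lit 444) (nat_lit 239)))) (XT.nd (nat_lit 156) (nat_lit 456) (nat_lit 0) (XT.nd (nat_lit 78) (nat_lit 0) (nat_lit 0) (XT.lf (nat_lit 0) (nat_lit 16943712606) (nat_lit 228) (nat_lit 6625171284) (nat_lit 304) (nat_lit 29915371184) (nat_lit 112) (nat_lit 5) (nat_lit 115) (nat_lit 5) (nat_lit 116) (nat_lit 5) (nat_lit 518) (nat_lit 444) (nat_lit 238)) (XT.lf (nat_lit 0) (nat_lit 37703901031) (nat_lit 304) (nat_lit 4610272513) (nat_lit 76) (nat_lit 12207742183) (nat_lit 112) (nat_lit 5) (nat_lit 116) (nat_lit 5) (nat_lit 113) (nat_lit 5) (nat_lit 519) (nat_lit 444) (nat_lit 237))) (XT.nd (nat_lit 78) (nat_lit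 304) (nat_lit 0) (XT.lf (nat_lit 0) (nat_lit 28769455971) (nat_lit 152) (nat_lit 23833183822) (nat_lit 228) (nat_lit 2977876402) (nat_lit 110) (nat_lit 5) (nat_lit 112) (nat_lit 5) (nat_lit 113) (nat_lit 5) (nat_lit 520) (nat_lit 444) (nat_lit 236)) (XT.lf (nat_lit 0) (nat_lit 6591096453) (nat_lit 228) (nat_lit 4574211961) (nat_lit 304) (nat_lit 45499077017) (nat_lit 106) (nat_lit 5) (nat_lit 109) (nat_lit 5) (nat_lit 110) (nat_lit 5) (nat_lit 521) (nat_lit 444) (nat_lit 235))))) (XT.nd (nat_lit 312) (nat_lit 380) (nat_lit 0) (XT.nd (nat_lit 156) (nat_lit 228) (nat_lit 0) (XT.nd (nat_lit 78) (nat_lit 152) (nat_lit 0) (XT.lf (nat_lit 0) (nat_lit 26090616176) (nat_lit 304) (nat_lit 16410878985) (nat_lit 76) (nat_lit 15265860789) (nat_lit 106) (nat_lit 5) (nat_lit 110) (nat_lit 5) (nat_lit 107) (nat_lit 5) (nat_lit 522) (nat_lit 444) (nat_lit 234)) (XT.lf (nat_lit 0) (nat_lit 18574420924) (nat_lit 152) (nat_lit 23110718888)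 (nat_lit 228) (nat_lit 17211632188) (nat_lit 104) (nat_lit 5) (nat_lit 106) (nat_lit 5) (nat_lit 107) (nat_lit 5) (nat_lit 523) (nat_lit 444) (nat_lit 233))) (XT.nd (nat_lit 78) (nat_lit 228) (nat_lit 0) (XT.lf (nat_lit 0) (nat_lit 54941580407) (nat_lit 152) (nat_lit 2969285051) (nat_lit 228) (nat_lit 2144304194) (nat_lit 104) (nat_lit 5) (nat_lit 106) (nat_lit 5) (nat_lit 107) (nat_lit 5) (nat_lit 524) (nat_lit 444) (nat_lit 232)) (XT.lf (nat_lit 0) (nat_lit 13590993819) (nat_lit 228) (nat_lit 29774383908) (nat_lit 76) (nat_lit 17864776176) (nat_lit 101) (nat_lit 5) (nat_lit 104) (nat_lit 5) (nat_lit 102) (nat_lit 5) (nat_lit 525) (nat_lit 444) (nat_lit 231)))) (XT.nd (nat_lit 156) (nat_lit 228) (nat_lit 0) (XT.nd (nat_lit 78) (nat_lit 0) (nat_lit 0) (XT.lf (nat_lit 0) (nat_lit 6867009128) (nat_lit 152) (nat_lit 23033507143) (nat_lit 228) (nat_lit 32534876672) (nat_lit 99) (nat_lit 5) (nat_lit 101) (nat_lit 5)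 (nat_lit 102) (nat_lit 5) (nat_lit 526) (nat_lit 444) (nat_lit 230)) (XT.lf (nat_lit 0) (nat_lit 45213984180) (nat_lit 152) (nat_lit 1783738059) (nat_lit 228) (nat_lit 16670115079) (nat_lit 99) (nat_lit 5) (nat_lit 101) (nat_lit 5) (nat_lit 102) (nat_lit 5) (nat_lit 527) (nat_lit 444) (nat_lit 229))) (XT.nd (nat_lit 78) (nat_lit 0) (nat_lit 0) (XT.lf (nat_lit 0) (nat_lit 63771672) (nat_lit 228) (nat_lit 44959844740) (nat_lit 76) (nat_lit 19902131070) (nat_lit 96) (nat_lit 5) (nat_lit 99) (nat_lit 5) (nat_lit 97) (nat_lit 5) (nat_lit 528) (nat_lit 444) (nat_lit 228)) (XT.lf (nat_lit 0) (nat_lit 17168265704) (nat_lit 228) (nat_lit 6487767843) (nat_lit 76) (nat_lit 42554300670) (nat_lit 96) (nat_lit 5) (nat_lit 99) (nat_lit 5) (nat_lit 97) (nat_lit 5) (nat_lit 529) (nat_lit 444) (nat_lit 227)))))) (XT.nd (nat_lit 624) (nat_lit 760) (nat_lit 0) (XT.nd (nat_lit 312) (nat_lit 380) (nat_lit 0) (XT.nd (nat_lit 156) (nat_lit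 228) (nat_lit 0) (XT.nd (nat_lit 78) (nat_lit 152) (nat_lit 0) (XT.lf (nat_lit 0) (nat_lit 33794086508) (nat_lit 152) (nat_lit 1314511804) (nat_lit 228) (nat_lit 32415179218) (nat_lit 94) (nat_lit 5) (nat_lit 96) (nat_lit 5) (nat_lit 97) (nat_lit 5) (nat_lit 530) (nat_lit 444) (nat_lit 226)) (XT.lf (nat_lit 0) (nat_lit 6455648385) (nat_lit 152) (nat_lit 47466142131) (nat_lit 228) (nat_lit 14944794221) (nat_lit 92) (nat_lit 5) (nat_lit 94) (nat_lit 5) (nat_lit 95) (nat_lit 5) (nat_lit 531) (nat_lit 444) (nat_lit 225))) (XT.nd (nat_lit 78) (nat_lit 152) (nat_lit 0) (XT.lf (nat_lit 0) (nat_lit 3345051659) (nat_lit 228) (nat_lit 21751031477) (nat_lit 76) (nat_lit 45142067837) (nat_lit 91) (nat_lit 5) (nat_lit 94) (nat_lit 5) (nat_lit 92) (nat_lit 5) (nat_lit 532) (nat_lit 444) (nat_lit 224)) (XT.lf (nat_lit 0) (nat_lit 20374551012) (nat_lit 152) (nat_lit 1702450040) (nat_lit 228) (nat_lit 49563610662) (nat_lit 89) (nat_lit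 5) (nat_lit 91) (nat_lit 5) (nat_lit 92) (nat_lit 5) (nat_lit 533) (nat_lit 444) (nat_lit 223)))) (XT.nd (nat_lit 156) (nat_lit 228) (nat_lit 0) (XT.nd (nat_lit 78) (nat_lit 152) (nat_lit 0) (XT.lf (nat_lit 0) (nat_lit 41805921434) (nat_lit 228) (nat_lit 9089952105) (nat_lit 76) (nat_lit 22176222439) (nat_lit 89) (nat_lit 5) (nat_lit 92) (nat_lit 5) (nat_lit 90) (nat_lit 5) (nat_lit 534) (nat_lit 444) (nat_lit 222)) (XT.lf (nat_lit 0) (nat_lit 35014204939) (nat_lit 152) (nat_lit 27463938306) (nat_lit 228) (nat_lit 12057838584) (nat_lit 87) (nat_lit 5) (nat_lit 89) (nat_lit 5) (nat_lit 90) (nat_lit 5) (nat_lit 535) (nat_lit 444) (nat_lit 221))) (XT.nd (nat_lit 78) (nat_lit 0) (nat_lit 0) (XT.lf (nat_lit 0) (nat_lit 4597689396) (nat_lit 152) (nat_lit 3113180664) (nat_lit 228) (nat_lit 68326639059) (nat_lit 84) (nat_lit 5) (nat_lit 86) (nat_lit 5) (nat_lit 87) (nat_lit 5) (nat_lit 536) (nat_lit 444) (nat_lit 220))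 (XT.lf (nat_lit 0) (nat_lit 28442515865) (nat_lit 228) (nat_lit 27059363118) (nat_lit 76) (nat_lit 22060254981) (nat_lit 84) (nat_lit 5) (nat_lit 87) (nat_lit 5) (nat_lit 85) (nat_lit 5) (nat_lit 537) (nat_lit 444) (nat_lit 219))))) (XT.nd (nat_lit 312) (nat_lit 456) (nat_lit 0) (XT.nd (nat_lit 156) (nat_lit 152) (nat_lit 0) (XT.nd (nat_lit 78) (nat_lit 0) (nat_lit 0) (XT.lf (nat_lit 0) (nat_lit 18988683110) (nat_lit 152) (nat_lit 31018852089) (nat_lit 228) (nat_lit 29118619695) (nat_lit 82) (nat_lit 5) (nat_lit 84) (nat_lit 5) (nat_lit 85) (nat_lit 5) (nat_lit 538) (nat_lit 444) (nat_lit 218)) (XT.lf (nat_lit 0) (nat_lit 66969357721) (nat_lit 152) (nat_lit 5521486194) (nat_lit 228) (nat_lit 8238112437) (nat_lit 82) (nat_lit 5) (nat_lit 84) (nat_lit 5) (nat_lit 85) (nat_lit 5) (nat_lit 539) (nat_lit 444) (nat_lit 217))) (XT.nd (nat_lit 78) (nat_lit 0) (nat_lit 0) (XT.lf (nat_lit 0) (nat_lit 13544070183) (nat_lit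 152) (nat_lit 48017141698) (nat_lit 76) (nat_lit 20798778121) (nat_lit 80) (nat_lit 5) (nat_lit 82) (nat_lit 5) (nat_lit 81) (nat_lit 5) (nat_lit 540) (nat_lit 444) (nat_lit 216)) (XT.lf (nat_lit 0) (nat_lit 36007265467) (nat_lit 152) (nat_lit 6414241) (nat_lit 76) (nat_lit 48018034295) (nat_lit 80) (nat_lit 5) (nat_lit 82) (nat_lit 5) (nat_lit 81) (nat_lit 5) (nat_lit 541) (nat_lit 444) (nat_lit 215)))) (XT.nd (nat_lit 156) (nat_lit 228) (nat_lit 0) (XT.nd (nat_lit 78) (nat_lit 76) (nat_lit 0) (XT.lf (nat_lit 0) (nat_lit 50425268491) (nat_lit 152) (nat_lit 9201997180) (nat_lit 228) (nat_lit 26111836837) (nat_lit 78) (nat_lit 5) (nat_lit 80) (nat_lit 5) (nat_lit 81) (nat_lit 5) (nat_lit 542) (nat_lit 444) (nat_lit 214)) (XT.lf (nat_lit 0) (nat_lit 14984362296) (nat_lit 76) (nat_lit 69290811582) (nat_lit 152) (nat_lit 3212959605) (nat_lit 77) (nat_lit 5) (nat_lit 78) (nat_lit 5) (nat_lit 79) (nat_lit 4) (nat_lit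 543) (nat_lit 444) (nat_lit 213))) (XT.nd (nat_lit 78) (nat_lit 152) (nat_lit 0) (XT.lf (nat_lit 0) (nat_lit 20424775327) (nat_lit 152) (nat_lit 22057364557) (nat_lit 76) (nat_lit 46788137264) (nat_lit 76) (nat_lit 5) (nat_lit 78) (nat_lit 5) (nat_lit 77) (nat_lit 5) (nat_lit 544) (nat_lit 444) (nat_lit 212)) (XT.lf (nat_lit 0) (nat_lit 30461785186) (nat_lit 152) (nat_lit 14536349234) (nat_lit 228) (nat_lit 46098064326) (nat_lit 74) (nat_lit 5) (nat_lit 76) (nat_lit 5) (nat_lit 77) (nat_lit 5) (nat_lit 545) (nat_lit 444) (nat_lit 211))))))))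
noncomputable def xc191 : XT := (XT.nd (nat_lit 56862) (nat_lit 0) (nat_lit 5244) (XT.nd (nat_lit 55692) (nat_lit 0) (nat_lit 12312) (XT.nd (nat_lit 55068) (nat_lit 0) (nat_lit 16872) (XT.nd (nat_lit 54756) (nat_lit 0) (nat_lit 16720) (XT.nd (nat_lit 54600) (nat_lit 0) (nat_lit 16644) (XT.lf (nat_lit 0) (nat_lit 70668852070) (nat_lit 228) (nat_lit 8103978484) (nat_lit 76) (nat_lit 14193262753) (nat_lit 74) (nat_lit 5) (nat_lit 77) (nat_lit 5) (nat_lit 75) (nat_lit 4) (nat_lit 546) (nat_lit 444) (nat_lit 210)) (XT.nd (nat_lit 78) (nat_lit 0) (nat_lit 0) (XT.lf (nat_lit 0) (nat_lit 699305103) (nat_lit 1292) (nat_lit 3537726454) (nat_lit 1292) (nat_lit 3537726454) (nat_lit 293) (nat_lit 3) (nat_lit 310) (nat_lit 3) (nat_lit 310) (nat_lit 5) (nat_lit 445) (nat_lit 445) (nat_lit 310)) (XT.lf (nat_lit 76) (nat_lit 618364519) (nat_lit 0) (nat_lit 1082515964) (nat_lit 1292) (nat_lit 14073401267) (nat_lit 294) (nat_lit 5)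 (nat_lit 293) (nat_lit 3) (nat_lit 310) (nat_lit 5) (nat_lit 446) (nat_lit 445) (nat_lit 309)))) (XT.nd (nat_lit 156) (nat_lit 0) (nat_lit 76) (XT.nd (nat_lit 78) (nat_lit 0) (nat_lit 0) (XT.lf (nat_lit 0) (nat_lit 2136401573) (nat_lit 1216) (nat_lit 7385116087) (nat_lit 1292) (nat_lit 6480548802) (nat_lit 294) (nat_lit 5) (nat_lit 310) (nat_lit 5) (nat_lit 311) (nat_lit 5) (nat_lit 447) (nat_lit 445) (nat_lit 308)) (XT.lf (nat_lit 76) (nat_lit 614232174) (nat_lit 0) (nat_lit 1976940870) (nat_lit 1292) (nat_lit 13645327578) (nat_lit 295) (nat_lit 5) (nat_lit 294) (nat_lit 5) (nat_lit 311) (nat_lit 5) (nat_lit 448) (nat_lit 445) (nat_lit 307))) (XT.nd (nat_lit 78) (nat_lit 0) (nat_lit 0) (XT.lf (nat_lit 0) (nat_lit 3180449518) (nat_lit 1216) (nat_lit 7533352528) (nat_lit 1292) (nat_lit 5760541317) (nat_lit 295) (nat_lit 5) (nat_lit 311) (nat_lit 5) (nat_lit 312) (nat_lit 5) (nat_lit 449) (nat_lit 445) (nat_lit 306))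 (XT.lf (nat_lit 76) (nat_lit 788077256) (nat_lit 0) (nat_lit 3016624803) (nat_lit 1292) (nat_lit 12914101758) (nat_lit 296) (nat_lit 5) (nat_lit 295) (nat_lit 5) (nat_lit 312) (nat_lit 5) (nat_lit 450) (nat_lit 445) (nat_lit 305))))) (XT.nd (nat_lit 312) (nat_lit 0) (nat_lit 152) (XT.nd (nat_lit 156) (nat_lit 0) (nat_lit 76) (XT.nd (nat_lit 78) (nat_lit 0) (nat_lit 0) (XT.lf (nat_lit 0) (nat_lit 4562134104) (nat_lit 1216) (nat_lit 7508930359) (nat_lit 1292) (nat_lit 4896101392) (nat_lit 296) (nat_lit 5) (nat_lit 312) (nat_lit 5) (nat_lit 313) (nat_lit 5) (nat_lit 451) (nat_lit 445) (nat_lit 304)) (XT.lf (nat_lit 76) (nat_lit 1152089405) (nat_lit 0) (nat_lit 4221835667) (nat_lit 1292) (nat_lit 11848105892) (nat_lit 297) (nat_lit 5) (nat_lit 296) (nat_lit 5) (nat_lit 313) (nat_lit 5) (nat_lit 452) (nat_lit 445) (nat_lit 303))) (XT.nd (nat_lit 78) (nat_lit 0) (nat_lit 0) (XT.lf (nat_lit 0) (nat_lit 6314715460) (nat_lit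 1216) (nat_lit 7299573618) (nat_lit 1292) (nat_lit 3867114829) (nat_lit 297) (nat_lit 5) (nat_lit 313) (nat_lit 5) (nat_lit 314) (nat_lit 5) (nat_lit 453) (nat_lit 445) (nat_lit 302)) (XT.lf (nat_lit 76) (nat_lit 1719554056) (nat_lit 0) (nat_lit 5613706425) (nat_lit 1292) (nat_lit 10413812844) (nat_lit 298) (nat_lit 5) (nat_lit 297) (nat_lit 5) (nat_lit 314) (nat_lit 5) (nat_lit 454) (nat_lit 445) (nat_lit 301)))) (XT.nd (nat_lit 156) (nat_lit 0) (nat_lit 76) (XT.nd (nat_lit 78) (nat_lit 0) (nat_lit 0) (XT.lf (nat_lit 0) (nat_lit 8473478244) (nat_lit 1216) (nat_lit 6891922488) (nat_lit 1292) (nat_lit 2652579781) (nat_lit 298) (nat_lit 5) (nat_lit 314) (nat_lit 5) (nat_lit 315) (nat_lit 5) (nat_lit 455) (nat_lit 445) (nat_lit 300)) (XT.lf (nat_lit 76) (nat_lit 2504895285) (nat_lit 0) (nat_lit 7214340766) (nat_lit 1292) (nat_lit 8575640005) (nat_lit 299) (nat_lit 5) (nat_lit 298) (nat_lit 5) (nat_lit 315) (nat_lit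 5) (nat_lit 456) (nat_lit 445) (nat_lit 299))) (XT.nd (nat_lit 78) (nat_lit 0) (nat_lit 0) (XT.lf (nat_lit 0) (nat_lit 11075882936) (nat_lit 1216) (nat_lit 6271489437) (nat_lit 1292) (nat_lit 1230501715) (nat_lit 299) (nat_lit 5) (nat_lit 315) (nat_lit 5) (nat_lit 316) (nat_lit 5) (nat_lit 457) (nat_lit 445) (nat_lit 298)) (XT.lf (nat_lit 76) (nat_lit 3523722903) (nat_lit 0) (nat_lit 9046921672) (nat_lit 1292) (nat_lit 6295796104) (nat_lit 300) (nat_lit 5) (nat_lit 299) (nat_lit 5) (nat_lit 316) (nat_lit 5) (nat_lit 458) (nat_lit 445) (nat_lit 297)))))) (XT.nd (nat_lit 546) (nat_lit 2888) (nat_lit 0) (XT.nd (nat_lit 234) (nat_lit 1900) (nat_lit 0) (XT.nd (nat_lit 78) (nat_lit 0) (nat_lit 76) (XT.lf (nat_lit 76) (nat_lit 13735246297) (nat_lit 0) (nat_lit 430617569) (nat_lit 1292) (nat_lit 4996133004) (nat_lit 300) (nat_lit 5) (nat_lit 299) (nat_lit 5) (nat_lit 316) (nat_lit 5) (nat_lit 459) (nat_lit 445) (nat_lit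 296)) (XT.nd (nat_lit 78) (nat_lit 0) (nat_lit 0) (XT.lf (nat_lit 76) (nat_lit 4792883841) (nat_lit 0) (nat_lit 11135823401) (nat_lit 1292) (nat_lit 3534120498) (nat_lit 301) (nat_lit 5) (nat_lit 300) (nat_lit 5) (nat_lit 317) (nat_lit 5) (nat_lit 460) (nat_lit 445) (nat_lit 295)) (XT.lf (nat_lit 76) (nat_lit 15419894784) (nat_lit 0) (nat_lit 2376246228) (nat_lit 1292) (nat_lit 1974992360) (nat_lit 301) (nat_lit 5) (nat_lit 300) (nat_lit 5) (nat_lit 317) (nat_lit 5) (nat_lit 461) (nat_lit 445) (nat_lit 294)))) (XT.nd (nat_lit 156) (nat_lit 760) (nat_lit 0) (XT.nd (nat_lit 78) (nat_lit 76) (nat_lit 0) (XT.lf (nat_lit 0) (nat_lit 6330517898) (nat_lit 1216) (nat_lit 13506727449) (nat_lit 1292) (nat_lit 247914357) (nat_lit 285) (nat_lit 5) (nat_lit 301) (nat_lit 5) (nat_lit 302) (nat_lit 5) (nat_lit 462) (nat_lit 445) (nat_lit 293)) (XT.lf (nat_lit 0) (nat_lit 1561988834) (nat_lit 1292) (nat_lit 3030279143) (nat_lit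 76) (nat_lit 15814071622) (nat_lit 284) (nat_lit 5) (nat_lit 301) (nat_lit 5) (nat_lit 285) (nat_lit 5) (nat_lit 463) (nat_lit 445) (nat_lit 292))) (XT.nd (nat_lit 78) (nat_lit 0) (nat_lit 0) (XT.lf (nat_lit 0) (nat_lit 3537827185) (nat_lit 836) (nat_lit 12613190713) (nat_lit 76) (nat_lit 4582565605) (nat_lit 274) (nat_lit 5) (nat_lit 285) (nat_lit 5) (nat_lit 275) (nat_lit 5) (nat_lit 464) (nat_lit 445) (nat_lit 291)) (XT.lf (nat_lit 0) (nat_lit 5642649504) (nat_lit 836) (nat_lit 1453996297) (nat_lit 76) (nat_lit 13971908511) (nat_lit 274) (nat_lit 5) (nat_lit 285) (nat_lit 5) (nat_lit 275) (nat_lit 5) (nat_lit 465) (nat_lit 445) (nat_lit 290))))) (XT.nd (nat_lit 312) (nat_lit 1140) (nat_lit 0) (XT.nd (nat_lit 156) (nat_lit 532) (nat_lit 0) (XT.nd (nat_lit 78) (nat_lit 608) (nat_lit 0) (XT.lf (nat_lit 0) (nat_lit 7924928825) (nat_lit 684) (nat_lit 11199577498) (nat_lit 76) (nat_lit 2285639379) (nat_lit 266) (nat_lit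 5) (nat_lit 275) (nat_lit 5) (nat_lit 267) (nat_lit 5) (nat_lit 466) (nat_lit 445) (nat_lit 289)) (XT.lf (nat_lit 0) (nat_lit 425059931) (nat_lit 608) (nat_lit 9933460933) (nat_lit 684) (nat_lit 11400979443) (nat_lit 258) (nat_lit 5) (nat_lit 266) (nat_lit 5) (nat_lit 267) (nat_lit 5) (nat_lit 467) (nat_lit 445) (nat_lit 288))) (XT.nd (nat_lit 78) (nat_lit 532) (nat_lit 0) (XT.lf (nat_lit 0) (nat_lit 12621921089) (nat_lit 608) (nat_lit 350085918) (nat_lit 684) (nat_lit 9144122733) (nat_lit 258) (nat_lit 5) (nat_lit 266) (nat_lit 5) (nat_lit 267) (nat_lit 5) (nat_lit 468) (nat_lit 445) (nat_lit 287)) (XT.lf (nat_lit 0) (nat_lit 2655426492) (nat_lit 532) (nat_lit 13119490897) (nat_lit 608) (nat_lit 6705210833) (nat_lit 251) (nat_lit 5) (nat_lit 258) (nat_lit 5) (nat_lit 259) (nat_lit 5) (nat_lit 469) (nat_lit 445) (nat_lit 286)))) (XT.nd (nat_lit 156) (nat_lit 608) (nat_lit 0) (XT.nd (nat_lit 78) (nat_lit 532) (nat_lit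 0) (XT.lf (nat_lit 0) (nat_lit 15354596485) (nat_lit 532) (nat_lit 3400715547) (nat_lit 608) (nat_lit 4096933454) (nat_lit 251) (nat_lit 5) (nat_lit 258) (nat_lit 5) (nat_lit 259) (nat_lit 5) (nat_lit 470) (nat_lit 445) (nat_lit 285)) (XT.lf (nat_lit 0) (nat_lit 5231732923) (nat_lit 532) (nat_lit 16701474636) (nat_lit 608) (nat_lit 1299076751) (nat_lit 244) (nat_lit 5) (nat_lit 251) (nat_lit 5) (nat_lit 252) (nat_lit 5) (nat_lit 471) (nat_lit 445) (nat_lit 284))) (XT.nd (nat_lit 78) (nat_lit 532) (nat_lit 0) (XT.lf (nat_lit 0) (nat_lit 1656278727) (nat_lit 608) (nat_lit 5180487507) (nat_lit 76) (nat_lit 16783368888) (nat_lit 243) (nat_lit 5) (nat_lit 251) (nat_lit 5) (nat_lit 244) (nat_lit 5) (nat_lit 472) (nat_lit 445) (nat_lit 283)) (XT.lf (nat_lit 0) (nat_lit 4780002363) (nat_lit 608) (nat_lit 15885173550) (nat_lit 76) (nat_lit 3350885807) (nat_lit 236) (nat_lit 5) (nat_lit 244) (nat_lit 5) (nat_lit 237) (nat_lit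 5) (nat_lit 473) (nat_lit 445) (nat_lit 282))))))) (XT.nd (nat_lit 1170) (nat_lit 3344) (nat_lit 0) (XT.nd (nat_lit 546) (nat_lit 1748) (nat_lit 0) (XT.nd (nat_lit 234) (nat_lit 988) (nat_lit 0) (XT.nd (nat_lit 78) (nat_lit 988) (nat_lit 0) (XT.lf (nat_lit 0) (nat_lit 8112540864) (nat_lit 608) (nat_lit 2548720032) (nat_lit 76) (nat_lit 13759152758) (nat_lit 236) (nat_lit 5) (nat_lit 244) (nat_lit 5) (nat_lit 237) (nat_lit 5) (nat_lit 474) (nat_lit 445) (nat_lit 281)) (XT.nd (nat_lit 78) (nat_lit 456) (nat_lit 0) (XT.lf (nat_lit 0) (nat_lit 11404531124) (nat_lit 532) (nat_lit 244891228) (nat_lit 608) (nat_lit 13184343405) (nat_lit 229) (nat_lit 5) (nat_lit 236) (nat_lit 5) (nat_lit 237) (nat_lit 5) (nat_lit 475) (nat_lit 445) (nat_lit 280)) (XT.lf (nat_lit 0) (nat_lit 472127801) (nat_lit 456) (nat_lit 14946422275) (nat_lit 532) (nat_lit 9837184749) (nat_lit 223) (nat_lit 5) (nat_lit 229) (nat_lit 5) (nat_lit 230)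 (nat_lit 5) (nat_lit 476) (nat_lit 445) (nat_lit 279)))) (XT.nd (nat_lit 156) (nat_lit 532) (nat_lit 0) (XT.nd (nat_lit 78) (nat_lit 456) (nat_lit 0) (XT.lf (nat_lit 0) (nat_lit 15057470759) (nat_lit 456) (nat_lit 4376215979) (nat_lit 532) (nat_lit 6252688756) (nat_lit 223) (nat_lit 5) (nat_lit 229) (nat_lit 5) (nat_lit 230) (nat_lit 5) (nat_lit 477) (nat_lit 445) (nat_lit 278)) (XT.lf (nat_lit 0) (nat_lit 3959266108) (nat_lit 456) (nat_lit 19705724548) (nat_lit 532) (nat_lit 2462073895) (nat_lit 217) (nat_lit 5) (nat_lit 223) (nat_lit 5) (nat_lit 224) (nat_lit 5) (nat_lit 478) (nat_lit 445) (nat_lit 277))) (XT.nd (nat_lit 78) (nat_lit 456) (nat_lit 0) (XT.lf (nat_lit 0) (nat_lit 1560943592) (nat_lit 532) (nat_lit 7438929651) (nat_lit 76) (nat_lit 17576280815) (nat_lit 216) (nat_lit 5) (nat_lit 223) (nat_lit 5) (nat_lit 217) (nat_lit 5) (nat_lit 479) (nat_lit 445) (nat_lit 276)) (XT.lf (nat_lit 0) (nat_lit 5746387103)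 (nat_lit 532) (nat_lit 19201333989) (nat_lit 76) (nat_lit 2087527743) (nat_lit 210) (nat_lit 5) (nat_lit 217) (nat_lit 5) (nat_lit 211) (nat_lit 5) (nat_lit 480) (nat_lit 445) (nat_lit 275))))) (XT.nd (nat_lit 312) (nat_lit 912) (nat_lit 0) (XT.nd (nat_lit 156) (nat_lit 380) (nat_lit 0) (XT.nd (nat_lit 78) (nat_lit 456) (nat_lit 0) (XT.lf (nat_lit 0) (nat_lit 10217686237) (nat_lit 532) (nat_lit 3884066586) (nat_lit 76) (nat_lit 13401555364) (nat_lit 210) (nat_lit 5) (nat_lit 217) (nat_lit 5) (nat_lit 211) (nat_lit 5) (nat_lit 481) (nat_lit 445) (nat_lit 274)) (XT.lf (nat_lit 0) (nat_lit 12123676277) (nat_lit 456) (nat_lit 2811446814) (nat_lit 532) (nat_lit 13046926751) (nat_lit 204) (nat_lit 5) (nat_lit 210) (nat_lit 5) (nat_lit 211) (nat_lit 5) (nat_lit 482) (nat_lit 445) (nat_lit 273))) (XT.nd (nat_lit 78) (nat_lit 0) (nat_lit 0) (XT.lf (nat_lit 0) (nat_lit 128974617) (nat_lit 380) (nat_lit 19786244620) (nat_lit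 456) (nat_lit 8556300895) (nat_lit 199) (nat_lit 5) (nat_lit 204) (nat_lit 5) (nat_lit 205) (nat_lit 5) (nat_lit 483) (nat_lit 445) (nat_lit 272)) (XT.lf (nat_lit 0) (nat_lit 16887002191) (nat_lit 380) (nat_lit 8341020665) (nat_lit 456) (nat_lit 3742152996) (nat_lit 199) (nat_lit 5) (nat_lit 204) (nat_lit 5) (nat_lit 205) (nat_lit 5) (nat_lit 484) (nat_lit 445) (nat_lit 271)))) (XT.nd (nat_lit 156) (nat_lit 380) (nat_lit 0) (XT.nd (nat_lit 78) (nat_lit 0) (nat_lit 0) (XT.lf (nat_lit 0) (nat_lit 1267622021) (nat_lit 532) (nat_lit 24776687295) (nat_lit 76) (nat_lit 3436883387) (nat_lit 192) (nat_lit 5) (nat_lit 199) (nat_lit 5) (nat_lit 193) (nat_lit 5) (nat_lit 485) (nat_lit 445) (nat_lit 270)) (XT.lf (nat_lit 0) (nat_lit 6554034397) (nat_lit 532) (nat_lit 7886830255) (nat_lit 76) (nat_lit 15559517568) (nat_lit 192) (nat_lit 5) (nat_lit 199) (nat_lit 5) (nat_lit 193) (nat_lit 5) (nat_lit 486) (nat_lit 445) (nat_lit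 269))) (XT.nd (nat_lit 78) (nat_lit 0) (nat_lit 0) (XT.lf (nat_lit 0) (nat_lit 9693424388) (nat_lit 380) (nat_lit 2394666569) (nat_lit 456) (nat_lit 18444385316) (nat_lit 187) (nat_lit 5) (nat_lit 192) (nat_lit 5) (nat_lit 193) (nat_lit 5) (nat_lit 487) (nat_lit 445) (nat_lit 268)) (XT.lf (nat_lit 0) (nat_lit 17960777690) (nat_lit 456) (nat_lit 3217931338) (nat_lit 76) (nat_lit 9896646261) (nat_lit 187) (nat_lit 5) (nat_lit 193) (nat_lit 5) (nat_lit 188) (nat_lit 5) (nat_lit 488) (nat_lit 445) (nat_lit 267)))))) (XT.nd (nat_lit 624) (nat_lit 1520) (nat_lit 0) (XT.nd (nat_lit 312) (nat_lit 684) (nat_lit 0) (XT.nd (nat_lit 156) (nat_lit 456) (nat_lit 0) (XT.nd (nat_lit 78) (nat_lit 304) (nat_lit 0) (XT.lf (nat_lit 0) (nat_lit 15199360363) (nat_lit 380) (nat_lit 8976146516) (nat_lit 456) (nat_lit 7454038325) (nat_lit 182) (nat_lit 5) (nat_lit 187) (nat_lit 5) (nat_lit 188) (nat_lit 5) (nat_lit 489) (nat_lit 445) (nat_lit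 266)) (XT.lf (nat_lit 0) (nat_lit 2035210326) (nat_lit 304) (nat_lit 28624478539) (nat_lit 380) (nat_lit 1538181995) (nat_lit 178) (nat_lit 5) (nat_lit 182) (nat_lit 5) (nat_lit 183) (nat_lit 5) (nat_lit 490) (nat_lit 445) (nat_lit 265))) (XT.nd (nat_lit 78) (nat_lit 380) (nat_lit 0) (XT.lf (nat_lit 0) (nat_lit 4718812103) (nat_lit 380) (nat_lit 11526624088) (nat_lit 76) (nat_lit 16528920356) (nat_lit 177) (nat_lit 5) (nat_lit 182) (nat_lit 5) (nat_lit 178) (nat_lit 5) (nat_lit 491) (nat_lit 445) (nat_lit 264)) (XT.lf (nat_lit 0) (nat_lit 7800209163) (nat_lit 380) (nat_lit 3403605654) (nat_lit 456) (nat_lit 22161729000) (nat_lit 172) (nat_lit 5) (nat_lit 177) (nat_lit 5) (nat_lit 178) (nat_lit 5) (nat_lit 492) (nat_lit 445) (nat_lit 263)))) (XT.nd (nat_lit 156) (nat_lit 380) (nat_lit 0) (XT.nd (nat_lit 78) (nat_lit 304) (nat_lit 0) (XT.lf (nat_lit 0) (nat_lit 18091625074) (nat_lit 456) (nat_lit 6128734993) (nat_lit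 76) (nat_lit 9747859246) (nat_lit 172) (nat_lit 5) (nat_lit 178) (nat_lit 5) (nat_lit 173) (nat_lit 5) (nat_lit 493) (nat_lit 445) (nat_lit 262)) (XT.lf (nat_lit 0) (nat_lit 14127792025) (nat_lit 304) (nat_lit 11224169447) (nat_lit 380) (nat_lit 9232037168) (nat_lit 168) (nat_lit 5) (nat_lit 172) (nat_lit 5) (nat_lit 173) (nat_lit 5) (nat_lit 494) (nat_lit 445) (nat_lit 261))) (XT.nd (nat_lit 78) (nat_lit 380) (nat_lit 0) (XT.lf (nat_lit 0) (nat_lit 32909819529) (nat_lit 380) (nat_lit 125338348) (nat_lit 76) (nat_lit 2180702434) (nat_lit 168) (nat_lit 5) (nat_lit 173) (nat_lit 5) (nat_lit 169) (nat_lit 5) (nat_lit 495) (nat_lit 445) (nat_lit 260)) (XT.lf (nat_lit 0) (nat_lit 5047201460) (nat_lit 380) (nat_lit 14795606606) (nat_lit 76) (nat_lit 16013067672) (nat_lit 163) (nat_lit 5) (nat_lit 168) (nat_lit 5) (nat_lit 164) (nat_lit 5) (nat_lit 496) (nat_lit 445) (nat_lit 259))))) (XT.nd (nat_lit 312) (nat_lit 912)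 (nat_lit 0) (XT.nd (nat_lit 156) (nat_lit 304) (nat_lit 0) (XT.nd (nat_lit 78) (nat_lit 0) (nat_lit 0) (XT.lf (nat_lit 0) (nat_lit 6467249917) (nat_lit 304) (nat_lit 6167439187) (nat_lit 380) (nat_lit 23877917929) (nat_lit 159) (nat_lit 5) (nat_lit 163) (nat_lit 5) (nat_lit 164) (nat_lit 5) (nat_lit 497) (nat_lit 445) (nat_lit 258)) (XT.lf (nat_lit 0) (nat_lit 20673390311) (nat_lit 380) (nat_lit 8595966490) (nat_lit 76) (nat_lit 7912976074) (nat_lit 159) (nat_lit 5) (nat_lit 164) (nat_lit 5) (nat_lit 160) (nat_lit 5) (nat_lit 498) (nat_lit 445) (nat_lit 257))) (XT.nd (nat_lit 78) (nat_lit 0) (nat_lit 0) (XT.lf (nat_lit 0) (nat_lit 13698189503) (nat_lit 304) (nat_lit 15444490095) (nat_lit 380) (nat_lit 8723788352) (nat_lit 155) (nat_lit 5) (nat_lit 159) (nat_lit 5) (nat_lit 160) (nat_lit 5) (nat_lit 499) (nat_lit 445) (nat_lit 256)) (XT.lf (nat_lit 0) (nat_lit 36832474013) (nat_lit 304) (nat_lit 1117113189) (nat_lit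 380) (nat_lit 619033948) (nat_lit 155) (nat_lit 5) (nat_lit 159) (nat_lit 5) (nat_lit 160) (nat_lit 5) (nat_lit 500) (nat_lit 445) (nat_lit 255)))) (XT.nd (nat_lit 156) (nat_lit 228) (nat_lit 0) (XT.nd (nat_lit 78) (nat_lit 304) (nat_lit 0) (XT.lf (nat_lit 0) (nat_lit 7917472947) (nat_lit 380) (nat_lit 17703811227) (nat_lit 76) (nat_lit 13658143347) (nat_lit 150) (nat_lit 5) (nat_lit 155) (nat_lit 5) (nat_lit 151) (nat_lit 5) (nat_lit 501) (nat_lit 445) (nat_lit 254)) (XT.lf (nat_lit 0) (nat_lit 5700302127) (nat_lit 304) (nat_lit 11077723796) (nat_lit 380) (nat_lit 23230936742) (nat_lit 146) (nat_lit 5) (nat_lit 150) (nat_lit 5) (nat_lit 151) (nat_lit 5) (nat_lit 502) (nat_lit 445) (nat_lit 253))) (XT.nd (nat_lit 78) (nat_lit 228) (nat_lit 0) (XT.lf (nat_lit 0) (nat_lit 26119311150) (nat_lit 380) (nat_lit 10629738798) (nat_lit 76) (nat_lit 4004886676) (nat_lit 146) (nat_lit 5) (nat_lit 151) (nat_lit 5) (nat_lit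 147) (nat_lit 5) (nat_lit 503) (nat_lit 445) (nat_lit 252)) (XT.lf (nat_lit 0) (nat_lit 13916689284) (nat_lit 228) (nat_lit 22064555266) (nat_lit 304) (nat_lit 5532803190) (nat_lit 143) (nat_lit 5) (nat_lit 146) (nat_lit 5) (nat_lit 147) (nat_lit 5) (nat_lit 504) (nat_lit 445) (nat_lit 251))))))))
noncomputable def xc192 : XT := (XT.nd (nat_lit 2340) (nat_lit 1140) (nat_lit 0) (XT.nd (nat_lit 1170) (nat_lit 1748) (nat_lit 0) (XT.nd (nat_lit 546) (nat_lit 1216) (nat_lit 0) (XT.nd (nat_lit 234) (nat_lit 532) (nat_lit 0) (XT.nd (nat_lit 78) (nat_lit 532) (nat_lit 0) (XT.lf (nat_lit 0) (nat_lit 3872470419) (nat_lit 304) (nat_lit 2919087359) (nat_lit 76) (nat_lit 35501135572) (nat_lit 142) (nat_lit 5) (nat_lit 146) (nat_lit 5) (nat_lit 143) (nat_lit 5) (nat_lit 505) (nat_lit 445) (nat_lit 250)) (XT.nd (nat_lit 78) (nat_lit 228) (nat_lit 0) (XT.lf (nat_lit 0) (nat_lit 13754392741) (nat_lit 380) (nat_lit 20288447897) (nat_lit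 76) (nat_lit 9041043659) (nat_lit 138) (nat_lit 5) (nat_lit 143) (nat_lit 5) (nat_lit 139) (nat_lit 5) (nat_lit 506) (nat_lit 445) (nat_lit 249)) (XT.lf (nat_lit 0) (nat_lit 5478021650) (nat_lit 228) (nat_lit 18601502340) (nat_lit 304) (nat_lit 19814884644) (nat_lit 135) (nat_lit 5) (nat_lit 138) (nat_lit 5) (nat_lit 139) (nat_lit 5) (nat_lit 507) (nat_lit 445) (nat_lit 248)))) (XT.nd (nat_lit 156) (nat_lit 228) (nat_lit 0) (XT.nd (nat_lit 78) (nat_lit 304) (nat_lit 0) (XT.lf (nat_lit 0) (nat_lit 32428777209) (nat_lit 228) (nat_lit 2487627402) (nat_lit 304) (nat_lit 9806784423) (nat_lit 135) (nat_lit 5) (nat_lit 138) (nat_lit 5) (nat_lit 139) (nat_lit 5) (nat_lit 508) (nat_lit 445) (nat_lit 247)) (XT.lf (nat_lit 0) (nat_lit 769184598) (nat_lit 304) (nat_lit 30817074269) (nat_lit 76) (nat_lit 13982107132) (nat_lit 131) (nat_lit 5) (nat_lit 135) (nat_lit 5) (nat_lit 132) (nat_lit 5) (nat_lit 509) (nat_lit 445) (nat_lit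 246))) (XT.nd (nat_lit 78) (nat_lit 228) (nat_lit 0) (XT.lf (nat_lit 0) (nat_lit 11612535364) (nat_lit 304) (nat_lit 3702286766) (nat_lit 76) (nat_lit 31116747134) (nat_lit 131) (nat_lit 5) (nat_lit 135) (nat_lit 5) (nat_lit 132) (nat_lit 5) (nat_lit 510) (nat_lit 445) (nat_lit 245)) (XT.lf (nat_lit 0) (nat_lit 23032157604) (nat_lit 304) (nat_lit 22626263067) (nat_lit 76) (nat_lit 1654719001) (nat_lit 128) (nat_lit 5) (nat_lit 132) (nat_lit 5) (nat_lit 129) (nat_lit 5) (nat_lit 511) (nat_lit 445) (nat_lit 244))))) (XT.nd (nat_lit 312) (nat_lit 684) (nat_lit 0) (XT.nd (nat_lit 156) (nat_lit 304) (nat_lit 0) (XT.nd (nat_lit 78) (nat_lit 0) (nat_lit 0) (XT.lf (nat_lit 0) (nat_lit 5739126133) (nat_lit 228) (nat_lit 29297101391) (nat_lit 304) (nat_lit 13177674065) (nat_lit 125) (nat_lit 5) (nat_lit 128) (nat_lit 5) (nat_lit 129) (nat_lit 5) (nat_lit 512) (nat_lit 445) (nat_lit 243)) (XT.lf (nat_lit 0) (nat_lit 35414901366)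 (nat_lit 228) (nat_lit 12211338529) (nat_lit 304) (nat_lit 1508672022) (nat_lit 125) (nat_lit 5) (nat_lit 128) (nat_lit 5) (nat_lit 129) (nat_lit 5) (nat_lit 513) (nat_lit 445) (nat_lit 242))) (XT.nd (nat_lit 78) (nat_lit 0) (nat_lit 0) (XT.lf (nat_lit 0) (nat_lit 10511819482) (nat_lit 304) (nat_lit 34023913580) (nat_lit 76) (nat_lit 5538593218) (nat_lit 121) (nat_lit 5) (nat_lit 125) (nat_lit 5) (nat_lit 122) (nat_lit 5) (nat_lit 514) (nat_lit 445) (nat_lit 241)) (XT.lf (nat_lit 0) (nat_lit 23120833984) (nat_lit 304) (nat_lit 4184119448) (nat_lit 76) (nat_lit 23728774738) (nat_lit 121) (nat_lit 5) (nat_lit 125) (nat_lit 5) (nat_lit 122) (nat_lit 5) (nat_lit 515) (nat_lit 445) (nat_lit 240)))) (XT.nd (nat_lit 156) (nat_lit 304) (nat_lit 0) (XT.nd (nat_lit 78) (nat_lit 152) (nat_lit 0) (XT.lf (nat_lit 0) (nat_lit 27074990625) (nat_lit 228) (nat_lit 9290874895) (nat_lit 304) (nat_lit 15648314345) (nat_lit 118) (nat_lit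 5) (nat_lit 121) (nat_lit 5) (nat_lit 122) (nat_lit 5) (nat_lit 516) (nat_lit 445) (nat_lit 239)) (XT.lf (nat_lit 0) (nat_lit 6365386838) (nat_lit 152) (nat_lit 43833268742) (nat_lit 228) (nat_lit 2819677443) (nat_lit 116) (nat_lit 5) (nat_lit 118) (nat_lit 5) (nat_lit 119) (nat_lit 5) (nat_lit 517) (nat_lit 445) (nat_lit 238))) (XT.nd (nat_lit 78) (nat_lit 228) (nat_lit 0) (XT.lf (nat_lit 0) (nat_lit 10534827134) (nat_lit 228) (nat_lit 15123354428) (nat_lit 76) (nat_lit 28381117112) (nat_lit 115) (nat_lit 5) (nat_lit 118) (nat_lit 5) (nat_lit 116) (nat_lit 5) (nat_lit 518) (nat_lit 445) (nat_lit 237)) (XT.lf (nat_lit 0) (nat_lit 17664800839) (nat_lit 228) (nat_lit 6735880875) (nat_lit 304) (nat_lit 30684352553) (nat_lit 112) (nat_lit 5) (nat_lit 115) (nat_lit 5) (nat_lit 116) (nat_lit 5) (nat_lit 519) (nat_lit 445) (nat_lit 236)))))) (XT.nd (nat_lit 546) (nat_lit 912) (nat_lit 0) (XT.nd (nat_lit 234) (nat_lit 380)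 (nat_lit 0) (XT.nd (nat_lit 78) (nat_lit 456) (nat_lit 0) (XT.lf (nat_lit 0) (nat_lit 38956938114) (nat_lit 304) (nat_lit 4539183633) (nat_lit 76) (nat_lit 12657787519) (nat_lit 112) (nat_lit 5) (nat_lit 116) (nat_lit 5) (nat_lit 113) (nat_lit 5) (nat_lit 520) (nat_lit 445) (nat_lit 235)) (XT.nd (nat_lit 78) (nat_lit 304) (nat_lit 0) (XT.lf (nat_lit 0) (nat_lit 29839883793) (nat_lit 152) (nat_lit 24461197296) (nat_lit 228) (nat_lit 2943233583) (nat_lit 110) (nat_lit 5) (nat_lit 112) (nat_lit 5) (nat_lit 113) (nat_lit 5) (nat_lit 521) (nat_lit 445) (nat_lit 234)) (XT.lf (nat_lit 0) (nat_lit 6996542173) (nat_lit 228) (nat_lit 4623741410) (nat_lit 304) (nat_lit 46740427139) (nat_lit 106) (nat_lit 5) (nat_lit 109) (nat_lit 5) (nat_lit 110) (nat_lit 5) (nat_lit 522) (nat_lit 445) (nat_lit 233)))) (XT.nd (nat_lit 156) (nat_lit 228) (nat_lit 0) (XT.nd (nat_lit 78) (nat_lit 152) (nat_lit 0) (XT.lf (nat_lit 0) (nat_lit 26990673413)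 (nat_lit 304) (nat_lit 16698859625) (nat_lit 76) (nat_lit 15807317803) (nat_lit 106) (nat_lit 5) (nat_lit 110) (nat_lit 5) (nat_lit 107) (nat_lit 5) (nat_lit 523) (nat_lit 445) (nat_lit 232)) (XT.lf (nat_lit 0) (nat_lit 19333995892) (nat_lit 152) (nat_lit 23717564270) (nat_lit 228) (nat_lit 17608633551) (nat_lit 104) (nat_lit 5) (nat_lit 106) (nat_lit 5) (nat_lit 107) (nat_lit 5) (nat_lit 524) (nat_lit 445) (nat_lit 231))) (XT.nd (nat_lit 78) (nat_lit 228) (nat_lit 0) (XT.lf (nat_lit 0) (nat_lit 56786276694) (nat_lit 152) (nat_lit 2974406142) (nat_lit 228) (nat_lit 2092761862) (nat_lit 104) (nat_lit 5) (nat_lit 106) (nat_lit 5) (nat_lit 107) (nat_lit 5) (nat_lit 525) (nat_lit 445) (nat_lit 230)) (XT.lf (nat_lit 0) (nat_lit 14111729404) (nat_lit 228) (nat_lit 30468290718) (nat_lit 76) (nat_lit 18483643228) (nat_lit 101) (nat_lit 5) (nat_lit 104) (nat_lit 5) (nat_lit 102) (nat_lit 5) (nat_lit 526) (nat_lit 445) (nat_lit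 229))))) (XT.nd (nat_lit 312) (nat_lit 532) (nat_lit 0) (XT.nd (nat_lit 156) (nat_lit 228) (nat_lit 0) (XT.nd (nat_lit 78) (nat_lit 0) (nat_lit 0) (XT.lf (nat_lit 0) (nat_lit 7270389945) (nat_lit 152) (nat_lit 23638753401) (nat_lit 228) (nat_lit 33395958186) (nat_lit 99) (nat_lit 5) (nat_lit 101) (nat_lit 5) (nat_lit 102) (nat_lit 5) (nat_lit 527) (nat_lit 445) (nat_lit 228)) (XT.lf (nat_lit 0) (nat_lit 46762025592) (nat_lit 152) (nat_lit 1753989077) (nat_lit 228) (nat_lit 17058602234) (nat_lit 99) (nat_lit 5) (nat_lit 101) (nat_lit 5) (nat_lit 102) (nat_lit 5) (nat_lit 528) (nat_lit 445) (nat_lit 227))) (XT.nd (nat_lit 78) (nat_lit 0) (nat_lit 0) (XT.lf (nat_lit 0) (nat_lit 174585888) (nat_lit 228) (nat_lit 46114293949) (nat_lit 76) (nat_lit 20581368597) (nat_lit 96) (nat_lit 5) (nat_lit 99) (nat_lit 5) (nat_lit 97) (nat_lit 5) (nat_lit 529) (nat_lit 445) (nat_lit 226)) (XT.lf (nat_lit 0) (nat_lit 17789042865)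 (nat_lit 228) (nat_lit 6493715312) (nat_lit 76) (nat_lit 43910709880) (nat_lit 96) (nat_lit 5) (nat_lit 99) (nat_lit 5) (nat_lit 97) (nat_lit 5) (nat_lit 530) (nat_lit 445) (nat_lit 225)))) (XT.nd (nat_lit 156) (nat_lit 228) (nat_lit 0) (XT.nd (nat_lit 78) (nat_lit 152) (nat_lit 0) (XT.lf (nat_lit 0) (nat_lit 34994744810) (nat_lit 152) (nat_lit 1271557129) (nat_lit 228) (nat_lit 33280051360) (nat_lit 94) (nat_lit 5) (nat_lit 96) (nat_lit 5) (nat_lit 97) (nat_lit 5) (nat_lit 531) (nat_lit 445) (nat_lit 224)) (XT.lf (nat_lit 0) (nat_lit 6836644398) (nat_lit 152) (nat_lit 48806773018) (nat_lit 228) (nat_lit 15286041605) (nat_lit 92) (nat_lit 5) (nat_lit 94) (nat_lit 5) (nat_lit 95) (nat_lit 5) (nat_lit 532) (nat_lit 445) (nat_lit 223))) (XT.nd (nat_lit 78) (nat_lit 152) (nat_lit 0) (XT.lf (nat_lit 0) (nat_lit 3547351370) (nat_lit 228) (nat_lit 22219659175) (nat_lit 76) (nat_lit 46575222682) (nat_lit 91) (nat_lit 5)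 (nat_lit 94) (nat_lit 5) (nat_lit 92) (nat_lit 5) (nat_lit 533) (nat_lit 445) (nat_lit 222)) (XT.lf (nat_lit 0) (nat_lit 21167887816) (nat_lit 152) (nat_lit 1672152525) (nat_lit 228) (nat_lit 50946764129) (nat_lit 89) (nat_lit 5) (nat_lit 91) (nat_lit 5) (nat_lit 92) (nat_lit 5) (nat_lit 534) (nat_lit 445) (nat_lit 221))))))) (XT.nd (nat_lit 55770) (nat_lit 0) (nat_lit 15960) (XT.nd (nat_lit 546) (nat_lit 456) (nat_lit 0) (XT.nd (nat_lit 234) (nat_lit 304) (nat_lit 0) (XT.nd (nat_lit 78) (nat_lit 380) (nat_lit 0) (XT.lf (nat_lit 0) (nat_lit 43158653878) (nat_lit 228) (nat_lit 9183676220) (nat_lit 76) (nat_lit 22918968506) (nat_lit 89) (nat_lit 5) (nat_lit 92) (nat_lit 5) (nat_lit 90) (nat_lit 5) (nat_lit 535) (nat_lit 445) (nat_lit 220)) (XT.nd (nat_lit 78) (nat_lit 228) (nat_lit 0) (XT.lf (nat_lit 0) (nat_lit 36241850885) (nat_lit 152) (nat_lit 28208024475) (nat_lit 228) (nat_lit 12319260784) (nat_lit 87) (nat_lit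 5) (nat_lit 89) (nat_lit 5) (nat_lit 90) (nat_lit 5) (nat_lit 536) (nat_lit 445) (nat_lit 219)) (XT.lf (nat_lit 0) (nat_lit 4913044072) (nat_lit 152) (nat_lit 3126348365) (nat_lit 228) (nat_lit 70276322764) (nat_lit 84) (nat_lit 5) (nat_lit 86) (nat_lit 5) (nat_lit 87) (nat_lit 5) (nat_lit 537) (nat_lit 445) (nat_lit 218)))) (XT.nd (nat_lit 156) (nat_lit 152) (nat_lit 0) (XT.nd (nat_lit 78) (nat_lit 152) (nat_lit 0) (XT.lf (nat_lit 0) (nat_lit 29390905393) (nat_lit 228) (nat_lit 27696802275) (nat_lit 76) (nat_lit 22798433686) (nat_lit 84) (nat_lit 5) (nat_lit 87) (nat_lit 5) (nat_lit 85) (nat_lit 5) (nat_lit 538) (nat_lit 445) (nat_lit 217)) (XT.lf (nat_lit 0) (nat_lit 19730976107) (nat_lit 152) (nat_lit 31870788337) (nat_lit 228) (nat_lit 29895351887) (nat_lit 82) (nat_lit 5) (nat_lit 84) (nat_lit 5) (nat_lit 85) (nat_lit 5) (nat_lit 539) (nat_lit 445) (nat_lit 216))) (XT.nd (nat_lit 78) (nat_lit 152) (nat_lit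 0) (XT.lf (nat_lit 0) (nat_lit 69146042825) (nat_lit 152) (nat_lit 5610791639) (nat_lit 228) (nat_lit 8391249598) (nat_lit 82) (nat_lit 5) (nat_lit 84) (nat_lit 5) (nat_lit 85) (nat_lit 5) (nat_lit 540) (nat_lit 445) (nat_lit 215)) (XT.lf (nat_lit 0) (nat_lit 14042229394) (nat_lit 152) (nat_lit 49287876684) (nat_lit 76) (nat_lit 21497925661) (nat_lit 80) (nat_lit 5) (nat_lit 82) (nat_lit 5) (nat_lit 81) (nat_lit 5) (nat_lit 541) (nat_lit 445) (nat_lit 214))))) (XT.nd (nat_lit 312) (nat_lit 152) (nat_lit 0) (XT.nd (nat_lit 156) (nat_lit 152) (nat_lit 0) (XT.nd (nat_lit 78) (nat_lit 0) (nat_lit 0) (XT.lf (nat_lit 0) (nat_lit 161376608) (nat_lit 152) (nat_lit 37016820312) (nat_lit 228) (nat_lit 49371744331) (nat_lit 78) (nat_lit 5) (nat_lit 80) (nat_lit 5) (nat_lit 81) (nat_lit 5) (nat_lit 542) (nat_lit 445) (nat_lit 213)) (XT.lf (nat_lit 0) (nat_lit 52101244762) (nat_lit 152) (nat_lit 9402973113) (nat_lit 228) (nat_lit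 26804410995) (nat_lit 78) (nat_lit 5) (nat_lit 80) (nat_lit 5) (nat_lit 81) (nat_lit 5) (nat_lit 543) (nat_lit 445) (nat_lit 212))) (XT.nd (nat_lit 78) (nat_lit 76) (nat_lit 0) (XT.lf (nat_lit 0) (nat_lit 15597417290) (nat_lit 76) (nat_lit 71293851646) (nat_lit 152) (nat_lit 3218870748) (nat_lit 77) (nat_lit 5) (nat_lit 78) (nat_lit 5) (nat_lit 79) (nat_lit 4) (nat_lit 544) (nat_lit 445) (nat_lit 211)) (XT.lf (nat_lit 0) (nat_lit 21123646839) (nat_lit 152) (nat_lit 22558607627) (nat_lit 76) (nat_lit 48263544690) (nat_lit 76) (nat_lit 5) (nat_lit 78) (nat_lit 5) (nat_lit 77) (nat_lit 5) (nat_lit 545) (nat_lit 445) (nat_lit 210)))) (XT.nd (nat_lit 54756) (nat_lit 0) (nat_lit 16644) (XT.nd (nat_lit 54678) (nat_lit 0) (nat_lit 16644) (XT.lf (nat_lit 0) (nat_lit 31534543296) (nat_lit 152) (nat_lit 14898682308) (nat_lit 228) (nat_lit 47393302304) (nat_lit 74) (nat_lit 5) (nat_lit 76) (nat_lit 5) (nat_lit 77) (nat_lit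 5) (nat_lit 546) (nat_lit 445) (nat_lit 209)) (XT.lf (nat_lit 0) (nat_lit 992984478) (nat_lit 1292) (nat_lit 3503398677) (nat_lit 1292) (nat_lit 3503398677) (nat_lit 293) (nat_lit 3) (nat_lit 310) (nat_lit 3) (nat_lit 310) (nat_lit 5) (nat_lit 446) (nat_lit 446) (nat_lit 308))) (XT.nd (nat_lit 78) (nat_lit 0) (nat_lit 76) (XT.lf (nat_lit 76) (nat_lit 915080485) (nat_lit 0) (nat_lit 1369015299) (nat_lit 1292) (nat_lit 13947375138) (nat_lit 294) (nat_lit 5) (nat_lit 293) (nat_lit 3) (nat_lit 310) (nat_lit 5) (nat_lit 447) (nat_lit 446) (nat_lit 307)) (XT.lf (nat_lit 0) (nat_lit 2714811148) (nat_lit 1216) (nat_lit 7318663605) (nat_lit 1292) (nat_lit 6433152707) (nat_lit 294) (nat_lit 5) (nat_lit 310) (nat_lit 5) (nat_lit 311) (nat_lit 5) (nat_lit 448) (nat_lit 446) (nat_lit 306)))))) (XT.nd (nat_lit 546) (nat_lit 760) (nat_lit 0) (XT.nd (nat_lit 234) (nat_lit 0) (nat_lit 152) (XT.nd (nat_lit 78) (nat_lit 0) (nat_lit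 76) (XT.lf (nat_lit 76) (nat_lit 917841516) (nat_lit 0) (nat_lit 2253145473) (nat_lit 1292) (nat_lit 13537476902) (nat_lit 295) (nat_lit 5) (nat_lit 294) (nat_lit 5) (nat_lit 311) (nat_lit 5) (nat_lit 449) (nat_lit 446) (nat_lit 305)) (XT.nd (nat_lit 78) (nat_lit 0) (nat_lit 0) (XT.lf (nat_lit 0) (nat_lit 3761293889) (nat_lit 1216) (nat_lit 7465761775) (nat_lit 1292) (nat_lit 5726887704) (nat_lit 295) (nat_lit 5) (nat_lit 311) (nat_lit 5) (nat_lit 312) (nat_lit 5) (nat_lit 450) (nat_lit 446) (nat_lit 304)) (XT.lf (nat_lit 76) (nat_lit 1102432555) (nat_lit 0) (nat_lit 3290497199) (nat_lit 1292) (nat_lit 12813150173) (nat_lit 296) (nat_lit 5) (nat_lit 295) (nat_lit 5) (nat_lit 312) (nat_lit 5) (nat_lit 451) (nat_lit 446) (nat_lit 303)))) (XT.nd (nat_lit 156) (nat_lit 0) (nat_lit 76) (XT.nd (nat_lit 78) (nat_lit 0) (nat_lit 0) (XT.lf (nat_lit 0) (nat_lit 5157565053) (nat_lit 1216) (nat_lit 7436369449) (nat_lit 1292)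 (nat_lit 4868425821) (nat_lit 296) (nat_lit 5) (nat_lit 312) (nat_lit 5) (nat_lit 313) (nat_lit 5) (nat_lit 452) (nat_lit 446) (nat_lit 302)) (XT.lf (nat_lit 76) (nat_lit 1481561018) (nat_lit 0) (nat_lit 4501627259) (nat_lit 1292) (nat_lit 11742000602) (nat_lit 297) (nat_lit 5) (nat_lit 296) (nat_lit 5) (nat_lit 313) (nat_lit 5) (nat_lit 453) (nat_lit 446) (nat_lit 301))) (XT.nd (nat_lit 78) (nat_lit 0) (nat_lit 0) (XT.lf (nat_lit 0) (nat_lit 6937723342) (nat_lit 1216) (nat_lit 7217702588) (nat_lit 1292) (nat_lit 3837353247) (nat_lit 297) (nat_lit 5) (nat_lit 313) (nat_lit 5) (nat_lit 314) (nat_lit 5) (nat_lit 454) (nat_lit 446) (nat_lit 300)) (XT.lf (nat_lit 76) (nat_lit 2069049326) (nat_lit 0) (nat_lit 5908010920) (nat_lit 1292) (nat_lit 10289653109) (nat_lit 298) (nat_lit 5) (nat_lit 297) (nat_lit 5) (nat_lit 314) (nat_lit 5) (nat_lit 455) (nat_lit 446) (nat_lit 299))))) (XT.nd (nat_lit 312) (nat_lit 1064) (nat_lit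 0) (XT.nd (nat_lit 156) (nat_lit 0) (nat_lit 76) (XT.nd (nat_lit 78) (nat_lit 0) (nat_lit 0) (XT.lf (nat_lit 0) (nat_lit 9137965880) (nat_lit 1216) (nat_lit 6795873385) (nat_lit 1292) (nat_lit 2612315746) (nat_lit 298) (nat_lit 5) (nat_lit 314) (nat_lit 5) (nat_lit 315) (nat_lit 5) (nat_lit 456) (nat_lit 446) (nat_lit 298)) (XT.lf (nat_lit 76) (nat_lit 2879880228) (nat_lit 0) (nat_lit 7532148422) (nat_lit 1292) (nat_lit 8419602448) (nat_lit 299) (nat_lit 5) (nat_lit 298) (nat_lit 5) (nat_lit 315) (nat_lit 5) (nat_lit 457) (nat_lit 446) (nat_lit 297))) (XT.nd (nat_lit 78) (nat_lit 0) (nat_lit 0) (XT.lf (nat_lit 0) (nat_lit 11796742934) (nat_lit 1216) (nat_lit 6155843997) (nat_lit 1292) (nat_lit 1170912694) (nat_lit 299) (nat_lit 5) (nat_lit 315) (nat_lit 5) (nat_lit 316) (nat_lit 5) (nat_lit 458) (nat_lit 446) (nat_lit 296)) (XT.lf (nat_lit 76) (nat_lit 3930246378) (nat_lit 0) (nat_lit 9397674664) (nat_lit 1292)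 (nat_lit 6093056512) (nat_lit 300) (nat_lit 5) (nat_lit 299) (nat_lit 5) (nat_lit 316) (nat_lit 5) (nat_lit 459) (nat_lit 446) (nat_lit 295)))) (XT.nd (nat_lit 156) (nat_lit 1140) (nat_lit 0) (XT.nd (nat_lit 78) (nat_lit 0) (nat_lit 76) (XT.lf (nat_lit 76) (nat_lit 14439353966) (nat_lit 0) (nat_lit 520570409) (nat_lit 1292) (nat_lit 4765809737) (nat_lit 300) (nat_lit 5) (nat_lit 299) (nat_lit 5) (nat_lit 316) (nat_lit 5) (nat_lit 460) (nat_lit 446) (nat_lit 294)) (XT.lf (nat_lit 76) (nat_lit 5237604259) (nat_lit 0) (nat_lit 11529472584) (nat_lit 1292) (nat_lit 3268771811) (nat_lit 301) (nat_lit 5) (nat_lit 300) (nat_lit 5) (nat_lit 317) (nat_lit 5) (nat_lit 461) (nat_lit 446) (nat_lit 293))) (XT.nd (nat_lit 78) (nat_lit 1216) (nat_lit 0) (XT.lf (nat_lit 76) (nat_lit 16174660465) (nat_lit 0) (nat_lit 2505372916) (nat_lit 1292) (nat_lit 1673686497) (nat_lit 301) (nat_lit 5) (nat_lit 300) (nat_lit 5) (nat_lit 317)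 (nat_lit 5) (nat_lit 462) (nat_lit 446) (nat_lit 292)) (XT.lf (nat_lit 0) (nat_lit 95224344) (nat_lit 1292) (nat_lit 13857604881) (nat_lit 76) (nat_lit 6724546572) (nat_lit 284) (nat_lit 5) (nat_lit 301) (nat_lit 5) (nat_lit 285) (nat_lit 5) (nat_lit 463) (nat_lit 446) (nat_lit 291))))))))
noncomputable def xc193 : XT := (XT.nd (nat_lit 2340) (nat_lit 5016) (nat_lit 0) (XT.nd (nat_lit 1170) (nat_lit 3876) (nat_lit 0) (XT.nd (nat_lit 546) (nat_lit 2128) (nat_lit 0) (XT.nd (nat_lit 234) (nat_lit 1748) (nat_lit 0) (XT.nd (nat_lit 78) (nat_lit 760) (nat_lit 0) (XT.lf (nat_lit 0) (nat_lit 1944375975) (nat_lit 1292) (nat_lit 2822914137) (nat_lit 76) (nat_lit 16241130611) (nat_lit 284) (nat_lit 5) (nat_lit 301) (nat_lit 5) (nat_lit 285) (nat_lit 5) (nat_lit 464) (nat_lit 446) (nat_lit 290)) (XT.nd (nat_lit 78) (nat_lit 0) (nat_lit 0) (XT.lf (nat_lit 0) (nat_lit 3972236339) (nat_lit 836) (nat_lit 12686017935) (nat_lit 76)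 (nat_lit 4687446523) (nat_lit 274) (nat_lit 5) (nat_lit 285) (nat_lit 5) (nat_lit 275) (nat_lit 5) (nat_lit 465) (nat_lit 446) (nat_lit 289)) (XT.lf (nat_lit 0) (nat_lit 6130641939) (nat_lit 836) (nat_lit 1200947740) (nat_lit 76) (nat_lit 14359419116) (nat_lit 274) (nat_lit 5) (nat_lit 285) (nat_lit 5) (nat_lit 275) (nat_lit 5) (nat_lit 466) (nat_lit 446) (nat_lit 288)))) (XT.nd (nat_lit 156) (nat_lit 532) (nat_lit 0) (XT.nd (nat_lit 78) (nat_lit 608) (nat_lit 0) (XT.lf (nat_lit 0) (nat_lit 8474752763) (nat_lit 684) (nat_lit 11232219930) (nat_lit 76) (nat_lit 2336075527) (nat_lit 266) (nat_lit 5) (nat_lit 275) (nat_lit 5) (nat_lit 267) (nat_lit 5) (nat_lit 467) (nat_lit 446) (nat_lit 287)) (XT.lf (nat_lit 0) (nat_lit 738182652) (nat_lit 608) (nat_lit 10236967666) (nat_lit 684) (nat_lit 11427920365) (nat_lit 258) (nat_lit 5) (nat_lit 266) (nat_lit 5) (nat_lit 267) (nat_lit 5) (nat_lit 468) (nat_lit 446) (nat_lit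 286))) (XT.nd (nat_lit 78) (nat_lit 532) (nat_lit 0) (XT.lf (nat_lit 0) (nat_lit 13292200977) (nat_lit 608) (nat_lit 365931122) (nat_lit 684) (nat_lit 9112535288) (nat_lit 258) (nat_lit 5) (nat_lit 266) (nat_lit 5) (nat_lit 267) (nat_lit 5) (nat_lit 469) (nat_lit 446) (nat_lit 285)) (XT.lf (nat_lit 0) (nat_lit 3032761892) (nat_lit 532) (nat_lit 13506529989) (nat_lit 608) (nat_lit 6606470167) (nat_lit 251) (nat_lit 5) (nat_lit 258) (nat_lit 5) (nat_lit 259) (nat_lit 5) (nat_lit 470) (nat_lit 446) (nat_lit 284))))) (XT.nd (nat_lit 312) (nat_lit 988) (nat_lit 0) (XT.nd (nat_lit 156) (nat_lit 608) (nat_lit 0) (XT.nd (nat_lit 78) (nat_lit 532) (nat_lit 0) (XT.lf (nat_lit 0) (nat_lit 16104236908) (nat_lit 532) (nat_lit 3496382028) (nat_lit 608) (nat_lit 3928679329) (nat_lit 251) (nat_lit 5) (nat_lit 258) (nat_lit 5) (nat_lit 259) (nat_lit 5) (nat_lit 471) (nat_lit 446) (nat_lit 283)) (XT.lf (nat_lit 0) (nat_lit 5683224700)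 (nat_lit 532) (nat_lit 17185284781) (nat_lit 608) (nat_lit 1052390053) (nat_lit 244) (nat_lit 5) (nat_lit 251) (nat_lit 5) (nat_lit 252) (nat_lit 5) (nat_lit 472) (nat_lit 446) (nat_lit 282))) (XT.nd (nat_lit 78) (nat_lit 532) (nat_lit 0) (XT.lf (nat_lit 0) (nat_lit 1977894045) (nat_lit 608) (nat_lit 5044497117) (nat_lit 76) (nat_lit 17298158030) (nat_lit 243) (nat_lit 5) (nat_lit 251) (nat_lit 5) (nat_lit 244) (nat_lit 5) (nat_lit 473) (nat_lit 446) (nat_lit 281)) (XT.lf (nat_lit 0) (nat_lit 5190392132) (nat_lit 608) (nat_lit 16065355246) (nat_lit 76) (nat_lit 3472755264) (nat_lit 236) (nat_lit 5) (nat_lit 244) (nat_lit 5) (nat_lit 237) (nat_lit 5) (nat_lit 474) (nat_lit 446) (nat_lit 280)))) (XT.nd (nat_lit 156) (nat_lit 456) (nat_lit 0) (XT.nd (nat_lit 78) (nat_lit 532) (nat_lit 0) (XT.lf (nat_lit 0) (nat_lit 8615130389) (nat_lit 608) (nat_lit 2337440360) (nat_lit 76) (nat_lit 14192648587) (nat_lit 236) (nat_lit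 5) (nat_lit 244) (nat_lit 5) (nat_lit 237) (nat_lit 5) (nat_lit 475) (nat_lit 446) (nat_lit 279)) (XT.lf (nat_lit 0) (nat_lit 12031587337) (nat_lit 532) (nat_lit 221719910) (nat_lit 608) (nat_lit 13317809970) (nat_lit 229) (nat_lit 5) (nat_lit 236) (nat_lit 5) (nat_lit 237) (nat_lit 5) (nat_lit 476) (nat_lit 446) (nat_lit 278))) (XT.nd (nat_lit 78) (nat_lit 0) (nat_lit 0) (XT.lf (nat_lit 0) (nat_lit 775714495) (nat_lit 456) (nat_lit 15355451459) (nat_lit 532) (nat_lit 9874710548) (nat_lit 223) (nat_lit 5) (nat_lit 229) (nat_lit 5) (nat_lit 230) (nat_lit 5) (nat_lit 477) (nat_lit 446) (nat_lit 277)) (XT.lf (nat_lit 0) (nat_lit 15790187950) (nat_lit 456) (nat_lit 4469285484) (nat_lit 532) (nat_lit 6190182288) (nat_lit 223) (nat_lit 5) (nat_lit 229) (nat_lit 5) (nat_lit 230) (nat_lit 5) (nat_lit 478) (nat_lit 446) (nat_lit 276)))))) (XT.nd (nat_lit 546) (nat_lit 2052) (nat_lit 0) (XT.nd (nat_lit 234) (nat_lit 836)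 (nat_lit 0) (XT.nd (nat_lit 78) (nat_lit 532) (nat_lit 0) (XT.lf (nat_lit 0) (nat_lit 4363157921) (nat_lit 456) (nat_lit 20250584752) (nat_lit 532) (nat_lit 2289942799) (nat_lit 217) (nat_lit 5) (nat_lit 223) (nat_lit 5) (nat_lit 224) (nat_lit 5) (nat_lit 479) (nat_lit 446) (nat_lit 275)) (XT.nd (nat_lit 78) (nat_lit 456) (nat_lit 0) (XT.lf (nat_lit 0) (nat_lit 1841939955) (nat_lit 532) (nat_lit 7380602194) (nat_lit 76) (nat_lit 18143846090) (nat_lit 216) (nat_lit 5) (nat_lit 223) (nat_lit 5) (nat_lit 217) (nat_lit 5) (nat_lit 480) (nat_lit 446) (nat_lit 274)) (XT.lf (nat_lit 0) (nat_lit 6149273937) (nat_lit 532) (nat_lit 19492181167) (nat_lit 76) (nat_lit 2197911680) (nat_lit 210) (nat_lit 5) (nat_lit 217) (nat_lit 5) (nat_lit 211) (nat_lit 5) (nat_lit 481) (nat_lit 446) (nat_lit 273)))) (XT.nd (nat_lit 156) (nat_lit 380) (nat_lit 0) (XT.nd (nat_lit 78) (nat_lit 456) (nat_lit 0) (XT.lf (nat_lit 0) (nat_lit 10747998592)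 (nat_lit 532) (nat_lit 3723702329) (nat_lit 76) (nat_lit 13849969117) (nat_lit 210) (nat_lit 5) (nat_lit 217) (nat_lit 5) (nat_lit 211) (nat_lit 5) (nat_lit 482) (nat_lit 446) (nat_lit 272)) (XT.lf (nat_lit 0) (nat_lit 12761558247) (nat_lit 456) (nat_lit 2841517893) (nat_lit 532) (nat_lit 13211814971) (nat_lit 204) (nat_lit 5) (nat_lit 210) (nat_lit 5) (nat_lit 211) (nat_lit 5) (nat_lit 483) (nat_lit 446) (nat_lit 271))) (XT.nd (nat_lit 78) (nat_lit 0) (nat_lit 0) (XT.lf (nat_lit 0) (nat_lit 410366317) (nat_lit 380) (nat_lit 20318978239) (nat_lit 456) (nat_lit 8589798551) (nat_lit 199) (nat_lit 5) (nat_lit 204) (nat_lit 5) (nat_lit 205) (nat_lit 5) (nat_lit 484) (nat_lit 446) (nat_lit 270)) (XT.lf (nat_lit 0) (nat_lit 17663051539) (nat_lit 380) (nat_lit 8532170004) (nat_lit 456) (nat_lit 3637726935) (nat_lit 199) (nat_lit 5) (nat_lit 204) (nat_lit 5) (nat_lit 205) (nat_lit 5) (nat_lit 485) (nat_lit 446) (nat_lit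 269))))) (XT.nd (nat_lit 312) (nat_lit 1140) (nat_lit 0) (XT.nd (nat_lit 156) (nat_lit 380) (nat_lit 0) (XT.nd (nat_lit 78) (nat_lit 0) (nat_lit 0) (XT.lf (nat_lit 0) (nat_lit 1515126970) (nat_lit 532) (nat_lit 25243292345) (nat_lit 76) (nat_lit 3600904229) (nat_lit 192) (nat_lit 5) (nat_lit 199) (nat_lit 5) (nat_lit 193) (nat_lit 5) (nat_lit 486) (nat_lit 446) (nat_lit 268)) (XT.lf (nat_lit 0) (nat_lit 6954030465) (nat_lit 532) (nat_lit 7854798688) (nat_lit 76) (nat_lit 16085443232) (nat_lit 192) (nat_lit 5) (nat_lit 199) (nat_lit 5) (nat_lit 193) (nat_lit 5) (nat_lit 487) (nat_lit 446) (nat_lit 267))) (XT.nd (nat_lit 78) (nat_lit 0) (nat_lit 0) (XT.lf (nat_lit 0) (nat_lit 10250229903) (nat_lit 380) (nat_lit 2400512256) (nat_lit 456) (nat_lit 18791688682) (nat_lit 187) (nat_lit 5) (nat_lit 192) (nat_lit 5) (nat_lit 193) (nat_lit 5) (nat_lit 488) (nat_lit 446) (nat_lit 266)) (XT.lf (nat_lit 0) (nat_lit 18694399905)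 (nat_lit 456) (nat_lit 3050985660) (nat_lit 76) (nat_lit 10256367517) (nat_lit 187) (nat_lit 5) (nat_lit 193) (nat_lit 5) (nat_lit 188) (nat_lit 5) (nat_lit 489) (nat_lit 446) (nat_lit 265)))) (XT.nd (nat_lit 156) (nat_lit 456) (nat_lit 0) (XT.nd (nat_lit 78) (nat_lit 304) (nat_lit 0) (XT.lf (nat_lit 0) (nat_lit 15916241619) (nat_lit 380) (nat_lit 9176163531) (nat_lit 456) (nat_lit 7480259069) (nat_lit 182) (nat_lit 5) (nat_lit 187) (nat_lit 5) (nat_lit 188) (nat_lit 5) (nat_lit 490) (nat_lit 446) (nat_lit 264)) (XT.lf (nat_lit 0) (nat_lit 2359660720) (nat_lit 304) (nat_lit 29409048683) (nat_lit 380) (nat_lit 1389402873) (nat_lit 178) (nat_lit 5) (nat_lit 182) (nat_lit 5) (nat_lit 183) (nat_lit 5) (nat_lit 491) (nat_lit 446) (nat_lit 263))) (XT.nd (nat_lit 78) (nat_lit 380) (nat_lit 0) (XT.lf (nat_lit 0) (nat_lit 5045930740) (nat_lit 380) (nat_lit 11612990714) (nat_lit 76) (nat_lit 17093082370) (nat_lit 177) (nat_lit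 5) (nat_lit 182) (nat_lit 5) (nat_lit 178) (nat_lit 5) (nat_lit 492) (nat_lit 446) (nat_lit 262)) (XT.lf (nat_lit 0) (nat_lit 8291104083) (nat_lit 380) (nat_lit 3431444330) (nat_lit 456) (nat_lit 22638466842) (nat_lit 172) (nat_lit 5) (nat_lit 177) (nat_lit 5) (nat_lit 178) (nat_lit 5) (nat_lit 493) (nat_lit 446) (nat_lit 261))))))) (XT.nd (nat_lit 1170) (nat_lit 2204) (nat_lit 0) (XT.nd (nat_lit 546) (nat_lit 1520) (nat_lit 0) (XT.nd (nat_lit 234) (nat_lit 684) (nat_lit 0) (XT.nd (nat_lit 78) (nat_lit 608) (nat_lit 0) (XT.lf (nat_lit 0) (nat_lit 18812367103) (nat_lit 456) (nat_lit 6058548889) (nat_lit 76) (nat_lit 10110994275) (nat_lit 172) (nat_lit 5) (nat_lit 178) (nat_lit 5) (nat_lit 173) (nat_lit 5) (nat_lit 494) (nat_lit 446) (nat_lit 260)) (XT.nd (nat_lit 78) (nat_lit 304) (nat_lit 0) (XT.lf (nat_lit 0) (nat_lit 14803183271) (nat_lit 304) (nat_lit 11484564176) (nat_lit 380) (nat_lit 9328498972) (nat_lit 168)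 (nat_lit 5) (nat_lit 172) (nat_lit 5) (nat_lit 173) (nat_lit 5) (nat_lit 495) (nat_lit 446) (nat_lit 259)) (XT.lf (nat_lit 0) (nat_lit 121917375) (nat_lit 304) (nat_lit 33947204475) (nat_lit 380) (nat_lit 2198039120) (nat_lit 164) (nat_lit 5) (nat_lit 168) (nat_lit 5) (nat_lit 169) (nat_lit 5) (nat_lit 496) (nat_lit 446) (nat_lit 258)))) (XT.nd (nat_lit 156) (nat_lit 304) (nat_lit 0) (XT.nd (nat_lit 78) (nat_lit 304) (nat_lit 0) (XT.lf (nat_lit 0) (nat_lit 5368523925) (nat_lit 380) (nat_lit 14989880059) (nat_lit 76) (nat_lit 16568036771) (nat_lit 163) (nat_lit 5) (nat_lit 168) (nat_lit 5) (nat_lit 164) (nat_lit 5) (nat_lit 497) (nat_lit 446) (nat_lit 257)) (XT.lf (nat_lit 0) (nat_lit 6908415152) (nat_lit 304) (nat_lit 6272648050) (nat_lit 380) (nat_lit 24421888385) (nat_lit 159) (nat_lit 5) (nat_lit 163) (nat_lit 5) (nat_lit 164) (nat_lit 5) (nat_lit 498) (nat_lit 446) (nat_lit 256))) (XT.nd (nat_lit 78) (nat_lit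 304) (nat_lit 0) (XT.lf (nat_lit 0) (nat_lit 21456796534) (nat_lit 380) (nat_lit 8609754058) (nat_lit 76) (nat_lit 8226342879) (nat_lit 159) (nat_lit 5) (nat_lit 164) (nat_lit 5) (nat_lit 160) (nat_lit 5) (nat_lit 499) (nat_lit 446) (nat_lit 255)) (XT.lf (nat_lit 0) (nat_lit 14350833562) (nat_lit 304) (nat_lit 15826900761) (nat_lit 380) (nat_lit 8819891566) (nat_lit 155) (nat_lit 5) (nat_lit 159) (nat_lit 5) (nat_lit 160) (nat_lit 5) (nat_lit 500) (nat_lit 446) (nat_lit 254))))) (XT.nd (nat_lit 312) (nat_lit 836) (nat_lit 0) (XT.nd (nat_lit 156) (nat_lit 304) (nat_lit 0) (XT.nd (nat_lit 78) (nat_lit 380) (nat_lit 0) (XT.lf (nat_lit 0) (nat_lit 38172106849) (nat_lit 304) (nat_lit 1072059558) (nat_lit 380) (nat_lit 476818135) (nat_lit 155) (nat_lit 5) (nat_lit 159) (nat_lit 5) (nat_lit 160) (nat_lit 5) (nat_lit 501) (nat_lit 446) (nat_lit 253)) (XT.lf (nat_lit 0) (nat_lit 8311088762) (nat_lit 380) (nat_lit 17995547835)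 (nat_lit 76) (nat_lit 14146479222) (nat_lit 150) (nat_lit 5) (nat_lit 155) (nat_lit 5) (nat_lit 151) (nat_lit 5) (nat_lit 502) (nat_lit 446) (nat_lit 252))) (XT.nd (nat_lit 78) (nat_lit 0) (nat_lit 0) (XT.lf (nat_lit 0) (nat_lit 6108342078) (nat_lit 304) (nat_lit 11326848377) (nat_lit 380) (nat_lit 23769414942) (nat_lit 146) (nat_lit 5) (nat_lit 150) (nat_lit 5) (nat_lit 151) (nat_lit 5) (nat_lit 503) (nat_lit 446) (nat_lit 251)) (XT.lf (nat_lit 0) (nat_lit 27053010478) (nat_lit 380) (nat_lit 10714789023) (nat_lit 76) (nat_lit 4204240521) (nat_lit 146) (nat_lit 5) (nat_lit 151) (nat_lit 5) (nat_lit 147) (nat_lit 5) (nat_lit 504) (nat_lit 446) (nat_lit 250)))) (XT.nd (nat_lit 156) (nat_lit 532) (nat_lit 0) (XT.nd (nat_lit 78) (nat_lit 76) (nat_lit 0) (XT.lf (nat_lit 0) (nat_lit 14565739333) (nat_lit 228) (nat_lit 22642915913) (nat_lit 304) (nat_lit 5546363947) (nat_lit 143) (nat_lit 5) (nat_lit 146) (nat_lit 5) (nat_lit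 147) (nat_lit 5) (nat_lit 505) (nat_lit 446) (nat_lit 249)) (XT.lf (nat_lit 0) (nat_lit 4133740659) (nat_lit 304) (nat_lit 2778956909) (nat_lit 76) (nat_lit 36644413540) (nat_lit 142) (nat_lit 5) (nat_lit 146) (nat_lit 5) (nat_lit 143) (nat_lit 5) (nat_lit 506) (nat_lit 446) (nat_lit 248))) (XT.nd (nat_lit 78) (nat_lit 228) (nat_lit 0) (XT.lf (nat_lit 0) (nat_lit 14310854311) (nat_lit 380) (nat_lit 20668122060) (nat_lit 76) (nat_lit 9393099697) (nat_lit 138) (nat_lit 5) (nat_lit 143) (nat_lit 5) (nat_lit 139) (nat_lit 5) (nat_lit 507) (nat_lit 446) (nat_lit 247)) (XT.lf (nat_lit 0) (nat_lit 5869096679) (nat_lit 228) (nat_lit 19074633112) (nat_lit 304) (nat_lit 20263246925) (nat_lit 135) (nat_lit 5) (nat_lit 138) (nat_lit 5) (nat_lit 139) (nat_lit 5) (nat_lit 508) (nat_lit 446) (nat_lit 246)))))) (XT.nd (nat_lit 624) (nat_lit 1140) (nat_lit 0) (XT.nd (nat_lit 312) (nat_lit 532) (nat_lit 0) (XT.nd (nat_lit 156) (nat_lit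 228) (nat_lit 0) (XT.nd (nat_lit 78) (nat_lit 304) (nat_lit 0) (XT.lf (nat_lit 0) (nat_lit 33621770990) (nat_lit 228) (nat_lit 2479815158) (nat_lit 304) (nat_lit 9959158578) (nat_lit 135) (nat_lit 5) (nat_lit 138) (nat_lit 5) (nat_lit 139) (nat_lit 5) (nat_lit 509) (nat_lit 446) (nat_lit 245)) (XT.lf (nat_lit 0) (nat_lit 930196785) (nat_lit 304) (nat_lit 31517545514) (nat_lit 76) (nat_lit 14483527817) (nat_lit 131) (nat_lit 5) (nat_lit 135) (nat_lit 5) (nat_lit 132) (nat_lit 5) (nat_lit 510) (nat_lit 446) (nat_lit 244))) (XT.nd (nat_lit 78) (nat_lit 228) (nat_lit 0) (XT.lf (nat_lit 0) (nat_lit 12094830502) (nat_lit 304) (nat_lit 3595839852) (nat_lit 76) (nat_lit 32129819908) (nat_lit 131) (nat_lit 5) (nat_lit 135) (nat_lit 5) (nat_lit 132) (nat_lit 5) (nat_lit 511) (nat_lit 446) (nat_lit 243)) (XT.lf (nat_lit 0) (nat_lit 23856011920) (nat_lit 304) (nat_lit 23086497693) (nat_lit 76) (nat_lit 1786029301) (nat_lit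 128) (nat_lit 5) (nat_lit 132) (nat_lit 5) (nat_lit 129) (nat_lit 5) (nat_lit 512) (nat_lit 446) (nat_lit 242)))) (XT.nd (nat_lit 156) (nat_lit 304) (nat_lit 0) (XT.nd (nat_lit 78) (nat_lit 0) (nat_lit 0) (XT.lf (nat_lit 0) (nat_lit 6127710505) (nat_lit 228) (nat_lit 30090703134) (nat_lit 304) (nat_lit 13437963999) (nat_lit 125) (nat_lit 5) (nat_lit 128) (nat_lit 5) (nat_lit 129) (nat_lit 5) (nat_lit 513) (nat_lit 446) (nat_lit 241)) (XT.lf (nat_lit 0) (nat_lit 36687455773) (nat_lit 228) (nat_lit 12494852181) (nat_lit 304) (nat_lit 1422825107) (nat_lit 125) (nat_lit 5) (nat_lit 128) (nat_lit 5) (nat_lit 129) (nat_lit 5) (nat_lit 514) (nat_lit 446) (nat_lit 240))) (XT.nd (nat_lit 78) (nat_lit 0) (nat_lit 0) (XT.lf (nat_lit 0) (nat_lit 10954808083) (nat_lit 304) (nat_lit 34831035663) (nat_lit 76) (nat_lit 5786875961) (nat_lit 121) (nat_lit 5) (nat_lit 125) (nat_lit 5) (nat_lit 122) (nat_lit 5) (nat_lit 515) (nat_lit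 446) (nat_lit 239)) (XT.lf (nat_lit 0) (nat_lit 23938375524) (nat_lit 304) (nat_lit 4102268931) (nat_lit 76) (nat_lit 24520370939) (nat_lit 121) (nat_lit 5) (nat_lit 125) (nat_lit 5) (nat_lit 122) (nat_lit 5) (nat_lit 516) (nat_lit 446) (nat_lit 238))))) (XT.nd (nat_lit 312) (nat_lit 456) (nat_lit 0) (XT.nd (nat_lit 156) (nat_lit 304) (nat_lit 0) (XT.nd (nat_lit 78) (nat_lit 152) (nat_lit 0) (XT.lf (nat_lit 0) (nat_lit 28092581365) (nat_lit 228) (nat_lit 9486541286) (nat_lit 304) (nat_lit 15991807257) (nat_lit 118) (nat_lit 5) (nat_lit 121) (nat_lit 5) (nat_lit 122) (nat_lit 5) (nat_lit 517) (nat_lit 446) (nat_lit 237)) (XT.lf (nat_lit 0) (nat_lit 6762525043) (nat_lit 152) (nat_lit 45063566845) (nat_lit 228) (nat_lit 2779140110) (nat_lit 116) (nat_lit 5) (nat_lit 118) (nat_lit 5) (nat_lit 119) (nat_lit 5) (nat_lit 518) (nat_lit 446) (nat_lit 236))) (XT.nd (nat_lit 78) (nat_lit 228) (nat_lit 0) (XT.lf (nat_lit 0)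 (nat_lit 10969984535) (nat_lit 228) (nat_lit 15374506699) (nat_lit 76) (nat_lit 29312406690) (nat_lit 115) (nat_lit 5) (nat_lit 118) (nat_lit 5) (nat_lit 116) (nat_lit 5) (nat_lit 519) (nat_lit 446) (nat_lit 235)) (XT.lf (nat_lit 0) (nat_lit 18395307457) (nat_lit 228) (nat_lit 6854965928) (nat_lit 304) (nat_lit 31483778627) (nat_lit 112) (nat_lit 5) (nat_lit 115) (nat_lit 5) (nat_lit 116) (nat_lit 5) (nat_lit 520) (nat_lit 446) (nat_lit 234)))) (XT.nd (nat_lit 156) (nat_lit 304) (nat_lit 0) (XT.nd (nat_lit 78) (nat_lit 152) (nat_lit 0) (XT.lf (nat_lit 0) (nat_lit 40240567601) (nat_lit 304) (nat_lit 4477982335) (nat_lit 76) (nat_lit 13116523002) (nat_lit 112) (nat_lit 5) (nat_lit 116) (nat_lit 5) (nat_lit 113) (nat_lit 5) (nat_lit 521) (nat_lit 446) (nat_lit 233)) (XT.lf (nat_lit 0) (nat_lit 30930522048) (nat_lit 152) (nat_lit 25113044299) (nat_lit 228) (nat_lit 2914668387) (nat_lit 110) (nat_lit 5) (nat_lit 112)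 (nat_lit 5) (nat_lit 113) (nat_lit 5) (nat_lit 522) (nat_lit 446) (nat_lit 232))) (XT.nd (nat_lit 78) (nat_lit 0) (nat_lit 0) (XT.lf (nat_lit 0) (nat_lit 7402227700) (nat_lit 228) (nat_lit 4679790905) (nat_lit 304) (nat_lit 48026114184) (nat_lit 106) (nat_lit 5) (nat_lit 109) (nat_lit 5) (nat_lit 110) (nat_lit 5) (nat_lit 523) (nat_lit 446) (nat_lit 231)) (XT.lf (nat_lit 0) (nat_lit 27910996642) (nat_lit 304) (nat_lit 17007209964) (nat_lit 76) (nat_lit 16360226367) (nat_lit 106) (nat_lit 5) (nat_lit 110) (nat_lit 5) (nat_lit 107) (nat_lit 5) (nat_lit 524) (nat_lit 446) (nat_lit 230))))))))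
noncomputable def xc194 : XT := (XT.nd (nat_lit 57018) (nat_lit 0) (nat_lit 9348) (XT.nd (nat_lit 1170) (nat_lit 608) (nat_lit 0) (XT.nd (nat_lit 546) (nat_lit 912) (nat_lit 0) (XT.nd (nat_lit 234) (nat_lit 380) (nat_lit 0) (XT.nd (nat_lit 78) (nat_lit 228) (nat_lit 0) (XT.lf (nat_lit 0) (nat_lit 20104742831) (nat_lit 152) (nat_lit 24347579101) (nat_lit 228) (nat_lit 18024395997) (nat_lit 104) (nat_lit 5) (nat_lit 106) (nat_lit 5) (nat_lit 107) (nat_lit 5) (nat_lit 525) (nat_lit 446) (nat_lit 229)) (XT.nd (nat_lit 78) (nat_lit 228) (nat_lit 0) (XT.lf (nat_lit 0) (nat_lit 58675036900) (nat_lit 152) (nat_lit 2984500368) (nat_lit 228) (nat_lit 2046324755) (nat_lit 104) (nat_lit 5) (nat_lit 106) (nat_lit 5) (nat_lit 107) (nat_lit 5) (nat_lit 526) (nat_lit 446) (nat_lit 228)) (XT.lf (nat_lit 0) (nat_lit 14641600063) (nat_lit 228) (nat_lit 31194456785) (nat_lit 76) (nat_lit 19116316127) (nat_lit 101) (nat_lit 5) (nat_lit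 104) (nat_lit 5) (nat_lit 102) (nat_lit 5) (nat_lit 527) (nat_lit 446) (nat_lit 227)))) (XT.nd (nat_lit 156) (nat_lit 228) (nat_lit 0) (XT.nd (nat_lit 78) (nat_lit 0) (nat_lit 0) (XT.lf (nat_lit 0) (nat_lit 7674542311) (nat_lit 152) (nat_lit 24267079960) (nat_lit 228) (nat_lit 34289471594) (nat_lit 99) (nat_lit 5) (nat_lit 101) (nat_lit 5) (nat_lit 102) (nat_lit 5) (nat_lit 528) (nat_lit 446) (nat_lit 226)) (XT.lf (nat_lit 0) (nat_lit 48345508367) (nat_lit 152) (nat_lit 1728127155) (nat_lit 228) (nat_lit 17465151236) (nat_lit 99) (nat_lit 5) (nat_lit 101) (nat_lit 5) (nat_lit 102) (nat_lit 5) (nat_lit 529) (nat_lit 446) (nat_lit 225))) (XT.nd (nat_lit 78) (nat_lit 0) (nat_lit 0) (XT.lf (nat_lit 0) (nat_lit 282473164) (nat_lit 228) (nat_lit 47314532898) (nat_lit 76) (nat_lit 21276266149) (nat_lit 96) (nat_lit 5) (nat_lit 99) (nat_lit 5) (nat_lit 97) (nat_lit 5) (nat_lit 530) (nat_lit 446) (nat_lit 224)) (XT.lf (nat_lit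 0) (nat_lit 18422374053) (nat_lit 228) (nat_lit 6510672529) (nat_lit 76) (nat_lit 45303231656) (nat_lit 96) (nat_lit 5) (nat_lit 99) (nat_lit 5) (nat_lit 97) (nat_lit 5) (nat_lit 531) (nat_lit 446) (nat_lit 223))))) (XT.nd (nat_lit 312) (nat_lit 380) (nat_lit 0) (XT.nd (nat_lit 156) (nat_lit 228) (nat_lit 0) (XT.nd (nat_lit 78) (nat_lit 152) (nat_lit 0) (XT.lf (nat_lit 0) (nat_lit 36220697728) (nat_lit 152) (nat_lit 1232043338) (nat_lit 228) (nat_lit 34177045385) (nat_lit 94) (nat_lit 5) (nat_lit 96) (nat_lit 5) (nat_lit 97) (nat_lit 5) (nat_lit 532) (nat_lit 446) (nat_lit 222)) (XT.lf (nat_lit 0) (nat_lit 7218316980) (nat_lit 152) (nat_lit 50192407656) (nat_lit 228) (nat_lit 15643674183) (nat_lit 92) (nat_lit 5) (nat_lit 94) (nat_lit 5) (nat_lit 95) (nat_lit 5) (nat_lit 533) (nat_lit 446) (nat_lit 221))) (XT.nd (nat_lit 78) (nat_lit 152) (nat_lit 0) (XT.lf (nat_lit 0) (nat_lit 3749867831) (nat_lit 228) (nat_lit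 22712902502) (nat_lit 76) (nat_lit 48046843403) (nat_lit 91) (nat_lit 5) (nat_lit 94) (nat_lit 5) (nat_lit 92) (nat_lit 5) (nat_lit 534) (nat_lit 446) (nat_lit 220)) (XT.lf (nat_lit 0) (nat_lit 21974571423) (nat_lit 152) (nat_lit 1645617113) (nat_lit 228) (nat_lit 52377368153) (nat_lit 89) (nat_lit 5) (nat_lit 91) (nat_lit 5) (nat_lit 92) (nat_lit 5) (nat_lit 535) (nat_lit 446) (nat_lit 219)))) (XT.nd (nat_lit 156) (nat_lit 228) (nat_lit 0) (XT.nd (nat_lit 78) (nat_lit 152) (nat_lit 0) (XT.lf (nat_lit 0) (nat_lit 44546310846) (nat_lit 228) (nat_lit 9290485923) (nat_lit 76) (nat_lit 23679550469) (nat_lit 89) (nat_lit 5) (nat_lit 92) (nat_lit 5) (nat_lit 90) (nat_lit 5) (nat_lit 536) (nat_lit 446) (nat_lit 218)) (XT.lf (nat_lit 0) (nat_lit 37496153067) (nat_lit 152) (nat_lit 28979015912) (nat_lit 228) (nat_lit 12594284025) (nat_lit 87) (nat_lit 5) (nat_lit 89) (nat_lit 5) (nat_lit 90) (nat_lit 5) (nat_lit 537) (nat_lit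 446) (nat_lit 217))) (XT.nd (nat_lit 78) (nat_lit 0) (nat_lit 0) (XT.lf (nat_lit 0) (nat_lit 5227674526) (nat_lit 152) (nat_lit 3144516496) (nat_lit 228) (nat_lit 72290244017) (nat_lit 84) (nat_lit 5) (nat_lit 86) (nat_lit 5) (nat_lit 87) (nat_lit 5) (nat_lit 538) (nat_lit 446) (nat_lit 216)) (XT.lf (nat_lit 0) (nat_lit 30362286670) (nat_lit 228) (nat_lit 28363372535) (nat_lit 76) (nat_lit 23554373742) (nat_lit 84) (nat_lit 5) (nat_lit 87) (nat_lit 5) (nat_lit 85) (nat_lit 5) (nat_lit 539) (nat_lit 446) (nat_lit 215)))))) (XT.nd (nat_lit 55224) (nat_lit 0) (nat_lit 16492) (XT.nd (nat_lit 234) (nat_lit 304) (nat_lit 0) (XT.nd (nat_lit 78) (nat_lit 152) (nat_lit 0) (XT.lf (nat_lit 0) (nat_lit 20485628082) (nat_lit 152) (nat_lit 32752796316) (nat_lit 228) (nat_lit 30700944277) (nat_lit 82) (nat_lit 5) (nat_lit 84) (nat_lit 5) (nat_lit 85) (nat_lit 5) (nat_lit 540) (nat_lit 446) (nat_lit 214)) (XT.nd (nat_lit 78) (nat_lit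 152) (nat_lit 0) (XT.lf (nat_lit 0) (nat_lit 71378407306) (nat_lit 152) (nat_lit 5707158426) (nat_lit 228) (nat_lit 8554377214) (nat_lit 82) (nat_lit 5) (nat_lit 84) (nat_lit 5) (nat_lit 85) (nat_lit 5) (nat_lit 541) (nat_lit 446) (nat_lit 213)) (XT.lf (nat_lit 0) (nat_lit 14550061555) (nat_lit 152) (nat_lit 50606479744) (nat_lit 76) (nat_lit 22213731747) (nat_lit 80) (nat_lit 5) (nat_lit 82) (nat_lit 5) (nat_lit 81) (nat_lit 5) (nat_lit 542) (nat_lit 446) (nat_lit 212)))) (XT.nd (nat_lit 156) (nat_lit 152) (nat_lit 0) (XT.nd (nat_lit 78) (nat_lit 0) (nat_lit 0) (XT.lf (nat_lit 0) (nat_lit 324682194) (nat_lit 152) (nat_lit 38054427850) (nat_lit 228) (nat_lit 50764759820) (nat_lit 78) (nat_lit 5) (nat_lit 80) (nat_lit 5) (nat_lit 81) (nat_lit 5) (nat_lit 543) (nat_lit 446) (nat_lit 211)) (XT.lf (nat_lit 0) (nat_lit 53818130927) (nat_lit 152) (nat_lit 9614288452) (nat_lit 228) (nat_lit 27522973576) (nat_lit 78) (nat_lit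 5) (nat_lit 80) (nat_lit 5) (nat_lit 81) (nat_lit 5) (nat_lit 544) (nat_lit 446) (nat_lit 210))) (XT.nd (nat_lit 78) (nat_lit 76) (nat_lit 0) (XT.lf (nat_lit 0) (nat_lit 16219476981) (nat_lit 76) (nat_lit 73361327499) (nat_lit 152) (nat_lit 3230153012) (nat_lit 77) (nat_lit 5) (nat_lit 78) (nat_lit 5) (nat_lit 79) (nat_lit 4) (nat_lit 545) (nat_lit 446) (nat_lit 209)) (XT.lf (nat_lit 0) (nat_lit 21838540384) (nat_lit 152) (nat_lit 23084100075) (nat_lit 76) (nat_lit 49779094830) (nat_lit 76) (nat_lit 5) (nat_lit 78) (nat_lit 5) (nat_lit 77) (nat_lit 5) (nat_lit 546) (nat_lit 446) (nat_lit 208))))) (XT.nd (nat_lit 312) (nat_lit 0) (nat_lit 152) (XT.nd (nat_lit 156) (nat_lit 0) (nat_lit 76) (XT.nd (nat_lit 78) (nat_lit 0) (nat_lit 0) (XT.lf (nat_lit 0) (nat_lit 1279820126) (nat_lit 1292) (nat_lit 3476104022) (nat_lit 1292) (nat_lit 3476104022) (nat_lit 293) (nat_lit 3) (nat_lit 310) (nat_lit 3) (nat_lit 310) (nat_lit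 5) (nat_lit 447) (nat_lit 447) (nat_lit 306)) (XT.lf (nat_lit 76) (nat_lit 1204730119) (nat_lit 0) (nat_lit 1649527605) (nat_lit 1292) (nat_lit 13849038765) (nat_lit 294) (nat_lit 5) (nat_lit 293) (nat_lit 3) (nat_lit 310) (nat_lit 5) (nat_lit 448) (nat_lit 447) (nat_lit 305))) (XT.nd (nat_lit 78) (nat_lit 0) (nat_lit 0) (XT.lf (nat_lit 0) (nat_lit 3281049081) (nat_lit 1216) (nat_lit 7266750269) (nat_lit 1292) (nat_lit 6398215759) (nat_lit 294) (nat_lit 5) (nat_lit 310) (nat_lit 5) (nat_lit 311) (nat_lit 5) (nat_lit 449) (nat_lit 447) (nat_lit 304)) (XT.lf (nat_lit 76) (nat_lit 1214188503) (nat_lit 0) (nat_lit 2525185475) (nat_lit 1292) (nat_lit 13456080704) (nat_lit 295) (nat_lit 5) (nat_lit 294) (nat_lit 5) (nat_lit 311) (nat_lit 5) (nat_lit 450) (nat_lit 447) (nat_lit 303)))) (XT.nd (nat_lit 156) (nat_lit 0) (nat_lit 76) (XT.nd (nat_lit 78) (nat_lit 0) (nat_lit 0) (XT.lf (nat_lit 0) (nat_lit 4331697873) (nat_lit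 1216) (nat_lit 7412996644) (nat_lit 1292) (nat_lit 5704076698) (nat_lit 295) (nat_lit 5) (nat_lit 311) (nat_lit 5) (nat_lit 312) (nat_lit 5) (nat_lit 451) (nat_lit 447) (nat_lit 302)) (XT.lf (nat_lit 76) (nat_lit 1409530399) (nat_lit 0) (nat_lit 3562059369) (nat_lit 1292) (nat_lit 12737204744) (nat_lit 296) (nat_lit 5) (nat_lit 295) (nat_lit 5) (nat_lit 312) (nat_lit 5) (nat_lit 452) (nat_lit 447) (nat_lit 301))) (XT.nd (nat_lit 78) (nat_lit 0) (nat_lit 0) (XT.lf (nat_lit 0) (nat_lit 5744535313) (nat_lit 1216) (nat_lit 7378728305) (nat_lit 1292) (nat_lit 4849940361) (nat_lit 296) (nat_lit 5) (nat_lit 312) (nat_lit 5) (nat_lit 313) (nat_lit 5) (nat_lit 453) (nat_lit 447) (nat_lit 300)) (XT.lf (nat_lit 76) (nat_lit 1803987799) (nat_lit 0) (nat_lit 4781021937) (nat_lit 1292) (nat_lit 11659206923) (nat_lit 297) (nat_lit 5) (nat_lit 296) (nat_lit 5) (nat_lit 313) (nat_lit 5) (nat_lit 454) (nat_lit 447) (nat_lit 299)))))))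 (XT.nd (nat_lit 1170) (nat_lit 4484) (nat_lit 0) (XT.nd (nat_lit 546) (nat_lit 2964) (nat_lit 0) (XT.nd (nat_lit 234) (nat_lit 0) (nat_lit 76) (XT.nd (nat_lit 78) (nat_lit 0) (nat_lit 0) (XT.lf (nat_lit 0) (nat_lit 7554532974) (nat_lit 1216) (nat_lit 7150645920) (nat_lit 1292) (nat_lit 3815066901) (nat_lit 297) (nat_lit 5) (nat_lit 313) (nat_lit 5) (nat_lit 314) (nat_lit 5) (nat_lit 455) (nat_lit 447) (nat_lit 298)) (XT.nd (nat_lit 78) (nat_lit 0) (nat_lit 76) (XT.lf (nat_lit 76) (nat_lit 2411928279) (nat_lit 0) (nat_lit 6203917759) (nat_lit 1292) (nat_lit 10186829722) (nat_lit 298) (nat_lit 5) (nat_lit 297) (nat_lit 5) (nat_lit 314) (nat_lit 5) (nat_lit 456) (nat_lit 447) (nat_lit 297)) (XT.lf (nat_lit 0) (nat_lit 9798836205) (nat_lit 1216) (nat_lit 6714325156) (nat_lit 1292) (nat_lit 2577723179) (nat_lit 298) (nat_lit 5) (nat_lit 314) (nat_lit 5) (nat_lit 315) (nat_lit 5) (nat_lit 457) (nat_lit 447) (nat_lit 296))))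 (XT.nd (nat_lit 156) (nat_lit 0) (nat_lit 76) (XT.nd (nat_lit 78) (nat_lit 0) (nat_lit 76) (XT.lf (nat_lit 76) (nat_lit 3248902786) (nat_lit 0) (nat_lit 7853670828) (nat_lit 1292) (nat_lit 8282609262) (nat_lit 299) (nat_lit 5) (nat_lit 298) (nat_lit 5) (nat_lit 315) (nat_lit 5) (nat_lit 458) (nat_lit 447) (nat_lit 295)) (XT.lf (nat_lit 0) (nat_lit 12516922448) (nat_lit 1216) (nat_lit 6054167989) (nat_lit 1292) (nat_lit 1115075732) (nat_lit 299) (nat_lit 5) (nat_lit 315) (nat_lit 5) (nat_lit 316) (nat_lit 5) (nat_lit 459) (nat_lit 447) (nat_lit 294))) (XT.nd (nat_lit 78) (nat_lit 0) (nat_lit 0) (XT.lf (nat_lit 76) (nat_lit 4331697731) (nat_lit 0) (nat_lit 9754395498) (nat_lit 1292) (nat_lit 5906714947) (nat_lit 300) (nat_lit 5) (nat_lit 299) (nat_lit 5) (nat_lit 316) (nat_lit 5) (nat_lit 460) (nat_lit 447) (nat_lit 293)) (XT.lf (nat_lit 76) (nat_lit 15147819985) (nat_lit 0) (nat_lit 608799748) (nat_lit 1292) (nat_lit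 4550402223) (nat_lit 300) (nat_lit 5) (nat_lit 299) (nat_lit 5) (nat_lit 316) (nat_lit 5) (nat_lit 461) (nat_lit 447) (nat_lit 292))))) (XT.nd (nat_lit 312) (nat_lit 1976) (nat_lit 0) (XT.nd (nat_lit 156) (nat_lit 1216) (nat_lit 0) (XT.nd (nat_lit 78) (nat_lit 0) (nat_lit 0) (XT.lf (nat_lit 76) (nat_lit 5678391453) (nat_lit 0) (nat_lit 11931511424) (nat_lit 1292) (nat_lit 3016780952) (nat_lit 301) (nat_lit 5) (nat_lit 300) (nat_lit 5) (nat_lit 317) (nat_lit 5) (nat_lit 462) (nat_lit 447) (nat_lit 291)) (XT.lf (nat_lit 76) (nat_lit 16935297430) (nat_lit 0) (nat_lit 2635053193) (nat_lit 1292) (nat_lit 1384038827) (nat_lit 301) (nat_lit 5) (nat_lit 300) (nat_lit 5) (nat_lit 317) (nat_lit 5) (nat_lit 463) (nat_lit 447) (nat_lit 290))) (XT.nd (nat_lit 78) (nat_lit 0) (nat_lit 0) (XT.lf (nat_lit 0) (nat_lit 423835905) (nat_lit 1292) (nat_lit 13983747221) (nat_lit 76) (nat_lit 6880299319) (nat_lit 284) (nat_lit 5) (nat_lit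 301) (nat_lit 5) (nat_lit 285) (nat_lit 5) (nat_lit 464) (nat_lit 447) (nat_lit 289)) (XT.lf (nat_lit 0) (nat_lit 2318974080) (nat_lit 1292) (nat_lit 2626450292) (nat_lit 76) (nat_lit 16683720209) (nat_lit 284) (nat_lit 5) (nat_lit 301) (nat_lit 5) (nat_lit 285) (nat_lit 5) (nat_lit 465) (nat_lit 447) (nat_lit 288)))) (XT.nd (nat_lit 156) (nat_lit 1216) (nat_lit 0) (XT.nd (nat_lit 78) (nat_lit 0) (nat_lit 0) (XT.lf (nat_lit 0) (nat_lit 4400833477) (nat_lit 836) (nat_lit 12778570856) (nat_lit 76) (nat_lit 4797345015) (nat_lit 274) (nat_lit 5) (nat_lit 285) (nat_lit 5) (nat_lit 275) (nat_lit 5) (nat_lit 466) (nat_lit 447) (nat_lit 287)) (XT.lf (nat_lit 0) (nat_lit 6614978720) (nat_lit 836) (nat_lit 957337709) (nat_lit 76) (nat_lit 14760371686) (nat_lit 274) (nat_lit 5) (nat_lit 285) (nat_lit 5) (nat_lit 275) (nat_lit 5) (nat_lit 467) (nat_lit 447) (nat_lit 286))) (XT.nd (nat_lit 78) (nat_lit 608) (nat_lit 0) (XT.lf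 (nat_lit 0) (nat_lit 9023156976) (nat_lit 684) (nat_lit 11283254873) (nat_lit 76) (nat_lit 2389065669) (nat_lit 266) (nat_lit 5) (nat_lit 275) (nat_lit 5) (nat_lit 267) (nat_lit 5) (nat_lit 468) (nat_lit 447) (nat_lit 285)) (XT.lf (nat_lit 0) (nat_lit 1043456535) (nat_lit 608) (nat_lit 10549263712) (nat_lit 684) (nat_lit 11473756881) (nat_lit 258) (nat_lit 5) (nat_lit 266) (nat_lit 5) (nat_lit 267) (nat_lit 5) (nat_lit 469) (nat_lit 447) (nat_lit 284)))))) (XT.nd (nat_lit 624) (nat_lit 2280) (nat_lit 0) (XT.nd (nat_lit 312) (nat_lit 1140) (nat_lit 0) (XT.nd (nat_lit 156) (nat_lit 532) (nat_lit 0) (XT.nd (nat_lit 78) (nat_lit 532) (nat_lit 0) (XT.lf (nat_lit 0) (nat_lit 13965848951) (nat_lit 608) (nat_lit 381944993) (nat_lit 684) (nat_lit 9097560769) (nat_lit 258) (nat_lit 5) (nat_lit 266) (nat_lit 5) (nat_lit 267) (nat_lit 5) (nat_lit 470) (nat_lit 447) (nat_lit 283)) (XT.lf (nat_lit 0) (nat_lit 3404329728) (nat_lit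 532) (nat_lit 13905556000) (nat_lit 608) (nat_lit 6521982594) (nat_lit 251) (nat_lit 5) (nat_lit 258) (nat_lit 5) (nat_lit 259) (nat_lit 5) (nat_lit 471) (nat_lit 447) (nat_lit 282))) (XT.nd (nat_lit 78) (nat_lit 532) (nat_lit 0) (XT.lf (nat_lit 0) (nat_lit 16859776617) (nat_lit 532) (nat_lit 3595283306) (nat_lit 608) (nat_lit 3772091479) (nat_lit 251) (nat_lit 5) (nat_lit 258) (nat_lit 5) (nat_lit 259) (nat_lit 5) (nat_lit 472) (nat_lit 447) (nat_lit 281)) (XT.lf (nat_lit 0) (nat_lit 6131353442) (nat_lit 532) (nat_lit 17684598539) (nat_lit 608) (nat_lit 814700748) (nat_lit 244) (nat_lit 5) (nat_lit 251) (nat_lit 5) (nat_lit 252) (nat_lit 5) (nat_lit 473) (nat_lit 447) (nat_lit 280)))) (XT.nd (nat_lit 156) (nat_lit 532) (nat_lit 0) (XT.nd (nat_lit 78) (nat_lit 532) (nat_lit 0) (XT.lf (nat_lit 0) (nat_lit 2293548103) (nat_lit 608) (nat_lit 4921154856) (nat_lit 76) (nat_lit 17827742865) (nat_lit 243) (nat_lit 5) (nat_lit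 251) (nat_lit 5) (nat_lit 244) (nat_lit 5) (nat_lit 474) (nat_lit 447) (nat_lit 279)) (XT.lf (nat_lit 0) (nat_lit 5597767294) (nat_lit 608) (nat_lit 16267955445) (nat_lit 76) (nat_lit 3597055637) (nat_lit 236) (nat_lit 5) (nat_lit 244) (nat_lit 5) (nat_lit 237) (nat_lit 5) (nat_lit 475) (nat_lit 447) (nat_lit 278))) (XT.nd (nat_lit 78) (nat_lit 532) (nat_lit 0) (XT.lf (nat_lit 0) (nat_lit 9117917697) (nat_lit 608) (nat_lit 2136339825) (nat_lit 76) (nat_lit 14637959806) (nat_lit 236) (nat_lit 5) (nat_lit 244) (nat_lit 5) (nat_lit 237) (nat_lit 5) (nat_lit 476) (nat_lit 447) (nat_lit 277)) (XT.lf (nat_lit 0) (nat_lit 12661099647) (nat_lit 532) (nat_lit 199605315) (nat_lit 608) (nat_lit 13470324063) (nat_lit 229) (nat_lit 5) (nat_lit 236) (nat_lit 5) (nat_lit 237) (nat_lit 5) (nat_lit 477) (nat_lit 447) (nat_lit 276))))) (XT.nd (nat_lit 312) (nat_lit 1292) (nat_lit 0) (XT.nd (nat_lit 156) (nat_lit 532) (nat_lit 0)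 (XT.nd (nat_lit 78) (nat_lit 0) (nat_lit 0) (XT.lf (nat_lit 0) (nat_lit 1071794734) (nat_lit 456) (nat_lit 15779011144) (nat_lit 532) (nat_lit 9928148826) (nat_lit 223) (nat_lit 5) (nat_lit 229) (nat_lit 5) (nat_lit 230) (nat_lit 5) (nat_lit 478) (nat_lit 447) (nat_lit 275)) (XT.lf (nat_lit 0) (nat_lit 16528756504) (nat_lit 456) (nat_lit 4567340884) (nat_lit 532) (nat_lit 6140156652) (nat_lit 223) (nat_lit 5) (nat_lit 229) (nat_lit 5) (nat_lit 230) (nat_lit 5) (nat_lit 479) (nat_lit 447) (nat_lit 274))) (XT.nd (nat_lit 78) (nat_lit 76) (nat_lit 0) (XT.lf (nat_lit 0) (nat_lit 4762799790) (nat_lit 456) (nat_lit 20814449233) (nat_lit 532) (nat_lit 2126768793) (nat_lit 217) (nat_lit 5) (nat_lit 223) (nat_lit 5) (nat_lit 224) (nat_lit 5) (nat_lit 480) (nat_lit 447) (nat_lit 273)) (XT.lf (nat_lit 0) (nat_lit 2117924005) (nat_lit 532) (nat_lit 7336683897) (nat_lit 76) (nat_lit 18726126268) (nat_lit 216) (nat_lit 5) (nat_lit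 223) (nat_lit 5) (nat_lit 217) (nat_lit 5) (nat_lit 481) (nat_lit 447) (nat_lit 272)))) (XT.nd (nat_lit 156) (nat_lit 836) (nat_lit 0) (XT.nd (nat_lit 78) (nat_lit 0) (nat_lit 0) (XT.lf (nat_lit 0) (nat_lit 6551016007) (nat_lit 532) (nat_lit 19808124997) (nat_lit 76) (nat_lit 2308865625) (nat_lit 210) (nat_lit 5) (nat_lit 217) (nat_lit 5) (nat_lit 211) (nat_lit 5) (nat_lit 482) (nat_lit 447) (nat_lit 271)) (XT.lf (nat_lit 0) (nat_lit 11281374328) (nat_lit 532) (nat_lit 3574421549) (nat_lit 76) (nat_lit 14309173622) (nat_lit 210) (nat_lit 5) (nat_lit 217) (nat_lit 5) (nat_lit 211) (nat_lit 5) (nat_lit 483) (nat_lit 447) (nat_lit 270))) (XT.nd (nat_lit 78) (nat_lit 380) (nat_lit 0) (XT.lf (nat_lit 0) (nat_lit 13402838101) (nat_lit 456) (nat_lit 2875606559) (nat_lit 532) (nat_lit 13394652989) (nat_lit 204) (nat_lit 5) (nat_lit 210) (nat_lit 5) (nat_lit 211) (nat_lit 5) (nat_lit 484) (nat_lit 447) (nat_lit 269)) (XT.lf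 (nat_lit 0) (nat_lit 684268843) (nat_lit 380) (nat_lit 20871187119) (nat_lit 456) (nat_lit 8637113235) (nat_lit 199) (nat_lit 5) (nat_lit 204) (nat_lit 5) (nat_lit 205) (nat_lit 5) (nat_lit 485) (nat_lit 447) (nat_lit 268))))))))
noncomputable def xc195 : XT := (XT.nd (nat_lit 2340) (nat_lit 3648) (nat_lit 0) (XT.nd (nat_lit 1170) (nat_lit 2584) (nat_lit 0) (XT.nd (nat_lit 546) (nat_lit 1444) (nat_lit 0) (XT.nd (nat_lit 234) (nat_lit 1064) (nat_lit 0) (XT.nd (nat_lit 78) (nat_lit 532) (nat_lit 0) (XT.lf (nat_lit 0) (nat_lit 18446915451) (nat_lit 380) (nat_lit 8732445330) (nat_lit 456) (nat_lit 3542607022) (nat_lit 199) (nat_lit 5) (nat_lit 204) (nat_lit 5) (nat_lit 205) (nat_lit 5) (nat_lit 486) (nat_lit 447) (nat_lit 267)) (XT.nd (nat_lit 78) (nat_lit 0) (nat_lit 0) (XT.lf (nat_lit 0) (nat_lit 1758032271) (nat_lit 532) (nat_lit 25739779004) (nat_lit 76) (nat_lit 3766348965) (nat_lit 192) (nat_lit 5) (nat_lit 199)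 (nat_lit 5) (nat_lit 193) (nat_lit 5) (nat_lit 487) (nat_lit 447) (nat_lit 266)) (XT.lf (nat_lit 0) (nat_lit 7354351857) (nat_lit 532) (nat_lit 7837227006) (nat_lit 76) (nat_lit 16623751780) (nat_lit 192) (nat_lit 5) (nat_lit 199) (nat_lit 5) (nat_lit 193) (nat_lit 5) (nat_lit 488) (nat_lit 447) (nat_lit 265)))) (XT.nd (nat_lit 156) (nat_lit 684) (nat_lit 0) (XT.nd (nat_lit 78) (nat_lit 0) (nat_lit 0) (XT.lf (nat_lit 0) (nat_lit 10808469936) (nat_lit 380) (nat_lit 2410321657) (nat_lit 456) (nat_lit 19161238009) (nat_lit 187) (nat_lit 5) (nat_lit 192) (nat_lit 5) (nat_lit 193) (nat_lit 5) (nat_lit 489) (nat_lit 447) (nat_lit 264)) (XT.lf (nat_lit 0) (nat_lit 19438848534) (nat_lit 456) (nat_lit 2894156649) (nat_lit 76) (nat_lit 10623274178) (nat_lit 187) (nat_lit 5) (nat_lit 193) (nat_lit 5) (nat_lit 188) (nat_lit 5) (nat_lit 490) (nat_lit 447) (nat_lit 263))) (XT.nd (nat_lit 78) (nat_lit 304) (nat_lit 0) (XT.lf (nat_lit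 0) (nat_lit 16639652560) (nat_lit 380) (nat_lit 9386157288) (nat_lit 456) (nat_lit 7518598026) (nat_lit 182) (nat_lit 5) (nat_lit 187) (nat_lit 5) (nat_lit 188) (nat_lit 5) (nat_lit 491) (nat_lit 447) (nat_lit 262)) (XT.lf (nat_lit 0) (nat_lit 2678724727) (nat_lit 304) (nat_lit 30221413261) (nat_lit 380) (nat_lit 1247349845) (nat_lit 178) (nat_lit 5) (nat_lit 182) (nat_lit 5) (nat_lit 183) (nat_lit 5) (nat_lit 492) (nat_lit 447) (nat_lit 261))))) (XT.nd (nat_lit 312) (nat_lit 684) (nat_lit 0) (XT.nd (nat_lit 156) (nat_lit 304) (nat_lit 0) (XT.nd (nat_lit 78) (nat_lit 380) (nat_lit 0) (XT.lf (nat_lit 0) (nat_lit 5372211361) (nat_lit 380) (nat_lit 11716840802) (nat_lit 76) (nat_lit 17670248866) (nat_lit 177) (nat_lit 5) (nat_lit 182) (nat_lit 5) (nat_lit 178) (nat_lit 5) (nat_lit 493) (nat_lit 447) (nat_lit 260)) (XT.lf (nat_lit 0) (nat_lit 8781979392) (nat_lit 380) (nat_lit 3464381538) (nat_lit 456) (nat_lit 23140305334)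 (nat_lit 172) (nat_lit 5) (nat_lit 177) (nat_lit 5) (nat_lit 178) (nat_lit 5) (nat_lit 494) (nat_lit 447) (nat_lit 259))) (XT.nd (nat_lit 78) (nat_lit 304) (nat_lit 0) (XT.lf (nat_lit 0) (nat_lit 19544513850) (nat_lit 456) (nat_lit 6000840605) (nat_lit 76) (nat_lit 10480964928) (nat_lit 172) (nat_lit 5) (nat_lit 178) (nat_lit 5) (nat_lit 173) (nat_lit 5) (nat_lit 495) (nat_lit 447) (nat_lit 258)) (XT.lf (nat_lit 0) (nat_lit 15484395826) (nat_lit 304) (nat_lit 11757152421) (nat_lit 380) (nat_lit 9438216028) (nat_lit 168) (nat_lit 5) (nat_lit 172) (nat_lit 5) (nat_lit 173) (nat_lit 5) (nat_lit 496) (nat_lit 447) (nat_lit 257)))) (XT.nd (nat_lit 156) (nat_lit 304) (nat_lit 0) (XT.nd (nat_lit 78) (nat_lit 76) (nat_lit 0) (XT.lf (nat_lit 0) (nat_lit 364603257) (nat_lit 304) (nat_lit 34889919053) (nat_lit 380) (nat_lit 2095739622) (nat_lit 164) (nat_lit 5) (nat_lit 168) (nat_lit 5) (nat_lit 169) (nat_lit 5) (nat_lit 497)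 (nat_lit 447) (nat_lit 256)) (XT.lf (nat_lit 0) (nat_lit 5689732740) (nat_lit 380) (nat_lit 15204309475) (nat_lit 76) (nat_lit 17135373915) (nat_lit 163) (nat_lit 5) (nat_lit 168) (nat_lit 5) (nat_lit 164) (nat_lit 5) (nat_lit 498) (nat_lit 447) (nat_lit 255))) (XT.nd (nat_lit 78) (nat_lit 0) (nat_lit 0) (XT.lf (nat_lit 0) (nat_lit 7348628054) (nat_lit 304) (nat_lit 6385594847) (nat_lit 380) (nat_lit 24992072531) (nat_lit 159) (nat_lit 5) (nat_lit 163) (nat_lit 5) (nat_lit 164) (nat_lit 5) (nat_lit 499) (nat_lit 447) (nat_lit 254)) (XT.lf (nat_lit 0) (nat_lit 22254336337) (nat_lit 380) (nat_lit 8637967099) (nat_lit 76) (nat_lit 8544749267) (nat_lit 159) (nat_lit 5) (nat_lit 164) (nat_lit 5) (nat_lit 160) (nat_lit 5) (nat_lit 500) (nat_lit 447) (nat_lit 253)))))) (XT.nd (nat_lit 546) (nat_lit 1292) (nat_lit 0) (XT.nd (nat_lit 234) (nat_lit 608) (nat_lit 0) (XT.nd (nat_lit 78) (nat_lit 380) (nat_lit 0) (XT.lf (nat_lit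 0) (nat_lit 15009182467) (nat_lit 304) (nat_lit 16225429118) (nat_lit 380) (nat_lit 8928384593) (nat_lit 155) (nat_lit 5) (nat_lit 159) (nat_lit 5) (nat_lit 160) (nat_lit 5) (nat_lit 501) (nat_lit 447) (nat_lit 252)) (XT.nd (nat_lit 78) (nat_lit 380) (nat_lit 0) (XT.lf (nat_lit 0) (nat_lit 39538458306) (nat_lit 304) (nat_lit 1030164388) (nat_lit 380) (nat_lit 339565669) (nat_lit 155) (nat_lit 5) (nat_lit 159) (nat_lit 5) (nat_lit 160) (nat_lit 5) (nat_lit 502) (nat_lit 447) (nat_lit 251)) (XT.lf (nat_lit 0) (nat_lit 8707552754) (nat_lit 380) (nat_lit 18309777803) (nat_lit 76) (nat_lit 14644953696) (nat_lit 150) (nat_lit 5) (nat_lit 155) (nat_lit 5) (nat_lit 151) (nat_lit 5) (nat_lit 503) (nat_lit 447) (nat_lit 250)))) (XT.nd (nat_lit 156) (nat_lit 304) (nat_lit 0) (XT.nd (nat_lit 78) (nat_lit 0) (nat_lit 0) (XT.lf (nat_lit 0) (nat_lit 6515016686) (nat_lit 304) (nat_lit 11588223125) (nat_lit 380) (nat_lit 24333143161)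 (nat_lit 146) (nat_lit 5) (nat_lit 150) (nat_lit 5) (nat_lit 151) (nat_lit 5) (nat_lit 504) (nat_lit 447) (nat_lit 249)) (XT.lf (nat_lit 0) (nat_lit 28006103283) (nat_lit 380) (nat_lit 10815814239) (nat_lit 76) (nat_lit 4405028161) (nat_lit 146) (nat_lit 5) (nat_lit 151) (nat_lit 5) (nat_lit 147) (nat_lit 5) (nat_lit 505) (nat_lit 447) (nat_lit 248))) (XT.nd (nat_lit 78) (nat_lit 76) (nat_lit 0) (XT.lf (nat_lit 0) (nat_lit 15220969003) (nat_lit 228) (nat_lit 23243424985) (nat_lit 304) (nat_lit 5569081249) (nat_lit 143) (nat_lit 5) (nat_lit 146) (nat_lit 5) (nat_lit 147) (nat_lit 5) (nat_lit 506) (nat_lit 447) (nat_lit 247)) (XT.lf (nat_lit 0) (nat_lit 4394519894) (nat_lit 304) (nat_lit 2647693633) (nat_lit 76) (nat_lit 37817498328) (nat_lit 142) (nat_lit 5) (nat_lit 146) (nat_lit 5) (nat_lit 143) (nat_lit 5) (nat_lit 507) (nat_lit 447) (nat_lit 246))))) (XT.nd (nat_lit 312) (nat_lit 456) (nat_lit 0) (XT.nd (nat_lit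 156) (nat_lit 304) (nat_lit 0) (XT.nd (nat_lit 78) (nat_lit 228) (nat_lit 0) (XT.lf (nat_lit 0) (nat_lit 14875753310) (nat_lit 380) (nat_lit 21072330795) (nat_lit 76) (nat_lit 9751077747) (nat_lit 138) (nat_lit 5) (nat_lit 143) (nat_lit 5) (nat_lit 139) (nat_lit 5) (nat_lit 508) (nat_lit 447) (nat_lit 245)) (XT.lf (nat_lit 0) (nat_lit 6258888477) (nat_lit 228) (nat_lit 19566832234) (nat_lit 304) (nat_lit 20733445908) (nat_lit 135) (nat_lit 5) (nat_lit 138) (nat_lit 5) (nat_lit 139) (nat_lit 5) (nat_lit 509) (nat_lit 447) (nat_lit 244))) (XT.nd (nat_lit 78) (nat_lit 304) (nat_lit 0) (XT.lf (nat_lit 0) (nat_lit 34837918195) (nat_lit 228) (nat_lit 2476501000) (nat_lit 304) (nat_lit 10124245544) (nat_lit 135) (nat_lit 5) (nat_lit 138) (nat_lit 5) (nat_lit 139) (nat_lit 5) (nat_lit 510) (nat_lit 447) (nat_lit 243)) (XT.lf (nat_lit 0) (nat_lit 1088121210) (nat_lit 304) (nat_lit 32251891765) (nat_lit 76) (nat_lit 14995286428)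 (nat_lit 131) (nat_lit 5) (nat_lit 135) (nat_lit 5) (nat_lit 132) (nat_lit 5) (nat_lit 511) (nat_lit 447) (nat_lit 242)))) (XT.nd (nat_lit 156) (nat_lit 228) (nat_lit 0) (XT.nd (nat_lit 78) (nat_lit 228) (nat_lit 0) (XT.lf (nat_lit 0) (nat_lit 12583906991) (nat_lit 304) (nat_lit 3498685810) (nat_lit 76) (nat_lit 33168717201) (nat_lit 131) (nat_lit 5) (nat_lit 135) (nat_lit 5) (nat_lit 132) (nat_lit 5) (nat_lit 512) (nat_lit 447) (nat_lit 241)) (XT.lf (nat_lit 0) (nat_lit 24696953460) (nat_lit 304) (nat_lit 23573085209) (nat_lit 76) (nat_lit 1916590791) (nat_lit 128) (nat_lit 5) (nat_lit 132) (nat_lit 5) (nat_lit 129) (nat_lit 5) (nat_lit 513) (nat_lit 447) (nat_lit 240))) (XT.nd (nat_lit 78) (nat_lit 0) (nat_lit 0) (XT.lf (nat_lit 0) (nat_lit 6515529554) (nat_lit 228) (nat_lit 30913010147) (nat_lit 304) (nat_lit 13713814497) (nat_lit 125) (nat_lit 5) (nat_lit 128) (nat_lit 5) (nat_lit 129) (nat_lit 5) (nat_lit 514)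 (nat_lit 447) (nat_lit 239)) (XT.lf (nat_lit 0) (nat_lit 37986125790) (nat_lit 228) (nat_lit 12791625823) (nat_lit 304) (nat_lit 1341928868) (nat_lit 125) (nat_lit 5) (nat_lit 128) (nat_lit 5) (nat_lit 129) (nat_lit 5) (nat_lit 515) (nat_lit 447) (nat_lit 238))))))) (XT.nd (nat_lit 1170) (nat_lit 1672) (nat_lit 0) (XT.nd (nat_lit 546) (nat_lit 988) (nat_lit 0) (XT.nd (nat_lit 234) (nat_lit 456) (nat_lit 0) (XT.nd (nat_lit 78) (nat_lit 228) (nat_lit 0) (XT.lf (nat_lit 0) (nat_lit 11403759628) (nat_lit 304) (nat_lit 35674632655) (nat_lit 76) (nat_lit 6037892880) (nat_lit 121) (nat_lit 5) (nat_lit 125) (nat_lit 5) (nat_lit 122) (nat_lit 5) (nat_lit 516) (nat_lit 447) (nat_lit 237)) (XT.nd (nat_lit 78) (nat_lit 228) (nat_lit 0) (XT.lf (nat_lit 0) (nat_lit 24773329996) (nat_lit 304) (nat_lit 4029867020) (nat_lit 76) (nat_lit 25331138028) (nat_lit 121) (nat_lit 5) (nat_lit 125) (nat_lit 5) (nat_lit 122) (nat_lit 5) (nat_lit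 517) (nat_lit 447) (nat_lit 236)) (XT.lf (nat_lit 0) (nat_lit 29128912412) (nat_lit 228) (nat_lit 9692845645) (nat_lit 304) (nat_lit 16352835376) (nat_lit 118) (nat_lit 5) (nat_lit 121) (nat_lit 5) (nat_lit 122) (nat_lit 5) (nat_lit 518) (nat_lit 447) (nat_lit 235)))) (XT.nd (nat_lit 156) (nat_lit 228) (nat_lit 0) (XT.nd (nat_lit 78) (nat_lit 76) (nat_lit 0) (XT.lf (nat_lit 0) (nat_lit 7159742014) (nat_lit 152) (nat_lit 46335636016) (nat_lit 228) (nat_lit 2744569496) (nat_lit 116) (nat_lit 5) (nat_lit 118) (nat_lit 5) (nat_lit 119) (nat_lit 5) (nat_lit 519) (nat_lit 447) (nat_lit 234)) (XT.lf (nat_lit 0) (nat_lit 11411359109) (nat_lit 228) (nat_lit 15644820644) (nat_lit 76) (nat_lit 30267050891) (nat_lit 115) (nat_lit 5) (nat_lit 118) (nat_lit 5) (nat_lit 116) (nat_lit 5) (nat_lit 520) (nat_lit 447) (nat_lit 233))) (XT.nd (nat_lit 78) (nat_lit 0) (nat_lit 0) (XT.lf (nat_lit 0) (nat_lit 19136216160) (nat_lit 228)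 (nat_lit 6982387577) (nat_lit 304) (nat_lit 32314139377) (nat_lit 112) (nat_lit 5) (nat_lit 115) (nat_lit 5) (nat_lit 116) (nat_lit 5) (nat_lit 521) (nat_lit 447) (nat_lit 232)) (XT.lf (nat_lit 0) (nat_lit 41556109016) (nat_lit 304) (nat_lit 4426275233) (nat_lit 76) (nat_lit 13584485519) (nat_lit 112) (nat_lit 5) (nat_lit 116) (nat_lit 5) (nat_lit 113) (nat_lit 5) (nat_lit 522) (nat_lit 447) (nat_lit 231))))) (XT.nd (nat_lit 312) (nat_lit 380) (nat_lit 0) (XT.nd (nat_lit 156) (nat_lit 152) (nat_lit 0) (XT.nd (nat_lit 78) (nat_lit 304) (nat_lit 0) (XT.lf (nat_lit 0) (nat_lit 32042660295) (nat_lit 152) (nat_lit 25789153211) (nat_lit 228) (nat_lit 2891954604) (nat_lit 110) (nat_lit 5) (nat_lit 112) (nat_lit 5) (nat_lit 113) (nat_lit 5) (nat_lit 523) (nat_lit 447) (nat_lit 230)) (XT.lf (nat_lit 0) (nat_lit 7808844687) (nat_lit 228) (nat_lit 4742267064) (nat_lit 304) (nat_lit 49357060896) (nat_lit 106) (nat_lit 5) (nat_lit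 109) (nat_lit 5) (nat_lit 110) (nat_lit 5) (nat_lit 524) (nat_lit 447) (nat_lit 229))) (XT.nd (nat_lit 78) (nat_lit 152) (nat_lit 0) (XT.lf (nat_lit 0) (nat_lit 28852580502) (nat_lit 304) (nat_lit 17335867729) (nat_lit 76) (nat_lit 16925205115) (nat_lit 106) (nat_lit 5) (nat_lit 110) (nat_lit 5) (nat_lit 107) (nat_lit 5) (nat_lit 525) (nat_lit 447) (nat_lit 228)) (XT.lf (nat_lit 0) (nat_lit 20887663664) (nat_lit 152) (nat_lit 25001173505) (nat_lit 228) (nat_lit 18459089078) (nat_lit 104) (nat_lit 5) (nat_lit 106) (nat_lit 5) (nat_lit 107) (nat_lit 5) (nat_lit 526) (nat_lit 447) (nat_lit 227)))) (XT.nd (nat_lit 156) (nat_lit 152) (nat_lit 0) (XT.nd (nat_lit 78) (nat_lit 228) (nat_lit 0) (XT.lf (nat_lit 0) (nat_lit 60609830287) (nat_lit 152) (nat_lit 2999440263) (nat_lit 228) (nat_lit 2004764208) (nat_lit 104) (nat_lit 5) (nat_lit 106) (nat_lit 5) (nat_lit 107) (nat_lit 5) (nat_lit 527) (nat_lit 447) (nat_lit 226))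 (XT.lf (nat_lit 0) (nat_lit 15181252228) (nat_lit 228) (nat_lit 31953193068) (nat_lit 76) (nat_lit 19763482304) (nat_lit 101) (nat_lit 5) (nat_lit 104) (nat_lit 5) (nat_lit 102) (nat_lit 5) (nat_lit 528) (nat_lit 447) (nat_lit 225))) (XT.nd (nat_lit 78) (nat_lit 0) (nat_lit 0) (XT.lf (nat_lit 0) (nat_lit 8080139752) (nat_lit 152) (nat_lit 24918896636) (nat_lit 228) (nat_lit 35216011018) (nat_lit 99) (nat_lit 5) (nat_lit 101) (nat_lit 5) (nat_lit 102) (nat_lit 5) (nat_lit 529) (nat_lit 447) (nat_lit 224)) (XT.lf (nat_lit 0) (nat_lit 49966127183) (nat_lit 152) (nat_lit 1705994540) (nat_lit 228) (nat_lit 17889936139) (nat_lit 99) (nat_lit 5) (nat_lit 101) (nat_lit 5) (nat_lit 102) (nat_lit 5) (nat_lit 530) (nat_lit 447) (nat_lit 223)))))) (XT.nd (nat_lit 624) (nat_lit 760) (nat_lit 0) (XT.nd (nat_lit 312) (nat_lit 380) (nat_lit 0) (XT.nd (nat_lit 156) (nat_lit 304) (nat_lit 0) (XT.nd (nat_lit 78) (nat_lit 0) (nat_lit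 0) (XT.lf (nat_lit 0) (nat_lit 387704545) (nat_lit 228) (nat_lit 48561294863) (nat_lit 76) (nat_lit 21987564308) (nat_lit 96) (nat_lit 5) (nat_lit 99) (nat_lit 5) (nat_lit 97) (nat_lit 5) (nat_lit 531) (nat_lit 447) (nat_lit 222)) (XT.lf (nat_lit 0) (nat_lit 19068984291) (nat_lit 228) (nat_lit 6538348024) (nat_lit 76) (nat_lit 46733212270) (nat_lit 96) (nat_lit 5) (nat_lit 99) (nat_lit 5) (nat_lit 97) (nat_lit 5) (nat_lit 532) (nat_lit 447) (nat_lit 221))) (XT.nd (nat_lit 78) (nat_lit 152) (nat_lit 0) (XT.lf (nat_lit 0) (nat_lit 37473319766) (nat_lit 152) (nat_lit 1195802165) (nat_lit 228) (nat_lit 35106770437) (nat_lit 94) (nat_lit 5) (nat_lit 96) (nat_lit 5) (nat_lit 97) (nat_lit 5) (nat_lit 533) (nat_lit 447) (nat_lit 220)) (XT.lf (nat_lit 0) (nat_lit 7601303713) (nat_lit 152) (nat_lit 51624121490) (nat_lit 228) (nat_lit 16017830606) (nat_lit 92) (nat_lit 5) (nat_lit 94) (nat_lit 5) (nat_lit 95) (nat_lit 5) (nat_lit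 534) (nat_lit 447) (nat_lit 219)))) (XT.nd (nat_lit 156) (nat_lit 152) (nat_lit 0) (XT.nd (nat_lit 78) (nat_lit 152) (nat_lit 0) (XT.lf (nat_lit 0) (nat_lit 3952943486) (nat_lit 228) (nat_lit 23230893925) (nat_lit 76) (nat_lit 49558343945) (nat_lit 91) (nat_lit 5) (nat_lit 94) (nat_lit 5) (nat_lit 92) (nat_lit 5) (nat_lit 535) (nat_lit 447) (nat_lit 218)) (XT.lf (nat_lit 0) (nat_lit 22795602300) (nat_lit 152) (nat_lit 1622688531) (nat_lit 228) (nat_lit 53856504355) (nat_lit 89) (nat_lit 5) (nat_lit 91) (nat_lit 5) (nat_lit 92) (nat_lit 5) (nat_lit 536) (nat_lit 447) (nat_lit 217))) (XT.nd (nat_lit 78) (nat_lit 152) (nat_lit 0) (XT.lf (nat_lit 0) (nat_lit 45970264835) (nat_lit 228) (nat_lit 9410184022) (nat_lit 76) (nat_lit 24458758651) (nat_lit 89) (nat_lit 5) (nat_lit 92) (nat_lit 5) (nat_lit 90) (nat_lit 5) (nat_lit 537) (nat_lit 447) (nat_lit 216)) (XT.lf (nat_lit 0) (nat_lit 38778495154) (nat_lit 152) (nat_lit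 29777456710) (nat_lit 228) (nat_lit 12882985782) (nat_lit 87) (nat_lit 5) (nat_lit 89) (nat_lit 5) (nat_lit 90) (nat_lit 5) (nat_lit 538) (nat_lit 447) (nat_lit 215))))) (XT.nd (nat_lit 312) (nat_lit 380) (nat_lit 0) (XT.nd (nat_lit 156) (nat_lit 152) (nat_lit 0) (XT.nd (nat_lit 78) (nat_lit 0) (nat_lit 0) (XT.lf (nat_lit 0) (nat_lit 5542143682) (nat_lit 152) (nat_lit 3167570702) (nat_lit 228) (nat_lit 74370000041) (nat_lit 84) (nat_lit 5) (nat_lit 86) (nat_lit 5) (nat_lit 87) (nat_lit 5) (nat_lit 539) (nat_lit 447) (nat_lit 214)) (XT.lf (nat_lit 0) (nat_lit 31357662873) (nat_lit 228) (nat_lit 29059373337) (nat_lit 76) (nat_lit 24328859648) (nat_lit 84) (nat_lit 5) (nat_lit 87) (nat_lit 5) (nat_lit 85) (nat_lit 5) (nat_lit 540) (nat_lit 447) (nat_lit 213))) (XT.nd (nat_lit 78) (nat_lit 0) (nat_lit 0) (XT.lf (nat_lit 0) (nat_lit 21253578668) (nat_lit 152) (nat_lit 33665519077) (nat_lit 228) (nat_lit 31535943604)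 (nat_lit 82) (nat_lit 5) (nat_lit 84) (nat_lit 5) (nat_lit 85) (nat_lit 5) (nat_lit 541) (nat_lit 447) (nat_lit 212)) (XT.lf (nat_lit 0) (nat_lit 73668673840) (nat_lit 152) (nat_lit 5810546840) (nat_lit 228) (nat_lit 8727485229) (nat_lit 82) (nat_lit 5) (nat_lit 84) (nat_lit 5) (nat_lit 85) (nat_lit 5) (nat_lit 542) (nat_lit 447) (nat_lit 211)))) (XT.nd (nat_lit 156) (nat_lit 76) (nat_lit 0) (XT.nd (nat_lit 78) (nat_lit 152) (nat_lit 0) (XT.lf (nat_lit 0) (nat_lit 15068159481) (nat_lit 152) (nat_lit 51973827458) (nat_lit 76) (nat_lit 22946943884) (nat_lit 80) (nat_lit 5) (nat_lit 82) (nat_lit 5) (nat_lit 81) (nat_lit 5) (nat_lit 543) (nat_lit 447) (nat_lit 210)) (XT.lf (nat_lit 0) (nat_lit 483790448) (nat_lit 152) (nat_lit 39127348205) (nat_lit 228) (nat_lit 52204625188) (nat_lit 78) (nat_lit 5) (nat_lit 80) (nat_lit 5) (nat_lit 81) (nat_lit 5) (nat_lit 544) (nat_lit 447) (nat_lit 209))) (XT.nd (nat_lit 78) (nat_lit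 76) (nat_lit 0) (XT.lf (nat_lit 0) (nat_lit 55577692126) (nat_lit 152) (nat_lit 9836005959) (nat_lit 228) (nat_lit 28268005087) (nat_lit 78) (nat_lit 5) (nat_lit 80) (nat_lit 5) (nat_lit 81) (nat_lit 5) (nat_lit 545) (nat_lit 447) (nat_lit 208)) (XT.lf (nat_lit 0) (nat_lit 16851350358) (nat_lit 76) (nat_lit 75494922818) (nat_lit 152) (nat_lit 3246669386) (nat_lit 77) (nat_lit 5) (nat_lit 78) (nat_lit 5) (nat_lit 79) (nat_lit 4) (nat_lit 546) (nat_lit 447) (nat_lit 207))))))))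
noncomputable def xc196 : XT := (XT.nd (nat_lit 2340) (nat_lit 7068) (nat_lit 0) (XT.nd (nat_lit 1170) (nat_lit 4332) (nat_lit 0) (XT.nd (nat_lit 546) (nat_lit 0) (nat_lit 228) (XT.nd (nat_lit 234) (nat_lit 0) (nat_lit 76) (XT.nd (nat_lit 78) (nat_lit 0) (nat_lit 0) (XT.lf (nat_lit 0) (nat_lit 1560505345) (nat_lit 1292) (nat_lit 3455590634) (nat_lit 1292) (nat_lit 3455590634) (nat_lit 293) (nat_lit 3) (nat_lit 310) (nat_lit 3) (nat_lit 310) (nat_lit 5) (nat_lit 448) (nat_lit 448) (nat_lit 304)) (XT.nd (nat_lit 78) (nat_lit 0) (nat_lit 76) (XT.lf (nat_lit 76) (nat_lit 1488018049) (nat_lit 0) (nat_lit 1924710340) (nat_lit 1292) (nat_lit 13777416302) (nat_lit 294) (nat_lit 5) (nat_lit 293) (nat_lit 3) (nat_lit 310) (nat_lit 5) (nat_lit 449) (nat_lit 448) (nat_lit 303)) (XT.lf (nat_lit 0) (nat_lit 3836445015) (nat_lit 1216) (nat_lit 7228863208) (nat_lit 1292) (nat_lit 6375314905) (nat_lit 294) (nat_lit 5) (nat_lit 310)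 (nat_lit 5) (nat_lit 311) (nat_lit 5) (nat_lit 450) (nat_lit 448) (nat_lit 302)))) (XT.nd (nat_lit 156) (nat_lit 0) (nat_lit 76) (XT.nd (nat_lit 78) (nat_lit 0) (nat_lit 76) (XT.lf (nat_lit 76) (nat_lit 1503995006) (nat_lit 0) (nat_lit 2793650661) (nat_lit 1292) (nat_lit 13400228291) (nat_lit 295) (nat_lit 5) (nat_lit 294) (nat_lit 5) (nat_lit 311) (nat_lit 5) (nat_lit 451) (nat_lit 448) (nat_lit 301)) (XT.lf (nat_lit 0) (nat_lit 4892947864) (nat_lit 1216) (nat_lit 7374534451) (nat_lit 1292) (nat_lit 5691753210) (nat_lit 295) (nat_lit 5) (nat_lit 311) (nat_lit 5) (nat_lit 312) (nat_lit 5) (nat_lit 452) (nat_lit 448) (nat_lit 300))) (XT.nd (nat_lit 78) (nat_lit 0) (nat_lit 76) (XT.lf (nat_lit 76) (nat_lit 1710111030) (nat_lit 0) (nat_lit 3831846264) (nat_lit 1292) (nat_lit 12685406346) (nat_lit 296) (nat_lit 5) (nat_lit 295) (nat_lit 5) (nat_lit 312) (nat_lit 5) (nat_lit 453) (nat_lit 448) (nat_lit 299)) (XT.lf (nat_lit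 0) (nat_lit 6324302147) (nat_lit 1216) (nat_lit 7335473105) (nat_lit 1292) (nat_lit 4840345505) (nat_lit 296) (nat_lit 5) (nat_lit 312) (nat_lit 5) (nat_lit 313) (nat_lit 5) (nat_lit 454) (nat_lit 448) (nat_lit 298))))) (XT.nd (nat_lit 312) (nat_lit 0) (nat_lit 152) (XT.nd (nat_lit 156) (nat_lit 0) (nat_lit 76) (XT.nd (nat_lit 78) (nat_lit 0) (nat_lit 76) (XT.lf (nat_lit 76) (nat_lit 2120130198) (nat_lit 0) (nat_lit 5060512412) (nat_lit 1292) (nat_lit 11598903296) (nat_lit 297) (nat_lit 5) (nat_lit 296) (nat_lit 5) (nat_lit 313) (nat_lit 5) (nat_lit 455) (nat_lit 448) (nat_lit 297)) (XT.lf (nat_lit 0) (nat_lit 8166387111) (nat_lit 1216) (nat_lit 7097856650) (nat_lit 1292) (nat_lit 3799999684) (nat_lit 297) (nat_lit 5) (nat_lit 313) (nat_lit 5) (nat_lit 314) (nat_lit 5) (nat_lit 456) (nat_lit 448) (nat_lit 296))) (XT.nd (nat_lit 78) (nat_lit 0) (nat_lit 76) (XT.lf (nat_lit 76) (nat_lit 2748974103) (nat_lit 0) (nat_lit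 6501889860) (nat_lit 1292) (nat_lit 10104544163) (nat_lit 298) (nat_lit 5) (nat_lit 297) (nat_lit 5) (nat_lit 314) (nat_lit 5) (nat_lit 457) (nat_lit 448) (nat_lit 295)) (XT.lf (nat_lit 0) (nat_lit 10457332679) (nat_lit 1216) (nat_lit 6646715010) (nat_lit 1292) (nat_lit 2548577319) (nat_lit 298) (nat_lit 5) (nat_lit 314) (nat_lit 5) (nat_lit 315) (nat_lit 5) (nat_lit 458) (nat_lit 448) (nat_lit 294)))) (XT.nd (nat_lit 156) (nat_lit 0) (nat_lit 76) (XT.nd (nat_lit 78) (nat_lit 0) (nat_lit 76) (XT.lf (nat_lit 76) (nat_lit 3612772124) (nat_lit 0) (nat_lit 8179353488) (nat_lit 1292) (nat_lit 8163869839) (nat_lit 299) (nat_lit 5) (nat_lit 298) (nat_lit 5) (nat_lit 315) (nat_lit 5) (nat_lit 459) (nat_lit 448) (nat_lit 293)) (XT.lf (nat_lit 0) (nat_lit 13237681537) (nat_lit 1216) (nat_lit 5965879439) (nat_lit 1292) (nat_lit 1062785387) (nat_lit 299) (nat_lit 5) (nat_lit 315) (nat_lit 5) (nat_lit 316) (nat_lit 5) (nat_lit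 460) (nat_lit 448) (nat_lit 292))) (XT.nd (nat_lit 78) (nat_lit 0) (nat_lit 0) (XT.lf (nat_lit 76) (nat_lit 4728916041) (nat_lit 0) (nat_lit 10117524671) (nat_lit 1292) (nat_lit 5735972895) (nat_lit 300) (nat_lit 5) (nat_lit 299) (nat_lit 5) (nat_lit 316) (nat_lit 5) (nat_lit 461) (nat_lit 448) (nat_lit 291)) (XT.lf (nat_lit 76) (nat_lit 15861737476) (nat_lit 0) (nat_lit 695507729) (nat_lit 1292) (nat_lit 4349105066) (nat_lit 300) (nat_lit 5) (nat_lit 299) (nat_lit 5) (nat_lit 316) (nat_lit 5) (nat_lit 462) (nat_lit 448) (nat_lit 290)))))) (XT.nd (nat_lit 546) (nat_lit 2280) (nat_lit 0) (XT.nd (nat_lit 234) (nat_lit 1368) (nat_lit 0) (XT.nd (nat_lit 78) (nat_lit 1216) (nat_lit 0) (XT.lf (nat_lit 76) (nat_lit 6116119071) (nat_lit 0) (nat_lit 12342387921) (nat_lit 1292) (nat_lit 2777324900) (nat_lit 301) (nat_lit 5) (nat_lit 300) (nat_lit 5) (nat_lit 317) (nat_lit 5) (nat_lit 463) (nat_lit 448) (nat_lit 289)) (XT.nd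 (nat_lit 78) (nat_lit 1216) (nat_lit 0) (XT.lf (nat_lit 76) (nat_lit 17702944581) (nat_lit 0) (nat_lit 2765494259) (nat_lit 1292) (nat_lit 1105210982) (nat_lit 301) (nat_lit 5) (nat_lit 300) (nat_lit 5) (nat_lit 317) (nat_lit 5) (nat_lit 464) (nat_lit 448) (nat_lit 288)) (XT.lf (nat_lit 0) (nat_lit 743606153) (nat_lit 1292) (nat_lit 14130297241) (nat_lit 76) (nat_lit 7043364298) (nat_lit 284) (nat_lit 5) (nat_lit 301) (nat_lit 5) (nat_lit 285) (nat_lit 5) (nat_lit 465) (nat_lit 448) (nat_lit 287)))) (XT.nd (nat_lit 156) (nat_lit 608) (nat_lit 0) (XT.nd (nat_lit 78) (nat_lit 760) (nat_lit 0) (XT.lf (nat_lit 0) (nat_lit 2686655119) (nat_lit 1292) (nat_lit 2440231766) (nat_lit 76) (nat_lit 17142150261) (nat_lit 284) (nat_lit 5) (nat_lit 301) (nat_lit 5) (nat_lit 285) (nat_lit 5) (nat_lit 466) (nat_lit 448) (nat_lit 286)) (XT.lf (nat_lit 0) (nat_lit 4824525979) (nat_lit 836) (nat_lit 12890434328) (nat_lit 76) (nat_lit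 4912304198) (nat_lit 274) (nat_lit 5) (nat_lit 285) (nat_lit 5) (nat_lit 275) (nat_lit 5) (nat_lit 467) (nat_lit 448) (nat_lit 285))) (XT.nd (nat_lit 78) (nat_lit 608) (nat_lit 0) (XT.lf (nat_lit 0) (nat_lit 7096600409) (nat_lit 836) (nat_lit 722471769) (nat_lit 76) (nat_lit 15175065197) (nat_lit 274) (nat_lit 5) (nat_lit 285) (nat_lit 5) (nat_lit 275) (nat_lit 5) (nat_lit 468) (nat_lit 448) (nat_lit 284)) (XT.lf (nat_lit 0) (nat_lit 9571127235) (nat_lit 684) (nat_lit 11352234511) (nat_lit 76) (nat_lit 2444626673) (nat_lit 266) (nat_lit 5) (nat_lit 275) (nat_lit 5) (nat_lit 267) (nat_lit 5) (nat_lit 469) (nat_lit 448) (nat_lit 283))))) (XT.nd (nat_lit 312) (nat_lit 1140) (nat_lit 0) (XT.nd (nat_lit 156) (nat_lit 532) (nat_lit 0) (XT.nd (nat_lit 78) (nat_lit 0) (nat_lit 0) (XT.lf (nat_lit 0) (nat_lit 1341635906) (nat_lit 608) (nat_lit 10870630883) (nat_lit 684) (nat_lit 11538017571) (nat_lit 258) (nat_lit 5) (nat_lit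 266) (nat_lit 5) (nat_lit 267) (nat_lit 5) (nat_lit 470) (nat_lit 448) (nat_lit 282)) (XT.lf (nat_lit 0) (nat_lit 14643927017) (nat_lit 608) (nat_lit 398150197) (nat_lit 684) (nat_lit 9098689517) (nat_lit 258) (nat_lit 5) (nat_lit 266) (nat_lit 5) (nat_lit 267) (nat_lit 5) (nat_lit 471) (nat_lit 448) (nat_lit 281))) (XT.nd (nat_lit 78) (nat_lit 0) (nat_lit 0) (XT.lf (nat_lit 0) (nat_lit 3770937873) (nat_lit 532) (nat_lit 14316906968) (nat_lit 608) (nat_lit 6451187479) (nat_lit 251) (nat_lit 5) (nat_lit 258) (nat_lit 5) (nat_lit 259) (nat_lit 5) (nat_lit 472) (nat_lit 448) (nat_lit 280)) (XT.lf (nat_lit 0) (nat_lit 17622344919) (nat_lit 532) (nat_lit 3697495483) (nat_lit 608) (nat_lit 3626560444) (nat_lit 251) (nat_lit 5) (nat_lit 258) (nat_lit 5) (nat_lit 259) (nat_lit 5) (nat_lit 473) (nat_lit 448) (nat_lit 279)))) (XT.nd (nat_lit 156) (nat_lit 532) (nat_lit 0) (XT.nd (nat_lit 78) (nat_lit 76) (nat_lit 0) (XT.lf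 (nat_lit 0) (nat_lit 6576988833) (nat_lit 532) (nat_lit 18199824226) (nat_lit 608) (nat_lit 585337448) (nat_lit 244) (nat_lit 5) (nat_lit 251) (nat_lit 5) (nat_lit 252) (nat_lit 5) (nat_lit 474) (nat_lit 448) (nat_lit 278)) (XT.lf (nat_lit 0) (nat_lit 2603958125) (nat_lit 608) (nat_lit 4809879920) (nat_lit 76) (nat_lit 18372604460) (nat_lit 243) (nat_lit 5) (nat_lit 251) (nat_lit 5) (nat_lit 244) (nat_lit 5) (nat_lit 475) (nat_lit 448) (nat_lit 277))) (XT.nd (nat_lit 78) (nat_lit 0) (nat_lit 0) (XT.lf (nat_lit 0) (nat_lit 6002917202) (nat_lit 608) (nat_lit 16492670083) (nat_lit 76) (nat_lit 3723930181) (nat_lit 236) (nat_lit 5) (nat_lit 244) (nat_lit 5) (nat_lit 237) (nat_lit 5) (nat_lit 476) (nat_lit 448) (nat_lit 276)) (XT.lf (nat_lit 0) (nat_lit 9621762887) (nat_lit 608) (nat_lit 1944775626) (nat_lit 76) (nat_lit 15095509159) (nat_lit 236) (nat_lit 5) (nat_lit 244) (nat_lit 5) (nat_lit 237) (nat_lit 5) (nat_lit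 477) (nat_lit 448) (nat_lit 275))))))) (XT.nd (nat_lit 1170) (nat_lit 2964) (nat_lit 0) (XT.nd (nat_lit 546) (nat_lit 2128) (nat_lit 0) (XT.nd (nat_lit 234) (nat_lit 988) (nat_lit 0) (XT.nd (nat_lit 78) (nat_lit 456) (nat_lit 0) (XT.lf (nat_lit 0) (nat_lit 13294080615) (nat_lit 532) (nat_lit 178478579) (nat_lit 608) (nat_lit 13641593549) (nat_lit 229) (nat_lit 5) (nat_lit 236) (nat_lit 5) (nat_lit 237) (nat_lit 5) (nat_lit 478) (nat_lit 448) (nat_lit 274)) (XT.nd (nat_lit 78) (nat_lit 0) (nat_lit 0) (XT.lf (nat_lit 0) (nat_lit 1361097038) (nat_lit 456) (nat_lit 16217407532) (nat_lit 532) (nat_lit 9997128140) (nat_lit 223) (nat_lit 5) (nat_lit 229) (nat_lit 5) (nat_lit 230) (nat_lit 5) (nat_lit 479) (nat_lit 448) (nat_lit 273)) (XT.lf (nat_lit 0) (nat_lit 17274277901) (nat_lit 456) (nat_lit 4670405823) (nat_lit 532) (nat_lit 6102162176) (nat_lit 223) (nat_lit 5) (nat_lit 229) (nat_lit 5) (nat_lit 230) (nat_lit 5)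 (nat_lit 480) (nat_lit 448) (nat_lit 272)))) (XT.nd (nat_lit 156) (nat_lit 456) (nat_lit 0) (XT.nd (nat_lit 78) (nat_lit 76) (nat_lit 0) (XT.lf (nat_lit 0) (nat_lit 5159003729) (nat_lit 456) (nat_lit 21397735513) (nat_lit 532) (nat_lit 1972009984) (nat_lit 217) (nat_lit 5) (nat_lit 223) (nat_lit 5) (nat_lit 224) (nat_lit 5) (nat_lit 481) (nat_lit 448) (nat_lit 271)) (XT.lf (nat_lit 0) (nat_lit 2389517010) (nat_lit 532) (nat_lit 7306679445) (nat_lit 76) (nat_lit 19323695516) (nat_lit 216) (nat_lit 5) (nat_lit 223) (nat_lit 5) (nat_lit 217) (nat_lit 5) (nat_lit 482) (nat_lit 448) (nat_lit 270))) (XT.nd (nat_lit 78) (nat_lit 0) (nat_lit 0) (XT.lf (nat_lit 0) (nat_lit 6952338505) (nat_lit 532) (nat_lit 20148978601) (nat_lit 76) (nat_lit 2420564051) (nat_lit 210) (nat_lit 5) (nat_lit 217) (nat_lit 5) (nat_lit 211) (nat_lit 5) (nat_lit 483) (nat_lit 448) (nat_lit 269)) (XT.lf (nat_lit 0) (nat_lit 11818642760) (nat_lit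 532) (nat_lit 3435644346) (nat_lit 76) (nat_lit 14779645391) (nat_lit 210) (nat_lit 5) (nat_lit 217) (nat_lit 5) (nat_lit 211) (nat_lit 5) (nat_lit 484) (nat_lit 448) (nat_lit 268))))) (XT.nd (nat_lit 312) (nat_lit 760) (nat_lit 0) (XT.nd (nat_lit 156) (nat_lit 532) (nat_lit 0) (XT.nd (nat_lit 78) (nat_lit 380) (nat_lit 0) (XT.lf (nat_lit 0) (nat_lit 14048521233) (nat_lit 456) (nat_lit 2913654498) (nat_lit 532) (nat_lit 13595232864) (nat_lit 204) (nat_lit 5) (nat_lit 210) (nat_lit 5) (nat_lit 211) (nat_lit 5) (nat_lit 485) (nat_lit 448) (nat_lit 267)) (XT.lf (nat_lit 0) (nat_lit 951372021) (nat_lit 380) (nat_lit 21443254991) (nat_lit 456) (nat_lit 8697923990) (nat_lit 199) (nat_lit 5) (nat_lit 204) (nat_lit 5) (nat_lit 205) (nat_lit 5) (nat_lit 486) (nat_lit 448) (nat_lit 266))) (XT.nd (nat_lit 78) (nat_lit 532) (nat_lit 0) (XT.lf (nat_lit 0) (nat_lit 19239716228) (nat_lit 380) (nat_lit 8941925737) (nat_lit 456)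 (nat_lit 3456358395) (nat_lit 199) (nat_lit 5) (nat_lit 204) (nat_lit 5) (nat_lit 205) (nat_lit 5) (nat_lit 487) (nat_lit 448) (nat_lit 265)) (XT.lf (nat_lit 0) (nat_lit 1996890208) (nat_lit 532) (nat_lit 26266131945) (nat_lit 76) (nat_lit 3933461036) (nat_lit 192) (nat_lit 5) (nat_lit 199) (nat_lit 5) (nat_lit 193) (nat_lit 5) (nat_lit 488) (nat_lit 448) (nat_lit 264)))) (XT.nd (nat_lit 156) (nat_lit 380) (nat_lit 0) (XT.nd (nat_lit 78) (nat_lit 380) (nat_lit 0) (XT.lf (nat_lit 0) (nat_lit 7755678499) (nat_lit 532) (nat_lit 7833663788) (nat_lit 76) (nat_lit 17175009578) (nat_lit 192) (nat_lit 5) (nat_lit 199) (nat_lit 5) (nat_lit 193) (nat_lit 5) (nat_lit 489) (nat_lit 448) (nat_lit 263)) (XT.lf (nat_lit 0) (nat_lit 11369064062) (nat_lit 380) (nat_lit 2423996217) (nat_lit 456) (nat_lit 19553021768) (nat_lit 187) (nat_lit 5) (nat_lit 192) (nat_lit 5) (nat_lit 193) (nat_lit 5) (nat_lit 490) (nat_lit 448) (nat_lit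 262))) (XT.nd (nat_lit 78) (nat_lit 380) (nat_lit 0) (XT.lf (nat_lit 0) (nat_lit 20195090276) (nat_lit 456) (nat_lit 2746879566) (nat_lit 76) (nat_lit 10997788819) (nat_lit 187) (nat_lit 5) (nat_lit 193) (nat_lit 5) (nat_lit 188) (nat_lit 5) (nat_lit 491) (nat_lit 448) (nat_lit 261)) (XT.lf (nat_lit 0) (nat_lit 17370648803) (nat_lit 380) (nat_lit 9606198837) (nat_lit 456) (nat_lit 7568768262) (nat_lit 182) (nat_lit 5) (nat_lit 187) (nat_lit 5) (nat_lit 188) (nat_lit 5) (nat_lit 492) (nat_lit 448) (nat_lit 260)))))) (XT.nd (nat_lit 546) (nat_lit 1520) (nat_lit 0) (XT.nd (nat_lit 234) (nat_lit 684) (nat_lit 0) (XT.nd (nat_lit 78) (nat_lit 456) (nat_lit 0) (XT.lf (nat_lit 0) (nat_lit 2993108700) (nat_lit 304) (nat_lit 31062161718) (nat_lit 380) (nat_lit 1111582374) (nat_lit 178) (nat_lit 5) (nat_lit 182) (nat_lit 5) (nat_lit 183) (nat_lit 5) (nat_lit 493) (nat_lit 448) (nat_lit 259)) (XT.nd (nat_lit 78) (nat_lit 380)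 (nat_lit 0) (XT.lf (nat_lit 0) (nat_lit 5698240271) (nat_lit 380) (nat_lit 11837843969) (nat_lit 76) (nat_lit 18261035025) (nat_lit 177) (nat_lit 5) (nat_lit 182) (nat_lit 5) (nat_lit 178) (nat_lit 5) (nat_lit 494) (nat_lit 448) (nat_lit 258)) (XT.lf (nat_lit 0) (nat_lit 9273681007) (nat_lit 380) (nat_lit 3502325501) (nat_lit 456) (nat_lit 23667377616) (nat_lit 172) (nat_lit 5) (nat_lit 177) (nat_lit 5) (nat_lit 178) (nat_lit 5) (nat_lit 495) (nat_lit 448) (nat_lit 257)))) (XT.nd (nat_lit 156) (nat_lit 380) (nat_lit 0) (XT.nd (nat_lit 78) (nat_lit 304) (nat_lit 0) (XT.lf (nat_lit 0) (nat_lit 20288993986) (nat_lit 456) (nat_lit 5955147329) (nat_lit 76) (nat_lit 10858209245) (nat_lit 172) (nat_lit 5) (nat_lit 178) (nat_lit 5) (nat_lit 173) (nat_lit 5) (nat_lit 496) (nat_lit 448) (nat_lit 256)) (XT.lf (nat_lit 0) (nat_lit 16172433268) (nat_lit 304) (nat_lit 12042048462) (nat_lit 380) (nat_lit 9560991209) (nat_lit 168)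 (nat_lit 5) (nat_lit 172) (nat_lit 5) (nat_lit 173) (nat_lit 5) (nat_lit 497) (nat_lit 448) (nat_lit 255))) (XT.nd (nat_lit 78) (nat_lit 76) (nat_lit 0) (XT.lf (nat_lit 0) (nat_lit 600848509) (nat_lit 304) (nat_lit 35865260648) (nat_lit 380) (nat_lit 2000028841) (nat_lit 164) (nat_lit 5) (nat_lit 168) (nat_lit 5) (nat_lit 169) (nat_lit 5) (nat_lit 498) (nat_lit 448) (nat_lit 254)) (XT.lf (nat_lit 0) (nat_lit 6011384376) (nat_lit 380) (nat_lit 15438677061) (nat_lit 76) (nat_lit 17715695892) (nat_lit 163) (nat_lit 5) (nat_lit 168) (nat_lit 5) (nat_lit 164) (nat_lit 5) (nat_lit 499) (nat_lit 448) (nat_lit 253))))) (XT.nd (nat_lit 312) (nat_lit 912) (nat_lit 0) (XT.nd (nat_lit 156) (nat_lit 304) (nat_lit 0) (XT.nd (nat_lit 78) (nat_lit 0) (nat_lit 0) (XT.lf (nat_lit 0) (nat_lit 7788674460) (nat_lit 304) (nat_lit 6506248709) (nat_lit 380) (nat_lit 25588688788) (nat_lit 159) (nat_lit 5) (nat_lit 163) (nat_lit 5) (nat_lit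 164) (nat_lit 5) (nat_lit 500) (nat_lit 448) (nat_lit 252)) (XT.lf (nat_lit 0) (nat_lit 23066971524) (nat_lit 380) (nat_lit 8680234040) (nat_lit 76) (nat_lit 8868596789) (nat_lit 159) (nat_lit 5) (nat_lit 164) (nat_lit 5) (nat_lit 160) (nat_lit 5) (nat_lit 501) (nat_lit 448) (nat_lit 251))) (XT.nd (nat_lit 78) (nat_lit 0) (nat_lit 0) (XT.lf (nat_lit 0) (nat_lit 15674203816) (nat_lit 304) (nat_lit 16640292033) (nat_lit 380) (nat_lit 9049093403) (nat_lit 155) (nat_lit 5) (nat_lit 159) (nat_lit 5) (nat_lit 160) (nat_lit 5) (nat_lit 502) (nat_lit 448) (nat_lit 250)) (XT.lf (nat_lit 0) (nat_lit 40933103196) (nat_lit 304) (nat_lit 991263534) (nat_lit 380) (nat_lit 206895621) (nat_lit 155) (nat_lit 5) (nat_lit 159) (nat_lit 5) (nat_lit 160) (nat_lit 5) (nat_lit 503) (nat_lit 448) (nat_lit 249)))) (XT.nd (nat_lit 156) (nat_lit 228) (nat_lit 0) (XT.nd (nat_lit 78) (nat_lit 304) (nat_lit 0) (XT.lf (nat_lit 0) (nat_lit 9107464726)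 (nat_lit 380) (nat_lit 18646387126) (nat_lit 76) (nat_lit 15154129903) (nat_lit 150) (nat_lit 5) (nat_lit 155) (nat_lit 5) (nat_lit 151) (nat_lit 5) (nat_lit 504) (nat_lit 448) (nat_lit 248)) (XT.lf (nat_lit 0) (nat_lit 6921066060) (nat_lit 304) (nat_lit 11861941359) (nat_lit 380) (nat_lit 24922356770) (nat_lit 146) (nat_lit 5) (nat_lit 150) (nat_lit 5) (nat_lit 151) (nat_lit 5) (nat_lit 505) (nat_lit 448) (nat_lit 247))) (XT.nd (nat_lit 78) (nat_lit 228) (nat_lit 0) (XT.lf (nat_lit 0) (nat_lit 28979666051) (nat_lit 380) (nat_lit 10932523132) (nat_lit 76) (nat_lit 4607553617) (nat_lit 146) (nat_lit 5) (nat_lit 151) (nat_lit 5) (nat_lit 147) (nat_lit 5) (nat_lit 506) (nat_lit 448) (nat_lit 246)) (XT.lf (nat_lit 0) (nat_lit 15883326690) (nat_lit 228) (nat_lit 23866471532) (nat_lit 304) (nat_lit 5600727524) (nat_lit 143) (nat_lit 5) (nat_lit 146) (nat_lit 5) (nat_lit 147) (nat_lit 5) (nat_lit 507) (nat_lit 448) (nat_lit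 245))))))))
noncomputable def xc197 : XT := (XT.nd (nat_lit 2340) (nat_lit 836) (nat_lit 0) (XT.nd (nat_lit 1170) (nat_lit 1748) (nat_lit 0) (XT.nd (nat_lit 546) (nat_lit 1216) (nat_lit 0) (XT.nd (nat_lit 234) (nat_lit 532) (nat_lit 0) (XT.nd (nat_lit 78) (nat_lit 532) (nat_lit 0) (XT.lf (nat_lit 0) (nat_lit 4655271520) (nat_lit 304) (nat_lit 2524813212) (nat_lit 76) (nat_lit 39021541970) (nat_lit 142) (nat_lit 5) (nat_lit 146) (nat_lit 5) (nat_lit 143) (nat_lit 5) (nat_lit 508) (nat_lit 448) (nat_lit 244)) (XT.nd (nat_lit 78) (nat_lit 228) (nat_lit 0) (XT.lf (nat_lit 0) (nat_lit 15449816813) (nat_lit 380) (nat_lit 21501055600) (nat_lit 76) (nat_lit 10115421805) (nat_lit 138) (nat_lit 5) (nat_lit 143) (nat_lit 5) (nat_lit 139) (nat_lit 5) (nat_lit 509) (nat_lit 448) (nat_lit 243)) (XT.lf (nat_lit 0) (nat_lit 6648105690) (nat_lit 228) (nat_lit 20078391947) (nat_lit 304) (nat_lit 21225655313) (nat_lit 135) (nat_lit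 5) (nat_lit 138) (nat_lit 5) (nat_lit 139) (nat_lit 5) (nat_lit 510) (nat_lit 448) (nat_lit 242)))) (XT.nd (nat_lit 156) (nat_lit 228) (nat_lit 0) (XT.nd (nat_lit 78) (nat_lit 304) (nat_lit 0) (XT.lf (nat_lit 0) (nat_lit 36078638808) (nat_lit 228) (nat_lit 2477548210) (nat_lit 304) (nat_lit 10301959346) (nat_lit 135) (nat_lit 5) (nat_lit 138) (nat_lit 5) (nat_lit 139) (nat_lit 5) (nat_lit 511) (nat_lit 448) (nat_lit 241)) (XT.lf (nat_lit 0) (nat_lit 1243319773) (nat_lit 304) (nat_lit 33020391006) (nat_lit 76) (nat_lit 15517963172) (nat_lit 131) (nat_lit 5) (nat_lit 135) (nat_lit 5) (nat_lit 132) (nat_lit 5) (nat_lit 512) (nat_lit 448) (nat_lit 240))) (XT.nd (nat_lit 78) (nat_lit 228) (nat_lit 0) (XT.lf (nat_lit 0) (nat_lit 13080409566) (nat_lit 304) (nat_lit 3410386665) (nat_lit 76) (nat_lit 34234475951) (nat_lit 131) (nat_lit 5) (nat_lit 135) (nat_lit 5) (nat_lit 132) (nat_lit 5) (nat_lit 513) (nat_lit 448) (nat_lit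 239)) (XT.lf (nat_lit 0) (nat_lit 25555932742) (nat_lit 304) (nat_lit 24086096018) (nat_lit 76) (nat_lit 2046650123) (nat_lit 128) (nat_lit 5) (nat_lit 132) (nat_lit 5) (nat_lit 129) (nat_lit 5) (nat_lit 514) (nat_lit 448) (nat_lit 238))))) (XT.nd (nat_lit 312) (nat_lit 684) (nat_lit 0) (XT.nd (nat_lit 156) (nat_lit 304) (nat_lit 0) (XT.nd (nat_lit 78) (nat_lit 0) (nat_lit 0) (XT.lf (nat_lit 0) (nat_lit 6903273445) (nat_lit 228) (nat_lit 31764602468) (nat_lit 304) (nat_lit 14005247386) (nat_lit 125) (nat_lit 5) (nat_lit 128) (nat_lit 5) (nat_lit 129) (nat_lit 5) (nat_lit 515) (nat_lit 448) (nat_lit 237)) (XT.lf (nat_lit 0) (nat_lit 39312387238) (nat_lit 228) (nat_lit 13101784322) (nat_lit 304) (nat_lit 1265699796) (nat_lit 125) (nat_lit 5) (nat_lit 128) (nat_lit 5) (nat_lit 129) (nat_lit 5) (nat_lit 516) (nat_lit 448) (nat_lit 236))) (XT.nd (nat_lit 78) (nat_lit 0) (nat_lit 0) (XT.lf (nat_lit 0) (nat_lit 11859273587)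 (nat_lit 304) (nat_lit 36555094956) (nat_lit 76) (nat_lit 6291996618) (nat_lit 121) (nat_lit 5) (nat_lit 125) (nat_lit 5) (nat_lit 122) (nat_lit 5) (nat_lit 517) (nat_lit 448) (nat_lit 235)) (XT.lf (nat_lit 0) (nat_lit 25626628120) (nat_lit 304) (nat_lit 3966513828) (nat_lit 76) (nat_lit 26161913870) (nat_lit 121) (nat_lit 5) (nat_lit 125) (nat_lit 5) (nat_lit 122) (nat_lit 5) (nat_lit 518) (nat_lit 448) (nat_lit 234)))) (XT.nd (nat_lit 156) (nat_lit 304) (nat_lit 0) (XT.nd (nat_lit 78) (nat_lit 152) (nat_lit 0) (XT.lf (nat_lit 0) (nat_lit 30185222622) (nat_lit 228) (nat_lit 9909833408) (nat_lit 304) (nat_lit 16731509702) (nat_lit 118) (nat_lit 5) (nat_lit 121) (nat_lit 5) (nat_lit 122) (nat_lit 5) (nat_lit 519) (nat_lit 448) (nat_lit 233)) (XT.lf (nat_lit 0) (nat_lit 7557719512) (nat_lit 152) (nat_lit 47650450280) (nat_lit 228) (nat_lit 2715732279) (nat_lit 116) (nat_lit 5) (nat_lit 118) (nat_lit 5) (nat_lit 119)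 (nat_lit 5) (nat_lit 520) (nat_lit 448) (nat_lit 232))) (XT.nd (nat_lit 78) (nat_lit 228) (nat_lit 0) (XT.lf (nat_lit 0) (nat_lit 11859529874) (nat_lit 228) (nat_lit 15934203668) (nat_lit 76) (nat_lit 31246013497) (nat_lit 115) (nat_lit 5) (nat_lit 118) (nat_lit 5) (nat_lit 116) (nat_lit 5) (nat_lit 521) (nat_lit 448) (nat_lit 231)) (XT.lf (nat_lit 0) (nat_lit 19888499911) (nat_lit 228) (nat_lit 7118122444) (nat_lit 304) (nat_lit 33175963776) (nat_lit 112) (nat_lit 5) (nat_lit 115) (nat_lit 5) (nat_lit 116) (nat_lit 5) (nat_lit 522) (nat_lit 448) (nat_lit 230)))))) (XT.nd (nat_lit 546) (nat_lit 912) (nat_lit 0) (XT.nd (nat_lit 234) (nat_lit 380) (nat_lit 0) (XT.nd (nat_lit 78) (nat_lit 456) (nat_lit 0) (XT.lf (nat_lit 0) (nat_lit 42904898412) (nat_lit 304) (nat_lit 4383696753) (nat_lit 76) (nat_lit 14062212211) (nat_lit 112) (nat_lit 5) (nat_lit 116) (nat_lit 5) (nat_lit 113) (nat_lit 5) (nat_lit 523) (nat_lit 448)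 (nat_lit 229)) (XT.nd (nat_lit 78) (nat_lit 304) (nat_lit 0) (XT.lf (nat_lit 0) (nat_lit 33177587559) (nat_lit 152) (nat_lit 26489981717) (nat_lit 228) (nat_lit 2874882688) (nat_lit 110) (nat_lit 5) (nat_lit 112) (nat_lit 5) (nat_lit 113) (nat_lit 5) (nat_lit 524) (nat_lit 448) (nat_lit 228)) (XT.lf (nat_lit 0) (nat_lit 8217066250) (nat_lit 228) (nat_lit 4811090295) (nat_lit 304) (nat_lit 50734241085) (nat_lit 106) (nat_lit 5) (nat_lit 109) (nat_lit 5) (nat_lit 110) (nat_lit 5) (nat_lit 525) (nat_lit 448) (nat_lit 227)))) (XT.nd (nat_lit 156) (nat_lit 228) (nat_lit 0) (XT.nd (nat_lit 78) (nat_lit 152) (nat_lit 0) (XT.lf (nat_lit 0) (nat_lit 29816427274) (nat_lit 304) (nat_lit 17684807429) (nat_lit 76) (nat_lit 17502875451) (nat_lit 106) (nat_lit 5) (nat_lit 110) (nat_lit 5) (nat_lit 107) (nat_lit 5) (nat_lit 526) (nat_lit 448) (nat_lit 226)) (XT.lf (nat_lit 0) (nat_lit 21683752099) (nat_lit 152) (nat_lit 25678786267)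 (nat_lit 228) (nat_lit 18912910012) (nat_lit 104) (nat_lit 5) (nat_lit 106) (nat_lit 5) (nat_lit 107) (nat_lit 5) (nat_lit 527) (nat_lit 448) (nat_lit 225))) (XT.nd (nat_lit 78) (nat_lit 228) (nat_lit 0) (XT.lf (nat_lit 0) (nat_lit 62592648035) (nat_lit 152) (nat_lit 3019110419) (nat_lit 228) (nat_lit 1967866612) (nat_lit 104) (nat_lit 5) (nat_lit 106) (nat_lit 5) (nat_lit 107) (nat_lit 5) (nat_lit 528) (nat_lit 448) (nat_lit 224)) (XT.lf (nat_lit 0) (nat_lit 15731330348) (nat_lit 228) (nat_lit 32744857555) (nat_lit 76) (nat_lit 20425834122) (nat_lit 101) (nat_lit 5) (nat_lit 104) (nat_lit 5) (nat_lit 102) (nat_lit 5) (nat_lit 529) (nat_lit 448) (nat_lit 223))))) (XT.nd (nat_lit 312) (nat_lit 532) (nat_lit 0) (XT.nd (nat_lit 156) (nat_lit 228) (nat_lit 0) (XT.nd (nat_lit 78) (nat_lit 0) (nat_lit 0) (XT.lf (nat_lit 0) (nat_lit 8487838668) (nat_lit 152) (nat_lit 25594641759) (nat_lit 228) (nat_lit 36176210150) (nat_lit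 99) (nat_lit 5) (nat_lit 101) (nat_lit 5) (nat_lit 102) (nat_lit 5) (nat_lit 530) (nat_lit 448) (nat_lit 222)) (XT.lf (nat_lit 0) (nat_lit 51625591312) (nat_lit 152) (nat_lit 1687444496) (nat_lit 228) (nat_lit 18333157331) (nat_lit 99) (nat_lit 5) (nat_lit 101) (nat_lit 5) (nat_lit 102) (nat_lit 5) (nat_lit 531) (nat_lit 448) (nat_lit 221))) (XT.nd (nat_lit 78) (nat_lit 0) (nat_lit 0) (XT.lf (nat_lit 0) (nat_lit 490538609) (nat_lit 228) (nat_lit 49855371882) (nat_lit 76) (nat_lit 22716010329) (nat_lit 96) (nat_lit 5) (nat_lit 99) (nat_lit 5) (nat_lit 97) (nat_lit 5) (nat_lit 532) (nat_lit 448) (nat_lit 220)) (XT.lf (nat_lit 0) (nat_lit 19729600351) (nat_lit 228) (nat_lit 6576477273) (nat_lit 76) (nat_lit 48202023291) (nat_lit 96) (nat_lit 5) (nat_lit 99) (nat_lit 5) (nat_lit 97) (nat_lit 5) (nat_lit 533) (nat_lit 448) (nat_lit 219)))) (XT.nd (nat_lit 156) (nat_lit 228) (nat_lit 0) (XT.nd (nat_lit 78) (nat_lit 152)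 (nat_lit 0) (XT.lf (nat_lit 0) (nat_lit 38753991322) (nat_lit 152) (nat_lit 1162675877) (nat_lit 228) (nat_lit 36069874285) (nat_lit 94) (nat_lit 5) (nat_lit 96) (nat_lit 5) (nat_lit 97) (nat_lit 5) (nat_lit 534) (nat_lit 448) (nat_lit 218)) (XT.lf (nat_lit 0) (nat_lit 7986225871) (nat_lit 152) (nat_lit 53103037994) (nat_lit 228) (nat_lit 16408673939) (nat_lit 92) (nat_lit 5) (nat_lit 94) (nat_lit 5) (nat_lit 95) (nat_lit 5) (nat_lit 535) (nat_lit 448) (nat_lit 217))) (XT.nd (nat_lit 78) (nat_lit 152) (nat_lit 0) (XT.lf (nat_lit 0) (nat_lit 4156911771) (nat_lit 228) (nat_lit 23773804669) (nat_lit 76) (nat_lit 51111165750) (nat_lit 91) (nat_lit 5) (nat_lit 94) (nat_lit 5) (nat_lit 92) (nat_lit 5) (nat_lit 536) (nat_lit 448) (nat_lit 216)) (XT.lf (nat_lit 0) (nat_lit 23631976482) (nat_lit 152) (nat_lit 1603222242) (nat_lit 228) (nat_lit 55385306429) (nat_lit 89) (nat_lit 5) (nat_lit 91) (nat_lit 5) (nat_lit 92) (nat_lit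 5) (nat_lit 537) (nat_lit 448) (nat_lit 215))))))) (XT.nd (nat_lit 56004) (nat_lit 0) (nat_lit 14288) (XT.nd (nat_lit 546) (nat_lit 152) (nat_lit 0) (XT.nd (nat_lit 234) (nat_lit 304) (nat_lit 0) (XT.nd (nat_lit 78) (nat_lit 380) (nat_lit 0) (XT.lf (nat_lit 0) (nat_lit 47431910874) (nat_lit 228) (nat_lit 9542601259) (nat_lit 76) (nat_lit 25257392433) (nat_lit 89) (nat_lit 5) (nat_lit 92) (nat_lit 5) (nat_lit 90) (nat_lit 5) (nat_lit 538) (nat_lit 448) (nat_lit 214)) (XT.nd (nat_lit 78) (nat_lit 228) (nat_lit 0) (XT.lf (nat_lit 0) (nat_lit 40090268798) (nat_lit 152) (nat_lit 30603922385) (nat_lit 228) (nat_lit 13185464833) (nat_lit 87) (nat_lit 5) (nat_lit 89) (nat_lit 5) (nat_lit 90) (nat_lit 5) (nat_lit 539) (nat_lit 448) (nat_lit 213)) (XT.lf (nat_lit 0) (nat_lit 5856997795) (nat_lit 152) (nat_lit 3195408371) (nat_lit 228) (nat_lit 76517254914) (nat_lit 84) (nat_lit 5) (nat_lit 86) (nat_lit 5) (nat_lit 87) (nat_lit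 5) (nat_lit 540) (nat_lit 448) (nat_lit 212)))) (XT.nd (nat_lit 156) (nat_lit 152) (nat_lit 0) (XT.nd (nat_lit 78) (nat_lit 152) (nat_lit 0) (XT.lf (nat_lit 0) (nat_lit 32378049280) (nat_lit 228) (nat_lit 29785146077) (nat_lit 76) (nat_lit 25122684994) (nat_lit 84) (nat_lit 5) (nat_lit 87) (nat_lit 5) (nat_lit 85) (nat_lit 5) (nat_lit 541) (nat_lit 448) (nat_lit 211)) (XT.lf (nat_lit 0) (nat_lit 22035763032) (nat_lit 152) (nat_lit 34609633836) (nat_lit 228) (nat_lit 32400931327) (nat_lit 82) (nat_lit 5) (nat_lit 84) (nat_lit 5) (nat_lit 85) (nat_lit 5) (nat_lit 542) (nat_lit 448) (nat_lit 210))) (XT.nd (nat_lit 78) (nat_lit 152) (nat_lit 0) (XT.lf (nat_lit 0) (nat_lit 76019100078) (nat_lit 152) (nat_lit 5920930417) (nat_lit 228) (nat_lit 8910581063) (nat_lit 82) (nat_lit 5) (nat_lit 84) (nat_lit 5) (nat_lit 85) (nat_lit 5) (nat_lit 543) (nat_lit 448) (nat_lit 209)) (XT.lf (nat_lit 0) (nat_lit 15597116395) (nat_lit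 152) (nat_lit 53390854820) (nat_lit 76) (nat_lit 23698317781) (nat_lit 80) (nat_lit 5) (nat_lit 82) (nat_lit 5) (nat_lit 81) (nat_lit 5) (nat_lit 544) (nat_lit 448) (nat_lit 208))))) (XT.nd (nat_lit 55146) (nat_lit 0) (nat_lit 16416) (XT.nd (nat_lit 54990) (nat_lit 0) (nat_lit 16340) (XT.nd (nat_lit 78) (nat_lit 0) (nat_lit 0) (XT.lf (nat_lit 0) (nat_lit 639097629) (nat_lit 152) (nat_lit 40236400548) (nat_lit 228) (nat_lit 53692455502) (nat_lit 78) (nat_lit 5) (nat_lit 80) (nat_lit 5) (nat_lit 81) (nat_lit 5) (nat_lit 545) (nat_lit 448) (nat_lit 207)) (XT.lf (nat_lit 0) (nat_lit 57381715576) (nat_lit 152) (nat_lit 10068204484) (nat_lit 228) (nat_lit 29040017626) (nat_lit 78) (nat_lit 5) (nat_lit 80) (nat_lit 5) (nat_lit 81) (nat_lit 5) (nat_lit 546) (nat_lit 448) (nat_lit 206))) (XT.nd (nat_lit 78) (nat_lit 0) (nat_lit 0) (XT.lf (nat_lit 0) (nat_lit 1835702648) (nat_lit 1292) (nat_lit 3441625675) (nat_lit 1292)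 (nat_lit 3441625675) (nat_lit 293) (nat_lit 3) (nat_lit 310) (nat_lit 3) (nat_lit 310) (nat_lit 5) (nat_lit 449) (nat_lit 449) (nat_lit 302)) (XT.lf (nat_lit 76) (nat_lit 1765617425) (nat_lit 0) (nat_lit 2195192630) (nat_lit 1292) (nat_lit 13731606332) (nat_lit 294) (nat_lit 5) (nat_lit 293) (nat_lit 3) (nat_lit 310) (nat_lit 5) (nat_lit 450) (nat_lit 449) (nat_lit 301)))) (XT.nd (nat_lit 156) (nat_lit 0) (nat_lit 76) (XT.nd (nat_lit 78) (nat_lit 0) (nat_lit 0) (XT.lf (nat_lit 0) (nat_lit 4382271198) (nat_lit 1216) (nat_lit 7204528643) (nat_lit 1292) (nat_lit 6364060141) (nat_lit 294) (nat_lit 5) (nat_lit 310) (nat_lit 5) (nat_lit 311) (nat_lit 5) (nat_lit 451) (nat_lit 449) (nat_lit 300)) (XT.lf (nat_lit 76) (nat_lit 1787950607) (nat_lit 0) (nat_lit 3059107481) (nat_lit 1292) (nat_lit 13369079486) (nat_lit 295) (nat_lit 5) (nat_lit 294) (nat_lit 5) (nat_lit 311) (nat_lit 5) (nat_lit 452) (nat_lit 449) (nat_lit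 299))) (XT.nd (nat_lit 78) (nat_lit 0) (nat_lit 0) (XT.lf (nat_lit 0) (nat_lit 5446277025) (nat_lit 1216) (nat_lit 7349892370) (nat_lit 1292) (nat_lit 5689590556) (nat_lit 295) (nat_lit 5) (nat_lit 311) (nat_lit 5) (nat_lit 312) (nat_lit 5) (nat_lit 453) (nat_lit 449) (nat_lit 298)) (XT.lf (nat_lit 76) (nat_lit 2004881906) (nat_lit 0) (nat_lit 4100374199) (nat_lit 1292) (nat_lit 12656962467) (nat_lit 296) (nat_lit 5) (nat_lit 295) (nat_lit 5) (nat_lit 312) (nat_lit 5) (nat_lit 454) (nat_lit 449) (nat_lit 297)))))) (XT.nd (nat_lit 624) (nat_lit 2280) (nat_lit 0) (XT.nd (nat_lit 312) (nat_lit 0) (nat_lit 152) (XT.nd (nat_lit 156) (nat_lit 0) (nat_lit 76) (XT.nd (nat_lit 78) (nat_lit 0) (nat_lit 0) (XT.lf (nat_lit 0) (nat_lit 6898073792) (nat_lit 1216) (nat_lit 7306110349) (nat_lit 1292) (nat_lit 4839365780) (nat_lit 296) (nat_lit 5) (nat_lit 312) (nat_lit 5) (nat_lit 313) (nat_lit 5) (nat_lit 455) (nat_lit 449) (nat_lit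 296)) (XT.lf (nat_lit 76) (nat_lit 2430715690) (nat_lit 0) (nat_lit 5340577211) (nat_lit 1292) (nat_lit 11560330821) (nat_lit 297) (nat_lit 5) (nat_lit 296) (nat_lit 5) (nat_lit 313) (nat_lit 5) (nat_lit 456) (nat_lit 449) (nat_lit 295))) (XT.nd (nat_lit 78) (nat_lit 0) (nat_lit 0) (XT.lf (nat_lit 0) (nat_lit 8774483773) (nat_lit 1216) (nat_lit 7058828311) (nat_lit 1292) (nat_lit 3791915385) (nat_lit 297) (nat_lit 5) (nat_lit 313) (nat_lit 5) (nat_lit 314) (nat_lit 5) (nat_lit 457) (nat_lit 449) (nat_lit 294)) (XT.lf (nat_lit 76) (nat_lit 3080937128) (nat_lit 0) (nat_lit 6802380215) (nat_lit 1292) (nat_lit 10042056535) (nat_lit 298) (nat_lit 5) (nat_lit 297) (nat_lit 5) (nat_lit 314) (nat_lit 5) (nat_lit 458) (nat_lit 449) (nat_lit 293)))) (XT.nd (nat_lit 156) (nat_lit 0) (nat_lit 76) (XT.nd (nat_lit 78) (nat_lit 0) (nat_lit 0) (XT.lf (nat_lit 0) (nat_lit 11114658454) (nat_lit 1216) (nat_lit 6592520551) (nat_lit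 1292) (nat_lit 2524669329) (nat_lit 298) (nat_lit 5) (nat_lit 314) (nat_lit 5) (nat_lit 315) (nat_lit 5) (nat_lit 459) (nat_lit 449) (nat_lit 292)) (XT.lf (nat_lit 76) (nat_lit 3972264962) (nat_lit 0) (nat_lit 8509636097) (nat_lit 1292) (nat_lit 8062648031) (nat_lit 299) (nat_lit 5) (nat_lit 298) (nat_lit 5) (nat_lit 315) (nat_lit 5) (nat_lit 460) (nat_lit 449) (nat_lit 291))) (XT.nd (nat_lit 78) (nat_lit 0) (nat_lit 0) (XT.lf (nat_lit 0) (nat_lit 13960244554) (nat_lit 1216) (nat_lit 5890436377) (nat_lit 1292) (nat_lit 1013848308) (nat_lit 299) (nat_lit 5) (nat_lit 315) (nat_lit 5) (nat_lit 316) (nat_lit 5) (nat_lit 461) (nat_lit 449) (nat_lit 290)) (XT.lf (nat_lit 76) (nat_lit 5122708660) (nat_lit 0) (nat_lit 10487500885) (nat_lit 1292) (nat_lit 5580081962) (nat_lit 300) (nat_lit 5) (nat_lit 299) (nat_lit 5) (nat_lit 316) (nat_lit 5) (nat_lit 462) (nat_lit 449) (nat_lit 289))))) (XT.nd (nat_lit 312) (nat_lit 1368)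 (nat_lit 0) (XT.nd (nat_lit 156) (nat_lit 1140) (nat_lit 0) (XT.nd (nat_lit 78) (nat_lit 0) (nat_lit 76) (XT.lf (nat_lit 76) (nat_lit 16582177112) (nat_lit 0) (nat_lit 780887985) (nat_lit 1292) (nat_lit 4161160626) (nat_lit 300) (nat_lit 5) (nat_lit 299) (nat_lit 5) (nat_lit 316) (nat_lit 5) (nat_lit 463) (nat_lit 449) (nat_lit 288)) (XT.lf (nat_lit 76) (nat_lit 6551630049) (nat_lit 0) (nat_lit 12762552248) (nat_lit 1292) (nat_lit 2549626190) (nat_lit 301) (nat_lit 5) (nat_lit 300) (nat_lit 5) (nat_lit 317) (nat_lit 5) (nat_lit 464) (nat_lit 449) (nat_lit 287))) (XT.nd (nat_lit 78) (nat_lit 1216) (nat_lit 0) (XT.lf (nat_lit 76) (nat_lit 18478719721) (nat_lit 0) (nat_lit 2896898592) (nat_lit 1292) (nat_lit 836407645) (nat_lit 301) (nat_lit 5) (nat_lit 300) (nat_lit 5) (nat_lit 317) (nat_lit 5) (nat_lit 465) (nat_lit 449) (nat_lit 286)) (XT.lf (nat_lit 0) (nat_lit 1055343285) (nat_lit 1292) (nat_lit 14296912920) (nat_lit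 76) (nat_lit 7213809350) (nat_lit 284) (nat_lit 5) (nat_lit 301) (nat_lit 5) (nat_lit 285) (nat_lit 5) (nat_lit 466) (nat_lit 449) (nat_lit 285)))) (XT.nd (nat_lit 156) (nat_lit 608) (nat_lit 0) (XT.nd (nat_lit 78) (nat_lit 760) (nat_lit 0) (XT.lf (nat_lit 0) (nat_lit 3048253751) (nat_lit 1292) (nat_lit 2263639458) (nat_lit 76) (nat_lit 17616748869) (nat_lit 284) (nat_lit 5) (nat_lit 301) (nat_lit 5) (nat_lit 285) (nat_lit 5) (nat_lit 467) (nat_lit 449) (nat_lit 284)) (XT.lf (nat_lit 0) (nat_lit 5244186349) (nat_lit 836) (nat_lit 13021238551) (nat_lit 76) (nat_lit 5032374645) (nat_lit 274) (nat_lit 5) (nat_lit 285) (nat_lit 5) (nat_lit 275) (nat_lit 5) (nat_lit 468) (nat_lit 449) (nat_lit 283))) (XT.nd (nat_lit 78) (nat_lit 608) (nat_lit 0) (XT.lf (nat_lit 0) (nat_lit 7576415499) (nat_lit 836) (nat_lit 495690769) (nat_lit 76) (nat_lit 15603813582) (nat_lit 274) (nat_lit 5) (nat_lit 285) (nat_lit 5) (nat_lit 275)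 (nat_lit 5) (nat_lit 469) (nat_lit 449) (nat_lit 282)) (XT.lf (nat_lit 0) (nat_lit 10119619850) (nat_lit 684) (nat_lit 11438754975) (nat_lit 76) (nat_lit 2502779343) (nat_lit 266) (nat_lit 5) (nat_lit 275) (nat_lit 5) (nat_lit 267) (nat_lit 5) (nat_lit 470) (nat_lit 449) (nat_lit 281))))))))
noncomputable def xc198 : XT := (XT.nd (nat_lit 2340) (nat_lit 4864) (nat_lit 0) (XT.nd (nat_lit 1170) (nat_lit 3572) (nat_lit 0) (XT.nd (nat_lit 546) (nat_lit 1976) (nat_lit 0) (XT.nd (nat_lit 234) (nat_lit 1140) (nat_lit 0) (XT.nd (nat_lit 78) (nat_lit 532) (nat_lit 0) (XT.lf (nat_lit 0) (nat_lit 1633440903) (nat_lit 608) (nat_lit 11201358406) (nat_lit 684) (nat_lit 11620276472) (nat_lit 258) (nat_lit 5) (nat_lit 266) (nat_lit 5) (nat_lit 267) (nat_lit 5) (nat_lit 471) (nat_lit 449) (nat_lit 280)) (XT.nd (nat_lit 78) (nat_lit 532) (nat_lit 0) (XT.lf (nat_lit 0) (nat_lit 15327473875) (nat_lit 608) (nat_lit 414569068) (nat_lit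 684) (nat_lit 9115454449) (nat_lit 258) (nat_lit 5) (nat_lit 266) (nat_lit 5) (nat_lit 267) (nat_lit 5) (nat_lit 472) (nat_lit 449) (nat_lit 279)) (XT.lf (nat_lit 0) (nat_lit 4133362129) (nat_lit 532) (nat_lit 14740932311) (nat_lit 608) (nat_lit 6393564094) (nat_lit 251) (nat_lit 5) (nat_lit 258) (nat_lit 5) (nat_lit 259) (nat_lit 5) (nat_lit 473) (nat_lit 449) (nat_lit 278)))) (XT.nd (nat_lit 156) (nat_lit 608) (nat_lit 0) (XT.nd (nat_lit 78) (nat_lit 532) (nat_lit 0) (XT.lf (nat_lit 0) (nat_lit 18393050334) (nat_lit 532) (nat_lit 3803098147) (nat_lit 608) (nat_lit 3491513559) (nat_lit 251) (nat_lit 5) (nat_lit 258) (nat_lit 5) (nat_lit 259) (nat_lit 5) (nat_lit 474) (nat_lit 449) (nat_lit 277)) (XT.lf (nat_lit 0) (nat_lit 7020970935) (nat_lit 532) (nat_lit 18731385670) (nat_lit 608) (nat_lit 363662655) (nat_lit 244) (nat_lit 5) (nat_lit 251) (nat_lit 5) (nat_lit 252) (nat_lit 5) (nat_lit 475) (nat_lit 449) (nat_lit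 276))) (XT.nd (nat_lit 78) (nat_lit 532) (nat_lit 0) (XT.lf (nat_lit 0) (nat_lit 2909811414) (nat_lit 608) (nat_lit 4710129205) (nat_lit 76) (nat_lit 18933236179) (nat_lit 243) (nat_lit 5) (nat_lit 251) (nat_lit 5) (nat_lit 244) (nat_lit 5) (nat_lit 476) (nat_lit 449) (nat_lit 275)) (XT.lf (nat_lit 0) (nat_lit 6406604387) (nat_lit 608) (nat_lit 16739242036) (nat_lit 76) (nat_lit 3853522416) (nat_lit 236) (nat_lit 5) (nat_lit 244) (nat_lit 5) (nat_lit 237) (nat_lit 5) (nat_lit 477) (nat_lit 449) (nat_lit 274))))) (XT.nd (nat_lit 312) (nat_lit 988) (nat_lit 0) (XT.nd (nat_lit 156) (nat_lit 456) (nat_lit 0) (XT.nd (nat_lit 78) (nat_lit 532) (nat_lit 0) (XT.lf (nat_lit 0) (nat_lit 10127502831) (nat_lit 608) (nat_lit 1762140109) (nat_lit 76) (nat_lit 15565728151) (nat_lit 236) (nat_lit 5) (nat_lit 244) (nat_lit 5) (nat_lit 237) (nat_lit 5) (nat_lit 478) (nat_lit 449) (nat_lit 273)) (XT.lf (nat_lit 0) (nat_lit 13931519282)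 (nat_lit 532) (nat_lit 158274546) (nat_lit 608) (nat_lit 13831367101) (nat_lit 229) (nat_lit 5) (nat_lit 236) (nat_lit 5) (nat_lit 237) (nat_lit 5) (nat_lit 479) (nat_lit 449) (nat_lit 272))) (XT.nd (nat_lit 78) (nat_lit 0) (nat_lit 0) (XT.lf (nat_lit 0) (nat_lit 1644317038) (nat_lit 456) (nat_lit 16670963459) (nat_lit 532) (nat_lit 10081314629) (nat_lit 223) (nat_lit 5) (nat_lit 229) (nat_lit 5) (nat_lit 230) (nat_lit 5) (nat_lit 480) (nat_lit 449) (nat_lit 271)) (XT.lf (nat_lit 0) (nat_lit 18027833509) (nat_lit 456) (nat_lit 4778511883) (nat_lit 532) (nat_lit 6075783007) (nat_lit 223) (nat_lit 5) (nat_lit 229) (nat_lit 5) (nat_lit 230) (nat_lit 5) (nat_lit 481) (nat_lit 449) (nat_lit 270)))) (XT.nd (nat_lit 156) (nat_lit 456) (nat_lit 0) (XT.nd (nat_lit 78) (nat_lit 76) (nat_lit 0) (XT.lf (nat_lit 0) (nat_lit 5552552186) (nat_lit 456) (nat_lit 22000882399) (nat_lit 532) (nat_lit 1825154757) (nat_lit 217) (nat_lit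 5) (nat_lit 223) (nat_lit 5) (nat_lit 224) (nat_lit 5) (nat_lit 482) (nat_lit 449) (nat_lit 269)) (XT.lf (nat_lit 0) (nat_lit 2657314580) (nat_lit 532) (nat_lit 7290131906) (nat_lit 76) (nat_lit 19937137610) (nat_lit 216) (nat_lit 5) (nat_lit 223) (nat_lit 5) (nat_lit 217) (nat_lit 5) (nat_lit 483) (nat_lit 449) (nat_lit 268))) (XT.nd (nat_lit 78) (nat_lit 0) (nat_lit 0) (XT.lf (nat_lit 0) (nat_lit 7353944779) (nat_lit 532) (nat_lit 20514603444) (nat_lit 76) (nat_lit 2533177634) (nat_lit 210) (nat_lit 5) (nat_lit 217) (nat_lit 5) (nat_lit 211) (nat_lit 5) (nat_lit 484) (nat_lit 449) (nat_lit 267)) (XT.lf (nat_lit 0) (nat_lit 12360615750) (nat_lit 532) (nat_lit 3306825798) (nat_lit 76) (nat_lit 15261866463) (nat_lit 210) (nat_lit 5) (nat_lit 217) (nat_lit 5) (nat_lit 211) (nat_lit 5) (nat_lit 485) (nat_lit 449) (nat_lit 266)))))) (XT.nd (nat_lit 546) (nat_lit 1824) (nat_lit 0) (XT.nd (nat_lit 234) (nat_lit 912) (nat_lit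 0) (XT.nd (nat_lit 78) (nat_lit 380) (nat_lit 0) (XT.lf (nat_lit 0) (nat_lit 14699591338) (nat_lit 456) (nat_lit 2955611915) (nat_lit 532) (nat_lit 13813383265) (nat_lit 204) (nat_lit 5) (nat_lit 210) (nat_lit 5) (nat_lit 211) (nat_lit 5) (nat_lit 486) (nat_lit 449) (nat_lit 265)) (XT.nd (nat_lit 78) (nat_lit 0) (nat_lit 0) (XT.lf (nat_lit 0) (nat_lit 1212333873) (nat_lit 380) (nat_lit 22035588608) (nat_lit 456) (nat_lit 8771942451) (nat_lit 199) (nat_lit 5) (nat_lit 204) (nat_lit 5) (nat_lit 205) (nat_lit 5) (nat_lit 487) (nat_lit 449) (nat_lit 264)) (XT.lf (nat_lit 0) (nat_lit 20042558872) (nat_lit 380) (nat_lit 9160703866) (nat_lit 456) (nat_lit 3378574139) (nat_lit 199) (nat_lit 5) (nat_lit 204) (nat_lit 5) (nat_lit 205) (nat_lit 5) (nat_lit 488) (nat_lit 449) (nat_lit 263)))) (XT.nd (nat_lit 156) (nat_lit 380) (nat_lit 0) (XT.nd (nat_lit 78) (nat_lit 0) (nat_lit 0) (XT.lf (nat_lit 0) (nat_lit 2232230007) (nat_lit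 532) (nat_lit 26822387721) (nat_lit 76) (nat_lit 4102479669) (nat_lit 192) (nat_lit 5) (nat_lit 199) (nat_lit 5) (nat_lit 193) (nat_lit 5) (nat_lit 489) (nat_lit 449) (nat_lit 262)) (XT.lf (nat_lit 0) (nat_lit 8158672245) (nat_lit 532) (nat_lit 7843694883) (nat_lit 76) (nat_lit 17739788799) (nat_lit 192) (nat_lit 5) (nat_lit 199) (nat_lit 5) (nat_lit 193) (nat_lit 5) (nat_lit 490) (nat_lit 449) (nat_lit 261))) (XT.nd (nat_lit 78) (nat_lit 0) (nat_lit 0) (XT.lf (nat_lit 0) (nat_lit 11932909128) (nat_lit 380) (nat_lit 2441446907) (nat_lit 456) (nat_lit 19967067052) (nat_lit 187) (nat_lit 5) (nat_lit 192) (nat_lit 5) (nat_lit 193) (nat_lit 5) (nat_lit 491) (nat_lit 449) (nat_lit 260)) (XT.lf (nat_lit 0) (nat_lit 20964083984) (nat_lit 456) (nat_lit 2608622571) (nat_lit 76) (nat_lit 11380334809) (nat_lit 187) (nat_lit 5) (nat_lit 193) (nat_lit 5) (nat_lit 188) (nat_lit 5) (nat_lit 492) (nat_lit 449) (nat_lit 259)))))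 (XT.nd (nat_lit 312) (nat_lit 684) (nat_lit 0) (XT.nd (nat_lit 156) (nat_lit 456) (nat_lit 0) (XT.nd (nat_lit 78) (nat_lit 304) (nat_lit 0) (XT.lf (nat_lit 0) (nat_lit 18110268283) (nat_lit 380) (nat_lit 9836374462) (nat_lit 456) (nat_lit 7630511578) (nat_lit 182) (nat_lit 5) (nat_lit 187) (nat_lit 5) (nat_lit 188) (nat_lit 5) (nat_lit 493) (nat_lit 449) (nat_lit 258)) (XT.lf (nat_lit 0) (nat_lit 3303490360) (nat_lit 304) (nat_lit 31931915210) (nat_lit 380) (nat_lit 981683576) (nat_lit 178) (nat_lit 5) (nat_lit 182) (nat_lit 5) (nat_lit 183) (nat_lit 5) (nat_lit 494) (nat_lit 449) (nat_lit 257))) (XT.nd (nat_lit 78) (nat_lit 380) (nat_lit 0) (XT.lf (nat_lit 0) (nat_lit 6024586262) (nat_lit 380) (nat_lit 11975708991) (nat_lit 76) (nat_lit 18866061563) (nat_lit 177) (nat_lit 5) (nat_lit 182) (nat_lit 5) (nat_lit 178) (nat_lit 5) (nat_lit 495) (nat_lit 449) (nat_lit 256)) (XT.lf (nat_lit 0) (nat_lit 9767031633) (nat_lit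 380) (nat_lit 3545195734) (nat_lit 456) (nat_lit 24219856408) (nat_lit 172) (nat_lit 5) (nat_lit 177) (nat_lit 5) (nat_lit 178) (nat_lit 5) (nat_lit 496) (nat_lit 449) (nat_lit 255)))) (XT.nd (nat_lit 156) (nat_lit 380) (nat_lit 0) (XT.nd (nat_lit 78) (nat_lit 304) (nat_lit 0) (XT.lf (nat_lit 0) (nat_lit 21046730373) (nat_lit 456) (nat_lit 5921040420) (nat_lit 76) (nat_lit 11243165032) (nat_lit 172) (nat_lit 5) (nat_lit 178) (nat_lit 5) (nat_lit 173) (nat_lit 5) (nat_lit 497) (nat_lit 449) (nat_lit 254)) (XT.lf (nat_lit 0) (nat_lit 16868281700) (nat_lit 304) (nat_lit 12339384445) (nat_lit 380) (nat_lit 9696655613) (nat_lit 168) (nat_lit 5) (nat_lit 172) (nat_lit 5) (nat_lit 173) (nat_lit 5) (nat_lit 498) (nat_lit 449) (nat_lit 253))) (XT.nd (nat_lit 78) (nat_lit 76) (nat_lit 0) (XT.lf (nat_lit 0) (nat_lit 831247567) (nat_lit 304) (nat_lit 36873958615) (nat_lit 380) (nat_lit 1910550049) (nat_lit 164) (nat_lit 5)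 (nat_lit 168) (nat_lit 5) (nat_lit 169) (nat_lit 5) (nat_lit 499) (nat_lit 449) (nat_lit 252)) (XT.lf (nat_lit 0) (nat_lit 6334019860) (nat_lit 380) (nat_lit 15692805703) (nat_lit 76) (nat_lit 18309623890) (nat_lit 163) (nat_lit 5) (nat_lit 168) (nat_lit 5) (nat_lit 164) (nat_lit 5) (nat_lit 500) (nat_lit 449) (nat_lit 251))))))) (XT.nd (nat_lit 1170) (nat_lit 2204) (nat_lit 0) (XT.nd (nat_lit 546) (nat_lit 1368) (nat_lit 0) (XT.nd (nat_lit 234) (nat_lit 684) (nat_lit 0) (XT.nd (nat_lit 78) (nat_lit 304) (nat_lit 0) (XT.lf (nat_lit 0) (nat_lit 8229317033) (nat_lit 304) (nat_lit 6634592940) (nat_lit 380) (nat_lit 26211994734) (nat_lit 159) (nat_lit 5) (nat_lit 163) (nat_lit 5) (nat_lit 164) (nat_lit 5) (nat_lit 501) (nat_lit 449) (nat_lit 250)) (XT.nd (nat_lit 78) (nat_lit 304) (nat_lit 0) (XT.lf (nat_lit 0) (nat_lit 23895661881) (nat_lit 380) (nat_lit 8736218334) (nat_lit 76) (nat_lit 9198284671) (nat_lit 159) (nat_lit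 5) (nat_lit 164) (nat_lit 5) (nat_lit 160) (nat_lit 5) (nat_lit 502) (nat_lit 449) (nat_lit 249)) (XT.lf (nat_lit 0) (nat_lit 16346848513) (nat_lit 304) (nat_lit 17071728187) (nat_lit 380) (nat_lit 9181870072) (nat_lit 155) (nat_lit 5) (nat_lit 159) (nat_lit 5) (nat_lit 160) (nat_lit 5) (nat_lit 503) (nat_lit 449) (nat_lit 248)))) (XT.nd (nat_lit 156) (nat_lit 304) (nat_lit 0) (XT.nd (nat_lit 78) (nat_lit 380) (nat_lit 0) (XT.lf (nat_lit 0) (nat_lit 42357619188) (nat_lit 304) (nat_lit 955202793) (nat_lit 380) (nat_lit 78446050) (nat_lit 155) (nat_lit 5) (nat_lit 159) (nat_lit 5) (nat_lit 160) (nat_lit 5) (nat_lit 504) (nat_lit 449) (nat_lit 247)) (XT.lf (nat_lit 0) (nat_lit 9511412948) (nat_lit 380) (nat_lit 19005303661) (nat_lit 76) (nat_lit 15674573006) (nat_lit 150) (nat_lit 5) (nat_lit 155) (nat_lit 5) (nat_lit 151) (nat_lit 5) (nat_lit 505) (nat_lit 449) (nat_lit 246))) (XT.nd (nat_lit 78) (nat_lit 0) (nat_lit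 0) (XT.lf (nat_lit 0) (nat_lit 7327207679) (nat_lit 304) (nat_lit 12148114936) (nat_lit 380) (nat_lit 25537328174) (nat_lit 146) (nat_lit 5) (nat_lit 150) (nat_lit 5) (nat_lit 151) (nat_lit 5) (nat_lit 506) (nat_lit 449) (nat_lit 245)) (XT.lf (nat_lit 0) (nat_lit 29974779164) (nat_lit 380) (nat_lit 11064659884) (nat_lit 76) (nat_lit 4812115046) (nat_lit 146) (nat_lit 5) (nat_lit 151) (nat_lit 5) (nat_lit 147) (nat_lit 5) (nat_lit 507) (nat_lit 449) (nat_lit 244))))) (XT.nd (nat_lit 312) (nat_lit 532) (nat_lit 0) (XT.nd (nat_lit 156) (nat_lit 532) (nat_lit 0) (XT.nd (nat_lit 78) (nat_lit 76) (nat_lit 0) (XT.lf (nat_lit 0) (nat_lit 16553745443) (nat_lit 228) (nat_lit 24512472085) (nat_lit 304) (nat_lit 5641097203) (nat_lit 143) (nat_lit 5) (nat_lit 146) (nat_lit 5) (nat_lit 147) (nat_lit 5) (nat_lit 508) (nat_lit 449) (nat_lit 243)) (XT.lf (nat_lit 0) (nat_lit 4916445388) (nat_lit 304) (nat_lit 2409859872) (nat_lit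 76) (nat_lit 40257716264) (nat_lit 142) (nat_lit 5) (nat_lit 146) (nat_lit 5) (nat_lit 143) (nat_lit 5) (nat_lit 509) (nat_lit 449) (nat_lit 242))) (XT.nd (nat_lit 78) (nat_lit 228) (nat_lit 0) (XT.lf (nat_lit 0) (nat_lit 16033766500) (nat_lit 380) (nat_lit 21954320731) (nat_lit 76) (nat_lit 10486573897) (nat_lit 138) (nat_lit 5) (nat_lit 143) (nat_lit 5) (nat_lit 139) (nat_lit 5) (nat_lit 510) (nat_lit 449) (nat_lit 241)) (XT.lf (nat_lit 0) (nat_lit 7037435334) (nat_lit 228) (nat_lit 20609629317) (nat_lit 304) (nat_lit 21740081706) (nat_lit 135) (nat_lit 5) (nat_lit 138) (nat_lit 5) (nat_lit 139) (nat_lit 5) (nat_lit 511) (nat_lit 449) (nat_lit 240)))) (XT.nd (nat_lit 156) (nat_lit 228) (nat_lit 0) (XT.nd (nat_lit 78) (nat_lit 304) (nat_lit 0) (XT.lf (nat_lit 0) (nat_lit 37345353771) (nat_lit 228) (nat_lit 2482831561) (nat_lit 304) (nat_lit 10492238256) (nat_lit 135) (nat_lit 5) (nat_lit 138) (nat_lit 5) (nat_lit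 139) (nat_lit 5) (nat_lit 512) (nat_lit 449) (nat_lit 239)) (XT.lf (nat_lit 0) (nat_lit 1396139138) (nat_lit 304) (nat_lit 33823371941) (nat_lit 76) (nat_lit 16052140158) (nat_lit 131) (nat_lit 5) (nat_lit 135) (nat_lit 5) (nat_lit 132) (nat_lit 5) (nat_lit 513) (nat_lit 449) (nat_lit 238))) (XT.nd (nat_lit 78) (nat_lit 228) (nat_lit 0) (XT.lf (nat_lit 0) (nat_lit 13584976972) (nat_lit 304) (nat_lit 3330532443) (nat_lit 76) (nat_lit 35328149153) (nat_lit 131) (nat_lit 5) (nat_lit 135) (nat_lit 5) (nat_lit 132) (nat_lit 5) (nat_lit 514) (nat_lit 449) (nat_lit 237)) (XT.lf (nat_lit 0) (nat_lit 26433903663) (nat_lit 304) (nat_lit 24625643979) (nat_lit 76) (nat_lit 2176445903) (nat_lit 128) (nat_lit 5) (nat_lit 132) (nat_lit 5) (nat_lit 129) (nat_lit 5) (nat_lit 515) (nat_lit 449) (nat_lit 236)))))) (XT.nd (nat_lit 624) (nat_lit 988) (nat_lit 0) (XT.nd (nat_lit 312) (nat_lit 684) (nat_lit 0) (XT.nd (nat_lit 156) (nat_lit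 304) (nat_lit 0) (XT.nd (nat_lit 78) (nat_lit 0) (nat_lit 0) (XT.lf (nat_lit 0) (nat_lit 7291612108) (nat_lit 228) (nat_lit 32646093673) (nat_lit 304) (nat_lit 14312310693) (nat_lit 125) (nat_lit 5) (nat_lit 128) (nat_lit 5) (nat_lit 129) (nat_lit 5) (nat_lit 516) (nat_lit 449) (nat_lit 235)) (XT.lf (nat_lit 0) (nat_lit 40667720466) (nat_lit 228) (nat_lit 13425471959) (nat_lit 304) (nat_lit 1193870679) (nat_lit 125) (nat_lit 5) (nat_lit 128) (nat_lit 5) (nat_lit 129) (nat_lit 5) (nat_lit 517) (nat_lit 449) (nat_lit 234))) (XT.nd (nat_lit 78) (nat_lit 0) (nat_lit 0) (XT.lf (nat_lit 0) (nat_lit 12321943275) (nat_lit 304) (nat_lit 37472865084) (nat_lit 76) (nat_lit 6549534867) (nat_lit 121) (nat_lit 5) (nat_lit 125) (nat_lit 5) (nat_lit 122) (nat_lit 5) (nat_lit 518) (nat_lit 449) (nat_lit 233)) (XT.lf (nat_lit 0) (nat_lit 26499205099) (nat_lit 304) (nat_lit 3911836698) (nat_lit 76) (nat_lit 27013546383) (nat_lit 121)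 (nat_lit 5) (nat_lit 125) (nat_lit 5) (nat_lit 122) (nat_lit 5) (nat_lit 519) (nat_lit 449) (nat_lit 232)))) (XT.nd (nat_lit 156) (nat_lit 304) (nat_lit 0) (XT.nd (nat_lit 78) (nat_lit 152) (nat_lit 0) (XT.lf (nat_lit 0) (nat_lit 31262749174) (nat_lit 228) (nat_lit 10137567088) (nat_lit 304) (nat_lit 17127968392) (nat_lit 118) (nat_lit 5) (nat_lit 121) (nat_lit 5) (nat_lit 122) (nat_lit 5) (nat_lit 520) (nat_lit 449) (nat_lit 231)) (XT.lf (nat_lit 0) (nat_lit 7957120754) (nat_lit 152) (nat_lit 49009028907) (nat_lit 228) (nat_lit 2692411805) (nat_lit 116) (nat_lit 5) (nat_lit 118) (nat_lit 5) (nat_lit 119) (nat_lit 5) (nat_lit 521) (nat_lit 449) (nat_lit 230))) (XT.nd (nat_lit 78) (nat_lit 228) (nat_lit 0) (XT.lf (nat_lit 0) (nat_lit 12315070687) (nat_lit 228) (nat_lit 16242598715) (nat_lit 76) (nat_lit 32250272099) (nat_lit 115) (nat_lit 5) (nat_lit 118) (nat_lit 5) (nat_lit 116) (nat_lit 5) (nat_lit 522) (nat_lit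 449) (nat_lit 229)) (XT.lf (nat_lit 0) (nat_lit 20653122922) (nat_lit 228) (nat_lit 7262162149) (nat_lit 304) (nat_lit 34069819576) (nat_lit 112) (nat_lit 5) (nat_lit 115) (nat_lit 5) (nat_lit 116) (nat_lit 5) (nat_lit 523) (nat_lit 449) (nat_lit 228))))) (XT.nd (nat_lit 312) (nat_lit 532) (nat_lit 0) (XT.nd (nat_lit 156) (nat_lit 304) (nat_lit 0) (XT.nd (nat_lit 78) (nat_lit 152) (nat_lit 0) (XT.lf (nat_lit 0) (nat_lit 44288290179) (nat_lit 304) (nat_lit 4349907687) (nat_lit 76) (nat_lit 14550241389) (nat_lit 112) (nat_lit 5) (nat_lit 116) (nat_lit 5) (nat_lit 113) (nat_lit 5) (nat_lit 524) (nat_lit 449) (nat_lit 227)) (XT.lf (nat_lit 0) (nat_lit 34336594567) (nat_lit 152) (nat_lit 27216016742) (nat_lit 228) (nat_lit 2863258913) (nat_lit 110) (nat_lit 5) (nat_lit 112) (nat_lit 5) (nat_lit 113) (nat_lit 5) (nat_lit 525) (nat_lit 449) (nat_lit 226))) (XT.nd (nat_lit 78) (nat_lit 0) (nat_lit 0) (XT.lf (nat_lit 0)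 (nat_lit 8627548661) (nat_lit 228) (nat_lit 4886194254) (nat_lit 304) (nat_lit 52158679821) (nat_lit 106) (nat_lit 5) (nat_lit 109) (nat_lit 5) (nat_lit 110) (nat_lit 5) (nat_lit 526) (nat_lit 449) (nat_lit 225)) (XT.lf (nat_lit 0) (nat_lit 30803548387) (nat_lit 304) (nat_lit 18054039246) (nat_lit 76) (nat_lit 18093862538) (nat_lit 106) (nat_lit 5) (nat_lit 110) (nat_lit 5) (nat_lit 107) (nat_lit 5) (nat_lit 527) (nat_lit 449) (nat_lit 224)))) (XT.nd (nat_lit 156) (nat_lit 380) (nat_lit 0) (XT.nd (nat_lit 78) (nat_lit 0) (nat_lit 0) (XT.lf (nat_lit 0) (nat_lit 22493995574) (nat_lit 152) (nat_lit 26380884757) (nat_lit 228) (nat_lit 19386083214) (nat_lit 104) (nat_lit 5) (nat_lit 106) (nat_lit 5) (nat_lit 107) (nat_lit 5) (nat_lit 528) (nat_lit 449) (nat_lit 223)) (XT.lf (nat_lit 0) (nat_lit 64625506031) (nat_lit 152) (nat_lit 3043406937) (nat_lit 228) (nat_lit 1935432611) (nat_lit 104) (nat_lit 5) (nat_lit 106) (nat_lit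 5) (nat_lit 107) (nat_lit 5) (nat_lit 529) (nat_lit 449) (nat_lit 222))) (XT.nd (nat_lit 78) (nat_lit 152) (nat_lit 0) (XT.lf (nat_lit 0) (nat_lit 16292478057) (nat_lit 228) (nat_lit 33569854517) (nat_lit 76) (nat_lit 21104069932) (nat_lit 101) (nat_lit 5) (nat_lit 104) (nat_lit 5) (nat_lit 102) (nat_lit 5) (nat_lit 530) (nat_lit 449) (nat_lit 221)) (XT.lf (nat_lit 0) (nat_lit 8898279957) (nat_lit 152) (nat_lit 26294782099) (nat_lit 228) (nat_lit 37170742191) (nat_lit 99) (nat_lit 5) (nat_lit 101) (nat_lit 5) (nat_lit 102) (nat_lit 5) (nat_lit 531) (nat_lit 449) (nat_lit 220))))))))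
noncomputable def xc199 : XT := (XT.nd (nat_lit 57330) (nat_lit 0) (nat_lit 7372) (XT.nd (nat_lit 56160) (nat_lit 0) (nat_lit 16188) (XT.nd (nat_lit 546) (nat_lit 684) (nat_lit 0) (XT.nd (nat_lit 234) (nat_lit 532) (nat_lit 0) (XT.nd (nat_lit 78) (nat_lit 228) (nat_lit 0) (XT.lf (nat_lit 0) (nat_lit 53325627138) (nat_lit 152) (nat_lit 1672340731) (nat_lit 228) (nat_lit 18795041115) (nat_lit 99) (nat_lit 5) (nat_lit 101) (nat_lit 5) (nat_lit 102) (nat_lit 5) (nat_lit 532) (nat_lit 449) (nat_lit 219)) (XT.nd (nat_lit 78) (nat_lit 0) (nat_lit 0) (XT.lf (nat_lit 0) (nat_lit 591222275) (nat_lit 228) (nat_lit 51197614407) (nat_lit 76) (nat_lit 23462359234) (nat_lit 96) (nat_lit 5) (nat_lit 99) (nat_lit 5) (nat_lit 97) (nat_lit 5) (nat_lit 533) (nat_lit 449) (nat_lit 218)) (XT.lf (nat_lit 0) (nat_lit 20404951961) (nat_lit 228) (nat_lit 6624821464) (nat_lit 76) (nat_lit 49711063208) (nat_lit 96) (nat_lit 5) (nat_lit 99)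 (nat_lit 5) (nat_lit 97) (nat_lit 5) (nat_lit 534) (nat_lit 449) (nat_lit 217)))) (XT.nd (nat_lit 156) (nat_lit 228) (nat_lit 0) (XT.nd (nat_lit 78) (nat_lit 152) (nat_lit 0) (XT.lf (nat_lit 0) (nat_lit 40064100894) (nat_lit 152) (nat_lit 1132516704) (nat_lit 228) (nat_lit 37067043315) (nat_lit 94) (nat_lit 5) (nat_lit 96) (nat_lit 5) (nat_lit 97) (nat_lit 5) (nat_lit 535) (nat_lit 449) (nat_lit 216)) (XT.lf (nat_lit 0) (nat_lit 8373689964) (nat_lit 152) (nat_lit 54630329208) (nat_lit 228) (nat_lit 16816391235) (nat_lit 92) (nat_lit 5) (nat_lit 94) (nat_lit 5) (nat_lit 95) (nat_lit 5) (nat_lit 536) (nat_lit 449) (nat_lit 215))) (XT.nd (nat_lit 78) (nat_lit 152) (nat_lit 0) (XT.lf (nat_lit 0) (nat_lit 4362097944) (nat_lit 228) (nat_lit 24341843888) (nat_lit 76) (nat_lit 52706779435) (nat_lit 91) (nat_lit 5) (nat_lit 94) (nat_lit 5) (nat_lit 92) (nat_lit 5) (nat_lit 537) (nat_lit 449) (nat_lit 214)) (XT.lf (nat_lit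 0) (nat_lit 24484687414) (nat_lit 152) (nat_lit 1587083877) (nat_lit 228) (nat_lit 56964960583) (nat_lit 89) (nat_lit 5) (nat_lit 91) (nat_lit 5) (nat_lit 92) (nat_lit 5) (nat_lit 538) (nat_lit 449) (nat_lit 213))))) (XT.nd (nat_lit 312) (nat_lit 304) (nat_lit 0) (XT.nd (nat_lit 156) (nat_lit 228) (nat_lit 0) (XT.nd (nat_lit 78) (nat_lit 152) (nat_lit 0) (XT.lf (nat_lit 0) (nat_lit 48932668270) (nat_lit 228) (nat_lit 9687595215) (nat_lit 76) (nat_lit 26076261366) (nat_lit 89) (nat_lit 5) (nat_lit 92) (nat_lit 5) (nat_lit 90) (nat_lit 5) (nat_lit 539) (nat_lit 449) (nat_lit 212)) (XT.lf (nat_lit 0) (nat_lit 41432875806) (nat_lit 152) (nat_lit 31459019955) (nat_lit 228) (nat_lit 13501840803) (nat_lit 87) (nat_lit 5) (nat_lit 89) (nat_lit 5) (nat_lit 90) (nat_lit 5) (nat_lit 540) (nat_lit 449) (nat_lit 211))) (XT.nd (nat_lit 78) (nat_lit 0) (nat_lit 0) (XT.lf (nat_lit 0) (nat_lit 6172767868) (nat_lit 152) (nat_lit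 3227938120) (nat_lit 228) (nat_lit 78733740487) (nat_lit 84) (nat_lit 5) (nat_lit 86) (nat_lit 5) (nat_lit 87) (nat_lit 5) (nat_lit 541) (nat_lit 449) (nat_lit 210)) (XT.lf (nat_lit 0) (nat_lit 33424474669) (nat_lit 228) (nat_lit 30541073483) (nat_lit 76) (nat_lit 25936653560) (nat_lit 84) (nat_lit 5) (nat_lit 87) (nat_lit 5) (nat_lit 85) (nat_lit 5) (nat_lit 542) (nat_lit 449) (nat_lit 209)))) (XT.nd (nat_lit 156) (nat_lit 152) (nat_lit 0) (XT.nd (nat_lit 78) (nat_lit 0) (nat_lit 0) (XT.lf (nat_lit 0) (nat_lit 22833113616) (nat_lit 152) (nat_lit 35585852144) (nat_lit 228) (nat_lit 33296523614) (nat_lit 82) (nat_lit 5) (nat_lit 84) (nat_lit 5) (nat_lit 85) (nat_lit 5) (nat_lit 543) (nat_lit 449) (nat_lit 208)) (XT.lf (nat_lit 0) (nat_lit 78431981520) (nat_lit 152) (nat_lit 6038295507) (nat_lit 228) (nat_lit 9103689123) (nat_lit 82) (nat_lit 5) (nat_lit 84) (nat_lit 5) (nat_lit 85) (nat_lit 5) (nat_lit 544) (nat_lit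 449) (nat_lit 207))) (XT.nd (nat_lit 55068) (nat_lit 0) (nat_lit 16188) (XT.lf (nat_lit 0) (nat_lit 16137526946) (nat_lit 152) (nat_lit 54858555145) (nat_lit 76) (nat_lit 24468618414) (nat_lit 80) (nat_lit 5) (nat_lit 82) (nat_lit 5) (nat_lit 81) (nat_lit 5) (nat_lit 545) (nat_lit 449) (nat_lit 206)) (XT.lf (nat_lit 0) (nat_lit 2106045801) (nat_lit 1292) (nat_lit 3433994363) (nat_lit 1292) (nat_lit 3433994363) (nat_lit 293) (nat_lit 3) (nat_lit 310) (nat_lit 3) (nat_lit 310) (nat_lit 5) (nat_lit 450) (nat_lit 450) (nat_lit 300)))))) (XT.nd (nat_lit 546) (nat_lit 0) (nat_lit 304) (XT.nd (nat_lit 234) (nat_lit 0) (nat_lit 152) (XT.nd (nat_lit 78) (nat_lit 0) (nat_lit 76) (XT.lf (nat_lit 76) (nat_lit 2038171991) (nat_lit 0) (nat_lit 2461577187) (nat_lit 1292) (nat_lit 13710778145) (nat_lit 294) (nat_lit 5) (nat_lit 293) (nat_lit 3) (nat_lit 310) (nat_lit 5) (nat_lit 451) (nat_lit 450) (nat_lit 299)) (XT.nd (nat_lit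 78) (nat_lit 0) (nat_lit 0) (XT.lf (nat_lit 0) (nat_lit 4919746340) (nat_lit 1216) (nat_lit 7193309935) (nat_lit 1292) (nat_lit 6364092878) (nat_lit 294) (nat_lit 5) (nat_lit 310) (nat_lit 5) (nat_lit 311) (nat_lit 5) (nat_lit 452) (nat_lit 450) (nat_lit 298)) (XT.lf (nat_lit 76) (nat_lit 2066714727) (nat_lit 0) (nat_lit 3322100709) (nat_lit 1292) (nat_lit 13361861122) (nat_lit 295) (nat_lit 5) (nat_lit 294) (nat_lit 5) (nat_lit 311) (nat_lit 5) (nat_lit 453) (nat_lit 450) (nat_lit 297)))) (XT.nd (nat_lit 156) (nat_lit 0) (nat_lit 76) (XT.nd (nat_lit 78) (nat_lit 0) (nat_lit 0) (XT.lf (nat_lit 0) (nat_lit 5992868960) (nat_lit 1216) (nat_lit 7338625435) (nat_lit 1292) (nat_lit 5697289065) (nat_lit 295) (nat_lit 5) (nat_lit 311) (nat_lit 5) (nat_lit 312) (nat_lit 5) (nat_lit 454) (nat_lit 450) (nat_lit 296)) (XT.lf (nat_lit 76) (nat_lit 2294519876) (nat_lit 0) (nat_lit 4368142279) (nat_lit 1292) (nat_lit 12651143892)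 (nat_lit 296) (nat_lit 5) (nat_lit 295) (nat_lit 5) (nat_lit 312) (nat_lit 5) (nat_lit 455) (nat_lit 450) (nat_lit 295))) (XT.nd (nat_lit 78) (nat_lit 0) (nat_lit 0) (XT.lf (nat_lit 0) (nat_lit 7467012972) (nat_lit 1216) (nat_lit 7290184839) (nat_lit 1292) (nat_lit 4846748572) (nat_lit 296) (nat_lit 5) (nat_lit 312) (nat_lit 5) (nat_lit 313) (nat_lit 5) (nat_lit 456) (nat_lit 450) (nat_lit 294)) (XT.lf (nat_lit 76) (nat_lit 2736440993) (nat_lit 0) (nat_lit 5621681913) (nat_lit 1292) (nat_lit 11542790124) (nat_lit 297) (nat_lit 5) (nat_lit 296) (nat_lit 5) (nat_lit 313) (nat_lit 5) (nat_lit 457) (nat_lit 450) (nat_lit 293))))) (XT.nd (nat_lit 312) (nat_lit 0) (nat_lit 152) (XT.nd (nat_lit 156) (nat_lit 0) (nat_lit 76) (XT.nd (nat_lit 78) (nat_lit 0) (nat_lit 0) (XT.lf (nat_lit 0) (nat_lit 9379979621) (nat_lit 1216) (nat_lit 7033092888) (nat_lit 1292) (nat_lit 3790596694) (nat_lit 297) (nat_lit 5) (nat_lit 313) (nat_lit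 5) (nat_lit 314) (nat_lit 5) (nat_lit 458) (nat_lit 450) (nat_lit 292)) (XT.lf (nat_lit 76) (nat_lit 3408537080) (nat_lit 0) (nat_lit 7105832956) (nat_lit 1292) (nat_lit 9998682589) (nat_lit 298) (nat_lit 5) (nat_lit 297) (nat_lit 5) (nat_lit 314) (nat_lit 5) (nat_lit 459) (nat_lit 450) (nat_lit 291))) (XT.nd (nat_lit 78) (nat_lit 0) (nat_lit 0) (XT.lf (nat_lit 0) (nat_lit 11771979624) (nat_lit 1216) (nat_lit 6551257701) (nat_lit 1292) (nat_lit 2505805479) (nat_lit 298) (nat_lit 5) (nat_lit 314) (nat_lit 5) (nat_lit 315) (nat_lit 5) (nat_lit 460) (nat_lit 450) (nat_lit 290)) (XT.lf (nat_lit 76) (nat_lit 4328127864) (nat_lit 0) (nat_lit 8844953461) (nat_lit 1292) (nat_lit 7978259301) (nat_lit 299) (nat_lit 5) (nat_lit 298) (nat_lit 5) (nat_lit 315) (nat_lit 5) (nat_lit 461) (nat_lit 450) (nat_lit 289)))) (XT.nd (nat_lit 156) (nat_lit 0) (nat_lit 0) (XT.nd (nat_lit 78) (nat_lit 0) (nat_lit 0) (XT.lf (nat_lit 0) (nat_lit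 14685803302) (nat_lit 1216) (nat_lit 5827334739) (nat_lit 1292) (nat_lit 968082552) (nat_lit 299) (nat_lit 5) (nat_lit 315) (nat_lit 5) (nat_lit 316) (nat_lit 5) (nat_lit 462) (nat_lit 450) (nat_lit 288)) (XT.lf (nat_lit 76) (nat_lit 5513853523) (nat_lit 0) (nat_lit 10864761857) (nat_lit 1292) (nat_lit 5438341127) (nat_lit 300) (nat_lit 5) (nat_lit 299) (nat_lit 5) (nat_lit 316) (nat_lit 5) (nat_lit 463) (nat_lit 450) (nat_lit 287))) (XT.nd (nat_lit 78) (nat_lit 0) (nat_lit 76) (XT.lf (nat_lit 76) (nat_lit 17310189613) (nat_lit 0) (nat_lit 865126221) (nat_lit 1292) (nat_lit 3985856325) (nat_lit 300) (nat_lit 5) (nat_lit 299) (nat_lit 5) (nat_lit 316) (nat_lit 5) (nat_lit 464) (nat_lit 450) (nat_lit 286)) (XT.lf (nat_lit 76) (nat_lit 6985738953) (nat_lit 0) (nat_lit 13192457461) (nat_lit 1292) (nat_lit 2332950251) (nat_lit 301) (nat_lit 5) (nat_lit 300) (nat_lit 5) (nat_lit 317) (nat_lit 5) (nat_lit 465) (nat_lit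 450) (nat_lit 285))))))) (XT.nd (nat_lit 1170) (nat_lit 3952) (nat_lit 0) (XT.nd (nat_lit 546) (nat_lit 2204) (nat_lit 0) (XT.nd (nat_lit 234) (nat_lit 1976) (nat_lit 0) (XT.nd (nat_lit 78) (nat_lit 1216) (nat_lit 0) (XT.lf (nat_lit 76) (nat_lit 19263722091) (nat_lit 0) (nat_lit 3029464428) (nat_lit 1292) (nat_lit 576873928) (nat_lit 301) (nat_lit 5) (nat_lit 300) (nat_lit 5) (nat_lit 317) (nat_lit 5) (nat_lit 466) (nat_lit 450) (nat_lit 284)) (XT.nd (nat_lit 78) (nat_lit 0) (nat_lit 0) (XT.lf (nat_lit 0) (nat_lit 1359818126) (nat_lit 1292) (nat_lit 14483296754) (nat_lit 76) (nat_lit 7391713047) (nat_lit 284) (nat_lit 5) (nat_lit 301) (nat_lit 5) (nat_lit 285) (nat_lit 5) (nat_lit 467) (nat_lit 450) (nat_lit 283)) (XT.lf (nat_lit 0) (nat_lit 3404569851) (nat_lit 1292) (nat_lit 2096088881) (nat_lit 76) (nat_lit 18107862419) (nat_lit 284) (nat_lit 5) (nat_lit 301) (nat_lit 5) (nat_lit 285) (nat_lit 5) (nat_lit 468)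 (nat_lit 450) (nat_lit 282)))) (XT.nd (nat_lit 156) (nat_lit 1216) (nat_lit 0) (XT.nd (nat_lit 78) (nat_lit 0) (nat_lit 0) (XT.lf (nat_lit 0) (nat_lit 5660654733) (nat_lit 836) (nat_lit 13170657113) (nat_lit 76) (nat_lit 5157614261) (nat_lit 274) (nat_lit 5) (nat_lit 285) (nat_lit 5) (nat_lit 275) (nat_lit 5) (nat_lit 469) (nat_lit 450) (nat_lit 281)) (XT.lf (nat_lit 0) (nat_lit 8055302910) (nat_lit 836) (nat_lit 276368682) (nat_lit 76) (nat_lit 16046945831) (nat_lit 274) (nat_lit 5) (nat_lit 285) (nat_lit 5) (nat_lit 275) (nat_lit 5) (nat_lit 470) (nat_lit 450) (nat_lit 280))) (XT.nd (nat_lit 78) (nat_lit 608) (nat_lit 0) (XT.lf (nat_lit 0) (nat_lit 10669564180) (nat_lit 684) (nat_lit 11542454364) (nat_lit 76) (nat_lit 2563548339) (nat_lit 266) (nat_lit 5) (nat_lit 275) (nat_lit 5) (nat_lit 267) (nat_lit 5) (nat_lit 471) (nat_lit 450) (nat_lit 279)) (XT.lf (nat_lit 0) (nat_lit 1919559710) (nat_lit 608) (nat_lit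 11541743202) (nat_lit 684) (nat_lit 11720151025) (nat_lit 258) (nat_lit 5) (nat_lit 266) (nat_lit 5) (nat_lit 267) (nat_lit 5) (nat_lit 472) (nat_lit 450) (nat_lit 278))))) (XT.nd (nat_lit 312) (nat_lit 1140) (nat_lit 0) (XT.nd (nat_lit 156) (nat_lit 532) (nat_lit 0) (XT.nd (nat_lit 78) (nat_lit 532) (nat_lit 0) (XT.lf (nat_lit 0) (nat_lit 16017507393) (nat_lit 608) (nat_lit 431223659) (nat_lit 684) (nat_lit 9147429014) (nat_lit 258) (nat_lit 5) (nat_lit 266) (nat_lit 5) (nat_lit 267) (nat_lit 5) (nat_lit 473) (nat_lit 450) (nat_lit 277)) (XT.lf (nat_lit 0) (nat_lit 4492348496) (nat_lit 532) (nat_lit 15177993095) (nat_lit 608) (nat_lit 6348629563) (nat_lit 251) (nat_lit 5) (nat_lit 258) (nat_lit 5) (nat_lit 259) (nat_lit 5) (nat_lit 474) (nat_lit 450) (nat_lit 276))) (XT.nd (nat_lit 78) (nat_lit 532) (nat_lit 0) (XT.lf (nat_lit 0) (nat_lit 19172983109) (nat_lit 532) (nat_lit 3912174408) (nat_lit 608) (nat_lit 3366412893)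 (nat_lit 251) (nat_lit 5) (nat_lit 258) (nat_lit 5) (nat_lit 259) (nat_lit 5) (nat_lit 475) (nat_lit 450) (nat_lit 275)) (XT.lf (nat_lit 0) (nat_lit 7464112493) (nat_lit 532) (nat_lit 19279722488) (nat_lit 608) (nat_lit 149070682) (nat_lit 244) (nat_lit 5) (nat_lit 251) (nat_lit 5) (nat_lit 252) (nat_lit 5) (nat_lit 476) (nat_lit 450) (nat_lit 274)))) (XT.nd (nat_lit 156) (nat_lit 532) (nat_lit 0) (XT.nd (nat_lit 78) (nat_lit 532) (nat_lit 0) (XT.lf (nat_lit 0) (nat_lit 3211767407) (nat_lit 608) (nat_lit 4621395271) (nat_lit 76) (nat_lit 19510144175) (nat_lit 243) (nat_lit 5) (nat_lit 251) (nat_lit 5) (nat_lit 244) (nat_lit 5) (nat_lit 477) (nat_lit 450) (nat_lit 273)) (XT.lf (nat_lit 0) (nat_lit 6809566653) (nat_lit 608) (nat_lit 17007459311) (nat_lit 76) (nat_lit 3985976358) (nat_lit 236) (nat_lit 5) (nat_lit 244) (nat_lit 5) (nat_lit 237) (nat_lit 5) (nat_lit 478) (nat_lit 450) (nat_lit 272))) (XT.nd (nat_lit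 78) (nat_lit 532) (nat_lit 0) (XT.lf (nat_lit 0) (nat_lit 10635953289) (nat_lit 608) (nat_lit 1587858694) (nat_lit 76) (nat_lit 16049057539) (nat_lit 236) (nat_lit 5) (nat_lit 244) (nat_lit 5) (nat_lit 237) (nat_lit 5) (nat_lit 479) (nat_lit 450) (nat_lit 271)) (XT.lf (nat_lit 0) (nat_lit 14574383560) (nat_lit 532) (nat_lit 138931549) (nat_lit 608) (nat_lit 14039432580) (nat_lit 229) (nat_lit 5) (nat_lit 236) (nat_lit 5) (nat_lit 237) (nat_lit 5) (nat_lit 480) (nat_lit 450) (nat_lit 270)))))) (XT.nd (nat_lit 624) (nat_lit 1672) (nat_lit 0) (XT.nd (nat_lit 312) (nat_lit 1292) (nat_lit 0) (XT.nd (nat_lit 156) (nat_lit 532) (nat_lit 0) (XT.nd (nat_lit 78) (nat_lit 0) (nat_lit 0) (XT.lf (nat_lit 0) (nat_lit 1922119627) (nat_lit 456) (nat_lit 17140018465) (nat_lit 532) (nat_lit 10180410345) (nat_lit 223) (nat_lit 5) (nat_lit 229) (nat_lit 5) (nat_lit 230) (nat_lit 5) (nat_lit 481) (nat_lit 450) (nat_lit 269)) (XT.lf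 (nat_lit 0) (nat_lit 18790487036) (nat_lit 456) (nat_lit 4891698406) (nat_lit 532) (nat_lit 6060635407) (nat_lit 223) (nat_lit 5) (nat_lit 229) (nat_lit 5) (nat_lit 230) (nat_lit 5) (nat_lit 482) (nat_lit 450) (nat_lit 268))) (XT.nd (nat_lit 78) (nat_lit 76) (nat_lit 0) (XT.lf (nat_lit 0) (nat_lit 5944200242) (nat_lit 456) (nat_lit 22624350119) (nat_lit 532) (nat_lit 1685720007) (nat_lit 217) (nat_lit 5) (nat_lit 223) (nat_lit 5) (nat_lit 224) (nat_lit 5) (nat_lit 483) (nat_lit 450) (nat_lit 267)) (XT.lf (nat_lit 0) (nat_lit 2921888443) (nat_lit 532) (nat_lit 7286620837) (nat_lit 76) (nat_lit 20567046656) (nat_lit 216) (nat_lit 5) (nat_lit 223) (nat_lit 5) (nat_lit 217) (nat_lit 5) (nat_lit 484) (nat_lit 450) (nat_lit 266)))) (XT.nd (nat_lit 156) (nat_lit 836) (nat_lit 0) (XT.nd (nat_lit 78) (nat_lit 0) (nat_lit 0) (XT.lf (nat_lit 0) (nat_lit 7756518177) (nat_lit 532) (nat_lit 20904907685) (nat_lit 76) (nat_lit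 2646873652) (nat_lit 210) (nat_lit 5) (nat_lit 217) (nat_lit 5) (nat_lit 211) (nat_lit 5) (nat_lit 485) (nat_lit 450) (nat_lit 265)) (XT.lf (nat_lit 0) (nat_lit 12908089616) (nat_lit 532) (nat_lit 3187454006) (nat_lit 76) (nat_lit 15756325067) (nat_lit 210) (nat_lit 5) (nat_lit 217) (nat_lit 5) (nat_lit 211) (nat_lit 5) (nat_lit 486) (nat_lit 450) (nat_lit 264))) (XT.nd (nat_lit 78) (nat_lit 380) (nat_lit 0) (XT.lf (nat_lit 0) (nat_lit 15357012736) (nat_lit 456) (nat_lit 3001437198) (nat_lit 532) (nat_lit 14048968113) (nat_lit 204) (nat_lit 5) (nat_lit 210) (nat_lit 5) (nat_lit 211) (nat_lit 5) (nat_lit 487) (nat_lit 450) (nat_lit 263)) (XT.lf (nat_lit 0) (nat_lit 1467782683) (nat_lit 380) (nat_lit 22648617778) (nat_lit 456) (nat_lit 8858911395) (nat_lit 199) (nat_lit 5) (nat_lit 204) (nat_lit 5) (nat_lit 205) (nat_lit 5) (nat_lit 488) (nat_lit 450) (nat_lit 262))))) (XT.nd (nat_lit 312) (nat_lit 760) (nat_lit 0)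 (XT.nd (nat_lit 156) (nat_lit 380) (nat_lit 0) (XT.nd (nat_lit 78) (nat_lit 532) (nat_lit 0) (XT.lf (nat_lit 0) (nat_lit 20856533496) (nat_lit 380) (nat_lit 9388885673) (nat_lit 456) (nat_lit 3308873762) (nat_lit 199) (nat_lit 5) (nat_lit 204) (nat_lit 5) (nat_lit 205) (nat_lit 5) (nat_lit 489) (nat_lit 450) (nat_lit 261)) (XT.lf (nat_lit 0) (nat_lit 2464559423) (nat_lit 532) (nat_lit 27408633315) (nat_lit 76) (nat_lit 4273640402) (nat_lit 192) (nat_lit 5) (nat_lit 199) (nat_lit 5) (nat_lit 193) (nat_lit 5) (nat_lit 490) (nat_lit 450) (nat_lit 260))) (XT.nd (nat_lit 78) (nat_lit 380) (nat_lit 0) (XT.lf (nat_lit 0) (nat_lit 8563978545) (nat_lit 532) (nat_lit 7866941616) (nat_lit 76) (nat_lit 18318668233) (nat_lit 192) (nat_lit 5) (nat_lit 199) (nat_lit 5) (nat_lit 193) (nat_lit 5) (nat_lit 491) (nat_lit 450) (nat_lit 259)) (XT.lf (nat_lit 0) (nat_lit 12500881456) (nat_lit 380) (nat_lit 2462593796) (nat_lit 456) (nat_lit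 20403438505) (nat_lit 187) (nat_lit 5) (nat_lit 192) (nat_lit 5) (nat_lit 193) (nat_lit 5) (nat_lit 492) (nat_lit 450) (nat_lit 258)))) (XT.nd (nat_lit 156) (nat_lit 380) (nat_lit 0) (XT.nd (nat_lit 78) (nat_lit 380) (nat_lit 0) (XT.lf (nat_lit 0) (nat_lit 21746782542) (nat_lit 456) (nat_lit 2478884847) (nat_lit 76) (nat_lit 11771337015) (nat_lit 187) (nat_lit 5) (nat_lit 193) (nat_lit 5) (nat_lit 188) (nat_lit 5) (nat_lit 493) (nat_lit 450) (nat_lit 257)) (XT.lf (nat_lit 0) (nat_lit 18859533552) (nat_lit 380) (nat_lit 10076785386) (nat_lit 456) (nat_lit 7703597222) (nat_lit 182) (nat_lit 5) (nat_lit 187) (nat_lit 5) (nat_lit 188) (nat_lit 5) (nat_lit 494) (nat_lit 450) (nat_lit 256))) (XT.nd (nat_lit 78) (nat_lit 76) (nat_lit 0) (XT.lf (nat_lit 0) (nat_lit 3610520792) (nat_lit 304) (nat_lit 32831326752) (nat_lit 380) (nat_lit 857258818) (nat_lit 178) (nat_lit 5) (nat_lit 182) (nat_lit 5) (nat_lit 183) (nat_lit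 5) (nat_lit 495) (nat_lit 450) (nat_lit 255)) (XT.lf (nat_lit 0) (nat_lit 6351802107) (nat_lit 380) (nat_lit 12130182168) (nat_lit 76) (nat_lit 19485955643) (nat_lit 177) (nat_lit 5) (nat_lit 182) (nat_lit 5) (nat_lit 178) (nat_lit 5) (nat_lit 496) (nat_lit 450) (nat_lit 254))))))))
noncomputable def xc200 : XT := (XT.nd (nat_lit 2340) (nat_lit 2128) (nat_lit 0) (XT.nd (nat_lit 1170) (nat_lit 2128) (nat_lit 0) (XT.nd (nat_lit 546) (nat_lit 1596) (nat_lit 0) (XT.nd (nat_lit 234) (nat_lit 684) (nat_lit 0) (XT.nd (nat_lit 78) (nat_lit 304) (nat_lit 0) (XT.lf (nat_lit 0) (nat_lit 10262832851) (nat_lit 380) (nat_lit 3592922582) (nat_lit 456) (nat_lit 24797953149) (nat_lit 172) (nat_lit 5) (nat_lit 177) (nat_lit 5) (nat_lit 178) (nat_lit 5) (nat_lit 497) (nat_lit 450) (nat_lit 253)) (XT.nd (nat_lit 78) (nat_lit 304) (nat_lit 0) (XT.lf (nat_lit 0) (nat_lit 21818641820) (nat_lit 456) (nat_lit 5898123674) (nat_lit 76) (nat_lit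 11636270625) (nat_lit 172) (nat_lit 5) (nat_lit 178) (nat_lit 5) (nat_lit 173) (nat_lit 5) (nat_lit 498) (nat_lit 450) (nat_lit 252)) (XT.lf (nat_lit 0) (nat_lit 17572911953) (nat_lit 304) (nat_lit 12649310092) (nat_lit 380) (nat_lit 9845067459) (nat_lit 168) (nat_lit 5) (nat_lit 172) (nat_lit 5) (nat_lit 173) (nat_lit 5) (nat_lit 499) (nat_lit 450) (nat_lit 251)))) (XT.nd (nat_lit 156) (nat_lit 304) (nat_lit 0) (XT.nd (nat_lit 78) (nat_lit 76) (nat_lit 0) (XT.lf (nat_lit 0) (nat_lit 1056367483) (nat_lit 304) (nat_lit 37916778512) (nat_lit 380) (nat_lit 1826967637) (nat_lit 164) (nat_lit 5) (nat_lit 168) (nat_lit 5) (nat_lit 169) (nat_lit 5) (nat_lit 500) (nat_lit 450) (nat_lit 250)) (XT.lf (nat_lit 0) (nat_lit 6658166153) (nat_lit 380) (nat_lit 15966557477) (nat_lit 76) (nat_lit 18917784434) (nat_lit 163) (nat_lit 5) (nat_lit 168) (nat_lit 5) (nat_lit 164) (nat_lit 5) (nat_lit 501) (nat_lit 450) (nat_lit 249)))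 (XT.nd (nat_lit 78) (nat_lit 0) (nat_lit 0) (XT.lf (nat_lit 0) (nat_lit 8671297251) (nat_lit 304) (nat_lit 6770624573) (nat_lit 380) (nat_lit 26862286411) (nat_lit 159) (nat_lit 5) (nat_lit 163) (nat_lit 5) (nat_lit 164) (nat_lit 5) (nat_lit 502) (nat_lit 450) (nat_lit 248)) (XT.lf (nat_lit 0) (nat_lit 24741366888) (nat_lit 380) (nat_lit 8805616857) (nat_lit 76) (nat_lit 9534210569) (nat_lit 159) (nat_lit 5) (nat_lit 164) (nat_lit 5) (nat_lit 160) (nat_lit 5) (nat_lit 503) (nat_lit 450) (nat_lit 247))))) (XT.nd (nat_lit 312) (nat_lit 608) (nat_lit 0) (XT.nd (nat_lit 156) (nat_lit 608) (nat_lit 0) (XT.nd (nat_lit 78) (nat_lit 76) (nat_lit 0) (XT.lf (nat_lit 0) (nat_lit 17028052897) (nat_lit 304) (nat_lit 17519997850) (nat_lit 380) (nat_lit 9326591766) (nat_lit 155) (nat_lit 5) (nat_lit 159) (nat_lit 5) (nat_lit 160) (nat_lit 5) (nat_lit 504) (nat_lit 450) (nat_lit 246)) (XT.lf (nat_lit 0) (nat_lit 45227070) (nat_lit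 380) (nat_lit 876153565) (nat_lit 76) (nat_lit 43767905666) (nat_lit 154) (nat_lit 5) (nat_lit 159) (nat_lit 5) (nat_lit 155) (nat_lit 5) (nat_lit 505) (nat_lit 450) (nat_lit 245))) (XT.nd (nat_lit 78) (nat_lit 304) (nat_lit 0) (XT.lf (nat_lit 0) (nat_lit 9919975509) (nat_lit 380) (nat_lit 19386495782) (nat_lit 76) (nat_lit 16206851112) (nat_lit 150) (nat_lit 5) (nat_lit 155) (nat_lit 5) (nat_lit 151) (nat_lit 5) (nat_lit 506) (nat_lit 450) (nat_lit 244)) (XT.lf (nat_lit 0) (nat_lit 7734138281) (nat_lit 304) (nat_lit 12446873905) (nat_lit 380) (nat_lit 26178366204) (nat_lit 146) (nat_lit 5) (nat_lit 150) (nat_lit 5) (nat_lit 151) (nat_lit 5) (nat_lit 507) (nat_lit 450) (nat_lit 243)))) (XT.nd (nat_lit 156) (nat_lit 380) (nat_lit 0) (XT.nd (nat_lit 78) (nat_lit 228) (nat_lit 0) (XT.lf (nat_lit 0) (nat_lit 30992528648) (nat_lit 380) (nat_lit 11212002695) (nat_lit 76) (nat_lit 5019005428) (nat_lit 146) (nat_lit 5)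 (nat_lit 151) (nat_lit 5) (nat_lit 147) (nat_lit 5) (nat_lit 508) (nat_lit 450) (nat_lit 242)) (XT.lf (nat_lit 0) (nat_lit 17233145018) (nat_lit 228) (nat_lit 25181870573) (nat_lit 304) (nat_lit 5690005728) (nat_lit 143) (nat_lit 5) (nat_lit 146) (nat_lit 5) (nat_lit 147) (nat_lit 5) (nat_lit 509) (nat_lit 450) (nat_lit 241))) (XT.nd (nat_lit 78) (nat_lit 304) (nat_lit 0) (XT.lf (nat_lit 0) (nat_lit 5178478972) (nat_lit 304) (nat_lit 2302404761) (nat_lit 76) (nat_lit 41527214210) (nat_lit 142) (nat_lit 5) (nat_lit 146) (nat_lit 5) (nat_lit 143) (nat_lit 5) (nat_lit 510) (nat_lit 450) (nat_lit 240)) (XT.lf (nat_lit 0) (nat_lit 16628320058) (nat_lit 380) (nat_lit 22432192000) (nat_lit 76) (nat_lit 10864974901) (nat_lit 138) (nat_lit 5) (nat_lit 143) (nat_lit 5) (nat_lit 139) (nat_lit 5) (nat_lit 511) (nat_lit 450) (nat_lit 239)))))) (XT.nd (nat_lit 546) (nat_lit 1140) (nat_lit 0) (XT.nd (nat_lit 234) (nat_lit 456)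 (nat_lit 0) (XT.nd (nat_lit 78) (nat_lit 304) (nat_lit 0) (XT.lf (nat_lit 0) (nat_lit 7427544607) (nat_lit 228) (nat_lit 21160886065) (nat_lit 304) (nat_lit 22276963894) (nat_lit 135) (nat_lit 5) (nat_lit 138) (nat_lit 5) (nat_lit 139) (nat_lit 5) (nat_lit 512) (nat_lit 450) (nat_lit 238)) (XT.nd (nat_lit 78) (nat_lit 304) (nat_lit 0) (XT.lf (nat_lit 0) (nat_lit 38639487406) (nat_lit 228) (nat_lit 2492236768) (nat_lit 304) (nat_lit 10695043983) (nat_lit 135) (nat_lit 5) (nat_lit 138) (nat_lit 5) (nat_lit 139) (nat_lit 5) (nat_lit 513) (nat_lit 450) (nat_lit 237)) (XT.lf (nat_lit 0) (nat_lit 1546911777) (nat_lit 304) (nat_lit 34661213078) (nat_lit 76) (nat_lit 16598402347) (nat_lit 131) (nat_lit 5) (nat_lit 135) (nat_lit 5) (nat_lit 132) (nat_lit 5) (nat_lit 514) (nat_lit 450) (nat_lit 236)))) (XT.nd (nat_lit 156) (nat_lit 228) (nat_lit 0) (XT.nd (nat_lit 78) (nat_lit 228) (nat_lit 0) (XT.lf (nat_lit 0) (nat_lit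 14098243237) (nat_lit 304) (nat_lit 3258739659) (nat_lit 76) (nat_lit 36450807205) (nat_lit 131) (nat_lit 5) (nat_lit 135) (nat_lit 5) (nat_lit 132) (nat_lit 5) (nat_lit 515) (nat_lit 450) (nat_lit 235)) (XT.lf (nat_lit 0) (nat_lit 27331825041) (nat_lit 304) (nat_lit 25191885332) (nat_lit 76) (nat_lit 2306209329) (nat_lit 128) (nat_lit 5) (nat_lit 132) (nat_lit 5) (nat_lit 129) (nat_lit 5) (nat_lit 516) (nat_lit 450) (nat_lit 234))) (XT.nd (nat_lit 78) (nat_lit 0) (nat_lit 0) (XT.lf (nat_lit 0) (nat_lit 7681196987) (nat_lit 228) (nat_lit 33558130956) (nat_lit 304) (nat_lit 14635077964) (nat_lit 125) (nat_lit 5) (nat_lit 128) (nat_lit 5) (nat_lit 129) (nat_lit 5) (nat_lit 517) (nat_lit 450) (nat_lit 233)) (XT.lf (nat_lit 0) (nat_lit 42053612776) (nat_lit 228) (nat_lit 13762852112) (nat_lit 304) (nat_lit 1126189663) (nat_lit 125) (nat_lit 5) (nat_lit 128) (nat_lit 5) (nat_lit 129) (nat_lit 5) (nat_lit 518) (nat_lit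 450) (nat_lit 232))))) (XT.nd (nat_lit 312) (nat_lit 456) (nat_lit 0) (XT.nd (nat_lit 156) (nat_lit 380) (nat_lit 0) (XT.nd (nat_lit 78) (nat_lit 0) (nat_lit 0) (XT.lf (nat_lit 0) (nat_lit 12792357044) (nat_lit 304) (nat_lit 38428436915) (nat_lit 76) (nat_lit 6810851105) (nat_lit 121) (nat_lit 5) (nat_lit 125) (nat_lit 5) (nat_lit 122) (nat_lit 5) (nat_lit 519) (nat_lit 450) (nat_lit 231)) (XT.lf (nat_lit 0) (nat_lit 27392002098) (nat_lit 304) (nat_lit 3865488769) (nat_lit 76) (nat_lit 27886894709) (nat_lit 121) (nat_lit 5) (nat_lit 125) (nat_lit 5) (nat_lit 122) (nat_lit 5) (nat_lit 520) (nat_lit 450) (nat_lit 230))) (XT.nd (nat_lit 78) (nat_lit 152) (nat_lit 0) (XT.lf (nat_lit 0) (nat_lit 32362729747) (nat_lit 228) (nat_lit 10376125884) (nat_lit 304) (nat_lit 17542376205) (nat_lit 118) (nat_lit 5) (nat_lit 121) (nat_lit 5) (nat_lit 122) (nat_lit 5) (nat_lit 521) (nat_lit 450) (nat_lit 229)) (XT.lf (nat_lit 0)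 (nat_lit 8358592088) (nat_lit 152) (nat_lit 50412436844) (nat_lit 228) (nat_lit 2674407231) (nat_lit 116) (nat_lit 5) (nat_lit 118) (nat_lit 5) (nat_lit 119) (nat_lit 5) (nat_lit 522) (nat_lit 450) (nat_lit 228)))) (XT.nd (nat_lit 156) (nat_lit 152) (nat_lit 0) (XT.nd (nat_lit 78) (nat_lit 228) (nat_lit 0) (XT.lf (nat_lit 0) (nat_lit 12778551384) (nat_lit 228) (nat_lit 16569983130) (nat_lit 76) (nat_lit 33280819377) (nat_lit 115) (nat_lit 5) (nat_lit 118) (nat_lit 5) (nat_lit 116) (nat_lit 5) (nat_lit 523) (nat_lit 450) (nat_lit 227)) (XT.lf (nat_lit 0) (nat_lit 21431042572) (nat_lit 228) (nat_lit 7414512857) (nat_lit 304) (nat_lit 34996313150) (nat_lit 112) (nat_lit 5) (nat_lit 115) (nat_lit 5) (nat_lit 116) (nat_lit 5) (nat_lit 524) (nat_lit 450) (nat_lit 226))) (XT.nd (nat_lit 78) (nat_lit 152) (nat_lit 0) (XT.lf (nat_lit 0) (nat_lit 45707658854) (nat_lit 304) (nat_lit 4324593843) (nat_lit 76) (nat_lit 15049113426)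 (nat_lit 112) (nat_lit 5) (nat_lit 116) (nat_lit 5) (nat_lit 113) (nat_lit 5) (nat_lit 525) (nat_lit 450) (nat_lit 225)) (XT.lf (nat_lit 0) (nat_lit 35520975919) (nat_lit 152) (nat_lit 27967774437) (nat_lit 228) (nat_lit 2856904578) (nat_lit 110) (nat_lit 5) (nat_lit 112) (nat_lit 5) (nat_lit 113) (nat_lit 5) (nat_lit 526) (nat_lit 450) (nat_lit 224))))))) (XT.nd (nat_lit 1170) (nat_lit 380) (nat_lit 0) (XT.nd (nat_lit 546) (nat_lit 912) (nat_lit 0) (XT.nd (nat_lit 234) (nat_lit 380) (nat_lit 0) (XT.nd (nat_lit 78) (nat_lit 152) (nat_lit 0) (XT.lf (nat_lit 0) (nat_lit 9040932971) (nat_lit 228) (nat_lit 4967525345) (nat_lit 304) (nat_lit 53631453697) (nat_lit 106) (nat_lit 5) (nat_lit 109) (nat_lit 5) (nat_lit 110) (nat_lit 5) (nat_lit 527) (nat_lit 450) (nat_lit 223)) (XT.nd (nat_lit 78) (nat_lit 152) (nat_lit 0) (XT.lf (nat_lit 0) (nat_lit 31814965889) (nat_lit 304) (nat_lit 18443608009) (nat_lit 76) (nat_lit 18698796260)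 (nat_lit 106) (nat_lit 5) (nat_lit 110) (nat_lit 5) (nat_lit 107) (nat_lit 5) (nat_lit 528) (nat_lit 450) (nat_lit 222)) (XT.lf (nat_lit 0) (nat_lit 23319377145) (nat_lit 152) (nat_lit 27107964897) (nat_lit 228) (nat_lit 19878859886) (nat_lit 104) (nat_lit 5) (nat_lit 106) (nat_lit 5) (nat_lit 107) (nat_lit 5) (nat_lit 529) (nat_lit 450) (nat_lit 221)))) (XT.nd (nat_lit 156) (nat_lit 152) (nat_lit 0) (XT.nd (nat_lit 78) (nat_lit 228) (nat_lit 0) (XT.lf (nat_lit 0) (nat_lit 66710447624) (nat_lit 152) (nat_lit 3072236910) (nat_lit 228) (nat_lit 1907276343) (nat_lit 104) (nat_lit 5) (nat_lit 106) (nat_lit 5) (nat_lit 107) (nat_lit 5) (nat_lit 530) (nat_lit 450) (nat_lit 220)) (XT.lf (nat_lit 0) (nat_lit 16865339305) (nat_lit 228) (nat_lit 34428633851) (nat_lit 76) (nat_lit 21798895100) (nat_lit 101) (nat_lit 5) (nat_lit 104) (nat_lit 5) (nat_lit 102) (nat_lit 5) (nat_lit 531) (nat_lit 450) (nat_lit 219))) (XT.nd (nat_lit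 78) (nat_lit 0) (nat_lit 0) (XT.lf (nat_lit 0) (nat_lit 9312090577) (nat_lit 152) (nat_lit 27019812844) (nat_lit 228) (nat_lit 38200319859) (nat_lit 99) (nat_lit 5) (nat_lit 101) (nat_lit 5) (nat_lit 102) (nat_lit 5) (nat_lit 532) (nat_lit 450) (nat_lit 218)) (XT.lf (nat_lit 0) (nat_lit 55067980633) (nat_lit 152) (nat_lit 1660556858) (nat_lit 228) (nat_lit 19275839341) (nat_lit 99) (nat_lit 5) (nat_lit 101) (nat_lit 5) (nat_lit 102) (nat_lit 5) (nat_lit 533) (nat_lit 450) (nat_lit 217))))) (XT.nd (nat_lit 312) (nat_lit 380) (nat_lit 0) (XT.nd (nat_lit 156) (nat_lit 304) (nat_lit 0) (XT.nd (nat_lit 78) (nat_lit 0) (nat_lit 0) (XT.lf (nat_lit 0) (nat_lit 689991563) (nat_lit 228) (nat_lit 52588931064) (nat_lit 76) (nat_lit 24227374883) (nat_lit 96) (nat_lit 5) (nat_lit 99) (nat_lit 5) (nat_lit 97) (nat_lit 5) (nat_lit 534) (nat_lit 450) (nat_lit 216)) (XT.lf (nat_lit 0) (nat_lit 21095772966) (nat_lit 228) (nat_lit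 6683166326) (nat_lit 76) (nat_lit 51261759057) (nat_lit 96) (nat_lit 5) (nat_lit 99) (nat_lit 5) (nat_lit 97) (nat_lit 5) (nat_lit 535) (nat_lit 450) (nat_lit 215))) (XT.nd (nat_lit 78) (nat_lit 152) (nat_lit 0) (XT.lf (nat_lit 0) (nat_lit 41405047234) (nat_lit 152) (nat_lit 1105186285) (nat_lit 228) (nat_lit 38099002585) (nat_lit 94) (nat_lit 5) (nat_lit 96) (nat_lit 5) (nat_lit 97) (nat_lit 5) (nat_lit 536) (nat_lit 450) (nat_lit 214)) (XT.lf (nat_lit 0) (nat_lit 8764289217) (nat_lit 152) (nat_lit 56207216344) (nat_lit 228) (nat_lit 17241193161) (nat_lit 92) (nat_lit 5) (nat_lit 94) (nat_lit 5) (nat_lit 95) (nat_lit 5) (nat_lit 537) (nat_lit 450) (nat_lit 213)))) (XT.nd (nat_lit 156) (nat_lit 152) (nat_lit 0) (XT.nd (nat_lit 78) (nat_lit 152) (nat_lit 0) (XT.lf (nat_lit 0) (nat_lit 4568819889) (nat_lit 228) (nat_lit 24935257918) (nat_lit 76) (nat_lit 54346686478) (nat_lit 91) (nat_lit 5) (nat_lit 94) (nat_lit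 5) (nat_lit 92) (nat_lit 5) (nat_lit 538) (nat_lit 450) (nat_lit 212)) (XT.lf (nat_lit 0) (nat_lit 25354727741) (nat_lit 152) (nat_lit 1574148714) (nat_lit 228) (nat_lit 58596706046) (nat_lit 89) (nat_lit 5) (nat_lit 91) (nat_lit 5) (nat_lit 92) (nat_lit 5) (nat_lit 539) (nat_lit 450) (nat_lit 211))) (XT.nd (nat_lit 78) (nat_lit 152) (nat_lit 0) (XT.lf (nat_lit 0) (nat_lit 50473982345) (nat_lit 228) (nat_lit 9845049273) (nat_lit 76) (nat_lit 26916186271) (nat_lit 89) (nat_lit 5) (nat_lit 92) (nat_lit 5) (nat_lit 90) (nat_lit 5) (nat_lit 540) (nat_lit 450) (nat_lit 210)) (XT.lf (nat_lit 0) (nat_lit 42807730253) (nat_lit 152) (nat_lit 32343388063) (nat_lit 228) (nat_lit 13832253766) (nat_lit 87) (nat_lit 5) (nat_lit 89) (nat_lit 5) (nat_lit 90) (nat_lit 5) (nat_lit 541) (nat_lit 450) (nat_lit 209)))))) (XT.nd (nat_lit 55614) (nat_lit 0) (nat_lit 16112) (XT.nd (nat_lit 234) (nat_lit 0) (nat_lit 0) (XT.nd (nat_lit 78)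 (nat_lit 152) (nat_lit 0) (XT.lf (nat_lit 0) (nat_lit 6489971018) (nat_lit 152) (nat_lit 3265079306) (nat_lit 228) (nat_lit 81021257392) (nat_lit 84) (nat_lit 5) (nat_lit 86) (nat_lit 5) (nat_lit 87) (nat_lit 5) (nat_lit 542) (nat_lit 450) (nat_lit 208)) (XT.nd (nat_lit 78) (nat_lit 152) (nat_lit 0) (XT.lf (nat_lit 0) (nat_lit 34497982696) (nat_lit 228) (nat_lit 31327579062) (nat_lit 76) (nat_lit 26771580405) (nat_lit 84) (nat_lit 5) (nat_lit 87) (nat_lit 5) (nat_lit 85) (nat_lit 5) (nat_lit 543) (nat_lit 450) (nat_lit 207)) (XT.lf (nat_lit 0) (nat_lit 23646561820) (nat_lit 152) (nat_lit 36594920113) (nat_lit 228) (nat_lit 34223371389) (nat_lit 82) (nat_lit 5) (nat_lit 84) (nat_lit 5) (nat_lit 85) (nat_lit 5) (nat_lit 544) (nat_lit 450) (nat_lit 206)))) (XT.nd (nat_lit 55224) (nat_lit 0) (nat_lit 16036) (XT.nd (nat_lit 55146) (nat_lit 0) (nat_lit 16036) (XT.lf (nat_lit 0) (nat_lit 80909654359) (nat_lit 152) (nat_lit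 6162640881) (nat_lit 228) (nat_lit 9306850346) (nat_lit 82) (nat_lit 5) (nat_lit 84) (nat_lit 5) (nat_lit 85) (nat_lit 5) (nat_lit 545) (nat_lit 450) (nat_lit 205)) (XT.lf (nat_lit 0) (nat_lit 2372141750) (nat_lit 1292) (nat_lit 3432499083) (nat_lit 1292) (nat_lit 3432499083) (nat_lit 293) (nat_lit 3) (nat_lit 310) (nat_lit 3) (nat_lit 310) (nat_lit 5) (nat_lit 451) (nat_lit 451) (nat_lit 298))) (XT.nd (nat_lit 78) (nat_lit 0) (nat_lit 76) (XT.lf (nat_lit 76) (nat_lit 2306298057) (nat_lit 0) (nat_lit 2724442108) (nat_lit 1292) (nat_lit 13714168246) (nat_lit 294) (nat_lit 5) (nat_lit 293) (nat_lit 3) (nat_lit 310) (nat_lit 5) (nat_lit 452) (nat_lit 451) (nat_lit 297)) (XT.lf (nat_lit 0) (nat_lit 5450039273) (nat_lit 1216) (nat_lit 7194805747) (nat_lit 1292) (nat_lit 6375084411) (nat_lit 294) (nat_lit 5) (nat_lit 310) (nat_lit 5) (nat_lit 311) (nat_lit 5) (nat_lit 453) (nat_lit 451) (nat_lit 296))))) (XT.nd (nat_lit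 312) (nat_lit 0) (nat_lit 152) (XT.nd (nat_lit 156) (nat_lit 0) (nat_lit 76) (XT.nd (nat_lit 78) (nat_lit 0) (nat_lit 76) (XT.lf (nat_lit 76) (nat_lit 2340918639) (nat_lit 0) (nat_lit 3583155004) (nat_lit 1292) (nat_lit 13377863767) (nat_lit 295) (nat_lit 5) (nat_lit 294) (nat_lit 5) (nat_lit 311) (nat_lit 5) (nat_lit 454) (nat_lit 451) (nat_lit 295)) (XT.lf (nat_lit 0) (nat_lit 6533861197) (nat_lit 1216) (nat_lit 7340324678) (nat_lit 1292) (nat_lit 5714574777) (nat_lit 295) (nat_lit 5) (nat_lit 311) (nat_lit 5) (nat_lit 312) (nat_lit 5) (nat_lit 455) (nat_lit 451) (nat_lit 294))) (XT.nd (nat_lit 78) (nat_lit 0) (nat_lit 76) (XT.lf (nat_lit 76) (nat_lit 2579673232) (nat_lit 0) (nat_lit 4635633766) (nat_lit 1292) (nat_lit 12667281613) (nat_lit 296) (nat_lit 5) (nat_lit 295) (nat_lit 5) (nat_lit 312) (nat_lit 5) (nat_lit 456) (nat_lit 451) (nat_lit 293)) (XT.lf (nat_lit 0) (nat_lit 8032240221) (nat_lit 1216) (nat_lit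 7287277771) (nat_lit 1292) (nat_lit 4862263027) (nat_lit 296) (nat_lit 5) (nat_lit 312) (nat_lit 5) (nat_lit 313) (nat_lit 5) (nat_lit 457) (nat_lit 451) (nat_lit 292)))) (XT.nd (nat_lit 156) (nat_lit 0) (nat_lit 76) (XT.nd (nat_lit 78) (nat_lit 0) (nat_lit 76) (XT.lf (nat_lit 76) (nat_lit 3037974164) (nat_lit 0) (nat_lit 5904280325) (nat_lit 1292) (nat_lit 11545638422) (nat_lit 297) (nat_lit 5) (nat_lit 296) (nat_lit 5) (nat_lit 313) (nat_lit 5) (nat_lit 458) (nat_lit 451) (nat_lit 291)) (XT.lf (nat_lit 0) (nat_lit 9983993143) (nat_lit 1216) (nat_lit 7020218890) (nat_lit 1292) (nat_lit 3795844285) (nat_lit 297) (nat_lit 5) (nat_lit 313) (nat_lit 5) (nat_lit 314) (nat_lit 5) (nat_lit 459) (nat_lit 451) (nat_lit 290))) (XT.nd (nat_lit 78) (nat_lit 0) (nat_lit 76) (XT.lf (nat_lit 76) (nat_lit 3732465205) (nat_lit 0) (nat_lit 7412684385) (nat_lit 1292) (nat_lit 9973790921) (nat_lit 298) (nat_lit 5) (nat_lit 297) (nat_lit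 5) (nat_lit 314) (nat_lit 5) (nat_lit 460) (nat_lit 451) (nat_lit 289)) (XT.lf (nat_lit 0) (nat_lit 12430428311) (nat_lit 1216) (nat_lit 6522478751) (nat_lit 1292) (nat_lit 2491806367) (nat_lit 298) (nat_lit 5) (nat_lit 314) (nat_lit 5) (nat_lit 315) (nat_lit 5) (nat_lit 461) (nat_lit 451) (nat_lit 288))))))))
noncomputable def xc201 : XT := (XT.nd (nat_lit 2340) (nat_lit 5624) (nat_lit 0) (XT.nd (nat_lit 1170) (nat_lit 4484) (nat_lit 0) (XT.nd (nat_lit 546) (nat_lit 2508) (nat_lit 0) (XT.nd (nat_lit 234) (nat_lit 1064) (nat_lit 0) (XT.nd (nat_lit 78) (nat_lit 0) (nat_lit 76) (XT.lf (nat_lit 76) (nat_lit 4681079394) (nat_lit 0) (nat_lit 9185736396) (nat_lit 1292) (nat_lit 7910068037) (nat_lit 299) (nat_lit 5) (nat_lit 298) (nat_lit 5) (nat_lit 315) (nat_lit 5) (nat_lit 462) (nat_lit 451) (nat_lit 287)) (XT.nd (nat_lit 78) (nat_lit 0) (nat_lit 0) (XT.lf (nat_lit 0) (nat_lit 15415520026) (nat_lit 1216) (nat_lit 5776106399)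 (nat_lit 1292) (nat_lit 925316936) (nat_lit 299) (nat_lit 5) (nat_lit 315) (nat_lit 5) (nat_lit 316) (nat_lit 5) (nat_lit 463) (nat_lit 451) (nat_lit 286)) (XT.lf (nat_lit 76) (nat_lit 5903101351) (nat_lit 0) (nat_lit 11249745098) (nat_lit 1292) (nat_lit 5310094157) (nat_lit 300) (nat_lit 5) (nat_lit 299) (nat_lit 5) (nat_lit 316) (nat_lit 5) (nat_lit 464) (nat_lit 451) (nat_lit 285)))) (XT.nd (nat_lit 156) (nat_lit 1140) (nat_lit 0) (XT.nd (nat_lit 78) (nat_lit 0) (nat_lit 76) (XT.lf (nat_lit 76) (nat_lit 18046808138) (nat_lit 0) (nat_lit 948400771) (nat_lit 1292) (nat_lit 3822522108) (nat_lit 300) (nat_lit 5) (nat_lit 299) (nat_lit 5) (nat_lit 316) (nat_lit 5) (nat_lit 465) (nat_lit 451) (nat_lit 284)) (XT.lf (nat_lit 76) (nat_lit 7419234207) (nat_lit 0) (nat_lit 13632560193) (nat_lit 1292) (nat_lit 2126602889) (nat_lit 301) (nat_lit 5) (nat_lit 300) (nat_lit 5) (nat_lit 317) (nat_lit 5) (nat_lit 466) (nat_lit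 451) (nat_lit 283))) (XT.nd (nat_lit 78) (nat_lit 1216) (nat_lit 0) (XT.lf (nat_lit 76) (nat_lit 20059034808) (nat_lit 0) (nat_lit 3163386234) (nat_lit 1292) (nat_lit 325892893) (nat_lit 301) (nat_lit 5) (nat_lit 300) (nat_lit 5) (nat_lit 317) (nat_lit 5) (nat_lit 467) (nat_lit 451) (nat_lit 282)) (XT.lf (nat_lit 0) (nat_lit 1657766541) (nat_lit 1292) (nat_lit 14689193947) (nat_lit 76) (nat_lit 7577164521) (nat_lit 284) (nat_lit 5) (nat_lit 301) (nat_lit 5) (nat_lit 285) (nat_lit 5) (nat_lit 468) (nat_lit 451) (nat_lit 281))))) (XT.nd (nat_lit 312) (nat_lit 1140) (nat_lit 0) (XT.nd (nat_lit 156) (nat_lit 608) (nat_lit 0) (XT.nd (nat_lit 78) (nat_lit 760) (nat_lit 0) (XT.lf (nat_lit 0) (nat_lit 3756370900) (nat_lit 1292) (nat_lit 1937028140) (nat_lit 76) (nat_lit 18615855653) (nat_lit 284) (nat_lit 5) (nat_lit 301) (nat_lit 5) (nat_lit 285) (nat_lit 5) (nat_lit 469) (nat_lit 451) (nat_lit 280)) (XT.lf (nat_lit 0)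 (nat_lit 6074741312) (nat_lit 836) (nat_lit 13338405165) (nat_lit 76) (nat_lit 5288088167) (nat_lit 274) (nat_lit 5) (nat_lit 285) (nat_lit 5) (nat_lit 275) (nat_lit 5) (nat_lit 470) (nat_lit 451) (nat_lit 279))) (XT.nd (nat_lit 78) (nat_lit 608) (nat_lit 0) (XT.lf (nat_lit 0) (nat_lit 8534114363) (nat_lit 836) (nat_lit 63910557) (nat_lit 76) (nat_lit 16504806126) (nat_lit 274) (nat_lit 5) (nat_lit 285) (nat_lit 5) (nat_lit 275) (nat_lit 5) (nat_lit 471) (nat_lit 451) (nat_lit 278)) (XT.lf (nat_lit 0) (nat_lit 11221865013) (nat_lit 684) (nat_lit 11663010907) (nat_lit 76) (nat_lit 2626962109) (nat_lit 266) (nat_lit 5) (nat_lit 275) (nat_lit 5) (nat_lit 267) (nat_lit 5) (nat_lit 472) (nat_lit 451) (nat_lit 277)))) (XT.nd (nat_lit 156) (nat_lit 532) (nat_lit 0) (XT.nd (nat_lit 78) (nat_lit 0) (nat_lit 0) (XT.lf (nat_lit 0) (nat_lit 2200650678) (nat_lit 608) (nat_lit 11892090176) (nat_lit 684) (nat_lit 11837300149)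 (nat_lit 258) (nat_lit 5) (nat_lit 266) (nat_lit 5) (nat_lit 267) (nat_lit 5) (nat_lit 473) (nat_lit 451) (nat_lit 276)) (XT.lf (nat_lit 0) (nat_lit 16715026960) (nat_lit 608) (nat_lit 448135784) (nat_lit 684) (nat_lit 9194225276) (nat_lit 258) (nat_lit 5) (nat_lit 266) (nat_lit 5) (nat_lit 267) (nat_lit 5) (nat_lit 474) (nat_lit 451) (nat_lit 275))) (XT.nd (nat_lit 78) (nat_lit 0) (nat_lit 0) (XT.lf (nat_lit 0) (nat_lit 4848615324) (nat_lit 532) (nat_lit 15628462321) (nat_lit 608) (nat_lit 6315936923) (nat_lit 251) (nat_lit 5) (nat_lit 258) (nat_lit 5) (nat_lit 259) (nat_lit 5) (nat_lit 475) (nat_lit 451) (nat_lit 274)) (XT.lf (nat_lit 0) (nat_lit 19963217625) (nat_lit 532) (nat_lit 4024810934) (nat_lit 608) (nat_lit 3250753312) (nat_lit 251) (nat_lit 5) (nat_lit 258) (nat_lit 5) (nat_lit 259) (nat_lit 5) (nat_lit 476) (nat_lit 451) (nat_lit 273)))))) (XT.nd (nat_lit 546) (nat_lit 2356) (nat_lit 0) (XT.nd (nat_lit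 234) (nat_lit 988) (nat_lit 0) (XT.nd (nat_lit 78) (nat_lit 532) (nat_lit 0) (XT.lf (nat_lit 0) (nat_lit 57862739) (nat_lit 608) (nat_lit 19786843338) (nat_lit 76) (nat_lit 7848754093) (nat_lit 243) (nat_lit 5) (nat_lit 251) (nat_lit 5) (nat_lit 244) (nat_lit 5) (nat_lit 477) (nat_lit 451) (nat_lit 272)) (XT.nd (nat_lit 78) (nat_lit 532) (nat_lit 0) (XT.lf (nat_lit 0) (nat_lit 3510459623) (nat_lit 608) (nat_lit 4543204430) (nat_lit 76) (nat_lit 20103847889) (nat_lit 243) (nat_lit 5) (nat_lit 251) (nat_lit 5) (nat_lit 244) (nat_lit 5) (nat_lit 478) (nat_lit 451) (nat_lit 271)) (XT.lf (nat_lit 0) (nat_lit 7212519062) (nat_lit 608) (nat_lit 17297153364) (nat_lit 76) (nat_lit 4121436758) (nat_lit 236) (nat_lit 5) (nat_lit 244) (nat_lit 5) (nat_lit 237) (nat_lit 5) (nat_lit 479) (nat_lit 451) (nat_lit 270)))) (XT.nd (nat_lit 156) (nat_lit 456) (nat_lit 0) (XT.nd (nat_lit 78) (nat_lit 532) (nat_lit 0) (XT.lf (nat_lit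 0) (nat_lit 11147910926) (nat_lit 608) (nat_lit 1421387925) (nat_lit 76) (nat_lit 16545947818) (nat_lit 236) (nat_lit 5) (nat_lit 244) (nat_lit 5) (nat_lit 237) (nat_lit 5) (nat_lit 480) (nat_lit 451) (nat_lit 269)) (XT.lf (nat_lit 0) (nat_lit 15223622514) (nat_lit 532) (nat_lit 120391197) (nat_lit 608) (nat_lit 14265615526) (nat_lit 229) (nat_lit 5) (nat_lit 236) (nat_lit 5) (nat_lit 237) (nat_lit 5) (nat_lit 481) (nat_lit 451) (nat_lit 268))) (XT.nd (nat_lit 78) (nat_lit 0) (nat_lit 0) (XT.lf (nat_lit 0) (nat_lit 2195141005) (nat_lit 456) (nat_lit 17624928890) (nat_lit 532) (nat_lit 10294151695) (nat_lit 223) (nat_lit 5) (nat_lit 229) (nat_lit 5) (nat_lit 230) (nat_lit 5) (nat_lit 482) (nat_lit 451) (nat_lit 267)) (XT.lf (nat_lit 0) (nat_lit 19563286879) (nat_lit 456) (nat_lit 5010012340) (nat_lit 532) (nat_lit 6056366158) (nat_lit 223) (nat_lit 5) (nat_lit 229) (nat_lit 5) (nat_lit 230) (nat_lit 5) (nat_lit 483)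 (nat_lit 451) (nat_lit 266))))) (XT.nd (nat_lit 312) (nat_lit 1368) (nat_lit 0) (XT.nd (nat_lit 156) (nat_lit 456) (nat_lit 0) (XT.nd (nat_lit 78) (nat_lit 76) (nat_lit 0) (XT.lf (nat_lit 0) (nat_lit 6334677716) (nat_lit 456) (nat_lit 23268620493) (nat_lit 532) (nat_lit 1553249480) (nat_lit 217) (nat_lit 5) (nat_lit 223) (nat_lit 5) (nat_lit 224) (nat_lit 5) (nat_lit 484) (nat_lit 451) (nat_lit 265)) (XT.lf (nat_lit 0) (nat_lit 3183788121) (nat_lit 532) (nat_lit 7295760488) (nat_lit 76) (nat_lit 21214027815) (nat_lit 216) (nat_lit 5) (nat_lit 223) (nat_lit 5) (nat_lit 217) (nat_lit 5) (nat_lit 485) (nat_lit 451) (nat_lit 264))) (XT.nd (nat_lit 78) (nat_lit 0) (nat_lit 0) (XT.lf (nat_lit 0) (nat_lit 8160723814) (nat_lit 532) (nat_lit 21319844658) (nat_lit 76) (nat_lit 2761816377) (nat_lit 210) (nat_lit 5) (nat_lit 217) (nat_lit 5) (nat_lit 211) (nat_lit 5) (nat_lit 486) (nat_lit 451) (nat_lit 263)) (XT.lf (nat_lit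 0) (nat_lit 13461846956) (nat_lit 532) (nat_lit 3077048250) (nat_lit 76) (nat_lit 16263516291) (nat_lit 210) (nat_lit 5) (nat_lit 217) (nat_lit 5) (nat_lit 211) (nat_lit 5) (nat_lit 487) (nat_lit 451) (nat_lit 262)))) (XT.nd (nat_lit 156) (nat_lit 532) (nat_lit 0) (XT.nd (nat_lit 78) (nat_lit 380) (nat_lit 0) (XT.lf (nat_lit 0) (nat_lit 16021732599) (nat_lit 456) (nat_lit 3051096608) (nat_lit 532) (nat_lit 14301885314) (nat_lit 204) (nat_lit 5) (nat_lit 210) (nat_lit 5) (nat_lit 211) (nat_lit 5) (nat_lit 488) (nat_lit 451) (nat_lit 261)) (XT.lf (nat_lit 0) (nat_lit 1718318938) (nat_lit 380) (nat_lit 23282795429) (nat_lit 456) (nat_lit 8958603397) (nat_lit 199) (nat_lit 5) (nat_lit 204) (nat_lit 5) (nat_lit 205) (nat_lit 5) (nat_lit 489) (nat_lit 451) (nat_lit 260))) (XT.nd (nat_lit 78) (nat_lit 532) (nat_lit 0) (XT.lf (nat_lit 0) (nat_lit 21682717632) (nat_lit 380) (nat_lit 9626590221) (nat_lit 456) (nat_lit 3246901780)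 (nat_lit 199) (nat_lit 5) (nat_lit 204) (nat_lit 5) (nat_lit 205) (nat_lit 5) (nat_lit 490) (nat_lit 451) (nat_lit 259)) (XT.lf (nat_lit 0) (nat_lit 2694366237) (nat_lit 532) (nat_lit 28025004825) (nat_lit 76) (nat_lit 4447175604) (nat_lit 192) (nat_lit 5) (nat_lit 199) (nat_lit 5) (nat_lit 193) (nat_lit 5) (nat_lit 491) (nat_lit 451) (nat_lit 258))))))) (XT.nd (nat_lit 1170) (nat_lit 2736) (nat_lit 0) (XT.nd (nat_lit 546) (nat_lit 1368) (nat_lit 0) (XT.nd (nat_lit 234) (nat_lit 1140) (nat_lit 0) (XT.nd (nat_lit 78) (nat_lit 380) (nat_lit 0) (XT.lf (nat_lit 0) (nat_lit 8972228028) (nat_lit 532) (nat_lit 7903059098) (nat_lit 76) (nat_lit 18912234096) (nat_lit 192) (nat_lit 5) (nat_lit 199) (nat_lit 5) (nat_lit 193) (nat_lit 5) (nat_lit 492) (nat_lit 451) (nat_lit 257)) (XT.nd (nat_lit 78) (nat_lit 0) (nat_lit 0) (XT.lf (nat_lit 0) (nat_lit 13073838952) (nat_lit 380) (nat_lit 2487365645) (nat_lit 456) (nat_lit 20862237335)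 (nat_lit 187) (nat_lit 5) (nat_lit 192) (nat_lit 5) (nat_lit 193) (nat_lit 5) (nat_lit 493) (nat_lit 451) (nat_lit 256)) (XT.lf (nat_lit 0) (nat_lit 22544134683) (nat_lit 456) (nat_lit 2357194836) (nat_lit 76) (nat_lit 12171222495) (nat_lit 187) (nat_lit 5) (nat_lit 193) (nat_lit 5) (nat_lit 188) (nat_lit 5) (nat_lit 494) (nat_lit 451) (nat_lit 255)))) (XT.nd (nat_lit 156) (nat_lit 456) (nat_lit 0) (XT.nd (nat_lit 78) (nat_lit 304) (nat_lit 0) (XT.lf (nat_lit 0) (nat_lit 19619453993) (nat_lit 380) (nat_lit 10327547512) (nat_lit 456) (nat_lit 7787820697) (nat_lit 182) (nat_lit 5) (nat_lit 187) (nat_lit 5) (nat_lit 188) (nat_lit 5) (nat_lit 495) (nat_lit 451) (nat_lit 254)) (XT.lf (nat_lit 0) (nat_lit 3914826351) (nat_lit 304) (nat_lit 33761081416) (nat_lit 380) (nat_lit 737934387) (nat_lit 178) (nat_lit 5) (nat_lit 182) (nat_lit 5) (nat_lit 183) (nat_lit 5) (nat_lit 496) (nat_lit 451) (nat_lit 253))) (XT.nd (nat_lit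 78) (nat_lit 380) (nat_lit 0) (XT.lf (nat_lit 0) (nat_lit 6680425976) (nat_lit 380) (nat_lit 12301045788) (nat_lit 76) (nat_lit 20121351762) (nat_lit 177) (nat_lit 5) (nat_lit 182) (nat_lit 5) (nat_lit 178) (nat_lit 5) (nat_lit 497) (nat_lit 451) (nat_lit 252)) (XT.lf (nat_lit 0) (nat_lit 10761867114) (nat_lit 380) (nat_lit 3645446781) (nat_lit 456) (nat_lit 25401917240) (nat_lit 172) (nat_lit 5) (nat_lit 177) (nat_lit 5) (nat_lit 178) (nat_lit 5) (nat_lit 498) (nat_lit 451) (nat_lit 251))))) (XT.nd (nat_lit 312) (nat_lit 684) (nat_lit 0) (XT.nd (nat_lit 156) (nat_lit 380) (nat_lit 0) (XT.nd (nat_lit 78) (nat_lit 304) (nat_lit 0) (XT.lf (nat_lit 0) (nat_lit 22605644789) (nat_lit 456) (nat_lit 5886031699) (nat_lit 76) (nat_lit 12037965626) (nat_lit 172) (nat_lit 5) (nat_lit 178) (nat_lit 5) (nat_lit 173) (nat_lit 5) (nat_lit 499) (nat_lit 451) (nat_lit 250)) (XT.lf (nat_lit 0) (nat_lit 18287281706) (nat_lit 304)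 (nat_lit 12971992442) (nat_lit 380) (nat_lit 10006111043) (nat_lit 168) (nat_lit 5) (nat_lit 172) (nat_lit 5) (nat_lit 173) (nat_lit 5) (nat_lit 500) (nat_lit 451) (nat_lit 249))) (XT.nd (nat_lit 78) (nat_lit 76) (nat_lit 0) (XT.lf (nat_lit 0) (nat_lit 1276749703) (nat_lit 304) (nat_lit 38994522360) (nat_lit 380) (nat_lit 1748965926) (nat_lit 164) (nat_lit 5) (nat_lit 168) (nat_lit 5) (nat_lit 169) (nat_lit 5) (nat_lit 501) (nat_lit 451) (nat_lit 248)) (XT.lf (nat_lit 0) (nat_lit 6984337472) (nat_lit 380) (nat_lit 16259832270) (nat_lit 76) (nat_lit 19540810310) (nat_lit 163) (nat_lit 5) (nat_lit 168) (nat_lit 5) (nat_lit 164) (nat_lit 5) (nat_lit 502) (nat_lit 451) (nat_lit 247)))) (XT.nd (nat_lit 156) (nat_lit 380) (nat_lit 0) (XT.nd (nat_lit 78) (nat_lit 0) (nat_lit 0) (XT.lf (nat_lit 0) (nat_lit 9115337296) (nat_lit 304) (nat_lit 6914353966) (nat_lit 380) (nat_lit 27539897707) (nat_lit 159) (nat_lit 5) (nat_lit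 163) (nat_lit 5) (nat_lit 164) (nat_lit 5) (nat_lit 503) (nat_lit 451) (nat_lit 246)) (XT.lf (nat_lit 0) (nat_lit 25605047380) (nat_lit 380) (nat_lit 8888158417) (nat_lit 76) (nat_lit 9876771298) (nat_lit 159) (nat_lit 5) (nat_lit 164) (nat_lit 5) (nat_lit 160) (nat_lit 5) (nat_lit 504) (nat_lit 451) (nat_lit 245))) (XT.nd (nat_lit 78) (nat_lit 76) (nat_lit 0) (XT.lf (nat_lit 0) (nat_lit 17718740774) (nat_lit 304) (nat_lit 17985382703) (nat_lit 380) (nat_lit 9483159801) (nat_lit 155) (nat_lit 5) (nat_lit 159) (nat_lit 5) (nat_lit 160) (nat_lit 5) (nat_lit 505) (nat_lit 451) (nat_lit 244)) (XT.lf (nat_lit 0) (nat_lit 163889768) (nat_lit 380) (nat_lit 725486481) (nat_lit 76) (nat_lit 45137060438) (nat_lit 154) (nat_lit 5) (nat_lit 159) (nat_lit 5) (nat_lit 155) (nat_lit 5) (nat_lit 506) (nat_lit 451) (nat_lit 243)))))) (XT.nd (nat_lit 624) (nat_lit 1292) (nat_lit 0) (XT.nd (nat_lit 312) (nat_lit 608) (nat_lit 0) (XT.nd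 (nat_lit 156) (nat_lit 228) (nat_lit 0) (XT.nd (nat_lit 78) (nat_lit 304) (nat_lit 0) (XT.lf (nat_lit 0) (nat_lit 10333721604) (nat_lit 380) (nat_lit 19789971144) (nat_lit 76) (nat_lit 16751536158) (nat_lit 150) (nat_lit 5) (nat_lit 155) (nat_lit 5) (nat_lit 151) (nat_lit 5) (nat_lit 507) (nat_lit 451) (nat_lit 242)) (XT.lf (nat_lit 0) (nat_lit 8142535671) (nat_lit 304) (nat_lit 12758366201) (nat_lit 380) (nat_lit 26845815582) (nat_lit 146) (nat_lit 5) (nat_lit 150) (nat_lit 5) (nat_lit 151) (nat_lit 5) (nat_lit 508) (nat_lit 451) (nat_lit 241))) (XT.nd (nat_lit 78) (nat_lit 228) (nat_lit 0) (XT.lf (nat_lit 0) (nat_lit 32034007880) (nat_lit 380) (nat_lit 11374362412) (nat_lit 76) (nat_lit 5228513219) (nat_lit 146) (nat_lit 5) (nat_lit 151) (nat_lit 5) (nat_lit 147) (nat_lit 5) (nat_lit 509) (nat_lit 451) (nat_lit 240)) (XT.lf (nat_lit 0) (nat_lit 17922433846) (nat_lit 228) (nat_lit 25875138289) (nat_lit 304) (nat_lit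 5747288621) (nat_lit 143) (nat_lit 5) (nat_lit 146) (nat_lit 5) (nat_lit 147) (nat_lit 5) (nat_lit 510) (nat_lit 451) (nat_lit 239)))) (XT.nd (nat_lit 156) (nat_lit 228) (nat_lit 0) (XT.nd (nat_lit 78) (nat_lit 304) (nat_lit 0) (XT.lf (nat_lit 0) (nat_lit 5441798487) (nat_lit 304) (nat_lit 2202044434) (nat_lit 76) (nat_lit 42831251447) (nat_lit 142) (nat_lit 5) (nat_lit 146) (nat_lit 5) (nat_lit 143) (nat_lit 5) (nat_lit 511) (nat_lit 451) (nat_lit 238)) (XT.lf (nat_lit 0) (nat_lit 17234192529) (nat_lit 380) (nat_lit 22934775676) (nat_lit 76) (nat_lit 11251065338) (nat_lit 138) (nat_lit 5) (nat_lit 143) (nat_lit 5) (nat_lit 139) (nat_lit 5) (nat_lit 512) (nat_lit 451) (nat_lit 237))) (XT.nd (nat_lit 78) (nat_lit 0) (nat_lit 0) (XT.lf (nat_lit 0) (nat_lit 7819082616) (nat_lit 228) (nat_lit 21732528434) (nat_lit 304) (nat_lit 22836572403) (nat_lit 135) (nat_lit 5) (nat_lit 138) (nat_lit 5) (nat_lit 139) (nat_lit 5)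 (nat_lit 513) (nat_lit 451) (nat_lit 236)) (XT.lf (nat_lit 0) (nat_lit 39962469768) (nat_lit 228) (nat_lit 2505659975) (nat_lit 304) (nat_lit 10910360926) (nat_lit 135) (nat_lit 5) (nat_lit 138) (nat_lit 5) (nat_lit 139) (nat_lit 5) (nat_lit 514) (nat_lit 451) (nat_lit 235))))) (XT.nd (nat_lit 312) (nat_lit 532) (nat_lit 0) (XT.nd (nat_lit 156) (nat_lit 456) (nat_lit 0) (XT.nd (nat_lit 78) (nat_lit 0) (nat_lit 0) (XT.lf (nat_lit 0) (nat_lit 1695956952) (nat_lit 304) (nat_lit 35534341938) (nat_lit 76) (nat_lit 17157338473) (nat_lit 131) (nat_lit 5) (nat_lit 135) (nat_lit 5) (nat_lit 132) (nat_lit 5) (nat_lit 515) (nat_lit 451) (nat_lit 234)) (XT.lf (nat_lit 0) (nat_lit 14620838904) (nat_lit 304) (nat_lit 3194649875) (nat_lit 76) (nat_lit 37603539242) (nat_lit 131) (nat_lit 5) (nat_lit 135) (nat_lit 5) (nat_lit 132) (nat_lit 5) (nat_lit 516) (nat_lit 451) (nat_lit 233))) (XT.nd (nat_lit 78) (nat_lit 228) (nat_lit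 0) (XT.lf (nat_lit 0) (nat_lit 28250662126) (nat_lit 304) (nat_lit 25785017736) (nat_lit 76) (nat_lit 2436164814) (nat_lit 128) (nat_lit 5) (nat_lit 132) (nat_lit 5) (nat_lit 129) (nat_lit 5) (nat_lit 517) (nat_lit 451) (nat_lit 232)) (XT.lf (nat_lit 0) (nat_lit 8072662698) (nat_lit 228) (nat_lit 34501395266) (nat_lit 304) (nat_lit 14973647646) (nat_lit 125) (nat_lit 5) (nat_lit 128) (nat_lit 5) (nat_lit 129) (nat_lit 5) (nat_lit 518) (nat_lit 451) (nat_lit 231)))) (XT.nd (nat_lit 156) (nat_lit 228) (nat_lit 0) (XT.nd (nat_lit 78) (nat_lit 304) (nat_lit 0) (XT.lf (nat_lit 0) (nat_lit 43471560772) (nat_lit 228) (nat_lit 14114106978) (nat_lit 304) (nat_lit 1062419376) (nat_lit 125) (nat_lit 5) (nat_lit 128) (nat_lit 5) (nat_lit 129) (nat_lit 5) (nat_lit 519) (nat_lit 451) (nat_lit 230)) (XT.lf (nat_lit 0) (nat_lit 13271099450) (nat_lit 304) (nat_lit 39422355042) (nat_lit 76) (nat_lit 7076285311) (nat_lit 121) (nat_lit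 5) (nat_lit 125) (nat_lit 5) (nat_lit 122) (nat_lit 5) (nat_lit 520) (nat_lit 451) (nat_lit 229))) (XT.nd (nat_lit 78) (nat_lit 228) (nat_lit 0) (XT.lf (nat_lit 0) (nat_lit 28305967690) (nat_lit 304) (nat_lit 3827147626) (nat_lit 76) (nat_lit 28782830359) (nat_lit 121) (nat_lit 5) (nat_lit 125) (nat_lit 5) (nat_lit 122) (nat_lit 5) (nat_lit 521) (nat_lit 451) (nat_lit 228)) (XT.lf (nat_lit 0) (nat_lit 33486404644) (nat_lit 228) (nat_lit 10625605327) (nat_lit 304) (nat_lit 17974924012) (nat_lit 118) (nat_lit 5) (nat_lit 121) (nat_lit 5) (nat_lit 122) (nat_lit 5) (nat_lit 522) (nat_lit 451) (nat_lit 227))))))))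
noncomputable def xc202 : XT := (XT.nd (nat_lit 57486) (nat_lit 0) (nat_lit 9272) (XT.nd (nat_lit 1170) (nat_lit 912) (nat_lit 0) (XT.nd (nat_lit 546) (nat_lit 912) (nat_lit 0) (XT.nd (nat_lit 234) (nat_lit 456) (nat_lit 0) (XT.nd (nat_lit 78) (nat_lit 304) (nat_lit 0) (XT.lf (nat_lit 0) (nat_lit 8762764604) (nat_lit 152) (nat_lit 51861785226) (nat_lit 228) (nat_lit 2661532720) (nat_lit 116) (nat_lit 5) (nat_lit 118) (nat_lit 5) (nat_lit 119) (nat_lit 5) (nat_lit 523) (nat_lit 451) (nat_lit 226)) (XT.nd (nat_lit 78) (nat_lit 228) (nat_lit 0) (XT.lf (nat_lit 0) (nat_lit 13250538878) (nat_lit 228) (nat_lit 16916367621) (nat_lit 76) (nat_lit 34338664370) (nat_lit 115) (nat_lit 5) (nat_lit 118) (nat_lit 5) (nat_lit 116) (nat_lit 5) (nat_lit 524) (nat_lit 451) (nat_lit 225)) (XT.lf (nat_lit 0) (nat_lit 22223211254) (nat_lit 228) (nat_lit 7575194866) (nat_lit 304) (nat_lit 35956089422) (nat_lit 112) (nat_lit 5) (nat_lit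 115) (nat_lit 5) (nat_lit 116) (nat_lit 5) (nat_lit 525) (nat_lit 451) (nat_lit 224)))) (XT.nd (nat_lit 156) (nat_lit 304) (nat_lit 0) (XT.nd (nat_lit 78) (nat_lit 152) (nat_lit 0) (XT.lf (nat_lit 0) (nat_lit 47164400892) (nat_lit 304) (nat_lit 4307464776) (nat_lit 76) (nat_lit 15559371630) (nat_lit 112) (nat_lit 5) (nat_lit 116) (nat_lit 5) (nat_lit 113) (nat_lit 5) (nat_lit 526) (nat_lit 451) (nat_lit 223)) (XT.lf (nat_lit 0) (nat_lit 36732032207) (nat_lit 152) (nat_lit 28745800217) (nat_lit 228) (nat_lit 2855655261) (nat_lit 110) (nat_lit 5) (nat_lit 112) (nat_lit 5) (nat_lit 113) (nat_lit 5) (nat_lit 527) (nat_lit 451) (nat_lit 222))) (XT.nd (nat_lit 78) (nat_lit 0) (nat_lit 0) (XT.lf (nat_lit 0) (nat_lit 9457846558) (nat_lit 228) (nat_lit 5055042257) (nat_lit 304) (nat_lit 55153691192) (nat_lit 106) (nat_lit 5) (nat_lit 109) (nat_lit 5) (nat_lit 110) (nat_lit 5) (nat_lit 528) (nat_lit 451) (nat_lit 221)) (XT.lf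 (nat_lit 0) (nat_lit 32851713905) (nat_lit 304) (nat_lit 18853592266) (nat_lit 76) (nat_lit 19318312176) (nat_lit 106) (nat_lit 5) (nat_lit 110) (nat_lit 5) (nat_lit 107) (nat_lit 5) (nat_lit 529) (nat_lit 451) (nat_lit 220))))) (XT.nd (nat_lit 312) (nat_lit 380) (nat_lit 0) (XT.nd (nat_lit 156) (nat_lit 380) (nat_lit 0) (XT.nd (nat_lit 78) (nat_lit 0) (nat_lit 0) (XT.lf (nat_lit 0) (nat_lit 24160877306) (nat_lit 152) (nat_lit 27860551188) (nat_lit 228) (nat_lit 20391517675) (nat_lit 104) (nat_lit 5) (nat_lit 106) (nat_lit 5) (nat_lit 107) (nat_lit 5) (nat_lit 530) (nat_lit 451) (nat_lit 219)) (XT.lf (nat_lit 0) (nat_lit 68849546341) (nat_lit 152) (nat_lit 3105517944) (nat_lit 228) (nat_lit 1883224723) (nat_lit 104) (nat_lit 5) (nat_lit 106) (nat_lit 5) (nat_lit 107) (nat_lit 5) (nat_lit 531) (nat_lit 451) (nat_lit 218))) (XT.nd (nat_lit 78) (nat_lit 152) (nat_lit 0) (XT.lf (nat_lit 0) (nat_lit 17450559458) (nat_lit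 228) (nat_lit 35321690527) (nat_lit 76) (nat_lit 22511023014) (nat_lit 101) (nat_lit 5) (nat_lit 104) (nat_lit 5) (nat_lit 102) (nat_lit 5) (nat_lit 532) (nat_lit 451) (nat_lit 217)) (XT.lf (nat_lit 0) (nat_lit 9729885022) (nat_lit 152) (nat_lit 27770257622) (nat_lit 228) (nat_lit 39265695467) (nat_lit 99) (nat_lit 5) (nat_lit 101) (nat_lit 5) (nat_lit 102) (nat_lit 5) (nat_lit 533) (nat_lit 451) (nat_lit 216)))) (XT.nd (nat_lit 156) (nat_lit 152) (nat_lit 0) (XT.nd (nat_lit 78) (nat_lit 228) (nat_lit 0) (XT.lf (nat_lit 0) (nat_lit 56854419788) (nat_lit 152) (nat_lit 1651975887) (nat_lit 228) (nat_lit 19775829096) (nat_lit 99) (nat_lit 5) (nat_lit 101) (nat_lit 5) (nat_lit 102) (nat_lit 5) (nat_lit 534) (nat_lit 451) (nat_lit 215)) (XT.lf (nat_lit 0) (nat_lit 787072326) (nat_lit 228) (nat_lit 54030288529) (nat_lit 76) (nat_lit 25011831035) (nat_lit 96) (nat_lit 5) (nat_lit 99) (nat_lit 5) (nat_lit 97) (nat_lit 5)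 (nat_lit 535) (nat_lit 451) (nat_lit 214))) (XT.nd (nat_lit 78) (nat_lit 152) (nat_lit 0) (XT.lf (nat_lit 0) (nat_lit 21802802482) (nat_lit 228) (nat_lit 6751321056) (nat_lit 76) (nat_lit 52855568048) (nat_lit 96) (nat_lit 5) (nat_lit 99) (nat_lit 5) (nat_lit 97) (nat_lit 5) (nat_lit 536) (nat_lit 451) (nat_lit 213)) (XT.lf (nat_lit 0) (nat_lit 42778241457) (nat_lit 152) (nat_lit 1080555165) (nat_lit 228) (nat_lit 39166515947) (nat_lit 94) (nat_lit 5) (nat_lit 96) (nat_lit 5) (nat_lit 97) (nat_lit 5) (nat_lit 537) (nat_lit 451) (nat_lit 212)))))) (XT.nd (nat_lit 546) (nat_lit 152) (nat_lit 0) (XT.nd (nat_lit 234) (nat_lit 380) (nat_lit 0) (XT.nd (nat_lit 78) (nat_lit 228) (nat_lit 0) (XT.lf (nat_lit 0) (nat_lit 9158604975) (nat_lit 152) (nat_lit 57834970452) (nat_lit 228) (nat_lit 17683313665) (nat_lit 92) (nat_lit 5) (nat_lit 94) (nat_lit 5) (nat_lit 95) (nat_lit 5) (nat_lit 538) (nat_lit 451) (nat_lit 211)) (XT.nd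 (nat_lit 78) (nat_lit 152) (nat_lit 0) (XT.lf (nat_lit 0) (nat_lit 4777388875) (nat_lit 228) (nat_lit 25554329618) (nat_lit 76) (nat_lit 56032420902) (nat_lit 91) (nat_lit 5) (nat_lit 94) (nat_lit 5) (nat_lit 92) (nat_lit 5) (nat_lit 539) (nat_lit 451) (nat_lit 210)) (XT.lf (nat_lit 0) (nat_lit 26243091042) (nat_lit 152) (nat_lit 1564301182) (nat_lit 228) (nat_lit 60281835661) (nat_lit 89) (nat_lit 5) (nat_lit 91) (nat_lit 5) (nat_lit 92) (nat_lit 5) (nat_lit 540) (nat_lit 451) (nat_lit 209)))) (XT.nd (nat_lit 156) (nat_lit 228) (nat_lit 0) (XT.nd (nat_lit 78) (nat_lit 152) (nat_lit 0) (XT.lf (nat_lit 0) (nat_lit 52057326170) (nat_lit 228) (nat_lit 10014871674) (nat_lit 76) (nat_lit 27778000319) (nat_lit 89) (nat_lit 5) (nat_lit 92) (nat_lit 5) (nat_lit 90) (nat_lit 5) (nat_lit 541) (nat_lit 451) (nat_lit 208)) (XT.lf (nat_lit 0) (nat_lit 44216260561) (nat_lit 152) (nat_lit 33257697161) (nat_lit 228) (nat_lit 14176863889)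 (nat_lit 87) (nat_lit 5) (nat_lit 89) (nat_lit 5) (nat_lit 90) (nat_lit 5) (nat_lit 542) (nat_lit 451) (nat_lit 207))) (XT.nd (nat_lit 78) (nat_lit 0) (nat_lit 0) (XT.lf (nat_lit 0) (nat_lit 6809111769) (nat_lit 152) (nat_lit 3306761577) (nat_lit 228) (nat_lit 83381676139) (nat_lit 84) (nat_lit 5) (nat_lit 86) (nat_lit 5) (nat_lit 87) (nat_lit 5) (nat_lit 543) (nat_lit 451) (nat_lit 206)) (XT.lf (nat_lit 0) (nat_lit 35599633259) (nat_lit 228) (nat_lit 32145126648) (nat_lit 76) (nat_lit 27628292939) (nat_lit 84) (nat_lit 5) (nat_lit 87) (nat_lit 5) (nat_lit 85) (nat_lit 5) (nat_lit 544) (nat_lit 451) (nat_lit 205))))) (XT.nd (nat_lit 55458) (nat_lit 0) (nat_lit 16112) (XT.nd (nat_lit 55302) (nat_lit 0) (nat_lit 16036) (XT.nd (nat_lit 55224) (nat_lit 0) (nat_lit 16036) (XT.lf (nat_lit 0) (nat_lit 24477039640) (nat_lit 152) (nat_lit 37637618697) (nat_lit 228) (nat_lit 35182160442) (nat_lit 82) (nat_lit 5) (nat_lit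 84) (nat_lit 5) (nat_lit 85) (nat_lit 5) (nat_lit 545) (nat_lit 451) (nat_lit 204)) (XT.lf (nat_lit 0) (nat_lit 2634572452) (nat_lit 1292) (nat_lit 3436958539) (nat_lit 1292) (nat_lit 3436958539) (nat_lit 293) (nat_lit 3) (nat_lit 310) (nat_lit 3) (nat_lit 310) (nat_lit 5) (nat_lit 452) (nat_lit 452) (nat_lit 296))) (XT.nd (nat_lit 78) (nat_lit 0) (nat_lit 76) (XT.lf (nat_lit 76) (nat_lit 2570586355) (nat_lit 0) (nat_lit 2984342593) (nat_lit 1292) (nat_lit 13741077088) (nat_lit 294) (nat_lit 5) (nat_lit 293) (nat_lit 3) (nat_lit 310) (nat_lit 5) (nat_lit 453) (nat_lit 452) (nat_lit 295)) (XT.lf (nat_lit 0) (nat_lit 5974272418) (nat_lit 1216) (nat_lit 7208648331) (nat_lit 1292) (nat_lit 6396734480) (nat_lit 294) (nat_lit 5) (nat_lit 310) (nat_lit 5) (nat_lit 311) (nat_lit 5) (nat_lit 454) (nat_lit 452) (nat_lit 294)))) (XT.nd (nat_lit 156) (nat_lit 0) (nat_lit 76) (XT.nd (nat_lit 78) (nat_lit 0) (nat_lit 76) (XT.lf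 (nat_lit 76) (nat_lit 2611167380) (nat_lit 0) (nat_lit 3842776409) (nat_lit 1292) (nat_lit 13416438639) (nat_lit 295) (nat_lit 5) (nat_lit 294) (nat_lit 5) (nat_lit 311) (nat_lit 5) (nat_lit 455) (nat_lit 452) (nat_lit 293)) (XT.lf (nat_lit 0) (nat_lit 7070348490) (nat_lit 1216) (nat_lit 7354615368) (nat_lit 1292) (nat_lit 5741198221) (nat_lit 295) (nat_lit 5) (nat_lit 311) (nat_lit 5) (nat_lit 312) (nat_lit 5) (nat_lit 456) (nat_lit 452) (nat_lit 292))) (XT.nd (nat_lit 78) (nat_lit 0) (nat_lit 76) (XT.lf (nat_lit 76) (nat_lit 2860963666) (nat_lit 0) (nat_lit 4903317369) (nat_lit 1292) (nat_lit 12704763917) (nat_lit 296) (nat_lit 5) (nat_lit 295) (nat_lit 5) (nat_lit 312) (nat_lit 5) (nat_lit 457) (nat_lit 452) (nat_lit 291)) (XT.lf (nat_lit 0) (nat_lit 8594837043) (nat_lit 1216) (nat_lit 7297004962) (nat_lit 1292) (nat_lit 4885699019) (nat_lit 296) (nat_lit 5) (nat_lit 312) (nat_lit 5) (nat_lit 313) (nat_lit 5)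 (nat_lit 458) (nat_lit 452) (nat_lit 290))))))) (XT.nd (nat_lit 1170) (nat_lit 4712) (nat_lit 0) (XT.nd (nat_lit 546) (nat_lit 2280) (nat_lit 0) (XT.nd (nat_lit 234) (nat_lit 0) (nat_lit 152) (XT.nd (nat_lit 78) (nat_lit 0) (nat_lit 76) (XT.lf (nat_lit 76) (nat_lit 3335956578) (nat_lit 0) (nat_lit 6188815611) (nat_lit 1292) (nat_lit 11568286767) (nat_lit 297) (nat_lit 5) (nat_lit 296) (nat_lit 5) (nat_lit 313) (nat_lit 5) (nat_lit 459) (nat_lit 452) (nat_lit 289)) (XT.nd (nat_lit 78) (nat_lit 0) (nat_lit 0) (XT.lf (nat_lit 0) (nat_lit 10587607700) (nat_lit 1216) (nat_lit 7019809542) (nat_lit 1292) (nat_lit 3807475943) (nat_lit 297) (nat_lit 5) (nat_lit 313) (nat_lit 5) (nat_lit 314) (nat_lit 5) (nat_lit 460) (nat_lit 452) (nat_lit 288)) (XT.lf (nat_lit 76) (nat_lit 4053386293) (nat_lit 0) (nat_lit 7723363946) (nat_lit 1292) (nat_lit 9966800344) (nat_lit 298) (nat_lit 5) (nat_lit 297) (nat_lit 5) (nat_lit 314) (nat_lit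 5) (nat_lit 461) (nat_lit 452) (nat_lit 287)))) (XT.nd (nat_lit 156) (nat_lit 0) (nat_lit 76) (XT.nd (nat_lit 78) (nat_lit 0) (nat_lit 0) (XT.lf (nat_lit 0) (nat_lit 13091105604) (nat_lit 1216) (nat_lit 6505770532) (nat_lit 1292) (nat_lit 2482506192) (nat_lit 298) (nat_lit 5) (nat_lit 314) (nat_lit 5) (nat_lit 315) (nat_lit 5) (nat_lit 462) (nat_lit 452) (nat_lit 286)) (XT.lf (nat_lit 76) (nat_lit 5031812175) (nat_lit 0) (nat_lit 9532412579) (nat_lit 1292) (nat_lit 7857485034) (nat_lit 299) (nat_lit 5) (nat_lit 298) (nat_lit 5) (nat_lit 315) (nat_lit 5) (nat_lit 463) (nat_lit 452) (nat_lit 285))) (XT.nd (nat_lit 78) (nat_lit 0) (nat_lit 0) (XT.lf (nat_lit 0) (nat_lit 16150530282) (nat_lit 1216) (nat_lit 5736317311) (nat_lit 1292) (nat_lit 885390430) (nat_lit 299) (nat_lit 5) (nat_lit 315) (nat_lit 5) (nat_lit 316) (nat_lit 5) (nat_lit 464) (nat_lit 452) (nat_lit 284)) (XT.lf (nat_lit 76) (nat_lit 6291177728) (nat_lit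 0) (nat_lit 11642888677) (nat_lit 1292) (nat_lit 5194727170) (nat_lit 300) (nat_lit 5) (nat_lit 299) (nat_lit 5) (nat_lit 316) (nat_lit 5) (nat_lit 465) (nat_lit 452) (nat_lit 283))))) (XT.nd (nat_lit 312) (nat_lit 1368) (nat_lit 0) (XT.nd (nat_lit 156) (nat_lit 1140) (nat_lit 0) (XT.nd (nat_lit 78) (nat_lit 0) (nat_lit 76) (XT.lf (nat_lit 76) (nat_lit 18793050573) (nat_lit 0) (nat_lit 1030883111) (nat_lit 1292) (nat_lit 3670528051) (nat_lit 300) (nat_lit 5) (nat_lit 299) (nat_lit 5) (nat_lit 316) (nat_lit 5) (nat_lit 466) (nat_lit 452) (nat_lit 282)) (XT.lf (nat_lit 76) (nat_lit 7852880218) (nat_lit 0) (nat_lit 14083321341) (nat_lit 1292) (nat_lit 1929927914) (nat_lit 301) (nat_lit 5) (nat_lit 300) (nat_lit 5) (nat_lit 317) (nat_lit 5) (nat_lit 467) (nat_lit 452) (nat_lit 281))) (XT.nd (nat_lit 78) (nat_lit 1216) (nat_lit 0) (XT.lf (nat_lit 76) (nat_lit 20865727196) (nat_lit 0) (nat_lit 3298855143) (nat_lit 1292)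 (nat_lit 82783213) (nat_lit 301) (nat_lit 5) (nat_lit 300) (nat_lit 5) (nat_lit 317) (nat_lit 5) (nat_lit 468) (nat_lit 452) (nat_lit 280)) (XT.lf (nat_lit 0) (nat_lit 1949891725) (nat_lit 1292) (nat_lit 14914390729) (nat_lit 76) (nat_lit 7770263302) (nat_lit 284) (nat_lit 5) (nat_lit 301) (nat_lit 5) (nat_lit 285) (nat_lit 5) (nat_lit 469) (nat_lit 452) (nat_lit 279)))) (XT.nd (nat_lit 156) (nat_lit 608) (nat_lit 0) (XT.nd (nat_lit 78) (nat_lit 760) (nat_lit 0) (XT.lf (nat_lit 0) (nat_lit 4104394247) (nat_lit 1292) (nat_lit 1785936036) (nat_lit 76) (nat_lit 19141111756) (nat_lit 284) (nat_lit 5) (nat_lit 301) (nat_lit 5) (nat_lit 285) (nat_lit 5) (nat_lit 470) (nat_lit 452) (nat_lit 278)) (XT.lf (nat_lit 0) (nat_lit 6487228568) (nat_lit 836) (nat_lit 13524237723) (nat_lit 76) (nat_lit 5423868598) (nat_lit 274) (nat_lit 5) (nat_lit 285) (nat_lit 5) (nat_lit 275) (nat_lit 5) (nat_lit 471) (nat_lit 452) (nat_lit 277)))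 (XT.nd (nat_lit 78) (nat_lit 0) (nat_lit 0) (XT.lf (nat_lit 0) (nat_lit 145080446) (nat_lit 608) (nat_lit 8869990800) (nat_lit 684) (nat_lit 16834068141) (nat_lit 266) (nat_lit 5) (nat_lit 274) (nat_lit 5) (nat_lit 275) (nat_lit 5) (nat_lit 472) (nat_lit 452) (nat_lit 276)) (XT.lf (nat_lit 0) (nat_lit 11777404842) (nat_lit 684) (nat_lit 11800141229) (nat_lit 76) (nat_lit 2693052827) (nat_lit 266) (nat_lit 5) (nat_lit 275) (nat_lit 5) (nat_lit 267) (nat_lit 5) (nat_lit 473) (nat_lit 452) (nat_lit 275)))))) (XT.nd (nat_lit 624) (nat_lit 2432) (nat_lit 0) (XT.nd (nat_lit 312) (nat_lit 1140) (nat_lit 0) (XT.nd (nat_lit 156) (nat_lit 532) (nat_lit 0) (XT.nd (nat_lit 78) (nat_lit 0) (nat_lit 0) (XT.lf (nat_lit 0) (nat_lit 2477344320) (nat_lit 608) (nat_lit 12252712508) (nat_lit 684) (nat_lit 11971422446) (nat_lit 258) (nat_lit 5) (nat_lit 266) (nat_lit 5) (nat_lit 267) (nat_lit 5) (nat_lit 474) (nat_lit 452) (nat_lit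 274)) (XT.lf (nat_lit 0) (nat_lit 17421015752) (nat_lit 608) (nat_lit 465327068) (nat_lit 684) (nat_lit 9255492124) (nat_lit 258) (nat_lit 5) (nat_lit 266) (nat_lit 5) (nat_lit 267) (nat_lit 5) (nat_lit 475) (nat_lit 452) (nat_lit 273))) (XT.nd (nat_lit 78) (nat_lit 0) (nat_lit 0) (XT.lf (nat_lit 0) (nat_lit 5202855360) (nat_lit 532) (nat_lit 16092725214) (nat_lit 608) (nat_lit 6295073315) (nat_lit 251) (nat_lit 5) (nat_lit 258) (nat_lit 5) (nat_lit 259) (nat_lit 5) (nat_lit 476) (nat_lit 452) (nat_lit 272)) (XT.lf (nat_lit 0) (nat_lit 20764814713) (nat_lit 532) (nat_lit 4141098003) (nat_lit 608) (nat_lit 3144060653) (nat_lit 251) (nat_lit 5) (nat_lit 258) (nat_lit 5) (nat_lit 259) (nat_lit 5) (nat_lit 477) (nat_lit 452) (nat_lit 271)))) (XT.nd (nat_lit 156) (nat_lit 532) (nat_lit 0) (XT.nd (nat_lit 78) (nat_lit 0) (nat_lit 0) (XT.lf (nat_lit 0) (nat_lit 256044440) (nat_lit 608) (nat_lit 20169931455) (nat_lit 76)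 (nat_lit 8092371462) (nat_lit 243) (nat_lit 5) (nat_lit 251) (nat_lit 5) (nat_lit 244) (nat_lit 5) (nat_lit 478) (nat_lit 452) (nat_lit 270)) (XT.lf (nat_lit 0) (nat_lit 3806497507) (nat_lit 608) (nat_lit 4475114948) (nat_lit 76) (nat_lit 20714880554) (nat_lit 243) (nat_lit 5) (nat_lit 251) (nat_lit 5) (nat_lit 244) (nat_lit 5) (nat_lit 479) (nat_lit 452) (nat_lit 269))) (XT.nd (nat_lit 78) (nat_lit 0) (nat_lit 0) (XT.lf (nat_lit 0) (nat_lit 7616155837) (nat_lit 608) (nat_lit 17608197548) (nat_lit 76) (nat_lit 4260049330) (nat_lit 236) (nat_lit 5) (nat_lit 244) (nat_lit 5) (nat_lit 237) (nat_lit 5) (nat_lit 480) (nat_lit 452) (nat_lit 268)) (XT.lf (nat_lit 0) (nat_lit 11664155247) (nat_lit 608) (nat_lit 1262213624) (nat_lit 76) (nat_lit 17056859718) (nat_lit 236) (nat_lit 5) (nat_lit 244) (nat_lit 5) (nat_lit 237) (nat_lit 5) (nat_lit 481) (nat_lit 452) (nat_lit 267))))) (XT.nd (nat_lit 312) (nat_lit 988) (nat_lit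 0) (XT.nd (nat_lit 156) (nat_lit 456) (nat_lit 0) (XT.nd (nat_lit 78) (nat_lit 456) (nat_lit 0) (XT.lf (nat_lit 0) (nat_lit 15880168541) (nat_lit 532) (nat_lit 102598184) (nat_lit 608) (nat_lit 14509777759) (nat_lit 229) (nat_lit 5) (nat_lit 236) (nat_lit 5) (nat_lit 237) (nat_lit 5) (nat_lit 482) (nat_lit 452) (nat_lit 266)) (XT.lf (nat_lit 0) (nat_lit 2463990606) (nat_lit 456) (nat_lit 18126068001) (nat_lit 532) (nat_lit 10422307982) (nat_lit 223) (nat_lit 5) (nat_lit 229) (nat_lit 5) (nat_lit 230) (nat_lit 5) (nat_lit 483) (nat_lit 452) (nat_lit 265))) (XT.nd (nat_lit 78) (nat_lit 456) (nat_lit 0) (XT.lf (nat_lit 0) (nat_lit 20347268370) (nat_lit 456) (nat_lit 5133508092) (nat_lit 532) (nat_lit 6062651062) (nat_lit 223) (nat_lit 5) (nat_lit 229) (nat_lit 5) (nat_lit 230) (nat_lit 5) (nat_lit 484) (nat_lit 452) (nat_lit 264)) (XT.lf (nat_lit 0) (nat_lit 6724691152) (nat_lit 456) (nat_lit 23934197131) (nat_lit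 532) (nat_lit 1427312205) (nat_lit 217) (nat_lit 5) (nat_lit 223) (nat_lit 5) (nat_lit 224) (nat_lit 5) (nat_lit 485) (nat_lit 452) (nat_lit 263)))) (XT.nd (nat_lit 156) (nat_lit 456) (nat_lit 0) (XT.nd (nat_lit 78) (nat_lit 456) (nat_lit 0) (XT.lf (nat_lit 0) (nat_lit 3443542528) (nat_lit 532) (nat_lit 7317198130) (nat_lit 76) (nat_lit 21878698022) (nat_lit 216) (nat_lit 5) (nat_lit 223) (nat_lit 5) (nat_lit 217) (nat_lit 5) (nat_lit 486) (nat_lit 452) (nat_lit 262)) (XT.lf (nat_lit 0) (nat_lit 8567210238) (nat_lit 532) (nat_lit 21759411477) (nat_lit 76) (nat_lit 2878167442) (nat_lit 210) (nat_lit 5) (nat_lit 217) (nat_lit 5) (nat_lit 211) (nat_lit 5) (nat_lit 487) (nat_lit 452) (nat_lit 261))) (XT.nd (nat_lit 78) (nat_lit 456) (nat_lit 0) (XT.lf (nat_lit 0) (nat_lit 14022658394) (nat_lit 532) (nat_lit 2975157250) (nat_lit 76) (nat_lit 16783942725) (nat_lit 210) (nat_lit 5) (nat_lit 217) (nat_lit 5) (nat_lit 211)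 (nat_lit 5) (nat_lit 488) (nat_lit 452) (nat_lit 260)) (XT.lf (nat_lit 0) (nat_lit 16694683079) (nat_lit 456) (nat_lit 3104563989) (nat_lit 532) (nat_lit 14572065596) (nat_lit 204) (nat_lit 5) (nat_lit 210) (nat_lit 5) (nat_lit 211) (nat_lit 5) (nat_lit 489) (nat_lit 452) (nat_lit 259))))))))
noncomputable def xc203 : XT := (XT.nd (nat_lit 2340) (nat_lit 3116) (nat_lit 0) (XT.nd (nat_lit 1170) (nat_lit 2584) (nat_lit 0) (XT.nd (nat_lit 546) (nat_lit 1748) (nat_lit 0) (XT.nd (nat_lit 234) (nat_lit 760) (nat_lit 0) (XT.nd (nat_lit 78) (nat_lit 532) (nat_lit 0) (XT.lf (nat_lit 0) (nat_lit 1964517177) (nat_lit 380) (nat_lit 23938597717) (nat_lit 456) (nat_lit 9070819562) (nat_lit 199) (nat_lit 5) (nat_lit 204) (nat_lit 5) (nat_lit 205) (nat_lit 5) (nat_lit 490) (nat_lit 452) (nat_lit 258)) (XT.nd (nat_lit 78) (nat_lit 532) (nat_lit 0) (XT.lf (nat_lit 0) (nat_lit 22522178452) (nat_lit 380) (nat_lit 9873949506) (nat_lit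 456) (nat_lit 3192326371) (nat_lit 199) (nat_lit 5) (nat_lit 204) (nat_lit 5) (nat_lit 205) (nat_lit 5) (nat_lit 491) (nat_lit 452) (nat_lit 257)) (XT.lf (nat_lit 0) (nat_lit 2922119678) (nat_lit 532) (nat_lit 28671686265) (nat_lit 76) (nat_lit 4623314965) (nat_lit 192) (nat_lit 5) (nat_lit 199) (nat_lit 5) (nat_lit 193) (nat_lit 5) (nat_lit 492) (nat_lit 452) (nat_lit 256)))) (XT.nd (nat_lit 156) (nat_lit 380) (nat_lit 0) (XT.nd (nat_lit 78) (nat_lit 380) (nat_lit 0) (XT.lf (nat_lit 0) (nat_lit 9384038028) (nat_lit 532) (nat_lit 7951734653) (nat_lit 76) (nat_lit 19521080821) (nat_lit 192) (nat_lit 5) (nat_lit 199) (nat_lit 5) (nat_lit 193) (nat_lit 5) (nat_lit 493) (nat_lit 452) (nat_lit 255)) (XT.lf (nat_lit 0) (nat_lit 13652623121) (nat_lit 380) (nat_lit 2515699533) (nat_lit 456) (nat_lit 21343600425) (nat_lit 187) (nat_lit 5) (nat_lit 192) (nat_lit 5) (nat_lit 193) (nat_lit 5) (nat_lit 494) (nat_lit 452) (nat_lit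 254))) (XT.nd (nat_lit 78) (nat_lit 380) (nat_lit 0) (XT.lf (nat_lit 0) (nat_lit 23357086741) (nat_lit 456) (nat_lit 2243108573) (nat_lit 76) (nat_lit 12580421164) (nat_lit 187) (nat_lit 5) (nat_lit 193) (nat_lit 5) (nat_lit 188) (nat_lit 5) (nat_lit 495) (nat_lit 452) (nat_lit 253)) (XT.lf (nat_lit 0) (nat_lit 20391027936) (nat_lit 380) (nat_lit 10588791191) (nat_lit 456) (nat_lit 7883002645) (nat_lit 182) (nat_lit 5) (nat_lit 187) (nat_lit 5) (nat_lit 188) (nat_lit 5) (nat_lit 496) (nat_lit 452) (nat_lit 252))))) (XT.nd (nat_lit 312) (nat_lit 988) (nat_lit 0) (XT.nd (nat_lit 156) (nat_lit 380) (nat_lit 0) (XT.nd (nat_lit 78) (nat_lit 76) (nat_lit 0) (XT.lf (nat_lit 0) (nat_lit 4217010452) (nat_lit 304) (nat_lit 34721896573) (nat_lit 380) (nat_lit 623356238) (nat_lit 178) (nat_lit 5) (nat_lit 182) (nat_lit 5) (nat_lit 183) (nat_lit 5) (nat_lit 497) (nat_lit 452) (nat_lit 251)) (XT.lf (nat_lit 0) (nat_lit 7010982789)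 (nat_lit 380) (nat_lit 12488116709) (nat_lit 76) (nat_lit 20772892635) (nat_lit 177) (nat_lit 5) (nat_lit 182) (nat_lit 5) (nat_lit 178) (nat_lit 5) (nat_lit 498) (nat_lit 452) (nat_lit 250))) (XT.nd (nat_lit 78) (nat_lit 0) (nat_lit 0) (XT.lf (nat_lit 0) (nat_lit 11264899654) (nat_lit 380) (nat_lit 3702719055) (nat_lit 456) (nat_lit 26032035363) (nat_lit 172) (nat_lit 5) (nat_lit 177) (nat_lit 5) (nat_lit 178) (nat_lit 5) (nat_lit 499) (nat_lit 452) (nat_lit 249)) (XT.lf (nat_lit 0) (nat_lit 23408655035) (nat_lit 456) (nat_lit 5884428386) (nat_lit 76) (nat_lit 12448691627) (nat_lit 172) (nat_lit 5) (nat_lit 178) (nat_lit 5) (nat_lit 173) (nat_lit 5) (nat_lit 500) (nat_lit 452) (nat_lit 248)))) (XT.nd (nat_lit 156) (nat_lit 380) (nat_lit 0) (XT.nd (nat_lit 78) (nat_lit 304) (nat_lit 0) (XT.lf (nat_lit 0) (nat_lit 19012337517) (nat_lit 304) (nat_lit 13307615640) (nat_lit 380) (nat_lit 10179695789) (nat_lit 168) (nat_lit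 5) (nat_lit 172) (nat_lit 5) (nat_lit 173) (nat_lit 5) (nat_lit 501) (nat_lit 452) (nat_lit 247)) (XT.lf (nat_lit 0) (nat_lit 1492911743) (nat_lit 304) (nat_lit 40108028964) (nat_lit 380) (nat_lit 1676248044) (nat_lit 164) (nat_lit 5) (nat_lit 168) (nat_lit 5) (nat_lit 169) (nat_lit 5) (nat_lit 502) (nat_lit 452) (nat_lit 246))) (XT.nd (nat_lit 78) (nat_lit 304) (nat_lit 0) (XT.lf (nat_lit 0) (nat_lit 7313036541) (nat_lit 380) (nat_lit 16572566506) (nat_lit 76) (nat_lit 20179341475) (nat_lit 163) (nat_lit 5) (nat_lit 168) (nat_lit 5) (nat_lit 164) (nat_lit 5) (nat_lit 503) (nat_lit 452) (nat_lit 245)) (XT.lf (nat_lit 0) (nat_lit 9562141866) (nat_lit 304) (nat_lit 7065804432) (nat_lit 380) (nat_lit 28245199835) (nat_lit 159) (nat_lit 5) (nat_lit 163) (nat_lit 5) (nat_lit 164) (nat_lit 5) (nat_lit 504) (nat_lit 452) (nat_lit 244)))))) (XT.nd (nat_lit 546) (nat_lit 1368) (nat_lit 0) (XT.nd (nat_lit 234) (nat_lit 836)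 (nat_lit 0) (XT.nd (nat_lit 78) (nat_lit 380) (nat_lit 0) (XT.lf (nat_lit 0) (nat_lit 26487667164) (nat_lit 380) (nat_lit 8983602354) (nat_lit 76) (nat_lit 10226363543) (nat_lit 159) (nat_lit 5) (nat_lit 164) (nat_lit 5) (nat_lit 160) (nat_lit 5) (nat_lit 505) (nat_lit 452) (nat_lit 243)) (XT.nd (nat_lit 78) (nat_lit 76) (nat_lit 0) (XT.lf (nat_lit 0) (nat_lit 18419825373) (nat_lit 304) (nat_lit 18468185692) (nat_lit 380) (nat_lit 9651498766) (nat_lit 155) (nat_lit 5) (nat_lit 159) (nat_lit 5) (nat_lit 160) (nat_lit 5) (nat_lit 506) (nat_lit 452) (nat_lit 242)) (XT.lf (nat_lit 0) (nat_lit 279378509) (nat_lit 380) (nat_lit 580457135) (nat_lit 76) (nat_lit 46544068474) (nat_lit 154) (nat_lit 5) (nat_lit 159) (nat_lit 5) (nat_lit 155) (nat_lit 5) (nat_lit 507) (nat_lit 452) (nat_lit 241)))) (XT.nd (nat_lit 156) (nat_lit 228) (nat_lit 0) (XT.nd (nat_lit 78) (nat_lit 304) (nat_lit 0) (XT.lf (nat_lit 0) (nat_lit 10753212779)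 (nat_lit 380) (nat_lit 20215775556) (nat_lit 76) (nat_lit 17309204792) (nat_lit 150) (nat_lit 5) (nat_lit 155) (nat_lit 5) (nat_lit 151) (nat_lit 5) (nat_lit 508) (nat_lit 452) (nat_lit 240)) (XT.lf (nat_lit 0) (nat_lit 8553060436) (nat_lit 304) (nat_lit 13082757378) (nat_lit 380) (nat_lit 27540056476) (nat_lit 146) (nat_lit 5) (nat_lit 150) (nat_lit 5) (nat_lit 151) (nat_lit 5) (nat_lit 509) (nat_lit 452) (nat_lit 239))) (XT.nd (nat_lit 78) (nat_lit 228) (nat_lit 0) (XT.lf (nat_lit 0) (nat_lit 33100319260) (nat_lit 380) (nat_lit 11551581253) (nat_lit 76) (nat_lit 5440922984) (nat_lit 146) (nat_lit 5) (nat_lit 151) (nat_lit 5) (nat_lit 147) (nat_lit 5) (nat_lit 510) (nat_lit 452) (nat_lit 238)) (XT.lf (nat_lit 0) (nat_lit 18622510932) (nat_lit 228) (nat_lit 26592773906) (nat_lit 304) (nat_lit 5812800616) (nat_lit 143) (nat_lit 5) (nat_lit 146) (nat_lit 5) (nat_lit 147) (nat_lit 5) (nat_lit 511) (nat_lit 452) (nat_lit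 237))))) (XT.nd (nat_lit 312) (nat_lit 760) (nat_lit 0) (XT.nd (nat_lit 156) (nat_lit 228) (nat_lit 0) (XT.nd (nat_lit 78) (nat_lit 304) (nat_lit 0) (XT.lf (nat_lit 0) (nat_lit 5706819945) (nat_lit 304) (nat_lit 2108399414) (nat_lit 76) (nat_lit 44171067689) (nat_lit 142) (nat_lit 5) (nat_lit 146) (nat_lit 5) (nat_lit 143) (nat_lit 5) (nat_lit 512) (nat_lit 452) (nat_lit 236)) (XT.lf (nat_lit 0) (nat_lit 17852097624) (nat_lit 380) (nat_lit 23462217490) (nat_lit 76) (nat_lit 11645286137) (nat_lit 138) (nat_lit 5) (nat_lit 143) (nat_lit 5) (nat_lit 139) (nat_lit 5) (nat_lit 513) (nat_lit 452) (nat_lit 235))) (XT.nd (nat_lit 78) (nat_lit 0) (nat_lit 0) (XT.lf (nat_lit 0) (nat_lit 8212682026) (nat_lit 228) (nat_lit 22324947106) (nat_lit 304) (nat_lit 23419209016) (nat_lit 135) (nat_lit 5) (nat_lit 138) (nat_lit 5) (nat_lit 139) (nat_lit 5) (nat_lit 514) (nat_lit 452) (nat_lit 234)) (XT.lf (nat_lit 0) (nat_lit 41315738940)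 (nat_lit 228) (nat_lit 2523007269) (nat_lit 304) (nat_lit 11138195482) (nat_lit 135) (nat_lit 5) (nat_lit 138) (nat_lit 5) (nat_lit 139) (nat_lit 5) (nat_lit 515) (nat_lit 452) (nat_lit 233)))) (XT.nd (nat_lit 156) (nat_lit 456) (nat_lit 0) (XT.nd (nat_lit 78) (nat_lit 0) (nat_lit 0) (XT.lf (nat_lit 0) (nat_lit 1843581651) (nat_lit 304) (nat_lit 36443234359) (nat_lit 76) (nat_lit 17729541948) (nat_lit 131) (nat_lit 5) (nat_lit 135) (nat_lit 5) (nat_lit 132) (nat_lit 5) (nat_lit 516) (nat_lit 452) (nat_lit 232)) (XT.lf (nat_lit 0) (nat_lit 15153392218) (nat_lit 304) (nat_lit 3137928364) (nat_lit 76) (nat_lit 38787454469) (nat_lit 131) (nat_lit 5) (nat_lit 135) (nat_lit 5) (nat_lit 132) (nat_lit 5) (nat_lit 517) (nat_lit 452) (nat_lit 231))) (XT.nd (nat_lit 78) (nat_lit 228) (nat_lit 0) (XT.lf (nat_lit 0) (nat_lit 29191388074) (nat_lit 304) (nat_lit 26405279404) (nat_lit 76) (nat_lit 2566530563) (nat_lit 128) (nat_lit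 5) (nat_lit 132) (nat_lit 5) (nat_lit 129) (nat_lit 5) (nat_lit 518) (nat_lit 452) (nat_lit 230)) (XT.lf (nat_lit 0) (nat_lit 8466628611) (nat_lit 228) (nat_lit 35476601496) (nat_lit 304) (nat_lit 15328142535) (nat_lit 125) (nat_lit 5) (nat_lit 128) (nat_lit 5) (nat_lit 129) (nat_lit 5) (nat_lit 519) (nat_lit 452) (nat_lit 229))))))) (XT.nd (nat_lit 1170) (nat_lit 1140) (nat_lit 0) (XT.nd (nat_lit 546) (nat_lit 988) (nat_lit 0) (XT.nd (nat_lit 234) (nat_lit 684) (nat_lit 0) (XT.nd (nat_lit 78) (nat_lit 304) (nat_lit 0) (XT.lf (nat_lit 0) (nat_lit 44923072674) (nat_lit 228) (nat_lit 14479437344) (nat_lit 304) (nat_lit 1002336093) (nat_lit 125) (nat_lit 5) (nat_lit 128) (nat_lit 5) (nat_lit 129) (nat_lit 5) (nat_lit 520) (nat_lit 452) (nat_lit 228)) (XT.nd (nat_lit 78) (nat_lit 0) (nat_lit 0) (XT.lf (nat_lit 0) (nat_lit 13758752365) (nat_lit 304) (nat_lit 40455214231) (nat_lit 76) (nat_lit 7346174656) (nat_lit 121)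 (nat_lit 5) (nat_lit 125) (nat_lit 5) (nat_lit 122) (nat_lit 5) (nat_lit 521) (nat_lit 452) (nat_lit 227)) (XT.lf (nat_lit 0) (nat_lit 29242059275) (nat_lit 304) (nat_lit 3796514033) (nat_lit 76) (nat_lit 29702238363) (nat_lit 121) (nat_lit 5) (nat_lit 125) (nat_lit 5) (nat_lit 122) (nat_lit 5) (nat_lit 522) (nat_lit 452) (nat_lit 226)))) (XT.nd (nat_lit 156) (nat_lit 304) (nat_lit 0) (XT.nd (nat_lit 78) (nat_lit 152) (nat_lit 0) (XT.lf (nat_lit 0) (nat_lit 34635018844) (nat_lit 228) (nat_lit 10886116975) (nat_lit 304) (nat_lit 18425828364) (nat_lit 118) (nat_lit 5) (nat_lit 121) (nat_lit 5) (nat_lit 122) (nat_lit 5) (nat_lit 523) (nat_lit 452) (nat_lit 225)) (XT.lf (nat_lit 0) (nat_lit 9170255661) (nat_lit 152) (nat_lit 53358231935) (nat_lit 228) (nat_lit 2653616681) (nat_lit 116) (nat_lit 5) (nat_lit 118) (nat_lit 5) (nat_lit 119) (nat_lit 5) (nat_lit 524) (nat_lit 452) (nat_lit 224))) (XT.nd (nat_lit 78) (nat_lit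 228) (nat_lit 0) (XT.lf (nat_lit 0) (nat_lit 13731598216) (nat_lit 228) (nat_lit 17281795305) (nat_lit 76) (nat_lit 35424833738) (nat_lit 115) (nat_lit 5) (nat_lit 118) (nat_lit 5) (nat_lit 116) (nat_lit 5) (nat_lit 525) (nat_lit 452) (nat_lit 223)) (XT.lf (nat_lit 0) (nat_lit 23030578159) (nat_lit 228) (nat_lit 7744242233) (nat_lit 304) (nat_lit 36949831843) (nat_lit 112) (nat_lit 5) (nat_lit 115) (nat_lit 5) (nat_lit 116) (nat_lit 5) (nat_lit 526) (nat_lit 452) (nat_lit 222))))) (XT.nd (nat_lit 312) (nat_lit 532) (nat_lit 0) (XT.nd (nat_lit 156) (nat_lit 304) (nat_lit 0) (XT.nd (nat_lit 78) (nat_lit 152) (nat_lit 0) (XT.lf (nat_lit 0) (nat_lit 48659936436) (nat_lit 304) (nat_lit 4298252598) (nat_lit 76) (nat_lit 16081563092) (nat_lit 112) (nat_lit 5) (nat_lit 116) (nat_lit 5) (nat_lit 113) (nat_lit 5) (nat_lit 527) (nat_lit 452) (nat_lit 221)) (XT.lf (nat_lit 0) (nat_lit 37971072078) (nat_lit 152) (nat_lit 29550668847)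 (nat_lit 228) (nat_lit 2859360121) (nat_lit 110) (nat_lit 5) (nat_lit 112) (nat_lit 5) (nat_lit 113) (nat_lit 5) (nat_lit 528) (nat_lit 452) (nat_lit 220))) (XT.nd (nat_lit 78) (nat_lit 0) (nat_lit 0) (XT.lf (nat_lit 0) (nat_lit 9878904603) (nat_lit 228) (nat_lit 5148715537) (nat_lit 304) (nat_lit 56726573097) (nat_lit 106) (nat_lit 5) (nat_lit 109) (nat_lit 5) (nat_lit 110) (nat_lit 5) (nat_lit 529) (nat_lit 452) (nat_lit 219)) (XT.lf (nat_lit 0) (nat_lit 33914840060) (nat_lit 304) (nat_lit 19284103433) (nat_lit 76) (nat_lit 19953052443) (nat_lit 106) (nat_lit 5) (nat_lit 110) (nat_lit 5) (nat_lit 107) (nat_lit 5) (nat_lit 530) (nat_lit 452) (nat_lit 218)))) (XT.nd (nat_lit 156) (nat_lit 380) (nat_lit 0) (XT.nd (nat_lit 78) (nat_lit 0) (nat_lit 0) (XT.lf (nat_lit 0) (nat_lit 25019475749) (nat_lit 152) (nat_lit 28639196779) (nat_lit 228) (nat_lit 20924360381) (nat_lit 104) (nat_lit 5) (nat_lit 106) (nat_lit 5) (nat_lit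 107) (nat_lit 5) (nat_lit 531) (nat_lit 452) (nat_lit 217)) (XT.lf (nat_lit 0) (nat_lit 71044908580) (nat_lit 152) (nat_lit 3143177710) (nat_lit 228) (nat_lit 1863116781) (nat_lit 104) (nat_lit 5) (nat_lit 106) (nat_lit 5) (nat_lit 107) (nat_lit 5) (nat_lit 532) (nat_lit 452) (nat_lit 216))) (XT.nd (nat_lit 78) (nat_lit 152) (nat_lit 0) (XT.lf (nat_lit 0) (nat_lit 18048786368) (nat_lit 228) (nat_lit 36249564130) (nat_lit 76) (nat_lit 23241176083) (nat_lit 101) (nat_lit 5) (nat_lit 104) (nat_lit 5) (nat_lit 102) (nat_lit 5) (nat_lit 533) (nat_lit 452) (nat_lit 215)) (XT.lf (nat_lit 0) (nat_lit 10152266754) (nat_lit 152) (nat_lit 28546668577) (nat_lit 228) (nat_lit 40367661063) (nat_lit 99) (nat_lit 5) (nat_lit 101) (nat_lit 5) (nat_lit 102) (nat_lit 5) (nat_lit 534) (nat_lit 452) (nat_lit 214)))))) (XT.nd (nat_lit 624) (nat_lit 380) (nat_lit 0) (XT.nd (nat_lit 312) (nat_lit 380) (nat_lit 0) (XT.nd (nat_lit 156) (nat_lit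 152) (nat_lit 0) (XT.nd (nat_lit 78) (nat_lit 228) (nat_lit 0) (XT.lf (nat_lit 0) (nat_lit 58686737023) (nat_lit 152) (nat_lit 1646489752) (nat_lit 228) (nat_lit 20295312447) (nat_lit 99) (nat_lit 5) (nat_lit 101) (nat_lit 5) (nat_lit 102) (nat_lit 5) (nat_lit 535) (nat_lit 452) (nat_lit 213)) (XT.lf (nat_lit 0) (nat_lit 882680930) (nat_lit 228) (nat_lit 55522711496) (nat_lit 76) (nat_lit 25816512393) (nat_lit 96) (nat_lit 5) (nat_lit 99) (nat_lit 5) (nat_lit 97) (nat_lit 5) (nat_lit 536) (nat_lit 452) (nat_lit 212))) (XT.nd (nat_lit 78) (nat_lit 152) (nat_lit 0) (XT.lf (nat_lit 0) (nat_lit 22526786007) (nat_lit 228) (nat_lit 6829117301) (nat_lit 76) (nat_lit 54493979193) (nat_lit 96) (nat_lit 5) (nat_lit 99) (nat_lit 5) (nat_lit 97) (nat_lit 5) (nat_lit 537) (nat_lit 452) (nat_lit 211)) (XT.lf (nat_lit 0) (nat_lit 44185109114) (nat_lit 152) (nat_lit 1058502305) (nat_lit 228) (nat_lit 40270386234) (nat_lit 94) (nat_lit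 5) (nat_lit 96) (nat_lit 5) (nat_lit 97) (nat_lit 5) (nat_lit 538) (nat_lit 452) (nat_lit 210)))) (XT.nd (nat_lit 156) (nat_lit 152) (nat_lit 0) (XT.nd (nat_lit 78) (nat_lit 76) (nat_lit 0) (XT.lf (nat_lit 0) (nat_lit 9557208050) (nat_lit 152) (nat_lit 59514913164) (nat_lit 228) (nat_lit 18143009709) (nat_lit 92) (nat_lit 5) (nat_lit 94) (nat_lit 5) (nat_lit 95) (nat_lit 5) (nat_lit 539) (nat_lit 452) (nat_lit 209)) (XT.lf (nat_lit 0) (nat_lit 4988110286) (nat_lit 228) (nat_lit 26199377796) (nat_lit 76) (nat_lit 57765550971) (nat_lit 91) (nat_lit 5) (nat_lit 94) (nat_lit 5) (nat_lit 92) (nat_lit 5) (nat_lit 540) (nat_lit 452) (nat_lit 208))) (XT.nd (nat_lit 78) (nat_lit 0) (nat_lit 0) (XT.lf (nat_lit 0) (nat_lit 27150773506) (nat_lit 152) (nat_lit 1557434389) (nat_lit 228) (nat_lit 62021696550) (nat_lit 89) (nat_lit 5) (nat_lit 91) (nat_lit 5) (nat_lit 92) (nat_lit 5) (nat_lit 541) (nat_lit 452) (nat_lit 207)) (XT.lf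 (nat_lit 0) (nat_lit 53684202289) (nat_lit 228) (nat_lit 10196994629) (nat_lit 76) (nat_lit 28662550113) (nat_lit 89) (nat_lit 5) (nat_lit 92) (nat_lit 5) (nat_lit 90) (nat_lit 5) (nat_lit 542) (nat_lit 452) (nat_lit 206))))) (XT.nd (nat_lit 55536) (nat_lit 0) (nat_lit 15884) (XT.nd (nat_lit 156) (nat_lit 0) (nat_lit 0) (XT.nd (nat_lit 78) (nat_lit 228) (nat_lit 0) (XT.lf (nat_lit 0) (nat_lit 45659911541) (nat_lit 152) (nat_lit 34202649732) (nat_lit 228) (nat_lit 14535851124) (nat_lit 87) (nat_lit 5) (nat_lit 89) (nat_lit 5) (nat_lit 90) (nat_lit 5) (nat_lit 543) (nat_lit 452) (nat_lit 205)) (XT.lf (nat_lit 0) (nat_lit 7130683284) (nat_lit 152) (nat_lit 3352924451) (nat_lit 228) (nat_lit 85816938305) (nat_lit 84) (nat_lit 5) (nat_lit 86) (nat_lit 5) (nat_lit 87) (nat_lit 5) (nat_lit 544) (nat_lit 452) (nat_lit 204))) (XT.nd (nat_lit 55302) (nat_lit 0) (nat_lit 15884) (XT.lf (nat_lit 0) (nat_lit 36730503850) (nat_lit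 228) (nat_lit 32994220021) (nat_lit 76) (nat_lit 28507631992) (nat_lit 84) (nat_lit 5) (nat_lit 87) (nat_lit 5) (nat_lit 85) (nat_lit 5) (nat_lit 545) (nat_lit 452) (nat_lit 203)) (XT.lf (nat_lit 0) (nat_lit 2893896598) (nat_lit 1292) (nat_lit 3447206973) (nat_lit 1292) (nat_lit 3447206973) (nat_lit 293) (nat_lit 3) (nat_lit 310) (nat_lit 3) (nat_lit 310) (nat_lit 5) (nat_lit 453) (nat_lit 453) (nat_lit 294)))) (XT.nd (nat_lit 156) (nat_lit 0) (nat_lit 76) (XT.nd (nat_lit 78) (nat_lit 0) (nat_lit 76) (XT.lf (nat_lit 76) (nat_lit 2831603800) (nat_lit 0) (nat_lit 3241812565) (nat_lit 1292) (nat_lit 13790865998) (nat_lit 294) (nat_lit 5) (nat_lit 293) (nat_lit 3) (nat_lit 310) (nat_lit 5) (nat_lit 454) (nat_lit 453) (nat_lit 293)) (XT.lf (nat_lit 0) (nat_lit 6493525066) (nat_lit 1216) (nat_lit 7234501909) (nat_lit 1292) (nat_lit 6428769926) (nat_lit 294) (nat_lit 5) (nat_lit 310) (nat_lit 5) (nat_lit 311) (nat_lit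 5) (nat_lit 455) (nat_lit 453) (nat_lit 292))) (XT.nd (nat_lit 78) (nat_lit 0) (nat_lit 76) (XT.lf (nat_lit 76) (nat_lit 2878041548) (nat_lit 0) (nat_lit 4101453758) (nat_lit 1292) (nat_lit 13476994725) (nat_lit 295) (nat_lit 5) (nat_lit 294) (nat_lit 5) (nat_lit 311) (nat_lit 5) (nat_lit 456) (nat_lit 453) (nat_lit 291)) (XT.lf (nat_lit 0) (nat_lit 7603385947) (nat_lit 1216) (nat_lit 7381155374) (nat_lit 1292) (nat_lit 5776933272) (nat_lit 295) (nat_lit 5) (nat_lit 311) (nat_lit 5) (nat_lit 312) (nat_lit 5) (nat_lit 457) (nat_lit 453) (nat_lit 290))))))))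
noncomputable def xc204 : XT := (XT.nd (nat_lit 2340) (nat_lit 6460) (nat_lit 0) (XT.nd (nat_lit 1170) (nat_lit 4408) (nat_lit 0) (XT.nd (nat_lit 546) (nat_lit 1596) (nat_lit 0) (XT.nd (nat_lit 234) (nat_lit 0) (nat_lit 152) (XT.nd (nat_lit 78) (nat_lit 0) (nat_lit 76) (XT.lf (nat_lit 76) (nat_lit 3138988104) (nat_lit 0) (nat_lit 5171648476) (nat_lit 1292) (nat_lit 12763033666) (nat_lit 296) (nat_lit 5) (nat_lit 295) (nat_lit 5) (nat_lit 312) (nat_lit 5) (nat_lit 458) (nat_lit 453) (nat_lit 289)) (XT.nd (nat_lit 78) (nat_lit 0) (nat_lit 0) (XT.lf (nat_lit 0) (nat_lit 9155848914) (nat_lit 1216) (nat_lit 7319015174) (nat_lit 1292) (nat_lit 4916866182) (nat_lit 296) (nat_lit 5) (nat_lit 312) (nat_lit 5) (nat_lit 313) (nat_lit 5) (nat_lit 459) (nat_lit 453) (nat_lit 288)) (XT.lf (nat_lit 76) (nat_lit 3631004821) (nat_lit 0) (nat_lit 6475721361) (nat_lit 1292) (nat_lit 11610197460) (nat_lit 297) (nat_lit 5) (nat_lit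 296) (nat_lit 5) (nat_lit 313) (nat_lit 5) (nat_lit 460) (nat_lit 453) (nat_lit 287)))) (XT.nd (nat_lit 156) (nat_lit 0) (nat_lit 76) (XT.nd (nat_lit 78) (nat_lit 0) (nat_lit 0) (XT.lf (nat_lit 0) (nat_lit 11191874410) (nat_lit 1216) (nat_lit 7031501089) (nat_lit 1292) (nat_lit 3825325755) (nat_lit 297) (nat_lit 5) (nat_lit 313) (nat_lit 5) (nat_lit 314) (nat_lit 5) (nat_lit 461) (nat_lit 453) (nat_lit 286)) (XT.lf (nat_lit 76) (nat_lit 4371940593) (nat_lit 0) (nat_lit 8038295168) (nat_lit 1292) (nat_lit 9977177430) (nat_lit 298) (nat_lit 5) (nat_lit 297) (nat_lit 5) (nat_lit 314) (nat_lit 5) (nat_lit 462) (nat_lit 453) (nat_lit 285))) (XT.nd (nat_lit 78) (nat_lit 0) (nat_lit 0) (XT.lf (nat_lit 0) (nat_lit 13755084360) (nat_lit 1216) (nat_lit 6500752695) (nat_lit 1292) (nat_lit 2477752076) (nat_lit 298) (nat_lit 5) (nat_lit 314) (nat_lit 5) (nat_lit 315) (nat_lit 5) (nat_lit 463) (nat_lit 453) (nat_lit 284)) (XT.lf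 (nat_lit 76) (nat_lit 5380994836) (nat_lit 0) (nat_lit 9885407382) (nat_lit 1292) (nat_lit 7819965128) (nat_lit 299) (nat_lit 5) (nat_lit 298) (nat_lit 5) (nat_lit 315) (nat_lit 5) (nat_lit 464) (nat_lit 453) (nat_lit 283))))) (XT.nd (nat_lit 312) (nat_lit 1900) (nat_lit 0) (XT.nd (nat_lit 156) (nat_lit 0) (nat_lit 0) (XT.nd (nat_lit 78) (nat_lit 0) (nat_lit 0) (XT.lf (nat_lit 0) (nat_lit 16891945667) (nat_lit 1216) (nat_lit 5707565771) (nat_lit 1292) (nat_lit 848151583) (nat_lit 299) (nat_lit 5) (nat_lit 315) (nat_lit 5) (nat_lit 316) (nat_lit 5) (nat_lit 465) (nat_lit 453) (nat_lit 282)) (XT.lf (nat_lit 76) (nat_lit 6678785089) (nat_lit 0) (nat_lit 12044631956) (nat_lit 1292) (nat_lit 5091666344) (nat_lit 300) (nat_lit 5) (nat_lit 299) (nat_lit 5) (nat_lit 316) (nat_lit 5) (nat_lit 466) (nat_lit 453) (nat_lit 281))) (XT.nd (nat_lit 78) (nat_lit 0) (nat_lit 76) (XT.lf (nat_lit 76) (nat_lit 19549921731) (nat_lit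 0) (nat_lit 1112738359) (nat_lit 1292) (nat_lit 3529282104) (nat_lit 300) (nat_lit 5) (nat_lit 299) (nat_lit 5) (nat_lit 316) (nat_lit 5) (nat_lit 467) (nat_lit 453) (nat_lit 280)) (XT.lf (nat_lit 76) (nat_lit 8287419386) (nat_lit 0) (nat_lit 14545206732) (nat_lit 1292) (nat_lit 1742304910) (nat_lit 301) (nat_lit 5) (nat_lit 300) (nat_lit 5) (nat_lit 317) (nat_lit 5) (nat_lit 468) (nat_lit 453) (nat_lit 279)))) (XT.nd (nat_lit 156) (nat_lit 684) (nat_lit 0) (XT.nd (nat_lit 78) (nat_lit 0) (nat_lit 76) (XT.lf (nat_lit 0) (nat_lit 150115447) (nat_lit 1292) (nat_lit 3284428070) (nat_lit 1368) (nat_lit 21533225713) (nat_lit 283) (nat_lit 5) (nat_lit 300) (nat_lit 5) (nat_lit 301) (nat_lit 5) (nat_lit 469) (nat_lit 453) (nat_lit 278)) (XT.lf (nat_lit 0) (nat_lit 2236866361) (nat_lit 1292) (nat_lit 15158712793) (nat_lit 76) (nat_lit 7971119194) (nat_lit 284) (nat_lit 5) (nat_lit 301) (nat_lit 5) (nat_lit 285) (nat_lit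 5) (nat_lit 470) (nat_lit 453) (nat_lit 277))) (XT.nd (nat_lit 78) (nat_lit 760) (nat_lit 0) (XT.lf (nat_lit 0) (nat_lit 4449349263) (nat_lit 1292) (nat_lit 1642320274) (nat_lit 76) (nat_lit 19684032480) (nat_lit 284) (nat_lit 5) (nat_lit 301) (nat_lit 5) (nat_lit 285) (nat_lit 5) (nat_lit 471) (nat_lit 453) (nat_lit 276)) (XT.lf (nat_lit 0) (nat_lit 6898873435) (nat_lit 836) (nat_lit 13727948079) (nat_lit 76) (nat_lit 5565034827) (nat_lit 274) (nat_lit 5) (nat_lit 285) (nat_lit 5) (nat_lit 275) (nat_lit 5) (nat_lit 472) (nat_lit 453) (nat_lit 275)))))) (XT.nd (nat_lit 546) (nat_lit 2052) (nat_lit 0) (XT.nd (nat_lit 234) (nat_lit 1140) (nat_lit 0) (XT.nd (nat_lit 78) (nat_lit 608) (nat_lit 0) (XT.lf (nat_lit 0) (nat_lit 349469078) (nat_lit 608) (nat_lit 9148683982) (nat_lit 684) (nat_lit 17120054673) (nat_lit 266) (nat_lit 5) (nat_lit 274) (nat_lit 5) (nat_lit 275) (nat_lit 5) (nat_lit 473) (nat_lit 453) (nat_lit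 274)) (XT.nd (nat_lit 78) (nat_lit 608) (nat_lit 0) (XT.lf (nat_lit 0) (nat_lit 12337046037) (nat_lit 684) (nat_lit 11953598756) (nat_lit 76) (nat_lit 2761856340) (nat_lit 266) (nat_lit 5) (nat_lit 275) (nat_lit 5) (nat_lit 267) (nat_lit 5) (nat_lit 474) (nat_lit 453) (nat_lit 273)) (XT.lf (nat_lit 0) (nat_lit 2750245215) (nat_lit 608) (nat_lit 12623931952) (nat_lit 684) (nat_lit 12122254528) (nat_lit 258) (nat_lit 5) (nat_lit 266) (nat_lit 5) (nat_lit 267) (nat_lit 5) (nat_lit 475) (nat_lit 453) (nat_lit 272)))) (XT.nd (nat_lit 156) (nat_lit 608) (nat_lit 0) (XT.nd (nat_lit 78) (nat_lit 532) (nat_lit 0) (XT.lf (nat_lit 0) (nat_lit 18136442890) (nat_lit 608) (nat_lit 482818986) (nat_lit 684) (nat_lit 9330913594) (nat_lit 258) (nat_lit 5) (nat_lit 266) (nat_lit 5) (nat_lit 267) (nat_lit 5) (nat_lit 476) (nat_lit 453) (nat_lit 271)) (XT.lf (nat_lit 0) (nat_lit 5555737680) (nat_lit 532) (nat_lit 16571179535) (nat_lit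 608) (nat_lit 6285658273) (nat_lit 251) (nat_lit 5) (nat_lit 258) (nat_lit 5) (nat_lit 259) (nat_lit 5) (nat_lit 477) (nat_lit 453) (nat_lit 270))) (XT.nd (nat_lit 78) (nat_lit 608) (nat_lit 0) (XT.lf (nat_lit 0) (nat_lit 21578823872) (nat_lit 532) (nat_lit 4261129549) (nat_lit 608) (nat_lit 3045890006) (nat_lit 251) (nat_lit 5) (nat_lit 258) (nat_lit 5) (nat_lit 259) (nat_lit 5) (nat_lit 478) (nat_lit 453) (nat_lit 269)) (XT.lf (nat_lit 0) (nat_lit 448894799) (nat_lit 608) (nat_lit 20576596763) (nat_lit 76) (nat_lit 8342829236) (nat_lit 243) (nat_lit 5) (nat_lit 251) (nat_lit 5) (nat_lit 244) (nat_lit 5) (nat_lit 479) (nat_lit 453) (nat_lit 268))))) (XT.nd (nat_lit 312) (nat_lit 988) (nat_lit 0) (XT.nd (nat_lit 156) (nat_lit 532) (nat_lit 0) (XT.nd (nat_lit 78) (nat_lit 532) (nat_lit 0) (XT.lf (nat_lit 0) (nat_lit 4100468185) (nat_lit 608) (nat_lit 4416715353) (nat_lit 76) (nat_lit 21343789719) (nat_lit 243) (nat_lit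 5) (nat_lit 251) (nat_lit 5) (nat_lit 244) (nat_lit 5) (nat_lit 480) (nat_lit 453) (nat_lit 267)) (XT.lf (nat_lit 0) (nat_lit 8021152156) (nat_lit 608) (nat_lit 17940505669) (nat_lit 76) (nat_lit 4401960970) (nat_lit 236) (nat_lit 5) (nat_lit 244) (nat_lit 5) (nat_lit 237) (nat_lit 5) (nat_lit 481) (nat_lit 453) (nat_lit 266))) (XT.nd (nat_lit 78) (nat_lit 532) (nat_lit 0) (XT.lf (nat_lit 0) (nat_lit 12185450432) (nat_lit 608) (nat_lit 1109849154) (nat_lit 76) (nat_lit 17582264694) (nat_lit 236) (nat_lit 5) (nat_lit 244) (nat_lit 5) (nat_lit 237) (nat_lit 5) (nat_lit 482) (nat_lit 453) (nat_lit 265)) (XT.lf (nat_lit 0) (nat_lit 16544939467) (nat_lit 532) (nat_lit 85500101) (nat_lit 608) (nat_lit 14771816089) (nat_lit 229) (nat_lit 5) (nat_lit 236) (nat_lit 5) (nat_lit 237) (nat_lit 5) (nat_lit 483) (nat_lit 453) (nat_lit 264)))) (XT.nd (nat_lit 156) (nat_lit 532) (nat_lit 0) (XT.nd (nat_lit 78) (nat_lit 0) (nat_lit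 0) (XT.lf (nat_lit 0) (nat_lit 2729252930) (nat_lit 456) (nat_lit 18643826140) (nat_lit 532) (nat_lit 10564680055) (nat_lit 223) (nat_lit 5) (nat_lit 229) (nat_lit 5) (nat_lit 230) (nat_lit 5) (nat_lit 484) (nat_lit 453) (nat_lit 263)) (XT.lf (nat_lit 0) (nat_lit 21143455942) (nat_lit 456) (nat_lit 5262247412) (nat_lit 532) (nat_lit 6079193539) (nat_lit 223) (nat_lit 5) (nat_lit 229) (nat_lit 5) (nat_lit 230) (nat_lit 5) (nat_lit 485) (nat_lit 453) (nat_lit 262))) (XT.nd (nat_lit 78) (nat_lit 76) (nat_lit 0) (XT.lf (nat_lit 0) (nat_lit 7114925717) (nat_lit 456) (nat_lit 24621605666) (nat_lit 532) (nat_lit 1307501011) (nat_lit 217) (nat_lit 5) (nat_lit 223) (nat_lit 5) (nat_lit 224) (nat_lit 5) (nat_lit 486) (nat_lit 453) (nat_lit 261)) (XT.lf (nat_lit 0) (nat_lit 3701661475) (nat_lit 532) (nat_lit 7350612487) (nat_lit 76) (nat_lit 22561686706) (nat_lit 216) (nat_lit 5) (nat_lit 223) (nat_lit 5) (nat_lit 217) (nat_lit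 5) (nat_lit 487) (nat_lit 453) (nat_lit 260))))))) (XT.nd (nat_lit 1170) (nat_lit 2812) (nat_lit 0) (XT.nd (nat_lit 546) (nat_lit 1824) (nat_lit 0) (XT.nd (nat_lit 234) (nat_lit 912) (nat_lit 0) (XT.nd (nat_lit 78) (nat_lit 456) (nat_lit 0) (XT.lf (nat_lit 0) (nat_lit 8976611040) (nat_lit 532) (nat_lit 22223647756) (nat_lit 76) (nat_lit 2996086199) (nat_lit 210) (nat_lit 5) (nat_lit 217) (nat_lit 5) (nat_lit 211) (nat_lit 5) (nat_lit 488) (nat_lit 453) (nat_lit 259)) (XT.nd (nat_lit 78) (nat_lit 456) (nat_lit 0) (XT.lf (nat_lit 0) (nat_lit 14591284257) (nat_lit 532) (nat_lit 2881357534) (nat_lit 76) (nat_lit 17318115117) (nat_lit 210) (nat_lit 5) (nat_lit 217) (nat_lit 5) (nat_lit 211) (nat_lit 5) (nat_lit 489) (nat_lit 453) (nat_lit 258)) (XT.lf (nat_lit 0) (nat_lit 17376783353) (nat_lit 456) (nat_lit 3161820509) (nat_lit 532) (nat_lit 14859471434) (nat_lit 204) (nat_lit 5) (nat_lit 210) (nat_lit 5) (nat_lit 211)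 (nat_lit 5) (nat_lit 490) (nat_lit 453) (nat_lit 257)))) (XT.nd (nat_lit 156) (nat_lit 532) (nat_lit 0) (XT.nd (nat_lit 78) (nat_lit 0) (nat_lit 0) (XT.lf (nat_lit 0) (nat_lit 2206927733) (nat_lit 380) (nat_lit 24616524171) (nat_lit 456) (nat_lit 9195388360) (nat_lit 199) (nat_lit 5) (nat_lit 204) (nat_lit 5) (nat_lit 205) (nat_lit 5) (nat_lit 491) (nat_lit 453) (nat_lit 256)) (XT.lf (nat_lit 0) (nat_lit 23375974913) (nat_lit 380) (nat_lit 10131108304) (nat_lit 456) (nat_lit 3144838114) (nat_lit 199) (nat_lit 5) (nat_lit 204) (nat_lit 5) (nat_lit 205) (nat_lit 5) (nat_lit 492) (nat_lit 453) (nat_lit 255))) (XT.nd (nat_lit 78) (nat_lit 0) (nat_lit 0) (XT.lf (nat_lit 0) (nat_lit 3148271772) (nat_lit 532) (nat_lit 29348908486) (nat_lit 76) (nat_lit 4802285970) (nat_lit 192) (nat_lit 5) (nat_lit 199) (nat_lit 5) (nat_lit 193) (nat_lit 5) (nat_lit 493) (nat_lit 453) (nat_lit 254)) (XT.lf (nat_lit 0) (nat_lit 9800014027)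 (nat_lit 532) (nat_lit 8012686336) (nat_lit 76) (nat_lit 20145811843) (nat_lit 192) (nat_lit 5) (nat_lit 199) (nat_lit 5) (nat_lit 193) (nat_lit 5) (nat_lit 494) (nat_lit 453) (nat_lit 253))))) (XT.nd (nat_lit 312) (nat_lit 760) (nat_lit 0) (XT.nd (nat_lit 156) (nat_lit 684) (nat_lit 0) (XT.nd (nat_lit 78) (nat_lit 0) (nat_lit 0) (XT.lf (nat_lit 0) (nat_lit 14238060992) (nat_lit 380) (nat_lit 2547540506) (nat_lit 456) (nat_lit 21847699530) (nat_lit 187) (nat_lit 5) (nat_lit 192) (nat_lit 5) (nat_lit 193) (nat_lit 5) (nat_lit 495) (nat_lit 453) (nat_lit 252)) (XT.lf (nat_lit 0) (nat_lit 24186584355) (nat_lit 456) (nat_lit 2136208118) (nat_lit 76) (nat_lit 12999366454) (nat_lit 187) (nat_lit 5) (nat_lit 193) (nat_lit 5) (nat_lit 188) (nat_lit 5) (nat_lit 496) (nat_lit 453) (nat_lit 251))) (XT.nd (nat_lit 78) (nat_lit 304) (nat_lit 0) (XT.lf (nat_lit 0) (nat_lit 21175244704) (nat_lit 380) (nat_lit 10860661028) (nat_lit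 456) (nat_lit 7988987801) (nat_lit 182) (nat_lit 5) (nat_lit 187) (nat_lit 5) (nat_lit 188) (nat_lit 5) (nat_lit 497) (nat_lit 453) (nat_lit 250)) (XT.lf (nat_lit 0) (nat_lit 4517655284) (nat_lit 304) (nat_lit 35714522189) (nat_lit 380) (nat_lit 513188813) (nat_lit 178) (nat_lit 5) (nat_lit 182) (nat_lit 5) (nat_lit 183) (nat_lit 5) (nat_lit 498) (nat_lit 453) (nat_lit 249)))) (XT.nd (nat_lit 156) (nat_lit 304) (nat_lit 0) (XT.nd (nat_lit 78) (nat_lit 380) (nat_lit 0) (XT.lf (nat_lit 0) (nat_lit 7343985507) (nat_lit 380) (nat_lit 12691245031) (nat_lit 76) (nat_lit 21441230060) (nat_lit 177) (nat_lit 5) (nat_lit 182) (nat_lit 5) (nat_lit 178) (nat_lit 5) (nat_lit 499) (nat_lit 453) (nat_lit 248)) (XT.lf (nat_lit 0) (nat_lit 11772680301) (nat_lit 380) (nat_lit 3764699742) (nat_lit 456) (nat_lit 26688630890) (nat_lit 172) (nat_lit 5) (nat_lit 177) (nat_lit 5) (nat_lit 178) (nat_lit 5) (nat_lit 500) (nat_lit 453) (nat_lit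 247))) (XT.nd (nat_lit 78) (nat_lit 304) (nat_lit 0) (XT.lf (nat_lit 0) (nat_lit 24228589211) (nat_lit 456) (nat_lit 5893005480) (nat_lit 76) (nat_lit 12868892909) (nat_lit 172) (nat_lit 5) (nat_lit 178) (nat_lit 5) (nat_lit 173) (nat_lit 5) (nat_lit 501) (nat_lit 453) (nat_lit 246)) (XT.lf (nat_lit 0) (nat_lit 19749016775) (nat_lit 304) (nat_lit 13656380752) (nat_lit 380) (nat_lit 10365755354) (nat_lit 168) (nat_lit 5) (nat_lit 172) (nat_lit 5) (nat_lit 173) (nat_lit 5) (nat_lit 502) (nat_lit 453) (nat_lit 245)))))) (XT.nd (nat_lit 546) (nat_lit 1444) (nat_lit 0) (XT.nd (nat_lit 234) (nat_lit 684) (nat_lit 0) (XT.nd (nat_lit 78) (nat_lit 380) (nat_lit 0) (XT.lf (nat_lit 0) (nat_lit 1705348778) (nat_lit 304) (nat_lit 41258174285) (nat_lit 380) (nat_lit 1608534863) (nat_lit 164) (nat_lit 5) (nat_lit 168) (nat_lit 5) (nat_lit 169) (nat_lit 5) (nat_lit 503) (nat_lit 453) (nat_lit 244)) (XT.nd (nat_lit 78) (nat_lit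 304) (nat_lit 0) (XT.lf (nat_lit 0) (nat_lit 7644755798) (nat_lit 380) (nat_lit 16904731971) (nat_lit 76) (nat_lit 20834025947) (nat_lit 163) (nat_lit 5) (nat_lit 168) (nat_lit 5) (nat_lit 164) (nat_lit 5) (nat_lit 504) (nat_lit 453) (nat_lit 243)) (XT.lf (nat_lit 0) (nat_lit 10012399892) (nat_lit 304) (nat_lit 7225011902) (nat_lit 380) (nat_lit 28978600883) (nat_lit 159) (nat_lit 5) (nat_lit 163) (nat_lit 5) (nat_lit 164) (nat_lit 5) (nat_lit 505) (nat_lit 453) (nat_lit 242)))) (XT.nd (nat_lit 156) (nat_lit 380) (nat_lit 0) (XT.nd (nat_lit 78) (nat_lit 304) (nat_lit 0) (XT.lf (nat_lit 0) (nat_lit 27390194589) (nat_lit 380) (nat_lit 9091737236) (nat_lit 76) (nat_lit 10583384542) (nat_lit 159) (nat_lit 5) (nat_lit 164) (nat_lit 5) (nat_lit 160) (nat_lit 5) (nat_lit 506) (nat_lit 453) (nat_lit 241)) (XT.lf (nat_lit 0) (nat_lit 19132211233) (nat_lit 304) (nat_lit 18968730941) (nat_lit 380) (nat_lit 9831555721) (nat_lit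 155) (nat_lit 5) (nat_lit 159) (nat_lit 5) (nat_lit 160) (nat_lit 5) (nat_lit 507) (nat_lit 453) (nat_lit 240))) (XT.nd (nat_lit 78) (nat_lit 304) (nat_lit 0) (XT.lf (nat_lit 0) (nat_lit 391984625) (nat_lit 380) (nat_lit 440651563) (nat_lit 76) (nat_lit 47990250291) (nat_lit 154) (nat_lit 5) (nat_lit 159) (nat_lit 5) (nat_lit 155) (nat_lit 5) (nat_lit 508) (nat_lit 453) (nat_lit 239)) (XT.lf (nat_lit 0) (nat_lit 11179004116) (nat_lit 380) (nat_lit 20663991944) (nat_lit 76) (nat_lit 17880439225) (nat_lit 150) (nat_lit 5) (nat_lit 155) (nat_lit 5) (nat_lit 151) (nat_lit 5) (nat_lit 509) (nat_lit 453) (nat_lit 238))))) (XT.nd (nat_lit 312) (nat_lit 836) (nat_lit 0) (XT.nd (nat_lit 156) (nat_lit 304) (nat_lit 0) (XT.nd (nat_lit 78) (nat_lit 0) (nat_lit 0) (XT.lf (nat_lit 0) (nat_lit 8966357590) (nat_lit 304) (nat_lit 13420230383) (nat_lit 380) (nat_lit 28261504119) (nat_lit 146) (nat_lit 5) (nat_lit 150) (nat_lit 5)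 (nat_lit 151) (nat_lit 5) (nat_lit 510) (nat_lit 453) (nat_lit 237)) (XT.lf (nat_lit 0) (nat_lit 34192575838) (nat_lit 380) (nat_lit 11743531621) (nat_lit 76) (nat_lit 5656515993) (nat_lit 146) (nat_lit 5) (nat_lit 151) (nat_lit 5) (nat_lit 147) (nat_lit 5) (nat_lit 511) (nat_lit 453) (nat_lit 236))) (XT.nd (nat_lit 78) (nat_lit 76) (nat_lit 0) (XT.lf (nat_lit 0) (nat_lit 19334267672) (nat_lit 228) (nat_lit 27335303534) (nat_lit 304) (nat_lit 5886414851) (nat_lit 143) (nat_lit 5) (nat_lit 146) (nat_lit 5) (nat_lit 147) (nat_lit 5) (nat_lit 512) (nat_lit 453) (nat_lit 235)) (XT.lf (nat_lit 0) (nat_lit 5973950177) (nat_lit 304) (nat_lit 2021112842) (nat_lit 76) (nat_lit 45547928155) (nat_lit 142) (nat_lit 5) (nat_lit 146) (nat_lit 5) (nat_lit 143) (nat_lit 5) (nat_lit 513) (nat_lit 453) (nat_lit 234)))) (XT.nd (nat_lit 156) (nat_lit 304) (nat_lit 0) (XT.nd (nat_lit 78) (nat_lit 228) (nat_lit 0) (XT.lf (nat_lit 0)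 (nat_lit 18482748987) (nat_lit 380) (nat_lit 24014701740) (nat_lit 76) (nat_lit 12048079388) (nat_lit 138) (nat_lit 5) (nat_lit 143) (nat_lit 5) (nat_lit 139) (nat_lit 5) (nat_lit 514) (nat_lit 453) (nat_lit 233)) (XT.lf (nat_lit 0) (nat_lit 8608960622) (nat_lit 228) (nat_lit 22938557164) (nat_lit 304) (nat_lit 24025206382) (nat_lit 135) (nat_lit 5) (nat_lit 138) (nat_lit 5) (nat_lit 139) (nat_lit 5) (nat_lit 515) (nat_lit 453) (nat_lit 232))) (XT.nd (nat_lit 78) (nat_lit 304) (nat_lit 0) (XT.lf (nat_lit 0) (nat_lit 42700743278) (nat_lit 228) (nat_lit 2544194230) (nat_lit 304) (nat_lit 11378575420) (nat_lit 135) (nat_lit 5) (nat_lit 138) (nat_lit 5) (nat_lit 139) (nat_lit 5) (nat_lit 516) (nat_lit 453) (nat_lit 231)) (XT.lf (nat_lit 0) (nat_lit 1990081475) (nat_lit 304) (nat_lit 37388413906) (nat_lit 76) (nat_lit 18315611750) (nat_lit 131) (nat_lit 5) (nat_lit 135) (nat_lit 5) (nat_lit 132) (nat_lit 5) (nat_lit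 517) (nat_lit 453) (nat_lit 230))))))))
noncomputable def xc205 : XT := (XT.nd (nat_lit 57642) (nat_lit 0) (nat_lit 10564) (XT.nd (nat_lit 1170) (nat_lit 1520) (nat_lit 0) (XT.nd (nat_lit 546) (nat_lit 1064) (nat_lit 0) (XT.nd (nat_lit 234) (nat_lit 532) (nat_lit 0) (XT.nd (nat_lit 78) (nat_lit 456) (nat_lit 0) (XT.lf (nat_lit 0) (nat_lit 15696530270) (nat_lit 304) (nat_lit 3088262833) (nat_lit 76) (nat_lit 40003683484) (nat_lit 131) (nat_lit 5) (nat_lit 135) (nat_lit 5) (nat_lit 132) (nat_lit 5) (nat_lit 518) (nat_lit 453) (nat_lit 229)) (XT.nd (nat_lit 78) (nat_lit 228) (nat_lit 0) (XT.lf (nat_lit 0) (nat_lit 30154985389) (nat_lit 304) (nat_lit 27052948331) (nat_lit 76) (nat_lit 2697519131) (nat_lit 128) (nat_lit 5) (nat_lit 132) (nat_lit 5) (nat_lit 129) (nat_lit 5) (nat_lit 519) (nat_lit 453) (nat_lit 228)) (XT.lf (nat_lit 0) (nat_lit 8863700362) (nat_lit 228) (nat_lit 36484498722) (nat_lit 304) (nat_lit 15698709273)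 (nat_lit 125) (nat_lit 5) (nat_lit 128) (nat_lit 5) (nat_lit 129) (nat_lit 5) (nat_lit 520) (nat_lit 453) (nat_lit 227)))) (XT.nd (nat_lit 156) (nat_lit 228) (nat_lit 0) (XT.nd (nat_lit 78) (nat_lit 304) (nat_lit 0) (XT.lf (nat_lit 0) (nat_lit 46409670576) (nat_lit 228) (nat_lit 14859062388) (nat_lit 304) (nat_lit 945728954) (nat_lit 125) (nat_lit 5) (nat_lit 128) (nat_lit 5) (nat_lit 129) (nat_lit 5) (nat_lit 521) (nat_lit 453) (nat_lit 226)) (XT.lf (nat_lit 0) (nat_lit 14255896057) (nat_lit 304) (nat_lit 41527658986) (nat_lit 76) (nat_lit 7620854161) (nat_lit 121) (nat_lit 5) (nat_lit 125) (nat_lit 5) (nat_lit 122) (nat_lit 5) (nat_lit 522) (nat_lit 453) (nat_lit 225))) (XT.nd (nat_lit 78) (nat_lit 228) (nat_lit 0) (XT.lf (nat_lit 0) (nat_lit 30201244472) (nat_lit 304) (nat_lit 3773310744) (nat_lit 76) (nat_lit 30646018392) (nat_lit 121) (nat_lit 5) (nat_lit 125) (nat_lit 5) (nat_lit 122) (nat_lit 5) (nat_lit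 523) (nat_lit 453) (nat_lit 224)) (XT.lf (nat_lit 0) (nat_lit 35809824015) (nat_lit 228) (nat_lit 11157788135) (nat_lit 304) (nat_lit 18895331118) (nat_lit 118) (nat_lit 5) (nat_lit 121) (nat_lit 5) (nat_lit 122) (nat_lit 5) (nat_lit 524) (nat_lit 453) (nat_lit 223))))) (XT.nd (nat_lit 312) (nat_lit 608) (nat_lit 0) (XT.nd (nat_lit 156) (nat_lit 228) (nat_lit 0) (XT.nd (nat_lit 78) (nat_lit 76) (nat_lit 0) (XT.lf (nat_lit 0) (nat_lit 9581670352) (nat_lit 152) (nat_lit 54902982243) (nat_lit 228) (nat_lit 2650501060) (nat_lit 116) (nat_lit 5) (nat_lit 118) (nat_lit 5) (nat_lit 119) (nat_lit 5) (nat_lit 525) (nat_lit 453) (nat_lit 222)) (XT.lf (nat_lit 0) (nat_lit 14222293616) (nat_lit 228) (nat_lit 17666340836) (nat_lit 76) (nat_lit 36540373016) (nat_lit 115) (nat_lit 5) (nat_lit 118) (nat_lit 5) (nat_lit 116) (nat_lit 5) (nat_lit 526) (nat_lit 453) (nat_lit 221))) (XT.nd (nat_lit 78) (nat_lit 0) (nat_lit 0) (XT.lf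 (nat_lit 0) (nat_lit 23854091005) (nat_lit 228) (nat_lit 7921702425) (nat_lit 304) (nat_lit 37978262455) (nat_lit 112) (nat_lit 5) (nat_lit 115) (nat_lit 5) (nat_lit 116) (nat_lit 5) (nat_lit 527) (nat_lit 453) (nat_lit 220)) (XT.lf (nat_lit 0) (nat_lit 50195711075) (nat_lit 304) (nat_lit 4296710854) (nat_lit 76) (nat_lit 16616239519) (nat_lit 112) (nat_lit 5) (nat_lit 116) (nat_lit 5) (nat_lit 113) (nat_lit 5) (nat_lit 528) (nat_lit 453) (nat_lit 219)))) (XT.nd (nat_lit 156) (nat_lit 152) (nat_lit 0) (XT.nd (nat_lit 78) (nat_lit 304) (nat_lit 0) (XT.lf (nat_lit 0) (nat_lit 39239414255) (nat_lit 152) (nat_lit 30382984580) (nat_lit 228) (nat_lit 2867881241) (nat_lit 110) (nat_lit 5) (nat_lit 112) (nat_lit 5) (nat_lit 113) (nat_lit 5) (nat_lit 529) (nat_lit 453) (nat_lit 218)) (XT.lf (nat_lit 0) (nat_lit 10304711508) (nat_lit 228) (nat_lit 5248527188) (nat_lit 304) (nat_lit 58351333029) (nat_lit 106) (nat_lit 5) (nat_lit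 109) (nat_lit 5) (nat_lit 110) (nat_lit 5) (nat_lit 530) (nat_lit 453) (nat_lit 217))) (XT.nd (nat_lit 78) (nat_lit 152) (nat_lit 0) (XT.lf (nat_lit 0) (nat_lit 35005406893) (nat_lit 304) (nat_lit 19735285033) (nat_lit 76) (nat_lit 20603666734) (nat_lit 106) (nat_lit 5) (nat_lit 110) (nat_lit 5) (nat_lit 107) (nat_lit 5) (nat_lit 531) (nat_lit 453) (nat_lit 216)) (XT.lf (nat_lit 0) (nat_lit 25896153079) (nat_lit 152) (nat_lit 29444483583) (nat_lit 228) (nat_lit 21477717713) (nat_lit 104) (nat_lit 5) (nat_lit 106) (nat_lit 5) (nat_lit 107) (nat_lit 5) (nat_lit 532) (nat_lit 453) (nat_lit 215)))))) (XT.nd (nat_lit 546) (nat_lit 760) (nat_lit 0) (XT.nd (nat_lit 234) (nat_lit 380) (nat_lit 0) (XT.nd (nat_lit 78) (nat_lit 380) (nat_lit 0) (XT.lf (nat_lit 0) (nat_lit 73298676281) (nat_lit 152) (nat_lit 3185153528) (nat_lit 228) (nat_lit 1846803022) (nat_lit 104) (nat_lit 5) (nat_lit 106) (nat_lit 5) (nat_lit 107) (nat_lit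 5) (nat_lit 533) (nat_lit 453) (nat_lit 214)) (XT.nd (nat_lit 78) (nat_lit 152) (nat_lit 0) (XT.lf (nat_lit 0) (nat_lit 18660671419) (nat_lit 228) (nat_lit 37212838486) (nat_lit 76) (nat_lit 23990086716) (nat_lit 101) (nat_lit 5) (nat_lit 104) (nat_lit 5) (nat_lit 102) (nat_lit 5) (nat_lit 534) (nat_lit 453) (nat_lit 213)) (XT.lf (nat_lit 0) (nat_lit 10579829554) (nat_lit 152) (nat_lit 29349626488) (nat_lit 228) (nat_lit 41507048641) (nat_lit 99) (nat_lit 5) (nat_lit 101) (nat_lit 5) (nat_lit 102) (nat_lit 5) (nat_lit 535) (nat_lit 453) (nat_lit 212)))) (XT.nd (nat_lit 156) (nat_lit 152) (nat_lit 0) (XT.nd (nat_lit 78) (nat_lit 228) (nat_lit 0) (XT.lf (nat_lit 0) (nat_lit 60566751559) (nat_lit 152) (nat_lit 1643998865) (nat_lit 228) (nat_lit 20834616234) (nat_lit 99) (nat_lit 5) (nat_lit 101) (nat_lit 5) (nat_lit 102) (nat_lit 5) (nat_lit 536) (nat_lit 453) (nat_lit 211)) (XT.lf (nat_lit 0) (nat_lit 977024901) (nat_lit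 228) (nat_lit 57067282756) (nat_lit 76) (nat_lit 26642215632) (nat_lit 96) (nat_lit 5) (nat_lit 99) (nat_lit 5) (nat_lit 97) (nat_lit 5) (nat_lit 537) (nat_lit 453) (nat_lit 210))) (XT.nd (nat_lit 78) (nat_lit 152) (nat_lit 0) (XT.lf (nat_lit 0) (nat_lit 23268476522) (nat_lit 228) (nat_lit 6916408213) (nat_lit 76) (nat_lit 56178514945) (nat_lit 96) (nat_lit 5) (nat_lit 99) (nat_lit 5) (nat_lit 97) (nat_lit 5) (nat_lit 538) (nat_lit 453) (nat_lit 209)) (XT.lf (nat_lit 0) (nat_lit 45627092223) (nat_lit 152) (nat_lit 1038914632) (nat_lit 228) (nat_lit 41411455506) (nat_lit 94) (nat_lit 5) (nat_lit 96) (nat_lit 5) (nat_lit 97) (nat_lit 5) (nat_lit 539) (nat_lit 453) (nat_lit 208))))) (XT.nd (nat_lit 312) (nat_lit 380) (nat_lit 0) (XT.nd (nat_lit 156) (nat_lit 152) (nat_lit 0) (XT.nd (nat_lit 78) (nat_lit 76) (nat_lit 0) (XT.lf (nat_lit 0) (nat_lit 9960660011) (nat_lit 152) (nat_lit 61248417490) (nat_lit 228) (nat_lit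 18620561037) (nat_lit 92) (nat_lit 5) (nat_lit 94) (nat_lit 5) (nat_lit 95) (nat_lit 5) (nat_lit 540) (nat_lit 453) (nat_lit 207)) (XT.lf (nat_lit 0) (nat_lit 5201284318) (nat_lit 228) (nat_lit 26870756706) (nat_lit 76) (nat_lit 59547680891) (nat_lit 91) (nat_lit 5) (nat_lit 94) (nat_lit 5) (nat_lit 92) (nat_lit 5) (nat_lit 541) (nat_lit 453) (nat_lit 206))) (XT.nd (nat_lit 78) (nat_lit 0) (nat_lit 0) (XT.lf (nat_lit 0) (nat_lit 28078775582) (nat_lit 152) (nat_lit 1553449693) (nat_lit 228) (nat_lit 63817690852) (nat_lit 89) (nat_lit 5) (nat_lit 91) (nat_lit 5) (nat_lit 92) (nat_lit 5) (nat_lit 542) (nat_lit 453) (nat_lit 205)) (XT.lf (nat_lit 0) (nat_lit 55356144451) (nat_lit 228) (nat_lit 10391373509) (nat_lit 76) (nat_lit 29570696750) (nat_lit 89) (nat_lit 5) (nat_lit 92) (nat_lit 5) (nat_lit 90) (nat_lit 5) (nat_lit 543) (nat_lit 453) (nat_lit 204)))) (XT.nd (nat_lit 55458) (nat_lit 0) (nat_lit 15884) (XT.nd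 (nat_lit 78) (nat_lit 228) (nat_lit 0) (XT.lf (nat_lit 0) (nat_lit 47140146406) (nat_lit 152) (nat_lit 35178980574) (nat_lit 228) (nat_lit 14909414939) (nat_lit 87) (nat_lit 5) (nat_lit 89) (nat_lit 5) (nat_lit 90) (nat_lit 5) (nat_lit 544) (nat_lit 453) (nat_lit 203)) (XT.lf (nat_lit 0) (nat_lit 7455168550) (nat_lit 152) (nat_lit 3403516923) (nat_lit 228) (nat_lit 88329057805) (nat_lit 84) (nat_lit 5) (nat_lit 86) (nat_lit 5) (nat_lit 87) (nat_lit 5) (nat_lit 545) (nat_lit 453) (nat_lit 202))) (XT.nd (nat_lit 78) (nat_lit 0) (nat_lit 0) (XT.lf (nat_lit 0) (nat_lit 3150651259) (nat_lit 1292) (nat_lit 3463093422) (nat_lit 1292) (nat_lit 3463093422) (nat_lit 293) (nat_lit 3) (nat_lit 310) (nat_lit 3) (nat_lit 310) (nat_lit 5) (nat_lit 454) (nat_lit 454) (nat_lit 292)) (XT.lf (nat_lit 76) (nat_lit 3089895165) (nat_lit 0) (nat_lit 3497366211) (nat_lit 1292) (nat_lit 13862954309) (nat_lit 294) (nat_lit 5) (nat_lit 293)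 (nat_lit 3) (nat_lit 310) (nat_lit 5) (nat_lit 455) (nat_lit 454) (nat_lit 291))))))) (XT.nd (nat_lit 1170) (nat_lit 4560) (nat_lit 0) (XT.nd (nat_lit 546) (nat_lit 836) (nat_lit 0) (XT.nd (nat_lit 234) (nat_lit 0) (nat_lit 76) (XT.nd (nat_lit 78) (nat_lit 0) (nat_lit 0) (XT.lf (nat_lit 0) (nat_lit 7008836498) (nat_lit 1216) (nat_lit 7272061171) (nat_lit 1292) (nat_lit 6470943431) (nat_lit 294) (nat_lit 5) (nat_lit 310) (nat_lit 5) (nat_lit 311) (nat_lit 5) (nat_lit 456) (nat_lit 454) (nat_lit 290)) (XT.nd (nat_lit 78) (nat_lit 0) (nat_lit 76) (XT.lf (nat_lit 76) (nat_lit 3142099023) (nat_lit 0) (nat_lit 4359660022) (nat_lit 1292) (nat_lit 13558996080) (nat_lit 295) (nat_lit 5) (nat_lit 294) (nat_lit 5) (nat_lit 311) (nat_lit 5) (nat_lit 457) (nat_lit 454) (nat_lit 289)) (XT.lf (nat_lit 0) (nat_lit 8133992005) (nat_lit 1216) (nat_lit 7419633626) (nat_lit 1292) (nat_lit 5821576085) (nat_lit 295) (nat_lit 5) (nat_lit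 311) (nat_lit 5) (nat_lit 312) (nat_lit 5) (nat_lit 458) (nat_lit 454) (nat_lit 288)))) (XT.nd (nat_lit 156) (nat_lit 0) (nat_lit 76) (XT.nd (nat_lit 78) (nat_lit 0) (nat_lit 76) (XT.lf (nat_lit 76) (nat_lit 3414320466) (nat_lit 0) (nat_lit 5441070328) (nat_lit 1292) (nat_lit 12841585748) (nat_lit 296) (nat_lit 5) (nat_lit 295) (nat_lit 5) (nat_lit 312) (nat_lit 5) (nat_lit 459) (nat_lit 454) (nat_lit 287)) (XT.lf (nat_lit 0) (nat_lit 9716288129) (nat_lit 1216) (nat_lit 7352988555) (nat_lit 1292) (nat_lit 4955593011) (nat_lit 296) (nat_lit 5) (nat_lit 312) (nat_lit 5) (nat_lit 313) (nat_lit 5) (nat_lit 460) (nat_lit 454) (nat_lit 286))) (XT.nd (nat_lit 78) (nat_lit 0) (nat_lit 76) (XT.lf (nat_lit 76) (nat_lit 3923712461) (nat_lit 0) (nat_lit 6765422620) (nat_lit 1292) (nat_lit 11670881639) (nat_lit 297) (nat_lit 5) (nat_lit 296) (nat_lit 5) (nat_lit 313) (nat_lit 5) (nat_lit 461) (nat_lit 454) (nat_lit 285)) (XT.lf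 (nat_lit 0) (nat_lit 11797814900) (nat_lit 1216) (nat_lit 7054961214) (nat_lit 1292) (nat_lit 3849243350) (nat_lit 297) (nat_lit 5) (nat_lit 313) (nat_lit 5) (nat_lit 314) (nat_lit 5) (nat_lit 462) (nat_lit 454) (nat_lit 284))))) (XT.nd (nat_lit 312) (nat_lit 1064) (nat_lit 0) (XT.nd (nat_lit 156) (nat_lit 0) (nat_lit 76) (XT.nd (nat_lit 78) (nat_lit 0) (nat_lit 76) (XT.lf (nat_lit 76) (nat_lit 4688745632) (nat_lit 0) (nat_lit 8357896567) (nat_lit 1292) (nat_lit 10004434195) (nat_lit 298) (nat_lit 5) (nat_lit 297) (nat_lit 5) (nat_lit 314) (nat_lit 5) (nat_lit 463) (nat_lit 454) (nat_lit 283)) (XT.lf (nat_lit 0) (nat_lit 14423411871) (nat_lit 1216) (nat_lit 6507076103) (nat_lit 1292) (nat_lit 2477403422) (nat_lit 298) (nat_lit 5) (nat_lit 314) (nat_lit 5) (nat_lit 315) (nat_lit 5) (nat_lit 464) (nat_lit 454) (nat_lit 282))) (XT.nd (nat_lit 78) (nat_lit 0) (nat_lit 76) (XT.lf (nat_lit 76) (nat_lit 5729273863) (nat_lit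 0) (nat_lit 10245144668) (nat_lit 1292) (nat_lit 7797004975) (nat_lit 299) (nat_lit 5) (nat_lit 298) (nat_lit 5) (nat_lit 315) (nat_lit 5) (nat_lit 465) (nat_lit 454) (nat_lit 281)) (XT.lf (nat_lit 0) (nat_lit 17640856434) (nat_lit 1216) (nat_lit 5689480783) (nat_lit 1292) (nat_lit 813457983) (nat_lit 299) (nat_lit 5) (nat_lit 315) (nat_lit 5) (nat_lit 316) (nat_lit 5) (nat_lit 466) (nat_lit 454) (nat_lit 280)))) (XT.nd (nat_lit 156) (nat_lit 1216) (nat_lit 0) (XT.nd (nat_lit 78) (nat_lit 0) (nat_lit 0) (XT.lf (nat_lit 76) (nat_lit 7066604604) (nat_lit 0) (nat_lit 12455416308) (nat_lit 1292) (nat_lit 5000375763) (nat_lit 300) (nat_lit 5) (nat_lit 299) (nat_lit 5) (nat_lit 316) (nat_lit 5) (nat_lit 467) (nat_lit 454) (nat_lit 279)) (XT.lf (nat_lit 76) (nat_lit 20318415462) (nat_lit 0) (nat_lit 1194125747) (nat_lit 1292) (nat_lit 3398227975) (nat_lit 300) (nat_lit 5) (nat_lit 299) (nat_lit 5) (nat_lit 316) (nat_lit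 5) (nat_lit 468) (nat_lit 454) (nat_lit 278))) (XT.nd (nat_lit 78) (nat_lit 1292) (nat_lit 0) (XT.lf (nat_lit 76) (nat_lit 8723574026) (nat_lit 0) (nat_lit 15018687780) (nat_lit 1292) (nat_lit 1563147117) (nat_lit 301) (nat_lit 5) (nat_lit 300) (nat_lit 5) (nat_lit 317) (nat_lit 5) (nat_lit 469) (nat_lit 454) (nat_lit 277)) (XT.lf (nat_lit 0) (nat_lit 374920821) (nat_lit 1292) (nat_lit 3196477925) (nat_lit 1368) (nat_lit 22138765917) (nat_lit 283) (nat_lit 5) (nat_lit 300) (nat_lit 5) (nat_lit 301) (nat_lit 5) (nat_lit 470) (nat_lit 454) (nat_lit 276)))))) (XT.nd (nat_lit 624) (nat_lit 2128) (nat_lit 0) (XT.nd (nat_lit 312) (nat_lit 1140) (nat_lit 0) (XT.nd (nat_lit 156) (nat_lit 1368) (nat_lit 0) (XT.nd (nat_lit 78) (nat_lit 0) (nat_lit 0) (XT.lf (nat_lit 0) (nat_lit 2519334670) (nat_lit 1292) (nat_lit 15422023844) (nat_lit 76) (nat_lit 8179852160) (nat_lit 284) (nat_lit 5) (nat_lit 301) (nat_lit 5) (nat_lit 285)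 (nat_lit 5) (nat_lit 471) (nat_lit 454) (nat_lit 275)) (XT.lf (nat_lit 0) (nat_lit 4791919371) (nat_lit 1292) (nat_lit 1505715773) (nat_lit 76) (nat_lit 20245038300) (nat_lit 284) (nat_lit 5) (nat_lit 301) (nat_lit 5) (nat_lit 285) (nat_lit 5) (nat_lit 472) (nat_lit 454) (nat_lit 274))) (XT.nd (nat_lit 78) (nat_lit 608) (nat_lit 0) (XT.lf (nat_lit 0) (nat_lit 7310409352) (nat_lit 836) (nat_lit 13949366335) (nat_lit 76) (nat_lit 5711673091) (nat_lit 274) (nat_lit 5) (nat_lit 285) (nat_lit 5) (nat_lit 275) (nat_lit 5) (nat_lit 473) (nat_lit 454) (nat_lit 273)) (XT.lf (nat_lit 0) (nat_lit 548506472) (nat_lit 608) (nat_lit 9435015043) (nat_lit 684) (nat_lit 17427194335) (nat_lit 266) (nat_lit 5) (nat_lit 274) (nat_lit 5) (nat_lit 275) (nat_lit 5) (nat_lit 474) (nat_lit 454) (nat_lit 272)))) (XT.nd (nat_lit 156) (nat_lit 532) (nat_lit 0) (XT.nd (nat_lit 78) (nat_lit 608) (nat_lit 0) (XT.lf (nat_lit 0) (nat_lit 12901632909)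 (nat_lit 684) (nat_lit 12123172211) (nat_lit 76) (nat_lit 2833412123) (nat_lit 266) (nat_lit 5) (nat_lit 275) (nat_lit 5) (nat_lit 267) (nat_lit 5) (nat_lit 475) (nat_lit 454) (nat_lit 271)) (XT.lf (nat_lit 0) (nat_lit 3019933801) (nat_lit 608) (nat_lit 13006079139) (nat_lit 684) (nat_lit 12289569451) (nat_lit 258) (nat_lit 5) (nat_lit 266) (nat_lit 5) (nat_lit 267) (nat_lit 5) (nat_lit 476) (nat_lit 454) (nat_lit 270))) (XT.nd (nat_lit 78) (nat_lit 532) (nat_lit 0) (XT.lf (nat_lit 0) (nat_lit 18862265525) (nat_lit 608) (nat_lit 500632903) (nat_lit 684) (nat_lit 9420207301) (nat_lit 258) (nat_lit 5) (nat_lit 266) (nat_lit 5) (nat_lit 267) (nat_lit 5) (nat_lit 477) (nat_lit 454) (nat_lit 269)) (XT.lf (nat_lit 0) (nat_lit 5907909536) (nat_lit 532) (nat_lit 17064235898) (nat_lit 608) (nat_lit 6287342131) (nat_lit 251) (nat_lit 5) (nat_lit 258) (nat_lit 5) (nat_lit 259) (nat_lit 5) (nat_lit 478) (nat_lit 454) (nat_lit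 268))))) (XT.nd (nat_lit 312) (nat_lit 988) (nat_lit 0) (XT.nd (nat_lit 156) (nat_lit 532) (nat_lit 0) (XT.nd (nat_lit 78) (nat_lit 608) (nat_lit 0) (XT.lf (nat_lit 0) (nat_lit 22406285409) (nat_lit 532) (nat_lit 4385003219) (nat_lit 608) (nat_lit 2955824094) (nat_lit 251) (nat_lit 5) (nat_lit 258) (nat_lit 5) (nat_lit 259) (nat_lit 5) (nat_lit 479) (nat_lit 454) (nat_lit 267)) (XT.lf (nat_lit 0) (nat_lit 636901209) (nat_lit 608) (nat_lit 21006852876) (nat_lit 76) (nat_lit 8600359499) (nat_lit 243) (nat_lit 5) (nat_lit 251) (nat_lit 5) (nat_lit 244) (nat_lit 5) (nat_lit 480) (nat_lit 454) (nat_lit 266))) (XT.nd (nat_lit 78) (nat_lit 532) (nat_lit 0) (XT.lf (nat_lit 0) (nat_lit 4392938120) (nat_lit 608) (nat_lit 4367622842) (nat_lit 76) (nat_lit 21991137766) (nat_lit 243) (nat_lit 5) (nat_lit 251) (nat_lit 5) (nat_lit 244) (nat_lit 5) (nat_lit 481) (nat_lit 454) (nat_lit 265)) (XT.lf (nat_lit 0) (nat_lit 8428165874)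 (nat_lit 608) (nat_lit 18294030665) (nat_lit 76) (nat_lit 4547319979) (nat_lit 236) (nat_lit 5) (nat_lit 244) (nat_lit 5) (nat_lit 237) (nat_lit 5) (nat_lit 482) (nat_lit 454) (nat_lit 264)))) (XT.nd (nat_lit 156) (nat_lit 456) (nat_lit 0) (XT.nd (nat_lit 78) (nat_lit 532) (nat_lit 0) (XT.lf (nat_lit 0) (nat_lit 12712547104) (nat_lit 608) (nat_lit 963833780) (nat_lit 76) (nat_lit 18122645431) (nat_lit 236) (nat_lit 5) (nat_lit 244) (nat_lit 5) (nat_lit 237) (nat_lit 5) (nat_lit 483) (nat_lit 454) (nat_lit 263)) (XT.lf (nat_lit 0) (nat_lit 17218840550) (nat_lit 532) (nat_lit 69047262) (nat_lit 608) (nat_lit 15051661115) (nat_lit 229) (nat_lit 5) (nat_lit 236) (nat_lit 5) (nat_lit 237) (nat_lit 5) (nat_lit 484) (nat_lit 454) (nat_lit 262))) (XT.nd (nat_lit 78) (nat_lit 0) (nat_lit 0) (XT.lf (nat_lit 0) (nat_lit 2991489276) (nat_lit 456) (nat_lit 19178610902) (nat_lit 532) (nat_lit 10721099045) (nat_lit 223) (nat_lit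 5) (nat_lit 229) (nat_lit 5) (nat_lit 230) (nat_lit 5) (nat_lit 485) (nat_lit 454) (nat_lit 261)) (XT.lf (nat_lit 0) (nat_lit 21952865210) (nat_lit 456) (nat_lit 5396299279) (nat_lit 532) (nat_lit 6105723314) (nat_lit 223) (nat_lit 5) (nat_lit 229) (nat_lit 5) (nat_lit 230) (nat_lit 5) (nat_lit 486) (nat_lit 454) (nat_lit 260))))))))
noncomputable def xc206 : XT := (XT.nd (nat_lit 2340) (nat_lit 3648) (nat_lit 0) (XT.nd (nat_lit 1170) (nat_lit 2812) (nat_lit 0) (XT.nd (nat_lit 546) (nat_lit 2052) (nat_lit 0) (XT.nd (nat_lit 234) (nat_lit 836) (nat_lit 0) (XT.nd (nat_lit 78) (nat_lit 532) (nat_lit 0) (XT.lf (nat_lit 0) (nat_lit 7506047001) (nat_lit 456) (nat_lit 25331394020) (nat_lit 532) (nat_lit 1193431142) (nat_lit 217) (nat_lit 5) (nat_lit 223) (nat_lit 5) (nat_lit 224) (nat_lit 5) (nat_lit 487) (nat_lit 454) (nat_lit 259)) (XT.nd (nat_lit 78) (nat_lit 456) (nat_lit 0) (XT.lf (nat_lit 0) (nat_lit 3958637110)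 (nat_lit 532) (nat_lit 7395712268) (nat_lit 76) (nat_lit 23263636509) (nat_lit 216) (nat_lit 5) (nat_lit 223) (nat_lit 5) (nat_lit 217) (nat_lit 5) (nat_lit 488) (nat_lit 454) (nat_lit 258)) (XT.lf (nat_lit 0) (nat_lit 9389546372) (nat_lit 532) (nat_lit 22712634438) (nat_lit 76) (nat_lit 3115730057) (nat_lit 210) (nat_lit 5) (nat_lit 217) (nat_lit 5) (nat_lit 211) (nat_lit 5) (nat_lit 489) (nat_lit 454) (nat_lit 257)))) (XT.nd (nat_lit 156) (nat_lit 380) (nat_lit 0) (XT.nd (nat_lit 78) (nat_lit 456) (nat_lit 0) (XT.lf (nat_lit 0) (nat_lit 15168476183) (nat_lit 532) (nat_lit 2795251901) (nat_lit 76) (nat_lit 17866553009) (nat_lit 210) (nat_lit 5) (nat_lit 217) (nat_lit 5) (nat_lit 211) (nat_lit 5) (nat_lit 490) (nat_lit 454) (nat_lit 256)) (XT.lf (nat_lit 0) (nat_lit 18068941582) (nat_lit 456) (nat_lit 3222854405) (nat_lit 532) (nat_lit 15164096063) (nat_lit 204) (nat_lit 5) (nat_lit 210) (nat_lit 5) (nat_lit 211)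 (nat_lit 5) (nat_lit 491) (nat_lit 454) (nat_lit 255))) (XT.nd (nat_lit 78) (nat_lit 0) (nat_lit 0) (XT.lf (nat_lit 0) (nat_lit 2446078388) (nat_lit 380) (nat_lit 25317097870) (nat_lit 456) (nat_lit 9332164527) (nat_lit 199) (nat_lit 5) (nat_lit 204) (nat_lit 5) (nat_lit 205) (nat_lit 5) (nat_lit 492) (nat_lit 454) (nat_lit 254)) (XT.lf (nat_lit 0) (nat_lit 24245159814) (nat_lit 380) (nat_lit 10398224052) (nat_lit 456) (nat_lit 3104148808) (nat_lit 199) (nat_lit 5) (nat_lit 204) (nat_lit 5) (nat_lit 205) (nat_lit 5) (nat_lit 493) (nat_lit 454) (nat_lit 253))))) (XT.nd (nat_lit 312) (nat_lit 1140) (nat_lit 0) (XT.nd (nat_lit 156) (nat_lit 380) (nat_lit 0) (XT.nd (nat_lit 78) (nat_lit 0) (nat_lit 0) (XT.lf (nat_lit 0) (nat_lit 3373258622) (nat_lit 532) (nat_lit 30056948209) (nat_lit 76) (nat_lit 4984314352) (nat_lit 192) (nat_lit 5) (nat_lit 199) (nat_lit 5) (nat_lit 193) (nat_lit 5) (nat_lit 494) (nat_lit 454) (nat_lit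 252)) (XT.lf (nat_lit 0) (nat_lit 10220751047) (nat_lit 532) (nat_lit 8085661556) (nat_lit 76) (nat_lit 20787040376) (nat_lit 192) (nat_lit 5) (nat_lit 199) (nat_lit 5) (nat_lit 193) (nat_lit 5) (nat_lit 495) (nat_lit 454) (nat_lit 251))) (XT.nd (nat_lit 78) (nat_lit 0) (nat_lit 0) (XT.lf (nat_lit 0) (nat_lit 14830966962) (nat_lit 380) (nat_lit 2582841249) (nat_lit 456) (nat_lit 22374740557) (nat_lit 187) (nat_lit 5) (nat_lit 192) (nat_lit 5) (nat_lit 193) (nat_lit 5) (nat_lit 496) (nat_lit 454) (nat_lit 250)) (XT.lf (nat_lit 0) (nat_lit 25033574110) (nat_lit 456) (nat_lit 2036100082) (nat_lit 76) (nat_lit 13428495959) (nat_lit 187) (nat_lit 5) (nat_lit 193) (nat_lit 5) (nat_lit 188) (nat_lit 5) (nat_lit 497) (nat_lit 454) (nat_lit 249)))) (XT.nd (nat_lit 156) (nat_lit 456) (nat_lit 0) (XT.nd (nat_lit 78) (nat_lit 304) (nat_lit 0) (XT.lf (nat_lit 0) (nat_lit 21973086577) (nat_lit 380) (nat_lit 11143315718) (nat_lit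 456) (nat_lit 8105644028) (nat_lit 182) (nat_lit 5) (nat_lit 187) (nat_lit 5) (nat_lit 188) (nat_lit 5) (nat_lit 498) (nat_lit 454) (nat_lit 248)) (XT.lf (nat_lit 0) (nat_lit 4817323428) (nat_lit 304) (nat_lit 36739741170) (nat_lit 380) (nat_lit 407113922) (nat_lit 178) (nat_lit 5) (nat_lit 182) (nat_lit 5) (nat_lit 183) (nat_lit 5) (nat_lit 499) (nat_lit 454) (nat_lit 247))) (XT.nd (nat_lit 78) (nat_lit 380) (nat_lit 0) (XT.lf (nat_lit 0) (nat_lit 7679936361) (nat_lit 380) (nat_lit 12910312877) (nat_lit 76) (nat_lit 22127025776) (nat_lit 177) (nat_lit 5) (nat_lit 182) (nat_lit 5) (nat_lit 178) (nat_lit 5) (nat_lit 500) (nat_lit 454) (nat_lit 246)) (XT.lf (nat_lit 0) (nat_lit 12285945221) (nat_lit 380) (nat_lit 3831358441) (nat_lit 456) (nat_lit 27372063374) (nat_lit 172) (nat_lit 5) (nat_lit 177) (nat_lit 5) (nat_lit 178) (nat_lit 5) (nat_lit 501) (nat_lit 454) (nat_lit 245)))))) (XT.nd (nat_lit 546) (nat_lit 1520)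 (nat_lit 0) (XT.nd (nat_lit 234) (nat_lit 684) (nat_lit 0) (XT.nd (nat_lit 78) (nat_lit 608) (nat_lit 0) (XT.lf (nat_lit 0) (nat_lit 25066366412) (nat_lit 456) (nat_lit 5911481234) (nat_lit 76) (nat_lit 13299017133) (nat_lit 172) (nat_lit 5) (nat_lit 178) (nat_lit 5) (nat_lit 173) (nat_lit 5) (nat_lit 502) (nat_lit 454) (nat_lit 244)) (XT.nd (nat_lit 78) (nat_lit 304) (nat_lit 0) (XT.lf (nat_lit 0) (nat_lit 20498249587) (nat_lit 304) (nat_lit 14018505621) (nat_lit 380) (nat_lit 10564246811) (nat_lit 168) (nat_lit 5) (nat_lit 172) (nat_lit 5) (nat_lit 173) (nat_lit 5) (nat_lit 503) (nat_lit 454) (nat_lit 243)) (XT.lf (nat_lit 0) (nat_lit 1914535147) (nat_lit 304) (nat_lit 42445871866) (nat_lit 380) (nat_lit 1545564005) (nat_lit 164) (nat_lit 5) (nat_lit 168) (nat_lit 5) (nat_lit 169) (nat_lit 5) (nat_lit 504) (nat_lit 454) (nat_lit 242)))) (XT.nd (nat_lit 156) (nat_lit 304) (nat_lit 0) (XT.nd (nat_lit 78) (nat_lit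 304) (nat_lit 0) (XT.lf (nat_lit 0) (nat_lit 7979978536) (nat_lit 380) (nat_lit 17256334736) (nat_lit 76) (nat_lit 21505520690) (nat_lit 163) (nat_lit 5) (nat_lit 168) (nat_lit 5) (nat_lit 164) (nat_lit 5) (nat_lit 505) (nat_lit 454) (nat_lit 241)) (XT.lf (nat_lit 0) (nat_lit 10466786188) (nat_lit 304) (nat_lit 7392024618) (nat_lit 380) (nat_lit 29740545443) (nat_lit 159) (nat_lit 5) (nat_lit 163) (nat_lit 5) (nat_lit 164) (nat_lit 5) (nat_lit 506) (nat_lit 454) (nat_lit 240))) (XT.nd (nat_lit 78) (nat_lit 304) (nat_lit 0) (XT.lf (nat_lit 0) (nat_lit 28313604085) (nat_lit 380) (nat_lit 9212379645) (nat_lit 76) (nat_lit 10948232758) (nat_lit 159) (nat_lit 5) (nat_lit 164) (nat_lit 5) (nat_lit 160) (nat_lit 5) (nat_lit 507) (nat_lit 454) (nat_lit 239)) (XT.lf (nat_lit 0) (nat_lit 19856796006) (nat_lit 304) (nat_lit 19487363685) (nat_lit 380) (nat_lit 10023299444) (nat_lit 155) (nat_lit 5) (nat_lit 159) (nat_lit 5)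 (nat_lit 160) (nat_lit 5) (nat_lit 508) (nat_lit 454) (nat_lit 238))))) (XT.nd (nat_lit 312) (nat_lit 836) (nat_lit 0) (XT.nd (nat_lit 156) (nat_lit 304) (nat_lit 0) (XT.nd (nat_lit 78) (nat_lit 304) (nat_lit 0) (XT.lf (nat_lit 0) (nat_lit 501985996) (nat_lit 380) (nat_lit 305676854) (nat_lit 76) (nat_lit 49476955409) (nat_lit 154) (nat_lit 5) (nat_lit 159) (nat_lit 5) (nat_lit 155) (nat_lit 5) (nat_lit 509) (nat_lit 454) (nat_lit 237)) (XT.lf (nat_lit 0) (nat_lit 11611645381) (nat_lit 380) (nat_lit 21134739417) (nat_lit 76) (nat_lit 18465828073) (nat_lit 150) (nat_lit 5) (nat_lit 155) (nat_lit 5) (nat_lit 151) (nat_lit 5) (nat_lit 510) (nat_lit 454) (nat_lit 236))) (XT.nd (nat_lit 78) (nat_lit 0) (nat_lit 0) (XT.lf (nat_lit 0) (nat_lit 9383058131) (nat_lit 304) (nat_lit 13770985360) (nat_lit 380) (nat_lit 29010608502) (nat_lit 146) (nat_lit 5) (nat_lit 150) (nat_lit 5) (nat_lit 151) (nat_lit 5) (nat_lit 511) (nat_lit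 454) (nat_lit 235)) (XT.lf (nat_lit 0) (nat_lit 35311902930) (nat_lit 380) (nat_lit 11950115005) (nat_lit 76) (nat_lit 5875570809) (nat_lit 146) (nat_lit 5) (nat_lit 151) (nat_lit 5) (nat_lit 147) (nat_lit 5) (nat_lit 512) (nat_lit 454) (nat_lit 234)))) (XT.nd (nat_lit 156) (nat_lit 532) (nat_lit 0) (XT.nd (nat_lit 78) (nat_lit 76) (nat_lit 0) (XT.lf (nat_lit 0) (nat_lit 20058589615) (nat_lit 228) (nat_lit 28103280834) (nat_lit 304) (nat_lit 5968022111) (nat_lit 143) (nat_lit 5) (nat_lit 146) (nat_lit 5) (nat_lit 147) (nat_lit 5) (nat_lit 513) (nat_lit 454) (nat_lit 233)) (XT.lf (nat_lit 0) (nat_lit 6243587791) (nat_lit 304) (nat_lit 1939849201) (nat_lit 76) (nat_lit 46963125012) (nat_lit 142) (nat_lit 5) (nat_lit 146) (nat_lit 5) (nat_lit 143) (nat_lit 5) (nat_lit 514) (nat_lit 454) (nat_lit 232))) (XT.nd (nat_lit 78) (nat_lit 228) (nat_lit 0) (XT.lf (nat_lit 0) (nat_lit 19126861425) (nat_lit 380) (nat_lit 24592450479)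 (nat_lit 76) (nat_lit 12459889069) (nat_lit 138) (nat_lit 5) (nat_lit 143) (nat_lit 5) (nat_lit 139) (nat_lit 5) (nat_lit 515) (nat_lit 454) (nat_lit 231)) (XT.lf (nat_lit 0) (nat_lit 9008522810) (nat_lit 228) (nat_lit 23573798095) (nat_lit 304) (nat_lit 24654927693) (nat_lit 135) (nat_lit 5) (nat_lit 138) (nat_lit 5) (nat_lit 139) (nat_lit 5) (nat_lit 516) (nat_lit 454) (nat_lit 230))))))) (XT.nd (nat_lit 1170) (nat_lit 1444) (nat_lit 0) (XT.nd (nat_lit 546) (nat_lit 1140) (nat_lit 0) (XT.nd (nat_lit 234) (nat_lit 760) (nat_lit 0) (XT.nd (nat_lit 78) (nat_lit 304) (nat_lit 0) (XT.lf (nat_lit 0) (nat_lit 44118943605) (nat_lit 228) (nat_lit 2569145509) (nat_lit 304) (nat_lit 11631549304) (nat_lit 135) (nat_lit 5) (nat_lit 138) (nat_lit 5) (nat_lit 139) (nat_lit 5) (nat_lit 517) (nat_lit 454) (nat_lit 229)) (XT.nd (nat_lit 78) (nat_lit 0) (nat_lit 0) (XT.lf (nat_lit 0) (nat_lit 2135741479) (nat_lit 304) (nat_lit 38370451390)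 (nat_lit 76) (nat_lit 18916153289) (nat_lit 131) (nat_lit 5) (nat_lit 135) (nat_lit 5) (nat_lit 132) (nat_lit 5) (nat_lit 518) (nat_lit 454) (nat_lit 228)) (XT.lf (nat_lit 0) (nat_lit 16250880120) (nat_lit 304) (nat_lit 3045362239) (nat_lit 76) (nat_lit 41253379607) (nat_lit 131) (nat_lit 5) (nat_lit 135) (nat_lit 5) (nat_lit 132) (nat_lit 5) (nat_lit 519) (nat_lit 454) (nat_lit 227)))) (XT.nd (nat_lit 156) (nat_lit 304) (nat_lit 0) (XT.nd (nat_lit 78) (nat_lit 228) (nat_lit 0) (XT.lf (nat_lit 0) (nat_lit 31142447349) (nat_lit 304) (nat_lit 27728341610) (nat_lit 76) (nat_lit 2829337957) (nat_lit 128) (nat_lit 5) (nat_lit 132) (nat_lit 5) (nat_lit 129) (nat_lit 5) (nat_lit 520) (nat_lit 454) (nat_lit 226)) (XT.lf (nat_lit 0) (nat_lit 9264471296) (nat_lit 228) (nat_lit 37525870503) (nat_lit 304) (nat_lit 16085517908) (nat_lit 125) (nat_lit 5) (nat_lit 128) (nat_lit 5) (nat_lit 129) (nat_lit 5) (nat_lit 521) (nat_lit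 454) (nat_lit 225))) (XT.nd (nat_lit 78) (nat_lit 304) (nat_lit 0) (XT.lf (nat_lit 0) (nat_lit 47932892657) (nat_lit 228) (nat_lit 15253219521) (nat_lit 304) (nat_lit 892399228) (nat_lit 125) (nat_lit 5) (nat_lit 128) (nat_lit 5) (nat_lit 129) (nat_lit 5) (nat_lit 522) (nat_lit 454) (nat_lit 224)) (XT.lf (nat_lit 0) (nat_lit 14763110238) (nat_lit 304) (nat_lit 42640383212) (nat_lit 76) (nat_lit 7900657338) (nat_lit 121) (nat_lit 5) (nat_lit 125) (nat_lit 5) (nat_lit 122) (nat_lit 5) (nat_lit 523) (nat_lit 454) (nat_lit 223))))) (XT.nd (nat_lit 312) (nat_lit 684) (nat_lit 0) (XT.nd (nat_lit 156) (nat_lit 228) (nat_lit 0) (XT.nd (nat_lit 78) (nat_lit 228) (nat_lit 0) (XT.lf (nat_lit 0) (nat_lit 31184502485) (nat_lit 304) (nat_lit 3757281382) (nat_lit 76) (nat_lit 31615085888) (nat_lit 121) (nat_lit 5) (nat_lit 125) (nat_lit 5) (nat_lit 122) (nat_lit 5) (nat_lit 524) (nat_lit 454) (nat_lit 222)) (XT.lf (nat_lit 0)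 (nat_lit 37012080471) (nat_lit 228) (nat_lit 11440761623) (nat_lit 304) (nat_lit 19383699114) (nat_lit 118) (nat_lit 5) (nat_lit 121) (nat_lit 5) (nat_lit 122) (nat_lit 5) (nat_lit 525) (nat_lit 454) (nat_lit 221))) (XT.nd (nat_lit 78) (nat_lit 76) (nat_lit 0) (XT.lf (nat_lit 0) (nat_lit 9997602903) (nat_lit 152) (nat_lit 56497289496) (nat_lit 228) (nat_lit 2652040673) (nat_lit 116) (nat_lit 5) (nat_lit 118) (nat_lit 5) (nat_lit 119) (nat_lit 5) (nat_lit 526) (nat_lit 454) (nat_lit 220)) (XT.lf (nat_lit 0) (nat_lit 14723189451) (nat_lit 228) (nat_lit 18070109619) (nat_lit 76) (nat_lit 37686347866) (nat_lit 115) (nat_lit 5) (nat_lit 118) (nat_lit 5) (nat_lit 116) (nat_lit 5) (nat_lit 527) (nat_lit 454) (nat_lit 219)))) (XT.nd (nat_lit 156) (nat_lit 456) (nat_lit 0) (XT.nd (nat_lit 78) (nat_lit 0) (nat_lit 0) (XT.lf (nat_lit 0) (nat_lit 24694697712) (nat_lit 228) (nat_lit 8107636018) (nat_lit 304) (nat_lit 39042142007)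 (nat_lit 112) (nat_lit 5) (nat_lit 115) (nat_lit 5) (nat_lit 116) (nat_lit 5) (nat_lit 528) (nat_lit 454) (nat_lit 218)) (XT.lf (nat_lit 0) (nat_lit 51773197589) (nat_lit 304) (nat_lit 4302613479) (nat_lit 76) (nat_lit 17163958050) (nat_lit 112) (nat_lit 5) (nat_lit 116) (nat_lit 5) (nat_lit 113) (nat_lit 5) (nat_lit 529) (nat_lit 454) (nat_lit 217))) (XT.nd (nat_lit 78) (nat_lit 304) (nat_lit 0) (XT.lf (nat_lit 0) (nat_lit 40538389514) (nat_lit 152) (nat_lit 31243381336) (nat_lit 228) (nat_lit 2881093017) (nat_lit 110) (nat_lit 5) (nat_lit 112) (nat_lit 5) (nat_lit 113) (nat_lit 5) (nat_lit 530) (nat_lit 454) (nat_lit 216)) (XT.lf (nat_lit 0) (nat_lit 10735862248) (nat_lit 228) (nat_lit 5354470312) (nat_lit 304) (nat_lit 60029258013) (nat_lit 106) (nat_lit 5) (nat_lit 109) (nat_lit 5) (nat_lit 110) (nat_lit 5) (nat_lit 531) (nat_lit 454) (nat_lit 215)))))) (XT.nd (nat_lit 624) (nat_lit 684) (nat_lit 0) (XT.nd (nat_lit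 312) (nat_lit 380) (nat_lit 0) (XT.nd (nat_lit 156) (nat_lit 228) (nat_lit 0) (XT.nd (nat_lit 78) (nat_lit 152) (nat_lit 0) (XT.lf (nat_lit 0) (nat_lit 36124493249) (nat_lit 304) (nat_lit 20207312005) (nat_lit 76) (nat_lit 21270813138) (nat_lit 106) (nat_lit 5) (nat_lit 110) (nat_lit 5) (nat_lit 107) (nat_lit 5) (nat_lit 532) (nat_lit 454) (nat_lit 214)) (XT.lf (nat_lit 0) (nat_lit 26791892471) (nat_lit 152) (nat_lit 30277022446) (nat_lit 228) (nat_lit 22051945106) (nat_lit 104) (nat_lit 5) (nat_lit 106) (nat_lit 5) (nat_lit 107) (nat_lit 5) (nat_lit 533) (nat_lit 454) (nat_lit 213))) (XT.nd (nat_lit 78) (nat_lit 228) (nat_lit 0) (XT.lf (nat_lit 0) (nat_lit 75613029578) (nat_lit 152) (nat_lit 3231391974) (nat_lit 228) (nat_lit 1834144843) (nat_lit 104) (nat_lit 5) (nat_lit 106) (nat_lit 5) (nat_lit 107) (nat_lit 5) (nat_lit 534) (nat_lit 454) (nat_lit 212)) (XT.lf (nat_lit 0) (nat_lit 19286870542) (nat_lit 228)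 (nat_lit 38212141382) (nat_lit 76) (nat_lit 24758498290) (nat_lit 101) (nat_lit 5) (nat_lit 104) (nat_lit 5) (nat_lit 102) (nat_lit 5) (nat_lit 535) (nat_lit 454) (nat_lit 211)))) (XT.nd (nat_lit 156) (nat_lit 228) (nat_lit 0) (XT.nd (nat_lit 78) (nat_lit 0) (nat_lit 0) (XT.lf (nat_lit 0) (nat_lit 11013158834) (nat_lit 152) (nat_lit 30179740933) (nat_lit 228) (nat_lit 42684730405) (nat_lit 99) (nat_lit 5) (nat_lit 101) (nat_lit 5) (nat_lit 102) (nat_lit 5) (nat_lit 536) (nat_lit 454) (nat_lit 210)) (XT.lf (nat_lit 0) (nat_lit 62496311769) (nat_lit 152) (nat_lit 1644411696) (nat_lit 228) (nat_lit 21394091910) (nat_lit 99) (nat_lit 5) (nat_lit 101) (nat_lit 5) (nat_lit 102) (nat_lit 5) (nat_lit 537) (nat_lit 454) (nat_lit 209))) (XT.nd (nat_lit 78) (nat_lit 0) (nat_lit 0) (XT.lf (nat_lit 0) (nat_lit 1070303547) (nat_lit 228) (nat_lit 58665143369) (nat_lit 76) (nat_lit 27489750428) (nat_lit 96) (nat_lit 5) (nat_lit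 99) (nat_lit 5) (nat_lit 97) (nat_lit 5) (nat_lit 538) (nat_lit 454) (nat_lit 208)) (XT.lf (nat_lit 0) (nat_lit 24028635574) (nat_lit 228) (nat_lit 7013067576) (nat_lit 76) (nat_lit 57910732847) (nat_lit 96) (nat_lit 5) (nat_lit 99) (nat_lit 5) (nat_lit 97) (nat_lit 5) (nat_lit 539) (nat_lit 454) (nat_lit 207))))) (XT.nd (nat_lit 312) (nat_lit 152) (nat_lit 0) (XT.nd (nat_lit 156) (nat_lit 228) (nat_lit 0) (XT.nd (nat_lit 78) (nat_lit 152) (nat_lit 0) (XT.lf (nat_lit 0) (nat_lit 47105651277) (nat_lit 152) (nat_lit 1021686612) (nat_lit 228) (nat_lit 42590605360) (nat_lit 94) (nat_lit 5) (nat_lit 96) (nat_lit 5) (nat_lit 97) (nat_lit 5) (nat_lit 540) (nat_lit 454) (nat_lit 206)) (XT.lf (nat_lit 0) (nat_lit 10369514423) (nat_lit 152) (nat_lit 63036908691) (nat_lit 228) (nat_lit 19116269995) (nat_lit 92) (nat_lit 5) (nat_lit 94) (nat_lit 5) (nat_lit 95) (nat_lit 5) (nat_lit 541) (nat_lit 454) (nat_lit 205))) (XT.nd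 (nat_lit 78) (nat_lit 152) (nat_lit 0) (XT.lf (nat_lit 0) (nat_lit 5417206648) (nat_lit 228) (nat_lit 27568855632) (nat_lit 76) (nat_lit 61380452529) (nat_lit 91) (nat_lit 5) (nat_lit 94) (nat_lit 5) (nat_lit 92) (nat_lit 5) (nat_lit 542) (nat_lit 454) (nat_lit 204)) (XT.lf (nat_lit 0) (nat_lit 29028103568) (nat_lit 152) (nat_lit 1552256287) (nat_lit 228) (nat_lit 65671276537) (nat_lit 89) (nat_lit 5) (nat_lit 91) (nat_lit 5) (nat_lit 92) (nat_lit 5) (nat_lit 543) (nat_lit 454) (nat_lit 203)))) (XT.nd (nat_lit 55536) (nat_lit 0) (nat_lit 15656) (XT.nd (nat_lit 78) (nat_lit 152) (nat_lit 0) (XT.lf (nat_lit 0) (nat_lit 57074719343) (nat_lit 228) (nat_lit 10597986088) (nat_lit 76) (nat_lit 30503316882) (nat_lit 89) (nat_lit 5) (nat_lit 92) (nat_lit 5) (nat_lit 90) (nat_lit 5) (nat_lit 544) (nat_lit 454) (nat_lit 202)) (XT.lf (nat_lit 0) (nat_lit 48658448751) (nat_lit 152) (nat_lit 36187457117) (nat_lit 228) (nat_lit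 15297774097) (nat_lit 87) (nat_lit 5) (nat_lit 89) (nat_lit 5) (nat_lit 90) (nat_lit 5) (nat_lit 545) (nat_lit 454) (nat_lit 201))) (XT.nd (nat_lit 78) (nat_lit 0) (nat_lit 0) (XT.lf (nat_lit 0) (nat_lit 3405353436) (nat_lit 1292) (nat_lit 3484481031) (nat_lit 1292) (nat_lit 3484481031) (nat_lit 293) (nat_lit 3) (nat_lit 310) (nat_lit 3) (nat_lit 310) (nat_lit 5) (nat_lit 455) (nat_lit 455) (nat_lit 290)) (XT.lf (nat_lit 76) (nat_lit 3345984659) (nat_lit 0) (nat_lit 3751499441) (nat_lit 1292) (nat_lit 13956816669) (nat_lit 294) (nat_lit 5) (nat_lit 293) (nat_lit 3) (nat_lit 310) (nat_lit 5) (nat_lit 456) (nat_lit 455) (nat_lit 289))))))))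
noncomputable def xc207 : XT := (XT.nd (nat_lit 2340) (nat_lit 6688) (nat_lit 0) (XT.nd (nat_lit 1170) (nat_lit 4560) (nat_lit 0) (XT.nd (nat_lit 546) (nat_lit 836) (nat_lit 0) (XT.nd (nat_lit 234) (nat_lit 0) (nat_lit 76) (XT.nd (nat_lit 78) (nat_lit 0) (nat_lit 0) (XT.lf (nat_lit 0) (nat_lit 7521208935) (nat_lit 1216) (nat_lit 7321049856) (nat_lit 1292) (nat_lit 6523032341) (nat_lit 294) (nat_lit 5) (nat_lit 310) (nat_lit 5) (nat_lit 311) (nat_lit 5) (nat_lit 457) (nat_lit 455) (nat_lit 288)) (XT.nd (nat_lit 78) (nat_lit 0) (nat_lit 76) (XT.lf (nat_lit 76) (nat_lit 3403876584) (nat_lit 0) (nat_lit 4617853585) (nat_lit 1292) (nat_lit 13661959301) (nat_lit 295) (nat_lit 5) (nat_lit 294) (nat_lit 5) (nat_lit 311) (nat_lit 5) (nat_lit 458) (nat_lit 455) (nat_lit 287)) (XT.lf (nat_lit 0) (nat_lit 8663151250) (nat_lit 1216) (nat_lit 7469768672) (nat_lit 1292) (nat_lit 5874944090) (nat_lit 295) (nat_lit 5) (nat_lit 311)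 (nat_lit 5) (nat_lit 312) (nat_lit 5) (nat_lit 459) (nat_lit 455) (nat_lit 286)))) (XT.nd (nat_lit 156) (nat_lit 0) (nat_lit 76) (XT.nd (nat_lit 78) (nat_lit 0) (nat_lit 76) (XT.lf (nat_lit 76) (nat_lit 3687513318) (nat_lit 0) (nat_lit 5712015132) (nat_lit 1292) (nat_lit 12939964692) (nat_lit 296) (nat_lit 5) (nat_lit 295) (nat_lit 5) (nat_lit 312) (nat_lit 5) (nat_lit 460) (nat_lit 455) (nat_lit 285)) (XT.lf (nat_lit 0) (nat_lit 10277136512) (nat_lit 1216) (nat_lit 7398635169) (nat_lit 1292) (nat_lit 5001726014) (nat_lit 296) (nat_lit 5) (nat_lit 312) (nat_lit 5) (nat_lit 313) (nat_lit 5) (nat_lit 461) (nat_lit 455) (nat_lit 284))) (XT.nd (nat_lit 78) (nat_lit 0) (nat_lit 76) (XT.lf (nat_lit 76) (nat_lit 4214651750) (nat_lit 0) (nat_lit 7058336866) (nat_lit 1292) (nat_lit 11749897008) (nat_lit 297) (nat_lit 5) (nat_lit 296) (nat_lit 5) (nat_lit 313) (nat_lit 5) (nat_lit 462) (nat_lit 455) (nat_lit 283)) (XT.lf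 (nat_lit 0) (nat_lit 12406423923) (nat_lit 1216) (nat_lit 7089887544) (nat_lit 1292) (nat_lit 3879093186) (nat_lit 297) (nat_lit 5) (nat_lit 313) (nat_lit 5) (nat_lit 314) (nat_lit 5) (nat_lit 463) (nat_lit 455) (nat_lit 282))))) (XT.nd (nat_lit 312) (nat_lit 1064) (nat_lit 0) (XT.nd (nat_lit 156) (nat_lit 0) (nat_lit 76) (XT.nd (nat_lit 78) (nat_lit 0) (nat_lit 76) (XT.lf (nat_lit 76) (nat_lit 5004397934) (nat_lit 0) (nat_lit 8682582511) (nat_lit 1292) (nat_lit 10048125937) (nat_lit 298) (nat_lit 5) (nat_lit 297) (nat_lit 5) (nat_lit 314) (nat_lit 5) (nat_lit 464) (nat_lit 455) (nat_lit 281)) (XT.lf (nat_lit 0) (nat_lit 15097112419) (nat_lit 1216) (nat_lit 6524421318) (nat_lit 1292) (nat_lit 2481331317) (nat_lit 298) (nat_lit 5) (nat_lit 314) (nat_lit 5) (nat_lit 315) (nat_lit 5) (nat_lit 465) (nat_lit 455) (nat_lit 280))) (XT.nd (nat_lit 78) (nat_lit 0) (nat_lit 76) (XT.lf (nat_lit 76) (nat_lit 6077275352) (nat_lit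 0) (nat_lit 10612047565) (nat_lit 1292) (nat_lit 7788140964) (nat_lit 299) (nat_lit 5) (nat_lit 298) (nat_lit 5) (nat_lit 315) (nat_lit 5) (nat_lit 466) (nat_lit 455) (nat_lit 279)) (XT.lf (nat_lit 0) (nat_lit 18398333985) (nat_lit 1216) (nat_lit 5681720526) (nat_lit 1292) (nat_lit 781175751) (nat_lit 299) (nat_lit 5) (nat_lit 315) (nat_lit 5) (nat_lit 316) (nat_lit 5) (nat_lit 467) (nat_lit 455) (nat_lit 278)))) (XT.nd (nat_lit 156) (nat_lit 1216) (nat_lit 0) (XT.nd (nat_lit 78) (nat_lit 0) (nat_lit 0) (XT.lf (nat_lit 76) (nat_lit 7455297964) (nat_lit 0) (nat_lit 12875685823) (nat_lit 1292) (nat_lit 4920355393) (nat_lit 300) (nat_lit 5) (nat_lit 299) (nat_lit 5) (nat_lit 316) (nat_lit 5) (nat_lit 468) (nat_lit 455) (nat_lit 277)) (XT.lf (nat_lit 76) (nat_lit 21099516686) (nat_lit 0) (nat_lit 1275199058) (nat_lit 1292) (nat_lit 3276843121) (nat_lit 300) (nat_lit 5) (nat_lit 299) (nat_lit 5) (nat_lit 316) (nat_lit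 5) (nat_lit 469) (nat_lit 455) (nat_lit 276))) (XT.nd (nat_lit 78) (nat_lit 1292) (nat_lit 0) (XT.lf (nat_lit 76) (nat_lit 9162048199) (nat_lit 0) (nat_lit 15504242143) (nat_lit 1292) (nat_lit 1391899442) (nat_lit 301) (nat_lit 5) (nat_lit 300) (nat_lit 5) (nat_lit 317) (nat_lit 5) (nat_lit 470) (nat_lit 455) (nat_lit 275)) (XT.lf (nat_lit 0) (nat_lit 593824126) (nat_lit 1292) (nat_lit 3116594162) (nat_lit 1368) (nat_lit 22764794700) (nat_lit 283) (nat_lit 5) (nat_lit 300) (nat_lit 5) (nat_lit 301) (nat_lit 5) (nat_lit 471) (nat_lit 455) (nat_lit 274)))))) (XT.nd (nat_lit 546) (nat_lit 2660) (nat_lit 0) (XT.nd (nat_lit 234) (nat_lit 1216) (nat_lit 0) (XT.nd (nat_lit 78) (nat_lit 760) (nat_lit 0) (XT.lf (nat_lit 0) (nat_lit 2797914351) (nat_lit 1292) (nat_lit 15704224258) (nat_lit 76) (nat_lit 8396592235) (nat_lit 284) (nat_lit 5) (nat_lit 301) (nat_lit 5) (nat_lit 285) (nat_lit 5) (nat_lit 472) (nat_lit 455) (nat_lit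 273)) (XT.nd (nat_lit 78) (nat_lit 760) (nat_lit 0) (XT.lf (nat_lit 0) (nat_lit 5132763982) (nat_lit 1292) (nat_lit 1375683070) (nat_lit 76) (nat_lit 20824568584) (nat_lit 284) (nat_lit 5) (nat_lit 301) (nat_lit 5) (nat_lit 285) (nat_lit 5) (nat_lit 473) (nat_lit 455) (nat_lit 272)) (XT.lf (nat_lit 0) (nat_lit 7722548209) (nat_lit 836) (nat_lit 14188358037) (nat_lit 76) (nat_lit 5863876540) (nat_lit 274) (nat_lit 5) (nat_lit 285) (nat_lit 5) (nat_lit 275) (nat_lit 5) (nat_lit 474) (nat_lit 455) (nat_lit 271)))) (XT.nd (nat_lit 156) (nat_lit 608) (nat_lit 0) (XT.nd (nat_lit 78) (nat_lit 0) (nat_lit 0) (XT.lf (nat_lit 0) (nat_lit 742691256) (nat_lit 608) (nat_lit 9729254618) (nat_lit 684) (nat_lit 17755399949) (nat_lit 266) (nat_lit 5) (nat_lit 274) (nat_lit 5) (nat_lit 275) (nat_lit 5) (nat_lit 475) (nat_lit 455) (nat_lit 270)) (XT.lf (nat_lit 0) (nat_lit 13471993699) (nat_lit 684) (nat_lit 12308684223) (nat_lit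 76) (nat_lit 2907763240) (nat_lit 266) (nat_lit 5) (nat_lit 275) (nat_lit 5) (nat_lit 267) (nat_lit 5) (nat_lit 476) (nat_lit 455) (nat_lit 269))) (XT.nd (nat_lit 78) (nat_lit 0) (nat_lit 0) (XT.lf (nat_lit 0) (nat_lit 3286968075) (nat_lit 608) (nat_lit 13399493890) (nat_lit 684) (nat_lit 12473175272) (nat_lit 258) (nat_lit 5) (nat_lit 266) (nat_lit 5) (nat_lit 267) (nat_lit 5) (nat_lit 477) (nat_lit 455) (nat_lit 268)) (XT.lf (nat_lit 0) (nat_lit 19599430831) (nat_lit 608) (nat_lit 518790120) (nat_lit 684) (nat_lit 9523122973) (nat_lit 258) (nat_lit 5) (nat_lit 266) (nat_lit 5) (nat_lit 267) (nat_lit 5) (nat_lit 478) (nat_lit 455) (nat_lit 267))))) (XT.nd (nat_lit 312) (nat_lit 1520) (nat_lit 0) (XT.nd (nat_lit 156) (nat_lit 608) (nat_lit 0) (XT.nd (nat_lit 78) (nat_lit 0) (nat_lit 0) (XT.lf (nat_lit 0) (nat_lit 6259998105) (nat_lit 532) (nat_lit 17572318104) (nat_lit 608) (nat_lit 6299804519) (nat_lit 251) (nat_lit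 5) (nat_lit 258) (nat_lit 5) (nat_lit 259) (nat_lit 5) (nat_lit 479) (nat_lit 455) (nat_lit 266)) (XT.lf (nat_lit 0) (nat_lit 23248232499) (nat_lit 532) (nat_lit 4512820431) (nat_lit 608) (nat_lit 2873471753) (nat_lit 251) (nat_lit 5) (nat_lit 258) (nat_lit 5) (nat_lit 259) (nat_lit 5) (nat_lit 480) (nat_lit 455) (nat_lit 265))) (XT.nd (nat_lit 78) (nat_lit 0) (nat_lit 0) (XT.lf (nat_lit 0) (nat_lit 820528526) (nat_lit 608) (nat_lit 21460753635) (nat_lit 76) (nat_lit 8865199755) (nat_lit 243) (nat_lit 5) (nat_lit 251) (nat_lit 5) (nat_lit 244) (nat_lit 5) (nat_lit 481) (nat_lit 455) (nat_lit 264)) (XT.lf (nat_lit 0) (nat_lit 4684454692) (nat_lit 608) (nat_lit 4327481792) (nat_lit 76) (nat_lit 22657502453) (nat_lit 243) (nat_lit 5) (nat_lit 251) (nat_lit 5) (nat_lit 244) (nat_lit 5) (nat_lit 482) (nat_lit 455) (nat_lit 263)))) (XT.nd (nat_lit 156) (nat_lit 988) (nat_lit 0) (XT.nd (nat_lit 78) (nat_lit 0) (nat_lit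 0) (XT.lf (nat_lit 0) (nat_lit 8837839159) (nat_lit 608) (nat_lit 18668763383) (nat_lit 76) (nat_lit 4696276273) (nat_lit 236) (nat_lit 5) (nat_lit 244) (nat_lit 5) (nat_lit 237) (nat_lit 5) (nat_lit 483) (nat_lit 455) (nat_lit 262)) (XT.lf (nat_lit 0) (nat_lit 13246184011) (nat_lit 608) (nat_lit 823731122) (nat_lit 76) (nat_lit 18678496342) (nat_lit 236) (nat_lit 5) (nat_lit 244) (nat_lit 5) (nat_lit 237) (nat_lit 5) (nat_lit 484) (nat_lit 455) (nat_lit 261))) (XT.nd (nat_lit 78) (nat_lit 456) (nat_lit 0) (XT.lf (nat_lit 0) (nat_lit 17902766402) (nat_lit 532) (nat_lit 53192539) (nat_lit 608) (nat_lit 15349276122) (nat_lit 229) (nat_lit 5) (nat_lit 236) (nat_lit 5) (nat_lit 237) (nat_lit 5) (nat_lit 485) (nat_lit 455) (nat_lit 260)) (XT.lf (nat_lit 0) (nat_lit 3251239382) (nat_lit 456) (nat_lit 19730847331) (nat_lit 532) (nat_lit 10891425190) (nat_lit 223) (nat_lit 5) (nat_lit 229) (nat_lit 5) (nat_lit 230) (nat_lit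 5) (nat_lit 486) (nat_lit 455) (nat_lit 259))))))) (XT.nd (nat_lit 1170) (nat_lit 3192) (nat_lit 0) (XT.nd (nat_lit 546) (nat_lit 1672) (nat_lit 0) (XT.nd (nat_lit 234) (nat_lit 1292) (nat_lit 0) (XT.nd (nat_lit 78) (nat_lit 532) (nat_lit 0) (XT.lf (nat_lit 0) (nat_lit 22776504979) (nat_lit 456) (nat_lit 5535739813) (nat_lit 532) (nat_lit 6141995182) (nat_lit 223) (nat_lit 5) (nat_lit 229) (nat_lit 5) (nat_lit 230) (nat_lit 5) (nat_lit 487) (nat_lit 455) (nat_lit 258)) (XT.nd (nat_lit 78) (nat_lit 76) (nat_lit 0) (XT.lf (nat_lit 0) (nat_lit 7898702738) (nat_lit 456) (nat_lit 26064132696) (nat_lit 532) (nat_lit 1084738931) (nat_lit 217) (nat_lit 5) (nat_lit 223) (nat_lit 5) (nat_lit 224) (nat_lit 5) (nat_lit 488) (nat_lit 455) (nat_lit 257)) (XT.lf (nat_lit 0) (nat_lit 4214945276) (nat_lit 532) (nat_lit 7452234788) (nat_lit 76) (nat_lit 23985204009) (nat_lit 216) (nat_lit 5) (nat_lit 223) (nat_lit 5) (nat_lit 217)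 (nat_lit 5) (nat_lit 489) (nat_lit 455) (nat_lit 256)))) (XT.nd (nat_lit 156) (nat_lit 836) (nat_lit 0) (XT.nd (nat_lit 78) (nat_lit 0) (nat_lit 0) (XT.lf (nat_lit 0) (nat_lit 9806624413) (nat_lit 532) (nat_lit 23226492734) (nat_lit 76) (nat_lit 3237254812) (nat_lit 210) (nat_lit 5) (nat_lit 217) (nat_lit 5) (nat_lit 211) (nat_lit 5) (nat_lit 490) (nat_lit 455) (nat_lit 255)) (XT.lf (nat_lit 0) (nat_lit 15754978672) (nat_lit 532) (nat_lit 2716467966) (nat_lit 76) (nat_lit 18429785380) (nat_lit 210) (nat_lit 5) (nat_lit 217) (nat_lit 5) (nat_lit 211) (nat_lit 5) (nat_lit 491) (nat_lit 455) (nat_lit 254))) (XT.nd (nat_lit 78) (nat_lit 380) (nat_lit 0) (XT.lf (nat_lit 0) (nat_lit 18772056797) (nat_lit 456) (nat_lit 3287660767) (nat_lit 532) (nat_lit 15485962563) (nat_lit 204) (nat_lit 5) (nat_lit 210) (nat_lit 5) (nat_lit 211) (nat_lit 5) (nat_lit 492) (nat_lit 455) (nat_lit 253)) (XT.lf (nat_lit 0) (nat_lit 2682475937)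 (nat_lit 380) (nat_lit 26040865660) (nat_lit 456) (nat_lit 9481028055) (nat_lit 199) (nat_lit 5) (nat_lit 204) (nat_lit 5) (nat_lit 205) (nat_lit 5) (nat_lit 493) (nat_lit 455) (nat_lit 252))))) (XT.nd (nat_lit 312) (nat_lit 760) (nat_lit 0) (XT.nd (nat_lit 156) (nat_lit 380) (nat_lit 0) (XT.nd (nat_lit 78) (nat_lit 532) (nat_lit 0) (XT.lf (nat_lit 0) (nat_lit 25130781790) (nat_lit 380) (nat_lit 10675466748) (nat_lit 456) (nat_lit 3069990352) (nat_lit 199) (nat_lit 5) (nat_lit 204) (nat_lit 5) (nat_lit 205) (nat_lit 5) (nat_lit 494) (nat_lit 455) (nat_lit 251)) (XT.lf (nat_lit 0) (nat_lit 3597501623) (nat_lit 532) (nat_lit 30796127170) (nat_lit 76) (nat_lit 5169624538) (nat_lit 192) (nat_lit 5) (nat_lit 199) (nat_lit 5) (nat_lit 193) (nat_lit 5) (nat_lit 495) (nat_lit 455) (nat_lit 250))) (XT.nd (nat_lit 78) (nat_lit 380) (nat_lit 0) (XT.lf (nat_lit 0) (nat_lit 10646834978) (nat_lit 532) (nat_lit 8170435786) (nat_lit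 76) (nat_lit 21445390184) (nat_lit 192) (nat_lit 5) (nat_lit 199) (nat_lit 5) (nat_lit 193) (nat_lit 5) (nat_lit 496) (nat_lit 455) (nat_lit 249)) (XT.lf (nat_lit 0) (nat_lit 15432144572) (nat_lit 380) (nat_lit 2621561784) (nat_lit 456) (nat_lit 22924962923) (nat_lit 187) (nat_lit 5) (nat_lit 192) (nat_lit 5) (nat_lit 193) (nat_lit 5) (nat_lit 497) (nat_lit 455) (nat_lit 248)))) (XT.nd (nat_lit 156) (nat_lit 380) (nat_lit 0) (XT.nd (nat_lit 78) (nat_lit 380) (nat_lit 0) (XT.lf (nat_lit 0) (nat_lit 25899005148) (nat_lit 456) (nat_lit 1942414228) (nat_lit 76) (nat_lit 13868252064) (nat_lit 187) (nat_lit 5) (nat_lit 193) (nat_lit 5) (nat_lit 188) (nat_lit 5) (nat_lit 498) (nat_lit 455) (nat_lit 247)) (XT.lf (nat_lit 0) (nat_lit 22785530689) (nat_lit 380) (nat_lit 11436927904) (nat_lit 456) (nat_lit 8232861415) (nat_lit 182) (nat_lit 5) (nat_lit 187) (nat_lit 5) (nat_lit 188) (nat_lit 5) (nat_lit 499) (nat_lit 455)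 (nat_lit 246))) (XT.nd (nat_lit 78) (nat_lit 76) (nat_lit 0) (XT.lf (nat_lit 0) (nat_lit 5116559395) (nat_lit 304) (nat_lit 37798369747) (nat_lit 380) (nat_lit 304829691) (nat_lit 178) (nat_lit 5) (nat_lit 182) (nat_lit 5) (nat_lit 183) (nat_lit 5) (nat_lit 500) (nat_lit 455) (nat_lit 245)) (XT.lf (nat_lit 0) (nat_lit 8019328031) (nat_lit 380) (nat_lit 13145233248) (nat_lit 76) (nat_lit 22830952314) (nat_lit 177) (nat_lit 5) (nat_lit 182) (nat_lit 5) (nat_lit 178) (nat_lit 5) (nat_lit 501) (nat_lit 455) (nat_lit 244)))))) (XT.nd (nat_lit 624) (nat_lit 1520) (nat_lit 0) (XT.nd (nat_lit 312) (nat_lit 684) (nat_lit 0) (XT.nd (nat_lit 156) (nat_lit 608) (nat_lit 0) (XT.nd (nat_lit 78) (nat_lit 0) (nat_lit 0) (XT.lf (nat_lit 0) (nat_lit 12805418582) (nat_lit 380) (nat_lit 3902673694) (nat_lit 456) (nat_lit 28082728109) (nat_lit 172) (nat_lit 5) (nat_lit 177) (nat_lit 5) (nat_lit 178) (nat_lit 5) (nat_lit 502) (nat_lit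 455) (nat_lit 243)) (XT.lf (nat_lit 0) (nat_lit 25922909696) (nat_lit 456) (nat_lit 5939599155) (nat_lit 76) (nat_lit 13739516006) (nat_lit 172) (nat_lit 5) (nat_lit 178) (nat_lit 5) (nat_lit 173) (nat_lit 5) (nat_lit 503) (nat_lit 455) (nat_lit 242))) (XT.nd (nat_lit 78) (nat_lit 304) (nat_lit 0) (XT.lf (nat_lit 0) (nat_lit 21260960585) (nat_lit 304) (nat_lit 14394224751) (nat_lit 380) (nat_lit 10775149893) (nat_lit 168) (nat_lit 5) (nat_lit 172) (nat_lit 5) (nat_lit 173) (nat_lit 5) (nat_lit 504) (nat_lit 455) (nat_lit 241)) (XT.lf (nat_lit 0) (nat_lit 2120925773) (nat_lit 304) (nat_lit 43672073315) (nat_lit 380) (nat_lit 1487088901) (nat_lit 164) (nat_lit 5) (nat_lit 168) (nat_lit 5) (nat_lit 169) (nat_lit 5) (nat_lit 505) (nat_lit 455) (nat_lit 240)))) (XT.nd (nat_lit 156) (nat_lit 304) (nat_lit 0) (XT.nd (nat_lit 78) (nat_lit 304) (nat_lit 0) (XT.lf (nat_lit 0) (nat_lit 8319180007) (nat_lit 380) (nat_lit 17627414171)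 (nat_lit 76) (nat_lit 22194492478) (nat_lit 163) (nat_lit 5) (nat_lit 168) (nat_lit 5) (nat_lit 164) (nat_lit 5) (nat_lit 506) (nat_lit 455) (nat_lit 239)) (XT.lf (nat_lit 0) (nat_lit 10925963023) (nat_lit 304) (nat_lit 7566902860) (nat_lit 380) (nat_lit 30531514313) (nat_lit 159) (nat_lit 5) (nat_lit 163) (nat_lit 5) (nat_lit 164) (nat_lit 5) (nat_lit 507) (nat_lit 455) (nat_lit 238))) (XT.nd (nat_lit 78) (nat_lit 304) (nat_lit 0) (XT.lf (nat_lit 0) (nat_lit 29258877659) (nat_lit 380) (nat_lit 9345373046) (nat_lit 76) (nat_lit 11321308528) (nat_lit 159) (nat_lit 5) (nat_lit 164) (nat_lit 5) (nat_lit 160) (nat_lit 5) (nat_lit 508) (nat_lit 455) (nat_lit 237)) (XT.lf (nat_lit 0) (nat_lit 20594472208) (nat_lit 304) (nat_lit 20024450253) (nat_lit 380) (nat_lit 10226719749) (nat_lit 155) (nat_lit 5) (nat_lit 159) (nat_lit 5) (nat_lit 160) (nat_lit 5) (nat_lit 509) (nat_lit 455) (nat_lit 236))))) (XT.nd (nat_lit 312)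 (nat_lit 836) (nat_lit 0) (XT.nd (nat_lit 156) (nat_lit 304) (nat_lit 0) (XT.nd (nat_lit 78) (nat_lit 304) (nat_lit 0) (XT.lf (nat_lit 0) (nat_lit 609647926) (nat_lit 380) (nat_lit 175159860) (nat_lit 76) (nat_lit 51005563825) (nat_lit 154) (nat_lit 5) (nat_lit 159) (nat_lit 5) (nat_lit 155) (nat_lit 5) (nat_lit 510) (nat_lit 455) (nat_lit 235)) (XT.lf (nat_lit 0) (nat_lit 12051682123) (nat_lit 380) (nat_lit 21628172412) (nat_lit 76) (nat_lit 19065967182) (nat_lit 150) (nat_lit 5) (nat_lit 155) (nat_lit 5) (nat_lit 151) (nat_lit 5) (nat_lit 511) (nat_lit 455) (nat_lit 234))) (XT.nd (nat_lit 78) (nat_lit 0) (nat_lit 0) (XT.lf (nat_lit 0) (nat_lit 9803780540) (nat_lit 304) (nat_lit 14135239500) (nat_lit 380) (nat_lit 29787854139) (nat_lit 146) (nat_lit 5) (nat_lit 150) (nat_lit 5) (nat_lit 151) (nat_lit 5) (nat_lit 512) (nat_lit 455) (nat_lit 233)) (XT.lf (nat_lit 0) (nat_lit 36459439692) (nat_lit 380) (nat_lit 12171260961)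 (nat_lit 76) (nat_lit 6098363841) (nat_lit 146) (nat_lit 5) (nat_lit 151) (nat_lit 5) (nat_lit 147) (nat_lit 5) (nat_lit 513) (nat_lit 455) (nat_lit 232)))) (XT.nd (nat_lit 156) (nat_lit 532) (nat_lit 0) (XT.nd (nat_lit 78) (nat_lit 76) (nat_lit 0) (XT.lf (nat_lit 0) (nat_lit 20796358155) (nat_lit 228) (nat_lit 28897287161) (nat_lit 304) (nat_lit 6057530127) (nat_lit 143) (nat_lit 5) (nat_lit 146) (nat_lit 5) (nat_lit 147) (nat_lit 5) (nat_lit 514) (nat_lit 455) (nat_lit 231)) (XT.lf (nat_lit 0) (nat_lit 6516124108) (nat_lit 304) (nat_lit 1864293121) (nat_lit 76) (nat_lit 48417978808) (nat_lit 142) (nat_lit 5) (nat_lit 146) (nat_lit 5) (nat_lit 143) (nat_lit 5) (nat_lit 515) (nat_lit 455) (nat_lit 230))) (XT.nd (nat_lit 78) (nat_lit 228) (nat_lit 0) (XT.lf (nat_lit 0) (nat_lit 19785152109) (nat_lit 380) (nat_lit 25195722803) (nat_lit 76) (nat_lit 12881161751) (nat_lit 138) (nat_lit 5) (nat_lit 143) (nat_lit 5) (nat_lit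 139) (nat_lit 5) (nat_lit 516) (nat_lit 455) (nat_lit 229)) (XT.lf (nat_lit 0) (nat_lit 9411961046) (nat_lit 228) (nat_lit 24231133837) (nat_lit 304) (nat_lit 25308766418) (nat_lit 135) (nat_lit 5) (nat_lit 138) (nat_lit 5) (nat_lit 139) (nat_lit 5) (nat_lit 517) (nat_lit 455) (nat_lit 228))))))))
noncomputable def xc208 : XT := (XT.nd (nat_lit 57876) (nat_lit 0) (nat_lit 10184) (XT.nd (nat_lit 1170) (nat_lit 1292) (nat_lit 0) (XT.nd (nat_lit 546) (nat_lit 1140) (nat_lit 0) (XT.nd (nat_lit 234) (nat_lit 760) (nat_lit 0) (XT.nd (nat_lit 78) (nat_lit 304) (nat_lit 0) (XT.lf (nat_lit 0) (nat_lit 45571815361) (nat_lit 228) (nat_lit 2597794436) (nat_lit 304) (nat_lit 11897185971) (nat_lit 135) (nat_lit 5) (nat_lit 138) (nat_lit 5) (nat_lit 139) (nat_lit 5) (nat_lit 518) (nat_lit 455) (nat_lit 227)) (XT.nd (nat_lit 78) (nat_lit 0) (nat_lit 0) (XT.lf (nat_lit 0) (nat_lit 2280836967) (nat_lit 304) (nat_lit 39389964466)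 (nat_lit 76) (nat_lit 19531779264) (nat_lit 131) (nat_lit 5) (nat_lit 135) (nat_lit 5) (nat_lit 132) (nat_lit 5) (nat_lit 519) (nat_lit 455) (nat_lit 226)) (XT.lf (nat_lit 0) (nat_lit 16817069867) (nat_lit 304) (nat_lit 3008955664) (nat_lit 76) (nat_lit 42537720195) (nat_lit 131) (nat_lit 5) (nat_lit 135) (nat_lit 5) (nat_lit 132) (nat_lit 5) (nat_lit 520) (nat_lit 455) (nat_lit 225)))) (XT.nd (nat_lit 156) (nat_lit 304) (nat_lit 0) (XT.nd (nat_lit 78) (nat_lit 228) (nat_lit 0) (XT.lf (nat_lit 0) (nat_lit 32154779397) (nat_lit 304) (nat_lit 28431814849) (nat_lit 76) (nat_lit 2962189868) (nat_lit 128) (nat_lit 5) (nat_lit 132) (nat_lit 5) (nat_lit 129) (nat_lit 5) (nat_lit 521) (nat_lit 455) (nat_lit 224)) (XT.lf (nat_lit 0) (nat_lit 9669523847) (nat_lit 228) (nat_lit 38601535222) (nat_lit 304) (nat_lit 16488761509) (nat_lit 125) (nat_lit 5) (nat_lit 128) (nat_lit 5) (nat_lit 129) (nat_lit 5) (nat_lit 522) (nat_lit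 455) (nat_lit 223))) (XT.nd (nat_lit 78) (nat_lit 304) (nat_lit 0) (XT.lf (nat_lit 0) (nat_lit 49494295371) (nat_lit 228) (nat_lit 15662164265) (nat_lit 304) (nat_lit 842159616) (nat_lit 125) (nat_lit 5) (nat_lit 128) (nat_lit 5) (nat_lit 129) (nat_lit 5) (nat_lit 523) (nat_lit 455) (nat_lit 222)) (XT.lf (nat_lit 0) (nat_lit 15280975079) (nat_lit 304) (nat_lit 43794129967) (nat_lit 76) (nat_lit 8185916809) (nat_lit 121) (nat_lit 5) (nat_lit 125) (nat_lit 5) (nat_lit 122) (nat_lit 5) (nat_lit 524) (nat_lit 455) (nat_lit 221))))) (XT.nd (nat_lit 312) (nat_lit 684) (nat_lit 0) (XT.nd (nat_lit 156) (nat_lit 228) (nat_lit 0) (XT.nd (nat_lit 78) (nat_lit 228) (nat_lit 0) (XT.lf (nat_lit 0) (nat_lit 32192825456) (nat_lit 304) (nat_lit 3748189395) (nat_lit 76) (nat_lit 32610373174) (nat_lit 121) (nat_lit 5) (nat_lit 125) (nat_lit 5) (nat_lit 122) (nat_lit 5) (nat_lit 525) (nat_lit 455) (nat_lit 220)) (XT.lf (nat_lit 0)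 (nat_lit 38243059094) (nat_lit 228) (nat_lit 11735195560) (nat_lit 304) (nat_lit 19891223908) (nat_lit 118) (nat_lit 5) (nat_lit 121) (nat_lit 5) (nat_lit 122) (nat_lit 5) (nat_lit 526) (nat_lit 455) (nat_lit 219))) (XT.nd (nat_lit 78) (nat_lit 76) (nat_lit 0) (XT.lf (nat_lit 0) (nat_lit 10418638013) (nat_lit 152) (nat_lit 58142455882) (nat_lit 228) (nat_lit 2658102583) (nat_lit 116) (nat_lit 5) (nat_lit 118) (nat_lit 5) (nat_lit 119) (nat_lit 5) (nat_lit 527) (nat_lit 455) (nat_lit 218)) (XT.lf (nat_lit 0) (nat_lit 15234851226) (nat_lit 228) (nat_lit 18493237092) (nat_lit 76) (nat_lit 38863845324) (nat_lit 115) (nat_lit 5) (nat_lit 118) (nat_lit 5) (nat_lit 116) (nat_lit 5) (nat_lit 528) (nat_lit 455) (nat_lit 217)))) (XT.nd (nat_lit 156) (nat_lit 456) (nat_lit 0) (XT.nd (nat_lit 78) (nat_lit 0) (nat_lit 0) (XT.lf (nat_lit 0) (nat_lit 25553348029) (nat_lit 228) (nat_lit 8302116413) (nat_lit 304) (nat_lit 40142270135)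 (nat_lit 112) (nat_lit 5) (nat_lit 115) (nat_lit 5) (nat_lit 116) (nat_lit 5) (nat_lit 529) (nat_lit 455) (nat_lit 216)) (XT.lf (nat_lit 0) (nat_lit 53393897694) (nat_lit 304) (nat_lit 4315753810) (nat_lit 76) (nat_lit 17725282057) (nat_lit 112) (nat_lit 5) (nat_lit 116) (nat_lit 5) (nat_lit 113) (nat_lit 5) (nat_lit 530) (nat_lit 455) (nat_lit 215))) (XT.nd (nat_lit 78) (nat_lit 304) (nat_lit 0) (XT.lf (nat_lit 0) (nat_lit 41869342625) (nat_lit 152) (nat_lit 32132522928) (nat_lit 228) (nat_lit 2898881579) (nat_lit 110) (nat_lit 5) (nat_lit 112) (nat_lit 5) (nat_lit 113) (nat_lit 5) (nat_lit 531) (nat_lit 455) (nat_lit 214)) (XT.lf (nat_lit 0) (nat_lit 11172943671) (nat_lit 228) (nat_lit 5466548769) (nat_lit 304) (nat_lit 61761689145) (nat_lit 106) (nat_lit 5) (nat_lit 109) (nat_lit 5) (nat_lit 110) (nat_lit 5) (nat_lit 532) (nat_lit 455) (nat_lit 213)))))) (XT.nd (nat_lit 546) (nat_lit 532) (nat_lit 0) (XT.nd (nat_lit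 234) (nat_lit 608) (nat_lit 0) (XT.nd (nat_lit 78) (nat_lit 152) (nat_lit 0) (XT.lf (nat_lit 0) (nat_lit 37273195668) (nat_lit 304) (nat_lit 20700390089) (nat_lit 76) (nat_lit 21955159043) (nat_lit 106) (nat_lit 5) (nat_lit 110) (nat_lit 5) (nat_lit 107) (nat_lit 5) (nat_lit 533) (nat_lit 455) (nat_lit 212)) (XT.nd (nat_lit 78) (nat_lit 0) (nat_lit 0) (XT.lf (nat_lit 0) (nat_lit 27707681293) (nat_lit 152) (nat_lit 31137453353) (nat_lit 228) (nat_lit 22647423586) (nat_lit 104) (nat_lit 5) (nat_lit 106) (nat_lit 5) (nat_lit 107) (nat_lit 5) (nat_lit 534) (nat_lit 455) (nat_lit 211)) (XT.lf (nat_lit 0) (nat_lit 77990189444) (nat_lit 152) (nat_lit 3281848523) (nat_lit 228) (nat_lit 1825013971) (nat_lit 104) (nat_lit 5) (nat_lit 106) (nat_lit 5) (nat_lit 107) (nat_lit 5) (nat_lit 535) (nat_lit 455) (nat_lit 210)))) (XT.nd (nat_lit 156) (nat_lit 228) (nat_lit 0) (XT.nd (nat_lit 78) (nat_lit 152) (nat_lit 0) (XT.lf (nat_lit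 0) (nat_lit 19928045214) (nat_lit 228) (nat_lit 39248144366) (nat_lit 76) (nat_lit 25547166118) (nat_lit 101) (nat_lit 5) (nat_lit 104) (nat_lit 5) (nat_lit 102) (nat_lit 5) (nat_lit 536) (nat_lit 455) (nat_lit 209)) (XT.lf (nat_lit 0) (nat_lit 11452832883) (nat_lit 152) (nat_lit 31037650506) (nat_lit 228) (nat_lit 43901619103) (nat_lit 99) (nat_lit 5) (nat_lit 101) (nat_lit 5) (nat_lit 102) (nat_lit 5) (nat_lit 537) (nat_lit 455) (nat_lit 208))) (XT.nd (nat_lit 78) (nat_lit 228) (nat_lit 0) (XT.lf (nat_lit 0) (nat_lit 64477297515) (nat_lit 152) (nat_lit 1647644382) (nat_lit 228) (nat_lit 21974115430) (nat_lit 99) (nat_lit 5) (nat_lit 101) (nat_lit 5) (nat_lit 102) (nat_lit 5) (nat_lit 538) (nat_lit 455) (nat_lit 207)) (XT.lf (nat_lit 0) (nat_lit 1162708533) (nat_lit 228) (nat_lit 60317492928) (nat_lit 76) (nat_lit 28359940468) (nat_lit 96) (nat_lit 5) (nat_lit 99) (nat_lit 5) (nat_lit 97) (nat_lit 5) (nat_lit 539)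 (nat_lit 455) (nat_lit 206))))) (XT.nd (nat_lit 312) (nat_lit 152) (nat_lit 0) (XT.nd (nat_lit 156) (nat_lit 228) (nat_lit 0) (XT.nd (nat_lit 78) (nat_lit 152) (nat_lit 0) (XT.lf (nat_lit 0) (nat_lit 24808034330) (nat_lit 228) (nat_lit 7118988980) (nat_lit 76) (nat_lit 59692227188) (nat_lit 96) (nat_lit 5) (nat_lit 99) (nat_lit 5) (nat_lit 97) (nat_lit 5) (nat_lit 540) (nat_lit 455) (nat_lit 205)) (XT.lf (nat_lit 0) (nat_lit 48622267216) (nat_lit 152) (nat_lit 1006719848) (nat_lit 228) (nat_lit 43808757292) (nat_lit 94) (nat_lit 5) (nat_lit 96) (nat_lit 5) (nat_lit 97) (nat_lit 5) (nat_lit 541) (nat_lit 455) (nat_lit 204))) (XT.nd (nat_lit 78) (nat_lit 76) (nat_lit 0) (XT.lf (nat_lit 0) (nat_lit 10784318031) (nat_lit 152) (nat_lit 64881865208) (nat_lit 228) (nat_lit 19630461391) (nat_lit 92) (nat_lit 5) (nat_lit 94) (nat_lit 5) (nat_lit 95) (nat_lit 5) (nat_lit 542) (nat_lit 455) (nat_lit 203)) (XT.lf (nat_lit 0)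 (nat_lit 5636169072) (nat_lit 228) (nat_lit 28294098532) (nat_lit 76) (nat_lit 63265547141) (nat_lit 91) (nat_lit 5) (nat_lit 94) (nat_lit 5) (nat_lit 92) (nat_lit 5) (nat_lit 543) (nat_lit 455) (nat_lit 202)))) (XT.nd (nat_lit 55692) (nat_lit 0) (nat_lit 15504) (XT.nd (nat_lit 55614) (nat_lit 0) (nat_lit 15504) (XT.lf (nat_lit 0) (nat_lit 29999771181) (nat_lit 152) (nat_lit 1553770817) (nat_lit 228) (nat_lit 67583968286) (nat_lit 89) (nat_lit 5) (nat_lit 91) (nat_lit 5) (nat_lit 92) (nat_lit 5) (nat_lit 544) (nat_lit 455) (nat_lit 201)) (XT.lf (nat_lit 0) (nat_lit 3658501541) (nat_lit 1292) (nat_lit 3511246403) (nat_lit 1292) (nat_lit 3511246403) (nat_lit 293) (nat_lit 3) (nat_lit 310) (nat_lit 3) (nat_lit 310) (nat_lit 5) (nat_lit 456) (nat_lit 456) (nat_lit 288))) (XT.nd (nat_lit 78) (nat_lit 0) (nat_lit 76) (XT.lf (nat_lit 76) (nat_lit 3600377431) (nat_lit 0) (nat_lit 4004691274) (nat_lit 1292) (nat_lit 14071980526)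 (nat_lit 294) (nat_lit 5) (nat_lit 293) (nat_lit 3) (nat_lit 310) (nat_lit 5) (nat_lit 457) (nat_lit 456) (nat_lit 287)) (XT.lf (nat_lit 0) (nat_lit 8031610349) (nat_lit 1216) (nat_lit 7381219432) (nat_lit 1292) (nat_lit 6584837560) (nat_lit 294) (nat_lit 5) (nat_lit 310) (nat_lit 5) (nat_lit 311) (nat_lit 5) (nat_lit 458) (nat_lit 456) (nat_lit 286))))))) (XT.nd (nat_lit 1170) (nat_lit 4560) (nat_lit 0) (XT.nd (nat_lit 546) (nat_lit 836) (nat_lit 0) (XT.nd (nat_lit 234) (nat_lit 0) (nat_lit 152) (XT.nd (nat_lit 78) (nat_lit 0) (nat_lit 76) (XT.lf (nat_lit 76) (nat_lit 3663891449) (nat_lit 0) (nat_lit 4876479457) (nat_lit 1292) (nat_lit 13785451165) (nat_lit 295) (nat_lit 5) (nat_lit 294) (nat_lit 5) (nat_lit 311) (nat_lit 5) (nat_lit 459) (nat_lit 456) (nat_lit 285)) (XT.nd (nat_lit 78) (nat_lit 0) (nat_lit 0) (XT.lf (nat_lit 0) (nat_lit 9191817099) (nat_lit 1216) (nat_lit 7531307333) (nat_lit 1292) (nat_lit 5936875062)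 (nat_lit 295) (nat_lit 5) (nat_lit 311) (nat_lit 5) (nat_lit 312) (nat_lit 5) (nat_lit 460) (nat_lit 456) (nat_lit 284)) (XT.lf (nat_lit 76) (nat_lit 3959099447) (nat_lit 0) (nat_lit 5984905131) (nat_lit 1292) (nat_lit 13057762437) (nat_lit 296) (nat_lit 5) (nat_lit 295) (nat_lit 5) (nat_lit 312) (nat_lit 5) (nat_lit 461) (nat_lit 456) (nat_lit 283)))) (XT.nd (nat_lit 156) (nat_lit 0) (nat_lit 76) (XT.nd (nat_lit 78) (nat_lit 0) (nat_lit 0) (XT.lf (nat_lit 0) (nat_lit 10839347996) (nat_lit 1216) (nat_lit 7455693627) (nat_lit 1292) (nat_lit 5055128922) (nat_lit 296) (nat_lit 5) (nat_lit 312) (nat_lit 5) (nat_lit 313) (nat_lit 5) (nat_lit 462) (nat_lit 456) (nat_lit 282)) (XT.lf (nat_lit 76) (nat_lit 4504375226) (nat_lit 0) (nat_lit 7354874952) (nat_lit 1292) (nat_lit 11846845722) (nat_lit 297) (nat_lit 5) (nat_lit 296) (nat_lit 5) (nat_lit 313) (nat_lit 5) (nat_lit 463) (nat_lit 456) (nat_lit 281))) (XT.nd (nat_lit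 78) (nat_lit 0) (nat_lit 0) (XT.lf (nat_lit 0) (nat_lit 13018671855) (nat_lit 1216) (nat_lit 7136006258) (nat_lit 1292) (nat_lit 3914753884) (nat_lit 297) (nat_lit 5) (nat_lit 313) (nat_lit 5) (nat_lit 314) (nat_lit 5) (nat_lit 464) (nat_lit 456) (nat_lit 280)) (XT.lf (nat_lit 76) (nat_lit 5319474668) (nat_lit 0) (nat_lit 9012764055) (nat_lit 1292) (nat_lit 10107849210) (nat_lit 298) (nat_lit 5) (nat_lit 297) (nat_lit 5) (nat_lit 314) (nat_lit 5) (nat_lit 465) (nat_lit 456) (nat_lit 279))))) (XT.nd (nat_lit 312) (nat_lit 1140) (nat_lit 0) (XT.nd (nat_lit 156) (nat_lit 0) (nat_lit 76) (XT.nd (nat_lit 78) (nat_lit 0) (nat_lit 0) (XT.lf (nat_lit 0) (nat_lit 15777189700) (nat_lit 1216) (nat_lit 6552497186) (nat_lit 1292) (nat_lit 2489417963) (nat_lit 298) (nat_lit 5) (nat_lit 314) (nat_lit 5) (nat_lit 315) (nat_lit 5) (nat_lit 466) (nat_lit 456) (nat_lit 278)) (XT.lf (nat_lit 76) (nat_lit 6425606690) (nat_lit 0) (nat_lit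 10986539219) (nat_lit 1292) (nat_lit 7792947262) (nat_lit 299) (nat_lit 5) (nat_lit 298) (nat_lit 5) (nat_lit 315) (nat_lit 5) (nat_lit 467) (nat_lit 456) (nat_lit 277))) (XT.nd (nat_lit 78) (nat_lit 0) (nat_lit 0) (XT.lf (nat_lit 0) (nat_lit 19165433272) (nat_lit 1216) (nat_lit 5683970916) (nat_lit 1292) (nat_lit 751179059) (nat_lit 299) (nat_lit 5) (nat_lit 315) (nat_lit 5) (nat_lit 316) (nat_lit 5) (nat_lit 468) (nat_lit 456) (nat_lit 276)) (XT.lf (nat_lit 76) (nat_lit 7845509097) (nat_lit 0) (nat_lit 13305887989) (nat_lit 1292) (nat_lit 4851139168) (nat_lit 300) (nat_lit 5) (nat_lit 299) (nat_lit 5) (nat_lit 316) (nat_lit 5) (nat_lit 469) (nat_lit 456) (nat_lit 275)))) (XT.nd (nat_lit 156) (nat_lit 1216) (nat_lit 0) (XT.nd (nat_lit 78) (nat_lit 0) (nat_lit 76) (XT.lf (nat_lit 76) (nat_lit 21894203345) (nat_lit 0) (nat_lit 1356107061) (nat_lit 1292) (nat_lit 3164636875) (nat_lit 300) (nat_lit 5) (nat_lit 299)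 (nat_lit 5) (nat_lit 316) (nat_lit 5) (nat_lit 470) (nat_lit 456) (nat_lit 274)) (XT.lf (nat_lit 76) (nat_lit 9603529451) (nat_lit 0) (nat_lit 16002354352) (nat_lit 1292) (nat_lit 1228036586) (nat_lit 301) (nat_lit 5) (nat_lit 300) (nat_lit 5) (nat_lit 317) (nat_lit 5) (nat_lit 471) (nat_lit 456) (nat_lit 273))) (XT.nd (nat_lit 78) (nat_lit 0) (nat_lit 76) (XT.lf (nat_lit 0) (nat_lit 807374243) (nat_lit 1292) (nat_lit 3044404268) (nat_lit 1368) (nat_lit 23411793405) (nat_lit 283) (nat_lit 5) (nat_lit 300) (nat_lit 5) (nat_lit 301) (nat_lit 5) (nat_lit 472) (nat_lit 456) (nat_lit 272)) (XT.lf (nat_lit 0) (nat_lit 3073198413) (nat_lit 1292) (nat_lit 16005249845) (nat_lit 76) (nat_lit 8621479454) (nat_lit 284) (nat_lit 5) (nat_lit 301) (nat_lit 5) (nat_lit 285) (nat_lit 5) (nat_lit 473) (nat_lit 456) (nat_lit 271)))))) (XT.nd (nat_lit 546) (nat_lit 2128) (nat_lit 0) (XT.nd (nat_lit 234) (nat_lit 1140) (nat_lit 0) (XT.nd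 (nat_lit 78) (nat_lit 1368) (nat_lit 0) (XT.lf (nat_lit 0) (nat_lit 5472520330) (nat_lit 1292) (nat_lit 1251806823) (nat_lit 76) (nat_lit 21423081809) (nat_lit 284) (nat_lit 5) (nat_lit 301) (nat_lit 5) (nat_lit 285) (nat_lit 5) (nat_lit 474) (nat_lit 456) (nat_lit 270)) (XT.nd (nat_lit 78) (nat_lit 608) (nat_lit 0) (XT.lf (nat_lit 0) (nat_lit 8135982197) (nat_lit 836) (nat_lit 14444822909) (nat_lit 76) (nat_lit 6021745193) (nat_lit 274) (nat_lit 5) (nat_lit 285) (nat_lit 5) (nat_lit 275) (nat_lit 5) (nat_lit 475) (nat_lit 456) (nat_lit 269)) (XT.lf (nat_lit 0) (nat_lit 932499178) (nat_lit 608) (nat_lit 10031679079) (nat_lit 684) (nat_lit 18104623154) (nat_lit 266) (nat_lit 5) (nat_lit 274) (nat_lit 5) (nat_lit 275) (nat_lit 5) (nat_lit 476) (nat_lit 456) (nat_lit 268)))) (XT.nd (nat_lit 156) (nat_lit 532) (nat_lit 0) (XT.nd (nat_lit 78) (nat_lit 608) (nat_lit 0) (XT.lf (nat_lit 0) (nat_lit 14048942466) (nat_lit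 684) (nat_lit 12509990037) (nat_lit 76) (nat_lit 2984956316) (nat_lit 266) (nat_lit 5) (nat_lit 275) (nat_lit 5) (nat_lit 267) (nat_lit 5) (nat_lit 477) (nat_lit 456) (nat_lit 267)) (XT.lf (nat_lit 0) (nat_lit 3551885215) (nat_lit 608) (nat_lit 13804525532) (nat_lit 684) (nat_lit 12672913688) (nat_lit 258) (nat_lit 5) (nat_lit 266) (nat_lit 5) (nat_lit 267) (nat_lit 5) (nat_lit 478) (nat_lit 456) (nat_lit 266))) (XT.nd (nat_lit 78) (nat_lit 532) (nat_lit 0) (XT.lf (nat_lit 0) (nat_lit 20348877928) (nat_lit 608) (nat_lit 537311907) (nat_lit 684) (nat_lit 9639441088) (nat_lit 258) (nat_lit 5) (nat_lit 266) (nat_lit 5) (nat_lit 267) (nat_lit 5) (nat_lit 479) (nat_lit 456) (nat_lit 265)) (XT.lf (nat_lit 0) (nat_lit 6612612152) (nat_lit 532) (nat_lit 18095863488) (nat_lit 608) (nat_lit 6322752961) (nat_lit 251) (nat_lit 5) (nat_lit 258) (nat_lit 5) (nat_lit 259) (nat_lit 5) (nat_lit 480) (nat_lit 456) (nat_lit 264)))))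 (XT.nd (nat_lit 312) (nat_lit 988) (nat_lit 0) (XT.nd (nat_lit 156) (nat_lit 532) (nat_lit 0) (XT.nd (nat_lit 78) (nat_lit 608) (nat_lit 0) (XT.lf (nat_lit 0) (nat_lit 24105693167) (nat_lit 532) (nat_lit 4644686443) (nat_lit 608) (nat_lit 2798466495) (nat_lit 251) (nat_lit 5) (nat_lit 258) (nat_lit 5) (nat_lit 259) (nat_lit 5) (nat_lit 481) (nat_lit 456) (nat_lit 263)) (XT.lf (nat_lit 0) (nat_lit 1000220525) (nat_lit 608) (nat_lit 21938392036) (nat_lit 76) (nat_lit 9137593179) (nat_lit 243) (nat_lit 5) (nat_lit 251) (nat_lit 5) (nat_lit 244) (nat_lit 5) (nat_lit 482) (nat_lit 456) (nat_lit 262))) (XT.nd (nat_lit 78) (nat_lit 532) (nat_lit 0) (XT.lf (nat_lit 0) (nat_lit 4975547695) (nat_lit 608) (nat_lit 4295962355) (nat_lit 76) (nat_lit 23343477461) (nat_lit 243) (nat_lit 5) (nat_lit 251) (nat_lit 5) (nat_lit 244) (nat_lit 5) (nat_lit 483) (nat_lit 456) (nat_lit 261)) (XT.lf (nat_lit 0) (nat_lit 9250800057) (nat_lit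 608) (nat_lit 19064731458) (nat_lit 76) (nat_lit 4848981598) (nat_lit 236) (nat_lit 5) (nat_lit 244) (nat_lit 5) (nat_lit 237) (nat_lit 5) (nat_lit 484) (nat_lit 456) (nat_lit 260)))) (XT.nd (nat_lit 156) (nat_lit 456) (nat_lit 0) (XT.nd (nat_lit 78) (nat_lit 532) (nat_lit 0) (XT.lf (nat_lit 0) (nat_lit 13787089651) (nat_lit 608) (nat_lit 689127689) (nat_lit 76) (nat_lit 19250324084) (nat_lit 236) (nat_lit 5) (nat_lit 244) (nat_lit 5) (nat_lit 237) (nat_lit 5) (nat_lit 485) (nat_lit 456) (nat_lit 259)) (XT.lf (nat_lit 0) (nat_lit 18597602845) (nat_lit 532) (nat_lit 37891209) (nat_lit 608) (nat_lit 15664656069) (nat_lit 229) (nat_lit 5) (nat_lit 236) (nat_lit 5) (nat_lit 237) (nat_lit 5) (nat_lit 486) (nat_lit 456) (nat_lit 258))) (XT.nd (nat_lit 78) (nat_lit 0) (nat_lit 0) (XT.lf (nat_lit 0) (nat_lit 3509022983) (nat_lit 456) (nat_lit 20300978144) (nat_lit 532) (nat_lit 11075546750) (nat_lit 223) (nat_lit 5) (nat_lit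 229) (nat_lit 5) (nat_lit 230) (nat_lit 5) (nat_lit 487) (nat_lit 456) (nat_lit 257)) (XT.lf (nat_lit 0) (nat_lit 23615379177) (nat_lit 456) (nat_lit 5680652195) (nat_lit 532) (nat_lit 6187787857) (nat_lit 223) (nat_lit 5) (nat_lit 229) (nat_lit 5) (nat_lit 230) (nat_lit 5) (nat_lit 488) (nat_lit 456) (nat_lit 256))))))))
noncomputable def xc209 : XT := (XT.nd (nat_lit 2340) (nat_lit 3344) (nat_lit 0) (XT.nd (nat_lit 1170) (nat_lit 2812) (nat_lit 0) (XT.nd (nat_lit 546) (nat_lit 2052) (nat_lit 0) (XT.nd (nat_lit 234) (nat_lit 836) (nat_lit 0) (XT.nd (nat_lit 78) (nat_lit 532) (nat_lit 0) (XT.lf (nat_lit 0) (nat_lit 8293524435) (nat_lit 456) (nat_lit 26820415104) (nat_lit 532) (nat_lit 981080566) (nat_lit 217) (nat_lit 5) (nat_lit 223) (nat_lit 5) (nat_lit 224) (nat_lit 5) (nat_lit 489) (nat_lit 456) (nat_lit 255)) (XT.nd (nat_lit 78) (nat_lit 456) (nat_lit 0) (XT.lf (nat_lit 0) (nat_lit 4471046809) (nat_lit 532)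 (nat_lit 7519944683) (nat_lit 76) (nat_lit 24727060445) (nat_lit 216) (nat_lit 5) (nat_lit 223) (nat_lit 5) (nat_lit 217) (nat_lit 5) (nat_lit 490) (nat_lit 456) (nat_lit 254)) (XT.lf (nat_lit 0) (nat_lit 10228442760) (nat_lit 532) (nat_lit 23765383155) (nat_lit 76) (nat_lit 3360814961) (nat_lit 210) (nat_lit 5) (nat_lit 217) (nat_lit 5) (nat_lit 211) (nat_lit 5) (nat_lit 491) (nat_lit 456) (nat_lit 253)))) (XT.nd (nat_lit 156) (nat_lit 380) (nat_lit 0) (XT.nd (nat_lit 78) (nat_lit 456) (nat_lit 0) (XT.lf (nat_lit 0) (nat_lit 16351530571) (nat_lit 532) (nat_lit 2644656800) (nat_lit 76) (nat_lit 19008351276) (nat_lit 210) (nat_lit 5) (nat_lit 217) (nat_lit 5) (nat_lit 211) (nat_lit 5) (nat_lit 492) (nat_lit 456) (nat_lit 252)) (XT.lf (nat_lit 0) (nat_lit 19487020714) (nat_lit 456) (nat_lit 3356241319) (nat_lit 532) (nat_lit 15825123040) (nat_lit 204) (nat_lit 5) (nat_lit 210) (nat_lit 5) (nat_lit 211) (nat_lit 5)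 (nat_lit 493) (nat_lit 456) (nat_lit 251))) (XT.nd (nat_lit 78) (nat_lit 0) (nat_lit 0) (XT.lf (nat_lit 0) (nat_lit 2916607673) (nat_lit 380) (nat_lit 26788398400) (nat_lit 456) (nat_lit 9641883247) (nat_lit 199) (nat_lit 5) (nat_lit 204) (nat_lit 5) (nat_lit 205) (nat_lit 5) (nat_lit 494) (nat_lit 456) (nat_lit 250)) (XT.lf (nat_lit 0) (nat_lit 26033887242) (nat_lit 380) (nat_lit 10963018877) (nat_lit 456) (nat_lit 3042113703) (nat_lit 199) (nat_lit 5) (nat_lit 204) (nat_lit 5) (nat_lit 205) (nat_lit 5) (nat_lit 495) (nat_lit 456) (nat_lit 249))))) (XT.nd (nat_lit 312) (nat_lit 1140) (nat_lit 0) (XT.nd (nat_lit 156) (nat_lit 380) (nat_lit 0) (XT.nd (nat_lit 78) (nat_lit 0) (nat_lit 0) (XT.lf (nat_lit 0) (nat_lit 3821408613) (nat_lit 532) (nat_lit 31566811358) (nat_lit 76) (nat_lit 5358440068) (nat_lit 192) (nat_lit 5) (nat_lit 199) (nat_lit 5) (nat_lit 193) (nat_lit 5) (nat_lit 496) (nat_lit 456) (nat_lit 248))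 (XT.lf (nat_lit 0) (nat_lit 11078843855) (nat_lit 532) (nat_lit 8266811357) (nat_lit 76) (nat_lit 22121496350) (nat_lit 192) (nat_lit 5) (nat_lit 199) (nat_lit 5) (nat_lit 193) (nat_lit 5) (nat_lit 497) (nat_lit 456) (nat_lit 247))) (XT.nd (nat_lit 78) (nat_lit 0) (nat_lit 0) (XT.lf (nat_lit 0) (nat_lit 16042388201) (nat_lit 380) (nat_lit 2663669188) (nat_lit 456) (nat_lit 23498638995) (nat_lit 187) (nat_lit 5) (nat_lit 192) (nat_lit 5) (nat_lit 193) (nat_lit 5) (nat_lit 498) (nat_lit 456) (nat_lit 246)) (XT.lf (nat_lit 0) (nat_lit 26783830722) (nat_lit 456) (nat_lit 1854802164) (nat_lit 76) (nat_lit 14319082571) (nat_lit 187) (nat_lit 5) (nat_lit 193) (nat_lit 5) (nat_lit 188) (nat_lit 5) (nat_lit 499) (nat_lit 456) (nat_lit 245)))) (XT.nd (nat_lit 156) (nat_lit 456) (nat_lit 0) (XT.nd (nat_lit 78) (nat_lit 304) (nat_lit 0) (XT.lf (nat_lit 0) (nat_lit 23613550860) (nat_lit 380) (nat_lit 11741684072) (nat_lit 456)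 (nat_lit 8370551438) (nat_lit 182) (nat_lit 5) (nat_lit 187) (nat_lit 5) (nat_lit 188) (nat_lit 5) (nat_lit 500) (nat_lit 456) (nat_lit 244)) (XT.lf (nat_lit 0) (nat_lit 5415891094) (nat_lit 304) (nat_lit 38891257914) (nat_lit 380) (nat_lit 206049566) (nat_lit 178) (nat_lit 5) (nat_lit 182) (nat_lit 5) (nat_lit 183) (nat_lit 5) (nat_lit 501) (nat_lit 456) (nat_lit 243))) (XT.nd (nat_lit 78) (nat_lit 380) (nat_lit 0) (XT.lf (nat_lit 0) (nat_lit 8362644775) (nat_lit 380) (nat_lit 13395948984) (nat_lit 76) (nat_lit 23553693838) (nat_lit 177) (nat_lit 5) (nat_lit 182) (nat_lit 5) (nat_lit 178) (nat_lit 5) (nat_lit 502) (nat_lit 456) (nat_lit 242)) (XT.lf (nat_lit 0) (nat_lit 13331814154) (nat_lit 380) (nat_lit 3978632687) (nat_lit 456) (nat_lit 28821055776) (nat_lit 172) (nat_lit 5) (nat_lit 177) (nat_lit 5) (nat_lit 178) (nat_lit 5) (nat_lit 503) (nat_lit 456) (nat_lit 241)))))) (XT.nd (nat_lit 546) (nat_lit 1520)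 (nat_lit 0) (XT.nd (nat_lit 234) (nat_lit 684) (nat_lit 0) (XT.nd (nat_lit 78) (nat_lit 608) (nat_lit 0) (XT.lf (nat_lit 0) (nat_lit 26799147548) (nat_lit 456) (nat_lit 5977126827) (nat_lit 76) (nat_lit 14190845947) (nat_lit 172) (nat_lit 5) (nat_lit 178) (nat_lit 5) (nat_lit 173) (nat_lit 5) (nat_lit 504) (nat_lit 456) (nat_lit 240)) (XT.nd (nat_lit 78) (nat_lit 304) (nat_lit 0) (XT.lf (nat_lit 0) (nat_lit 22038070683) (nat_lit 304) (nat_lit 14783789227) (nat_lit 380) (nat_lit 10998466297) (nat_lit 168) (nat_lit 5) (nat_lit 172) (nat_lit 5) (nat_lit 173) (nat_lit 5) (nat_lit 505) (nat_lit 456) (nat_lit 239)) (XT.lf (nat_lit 0) (nat_lit 2324957517) (nat_lit 304) (nat_lit 44937768829) (nat_lit 380) (nat_lit 1432877905) (nat_lit 164) (nat_lit 5) (nat_lit 168) (nat_lit 5) (nat_lit 169) (nat_lit 5) (nat_lit 506) (nat_lit 456) (nat_lit 238)))) (XT.nd (nat_lit 156) (nat_lit 304) (nat_lit 0) (XT.nd (nat_lit 78) (nat_lit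 304) (nat_lit 0) (XT.lf (nat_lit 0) (nat_lit 8662828473) (nat_lit 380) (nat_lit 18018042037) (nat_lit 76) (nat_lit 22901618768) (nat_lit 163) (nat_lit 5) (nat_lit 168) (nat_lit 5) (nat_lit 164) (nat_lit 5) (nat_lit 507) (nat_lit 456) (nat_lit 237)) (XT.lf (nat_lit 0) (nat_lit 11390581623) (nat_lit 304) (nat_lit 7749718696) (nat_lit 380) (nat_lit 31352024268) (nat_lit 159) (nat_lit 5) (nat_lit 163) (nat_lit 5) (nat_lit 164) (nat_lit 5) (nat_lit 508) (nat_lit 456) (nat_lit 236))) (XT.nd (nat_lit 78) (nat_lit 304) (nat_lit 0) (XT.lf (nat_lit 0) (nat_lit 30227006371) (nat_lit 380) (nat_lit 9490586733) (nat_lit 76) (nat_lit 11703014695) (nat_lit 159) (nat_lit 5) (nat_lit 164) (nat_lit 5) (nat_lit 160) (nat_lit 5) (nat_lit 509) (nat_lit 456) (nat_lit 235)) (XT.lf (nat_lit 0) (nat_lit 21346128904) (nat_lit 304) (nat_lit 20580378083) (nat_lit 380) (nat_lit 10441826859) (nat_lit 155) (nat_lit 5) (nat_lit 159) (nat_lit 5)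 (nat_lit 160) (nat_lit 5) (nat_lit 510) (nat_lit 456) (nat_lit 234))))) (XT.nd (nat_lit 312) (nat_lit 836) (nat_lit 0) (XT.nd (nat_lit 156) (nat_lit 304) (nat_lit 0) (XT.nd (nat_lit 78) (nat_lit 304) (nat_lit 0) (XT.lf (nat_lit 0) (nat_lit 715223960) (nat_lit 380) (nat_lit 48745979) (nat_lit 76) (nat_lit 52577487506) (nat_lit 154) (nat_lit 5) (nat_lit 159) (nat_lit 5) (nat_lit 155) (nat_lit 5) (nat_lit 511) (nat_lit 456) (nat_lit 233)) (XT.lf (nat_lit 0) (nat_lit 12499656736) (nat_lit 380) (nat_lit 22144479941) (nat_lit 76) (nat_lit 19681460447) (nat_lit 150) (nat_lit 5) (nat_lit 155) (nat_lit 5) (nat_lit 151) (nat_lit 5) (nat_lit 512) (nat_lit 456) (nat_lit 232))) (XT.nd (nat_lit 78) (nat_lit 0) (nat_lit 0) (XT.lf (nat_lit 0) (nat_lit 10229132212) (nat_lit 304) (nat_lit 14513226913) (nat_lit 380) (nat_lit 30593759894) (nat_lit 146) (nat_lit 5) (nat_lit 150) (nat_lit 5) (nat_lit 151) (nat_lit 5) (nat_lit 513) (nat_lit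 456) (nat_lit 231)) (XT.lf (nat_lit 0) (nat_lit 37636340683) (nat_lit 380) (nat_lit 12406926178) (nat_lit 76) (nat_lit 6325169888) (nat_lit 146) (nat_lit 5) (nat_lit 151) (nat_lit 5) (nat_lit 147) (nat_lit 5) (nat_lit 514) (nat_lit 456) (nat_lit 230)))) (XT.nd (nat_lit 156) (nat_lit 532) (nat_lit 0) (XT.nd (nat_lit 78) (nat_lit 76) (nat_lit 0) (XT.lf (nat_lit 0) (nat_lit 21548452172) (nat_lit 228) (nat_lit 29717931765) (nat_lit 304) (nat_lit 6154862923) (nat_lit 143) (nat_lit 5) (nat_lit 146) (nat_lit 5) (nat_lit 147) (nat_lit 5) (nat_lit 515) (nat_lit 456) (nat_lit 229)) (XT.lf (nat_lit 0) (nat_lit 6791944039) (nat_lit 304) (nat_lit 1794148245) (nat_lit 76) (nat_lit 49913839924) (nat_lit 142) (nat_lit 5) (nat_lit 146) (nat_lit 5) (nat_lit 143) (nat_lit 5) (nat_lit 516) (nat_lit 456) (nat_lit 228))) (XT.nd (nat_lit 78) (nat_lit 228) (nat_lit 0) (XT.lf (nat_lit 0) (nat_lit 20458341739) (nat_lit 380) (nat_lit 25824814215)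 (nat_lit 76) (nat_lit 13312347296) (nat_lit 138) (nat_lit 5) (nat_lit 143) (nat_lit 5) (nat_lit 139) (nat_lit 5) (nat_lit 517) (nat_lit 456) (nat_lit 227)) (XT.lf (nat_lit 0) (nat_lit 9819857205) (nat_lit 228) (nat_lit 24911052864) (nat_lit 304) (nat_lit 25987146098) (nat_lit 135) (nat_lit 5) (nat_lit 138) (nat_lit 5) (nat_lit 139) (nat_lit 5) (nat_lit 518) (nat_lit 456) (nat_lit 226))))))) (XT.nd (nat_lit 1170) (nat_lit 1140) (nat_lit 0) (XT.nd (nat_lit 546) (nat_lit 1140) (nat_lit 0) (XT.nd (nat_lit 234) (nat_lit 760) (nat_lit 0) (XT.nd (nat_lit 78) (nat_lit 304) (nat_lit 0) (XT.lf (nat_lit 0) (nat_lit 47060850723) (nat_lit 228) (nat_lit 2630082650) (nat_lit 304) (nat_lit 12175574063) (nat_lit 135) (nat_lit 5) (nat_lit 138) (nat_lit 5) (nat_lit 139) (nat_lit 5) (nat_lit 519) (nat_lit 456) (nat_lit 225)) (XT.nd (nat_lit 78) (nat_lit 0) (nat_lit 0) (XT.lf (nat_lit 0) (nat_lit 2425634255) (nat_lit 304) (nat_lit 40447617340)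 (nat_lit 76) (nat_lit 20163110506) (nat_lit 131) (nat_lit 5) (nat_lit 135) (nat_lit 5) (nat_lit 132) (nat_lit 5) (nat_lit 520) (nat_lit 456) (nat_lit 224)) (XT.lf (nat_lit 0) (nat_lit 17395729709) (nat_lit 304) (nat_lit 2978791266) (nat_lit 76) (nat_lit 43857907980) (nat_lit 131) (nat_lit 5) (nat_lit 135) (nat_lit 5) (nat_lit 132) (nat_lit 5) (nat_lit 521) (nat_lit 456) (nat_lit 223)))) (XT.nd (nat_lit 156) (nat_lit 304) (nat_lit 0) (XT.nd (nat_lit 78) (nat_lit 228) (nat_lit 0) (XT.lf (nat_lit 0) (nat_lit 33193000522) (nat_lit 304) (nat_lit 29163761649) (nat_lit 76) (nat_lit 3096273559) (nat_lit 128) (nat_lit 5) (nat_lit 132) (nat_lit 5) (nat_lit 129) (nat_lit 5) (nat_lit 522) (nat_lit 456) (nat_lit 222)) (XT.lf (nat_lit 0) (nat_lit 10079430858) (nat_lit 228) (nat_lit 39712346481) (nat_lit 304) (nat_lit 16908655821) (nat_lit 125) (nat_lit 5) (nat_lit 128) (nat_lit 5) (nat_lit 129) (nat_lit 5) (nat_lit 523) (nat_lit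 456) (nat_lit 221))) (XT.nd (nat_lit 78) (nat_lit 304) (nat_lit 0) (XT.lf (nat_lit 0) (nat_lit 51095455587) (nat_lit 228) (nat_lit 16086170167) (nat_lit 304) (nat_lit 794833596) (nat_lit 125) (nat_lit 5) (nat_lit 128) (nat_lit 5) (nat_lit 129) (nat_lit 5) (nat_lit 524) (nat_lit 456) (nat_lit 220)) (XT.lf (nat_lit 0) (nat_lit 15810072191) (nat_lit 304) (nat_lit 44989691314) (nat_lit 76) (nat_lit 8476964906) (nat_lit 121) (nat_lit 5) (nat_lit 125) (nat_lit 5) (nat_lit 122) (nat_lit 5) (nat_lit 525) (nat_lit 456) (nat_lit 219))))) (XT.nd (nat_lit 312) (nat_lit 684) (nat_lit 0) (XT.nd (nat_lit 156) (nat_lit 228) (nat_lit 0) (XT.nd (nat_lit 78) (nat_lit 228) (nat_lit 0) (XT.lf (nat_lit 0) (nat_lit 33227219793) (nat_lit 304) (nat_lit 3745817066) (nat_lit 76) (nat_lit 33632830575) (nat_lit 121) (nat_lit 5) (nat_lit 125) (nat_lit 5) (nat_lit 122) (nat_lit 5) (nat_lit 526) (nat_lit 456) (nat_lit 218)) (XT.lf (nat_lit 0)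 (nat_lit 39504043212) (nat_lit 228) (nat_lit 12041263199) (nat_lit 304) (nat_lit 20418221555) (nat_lit 118) (nat_lit 5) (nat_lit 121) (nat_lit 5) (nat_lit 122) (nat_lit 5) (nat_lit 527) (nat_lit 456) (nat_lit 217))) (XT.nd (nat_lit 78) (nat_lit 76) (nat_lit 0) (XT.lf (nat_lit 0) (nat_lit 10845352137) (nat_lit 152) (nat_lit 59839833245) (nat_lit 228) (nat_lit 2668565510) (nat_lit 116) (nat_lit 5) (nat_lit 118) (nat_lit 5) (nat_lit 119) (nat_lit 5) (nat_lit 528) (nat_lit 456) (nat_lit 216)) (XT.lf (nat_lit 0) (nat_lit 15757846514) (nat_lit 228) (nat_lit 18935888089) (nat_lit 76) (nat_lit 40073975051) (nat_lit 115) (nat_lit 5) (nat_lit 118) (nat_lit 5) (nat_lit 116) (nat_lit 5) (nat_lit 529) (nat_lit 456) (nat_lit 215)))) (XT.nd (nat_lit 156) (nat_lit 456) (nat_lit 0) (XT.nd (nat_lit 78) (nat_lit 0) (nat_lit 0) (XT.lf (nat_lit 0) (nat_lit 26430995115) (nat_lit 228) (nat_lit 8505229594) (nat_lit 304) (nat_lit 41279485613)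 (nat_lit 112) (nat_lit 5) (nat_lit 115) (nat_lit 5) (nat_lit 116) (nat_lit 5) (nat_lit 530) (nat_lit 456) (nat_lit 214)) (XT.lf (nat_lit 0) (nat_lit 55059343786) (nat_lit 304) (nat_lit 4335943672) (nat_lit 76) (nat_lit 18300781931) (nat_lit 112) (nat_lit 5) (nat_lit 116) (nat_lit 5) (nat_lit 113) (nat_lit 5) (nat_lit 531) (nat_lit 456) (nat_lit 213))) (XT.nd (nat_lit 78) (nat_lit 304) (nat_lit 0) (XT.lf (nat_lit 0) (nat_lit 43233634257) (nat_lit 152) (nat_lit 33051103341) (nat_lit 228) (nat_lit 2921144258) (nat_lit 110) (nat_lit 5) (nat_lit 112) (nat_lit 5) (nat_lit 113) (nat_lit 5) (nat_lit 532) (nat_lit 456) (nat_lit 212)) (XT.lf (nat_lit 0) (nat_lit 11616535748) (nat_lit 228) (nat_lit 5584776873) (nat_lit 304) (nat_lit 63550022326) (nat_lit 106) (nat_lit 5) (nat_lit 109) (nat_lit 5) (nat_lit 110) (nat_lit 5) (nat_lit 533) (nat_lit 456) (nat_lit 211)))))) (XT.nd (nat_lit 624) (nat_lit 380) (nat_lit 0) (XT.nd (nat_lit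 312) (nat_lit 380) (nat_lit 0) (XT.nd (nat_lit 156) (nat_lit 228) (nat_lit 0) (XT.nd (nat_lit 78) (nat_lit 152) (nat_lit 0) (XT.lf (nat_lit 0) (nat_lit 38452629753) (nat_lit 304) (nat_lit 21214755287) (nat_lit 76) (nat_lit 22657382022) (nat_lit 106) (nat_lit 5) (nat_lit 110) (nat_lit 5) (nat_lit 107) (nat_lit 5) (nat_lit 534) (nat_lit 456) (nat_lit 210)) (XT.lf (nat_lit 0) (nat_lit 28644512682) (nat_lit 152) (nat_lit 32026445682) (nat_lit 228) (nat_lit 23264559675) (nat_lit 104) (nat_lit 5) (nat_lit 106) (nat_lit 5) (nat_lit 107) (nat_lit 5) (nat_lit 535) (nat_lit 456) (nat_lit 209))) (XT.nd (nat_lit 78) (nat_lit 228) (nat_lit 0) (XT.lf (nat_lit 0) (nat_lit 80432420322) (nat_lit 152) (nat_lit 3336487210) (nat_lit 228) (nat_lit 1819291945) (nat_lit 104) (nat_lit 5) (nat_lit 106) (nat_lit 5) (nat_lit 107) (nat_lit 5) (nat_lit 536) (nat_lit 456) (nat_lit 208)) (XT.lf (nat_lit 0) (nat_lit 20584863434) (nat_lit 228)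 (nat_lit 40321562627) (nat_lit 76) (nat_lit 26356858393) (nat_lit 101) (nat_lit 5) (nat_lit 104) (nat_lit 5) (nat_lit 102) (nat_lit 5) (nat_lit 537) (nat_lit 456) (nat_lit 207)))) (XT.nd (nat_lit 156) (nat_lit 228) (nat_lit 0) (XT.nd (nat_lit 78) (nat_lit 0) (nat_lit 0) (XT.lf (nat_lit 0) (nat_lit 11899424076) (nat_lit 152) (nat_lit 31924023065) (nat_lit 228) (nat_lit 45158668416) (nat_lit 99) (nat_lit 5) (nat_lit 101) (nat_lit 5) (nat_lit 102) (nat_lit 5) (nat_lit 538) (nat_lit 456) (nat_lit 206)) (XT.lf (nat_lit 0) (nat_lit 66511622466) (nat_lit 152) (nat_lit 1653620357) (nat_lit 228) (nat_lit 22575087184) (nat_lit 99) (nat_lit 5) (nat_lit 101) (nat_lit 5) (nat_lit 102) (nat_lit 5) (nat_lit 539) (nat_lit 456) (nat_lit 205))) (XT.nd (nat_lit 78) (nat_lit 0) (nat_lit 0) (XT.lf (nat_lit 0) (nat_lit 1254424439) (nat_lit 228) (nat_lit 62025589927) (nat_lit 76) (nat_lit 29253624464) (nat_lit 96) (nat_lit 5) (nat_lit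 99) (nat_lit 5) (nat_lit 97) (nat_lit 5) (nat_lit 540) (nat_lit 456) (nat_lit 204)) (XT.lf (nat_lit 0) (nat_lit 25607454632) (nat_lit 228) (nat_lit 7234085068) (nat_lit 76) (nat_lit 61524630686) (nat_lit 96) (nat_lit 5) (nat_lit 99) (nat_lit 5) (nat_lit 97) (nat_lit 5) (nat_lit 541) (nat_lit 456) (nat_lit 203))))) (XT.nd (nat_lit 55926) (nat_lit 0) (nat_lit 15352) (XT.nd (nat_lit 156) (nat_lit 76) (nat_lit 0) (XT.nd (nat_lit 78) (nat_lit 152) (nat_lit 0) (XT.lf (nat_lit 0) (nat_lit 50178443387) (nat_lit 152) (nat_lit 993922705) (nat_lit 228) (nat_lit 45066873128) (nat_lit 94) (nat_lit 5) (nat_lit 96) (nat_lit 5) (nat_lit 97) (nat_lit 5) (nat_lit 542) (nat_lit 456) (nat_lit 202)) (XT.lf (nat_lit 0) (nat_lit 11205611900) (nat_lit 152) (nat_lit 66784819662) (nat_lit 228) (nat_lit 20163482402) (nat_lit 92) (nat_lit 5) (nat_lit 94) (nat_lit 5) (nat_lit 95) (nat_lit 5) (nat_lit 543) (nat_lit 456) (nat_lit 201))) (XT.nd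 (nat_lit 55692) (nat_lit 0) (nat_lit 15352) (XT.lf (nat_lit 0) (nat_lit 5858460125) (nat_lit 228) (nat_lit 29046943763) (nat_lit 76) (nat_lit 65204687121) (nat_lit 91) (nat_lit 5) (nat_lit 94) (nat_lit 5) (nat_lit 92) (nat_lit 5) (nat_lit 544) (nat_lit 456) (nat_lit 200)) (XT.lf (nat_lit 0) (nat_lit 3910576788) (nat_lit 1292) (nat_lit 3543278999) (nat_lit 1292) (nat_lit 3543278999) (nat_lit 293) (nat_lit 3) (nat_lit 310) (nat_lit 3) (nat_lit 310) (nat_lit 5) (nat_lit 457) (nat_lit 457) (nat_lit 286)))) (XT.nd (nat_lit 156) (nat_lit 0) (nat_lit 76) (XT.nd (nat_lit 78) (nat_lit 0) (nat_lit 76) (XT.lf (nat_lit 76) (nat_lit 3853560998) (nat_lit 0) (nat_lit 4257405158) (nat_lit 1292) (nat_lit 14208023772) (nat_lit 294) (nat_lit 5) (nat_lit 293) (nat_lit 3) (nat_lit 310) (nat_lit 5) (nat_lit 458) (nat_lit 457) (nat_lit 285)) (XT.lf (nat_lit 0) (nat_lit 8540977120) (nat_lit 1216) (nat_lit 7452347862) (nat_lit 1292) (nat_lit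 6656182526) (nat_lit 294) (nat_lit 5) (nat_lit 310) (nat_lit 5) (nat_lit 311) (nat_lit 5) (nat_lit 459) (nat_lit 457) (nat_lit 284))) (XT.nd (nat_lit 78) (nat_lit 0) (nat_lit 76) (XT.lf (nat_lit 76) (nat_lit 3922642737) (nat_lit 0) (nat_lit 5135970433) (nat_lit 1292) (nat_lit 13929086416) (nat_lit 295) (nat_lit 5) (nat_lit 294) (nat_lit 5) (nat_lit 311) (nat_lit 5) (nat_lit 460) (nat_lit 457) (nat_lit 283)) (XT.lf (nat_lit 0) (nat_lit 9720914352) (nat_lit 1216) (nat_lit 7604023440) (nat_lit 1292) (nat_lit 6007226246) (nat_lit 295) (nat_lit 5) (nat_lit 311) (nat_lit 5) (nat_lit 312) (nat_lit 5) (nat_lit 461) (nat_lit 457) (nat_lit 282))))))))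
noncomputable def xc210 : XT := (XT.nd (nat_lit 2340) (nat_lit 6460) (nat_lit 0) (XT.nd (nat_lit 1170) (nat_lit 4408) (nat_lit 0) (XT.nd (nat_lit 546) (nat_lit 1596) (nat_lit 0) (XT.nd (nat_lit 234) (nat_lit 0) (nat_lit 152) (XT.nd (nat_lit 78) (nat_lit 0) (nat_lit 76) (XT.lf (nat_lit 76) (nat_lit 4229593355) (nat_lit 0) (nat_lit 6260153619) (nat_lit 1292) (nat_lit 13194616250) (nat_lit 296) (nat_lit 5) (nat_lit 295) (nat_lit 5) (nat_lit 312) (nat_lit 5) (nat_lit 462) (nat_lit 457) (nat_lit 281)) (XT.nd (nat_lit 78) (nat_lit 0) (nat_lit 0) (XT.lf (nat_lit 0) (nat_lit 11403851076) (nat_lit 1216) (nat_lit 7523929808) (nat_lit 1292) (nat_lit 5115681959) (nat_lit 296) (nat_lit 5) (nat_lit 312) (nat_lit 5) (nat_lit 313) (nat_lit 5) (nat_lit 463) (nat_lit 457) (nat_lit 280)) (XT.lf (nat_lit 76) (nat_lit 4793417242) (nat_lit 0) (nat_lit 7655442003) (nat_lit 1292) (nat_lit 11961372411) (nat_lit 297) (nat_lit 5) (nat_lit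 296) (nat_lit 5) (nat_lit 313) (nat_lit 5) (nat_lit 464) (nat_lit 457) (nat_lit 279)))) (XT.nd (nat_lit 156) (nat_lit 0) (nat_lit 76) (XT.nd (nat_lit 78) (nat_lit 0) (nat_lit 0) (XT.lf (nat_lit 0) (nat_lit 13635507073) (nat_lit 1216) (nat_lit 7193070787) (nat_lit 1292) (nat_lit 3956117607) (nat_lit 297) (nat_lit 5) (nat_lit 313) (nat_lit 5) (nat_lit 314) (nat_lit 5) (nat_lit 465) (nat_lit 457) (nat_lit 278)) (XT.lf (nat_lit 76) (nat_lit 5634535197) (nat_lit 0) (nat_lit 9348849747) (nat_lit 1292) (nat_lit 10183239927) (nat_lit 298) (nat_lit 5) (nat_lit 297) (nat_lit 5) (nat_lit 314) (nat_lit 5) (nat_lit 466) (nat_lit 457) (nat_lit 277))) (XT.nd (nat_lit 78) (nat_lit 0) (nat_lit 0) (XT.lf (nat_lit 0) (nat_lit 16464629163) (nat_lit 1216) (nat_lit 6591039515) (nat_lit 1292) (nat_lit 2501556160) (nat_lit 298) (nat_lit 5) (nat_lit 314) (nat_lit 5) (nat_lit 315) (nat_lit 5) (nat_lit 467) (nat_lit 457) (nat_lit 276)) (XT.lf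 (nat_lit 76) (nat_lit 6774858139) (nat_lit 0) (nat_lit 11369043517) (nat_lit 1292) (nat_lit 7811033982) (nat_lit 299) (nat_lit 5) (nat_lit 298) (nat_lit 5) (nat_lit 315) (nat_lit 5) (nat_lit 468) (nat_lit 457) (nat_lit 275))))) (XT.nd (nat_lit 312) (nat_lit 1900) (nat_lit 0) (XT.nd (nat_lit 156) (nat_lit 0) (nat_lit 0) (XT.nd (nat_lit 78) (nat_lit 0) (nat_lit 0) (XT.lf (nat_lit 0) (nat_lit 19943195090) (nat_lit 1216) (nat_lit 5695944256) (nat_lit 1292) (nat_lit 723349680) (nat_lit 299) (nat_lit 5) (nat_lit 315) (nat_lit 5) (nat_lit 316) (nat_lit 5) (nat_lit 469) (nat_lit 457) (nat_lit 274)) (XT.lf (nat_lit 76) (nat_lit 8237865787) (nat_lit 0) (nat_lit 13746474368) (nat_lit 1292) (nat_lit 4792293207) (nat_lit 300) (nat_lit 5) (nat_lit 299) (nat_lit 5) (nat_lit 316) (nat_lit 5) (nat_lit 470) (nat_lit 457) (nat_lit 273))) (XT.nd (nat_lit 78) (nat_lit 0) (nat_lit 76) (XT.lf (nat_lit 76) (nat_lit 22703448297) (nat_lit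 0) (nat_lit 1436993903) (nat_lit 1292) (nat_lit 3061148665) (nat_lit 300) (nat_lit 5) (nat_lit 299) (nat_lit 5) (nat_lit 316) (nat_lit 5) (nat_lit 471) (nat_lit 457) (nat_lit 272)) (XT.lf (nat_lit 76) (nat_lit 10048690481) (nat_lit 0) (nat_lit 16513516458) (nat_lit 1292) (nat_lit 1071061264) (nat_lit 301) (nat_lit 5) (nat_lit 300) (nat_lit 5) (nat_lit 317) (nat_lit 5) (nat_lit 472) (nat_lit 457) (nat_lit 271)))) (XT.nd (nat_lit 156) (nat_lit 684) (nat_lit 0) (XT.nd (nat_lit 78) (nat_lit 0) (nat_lit 76) (XT.lf (nat_lit 0) (nat_lit 1016094852) (nat_lit 1292) (nat_lit 2979559830) (nat_lit 1368) (nat_lit 24080265468) (nat_lit 283) (nat_lit 5) (nat_lit 300) (nat_lit 5) (nat_lit 301) (nat_lit 5) (nat_lit 473) (nat_lit 457) (nat_lit 270)) (XT.lf (nat_lit 0) (nat_lit 3345756917) (nat_lit 1292) (nat_lit 16325070700) (nat_lit 76) (nat_lit 8854663805) (nat_lit 284) (nat_lit 5) (nat_lit 301) (nat_lit 5) (nat_lit 285) (nat_lit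 5) (nat_lit 474) (nat_lit 457) (nat_lit 269))) (XT.nd (nat_lit 78) (nat_lit 760) (nat_lit 0) (XT.lf (nat_lit 0) (nat_lit 5811805213) (nat_lit 1292) (nat_lit 1133694388) (nat_lit 76) (nat_lit 22041055785) (nat_lit 284) (nat_lit 5) (nat_lit 301) (nat_lit 5) (nat_lit 285) (nat_lit 5) (nat_lit 475) (nat_lit 457) (nat_lit 268)) (XT.lf (nat_lit 0) (nat_lit 8551385578) (nat_lit 836) (nat_lit 14718693688) (nat_lit 76) (nat_lit 6185385915) (nat_lit 274) (nat_lit 5) (nat_lit 285) (nat_lit 5) (nat_lit 275) (nat_lit 5) (nat_lit 476) (nat_lit 457) (nat_lit 267)))))) (XT.nd (nat_lit 546) (nat_lit 2052) (nat_lit 0) (XT.nd (nat_lit 234) (nat_lit 1140) (nat_lit 0) (XT.nd (nat_lit 78) (nat_lit 608) (nat_lit 0) (XT.lf (nat_lit 0) (nat_lit 1118384592) (nat_lit 608) (nat_lit 10342570843) (nat_lit 684) (nat_lit 18474853192) (nat_lit 266) (nat_lit 5) (nat_lit 274) (nat_lit 5) (nat_lit 275) (nat_lit 5) (nat_lit 477) (nat_lit 457) (nat_lit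 266)) (XT.nd (nat_lit 78) (nat_lit 608) (nat_lit 0) (XT.lf (nat_lit 0) (nat_lit 14633280902) (nat_lit 684) (nat_lit 12726976314) (nat_lit 76) (nat_lit 3065041511) (nat_lit 266) (nat_lit 5) (nat_lit 275) (nat_lit 5) (nat_lit 267) (nat_lit 5) (nat_lit 478) (nat_lit 457) (nat_lit 265)) (XT.lf (nat_lit 0) (nat_lit 3815203104) (nat_lit 608) (nat_lit 14221533222) (nat_lit 684) (nat_lit 12888658794) (nat_lit 258) (nat_lit 5) (nat_lit 266) (nat_lit 5) (nat_lit 267) (nat_lit 5) (nat_lit 479) (nat_lit 457) (nat_lit 264)))) (XT.nd (nat_lit 156) (nat_lit 608) (nat_lit 0) (XT.nd (nat_lit 78) (nat_lit 532) (nat_lit 0) (XT.lf (nat_lit 0) (nat_lit 21111539735) (nat_lit 608) (nat_lit 556219540) (nat_lit 684) (nat_lit 9768971597) (nat_lit 258) (nat_lit 5) (nat_lit 266) (nat_lit 5) (nat_lit 267) (nat_lit 5) (nat_lit 480) (nat_lit 457) (nat_lit 263)) (XT.lf (nat_lit 0) (nat_lit 6966343616) (nat_lit 532) (nat_lit 18635323275) (nat_lit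 608) (nat_lit 6355921559) (nat_lit 251) (nat_lit 5) (nat_lit 258) (nat_lit 5) (nat_lit 259) (nat_lit 5) (nat_lit 481) (nat_lit 457) (nat_lit 262))) (XT.nd (nat_lit 78) (nat_lit 608) (nat_lit 0) (XT.lf (nat_lit 0) (nat_lit 24979692214) (nat_lit 532) (nat_lit 4780710417) (nat_lit 608) (nat_lit 2730465159) (nat_lit 251) (nat_lit 5) (nat_lit 258) (nat_lit 5) (nat_lit 259) (nat_lit 5) (nat_lit 482) (nat_lit 457) (nat_lit 261)) (XT.lf (nat_lit 0) (nat_lit 1176401279) (nat_lit 608) (nat_lit 22439899242) (nat_lit 76) (nat_lit 9417788872) (nat_lit 243) (nat_lit 5) (nat_lit 251) (nat_lit 5) (nat_lit 244) (nat_lit 5) (nat_lit 483) (nat_lit 457) (nat_lit 260))))) (XT.nd (nat_lit 312) (nat_lit 988) (nat_lit 0) (XT.nd (nat_lit 156) (nat_lit 532) (nat_lit 0) (XT.nd (nat_lit 78) (nat_lit 532) (nat_lit 0) (XT.lf (nat_lit 0) (nat_lit 5266730765) (nat_lit 608) (nat_lit 4272759133) (nat_lit 76) (nat_lit 24049672946) (nat_lit 243) (nat_lit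 5) (nat_lit 251) (nat_lit 5) (nat_lit 244) (nat_lit 5) (nat_lit 484) (nat_lit 457) (nat_lit 259)) (XT.lf (nat_lit 0) (nat_lit 9667663980) (nat_lit 608) (nat_lit 19481998289) (nat_lit 76) (nat_lit 5005589737) (nat_lit 236) (nat_lit 5) (nat_lit 244) (nat_lit 5) (nat_lit 237) (nat_lit 5) (nat_lit 485) (nat_lit 457) (nat_lit 258))) (XT.nd (nat_lit 78) (nat_lit 532) (nat_lit 0) (XT.lf (nat_lit 0) (nat_lit 14335983818) (nat_lit 608) (nat_lit 559631508) (nat_lit 76) (nat_lit 19838648069) (nat_lit 236) (nat_lit 5) (nat_lit 244) (nat_lit 5) (nat_lit 237) (nat_lit 5) (nat_lit 486) (nat_lit 457) (nat_lit 257)) (XT.lf (nat_lit 0) (nat_lit 19304228687) (nat_lit 532) (nat_lit 23100802) (nat_lit 608) (nat_lit 15997826652) (nat_lit 229) (nat_lit 5) (nat_lit 236) (nat_lit 5) (nat_lit 237) (nat_lit 5) (nat_lit 487) (nat_lit 457) (nat_lit 256)))) (XT.nd (nat_lit 156) (nat_lit 532) (nat_lit 0) (XT.nd (nat_lit 78) (nat_lit 0) (nat_lit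 0) (XT.lf (nat_lit 0) (nat_lit 3765341293) (nat_lit 456) (nat_lit 20889463981) (nat_lit 532) (nat_lit 11273378997) (nat_lit 223) (nat_lit 5) (nat_lit 229) (nat_lit 5) (nat_lit 230) (nat_lit 5) (nat_lit 488) (nat_lit 457) (nat_lit 255)) (XT.lf (nat_lit 0) (nat_lit 24470488727) (nat_lit 456) (nat_lit 5831126608) (nat_lit 532) (nat_lit 6242902895) (nat_lit 223) (nat_lit 5) (nat_lit 229) (nat_lit 5) (nat_lit 230) (nat_lit 5) (nat_lit 489) (nat_lit 457) (nat_lit 254))) (XT.nd (nat_lit 78) (nat_lit 76) (nat_lit 0) (XT.lf (nat_lit 0) (nat_lit 8691128939) (nat_lit 456) (nat_lit 27600857915) (nat_lit 532) (nat_lit 882130918) (nat_lit 217) (nat_lit 5) (nat_lit 223) (nat_lit 5) (nat_lit 224) (nat_lit 5) (nat_lit 490) (nat_lit 457) (nat_lit 253)) (XT.lf (nat_lit 0) (nat_lit 4727388765) (nat_lit 532) (nat_lit 7598632713) (nat_lit 76) (nat_lit 25489892444) (nat_lit 216) (nat_lit 5) (nat_lit 223) (nat_lit 5) (nat_lit 217) (nat_lit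 5) (nat_lit 491) (nat_lit 457) (nat_lit 252))))))) (XT.nd (nat_lit 1170) (nat_lit 2812) (nat_lit 0) (XT.nd (nat_lit 546) (nat_lit 1824) (nat_lit 0) (XT.nd (nat_lit 234) (nat_lit 912) (nat_lit 0) (XT.nd (nat_lit 78) (nat_lit 456) (nat_lit 0) (XT.lf (nat_lit 0) (nat_lit 10655589770) (nat_lit 532) (nat_lit 24329504644) (nat_lit 76) (nat_lit 3486564007) (nat_lit 210) (nat_lit 5) (nat_lit 217) (nat_lit 5) (nat_lit 211) (nat_lit 5) (nat_lit 492) (nat_lit 457) (nat_lit 251)) (XT.nd (nat_lit 78) (nat_lit 456) (nat_lit 0) (XT.lf (nat_lit 0) (nat_lit 16958866515) (nat_lit 532) (nat_lit 2579491644) (nat_lit 76) (nat_lit 19602800452) (nat_lit 210) (nat_lit 5) (nat_lit 217) (nat_lit 5) (nat_lit 211) (nat_lit 5) (nat_lit 493) (nat_lit 457) (nat_lit 250)) (XT.lf (nat_lit 0) (nat_lit 20214719481) (nat_lit 456) (nat_lit 3428604240) (nat_lit 532) (nat_lit 16181657860) (nat_lit 204) (nat_lit 5) (nat_lit 210) (nat_lit 5) (nat_lit 211)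 (nat_lit 5) (nat_lit 494) (nat_lit 457) (nat_lit 249)))) (XT.nd (nat_lit 156) (nat_lit 532) (nat_lit 0) (XT.nd (nat_lit 78) (nat_lit 0) (nat_lit 0) (XT.lf (nat_lit 0) (nat_lit 3148942794) (nat_lit 380) (nat_lit 27560291252) (nat_lit 456) (nat_lit 9814657842) (nat_lit 199) (nat_lit 5) (nat_lit 204) (nat_lit 5) (nat_lit 205) (nat_lit 5) (nat_lit 495) (nat_lit 457) (nat_lit 248)) (XT.lf (nat_lit 0) (nat_lit 26955522200) (nat_lit 380) (nat_lit 11261075366) (nat_lit 456) (nat_lit 3020287888) (nat_lit 199) (nat_lit 5) (nat_lit 204) (nat_lit 5) (nat_lit 205) (nat_lit 5) (nat_lit 496) (nat_lit 457) (nat_lit 247))) (XT.nd (nat_lit 78) (nat_lit 0) (nat_lit 0) (XT.lf (nat_lit 0) (nat_lit 4045374976) (nat_lit 532) (nat_lit 32369410356) (nat_lit 76) (nat_lit 5550984007) (nat_lit 192) (nat_lit 5) (nat_lit 199) (nat_lit 5) (nat_lit 193) (nat_lit 5) (nat_lit 497) (nat_lit 457) (nat_lit 246)) (XT.lf (nat_lit 0) (nat_lit 11517349077)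 (nat_lit 532) (nat_lit 8374616336) (nat_lit 76) (nat_lit 22816006034) (nat_lit 192) (nat_lit 5) (nat_lit 199) (nat_lit 5) (nat_lit 193) (nat_lit 5) (nat_lit 498) (nat_lit 457) (nat_lit 245))))) (XT.nd (nat_lit 312) (nat_lit 760) (nat_lit 0) (XT.nd (nat_lit 156) (nat_lit 684) (nat_lit 0) (XT.nd (nat_lit 78) (nat_lit 0) (nat_lit 0) (XT.lf (nat_lit 0) (nat_lit 16662484705) (nat_lit 380) (nat_lit 2709137328) (nat_lit 456) (nat_lit 24096073596) (nat_lit 187) (nat_lit 5) (nat_lit 192) (nat_lit 5) (nat_lit 193) (nat_lit 5) (nat_lit 499) (nat_lit 457) (nat_lit 244)) (XT.lf (nat_lit 0) (nat_lit 27689009721) (nat_lit 456) (nat_lit 1772936104) (nat_lit 76) (nat_lit 14781441310) (nat_lit 187) (nat_lit 5) (nat_lit 193) (nat_lit 5) (nat_lit 188) (nat_lit 5) (nat_lit 500) (nat_lit 457) (nat_lit 243))) (XT.nd (nat_lit 78) (nat_lit 304) (nat_lit 0) (XT.lf (nat_lit 0) (nat_lit 24458119372) (nat_lit 380) (nat_lit 12057784468) (nat_lit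 456) (nat_lit 8518646190) (nat_lit 182) (nat_lit 5) (nat_lit 187) (nat_lit 5) (nat_lit 188) (nat_lit 5) (nat_lit 501) (nat_lit 457) (nat_lit 242)) (XT.lf (nat_lit 0) (nat_lit 5715831224) (nat_lit 304) (nat_lit 40019289905) (nat_lit 380) (nat_lit 110501376) (nat_lit 178) (nat_lit 5) (nat_lit 182) (nat_lit 5) (nat_lit 183) (nat_lit 5) (nat_lit 502) (nat_lit 457) (nat_lit 241)))) (XT.nd (nat_lit 156) (nat_lit 304) (nat_lit 0) (XT.nd (nat_lit 78) (nat_lit 380) (nat_lit 0) (XT.lf (nat_lit 0) (nat_lit 8710363502) (nat_lit 380) (nat_lit 13662431787) (nat_lit 76) (nat_lit 24295946991) (nat_lit 177) (nat_lit 5) (nat_lit 182) (nat_lit 5) (nat_lit 178) (nat_lit 5) (nat_lit 503) (nat_lit 457) (nat_lit 240)) (XT.lf (nat_lit 0) (nat_lit 13865836836) (nat_lit 380) (nat_lit 4059230975) (nat_lit 456) (nat_lit 29587512149) (nat_lit 172) (nat_lit 5) (nat_lit 177) (nat_lit 5) (nat_lit 178) (nat_lit 5) (nat_lit 504) (nat_lit 457) (nat_lit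 239))) (XT.nd (nat_lit 78) (nat_lit 304) (nat_lit 0) (XT.lf (nat_lit 0) (nat_lit 27696015331) (nat_lit 456) (nat_lit 6023854805) (nat_lit 76) (nat_lit 14653468734) (nat_lit 172) (nat_lit 5) (nat_lit 178) (nat_lit 5) (nat_lit 173) (nat_lit 5) (nat_lit 505) (nat_lit 457) (nat_lit 238)) (XT.lf (nat_lit 0) (nat_lit 22830498769) (nat_lit 304) (nat_lit 15187466664) (nat_lit 380) (nat_lit 11234219049) (nat_lit 168) (nat_lit 5) (nat_lit 172) (nat_lit 5) (nat_lit 173) (nat_lit 5) (nat_lit 506) (nat_lit 457) (nat_lit 237)))))) (XT.nd (nat_lit 624) (nat_lit 1140) (nat_lit 0) (XT.nd (nat_lit 312) (nat_lit 988) (nat_lit 0) (XT.nd (nat_lit 156) (nat_lit 304) (nat_lit 0) (XT.nd (nat_lit 78) (nat_lit 76) (nat_lit 0) (XT.lf (nat_lit 0) (nat_lit 2527050450) (nat_lit 304) (nat_lit 46243987778) (nat_lit 380) (nat_lit 1382713461) (nat_lit 164) (nat_lit 5) (nat_lit 168) (nat_lit 5) (nat_lit 169) (nat_lit 5) (nat_lit 507) (nat_lit 457)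 (nat_lit 236)) (XT.lf (nat_lit 0) (nat_lit 9011386214) (nat_lit 380) (nat_lit 18428321673) (nat_lit 76) (nat_lit 23627588544) (nat_lit 163) (nat_lit 5) (nat_lit 168) (nat_lit 5) (nat_lit 164) (nat_lit 5) (nat_lit 508) (nat_lit 457) (nat_lit 235))) (XT.nd (nat_lit 78) (nat_lit 0) (nat_lit 0) (XT.lf (nat_lit 0) (nat_lit 11861283623) (nat_lit 304) (nat_lit 7940555765) (nat_lit 380) (nat_lit 32202627909) (nat_lit 159) (nat_lit 5) (nat_lit 163) (nat_lit 5) (nat_lit 164) (nat_lit 5) (nat_lit 509) (nat_lit 457) (nat_lit 234)) (XT.lf (nat_lit 0) (nat_lit 31218991774) (nat_lit 380) (nat_lit 9647914849) (nat_lit 76) (nat_lit 12093757235) (nat_lit 159) (nat_lit 5) (nat_lit 164) (nat_lit 5) (nat_lit 160) (nat_lit 5) (nat_lit 510) (nat_lit 457) (nat_lit 233)))) (XT.nd (nat_lit 156) (nat_lit 304) (nat_lit 0) (XT.nd (nat_lit 78) (nat_lit 380) (nat_lit 0) (XT.lf (nat_lit 0) (nat_lit 22112653340) (nat_lit 304) (nat_lit 21155555778)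 (nat_lit 380) (nat_lit 10668650819) (nat_lit 155) (nat_lit 5) (nat_lit 159) (nat_lit 5) (nat_lit 160) (nat_lit 5) (nat_lit 511) (nat_lit 457) (nat_lit 232)) (XT.lf (nat_lit 0) (nat_lit 75372791) (nat_lit 304) (nat_lit 744308404) (nat_lit 380) (nat_lit 54119523626) (nat_lit 150) (nat_lit 5) (nat_lit 154) (nat_lit 5) (nat_lit 155) (nat_lit 5) (nat_lit 512) (nat_lit 457) (nat_lit 231))) (XT.nd (nat_lit 78) (nat_lit 304) (nat_lit 0) (XT.lf (nat_lit 0) (nat_lit 12956109488) (nat_lit 380) (nat_lit 22683884897) (nat_lit 76) (nat_lit 20312920614) (nat_lit 150) (nat_lit 5) (nat_lit 155) (nat_lit 5) (nat_lit 151) (nat_lit 5) (nat_lit 513) (nat_lit 457) (nat_lit 230)) (XT.lf (nat_lit 0) (nat_lit 10659710821) (nat_lit 304) (nat_lit 14905198542) (nat_lit 380) (nat_lit 31428878875) (nat_lit 146) (nat_lit 5) (nat_lit 150) (nat_lit 5) (nat_lit 151) (nat_lit 5) (nat_lit 514) (nat_lit 457) (nat_lit 229))))) (XT.nd (nat_lit 312) (nat_lit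 532) (nat_lit 0) (XT.nd (nat_lit 156) (nat_lit 380) (nat_lit 0) (XT.nd (nat_lit 78) (nat_lit 228) (nat_lit 0) (XT.lf (nat_lit 0) (nat_lit 38843777402) (nat_lit 380) (nat_lit 12657093609) (nat_lit 76) (nat_lit 6556262651) (nat_lit 146) (nat_lit 5) (nat_lit 151) (nat_lit 5) (nat_lit 147) (nat_lit 5) (nat_lit 515) (nat_lit 457) (nat_lit 228)) (XT.lf (nat_lit 0) (nat_lit 22315749617) (nat_lit 228) (nat_lit 30565852025) (nat_lit 304) (nat_lit 6259960213) (nat_lit 143) (nat_lit 5) (nat_lit 146) (nat_lit 5) (nat_lit 147) (nat_lit 5) (nat_lit 516) (nat_lit 457) (nat_lit 227))) (XT.nd (nat_lit 78) (nat_lit 304) (nat_lit 0) (XT.lf (nat_lit 0) (nat_lit 7071426940) (nat_lit 304) (nat_lit 1729136168) (nat_lit 76) (nat_lit 51452090026) (nat_lit 142) (nat_lit 5) (nat_lit 146) (nat_lit 5) (nat_lit 143) (nat_lit 5) (nat_lit 517) (nat_lit 457) (nat_lit 226)) (XT.lf (nat_lit 0) (nat_lit 21147155679) (nat_lit 380) (nat_lit 26480056076)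 (nat_lit 76) (nat_lit 13753899535) (nat_lit 138) (nat_lit 5) (nat_lit 143) (nat_lit 5) (nat_lit 139) (nat_lit 5) (nat_lit 518) (nat_lit 457) (nat_lit 225)))) (XT.nd (nat_lit 156) (nat_lit 304) (nat_lit 0) (XT.nd (nat_lit 78) (nat_lit 0) (nat_lit 0) (XT.lf (nat_lit 0) (nat_lit 10232783894) (nat_lit 228) (nat_lit 25614068314) (nat_lit 304) (nat_lit 26690520202) (nat_lit 135) (nat_lit 5) (nat_lit 138) (nat_lit 5) (nat_lit 139) (nat_lit 5) (nat_lit 519) (nat_lit 457) (nat_lit 224)) (XT.lf (nat_lit 0) (nat_lit 48587560684) (nat_lit 228) (nat_lit 2665959755) (nat_lit 304) (nat_lit 12466821597) (nat_lit 135) (nat_lit 5) (nat_lit 138) (nat_lit 5) (nat_lit 139) (nat_lit 5) (nat_lit 520) (nat_lit 457) (nat_lit 223))) (XT.nd (nat_lit 78) (nat_lit 0) (nat_lit 0) (XT.lf (nat_lit 0) (nat_lit 2570391385) (nat_lit 304) (nat_lit 41544120551) (nat_lit 76) (nat_lit 20810776811) (nat_lit 131) (nat_lit 5) (nat_lit 135) (nat_lit 5) (nat_lit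 132) (nat_lit 5) (nat_lit 521) (nat_lit 457) (nat_lit 222)) (XT.lf (nat_lit 0) (nat_lit 17987492962) (nat_lit 304) (nat_lit 2954635287) (nat_lit 76) (nat_lit 45215172394) (nat_lit 131) (nat_lit 5) (nat_lit 135) (nat_lit 5) (nat_lit 132) (nat_lit 5) (nat_lit 522) (nat_lit 457) (nat_lit 221))))))))
noncomputable def xc211 : XT := (XT.nd (nat_lit 58032) (nat_lit 0) (nat_lit 8132) (XT.nd (nat_lit 1170) (nat_lit 912) (nat_lit 0) (XT.nd (nat_lit 546) (nat_lit 912) (nat_lit 0) (XT.nd (nat_lit 234) (nat_lit 684) (nat_lit 0) (XT.nd (nat_lit 78) (nat_lit 228) (nat_lit 0) (XT.lf (nat_lit 0) (nat_lit 34258144617) (nat_lit 304) (nat_lit 29924613188) (nat_lit 76) (nat_lit 3231784064) (nat_lit 128) (nat_lit 5) (nat_lit 132) (nat_lit 5) (nat_lit 129) (nat_lit 5) (nat_lit 523) (nat_lit 457) (nat_lit 220)) (XT.nd (nat_lit 78) (nat_lit 0) (nat_lit 0) (XT.lf (nat_lit 0) (nat_lit 10494756846) (nat_lit 228) (nat_lit 40859193548) (nat_lit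 304) (nat_lit 17345438983) (nat_lit 125) (nat_lit 5) (nat_lit 128) (nat_lit 5) (nat_lit 129) (nat_lit 5) (nat_lit 524) (nat_lit 457) (nat_lit 219)) (XT.lf (nat_lit 0) (nat_lit 52737972713) (nat_lit 228) (nat_lit 16525528741) (nat_lit 304) (nat_lit 750254804) (nat_lit 125) (nat_lit 5) (nat_lit 128) (nat_lit 5) (nat_lit 129) (nat_lit 5) (nat_lit 525) (nat_lit 457) (nat_lit 218)))) (XT.nd (nat_lit 156) (nat_lit 380) (nat_lit 0) (XT.nd (nat_lit 78) (nat_lit 0) (nat_lit 0) (XT.lf (nat_lit 0) (nat_lit 16350985593) (nat_lit 304) (nat_lit 46227908256) (nat_lit 76) (nat_lit 8774134247) (nat_lit 121) (nat_lit 5) (nat_lit 125) (nat_lit 5) (nat_lit 122) (nat_lit 5) (nat_lit 526) (nat_lit 457) (nat_lit 217)) (XT.lf (nat_lit 0) (nat_lit 34288707490) (nat_lit 304) (nat_lit 3749964590) (nat_lit 76) (nat_lit 34683427526) (nat_lit 121) (nat_lit 5) (nat_lit 125) (nat_lit 5) (nat_lit 122) (nat_lit 5) (nat_lit 527) (nat_lit 457) (nat_lit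 216))) (XT.nd (nat_lit 78) (nat_lit 152) (nat_lit 0) (XT.lf (nat_lit 0) (nat_lit 40796330447) (nat_lit 228) (nat_lit 12359152779) (nat_lit 304) (nat_lit 20965032439) (nat_lit 118) (nat_lit 5) (nat_lit 121) (nat_lit 5) (nat_lit 122) (nat_lit 5) (nat_lit 528) (nat_lit 457) (nat_lit 215)) (XT.lf (nat_lit 0) (nat_lit 11278314723) (nat_lit 152) (nat_lit 61590823969) (nat_lit 228) (nat_lit 2683319290) (nat_lit 116) (nat_lit 5) (nat_lit 118) (nat_lit 5) (nat_lit 119) (nat_lit 5) (nat_lit 529) (nat_lit 457) (nat_lit 214))))) (XT.nd (nat_lit 312) (nat_lit 456) (nat_lit 0) (XT.nd (nat_lit 156) (nat_lit 152) (nat_lit 0) (XT.nd (nat_lit 78) (nat_lit 228) (nat_lit 0) (XT.lf (nat_lit 0) (nat_lit 16292745876) (nat_lit 228) (nat_lit 19398256261) (nat_lit 76) (nat_lit 41317870583) (nat_lit 115) (nat_lit 5) (nat_lit 118) (nat_lit 5) (nat_lit 116) (nat_lit 5) (nat_lit 530) (nat_lit 457) (nat_lit 213)) (XT.lf (nat_lit 0) (nat_lit 27328597081)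 (nat_lit 228) (nat_lit 8717073907) (nat_lit 304) (nat_lit 42454666649) (nat_lit 112) (nat_lit 5) (nat_lit 115) (nat_lit 5) (nat_lit 116) (nat_lit 5) (nat_lit 531) (nat_lit 457) (nat_lit 212))) (XT.nd (nat_lit 78) (nat_lit 152) (nat_lit 0) (XT.lf (nat_lit 0) (nat_lit 56771100686) (nat_lit 304) (nat_lit 4363012506) (nat_lit 76) (nat_lit 18891035866) (nat_lit 112) (nat_lit 5) (nat_lit 116) (nat_lit 5) (nat_lit 113) (nat_lit 5) (nat_lit 532) (nat_lit 457) (nat_lit 211)) (XT.lf (nat_lit 0) (nat_lit 44632642863) (nat_lit 152) (nat_lit 33999847041) (nat_lit 228) (nat_lit 2947789078) (nat_lit 110) (nat_lit 5) (nat_lit 112) (nat_lit 5) (nat_lit 113) (nat_lit 5) (nat_lit 533) (nat_lit 457) (nat_lit 210)))) (XT.nd (nat_lit 156) (nat_lit 152) (nat_lit 0) (XT.nd (nat_lit 78) (nat_lit 0) (nat_lit 0) (XT.lf (nat_lit 0) (nat_lit 12067212768) (nat_lit 228) (nat_lit 5709179111) (nat_lit 304) (nat_lit 65395709070) (nat_lit 106) (nat_lit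 5) (nat_lit 109) (nat_lit 5) (nat_lit 110) (nat_lit 5) (nat_lit 534) (nat_lit 457) (nat_lit 209)) (XT.lf (nat_lit 0) (nat_lit 39663931536) (nat_lit 304) (nat_lit 21750673388) (nat_lit 76) (nat_lit 23378170697) (nat_lit 106) (nat_lit 5) (nat_lit 110) (nat_lit 5) (nat_lit 107) (nat_lit 5) (nat_lit 535) (nat_lit 457) (nat_lit 208))) (XT.nd (nat_lit 78) (nat_lit 0) (nat_lit 0) (XT.lf (nat_lit 0) (nat_lit 29603387086) (nat_lit 152) (nat_lit 32944698500) (nat_lit 228) (nat_lit 23903785353) (nat_lit 104) (nat_lit 5) (nat_lit 106) (nat_lit 5) (nat_lit 107) (nat_lit 5) (nat_lit 536) (nat_lit 457) (nat_lit 207)) (XT.lf (nat_lit 0) (nat_lit 82942032760) (nat_lit 152) (nat_lit 3395280319) (nat_lit 228) (nat_lit 1816869624) (nat_lit 104) (nat_lit 5) (nat_lit 106) (nat_lit 5) (nat_lit 107) (nat_lit 5) (nat_lit 537) (nat_lit 457) (nat_lit 206)))))) (XT.nd (nat_lit 56238) (nat_lit 0) (nat_lit 15276) (XT.nd (nat_lit 234) (nat_lit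 532) (nat_lit 0) (XT.nd (nat_lit 78) (nat_lit 152) (nat_lit 0) (XT.lf (nat_lit 0) (nat_lit 21258000688) (nat_lit 228) (nat_lit 41433154957) (nat_lit 76) (nat_lit 27188357143) (nat_lit 101) (nat_lit 5) (nat_lit 104) (nat_lit 5) (nat_lit 102) (nat_lit 5) (nat_lit 538) (nat_lit 457) (nat_lit 205)) (XT.nd (nat_lit 78) (nat_lit 0) (nat_lit 0) (XT.lf (nat_lit 0) (nat_lit 12353500028) (nat_lit 152) (nat_lit 32839556032) (nat_lit 228) (nat_lit 46456873411) (nat_lit 99) (nat_lit 5) (nat_lit 101) (nat_lit 5) (nat_lit 102) (nat_lit 5) (nat_lit 539) (nat_lit 457) (nat_lit 204)) (XT.lf (nat_lit 0) (nat_lit 68601236411) (nat_lit 152) (nat_lit 1662270012) (nat_lit 228) (nat_lit 23197431978) (nat_lit 99) (nat_lit 5) (nat_lit 101) (nat_lit 5) (nat_lit 102) (nat_lit 5) (nat_lit 540) (nat_lit 457) (nat_lit 203)))) (XT.nd (nat_lit 156) (nat_lit 304) (nat_lit 0) (XT.nd (nat_lit 78) (nat_lit 0) (nat_lit 0) (XT.lf (nat_lit 0) (nat_lit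 1345629280) (nat_lit 228) (nat_lit 63790752205) (nat_lit 76) (nat_lit 30171657162) (nat_lit 96) (nat_lit 5) (nat_lit 99) (nat_lit 5) (nat_lit 97) (nat_lit 5) (nat_lit 541) (nat_lit 457) (nat_lit 202)) (XT.lf (nat_lit 0) (nat_lit 26427690026) (nat_lit 228) (nat_lit 7358286825) (nat_lit 76) (nat_lit 63409616174) (nat_lit 96) (nat_lit 5) (nat_lit 99) (nat_lit 5) (nat_lit 97) (nat_lit 5) (nat_lit 542) (nat_lit 457) (nat_lit 201))) (XT.nd (nat_lit 78) (nat_lit 152) (nat_lit 0) (XT.lf (nat_lit 0) (nat_lit 51775707477) (nat_lit 152) (nat_lit 983209952) (nat_lit 228) (nat_lit 46365955500) (nat_lit 94) (nat_lit 5) (nat_lit 96) (nat_lit 5) (nat_lit 97) (nat_lit 5) (nat_lit 543) (nat_lit 457) (nat_lit 200)) (XT.lf (nat_lit 0) (nat_lit 11633932512) (nat_lit 152) (nat_lit 68747359913) (nat_lit 228) (nat_lit 20715702520) (nat_lit 92) (nat_lit 5) (nat_lit 94) (nat_lit 5) (nat_lit 95) (nat_lit 5) (nat_lit 544) (nat_lit 457) (nat_lit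 199))))) (XT.nd (nat_lit 312) (nat_lit 0) (nat_lit 152) (XT.nd (nat_lit 156) (nat_lit 0) (nat_lit 76) (XT.nd (nat_lit 78) (nat_lit 0) (nat_lit 0) (XT.lf (nat_lit 0) (nat_lit 4162044530) (nat_lit 1292) (nat_lit 3580480568) (nat_lit 1292) (nat_lit 3580480568) (nat_lit 293) (nat_lit 3) (nat_lit 310) (nat_lit 3) (nat_lit 310) (nat_lit 5) (nat_lit 458) (nat_lit 458) (nat_lit 284)) (XT.lf (nat_lit 76) (nat_lit 4106006590) (nat_lit 0) (nat_lit 4510090218) (nat_lit 1292) (nat_lit 14364572555) (nat_lit 294) (nat_lit 5) (nat_lit 293) (nat_lit 3) (nat_lit 310) (nat_lit 5) (nat_lit 459) (nat_lit 458) (nat_lit 283))) (XT.nd (nat_lit 78) (nat_lit 0) (nat_lit 0) (XT.lf (nat_lit 0) (nat_lit 9050216577) (nat_lit 1216) (nat_lit 7534238448) (nat_lit 1292) (nat_lit 6736912246) (nat_lit 294) (nat_lit 5) (nat_lit 310) (nat_lit 5) (nat_lit 311) (nat_lit 5) (nat_lit 460) (nat_lit 458) (nat_lit 282)) (XT.lf (nat_lit 76) (nat_lit 4180612851)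 (nat_lit 0) (nat_lit 5396748191) (nat_lit 1292) (nat_lit 14092525713) (nat_lit 295) (nat_lit 5) (nat_lit 294) (nat_lit 5) (nat_lit 311) (nat_lit 5) (nat_lit 461) (nat_lit 458) (nat_lit 281)))) (XT.nd (nat_lit 156) (nat_lit 0) (nat_lit 76) (XT.nd (nat_lit 78) (nat_lit 0) (nat_lit 0) (XT.lf (nat_lit 0) (nat_lit 10251341612) (nat_lit 1216) (nat_lit 7687716665) (nat_lit 1292) (nat_lit 6085873548) (nat_lit 295) (nat_lit 5) (nat_lit 311) (nat_lit 5) (nat_lit 312) (nat_lit 5) (nat_lit 462) (nat_lit 458) (nat_lit 280)) (XT.lf (nat_lit 76) (nat_lit 4499492679) (nat_lit 0) (nat_lit 6538165913) (nat_lit 1292) (nat_lit 13350206777) (nat_lit 296) (nat_lit 5) (nat_lit 295) (nat_lit 5) (nat_lit 312) (nat_lit 5) (nat_lit 463) (nat_lit 458) (nat_lit 279))) (XT.nd (nat_lit 78) (nat_lit 0) (nat_lit 0) (XT.lf (nat_lit 0) (nat_lit 11971551150) (nat_lit 1216) (nat_lit 7603135658) (nat_lit 1292) (nat_lit 5183281147) (nat_lit 296) (nat_lit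 5) (nat_lit 312) (nat_lit 5) (nat_lit 313) (nat_lit 5) (nat_lit 464) (nat_lit 458) (nat_lit 278)) (XT.lf (nat_lit 76) (nat_lit 5082295411) (nat_lit 0) (nat_lit 7960438285) (nat_lit 1292) (nat_lit 12093162321) (nat_lit 297) (nat_lit 5) (nat_lit 296) (nat_lit 5) (nat_lit 313) (nat_lit 5) (nat_lit 465) (nat_lit 458) (nat_lit 277))))))) (XT.nd (nat_lit 1170) (nat_lit 4484) (nat_lit 0) (XT.nd (nat_lit 546) (nat_lit 2964) (nat_lit 0) (XT.nd (nat_lit 234) (nat_lit 0) (nat_lit 76) (XT.nd (nat_lit 78) (nat_lit 0) (nat_lit 0) (XT.lf (nat_lit 0) (nat_lit 14257858233) (nat_lit 1216) (nat_lit 7260860593) (nat_lit 1292) (nat_lit 4003089482) (nat_lit 297) (nat_lit 5) (nat_lit 313) (nat_lit 5) (nat_lit 314) (nat_lit 5) (nat_lit 466) (nat_lit 458) (nat_lit 276)) (XT.nd (nat_lit 78) (nat_lit 0) (nat_lit 76) (XT.lf (nat_lit 76) (nat_lit 5950122567) (nat_lit 0) (nat_lit 9691246402) (nat_lit 1292) (nat_lit 10273971587) (nat_lit 298)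 (nat_lit 5) (nat_lit 297) (nat_lit 5) (nat_lit 314) (nat_lit 5) (nat_lit 467) (nat_lit 458) (nat_lit 275)) (XT.lf (nat_lit 0) (nat_lit 17160400228) (nat_lit 1216) (nat_lit 6639809831) (nat_lit 1292) (nat_lit 2517648803) (nat_lit 298) (nat_lit 5) (nat_lit 314) (nat_lit 5) (nat_lit 315) (nat_lit 5) (nat_lit 468) (nat_lit 458) (nat_lit 274)))) (XT.nd (nat_lit 156) (nat_lit 0) (nat_lit 76) (XT.nd (nat_lit 78) (nat_lit 0) (nat_lit 76) (XT.lf (nat_lit 76) (nat_lit 7125604352) (nat_lit 0) (nat_lit 11759985802) (nat_lit 1292) (nat_lit 7842045464) (nat_lit 299) (nat_lit 5) (nat_lit 298) (nat_lit 5) (nat_lit 315) (nat_lit 5) (nat_lit 469) (nat_lit 458) (nat_lit 273)) (XT.lf (nat_lit 0) (nat_lit 20732648280) (nat_lit 1216) (nat_lit 5717377974) (nat_lit 1292) (nat_lit 697576562) (nat_lit 299) (nat_lit 5) (nat_lit 315) (nat_lit 5) (nat_lit 316) (nat_lit 5) (nat_lit 470) (nat_lit 458) (nat_lit 272))) (XT.nd (nat_lit 78) (nat_lit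 0) (nat_lit 0) (XT.lf (nat_lit 76) (nat_lit 8632981228) (nat_lit 0) (nat_lit 14197901249) (nat_lit 1292) (nat_lit 4743414123) (nat_lit 300) (nat_lit 5) (nat_lit 299) (nat_lit 5) (nat_lit 316) (nat_lit 5) (nat_lit 471) (nat_lit 458) (nat_lit 271)) (XT.lf (nat_lit 76) (nat_lit 23528221131) (nat_lit 0) (nat_lit 1517999497) (nat_lit 1292) (nat_lit 2965946348) (nat_lit 300) (nat_lit 5) (nat_lit 299) (nat_lit 5) (nat_lit 316) (nat_lit 5) (nat_lit 472) (nat_lit 458) (nat_lit 270))))) (XT.nd (nat_lit 312) (nat_lit 1900) (nat_lit 0) (XT.nd (nat_lit 156) (nat_lit 0) (nat_lit 76) (XT.nd (nat_lit 78) (nat_lit 1292) (nat_lit 0) (XT.lf (nat_lit 76) (nat_lit 10498190735) (nat_lit 0) (nat_lit 17038228648) (nat_lit 1292) (nat_lit 920502538) (nat_lit 301) (nat_lit 5) (nat_lit 300) (nat_lit 5) (nat_lit 317) (nat_lit 5) (nat_lit 473) (nat_lit 458) (nat_lit 269)) (XT.lf (nat_lit 0) (nat_lit 1220486060) (nat_lit 1292) (nat_lit 2921735233)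 (nat_lit 1368) (nat_lit 24770736644) (nat_lit 283) (nat_lit 5) (nat_lit 300) (nat_lit 5) (nat_lit 301) (nat_lit 5) (nat_lit 474) (nat_lit 458) (nat_lit 268))) (XT.nd (nat_lit 78) (nat_lit 0) (nat_lit 0) (XT.lf (nat_lit 0) (nat_lit 3616138628) (nat_lit 1292) (nat_lit 16663690161) (nat_lit 76) (nat_lit 9096305198) (nat_lit 284) (nat_lit 5) (nat_lit 301) (nat_lit 5) (nat_lit 285) (nat_lit 5) (nat_lit 475) (nat_lit 458) (nat_lit 267)) (XT.lf (nat_lit 0) (nat_lit 6151216654) (nat_lit 1292) (nat_lit 1020974481) (nat_lit 76) (nat_lit 22678987923) (nat_lit 284) (nat_lit 5) (nat_lit 301) (nat_lit 5) (nat_lit 285) (nat_lit 5) (nat_lit 476) (nat_lit 458) (nat_lit 266)))) (XT.nd (nat_lit 156) (nat_lit 608) (nat_lit 0) (XT.nd (nat_lit 78) (nat_lit 608) (nat_lit 0) (XT.lf (nat_lit 0) (nat_lit 8969416367) (nat_lit 836) (nat_lit 15009935045) (nat_lit 76) (nat_lit 6354912396) (nat_lit 274) (nat_lit 5) (nat_lit 285) (nat_lit 5) (nat_lit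 275) (nat_lit 5) (nat_lit 477) (nat_lit 458) (nat_lit 265)) (XT.lf (nat_lit 0) (nat_lit 1300781863) (nat_lit 608) (nat_lit 10662218683) (nat_lit 684) (nat_lit 18866115796) (nat_lit 266) (nat_lit 5) (nat_lit 274) (nat_lit 5) (nat_lit 275) (nat_lit 5) (nat_lit 478) (nat_lit 458) (nat_lit 264))) (XT.nd (nat_lit 78) (nat_lit 608) (nat_lit 0) (XT.lf (nat_lit 0) (nat_lit 15225800078) (nat_lit 684) (nat_lit 12959560017) (nat_lit 76) (nat_lit 3148072506) (nat_lit 266) (nat_lit 5) (nat_lit 275) (nat_lit 5) (nat_lit 267) (nat_lit 5) (nat_lit 479) (nat_lit 458) (nat_lit 263)) (XT.lf (nat_lit 0) (nat_lit 4077421787) (nat_lit 608) (nat_lit 14650886284) (nat_lit 684) (nat_lit 13120315913) (nat_lit 258) (nat_lit 5) (nat_lit 266) (nat_lit 5) (nat_lit 267) (nat_lit 5) (nat_lit 480) (nat_lit 458) (nat_lit 262)))))) (XT.nd (nat_lit 624) (nat_lit 2280) (nat_lit 0) (XT.nd (nat_lit 312) (nat_lit 1064) (nat_lit 0) (XT.nd (nat_lit 156)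 (nat_lit 608) (nat_lit 0) (XT.nd (nat_lit 78) (nat_lit 532) (nat_lit 0) (XT.lf (nat_lit 0) (nat_lit 21888344752) (nat_lit 608) (nat_lit 575534345) (nat_lit 684) (nat_lit 9911552741) (nat_lit 258) (nat_lit 5) (nat_lit 266) (nat_lit 5) (nat_lit 267) (nat_lit 5) (nat_lit 481) (nat_lit 458) (nat_lit 261)) (XT.lf (nat_lit 0) (nat_lit 7321769121) (nat_lit 532) (nat_lit 19191162954) (nat_lit 608) (nat_lit 6399069758) (nat_lit 251) (nat_lit 5) (nat_lit 258) (nat_lit 5) (nat_lit 259) (nat_lit 5) (nat_lit 482) (nat_lit 458) (nat_lit 260))) (XT.nd (nat_lit 78) (nat_lit 608) (nat_lit 0) (XT.lf (nat_lit 0) (nat_lit 25871253074) (nat_lit 532) (nat_lit 4921005498) (nat_lit 608) (nat_lit 2669146640) (nat_lit 251) (nat_lit 5) (nat_lit 258) (nat_lit 5) (nat_lit 259) (nat_lit 5) (nat_lit 483) (nat_lit 458) (nat_lit 259)) (XT.lf (nat_lit 0) (nat_lit 1349476462) (nat_lit 608) (nat_lit 22965443703) (nat_lit 76) (nat_lit 9706042112) (nat_lit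 243) (nat_lit 5) (nat_lit 251) (nat_lit 5) (nat_lit 244) (nat_lit 5) (nat_lit 484) (nat_lit 458) (nat_lit 258)))) (XT.nd (nat_lit 156) (nat_lit 532) (nat_lit 0) (XT.nd (nat_lit 78) (nat_lit 532) (nat_lit 0) (XT.lf (nat_lit 0) (nat_lit 5558502732) (nat_lit 608) (nat_lit 4257589949) (nat_lit 76) (nat_lit 24776716120) (nat_lit 243) (nat_lit 5) (nat_lit 251) (nat_lit 5) (nat_lit 244) (nat_lit 5) (nat_lit 485) (nat_lit 458) (nat_lit 257)) (XT.lf (nat_lit 0) (nat_lit 10089035139) (nat_lit 608) (nat_lit 19920662109) (nat_lit 76) (nat_lit 5166256713) (nat_lit 236) (nat_lit 5) (nat_lit 244) (nat_lit 5) (nat_lit 237) (nat_lit 5) (nat_lit 486) (nat_lit 458) (nat_lit 256))) (XT.nd (nat_lit 78) (nat_lit 532) (nat_lit 0) (XT.lf (nat_lit 0) (nat_lit 14893579099) (nat_lit 608) (nat_lit 434870814) (nat_lit 76) (nat_lit 20444000991) (nat_lit 236) (nat_lit 5) (nat_lit 244) (nat_lit 5) (nat_lit 237) (nat_lit 5) (nat_lit 487) (nat_lit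 458) (nat_lit 255)) (XT.lf (nat_lit 0) (nat_lit 20023517446) (nat_lit 532) (nat_lit 8780966) (nat_lit 608) (nat_lit 16348843458) (nat_lit 229) (nat_lit 5) (nat_lit 236) (nat_lit 5) (nat_lit 237) (nat_lit 5) (nat_lit 488) (nat_lit 458) (nat_lit 254))))) (XT.nd (nat_lit 312) (nat_lit 1292) (nat_lit 0) (XT.nd (nat_lit 156) (nat_lit 532) (nat_lit 0) (XT.nd (nat_lit 78) (nat_lit 0) (nat_lit 0) (XT.lf (nat_lit 0) (nat_lit 4020678401) (nat_lit 456) (nat_lit 21496783675) (nat_lit 532) (nat_lit 11484863282) (nat_lit 223) (nat_lit 5) (nat_lit 229) (nat_lit 5) (nat_lit 230) (nat_lit 5) (nat_lit 489) (nat_lit 458) (nat_lit 253)) (XT.lf (nat_lit 0) (nat_lit 25342833359) (nat_lit 456) (nat_lit 5987260187) (nat_lit 532) (nat_lit 6307163686) (nat_lit 223) (nat_lit 5) (nat_lit 229) (nat_lit 5) (nat_lit 230) (nat_lit 5) (nat_lit 490) (nat_lit 458) (nat_lit 252))) (XT.nd (nat_lit 78) (nat_lit 76) (nat_lit 0) (XT.lf (nat_lit 0) (nat_lit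 9092119919) (nat_lit 456) (nat_lit 28406101447) (nat_lit 532) (nat_lit 787582436) (nat_lit 217) (nat_lit 5) (nat_lit 223) (nat_lit 5) (nat_lit 224) (nat_lit 5) (nat_lit 491) (nat_lit 458) (nat_lit 251)) (XT.lf (nat_lit 0) (nat_lit 4984405595) (nat_lit 532) (nat_lit 7688114636) (nat_lit 76) (nat_lit 26274402759) (nat_lit 216) (nat_lit 5) (nat_lit 223) (nat_lit 5) (nat_lit 217) (nat_lit 5) (nat_lit 492) (nat_lit 458) (nat_lit 250)))) (XT.nd (nat_lit 156) (nat_lit 836) (nat_lit 0) (XT.nd (nat_lit 78) (nat_lit 0) (nat_lit 0) (XT.lf (nat_lit 0) (nat_lit 11088645838) (nat_lit 532) (nat_lit 24919093804) (nat_lit 76) (nat_lit 3614654750) (nat_lit 210) (nat_lit 5) (nat_lit 217) (nat_lit 5) (nat_lit 211) (nat_lit 5) (nat_lit 493) (nat_lit 458) (nat_lit 249)) (XT.lf (nat_lit 0) (nat_lit 17577718311) (nat_lit 532) (nat_lit 2520666704) (nat_lit 76) (nat_lit 20213694002) (nat_lit 210) (nat_lit 5) (nat_lit 217) (nat_lit 5) (nat_lit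 211) (nat_lit 5) (nat_lit 494) (nat_lit 458) (nat_lit 248))) (XT.nd (nat_lit 78) (nat_lit 380) (nat_lit 0) (XT.lf (nat_lit 0) (nat_lit 20956035365) (nat_lit 456) (nat_lit 3504763979) (nat_lit 532) (nat_lit 16555674971) (nat_lit 204) (nat_lit 5) (nat_lit 210) (nat_lit 5) (nat_lit 211) (nat_lit 5) (nat_lit 495) (nat_lit 458) (nat_lit 247)) (XT.lf (nat_lit 0) (nat_lit 3379933739) (nat_lit 380) (nat_lit 28357163992) (nat_lit 456) (nat_lit 9999302212) (nat_lit 199) (nat_lit 5) (nat_lit 204) (nat_lit 5) (nat_lit 205) (nat_lit 5) (nat_lit 496) (nat_lit 458) (nat_lit 246))))))))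
noncomputable def xc212 : XT := (XT.nd (nat_lit 2340) (nat_lit 2356) (nat_lit 0) (XT.nd (nat_lit 1170) (nat_lit 2584) (nat_lit 0) (XT.nd (nat_lit 546) (nat_lit 1444) (nat_lit 0) (XT.nd (nat_lit 234) (nat_lit 1064) (nat_lit 0) (XT.nd (nat_lit 78) (nat_lit 532) (nat_lit 0) (XT.lf (nat_lit 0) (nat_lit 27896734139) (nat_lit 380) (nat_lit 11569843551) (nat_lit 456) (nat_lit 3004299083) (nat_lit 199) (nat_lit 5) (nat_lit 204) (nat_lit 5) (nat_lit 205) (nat_lit 5) (nat_lit 497) (nat_lit 458) (nat_lit 245)) (XT.nd (nat_lit 78) (nat_lit 0) (nat_lit 0) (XT.lf (nat_lit 0) (nat_lit 4269784678) (nat_lit 532) (nat_lit 33204376782) (nat_lit 76) (nat_lit 5747479347) (nat_lit 192) (nat_lit 5) (nat_lit 199) (nat_lit 5) (nat_lit 193) (nat_lit 5) (nat_lit 498) (nat_lit 458) (nat_lit 244)) (XT.lf (nat_lit 0) (nat_lit 11962916591) (nat_lit 532) (nat_lit 8493703481) (nat_lit 76) (nat_lit 23529579243) (nat_lit 192) (nat_lit 5) (nat_lit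 199) (nat_lit 5) (nat_lit 193) (nat_lit 5) (nat_lit 499) (nat_lit 458) (nat_lit 243)))) (XT.nd (nat_lit 156) (nat_lit 684) (nat_lit 0) (XT.nd (nat_lit 78) (nat_lit 0) (nat_lit 0) (XT.lf (nat_lit 0) (nat_lit 17293214990) (nat_lit 380) (nat_lit 2757946620) (nat_lit 456) (nat_lit 24717603584) (nat_lit 187) (nat_lit 5) (nat_lit 192) (nat_lit 5) (nat_lit 193) (nat_lit 5) (nat_lit 500) (nat_lit 458) (nat_lit 242)) (XT.lf (nat_lit 0) (nat_lit 28615508155) (nat_lit 456) (nat_lit 1696507707) (nat_lit 76) (nat_lit 15255788745) (nat_lit 187) (nat_lit 5) (nat_lit 193) (nat_lit 5) (nat_lit 188) (nat_lit 5) (nat_lit 501) (nat_lit 458) (nat_lit 241))) (XT.nd (nat_lit 78) (nat_lit 304) (nat_lit 0) (XT.lf (nat_lit 0) (nat_lit 25320208684) (nat_lit 380) (nat_lit 12385443041) (nat_lit 456) (nat_lit 8677097656) (nat_lit 182) (nat_lit 5) (nat_lit 187) (nat_lit 5) (nat_lit 188) (nat_lit 5) (nat_lit 502) (nat_lit 458) (nat_lit 240)) (XT.lf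 (nat_lit 0) (nat_lit 6016878597) (nat_lit 304) (nat_lit 41183384725) (nat_lit 380) (nat_lit 17926439) (nat_lit 178) (nat_lit 5) (nat_lit 182) (nat_lit 5) (nat_lit 183) (nat_lit 5) (nat_lit 503) (nat_lit 458) (nat_lit 239))))) (XT.nd (nat_lit 312) (nat_lit 684) (nat_lit 0) (XT.nd (nat_lit 156) (nat_lit 304) (nat_lit 0) (XT.nd (nat_lit 78) (nat_lit 380) (nat_lit 0) (XT.lf (nat_lit 0) (nat_lit 9062954814) (nat_lit 380) (nat_lit 13944681340) (nat_lit 76) (nat_lit 25058421721) (nat_lit 177) (nat_lit 5) (nat_lit 182) (nat_lit 5) (nat_lit 178) (nat_lit 5) (nat_lit 504) (nat_lit 458) (nat_lit 238)) (XT.lf (nat_lit 0) (nat_lit 14408184132) (nat_lit 380) (nat_lit 4144472235) (nat_lit 456) (nat_lit 30382597876) (nat_lit 172) (nat_lit 5) (nat_lit 177) (nat_lit 5) (nat_lit 178) (nat_lit 5) (nat_lit 505) (nat_lit 458) (nat_lit 237))) (XT.nd (nat_lit 78) (nat_lit 304) (nat_lit 0) (XT.lf (nat_lit 0) (nat_lit 28614456688) (nat_lit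 456) (nat_lit 6079595592) (nat_lit 76) (nat_lit 15127852143) (nat_lit 172) (nat_lit 5) (nat_lit 178) (nat_lit 5) (nat_lit 173) (nat_lit 5) (nat_lit 506) (nat_lit 458) (nat_lit 236)) (XT.lf (nat_lit 0) (nat_lit 23639163345) (nat_lit 304) (nat_lit 15605541187) (nat_lit 380) (nat_lit 11482451920) (nat_lit 168) (nat_lit 5) (nat_lit 172) (nat_lit 5) (nat_lit 173) (nat_lit 5) (nat_lit 507) (nat_lit 458) (nat_lit 235)))) (XT.nd (nat_lit 156) (nat_lit 304) (nat_lit 0) (XT.nd (nat_lit 78) (nat_lit 76) (nat_lit 0) (XT.lf (nat_lit 0) (nat_lit 2727609072) (nat_lit 304) (nat_lit 47591799337) (nat_lit 380) (nat_lit 1336391320) (nat_lit 164) (nat_lit 5) (nat_lit 168) (nat_lit 5) (nat_lit 169) (nat_lit 5) (nat_lit 508) (nat_lit 458) (nat_lit 234)) (XT.lf (nat_lit 0) (nat_lit 9365310501) (nat_lit 380) (nat_lit 18858387247) (nat_lit 76) (nat_lit 24373103176) (nat_lit 163) (nat_lit 5) (nat_lit 168) (nat_lit 5) (nat_lit 164) (nat_lit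 5) (nat_lit 509) (nat_lit 458) (nat_lit 233))) (XT.nd (nat_lit 78) (nat_lit 0) (nat_lit 0) (XT.lf (nat_lit 0) (nat_lit 12338702442) (nat_lit 304) (nat_lit 8139509085) (nat_lit 380) (nat_lit 33083913564) (nat_lit 159) (nat_lit 5) (nat_lit 163) (nat_lit 5) (nat_lit 164) (nat_lit 5) (nat_lit 510) (nat_lit 458) (nat_lit 232)) (XT.lf (nat_lit 0) (nat_lit 32235847333) (nat_lit 380) (nat_lit 9817275487) (nat_lit 76) (nat_lit 12493945859) (nat_lit 159) (nat_lit 5) (nat_lit 164) (nat_lit 5) (nat_lit 160) (nat_lit 5) (nat_lit 511) (nat_lit 458) (nat_lit 231)))))) (XT.nd (nat_lit 546) (nat_lit 1292) (nat_lit 0) (XT.nd (nat_lit 234) (nat_lit 608) (nat_lit 0) (XT.nd (nat_lit 78) (nat_lit 380) (nat_lit 0) (XT.lf (nat_lit 0) (nat_lit 22894932524) (nat_lit 304) (nat_lit 21750413187) (nat_lit 380) (nat_lit 10907240983) (nat_lit 155) (nat_lit 5) (nat_lit 159) (nat_lit 5) (nat_lit 160) (nat_lit 5) (nat_lit 512) (nat_lit 458) (nat_lit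 230)) (XT.nd (nat_lit 78) (nat_lit 0) (nat_lit 0) (XT.lf (nat_lit 0) (nat_lit 196948138) (nat_lit 304) (nat_lit 726023424) (nat_lit 380) (nat_lit 55662042439) (nat_lit 150) (nat_lit 5) (nat_lit 154) (nat_lit 5) (nat_lit 155) (nat_lit 5) (nat_lit 513) (nat_lit 458) (nat_lit 229)) (XT.lf (nat_lit 0) (nat_lit 13421579510) (nat_lit 380) (nat_lit 23246643464) (nat_lit 76) (nat_lit 20960970080) (nat_lit 150) (nat_lit 5) (nat_lit 155) (nat_lit 5) (nat_lit 151) (nat_lit 5) (nat_lit 514) (nat_lit 458) (nat_lit 228)))) (XT.nd (nat_lit 156) (nat_lit 304) (nat_lit 0) (XT.nd (nat_lit 78) (nat_lit 0) (nat_lit 0) (XT.lf (nat_lit 0) (nat_lit 11096105636) (nat_lit 304) (nat_lit 15311422102) (nat_lit 380) (nat_lit 32293798389) (nat_lit 146) (nat_lit 5) (nat_lit 150) (nat_lit 5) (nat_lit 151) (nat_lit 5) (nat_lit 515) (nat_lit 458) (nat_lit 227)) (XT.lf (nat_lit 0) (nat_lit 40082939813) (nat_lit 380) (nat_lit 12921771679) (nat_lit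 76) (nat_lit 6791915246) (nat_lit 146) (nat_lit 5) (nat_lit 151) (nat_lit 5) (nat_lit 147) (nat_lit 5) (nat_lit 516) (nat_lit 458) (nat_lit 226))) (XT.nd (nat_lit 78) (nat_lit 76) (nat_lit 0) (XT.lf (nat_lit 0) (nat_lit 23099129053) (nat_lit 228) (nat_lit 31441713727) (nat_lit 304) (nat_lit 6372776837) (nat_lit 143) (nat_lit 5) (nat_lit 146) (nat_lit 5) (nat_lit 147) (nat_lit 5) (nat_lit 517) (nat_lit 458) (nat_lit 225)) (XT.lf (nat_lit 0) (nat_lit 7354947428) (nat_lit 304) (nat_lit 1668995430) (nat_lit 76) (nat_lit 53034143542) (nat_lit 142) (nat_lit 5) (nat_lit 146) (nat_lit 5) (nat_lit 143) (nat_lit 5) (nat_lit 518) (nat_lit 458) (nat_lit 224))))) (XT.nd (nat_lit 312) (nat_lit 456) (nat_lit 0) (XT.nd (nat_lit 156) (nat_lit 304) (nat_lit 0) (XT.nd (nat_lit 78) (nat_lit 228) (nat_lit 0) (XT.lf (nat_lit 0) (nat_lit 21852325074) (nat_lit 380) (nat_lit 27161815128) (nat_lit 76) (nat_lit 14206276932) (nat_lit 138)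 (nat_lit 5) (nat_lit 143) (nat_lit 5) (nat_lit 139) (nat_lit 5) (nat_lit 519) (nat_lit 458) (nat_lit 223)) (XT.lf (nat_lit 0) (nat_lit 10651305701) (nat_lit 228) (nat_lit 26340718155) (nat_lit 304) (nat_lit 27419372033) (nat_lit 135) (nat_lit 5) (nat_lit 138) (nat_lit 5) (nat_lit 139) (nat_lit 5) (nat_lit 520) (nat_lit 458) (nat_lit 222))) (XT.nd (nat_lit 78) (nat_lit 304) (nat_lit 0) (XT.lf (nat_lit 0) (nat_lit 50153477106) (nat_lit 228) (nat_lit 2705383005) (nat_lit 304) (nat_lit 12771055589) (nat_lit 135) (nat_lit 5) (nat_lit 138) (nat_lit 5) (nat_lit 139) (nat_lit 5) (nat_lit 521) (nat_lit 458) (nat_lit 221)) (XT.lf (nat_lit 0) (nat_lit 2715358818) (nat_lit 304) (nat_lit 42680230850) (nat_lit 76) (nat_lit 21475417760) (nat_lit 131) (nat_lit 5) (nat_lit 135) (nat_lit 5) (nat_lit 132) (nat_lit 5) (nat_lit 522) (nat_lit 458) (nat_lit 220)))) (XT.nd (nat_lit 156) (nat_lit 228) (nat_lit 0) (XT.nd (nat_lit 78) (nat_lit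 228) (nat_lit 0) (XT.lf (nat_lit 0) (nat_lit 18592997063) (nat_lit 304) (nat_lit 2936271124) (nat_lit 76) (nat_lit 46610770910) (nat_lit 131) (nat_lit 5) (nat_lit 135) (nat_lit 5) (nat_lit 132) (nat_lit 5) (nat_lit 523) (nat_lit 458) (nat_lit 219)) (XT.lf (nat_lit 0) (nat_lit 35351261827) (nat_lit 304) (nat_lit 30714837859) (nat_lit 76) (nat_lit 3368913189) (nat_lit 128) (nat_lit 5) (nat_lit 132) (nat_lit 5) (nat_lit 129) (nat_lit 5) (nat_lit 524) (nat_lit 458) (nat_lit 218))) (XT.nd (nat_lit 78) (nat_lit 0) (nat_lit 0) (XT.lf (nat_lit 0) (nat_lit 10916059221) (nat_lit 228) (nat_lit 42043001849) (nat_lit 304) (nat_lit 17799371279) (nat_lit 125) (nat_lit 5) (nat_lit 128) (nat_lit 5) (nat_lit 129) (nat_lit 5) (nat_lit 525) (nat_lit 458) (nat_lit 217)) (XT.lf (nat_lit 0) (nat_lit 54423470796) (nat_lit 228) (nat_lit 16980549451) (nat_lit 304) (nat_lit 708266455) (nat_lit 125) (nat_lit 5) (nat_lit 128) (nat_lit 5) (nat_lit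 129) (nat_lit 5) (nat_lit 526) (nat_lit 458) (nat_lit 216))))))) (XT.nd (nat_lit 1170) (nat_lit 380) (nat_lit 0) (XT.nd (nat_lit 546) (nat_lit 988) (nat_lit 0) (XT.nd (nat_lit 234) (nat_lit 456) (nat_lit 0) (XT.nd (nat_lit 78) (nat_lit 228) (nat_lit 0) (XT.lf (nat_lit 0) (nat_lit 16904302640) (nat_lit 304) (nat_lit 47509670758) (nat_lit 76) (nat_lit 9077758307) (nat_lit 121) (nat_lit 5) (nat_lit 125) (nat_lit 5) (nat_lit 122) (nat_lit 5) (nat_lit 527) (nat_lit 458) (nat_lit 215)) (XT.nd (nat_lit 78) (nat_lit 228) (nat_lit 0) (XT.lf (nat_lit 0) (nat_lit 35378327431) (nat_lit 304) (nat_lit 3760449211) (nat_lit 76) (nat_lit 35763153684) (nat_lit 121) (nat_lit 5) (nat_lit 125) (nat_lit 5) (nat_lit 122) (nat_lit 5) (nat_lit 528) (nat_lit 458) (nat_lit 214)) (XT.lf (nat_lit 0) (nat_lit 42121234536) (nat_lit 228) (nat_lit 12689067417) (nat_lit 304) (nat_lit 21532021151) (nat_lit 118) (nat_lit 5) (nat_lit 121) (nat_lit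 5) (nat_lit 122) (nat_lit 5) (nat_lit 529) (nat_lit 458) (nat_lit 213)))) (XT.nd (nat_lit 156) (nat_lit 228) (nat_lit 0) (XT.nd (nat_lit 78) (nat_lit 76) (nat_lit 0) (XT.lf (nat_lit 0) (nat_lit 11718089389) (nat_lit 152) (nat_lit 63396881921) (nat_lit 228) (nat_lit 2702264353) (nat_lit 116) (nat_lit 5) (nat_lit 118) (nat_lit 5) (nat_lit 119) (nat_lit 5) (nat_lit 530) (nat_lit 458) (nat_lit 212)) (XT.lf (nat_lit 0) (nat_lit 16840123753) (nat_lit 228) (nat_lit 19880563577) (nat_lit 76) (nat_lit 42596690593) (nat_lit 115) (nat_lit 5) (nat_lit 118) (nat_lit 5) (nat_lit 116) (nat_lit 5) (nat_lit 531) (nat_lit 458) (nat_lit 211))) (XT.nd (nat_lit 78) (nat_lit 0) (nat_lit 0) (XT.lf (nat_lit 0) (nat_lit 28247118499) (nat_lit 228) (nat_lit 8937759868) (nat_lit 304) (nat_lit 43668731258) (nat_lit 112) (nat_lit 5) (nat_lit 115) (nat_lit 5) (nat_lit 116) (nat_lit 5) (nat_lit 532) (nat_lit 458) (nat_lit 210)) (XT.lf (nat_lit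 0) (nat_lit 58530767393) (nat_lit 304) (nat_lit 4396806571) (nat_lit 76) (nat_lit 19496630620) (nat_lit 112) (nat_lit 5) (nat_lit 116) (nat_lit 5) (nat_lit 113) (nat_lit 5) (nat_lit 533) (nat_lit 458) (nat_lit 209))))) (XT.nd (nat_lit 312) (nat_lit 380) (nat_lit 0) (XT.nd (nat_lit 156) (nat_lit 152) (nat_lit 0) (XT.nd (nat_lit 78) (nat_lit 304) (nat_lit 0) (XT.lf (nat_lit 0) (nat_lit 46067766535) (nat_lit 152) (nat_lit 34979509339) (nat_lit 228) (nat_lit 2978734290) (nat_lit 110) (nat_lit 5) (nat_lit 112) (nat_lit 5) (nat_lit 113) (nat_lit 5) (nat_lit 534) (nat_lit 458) (nat_lit 208)) (XT.lf (nat_lit 0) (nat_lit 12525544493) (nat_lit 228) (nat_lit 5839789890) (nat_lit 304) (nat_lit 67300257385) (nat_lit 106) (nat_lit 5) (nat_lit 109) (nat_lit 5) (nat_lit 110) (nat_lit 5) (nat_lit 535) (nat_lit 458) (nat_lit 207))) (XT.nd (nat_lit 78) (nat_lit 152) (nat_lit 0) (XT.lf (nat_lit 0) (nat_lit 40908258842) (nat_lit 304)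 (nat_lit 22308439552) (nat_lit 76) (nat_lit 24118225606) (nat_lit 106) (nat_lit 5) (nat_lit 110) (nat_lit 5) (nat_lit 107) (nat_lit 5) (nat_lit 536) (nat_lit 458) (nat_lit 206)) (XT.lf (nat_lit 0) (nat_lit 30585313775) (nat_lit 152) (nat_lit 33892940904) (nat_lit 228) (nat_lit 24565558060) (nat_lit 104) (nat_lit 5) (nat_lit 106) (nat_lit 5) (nat_lit 107) (nat_lit 5) (nat_lit 537) (nat_lit 458) (nat_lit 205)))) (XT.nd (nat_lit 156) (nat_lit 152) (nat_lit 0) (XT.nd (nat_lit 78) (nat_lit 228) (nat_lit 0) (XT.lf (nat_lit 0) (nat_lit 85521386050) (nat_lit 152) (nat_lit 3458208097) (nat_lit 228) (nat_lit 1817646729) (nat_lit 104) (nat_lit 5) (nat_lit 106) (nat_lit 5) (nat_lit 107) (nat_lit 5) (nat_lit 538) (nat_lit 458) (nat_lit 204)) (XT.lf (nat_lit 0) (nat_lit 21948140888) (nat_lit 228) (nat_lit 42583723790) (nat_lit 76) (nat_lit 28042459171) (nat_lit 101) (nat_lit 5) (nat_lit 104) (nat_lit 5) (nat_lit 102) (nat_lit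 5) (nat_lit 539) (nat_lit 458) (nat_lit 203))) (XT.nd (nat_lit 78) (nat_lit 0) (nat_lit 0) (XT.lf (nat_lit 0) (nat_lit 12815624709) (nat_lit 152) (nat_lit 33784976737) (nat_lit 228) (nat_lit 47797271049) (nat_lit 99) (nat_lit 5) (nat_lit 101) (nat_lit 5) (nat_lit 102) (nat_lit 5) (nat_lit 540) (nat_lit 458) (nat_lit 202)) (XT.lf (nat_lit 0) (nat_lit 70748127562) (nat_lit 152) (nat_lit 1673530369) (nat_lit 228) (nat_lit 23841599048) (nat_lit 99) (nat_lit 5) (nat_lit 101) (nat_lit 5) (nat_lit 102) (nat_lit 5) (nat_lit 541) (nat_lit 458) (nat_lit 201)))))) (XT.nd (nat_lit 56316) (nat_lit 0) (nat_lit 15276) (XT.nd (nat_lit 56004) (nat_lit 0) (nat_lit 15124) (XT.nd (nat_lit 78) (nat_lit 152) (nat_lit 0) (XT.lf (nat_lit 0) (nat_lit 1436495008) (nat_lit 228) (nat_lit 65614357494) (nat_lit 76) (nat_lit 31114910339) (nat_lit 96) (nat_lit 5) (nat_lit 99) (nat_lit 5) (nat_lit 97) (nat_lit 5) (nat_lit 542) (nat_lit 458) (nat_lit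 200)) (XT.nd (nat_lit 78) (nat_lit 152) (nat_lit 0) (XT.lf (nat_lit 0) (nat_lit 27269546795) (nat_lit 228) (nat_lit 7491542927) (nat_lit 76) (nat_lit 65348898312) (nat_lit 96) (nat_lit 5) (nat_lit 99) (nat_lit 5) (nat_lit 97) (nat_lit 5) (nat_lit 543) (nat_lit 458) (nat_lit 199)) (XT.lf (nat_lit 0) (nat_lit 53415613433) (nat_lit 152) (nat_lit 974502428) (nat_lit 228) (nat_lit 47707048387) (nat_lit 94) (nat_lit 5) (nat_lit 96) (nat_lit 5) (nat_lit 97) (nat_lit 5) (nat_lit 544) (nat_lit 458) (nat_lit 198)))) (XT.nd (nat_lit 156) (nat_lit 0) (nat_lit 76) (XT.nd (nat_lit 78) (nat_lit 0) (nat_lit 0) (XT.lf (nat_lit 0) (nat_lit 4413355521) (nat_lit 1292) (nat_lit 3622764623) (nat_lit 1292) (nat_lit 3622764623) (nat_lit 293) (nat_lit 3) (nat_lit 310) (nat_lit 3) (nat_lit 310) (nat_lit 5) (nat_lit 459) (nat_lit 459) (nat_lit 282)) (XT.lf (nat_lit 76) (nat_lit 4358170446) (nat_lit 0) (nat_lit 4763182447) (nat_lit 1292) (nat_lit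 14541299221) (nat_lit 294) (nat_lit 5) (nat_lit 293) (nat_lit 3) (nat_lit 310) (nat_lit 5) (nat_lit 460) (nat_lit 459) (nat_lit 281))) (XT.nd (nat_lit 78) (nat_lit 0) (nat_lit 0) (XT.lf (nat_lit 0) (nat_lit 9560209400) (nat_lit 1216) (nat_lit 7626718754) (nat_lit 1292) (nat_lit 6826892405) (nat_lit 294) (nat_lit 5) (nat_lit 310) (nat_lit 5) (nat_lit 311) (nat_lit 5) (nat_lit 461) (nat_lit 459) (nat_lit 280)) (XT.lf (nat_lit 76) (nat_lit 4438268801) (nat_lit 0) (nat_lit 5659224343) (nat_lit 1292) (nat_lit 14275473701) (nat_lit 295) (nat_lit 5) (nat_lit 294) (nat_lit 5) (nat_lit 311) (nat_lit 5) (nat_lit 462) (nat_lit 459) (nat_lit 279))))) (XT.nd (nat_lit 312) (nat_lit 0) (nat_lit 152) (XT.nd (nat_lit 156) (nat_lit 0) (nat_lit 76) (XT.nd (nat_lit 78) (nat_lit 0) (nat_lit 0) (XT.lf (nat_lit 0) (nat_lit 10783973602) (nat_lit 1216) (nat_lit 7782211414) (nat_lit 1292) (nat_lit 6172710773) (nat_lit 295) (nat_lit 5) (nat_lit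 311) (nat_lit 5) (nat_lit 312) (nat_lit 5) (nat_lit 463) (nat_lit 459) (nat_lit 278)) (XT.lf (nat_lit 76) (nat_lit 4769279536) (nat_lit 0) (nat_lit 6819340286) (nat_lit 1292) (nat_lit 13524256236) (nat_lit 296) (nat_lit 5) (nat_lit 295) (nat_lit 5) (nat_lit 312) (nat_lit 5) (nat_lit 464) (nat_lit 459) (nat_lit 277))) (XT.nd (nat_lit 78) (nat_lit 0) (nat_lit 0) (XT.lf (nat_lit 0) (nat_lit 12543332750) (nat_lit 1216) (nat_lit 7693128074) (nat_lit 1292) (nat_lit 5257837673) (nat_lit 296) (nat_lit 5) (nat_lit 312) (nat_lit 5) (nat_lit 313) (nat_lit 5) (nat_lit 465) (nat_lit 459) (nat_lit 276)) (XT.lf (nat_lit 76) (nat_lit 5371511990) (nat_lit 0) (nat_lit 8270260032) (nat_lit 1292) (nat_lit 12241939600) (nat_lit 297) (nat_lit 5) (nat_lit 296) (nat_lit 5) (nat_lit 313) (nat_lit 5) (nat_lit 466) (nat_lit 459) (nat_lit 275)))) (XT.nd (nat_lit 156) (nat_lit 0) (nat_lit 76) (XT.nd (nat_lit 78) (nat_lit 0) (nat_lit 0) (XT.lf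 (nat_lit 0) (nat_lit 14886636442) (nat_lit 1216) (nat_lit 7339180032) (nat_lit 1292) (nat_lit 4055587055) (nat_lit 297) (nat_lit 5) (nat_lit 313) (nat_lit 5) (nat_lit 314) (nat_lit 5) (nat_lit 467) (nat_lit 459) (nat_lit 274)) (XT.lf (nat_lit 76) (nat_lit 6266764914) (nat_lit 0) (nat_lit 10040359855) (nat_lit 1292) (nat_lit 10379753617) (nat_lit 298) (nat_lit 5) (nat_lit 297) (nat_lit 5) (nat_lit 314) (nat_lit 5) (nat_lit 468) (nat_lit 459) (nat_lit 273))) (XT.nd (nat_lit 78) (nat_lit 0) (nat_lit 0) (XT.lf (nat_lit 0) (nat_lit 17865458433) (nat_lit 1216) (nat_lit 6698594220) (nat_lit 1292) (nat_lit 2537608429) (nat_lit 298) (nat_lit 5) (nat_lit 314) (nat_lit 5) (nat_lit 315) (nat_lit 5) (nat_lit 469) (nat_lit 459) (nat_lit 272)) (XT.lf (nat_lit 76) (nat_lit 7478405821) (nat_lit 0) (nat_lit 12159793557) (nat_lit 1292) (nat_lit 7885658664) (nat_lit 299) (nat_lit 5) (nat_lit 298) (nat_lit 5) (nat_lit 315) (nat_lit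 5) (nat_lit 470) (nat_lit 459) (nat_lit 271))))))))
noncomputable def xc213 : XT := (XT.nd (nat_lit 2340) (nat_lit 5776) (nat_lit 0) (XT.nd (nat_lit 1170) (nat_lit 3876) (nat_lit 0) (XT.nd (nat_lit 546) (nat_lit 3040) (nat_lit 0) (XT.nd (nat_lit 234) (nat_lit 1216) (nat_lit 0) (XT.nd (nat_lit 78) (nat_lit 0) (nat_lit 0) (XT.lf (nat_lit 0) (nat_lit 21534811853) (nat_lit 1216) (nat_lit 5748033435) (nat_lit 1292) (nat_lit 673755430) (nat_lit 299) (nat_lit 5) (nat_lit 315) (nat_lit 5) (nat_lit 316) (nat_lit 5) (nat_lit 471) (nat_lit 459) (nat_lit 270)) (XT.nd (nat_lit 78) (nat_lit 0) (nat_lit 0) (XT.lf (nat_lit 76) (nat_lit 9031455505) (nat_lit 0) (nat_lit 14660630303) (nat_lit 1292) (nat_lit 4704127444) (nat_lit 300) (nat_lit 5) (nat_lit 299) (nat_lit 5) (nat_lit 316) (nat_lit 5) (nat_lit 472) (nat_lit 459) (nat_lit 269)) (XT.lf (nat_lit 76) (nat_lit 24369489941) (nat_lit 0) (nat_lit 1599259886) (nat_lit 1292) (nat_lit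 2878624638) (nat_lit 300) (nat_lit 5) (nat_lit 299) (nat_lit 5) (nat_lit 316) (nat_lit 5) (nat_lit 473) (nat_lit 459) (nat_lit 268)))) (XT.nd (nat_lit 156) (nat_lit 0) (nat_lit 76) (XT.nd (nat_lit 78) (nat_lit 1292) (nat_lit 0) (XT.lf (nat_lit 76) (nat_lit 10952677921) (nat_lit 0) (nat_lit 17576999881) (nat_lit 1292) (nat_lit 775914235) (nat_lit 301) (nat_lit 5) (nat_lit 300) (nat_lit 5) (nat_lit 317) (nat_lit 5) (nat_lit 474) (nat_lit 459) (nat_lit 267)) (XT.lf (nat_lit 0) (nat_lit 1421025953) (nat_lit 1292) (nat_lit 2870626434) (nat_lit 1368) (nat_lit 25483755258) (nat_lit 283) (nat_lit 5) (nat_lit 300) (nat_lit 5) (nat_lit 301) (nat_lit 5) (nat_lit 475) (nat_lit 459) (nat_lit 266))) (XT.nd (nat_lit 78) (nat_lit 0) (nat_lit 0) (XT.lf (nat_lit 0) (nat_lit 3884872577) (nat_lit 1292) (nat_lit 17021143838) (nat_lit 76) (nat_lit 9346573445) (nat_lit 284) (nat_lit 5) (nat_lit 301) (nat_lit 5) (nat_lit 285) (nat_lit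 5) (nat_lit 476) (nat_lit 459) (nat_lit 265)) (XT.lf (nat_lit 0) (nat_lit 6491335475) (nat_lit 1292) (nat_lit 913295921) (nat_lit 76) (nat_lit 23337395513) (nat_lit 284) (nat_lit 5) (nat_lit 301) (nat_lit 5) (nat_lit 285) (nat_lit 5) (nat_lit 477) (nat_lit 459) (nat_lit 264))))) (XT.nd (nat_lit 312) (nat_lit 1140) (nat_lit 0) (XT.nd (nat_lit 156) (nat_lit 608) (nat_lit 0) (XT.nd (nat_lit 78) (nat_lit 608) (nat_lit 0) (XT.lf (nat_lit 0) (nat_lit 9390717938) (nat_lit 836) (nat_lit 15318542595) (nat_lit 76) (nat_lit 6530445151) (nat_lit 274) (nat_lit 5) (nat_lit 285) (nat_lit 5) (nat_lit 275) (nat_lit 5) (nat_lit 478) (nat_lit 459) (nat_lit 263)) (XT.lf (nat_lit 0) (nat_lit 1480106698) (nat_lit 608) (nat_lit 10990918041) (nat_lit 684) (nat_lit 19278472168) (nat_lit 266) (nat_lit 5) (nat_lit 274) (nat_lit 5) (nat_lit 275) (nat_lit 5) (nat_lit 479) (nat_lit 459) (nat_lit 262))) (XT.nd (nat_lit 78) (nat_lit 608) (nat_lit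 0) (XT.lf (nat_lit 0) (nat_lit 15827282110) (nat_lit 684) (nat_lit 13207687390) (nat_lit 76) (nat_lit 3234106489) (nat_lit 266) (nat_lit 5) (nat_lit 275) (nat_lit 5) (nat_lit 267) (nat_lit 5) (nat_lit 480) (nat_lit 459) (nat_lit 261)) (XT.lf (nat_lit 0) (nat_lit 4339024854) (nat_lit 608) (nat_lit 15092964540) (nat_lit 684) (nat_lit 13367820533) (nat_lit 258) (nat_lit 5) (nat_lit 266) (nat_lit 5) (nat_lit 267) (nat_lit 5) (nat_lit 481) (nat_lit 459) (nat_lit 260)))) (XT.nd (nat_lit 156) (nat_lit 608) (nat_lit 0) (XT.nd (nat_lit 78) (nat_lit 532) (nat_lit 0) (XT.lf (nat_lit 0) (nat_lit 22680218797) (nat_lit 608) (nat_lit 595277723) (nat_lit 684) (nat_lit 10067049947) (nat_lit 258) (nat_lit 5) (nat_lit 266) (nat_lit 5) (nat_lit 267) (nat_lit 5) (nat_lit 482) (nat_lit 459) (nat_lit 259)) (XT.lf (nat_lit 0) (nat_lit 7679451412) (nat_lit 532) (nat_lit 19763862666) (nat_lit 608) (nat_lit 6451981197) (nat_lit 251) (nat_lit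 5) (nat_lit 258) (nat_lit 5) (nat_lit 259) (nat_lit 5) (nat_lit 483) (nat_lit 459) (nat_lit 258))) (XT.nd (nat_lit 78) (nat_lit 608) (nat_lit 0) (XT.lf (nat_lit 0) (nat_lit 26781399615) (nat_lit 532) (nat_lit 5065688890) (nat_lit 608) (nat_lit 2614210696) (nat_lit 251) (nat_lit 5) (nat_lit 258) (nat_lit 5) (nat_lit 259) (nat_lit 5) (nat_lit 484) (nat_lit 459) (nat_lit 257)) (XT.lf (nat_lit 0) (nat_lit 1519834585) (nat_lit 608) (nat_lit 23515230356) (nat_lit 76) (nat_lit 10002614623) (nat_lit 243) (nat_lit 5) (nat_lit 251) (nat_lit 5) (nat_lit 244) (nat_lit 5) (nat_lit 485) (nat_lit 459) (nat_lit 256)))))) (XT.nd (nat_lit 546) (nat_lit 1900) (nat_lit 0) (XT.nd (nat_lit 234) (nat_lit 1444) (nat_lit 0) (XT.nd (nat_lit 78) (nat_lit 532) (nat_lit 0) (XT.lf (nat_lit 0) (nat_lit 5851348910) (nat_lit 608) (nat_lit 4250194679) (nat_lit 76) (nat_lit 25525251824) (nat_lit 243) (nat_lit 5) (nat_lit 251) (nat_lit 5) (nat_lit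 244) (nat_lit 5) (nat_lit 486) (nat_lit 459) (nat_lit 255)) (XT.nd (nat_lit 78) (nat_lit 0) (nat_lit 0) (XT.lf (nat_lit 0) (nat_lit 10515507909) (nat_lit 608) (nat_lit 20380855138) (nat_lit 76) (nat_lit 5331140997) (nat_lit 236) (nat_lit 5) (nat_lit 244) (nat_lit 5) (nat_lit 237) (nat_lit 5) (nat_lit 487) (nat_lit 459) (nat_lit 254)) (XT.lf (nat_lit 0) (nat_lit 15460582313) (nat_lit 608) (nat_lit 314492827) (nat_lit 76) (nat_lit 21066929353) (nat_lit 236) (nat_lit 5) (nat_lit 244) (nat_lit 5) (nat_lit 237) (nat_lit 5) (nat_lit 488) (nat_lit 459) (nat_lit 253)))) (XT.nd (nat_lit 156) (nat_lit 456) (nat_lit 0) (XT.nd (nat_lit 78) (nat_lit 456) (nat_lit 0) (XT.lf (nat_lit 0) (nat_lit 20751281423) (nat_lit 608) (nat_lit 16712733611) (nat_lit 76) (nat_lit 5007016) (nat_lit 229) (nat_lit 5) (nat_lit 237) (nat_lit 5) (nat_lit 230) (nat_lit 5) (nat_lit 489) (nat_lit 459) (nat_lit 252)) (XT.lf (nat_lit 0) (nat_lit 4275502607)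 (nat_lit 456) (nat_lit 22123434545) (nat_lit 532) (nat_lit 11709966174) (nat_lit 223) (nat_lit 5) (nat_lit 229) (nat_lit 5) (nat_lit 230) (nat_lit 5) (nat_lit 490) (nat_lit 459) (nat_lit 251))) (XT.nd (nat_lit 78) (nat_lit 456) (nat_lit 0) (XT.lf (nat_lit 0) (nat_lit 26233413364) (nat_lit 456) (nat_lit 6149156982) (nat_lit 532) (nat_lit 6380414513) (nat_lit 223) (nat_lit 5) (nat_lit 229) (nat_lit 5) (nat_lit 230) (nat_lit 5) (nat_lit 491) (nat_lit 459) (nat_lit 250)) (XT.lf (nat_lit 0) (nat_lit 9497089297) (nat_lit 456) (nat_lit 29236810077) (nat_lit 532) (nat_lit 697144107) (nat_lit 217) (nat_lit 5) (nat_lit 223) (nat_lit 5) (nat_lit 224) (nat_lit 5) (nat_lit 492) (nat_lit 459) (nat_lit 249))))) (XT.nd (nat_lit 312) (nat_lit 912) (nat_lit 0) (XT.nd (nat_lit 156) (nat_lit 456) (nat_lit 0) (XT.nd (nat_lit 78) (nat_lit 456) (nat_lit 0) (XT.lf (nat_lit 0) (nat_lit 5242520256) (nat_lit 532) (nat_lit 7788230167) (nat_lit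 76) (nat_lit 27081311005) (nat_lit 216) (nat_lit 5) (nat_lit 223) (nat_lit 5) (nat_lit 217) (nat_lit 5) (nat_lit 493) (nat_lit 459) (nat_lit 248)) (XT.lf (nat_lit 0) (nat_lit 11528184632) (nat_lit 532) (nat_lit 25534424201) (nat_lit 76) (nat_lit 3745239574) (nat_lit 210) (nat_lit 5) (nat_lit 217) (nat_lit 5) (nat_lit 211) (nat_lit 5) (nat_lit 494) (nat_lit 459) (nat_lit 247))) (XT.nd (nat_lit 78) (nat_lit 456) (nat_lit 0) (XT.lf (nat_lit 0) (nat_lit 18208816286) (nat_lit 532) (nat_lit 2467896009) (nat_lit 76) (nat_lit 20841604999) (nat_lit 210) (nat_lit 5) (nat_lit 217) (nat_lit 5) (nat_lit 211) (nat_lit 5) (nat_lit 495) (nat_lit 459) (nat_lit 246)) (XT.lf (nat_lit 0) (nat_lit 21711848390) (nat_lit 456) (nat_lit 3584741108) (nat_lit 532) (nat_lit 16947309284) (nat_lit 204) (nat_lit 5) (nat_lit 210) (nat_lit 5) (nat_lit 211) (nat_lit 5) (nat_lit 496) (nat_lit 459) (nat_lit 245)))) (XT.nd (nat_lit 156) (nat_lit 532)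 (nat_lit 0) (XT.nd (nat_lit 78) (nat_lit 0) (nat_lit 0) (XT.lf (nat_lit 0) (nat_lit 3610017454) (nat_lit 380) (nat_lit 29179661363) (nat_lit 456) (nat_lit 10195788617) (nat_lit 199) (nat_lit 5) (nat_lit 204) (nat_lit 5) (nat_lit 205) (nat_lit 5) (nat_lit 497) (nat_lit 459) (nat_lit 244)) (XT.lf (nat_lit 0) (nat_lit 28858573738) (nat_lit 380) (nat_lit 11889543179) (nat_lit 456) (nat_lit 2993949743) (nat_lit 199) (nat_lit 5) (nat_lit 204) (nat_lit 5) (nat_lit 205) (nat_lit 5) (nat_lit 498) (nat_lit 459) (nat_lit 243))) (XT.nd (nat_lit 78) (nat_lit 0) (nat_lit 0) (XT.lf (nat_lit 0) (nat_lit 4495011268) (nat_lit 532) (nat_lit 34072205809) (nat_lit 76) (nat_lit 5948149386) (nat_lit 192) (nat_lit 5) (nat_lit 199) (nat_lit 5) (nat_lit 193) (nat_lit 5) (nat_lit 499) (nat_lit 459) (nat_lit 242)) (XT.lf (nat_lit 0) (nat_lit 12416108021) (nat_lit 532) (nat_lit 8623949269) (nat_lit 76) (nat_lit 24262889590) (nat_lit 192) (nat_lit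 5) (nat_lit 199) (nat_lit 5) (nat_lit 193) (nat_lit 5) (nat_lit 500) (nat_lit 459) (nat_lit 241))))))) (XT.nd (nat_lit 1170) (nat_lit 2584) (nat_lit 0) (XT.nd (nat_lit 546) (nat_lit 1672) (nat_lit 0) (XT.nd (nat_lit 234) (nat_lit 760) (nat_lit 0) (XT.nd (nat_lit 78) (nat_lit 380) (nat_lit 0) (XT.lf (nat_lit 0) (nat_lit 17935355528) (nat_lit 380) (nat_lit 2810083805) (nat_lit 456) (nat_lit 25363597505) (nat_lit 187) (nat_lit 5) (nat_lit 192) (nat_lit 5) (nat_lit 193) (nat_lit 5) (nat_lit 501) (nat_lit 459) (nat_lit 240)) (XT.nd (nat_lit 78) (nat_lit 380) (nat_lit 0) (XT.lf (nat_lit 0) (nat_lit 29564300616) (nat_lit 456) (nat_lit 1625226974) (nat_lit 76) (nat_lit 15742592576) (nat_lit 187) (nat_lit 5) (nat_lit 193) (nat_lit 5) (nat_lit 188) (nat_lit 5) (nat_lit 502) (nat_lit 459) (nat_lit 239)) (XT.lf (nat_lit 0) (nat_lit 26200793106) (nat_lit 380) (nat_lit 12724887414) (nat_lit 456) (nat_lit 8845877058) (nat_lit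 182) (nat_lit 5) (nat_lit 187) (nat_lit 5) (nat_lit 188) (nat_lit 5) (nat_lit 503) (nat_lit 459) (nat_lit 238)))) (XT.nd (nat_lit 156) (nat_lit 380) (nat_lit 0) (XT.nd (nat_lit 78) (nat_lit 0) (nat_lit 0) (XT.lf (nat_lit 0) (nat_lit 70517825) (nat_lit 380) (nat_lit 42313266795) (nat_lit 76) (nat_lit 6248289485) (nat_lit 177) (nat_lit 5) (nat_lit 182) (nat_lit 5) (nat_lit 178) (nat_lit 5) (nat_lit 504) (nat_lit 459) (nat_lit 237)) (XT.lf (nat_lit 0) (nat_lit 9420883997) (nat_lit 380) (nat_lit 14242724485) (nat_lit 76) (nat_lit 25841842128) (nat_lit 177) (nat_lit 5) (nat_lit 182) (nat_lit 5) (nat_lit 178) (nat_lit 5) (nat_lit 505) (nat_lit 459) (nat_lit 236))) (XT.nd (nat_lit 78) (nat_lit 0) (nat_lit 0) (XT.lf (nat_lit 0) (nat_lit 14959547566) (nat_lit 380) (nat_lit 4234368029) (nat_lit 456) (nat_lit 31206848330) (nat_lit 172) (nat_lit 5) (nat_lit 177) (nat_lit 5) (nat_lit 178) (nat_lit 5) (nat_lit 506) (nat_lit 459)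 (nat_lit 235)) (XT.lf (nat_lit 0) (nat_lit 29555424933) (nat_lit 456) (nat_lit 6144182670) (nat_lit 76) (nat_lit 15614470577) (nat_lit 172) (nat_lit 5) (nat_lit 178) (nat_lit 5) (nat_lit 173) (nat_lit 5) (nat_lit 507) (nat_lit 459) (nat_lit 234))))) (XT.nd (nat_lit 312) (nat_lit 684) (nat_lit 0) (XT.nd (nat_lit 156) (nat_lit 380) (nat_lit 0) (XT.nd (nat_lit 78) (nat_lit 304) (nat_lit 0) (XT.lf (nat_lit 0) (nat_lit 24464984126) (nat_lit 304) (nat_lit 16038313440) (nat_lit 380) (nat_lit 11743228899) (nat_lit 168) (nat_lit 5) (nat_lit 172) (nat_lit 5) (nat_lit 173) (nat_lit 5) (nat_lit 508) (nat_lit 459) (nat_lit 233)) (XT.lf (nat_lit 0) (nat_lit 2927023459) (nat_lit 304) (nat_lit 48982313167) (nat_lit 380) (nat_lit 1293719798) (nat_lit 164) (nat_lit 5) (nat_lit 168) (nat_lit 5) (nat_lit 169) (nat_lit 5) (nat_lit 509) (nat_lit 459) (nat_lit 232))) (XT.nd (nat_lit 78) (nat_lit 304) (nat_lit 0) (XT.lf (nat_lit 0) (nat_lit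 9725054528) (nat_lit 380) (nat_lit 19308403097) (nat_lit 76) (nat_lit 25138877265) (nat_lit 163) (nat_lit 5) (nat_lit 168) (nat_lit 5) (nat_lit 164) (nat_lit 5) (nat_lit 510) (nat_lit 459) (nat_lit 231)) (XT.lf (nat_lit 0) (nat_lit 12823464618) (nat_lit 304) (nat_lit 8346684882) (nat_lit 380) (nat_lit 33996505264) (nat_lit 159) (nat_lit 5) (nat_lit 163) (nat_lit 5) (nat_lit 164) (nat_lit 5) (nat_lit 511) (nat_lit 459) (nat_lit 230)))) (XT.nd (nat_lit 156) (nat_lit 380) (nat_lit 0) (XT.nd (nat_lit 78) (nat_lit 304) (nat_lit 0) (XT.lf (nat_lit 0) (nat_lit 33278599826) (nat_lit 380) (nat_lit 9998609844) (nat_lit 76) (nat_lit 12903994611) (nat_lit 159) (nat_lit 5) (nat_lit 164) (nat_lit 5) (nat_lit 160) (nat_lit 5) (nat_lit 512) (nat_lit 459) (nat_lit 229)) (XT.lf (nat_lit 0) (nat_lit 23693854762) (nat_lit 304) (nat_lit 22365401534) (nat_lit 380) (nat_lit 11157665526) (nat_lit 155) (nat_lit 5) (nat_lit 159) (nat_lit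 5) (nat_lit 160) (nat_lit 5) (nat_lit 513) (nat_lit 459) (nat_lit 228))) (XT.nd (nat_lit 78) (nat_lit 0) (nat_lit 0) (XT.lf (nat_lit 0) (nat_lit 315321624) (nat_lit 304) (nat_lit 709521317) (nat_lit 380) (nat_lit 57255490388) (nat_lit 150) (nat_lit 5) (nat_lit 154) (nat_lit 5) (nat_lit 155) (nat_lit 5) (nat_lit 514) (nat_lit 459) (nat_lit 227)) (XT.lf (nat_lit 0) (nat_lit 13896605760) (nat_lit 380) (nat_lit 23833044578) (nat_lit 76) (nat_lit 21626241681) (nat_lit 150) (nat_lit 5) (nat_lit 155) (nat_lit 5) (nat_lit 151) (nat_lit 5) (nat_lit 515) (nat_lit 459) (nat_lit 226)))))) (XT.nd (nat_lit 624) (nat_lit 1140) (nat_lit 0) (XT.nd (nat_lit 312) (nat_lit 836) (nat_lit 0) (XT.nd (nat_lit 156) (nat_lit 304) (nat_lit 0) (XT.nd (nat_lit 78) (nat_lit 0) (nat_lit 0) (XT.lf (nat_lit 0) (nat_lit 11538898778) (nat_lit 304) (nat_lit 15732182056) (nat_lit 380) (nat_lit 33189139957) (nat_lit 146) (nat_lit 5) (nat_lit 150) (nat_lit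 5) (nat_lit 151) (nat_lit 5) (nat_lit 516) (nat_lit 459) (nat_lit 225)) (XT.lf (nat_lit 0) (nat_lit 41355037857) (nat_lit 380) (nat_lit 13200993555) (nat_lit 76) (nat_lit 7032400686) (nat_lit 146) (nat_lit 5) (nat_lit 151) (nat_lit 5) (nat_lit 147) (nat_lit 5) (nat_lit 517) (nat_lit 459) (nat_lit 224))) (XT.nd (nat_lit 78) (nat_lit 76) (nat_lit 0) (XT.lf (nat_lit 0) (nat_lit 23899471147) (nat_lit 228) (nat_lit 32346211383) (nat_lit 304) (nat_lit 6493282243) (nat_lit 143) (nat_lit 5) (nat_lit 146) (nat_lit 5) (nat_lit 147) (nat_lit 5) (nat_lit 518) (nat_lit 459) (nat_lit 223)) (XT.lf (nat_lit 0) (nat_lit 7642876160) (nat_lit 304) (nat_lit 1613480580) (nat_lit 76) (nat_lit 54661449132) (nat_lit 142) (nat_lit 5) (nat_lit 146) (nat_lit 5) (nat_lit 143) (nat_lit 5) (nat_lit 519) (nat_lit 459) (nat_lit 222)))) (XT.nd (nat_lit 156) (nat_lit 304) (nat_lit 0) (XT.nd (nat_lit 78) (nat_lit 228) (nat_lit 0) (XT.lf (nat_lit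 0) (nat_lit 22574587940) (nat_lit 380) (nat_lit 27870493100) (nat_lit 76) (nat_lit 14669943241) (nat_lit 138) (nat_lit 5) (nat_lit 143) (nat_lit 5) (nat_lit 139) (nat_lit 5) (nat_lit 520) (nat_lit 459) (nat_lit 221)) (XT.lf (nat_lit 0) (nat_lit 11075980408) (nat_lit 228) (nat_lit 27091565387) (nat_lit 304) (nat_lit 28174214694) (nat_lit 135) (nat_lit 5) (nat_lit 138) (nat_lit 5) (nat_lit 139) (nat_lit 5) (nat_lit 521) (nat_lit 459) (nat_lit 220))) (XT.nd (nat_lit 78) (nat_lit 304) (nat_lit 0) (XT.lf (nat_lit 0) (nat_lit 51760154756) (nat_lit 228) (nat_lit 2748317007) (nat_lit 304) (nat_lit 13088421722) (nat_lit 135) (nat_lit 5) (nat_lit 138) (nat_lit 5) (nat_lit 139) (nat_lit 5) (nat_lit 522) (nat_lit 459) (nat_lit 219)) (XT.lf (nat_lit 0) (nat_lit 2860780080) (nat_lit 304) (nat_lit 43856751153) (nat_lit 76) (nat_lit 22157683540) (nat_lit 131) (nat_lit 5) (nat_lit 135) (nat_lit 5) (nat_lit 132) (nat_lit 5) (nat_lit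 523) (nat_lit 459) (nat_lit 218))))) (XT.nd (nat_lit 312) (nat_lit 684) (nat_lit 0) (XT.nd (nat_lit 156) (nat_lit 228) (nat_lit 0) (XT.nd (nat_lit 78) (nat_lit 228) (nat_lit 0) (XT.lf (nat_lit 0) (nat_lit 19212884545) (nat_lit 304) (nat_lit 2923498459) (nat_lit 76) (nat_lit 48045990394) (nat_lit 131) (nat_lit 5) (nat_lit 135) (nat_lit 5) (nat_lit 132) (nat_lit 5) (nat_lit 524) (nat_lit 459) (nat_lit 217)) (XT.lf (nat_lit 0) (nat_lit 36473419884) (nat_lit 304) (nat_lit 31534940997) (nat_lit 76) (nat_lit 3507849945) (nat_lit 128) (nat_lit 5) (nat_lit 132) (nat_lit 5) (nat_lit 129) (nat_lit 5) (nat_lit 525) (nat_lit 459) (nat_lit 216))) (XT.nd (nat_lit 78) (nat_lit 0) (nat_lit 0) (XT.lf (nat_lit 0) (nat_lit 11343889446) (nat_lit 228) (nat_lit 43264733505) (nat_lit 304) (nat_lit 18270734948) (nat_lit 125) (nat_lit 5) (nat_lit 128) (nat_lit 5) (nat_lit 129) (nat_lit 5) (nat_lit 526) (nat_lit 459) (nat_lit 215)) (XT.lf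 (nat_lit 0) (nat_lit 56153600598) (nat_lit 228) (nat_lit 17451559722) (nat_lit 304) (nat_lit 668720789) (nat_lit 125) (nat_lit 5) (nat_lit 128) (nat_lit 5) (nat_lit 129) (nat_lit 5) (nat_lit 527) (nat_lit 459) (nat_lit 214)))) (XT.nd (nat_lit 156) (nat_lit 380) (nat_lit 0) (XT.nd (nat_lit 78) (nat_lit 0) (nat_lit 0) (XT.lf (nat_lit 0) (nat_lit 17470614940) (nat_lit 304) (nat_lit 48835917855) (nat_lit 76) (nat_lit 9388171961) (nat_lit 121) (nat_lit 5) (nat_lit 125) (nat_lit 5) (nat_lit 122) (nat_lit 5) (nat_lit 528) (nat_lit 459) (nat_lit 213)) (XT.lf (nat_lit 0) (nat_lit 36497136692) (nat_lit 304) (nat_lit 3777104411) (nat_lit 76) (nat_lit 36873020047) (nat_lit 121) (nat_lit 5) (nat_lit 125) (nat_lit 5) (nat_lit 122) (nat_lit 5) (nat_lit 529) (nat_lit 459) (nat_lit 212))) (XT.nd (nat_lit 78) (nat_lit 152) (nat_lit 0) (XT.lf (nat_lit 0) (nat_lit 43480087121) (nat_lit 228) (nat_lit 13031225022) (nat_lit 304) (nat_lit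 22119576412) (nat_lit 118) (nat_lit 5) (nat_lit 121) (nat_lit 5) (nat_lit 122) (nat_lit 5) (nat_lit 530) (nat_lit 459) (nat_lit 211)) (XT.lf (nat_lit 0) (nat_lit 12165235073) (nat_lit 152) (nat_lit 65259513454) (nat_lit 228) (nat_lit 2725311249) (nat_lit 116) (nat_lit 5) (nat_lit 118) (nat_lit 5) (nat_lit 119) (nat_lit 5) (nat_lit 531) (nat_lit 459) (nat_lit 210))))))))
noncomputable def xc214 : XT := (XT.nd (nat_lit 58188) (nat_lit 0) (nat_lit 5776) (XT.nd (nat_lit 57018) (nat_lit 0) (nat_lit 14212) (XT.nd (nat_lit 546) (nat_lit 608) (nat_lit 0) (XT.nd (nat_lit 234) (nat_lit 608) (nat_lit 0) (XT.nd (nat_lit 78) (nat_lit 228) (nat_lit 0) (XT.lf (nat_lit 0) (nat_lit 17400559344) (nat_lit 228) (nat_lit 20383059877) (nat_lit 76) (nat_lit 43911620147) (nat_lit 115) (nat_lit 5) (nat_lit 118) (nat_lit 5) (nat_lit 116) (nat_lit 5) (nat_lit 532) (nat_lit 459) (nat_lit 209)) (XT.nd (nat_lit 78) (nat_lit 0) (nat_lit 0) (XT.lf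 (nat_lit 0) (nat_lit 29187531871) (nat_lit 228) (nat_lit 9167410002) (nat_lit 304) (nat_lit 44922637677) (nat_lit 112) (nat_lit 5) (nat_lit 115) (nat_lit 5) (nat_lit 116) (nat_lit 5) (nat_lit 533) (nat_lit 459) (nat_lit 208)) (XT.lf (nat_lit 0) (nat_lit 60339978835) (nat_lit 304) (nat_lit 4437188183) (nat_lit 76) (nat_lit 20118162284) (nat_lit 112) (nat_lit 5) (nat_lit 116) (nat_lit 5) (nat_lit 113) (nat_lit 5) (nat_lit 534) (nat_lit 459) (nat_lit 207)))) (XT.nd (nat_lit 156) (nat_lit 152) (nat_lit 0) (XT.nd (nat_lit 78) (nat_lit 304) (nat_lit 0) (XT.lf (nat_lit 0) (nat_lit 47540424836) (nat_lit 152) (nat_lit 35990876791) (nat_lit 228) (nat_lit 3013907931) (nat_lit 110) (nat_lit 5) (nat_lit 112) (nat_lit 5) (nat_lit 113) (nat_lit 5) (nat_lit 535) (nat_lit 459) (nat_lit 206)) (XT.lf (nat_lit 0) (nat_lit 12992097276) (nat_lit 228) (nat_lit 5976653306) (nat_lit 304) (nat_lit 69265232722) (nat_lit 106) (nat_lit 5) (nat_lit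 109) (nat_lit 5) (nat_lit 110) (nat_lit 5) (nat_lit 536) (nat_lit 459) (nat_lit 205))) (XT.nd (nat_lit 78) (nat_lit 152) (nat_lit 0) (XT.lf (nat_lit 0) (nat_lit 42186792648) (nat_lit 304) (nat_lit 22888377970) (nat_lit 76) (nat_lit 24878260062) (nat_lit 106) (nat_lit 5) (nat_lit 110) (nat_lit 5) (nat_lit 107) (nat_lit 5) (nat_lit 537) (nat_lit 459) (nat_lit 204)) (XT.lf (nat_lit 0) (nat_lit 31591312321) (nat_lit 152) (nat_lit 34871932402) (nat_lit 228) (nat_lit 25250360740) (nat_lit 104) (nat_lit 5) (nat_lit 106) (nat_lit 5) (nat_lit 107) (nat_lit 5) (nat_lit 538) (nat_lit 459) (nat_lit 203))))) (XT.nd (nat_lit 312) (nat_lit 228) (nat_lit 0) (XT.nd (nat_lit 156) (nat_lit 152) (nat_lit 0) (XT.nd (nat_lit 78) (nat_lit 228) (nat_lit 0) (XT.lf (nat_lit 0) (nat_lit 88172890868) (nat_lit 152) (nat_lit 3525258486) (nat_lit 228) (nat_lit 1821531410) (nat_lit 104) (nat_lit 5) (nat_lit 106) (nat_lit 5) (nat_lit 107) (nat_lit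 5) (nat_lit 539) (nat_lit 459) (nat_lit 202)) (XT.lf (nat_lit 0) (nat_lit 22655977310) (nat_lit 228) (nat_lit 43774115308) (nat_lit 76) (nat_lit 28919976997) (nat_lit 101) (nat_lit 5) (nat_lit 104) (nat_lit 5) (nat_lit 102) (nat_lit 5) (nat_lit 540) (nat_lit 459) (nat_lit 201))) (XT.nd (nat_lit 78) (nat_lit 0) (nat_lit 0) (XT.lf (nat_lit 0) (nat_lit 13286359527) (nat_lit 152) (nat_lit 34761042793) (nat_lit 228) (nat_lit 49180940745) (nat_lit 99) (nat_lit 5) (nat_lit 101) (nat_lit 5) (nat_lit 102) (nat_lit 5) (nat_lit 541) (nat_lit 459) (nat_lit 200)) (XT.lf (nat_lit 0) (nat_lit 72954324861) (nat_lit 152) (nat_lit 1687344778) (nat_lit 228) (nat_lit 24508062131) (nat_lit 99) (nat_lit 5) (nat_lit 101) (nat_lit 5) (nat_lit 102) (nat_lit 5) (nat_lit 542) (nat_lit 459) (nat_lit 199)))) (XT.nd (nat_lit 56004) (nat_lit 0) (nat_lit 14972) (XT.nd (nat_lit 78) (nat_lit 0) (nat_lit 0) (XT.lf (nat_lit 0) (nat_lit 1527187983)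 (nat_lit 228) (nat_lit 67497844042) (nat_lit 76) (nat_lit 32084273818) (nat_lit 96) (nat_lit 5) (nat_lit 99) (nat_lit 5) (nat_lit 97) (nat_lit 5) (nat_lit 543) (nat_lit 459) (nat_lit 198)) (XT.lf (nat_lit 0) (nat_lit 28133844970) (nat_lit 228) (nat_lit 7633819141) (nat_lit 76) (nat_lit 67344235327) (nat_lit 96) (nat_lit 5) (nat_lit 99) (nat_lit 5) (nat_lit 97) (nat_lit 5) (nat_lit 544) (nat_lit 459) (nat_lit 197))) (XT.nd (nat_lit 78) (nat_lit 0) (nat_lit 0) (XT.lf (nat_lit 0) (nat_lit 4664947115) (nat_lit 1292) (nat_lit 3670055949) (nat_lit 1292) (nat_lit 3670055949) (nat_lit 293) (nat_lit 3) (nat_lit 310) (nat_lit 3) (nat_lit 310) (nat_lit 5) (nat_lit 460) (nat_lit 460) (nat_lit 280)) (XT.lf (nat_lit 76) (nat_lit 4610495028) (nat_lit 0) (nat_lit 5017105842) (nat_lit 1292) (nat_lit 14737920411) (nat_lit 294) (nat_lit 5) (nat_lit 293) (nat_lit 3) (nat_lit 310) (nat_lit 5) (nat_lit 461) (nat_lit 460) (nat_lit 279))))))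 (XT.nd (nat_lit 546) (nat_lit 836) (nat_lit 0) (XT.nd (nat_lit 234) (nat_lit 0) (nat_lit 76) (XT.nd (nat_lit 78) (nat_lit 0) (nat_lit 0) (XT.lf (nat_lit 0) (nat_lit 10071811918) (nat_lit 1216) (nat_lit 7729639605) (nat_lit 1292) (nat_lit 6926008529) (nat_lit 294) (nat_lit 5) (nat_lit 310) (nat_lit 5) (nat_lit 311) (nat_lit 5) (nat_lit 462) (nat_lit 460) (nat_lit 278)) (XT.nd (nat_lit 78) (nat_lit 0) (nat_lit 76) (XT.lf (nat_lit 76) (nat_lit 4696063452) (nat_lit 0) (nat_lit 5923801438) (nat_lit 1292) (nat_lit 14477677224) (nat_lit 295) (nat_lit 5) (nat_lit 294) (nat_lit 5) (nat_lit 311) (nat_lit 5) (nat_lit 463) (nat_lit 460) (nat_lit 277)) (XT.lf (nat_lit 0) (nat_lit 11319663366) (nat_lit 1216) (nat_lit 7887355812) (nat_lit 1292) (nat_lit 6267648924) (nat_lit 295) (nat_lit 5) (nat_lit 311) (nat_lit 5) (nat_lit 312) (nat_lit 5) (nat_lit 464) (nat_lit 460) (nat_lit 276)))) (XT.nd (nat_lit 156) (nat_lit 0) (nat_lit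 76) (XT.nd (nat_lit 78) (nat_lit 0) (nat_lit 76) (XT.lf (nat_lit 76) (nat_lit 5039421808) (nat_lit 0) (nat_lit 7104068855) (nat_lit 1292) (nat_lit 13716526723) (nat_lit 296) (nat_lit 5) (nat_lit 295) (nat_lit 5) (nat_lit 312) (nat_lit 5) (nat_lit 465) (nat_lit 460) (nat_lit 275)) (XT.lf (nat_lit 0) (nat_lit 13120061676) (nat_lit 1216) (nat_lit 7793747862) (nat_lit 1292) (nat_lit 5339277291) (nat_lit 296) (nat_lit 5) (nat_lit 312) (nat_lit 5) (nat_lit 313) (nat_lit 5) (nat_lit 466) (nat_lit 460) (nat_lit 274))) (XT.nd (nat_lit 78) (nat_lit 0) (nat_lit 76) (XT.lf (nat_lit 76) (nat_lit 5661555187) (nat_lit 0) (nat_lit 8585300247) (nat_lit 1292) (nat_lit 12407465683) (nat_lit 297) (nat_lit 5) (nat_lit 296) (nat_lit 5) (nat_lit 313) (nat_lit 5) (nat_lit 467) (nat_lit 460) (nat_lit 273)) (XT.lf (nat_lit 0) (nat_lit 15522737338) (nat_lit 1216) (nat_lit 7427857291) (nat_lit 1292) (nat_lit 4113539791) (nat_lit 297) (nat_lit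 5) (nat_lit 313) (nat_lit 5) (nat_lit 314) (nat_lit 5) (nat_lit 468) (nat_lit 460) (nat_lit 272))))) (XT.nd (nat_lit 312) (nat_lit 1064) (nat_lit 0) (XT.nd (nat_lit 156) (nat_lit 0) (nat_lit 76) (XT.nd (nat_lit 78) (nat_lit 0) (nat_lit 76) (XT.lf (nat_lit 76) (nat_lit 6584976806) (nat_lit 0) (nat_lit 10396595686) (nat_lit 1292) (nat_lit 10500329826) (nat_lit 298) (nat_lit 5) (nat_lit 297) (nat_lit 5) (nat_lit 314) (nat_lit 5) (nat_lit 469) (nat_lit 460) (nat_lit 271)) (XT.lf (nat_lit 0) (nat_lit 18580747473) (nat_lit 1216) (nat_lit 6767202243) (nat_lit 1292) (nat_lit 2561356780) (nat_lit 298) (nat_lit 5) (nat_lit 314) (nat_lit 5) (nat_lit 315) (nat_lit 5) (nat_lit 470) (nat_lit 460) (nat_lit 270))) (XT.nd (nat_lit 78) (nat_lit 0) (nat_lit 76) (XT.lf (nat_lit 76) (nat_lit 7833810252) (nat_lit 0) (nat_lit 12568897083) (nat_lit 1292) (nat_lit 7941581648) (nat_lit 299) (nat_lit 5) (nat_lit 298) (nat_lit 5) (nat_lit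 315) (nat_lit 5) (nat_lit 471) (nat_lit 460) (nat_lit 269)) (XT.lf (nat_lit 0) (nat_lit 22350697027) (nat_lit 1216) (nat_lit 5787694837) (nat_lit 1292) (nat_lit 651788406) (nat_lit 299) (nat_lit 5) (nat_lit 315) (nat_lit 5) (nat_lit 316) (nat_lit 5) (nat_lit 472) (nat_lit 460) (nat_lit 268)))) (XT.nd (nat_lit 156) (nat_lit 1216) (nat_lit 0) (XT.nd (nat_lit 78) (nat_lit 0) (nat_lit 0) (XT.lf (nat_lit 76) (nat_lit 9433877010) (nat_lit 0) (nat_lit 15135129216) (nat_lit 1292) (nat_lit 4674086121) (nat_lit 300) (nat_lit 5) (nat_lit 299) (nat_lit 5) (nat_lit 316) (nat_lit 5) (nat_lit 473) (nat_lit 460) (nat_lit 267)) (XT.lf (nat_lit 76) (nat_lit 25228223027) (nat_lit 0) (nat_lit 1680907589) (nat_lit 1292) (nat_lit 2798803623) (nat_lit 300) (nat_lit 5) (nat_lit 299) (nat_lit 5) (nat_lit 316) (nat_lit 5) (nat_lit 474) (nat_lit 460) (nat_lit 266))) (XT.nd (nat_lit 78) (nat_lit 1292) (nat_lit 0) (XT.lf (nat_lit 76) (nat_lit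 11412789472) (nat_lit 0) (nat_lit 18130348498) (nat_lit 1292) (nat_lit 636873462) (nat_lit 301) (nat_lit 5) (nat_lit 300) (nat_lit 5) (nat_lit 317) (nat_lit 5) (nat_lit 475) (nat_lit 460) (nat_lit 265)) (XT.lf (nat_lit 0) (nat_lit 1618172059) (nat_lit 1292) (nat_lit 2825949812) (nat_lit 1368) (nat_lit 26219892493) (nat_lit 283) (nat_lit 5) (nat_lit 300) (nat_lit 5) (nat_lit 301) (nat_lit 5) (nat_lit 476) (nat_lit 460) (nat_lit 264))))))) (XT.nd (nat_lit 1170) (nat_lit 3876) (nat_lit 0) (XT.nd (nat_lit 546) (nat_lit 2660) (nat_lit 0) (XT.nd (nat_lit 234) (nat_lit 1216) (nat_lit 0) (XT.nd (nat_lit 78) (nat_lit 760) (nat_lit 0) (XT.lf (nat_lit 0) (nat_lit 4152469552) (nat_lit 1292) (nat_lit 17397498741) (nat_lit 76) (nat_lit 9605648272) (nat_lit 284) (nat_lit 5) (nat_lit 301) (nat_lit 5) (nat_lit 285) (nat_lit 5) (nat_lit 477) (nat_lit 460) (nat_lit 263)) (XT.nd (nat_lit 78) (nat_lit 760) (nat_lit 0) (XT.lf (nat_lit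 0) (nat_lit 6832726799) (nat_lit 1292) (nat_lit 810326438) (nat_lit 76) (nat_lit 24016816043) (nat_lit 284) (nat_lit 5) (nat_lit 301) (nat_lit 5) (nat_lit 285) (nat_lit 5) (nat_lit 478) (nat_lit 460) (nat_lit 262)) (XT.lf (nat_lit 0) (nat_lit 9815920558) (nat_lit 836) (nat_lit 15644541985) (nat_lit 76) (nat_lit 6712111530) (nat_lit 274) (nat_lit 5) (nat_lit 285) (nat_lit 5) (nat_lit 275) (nat_lit 5) (nat_lit 479) (nat_lit 460) (nat_lit 261)))) (XT.nd (nat_lit 156) (nat_lit 608) (nat_lit 0) (XT.nd (nat_lit 78) (nat_lit 0) (nat_lit 0) (XT.lf (nat_lit 0) (nat_lit 1656757405) (nat_lit 608) (nat_lit 11328971342) (nat_lit 684) (nat_lit 19712018055) (nat_lit 266) (nat_lit 5) (nat_lit 274) (nat_lit 5) (nat_lit 275) (nat_lit 5) (nat_lit 480) (nat_lit 460) (nat_lit 260)) (XT.lf (nat_lit 0) (nat_lit 16438501770) (nat_lit 684) (nat_lit 13471333011) (nat_lit 76) (nat_lit 3323204156) (nat_lit 266) (nat_lit 5) (nat_lit 275) (nat_lit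 5) (nat_lit 267) (nat_lit 5) (nat_lit 481) (nat_lit 460) (nat_lit 259))) (XT.nd (nat_lit 78) (nat_lit 0) (nat_lit 0) (XT.lf (nat_lit 0) (nat_lit 4600480748) (nat_lit 608) (nat_lit 15548158668) (nat_lit 684) (nat_lit 13631137307) (nat_lit 258) (nat_lit 5) (nat_lit 266) (nat_lit 5) (nat_lit 267) (nat_lit 5) (nat_lit 482) (nat_lit 460) (nat_lit 258)) (XT.lf (nat_lit 0) (nat_lit 23488086670) (nat_lit 608) (nat_lit 615471192) (nat_lit 684) (nat_lit 10235354803) (nat_lit 258) (nat_lit 5) (nat_lit 266) (nat_lit 5) (nat_lit 267) (nat_lit 5) (nat_lit 483) (nat_lit 460) (nat_lit 257))))) (XT.nd (nat_lit 312) (nat_lit 1520) (nat_lit 0) (XT.nd (nat_lit 156) (nat_lit 608) (nat_lit 0) (XT.nd (nat_lit 78) (nat_lit 0) (nat_lit 0) (XT.lf (nat_lit 0) (nat_lit 8039940730) (nat_lit 532) (nat_lit 20353917602) (nat_lit 608) (nat_lit 6514462630) (nat_lit 251) (nat_lit 5) (nat_lit 258) (nat_lit 5) (nat_lit 259) (nat_lit 5) (nat_lit 484)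 (nat_lit 460) (nat_lit 256)) (XT.lf (nat_lit 0) (nat_lit 27711157890) (nat_lit 532) (nat_lit 5214881940) (nat_lit 608) (nat_lit 2565376819) (nat_lit 251) (nat_lit 5) (nat_lit 258) (nat_lit 5) (nat_lit 259) (nat_lit 5) (nat_lit 485) (nat_lit 460) (nat_lit 255))) (XT.nd (nat_lit 78) (nat_lit 0) (nat_lit 0) (XT.lf (nat_lit 0) (nat_lit 1687848162) (nat_lit 608) (nat_lit 24089499918) (nat_lit 76) (nat_lit 10307774830) (nat_lit 243) (nat_lit 5) (nat_lit 251) (nat_lit 5) (nat_lit 244) (nat_lit 5) (nat_lit 486) (nat_lit 460) (nat_lit 254)) (XT.lf (nat_lit 0) (nat_lit 6145742328) (nat_lit 608) (nat_lit 4250334161) (nat_lit 76) (nat_lit 26295943134) (nat_lit 243) (nat_lit 5) (nat_lit 251) (nat_lit 5) (nat_lit 244) (nat_lit 5) (nat_lit 487) (nat_lit 460) (nat_lit 253)))) (XT.nd (nat_lit 156) (nat_lit 988) (nat_lit 0) (XT.nd (nat_lit 78) (nat_lit 0) (nat_lit 0) (XT.lf (nat_lit 0) (nat_lit 10947668137) (nat_lit 608) (nat_lit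 20862742821) (nat_lit 76) (nat_lit 5500403705) (nat_lit 236) (nat_lit 5) (nat_lit 244) (nat_lit 5) (nat_lit 237) (nat_lit 5) (nat_lit 488) (nat_lit 460) (nat_lit 252)) (XT.lf (nat_lit 0) (nat_lit 16037695889) (nat_lit 608) (nat_lit 198162591) (nat_lit 76) (nat_lit 21707994009) (nat_lit 236) (nat_lit 5) (nat_lit 244) (nat_lit 5) (nat_lit 237) (nat_lit 5) (nat_lit 489) (nat_lit 460) (nat_lit 251))) (XT.nd (nat_lit 78) (nat_lit 456) (nat_lit 0) (XT.lf (nat_lit 0) (nat_lit 21485141385) (nat_lit 608) (nat_lit 17086363140) (nat_lit 76) (nat_lit 18235671) (nat_lit 229) (nat_lit 5) (nat_lit 237) (nat_lit 5) (nat_lit 230) (nat_lit 5) (nat_lit 490) (nat_lit 460) (nat_lit 250)) (XT.lf (nat_lit 0) (nat_lit 4530267689) (nat_lit 456) (nat_lit 22769932717) (nat_lit 532) (nat_lit 11948678671) (nat_lit 223) (nat_lit 5) (nat_lit 229) (nat_lit 5) (nat_lit 230) (nat_lit 5) (nat_lit 491) (nat_lit 460) (nat_lit 249)))))) (XT.nd (nat_lit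 624) (nat_lit 2052) (nat_lit 0) (XT.nd (nat_lit 312) (nat_lit 836) (nat_lit 0) (XT.nd (nat_lit 156) (nat_lit 532) (nat_lit 0) (XT.nd (nat_lit 78) (nat_lit 456) (nat_lit 0) (XT.lf (nat_lit 0) (nat_lit 27143231302) (nat_lit 456) (nat_lit 6316927941) (nat_lit 532) (nat_lit 6462519678) (nat_lit 223) (nat_lit 5) (nat_lit 229) (nat_lit 5) (nat_lit 230) (nat_lit 5) (nat_lit 492) (nat_lit 460) (nat_lit 248)) (XT.lf (nat_lit 0) (nat_lit 9906618603) (nat_lit 456) (nat_lit 30093672685) (nat_lit 532) (nat_lit 610540471) (nat_lit 217) (nat_lit 5) (nat_lit 223) (nat_lit 5) (nat_lit 224) (nat_lit 5) (nat_lit 493) (nat_lit 460) (nat_lit 247))) (XT.nd (nat_lit 78) (nat_lit 456) (nat_lit 0) (XT.lf (nat_lit 0) (nat_lit 5502145277) (nat_lit 532) (nat_lit 7898842000) (nat_lit 76) (nat_lit 27911354411) (nat_lit 216) (nat_lit 5) (nat_lit 223) (nat_lit 5) (nat_lit 217) (nat_lit 5) (nat_lit 494) (nat_lit 460) (nat_lit 246)) (XT.lf (nat_lit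 0) (nat_lit 11974774274) (nat_lit 532) (nat_lit 26175805766) (nat_lit 76) (nat_lit 3878470719) (nat_lit 210) (nat_lit 5) (nat_lit 217) (nat_lit 5) (nat_lit 211) (nat_lit 5) (nat_lit 495) (nat_lit 460) (nat_lit 245)))) (XT.nd (nat_lit 156) (nat_lit 380) (nat_lit 0) (XT.nd (nat_lit 78) (nat_lit 456) (nat_lit 0) (XT.lf (nat_lit 0) (nat_lit 18852890583) (nat_lit 532) (nat_lit 2420912345) (nat_lit 76) (nat_lit 21487119127) (nat_lit 210) (nat_lit 5) (nat_lit 217) (nat_lit 5) (nat_lit 211) (nat_lit 5) (nat_lit 496) (nat_lit 460) (nat_lit 244)) (XT.lf (nat_lit 0) (nat_lit 22483037911) (nat_lit 456) (nat_lit 3668562169) (nat_lit 532) (nat_lit 17356722119) (nat_lit 204) (nat_lit 5) (nat_lit 210) (nat_lit 5) (nat_lit 211) (nat_lit 5) (nat_lit 497) (nat_lit 460) (nat_lit 243))) (XT.nd (nat_lit 78) (nat_lit 0) (nat_lit 0) (XT.lf (nat_lit 0) (nat_lit 3839616593) (nat_lit 380) (nat_lit 30028453458) (nat_lit 456) (nat_lit 10404110516)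 (nat_lit 199) (nat_lit 5) (nat_lit 204) (nat_lit 5) (nat_lit 205) (nat_lit 5) (nat_lit 498) (nat_lit 460) (nat_lit 242)) (XT.lf (nat_lit 0) (nat_lit 29842096597) (nat_lit 380) (nat_lit 12220406420) (nat_lit 456) (nat_lit 2989057790) (nat_lit 199) (nat_lit 5) (nat_lit 204) (nat_lit 5) (nat_lit 205) (nat_lit 5) (nat_lit 499) (nat_lit 460) (nat_lit 241))))) (XT.nd (nat_lit 312) (nat_lit 1140) (nat_lit 0) (XT.nd (nat_lit 156) (nat_lit 380) (nat_lit 0) (XT.nd (nat_lit 78) (nat_lit 0) (nat_lit 0) (XT.lf (nat_lit 0) (nat_lit 4721418822) (nat_lit 532) (nat_lit 34973434782) (nat_lit 76) (nat_lit 6153218110) (nat_lit 192) (nat_lit 5) (nat_lit 199) (nat_lit 5) (nat_lit 193) (nat_lit 5) (nat_lit 500) (nat_lit 460) (nat_lit 240)) (XT.lf (nat_lit 0) (nat_lit 12877481762) (nat_lit 532) (nat_lit 8765252989) (nat_lit 76) (nat_lit 25016625057) (nat_lit 192) (nat_lit 5) (nat_lit 199) (nat_lit 5) (nat_lit 193) (nat_lit 5) (nat_lit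 501) (nat_lit 460) (nat_lit 239))) (XT.nd (nat_lit 78) (nat_lit 0) (nat_lit 0) (XT.lf (nat_lit 0) (nat_lit 18589679827) (nat_lit 380) (nat_lit 2865541740) (nat_lit 456) (nat_lit 26034455296) (nat_lit 187) (nat_lit 5) (nat_lit 192) (nat_lit 5) (nat_lit 193) (nat_lit 5) (nat_lit 502) (nat_lit 460) (nat_lit 238)) (XT.lf (nat_lit 0) (nat_lit 30536371698) (nat_lit 456) (nat_lit 1558821219) (nat_lit 76) (nat_lit 16242328331) (nat_lit 187) (nat_lit 5) (nat_lit 193) (nat_lit 5) (nat_lit 188) (nat_lit 5) (nat_lit 503) (nat_lit 460) (nat_lit 237)))) (XT.nd (nat_lit 156) (nat_lit 380) (nat_lit 0) (XT.nd (nat_lit 78) (nat_lit 380) (nat_lit 0) (XT.lf (nat_lit 0) (nat_lit 27100850418) (nat_lit 380) (nat_lit 13076358874) (nat_lit 456) (nat_lit 9024974242) (nat_lit 182) (nat_lit 5) (nat_lit 187) (nat_lit 5) (nat_lit 188) (nat_lit 5) (nat_lit 504) (nat_lit 460) (nat_lit 236)) (XT.lf (nat_lit 0) (nat_lit 156167863) (nat_lit 380)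 (nat_lit 43465871308) (nat_lit 76) (nat_lit 6466483562) (nat_lit 177) (nat_lit 5) (nat_lit 182) (nat_lit 5) (nat_lit 178) (nat_lit 5) (nat_lit 505) (nat_lit 460) (nat_lit 235))) (XT.nd (nat_lit 78) (nat_lit 380) (nat_lit 0) (XT.lf (nat_lit 0) (nat_lit 9784611976) (nat_lit 380) (nat_lit 14556614481) (nat_lit 76) (nat_lit 26646947288) (nat_lit 177) (nat_lit 5) (nat_lit 182) (nat_lit 5) (nat_lit 178) (nat_lit 5) (nat_lit 506) (nat_lit 460) (nat_lit 234)) (XT.lf (nat_lit 0) (nat_lit 15520614048) (nat_lit 380) (nat_lit 4328937601) (nat_lit 456) (nat_lit 32060833511) (nat_lit 172) (nat_lit 5) (nat_lit 177) (nat_lit 5) (nat_lit 178) (nat_lit 5) (nat_lit 507) (nat_lit 460) (nat_lit 233))))))))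
noncomputable def xc215 : XT := (XT.nd (nat_lit 2340) (nat_lit 532) (nat_lit 0) (XT.nd (nat_lit 1170) (nat_lit 2204) (nat_lit 0) (XT.nd (nat_lit 546) (nat_lit 1520) (nat_lit 0) (XT.nd (nat_lit 234) (nat_lit 684) (nat_lit 0) (XT.nd (nat_lit 78) (nat_lit 608) (nat_lit 0) (XT.lf (nat_lit 0) (nat_lit 30519884404) (nat_lit 456) (nat_lit 6217469608) (nat_lit 76) (nat_lit 16113805694) (nat_lit 172) (nat_lit 5) (nat_lit 178) (nat_lit 5) (nat_lit 173) (nat_lit 5) (nat_lit 508) (nat_lit 460) (nat_lit 232)) (XT.nd (nat_lit 78) (nat_lit 304) (nat_lit 0) (XT.lf (nat_lit 0) (nat_lit 25308883578) (nat_lit 304) (nat_lit 16486100619) (nat_lit 380) (nat_lit 12016633712) (nat_lit 168) (nat_lit 5) (nat_lit 172) (nat_lit 5) (nat_lit 173) (nat_lit 5) (nat_lit 509) (nat_lit 460) (nat_lit 231)) (XT.lf (nat_lit 0) (nat_lit 3125670354) (nat_lit 304) (nat_lit 50416680150) (nat_lit 380) (nat_lit 1254519079) (nat_lit 164) (nat_lit 5) (nat_lit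 168) (nat_lit 5) (nat_lit 169) (nat_lit 5) (nat_lit 510) (nat_lit 460) (nat_lit 230)))) (XT.nd (nat_lit 156) (nat_lit 304) (nat_lit 0) (XT.nd (nat_lit 78) (nat_lit 304) (nat_lit 0) (XT.lf (nat_lit 0) (nat_lit 10091068310) (nat_lit 380) (nat_lit 19778563129) (nat_lit 76) (nat_lit 25925639487) (nat_lit 163) (nat_lit 5) (nat_lit 168) (nat_lit 5) (nat_lit 164) (nat_lit 5) (nat_lit 511) (nat_lit 460) (nat_lit 229)) (XT.lf (nat_lit 0) (nat_lit 13316191088) (nat_lit 304) (nat_lit 8562200448) (nat_lit 380) (nat_lit 34941062778) (nat_lit 159) (nat_lit 5) (nat_lit 163) (nat_lit 5) (nat_lit 164) (nat_lit 5) (nat_lit 512) (nat_lit 460) (nat_lit 228))) (XT.nd (nat_lit 78) (nat_lit 304) (nat_lit 0) (XT.lf (nat_lit 0) (nat_lit 34348290720) (nat_lit 380) (nat_lit 10191881451) (nat_lit 76) (nat_lit 13324322458) (nat_lit 159) (nat_lit 5) (nat_lit 164) (nat_lit 5) (nat_lit 160) (nat_lit 5) (nat_lit 513) (nat_lit 460) (nat_lit 227))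 (XT.lf (nat_lit 0) (nat_lit 24510311145) (nat_lit 304) (nat_lit 23000993564) (nat_lit 380) (nat_lit 11420011020) (nat_lit 155) (nat_lit 5) (nat_lit 159) (nat_lit 5) (nat_lit 160) (nat_lit 5) (nat_lit 514) (nat_lit 460) (nat_lit 226))))) (XT.nd (nat_lit 312) (nat_lit 836) (nat_lit 0) (XT.nd (nat_lit 156) (nat_lit 304) (nat_lit 0) (XT.nd (nat_lit 78) (nat_lit 0) (nat_lit 0) (XT.lf (nat_lit 0) (nat_lit 430790362) (nat_lit 304) (nat_lit 694721738) (nat_lit 380) (nat_lit 58901128212) (nat_lit 150) (nat_lit 5) (nat_lit 154) (nat_lit 5) (nat_lit 155) (nat_lit 5) (nat_lit 515) (nat_lit 460) (nat_lit 225)) (XT.lf (nat_lit 0) (nat_lit 14381727954) (nat_lit 380) (nat_lit 24443409475) (nat_lit 76) (nat_lit 22309379482) (nat_lit 150) (nat_lit 5) (nat_lit 155) (nat_lit 5) (nat_lit 151) (nat_lit 5) (nat_lit 516) (nat_lit 460) (nat_lit 224))) (XT.nd (nat_lit 78) (nat_lit 0) (nat_lit 0) (XT.lf (nat_lit 0) (nat_lit 11988666432) (nat_lit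 304) (nat_lit 16167779615) (nat_lit 380) (nat_lit 34115559387) (nat_lit 146) (nat_lit 5) (nat_lit 150) (nat_lit 5) (nat_lit 151) (nat_lit 5) (nat_lit 517) (nat_lit 460) (nat_lit 223)) (XT.lf (nat_lit 0) (nat_lit 42661302952) (nat_lit 380) (nat_lit 13494816486) (nat_lit 76) (nat_lit 7277992351) (nat_lit 146) (nat_lit 5) (nat_lit 151) (nat_lit 5) (nat_lit 147) (nat_lit 5) (nat_lit 518) (nat_lit 460) (nat_lit 222)))) (XT.nd (nat_lit 156) (nat_lit 532) (nat_lit 0) (XT.nd (nat_lit 78) (nat_lit 76) (nat_lit 0) (XT.lf (nat_lit 0) (nat_lit 24717660129) (nat_lit 228) (nat_lit 33280068593) (nat_lit 304) (nat_lit 6621460012) (nat_lit 143) (nat_lit 5) (nat_lit 146) (nat_lit 5) (nat_lit 147) (nat_lit 5) (nat_lit 519) (nat_lit 460) (nat_lit 221)) (XT.lf (nat_lit 0) (nat_lit 7935580589) (nat_lit 304) (nat_lit 1562361278) (nat_lit 76) (nat_lit 56335491197) (nat_lit 142) (nat_lit 5) (nat_lit 146) (nat_lit 5) (nat_lit 143) (nat_lit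 5) (nat_lit 520) (nat_lit 460) (nat_lit 220))) (XT.nd (nat_lit 78) (nat_lit 228) (nat_lit 0) (XT.lf (nat_lit 0) (nat_lit 23314690235) (nat_lit 380) (nat_lit 28606526375) (nat_lit 76) (nat_lit 15145368148) (nat_lit 138) (nat_lit 5) (nat_lit 143) (nat_lit 5) (nat_lit 139) (nat_lit 5) (nat_lit 521) (nat_lit 460) (nat_lit 219)) (XT.lf (nat_lit 0) (nat_lit 11507360146) (nat_lit 228) (nat_lit 27867198282) (nat_lit 304) (nat_lit 28955591101) (nat_lit 135) (nat_lit 5) (nat_lit 138) (nat_lit 5) (nat_lit 139) (nat_lit 5) (nat_lit 522) (nat_lit 460) (nat_lit 218)))))) (XT.nd (nat_lit 546) (nat_lit 1140) (nat_lit 0) (XT.nd (nat_lit 234) (nat_lit 760) (nat_lit 0) (XT.nd (nat_lit 78) (nat_lit 304) (nat_lit 0) (XT.lf (nat_lit 0) (nat_lit 53409173307) (nat_lit 228) (nat_lit 2794733444) (nat_lit 304) (nat_lit 13419084050) (nat_lit 135) (nat_lit 5) (nat_lit 138) (nat_lit 5) (nat_lit 139) (nat_lit 5) (nat_lit 523) (nat_lit 460) (nat_lit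 217)) (XT.nd (nat_lit 78) (nat_lit 0) (nat_lit 0) (XT.lf (nat_lit 0) (nat_lit 3006892385) (nat_lit 304) (nat_lit 45074530582) (nat_lit 76) (nat_lit 22858235751) (nat_lit 131) (nat_lit 5) (nat_lit 135) (nat_lit 5) (nat_lit 132) (nat_lit 5) (nat_lit 524) (nat_lit 460) (nat_lit 216)) (XT.lf (nat_lit 0) (nat_lit 19847803997) (nat_lit 304) (nat_lit 2916132437) (nat_lit 76) (nat_lit 49522148460) (nat_lit 131) (nat_lit 5) (nat_lit 135) (nat_lit 5) (nat_lit 132) (nat_lit 5) (nat_lit 525) (nat_lit 460) (nat_lit 215)))) (XT.nd (nat_lit 156) (nat_lit 304) (nat_lit 0) (XT.nd (nat_lit 78) (nat_lit 228) (nat_lit 0) (XT.lf (nat_lit 0) (nat_lit 37625705430) (nat_lit 304) (nat_lit 32385464675) (nat_lit 76) (nat_lit 3648780946) (nat_lit 128) (nat_lit 5) (nat_lit 132) (nat_lit 5) (nat_lit 129) (nat_lit 5) (nat_lit 526) (nat_lit 460) (nat_lit 214)) (XT.lf (nat_lit 0) (nat_lit 11778794166) (nat_lit 228) (nat_lit 44525387925) (nat_lit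 304) (nat_lit 18759834027) (nat_lit 125) (nat_lit 5) (nat_lit 128) (nat_lit 5) (nat_lit 129) (nat_lit 5) (nat_lit 527) (nat_lit 460) (nat_lit 213))) (XT.nd (nat_lit 78) (nat_lit 304) (nat_lit 0) (XT.lf (nat_lit 0) (nat_lit 57930041662) (nat_lit 228) (nat_lit 17938904975) (nat_lit 304) (nat_lit 631478558) (nat_lit 125) (nat_lit 5) (nat_lit 128) (nat_lit 5) (nat_lit 129) (nat_lit 5) (nat_lit 528) (nat_lit 460) (nat_lit 212)) (XT.lf (nat_lit 0) (nat_lit 18050519249) (nat_lit 304) (nat_lit 50207637840) (nat_lit 76) (nat_lit 9705712025) (nat_lit 121) (nat_lit 5) (nat_lit 125) (nat_lit 5) (nat_lit 122) (nat_lit 5) (nat_lit 529) (nat_lit 460) (nat_lit 211))))) (XT.nd (nat_lit 312) (nat_lit 684) (nat_lit 0) (XT.nd (nat_lit 156) (nat_lit 228) (nat_lit 0) (XT.nd (nat_lit 78) (nat_lit 228) (nat_lit 0) (XT.lf (nat_lit 0) (nat_lit 37646211823) (nat_lit 304) (nat_lit 3799779144) (nat_lit 76) (nat_lit 38014060071) (nat_lit 121)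 (nat_lit 5) (nat_lit 125) (nat_lit 5) (nat_lit 122) (nat_lit 5) (nat_lit 530) (nat_lit 460) (nat_lit 210)) (XT.lf (nat_lit 0) (nat_lit 44874239522) (nat_lit 228) (nat_lit 13385858241) (nat_lit 304) (nat_lit 22728111039) (nat_lit 118) (nat_lit 5) (nat_lit 121) (nat_lit 5) (nat_lit 122) (nat_lit 5) (nat_lit 531) (nat_lit 460) (nat_lit 209))) (XT.nd (nat_lit 78) (nat_lit 76) (nat_lit 0) (XT.lf (nat_lit 0) (nat_lit 12620307124) (nat_lit 152) (nat_lit 67180278475) (nat_lit 228) (nat_lit 2752380197) (nat_lit 116) (nat_lit 5) (nat_lit 118) (nat_lit 5) (nat_lit 119) (nat_lit 5) (nat_lit 532) (nat_lit 460) (nat_lit 208)) (XT.lf (nat_lit 0) (nat_lit 17974637468) (nat_lit 228) (nat_lit 20906022493) (nat_lit 76) (nat_lit 45263871981) (nat_lit 115) (nat_lit 5) (nat_lit 118) (nat_lit 5) (nat_lit 116) (nat_lit 5) (nat_lit 533) (nat_lit 460) (nat_lit 207)))) (XT.nd (nat_lit 156) (nat_lit 456) (nat_lit 0) (XT.nd (nat_lit 78) (nat_lit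 0) (nat_lit 0) (XT.lf (nat_lit 0) (nat_lit 30150819074) (nat_lit 228) (nat_lit 9406158702) (nat_lit 304) (nat_lit 46217384845) (nat_lit 112) (nat_lit 5) (nat_lit 115) (nat_lit 5) (nat_lit 116) (nat_lit 5) (nat_lit 534) (nat_lit 460) (nat_lit 206)) (XT.lf (nat_lit 0) (nat_lit 62200407648) (nat_lit 304) (nat_lit 4484035014) (nat_lit 76) (nat_lit 20756237027) (nat_lit 112) (nat_lit 5) (nat_lit 116) (nat_lit 5) (nat_lit 113) (nat_lit 5) (nat_lit 535) (nat_lit 460) (nat_lit 205))) (XT.nd (nat_lit 78) (nat_lit 304) (nat_lit 0) (XT.lf (nat_lit 0) (nat_lit 49052060623) (nat_lit 152) (nat_lit 37034767645) (nat_lit 228) (nat_lit 3053247417) (nat_lit 110) (nat_lit 5) (nat_lit 112) (nat_lit 5) (nat_lit 113) (nat_lit 5) (nat_lit 536) (nat_lit 460) (nat_lit 204)) (XT.lf (nat_lit 0) (nat_lit 13467435129) (nat_lit 228) (nat_lit 6119822940) (nat_lit 304) (nat_lit 71292258999) (nat_lit 106) (nat_lit 5) (nat_lit 109) (nat_lit 5) (nat_lit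 110) (nat_lit 5) (nat_lit 537) (nat_lit 460) (nat_lit 203))))))) (XT.nd (nat_lit 57174) (nat_lit 0) (nat_lit 11552) (XT.nd (nat_lit 56550) (nat_lit 0) (nat_lit 14744) (XT.nd (nat_lit 234) (nat_lit 380) (nat_lit 0) (XT.nd (nat_lit 78) (nat_lit 152) (nat_lit 0) (XT.lf (nat_lit 0) (nat_lit 43500738440) (nat_lit 304) (nat_lit 23490841574) (nat_lit 76) (nat_lit 25659001009) (nat_lit 106) (nat_lit 5) (nat_lit 110) (nat_lit 5) (nat_lit 107) (nat_lit 5) (nat_lit 538) (nat_lit 460) (nat_lit 202)) (XT.nd (nat_lit 78) (nat_lit 0) (nat_lit 0) (XT.lf (nat_lit 0) (nat_lit 32622414056) (nat_lit 152) (nat_lit 35882463331) (nat_lit 228) (nat_lit 25958701930) (nat_lit 104) (nat_lit 5) (nat_lit 106) (nat_lit 5) (nat_lit 107) (nat_lit 5) (nat_lit 539) (nat_lit 460) (nat_lit 201)) (XT.lf (nat_lit 0) (nat_lit 90899011929) (nat_lit 152) (nat_lit 3596426879) (nat_lit 228) (nat_lit 1828439846) (nat_lit 104) (nat_lit 5) (nat_lit 106) (nat_lit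 5) (nat_lit 107) (nat_lit 5) (nat_lit 540) (nat_lit 460) (nat_lit 200)))) (XT.nd (nat_lit 156) (nat_lit 0) (nat_lit 0) (XT.nd (nat_lit 78) (nat_lit 152) (nat_lit 0) (XT.lf (nat_lit 0) (nat_lit 23382213511) (nat_lit 228) (nat_lit 45005219627) (nat_lit 76) (nat_lit 29821739800) (nat_lit 101) (nat_lit 5) (nat_lit 104) (nat_lit 5) (nat_lit 102) (nat_lit 5) (nat_lit 541) (nat_lit 460) (nat_lit 199)) (XT.lf (nat_lit 0) (nat_lit 13766264363) (nat_lit 152) (nat_lit 35768542521) (nat_lit 228) (nat_lit 50609004997) (nat_lit 99) (nat_lit 5) (nat_lit 101) (nat_lit 5) (nat_lit 102) (nat_lit 5) (nat_lit 542) (nat_lit 460) (nat_lit 198))) (XT.nd (nat_lit 56082) (nat_lit 0) (nat_lit 14744) (XT.lf (nat_lit 0) (nat_lit 75221900287) (nat_lit 152) (nat_lit 1703662641) (nat_lit 228) (nat_lit 25197319558) (nat_lit 99) (nat_lit 5) (nat_lit 101) (nat_lit 5) (nat_lit 102) (nat_lit 5) (nat_lit 543) (nat_lit 460) (nat_lit 197)) (XT.lf (nat_lit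 0) (nat_lit 4917244409) (nat_lit 1292) (nat_lit 3722290145) (nat_lit 1292) (nat_lit 3722290145) (nat_lit 293) (nat_lit 3) (nat_lit 310) (nat_lit 3) (nat_lit 310) (nat_lit 5) (nat_lit 461) (nat_lit 461) (nat_lit 278))))) (XT.nd (nat_lit 312) (nat_lit 0) (nat_lit 152) (XT.nd (nat_lit 156) (nat_lit 0) (nat_lit 76) (XT.nd (nat_lit 78) (nat_lit 0) (nat_lit 76) (XT.lf (nat_lit 76) (nat_lit 4863410188) (nat_lit 0) (nat_lit 5272273483) (nat_lit 1292) (nat_lit 14954195277) (nat_lit 294) (nat_lit 5) (nat_lit 293) (nat_lit 3) (nat_lit 310) (nat_lit 5) (nat_lit 462) (nat_lit 461) (nat_lit 277)) (XT.lf (nat_lit 0) (nat_lit 10585858287) (nat_lit 1216) (nat_lit 7842874149) (nat_lit 1292) (nat_lit 7034165212) (nat_lit 294) (nat_lit 5) (nat_lit 310) (nat_lit 5) (nat_lit 311) (nat_lit 5) (nat_lit 463) (nat_lit 461) (nat_lit 276))) (XT.nd (nat_lit 78) (nat_lit 0) (nat_lit 76) (XT.lf (nat_lit 76) (nat_lit 4954436719) (nat_lit 0) (nat_lit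 6190873916) (nat_lit 1292) (nat_lit 14698923662) (nat_lit 295) (nat_lit 5) (nat_lit 294) (nat_lit 5) (nat_lit 311) (nat_lit 5) (nat_lit 464) (nat_lit 461) (nat_lit 275)) (XT.lf (nat_lit 0) (nat_lit 11859244365) (nat_lit 1216) (nat_lit 8003020746) (nat_lit 1292) (nat_lit 6370615546) (nat_lit 295) (nat_lit 5) (nat_lit 311) (nat_lit 5) (nat_lit 312) (nat_lit 5) (nat_lit 465) (nat_lit 461) (nat_lit 274)))) (XT.nd (nat_lit 156) (nat_lit 0) (nat_lit 76) (XT.nd (nat_lit 78) (nat_lit 0) (nat_lit 76) (XT.lf (nat_lit 76) (nat_lit 5310374362) (nat_lit 0) (nat_lit 7392738437) (nat_lit 1292) (nat_lit 13926818640) (nat_lit 296) (nat_lit 5) (nat_lit 295) (nat_lit 5) (nat_lit 312) (nat_lit 5) (nat_lit 466) (nat_lit 461) (nat_lit 273)) (XT.lf (nat_lit 0) (nat_lit 13702587028) (nat_lit 1216) (nat_lit 7904858767) (nat_lit 1292) (nat_lit 5427539773) (nat_lit 296) (nat_lit 5) (nat_lit 312) (nat_lit 5) (nat_lit 313) (nat_lit 5) (nat_lit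 467) (nat_lit 461) (nat_lit 272))) (XT.nd (nat_lit 78) (nat_lit 0) (nat_lit 76) (XT.lf (nat_lit 76) (nat_lit 5952900417) (nat_lit 0) (nat_lit 8905949474) (nat_lit 1292) (nat_lit 12589537797) (nat_lit 297) (nat_lit 5) (nat_lit 296) (nat_lit 5) (nat_lit 313) (nat_lit 5) (nat_lit 468) (nat_lit 461) (nat_lit 271)) (XT.lf (nat_lit 0) (nat_lit 16167043082) (nat_lit 1216) (nat_lit 7526743399) (nat_lit 1292) (nat_lit 4176888604) (nat_lit 297) (nat_lit 5) (nat_lit 313) (nat_lit 5) (nat_lit 314) (nat_lit 5) (nat_lit 469) (nat_lit 461) (nat_lit 270)))))) (XT.nd (nat_lit 624) (nat_lit 2432) (nat_lit 0) (XT.nd (nat_lit 312) (nat_lit 1064) (nat_lit 0) (XT.nd (nat_lit 156) (nat_lit 0) (nat_lit 76) (XT.nd (nat_lit 78) (nat_lit 0) (nat_lit 76) (XT.lf (nat_lit 76) (nat_lit 6905260529) (nat_lit 0) (nat_lit 10760359931) (nat_lit 1292) (nat_lit 10635476964) (nat_lit 298) (nat_lit 5) (nat_lit 297) (nat_lit 5) (nat_lit 314) (nat_lit 5)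 (nat_lit 470) (nat_lit 461) (nat_lit 269)) (XT.lf (nat_lit 0) (nat_lit 19307201180) (nat_lit 1216) (nat_lit 6845465927) (nat_lit 1292) (nat_lit 2588824402) (nat_lit 298) (nat_lit 5) (nat_lit 314) (nat_lit 5) (nat_lit 315) (nat_lit 5) (nat_lit 471) (nat_lit 461) (nat_lit 268))) (XT.nd (nat_lit 78) (nat_lit 0) (nat_lit 76) (XT.lf (nat_lit 76) (nat_lit 8192353880) (nat_lit 0) (nat_lit 12987730155) (nat_lit 1292) (nat_lit 8009552186) (nat_lit 299) (nat_lit 5) (nat_lit 298) (nat_lit 5) (nat_lit 315) (nat_lit 5) (nat_lit 472) (nat_lit 461) (nat_lit 267)) (XT.lf (nat_lit 0) (nat_lit 23181309199) (nat_lit 1216) (nat_lit 5836168174) (nat_lit 1292) (nat_lit 631583659) (nat_lit 299) (nat_lit 5) (nat_lit 315) (nat_lit 5) (nat_lit 316) (nat_lit 5) (nat_lit 473) (nat_lit 461) (nat_lit 266)))) (XT.nd (nat_lit 156) (nat_lit 1216) (nat_lit 0) (XT.nd (nat_lit 78) (nat_lit 0) (nat_lit 0) (XT.lf (nat_lit 76) (nat_lit 9840823794) (nat_lit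 0) (nat_lit 15621872323) (nat_lit 1292) (nat_lit 4652969138) (nat_lit 300) (nat_lit 5) (nat_lit 299) (nat_lit 5) (nat_lit 316) (nat_lit 5) (nat_lit 474) (nat_lit 461) (nat_lit 265)) (XT.lf (nat_lit 76) (nat_lit 26105390567) (nat_lit 0) (nat_lit 1763071934) (nat_lit 1292) (nat_lit 2726127376) (nat_lit 300) (nat_lit 5) (nat_lit 299) (nat_lit 5) (nat_lit 316) (nat_lit 5) (nat_lit 475) (nat_lit 461) (nat_lit 264))) (XT.nd (nat_lit 78) (nat_lit 1292) (nat_lit 0) (XT.lf (nat_lit 76) (nat_lit 11879153939) (nat_lit 0) (nat_lit 18698802850) (nat_lit 1292) (nat_lit 502979195) (nat_lit 301) (nat_lit 5) (nat_lit 300) (nat_lit 5) (nat_lit 317) (nat_lit 5) (nat_lit 476) (nat_lit 461) (nat_lit 263)) (XT.lf (nat_lit 0) (nat_lit 1812362737) (nat_lit 1292) (nat_lit 2787441083) (nat_lit 1368) (nat_lit 26979742711) (nat_lit 283) (nat_lit 5) (nat_lit 300) (nat_lit 5) (nat_lit 301) (nat_lit 5) (nat_lit 477) (nat_lit 461) (nat_lit 262)))))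 (XT.nd (nat_lit 312) (nat_lit 1140) (nat_lit 0) (XT.nd (nat_lit 156) (nat_lit 1368) (nat_lit 0) (XT.nd (nat_lit 78) (nat_lit 0) (nat_lit 0) (XT.lf (nat_lit 0) (nat_lit 4419423503) (nat_lit 1292) (nat_lit 17792852479) (nat_lit 76) (nat_lit 9873719336) (nat_lit 284) (nat_lit 5) (nat_lit 301) (nat_lit 5) (nat_lit 285) (nat_lit 5) (nat_lit 478) (nat_lit 461) (nat_lit 261)) (XT.lf (nat_lit 0) (nat_lit 7175941480) (nat_lit 1292) (nat_lit 711751548) (nat_lit 76) (nat_lit 24717807529) (nat_lit 284) (nat_lit 5) (nat_lit 301) (nat_lit 5) (nat_lit 285) (nat_lit 5) (nat_lit 479) (nat_lit 461) (nat_lit 260))) (XT.nd (nat_lit 78) (nat_lit 608) (nat_lit 0) (XT.lf (nat_lit 0) (nat_lit 10245642856) (nat_lit 836) (nat_lit 15987988069) (nat_lit 76) (nat_lit 6900045735) (nat_lit 274) (nat_lit 5) (nat_lit 285) (nat_lit 5) (nat_lit 275) (nat_lit 5) (nat_lit 480) (nat_lit 461) (nat_lit 259)) (XT.lf (nat_lit 0) (nat_lit 1831116086) (nat_lit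 608) (nat_lit 11676688308) (nat_lit 684) (nat_lit 20166882907) (nat_lit 266) (nat_lit 5) (nat_lit 274) (nat_lit 5) (nat_lit 275) (nat_lit 5) (nat_lit 481) (nat_lit 461) (nat_lit 258)))) (XT.nd (nat_lit 156) (nat_lit 532) (nat_lit 0) (XT.nd (nat_lit 78) (nat_lit 608) (nat_lit 0) (XT.lf (nat_lit 0) (nat_lit 17060228034) (nat_lit 684) (nat_lit 13750498922) (nat_lit 76) (nat_lit 3415429710) (nat_lit 266) (nat_lit 5) (nat_lit 275) (nat_lit 5) (nat_lit 267) (nat_lit 5) (nat_lit 482) (nat_lit 461) (nat_lit 257)) (XT.lf (nat_lit 0) (nat_lit 4862244014) (nat_lit 608) (nat_lit 16016870552) (nat_lit 684) (nat_lit 13910259152) (nat_lit 258) (nat_lit 5) (nat_lit 266) (nat_lit 5) (nat_lit 267) (nat_lit 5) (nat_lit 483) (nat_lit 461) (nat_lit 256))) (XT.nd (nat_lit 78) (nat_lit 532) (nat_lit 0) (XT.lf (nat_lit 0) (nat_lit 24312873778) (nat_lit 608) (nat_lit 636136419) (nat_lit 684) (nat_lit 10416384112) (nat_lit 258) (nat_lit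 5) (nat_lit 266) (nat_lit 5) (nat_lit 267) (nat_lit 5) (nat_lit 484) (nat_lit 461) (nat_lit 255)) (XT.lf (nat_lit 0) (nat_lit 8403776123) (nat_lit 532) (nat_lit 20961838415) (nat_lit 608) (nat_lit 6586342919) (nat_lit 251) (nat_lit 5) (nat_lit 258) (nat_lit 5) (nat_lit 259) (nat_lit 5) (nat_lit 485) (nat_lit 461) (nat_lit 254))))))))
noncomputable def xc216 : XT := (XT.nd (nat_lit 2340) (nat_lit 4256) (nat_lit 0) (XT.nd (nat_lit 1170) (nat_lit 3344) (nat_lit 0) (XT.nd (nat_lit 546) (nat_lit 1824) (nat_lit 0) (XT.nd (nat_lit 234) (nat_lit 1520) (nat_lit 0) (XT.nd (nat_lit 78) (nat_lit 608) (nat_lit 0) (XT.lf (nat_lit 0) (nat_lit 28661557842) (nat_lit 532) (nat_lit 5368710229) (nat_lit 608) (nat_lit 2522383182) (nat_lit 251) (nat_lit 5) (nat_lit 258) (nat_lit 5) (nat_lit 259) (nat_lit 5) (nat_lit 486) (nat_lit 461) (nat_lit 253)) (XT.nd (nat_lit 78) (nat_lit 0) (nat_lit 0) (XT.lf (nat_lit 0) (nat_lit 1853874822) (nat_lit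 608) (nat_lit 24688528257) (nat_lit 76) (nat_lit 10621798129) (nat_lit 243) (nat_lit 5) (nat_lit 251) (nat_lit 5) (nat_lit 244) (nat_lit 5) (nat_lit 487) (nat_lit 461) (nat_lit 252)) (XT.lf (nat_lit 0) (nat_lit 6442144904) (nat_lit 608) (nat_lit 4257789178) (nat_lit 76) (nat_lit 27089471966) (nat_lit 243) (nat_lit 5) (nat_lit 251) (nat_lit 5) (nat_lit 244) (nat_lit 5) (nat_lit 488) (nat_lit 461) (nat_lit 251)))) (XT.nd (nat_lit 156) (nat_lit 988) (nat_lit 0) (XT.nd (nat_lit 78) (nat_lit 0) (nat_lit 0) (XT.lf (nat_lit 0) (nat_lit 11386094402) (nat_lit 608) (nat_lit 21366523143) (nat_lit 76) (nat_lit 5674208802) (nat_lit 236) (nat_lit 5) (nat_lit 244) (nat_lit 5) (nat_lit 237) (nat_lit 5) (nat_lit 489) (nat_lit 461) (nat_lit 250)) (XT.lf (nat_lit 0) (nat_lit 16625619213) (nat_lit 608) (nat_lit 85561874) (nat_lit 76) (nat_lit 22367770708) (nat_lit 236) (nat_lit 5) (nat_lit 244) (nat_lit 5) (nat_lit 237) (nat_lit 5)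 (nat_lit 490) (nat_lit 461) (nat_lit 249))) (XT.nd (nat_lit 78) (nat_lit 456) (nat_lit 0) (XT.lf (nat_lit 0) (nat_lit 22234626835) (nat_lit 608) (nat_lit 17478535070) (nat_lit 76) (nat_lit 31110431) (nat_lit 229) (nat_lit 5) (nat_lit 237) (nat_lit 5) (nat_lit 230) (nat_lit 5) (nat_lit 491) (nat_lit 461) (nat_lit 248)) (XT.lf (nat_lit 0) (nat_lit 4785414106) (nat_lit 456) (nat_lit 23436813464) (nat_lit 532) (nat_lit 12201015467) (nat_lit 223) (nat_lit 5) (nat_lit 229) (nat_lit 5) (nat_lit 230) (nat_lit 5) (nat_lit 492) (nat_lit 461) (nat_lit 247))))) (XT.nd (nat_lit 312) (nat_lit 836) (nat_lit 0) (XT.nd (nat_lit 156) (nat_lit 532) (nat_lit 0) (XT.nd (nat_lit 78) (nat_lit 456) (nat_lit 0) (XT.lf (nat_lit 0) (nat_lit 28073293665) (nat_lit 456) (nat_lit 6490690891) (nat_lit 532) (nat_lit 6553362682) (nat_lit 223) (nat_lit 5) (nat_lit 229) (nat_lit 5) (nat_lit 230) (nat_lit 5) (nat_lit 493) (nat_lit 461) (nat_lit 246))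 (XT.lf (nat_lit 0) (nat_lit 10321280284) (nat_lit 456) (nat_lit 30977403127) (nat_lit 532) (nat_lit 527510698) (nat_lit 217) (nat_lit 5) (nat_lit 223) (nat_lit 5) (nat_lit 224) (nat_lit 5) (nat_lit 494) (nat_lit 461) (nat_lit 245))) (XT.nd (nat_lit 78) (nat_lit 456) (nat_lit 0) (XT.lf (nat_lit 0) (nat_lit 5763683773) (nat_lit 532) (nat_lit 8019834904) (nat_lit 76) (nat_lit 28765288572) (nat_lit 216) (nat_lit 5) (nat_lit 223) (nat_lit 5) (nat_lit 217) (nat_lit 5) (nat_lit 495) (nat_lit 461) (nat_lit 244)) (XT.lf (nat_lit 0) (nat_lit 12428978481) (nat_lit 532) (nat_lit 26843584264) (nat_lit 76) (nat_lit 4014500548) (nat_lit 210) (nat_lit 5) (nat_lit 217) (nat_lit 5) (nat_lit 211) (nat_lit 5) (nat_lit 496) (nat_lit 461) (nat_lit 243)))) (XT.nd (nat_lit 156) (nat_lit 380) (nat_lit 0) (XT.nd (nat_lit 78) (nat_lit 456) (nat_lit 0) (XT.lf (nat_lit 0) (nat_lit 19510672426) (nat_lit 532) (nat_lit 2379466245) (nat_lit 76)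 (nat_lit 22150835329) (nat_lit 210) (nat_lit 5) (nat_lit 217) (nat_lit 5) (nat_lit 211) (nat_lit 5) (nat_lit 497) (nat_lit 461) (nat_lit 242)) (XT.lf (nat_lit 0) (nat_lit 23270484151) (nat_lit 456) (nat_lit 3756259555) (nat_lit 532) (nat_lit 17784100714) (nat_lit 204) (nat_lit 5) (nat_lit 210) (nat_lit 5) (nat_lit 211) (nat_lit 5) (nat_lit 498) (nat_lit 461) (nat_lit 241))) (XT.nd (nat_lit 78) (nat_lit 0) (nat_lit 0) (XT.lf (nat_lit 0) (nat_lit 4069140671) (nat_lit 380) (nat_lit 30904236135) (nat_lit 456) (nat_lit 10624281942) (nat_lit 199) (nat_lit 5) (nat_lit 204) (nat_lit 5) (nat_lit 205) (nat_lit 5) (nat_lit 499) (nat_lit 461) (nat_lit 240)) (XT.lf (nat_lit 0) (nat_lit 30848364912) (nat_lit 380) (nat_lit 12562677907) (nat_lit 456) (nat_lit 2989455844) (nat_lit 199) (nat_lit 5) (nat_lit 204) (nat_lit 5) (nat_lit 205) (nat_lit 5) (nat_lit 500) (nat_lit 461) (nat_lit 239)))))) (XT.nd (nat_lit 546) (nat_lit 1672)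 (nat_lit 0) (XT.nd (nat_lit 234) (nat_lit 760) (nat_lit 0) (XT.nd (nat_lit 78) (nat_lit 380) (nat_lit 0) (XT.lf (nat_lit 0) (nat_lit 4949362844) (nat_lit 532) (nat_lit 35908642915) (nat_lit 76) (nat_lit 6362910555) (nat_lit 192) (nat_lit 5) (nat_lit 199) (nat_lit 5) (nat_lit 193) (nat_lit 5) (nat_lit 501) (nat_lit 461) (nat_lit 238)) (XT.nd (nat_lit 78) (nat_lit 380) (nat_lit 0) (XT.lf (nat_lit 0) (nat_lit 13347594037) (nat_lit 532) (nat_lit 8917535908) (nat_lit 76) (nat_lit 25791488762) (nat_lit 192) (nat_lit 5) (nat_lit 199) (nat_lit 5) (nat_lit 193) (nat_lit 5) (nat_lit 502) (nat_lit 461) (nat_lit 237)) (XT.lf (nat_lit 0) (nat_lit 19256959846) (nat_lit 380) (nat_lit 2924319210) (nat_lit 456) (nat_lit 26730608067) (nat_lit 187) (nat_lit 5) (nat_lit 192) (nat_lit 5) (nat_lit 193) (nat_lit 5) (nat_lit 503) (nat_lit 461) (nat_lit 236)))) (XT.nd (nat_lit 156) (nat_lit 380) (nat_lit 0) (XT.nd (nat_lit 78) (nat_lit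 380) (nat_lit 0) (XT.lf (nat_lit 0) (nat_lit 31532717410) (nat_lit 456) (nat_lit 1497034093) (nat_lit 76) (nat_lit 16755479959) (nat_lit 187) (nat_lit 5) (nat_lit 193) (nat_lit 5) (nat_lit 188) (nat_lit 5) (nat_lit 504) (nat_lit 461) (nat_lit 235)) (XT.lf (nat_lit 0) (nat_lit 28021363460) (nat_lit 380) (nat_lit 13440112397) (nat_lit 456) (nat_lit 9214397115) (nat_lit 182) (nat_lit 5) (nat_lit 187) (nat_lit 5) (nat_lit 188) (nat_lit 5) (nat_lit 505) (nat_lit 461) (nat_lit 234))) (XT.nd (nat_lit 78) (nat_lit 0) (nat_lit 0) (XT.lf (nat_lit 0) (nat_lit 239592180) (nat_lit 380) (nat_lit 44659758381) (nat_lit 76) (nat_lit 6689458551) (nat_lit 177) (nat_lit 5) (nat_lit 182) (nat_lit 5) (nat_lit 178) (nat_lit 5) (nat_lit 506) (nat_lit 461) (nat_lit 233)) (XT.lf (nat_lit 0) (nat_lit 10154596239) (nat_lit 380) (nat_lit 14886430327) (nat_lit 76) (nat_lit 27474492096) (nat_lit 177) (nat_lit 5) (nat_lit 182) (nat_lit 5) (nat_lit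 178) (nat_lit 5) (nat_lit 507) (nat_lit 461) (nat_lit 232))))) (XT.nd (nat_lit 312) (nat_lit 684) (nat_lit 0) (XT.nd (nat_lit 156) (nat_lit 608) (nat_lit 0) (XT.nd (nat_lit 78) (nat_lit 0) (nat_lit 0) (XT.lf (nat_lit 0) (nat_lit 16092067190) (nat_lit 380) (nat_lit 4428207681) (nat_lit 456) (nat_lit 32945158027) (nat_lit 172) (nat_lit 5) (nat_lit 177) (nat_lit 5) (nat_lit 178) (nat_lit 5) (nat_lit 508) (nat_lit 461) (nat_lit 231)) (XT.lf (nat_lit 0) (nat_lit 31508811809) (nat_lit 456) (nat_lit 6299329221) (nat_lit 76) (nat_lit 16626347020) (nat_lit 172) (nat_lit 5) (nat_lit 178) (nat_lit 5) (nat_lit 173) (nat_lit 5) (nat_lit 509) (nat_lit 461) (nat_lit 230))) (XT.nd (nat_lit 78) (nat_lit 304) (nat_lit 0) (XT.lf (nat_lit 0) (nat_lit 26171788439) (nat_lit 304) (nat_lit 16949236542) (nat_lit 380) (nat_lit 12302769397) (nat_lit 168) (nat_lit 5) (nat_lit 172) (nat_lit 5) (nat_lit 173) (nat_lit 5) (nat_lit 510) (nat_lit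 461) (nat_lit 229)) (XT.lf (nat_lit 0) (nat_lit 3323914204) (nat_lit 304) (nat_lit 51896093164) (nat_lit 380) (nat_lit 1218620565) (nat_lit 164) (nat_lit 5) (nat_lit 168) (nat_lit 5) (nat_lit 169) (nat_lit 5) (nat_lit 511) (nat_lit 461) (nat_lit 228)))) (XT.nd (nat_lit 156) (nat_lit 304) (nat_lit 0) (XT.nd (nat_lit 78) (nat_lit 304) (nat_lit 0) (XT.lf (nat_lit 0) (nat_lit 10463799555) (nat_lit 380) (nat_lit 20269090293) (nat_lit 76) (nat_lit 26734133436) (nat_lit 163) (nat_lit 5) (nat_lit 168) (nat_lit 5) (nat_lit 164) (nat_lit 5) (nat_lit 512) (nat_lit 461) (nat_lit 227)) (XT.lf (nat_lit 0) (nat_lit 13817498416) (nat_lit 304) (nat_lit 8786184021) (nat_lit 380) (nat_lit 35918281706) (nat_lit 159) (nat_lit 5) (nat_lit 163) (nat_lit 5) (nat_lit 164) (nat_lit 5) (nat_lit 513) (nat_lit 461) (nat_lit 226))) (XT.nd (nat_lit 78) (nat_lit 304) (nat_lit 0) (XT.lf (nat_lit 0) (nat_lit 35445977540) (nat_lit 380) (nat_lit 10397075458)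 (nat_lit 76) (nat_lit 13755353865) (nat_lit 159) (nat_lit 5) (nat_lit 164) (nat_lit 5) (nat_lit 160) (nat_lit 5) (nat_lit 514) (nat_lit 461) (nat_lit 225)) (XT.lf (nat_lit 0) (nat_lit 25345197009) (nat_lit 304) (nat_lit 23657683739) (nat_lit 380) (nat_lit 11694382044) (nat_lit 155) (nat_lit 5) (nat_lit 159) (nat_lit 5) (nat_lit 160) (nat_lit 5) (nat_lit 515) (nat_lit 461) (nat_lit 224))))))) (XT.nd (nat_lit 1170) (nat_lit 1672) (nat_lit 0) (XT.nd (nat_lit 546) (nat_lit 1292) (nat_lit 0) (XT.nd (nat_lit 234) (nat_lit 608) (nat_lit 0) (XT.nd (nat_lit 78) (nat_lit 304) (nat_lit 0) (XT.lf (nat_lit 0) (nat_lit 543637806) (nat_lit 304) (nat_lit 681549609) (nat_lit 380) (nat_lit 60600269809) (nat_lit 150) (nat_lit 5) (nat_lit 154) (nat_lit 5) (nat_lit 155) (nat_lit 5) (nat_lit 516) (nat_lit 461) (nat_lit 223)) (XT.nd (nat_lit 78) (nat_lit 304) (nat_lit 0) (XT.lf (nat_lit 0) (nat_lit 14877487476) (nat_lit 380) (nat_lit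 25078091304) (nat_lit 76) (nat_lit 23011039554) (nat_lit 150) (nat_lit 5) (nat_lit 155) (nat_lit 5) (nat_lit 151) (nat_lit 5) (nat_lit 517) (nat_lit 461) (nat_lit 222)) (XT.lf (nat_lit 0) (nat_lit 12445980012) (nat_lit 304) (nat_lit 16618532766) (nat_lit 380) (nat_lit 35073746907) (nat_lit 146) (nat_lit 5) (nat_lit 150) (nat_lit 5) (nat_lit 151) (nat_lit 5) (nat_lit 518) (nat_lit 461) (nat_lit 221)))) (XT.nd (nat_lit 156) (nat_lit 380) (nat_lit 0) (XT.nd (nat_lit 78) (nat_lit 228) (nat_lit 0) (XT.lf (nat_lit 0) (nat_lit 44002989490) (nat_lit 380) (nat_lit 13803321198) (nat_lit 76) (nat_lit 7528964458) (nat_lit 146) (nat_lit 5) (nat_lit 151) (nat_lit 5) (nat_lit 147) (nat_lit 5) (nat_lit 519) (nat_lit 461) (nat_lit 220)) (XT.lf (nat_lit 0) (nat_lit 25554585207) (nat_lit 228) (nat_lit 34244038442) (nat_lit 304) (nat_lit 6757307415) (nat_lit 143) (nat_lit 5) (nat_lit 146) (nat_lit 5) (nat_lit 147) (nat_lit 5) (nat_lit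 520) (nat_lit 461) (nat_lit 219))) (XT.nd (nat_lit 78) (nat_lit 304) (nat_lit 0) (XT.lf (nat_lit 0) (nat_lit 8233425690) (nat_lit 304) (nat_lit 1515421466) (nat_lit 76) (nat_lit 58057791384) (nat_lit 142) (nat_lit 5) (nat_lit 146) (nat_lit 5) (nat_lit 143) (nat_lit 5) (nat_lit 521) (nat_lit 461) (nat_lit 218)) (XT.lf (nat_lit 0) (nat_lit 24073386910) (nat_lit 380) (nat_lit 29370385738) (nat_lit 76) (nat_lit 15633027911) (nat_lit 138) (nat_lit 5) (nat_lit 143) (nat_lit 5) (nat_lit 139) (nat_lit 5) (nat_lit 522) (nat_lit 461) (nat_lit 217))))) (XT.nd (nat_lit 312) (nat_lit 760) (nat_lit 0) (XT.nd (nat_lit 156) (nat_lit 304) (nat_lit 0) (XT.nd (nat_lit 78) (nat_lit 0) (nat_lit 0) (XT.lf (nat_lit 0) (nat_lit 11945992513) (nat_lit 228) (nat_lit 28668230664) (nat_lit 304) (nat_lit 29764074054) (nat_lit 135) (nat_lit 5) (nat_lit 138) (nat_lit 5) (nat_lit 139) (nat_lit 5) (nat_lit 523) (nat_lit 461) (nat_lit 216)) (XT.lf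 (nat_lit 0) (nat_lit 55102139343) (nat_lit 228) (nat_lit 2844610819) (nat_lit 304) (nat_lit 13763224746) (nat_lit 135) (nat_lit 5) (nat_lit 138) (nat_lit 5) (nat_lit 139) (nat_lit 5) (nat_lit 524) (nat_lit 461) (nat_lit 215))) (XT.nd (nat_lit 78) (nat_lit 0) (nat_lit 0) (XT.lf (nat_lit 0) (nat_lit 3153927229) (nat_lit 304) (nat_lit 46334464581) (nat_lit 76) (nat_lit 23577748216) (nat_lit 131) (nat_lit 5) (nat_lit 135) (nat_lit 5) (nat_lit 132) (nat_lit 5) (nat_lit 525) (nat_lit 461) (nat_lit 214)) (XT.lf (nat_lit 0) (nat_lit 20498411003) (nat_lit 304) (nat_lit 2914002897) (nat_lit 76) (nat_lit 51040594849) (nat_lit 131) (nat_lit 5) (nat_lit 135) (nat_lit 5) (nat_lit 132) (nat_lit 5) (nat_lit 526) (nat_lit 461) (nat_lit 213)))) (XT.nd (nat_lit 156) (nat_lit 304) (nat_lit 0) (XT.nd (nat_lit 78) (nat_lit 228) (nat_lit 0) (XT.lf (nat_lit 0) (nat_lit 38809225344) (nat_lit 304) (nat_lit 33266987563) (nat_lit 76) (nat_lit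 3791890810) (nat_lit 128) (nat_lit 5) (nat_lit 132) (nat_lit 5) (nat_lit 129) (nat_lit 5) (nat_lit 527) (nat_lit 461) (nat_lit 212)) (XT.lf (nat_lit 0) (nat_lit 12221316287) (nat_lit 228) (nat_lit 45826002437) (nat_lit 304) (nat_lit 19266994237) (nat_lit 125) (nat_lit 5) (nat_lit 128) (nat_lit 5) (nat_lit 129) (nat_lit 5) (nat_lit 528) (nat_lit 461) (nat_lit 211))) (XT.nd (nat_lit 78) (nat_lit 304) (nat_lit 0) (XT.lf (nat_lit 0) (nat_lit 59754504365) (nat_lit 228) (nat_lit 18442948701) (nat_lit 304) (nat_lit 596408536) (nat_lit 125) (nat_lit 5) (nat_lit 128) (nat_lit 5) (nat_lit 129) (nat_lit 5) (nat_lit 529) (nat_lit 461) (nat_lit 210)) (XT.lf (nat_lit 0) (nat_lit 18644618352) (nat_lit 304) (nat_lit 51625868530) (nat_lit 76) (nat_lit 10030717777) (nat_lit 121) (nat_lit 5) (nat_lit 125) (nat_lit 5) (nat_lit 122) (nat_lit 5) (nat_lit 530) (nat_lit 461) (nat_lit 209)))))) (XT.nd (nat_lit 546) (nat_lit 836) (nat_lit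 0) (XT.nd (nat_lit 234) (nat_lit 456) (nat_lit 0) (XT.nd (nat_lit 78) (nat_lit 380) (nat_lit 0) (XT.lf (nat_lit 0) (nat_lit 38826650144) (nat_lit 304) (nat_lit 3828337135) (nat_lit 76) (nat_lit 39187330796) (nat_lit 121) (nat_lit 5) (nat_lit 125) (nat_lit 5) (nat_lit 122) (nat_lit 5) (nat_lit 531) (nat_lit 461) (nat_lit 208)) (XT.nd (nat_lit 78) (nat_lit 152) (nat_lit 0) (XT.lf (nat_lit 0) (nat_lit 46305064489) (nat_lit 228) (nat_lit 13753214427) (nat_lit 304) (nat_lit 23358061952) (nat_lit 118) (nat_lit 5) (nat_lit 121) (nat_lit 5) (nat_lit 122) (nat_lit 5) (nat_lit 532) (nat_lit 461) (nat_lit 207)) (XT.lf (nat_lit 0) (nat_lit 13083858367) (nat_lit 152) (nat_lit 69160791567) (nat_lit 228) (nat_lit 2783400665) (nat_lit 116) (nat_lit 5) (nat_lit 118) (nat_lit 5) (nat_lit 119) (nat_lit 5) (nat_lit 533) (nat_lit 461) (nat_lit 206)))) (XT.nd (nat_lit 156) (nat_lit 152) (nat_lit 0) (XT.nd (nat_lit 78) (nat_lit 228) (nat_lit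 0) (XT.lf (nat_lit 0) (nat_lit 18562949401) (nat_lit 228) (nat_lit 21449755925) (nat_lit 76) (nat_lit 46654687782) (nat_lit 115) (nat_lit 5) (nat_lit 118) (nat_lit 5) (nat_lit 116) (nat_lit 5) (nat_lit 534) (nat_lit 461) (nat_lit 205)) (XT.lf (nat_lit 0) (nat_lit 31137972779) (nat_lit 228) (nat_lit 9654152116) (nat_lit 304) (nat_lit 47554012938) (nat_lit 112) (nat_lit 5) (nat_lit 115) (nat_lit 5) (nat_lit 116) (nat_lit 5) (nat_lit 535) (nat_lit 461) (nat_lit 204))) (XT.nd (nat_lit 78) (nat_lit 152) (nat_lit 0) (XT.lf (nat_lit 0) (nat_lit 64113765949) (nat_lit 304) (nat_lit 4537239433) (nat_lit 76) (nat_lit 21411471857) (nat_lit 112) (nat_lit 5) (nat_lit 116) (nat_lit 5) (nat_lit 113) (nat_lit 5) (nat_lit 536) (nat_lit 461) (nat_lit 203)) (XT.lf (nat_lit 0) (nat_lit 50604141851) (nat_lit 152) (nat_lit 38112032327) (nat_lit 228) (nat_lit 3096699159) (nat_lit 110) (nat_lit 5) (nat_lit 112) (nat_lit 5) (nat_lit 113)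 (nat_lit 5) (nat_lit 537) (nat_lit 461) (nat_lit 202))))) (XT.nd (nat_lit 312) (nat_lit 380) (nat_lit 0) (XT.nd (nat_lit 156) (nat_lit 152) (nat_lit 0) (XT.nd (nat_lit 78) (nat_lit 0) (nat_lit 0) (XT.lf (nat_lit 0) (nat_lit 13952120766) (nat_lit 228) (nat_lit 6269361671) (nat_lit 304) (nat_lit 73383019694) (nat_lit 106) (nat_lit 5) (nat_lit 109) (nat_lit 5) (nat_lit 110) (nat_lit 5) (nat_lit 538) (nat_lit 461) (nat_lit 201)) (XT.lf (nat_lit 0) (nat_lit 44851327575) (nat_lit 304) (nat_lit 24116211807) (nat_lit 76) (nat_lit 26461189878) (nat_lit 106) (nat_lit 5) (nat_lit 110) (nat_lit 5) (nat_lit 107) (nat_lit 5) (nat_lit 539) (nat_lit 461) (nat_lit 200))) (XT.nd (nat_lit 78) (nat_lit 0) (nat_lit 0) (XT.lf (nat_lit 0) (nat_lit 33679663502) (nat_lit 152) (nat_lit 36925355326) (nat_lit 228) (nat_lit 26691115894) (nat_lit 104) (nat_lit 5) (nat_lit 106) (nat_lit 5) (nat_lit 107) (nat_lit 5) (nat_lit 540) (nat_lit 461)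 (nat_lit 199)) (XT.lf (nat_lit 0) (nat_lit 93702270660) (nat_lit 152) (nat_lit 3671715894) (nat_lit 228) (nat_lit 1838295862) (nat_lit 104) (nat_lit 5) (nat_lit 106) (nat_lit 5) (nat_lit 107) (nat_lit 5) (nat_lit 541) (nat_lit 461) (nat_lit 198)))) (XT.nd (nat_lit 56238) (nat_lit 0) (nat_lit 14744) (XT.nd (nat_lit 78) (nat_lit 152) (nat_lit 0) (XT.lf (nat_lit 0) (nat_lit 24127564242) (nat_lit 228) (nat_lit 46277971050) (nat_lit 76) (nat_lit 30748594364) (nat_lit 101) (nat_lit 5) (nat_lit 104) (nat_lit 5) (nat_lit 102) (nat_lit 5) (nat_lit 542) (nat_lit 461) (nat_lit 197)) (XT.lf (nat_lit 0) (nat_lit 14255898586) (nat_lit 152) (nat_lit 36808295418) (nat_lit 228) (nat_lit 52082630063) (nat_lit 99) (nat_lit 5) (nat_lit 101) (nat_lit 5) (nat_lit 102) (nat_lit 5) (nat_lit 543) (nat_lit 461) (nat_lit 196))) (XT.nd (nat_lit 78) (nat_lit 0) (nat_lit 0) (XT.lf (nat_lit 0) (nat_lit 5170661337) (nat_lit 1292) (nat_lit 3779413196)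 (nat_lit 1292) (nat_lit 3779413196) (nat_lit 293) (nat_lit 3) (nat_lit 310) (nat_lit 3) (nat_lit 310) (nat_lit 5) (nat_lit 462) (nat_lit 462) (nat_lit 276)) (XT.lf (nat_lit 76) (nat_lit 5117334277) (nat_lit 0) (nat_lit 5529088558) (nat_lit 1292) (nat_lit 15189923835) (nat_lit 294) (nat_lit 5) (nat_lit 293) (nat_lit 3) (nat_lit 310) (nat_lit 5) (nat_lit 463) (nat_lit 462) (nat_lit 275))))))))
noncomputable def xc217 : XT := (XT.nd (nat_lit 2340) (nat_lit 6688) (nat_lit 0) (XT.nd (nat_lit 1170) (nat_lit 4560) (nat_lit 0) (XT.nd (nat_lit 546) (nat_lit 836) (nat_lit 0) (XT.nd (nat_lit 234) (nat_lit 0) (nat_lit 76) (XT.nd (nat_lit 78) (nat_lit 0) (nat_lit 0) (XT.lf (nat_lit 0) (nat_lit 11103162579) (nat_lit 1216) (nat_lit 7966316991) (nat_lit 1292) (nat_lit 7151285397) (nat_lit 294) (nat_lit 5) (nat_lit 310) (nat_lit 5) (nat_lit 311) (nat_lit 5) (nat_lit 464) (nat_lit 462) (nat_lit 274)) (XT.nd (nat_lit 78) (nat_lit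 0) (nat_lit 76) (XT.lf (nat_lit 76) (nat_lit 5213816699) (nat_lit 0) (nat_lit 6460829030) (nat_lit 1292) (nat_lit 14939039378) (nat_lit 295) (nat_lit 5) (nat_lit 294) (nat_lit 5) (nat_lit 311) (nat_lit 5) (nat_lit 465) (nat_lit 462) (nat_lit 273)) (XT.lf (nat_lit 0) (nat_lit 12403532486) (nat_lit 1216) (nat_lit 8129098983) (nat_lit 1292) (nat_lit 6481554123) (nat_lit 295) (nat_lit 5) (nat_lit 311) (nat_lit 5) (nat_lit 312) (nat_lit 5) (nat_lit 466) (nat_lit 462) (nat_lit 272)))) (XT.nd (nat_lit 156) (nat_lit 0) (nat_lit 76) (XT.nd (nat_lit 78) (nat_lit 0) (nat_lit 76) (XT.lf (nat_lit 76) (nat_lit 5582580210) (nat_lit 0) (nat_lit 7685731370) (nat_lit 1292) (nat_lit 14154969241) (nat_lit 296) (nat_lit 5) (nat_lit 295) (nat_lit 5) (nat_lit 312) (nat_lit 5) (nat_lit 467) (nat_lit 462) (nat_lit 271)) (XT.lf (nat_lit 0) (nat_lit 14291743158) (nat_lit 1216) (nat_lit 8026346569) (nat_lit 1292) (nat_lit 5522578392) (nat_lit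 296) (nat_lit 5) (nat_lit 312) (nat_lit 5) (nat_lit 313) (nat_lit 5) (nat_lit 468) (nat_lit 462) (nat_lit 270))) (XT.nd (nat_lit 78) (nat_lit 0) (nat_lit 76) (XT.lf (nat_lit 76) (nat_lit 6246011489) (nat_lit 0) (nat_lit 9232596541) (nat_lit 1292) (nat_lit 12787987568) (nat_lit 297) (nat_lit 5) (nat_lit 296) (nat_lit 5) (nat_lit 313) (nat_lit 5) (nat_lit 469) (nat_lit 462) (nat_lit 269)) (XT.lf (nat_lit 0) (nat_lit 16820424271) (nat_lit 1216) (nat_lit 7635711305) (nat_lit 1292) (nat_lit 4245585421) (nat_lit 297) (nat_lit 5) (nat_lit 313) (nat_lit 5) (nat_lit 314) (nat_lit 5) (nat_lit 470) (nat_lit 462) (nat_lit 268))))) (XT.nd (nat_lit 312) (nat_lit 1064) (nat_lit 0) (XT.nd (nat_lit 156) (nat_lit 0) (nat_lit 76) (XT.nd (nat_lit 78) (nat_lit 0) (nat_lit 76) (XT.lf (nat_lit 76) (nat_lit 7228107305) (nat_lit 0) (nat_lit 11132059760) (nat_lit 1292) (nat_lit 10785003374) (nat_lit 298) (nat_lit 5) (nat_lit 297) (nat_lit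 5) (nat_lit 314) (nat_lit 5) (nat_lit 471) (nat_lit 462) (nat_lit 267)) (XT.lf (nat_lit 0) (nat_lit 20045745411) (nat_lit 1216) (nat_lit 6933238819) (nat_lit 1292) (nat_lit 2619950270) (nat_lit 298) (nat_lit 5) (nat_lit 314) (nat_lit 5) (nat_lit 315) (nat_lit 5) (nat_lit 472) (nat_lit 462) (nat_lit 266))) (XT.nd (nat_lit 78) (nat_lit 0) (nat_lit 76) (XT.lf (nat_lit 76) (nat_lit 8554562729) (nat_lit 0) (nat_lit 13416730671) (nat_lit 1292) (nat_lit 8089336431) (nat_lit 299) (nat_lit 5) (nat_lit 298) (nat_lit 5) (nat_lit 315) (nat_lit 5) (nat_lit 473) (nat_lit 462) (nat_lit 265)) (XT.lf (nat_lit 0) (nat_lit 24027649843) (nat_lit 1216) (nat_lit 5893280263) (nat_lit 1292) (nat_lit 613055063) (nat_lit 299) (nat_lit 5) (nat_lit 315) (nat_lit 5) (nat_lit 316) (nat_lit 5) (nat_lit 474) (nat_lit 462) (nat_lit 264)))) (XT.nd (nat_lit 156) (nat_lit 1216) (nat_lit 0) (XT.nd (nat_lit 78) (nat_lit 0) (nat_lit 0) (XT.lf (nat_lit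 76) (nat_lit 10252864866) (nat_lit 0) (nat_lit 16121341227) (nat_lit 1292) (nat_lit 4640480196) (nat_lit 300) (nat_lit 5) (nat_lit 299) (nat_lit 5) (nat_lit 316) (nat_lit 5) (nat_lit 475) (nat_lit 462) (nat_lit 263)) (XT.lf (nat_lit 76) (nat_lit 27001966223) (nat_lit 0) (nat_lit 1845879368) (nat_lit 1292) (nat_lit 2660262639) (nat_lit 300) (nat_lit 5) (nat_lit 299) (nat_lit 5) (nat_lit 316) (nat_lit 5) (nat_lit 476) (nat_lit 462) (nat_lit 262))) (XT.nd (nat_lit 78) (nat_lit 1292) (nat_lit 0) (XT.lf (nat_lit 76) (nat_lit 12352392337) (nat_lit 0) (nat_lit 19282901912) (nat_lit 1292) (nat_lit 373850952) (nat_lit 301) (nat_lit 5) (nat_lit 300) (nat_lit 5) (nat_lit 317) (nat_lit 5) (nat_lit 477) (nat_lit 462) (nat_lit 261)) (XT.lf (nat_lit 0) (nat_lit 2004018486) (nat_lit 1292) (nat_lit 2754854283) (nat_lit 1368) (nat_lit 27763923797) (nat_lit 283) (nat_lit 5) (nat_lit 300) (nat_lit 5) (nat_lit 301) (nat_lit 5) (nat_lit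 478) (nat_lit 462) (nat_lit 260)))))) (XT.nd (nat_lit 546) (nat_lit 2660) (nat_lit 0) (XT.nd (nat_lit 234) (nat_lit 1216) (nat_lit 0) (XT.nd (nat_lit 78) (nat_lit 760) (nat_lit 0) (XT.lf (nat_lit 0) (nat_lit 4686212885) (nat_lit 1292) (nat_lit 18207332536) (nat_lit 76) (nat_lit 10150986261) (nat_lit 284) (nat_lit 5) (nat_lit 301) (nat_lit 5) (nat_lit 285) (nat_lit 5) (nat_lit 479) (nat_lit 462) (nat_lit 259)) (XT.nd (nat_lit 78) (nat_lit 760) (nat_lit 0) (XT.lf (nat_lit 0) (nat_lit 7521517470) (nat_lit 1292) (nat_lit 617273494) (nat_lit 76) (nat_lit 25440948886) (nat_lit 284) (nat_lit 5) (nat_lit 301) (nat_lit 5) (nat_lit 285) (nat_lit 5) (nat_lit 480) (nat_lit 462) (nat_lit 258)) (XT.lf (nat_lit 0) (nat_lit 10680493224) (nat_lit 836) (nat_lit 16348964146) (nat_lit 76) (nat_lit 7094388853) (nat_lit 274) (nat_lit 5) (nat_lit 285) (nat_lit 5) (nat_lit 275) (nat_lit 5) (nat_lit 481) (nat_lit 462) (nat_lit 257)))) (XT.nd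 (nat_lit 156) (nat_lit 608) (nat_lit 0) (XT.nd (nat_lit 78) (nat_lit 0) (nat_lit 0) (XT.lf (nat_lit 0) (nat_lit 2003549765) (nat_lit 608) (nat_lit 12034386287) (nat_lit 684) (nat_lit 20643229115) (nat_lit 266) (nat_lit 5) (nat_lit 274) (nat_lit 5) (nat_lit 275) (nat_lit 5) (nat_lit 482) (nat_lit 462) (nat_lit 256)) (XT.lf (nat_lit 0) (nat_lit 17693225572) (nat_lit 684) (nat_lit 14045213834) (nat_lit 76) (nat_lit 3510850873) (nat_lit 266) (nat_lit 5) (nat_lit 275) (nat_lit 5) (nat_lit 267) (nat_lit 5) (nat_lit 483) (nat_lit 462) (nat_lit 255))) (XT.nd (nat_lit 78) (nat_lit 0) (nat_lit 0) (XT.lf (nat_lit 0) (nat_lit 5124756487) (nat_lit 608) (nat_lit 16499513651) (nat_lit 684) (nat_lit 14205206408) (nat_lit 258) (nat_lit 5) (nat_lit 266) (nat_lit 5) (nat_lit 267) (nat_lit 5) (nat_lit 484) (nat_lit 462) (nat_lit 254)) (XT.lf (nat_lit 0) (nat_lit 25155507713) (nat_lit 608) (nat_lit 657295251) (nat_lit 684) (nat_lit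 10610079016) (nat_lit 258) (nat_lit 5) (nat_lit 266) (nat_lit 5) (nat_lit 267) (nat_lit 5) (nat_lit 485) (nat_lit 462) (nat_lit 253))))) (XT.nd (nat_lit 312) (nat_lit 1520) (nat_lit 0) (XT.nd (nat_lit 156) (nat_lit 608) (nat_lit 0) (XT.nd (nat_lit 78) (nat_lit 0) (nat_lit 0) (XT.lf (nat_lit 0) (nat_lit 8771486704) (nat_lit 532) (nat_lit 21588151655) (nat_lit 608) (nat_lit 6667472098) (nat_lit 251) (nat_lit 5) (nat_lit 258) (nat_lit 5) (nat_lit 259) (nat_lit 5) (nat_lit 486) (nat_lit 462) (nat_lit 252)) (XT.lf (nat_lit 0) (nat_lit 29633634963) (nat_lit 532) (nat_lit 5527303659) (nat_lit 608) (nat_lit 2484985640) (nat_lit 251) (nat_lit 5) (nat_lit 258) (nat_lit 5) (nat_lit 259) (nat_lit 5) (nat_lit 487) (nat_lit 462) (nat_lit 251))) (XT.nd (nat_lit 78) (nat_lit 0) (nat_lit 0) (XT.lf (nat_lit 0) (nat_lit 2018258354) (nat_lit 608) (nat_lit 25312625845) (nat_lit 76) (nat_lit 10944967158) (nat_lit 243) (nat_lit 5) (nat_lit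 251) (nat_lit 5) (nat_lit 244) (nat_lit 5) (nat_lit 488) (nat_lit 462) (nat_lit 250)) (XT.lf (nat_lit 0) (nat_lit 6741008558) (nat_lit 608) (nat_lit 4272359494) (nat_lit 76) (nat_lit 27906539703) (nat_lit 243) (nat_lit 5) (nat_lit 251) (nat_lit 5) (nat_lit 244) (nat_lit 5) (nat_lit 489) (nat_lit 462) (nat_lit 249)))) (XT.nd (nat_lit 156) (nat_lit 456) (nat_lit 0) (XT.nd (nat_lit 78) (nat_lit 532) (nat_lit 0) (XT.lf (nat_lit 0) (nat_lit 11831359222) (nat_lit 608) (nat_lit 21892426027) (nat_lit 76) (nat_lit 5852723298) (nat_lit 236) (nat_lit 5) (nat_lit 244) (nat_lit 5) (nat_lit 237) (nat_lit 5) (nat_lit 490) (nat_lit 462) (nat_lit 248)) (XT.lf (nat_lit 0) (nat_lit 24081783) (nat_lit 532) (nat_lit 17201199619) (nat_lit 608) (nat_lit 23023000362) (nat_lit 229) (nat_lit 5) (nat_lit 236) (nat_lit 5) (nat_lit 237) (nat_lit 5) (nat_lit 491) (nat_lit 462) (nat_lit 247))) (XT.nd (nat_lit 78) (nat_lit 456) (nat_lit 0) (XT.lf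 (nat_lit 0) (nat_lit 23000573367) (nat_lit 608) (nat_lit 17889384699) (nat_lit 76) (nat_lit 43663773) (nat_lit 229) (nat_lit 5) (nat_lit 237) (nat_lit 5) (nat_lit 230) (nat_lit 5) (nat_lit 492) (nat_lit 462) (nat_lit 246)) (XT.lf (nat_lit 0) (nat_lit 5041370144) (nat_lit 456) (nat_lit 24124631570) (nat_lit 532) (nat_lit 12467014294) (nat_lit 223) (nat_lit 5) (nat_lit 229) (nat_lit 5) (nat_lit 230) (nat_lit 5) (nat_lit 493) (nat_lit 462) (nat_lit 245))))))) (XT.nd (nat_lit 1170) (nat_lit 3192) (nat_lit 0) (XT.nd (nat_lit 546) (nat_lit 1672) (nat_lit 0) (XT.nd (nat_lit 234) (nat_lit 1292) (nat_lit 0) (XT.nd (nat_lit 78) (nat_lit 532) (nat_lit 0) (XT.lf (nat_lit 0) (nat_lit 29024612490) (nat_lit 456) (nat_lit 6670570551) (nat_lit 532) (nat_lit 6652845468) (nat_lit 223) (nat_lit 5) (nat_lit 229) (nat_lit 5) (nat_lit 230) (nat_lit 5) (nat_lit 494) (nat_lit 462) (nat_lit 244)) (XT.nd (nat_lit 78) (nat_lit 76) (nat_lit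 0) (XT.lf (nat_lit 0) (nat_lit 10741638952) (nat_lit 456) (nat_lit 31888740738) (nat_lit 532) (nat_lit 447807705) (nat_lit 217) (nat_lit 5) (nat_lit 223) (nat_lit 5) (nat_lit 224) (nat_lit 5) (nat_lit 495) (nat_lit 462) (nat_lit 243)) (XT.lf (nat_lit 0) (nat_lit 6027530415) (nat_lit 532) (nat_lit 8151114883) (nat_lit 76) (nat_lit 29643888222) (nat_lit 216) (nat_lit 5) (nat_lit 223) (nat_lit 5) (nat_lit 217) (nat_lit 5) (nat_lit 496) (nat_lit 462) (nat_lit 242)))) (XT.nd (nat_lit 156) (nat_lit 836) (nat_lit 0) (XT.nd (nat_lit 78) (nat_lit 0) (nat_lit 0) (XT.lf (nat_lit 0) (nat_lit 12891357665) (nat_lit 532) (nat_lit 27538140850) (nat_lit 76) (nat_lit 4153481805) (nat_lit 210) (nat_lit 5) (nat_lit 217) (nat_lit 5) (nat_lit 211) (nat_lit 5) (nat_lit 497) (nat_lit 462) (nat_lit 241)) (XT.lf (nat_lit 0) (nat_lit 20182895347) (nat_lit 532) (nat_lit 2343325046) (nat_lit 76) (nat_lit 22833366447) (nat_lit 210) (nat_lit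 5) (nat_lit 217) (nat_lit 5) (nat_lit 211) (nat_lit 5) (nat_lit 498) (nat_lit 462) (nat_lit 240))) (XT.nd (nat_lit 78) (nat_lit 380) (nat_lit 0) (XT.lf (nat_lit 0) (nat_lit 24075069694) (nat_lit 456) (nat_lit 3847871388) (nat_lit 532) (nat_lit 18229657793) (nat_lit 204) (nat_lit 5) (nat_lit 210) (nat_lit 5) (nat_lit 211) (nat_lit 5) (nat_lit 499) (nat_lit 462) (nat_lit 239)) (XT.lf (nat_lit 0) (nat_lit 4298987140) (nat_lit 380) (nat_lit 31807731466) (nat_lit 456) (nat_lit 10856336925) (nat_lit 199) (nat_lit 5) (nat_lit 204) (nat_lit 5) (nat_lit 205) (nat_lit 5) (nat_lit 500) (nat_lit 462) (nat_lit 238))))) (XT.nd (nat_lit 312) (nat_lit 760) (nat_lit 0) (XT.nd (nat_lit 156) (nat_lit 380) (nat_lit 0) (XT.nd (nat_lit 78) (nat_lit 532) (nat_lit 0) (XT.lf (nat_lit 0) (nat_lit 31878449112) (nat_lit 380) (nat_lit 12916614795) (nat_lit 456) (nat_lit 2994990515) (nat_lit 199) (nat_lit 5) (nat_lit 204) (nat_lit 5) (nat_lit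 205) (nat_lit 5) (nat_lit 501) (nat_lit 462) (nat_lit 237)) (XT.lf (nat_lit 0) (nat_lit 5179191130) (nat_lit 532) (nat_lit 36878451065) (nat_lit 76) (nat_lit 6577453166) (nat_lit 192) (nat_lit 5) (nat_lit 199) (nat_lit 5) (nat_lit 193) (nat_lit 5) (nat_lit 502) (nat_lit 462) (nat_lit 236))) (XT.nd (nat_lit 78) (nat_lit 380) (nat_lit 0) (XT.lf (nat_lit 0) (nat_lit 13826999917) (nat_lit 532) (nat_lit 9080740493) (nat_lit 76) (nat_lit 26588199730) (nat_lit 192) (nat_lit 5) (nat_lit 199) (nat_lit 5) (nat_lit 193) (nat_lit 5) (nat_lit 503) (nat_lit 462) (nat_lit 235)) (XT.lf (nat_lit 0) (nat_lit 19937967374) (nat_lit 380) (nat_lit 2986420752) (nat_lit 456) (nat_lit 27452517931) (nat_lit 187) (nat_lit 5) (nat_lit 192) (nat_lit 5) (nat_lit 193) (nat_lit 5) (nat_lit 504) (nat_lit 462) (nat_lit 234)))) (XT.nd (nat_lit 156) (nat_lit 380) (nat_lit 0) (XT.nd (nat_lit 78) (nat_lit 380) (nat_lit 0) (XT.lf (nat_lit 0) (nat_lit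 32554346554) (nat_lit 456) (nat_lit 1439624669) (nat_lit 76) (nat_lit 17282540415) (nat_lit 187) (nat_lit 5) (nat_lit 193) (nat_lit 5) (nat_lit 188) (nat_lit 5) (nat_lit 505) (nat_lit 462) (nat_lit 233)) (XT.lf (nat_lit 0) (nat_lit 28963321669) (nat_lit 380) (nat_lit 13816416680) (nat_lit 456) (nat_lit 9414171140) (nat_lit 182) (nat_lit 5) (nat_lit 187) (nat_lit 5) (nat_lit 188) (nat_lit 5) (nat_lit 506) (nat_lit 462) (nat_lit 232))) (XT.nd (nat_lit 78) (nat_lit 0) (nat_lit 0) (XT.lf (nat_lit 0) (nat_lit 320999270) (nat_lit 380) (nat_lit 45895781629) (nat_lit 76) (nat_lit 6917459191) (nat_lit 177) (nat_lit 5) (nat_lit 182) (nat_lit 5) (nat_lit 178) (nat_lit 5) (nat_lit 507) (nat_lit 462) (nat_lit 231)) (XT.lf (nat_lit 0) (nat_lit 10531291723) (nat_lit 380) (nat_lit 15232276145) (nat_lit 76) (nat_lit 28325248105) (nat_lit 177) (nat_lit 5) (nat_lit 182) (nat_lit 5) (nat_lit 178) (nat_lit 5) (nat_lit 508) (nat_lit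 462) (nat_lit 230)))))) (XT.nd (nat_lit 624) (nat_lit 1520) (nat_lit 0) (XT.nd (nat_lit 312) (nat_lit 684) (nat_lit 0) (XT.nd (nat_lit 156) (nat_lit 608) (nat_lit 0) (XT.nd (nat_lit 78) (nat_lit 0) (nat_lit 0) (XT.lf (nat_lit 0) (nat_lit 16674588580) (nat_lit 380) (nat_lit 4532212316) (nat_lit 456) (nat_lit 33860461124) (nat_lit 172) (nat_lit 5) (nat_lit 177) (nat_lit 5) (nat_lit 178) (nat_lit 5) (nat_lit 509) (nat_lit 462) (nat_lit 229)) (XT.lf (nat_lit 0) (nat_lit 32523197545) (nat_lit 456) (nat_lit 6389652791) (nat_lit 76) (nat_lit 17152592568) (nat_lit 172) (nat_lit 5) (nat_lit 178) (nat_lit 5) (nat_lit 173) (nat_lit 5) (nat_lit 510) (nat_lit 462) (nat_lit 228))) (XT.nd (nat_lit 78) (nat_lit 304) (nat_lit 0) (XT.lf (nat_lit 0) (nat_lit 27054631180) (nat_lit 304) (nat_lit 17428071735) (nat_lit 380) (nat_lit 12601757912) (nat_lit 168) (nat_lit 5) (nat_lit 172) (nat_lit 5) (nat_lit 173) (nat_lit 5) (nat_lit 511)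 (nat_lit 462) (nat_lit 227)) (XT.lf (nat_lit 0) (nat_lit 3522108150) (nat_lit 304) (nat_lit 53421787920) (nat_lit 380) (nat_lit 1185866253) (nat_lit 164) (nat_lit 5) (nat_lit 168) (nat_lit 5) (nat_lit 169) (nat_lit 5) (nat_lit 512) (nat_lit 462) (nat_lit 226)))) (XT.nd (nat_lit 156) (nat_lit 304) (nat_lit 0) (XT.nd (nat_lit 78) (nat_lit 304) (nat_lit 0) (XT.lf (nat_lit 0) (nat_lit 10843694498) (nat_lit 380) (nat_lit 20780236118) (nat_lit 76) (nat_lit 27565118477) (nat_lit 163) (nat_lit 5) (nat_lit 168) (nat_lit 5) (nat_lit 164) (nat_lit 5) (nat_lit 513) (nat_lit 462) (nat_lit 225)) (XT.lf (nat_lit 0) (nat_lit 14327999988) (nat_lit 304) (nat_lit 9018774688) (nat_lit 380) (nat_lit 36928893636) (nat_lit 159) (nat_lit 5) (nat_lit 163) (nat_lit 5) (nat_lit 164) (nat_lit 5) (nat_lit 514) (nat_lit 462) (nat_lit 224))) (XT.nd (nat_lit 78) (nat_lit 304) (nat_lit 0) (XT.lf (nat_lit 0) (nat_lit 36572735223) (nat_lit 380) (nat_lit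 10614197981) (nat_lit 76) (nat_lit 14197519367) (nat_lit 159) (nat_lit 5) (nat_lit 164) (nat_lit 5) (nat_lit 160) (nat_lit 5) (nat_lit 515) (nat_lit 462) (nat_lit 223)) (XT.lf (nat_lit 0) (nat_lit 26199413349) (nat_lit 304) (nat_lit 24335988451) (nat_lit 380) (nat_lit 11980900839) (nat_lit 155) (nat_lit 5) (nat_lit 159) (nat_lit 5) (nat_lit 160) (nat_lit 5) (nat_lit 516) (nat_lit 462) (nat_lit 222))))) (XT.nd (nat_lit 312) (nat_lit 836) (nat_lit 0) (XT.nd (nat_lit 156) (nat_lit 304) (nat_lit 0) (XT.nd (nat_lit 78) (nat_lit 0) (nat_lit 0) (XT.lf (nat_lit 0) (nat_lit 654134642) (nat_lit 304) (nat_lit 669934848) (nat_lit 380) (nat_lit 62354282947) (nat_lit 150) (nat_lit 5) (nat_lit 154) (nat_lit 5) (nat_lit 155) (nat_lit 5) (nat_lit 517) (nat_lit 462) (nat_lit 221)) (XT.lf (nat_lit 0) (nat_lit 15384428260) (nat_lit 380) (nat_lit 25737474807) (nat_lit 76) (nat_lit 23731890760) (nat_lit 150) (nat_lit 5) (nat_lit 155)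 (nat_lit 5) (nat_lit 151) (nat_lit 5) (nat_lit 518) (nat_lit 462) (nat_lit 220))) (XT.nd (nat_lit 78) (nat_lit 0) (nat_lit 0) (XT.lf (nat_lit 0) (nat_lit 12911407284) (nat_lit 304) (nat_lit 17084776338) (nat_lit 380) (nat_lit 36064427349) (nat_lit 146) (nat_lit 5) (nat_lit 150) (nat_lit 5) (nat_lit 151) (nat_lit 5) (nat_lit 519) (nat_lit 462) (nat_lit 219)) (XT.lf (nat_lit 0) (nat_lit 45381376328) (nat_lit 380) (nat_lit 14126611349) (nat_lit 76) (nat_lit 7785592498) (nat_lit 146) (nat_lit 5) (nat_lit 151) (nat_lit 5) (nat_lit 147) (nat_lit 5) (nat_lit 520) (nat_lit 462) (nat_lit 218)))) (XT.nd (nat_lit 156) (nat_lit 532) (nat_lit 0) (XT.nd (nat_lit 78) (nat_lit 76) (nat_lit 0) (XT.lf (nat_lit 0) (nat_lit 26411141959) (nat_lit 228) (nat_lit 35238903935) (nat_lit 304) (nat_lit 6900835010) (nat_lit 143) (nat_lit 5) (nat_lit 146) (nat_lit 5) (nat_lit 147) (nat_lit 5) (nat_lit 521) (nat_lit 462) (nat_lit 217)) (XT.lf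 (nat_lit 0) (nat_lit 8536774660) (nat_lit 304) (nat_lit 1472458575) (nat_lit 76) (nat_lit 59829910130) (nat_lit 142) (nat_lit 5) (nat_lit 146) (nat_lit 5) (nat_lit 143) (nat_lit 5) (nat_lit 522) (nat_lit 462) (nat_lit 216))) (XT.nd (nat_lit 78) (nat_lit 228) (nat_lit 0) (XT.lf (nat_lit 0) (nat_lit 24851442951) (nat_lit 380) (nat_lit 30162576178) (nat_lit 76) (nat_lit 16133405984) (nat_lit 138) (nat_lit 5) (nat_lit 143) (nat_lit 5) (nat_lit 139) (nat_lit 5) (nat_lit 523) (nat_lit 462) (nat_lit 215)) (XT.lf (nat_lit 0) (nat_lit 12392421644) (nat_lit 228) (nat_lit 29495302217) (nat_lit 304) (nat_lit 30600266348) (nat_lit 135) (nat_lit 5) (nat_lit 138) (nat_lit 5) (nat_lit 139) (nat_lit 5) (nat_lit 524) (nat_lit 462) (nat_lit 214))))))))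
noncomputable def xc218 : XT := (XT.nd (nat_lit 58500) (nat_lit 0) (nat_lit 6916) (XT.nd (nat_lit 1170) (nat_lit 380) (nat_lit 0) (XT.nd (nat_lit 546) (nat_lit 1140) (nat_lit 0) (XT.nd (nat_lit 234) (nat_lit 760) (nat_lit 0) (XT.nd (nat_lit 78) (nat_lit 304) (nat_lit 0) (XT.lf (nat_lit 0) (nat_lit 56840688336) (nat_lit 228) (nat_lit 2897934224) (nat_lit 304) (nat_lit 14121043889) (nat_lit 135) (nat_lit 5) (nat_lit 138) (nat_lit 5) (nat_lit 139) (nat_lit 5) (nat_lit 525) (nat_lit 462) (nat_lit 213)) (XT.nd (nat_lit 78) (nat_lit 0) (nat_lit 0) (XT.lf (nat_lit 0) (nat_lit 3302110956) (nat_lit 304) (nat_lit 47637495108) (nat_lit 76) (nat_lit 24316907784) (nat_lit 131) (nat_lit 5) (nat_lit 135) (nat_lit 5) (nat_lit 132) (nat_lit 5) (nat_lit 526) (nat_lit 462) (nat_lit 212)) (XT.lf (nat_lit 0) (nat_lit 21165369070) (nat_lit 304) (nat_lit 2916953653) (nat_lit 76) (nat_lit 52602712812) (nat_lit 131) (nat_lit 5) (nat_lit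 135) (nat_lit 5) (nat_lit 132) (nat_lit 5) (nat_lit 527) (nat_lit 462) (nat_lit 211)))) (XT.nd (nat_lit 156) (nat_lit 304) (nat_lit 0) (XT.nd (nat_lit 78) (nat_lit 228) (nat_lit 0) (XT.lf (nat_lit 0) (nat_lit 40025108053) (nat_lit 304) (nat_lit 34180124863) (nat_lit 76) (nat_lit 3937362527) (nat_lit 128) (nat_lit 5) (nat_lit 132) (nat_lit 5) (nat_lit 129) (nat_lit 5) (nat_lit 528) (nat_lit 462) (nat_lit 210)) (XT.lf (nat_lit 0) (nat_lit 12671996022) (nat_lit 228) (nat_lit 47167652974) (nat_lit 304) (nat_lit 19792562919) (nat_lit 125) (nat_lit 5) (nat_lit 128) (nat_lit 5) (nat_lit 129) (nat_lit 5) (nat_lit 529) (nat_lit 462) (nat_lit 209))) (XT.nd (nat_lit 78) (nat_lit 304) (nat_lit 0) (XT.lf (nat_lit 0) (nat_lit 61628731967) (nat_lit 228) (nat_lit 18964072563) (nat_lit 304) (nat_lit 563387059) (nat_lit 125) (nat_lit 5) (nat_lit 128) (nat_lit 5) (nat_lit 129) (nat_lit 5) (nat_lit 530) (nat_lit 462) (nat_lit 208))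 (XT.lf (nat_lit 0) (nat_lit 19253521918) (nat_lit 304) (nat_lit 53091697612) (nat_lit 76) (nat_lit 10363531468) (nat_lit 121) (nat_lit 5) (nat_lit 125) (nat_lit 5) (nat_lit 122) (nat_lit 5) (nat_lit 531) (nat_lit 462) (nat_lit 207))))) (XT.nd (nat_lit 312) (nat_lit 684) (nat_lit 0) (XT.nd (nat_lit 156) (nat_lit 228) (nat_lit 0) (XT.nd (nat_lit 78) (nat_lit 228) (nat_lit 0) (XT.lf (nat_lit 0) (nat_lit 40039571022) (nat_lit 304) (nat_lit 3862656206) (nat_lit 76) (nat_lit 40393913981) (nat_lit 121) (nat_lit 5) (nat_lit 125) (nat_lit 5) (nat_lit 122) (nat_lit 5) (nat_lit 532) (nat_lit 462) (nat_lit 206)) (XT.lf (nat_lit 0) (nat_lit 47773957947) (nat_lit 228) (nat_lit 14133555642) (nat_lit 304) (nat_lit 24009890230) (nat_lit 118) (nat_lit 5) (nat_lit 121) (nat_lit 5) (nat_lit 122) (nat_lit 5) (nat_lit 533) (nat_lit 462) (nat_lit 205))) (XT.nd (nat_lit 78) (nat_lit 76) (nat_lit 0) (XT.lf (nat_lit 0) (nat_lit 13556440127)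 (nat_lit 152) (nat_lit 71202723184) (nat_lit 228) (nat_lit 2818310982) (nat_lit 116) (nat_lit 5) (nat_lit 118) (nat_lit 5) (nat_lit 119) (nat_lit 5) (nat_lit 534) (nat_lit 462) (nat_lit 204)) (XT.lf (nat_lit 0) (nat_lit 19166093712) (nat_lit 228) (nat_lit 22014591573) (nat_lit 76) (nat_lit 48085339483) (nat_lit 115) (nat_lit 5) (nat_lit 118) (nat_lit 5) (nat_lit 116) (nat_lit 5) (nat_lit 535) (nat_lit 462) (nat_lit 203)))) (XT.nd (nat_lit 156) (nat_lit 456) (nat_lit 0) (XT.nd (nat_lit 78) (nat_lit 0) (nat_lit 0) (XT.lf (nat_lit 0) (nat_lit 32149997844) (nat_lit 228) (nat_lit 9911548055) (nat_lit 304) (nat_lit 48933603963) (nat_lit 112) (nat_lit 5) (nat_lit 115) (nat_lit 5) (nat_lit 116) (nat_lit 5) (nat_lit 536) (nat_lit 462) (nat_lit 202)) (XT.lf (nat_lit 0) (nat_lit 66081807141) (nat_lit 304) (nat_lit 4596707892) (nat_lit 76) (nat_lit 22084495360) (nat_lit 112) (nat_lit 5) (nat_lit 116) (nat_lit 5) (nat_lit 113)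 (nat_lit 5) (nat_lit 537) (nat_lit 462) (nat_lit 201))) (XT.nd (nat_lit 78) (nat_lit 304) (nat_lit 0) (XT.lf (nat_lit 0) (nat_lit 52198163372) (nat_lit 152) (nat_lit 39223553964) (nat_lit 228) (nat_lit 3144218212) (nat_lit 110) (nat_lit 5) (nat_lit 112) (nat_lit 5) (nat_lit 113) (nat_lit 5) (nat_lit 538) (nat_lit 462) (nat_lit 200)) (XT.lf (nat_lit 0) (nat_lit 14446716610) (nat_lit 228) (nat_lit 6425341514) (nat_lit 304) (nat_lit 75539259014) (nat_lit 106) (nat_lit 5) (nat_lit 109) (nat_lit 5) (nat_lit 110) (nat_lit 5) (nat_lit 539) (nat_lit 462) (nat_lit 199)))))) (XT.nd (nat_lit 56706) (nat_lit 0) (nat_lit 14668) (XT.nd (nat_lit 234) (nat_lit 228) (nat_lit 0) (XT.nd (nat_lit 78) (nat_lit 152) (nat_lit 0) (XT.lf (nat_lit 0) (nat_lit 46239818654) (nat_lit 304) (nat_lit 24764898449) (nat_lit 76) (nat_lit 27285583438) (nat_lit 106) (nat_lit 5) (nat_lit 110) (nat_lit 5) (nat_lit 107) (nat_lit 5) (nat_lit 540) (nat_lit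 462) (nat_lit 198)) (XT.nd (nat_lit 78) (nat_lit 0) (nat_lit 0) (XT.lf (nat_lit 0) (nat_lit 34764119789) (nat_lit 152) (nat_lit 38001461820) (nat_lit 228) (nat_lit 27448162790) (nat_lit 104) (nat_lit 5) (nat_lit 106) (nat_lit 5) (nat_lit 107) (nat_lit 5) (nat_lit 541) (nat_lit 462) (nat_lit 197)) (XT.lf (nat_lit 0) (nat_lit 96585247888) (nat_lit 152) (nat_lit 3751135171) (nat_lit 228) (nat_lit 1851030582) (nat_lit 104) (nat_lit 5) (nat_lit 106) (nat_lit 5) (nat_lit 107) (nat_lit 5) (nat_lit 542) (nat_lit 462) (nat_lit 196)))) (XT.nd (nat_lit 56316) (nat_lit 0) (nat_lit 14592) (XT.nd (nat_lit 56238) (nat_lit 0) (nat_lit 14592) (XT.lf (nat_lit 0) (nat_lit 24892756355) (nat_lit 228) (nat_lit 47593348389) (nat_lit 76) (nat_lit 31701406016) (nat_lit 101) (nat_lit 5) (nat_lit 104) (nat_lit 5) (nat_lit 102) (nat_lit 5) (nat_lit 543) (nat_lit 462) (nat_lit 195)) (XT.lf (nat_lit 0) (nat_lit 5425601702) (nat_lit 1292) (nat_lit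 3841381083) (nat_lit 1292) (nat_lit 3841381083) (nat_lit 293) (nat_lit 3) (nat_lit 310) (nat_lit 3) (nat_lit 310) (nat_lit 5) (nat_lit 463) (nat_lit 463) (nat_lit 274))) (XT.nd (nat_lit 78) (nat_lit 0) (nat_lit 76) (XT.lf (nat_lit 76) (nat_lit 5372675196) (nat_lit 0) (nat_lit 5787945352) (nat_lit 1292) (nat_lit 15444945426) (nat_lit 294) (nat_lit 5) (nat_lit 293) (nat_lit 3) (nat_lit 310) (nat_lit 5) (nat_lit 464) (nat_lit 463) (nat_lit 273)) (XT.lf (nat_lit 0) (nat_lit 11624520764) (nat_lit 1216) (nat_lit 8099883387) (nat_lit 1292) (nat_lit 7277309705) (nat_lit 294) (nat_lit 5) (nat_lit 310) (nat_lit 5) (nat_lit 311) (nat_lit 5) (nat_lit 465) (nat_lit 463) (nat_lit 272))))) (XT.nd (nat_lit 312) (nat_lit 0) (nat_lit 152) (XT.nd (nat_lit 156) (nat_lit 0) (nat_lit 76) (XT.nd (nat_lit 78) (nat_lit 0) (nat_lit 76) (XT.lf (nat_lit 76) (nat_lit 5474620754) (nat_lit 0) (nat_lit 6734047713) (nat_lit 1292) (nat_lit 15197888293)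 (nat_lit 295) (nat_lit 5) (nat_lit 294) (nat_lit 5) (nat_lit 311) (nat_lit 5) (nat_lit 466) (nat_lit 463) (nat_lit 271)) (XT.lf (nat_lit 0) (nat_lit 12953327961) (nat_lit 1216) (nat_lit 8265504345) (nat_lit 1292) (nat_lit 6600423510) (nat_lit 295) (nat_lit 5) (nat_lit 311) (nat_lit 5) (nat_lit 312) (nat_lit 5) (nat_lit 467) (nat_lit 463) (nat_lit 270))) (XT.nd (nat_lit 78) (nat_lit 0) (nat_lit 76) (XT.lf (nat_lit 76) (nat_lit 5856471620) (nat_lit 0) (nat_lit 7983426302) (nat_lit 1292) (nat_lit 14400851273) (nat_lit 296) (nat_lit 5) (nat_lit 295) (nat_lit 5) (nat_lit 312) (nat_lit 5) (nat_lit 468) (nat_lit 463) (nat_lit 269)) (XT.lf (nat_lit 0) (nat_lit 14888351538) (nat_lit 1216) (nat_lit 8158118246) (nat_lit 1292) (nat_lit 5624359453) (nat_lit 296) (nat_lit 5) (nat_lit 312) (nat_lit 5) (nat_lit 313) (nat_lit 5) (nat_lit 469) (nat_lit 463) (nat_lit 268)))) (XT.nd (nat_lit 156) (nat_lit 0) (nat_lit 76) (XT.nd (nat_lit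 78) (nat_lit 0) (nat_lit 76) (XT.lf (nat_lit 76) (nat_lit 6541341743) (nat_lit 0) (nat_lit 9565629281) (nat_lit 1292) (nat_lit 13002679733) (nat_lit 297) (nat_lit 5) (nat_lit 296) (nat_lit 5) (nat_lit 313) (nat_lit 5) (nat_lit 470) (nat_lit 463) (nat_lit 267)) (XT.lf (nat_lit 0) (nat_lit 17483741775) (nat_lit 1216) (nat_lit 7754655020) (nat_lit 1292) (nat_lit 4319592778) (nat_lit 297) (nat_lit 5) (nat_lit 313) (nat_lit 5) (nat_lit 314) (nat_lit 5) (nat_lit 471) (nat_lit 463) (nat_lit 266))) (XT.nd (nat_lit 78) (nat_lit 0) (nat_lit 76) (XT.lf (nat_lit 76) (nat_lit 7553998466) (nat_lit 0) (nat_lit 11512104154) (nat_lit 1292) (nat_lit 10948747745) (nat_lit 298) (nat_lit 5) (nat_lit 297) (nat_lit 5) (nat_lit 314) (nat_lit 5) (nat_lit 472) (nat_lit 463) (nat_lit 265)) (XT.lf (nat_lit 0) (nat_lit 20797299878) (nat_lit 1216) (nat_lit 7030395106) (nat_lit 1292) (nat_lit 2654681435) (nat_lit 298) (nat_lit 5) (nat_lit 314)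 (nat_lit 5) (nat_lit 315) (nat_lit 5) (nat_lit 473) (nat_lit 463) (nat_lit 264))))))) (XT.nd (nat_lit 1170) (nat_lit 4484) (nat_lit 0) (XT.nd (nat_lit 546) (nat_lit 2432) (nat_lit 0) (XT.nd (nat_lit 234) (nat_lit 1140) (nat_lit 0) (XT.nd (nat_lit 78) (nat_lit 0) (nat_lit 76) (XT.lf (nat_lit 76) (nat_lit 8920953812) (nat_lit 0) (nat_lit 13856341283) (nat_lit 1292) (nat_lit 8180727693) (nat_lit 299) (nat_lit 5) (nat_lit 298) (nat_lit 5) (nat_lit 315) (nat_lit 5) (nat_lit 474) (nat_lit 463) (nat_lit 263)) (XT.nd (nat_lit 78) (nat_lit 0) (nat_lit 0) (XT.lf (nat_lit 0) (nat_lit 24890718350) (nat_lit 1216) (nat_lit 5958877846) (nat_lit 1292) (nat_lit 596121892) (nat_lit 299) (nat_lit 5) (nat_lit 315) (nat_lit 5) (nat_lit 316) (nat_lit 5) (nat_lit 475) (nat_lit 463) (nat_lit 262)) (XT.lf (nat_lit 76) (nat_lit 10670561433) (nat_lit 0) (nat_lit 16634025421) (nat_lit 1292) (nat_lit 4636346487) (nat_lit 300) (nat_lit 5) (nat_lit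 299) (nat_lit 5) (nat_lit 316) (nat_lit 5) (nat_lit 476) (nat_lit 463) (nat_lit 261)))) (XT.nd (nat_lit 156) (nat_lit 1216) (nat_lit 0) (XT.nd (nat_lit 78) (nat_lit 0) (nat_lit 76) (XT.lf (nat_lit 76) (nat_lit 27918928725) (nat_lit 0) (nat_lit 1929453766) (nat_lit 1292) (nat_lit 2600897590) (nat_lit 300) (nat_lit 5) (nat_lit 299) (nat_lit 5) (nat_lit 316) (nat_lit 5) (nat_lit 477) (nat_lit 463) (nat_lit 260)) (XT.lf (nat_lit 76) (nat_lit 12833119427) (nat_lit 0) (nat_lit 19883195905) (nat_lit 1292) (nat_lit 249127544) (nat_lit 301) (nat_lit 5) (nat_lit 300) (nat_lit 5) (nat_lit 317) (nat_lit 5) (nat_lit 478) (nat_lit 463) (nat_lit 259))) (XT.nd (nat_lit 78) (nat_lit 0) (nat_lit 76) (XT.lf (nat_lit 0) (nat_lit 2193543195) (nat_lit 1292) (nat_lit 2727960811) (nat_lit 1368) (nat_lit 28573077541) (nat_lit 283) (nat_lit 5) (nat_lit 300) (nat_lit 5) (nat_lit 301) (nat_lit 5) (nat_lit 479) (nat_lit 463) (nat_lit 258))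 (XT.lf (nat_lit 0) (nat_lit 4953301936) (nat_lit 1292) (nat_lit 18641095619) (nat_lit 76) (nat_lit 10437658695) (nat_lit 284) (nat_lit 5) (nat_lit 301) (nat_lit 5) (nat_lit 285) (nat_lit 5) (nat_lit 480) (nat_lit 463) (nat_lit 257))))) (XT.nd (nat_lit 312) (nat_lit 1140) (nat_lit 0) (XT.nd (nat_lit 156) (nat_lit 608) (nat_lit 0) (XT.nd (nat_lit 78) (nat_lit 760) (nat_lit 0) (XT.lf (nat_lit 0) (nat_lit 7869981115) (nat_lit 1292) (nat_lit 526610249) (nat_lit 76) (nat_lit 26186840310) (nat_lit 284) (nat_lit 5) (nat_lit 301) (nat_lit 5) (nat_lit 285) (nat_lit 5) (nat_lit 481) (nat_lit 463) (nat_lit 256)) (XT.lf (nat_lit 0) (nat_lit 11121071168) (nat_lit 836) (nat_lit 16727581280) (nat_lit 76) (nat_lit 7295288901) (nat_lit 274) (nat_lit 5) (nat_lit 285) (nat_lit 5) (nat_lit 275) (nat_lit 5) (nat_lit 482) (nat_lit 463) (nat_lit 255))) (XT.nd (nat_lit 78) (nat_lit 0) (nat_lit 0) (XT.lf (nat_lit 0) (nat_lit 2174411462)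 (nat_lit 608) (nat_lit 12402390567) (nat_lit 684) (nat_lit 21141251336) (nat_lit 266) (nat_lit 5) (nat_lit 274) (nat_lit 5) (nat_lit 275) (nat_lit 5) (nat_lit 483) (nat_lit 463) (nat_lit 254)) (XT.lf (nat_lit 0) (nat_lit 18338256194) (nat_lit 684) (nat_lit 14355532398) (nat_lit 76) (nat_lit 3609538895) (nat_lit 266) (nat_lit 5) (nat_lit 275) (nat_lit 5) (nat_lit 267) (nat_lit 5) (nat_lit 484) (nat_lit 463) (nat_lit 253)))) (XT.nd (nat_lit 156) (nat_lit 532) (nat_lit 0) (XT.nd (nat_lit 78) (nat_lit 0) (nat_lit 0) (XT.lf (nat_lit 0) (nat_lit 5388448427) (nat_lit 608) (nat_lit 16996513371) (nat_lit 684) (nat_lit 14516026076) (nat_lit 258) (nat_lit 5) (nat_lit 266) (nat_lit 5) (nat_lit 267) (nat_lit 5) (nat_lit 485) (nat_lit 463) (nat_lit 252)) (XT.lf (nat_lit 0) (nat_lit 26016919784) (nat_lit 608) (nat_lit 678969750) (nat_lit 684) (nat_lit 10816404178) (nat_lit 258) (nat_lit 5) (nat_lit 266) (nat_lit 5) (nat_lit 267)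 (nat_lit 5) (nat_lit 486) (nat_lit 463) (nat_lit 251))) (XT.nd (nat_lit 78) (nat_lit 0) (nat_lit 0) (XT.lf (nat_lit 0) (nat_lit 9143592843) (nat_lit 532) (nat_lit 22233400208) (nat_lit 608) (nat_lit 6757720497) (nat_lit 251) (nat_lit 5) (nat_lit 258) (nat_lit 5) (nat_lit 259) (nat_lit 5) (nat_lit 487) (nat_lit 463) (nat_lit 250)) (XT.lf (nat_lit 0) (nat_lit 30628431913) (nat_lit 532) (nat_lit 5690796559) (nat_lit 608) (nat_lit 2452956798) (nat_lit 251) (nat_lit 5) (nat_lit 258) (nat_lit 5) (nat_lit 259) (nat_lit 5) (nat_lit 488) (nat_lit 463) (nat_lit 249)))))) (XT.nd (nat_lit 624) (nat_lit 1900) (nat_lit 0) (XT.nd (nat_lit 312) (nat_lit 912) (nat_lit 0) (XT.nd (nat_lit 156) (nat_lit 1064) (nat_lit 0) (XT.nd (nat_lit 78) (nat_lit 0) (nat_lit 0) (XT.lf (nat_lit 0) (nat_lit 2181329704) (nat_lit 608) (nat_lit 25962137281) (nat_lit 76) (nat_lit 11277572073) (nat_lit 243) (nat_lit 5) (nat_lit 251) (nat_lit 5) (nat_lit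 244) (nat_lit 5) (nat_lit 489) (nat_lit 463) (nat_lit 248)) (XT.lf (nat_lit 0) (nat_lit 7042776291) (nat_lit 608) (nat_lit 4293862959) (nat_lit 76) (nat_lit 28747867836) (nat_lit 243) (nat_lit 5) (nat_lit 251) (nat_lit 5) (nat_lit 244) (nat_lit 5) (nat_lit 490) (nat_lit 463) (nat_lit 247))) (XT.nd (nat_lit 78) (nat_lit 532) (nat_lit 0) (XT.lf (nat_lit 0) (nat_lit 12284030216) (nat_lit 608) (nat_lit 22440712796) (nat_lit 76) (nat_lit 6036117451) (nat_lit 236) (nat_lit 5) (nat_lit 244) (nat_lit 5) (nat_lit 237) (nat_lit 5) (nat_lit 491) (nat_lit 463) (nat_lit 246)) (XT.lf (nat_lit 0) (nat_lit 132226661) (nat_lit 532) (nat_lit 17705729500) (nat_lit 608) (nat_lit 23614885466) (nat_lit 229) (nat_lit 5) (nat_lit 236) (nat_lit 5) (nat_lit 237) (nat_lit 5) (nat_lit 492) (nat_lit 463) (nat_lit 245)))) (XT.nd (nat_lit 156) (nat_lit 456) (nat_lit 0) (XT.nd (nat_lit 78) (nat_lit 456) (nat_lit 0) (XT.lf (nat_lit 0) (nat_lit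 23783820588) (nat_lit 608) (nat_lit 18319075550) (nat_lit 76) (nat_lit 55926678) (nat_lit 229) (nat_lit 5) (nat_lit 237) (nat_lit 5) (nat_lit 230) (nat_lit 5) (nat_lit 493) (nat_lit 463) (nat_lit 244)) (XT.lf (nat_lit 0) (nat_lit 5298553010) (nat_lit 456) (nat_lit 24833961714) (nat_lit 532) (nat_lit 12746735311) (nat_lit 223) (nat_lit 5) (nat_lit 229) (nat_lit 5) (nat_lit 230) (nat_lit 5) (nat_lit 494) (nat_lit 463) (nat_lit 243))) (XT.nd (nat_lit 78) (nat_lit 456) (nat_lit 0) (XT.lf (nat_lit 0) (nat_lit 29998206944) (nat_lit 456) (nat_lit 6856698539) (nat_lit 532) (nat_lit 6760887714) (nat_lit 223) (nat_lit 5) (nat_lit 229) (nat_lit 5) (nat_lit 230) (nat_lit 5) (nat_lit 495) (nat_lit 463) (nat_lit 242)) (XT.lf (nat_lit 0) (nat_lit 11168252584) (nat_lit 456) (nat_lit 32828450860) (nat_lit 532) (nat_lit 371197339) (nat_lit 217) (nat_lit 5) (nat_lit 223) (nat_lit 5) (nat_lit 224) (nat_lit 5) (nat_lit 496) (nat_lit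 463) (nat_lit 241))))) (XT.nd (nat_lit 312) (nat_lit 912) (nat_lit 0) (XT.nd (nat_lit 156) (nat_lit 456) (nat_lit 0) (XT.nd (nat_lit 78) (nat_lit 456) (nat_lit 0) (XT.lf (nat_lit 0) (nat_lit 6294072350) (nat_lit 532) (nat_lit 8292608393) (nat_lit 76) (nat_lit 30547948005) (nat_lit 216) (nat_lit 5) (nat_lit 223) (nat_lit 5) (nat_lit 217) (nat_lit 5) (nat_lit 497) (nat_lit 463) (nat_lit 240)) (XT.lf (nat_lit 0) (nat_lit 13362469995) (nat_lit 532) (nat_lit 28259891690) (nat_lit 76) (nat_lit 4295567870) (nat_lit 210) (nat_lit 5) (nat_lit 217) (nat_lit 5) (nat_lit 211) (nat_lit 5) (nat_lit 498) (nat_lit 463) (nat_lit 239))) (XT.nd (nat_lit 78) (nat_lit 456) (nat_lit 0) (XT.lf (nat_lit 0) (nat_lit 20870296382) (nat_lit 532) (nat_lit 2312271996) (nat_lit 76) (nat_lit 23535339878) (nat_lit 210) (nat_lit 5) (nat_lit 217) (nat_lit 5) (nat_lit 211) (nat_lit 5) (nat_lit 499) (nat_lit 463) (nat_lit 238)) (XT.lf (nat_lit 0) (nat_lit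 24897680931) (nat_lit 456) (nat_lit 3943441422) (nat_lit 532) (nat_lit 18693631189) (nat_lit 204) (nat_lit 5) (nat_lit 210) (nat_lit 5) (nat_lit 211) (nat_lit 5) (nat_lit 500) (nat_lit 463) (nat_lit 237)))) (XT.nd (nat_lit 156) (nat_lit 532) (nat_lit 0) (XT.nd (nat_lit 78) (nat_lit 0) (nat_lit 0) (XT.lf (nat_lit 0) (nat_lit 4529542436) (nat_lit 380) (nat_lit 32739688216) (nat_lit 456) (nat_lit 11100328970) (nat_lit 199) (nat_lit 5) (nat_lit 204) (nat_lit 5) (nat_lit 205) (nat_lit 5) (nat_lit 501) (nat_lit 463) (nat_lit 236)) (XT.lf (nat_lit 0) (nat_lit 32933429460) (nat_lit 380) (nat_lit 13282486837) (nat_lit 456) (nat_lit 3005521723) (nat_lit 199) (nat_lit 5) (nat_lit 204) (nat_lit 5) (nat_lit 205) (nat_lit 5) (nat_lit 502) (nat_lit 463) (nat_lit 235))) (XT.nd (nat_lit 78) (nat_lit 0) (nat_lit 0) (XT.lf (nat_lit 0) (nat_lit 5411244590) (nat_lit 532) (nat_lit 37883521596) (nat_lit 76) (nat_lit 6797074145) (nat_lit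 192) (nat_lit 5) (nat_lit 199) (nat_lit 5) (nat_lit 193) (nat_lit 5) (nat_lit 503) (nat_lit 463) (nat_lit 234)) (XT.lf (nat_lit 0) (nat_lit 14316254310) (nat_lit 532) (nat_lit 9254829696) (nat_lit 76) (nat_lit 27407493667) (nat_lit 192) (nat_lit 5) (nat_lit 199) (nat_lit 5) (nat_lit 193) (nat_lit 5) (nat_lit 504) (nat_lit 463) (nat_lit 233))))))))
noncomputable def xc219 : XT := (XT.nd (nat_lit 2340) (nat_lit 1064) (nat_lit 0) (XT.nd (nat_lit 1170) (nat_lit 2432) (nat_lit 0) (XT.nd (nat_lit 546) (nat_lit 1672) (nat_lit 0) (XT.nd (nat_lit 234) (nat_lit 760) (nat_lit 0) (XT.nd (nat_lit 78) (nat_lit 380) (nat_lit 0) (XT.lf (nat_lit 0) (nat_lit 20633475357) (nat_lit 380) (nat_lit 3051856494) (nat_lit 456) (nat_lit 28200677899) (nat_lit 187) (nat_lit 5) (nat_lit 192) (nat_lit 5) (nat_lit 193) (nat_lit 5) (nat_lit 505) (nat_lit 463) (nat_lit 232)) (XT.nd (nat_lit 78) (nat_lit 380) (nat_lit 0) (XT.lf (nat_lit 0) (nat_lit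 33602282089) (nat_lit 456) (nat_lit 1386366575) (nat_lit 76) (nat_lit 17824012252) (nat_lit 187) (nat_lit 5) (nat_lit 193) (nat_lit 5) (nat_lit 188) (nat_lit 5) (nat_lit 506) (nat_lit 463) (nat_lit 231)) (XT.lf (nat_lit 0) (nat_lit 29927722596) (nat_lit 380) (nat_lit 14205554210) (nat_lit 456) (nat_lit 9624338863) (nat_lit 182) (nat_lit 5) (nat_lit 187) (nat_lit 5) (nat_lit 188) (nat_lit 5) (nat_lit 507) (nat_lit 463) (nat_lit 230)))) (XT.nd (nat_lit 156) (nat_lit 380) (nat_lit 0) (XT.nd (nat_lit 78) (nat_lit 0) (nat_lit 0) (XT.lf (nat_lit 0) (nat_lit 400588079) (nat_lit 380) (nat_lit 47174842368) (nat_lit 76) (nat_lit 7150731749) (nat_lit 177) (nat_lit 5) (nat_lit 182) (nat_lit 5) (nat_lit 178) (nat_lit 5) (nat_lit 508) (nat_lit 463) (nat_lit 229)) (XT.lf (nat_lit 0) (nat_lit 10915151670) (nat_lit 380) (nat_lit 15594280634) (nat_lit 76) (nat_lit 29200004366) (nat_lit 177) (nat_lit 5) (nat_lit 182) (nat_lit 5) (nat_lit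 178) (nat_lit 5) (nat_lit 509) (nat_lit 463) (nat_lit 228))) (XT.nd (nat_lit 78) (nat_lit 0) (nat_lit 0) (XT.lf (nat_lit 0) (nat_lit 17268859016) (nat_lit 380) (nat_lit 4640992716) (nat_lit 456) (nat_lit 34807416777) (nat_lit 172) (nat_lit 5) (nat_lit 177) (nat_lit 5) (nat_lit 178) (nat_lit 5) (nat_lit 510) (nat_lit 463) (nat_lit 227)) (XT.lf (nat_lit 0) (nat_lit 33564047002) (nat_lit 456) (nat_lit 6488349344) (nat_lit 76) (nat_lit 17693049446) (nat_lit 172) (nat_lit 5) (nat_lit 178) (nat_lit 5) (nat_lit 173) (nat_lit 5) (nat_lit 511) (nat_lit 463) (nat_lit 226))))) (XT.nd (nat_lit 312) (nat_lit 684) (nat_lit 0) (XT.nd (nat_lit 156) (nat_lit 380) (nat_lit 0) (XT.nd (nat_lit 78) (nat_lit 304) (nat_lit 0) (XT.lf (nat_lit 0) (nat_lit 27958351450) (nat_lit 304) (nat_lit 17922973550) (nat_lit 380) (nat_lit 12913739797) (nat_lit 168) (nat_lit 5) (nat_lit 172) (nat_lit 5) (nat_lit 173) (nat_lit 5) (nat_lit 512) (nat_lit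 463) (nat_lit 225)) (XT.lf (nat_lit 0) (nat_lit 3720594959) (nat_lit 304) (nat_lit 54995043840) (nat_lit 380) (nat_lit 1156108157) (nat_lit 164) (nat_lit 5) (nat_lit 168) (nat_lit 5) (nat_lit 169) (nat_lit 5) (nat_lit 513) (nat_lit 463) (nat_lit 224))) (XT.nd (nat_lit 78) (nat_lit 304) (nat_lit 0) (XT.lf (nat_lit 0) (nat_lit 11231198711) (nat_lit 380) (nat_lit 21312280318) (nat_lit 76) (nat_lit 28419370587) (nat_lit 163) (nat_lit 5) (nat_lit 168) (nat_lit 5) (nat_lit 164) (nat_lit 5) (nat_lit 514) (nat_lit 463) (nat_lit 223)) (XT.lf (nat_lit 0) (nat_lit 14848307157) (nat_lit 304) (nat_lit 9260122307) (nat_lit 380) (nat_lit 37973666354) (nat_lit 159) (nat_lit 5) (nat_lit 163) (nat_lit 5) (nat_lit 164) (nat_lit 5) (nat_lit 515) (nat_lit 463) (nat_lit 222)))) (XT.nd (nat_lit 156) (nat_lit 380) (nat_lit 0) (XT.nd (nat_lit 78) (nat_lit 304) (nat_lit 0) (XT.lf (nat_lit 0) (nat_lit 37729657460) (nat_lit 380) (nat_lit 10843275498)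 (nat_lit 76) (nat_lit 14651256132) (nat_lit 159) (nat_lit 5) (nat_lit 164) (nat_lit 5) (nat_lit 160) (nat_lit 5) (nat_lit 516) (nat_lit 463) (nat_lit 221)) (XT.lf (nat_lit 0) (nat_lit 27073868207) (nat_lit 304) (nat_lit 25036446274) (nat_lit 380) (nat_lit 12279707009) (nat_lit 155) (nat_lit 5) (nat_lit 159) (nat_lit 5) (nat_lit 160) (nat_lit 5) (nat_lit 517) (nat_lit 463) (nat_lit 220))) (XT.nd (nat_lit 78) (nat_lit 0) (nat_lit 0) (XT.lf (nat_lit 0) (nat_lit 762539624) (nat_lit 304) (nat_lit 659812090) (nat_lit 380) (nat_lit 64164590051) (nat_lit 150) (nat_lit 5) (nat_lit 154) (nat_lit 5) (nat_lit 155) (nat_lit 5) (nat_lit 518) (nat_lit 463) (nat_lit 219)) (XT.lf (nat_lit 0) (nat_lit 15903097652) (nat_lit 380) (nat_lit 26421976054) (nat_lit 76) (nat_lit 24472615528) (nat_lit 150) (nat_lit 5) (nat_lit 155) (nat_lit 5) (nat_lit 151) (nat_lit 5) (nat_lit 519) (nat_lit 463) (nat_lit 218)))))) (XT.nd (nat_lit 546) (nat_lit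 1292) (nat_lit 0) (XT.nd (nat_lit 234) (nat_lit 608) (nat_lit 0) (XT.nd (nat_lit 78) (nat_lit 228) (nat_lit 0) (XT.lf (nat_lit 0) (nat_lit 13385513451) (nat_lit 304) (nat_lit 17566862082) (nat_lit 380) (nat_lit 37088360391) (nat_lit 146) (nat_lit 5) (nat_lit 150) (nat_lit 5) (nat_lit 151) (nat_lit 5) (nat_lit 520) (nat_lit 463) (nat_lit 217)) (XT.nd (nat_lit 78) (nat_lit 228) (nat_lit 0) (XT.lf (nat_lit 0) (nat_lit 46797768275) (nat_lit 380) (nat_lit 14464813041) (nat_lit 76) (nat_lit 8048153681) (nat_lit 146) (nat_lit 5) (nat_lit 151) (nat_lit 5) (nat_lit 147) (nat_lit 5) (nat_lit 521) (nat_lit 463) (nat_lit 216)) (XT.lf (nat_lit 0) (nat_lit 27288233684) (nat_lit 228) (nat_lit 36265478480) (nat_lit 304) (nat_lit 7052066275) (nat_lit 143) (nat_lit 5) (nat_lit 146) (nat_lit 5) (nat_lit 147) (nat_lit 5) (nat_lit 522) (nat_lit 463) (nat_lit 215)))) (XT.nd (nat_lit 156) (nat_lit 228) (nat_lit 0) (XT.nd (nat_lit 78)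 (nat_lit 304) (nat_lit 0) (XT.lf (nat_lit 0) (nat_lit 8845989597) (nat_lit 304) (nat_lit 1433282784) (nat_lit 76) (nat_lit 61653448215) (nat_lit 142) (nat_lit 5) (nat_lit 146) (nat_lit 5) (nat_lit 143) (nat_lit 5) (nat_lit 523) (nat_lit 463) (nat_lit 214)) (XT.lf (nat_lit 0) (nat_lit 25649634399) (nat_lit 380) (nat_lit 30983636768) (nat_lit 76) (nat_lit 16646993643) (nat_lit 138) (nat_lit 5) (nat_lit 143) (nat_lit 5) (nat_lit 139) (nat_lit 5) (nat_lit 524) (nat_lit 463) (nat_lit 213))) (XT.nd (nat_lit 78) (nat_lit 0) (nat_lit 0) (XT.lf (nat_lit 0) (nat_lit 12847189257) (nat_lit 228) (nat_lit 30349078838) (nat_lit 304) (nat_lit 31464800940) (nat_lit 135) (nat_lit 5) (nat_lit 138) (nat_lit 5) (nat_lit 139) (nat_lit 5) (nat_lit 525) (nat_lit 463) (nat_lit 212)) (XT.lf (nat_lit 0) (nat_lit 58626486620) (nat_lit 228) (nat_lit 2954695119) (nat_lit 304) (nat_lit 14492759285) (nat_lit 135) (nat_lit 5) (nat_lit 138) (nat_lit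 5) (nat_lit 139) (nat_lit 5) (nat_lit 526) (nat_lit 463) (nat_lit 211))))) (XT.nd (nat_lit 312) (nat_lit 532) (nat_lit 0) (XT.nd (nat_lit 156) (nat_lit 456) (nat_lit 0) (XT.nd (nat_lit 78) (nat_lit 0) (nat_lit 0) (XT.lf (nat_lit 0) (nat_lit 3451665291) (nat_lit 304) (nat_lit 48984610902) (nat_lit 76) (nat_lit 25076415132) (nat_lit 131) (nat_lit 5) (nat_lit 135) (nat_lit 5) (nat_lit 132) (nat_lit 5) (nat_lit 527) (nat_lit 463) (nat_lit 210)) (XT.lf (nat_lit 0) (nat_lit 21849350538) (nat_lit 304) (nat_lit 2924841817) (nat_lit 76) (nat_lit 54209920520) (nat_lit 131) (nat_lit 5) (nat_lit 135) (nat_lit 5) (nat_lit 132) (nat_lit 5) (nat_lit 528) (nat_lit 463) (nat_lit 209))) (XT.nd (nat_lit 78) (nat_lit 228) (nat_lit 0) (XT.lf (nat_lit 0) (nat_lit 41274504850) (nat_lit 304) (nat_lit 35125528300) (nat_lit 76) (nat_lit 4085377825) (nat_lit 128) (nat_lit 5) (nat_lit 132) (nat_lit 5) (nat_lit 129) (nat_lit 5) (nat_lit 529)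 (nat_lit 463) (nat_lit 208)) (XT.lf (nat_lit 0) (nat_lit 13131371894) (nat_lit 228) (nat_lit 48551454797) (nat_lit 304) (nat_lit 20336908999) (nat_lit 125) (nat_lit 5) (nat_lit 128) (nat_lit 5) (nat_lit 129) (nat_lit 5) (nat_lit 530) (nat_lit 463) (nat_lit 207)))) (XT.nd (nat_lit 156) (nat_lit 228) (nat_lit 0) (XT.nd (nat_lit 78) (nat_lit 304) (nat_lit 0) (XT.lf (nat_lit 0) (nat_lit 63554502656) (nat_lit 228) (nat_lit 19502676521) (nat_lit 304) (nat_lit 532297595) (nat_lit 125) (nat_lit 5) (nat_lit 128) (nat_lit 5) (nat_lit 129) (nat_lit 5) (nat_lit 531) (nat_lit 463) (nat_lit 206)) (XT.lf (nat_lit 0) (nat_lit 19877847356) (nat_lit 304) (nat_lit 54606263061) (nat_lit 76) (nat_lit 10704498831) (nat_lit 121) (nat_lit 5) (nat_lit 125) (nat_lit 5) (nat_lit 122) (nat_lit 5) (nat_lit 532) (nat_lit 463) (nat_lit 205))) (XT.nd (nat_lit 78) (nat_lit 228) (nat_lit 0) (XT.lf (nat_lit 0) (nat_lit 41286117164) (nat_lit 304)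 (nat_lit 3902627660) (nat_lit 76) (nat_lit 41634917243) (nat_lit 121) (nat_lit 5) (nat_lit 125) (nat_lit 5) (nat_lit 122) (nat_lit 5) (nat_lit 533) (nat_lit 463) (nat_lit 204)) (XT.lf (nat_lit 0) (nat_lit 49282340719) (nat_lit 228) (nat_lit 14527158675) (nat_lit 304) (nat_lit 24684081196) (nat_lit 118) (nat_lit 5) (nat_lit 121) (nat_lit 5) (nat_lit 122) (nat_lit 5) (nat_lit 534) (nat_lit 463) (nat_lit 203))))))) (XT.nd (nat_lit 57408) (nat_lit 0) (nat_lit 12312) (XT.nd (nat_lit 546) (nat_lit 152) (nat_lit 0) (XT.nd (nat_lit 234) (nat_lit 456) (nat_lit 0) (XT.nd (nat_lit 78) (nat_lit 304) (nat_lit 0) (XT.lf (nat_lit 0) (nat_lit 14038603224) (nat_lit 152) (nat_lit 73307800891) (nat_lit 228) (nat_lit 2857057971) (nat_lit 116) (nat_lit 5) (nat_lit 118) (nat_lit 5) (nat_lit 119) (nat_lit 5) (nat_lit 535) (nat_lit 463) (nat_lit 202)) (XT.nd (nat_lit 78) (nat_lit 228) (nat_lit 0) (XT.lf (nat_lit 0) (nat_lit 19784677078)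 (nat_lit 228) (nat_lit 22600887526) (nat_lit 76) (nat_lit 49557130572) (nat_lit 115) (nat_lit 5) (nat_lit 118) (nat_lit 5) (nat_lit 116) (nat_lit 5) (nat_lit 536) (nat_lit 463) (nat_lit 201)) (XT.lf (nat_lit 0) (nat_lit 33187912694) (nat_lit 228) (nat_lit 10178515928) (nat_lit 304) (nat_lit 50357282397) (nat_lit 112) (nat_lit 5) (nat_lit 115) (nat_lit 5) (nat_lit 116) (nat_lit 5) (nat_lit 537) (nat_lit 463) (nat_lit 200)))) (XT.nd (nat_lit 156) (nat_lit 304) (nat_lit 0) (XT.nd (nat_lit 78) (nat_lit 152) (nat_lit 0) (XT.lf (nat_lit 0) (nat_lit 68106327726) (nat_lit 304) (nat_lit 4662360355) (nat_lit 76) (nat_lit 22775948447) (nat_lit 112) (nat_lit 5) (nat_lit 116) (nat_lit 5) (nat_lit 113) (nat_lit 5) (nat_lit 538) (nat_lit 463) (nat_lit 199)) (XT.lf (nat_lit 0) (nat_lit 53835648726) (nat_lit 152) (nat_lit 40370248958) (nat_lit 228) (nat_lit 3195767945) (nat_lit 110) (nat_lit 5) (nat_lit 112) (nat_lit 5) (nat_lit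 113) (nat_lit 5) (nat_lit 539) (nat_lit 463) (nat_lit 198))) (XT.nd (nat_lit 78) (nat_lit 0) (nat_lit 0) (XT.lf (nat_lit 0) (nat_lit 14951785768) (nat_lit 228) (nat_lit 6587843483) (nat_lit 304) (nat_lit 77762783120) (nat_lit 106) (nat_lit 5) (nat_lit 109) (nat_lit 5) (nat_lit 110) (nat_lit 5) (nat_lit 540) (nat_lit 463) (nat_lit 197)) (XT.lf (nat_lit 0) (nat_lit 47667498888) (nat_lit 304) (nat_lit 25437339500) (nat_lit 76) (nat_lit 28132954659) (nat_lit 106) (nat_lit 5) (nat_lit 110) (nat_lit 5) (nat_lit 107) (nat_lit 5) (nat_lit 541) (nat_lit 463) (nat_lit 196))))) (XT.nd (nat_lit 56550) (nat_lit 0) (nat_lit 14440) (XT.nd (nat_lit 56394) (nat_lit 0) (nat_lit 14364) (XT.nd (nat_lit 78) (nat_lit 0) (nat_lit 0) (XT.lf (nat_lit 0) (nat_lit 35876858051) (nat_lit 152) (nat_lit 39111668587) (nat_lit 228) (nat_lit 28230428881) (nat_lit 104) (nat_lit 5) (nat_lit 106) (nat_lit 5) (nat_lit 107) (nat_lit 5) (nat_lit 542)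 (nat_lit 463) (nat_lit 195)) (XT.lf (nat_lit 0) (nat_lit 99550586556) (nat_lit 152) (nat_lit 3834701180) (nat_lit 228) (nat_lit 1866582089) (nat_lit 104) (nat_lit 5) (nat_lit 106) (nat_lit 5) (nat_lit 107) (nat_lit 5) (nat_lit 543) (nat_lit 463) (nat_lit 194))) (XT.nd (nat_lit 78) (nat_lit 0) (nat_lit 0) (XT.lf (nat_lit 0) (nat_lit 5682460172) (nat_lit 1292) (nat_lit 3908159410) (nat_lit 1292) (nat_lit 3908159410) (nat_lit 293) (nat_lit 3) (nat_lit 310) (nat_lit 3) (nat_lit 310) (nat_lit 5) (nat_lit 464) (nat_lit 464) (nat_lit 272)) (XT.lf (nat_lit 76) (nat_lit 5629831407) (nat_lit 0) (nat_lit 6049230180) (nat_lit 1292) (nat_lit 15719137295) (nat_lit 294) (nat_lit 5) (nat_lit 293) (nat_lit 3) (nat_lit 310) (nat_lit 5) (nat_lit 465) (nat_lit 464) (nat_lit 271)))) (XT.nd (nat_lit 156) (nat_lit 0) (nat_lit 76) (XT.nd (nat_lit 78) (nat_lit 0) (nat_lit 0) (XT.lf (nat_lit 0) (nat_lit 12150712611) (nat_lit 1216) (nat_lit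 8243508492) (nat_lit 1292) (nat_lit 7412195822) (nat_lit 294) (nat_lit 5) (nat_lit 310) (nat_lit 5) (nat_lit 311) (nat_lit 5) (nat_lit 466) (nat_lit 464) (nat_lit 270)) (XT.lf (nat_lit 76) (nat_lit 5737256544) (nat_lit 0) (nat_lit 7010905427) (nat_lit 1292) (nat_lit 15475370547) (nat_lit 295) (nat_lit 5) (nat_lit 294) (nat_lit 5) (nat_lit 311) (nat_lit 5) (nat_lit 467) (nat_lit 464) (nat_lit 269))) (XT.nd (nat_lit 78) (nat_lit 0) (nat_lit 0) (XT.lf (nat_lit 0) (nat_lit 13509417196) (nat_lit 1216) (nat_lit 8412170947) (nat_lit 1292) (nat_lit 6727197422) (nat_lit 295) (nat_lit 5) (nat_lit 311) (nat_lit 5) (nat_lit 312) (nat_lit 5) (nat_lit 468) (nat_lit 464) (nat_lit 268)) (XT.lf (nat_lit 76) (nat_lit 6132471174) (nat_lit 0) (nat_lit 8286198946) (nat_lit 1292) (nat_lit 14664371726) (nat_lit 296) (nat_lit 5) (nat_lit 295) (nat_lit 5) (nat_lit 312) (nat_lit 5) (nat_lit 469) (nat_lit 464) (nat_lit 267)))))) (XT.nd (nat_lit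 624) (nat_lit 2280) (nat_lit 0) (XT.nd (nat_lit 312) (nat_lit 0) (nat_lit 152) (XT.nd (nat_lit 156) (nat_lit 0) (nat_lit 76) (XT.nd (nat_lit 78) (nat_lit 0) (nat_lit 0) (XT.lf (nat_lit 0) (nat_lit 15493222542) (nat_lit 1216) (nat_lit 8300101193) (nat_lit 1292) (nat_lit 5732861856) (nat_lit 296) (nat_lit 5) (nat_lit 312) (nat_lit 5) (nat_lit 313) (nat_lit 5) (nat_lit 470) (nat_lit 464) (nat_lit 266)) (XT.lf (nat_lit 76) (nat_lit 6839335139) (nat_lit 0) (nat_lit 9905435225) (nat_lit 1292) (nat_lit 13233510938) (nat_lit 297) (nat_lit 5) (nat_lit 296) (nat_lit 5) (nat_lit 313) (nat_lit 5) (nat_lit 471) (nat_lit 464) (nat_lit 265))) (XT.nd (nat_lit 78) (nat_lit 0) (nat_lit 0) (XT.lf (nat_lit 0) (nat_lit 18157848501) (nat_lit 1216) (nat_lit 7883488823) (nat_lit 1292) (nat_lit 4398883451) (nat_lit 297) (nat_lit 5) (nat_lit 313) (nat_lit 5) (nat_lit 314) (nat_lit 5) (nat_lit 472) (nat_lit 464) (nat_lit 264)) (XT.lf (nat_lit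 76) (nat_lit 7883406563) (nat_lit 0) (nat_lit 11900904550) (nat_lit 1292) (nat_lit 11126577950) (nat_lit 298) (nat_lit 5) (nat_lit 297) (nat_lit 5) (nat_lit 314) (nat_lit 5) (nat_lit 473) (nat_lit 464) (nat_lit 263)))) (XT.nd (nat_lit 156) (nat_lit 0) (nat_lit 76) (XT.nd (nat_lit 78) (nat_lit 0) (nat_lit 0) (XT.lf (nat_lit 0) (nat_lit 21562779912) (nat_lit 1216) (nat_lit 7136828803) (nat_lit 1292) (nat_lit 2692972699) (nat_lit 298) (nat_lit 5) (nat_lit 314) (nat_lit 5) (nat_lit 315) (nat_lit 5) (nat_lit 474) (nat_lit 464) (nat_lit 262)) (XT.lf (nat_lit 76) (nat_lit 9292036288) (nat_lit 0) (nat_lit 14307010023) (nat_lit 1292) (nat_lit 8283545291) (nat_lit 299) (nat_lit 5) (nat_lit 298) (nat_lit 5) (nat_lit 315) (nat_lit 5) (nat_lit 475) (nat_lit 464) (nat_lit 261))) (XT.nd (nat_lit 78) (nat_lit 0) (nat_lit 0) (XT.lf (nat_lit 0) (nat_lit 25771513811) (nat_lit 1216) (nat_lit 6032826738) (nat_lit 1292) (nat_lit 580708515)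 (nat_lit 299) (nat_lit 5) (nat_lit 315) (nat_lit 5) (nat_lit 316) (nat_lit 5) (nat_lit 476) (nat_lit 464) (nat_lit 260)) (XT.lf (nat_lit 76) (nat_lit 11094468097) (nat_lit 0) (nat_lit 17160422899) (nat_lit 1292) (nat_lit 4640317535) (nat_lit 300) (nat_lit 5) (nat_lit 299) (nat_lit 5) (nat_lit 316) (nat_lit 5) (nat_lit 477) (nat_lit 464) (nat_lit 259))))) (XT.nd (nat_lit 312) (nat_lit 1292) (nat_lit 0) (XT.nd (nat_lit 156) (nat_lit 1216) (nat_lit 0) (XT.nd (nat_lit 78) (nat_lit 0) (nat_lit 76) (XT.lf (nat_lit 76) (nat_lit 28857263404) (nat_lit 0) (nat_lit 2013916715) (nat_lit 1292) (nat_lit 2547740686) (nat_lit 300) (nat_lit 5) (nat_lit 299) (nat_lit 5) (nat_lit 316) (nat_lit 5) (nat_lit 478) (nat_lit 464) (nat_lit 258)) (XT.lf (nat_lit 76) (nat_lit 13321944964) (nat_lit 0) (nat_lit 20500246909) (nat_lit 1292) (nat_lit 128465884) (nat_lit 301) (nat_lit 5) (nat_lit 300) (nat_lit 5) (nat_lit 317) (nat_lit 5) (nat_lit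 479) (nat_lit 464) (nat_lit 257))) (XT.nd (nat_lit 78) (nat_lit 0) (nat_lit 76) (XT.lf (nat_lit 0) (nat_lit 2381325317) (nat_lit 1292) (nat_lit 2706548527) (nat_lit 1368) (nat_lit 29407870047) (nat_lit 283) (nat_lit 5) (nat_lit 300) (nat_lit 5) (nat_lit 301) (nat_lit 5) (nat_lit 480) (nat_lit 464) (nat_lit 256)) (XT.lf (nat_lit 0) (nat_lit 5221141888) (nat_lit 1292) (nat_lit 19094327080) (nat_lit 76) (nat_lit 10733956375) (nat_lit 284) (nat_lit 5) (nat_lit 301) (nat_lit 5) (nat_lit 285) (nat_lit 5) (nat_lit 481) (nat_lit 464) (nat_lit 255)))) (XT.nd (nat_lit 156) (nat_lit 608) (nat_lit 0) (XT.nd (nat_lit 78) (nat_lit 760) (nat_lit 0) (XT.lf (nat_lit 0) (nat_lit 8221848407) (nat_lit 1292) (nat_lit 439494569) (nat_lit 76) (nat_lit 26956103694) (nat_lit 284) (nat_lit 5) (nat_lit 301) (nat_lit 5) (nat_lit 285) (nat_lit 5) (nat_lit 482) (nat_lit 464) (nat_lit 254)) (XT.lf (nat_lit 0) (nat_lit 11567968594) (nat_lit 836)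 (nat_lit 17123977678) (nat_lit 76) (nat_lit 7502900874) (nat_lit 274) (nat_lit 5) (nat_lit 285) (nat_lit 5) (nat_lit 275) (nat_lit 5) (nat_lit 483) (nat_lit 464) (nat_lit 253))) (XT.nd (nat_lit 78) (nat_lit 0) (nat_lit 0) (XT.lf (nat_lit 0) (nat_lit 2344041209) (nat_lit 608) (nat_lit 12781034715) (nat_lit 684) (nat_lit 21661175885) (nat_lit 266) (nat_lit 5) (nat_lit 274) (nat_lit 5) (nat_lit 275) (nat_lit 5) (nat_lit 484) (nat_lit 464) (nat_lit 252)) (XT.lf (nat_lit 0) (nat_lit 18996080244) (nat_lit 684) (nat_lit 14681534546) (nat_lit 76) (nat_lit 3711568577) (nat_lit 266) (nat_lit 5) (nat_lit 275) (nat_lit 5) (nat_lit 267) (nat_lit 5) (nat_lit 485) (nat_lit 464) (nat_lit 251))))))))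
noncomputable def xc220 : XT := (XT.nd (nat_lit 2340) (nat_lit 4484) (nat_lit 0) (XT.nd (nat_lit 1170) (nat_lit 3572) (nat_lit 0) (XT.nd (nat_lit 546) (nat_lit 1976) (nat_lit 0) (XT.nd (nat_lit 234) (nat_lit 1140) (nat_lit 0) (XT.nd (nat_lit 78) (nat_lit 532) (nat_lit 0) (XT.lf (nat_lit 0) (nat_lit 5653739587) (nat_lit 608) (nat_lit 17508307453) (nat_lit 684) (nat_lit 14842791122) (nat_lit 258) (nat_lit 5) (nat_lit 266) (nat_lit 5) (nat_lit 267) (nat_lit 5) (nat_lit 486) (nat_lit 464) (nat_lit 250)) (XT.nd (nat_lit 78) (nat_lit 532) (nat_lit 0) (XT.lf (nat_lit 0) (nat_lit 26898046511) (nat_lit 608) (nat_lit 701182222) (nat_lit 684) (nat_lit 11035347045) (nat_lit 258) (nat_lit 5) (nat_lit 266) (nat_lit 5) (nat_lit 267) (nat_lit 5) (nat_lit 487) (nat_lit 464) (nat_lit 249)) (XT.lf (nat_lit 0) (nat_lit 9520607329) (nat_lit 532) (nat_lit 22898143758) (nat_lit 608) (nat_lit 6856977926) (nat_lit 251) (nat_lit 5) (nat_lit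 258) (nat_lit 5) (nat_lit 259) (nat_lit 5) (nat_lit 488) (nat_lit 464) (nat_lit 248)))) (XT.nd (nat_lit 156) (nat_lit 532) (nat_lit 0) (XT.nd (nat_lit 78) (nat_lit 608) (nat_lit 0) (XT.lf (nat_lit 0) (nat_lit 31647000114) (nat_lit 532) (nat_lit 5859327780) (nat_lit 608) (nat_lit 2426085127) (nat_lit 251) (nat_lit 5) (nat_lit 258) (nat_lit 5) (nat_lit 259) (nat_lit 5) (nat_lit 489) (nat_lit 464) (nat_lit 247)) (XT.lf (nat_lit 0) (nat_lit 2343407921) (nat_lit 608) (nat_lit 26637440895) (nat_lit 76) (nat_lit 11619910830) (nat_lit 243) (nat_lit 5) (nat_lit 251) (nat_lit 5) (nat_lit 244) (nat_lit 5) (nat_lit 490) (nat_lit 464) (nat_lit 246))) (XT.nd (nat_lit 78) (nat_lit 532) (nat_lit 0) (XT.lf (nat_lit 0) (nat_lit 7347883197) (nat_lit 608) (nat_lit 4322134669) (nat_lit 76) (nat_lit 29614198623) (nat_lit 243) (nat_lit 5) (nat_lit 251) (nat_lit 5) (nat_lit 244) (nat_lit 5) (nat_lit 491) (nat_lit 464) (nat_lit 245)) (XT.lf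 (nat_lit 0) (nat_lit 12744671225) (nat_lit 608) (nat_lit 23011675709) (nat_lit 76) (nat_lit 6224564961) (nat_lit 236) (nat_lit 5) (nat_lit 244) (nat_lit 5) (nat_lit 237) (nat_lit 5) (nat_lit 492) (nat_lit 464) (nat_lit 244))))) (XT.nd (nat_lit 312) (nat_lit 988) (nat_lit 0) (XT.nd (nat_lit 156) (nat_lit 456) (nat_lit 0) (XT.nd (nat_lit 78) (nat_lit 0) (nat_lit 0) (XT.lf (nat_lit 0) (nat_lit 237449397) (nat_lit 532) (nat_lit 18226055775) (nat_lit 608) (nat_lit 24230198928) (nat_lit 229) (nat_lit 5) (nat_lit 236) (nat_lit 5) (nat_lit 237) (nat_lit 5) (nat_lit 493) (nat_lit 464) (nat_lit 243)) (XT.lf (nat_lit 0) (nat_lit 24585213441) (nat_lit 608) (nat_lit 18767798830) (nat_lit 76) (nat_lit 67928724) (nat_lit 229) (nat_lit 5) (nat_lit 237) (nat_lit 5) (nat_lit 230) (nat_lit 5) (nat_lit 494) (nat_lit 464) (nat_lit 242))) (XT.nd (nat_lit 78) (nat_lit 0) (nat_lit 0) (XT.lf (nat_lit 0) (nat_lit 5557369871) (nat_lit 456)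 (nat_lit 25565398887) (nat_lit 532) (nat_lit 13040260556) (nat_lit 223) (nat_lit 5) (nat_lit 229) (nat_lit 5) (nat_lit 230) (nat_lit 5) (nat_lit 495) (nat_lit 464) (nat_lit 241)) (XT.lf (nat_lit 0) (nat_lit 30995104872) (nat_lit 456) (nat_lit 7049213399) (nat_lit 532) (nat_lit 6877426177) (nat_lit 223) (nat_lit 5) (nat_lit 229) (nat_lit 5) (nat_lit 230) (nat_lit 5) (nat_lit 496) (nat_lit 464) (nat_lit 240)))) (XT.nd (nat_lit 156) (nat_lit 456) (nat_lit 0) (XT.nd (nat_lit 78) (nat_lit 76) (nat_lit 0) (XT.lf (nat_lit 0) (nat_lit 11601673678) (nat_lit 456) (nat_lit 33797325405) (nat_lit 532) (nat_lit 297457590) (nat_lit 217) (nat_lit 5) (nat_lit 223) (nat_lit 5) (nat_lit 224) (nat_lit 5) (nat_lit 497) (nat_lit 464) (nat_lit 239)) (XT.lf (nat_lit 0) (nat_lit 6563690092) (nat_lit 532) (nat_lit 8444261623) (nat_lit 76) (nat_lit 31478283264) (nat_lit 216) (nat_lit 5) (nat_lit 223) (nat_lit 5) (nat_lit 217) (nat_lit 5)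 (nat_lit 498) (nat_lit 464) (nat_lit 238))) (XT.nd (nat_lit 78) (nat_lit 0) (nat_lit 0) (XT.lf (nat_lit 0) (nat_lit 13842872420) (nat_lit 532) (nat_lit 29009287663) (nat_lit 76) (nat_lit 4440913001) (nat_lit 210) (nat_lit 5) (nat_lit 217) (nat_lit 5) (nat_lit 211) (nat_lit 5) (nat_lit 499) (nat_lit 464) (nat_lit 237)) (XT.lf (nat_lit 0) (nat_lit 21573617239) (nat_lit 532) (nat_lit 2286105420) (nat_lit 76) (nat_lit 24257398225) (nat_lit 210) (nat_lit 5) (nat_lit 217) (nat_lit 5) (nat_lit 211) (nat_lit 5) (nat_lit 500) (nat_lit 464) (nat_lit 236)))))) (XT.nd (nat_lit 546) (nat_lit 1824) (nat_lit 0) (XT.nd (nat_lit 234) (nat_lit 912) (nat_lit 0) (XT.nd (nat_lit 78) (nat_lit 380) (nat_lit 0) (XT.lf (nat_lit 0) (nat_lit 25739209479) (nat_lit 456) (nat_lit 4043018953) (nat_lit 532) (nat_lit 19176283524) (nat_lit 204) (nat_lit 5) (nat_lit 210) (nat_lit 5) (nat_lit 211) (nat_lit 5) (nat_lit 501) (nat_lit 464) (nat_lit 235))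 (XT.nd (nat_lit 78) (nat_lit 0) (nat_lit 0) (XT.lf (nat_lit 0) (nat_lit 4761182957) (nat_lit 380) (nat_lit 33700882356) (nat_lit 456) (nat_lit 11356330579) (nat_lit 199) (nat_lit 5) (nat_lit 204) (nat_lit 5) (nat_lit 205) (nat_lit 5) (nat_lit 502) (nat_lit 464) (nat_lit 234)) (XT.lf (nat_lit 0) (nat_lit 34014397633) (nat_lit 380) (nat_lit 13660576484) (nat_lit 456) (nat_lit 3020922074) (nat_lit 199) (nat_lit 5) (nat_lit 204) (nat_lit 5) (nat_lit 205) (nat_lit 5) (nat_lit 503) (nat_lit 464) (nat_lit 233)))) (XT.nd (nat_lit 156) (nat_lit 380) (nat_lit 0) (XT.nd (nat_lit 78) (nat_lit 0) (nat_lit 0) (XT.lf (nat_lit 0) (nat_lit 5645858040) (nat_lit 532) (nat_lit 38924558300) (nat_lit 76) (nat_lit 7022003792) (nat_lit 192) (nat_lit 5) (nat_lit 199) (nat_lit 5) (nat_lit 193) (nat_lit 5) (nat_lit 504) (nat_lit 464) (nat_lit 232)) (XT.lf (nat_lit 0) (nat_lit 14815912921) (nat_lit 532) (nat_lit 9439786293) (nat_lit 76) (nat_lit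 28250123742) (nat_lit 192) (nat_lit 5) (nat_lit 199) (nat_lit 5) (nat_lit 193) (nat_lit 5) (nat_lit 505) (nat_lit 464) (nat_lit 231))) (XT.nd (nat_lit 78) (nat_lit 0) (nat_lit 0) (XT.lf (nat_lit 0) (nat_lit 21344259204) (nat_lit 380) (nat_lit 3120642012) (nat_lit 456) (nat_lit 28975611829) (nat_lit 187) (nat_lit 5) (nat_lit 192) (nat_lit 5) (nat_lit 193) (nat_lit 5) (nat_lit 506) (nat_lit 464) (nat_lit 230)) (XT.lf (nat_lit 0) (nat_lit 34677562483) (nat_lit 456) (nat_lit 1337047180) (nat_lit 76) (nat_lit 18380408201) (nat_lit 187) (nat_lit 5) (nat_lit 193) (nat_lit 5) (nat_lit 188) (nat_lit 5) (nat_lit 507) (nat_lit 464) (nat_lit 229))))) (XT.nd (nat_lit 312) (nat_lit 684) (nat_lit 0) (XT.nd (nat_lit 156) (nat_lit 380) (nat_lit 0) (XT.nd (nat_lit 78) (nat_lit 380) (nat_lit 0) (XT.lf (nat_lit 0) (nat_lit 30915573388) (nat_lit 380) (nat_lit 14607821344) (nat_lit 456) (nat_lit 9844959488) (nat_lit 182) (nat_lit 5)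 (nat_lit 187) (nat_lit 5) (nat_lit 188) (nat_lit 5) (nat_lit 508) (nat_lit 464) (nat_lit 228)) (XT.lf (nat_lit 0) (nat_lit 478548630) (nat_lit 380) (nat_lit 48497889779) (nat_lit 76) (nat_lit 7389524399) (nat_lit 177) (nat_lit 5) (nat_lit 182) (nat_lit 5) (nat_lit 178) (nat_lit 5) (nat_lit 509) (nat_lit 464) (nat_lit 227))) (XT.nd (nat_lit 78) (nat_lit 380) (nat_lit 0) (XT.lf (nat_lit 0) (nat_lit 11306628461) (nat_lit 380) (nat_lit 15972596567) (nat_lit 76) (nat_lit 30099568281) (nat_lit 177) (nat_lit 5) (nat_lit 182) (nat_lit 5) (nat_lit 178) (nat_lit 5) (nat_lit 510) (nat_lit 464) (nat_lit 226)) (XT.lf (nat_lit 0) (nat_lit 17875559698) (nat_lit 380) (nat_lit 4754597114) (nat_lit 456) (nat_lit 35786733841) (nat_lit 172) (nat_lit 5) (nat_lit 177) (nat_lit 5) (nat_lit 178) (nat_lit 5) (nat_lit 511) (nat_lit 464) (nat_lit 225)))) (XT.nd (nat_lit 156) (nat_lit 380) (nat_lit 0) (XT.nd (nat_lit 78) (nat_lit 304) (nat_lit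 0) (XT.lf (nat_lit 0) (nat_lit 34632381864) (nat_lit 456) (nat_lit 6595344974) (nat_lit 76) (nat_lit 18248234463) (nat_lit 172) (nat_lit 5) (nat_lit 178) (nat_lit 5) (nat_lit 173) (nat_lit 5) (nat_lit 512) (nat_lit 464) (nat_lit 224)) (XT.lf (nat_lit 0) (nat_lit 28883897483) (nat_lit 304) (nat_lit 18434326309) (nat_lit 380) (nat_lit 13238873876) (nat_lit 168) (nat_lit 5) (nat_lit 172) (nat_lit 5) (nat_lit 173) (nat_lit 5) (nat_lit 513) (nat_lit 464) (nat_lit 223))) (XT.nd (nat_lit 78) (nat_lit 76) (nat_lit 0) (XT.lf (nat_lit 0) (nat_lit 3919707920) (nat_lit 304) (nat_lit 56617184987) (nat_lit 380) (nat_lit 1129207762) (nat_lit 164) (nat_lit 5) (nat_lit 168) (nat_lit 5) (nat_lit 169) (nat_lit 5) (nat_lit 514) (nat_lit 464) (nat_lit 222)) (XT.lf (nat_lit 0) (nat_lit 11626757897) (nat_lit 380) (nat_lit 21865530448) (nat_lit 76) (nat_lit 29297683212) (nat_lit 163) (nat_lit 5) (nat_lit 168) (nat_lit 5) (nat_lit 164)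 (nat_lit 5) (nat_lit 515) (nat_lit 464) (nat_lit 221))))))) (XT.nd (nat_lit 1170) (nat_lit 1824) (nat_lit 0) (XT.nd (nat_lit 546) (nat_lit 1368) (nat_lit 0) (XT.nd (nat_lit 234) (nat_lit 684) (nat_lit 0) (XT.nd (nat_lit 78) (nat_lit 304) (nat_lit 0) (XT.lf (nat_lit 0) (nat_lit 15379030355) (nat_lit 304) (nat_lit 9510387450) (nat_lit 380) (nat_lit 39053404112) (nat_lit 159) (nat_lit 5) (nat_lit 163) (nat_lit 5) (nat_lit 164) (nat_lit 5) (nat_lit 516) (nat_lit 464) (nat_lit 220)) (XT.nd (nat_lit 78) (nat_lit 304) (nat_lit 0) (XT.lf (nat_lit 0) (nat_lit 38917858033) (nat_lit 380) (nat_lit 11084354306) (nat_lit 76) (nat_lit 15117008525) (nat_lit 159) (nat_lit 5) (nat_lit 164) (nat_lit 5) (nat_lit 160) (nat_lit 5) (nat_lit 517) (nat_lit 464) (nat_lit 219)) (XT.lf (nat_lit 0) (nat_lit 27969478029) (nat_lit 304) (nat_lit 25759618245) (nat_lit 380) (nat_lit 12590957248) (nat_lit 155) (nat_lit 5) (nat_lit 159) (nat_lit 5)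 (nat_lit 160) (nat_lit 5) (nat_lit 518) (nat_lit 464) (nat_lit 218)))) (XT.nd (nat_lit 156) (nat_lit 304) (nat_lit 0) (XT.nd (nat_lit 78) (nat_lit 0) (nat_lit 0) (XT.lf (nat_lit 0) (nat_lit 869100366) (nat_lit 304) (nat_lit 651120447) (nat_lit 380) (nat_lit 66032669063) (nat_lit 150) (nat_lit 5) (nat_lit 154) (nat_lit 5) (nat_lit 155) (nat_lit 5) (nat_lit 519) (nat_lit 464) (nat_lit 217)) (XT.lf (nat_lit 0) (nat_lit 16434047254) (nat_lit 380) (nat_lit 27132042258) (nat_lit 76) (nat_lit 25233910636) (nat_lit 150) (nat_lit 5) (nat_lit 155) (nat_lit 5) (nat_lit 151) (nat_lit 5) (nat_lit 520) (nat_lit 464) (nat_lit 216))) (XT.nd (nat_lit 78) (nat_lit 0) (nat_lit 0) (XT.lf (nat_lit 0) (nat_lit 13868862196) (nat_lit 304) (nat_lit 18065158785) (nat_lit 380) (nat_lit 38146340849) (nat_lit 146) (nat_lit 5) (nat_lit 150) (nat_lit 5) (nat_lit 151) (nat_lit 5) (nat_lit 521) (nat_lit 464) (nat_lit 215)) (XT.lf (nat_lit 0) (nat_lit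 48253497589) (nat_lit 380) (nat_lit 14818074381) (nat_lit 76) (nat_lit 8316927359) (nat_lit 146) (nat_lit 5) (nat_lit 151) (nat_lit 5) (nat_lit 147) (nat_lit 5) (nat_lit 522) (nat_lit 464) (nat_lit 214))))) (XT.nd (nat_lit 312) (nat_lit 532) (nat_lit 0) (XT.nd (nat_lit 156) (nat_lit 532) (nat_lit 0) (XT.nd (nat_lit 78) (nat_lit 76) (nat_lit 0) (XT.lf (nat_lit 0) (nat_lit 28186772736) (nat_lit 228) (nat_lit 37324606401) (nat_lit 304) (nat_lit 7211037269) (nat_lit 143) (nat_lit 5) (nat_lit 146) (nat_lit 5) (nat_lit 147) (nat_lit 5) (nat_lit 523) (nat_lit 464) (nat_lit 213)) (XT.lf (nat_lit 0) (nat_lit 9161432154) (nat_lit 304) (nat_lit 1397716325) (nat_lit 76) (nat_lit 63530048344) (nat_lit 142) (nat_lit 5) (nat_lit 146) (nat_lit 5) (nat_lit 143) (nat_lit 5) (nat_lit 524) (nat_lit 464) (nat_lit 212))) (XT.nd (nat_lit 78) (nat_lit 228) (nat_lit 0) (XT.lf (nat_lit 0) (nat_lit 26468749372) (nat_lit 380) (nat_lit 31834140597)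 (nat_lit 76) (nat_lit 17174290605) (nat_lit 138) (nat_lit 5) (nat_lit 143) (nat_lit 5) (nat_lit 139) (nat_lit 5) (nat_lit 525) (nat_lit 464) (nat_lit 211)) (XT.lf (nat_lit 0) (nat_lit 13310835647) (nat_lit 228) (nat_lit 31230253016) (nat_lit 304) (nat_lit 32358341162) (nat_lit 135) (nat_lit 5) (nat_lit 138) (nat_lit 5) (nat_lit 139) (nat_lit 5) (nat_lit 526) (nat_lit 464) (nat_lit 210)))) (XT.nd (nat_lit 156) (nat_lit 228) (nat_lit 0) (XT.nd (nat_lit 78) (nat_lit 304) (nat_lit 0) (XT.lf (nat_lit 0) (nat_lit 60461233366) (nat_lit 228) (nat_lit 3014891131) (nat_lit 304) (nat_lit 14878606330) (nat_lit 135) (nat_lit 5) (nat_lit 138) (nat_lit 5) (nat_lit 139) (nat_lit 5) (nat_lit 527) (nat_lit 464) (nat_lit 209)) (XT.lf (nat_lit 0) (nat_lit 3602807867) (nat_lit 304) (nat_lit 50376847825) (nat_lit 76) (nat_lit 25856985571) (nat_lit 131) (nat_lit 5) (nat_lit 135) (nat_lit 5) (nat_lit 132) (nat_lit 5) (nat_lit 528) (nat_lit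 464) (nat_lit 208))) (XT.nd (nat_lit 78) (nat_lit 228) (nat_lit 0) (XT.lf (nat_lit 0) (nat_lit 22551037478) (nat_lit 304) (nat_lit 2937537165) (nat_lit 76) (nat_lit 55863672490) (nat_lit 131) (nat_lit 5) (nat_lit 135) (nat_lit 5) (nat_lit 132) (nat_lit 5) (nat_lit 529) (nat_lit 464) (nat_lit 207)) (XT.lf (nat_lit 0) (nat_lit 42558591213) (nat_lit 304) (nat_lit 36103886186) (nat_lit 76) (nat_lit 4236117519) (nat_lit 128) (nat_lit 5) (nat_lit 132) (nat_lit 5) (nat_lit 129) (nat_lit 5) (nat_lit 530) (nat_lit 464) (nat_lit 206)))))) (XT.nd (nat_lit 546) (nat_lit 836) (nat_lit 0) (XT.nd (nat_lit 234) (nat_lit 456) (nat_lit 0) (XT.nd (nat_lit 78) (nat_lit 304) (nat_lit 0) (XT.lf (nat_lit 0) (nat_lit 13599981721) (nat_lit 228) (nat_lit 49978563277) (nat_lit 304) (nat_lit 20900422991) (nat_lit 125) (nat_lit 5) (nat_lit 128) (nat_lit 5) (nat_lit 129) (nat_lit 5) (nat_lit 531) (nat_lit 464) (nat_lit 205)) (XT.nd (nat_lit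 78) (nat_lit 304) (nat_lit 0) (XT.lf (nat_lit 0) (nat_lit 65533631590) (nat_lit 228) (nat_lit 20059178988) (nat_lit 304) (nat_lit 503030331) (nat_lit 125) (nat_lit 5) (nat_lit 128) (nat_lit 5) (nat_lit 129) (nat_lit 5) (nat_lit 532) (nat_lit 464) (nat_lit 204)) (XT.lf (nat_lit 0) (nat_lit 20518220651) (nat_lit 304) (nat_lit 56170753641) (nat_lit 76) (nat_lit 11053969565) (nat_lit 121) (nat_lit 5) (nat_lit 125) (nat_lit 5) (nat_lit 122) (nat_lit 5) (nat_lit 533) (nat_lit 464) (nat_lit 203)))) (XT.nd (nat_lit 156) (nat_lit 228) (nat_lit 0) (XT.nd (nat_lit 78) (nat_lit 228) (nat_lit 0) (XT.lf (nat_lit 0) (nat_lit 42567455896) (nat_lit 304) (nat_lit 3948155701) (nat_lit 76) (nat_lit 42911475216) (nat_lit 121) (nat_lit 5) (nat_lit 125) (nat_lit 5) (nat_lit 122) (nat_lit 5) (nat_lit 534) (nat_lit 464) (nat_lit 202)) (XT.lf (nat_lit 0) (nat_lit 50831660251) (nat_lit 228) (nat_lit 14934315092) (nat_lit 304) (nat_lit 25381144549)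 (nat_lit 118) (nat_lit 5) (nat_lit 121) (nat_lit 5) (nat_lit 122) (nat_lit 5) (nat_lit 535) (nat_lit 464) (nat_lit 201))) (XT.nd (nat_lit 78) (nat_lit 76) (nat_lit 0) (XT.lf (nat_lit 0) (nat_lit 14530898932) (nat_lit 152) (nat_lit 75477810686) (nat_lit 228) (nat_lit 2899596611) (nat_lit 116) (nat_lit 5) (nat_lit 118) (nat_lit 5) (nat_lit 119) (nat_lit 5) (nat_lit 536) (nat_lit 464) (nat_lit 200)) (XT.lf (nat_lit 0) (nat_lit 20419315096) (nat_lit 228) (nat_lit 23209028400) (nat_lit 76) (nat_lit 51071397421) (nat_lit 115) (nat_lit 5) (nat_lit 118) (nat_lit 5) (nat_lit 116) (nat_lit 5) (nat_lit 537) (nat_lit 464) (nat_lit 199))))) (XT.nd (nat_lit 312) (nat_lit 152) (nat_lit 0) (XT.nd (nat_lit 156) (nat_lit 456) (nat_lit 0) (XT.nd (nat_lit 78) (nat_lit 0) (nat_lit 0) (XT.lf (nat_lit 0) (nat_lit 34252750672) (nat_lit 228) (nat_lit 10455236691) (nat_lit 304) (nat_lit 51826215889) (nat_lit 112) (nat_lit 5) (nat_lit 115)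 (nat_lit 5) (nat_lit 116) (nat_lit 5) (nat_lit 538) (nat_lit 464) (nat_lit 198)) (XT.lf (nat_lit 0) (nat_lit 70189169148) (nat_lit 304) (nat_lit 4734129767) (nat_lit 76) (nat_lit 23486485103) (nat_lit 112) (nat_lit 5) (nat_lit 116) (nat_lit 5) (nat_lit 113) (nat_lit 5) (nat_lit 539) (nat_lit 464) (nat_lit 197))) (XT.nd (nat_lit 78) (nat_lit 304) (nat_lit 0) (XT.lf (nat_lit 0) (nat_lit 55518151926) (nat_lit 152) (nat_lit 41553067593) (nat_lit 228) (nat_lit 3251319734) (nat_lit 110) (nat_lit 5) (nat_lit 112) (nat_lit 5) (nat_lit 113) (nat_lit 5) (nat_lit 540) (nat_lit 464) (nat_lit 196)) (XT.lf (nat_lit 0) (nat_lit 15467892985) (nat_lit 228) (nat_lit 6756957459) (nat_lit 304) (nat_lit 80055461445) (nat_lit 106) (nat_lit 5) (nat_lit 109) (nat_lit 5) (nat_lit 110) (nat_lit 5) (nat_lit 541) (nat_lit 464) (nat_lit 195)))) (XT.nd (nat_lit 56472) (nat_lit 0) (nat_lit 14364) (XT.nd (nat_lit 78) (nat_lit 152) (nat_lit 0)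 (XT.lf (nat_lit 0) (nat_lit 49135685485) (nat_lit 304) (nat_lit 26134001109) (nat_lit 76) (nat_lit 29004093566) (nat_lit 106) (nat_lit 5) (nat_lit 110) (nat_lit 5) (nat_lit 107) (nat_lit 5) (nat_lit 542) (nat_lit 464) (nat_lit 194)) (XT.lf (nat_lit 0) (nat_lit 37018970813) (nat_lit 152) (nat_lit 40256894328) (nat_lit 228) (nat_lit 29038526786) (nat_lit 104) (nat_lit 5) (nat_lit 106) (nat_lit 5) (nat_lit 107) (nat_lit 5) (nat_lit 543) (nat_lit 464) (nat_lit 193))) (XT.nd (nat_lit 78) (nat_lit 0) (nat_lit 0) (XT.lf (nat_lit 0) (nat_lit 5941623221) (nat_lit 1292) (nat_lit 3979723066) (nat_lit 1292) (nat_lit 3979723066) (nat_lit 293) (nat_lit 3) (nat_lit 310) (nat_lit 3) (nat_lit 310) (nat_lit 5) (nat_lit 465) (nat_lit 465) (nat_lit 270)) (XT.lf (nat_lit 76) (nat_lit 5889192892) (nat_lit 0) (nat_lit 6313322287) (nat_lit 1292) (nat_lit 16012413276) (nat_lit 294) (nat_lit 5) (nat_lit 293) (nat_lit 3) (nat_lit 310) (nat_lit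 5) (nat_lit 466) (nat_lit 465) (nat_lit 269))))))))
noncomputable def xc221 : XT := (XT.nd (nat_lit 2340) (nat_lit 6688) (nat_lit 0) (XT.nd (nat_lit 1170) (nat_lit 4560) (nat_lit 0) (XT.nd (nat_lit 546) (nat_lit 836) (nat_lit 0) (XT.nd (nat_lit 234) (nat_lit 0) (nat_lit 76) (XT.nd (nat_lit 78) (nat_lit 0) (nat_lit 0) (XT.lf (nat_lit 0) (nat_lit 12682503500) (nat_lit 1216) (nat_lit 8397146675) (nat_lit 1292) (nat_lit 7555917929) (nat_lit 294) (nat_lit 5) (nat_lit 310) (nat_lit 5) (nat_lit 311) (nat_lit 5) (nat_lit 467) (nat_lit 465) (nat_lit 268)) (XT.nd (nat_lit 78) (nat_lit 0) (nat_lit 76) (XT.lf (nat_lit 76) (nat_lit 6002123007) (nat_lit 0) (nat_lit 7291772964) (nat_lit 1292) (nat_lit 15771421281) (nat_lit 295) (nat_lit 5) (nat_lit 294) (nat_lit 5) (nat_lit 311) (nat_lit 5) (nat_lit 468) (nat_lit 465) (nat_lit 267)) (XT.lf (nat_lit 0) (nat_lit 14072574531) (nat_lit 1216) (nat_lit 8569052497) (nat_lit 1292) (nat_lit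 6861863949) (nat_lit 295) (nat_lit 5) (nat_lit 311) (nat_lit 5) (nat_lit 312) (nat_lit 5) (nat_lit 469) (nat_lit 465) (nat_lit 266)))) (XT.nd (nat_lit 156) (nat_lit 0) (nat_lit 76) (XT.nd (nat_lit 78) (nat_lit 0) (nat_lit 76) (XT.lf (nat_lit 76) (nat_lit 6410992774) (nat_lit 0) (nat_lit 8594422822) (nat_lit 1292) (nat_lit 14945470674) (nat_lit 296) (nat_lit 5) (nat_lit 295) (nat_lit 5) (nat_lit 312) (nat_lit 5) (nat_lit 470) (nat_lit 465) (nat_lit 265)) (XT.lf (nat_lit 0) (nat_lit 16107157176) (nat_lit 1216) (nat_lit 8452242508) (nat_lit 1292) (nat_lit 5848076685) (nat_lit 296) (nat_lit 5) (nat_lit 312) (nat_lit 5) (nat_lit 313) (nat_lit 5) (nat_lit 471) (nat_lit 465) (nat_lit 264))) (XT.nd (nat_lit 78) (nat_lit 0) (nat_lit 76) (XT.lf (nat_lit 76) (nat_lit 7140427290) (nat_lit 0) (nat_lit 10252402284) (nat_lit 1292) (nat_lit 13480408634) (nat_lit 297) (nat_lit 5) (nat_lit 296) (nat_lit 5) (nat_lit 313) (nat_lit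 5) (nat_lit 472) (nat_lit 465) (nat_lit 263)) (XT.lf (nat_lit 0) (nat_lit 18843591094) (nat_lit 1216) (nat_lit 8022146520) (nat_lit 1292) (nat_lit 4483440103) (nat_lit 297) (nat_lit 5) (nat_lit 313) (nat_lit 5) (nat_lit 314) (nat_lit 5) (nat_lit 473) (nat_lit 465) (nat_lit 262))))) (XT.nd (nat_lit 312) (nat_lit 1064) (nat_lit 0) (XT.nd (nat_lit 156) (nat_lit 0) (nat_lit 76) (XT.nd (nat_lit 78) (nat_lit 0) (nat_lit 76) (XT.lf (nat_lit 76) (nat_lit 8216796443) (nat_lit 0) (nat_lit 12298875481) (nat_lit 1292) (nat_lit 11318389967) (nat_lit 298) (nat_lit 5) (nat_lit 297) (nat_lit 5) (nat_lit 314) (nat_lit 5) (nat_lit 474) (nat_lit 465) (nat_lit 261)) (XT.lf (nat_lit 0) (nat_lit 22343098165) (nat_lit 1216) (nat_lit 7252452983) (nat_lit 1292) (nat_lit 2734786314) (nat_lit 298) (nat_lit 5) (nat_lit 314) (nat_lit 5) (nat_lit 315) (nat_lit 5) (nat_lit 475) (nat_lit 465) (nat_lit 260))) (XT.nd (nat_lit 78) (nat_lit 0) (nat_lit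 76) (XT.lf (nat_lit 76) (nat_lit 9668312563) (nat_lit 0) (nat_lit 14769190916) (nat_lit 1292) (nat_lit 8397633483) (nat_lit 299) (nat_lit 5) (nat_lit 298) (nat_lit 5) (nat_lit 315) (nat_lit 5) (nat_lit 476) (nat_lit 465) (nat_lit 259)) (XT.lf (nat_lit 0) (nat_lit 26671036745) (nat_lit 1216) (nat_lit 6115011048) (nat_lit 1292) (nat_lit 566744123) (nat_lit 299) (nat_lit 5) (nat_lit 315) (nat_lit 5) (nat_lit 316) (nat_lit 5) (nat_lit 477) (nat_lit 465) (nat_lit 258)))) (XT.nd (nat_lit 156) (nat_lit 1216) (nat_lit 0) (XT.nd (nat_lit 78) (nat_lit 0) (nat_lit 0) (XT.lf (nat_lit 76) (nat_lit 11525134001) (nat_lit 0) (nat_lit 17701040767) (nat_lit 1292) (nat_lit 4652164117) (nat_lit 300) (nat_lit 5) (nat_lit 299) (nat_lit 5) (nat_lit 316) (nat_lit 5) (nat_lit 478) (nat_lit 465) (nat_lit 257)) (XT.lf (nat_lit 76) (nat_lit 29817963695) (nat_lit 0) (nat_lit 2099387789) (nat_lit 1292) (nat_lit 2500519563) (nat_lit 300) (nat_lit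 5) (nat_lit 299) (nat_lit 5) (nat_lit 316) (nat_lit 5) (nat_lit 479) (nat_lit 465) (nat_lit 256))) (XT.nd (nat_lit 78) (nat_lit 1292) (nat_lit 0) (XT.lf (nat_lit 76) (nat_lit 13819474888) (nat_lit 0) (nat_lit 21134629496) (nat_lit 1292) (nat_lit 11539876) (nat_lit 301) (nat_lit 5) (nat_lit 300) (nat_lit 5) (nat_lit 317) (nat_lit 5) (nat_lit 480) (nat_lit 465) (nat_lit 255)) (XT.lf (nat_lit 0) (nat_lit 2567738992) (nat_lit 1292) (nat_lit 2690420910) (nat_lit 1368) (nat_lit 30268992169) (nat_lit 283) (nat_lit 5) (nat_lit 300) (nat_lit 5) (nat_lit 301) (nat_lit 5) (nat_lit 481) (nat_lit 465) (nat_lit 254)))))) (XT.nd (nat_lit 546) (nat_lit 2660) (nat_lit 0) (XT.nd (nat_lit 234) (nat_lit 1216) (nat_lit 0) (XT.nd (nat_lit 78) (nat_lit 760) (nat_lit 0) (XT.lf (nat_lit 0) (nat_lit 5490172124) (nat_lit 1292) (nat_lit 19567240399) (nat_lit 76) (nat_lit 11040109216) (nat_lit 284) (nat_lit 5) (nat_lit 301) (nat_lit 5) (nat_lit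 285) (nat_lit 5) (nat_lit 482) (nat_lit 465) (nat_lit 253)) (XT.nd (nat_lit 78) (nat_lit 760) (nat_lit 0) (XT.lf (nat_lit 0) (nat_lit 8577626169) (nat_lit 1292) (nat_lit 355673102) (nat_lit 76) (nat_lit 27749383066) (nat_lit 284) (nat_lit 5) (nat_lit 301) (nat_lit 5) (nat_lit 285) (nat_lit 5) (nat_lit 483) (nat_lit 465) (nat_lit 252)) (XT.lf (nat_lit 0) (nat_lit 12021771052) (nat_lit 836) (nat_lit 17538318142) (nat_lit 76) (nat_lit 7717386812) (nat_lit 274) (nat_lit 5) (nat_lit 285) (nat_lit 5) (nat_lit 275) (nat_lit 5) (nat_lit 484) (nat_lit 465) (nat_lit 251)))) (XT.nd (nat_lit 156) (nat_lit 608) (nat_lit 0) (XT.nd (nat_lit 78) (nat_lit 0) (nat_lit 0) (XT.lf (nat_lit 0) (nat_lit 2512767009) (nat_lit 608) (nat_lit 13170660903) (nat_lit 684) (nat_lit 22203260203) (nat_lit 266) (nat_lit 5) (nat_lit 274) (nat_lit 5) (nat_lit 275) (nat_lit 5) (nat_lit 485) (nat_lit 465) (nat_lit 250)) (XT.lf (nat_lit 0) (nat_lit 19667457952)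 (nat_lit 684) (nat_lit 15023324890) (nat_lit 76) (nat_lit 3817018297) (nat_lit 266) (nat_lit 5) (nat_lit 275) (nat_lit 5) (nat_lit 267) (nat_lit 5) (nat_lit 486) (nat_lit 465) (nat_lit 249))) (XT.nd (nat_lit 78) (nat_lit 0) (nat_lit 0) (XT.lf (nat_lit 0) (nat_lit 5921040255) (nat_lit 608) (nat_lit 18035346365) (nat_lit 684) (nat_lit 15185599848) (nat_lit 258) (nat_lit 5) (nat_lit 266) (nat_lit 5) (nat_lit 267) (nat_lit 5) (nat_lit 487) (nat_lit 465) (nat_lit 248)) (XT.lf (nat_lit 0) (nat_lit 27799831091) (nat_lit 608) (nat_lit 723955250) (nat_lit 684) (nat_lit 11266917158) (nat_lit 258) (nat_lit 5) (nat_lit 266) (nat_lit 5) (nat_lit 267) (nat_lit 5) (nat_lit 488) (nat_lit 465) (nat_lit 247))))) (XT.nd (nat_lit 312) (nat_lit 1520) (nat_lit 0) (XT.nd (nat_lit 156) (nat_lit 608) (nat_lit 0) (XT.nd (nat_lit 78) (nat_lit 0) (nat_lit 0) (XT.lf (nat_lit 0) (nat_lit 9903036465) (nat_lit 532) (nat_lit 23582959259) (nat_lit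 608) (nat_lit 6965152919) (nat_lit 251) (nat_lit 5) (nat_lit 258) (nat_lit 5) (nat_lit 259) (nat_lit 5) (nat_lit 489) (nat_lit 465) (nat_lit 246)) (XT.lf (nat_lit 0) (nat_lit 32690401298) (nat_lit 532) (nat_lit 6033040806) (nat_lit 608) (nat_lit 2404174142) (nat_lit 251) (nat_lit 5) (nat_lit 258) (nat_lit 5) (nat_lit 259) (nat_lit 5) (nat_lit 490) (nat_lit 465) (nat_lit 245))) (XT.nd (nat_lit 78) (nat_lit 0) (nat_lit 0) (XT.lf (nat_lit 0) (nat_lit 2504801049) (nat_lit 608) (nat_lit 27338948414) (nat_lit 76) (nat_lit 11972289467) (nat_lit 243) (nat_lit 5) (nat_lit 251) (nat_lit 5) (nat_lit 244) (nat_lit 5) (nat_lit 491) (nat_lit 465) (nat_lit 244)) (XT.lf (nat_lit 0) (nat_lit 7656757450) (nat_lit 608) (nat_lit 4357026177) (nat_lit 76) (nat_lit 30506295760) (nat_lit 243) (nat_lit 5) (nat_lit 251) (nat_lit 5) (nat_lit 244) (nat_lit 5) (nat_lit 492) (nat_lit 465) (nat_lit 243)))) (XT.nd (nat_lit 156) (nat_lit 456) (nat_lit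 0) (XT.nd (nat_lit 78) (nat_lit 532) (nat_lit 0) (XT.lf (nat_lit 0) (nat_lit 13213843395) (nat_lit 608) (nat_lit 23605637563) (nat_lit 76) (nat_lit 6418243174) (nat_lit 236) (nat_lit 5) (nat_lit 244) (nat_lit 5) (nat_lit 237) (nat_lit 5) (nat_lit 493) (nat_lit 465) (nat_lit 242)) (XT.lf (nat_lit 0) (nat_lit 340016311) (nat_lit 532) (nat_lit 18762614421) (nat_lit 608) (nat_lit 24869318016) (nat_lit 229) (nat_lit 5) (nat_lit 236) (nat_lit 5) (nat_lit 237) (nat_lit 5) (nat_lit 494) (nat_lit 465) (nat_lit 241))) (XT.nd (nat_lit 78) (nat_lit 456) (nat_lit 0) (XT.lf (nat_lit 0) (nat_lit 25405603509) (nat_lit 608) (nat_lit 19235772953) (nat_lit 76) (nat_lit 79698177) (nat_lit 229) (nat_lit 5) (nat_lit 237) (nat_lit 5) (nat_lit 230) (nat_lit 5) (nat_lit 495) (nat_lit 465) (nat_lit 240)) (XT.lf (nat_lit 0) (nat_lit 5818218851) (nat_lit 456) (nat_lit 26319558819) (nat_lit 532) (nat_lit 13347693452) (nat_lit 223) (nat_lit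 5) (nat_lit 229) (nat_lit 5) (nat_lit 230) (nat_lit 5) (nat_lit 496) (nat_lit 465) (nat_lit 239))))))) (XT.nd (nat_lit 1170) (nat_lit 3192) (nat_lit 0) (XT.nd (nat_lit 546) (nat_lit 1672) (nat_lit 0) (XT.nd (nat_lit 234) (nat_lit 1292) (nat_lit 0) (XT.nd (nat_lit 78) (nat_lit 532) (nat_lit 0) (XT.lf (nat_lit 0) (nat_lit 32016344312) (nat_lit 456) (nat_lit 7248260642) (nat_lit 532) (nat_lit 7002414087) (nat_lit 223) (nat_lit 5) (nat_lit 229) (nat_lit 5) (nat_lit 230) (nat_lit 5) (nat_lit 497) (nat_lit 465) (nat_lit 238)) (XT.nd (nat_lit 78) (nat_lit 76) (nat_lit 0) (XT.lf (nat_lit 0) (nat_lit 12042450363) (nat_lit 456) (nat_lit 34796183445) (nat_lit 532) (nat_lit 226377859) (nat_lit 217) (nat_lit 5) (nat_lit 223) (nat_lit 5) (nat_lit 224) (nat_lit 5) (nat_lit 498) (nat_lit 465) (nat_lit 237)) (XT.lf (nat_lit 0) (nat_lit 6836758371) (nat_lit 532) (nat_lit 8606039823) (nat_lit 76) (nat_lit 32435730847) (nat_lit 216)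 (nat_lit 5) (nat_lit 223) (nat_lit 5) (nat_lit 217) (nat_lit 5) (nat_lit 499) (nat_lit 465) (nat_lit 236)))) (XT.nd (nat_lit 156) (nat_lit 836) (nat_lit 0) (XT.nd (nat_lit 78) (nat_lit 0) (nat_lit 0) (XT.lf (nat_lit 0) (nat_lit 14333121666) (nat_lit 532) (nat_lit 29786814123) (nat_lit 76) (nat_lit 4589672575) (nat_lit 210) (nat_lit 5) (nat_lit 217) (nat_lit 5) (nat_lit 211) (nat_lit 5) (nat_lit 500) (nat_lit 465) (nat_lit 235)) (XT.lf (nat_lit 0) (nat_lit 22293605440) (nat_lit 532) (nat_lit 2264637932) (nat_lit 76) (nat_lit 25000199963) (nat_lit 210) (nat_lit 5) (nat_lit 217) (nat_lit 5) (nat_lit 211) (nat_lit 5) (nat_lit 501) (nat_lit 465) (nat_lit 234))) (XT.nd (nat_lit 78) (nat_lit 380) (nat_lit 0) (XT.lf (nat_lit 0) (nat_lit 26600553565) (nat_lit 456) (nat_lit 4146658742) (nat_lit 532) (nat_lit 19677901937) (nat_lit 204) (nat_lit 5) (nat_lit 210) (nat_lit 5) (nat_lit 211) (nat_lit 5) (nat_lit 502) (nat_lit 465)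 (nat_lit 233)) (XT.lf (nat_lit 0) (nat_lit 4994276008) (nat_lit 380) (nat_lit 34692117605) (nat_lit 456) (nat_lit 11624432826) (nat_lit 199) (nat_lit 5) (nat_lit 204) (nat_lit 5) (nat_lit 205) (nat_lit 5) (nat_lit 503) (nat_lit 465) (nat_lit 232))))) (XT.nd (nat_lit 312) (nat_lit 760) (nat_lit 0) (XT.nd (nat_lit 156) (nat_lit 380) (nat_lit 0) (XT.nd (nat_lit 78) (nat_lit 532) (nat_lit 0) (XT.lf (nat_lit 0) (nat_lit 35122458263) (nat_lit 380) (nat_lit 14051179001) (nat_lit 456) (nat_lit 3041076269) (nat_lit 199) (nat_lit 5) (nat_lit 204) (nat_lit 5) (nat_lit 205) (nat_lit 5) (nat_lit 504) (nat_lit 465) (nat_lit 231)) (XT.lf (nat_lit 0) (nat_lit 5883360948) (nat_lit 532) (nat_lit 40002306414) (nat_lit 76) (nat_lit 7252474842) (nat_lit 192) (nat_lit 5) (nat_lit 199) (nat_lit 5) (nat_lit 193) (nat_lit 5) (nat_lit 505) (nat_lit 465) (nat_lit 230))) (XT.nd (nat_lit 78) (nat_lit 380) (nat_lit 0) (XT.lf (nat_lit 0) (nat_lit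 15326533189) (nat_lit 532) (nat_lit 9635612275) (nat_lit 76) (nat_lit 29116861373) (nat_lit 192) (nat_lit 5) (nat_lit 199) (nat_lit 5) (nat_lit 193) (nat_lit 5) (nat_lit 506) (nat_lit 465) (nat_lit 229)) (XT.lf (nat_lit 0) (nat_lit 22071098042) (nat_lit 380) (nat_lit 3192798197) (nat_lit 456) (nat_lit 29777874427) (nat_lit 187) (nat_lit 5) (nat_lit 192) (nat_lit 5) (nat_lit 193) (nat_lit 5) (nat_lit 507) (nat_lit 465) (nat_lit 228)))) (XT.nd (nat_lit 156) (nat_lit 380) (nat_lit 0) (XT.nd (nat_lit 78) (nat_lit 380) (nat_lit 0) (XT.lf (nat_lit 0) (nat_lit 35781243049) (nat_lit 456) (nat_lit 1291466832) (nat_lit 76) (nat_lit 18952251761) (nat_lit 187) (nat_lit 5) (nat_lit 193) (nat_lit 5) (nat_lit 188) (nat_lit 5) (nat_lit 508) (nat_lit 465) (nat_lit 227)) (XT.lf (nat_lit 0) (nat_lit 31927892237) (nat_lit 380) (nat_lit 15023528421) (nat_lit 456) (nat_lit 10076108498) (nat_lit 182) (nat_lit 5) (nat_lit 187) (nat_lit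 5) (nat_lit 188) (nat_lit 5) (nat_lit 509) (nat_lit 465) (nat_lit 226))) (XT.nd (nat_lit 78) (nat_lit 0) (nat_lit 0) (XT.lf (nat_lit 0) (nat_lit 555062604) (nat_lit 380) (nat_lit 49865921146) (nat_lit 76) (nat_lit 7634087590) (nat_lit 177) (nat_lit 5) (nat_lit 182) (nat_lit 5) (nat_lit 178) (nat_lit 5) (nat_lit 510) (nat_lit 465) (nat_lit 225)) (XT.lf (nat_lit 0) (nat_lit 11706174417) (nat_lit 380) (nat_lit 16367400362) (nat_lit 76) (nat_lit 31024766455) (nat_lit 177) (nat_lit 5) (nat_lit 182) (nat_lit 5) (nat_lit 178) (nat_lit 5) (nat_lit 511) (nat_lit 465) (nat_lit 224)))))) (XT.nd (nat_lit 624) (nat_lit 1520) (nat_lit 0) (XT.nd (nat_lit 312) (nat_lit 684) (nat_lit 0) (XT.nd (nat_lit 156) (nat_lit 608) (nat_lit 0) (XT.nd (nat_lit 78) (nat_lit 0) (nat_lit 0) (XT.lf (nat_lit 0) (nat_lit 18495373395) (nat_lit 380) (nat_lit 4873080646) (nat_lit 456) (nat_lit 36799156255) (nat_lit 172) (nat_lit 5) (nat_lit 177) (nat_lit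 5) (nat_lit 178) (nat_lit 5) (nat_lit 512) (nat_lit 465) (nat_lit 223)) (XT.lf (nat_lit 0) (nat_lit 35729241388) (nat_lit 456) (nat_lit 6710582219) (nat_lit 76) (nat_lit 18818674742) (nat_lit 172) (nat_lit 5) (nat_lit 178) (nat_lit 5) (nat_lit 173) (nat_lit 5) (nat_lit 513) (nat_lit 465) (nat_lit 222))) (XT.nd (nat_lit 78) (nat_lit 304) (nat_lit 0) (XT.lf (nat_lit 0) (nat_lit 29832227481) (nat_lit 304) (nat_lit 18962531471) (nat_lit 380) (nat_lit 13577336995) (nat_lit 168) (nat_lit 5) (nat_lit 172) (nat_lit 5) (nat_lit 173) (nat_lit 5) (nat_lit 514) (nat_lit 465) (nat_lit 221)) (XT.lf (nat_lit 0) (nat_lit 4119771693) (nat_lit 304) (nat_lit 58289581045) (nat_lit 380) (nat_lit 1105035508) (nat_lit 164) (nat_lit 5) (nat_lit 168) (nat_lit 5) (nat_lit 169) (nat_lit 5) (nat_lit 515) (nat_lit 465) (nat_lit 220)))) (XT.nd (nat_lit 156) (nat_lit 304) (nat_lit 0) (XT.nd (nat_lit 78) (nat_lit 304) (nat_lit 0) (XT.lf (nat_lit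 0) (nat_lit 12030818646) (nat_lit 380) (nat_lit 22440321623) (nat_lit 76) (nat_lit 30200868121) (nat_lit 163) (nat_lit 5) (nat_lit 168) (nat_lit 5) (nat_lit 164) (nat_lit 5) (nat_lit 516) (nat_lit 465) (nat_lit 219)) (XT.lf (nat_lit 0) (nat_lit 15920780174) (nat_lit 304) (nat_lit 9769741372) (nat_lit 380) (nat_lit 40168947953) (nat_lit 159) (nat_lit 5) (nat_lit 163) (nat_lit 5) (nat_lit 164) (nat_lit 5) (nat_lit 517) (nat_lit 465) (nat_lit 218))) (XT.nd (nat_lit 78) (nat_lit 304) (nat_lit 0) (XT.lf (nat_lit 0) (nat_lit 40138472150) (nat_lit 380) (nat_lit 11337500020) (nat_lit 76) (nat_lit 15595228658) (nat_lit 159) (nat_lit 5) (nat_lit 164) (nat_lit 5) (nat_lit 160) (nat_lit 5) (nat_lit 518) (nat_lit 465) (nat_lit 217)) (XT.lf (nat_lit 0) (nat_lit 28887169002) (nat_lit 304) (nat_lit 26506088179) (nat_lit 380) (nat_lit 12914825121) (nat_lit 155) (nat_lit 5) (nat_lit 159) (nat_lit 5) (nat_lit 160) (nat_lit 5) (nat_lit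 519) (nat_lit 465) (nat_lit 216))))) (XT.nd (nat_lit 312) (nat_lit 836) (nat_lit 0) (XT.nd (nat_lit 156) (nat_lit 304) (nat_lit 0) (XT.nd (nat_lit 78) (nat_lit 0) (nat_lit 0) (XT.lf (nat_lit 0) (nat_lit 974054095) (nat_lit 304) (nat_lit 643803268) (nat_lit 380) (nat_lit 67960054366) (nat_lit 150) (nat_lit 5) (nat_lit 154) (nat_lit 5) (nat_lit 155) (nat_lit 5) (nat_lit 520) (nat_lit 465) (nat_lit 215)) (XT.lf (nat_lit 0) (nat_lit 16977833751) (nat_lit 380) (nat_lit 27868151628) (nat_lit 76) (nat_lit 26016487990) (nat_lit 150) (nat_lit 5) (nat_lit 155) (nat_lit 5) (nat_lit 151) (nat_lit 5) (nat_lit 521) (nat_lit 465) (nat_lit 214))) (XT.nd (nat_lit 78) (nat_lit 0) (nat_lit 0) (XT.lf (nat_lit 0) (nat_lit 14362016706) (nat_lit 304) (nat_lit 18580052413) (nat_lit 380) (nat_lit 39239199022) (nat_lit 146) (nat_lit 5) (nat_lit 150) (nat_lit 5) (nat_lit 151) (nat_lit 5) (nat_lit 522) (nat_lit 465) (nat_lit 213)) (XT.lf (nat_lit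 0) (nat_lit 49749925464) (nat_lit 380) (nat_lit 15186565098) (nat_lit 76) (nat_lit 8592195447) (nat_lit 146) (nat_lit 5) (nat_lit 151) (nat_lit 5) (nat_lit 147) (nat_lit 5) (nat_lit 523) (nat_lit 465) (nat_lit 212)))) (XT.nd (nat_lit 156) (nat_lit 532) (nat_lit 0) (XT.nd (nat_lit 78) (nat_lit 76) (nat_lit 0) (XT.lf (nat_lit 0) (nat_lit 29107681829) (nat_lit 228) (nat_lit 38417163489) (nat_lit 304) (nat_lit 7377796331) (nat_lit 143) (nat_lit 5) (nat_lit 146) (nat_lit 5) (nat_lit 147) (nat_lit 5) (nat_lit 524) (nat_lit 465) (nat_lit 211)) (XT.lf (nat_lit 0) (nat_lit 9483464174) (nat_lit 304) (nat_lit 1365592821) (nat_lit 76) (nat_lit 65461396757) (nat_lit 142) (nat_lit 5) (nat_lit 146) (nat_lit 5) (nat_lit 143) (nat_lit 5) (nat_lit 525) (nat_lit 465) (nat_lit 210))) (XT.nd (nat_lit 78) (nat_lit 228) (nat_lit 0) (XT.lf (nat_lit 0) (nat_lit 27309589061) (nat_lit 380) (nat_lit 32714694767) (nat_lit 76) (nat_lit 17715805639)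 (nat_lit 138) (nat_lit 5) (nat_lit 143) (nat_lit 5) (nat_lit 139) (nat_lit 5) (nat_lit 526) (nat_lit 465) (nat_lit 209)) (XT.lf (nat_lit 0) (nat_lit 13783900666) (nat_lit 228) (nat_lit 32139544256) (nat_lit 304) (nat_lit 33281580976) (nat_lit 135) (nat_lit 5) (nat_lit 138) (nat_lit 5) (nat_lit 139) (nat_lit 5) (nat_lit 527) (nat_lit 465) (nat_lit 208))))))))
noncomputable def xc222 : XT := (XT.nd (nat_lit 58890) (nat_lit 0) (nat_lit 5396) (XT.nd (nat_lit 57720) (nat_lit 0) (nat_lit 13452) (XT.nd (nat_lit 546) (nat_lit 1140) (nat_lit 0) (XT.nd (nat_lit 234) (nat_lit 760) (nat_lit 0) (XT.nd (nat_lit 78) (nat_lit 304) (nat_lit 0) (XT.lf (nat_lit 0) (nat_lit 62346662552) (nat_lit 228) (nat_lit 3078525874) (nat_lit 304) (nat_lit 15278837897) (nat_lit 135) (nat_lit 5) (nat_lit 138) (nat_lit 5) (nat_lit 139) (nat_lit 5) (nat_lit 528) (nat_lit 465) (nat_lit 207)) (XT.nd (nat_lit 78) (nat_lit 0) (nat_lit 0) (XT.lf (nat_lit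 0) (nat_lit 3755752708) (nat_lit 304) (nat_lit 51815289273) (nat_lit 76) (nat_lit 26659349851) (nat_lit 131) (nat_lit 5) (nat_lit 135) (nat_lit 5) (nat_lit 132) (nat_lit 5) (nat_lit 529) (nat_lit 465) (nat_lit 206)) (XT.lf (nat_lit 0) (nat_lit 23271122588) (nat_lit 304) (nat_lit 2954921545) (nat_lit 76) (nat_lit 57565461027) (nat_lit 131) (nat_lit 5) (nat_lit 135) (nat_lit 5) (nat_lit 132) (nat_lit 5) (nat_lit 530) (nat_lit 465) (nat_lit 205)))) (XT.nd (nat_lit 156) (nat_lit 304) (nat_lit 0) (XT.nd (nat_lit 78) (nat_lit 228) (nat_lit 0) (XT.lf (nat_lit 0) (nat_lit 43878568119) (nat_lit 304) (nat_lit 37115923533) (nat_lit 76) (nat_lit 4389761852) (nat_lit 128) (nat_lit 5) (nat_lit 132) (nat_lit 5) (nat_lit 129) (nat_lit 5) (nat_lit 531) (nat_lit 465) (nat_lit 204)) (XT.lf (nat_lit 0) (nat_lit 14078363555) (nat_lit 228) (nat_lit 51450174710) (nat_lit 304) (nat_lit 21483517047) (nat_lit 125) (nat_lit 5) (nat_lit 128)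 (nat_lit 5) (nat_lit 129) (nat_lit 5) (nat_lit 532) (nat_lit 465) (nat_lit 203))) (XT.nd (nat_lit 78) (nat_lit 304) (nat_lit 0) (XT.lf (nat_lit 0) (nat_lit 67567972948) (nat_lit 228) (nat_lit 20634017012) (nat_lit 304) (nat_lit 475481791) (nat_lit 125) (nat_lit 5) (nat_lit 128) (nat_lit 5) (nat_lit 129) (nat_lit 5) (nat_lit 533) (nat_lit 465) (nat_lit 202)) (XT.lf (nat_lit 0) (nat_lit 21175277191) (nat_lit 304) (nat_lit 57786409465) (nat_lit 76) (nat_lit 11412297833) (nat_lit 121) (nat_lit 5) (nat_lit 125) (nat_lit 5) (nat_lit 122) (nat_lit 5) (nat_lit 534) (nat_lit 465) (nat_lit 201))))) (XT.nd (nat_lit 312) (nat_lit 684) (nat_lit 0) (XT.nd (nat_lit 156) (nat_lit 228) (nat_lit 0) (XT.nd (nat_lit 78) (nat_lit 228) (nat_lit 0) (XT.lf (nat_lit 0) (nat_lit 43884780466) (nat_lit 304) (nat_lit 3999156891) (nat_lit 76) (nat_lit 44224750716) (nat_lit 121) (nat_lit 5) (nat_lit 125) (nat_lit 5) (nat_lit 122) (nat_lit 5)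 (nat_lit 535) (nat_lit 465) (nat_lit 200)) (XT.lf (nat_lit 0) (nat_lit 52423392329) (nat_lit 228) (nat_lit 15355331307) (nat_lit 304) (nat_lit 26101614531) (nat_lit 118) (nat_lit 5) (nat_lit 121) (nat_lit 5) (nat_lit 122) (nat_lit 5) (nat_lit 536) (nat_lit 465) (nat_lit 199))) (XT.nd (nat_lit 78) (nat_lit 76) (nat_lit 0) (XT.lf (nat_lit 0) (nat_lit 15033879923) (nat_lit 152) (nat_lit 77714598365) (nat_lit 228) (nat_lit 2945889724) (nat_lit 116) (nat_lit 5) (nat_lit 118) (nat_lit 5) (nat_lit 119) (nat_lit 5) (nat_lit 537) (nat_lit 465) (nat_lit 198)) (XT.lf (nat_lit 0) (nat_lit 21070633077) (nat_lit 228) (nat_lit 23839425228) (nat_lit 76) (nat_lit 52629510624) (nat_lit 115) (nat_lit 5) (nat_lit 118) (nat_lit 5) (nat_lit 116) (nat_lit 5) (nat_lit 538) (nat_lit 465) (nat_lit 197)))) (XT.nd (nat_lit 234) (nat_lit 304) (nat_lit 0) (XT.nd (nat_lit 156) (nat_lit 152) (nat_lit 0) (XT.lf (nat_lit 0) (nat_lit 35345561393)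 (nat_lit 228) (nat_lit 10741902827) (nat_lit 304) (nat_lit 53341616014) (nat_lit 112) (nat_lit 5) (nat_lit 115) (nat_lit 5) (nat_lit 116) (nat_lit 5) (nat_lit 539) (nat_lit 465) (nat_lit 196)) (XT.lf (nat_lit 0) (nat_lit 57247259249) (nat_lit 152) (nat_lit 42772994681) (nat_lit 228) (nat_lit 3310852681) (nat_lit 110) (nat_lit 5) (nat_lit 112) (nat_lit 5) (nat_lit 113) (nat_lit 5) (nat_lit 541) (nat_lit 465) (nat_lit 194))) (XT.nd (nat_lit 56550) (nat_lit 0) (nat_lit 14212) (XT.lf (nat_lit 0) (nat_lit 15995605562) (nat_lit 228) (nat_lit 6932782095) (nat_lit 304) (nat_lit 82419228061) (nat_lit 106) (nat_lit 5) (nat_lit 109) (nat_lit 5) (nat_lit 110) (nat_lit 5) (nat_lit 542) (nat_lit 465) (nat_lit 193)) (XT.lf (nat_lit 0) (nat_lit 6203470036) (nat_lit 1292) (nat_lit 4056055916) (nat_lit 1292) (nat_lit 4056055916) (nat_lit 293) (nat_lit 3) (nat_lit 310) (nat_lit 3) (nat_lit 310) (nat_lit 5) (nat_lit 466) (nat_lit 466)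 (nat_lit 268)))))) (XT.nd (nat_lit 546) (nat_lit 760) (nat_lit 0) (XT.nd (nat_lit 234) (nat_lit 0) (nat_lit 152) (XT.nd (nat_lit 78) (nat_lit 0) (nat_lit 76) (XT.lf (nat_lit 76) (nat_lit 6151142071) (nat_lit 0) (nat_lit 6580594706) (nat_lit 1292) (nat_lit 16324722580) (nat_lit 294) (nat_lit 5) (nat_lit 293) (nat_lit 3) (nat_lit 310) (nat_lit 5) (nat_lit 467) (nat_lit 466) (nat_lit 267)) (XT.nd (nat_lit 78) (nat_lit 0) (nat_lit 0) (XT.lf (nat_lit 0) (nat_lit 13220646162) (nat_lit 1216) (nat_lit 8560770877) (nat_lit 1292) (nat_lit 7708466172) (nat_lit 294) (nat_lit 5) (nat_lit 310) (nat_lit 5) (nat_lit 311) (nat_lit 5) (nat_lit 468) (nat_lit 466) (nat_lit 266)) (XT.lf (nat_lit 76) (nat_lit 6269611306) (nat_lit 0) (nat_lit 7577017221) (nat_lit 1292) (nat_lit 16086009502) (nat_lit 295) (nat_lit 5) (nat_lit 294) (nat_lit 5) (nat_lit 311) (nat_lit 5) (nat_lit 469) (nat_lit 466) (nat_lit 265)))) (XT.nd (nat_lit 156) (nat_lit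 0) (nat_lit 76) (XT.nd (nat_lit 78) (nat_lit 0) (nat_lit 0) (XT.lf (nat_lit 0) (nat_lit 14643563926) (nat_lit 1216) (nat_lit 8736121642) (nat_lit 1292) (nat_lit 7004425122) (nat_lit 295) (nat_lit 5) (nat_lit 311) (nat_lit 5) (nat_lit 312) (nat_lit 5) (nat_lit 470) (nat_lit 466) (nat_lit 264)) (XT.lf (nat_lit 76) (nat_lit 6692442610) (nat_lit 0) (nat_lit 8908469954) (nat_lit 1292) (nat_lit 15244120208) (nat_lit 296) (nat_lit 5) (nat_lit 295) (nat_lit 5) (nat_lit 312) (nat_lit 5) (nat_lit 471) (nat_lit 466) (nat_lit 263))) (XT.nd (nat_lit 78) (nat_lit 0) (nat_lit 0) (XT.lf (nat_lit 0) (nat_lit 16730948719) (nat_lit 1216) (nat_lit 8614508320) (nat_lit 1292) (nat_lit 5970006849) (nat_lit 296) (nat_lit 5) (nat_lit 312) (nat_lit 5) (nat_lit 313) (nat_lit 5) (nat_lit 472) (nat_lit 466) (nat_lit 262)) (XT.lf (nat_lit 76) (nat_lit 7445046458) (nat_lit 0) (nat_lit 10606919401) (nat_lit 1292) (nat_lit 13743330054) (nat_lit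 297) (nat_lit 5) (nat_lit 296) (nat_lit 5) (nat_lit 313) (nat_lit 5) (nat_lit 473) (nat_lit 466) (nat_lit 261))))) (XT.nd (nat_lit 312) (nat_lit 1064) (nat_lit 0) (XT.nd (nat_lit 156) (nat_lit 0) (nat_lit 76) (XT.nd (nat_lit 78) (nat_lit 0) (nat_lit 0) (XT.lf (nat_lit 0) (nat_lit 19541811579) (nat_lit 1216) (nat_lit 8170580765) (nat_lit 1292) (nat_lit 4573254975) (nat_lit 297) (nat_lit 5) (nat_lit 313) (nat_lit 5) (nat_lit 314) (nat_lit 5) (nat_lit 474) (nat_lit 466) (nat_lit 260)) (XT.lf (nat_lit 76) (nat_lit 8554626271) (nat_lit 0) (nat_lit 12706435198) (nat_lit 1292) (nat_lit 11524106883) (nat_lit 298) (nat_lit 5) (nat_lit 297) (nat_lit 5) (nat_lit 314) (nat_lit 5) (nat_lit 475) (nat_lit 466) (nat_lit 259))) (XT.nd (nat_lit 78) (nat_lit 0) (nat_lit 0) (XT.lf (nat_lit 0) (nat_lit 23139166259) (nat_lit 1216) (nat_lit 7377199084) (nat_lit 1292) (nat_lit 2780091694) (nat_lit 298) (nat_lit 5) (nat_lit 314) (nat_lit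 5) (nat_lit 315) (nat_lit 5) (nat_lit 476) (nat_lit 466) (nat_lit 258)) (XT.lf (nat_lit 76) (nat_lit 10050279356) (nat_lit 0) (nat_lit 15243344589) (nat_lit 1292) (nat_lit 8522860474) (nat_lit 299) (nat_lit 5) (nat_lit 298) (nat_lit 5) (nat_lit 315) (nat_lit 5) (nat_lit 477) (nat_lit 466) (nat_lit 257)))) (XT.nd (nat_lit 156) (nat_lit 1216) (nat_lit 0) (XT.nd (nat_lit 78) (nat_lit 0) (nat_lit 0) (XT.lf (nat_lit 0) (nat_lit 27590290780) (nat_lit 1216) (nat_lit 6205332439) (nat_lit 1292) (nat_lit 554162463) (nat_lit 299) (nat_lit 5) (nat_lit 315) (nat_lit 5) (nat_lit 316) (nat_lit 5) (nat_lit 478) (nat_lit 466) (nat_lit 256)) (XT.lf (nat_lit 76) (nat_lit 11963103932) (nat_lit 0) (nat_lit 18256395847) (nat_lit 1292) (nat_lit 4671677251) (nat_lit 300) (nat_lit 5) (nat_lit 299) (nat_lit 5) (nat_lit 316) (nat_lit 5) (nat_lit 479) (nat_lit 466) (nat_lit 255))) (XT.nd (nat_lit 78) (nat_lit 1216) (nat_lit 0) (XT.lf (nat_lit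 76) (nat_lit 30802032617) (nat_lit 0) (nat_lit 2185984818) (nat_lit 1292) (nat_lit 2458980014) (nat_lit 300) (nat_lit 5) (nat_lit 299) (nat_lit 5) (nat_lit 316) (nat_lit 5) (nat_lit 480) (nat_lit 466) (nat_lit 254)) (XT.lf (nat_lit 0) (nat_lit 99971027) (nat_lit 1292) (nat_lit 21685950806) (nat_lit 1368) (nat_lit 14225331942) (nat_lit 283) (nat_lit 5) (nat_lit 300) (nat_lit 5) (nat_lit 301) (nat_lit 5) (nat_lit 481) (nat_lit 466) (nat_lit 253))))))) (XT.nd (nat_lit 1170) (nat_lit 3952) (nat_lit 0) (XT.nd (nat_lit 546) (nat_lit 2204) (nat_lit 0) (XT.nd (nat_lit 234) (nat_lit 1900) (nat_lit 0) (XT.nd (nat_lit 78) (nat_lit 0) (nat_lit 76) (XT.lf (nat_lit 0) (nat_lit 2753145103) (nat_lit 1292) (nat_lit 2679396265) (nat_lit 1368) (nat_lit 31157159984) (nat_lit 283) (nat_lit 5) (nat_lit 300) (nat_lit 5) (nat_lit 301) (nat_lit 5) (nat_lit 482) (nat_lit 466) (nat_lit 252)) (XT.nd (nat_lit 78) (nat_lit 0) (nat_lit 0) (XT.lf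 (nat_lit 0) (nat_lit 5760821278) (nat_lit 1292) (nat_lit 20060076733) (nat_lit 76) (nat_lit 11356357407) (nat_lit 284) (nat_lit 5) (nat_lit 301) (nat_lit 5) (nat_lit 285) (nat_lit 5) (nat_lit 483) (nat_lit 466) (nat_lit 251)) (XT.lf (nat_lit 0) (nat_lit 8937813197) (nat_lit 1292) (nat_lit 274905550) (nat_lit 76) (nat_lit 28567345058) (nat_lit 284) (nat_lit 5) (nat_lit 301) (nat_lit 5) (nat_lit 285) (nat_lit 5) (nat_lit 484) (nat_lit 466) (nat_lit 250)))) (XT.nd (nat_lit 156) (nat_lit 608) (nat_lit 0) (XT.nd (nat_lit 78) (nat_lit 608) (nat_lit 0) (XT.lf (nat_lit 0) (nat_lit 12483058927) (nat_lit 836) (nat_lit 17970793572) (nat_lit 76) (nat_lit 7938915874) (nat_lit 274) (nat_lit 5) (nat_lit 285) (nat_lit 5) (nat_lit 275) (nat_lit 5) (nat_lit 485) (nat_lit 466) (nat_lit 249)) (XT.lf (nat_lit 0) (nat_lit 2680905760) (nat_lit 608) (nat_lit 13571620250) (nat_lit 684) (nat_lit 22767792397) (nat_lit 266) (nat_lit 5) (nat_lit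 274) (nat_lit 5) (nat_lit 275) (nat_lit 5) (nat_lit 486) (nat_lit 466) (nat_lit 248))) (XT.nd (nat_lit 78) (nat_lit 608) (nat_lit 0) (XT.lf (nat_lit 0) (nat_lit 20353150746) (nat_lit 684) (nat_lit 15381032184) (nat_lit 76) (nat_lit 3925970041) (nat_lit 266) (nat_lit 5) (nat_lit 275) (nat_lit 5) (nat_lit 267) (nat_lit 5) (nat_lit 487) (nat_lit 466) (nat_lit 247)) (XT.lf (nat_lit 0) (nat_lit 6190752224) (nat_lit 608) (nat_lit 18578093709) (nat_lit 684) (nat_lit 15544575320) (nat_lit 258) (nat_lit 5) (nat_lit 266) (nat_lit 5) (nat_lit 267) (nat_lit 5) (nat_lit 488) (nat_lit 466) (nat_lit 246))))) (XT.nd (nat_lit 312) (nat_lit 1064) (nat_lit 0) (XT.nd (nat_lit 156) (nat_lit 608) (nat_lit 0) (XT.nd (nat_lit 78) (nat_lit 532) (nat_lit 0) (XT.lf (nat_lit 0) (nat_lit 28723224821) (nat_lit 608) (nat_lit 747311726) (nat_lit 684) (nat_lit 11511145524) (nat_lit 258) (nat_lit 5) (nat_lit 266) (nat_lit 5) (nat_lit 267) (nat_lit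 5) (nat_lit 489) (nat_lit 466) (nat_lit 245)) (XT.lf (nat_lit 0) (nat_lit 10291381132) (nat_lit 532) (nat_lit 24288441428) (nat_lit 608) (nat_lit 7082172032) (nat_lit 251) (nat_lit 5) (nat_lit 258) (nat_lit 5) (nat_lit 259) (nat_lit 5) (nat_lit 490) (nat_lit 466) (nat_lit 244))) (XT.nd (nat_lit 78) (nat_lit 608) (nat_lit 0) (XT.lf (nat_lit 0) (nat_lit 33759709039) (nat_lit 532) (nat_lit 6212083866) (nat_lit 608) (nat_lit 2387041624) (nat_lit 251) (nat_lit 5) (nat_lit 258) (nat_lit 5) (nat_lit 259) (nat_lit 5) (nat_lit 491) (nat_lit 466) (nat_lit 243)) (XT.lf (nat_lit 0) (nat_lit 2665806981) (nat_lit 608) (nat_lit 28067104699) (nat_lit 76) (nat_lit 12335022401) (nat_lit 243) (nat_lit 5) (nat_lit 251) (nat_lit 5) (nat_lit 244) (nat_lit 5) (nat_lit 492) (nat_lit 466) (nat_lit 242)))) (XT.nd (nat_lit 156) (nat_lit 532) (nat_lit 0) (XT.nd (nat_lit 78) (nat_lit 532) (nat_lit 0) (XT.lf (nat_lit 0) (nat_lit 7969821242)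 (nat_lit 608) (nat_lit 4398404761) (nat_lit 76) (nat_lit 31424945069) (nat_lit 243) (nat_lit 5) (nat_lit 251) (nat_lit 5) (nat_lit 244) (nat_lit 5) (nat_lit 493) (nat_lit 466) (nat_lit 241)) (XT.lf (nat_lit 0) (nat_lit 13692106215) (nat_lit 608) (nat_lit 24222951363) (nat_lit 76) (nat_lit 6617333276) (nat_lit 236) (nat_lit 5) (nat_lit 244) (nat_lit 5) (nat_lit 237) (nat_lit 5) (nat_lit 494) (nat_lit 466) (nat_lit 240))) (XT.nd (nat_lit 78) (nat_lit 0) (nat_lit 0) (XT.lf (nat_lit 0) (nat_lit 440181389) (nat_lit 532) (nat_lit 19315856670) (nat_lit 608) (nat_lit 25532650002) (nat_lit 229) (nat_lit 5) (nat_lit 236) (nat_lit 5) (nat_lit 237) (nat_lit 5) (nat_lit 495) (nat_lit 466) (nat_lit 239)) (XT.lf (nat_lit 0) (nat_lit 26245850287) (nat_lit 608) (nat_lit 19723243123) (nat_lit 76) (nat_lit 91262081) (nat_lit 229) (nat_lit 5) (nat_lit 237) (nat_lit 5) (nat_lit 230) (nat_lit 5) (nat_lit 496) (nat_lit 466) (nat_lit 238))))))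 (XT.nd (nat_lit 624) (nat_lit 1672) (nat_lit 0) (XT.nd (nat_lit 312) (nat_lit 1292) (nat_lit 0) (XT.nd (nat_lit 156) (nat_lit 532) (nat_lit 0) (XT.nd (nat_lit 78) (nat_lit 0) (nat_lit 0) (XT.lf (nat_lit 0) (nat_lit 6081489974) (nat_lit 456) (nat_lit 27097078438) (nat_lit 532) (nat_lit 13669158357) (nat_lit 223) (nat_lit 5) (nat_lit 229) (nat_lit 5) (nat_lit 230) (nat_lit 5) (nat_lit 497) (nat_lit 466) (nat_lit 237)) (XT.lf (nat_lit 0) (nat_lit 33062974989) (nat_lit 456) (nat_lit 7453992786) (nat_lit 532) (nat_lit 7135820589) (nat_lit 223) (nat_lit 5) (nat_lit 229) (nat_lit 5) (nat_lit 230) (nat_lit 5) (nat_lit 498) (nat_lit 466) (nat_lit 236))) (XT.nd (nat_lit 78) (nat_lit 76) (nat_lit 0) (XT.lf (nat_lit 0) (nat_lit 12491127469) (nat_lit 456) (nat_lit 35825871832) (nat_lit 532) (nat_lit 157758262) (nat_lit 217) (nat_lit 5) (nat_lit 223) (nat_lit 5) (nat_lit 224) (nat_lit 5) (nat_lit 499) (nat_lit 466) (nat_lit 235))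 (XT.lf (nat_lit 0) (nat_lit 7113646941) (nat_lit 532) (nat_lit 8777926694) (nat_lit 76) (nat_lit 33421149917) (nat_lit 216) (nat_lit 5) (nat_lit 223) (nat_lit 5) (nat_lit 217) (nat_lit 5) (nat_lit 500) (nat_lit 466) (nat_lit 234)))) (XT.nd (nat_lit 156) (nat_lit 836) (nat_lit 0) (XT.nd (nat_lit 78) (nat_lit 0) (nat_lit 0) (XT.lf (nat_lit 0) (nat_lit 14833775203) (nat_lit 532) (nat_lit 30592990730) (nat_lit 76) (nat_lit 4742003326) (nat_lit 210) (nat_lit 5) (nat_lit 217) (nat_lit 5) (nat_lit 211) (nat_lit 5) (nat_lit 501) (nat_lit 466) (nat_lit 233)) (XT.lf (nat_lit 0) (nat_lit 23031015434) (nat_lit 532) (nat_lit 2247695695) (nat_lit 76) (nat_lit 25764420111) (nat_lit 210) (nat_lit 5) (nat_lit 217) (nat_lit 5) (nat_lit 211) (nat_lit 5) (nat_lit 502) (nat_lit 466) (nat_lit 232))) (XT.nd (nat_lit 78) (nat_lit 380) (nat_lit 0) (XT.lf (nat_lit 0) (nat_lit 27482619377) (nat_lit 456) (nat_lit 4254420952) (nat_lit 532)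 (nat_lit 20198797868) (nat_lit 204) (nat_lit 5) (nat_lit 210) (nat_lit 5) (nat_lit 211) (nat_lit 5) (nat_lit 503) (nat_lit 466) (nat_lit 231)) (XT.lf (nat_lit 0) (nat_lit 5229180697) (nat_lit 380) (nat_lit 35714226010) (nat_lit 456) (nat_lit 11904744969) (nat_lit 199) (nat_lit 5) (nat_lit 204) (nat_lit 5) (nat_lit 205) (nat_lit 5) (nat_lit 504) (nat_lit 466) (nat_lit 230))))) (XT.nd (nat_lit 312) (nat_lit 760) (nat_lit 0) (XT.nd (nat_lit 156) (nat_lit 380) (nat_lit 0) (XT.nd (nat_lit 78) (nat_lit 532) (nat_lit 0) (XT.lf (nat_lit 0) (nat_lit 36258730467) (nat_lit 380) (nat_lit 14454602600) (nat_lit 456) (nat_lit 3065880556) (nat_lit 199) (nat_lit 5) (nat_lit 204) (nat_lit 5) (nat_lit 205) (nat_lit 5) (nat_lit 505) (nat_lit 466) (nat_lit 229)) (XT.lf (nat_lit 0) (nat_lit 6124078165) (nat_lit 532) (nat_lit 41117552687) (nat_lit 76) (nat_lit 7488722795) (nat_lit 192) (nat_lit 5) (nat_lit 199) (nat_lit 5) (nat_lit 193)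 (nat_lit 5) (nat_lit 506) (nat_lit 466) (nat_lit 228))) (XT.nd (nat_lit 78) (nat_lit 380) (nat_lit 0) (XT.lf (nat_lit 0) (nat_lit 15848675194) (nat_lit 532) (nat_lit 9842328294) (nat_lit 76) (nat_lit 30008497028) (nat_lit 192) (nat_lit 5) (nat_lit 199) (nat_lit 5) (nat_lit 193) (nat_lit 5) (nat_lit 507) (nat_lit 466) (nat_lit 227)) (XT.lf (nat_lit 0) (nat_lit 22814775956) (nat_lit 380) (nat_lit 3268351135) (nat_lit 456) (nat_lit 30608051307) (nat_lit 187) (nat_lit 5) (nat_lit 192) (nat_lit 5) (nat_lit 193) (nat_lit 5) (nat_lit 508) (nat_lit 466) (nat_lit 226)))) (XT.nd (nat_lit 156) (nat_lit 380) (nat_lit 0) (XT.nd (nat_lit 78) (nat_lit 380) (nat_lit 0) (XT.lf (nat_lit 0) (nat_lit 36914397271) (nat_lit 456) (nat_lit 1249438132) (nat_lit 76) (nat_lit 19540077788) (nat_lit 187) (nat_lit 5) (nat_lit 193) (nat_lit 5) (nat_lit 188) (nat_lit 5) (nat_lit 509) (nat_lit 466) (nat_lit 225)) (XT.lf (nat_lit 0) (nat_lit 32965709821)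 (nat_lit 380) (nat_lit 15452999884) (nat_lit 456) (nat_lit 10317877308) (nat_lit 182) (nat_lit 5) (nat_lit 187) (nat_lit 5) (nat_lit 188) (nat_lit 5) (nat_lit 510) (nat_lit 466) (nat_lit 224))) (XT.nd (nat_lit 78) (nat_lit 0) (nat_lit 0) (XT.lf (nat_lit 0) (nat_lit 630303902) (nat_lit 380) (nat_lit 51279982176) (nat_lit 76) (nat_lit 7884674418) (nat_lit 177) (nat_lit 5) (nat_lit 182) (nat_lit 5) (nat_lit 178) (nat_lit 5) (nat_lit 511) (nat_lit 466) (nat_lit 223)) (XT.lf (nat_lit 0) (nat_lit 12114242582) (nat_lit 380) (nat_lit 16778891689) (nat_lit 76) (nat_lit 31976445566) (nat_lit 177) (nat_lit 5) (nat_lit 182) (nat_lit 5) (nat_lit 178) (nat_lit 5) (nat_lit 512) (nat_lit 466) (nat_lit 222))))))))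
noncomputable def xc223 : XT := (XT.nd (nat_lit 58968) (nat_lit 0) (nat_lit 8588) (XT.nd (nat_lit 1170) (nat_lit 2128) (nat_lit 0) (XT.nd (nat_lit 546) (nat_lit 1596) (nat_lit 0) (XT.nd (nat_lit 234) (nat_lit 684) (nat_lit 0) (XT.nd (nat_lit 78) (nat_lit 304) (nat_lit 0) (XT.lf (nat_lit 0) (nat_lit 19128985568) (nat_lit 380) (nat_lit 4996505244) (nat_lit 456) (nat_lit 37845463301) (nat_lit 172) (nat_lit 5) (nat_lit 177) (nat_lit 5) (nat_lit 178) (nat_lit 5) (nat_lit 513) (nat_lit 466) (nat_lit 221)) (XT.nd (nat_lit 78) (nat_lit 304) (nat_lit 0) (XT.lf (nat_lit 0) (nat_lit 36855683687) (nat_lit 456) (nat_lit 6834019486) (nat_lit 76) (nat_lit 19404908324) (nat_lit 172) (nat_lit 5) (nat_lit 178) (nat_lit 5) (nat_lit 173) (nat_lit 5) (nat_lit 514) (nat_lit 466) (nat_lit 220)) (XT.lf (nat_lit 0) (nat_lit 30804310973) (nat_lit 304) (nat_lit 19508007822) (nat_lit 380) (nat_lit 13929323807) (nat_lit 168) (nat_lit 5) (nat_lit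 172) (nat_lit 5) (nat_lit 173) (nat_lit 5) (nat_lit 515) (nat_lit 466) (nat_lit 219)))) (XT.nd (nat_lit 156) (nat_lit 304) (nat_lit 0) (XT.nd (nat_lit 78) (nat_lit 76) (nat_lit 0) (XT.lf (nat_lit 0) (nat_lit 4321103118) (nat_lit 304) (nat_lit 60013648351) (nat_lit 380) (nat_lit 1083470307) (nat_lit 164) (nat_lit 5) (nat_lit 168) (nat_lit 5) (nat_lit 169) (nat_lit 5) (nat_lit 516) (nat_lit 466) (nat_lit 218)) (XT.lf (nat_lit 0) (nat_lit 12443829180) (nat_lit 380) (nat_lit 23037016295) (nat_lit 76) (nat_lit 31129756276) (nat_lit 163) (nat_lit 5) (nat_lit 168) (nat_lit 5) (nat_lit 164) (nat_lit 5) (nat_lit 517) (nat_lit 466) (nat_lit 217))) (XT.nd (nat_lit 78) (nat_lit 0) (nat_lit 0) (XT.lf (nat_lit 0) (nat_lit 16474168409) (nat_lit 304) (nat_lit 10038365990) (nat_lit 380) (nat_lit 41321176084) (nat_lit 159) (nat_lit 5) (nat_lit 163) (nat_lit 5) (nat_lit 164) (nat_lit 5) (nat_lit 518) (nat_lit 466) (nat_lit 216)) (XT.lf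 (nat_lit 0) (nat_lit 41392657775) (nat_lit 380) (nat_lit 11602797123) (nat_lit 76) (nat_lit 16086376947) (nat_lit 159) (nat_lit 5) (nat_lit 164) (nat_lit 5) (nat_lit 160) (nat_lit 5) (nat_lit 519) (nat_lit 466) (nat_lit 215))))) (XT.nd (nat_lit 312) (nat_lit 608) (nat_lit 0) (XT.nd (nat_lit 156) (nat_lit 304) (nat_lit 0) (XT.nd (nat_lit 78) (nat_lit 380) (nat_lit 0) (XT.lf (nat_lit 0) (nat_lit 29827878362) (nat_lit 304) (nat_lit 27276463008) (nat_lit 380) (nat_lit 13251500862) (nat_lit 155) (nat_lit 5) (nat_lit 159) (nat_lit 5) (nat_lit 160) (nat_lit 5) (nat_lit 520) (nat_lit 466) (nat_lit 214)) (XT.lf (nat_lit 0) (nat_lit 1077628359) (nat_lit 304) (nat_lit 637807919) (nat_lit 380) (nat_lit 69948337788) (nat_lit 150) (nat_lit 5) (nat_lit 154) (nat_lit 5) (nat_lit 155) (nat_lit 5) (nat_lit 521) (nat_lit 466) (nat_lit 213))) (XT.nd (nat_lit 78) (nat_lit 304) (nat_lit 0) (XT.lf (nat_lit 0) (nat_lit 17535019720) (nat_lit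 380) (nat_lit 28630813297) (nat_lit 76) (nat_lit 26821075415) (nat_lit 150) (nat_lit 5) (nat_lit 155) (nat_lit 5) (nat_lit 151) (nat_lit 5) (nat_lit 522) (nat_lit 466) (nat_lit 212)) (XT.lf (nat_lit 0) (nat_lit 14865540647) (nat_lit 304) (nat_lit 19111946270) (nat_lit 380) (nat_lit 40367801092) (nat_lit 146) (nat_lit 5) (nat_lit 150) (nat_lit 5) (nat_lit 151) (nat_lit 5) (nat_lit 523) (nat_lit 466) (nat_lit 211)))) (XT.nd (nat_lit 156) (nat_lit 380) (nat_lit 0) (XT.nd (nat_lit 78) (nat_lit 228) (nat_lit 0) (XT.lf (nat_lit 0) (nat_lit 51288443539) (nat_lit 380) (nat_lit 15570476205) (nat_lit 76) (nat_lit 8874242833) (nat_lit 146) (nat_lit 5) (nat_lit 151) (nat_lit 5) (nat_lit 147) (nat_lit 5) (nat_lit 524) (nat_lit 466) (nat_lit 210)) (XT.lf (nat_lit 0) (nat_lit 30051895327) (nat_lit 228) (nat_lit 39544057596) (nat_lit 304) (nat_lit 7552403803) (nat_lit 143) (nat_lit 5) (nat_lit 146) (nat_lit 5) (nat_lit 147) (nat_lit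 5) (nat_lit 525) (nat_lit 466) (nat_lit 209))) (XT.nd (nat_lit 78) (nat_lit 304) (nat_lit 0) (XT.lf (nat_lit 0) (nat_lit 9812448309) (nat_lit 304) (nat_lit 1336756671) (nat_lit 76) (nat_lit 67449224863) (nat_lit 142) (nat_lit 5) (nat_lit 146) (nat_lit 5) (nat_lit 143) (nat_lit 5) (nat_lit 526) (nat_lit 466) (nat_lit 208)) (XT.lf (nat_lit 0) (nat_lit 28172968739) (nat_lit 380) (nat_lit 33625940447) (nat_lit 76) (nat_lit 18272057182) (nat_lit 138) (nat_lit 5) (nat_lit 143) (nat_lit 5) (nat_lit 139) (nat_lit 5) (nat_lit 527) (nat_lit 466) (nat_lit 207)))))) (XT.nd (nat_lit 546) (nat_lit 1140) (nat_lit 0) (XT.nd (nat_lit 234) (nat_lit 456) (nat_lit 0) (XT.nd (nat_lit 78) (nat_lit 304) (nat_lit 0) (XT.lf (nat_lit 0) (nat_lit 14266924661) (nat_lit 228) (nat_lit 33077699525) (nat_lit 304) (nat_lit 34235245276) (nat_lit 135) (nat_lit 5) (nat_lit 138) (nat_lit 5) (nat_lit 139) (nat_lit 5) (nat_lit 528) (nat_lit 466) (nat_lit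 206)) (XT.nd (nat_lit 78) (nat_lit 304) (nat_lit 0) (XT.lf (nat_lit 0) (nat_lit 64284544928) (nat_lit 228) (nat_lit 3145608778) (nat_lit 304) (nat_lit 15693724268) (nat_lit 135) (nat_lit 5) (nat_lit 138) (nat_lit 5) (nat_lit 139) (nat_lit 5) (nat_lit 529) (nat_lit 466) (nat_lit 205)) (XT.lf (nat_lit 0) (nat_lit 3910710713) (nat_lit 304) (nat_lit 53301066655) (nat_lit 76) (nat_lit 27484254969) (nat_lit 131) (nat_lit 5) (nat_lit 135) (nat_lit 5) (nat_lit 132) (nat_lit 5) (nat_lit 530) (nat_lit 466) (nat_lit 204)))) (XT.nd (nat_lit 156) (nat_lit 228) (nat_lit 0) (XT.nd (nat_lit 78) (nat_lit 228) (nat_lit 0) (XT.lf (nat_lit 0) (nat_lit 24010310075) (nat_lit 304) (nat_lit 2976888321) (nat_lit 76) (nat_lit 59316817696) (nat_lit 131) (nat_lit 5) (nat_lit 135) (nat_lit 5) (nat_lit 132) (nat_lit 5) (nat_lit 531) (nat_lit 466) (nat_lit 203)) (XT.lf (nat_lit 0) (nat_lit 45235663375) (nat_lit 304) (nat_lit 38162402241) (nat_lit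 76) (nat_lit 4546490815) (nat_lit 128) (nat_lit 5) (nat_lit 132) (nat_lit 5) (nat_lit 129) (nat_lit 5) (nat_lit 532) (nat_lit 466) (nat_lit 202))) (XT.nd (nat_lit 78) (nat_lit 0) (nat_lit 0) (XT.lf (nat_lit 0) (nat_lit 14567056608) (nat_lit 228) (nat_lit 52967527189) (nat_lit 304) (nat_lit 22086625035) (nat_lit 125) (nat_lit 5) (nat_lit 128) (nat_lit 5) (nat_lit 129) (nat_lit 5) (nat_lit 533) (nat_lit 466) (nat_lit 201)) (XT.lf (nat_lit 0) (nat_lit 69659421987) (nat_lit 228) (nat_lit 21227646491) (nat_lit 304) (nat_lit 449554474) (nat_lit 125) (nat_lit 5) (nat_lit 128) (nat_lit 5) (nat_lit 129) (nat_lit 5) (nat_lit 534) (nat_lit 466) (nat_lit 200))))) (XT.nd (nat_lit 312) (nat_lit 456) (nat_lit 0) (XT.nd (nat_lit 156) (nat_lit 380) (nat_lit 0) (XT.nd (nat_lit 78) (nat_lit 0) (nat_lit 0) (XT.lf (nat_lit 0) (nat_lit 21849662587) (nat_lit 304) (nat_lit 59454522641) (nat_lit 76) (nat_lit 11779842732) (nat_lit 121) (nat_lit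 5) (nat_lit 125) (nat_lit 5) (nat_lit 122) (nat_lit 5) (nat_lit 535) (nat_lit 466) (nat_lit 199)) (XT.lf (nat_lit 0) (nat_lit 45239311338) (nat_lit 304) (nat_lit 4055559649) (nat_lit 76) (nat_lit 45575935921) (nat_lit 121) (nat_lit 5) (nat_lit 125) (nat_lit 5) (nat_lit 122) (nat_lit 5) (nat_lit 536) (nat_lit 466) (nat_lit 198))) (XT.nd (nat_lit 78) (nat_lit 152) (nat_lit 0) (XT.lf (nat_lit 0) (nat_lit 54059042794) (nat_lit 228) (nat_lit 15790528679) (nat_lit 304) (nat_lit 26846050135) (nat_lit 118) (nat_lit 5) (nat_lit 121) (nat_lit 5) (nat_lit 122) (nat_lit 5) (nat_lit 537) (nat_lit 466) (nat_lit 197)) (XT.lf (nat_lit 0) (nat_lit 15548101167) (nat_lit 152) (nat_lit 80020070964) (nat_lit 228) (nat_lit 2995907676) (nat_lit 116) (nat_lit 5) (nat_lit 118) (nat_lit 5) (nat_lit 119) (nat_lit 5) (nat_lit 538) (nat_lit 466) (nat_lit 196)))) (XT.nd (nat_lit 234) (nat_lit 152) (nat_lit 0) (XT.nd (nat_lit 156) (nat_lit 228)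 (nat_lit 0) (XT.lf (nat_lit 0) (nat_lit 21739266848) (nat_lit 228) (nat_lit 24492515399) (nat_lit 76) (nat_lit 54232876366) (nat_lit 115) (nat_lit 5) (nat_lit 118) (nat_lit 5) (nat_lit 116) (nat_lit 5) (nat_lit 539) (nat_lit 466) (nat_lit 195)) (XT.lf (nat_lit 0) (nat_lit 74537416162) (nat_lit 304) (nat_lit 4895813197) (nat_lit 76) (nat_lit 24967494880) (nat_lit 112) (nat_lit 5) (nat_lit 116) (nat_lit 5) (nat_lit 113) (nat_lit 5) (nat_lit 541) (nat_lit 466) (nat_lit 193))) (XT.nd (nat_lit 56628) (nat_lit 0) (nat_lit 13908) (XT.lf (nat_lit 0) (nat_lit 59024591029) (nat_lit 152) (nat_lit 44031050258) (nat_lit 228) (nat_lit 3374353354) (nat_lit 110) (nat_lit 5) (nat_lit 112) (nat_lit 5) (nat_lit 113) (nat_lit 5) (nat_lit 542) (nat_lit 466) (nat_lit 192)) (XT.lf (nat_lit 0) (nat_lit 6468373382) (nat_lit 1292) (nat_lit 4137150506) (nat_lit 1292) (nat_lit 4137150506) (nat_lit 293) (nat_lit 3) (nat_lit 310) (nat_lit 3)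 (nat_lit 310) (nat_lit 5) (nat_lit 467) (nat_lit 467) (nat_lit 266))))))) (XT.nd (nat_lit 1170) (nat_lit 4560) (nat_lit 0) (XT.nd (nat_lit 546) (nat_lit 760) (nat_lit 0) (XT.nd (nat_lit 234) (nat_lit 0) (nat_lit 152) (XT.nd (nat_lit 78) (nat_lit 0) (nat_lit 76) (XT.lf (nat_lit 76) (nat_lit 6416054685) (nat_lit 0) (nat_lit 6851415084) (nat_lit 1292) (nat_lit 16656048671) (nat_lit 294) (nat_lit 5) (nat_lit 293) (nat_lit 3) (nat_lit 310) (nat_lit 5) (nat_lit 468) (nat_lit 467) (nat_lit 265)) (XT.nd (nat_lit 78) (nat_lit 0) (nat_lit 0) (XT.lf (nat_lit 0) (nat_lit 13765882341) (nat_lit 1216) (nat_lit 8734372023) (nat_lit 1292) (nat_lit 7869846188) (nat_lit 294) (nat_lit 5) (nat_lit 310) (nat_lit 5) (nat_lit 311) (nat_lit 5) (nat_lit 469) (nat_lit 467) (nat_lit 264)) (XT.lf (nat_lit 76) (nat_lit 6540105723) (nat_lit 0) (nat_lit 7867001946) (nat_lit 1292) (nat_lit 16419137041) (nat_lit 295) (nat_lit 5) (nat_lit 294) (nat_lit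 5) (nat_lit 311) (nat_lit 5) (nat_lit 470) (nat_lit 467) (nat_lit 263)))) (XT.nd (nat_lit 156) (nat_lit 0) (nat_lit 76) (XT.nd (nat_lit 78) (nat_lit 0) (nat_lit 0) (XT.lf (nat_lit 0) (nat_lit 15223140576) (nat_lit 1216) (nat_lit 8913369369) (nat_lit 1292) (nat_lit 7154896508) (nat_lit 295) (nat_lit 5) (nat_lit 311) (nat_lit 5) (nat_lit 312) (nat_lit 5) (nat_lit 471) (nat_lit 467) (nat_lit 262)) (XT.lf (nat_lit 76) (nat_lit 6977220086) (nat_lit 0) (nat_lit 9228711561) (nat_lit 1292) (nat_lit 15560323458) (nat_lit 296) (nat_lit 5) (nat_lit 295) (nat_lit 5) (nat_lit 312) (nat_lit 5) (nat_lit 472) (nat_lit 467) (nat_lit 261))) (XT.nd (nat_lit 78) (nat_lit 0) (nat_lit 0) (XT.lf (nat_lit 0) (nat_lit 17365384324) (nat_lit 1216) (nat_lit 8786883185) (nat_lit 1292) (nat_lit 6098666733) (nat_lit 296) (nat_lit 5) (nat_lit 312) (nat_lit 5) (nat_lit 313) (nat_lit 5) (nat_lit 473) (nat_lit 467) (nat_lit 260)) (XT.lf (nat_lit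 76) (nat_lit 7753614508) (nat_lit 0) (nat_lit 10969377194) (nat_lit 1292) (nat_lit 14022261268) (nat_lit 297) (nat_lit 5) (nat_lit 296) (nat_lit 5) (nat_lit 313) (nat_lit 5) (nat_lit 474) (nat_lit 467) (nat_lit 259))))) (XT.nd (nat_lit 312) (nat_lit 1064) (nat_lit 0) (XT.nd (nat_lit 156) (nat_lit 0) (nat_lit 76) (XT.nd (nat_lit 78) (nat_lit 0) (nat_lit 0) (XT.lf (nat_lit 0) (nat_lit 20253348942) (nat_lit 1216) (nat_lit 8328762424) (nat_lit 1292) (nat_lit 4668329585) (nat_lit 297) (nat_lit 5) (nat_lit 313) (nat_lit 5) (nat_lit 314) (nat_lit 5) (nat_lit 475) (nat_lit 467) (nat_lit 258)) (XT.lf (nat_lit 76) (nat_lit 8897348511) (nat_lit 0) (nat_lit 13124006285) (nat_lit 1292) (nat_lit 11743677971) (nat_lit 298) (nat_lit 5) (nat_lit 297) (nat_lit 5) (nat_lit 314) (nat_lit 5) (nat_lit 476) (nat_lit 467) (nat_lit 257))) (XT.nd (nat_lit 78) (nat_lit 0) (nat_lit 0) (XT.lf (nat_lit 0) (nat_lit 23951896387) (nat_lit 1216)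 (nat_lit 7511016245) (nat_lit 1292) (nat_lit 2828865159) (nat_lit 298) (nat_lit 5) (nat_lit 314) (nat_lit 5) (nat_lit 315) (nat_lit 5) (nat_lit 477) (nat_lit 467) (nat_lit 256)) (XT.lf (nat_lit 76) (nat_lit 10438428716) (nat_lit 0) (nat_lit 15729938871) (nat_lit 1292) (nat_lit 8659117488) (nat_lit 299) (nat_lit 5) (nat_lit 298) (nat_lit 5) (nat_lit 315) (nat_lit 5) (nat_lit 478) (nat_lit 467) (nat_lit 255)))) (XT.nd (nat_lit 156) (nat_lit 1216) (nat_lit 0) (XT.nd (nat_lit 78) (nat_lit 0) (nat_lit 0) (XT.lf (nat_lit 0) (nat_lit 28530284293) (nat_lit 1216) (nat_lit 6303709454) (nat_lit 1292) (nat_lit 542901595) (nat_lit 299) (nat_lit 5) (nat_lit 315) (nat_lit 5) (nat_lit 316) (nat_lit 5) (nat_lit 479) (nat_lit 467) (nat_lit 254)) (XT.lf (nat_lit 76) (nat_lit 12408919391) (nat_lit 0) (nat_lit 18827015290) (nat_lit 1292) (nat_lit 4698667242) (nat_lit 300) (nat_lit 5) (nat_lit 299) (nat_lit 5) (nat_lit 316) (nat_lit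 5) (nat_lit 480) (nat_lit 467) (nat_lit 253))) (XT.nd (nat_lit 78) (nat_lit 1216) (nat_lit 0) (XT.lf (nat_lit 76) (nat_lit 31810484218) (nat_lit 0) (nat_lit 2273824137) (nat_lit 1292) (nat_lit 2422885021) (nat_lit 300) (nat_lit 5) (nat_lit 299) (nat_lit 5) (nat_lit 316) (nat_lit 5) (nat_lit 481) (nat_lit 467) (nat_lit 252)) (XT.lf (nat_lit 0) (nat_lit 208187578) (nat_lit 1292) (nat_lit 22247464017) (nat_lit 1368) (nat_lit 14632769619) (nat_lit 283) (nat_lit 5) (nat_lit 300) (nat_lit 5) (nat_lit 301) (nat_lit 5) (nat_lit 482) (nat_lit 467) (nat_lit 251)))))) (XT.nd (nat_lit 624) (nat_lit 2660) (nat_lit 0) (XT.nd (nat_lit 312) (nat_lit 1216) (nat_lit 0) (XT.nd (nat_lit 156) (nat_lit 684) (nat_lit 0) (XT.nd (nat_lit 78) (nat_lit 0) (nat_lit 76) (XT.lf (nat_lit 0) (nat_lit 2937892291) (nat_lit 1292) (nat_lit 2673306975) (nat_lit 1368) (nat_lit 32073115287) (nat_lit 283) (nat_lit 5) (nat_lit 300) (nat_lit 5) (nat_lit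 301) (nat_lit 5) (nat_lit 483) (nat_lit 467) (nat_lit 250)) (XT.lf (nat_lit 0) (nat_lit 6033508288) (nat_lit 1292) (nat_lit 20573104526) (nat_lit 76) (nat_lit 11682951527) (nat_lit 284) (nat_lit 5) (nat_lit 301) (nat_lit 5) (nat_lit 285) (nat_lit 5) (nat_lit 484) (nat_lit 467) (nat_lit 249))) (XT.nd (nat_lit 78) (nat_lit 760) (nat_lit 0) (XT.lf (nat_lit 0) (nat_lit 9302901352) (nat_lit 1292) (nat_lit 196963872) (nat_lit 76) (nat_lit 29410679388) (nat_lit 284) (nat_lit 5) (nat_lit 301) (nat_lit 5) (nat_lit 285) (nat_lit 5) (nat_lit 485) (nat_lit 467) (nat_lit 248)) (XT.lf (nat_lit 0) (nat_lit 12952408593) (nat_lit 836) (nat_lit 18421620543) (nat_lit 76) (nat_lit 8167664421) (nat_lit 274) (nat_lit 5) (nat_lit 285) (nat_lit 5) (nat_lit 275) (nat_lit 5) (nat_lit 486) (nat_lit 467) (nat_lit 247)))) (XT.nd (nat_lit 156) (nat_lit 608) (nat_lit 0) (XT.nd (nat_lit 78) (nat_lit 0) (nat_lit 0) (XT.lf (nat_lit 0) (nat_lit 2848764114)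 (nat_lit 608) (nat_lit 13984273165) (nat_lit 684) (nat_lit 23355090838) (nat_lit 266) (nat_lit 5) (nat_lit 274) (nat_lit 5) (nat_lit 275) (nat_lit 5) (nat_lit 487) (nat_lit 467) (nat_lit 246)) (XT.lf (nat_lit 0) (nat_lit 21053922528) (nat_lit 684) (nat_lit 15754808845) (nat_lit 76) (nat_lit 4038509435) (nat_lit 266) (nat_lit 5) (nat_lit 275) (nat_lit 5) (nat_lit 267) (nat_lit 5) (nat_lit 488) (nat_lit 467) (nat_lit 245))) (XT.nd (nat_lit 78) (nat_lit 0) (nat_lit 0) (XT.lf (nat_lit 0) (nat_lit 6463269739) (nat_lit 608) (nat_lit 19137026635) (nat_lit 684) (nat_lit 15919864862) (nat_lit 258) (nat_lit 5) (nat_lit 266) (nat_lit 5) (nat_lit 267) (nat_lit 5) (nat_lit 489) (nat_lit 467) (nat_lit 244)) (XT.lf (nat_lit 0) (nat_lit 29669188506) (nat_lit 608) (nat_lit 771274879) (nat_lit 684) (nat_lit 11768084047) (nat_lit 258) (nat_lit 5) (nat_lit 266) (nat_lit 5) (nat_lit 267) (nat_lit 5) (nat_lit 490) (nat_lit 467) (nat_lit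 243))))) (XT.nd (nat_lit 312) (nat_lit 1520) (nat_lit 0) (XT.nd (nat_lit 156) (nat_lit 608) (nat_lit 0) (XT.nd (nat_lit 78) (nat_lit 0) (nat_lit 0) (XT.lf (nat_lit 0) (nat_lit 10686137811) (nat_lit 532) (nat_lit 25015203249) (nat_lit 608) (nat_lit 7207979191) (nat_lit 251) (nat_lit 5) (nat_lit 258) (nat_lit 5) (nat_lit 259) (nat_lit 5) (nat_lit 491) (nat_lit 467) (nat_lit 242)) (XT.lf (nat_lit 0) (nat_lit 34856010256) (nat_lit 532) (nat_lit 6396610050) (nat_lit 608) (nat_lit 2374518890) (nat_lit 251) (nat_lit 5) (nat_lit 258) (nat_lit 5) (nat_lit 259) (nat_lit 5) (nat_lit 492) (nat_lit 467) (nat_lit 241))) (XT.nd (nat_lit 78) (nat_lit 0) (nat_lit 0) (XT.lf (nat_lit 0) (nat_lit 2826714267) (nat_lit 608) (nat_lit 28822387548) (nat_lit 76) (nat_lit 12708432721) (nat_lit 243) (nat_lit 5) (nat_lit 251) (nat_lit 5) (nat_lit 244) (nat_lit 5) (nat_lit 493) (nat_lit 467) (nat_lit 240)) (XT.lf (nat_lit 0) (nat_lit 8287491682)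 (nat_lit 608) (nat_lit 4446152737) (nat_lit 76) (nat_lit 32370955215) (nat_lit 243) (nat_lit 5) (nat_lit 251) (nat_lit 5) (nat_lit 244) (nat_lit 5) (nat_lit 494) (nat_lit 467) (nat_lit 239)))) (XT.nd (nat_lit 156) (nat_lit 456) (nat_lit 0) (XT.nd (nat_lit 78) (nat_lit 532) (nat_lit 0) (XT.lf (nat_lit 0) (nat_lit 14180018538) (nat_lit 608) (nat_lit 24864000044) (nat_lit 76) (nat_lit 6822020497) (nat_lit 236) (nat_lit 5) (nat_lit 244) (nat_lit 5) (nat_lit 237) (nat_lit 5) (nat_lit 495) (nat_lit 467) (nat_lit 238)) (XT.lf (nat_lit 0) (nat_lit 538187084) (nat_lit 532) (nat_lit 19886249343) (nat_lit 608) (nat_lit 26220631996) (nat_lit 229) (nat_lit 5) (nat_lit 236) (nat_lit 5) (nat_lit 237) (nat_lit 5) (nat_lit 496) (nat_lit 467) (nat_lit 237))) (XT.nd (nat_lit 78) (nat_lit 456) (nat_lit 0) (XT.lf (nat_lit 0) (nat_lit 27106822434) (nat_lit 608) (nat_lit 20230480978) (nat_lit 76) (nat_lit 102646336) (nat_lit 229) (nat_lit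 5) (nat_lit 237) (nat_lit 5) (nat_lit 230) (nat_lit 5) (nat_lit 497) (nat_lit 467) (nat_lit 236)) (XT.lf (nat_lit 0) (nat_lit 6347566078) (nat_lit 456) (nat_lit 27898616350) (nat_lit 532) (nat_lit 14004800176) (nat_lit 223) (nat_lit 5) (nat_lit 229) (nat_lit 5) (nat_lit 230) (nat_lit 5) (nat_lit 498) (nat_lit 467) (nat_lit 235))))))))
noncomputable def xc224 : XT := (XT.nd (nat_lit 2340) (nat_lit 1976) (nat_lit 0) (XT.nd (nat_lit 1170) (nat_lit 2964) (nat_lit 0) (XT.nd (nat_lit 546) (nat_lit 1672) (nat_lit 0) (XT.nd (nat_lit 234) (nat_lit 1292) (nat_lit 0) (XT.nd (nat_lit 78) (nat_lit 532) (nat_lit 0) (XT.lf (nat_lit 0) (nat_lit 34136059777) (nat_lit 456) (nat_lit 7666569422) (nat_lit 532) (nat_lit 7277630224) (nat_lit 223) (nat_lit 5) (nat_lit 229) (nat_lit 5) (nat_lit 230) (nat_lit 5) (nat_lit 499) (nat_lit 467) (nat_lit 234)) (XT.nd (nat_lit 78) (nat_lit 76) (nat_lit 0) (XT.lf (nat_lit 0) (nat_lit 12948247564)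 (nat_lit 456) (nat_lit 36887265842) (nat_lit 532) (nat_lit 91408973) (nat_lit 217) (nat_lit 5) (nat_lit 223) (nat_lit 5) (nat_lit 224) (nat_lit 5) (nat_lit 500) (nat_lit 467) (nat_lit 233)) (XT.lf (nat_lit 0) (nat_lit 7394721369) (nat_lit 532) (nat_lit 8959923817) (nat_lit 76) (nat_lit 34435422782) (nat_lit 216) (nat_lit 5) (nat_lit 223) (nat_lit 5) (nat_lit 217) (nat_lit 5) (nat_lit 501) (nat_lit 467) (nat_lit 232)))) (XT.nd (nat_lit 156) (nat_lit 836) (nat_lit 0) (XT.nd (nat_lit 78) (nat_lit 0) (nat_lit 0) (XT.lf (nat_lit 0) (nat_lit 15345392179) (nat_lit 532) (nat_lit 31428371350) (nat_lit 76) (nat_lit 4898063571) (nat_lit 210) (nat_lit 5) (nat_lit 217) (nat_lit 5) (nat_lit 211) (nat_lit 5) (nat_lit 502) (nat_lit 467) (nat_lit 231)) (XT.lf (nat_lit 0) (nat_lit 23786609703) (nat_lit 532) (nat_lit 2235117728) (nat_lit 76) (nat_lit 26550750913) (nat_lit 210) (nat_lit 5) (nat_lit 217) (nat_lit 5) (nat_lit 211) (nat_lit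 5) (nat_lit 503) (nat_lit 467) (nat_lit 230))) (XT.nd (nat_lit 78) (nat_lit 380) (nat_lit 0) (XT.lf (nat_lit 0) (nat_lit 28386322395) (nat_lit 456) (nat_lit 4366371092) (nat_lit 532) (nat_lit 20739306881) (nat_lit 204) (nat_lit 5) (nat_lit 210) (nat_lit 5) (nat_lit 211) (nat_lit 5) (nat_lit 504) (nat_lit 467) (nat_lit 229)) (XT.lf (nat_lit 0) (nat_lit 5466248793) (nat_lit 380) (nat_lit 36768068546) (nat_lit 456) (nat_lit 12197394113) (nat_lit 199) (nat_lit 5) (nat_lit 204) (nat_lit 5) (nat_lit 205) (nat_lit 5) (nat_lit 505) (nat_lit 467) (nat_lit 228))))) (XT.nd (nat_lit 312) (nat_lit 760) (nat_lit 0) (XT.nd (nat_lit 156) (nat_lit 380) (nat_lit 0) (XT.nd (nat_lit 78) (nat_lit 532) (nat_lit 0) (XT.lf (nat_lit 0) (nat_lit 37424349347) (nat_lit 380) (nat_lit 14871168597) (nat_lit 456) (nat_lit 3095242210) (nat_lit 199) (nat_lit 5) (nat_lit 204) (nat_lit 5) (nat_lit 205) (nat_lit 5) (nat_lit 506) (nat_lit 467) (nat_lit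 227)) (XT.lf (nat_lit 0) (nat_lit 6368330616) (nat_lit 532) (nat_lit 42271125531) (nat_lit 76) (nat_lit 7730986240) (nat_lit 192) (nat_lit 5) (nat_lit 199) (nat_lit 5) (nat_lit 193) (nat_lit 5) (nat_lit 507) (nat_lit 467) (nat_lit 226))) (XT.nd (nat_lit 78) (nat_lit 380) (nat_lit 0) (XT.lf (nat_lit 0) (nat_lit 16382902542) (nat_lit 532) (nat_lit 10059973155) (nat_lit 76) (nat_lit 30925841027) (nat_lit 192) (nat_lit 5) (nat_lit 199) (nat_lit 5) (nat_lit 193) (nat_lit 5) (nat_lit 508) (nat_lit 467) (nat_lit 225)) (XT.lf (nat_lit 0) (nat_lit 23576083193) (nat_lit 380) (nat_lit 3347332005) (nat_lit 456) (nat_lit 31466759100) (nat_lit 187) (nat_lit 5) (nat_lit 192) (nat_lit 5) (nat_lit 193) (nat_lit 5) (nat_lit 509) (nat_lit 467) (nat_lit 224)))) (XT.nd (nat_lit 156) (nat_lit 380) (nat_lit 0) (XT.nd (nat_lit 78) (nat_lit 380) (nat_lit 0) (XT.lf (nat_lit 0) (nat_lit 38078118124) (nat_lit 456) (nat_lit 1210785254) (nat_lit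 76) (nat_lit 20144433079) (nat_lit 187) (nat_lit 5) (nat_lit 193) (nat_lit 5) (nat_lit 188) (nat_lit 5) (nat_lit 510) (nat_lit 467) (nat_lit 223)) (XT.lf (nat_lit 0) (nat_lit 34030070705) (nat_lit 380) (nat_lit 15896574432) (nat_lit 456) (nat_lit 10570372959) (nat_lit 182) (nat_lit 5) (nat_lit 187) (nat_lit 5) (nat_lit 188) (nat_lit 5) (nat_lit 511) (nat_lit 467) (nat_lit 222))) (XT.nd (nat_lit 78) (nat_lit 0) (nat_lit 0) (XT.lf (nat_lit 0) (nat_lit 704439167) (nat_lit 380) (nat_lit 52741167385) (nat_lit 76) (nat_lit 8141540977) (nat_lit 177) (nat_lit 5) (nat_lit 182) (nat_lit 5) (nat_lit 178) (nat_lit 5) (nat_lit 512) (nat_lit 467) (nat_lit 221)) (XT.lf (nat_lit 0) (nat_lit 12531287478) (nat_lit 380) (nat_lit 17207293142) (nat_lit 76) (nat_lit 32955473230) (nat_lit 177) (nat_lit 5) (nat_lit 182) (nat_lit 5) (nat_lit 178) (nat_lit 5) (nat_lit 513) (nat_lit 467) (nat_lit 220)))))) (XT.nd (nat_lit 546) (nat_lit 1596)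 (nat_lit 0) (XT.nd (nat_lit 234) (nat_lit 684) (nat_lit 0) (XT.nd (nat_lit 78) (nat_lit 304) (nat_lit 0) (XT.lf (nat_lit 0) (nat_lit 19777085479) (nat_lit 380) (nat_lit 5124939546) (nat_lit 456) (nat_lit 38926469916) (nat_lit 172) (nat_lit 5) (nat_lit 177) (nat_lit 5) (nat_lit 178) (nat_lit 5) (nat_lit 514) (nat_lit 467) (nat_lit 219)) (XT.nd (nat_lit 78) (nat_lit 304) (nat_lit 0) (XT.lf (nat_lit 0) (nat_lit 38012786996) (nat_lit 456) (nat_lit 6965630514) (nat_lit 76) (nat_lit 20007484774) (nat_lit 172) (nat_lit 5) (nat_lit 178) (nat_lit 5) (nat_lit 173) (nat_lit 5) (nat_lit 515) (nat_lit 467) (nat_lit 218)) (XT.lf (nat_lit 0) (nat_lit 31801130158) (nat_lit 304) (nat_lit 20071191697) (nat_lit 380) (nat_lit 14295046580) (nat_lit 168) (nat_lit 5) (nat_lit 172) (nat_lit 5) (nat_lit 173) (nat_lit 5) (nat_lit 516) (nat_lit 467) (nat_lit 217)))) (XT.nd (nat_lit 156) (nat_lit 304) (nat_lit 0) (XT.nd (nat_lit 78) (nat_lit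 76) (nat_lit 0) (XT.lf (nat_lit 0) (nat_lit 4524011990) (nat_lit 304) (nat_lit 61790850971) (nat_lit 380) (nat_lit 1064399088) (nat_lit 164) (nat_lit 5) (nat_lit 168) (nat_lit 5) (nat_lit 169) (nat_lit 5) (nat_lit 517) (nat_lit 467) (nat_lit 216)) (XT.lf (nat_lit 0) (nat_lit 12866240083) (nat_lit 380) (nat_lit 23656004080) (nat_lit 76) (nat_lit 32085198696) (nat_lit 163) (nat_lit 5) (nat_lit 168) (nat_lit 5) (nat_lit 164) (nat_lit 5) (nat_lit 518) (nat_lit 467) (nat_lit 215))) (XT.nd (nat_lit 78) (nat_lit 0) (nat_lit 0) (XT.lf (nat_lit 0) (nat_lit 17039809079) (nat_lit 304) (nat_lit 10316453888) (nat_lit 380) (nat_lit 42511004308) (nat_lit 159) (nat_lit 5) (nat_lit 163) (nat_lit 5) (nat_lit 164) (nat_lit 5) (nat_lit 519) (nat_lit 467) (nat_lit 214)) (XT.lf (nat_lit 0) (nat_lit 42681596958) (nat_lit 380) (nat_lit 11880348568) (nat_lit 76) (nat_lit 16590922661) (nat_lit 159) (nat_lit 5) (nat_lit 164) (nat_lit 5) (nat_lit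 160) (nat_lit 5) (nat_lit 520) (nat_lit 467) (nat_lit 213))))) (XT.nd (nat_lit 312) (nat_lit 608) (nat_lit 0) (XT.nd (nat_lit 156) (nat_lit 304) (nat_lit 0) (XT.nd (nat_lit 78) (nat_lit 380) (nat_lit 0) (XT.lf (nat_lit 0) (nat_lit 30792555688) (nat_lit 304) (nat_lit 28071373151) (nat_lit 380) (nat_lit 13601191225) (nat_lit 155) (nat_lit 5) (nat_lit 159) (nat_lit 5) (nat_lit 160) (nat_lit 5) (nat_lit 521) (nat_lit 467) (nat_lit 212)) (XT.lf (nat_lit 0) (nat_lit 1180041706) (nat_lit 304) (nat_lit 633085576) (nat_lit 380) (nat_lit 71999169664) (nat_lit 150) (nat_lit 5) (nat_lit 154) (nat_lit 5) (nat_lit 155) (nat_lit 5) (nat_lit 522) (nat_lit 467) (nat_lit 211))) (XT.nd (nat_lit 78) (nat_lit 304) (nat_lit 0) (XT.lf (nat_lit 0) (nat_lit 18106174427) (nat_lit 380) (nat_lit 29420567293) (nat_lit 76) (nat_lit 27648417438) (nat_lit 150) (nat_lit 5) (nat_lit 155) (nat_lit 5) (nat_lit 151) (nat_lit 5) (nat_lit 523) (nat_lit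 467) (nat_lit 210)) (XT.lf (nat_lit 0) (nat_lit 15379999128) (nat_lit 304) (nat_lit 19661261189) (nat_lit 380) (nat_lit 41533049564) (nat_lit 146) (nat_lit 5) (nat_lit 150) (nat_lit 5) (nat_lit 151) (nat_lit 5) (nat_lit 524) (nat_lit 467) (nat_lit 209)))) (XT.nd (nat_lit 156) (nat_lit 380) (nat_lit 0) (XT.nd (nat_lit 78) (nat_lit 228) (nat_lit 0) (XT.lf (nat_lit 0) (nat_lit 52870475402) (nat_lit 380) (nat_lit 15970019706) (nat_lit 76) (nat_lit 9163357782) (nat_lit 146) (nat_lit 5) (nat_lit 151) (nat_lit 5) (nat_lit 147) (nat_lit 5) (nat_lit 525) (nat_lit 467) (nat_lit 208)) (XT.lf (nat_lit 0) (nat_lit 31020360514) (nat_lit 228) (nat_lit 40706229265) (nat_lit 304) (nat_lit 7734931788) (nat_lit 143) (nat_lit 5) (nat_lit 146) (nat_lit 5) (nat_lit 147) (nat_lit 5) (nat_lit 526) (nat_lit 467) (nat_lit 207))) (XT.nd (nat_lit 78) (nat_lit 304) (nat_lit 0) (XT.lf (nat_lit 0) (nat_lit 10148748623) (nat_lit 304) (nat_lit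 1311062469) (nat_lit 76) (nat_lit 69495310906) (nat_lit 142) (nat_lit 5) (nat_lit 146) (nat_lit 5) (nat_lit 143) (nat_lit 5) (nat_lit 527) (nat_lit 467) (nat_lit 206)) (XT.lf (nat_lit 0) (nat_lit 29059718745) (nat_lit 380) (nat_lit 34568552987) (nat_lit 76) (nat_lit 18843573948) (nat_lit 138) (nat_lit 5) (nat_lit 143) (nat_lit 5) (nat_lit 139) (nat_lit 5) (nat_lit 528) (nat_lit 467) (nat_lit 205))))))) (XT.nd (nat_lit 57876) (nat_lit 0) (nat_lit 12996) (XT.nd (nat_lit 546) (nat_lit 988) (nat_lit 0) (XT.nd (nat_lit 234) (nat_lit 456) (nat_lit 0) (XT.nd (nat_lit 78) (nat_lit 304) (nat_lit 0) (XT.lf (nat_lit 0) (nat_lit 14760449391) (nat_lit 228) (nat_lit 34045493741) (nat_lit 304) (nat_lit 35220090241) (nat_lit 135) (nat_lit 5) (nat_lit 138) (nat_lit 5) (nat_lit 139) (nat_lit 5) (nat_lit 529) (nat_lit 467) (nat_lit 204)) (XT.nd (nat_lit 78) (nat_lit 304) (nat_lit 0) (XT.lf (nat_lit 0) (nat_lit 66276690004) (nat_lit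 228) (nat_lit 3216154934) (nat_lit 304) (nat_lit 16123553089) (nat_lit 135) (nat_lit 5) (nat_lit 138) (nat_lit 5) (nat_lit 139) (nat_lit 5) (nat_lit 530) (nat_lit 467) (nat_lit 203)) (XT.lf (nat_lit 0) (nat_lit 4067890102) (nat_lit 304) (nat_lit 54835359946) (nat_lit 76) (nat_lit 28332464986) (nat_lit 131) (nat_lit 5) (nat_lit 135) (nat_lit 5) (nat_lit 132) (nat_lit 5) (nat_lit 531) (nat_lit 467) (nat_lit 202)))) (XT.nd (nat_lit 156) (nat_lit 228) (nat_lit 0) (XT.nd (nat_lit 78) (nat_lit 228) (nat_lit 0) (XT.lf (nat_lit 0) (nat_lit 24769316530) (nat_lit 304) (nat_lit 3003341856) (nat_lit 76) (nat_lit 61119314816) (nat_lit 131) (nat_lit 5) (nat_lit 135) (nat_lit 5) (nat_lit 132) (nat_lit 5) (nat_lit 532) (nat_lit 467) (nat_lit 201)) (XT.lf (nat_lit 0) (nat_lit 46631132948) (nat_lit 304) (nat_lit 39244121325) (nat_lit 76) (nat_lit 4706484472) (nat_lit 128) (nat_lit 5) (nat_lit 132) (nat_lit 5) (nat_lit 129) (nat_lit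 5) (nat_lit 533) (nat_lit 467) (nat_lit 200))) (XT.nd (nat_lit 78) (nat_lit 0) (nat_lit 0) (XT.lf (nat_lit 0) (nat_lit 15066602141) (nat_lit 228) (nat_lit 54531901518) (nat_lit 304) (nat_lit 22710202649) (nat_lit 125) (nat_lit 5) (nat_lit 128) (nat_lit 5) (nat_lit 129) (nat_lit 5) (nat_lit 534) (nat_lit 467) (nat_lit 199)) (XT.lf (nat_lit 0) (nat_lit 71809917108) (nat_lit 228) (nat_lit 21840542404) (nat_lit 304) (nat_lit 425156510) (nat_lit 125) (nat_lit 5) (nat_lit 128) (nat_lit 5) (nat_lit 129) (nat_lit 5) (nat_lit 535) (nat_lit 467) (nat_lit 198))))) (XT.nd (nat_lit 390) (nat_lit 304) (nat_lit 0) (XT.nd (nat_lit 156) (nat_lit 380) (nat_lit 0) (XT.nd (nat_lit 78) (nat_lit 0) (nat_lit 0) (XT.lf (nat_lit 0) (nat_lit 22542033491) (nat_lit 304) (nat_lit 61176437981) (nat_lit 76) (nat_lit 12156968775) (nat_lit 121) (nat_lit 5) (nat_lit 125) (nat_lit 5) (nat_lit 122) (nat_lit 5) (nat_lit 536) (nat_lit 467) (nat_lit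 197)) (XT.lf (nat_lit 0) (nat_lit 46632297500) (nat_lit 304) (nat_lit 4117303779) (nat_lit 76) (nat_lit 46966253573) (nat_lit 121) (nat_lit 5) (nat_lit 125) (nat_lit 5) (nat_lit 122) (nat_lit 5) (nat_lit 537) (nat_lit 467) (nat_lit 196))) (XT.nd (nat_lit 78) (nat_lit 152) (nat_lit 0) (XT.lf (nat_lit 0) (nat_lit 55740149260) (nat_lit 228) (nat_lit 16240243628) (nat_lit 304) (nat_lit 27615035341) (nat_lit 118) (nat_lit 5) (nat_lit 121) (nat_lit 5) (nat_lit 122) (nat_lit 5) (nat_lit 538) (nat_lit 467) (nat_lit 195)) (XT.lf (nat_lit 0) (nat_lit 16074120833) (nat_lit 152) (nat_lit 82396198258) (nat_lit 228) (nat_lit 3049628116) (nat_lit 116) (nat_lit 5) (nat_lit 118) (nat_lit 5) (nat_lit 119) (nat_lit 5) (nat_lit 539) (nat_lit 467) (nat_lit 194)))) (XT.nd (nat_lit 56784) (nat_lit 0) (nat_lit 13756) (XT.nd (nat_lit 78) (nat_lit 0) (nat_lit 0) (XT.lf (nat_lit 0) (nat_lit 37619388843) (nat_lit 228) (nat_lit 11345898766)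 (nat_lit 304) (nat_lit 56516886990) (nat_lit 112) (nat_lit 5) (nat_lit 115) (nat_lit 5) (nat_lit 116) (nat_lit 5) (nat_lit 541) (nat_lit 467) (nat_lit 192)) (XT.lf (nat_lit 0) (nat_lit 76806746228) (nat_lit 304) (nat_lit 4985653744) (nat_lit 76) (nat_lit 25739348041) (nat_lit 112) (nat_lit 5) (nat_lit 116) (nat_lit 5) (nat_lit 113) (nat_lit 5) (nat_lit 542) (nat_lit 467) (nat_lit 191))) (XT.nd (nat_lit 78) (nat_lit 0) (nat_lit 0) (XT.lf (nat_lit 0) (nat_lit 6736700429) (nat_lit 1292) (nat_lit 4223007797) (nat_lit 1292) (nat_lit 4223007797) (nat_lit 293) (nat_lit 3) (nat_lit 310) (nat_lit 3) (nat_lit 310) (nat_lit 5) (nat_lit 468) (nat_lit 468) (nat_lit 264)) (XT.lf (nat_lit 76) (nat_lit 6684300631) (nat_lit 0) (nat_lit 7126146467) (nat_lit 1292) (nat_lit 17006408249) (nat_lit 294) (nat_lit 5) (nat_lit 293) (nat_lit 3) (nat_lit 310) (nat_lit 5) (nat_lit 469) (nat_lit 468) (nat_lit 263)))))) (XT.nd (nat_lit 546) (nat_lit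 836) (nat_lit 0) (XT.nd (nat_lit 234) (nat_lit 0) (nat_lit 76) (XT.nd (nat_lit 78) (nat_lit 0) (nat_lit 0) (XT.lf (nat_lit 0) (nat_lit 14318944393) (nat_lit 1216) (nat_lit 8917958486) (nat_lit 1292) (nat_lit 8040078656) (nat_lit 294) (nat_lit 5) (nat_lit 310) (nat_lit 5) (nat_lit 311) (nat_lit 5) (nat_lit 470) (nat_lit 468) (nat_lit 262)) (XT.nd (nat_lit 78) (nat_lit 0) (nat_lit 76) (XT.lf (nat_lit 76) (nat_lit 6813984527) (nat_lit 0) (nat_lit 8162088458) (nat_lit 1292) (nat_lit 16770837605) (nat_lit 295) (nat_lit 5) (nat_lit 294) (nat_lit 5) (nat_lit 311) (nat_lit 5) (nat_lit 471) (nat_lit 468) (nat_lit 261)) (XT.lf (nat_lit 0) (nat_lit 15812052469) (nat_lit 1216) (nat_lit 9100804457) (nat_lit 1292) (nat_lit 7313306842) (nat_lit 295) (nat_lit 5) (nat_lit 311) (nat_lit 5) (nat_lit 312) (nat_lit 5) (nat_lit 472) (nat_lit 468) (nat_lit 260)))) (XT.nd (nat_lit 156) (nat_lit 0) (nat_lit 76) (XT.nd (nat_lit 78) (nat_lit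 0) (nat_lit 76) (XT.lf (nat_lit 76) (nat_lit 7265718702) (nat_lit 0) (nat_lit 9555518716) (nat_lit 1292) (nat_lit 15894113691) (nat_lit 296) (nat_lit 5) (nat_lit 295) (nat_lit 5) (nat_lit 312) (nat_lit 5) (nat_lit 473) (nat_lit 468) (nat_lit 259)) (XT.lf (nat_lit 0) (nat_lit 18011246544) (nat_lit 1216) (nat_lit 8969369514) (nat_lit 1292) (nat_lit 6234081894) (nat_lit 296) (nat_lit 5) (nat_lit 312) (nat_lit 5) (nat_lit 313) (nat_lit 5) (nat_lit 474) (nat_lit 468) (nat_lit 258))) (XT.nd (nat_lit 78) (nat_lit 0) (nat_lit 76) (XT.lf (nat_lit 76) (nat_lit 8066547814) (nat_lit 0) (nat_lit 11340168577) (nat_lit 1292) (nat_lit 14317216328) (nat_lit 297) (nat_lit 5) (nat_lit 296) (nat_lit 5) (nat_lit 313) (nat_lit 5) (nat_lit 475) (nat_lit 468) (nat_lit 257)) (XT.lf (nat_lit 0) (nat_lit 20979040668) (nat_lit 1216) (nat_lit 8496680002) (nat_lit 1292) (nat_lit 4768674469) (nat_lit 297) (nat_lit 5) (nat_lit 313) (nat_lit 5)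 (nat_lit 314) (nat_lit 5) (nat_lit 476) (nat_lit 468) (nat_lit 256))))) (XT.nd (nat_lit 312) (nat_lit 1064) (nat_lit 0) (XT.nd (nat_lit 156) (nat_lit 0) (nat_lit 76) (XT.nd (nat_lit 78) (nat_lit 0) (nat_lit 76) (XT.lf (nat_lit 76) (nat_lit 9245410875) (nat_lit 0) (nat_lit 13552016257) (nat_lit 1292) (nat_lit 11977077839) (nat_lit 298) (nat_lit 5) (nat_lit 297) (nat_lit 5) (nat_lit 314) (nat_lit 5) (nat_lit 477) (nat_lit 468) (nat_lit 255)) (XT.lf (nat_lit 0) (nat_lit 24782202869) (nat_lit 1216) (nat_lit 7653870710) (nat_lit 1292) (nat_lit 2881089690) (nat_lit 298) (nat_lit 5) (nat_lit 314) (nat_lit 5) (nat_lit 315) (nat_lit 5) (nat_lit 478) (nat_lit 468) (nat_lit 254))) (XT.nd (nat_lit 78) (nat_lit 0) (nat_lit 76) (XT.lf (nat_lit 76) (nat_lit 10833249011) (nat_lit 0) (nat_lit 16229449389) (nat_lit 1292) (nat_lit 8806317915) (nat_lit 299) (nat_lit 5) (nat_lit 298) (nat_lit 5) (nat_lit 315) (nat_lit 5) (nat_lit 479)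 (nat_lit 468) (nat_lit 253)) (XT.lf (nat_lit 0) (nat_lit 29492032005) (nat_lit 1216) (nat_lit 6410076880) (nat_lit 1292) (nat_lit 532903657) (nat_lit 299) (nat_lit 5) (nat_lit 315) (nat_lit 5) (nat_lit 316) (nat_lit 5) (nat_lit 480) (nat_lit 468) (nat_lit 252)))) (XT.nd (nat_lit 156) (nat_lit 1216) (nat_lit 0) (XT.nd (nat_lit 78) (nat_lit 0) (nat_lit 0) (XT.lf (nat_lit 76) (nat_lit 12863119616) (nat_lit 0) (nat_lit 19413437181) (nat_lit 1292) (nat_lit 4732962799) (nat_lit 300) (nat_lit 5) (nat_lit 299) (nat_lit 5) (nat_lit 316) (nat_lit 5) (nat_lit 481) (nat_lit 468) (nat_lit 251)) (XT.lf (nat_lit 76) (nat_lit 32844345000) (nat_lit 0) (nat_lit 2363020835) (nat_lit 1292) (nat_lit 2392013843) (nat_lit 300) (nat_lit 5) (nat_lit 299) (nat_lit 5) (nat_lit 316) (nat_lit 5) (nat_lit 482) (nat_lit 468) (nat_lit 250))) (XT.nd (nat_lit 78) (nat_lit 0) (nat_lit 0) (XT.lf (nat_lit 0) (nat_lit 313610714) (nat_lit 1292) (nat_lit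 22830935338) (nat_lit 1368) (nat_lit 15053539603) (nat_lit 283) (nat_lit 5) (nat_lit 300) (nat_lit 5) (nat_lit 301) (nat_lit 5) (nat_lit 483) (nat_lit 468) (nat_lit 249)) (XT.lf (nat_lit 0) (nat_lit 3122317903) (nat_lit 1292) (nat_lit 2671998805) (nat_lit 1368) (nat_lit 33017626120) (nat_lit 283) (nat_lit 5) (nat_lit 300) (nat_lit 5) (nat_lit 301) (nat_lit 5) (nat_lit 484) (nat_lit 468) (nat_lit 248))))))))
noncomputable def xc225 : XT := (XT.nd (nat_lit 2340) (nat_lit 4940) (nat_lit 0) (XT.nd (nat_lit 1170) (nat_lit 3496) (nat_lit 0) (XT.nd (nat_lit 546) (nat_lit 2660) (nat_lit 0) (XT.nd (nat_lit 234) (nat_lit 1216) (nat_lit 0) (XT.nd (nat_lit 78) (nat_lit 760) (nat_lit 0) (XT.lf (nat_lit 0) (nat_lit 6308643400) (nat_lit 1292) (nat_lit 21106619171) (nat_lit 76) (nat_lit 12020152673) (nat_lit 284) (nat_lit 5) (nat_lit 301) (nat_lit 5) (nat_lit 285) (nat_lit 5) (nat_lit 485) (nat_lit 468) (nat_lit 247)) (XT.nd (nat_lit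 78) (nat_lit 760) (nat_lit 0) (XT.lf (nat_lit 0) (nat_lit 9673376609) (nat_lit 1292) (nat_lit 121631535) (nat_lit 76) (nat_lit 30280099381) (nat_lit 284) (nat_lit 5) (nat_lit 301) (nat_lit 5) (nat_lit 285) (nat_lit 5) (nat_lit 486) (nat_lit 468) (nat_lit 246)) (XT.lf (nat_lit 0) (nat_lit 13430393518) (nat_lit 836) (nat_lit 18891040923) (nat_lit 76) (nat_lit 8403816110) (nat_lit 274) (nat_lit 5) (nat_lit 285) (nat_lit 5) (nat_lit 275) (nat_lit 5) (nat_lit 487) (nat_lit 468) (nat_lit 245)))) (XT.nd (nat_lit 156) (nat_lit 608) (nat_lit 0) (XT.nd (nat_lit 78) (nat_lit 0) (nat_lit 0) (XT.lf (nat_lit 0) (nat_lit 3016639311) (nat_lit 608) (nat_lit 14408989698) (nat_lit 684) (nat_lit 23965503832) (nat_lit 266) (nat_lit 5) (nat_lit 274) (nat_lit 5) (nat_lit 275) (nat_lit 5) (nat_lit 488) (nat_lit 468) (nat_lit 244)) (XT.lf (nat_lit 0) (nat_lit 21770540920) (nat_lit 684) (nat_lit 16144830521) (nat_lit 76) (nat_lit 4154725791)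 (nat_lit 266) (nat_lit 5) (nat_lit 275) (nat_lit 5) (nat_lit 267) (nat_lit 5) (nat_lit 489) (nat_lit 468) (nat_lit 243))) (XT.nd (nat_lit 78) (nat_lit 0) (nat_lit 0) (XT.lf (nat_lit 0) (nat_lit 6738980395) (nat_lit 608) (nat_lit 19712636270) (nat_lit 684) (nat_lit 16311639602) (nat_lit 258) (nat_lit 5) (nat_lit 266) (nat_lit 5) (nat_lit 267) (nat_lit 5) (nat_lit 490) (nat_lit 468) (nat_lit 242)) (XT.lf (nat_lit 0) (nat_lit 30638693835) (nat_lit 608) (nat_lit 795868306) (nat_lit 684) (nat_lit 12037805010) (nat_lit 258) (nat_lit 5) (nat_lit 266) (nat_lit 5) (nat_lit 267) (nat_lit 5) (nat_lit 491) (nat_lit 468) (nat_lit 241))))) (XT.nd (nat_lit 312) (nat_lit 1520) (nat_lit 0) (XT.nd (nat_lit 156) (nat_lit 608) (nat_lit 0) (XT.nd (nat_lit 78) (nat_lit 0) (nat_lit 0) (XT.lf (nat_lit 0) (nat_lit 11087799563) (nat_lit 532) (nat_lit 25763876500) (nat_lit 608) (nat_lit 7342535088) (nat_lit 251) (nat_lit 5) (nat_lit 258)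 (nat_lit 5) (nat_lit 259) (nat_lit 5) (nat_lit 492) (nat_lit 468) (nat_lit 240)) (XT.lf (nat_lit 0) (nat_lit 35980406698) (nat_lit 532) (nat_lit 6586777433) (nat_lit 608) (nat_lit 2366450109) (nat_lit 251) (nat_lit 5) (nat_lit 258) (nat_lit 5) (nat_lit 259) (nat_lit 5) (nat_lit 493) (nat_lit 468) (nat_lit 239))) (XT.nd (nat_lit 78) (nat_lit 0) (nat_lit 0) (XT.lf (nat_lit 0) (nat_lit 2987802882) (nat_lit 608) (nat_lit 29605307556) (nat_lit 76) (nat_lit 13092852492) (nat_lit 243) (nat_lit 5) (nat_lit 251) (nat_lit 5) (nat_lit 244) (nat_lit 5) (nat_lit 494) (nat_lit 468) (nat_lit 238)) (XT.lf (nat_lit 0) (nat_lit 8610181662) (nat_lit 608) (nat_lit 4500166816) (nat_lit 76) (nat_lit 33345158424) (nat_lit 243) (nat_lit 5) (nat_lit 251) (nat_lit 5) (nat_lit 244) (nat_lit 5) (nat_lit 495) (nat_lit 468) (nat_lit 237)))) (XT.nd (nat_lit 156) (nat_lit 456) (nat_lit 0) (XT.nd (nat_lit 78) (nat_lit 532) (nat_lit 0) (XT.lf (nat_lit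 0) (nat_lit 14678139554) (nat_lit 608) (nat_lit 25529196264) (nat_lit 76) (nat_lit 7032494311) (nat_lit 236) (nat_lit 5) (nat_lit 244) (nat_lit 5) (nat_lit 237) (nat_lit 5) (nat_lit 496) (nat_lit 468) (nat_lit 236)) (XT.lf (nat_lit 0) (nat_lit 634265069) (nat_lit 532) (nat_lit 20474275199) (nat_lit 608) (nat_lit 26933730826) (nat_lit 229) (nat_lit 5) (nat_lit 236) (nat_lit 5) (nat_lit 237) (nat_lit 5) (nat_lit 497) (nat_lit 468) (nat_lit 235))) (XT.nd (nat_lit 78) (nat_lit 456) (nat_lit 0) (XT.lf (nat_lit 0) (nat_lit 27989398998) (nat_lit 608) (nat_lit 20757784286) (nat_lit 76) (nat_lit 113875781) (nat_lit 229) (nat_lit 5) (nat_lit 237) (nat_lit 5) (nat_lit 230) (nat_lit 5) (nat_lit 498) (nat_lit 468) (nat_lit 234)) (XT.lf (nat_lit 0) (nat_lit 6616823681) (nat_lit 456) (nat_lit 28724853338) (nat_lit 532) (nat_lit 14354784003) (nat_lit 223) (nat_lit 5) (nat_lit 229) (nat_lit 5) (nat_lit 230) (nat_lit 5) (nat_lit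 499) (nat_lit 468) (nat_lit 233)))))) (XT.nd (nat_lit 546) (nat_lit 1672) (nat_lit 0) (XT.nd (nat_lit 234) (nat_lit 1292) (nat_lit 0) (XT.nd (nat_lit 78) (nat_lit 532) (nat_lit 0) (XT.lf (nat_lit 0) (nat_lit 35236676153) (nat_lit 456) (nat_lit 7886157279) (nat_lit 532) (nat_lit 7427842453) (nat_lit 223) (nat_lit 5) (nat_lit 229) (nat_lit 5) (nat_lit 230) (nat_lit 5) (nat_lit 500) (nat_lit 468) (nat_lit 232)) (XT.nd (nat_lit 78) (nat_lit 76) (nat_lit 0) (XT.lf (nat_lit 0) (nat_lit 13414351954) (nat_lit 456) (nat_lit 37981269863) (nat_lit 532) (nat_lit 27149605) (nat_lit 217) (nat_lit 5) (nat_lit 223) (nat_lit 5) (nat_lit 224) (nat_lit 5) (nat_lit 501) (nat_lit 468) (nat_lit 231)) (XT.lf (nat_lit 0) (nat_lit 7680343781) (nat_lit 532) (nat_lit 9152050142) (nat_lit 76) (nat_lit 35479455743) (nat_lit 216) (nat_lit 5) (nat_lit 223) (nat_lit 5) (nat_lit 217) (nat_lit 5) (nat_lit 502) (nat_lit 468) (nat_lit 230)))) (XT.nd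 (nat_lit 156) (nat_lit 836) (nat_lit 0) (XT.nd (nat_lit 78) (nat_lit 0) (nat_lit 0) (XT.lf (nat_lit 0) (nat_lit 15868534339) (nat_lit 532) (nat_lit 32293544008) (nat_lit 76) (nat_lit 5058013439) (nat_lit 210) (nat_lit 5) (nat_lit 217) (nat_lit 5) (nat_lit 211) (nat_lit 5) (nat_lit 503) (nat_lit 468) (nat_lit 229)) (XT.lf (nat_lit 0) (nat_lit 24561159833) (nat_lit 532) (nat_lit 2226755258) (nat_lit 76) (nat_lit 27359902528) (nat_lit 210) (nat_lit 5) (nat_lit 217) (nat_lit 5) (nat_lit 211) (nat_lit 5) (nat_lit 504) (nat_lit 468) (nat_lit 228))) (XT.nd (nat_lit 78) (nat_lit 380) (nat_lit 0) (XT.lf (nat_lit 0) (nat_lit 29312588696) (nat_lit 456) (nat_lit 4482579975) (nat_lit 532) (nat_lit 21299788545) (nat_lit 204) (nat_lit 5) (nat_lit 210) (nat_lit 5) (nat_lit 211) (nat_lit 5) (nat_lit 505) (nat_lit 468) (nat_lit 227)) (XT.lf (nat_lit 0) (nat_lit 5705825544) (nat_lit 380) (nat_lit 37854535767) (nat_lit 456) (nat_lit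 12502524905) (nat_lit 199) (nat_lit 5) (nat_lit 204) (nat_lit 5) (nat_lit 205) (nat_lit 5) (nat_lit 506) (nat_lit 468) (nat_lit 226))))) (XT.nd (nat_lit 312) (nat_lit 760) (nat_lit 0) (XT.nd (nat_lit 156) (nat_lit 380) (nat_lit 0) (XT.nd (nat_lit 78) (nat_lit 532) (nat_lit 0) (XT.lf (nat_lit 0) (nat_lit 38620467485) (nat_lit 380) (nat_lit 15301211581) (nat_lit 456) (nat_lit 3129079058) (nat_lit 199) (nat_lit 5) (nat_lit 204) (nat_lit 5) (nat_lit 205) (nat_lit 5) (nat_lit 507) (nat_lit 468) (nat_lit 225)) (XT.lf (nat_lit 0) (nat_lit 6616435964) (nat_lit 532) (nat_lit 43463895231) (nat_lit 76) (nat_lit 7979507174) (nat_lit 192) (nat_lit 5) (nat_lit 199) (nat_lit 5) (nat_lit 193) (nat_lit 5) (nat_lit 508) (nat_lit 468) (nat_lit 224))) (XT.nd (nat_lit 78) (nat_lit 380) (nat_lit 0) (XT.lf (nat_lit 0) (nat_lit 16929783240) (nat_lit 532) (nat_lit 10288603354) (nat_lit 76) (nat_lit 31869724362) (nat_lit 192) (nat_lit 5)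 (nat_lit 199) (nat_lit 5) (nat_lit 193) (nat_lit 5) (nat_lit 509) (nat_lit 468) (nat_lit 223)) (XT.lf (nat_lit 0) (nat_lit 24355817341) (nat_lit 380) (nat_lit 3429776977) (nat_lit 456) (nat_lit 32354645606) (nat_lit 187) (nat_lit 5) (nat_lit 192) (nat_lit 5) (nat_lit 193) (nat_lit 5) (nat_lit 510) (nat_lit 468) (nat_lit 222)))) (XT.nd (nat_lit 156) (nat_lit 380) (nat_lit 0) (XT.nd (nat_lit 78) (nat_lit 380) (nat_lit 0) (XT.lf (nat_lit 0) (nat_lit 39273519387) (nat_lit 456) (nat_lit 1175343309) (nat_lit 76) (nat_lit 20765876976) (nat_lit 187) (nat_lit 5) (nat_lit 193) (nat_lit 5) (nat_lit 188) (nat_lit 5) (nat_lit 511) (nat_lit 468) (nat_lit 221)) (XT.lf (nat_lit 0) (nat_lit 35122034746) (nat_lit 380) (nat_lit 16354605185) (nat_lit 456) (nat_lit 10833717847) (nat_lit 182) (nat_lit 5) (nat_lit 187) (nat_lit 5) (nat_lit 188) (nat_lit 5) (nat_lit 512) (nat_lit 468) (nat_lit 220))) (XT.nd (nat_lit 78) (nat_lit 0) (nat_lit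 0) (XT.lf (nat_lit 0) (nat_lit 777628282) (nat_lit 380) (nat_lit 54250620565) (nat_lit 76) (nat_lit 8404946719) (nat_lit 177) (nat_lit 5) (nat_lit 182) (nat_lit 5) (nat_lit 178) (nat_lit 5) (nat_lit 513) (nat_lit 468) (nat_lit 219)) (XT.lf (nat_lit 0) (nat_lit 12957765851) (nat_lit 380) (nat_lit 17652849954) (nat_lit 76) (nat_lit 33962738896) (nat_lit 177) (nat_lit 5) (nat_lit 182) (nat_lit 5) (nat_lit 178) (nat_lit 5) (nat_lit 514) (nat_lit 468) (nat_lit 218))))))) (XT.nd (nat_lit 1170) (nat_lit 1976) (nat_lit 0) (XT.nd (nat_lit 546) (nat_lit 1596) (nat_lit 0) (XT.nd (nat_lit 234) (nat_lit 684) (nat_lit 0) (XT.nd (nat_lit 78) (nat_lit 304) (nat_lit 0) (XT.lf (nat_lit 0) (nat_lit 20440367261) (nat_lit 380) (nat_lit 5258458818) (nat_lit 456) (nat_lit 40043027060) (nat_lit 172) (nat_lit 5) (nat_lit 177) (nat_lit 5) (nat_lit 178) (nat_lit 5) (nat_lit 515) (nat_lit 468) (nat_lit 217)) (XT.nd (nat_lit 78) (nat_lit 304)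 (nat_lit 0) (XT.lf (nat_lit 0) (nat_lit 39201650952) (nat_lit 456) (nat_lit 7105403881) (nat_lit 76) (nat_lit 20626965798) (nat_lit 172) (nat_lit 5) (nat_lit 178) (nat_lit 5) (nat_lit 173) (nat_lit 5) (nat_lit 516) (nat_lit 468) (nat_lit 216)) (XT.lf (nat_lit 0) (nat_lit 32823681224) (nat_lit 304) (nat_lit 20652537213) (nat_lit 380) (nat_lit 14674735058) (nat_lit 168) (nat_lit 5) (nat_lit 172) (nat_lit 5) (nat_lit 173) (nat_lit 5) (nat_lit 517) (nat_lit 468) (nat_lit 215)))) (XT.nd (nat_lit 156) (nat_lit 304) (nat_lit 0) (XT.nd (nat_lit 78) (nat_lit 76) (nat_lit 0) (XT.lf (nat_lit 0) (nat_lit 4728801800) (nat_lit 304) (nat_lit 63622701838) (nat_lit 380) (nat_lit 1047716366) (nat_lit 164) (nat_lit 5) (nat_lit 168) (nat_lit 5) (nat_lit 169) (nat_lit 5) (nat_lit 518) (nat_lit 468) (nat_lit 214)) (XT.lf (nat_lit 0) (nat_lit 13298505001) (nat_lit 380) (nat_lit 24297701636) (nat_lit 76) (nat_lit 33068067346) (nat_lit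 163) (nat_lit 5) (nat_lit 168) (nat_lit 5) (nat_lit 164) (nat_lit 5) (nat_lit 519) (nat_lit 468) (nat_lit 213))) (XT.nd (nat_lit 78) (nat_lit 0) (nat_lit 0) (XT.lf (nat_lit 0) (nat_lit 17618319422) (nat_lit 304) (nat_lit 10604208338) (nat_lit 380) (nat_lit 43739386508) (nat_lit 159) (nat_lit 5) (nat_lit 163) (nat_lit 5) (nat_lit 164) (nat_lit 5) (nat_lit 520) (nat_lit 468) (nat_lit 212)) (XT.lf (nat_lit 0) (nat_lit 44006497171) (nat_lit 380) (nat_lit 12170275408) (nat_lit 76) (nat_lit 17109344474) (nat_lit 159) (nat_lit 5) (nat_lit 164) (nat_lit 5) (nat_lit 160) (nat_lit 5) (nat_lit 521) (nat_lit 468) (nat_lit 211))))) (XT.nd (nat_lit 312) (nat_lit 608) (nat_lit 0) (XT.nd (nat_lit 156) (nat_lit 304) (nat_lit 0) (XT.nd (nat_lit 78) (nat_lit 380) (nat_lit 0) (XT.lf (nat_lit 0) (nat_lit 31782164175) (nat_lit 304) (nat_lit 28891472921) (nat_lit 380) (nat_lit 13964119352) (nat_lit 155) (nat_lit 5) (nat_lit 159) (nat_lit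 5) (nat_lit 160) (nat_lit 5) (nat_lit 522) (nat_lit 468) (nat_lit 210)) (XT.lf (nat_lit 0) (nat_lit 1281504317) (nat_lit 304) (nat_lit 629591027) (nat_lit 380) (nat_lit 74114259979) (nat_lit 150) (nat_lit 5) (nat_lit 154) (nat_lit 5) (nat_lit 155) (nat_lit 5) (nat_lit 523) (nat_lit 468) (nat_lit 209))) (XT.nd (nat_lit 78) (nat_lit 304) (nat_lit 0) (XT.lf (nat_lit 0) (nat_lit 18691874614) (nat_lit 380) (nat_lit 30237984573) (nat_lit 76) (nat_lit 28499276088) (nat_lit 150) (nat_lit 5) (nat_lit 155) (nat_lit 5) (nat_lit 151) (nat_lit 5) (nat_lit 524) (nat_lit 468) (nat_lit 208)) (XT.lf (nat_lit 0) (nat_lit 15905959627) (nat_lit 304) (nat_lit 20228435750) (nat_lit 380) (nat_lit 42735883768) (nat_lit 146) (nat_lit 5) (nat_lit 150) (nat_lit 5) (nat_lit 151) (nat_lit 5) (nat_lit 525) (nat_lit 468) (nat_lit 207)))) (XT.nd (nat_lit 156) (nat_lit 380) (nat_lit 0) (XT.nd (nat_lit 78) (nat_lit 228) (nat_lit 0) (XT.lf (nat_lit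 0) (nat_lit 54497478114) (nat_lit 380) (nat_lit 16385428351) (nat_lit 76) (nat_lit 9459832334) (nat_lit 146) (nat_lit 5) (nat_lit 151) (nat_lit 5) (nat_lit 147) (nat_lit 5) (nat_lit 526) (nat_lit 468) (nat_lit 206)) (XT.lf (nat_lit 0) (nat_lit 32014038844) (nat_lit 228) (nat_lit 41904652396) (nat_lit 304) (nat_lit 7925463925) (nat_lit 143) (nat_lit 5) (nat_lit 146) (nat_lit 5) (nat_lit 147) (nat_lit 5) (nat_lit 527) (nat_lit 468) (nat_lit 205))) (XT.nd (nat_lit 78) (nat_lit 304) (nat_lit 0) (XT.lf (nat_lit 0) (nat_lit 10492731172) (nat_lit 304) (nat_lit 1288374451) (nat_lit 76) (nat_lit 71601481664) (nat_lit 142) (nat_lit 5) (nat_lit 146) (nat_lit 5) (nat_lit 143) (nat_lit 5) (nat_lit 528) (nat_lit 468) (nat_lit 204)) (XT.lf (nat_lit 0) (nat_lit 29970685483) (nat_lit 380) (nat_lit 35543242084) (nat_lit 76) (nat_lit 19430895542) (nat_lit 138) (nat_lit 5) (nat_lit 143) (nat_lit 5) (nat_lit 139) (nat_lit 5) (nat_lit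 529) (nat_lit 468) (nat_lit 203)))))) (XT.nd (nat_lit 624) (nat_lit 684) (nat_lit 0) (XT.nd (nat_lit 312) (nat_lit 760) (nat_lit 0) (XT.nd (nat_lit 156) (nat_lit 304) (nat_lit 0) (XT.nd (nat_lit 78) (nat_lit 0) (nat_lit 0) (XT.lf (nat_lit 0) (nat_lit 15265018920) (nat_lit 228) (nat_lit 35043730294) (nat_lit 304) (nat_lit 36236903718) (nat_lit 135) (nat_lit 5) (nat_lit 138) (nat_lit 5) (nat_lit 139) (nat_lit 5) (nat_lit 530) (nat_lit 468) (nat_lit 202)) (XT.lf (nat_lit 0) (nat_lit 68324948032) (nat_lit 228) (nat_lit 3290184962) (nat_lit 304) (nat_lit 16568629362) (nat_lit 135) (nat_lit 5) (nat_lit 138) (nat_lit 5) (nat_lit 139) (nat_lit 5) (nat_lit 531) (nat_lit 468) (nat_lit 201))) (XT.nd (nat_lit 78) (nat_lit 0) (nat_lit 0) (XT.lf (nat_lit 0) (nat_lit 4227496856) (nat_lit 304) (nat_lit 56419398303) (nat_lit 76) (nat_lit 29204761838) (nat_lit 131) (nat_lit 5) (nat_lit 135) (nat_lit 5) (nat_lit 132) (nat_lit 5) (nat_lit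 532) (nat_lit 468) (nat_lit 200)) (XT.lf (nat_lit 0) (nat_lit 25548871803) (nat_lit 304) (nat_lit 3034197022) (nat_lit 76) (nat_lit 62974566982) (nat_lit 131) (nat_lit 5) (nat_lit 135) (nat_lit 5) (nat_lit 132) (nat_lit 5) (nat_lit 533) (nat_lit 468) (nat_lit 199)))) (XT.nd (nat_lit 156) (nat_lit 304) (nat_lit 0) (XT.nd (nat_lit 78) (nat_lit 228) (nat_lit 0) (XT.lf (nat_lit 0) (nat_lit 48066262311) (nat_lit 304) (nat_lit 40361917223) (nat_lit 76) (nat_lit 4869923264) (nat_lit 128) (nat_lit 5) (nat_lit 132) (nat_lit 5) (nat_lit 129) (nat_lit 5) (nat_lit 534) (nat_lit 468) (nat_lit 198)) (XT.lf (nat_lit 0) (nat_lit 15577544343) (nat_lit 228) (nat_lit 56144622173) (nat_lit 304) (nat_lit 23354727565) (nat_lit 125) (nat_lit 5) (nat_lit 128) (nat_lit 5) (nat_lit 129) (nat_lit 5) (nat_lit 535) (nat_lit 468) (nat_lit 197))) (XT.nd (nat_lit 78) (nat_lit 304) (nat_lit 0) (XT.lf (nat_lit 0) (nat_lit 74021441939) (nat_lit 228)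 (nat_lit 22473199074) (nat_lit 304) (nat_lit 402201337) (nat_lit 125) (nat_lit 5) (nat_lit 128) (nat_lit 5) (nat_lit 129) (nat_lit 5) (nat_lit 536) (nat_lit 468) (nat_lit 196)) (XT.lf (nat_lit 0) (nat_lit 23253058401) (nat_lit 304) (nat_lit 62953553782) (nat_lit 76) (nat_lit 12544046357) (nat_lit 121) (nat_lit 5) (nat_lit 125) (nat_lit 5) (nat_lit 122) (nat_lit 5) (nat_lit 537) (nat_lit 468) (nat_lit 195))))) (XT.nd (nat_lit 57096) (nat_lit 0) (nat_lit 13756) (XT.nd (nat_lit 234) (nat_lit 456) (nat_lit 0) (XT.nd (nat_lit 78) (nat_lit 228) (nat_lit 0) (XT.lf (nat_lit 0) (nat_lit 48065017788) (nat_lit 304) (nat_lit 4184340039) (nat_lit 76) (nat_lit 48396958188) (nat_lit 121) (nat_lit 5) (nat_lit 125) (nat_lit 5) (nat_lit 122) (nat_lit 5) (nat_lit 538) (nat_lit 468) (nat_lit 194)) (XT.lf (nat_lit 0) (nat_lit 57468282837) (nat_lit 228) (nat_lit 16704827776) (nat_lit 304) (nat_lit 28409179400) (nat_lit 118) (nat_lit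 5) (nat_lit 121) (nat_lit 5) (nat_lit 122) (nat_lit 5) (nat_lit 539) (nat_lit 468) (nat_lit 193))) (XT.nd (nat_lit 78) (nat_lit 228) (nat_lit 0) (XT.lf (nat_lit 0) (nat_lit 23131082348) (nat_lit 228) (nat_lit 25868657065) (nat_lit 76) (nat_lit 57581176476) (nat_lit 115) (nat_lit 5) (nat_lit 118) (nat_lit 5) (nat_lit 116) (nat_lit 5) (nat_lit 541) (nat_lit 468) (nat_lit 191)) (XT.lf (nat_lit 0) (nat_lit 38802598099) (nat_lit 228) (nat_lit 11663671221) (nat_lit 304) (nat_lit 58179408151) (nat_lit 112) (nat_lit 5) (nat_lit 115) (nat_lit 5) (nat_lit 116) (nat_lit 5) (nat_lit 542) (nat_lit 468) (nat_lit 190)))) (XT.nd (nat_lit 156) (nat_lit 0) (nat_lit 76) (XT.nd (nat_lit 78) (nat_lit 0) (nat_lit 0) (XT.lf (nat_lit 0) (nat_lit 7008813550) (nat_lit 1292) (nat_lit 4313636929) (nat_lit 1292) (nat_lit 4313636929) (nat_lit 293) (nat_lit 3) (nat_lit 310) (nat_lit 3) (nat_lit 310) (nat_lit 5) (nat_lit 469) (nat_lit 469) (nat_lit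 262)) (XT.lf (nat_lit 76) (nat_lit 6956244774) (nat_lit 0) (nat_lit 7405148063) (nat_lit 1292) (nat_lit 17375850300) (nat_lit 294) (nat_lit 5) (nat_lit 293) (nat_lit 3) (nat_lit 310) (nat_lit 5) (nat_lit 470) (nat_lit 469) (nat_lit 261))) (XT.nd (nat_lit 78) (nat_lit 0) (nat_lit 0) (XT.lf (nat_lit 0) (nat_lit 14880556821) (nat_lit 1216) (nat_lit 9111555589) (nat_lit 1292) (nat_lit 8219198899) (nat_lit 294) (nat_lit 5) (nat_lit 310) (nat_lit 5) (nat_lit 311) (nat_lit 5) (nat_lit 471) (nat_lit 469) (nat_lit 260)) (XT.lf (nat_lit 76) (nat_lit 7091620796) (nat_lit 0) (nat_lit 8462636334) (nat_lit 1292) (nat_lit 17141175905) (nat_lit 295) (nat_lit 5) (nat_lit 294) (nat_lit 5) (nat_lit 311) (nat_lit 5) (nat_lit 472) (nat_lit 469) (nat_lit 259))))))))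
noncomputable def xc226 : XT := (XT.nd (nat_lit 2340) (nat_lit 6460) (nat_lit 0) (XT.nd (nat_lit 1170) (nat_lit 5092) (nat_lit 0) (XT.nd (nat_lit 546) (nat_lit 912) (nat_lit 0) (XT.nd (nat_lit 234) (nat_lit 0) (nat_lit 76) (XT.nd (nat_lit 78) (nat_lit 0) (nat_lit 0) (XT.lf (nat_lit 0) (nat_lit 16411041883) (nat_lit 1216) (nat_lit 9298452973) (nat_lit 1292) (nat_lit 7479697694) (nat_lit 295) (nat_lit 5) (nat_lit 311) (nat_lit 5) (nat_lit 312) (nat_lit 5) (nat_lit 473) (nat_lit 469) (nat_lit 258)) (XT.nd (nat_lit 78) (nat_lit 0) (nat_lit 76) (XT.lf (nat_lit 76) (nat_lit 7558326904) (nat_lit 0) (nat_lit 9889262992) (nat_lit 1292) (nat_lit 16245553493) (nat_lit 296) (nat_lit 5) (nat_lit 295) (nat_lit 5) (nat_lit 312) (nat_lit 5) (nat_lit 474) (nat_lit 469) (nat_lit 257)) (XT.lf (nat_lit 0) (nat_lit 18669314821) (nat_lit 1216) (nat_lit 9161987062) (nat_lit 1292) (nat_lit 6376288779) (nat_lit 296) (nat_lit 5) (nat_lit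 312) (nat_lit 5) (nat_lit 313) (nat_lit 5) (nat_lit 475) (nat_lit 469) (nat_lit 256)))) (XT.nd (nat_lit 156) (nat_lit 0) (nat_lit 76) (XT.nd (nat_lit 78) (nat_lit 0) (nat_lit 76) (XT.lf (nat_lit 76) (nat_lit 8384258143) (nat_lit 0) (nat_lit 11719689374) (nat_lit 1292) (nat_lit 14628236467) (nat_lit 297) (nat_lit 5) (nat_lit 296) (nat_lit 5) (nat_lit 313) (nat_lit 5) (nat_lit 476) (nat_lit 469) (nat_lit 255)) (XT.lf (nat_lit 0) (nat_lit 21719724225) (nat_lit 1216) (nat_lit 8674339103) (nat_lit 1292) (nat_lit 4874308929) (nat_lit 297) (nat_lit 5) (nat_lit 313) (nat_lit 5) (nat_lit 314) (nat_lit 5) (nat_lit 477) (nat_lit 469) (nat_lit 254))) (XT.nd (nat_lit 78) (nat_lit 0) (nat_lit 76) (XT.lf (nat_lit 76) (nat_lit 9599257234) (nat_lit 0) (nat_lit 13990898154) (nat_lit 1292) (nat_lit 12224305650) (nat_lit 298) (nat_lit 5) (nat_lit 297) (nat_lit 5) (nat_lit 314) (nat_lit 5) (nat_lit 478) (nat_lit 469) (nat_lit 253))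 (XT.lf (nat_lit 0) (nat_lit 25631003662) (nat_lit 1216) (nat_lit 7805745271) (nat_lit 1292) (nat_lit 2936754709) (nat_lit 298) (nat_lit 5) (nat_lit 314) (nat_lit 5) (nat_lit 315) (nat_lit 5) (nat_lit 479) (nat_lit 469) (nat_lit 252))))) (XT.nd (nat_lit 312) (nat_lit 1140) (nat_lit 0) (XT.nd (nat_lit 156) (nat_lit 0) (nat_lit 76) (XT.nd (nat_lit 78) (nat_lit 0) (nat_lit 76) (XT.lf (nat_lit 76) (nat_lit 11235225870) (nat_lit 0) (nat_lit 16742360161) (nat_lit 1292) (nat_lit 8964396510) (nat_lit 299) (nat_lit 5) (nat_lit 298) (nat_lit 5) (nat_lit 315) (nat_lit 5) (nat_lit 480) (nat_lit 469) (nat_lit 251)) (XT.lf (nat_lit 0) (nat_lit 30476556546) (nat_lit 1216) (nat_lit 6524385165) (nat_lit 1292) (nat_lit 524114647) (nat_lit 299) (nat_lit 5) (nat_lit 315) (nat_lit 5) (nat_lit 316) (nat_lit 5) (nat_lit 481) (nat_lit 469) (nat_lit 250))) (XT.nd (nat_lit 78) (nat_lit 0) (nat_lit 0) (XT.lf (nat_lit 76) (nat_lit 13326242579)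 (nat_lit 0) (nat_lit 20016211144) (nat_lit 1292) (nat_lit 4774410200) (nat_lit 300) (nat_lit 5) (nat_lit 299) (nat_lit 5) (nat_lit 316) (nat_lit 5) (nat_lit 482) (nat_lit 469) (nat_lit 249)) (XT.lf (nat_lit 76) (nat_lit 33904655325) (nat_lit 0) (nat_lit 2453688981) (nat_lit 1292) (nat_lit 2366161167) (nat_lit 300) (nat_lit 5) (nat_lit 299) (nat_lit 5) (nat_lit 316) (nat_lit 5) (nat_lit 483) (nat_lit 469) (nat_lit 248)))) (XT.nd (nat_lit 156) (nat_lit 0) (nat_lit 76) (XT.nd (nat_lit 78) (nat_lit 0) (nat_lit 0) (XT.lf (nat_lit 0) (nat_lit 416503350) (nat_lit 1292) (nat_lit 23436730021) (nat_lit 1368) (nat_lit 15487978194) (nat_lit 283) (nat_lit 5) (nat_lit 300) (nat_lit 5) (nat_lit 301) (nat_lit 5) (nat_lit 484) (nat_lit 469) (nat_lit 247)) (XT.lf (nat_lit 0) (nat_lit 3306748911) (nat_lit 1292) (nat_lit 2675330248) (nat_lit 1368) (nat_lit 33991487333) (nat_lit 283) (nat_lit 5) (nat_lit 300) (nat_lit 5) (nat_lit 301)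 (nat_lit 5) (nat_lit 485) (nat_lit 469) (nat_lit 246))) (XT.nd (nat_lit 78) (nat_lit 0) (nat_lit 0) (XT.lf (nat_lit 0) (nat_lit 6586629126) (nat_lit 1292) (nat_lit 21660942744) (nat_lit 76) (nat_lit 12368232604) (nat_lit 284) (nat_lit 5) (nat_lit 301) (nat_lit 5) (nat_lit 285) (nat_lit 5) (nat_lit 486) (nat_lit 469) (nat_lit 245)) (XT.lf (nat_lit 0) (nat_lit 10049720066) (nat_lit 1292) (nat_lit 48702809) (nat_lit 76) (nat_lit 31176342509) (nat_lit 284) (nat_lit 5) (nat_lit 301) (nat_lit 5) (nat_lit 285) (nat_lit 5) (nat_lit 487) (nat_lit 469) (nat_lit 244)))))) (XT.nd (nat_lit 546) (nat_lit 2660) (nat_lit 0) (XT.nd (nat_lit 234) (nat_lit 1140) (nat_lit 0) (XT.nd (nat_lit 78) (nat_lit 608) (nat_lit 0) (XT.lf (nat_lit 0) (nat_lit 13917585337) (nat_lit 836) (nat_lit 19379321555) (nat_lit 76) (nat_lit 8647561996) (nat_lit 274) (nat_lit 5) (nat_lit 285) (nat_lit 5) (nat_lit 275) (nat_lit 5) (nat_lit 488) (nat_lit 469)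 (nat_lit 243)) (XT.nd (nat_lit 78) (nat_lit 0) (nat_lit 0) (XT.lf (nat_lit 0) (nat_lit 3184819962) (nat_lit 608) (nat_lit 14846149895) (nat_lit 684) (nat_lit 24599409346) (nat_lit 266) (nat_lit 5) (nat_lit 274) (nat_lit 5) (nat_lit 275) (nat_lit 5) (nat_lit 489) (nat_lit 469) (nat_lit 242)) (XT.lf (nat_lit 0) (nat_lit 22503778476) (nat_lit 684) (nat_lit 16551295723) (nat_lit 76) (nat_lit 4274712152) (nat_lit 266) (nat_lit 5) (nat_lit 275) (nat_lit 5) (nat_lit 267) (nat_lit 5) (nat_lit 490) (nat_lit 469) (nat_lit 241)))) (XT.nd (nat_lit 156) (nat_lit 532) (nat_lit 0) (XT.nd (nat_lit 78) (nat_lit 0) (nat_lit 0) (XT.lf (nat_lit 0) (nat_lit 7018265995) (nat_lit 608) (nat_lit 20305428155) (nat_lit 684) (nat_lit 16720094073) (nat_lit 258) (nat_lit 5) (nat_lit 266) (nat_lit 5) (nat_lit 267) (nat_lit 5) (nat_lit 491) (nat_lit 469) (nat_lit 240)) (XT.lf (nat_lit 0) (nat_lit 31632724735) (nat_lit 608) (nat_lit 821116003)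 (nat_lit 684) (nat_lit 12320400599) (nat_lit 258) (nat_lit 5) (nat_lit 266) (nat_lit 5) (nat_lit 267) (nat_lit 5) (nat_lit 492) (nat_lit 469) (nat_lit 239))) (XT.nd (nat_lit 78) (nat_lit 0) (nat_lit 0) (XT.lf (nat_lit 0) (nat_lit 11496856981) (nat_lit 532) (nat_lit 26535112292) (nat_lit 608) (nat_lit 7485816629) (nat_lit 251) (nat_lit 5) (nat_lit 258) (nat_lit 5) (nat_lit 259) (nat_lit 5) (nat_lit 493) (nat_lit 469) (nat_lit 238)) (XT.lf (nat_lit 0) (nat_lit 37134016405) (nat_lit 532) (nat_lit 6782749199) (nat_lit 608) (nat_lit 2362691659) (nat_lit 251) (nat_lit 5) (nat_lit 258) (nat_lit 5) (nat_lit 259) (nat_lit 5) (nat_lit 494) (nat_lit 469) (nat_lit 237))))) (XT.nd (nat_lit 312) (nat_lit 988) (nat_lit 0) (XT.nd (nat_lit 156) (nat_lit 1064) (nat_lit 0) (XT.nd (nat_lit 78) (nat_lit 0) (nat_lit 0) (XT.lf (nat_lit 0) (nat_lit 3149344958) (nat_lit 608) (nat_lit 30416408042) (nat_lit 76) (nat_lit 13488623070) (nat_lit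 243) (nat_lit 5) (nat_lit 251) (nat_lit 5) (nat_lit 244) (nat_lit 5) (nat_lit 495) (nat_lit 469) (nat_lit 236)) (XT.lf (nat_lit 0) (nat_lit 8938300695) (nat_lit 608) (nat_lit 4560357509) (nat_lit 76) (nat_lit 34348411238) (nat_lit 243) (nat_lit 5) (nat_lit 251) (nat_lit 5) (nat_lit 244) (nat_lit 5) (nat_lit 496) (nat_lit 469) (nat_lit 235))) (XT.nd (nat_lit 78) (nat_lit 532) (nat_lit 0) (XT.lf (nat_lit 0) (nat_lit 15187029749) (nat_lit 608) (nat_lit 26218982246) (nat_lit 76) (nat_lit 7248948638) (nat_lit 236) (nat_lit 5) (nat_lit 244) (nat_lit 5) (nat_lit 237) (nat_lit 5) (nat_lit 497) (nat_lit 469) (nat_lit 234)) (XT.lf (nat_lit 0) (nat_lit 728636947) (nat_lit 532) (nat_lit 21080433302) (nat_lit 608) (nat_lit 27672442977) (nat_lit 229) (nat_lit 5) (nat_lit 236) (nat_lit 5) (nat_lit 237) (nat_lit 5) (nat_lit 498) (nat_lit 469) (nat_lit 233)))) (XT.nd (nat_lit 156) (nat_lit 532) (nat_lit 0) (XT.nd (nat_lit 78) (nat_lit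 456) (nat_lit 0) (XT.lf (nat_lit 0) (nat_lit 28894470627) (nat_lit 608) (nat_lit 21305476697) (nat_lit 76) (nat_lit 124974262) (nat_lit 229) (nat_lit 5) (nat_lit 237) (nat_lit 5) (nat_lit 230) (nat_lit 5) (nat_lit 499) (nat_lit 469) (nat_lit 232)) (XT.lf (nat_lit 0) (nat_lit 6889633811) (nat_lit 456) (nat_lit 29576492893) (nat_lit 532) (nat_lit 14719294827) (nat_lit 223) (nat_lit 5) (nat_lit 229) (nat_lit 5) (nat_lit 230) (nat_lit 5) (nat_lit 500) (nat_lit 469) (nat_lit 231))) (XT.nd (nat_lit 78) (nat_lit 532) (nat_lit 0) (XT.lf (nat_lit 0) (nat_lit 36365917622) (nat_lit 456) (nat_lit 8112930304) (nat_lit 532) (nat_lit 7586471226) (nat_lit 223) (nat_lit 5) (nat_lit 229) (nat_lit 5) (nat_lit 230) (nat_lit 5) (nat_lit 501) (nat_lit 469) (nat_lit 230)) (XT.lf (nat_lit 0) (nat_lit 34504664) (nat_lit 532) (nat_lit 39073965002) (nat_lit 76) (nat_lit 13855128553) (nat_lit 216) (nat_lit 5) (nat_lit 223) (nat_lit 5) (nat_lit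 217) (nat_lit 5) (nat_lit 502) (nat_lit 469) (nat_lit 229))))))) (XT.nd (nat_lit 1170) (nat_lit 3116) (nat_lit 0) (XT.nd (nat_lit 546) (nat_lit 1520) (nat_lit 0) (XT.nd (nat_lit 234) (nat_lit 1368) (nat_lit 0) (XT.nd (nat_lit 78) (nat_lit 456) (nat_lit 0) (XT.lf (nat_lit 0) (nat_lit 7970873588) (nat_lit 532) (nat_lit 9354341509) (nat_lit 76) (nat_lit 36554179954) (nat_lit 216) (nat_lit 5) (nat_lit 223) (nat_lit 5) (nat_lit 217) (nat_lit 5) (nat_lit 503) (nat_lit 469) (nat_lit 228)) (XT.nd (nat_lit 78) (nat_lit 0) (nat_lit 0) (XT.lf (nat_lit 0) (nat_lit 16403766911) (nat_lit 532) (nat_lit 33189130908) (nat_lit 76) (nat_lit 5222015092) (nat_lit 210) (nat_lit 5) (nat_lit 217) (nat_lit 5) (nat_lit 211) (nat_lit 5) (nat_lit 504) (nat_lit 469) (nat_lit 227)) (XT.lf (nat_lit 0) (nat_lit 25355447582) (nat_lit 532) (nat_lit 2222471100) (nat_lit 76) (nat_lit 28192603731) (nat_lit 210) (nat_lit 5) (nat_lit 217) (nat_lit 5)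 (nat_lit 211) (nat_lit 5) (nat_lit 505) (nat_lit 469) (nat_lit 226)))) (XT.nd (nat_lit 156) (nat_lit 532) (nat_lit 0) (XT.nd (nat_lit 78) (nat_lit 380) (nat_lit 0) (XT.lf (nat_lit 0) (nat_lit 30262356243) (nat_lit 456) (nat_lit 4603123686) (nat_lit 532) (nat_lit 21880626350) (nat_lit 204) (nat_lit 5) (nat_lit 210) (nat_lit 5) (nat_lit 211) (nat_lit 5) (nat_lit 506) (nat_lit 469) (nat_lit 225)) (XT.lf (nat_lit 0) (nat_lit 5948250464) (nat_lit 380) (nat_lit 38974548467) (nat_lit 456) (nat_lit 12820299275) (nat_lit 199) (nat_lit 5) (nat_lit 204) (nat_lit 5) (nat_lit 205) (nat_lit 5) (nat_lit 507) (nat_lit 469) (nat_lit 224))) (XT.nd (nat_lit 78) (nat_lit 532) (nat_lit 0) (XT.lf (nat_lit 0) (nat_lit 39848256415) (nat_lit 380) (nat_lit 15745079605) (nat_lit 456) (nat_lit 3167319024) (nat_lit 199) (nat_lit 5) (nat_lit 204) (nat_lit 5) (nat_lit 205) (nat_lit 5) (nat_lit 508) (nat_lit 469) (nat_lit 223)) (XT.lf (nat_lit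 0) (nat_lit 6868709258) (nat_lit 532) (nat_lit 44696774229) (nat_lit 76) (nat_lit 8234531326) (nat_lit 192) (nat_lit 5) (nat_lit 199) (nat_lit 5) (nat_lit 193) (nat_lit 5) (nat_lit 509) (nat_lit 469) (nat_lit 222))))) (XT.nd (nat_lit 312) (nat_lit 760) (nat_lit 0) (XT.nd (nat_lit 156) (nat_lit 380) (nat_lit 0) (XT.nd (nat_lit 78) (nat_lit 380) (nat_lit 0) (XT.lf (nat_lit 0) (nat_lit 17489890538) (nat_lit 532) (nat_lit 10528292659) (nat_lit 76) (nat_lit 32840999526) (nat_lit 192) (nat_lit 5) (nat_lit 199) (nat_lit 5) (nat_lit 193) (nat_lit 5) (nat_lit 510) (nat_lit 469) (nat_lit 221)) (XT.lf (nat_lit 0) (nat_lit 25154784492) (nat_lit 380) (nat_lit 3515727136) (nat_lit 456) (nat_lit 33272390011) (nat_lit 187) (nat_lit 5) (nat_lit 192) (nat_lit 5) (nat_lit 193) (nat_lit 5) (nat_lit 511) (nat_lit 469) (nat_lit 220))) (XT.nd (nat_lit 78) (nat_lit 380) (nat_lit 0) (XT.lf (nat_lit 0) (nat_lit 40501736958) (nat_lit 456)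 (nat_lit 1142957739) (nat_lit 76) (nat_lit 21404981953) (nat_lit 187) (nat_lit 5) (nat_lit 193) (nat_lit 5) (nat_lit 188) (nat_lit 5) (nat_lit 512) (nat_lit 469) (nat_lit 219)) (XT.lf (nat_lit 0) (nat_lit 36242678463) (nat_lit 380) (nat_lit 16827459874) (nat_lit 456) (nat_lit 11108049488) (nat_lit 182) (nat_lit 5) (nat_lit 187) (nat_lit 5) (nat_lit 188) (nat_lit 5) (nat_lit 513) (nat_lit 469) (nat_lit 218)))) (XT.nd (nat_lit 156) (nat_lit 380) (nat_lit 0) (XT.nd (nat_lit 78) (nat_lit 0) (nat_lit 0) (XT.lf (nat_lit 0) (nat_lit 850024848) (nat_lit 380) (nat_lit 55809535315) (nat_lit 76) (nat_lit 8675154799) (nat_lit 177) (nat_lit 5) (nat_lit 182) (nat_lit 5) (nat_lit 178) (nat_lit 5) (nat_lit 514) (nat_lit 469) (nat_lit 217)) (XT.lf (nat_lit 0) (nat_lit 13394137386) (nat_lit 380) (nat_lit 18115829756) (nat_lit 76) (nat_lit 34999154730) (nat_lit 177) (nat_lit 5) (nat_lit 182) (nat_lit 5) (nat_lit 178) (nat_lit 5) (nat_lit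 515) (nat_lit 469) (nat_lit 216))) (XT.nd (nat_lit 78) (nat_lit 0) (nat_lit 0) (XT.lf (nat_lit 0) (nat_lit 21119530978) (nat_lit 380) (nat_lit 5397144890) (nat_lit 456) (nat_lit 41196022130) (nat_lit 172) (nat_lit 5) (nat_lit 177) (nat_lit 5) (nat_lit 178) (nat_lit 5) (nat_lit 516) (nat_lit 469) (nat_lit 215)) (XT.lf (nat_lit 0) (nat_lit 40423397857) (nat_lit 456) (nat_lit 7253342556) (nat_lit 76) (nat_lit 21263925853) (nat_lit 172) (nat_lit 5) (nat_lit 178) (nat_lit 5) (nat_lit 173) (nat_lit 5) (nat_lit 517) (nat_lit 469) (nat_lit 214)))))) (XT.nd (nat_lit 624) (nat_lit 1444) (nat_lit 0) (XT.nd (nat_lit 312) (nat_lit 684) (nat_lit 0) (XT.nd (nat_lit 156) (nat_lit 380) (nat_lit 0) (XT.nd (nat_lit 78) (nat_lit 304) (nat_lit 0) (XT.lf (nat_lit 0) (nat_lit 33872975656) (nat_lit 304) (nat_lit 21252516539) (nat_lit 380) (nat_lit 15068636343) (nat_lit 168) (nat_lit 5) (nat_lit 172) (nat_lit 5) (nat_lit 173) (nat_lit 5)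 (nat_lit 518) (nat_lit 469) (nat_lit 213)) (XT.lf (nat_lit 0) (nat_lit 4935770434) (nat_lit 304) (nat_lit 65510763925) (nat_lit 380) (nat_lit 1033323846) (nat_lit 164) (nat_lit 5) (nat_lit 168) (nat_lit 5) (nat_lit 169) (nat_lit 5) (nat_lit 519) (nat_lit 469) (nat_lit 212))) (XT.nd (nat_lit 78) (nat_lit 304) (nat_lit 0) (XT.lf (nat_lit 0) (nat_lit 13741081335) (nat_lit 380) (nat_lit 24962552597) (nat_lit 76) (nat_lit 34079256024) (nat_lit 163) (nat_lit 5) (nat_lit 168) (nat_lit 5) (nat_lit 164) (nat_lit 5) (nat_lit 520) (nat_lit 469) (nat_lit 211)) (XT.lf (nat_lit 0) (nat_lit 18210320857) (nat_lit 304) (nat_lit 10901843338) (nat_lit 380) (nat_lit 45007315177) (nat_lit 159) (nat_lit 5) (nat_lit 163) (nat_lit 5) (nat_lit 164) (nat_lit 5) (nat_lit 521) (nat_lit 469) (nat_lit 210)))) (XT.nd (nat_lit 156) (nat_lit 380) (nat_lit 0) (XT.nd (nat_lit 78) (nat_lit 304) (nat_lit 0) (XT.lf (nat_lit 0) (nat_lit 45368592646)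 (nat_lit 380) (nat_lit 12472716484) (nat_lit 76) (nat_lit 17642131014) (nat_lit 159) (nat_lit 5) (nat_lit 164) (nat_lit 5) (nat_lit 160) (nat_lit 5) (nat_lit 522) (nat_lit 469) (nat_lit 209)) (XT.lf (nat_lit 0) (nat_lit 32797681902) (nat_lit 304) (nat_lit 29737440953) (nat_lit 380) (nat_lit 14340524684) (nat_lit 155) (nat_lit 5) (nat_lit 159) (nat_lit 5) (nat_lit 160) (nat_lit 5) (nat_lit 523) (nat_lit 469) (nat_lit 208))) (XT.nd (nat_lit 78) (nat_lit 0) (nat_lit 0) (XT.lf (nat_lit 0) (nat_lit 1382218613) (nat_lit 304) (nat_lit 627282495) (nat_lit 380) (nat_lit 76295379573) (nat_lit 150) (nat_lit 5) (nat_lit 154) (nat_lit 5) (nat_lit 155) (nat_lit 5) (nat_lit 524) (nat_lit 469) (nat_lit 207)) (XT.lf (nat_lit 0) (nat_lit 19292705275) (nat_lit 380) (nat_lit 31083667104) (nat_lit 76) (nat_lit 29374431699) (nat_lit 150) (nat_lit 5) (nat_lit 155) (nat_lit 5) (nat_lit 151) (nat_lit 5) (nat_lit 525) (nat_lit 469) (nat_lit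 206))))) (XT.nd (nat_lit 312) (nat_lit 836) (nat_lit 0) (XT.nd (nat_lit 156) (nat_lit 304) (nat_lit 0) (XT.nd (nat_lit 78) (nat_lit 0) (nat_lit 0) (XT.lf (nat_lit 0) (nat_lit 16443992903) (nat_lit 304) (nat_lit 20813926512) (nat_lit 380) (nat_lit 43977280404) (nat_lit 146) (nat_lit 5) (nat_lit 150) (nat_lit 5) (nat_lit 151) (nat_lit 5) (nat_lit 526) (nat_lit 469) (nat_lit 205)) (XT.lf (nat_lit 0) (nat_lit 56170943743) (nat_lit 380) (nat_lit 16816955435) (nat_lit 76) (nat_lit 9763962697) (nat_lit 146) (nat_lit 5) (nat_lit 151) (nat_lit 5) (nat_lit 147) (nat_lit 5) (nat_lit 527) (nat_lit 469) (nat_lit 204))) (XT.nd (nat_lit 78) (nat_lit 76) (nat_lit 0) (XT.lf (nat_lit 0) (nat_lit 33033907191) (nat_lit 228) (nat_lit 43140334953) (nat_lit 304) (nat_lit 8124095204) (nat_lit 143) (nat_lit 5) (nat_lit 146) (nat_lit 5) (nat_lit 147) (nat_lit 5) (nat_lit 528) (nat_lit 469) (nat_lit 203)) (XT.lf (nat_lit 0) (nat_lit 10844764583)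 (nat_lit 304) (nat_lit 1268565989) (nat_lit 76) (nat_lit 73769614181) (nat_lit 142) (nat_lit 5) (nat_lit 146) (nat_lit 5) (nat_lit 143) (nat_lit 5) (nat_lit 529) (nat_lit 469) (nat_lit 202)))) (XT.nd (nat_lit 156) (nat_lit 304) (nat_lit 0) (XT.nd (nat_lit 78) (nat_lit 228) (nat_lit 0) (XT.lf (nat_lit 0) (nat_lit 30906732407) (nat_lit 380) (nat_lit 36550752002) (nat_lit 76) (nat_lit 20034573069) (nat_lit 138) (nat_lit 5) (nat_lit 143) (nat_lit 5) (nat_lit 139) (nat_lit 5) (nat_lit 530) (nat_lit 469) (nat_lit 201)) (XT.lf (nat_lit 0) (nat_lit 15781180485) (nat_lit 228) (nat_lit 36073241600) (nat_lit 304) (nat_lit 37286505664) (nat_lit 135) (nat_lit 5) (nat_lit 138) (nat_lit 5) (nat_lit 139) (nat_lit 5) (nat_lit 531) (nat_lit 469) (nat_lit 200))) (XT.nd (nat_lit 78) (nat_lit 304) (nat_lit 0) (XT.lf (nat_lit 0) (nat_lit 70431212004) (nat_lit 228) (nat_lit 3367724878) (nat_lit 304) (nat_lit 17029275461) (nat_lit 135)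 (nat_lit 5) (nat_lit 138) (nat_lit 5) (nat_lit 139) (nat_lit 5) (nat_lit 532) (nat_lit 469) (nat_lit 199)) (XT.lf (nat_lit 0) (nat_lit 4389735138) (nat_lit 304) (nat_lit 58054460748) (nat_lit 76) (nat_lit 30101946169) (nat_lit 131) (nat_lit 5) (nat_lit 135) (nat_lit 5) (nat_lit 132) (nat_lit 5) (nat_lit 533) (nat_lit 469) (nat_lit 198))))))))
noncomputable def xc227 : XT := (XT.nd (nat_lit 59202) (nat_lit 0) (nat_lit 3268) (XT.nd (nat_lit 58032) (nat_lit 0) (nat_lit 11400) (XT.nd (nat_lit 546) (nat_lit 152) (nat_lit 0) (XT.nd (nat_lit 234) (nat_lit 532) (nat_lit 0) (XT.nd (nat_lit 78) (nat_lit 456) (nat_lit 0) (XT.lf (nat_lit 0) (nat_lit 26349719876) (nat_lit 304) (nat_lit 3069378754) (nat_lit 76) (nat_lit 64884232609) (nat_lit 131) (nat_lit 5) (nat_lit 135) (nat_lit 5) (nat_lit 132) (nat_lit 5) (nat_lit 534) (nat_lit 469) (nat_lit 197)) (XT.nd (nat_lit 78) (nat_lit 228) (nat_lit 0) (XT.lf (nat_lit 0) (nat_lit 49542367792)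 (nat_lit 304) (nat_lit 41516664132) (nat_lit 76) (nat_lit 5036988308) (nat_lit 128) (nat_lit 5) (nat_lit 132) (nat_lit 5) (nat_lit 129) (nat_lit 5) (nat_lit 535) (nat_lit 469) (nat_lit 196)) (XT.lf (nat_lit 0) (nat_lit 16100431176) (nat_lit 228) (nat_lit 57807058312) (nat_lit 304) (nat_lit 24020699618) (nat_lit 125) (nat_lit 5) (nat_lit 128) (nat_lit 5) (nat_lit 129) (nat_lit 5) (nat_lit 536) (nat_lit 469) (nat_lit 195)))) (XT.nd (nat_lit 156) (nat_lit 228) (nat_lit 0) (XT.nd (nat_lit 78) (nat_lit 304) (nat_lit 0) (XT.lf (nat_lit 0) (nat_lit 76296027433) (nat_lit 228) (nat_lit 23126130457) (nat_lit 304) (nat_lit 380607402) (nat_lit 125) (nat_lit 5) (nat_lit 128) (nat_lit 5) (nat_lit 129) (nat_lit 5) (nat_lit 537) (nat_lit 469) (nat_lit 194)) (XT.lf (nat_lit 0) (nat_lit 23983418467) (nat_lit 304) (nat_lit 64787322673) (nat_lit 76) (nat_lit 12941452221) (nat_lit 121) (nat_lit 5) (nat_lit 125) (nat_lit 5) (nat_lit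 122) (nat_lit 5) (nat_lit 538) (nat_lit 469) (nat_lit 193))) (XT.nd (nat_lit 78) (nat_lit 228) (nat_lit 0) (XT.lf (nat_lit 0) (nat_lit 49538782219) (nat_lit 304) (nat_lit 4256629734) (nat_lit 76) (nat_lit 49869337297) (nat_lit 121) (nat_lit 5) (nat_lit 125) (nat_lit 5) (nat_lit 122) (nat_lit 5) (nat_lit 539) (nat_lit 469) (nat_lit 192)) (XT.lf (nat_lit 0) (nat_lit 59245049863) (nat_lit 228) (nat_lit 17184648110) (nat_lit 304) (nat_lit 29229117143) (nat_lit 118) (nat_lit 5) (nat_lit 121) (nat_lit 5) (nat_lit 122) (nat_lit 5) (nat_lit 540) (nat_lit 469) (nat_lit 191))))) (XT.nd (nat_lit 57174) (nat_lit 0) (nat_lit 13528) (XT.nd (nat_lit 57018) (nat_lit 0) (nat_lit 13452) (XT.nd (nat_lit 56940) (nat_lit 0) (nat_lit 13452) (XT.lf (nat_lit 0) (nat_lit 17163809244) (nat_lit 152) (nat_lit 87368619184) (nat_lit 228) (nat_lit 3168121948) (nat_lit 116) (nat_lit 5) (nat_lit 118) (nat_lit 5) (nat_lit 119) (nat_lit 5) (nat_lit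 541) (nat_lit 469) (nat_lit 190)) (XT.lf (nat_lit 0) (nat_lit 7285071083) (nat_lit 1292) (nat_lit 4409054990) (nat_lit 1292) (nat_lit 4409054990) (nat_lit 293) (nat_lit 3) (nat_lit 310) (nat_lit 3) (nat_lit 310) (nat_lit 5) (nat_lit 470) (nat_lit 470) (nat_lit 260))) (XT.nd (nat_lit 78) (nat_lit 0) (nat_lit 76) (XT.lf (nat_lit 76) (nat_lit 7232247721) (nat_lit 0) (nat_lit 7688775974) (nat_lit 1292) (nat_lit 17764455250) (nat_lit 294) (nat_lit 5) (nat_lit 293) (nat_lit 3) (nat_lit 310) (nat_lit 5) (nat_lit 471) (nat_lit 470) (nat_lit 259)) (XT.lf (nat_lit 0) (nat_lit 15451437751) (nat_lit 1216) (nat_lit 9315205159) (nat_lit 1292) (nat_lit 8407256517) (nat_lit 294) (nat_lit 5) (nat_lit 310) (nat_lit 5) (nat_lit 311) (nat_lit 5) (nat_lit 472) (nat_lit 470) (nat_lit 258)))) (XT.nd (nat_lit 156) (nat_lit 0) (nat_lit 76) (XT.nd (nat_lit 78) (nat_lit 0) (nat_lit 76) (XT.lf (nat_lit 76) (nat_lit 7373383213) (nat_lit 0)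 (nat_lit 8769004087) (nat_lit 1292) (nat_lit 17530246860) (nat_lit 295) (nat_lit 5) (nat_lit 294) (nat_lit 5) (nat_lit 311) (nat_lit 5) (nat_lit 473) (nat_lit 470) (nat_lit 257)) (XT.lf (nat_lit 0) (nat_lit 17020846832) (nat_lit 1216) (nat_lit 9506357813) (nat_lit 1292) (nat_lit 7654123168) (nat_lit 295) (nat_lit 5) (nat_lit 311) (nat_lit 5) (nat_lit 312) (nat_lit 5) (nat_lit 474) (nat_lit 470) (nat_lit 256))) (XT.nd (nat_lit 78) (nat_lit 0) (nat_lit 76) (XT.lf (nat_lit 76) (nat_lit 7855428904) (nat_lit 0) (nat_lit 10230317086) (nat_lit 1292) (nat_lit 16614734022) (nat_lit 296) (nat_lit 5) (nat_lit 295) (nat_lit 5) (nat_lit 312) (nat_lit 5) (nat_lit 475) (nat_lit 470) (nat_lit 255)) (XT.lf (nat_lit 0) (nat_lit 19340366912) (nat_lit 1216) (nat_lit 9364772457) (nat_lit 1292) (nat_lit 6525334467) (nat_lit 296) (nat_lit 5) (nat_lit 312) (nat_lit 5) (nat_lit 313) (nat_lit 5) (nat_lit 476) (nat_lit 470) (nat_lit 254))))))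 (XT.nd (nat_lit 546) (nat_lit 2280) (nat_lit 0) (XT.nd (nat_lit 234) (nat_lit 0) (nat_lit 152) (XT.nd (nat_lit 78) (nat_lit 0) (nat_lit 76) (XT.lf (nat_lit 76) (nat_lit 8707153495) (nat_lit 0) (nat_lit 12108338910) (nat_lit 1292) (nat_lit 14955389386) (nat_lit 297) (nat_lit 5) (nat_lit 296) (nat_lit 5) (nat_lit 313) (nat_lit 5) (nat_lit 477) (nat_lit 470) (nat_lit 253)) (XT.nd (nat_lit 78) (nat_lit 0) (nat_lit 0) (XT.lf (nat_lit 0) (nat_lit 22476238505) (nat_lit 1216) (nat_lit 8861761943) (nat_lit 1292) (nat_lit 4985260815) (nat_lit 297) (nat_lit 5) (nat_lit 313) (nat_lit 5) (nat_lit 314) (nat_lit 5) (nat_lit 478) (nat_lit 470) (nat_lit 252)) (XT.lf (nat_lit 76) (nat_lit 9959328486) (nat_lit 0) (nat_lit 14441091127) (nat_lit 1292) (nat_lit 12485384406) (nat_lit 298) (nat_lit 5) (nat_lit 297) (nat_lit 5) (nat_lit 314) (nat_lit 5) (nat_lit 479) (nat_lit 470) (nat_lit 251)))) (XT.nd (nat_lit 156) (nat_lit 0) (nat_lit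 76) (XT.nd (nat_lit 78) (nat_lit 0) (nat_lit 0) (XT.lf (nat_lit 0) (nat_lit 26499221836) (nat_lit 1216) (nat_lit 7966638752) (nat_lit 1292) (nat_lit 2995855868) (nat_lit 298) (nat_lit 5) (nat_lit 314) (nat_lit 5) (nat_lit 315) (nat_lit 5) (nat_lit 480) (nat_lit 470) (nat_lit 250)) (XT.lf (nat_lit 76) (nat_lit 11644843103) (nat_lit 0) (nat_lit 17269164183) (nat_lit 1292) (nat_lit 9133308666) (nat_lit 299) (nat_lit 5) (nat_lit 298) (nat_lit 5) (nat_lit 315) (nat_lit 5) (nat_lit 481) (nat_lit 470) (nat_lit 249))) (XT.nd (nat_lit 78) (nat_lit 0) (nat_lit 0) (XT.lf (nat_lit 0) (nat_lit 31484889986) (nat_lit 1216) (nat_lit 6646599874) (nat_lit 1292) (nat_lit 516484217) (nat_lit 299) (nat_lit 5) (nat_lit 315) (nat_lit 5) (nat_lit 316) (nat_lit 5) (nat_lit 482) (nat_lit 470) (nat_lit 248)) (XT.lf (nat_lit 76) (nat_lit 13798825948) (nat_lit 0) (nat_lit 20635898956) (nat_lit 1292) (nat_lit 4822872514) (nat_lit 300) (nat_lit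 5) (nat_lit 299) (nat_lit 5) (nat_lit 316) (nat_lit 5) (nat_lit 483) (nat_lit 470) (nat_lit 247))))) (XT.nd (nat_lit 312) (nat_lit 1292) (nat_lit 0) (XT.nd (nat_lit 156) (nat_lit 0) (nat_lit 0) (XT.nd (nat_lit 78) (nat_lit 1216) (nat_lit 0) (XT.lf (nat_lit 76) (nat_lit 34992470802) (nat_lit 0) (nat_lit 2545941862) (nat_lit 1292) (nat_lit 2345136302) (nat_lit 300) (nat_lit 5) (nat_lit 299) (nat_lit 5) (nat_lit 316) (nat_lit 5) (nat_lit 484) (nat_lit 470) (nat_lit 246)) (XT.lf (nat_lit 0) (nat_lit 517116382) (nat_lit 1292) (nat_lit 24065241124) (nat_lit 1368) (nat_lit 15936435433) (nat_lit 283) (nat_lit 5) (nat_lit 300) (nat_lit 5) (nat_lit 301) (nat_lit 5) (nat_lit 485) (nat_lit 470) (nat_lit 245))) (XT.nd (nat_lit 78) (nat_lit 0) (nat_lit 76) (XT.lf (nat_lit 0) (nat_lit 3491502769) (nat_lit 1292) (nat_lit 2683171905) (nat_lit 1368) (nat_lit 34995521170) (nat_lit 283) (nat_lit 5) (nat_lit 300) (nat_lit 5) (nat_lit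 301) (nat_lit 5) (nat_lit 486) (nat_lit 470) (nat_lit 244)) (XT.lf (nat_lit 0) (nat_lit 6867861164) (nat_lit 1292) (nat_lit 22236423772) (nat_lit 76) (nat_lit 12727473900) (nat_lit 284) (nat_lit 5) (nat_lit 301) (nat_lit 5) (nat_lit 285) (nat_lit 5) (nat_lit 487) (nat_lit 470) (nat_lit 243)))) (XT.nd (nat_lit 156) (nat_lit 608) (nat_lit 0) (XT.nd (nat_lit 78) (nat_lit 0) (nat_lit 0) (XT.lf (nat_lit 0) (nat_lit 22456105) (nat_lit 760) (nat_lit 10410168671) (nat_lit 836) (nat_lit 32077930713) (nat_lit 274) (nat_lit 5) (nat_lit 284) (nat_lit 5) (nat_lit 285) (nat_lit 5) (nat_lit 488) (nat_lit 470) (nat_lit 242)) (XT.lf (nat_lit 0) (nat_lit 14414554893) (nat_lit 836) (nat_lit 19886753991) (nat_lit 76) (nat_lit 8899100651) (nat_lit 274) (nat_lit 5) (nat_lit 285) (nat_lit 5) (nat_lit 275) (nat_lit 5) (nat_lit 489) (nat_lit 470) (nat_lit 241))) (XT.nd (nat_lit 78) (nat_lit 0) (nat_lit 0) (XT.lf (nat_lit 0) (nat_lit 3353586799)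 (nat_lit 608) (nat_lit 15296144163) (nat_lit 684) (nat_lit 25257214794) (nat_lit 266) (nat_lit 5) (nat_lit 274) (nat_lit 5) (nat_lit 275) (nat_lit 5) (nat_lit 490) (nat_lit 470) (nat_lit 240)) (XT.lf (nat_lit 0) (nat_lit 23254413866) (nat_lit 684) (nat_lit 16974425494) (nat_lit 76) (nat_lit 4398565344) (nat_lit 266) (nat_lit 5) (nat_lit 275) (nat_lit 5) (nat_lit 267) (nat_lit 5) (nat_lit 491) (nat_lit 470) (nat_lit 239))))))) (XT.nd (nat_lit 1170) (nat_lit 3876) (nat_lit 0) (XT.nd (nat_lit 546) (nat_lit 1976) (nat_lit 0) (XT.nd (nat_lit 234) (nat_lit 1140) (nat_lit 0) (XT.nd (nat_lit 78) (nat_lit 532) (nat_lit 0) (XT.lf (nat_lit 0) (nat_lit 7301503378) (nat_lit 608) (nat_lit 20915922696) (nat_lit 684) (nat_lit 17145445865) (nat_lit 258) (nat_lit 5) (nat_lit 266) (nat_lit 5) (nat_lit 267) (nat_lit 5) (nat_lit 492) (nat_lit 470) (nat_lit 238)) (XT.nd (nat_lit 78) (nat_lit 532) (nat_lit 0) (XT.lf (nat_lit 0) (nat_lit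 32652278714) (nat_lit 608) (nat_lit 847042392) (nat_lit 684) (nat_lit 12615982491) (nat_lit 258) (nat_lit 5) (nat_lit 266) (nat_lit 5) (nat_lit 267) (nat_lit 5) (nat_lit 493) (nat_lit 470) (nat_lit 237)) (XT.lf (nat_lit 0) (nat_lit 11913799104) (nat_lit 532) (nat_lit 27329581625) (nat_lit 608) (nat_lit 7637816415) (nat_lit 251) (nat_lit 5) (nat_lit 258) (nat_lit 5) (nat_lit 259) (nat_lit 5) (nat_lit 494) (nat_lit 470) (nat_lit 236)))) (XT.nd (nat_lit 156) (nat_lit 532) (nat_lit 0) (XT.nd (nat_lit 78) (nat_lit 608) (nat_lit 0) (XT.lf (nat_lit 0) (nat_lit 38317975162) (nat_lit 532) (nat_lit 6984693776) (nat_lit 608) (nat_lit 2363111523) (nat_lit 251) (nat_lit 5) (nat_lit 258) (nat_lit 5) (nat_lit 259) (nat_lit 5) (nat_lit 495) (nat_lit 470) (nat_lit 235)) (XT.lf (nat_lit 0) (nat_lit 3311605485) (nat_lit 608) (nat_lit 31256265029) (nat_lit 76) (nat_lit 13896095414) (nat_lit 243) (nat_lit 5) (nat_lit 251) (nat_lit 5)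 (nat_lit 244) (nat_lit 5) (nat_lit 496) (nat_lit 470) (nat_lit 234))) (XT.nd (nat_lit 78) (nat_lit 532) (nat_lit 0) (XT.lf (nat_lit 0) (nat_lit 9272255713) (nat_lit 608) (nat_lit 4626648570) (nat_lit 76) (nat_lit 35381595276) (nat_lit 243) (nat_lit 5) (nat_lit 251) (nat_lit 5) (nat_lit 244) (nat_lit 5) (nat_lit 497) (nat_lit 470) (nat_lit 233)) (XT.lf (nat_lit 0) (nat_lit 15707251828) (nat_lit 608) (nat_lit 26933829679) (nat_lit 76) (nat_lit 7471582050) (nat_lit 236) (nat_lit 5) (nat_lit 244) (nat_lit 5) (nat_lit 237) (nat_lit 5) (nat_lit 498) (nat_lit 470) (nat_lit 232))))) (XT.nd (nat_lit 312) (nat_lit 988) (nat_lit 0) (XT.nd (nat_lit 156) (nat_lit 456) (nat_lit 0) (XT.nd (nat_lit 78) (nat_lit 0) (nat_lit 0) (XT.lf (nat_lit 0) (nat_lit 821514933) (nat_lit 532) (nat_lit 21705239409) (nat_lit 608) (nat_lit 28437294583) (nat_lit 229) (nat_lit 5) (nat_lit 236) (nat_lit 5) (nat_lit 237) (nat_lit 5) (nat_lit 499) (nat_lit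 470) (nat_lit 231)) (XT.lf (nat_lit 0) (nat_lit 29822940772) (nat_lit 608) (nat_lit 21873907547) (nat_lit 76) (nat_lit 135964708) (nat_lit 229) (nat_lit 5) (nat_lit 237) (nat_lit 5) (nat_lit 230) (nat_lit 5) (nat_lit 500) (nat_lit 470) (nat_lit 230))) (XT.nd (nat_lit 78) (nat_lit 0) (nat_lit 0) (XT.lf (nat_lit 0) (nat_lit 7166362811) (nat_lit 456) (nat_lit 30454261764) (nat_lit 532) (nat_lit 15098537263) (nat_lit 223) (nat_lit 5) (nat_lit 229) (nat_lit 5) (nat_lit 230) (nat_lit 5) (nat_lit 501) (nat_lit 470) (nat_lit 229)) (XT.lf (nat_lit 0) (nat_lit 37524895137) (nat_lit 456) (nat_lit 8347069751) (nat_lit 532) (nat_lit 7753544577) (nat_lit 223) (nat_lit 5) (nat_lit 229) (nat_lit 5) (nat_lit 230) (nat_lit 5) (nat_lit 502) (nat_lit 470) (nat_lit 228)))) (XT.nd (nat_lit 156) (nat_lit 456) (nat_lit 0) (XT.nd (nat_lit 78) (nat_lit 0) (nat_lit 0) (XT.lf (nat_lit 0) (nat_lit 93908245) (nat_lit 532) (nat_lit 40176018770)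 (nat_lit 76) (nat_lit 14280821767) (nat_lit 216) (nat_lit 5) (nat_lit 223) (nat_lit 5) (nat_lit 217) (nat_lit 5) (nat_lit 503) (nat_lit 470) (nat_lit 227)) (XT.lf (nat_lit 0) (nat_lit 8266668184) (nat_lit 532) (nat_lit 9566850218) (nat_lit 76) (nat_lit 37660552302) (nat_lit 216) (nat_lit 5) (nat_lit 223) (nat_lit 5) (nat_lit 217) (nat_lit 5) (nat_lit 504) (nat_lit 470) (nat_lit 226))) (XT.nd (nat_lit 78) (nat_lit 0) (nat_lit 0) (XT.lf (nat_lit 0) (nat_lit 16951659486) (nat_lit 532) (nat_lit 34115788510) (nat_lit 76) (nat_lit 5390232949) (nat_lit 210) (nat_lit 5) (nat_lit 217) (nat_lit 5) (nat_lit 211) (nat_lit 5) (nat_lit 505) (nat_lit 470) (nat_lit 225)) (XT.lf (nat_lit 0) (nat_lit 26170265929) (nat_lit 532) (nat_lit 2222139092) (nat_lit 76) (nat_lit 29049602623) (nat_lit 210) (nat_lit 5) (nat_lit 217) (nat_lit 5) (nat_lit 211) (nat_lit 5) (nat_lit 506) (nat_lit 470) (nat_lit 224)))))) (XT.nd (nat_lit 624) (nat_lit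 1748) (nat_lit 0) (XT.nd (nat_lit 312) (nat_lit 760) (nat_lit 0) (XT.nd (nat_lit 156) (nat_lit 532) (nat_lit 0) (XT.nd (nat_lit 78) (nat_lit 380) (nat_lit 0) (XT.lf (nat_lit 0) (nat_lit 31236576149) (nat_lit 456) (nat_lit 4728083559) (nat_lit 532) (nat_lit 22482227673) (nat_lit 204) (nat_lit 5) (nat_lit 210) (nat_lit 5) (nat_lit 211) (nat_lit 5) (nat_lit 507) (nat_lit 470) (nat_lit 223)) (XT.lf (nat_lit 0) (nat_lit 6193858081) (nat_lit 380) (nat_lit 40129058394) (nat_lit 456) (nat_lit 13150896209) (nat_lit 199) (nat_lit 5) (nat_lit 204) (nat_lit 5) (nat_lit 205) (nat_lit 5) (nat_lit 508) (nat_lit 470) (nat_lit 222))) (XT.nd (nat_lit 78) (nat_lit 532) (nat_lit 0) (XT.lf (nat_lit 0) (nat_lit 41108908091) (nat_lit 380) (nat_lit 16203134394) (nat_lit 456) (nat_lit 3209899717) (nat_lit 199) (nat_lit 5) (nat_lit 204) (nat_lit 5) (nat_lit 205) (nat_lit 5) (nat_lit 509) (nat_lit 470) (nat_lit 221)) (XT.lf (nat_lit 0) (nat_lit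 7125463546) (nat_lit 532) (nat_lit 45970717459) (nat_lit 76) (nat_lit 8496308463) (nat_lit 192) (nat_lit 5) (nat_lit 199) (nat_lit 5) (nat_lit 193) (nat_lit 5) (nat_lit 510) (nat_lit 470) (nat_lit 220)))) (XT.nd (nat_lit 156) (nat_lit 380) (nat_lit 0) (XT.nd (nat_lit 78) (nat_lit 380) (nat_lit 0) (XT.lf (nat_lit 0) (nat_lit 18063803769) (nat_lit 532) (nat_lit 10779131734) (nat_lit 76) (nat_lit 33840541354) (nat_lit 192) (nat_lit 5) (nat_lit 199) (nat_lit 5) (nat_lit 193) (nat_lit 5) (nat_lit 511) (nat_lit 470) (nat_lit 219)) (XT.lf (nat_lit 0) (nat_lit 25973800382) (nat_lit 380) (nat_lit 3605228406) (nat_lit 456) (nat_lit 34220703136) (nat_lit 187) (nat_lit 5) (nat_lit 192) (nat_lit 5) (nat_lit 193) (nat_lit 5) (nat_lit 512) (nat_lit 470) (nat_lit 218))) (XT.nd (nat_lit 78) (nat_lit 380) (nat_lit 0) (XT.lf (nat_lit 0) (nat_lit 41763930163) (nat_lit 456) (nat_lit 1113483751) (nat_lit 76) (nat_lit 22062334228) (nat_lit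 187) (nat_lit 5) (nat_lit 193) (nat_lit 5) (nat_lit 188) (nat_lit 5) (nat_lit 513) (nat_lit 470) (nat_lit 217)) (XT.lf (nat_lit 0) (nat_lit 37393096412) (nat_lit 380) (nat_lit 17315521048) (nat_lit 456) (nat_lit 11393520311) (nat_lit 182) (nat_lit 5) (nat_lit 187) (nat_lit 5) (nat_lit 188) (nat_lit 5) (nat_lit 514) (nat_lit 470) (nat_lit 216))))) (XT.nd (nat_lit 312) (nat_lit 988) (nat_lit 0) (XT.nd (nat_lit 156) (nat_lit 380) (nat_lit 0) (XT.nd (nat_lit 78) (nat_lit 0) (nat_lit 0) (XT.lf (nat_lit 0) (nat_lit 921776622) (nat_lit 380) (nat_lit 57419155650) (nat_lit 76) (nat_lit 8952432421) (nat_lit 177) (nat_lit 5) (nat_lit 182) (nat_lit 5) (nat_lit 178) (nat_lit 5) (nat_lit 515) (nat_lit 470) (nat_lit 215)) (XT.lf (nat_lit 0) (nat_lit 13840865419) (nat_lit 380) (nat_lit 18596522393) (nat_lit 76) (nat_lit 36065656536) (nat_lit 177) (nat_lit 5) (nat_lit 182) (nat_lit 5) (nat_lit 178) (nat_lit 5) (nat_lit 516) (nat_lit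 470) (nat_lit 214))) (XT.nd (nat_lit 78) (nat_lit 0) (nat_lit 0) (XT.lf (nat_lit 0) (nat_lit 21815283651) (nat_lit 380) (nat_lit 5541086108) (nat_lit 456) (nat_lit 42386379424) (nat_lit 172) (nat_lit 5) (nat_lit 177) (nat_lit 5) (nat_lit 178) (nat_lit 5) (nat_lit 517) (nat_lit 470) (nat_lit 213)) (XT.lf (nat_lit 0) (nat_lit 41679173952) (nat_lit 456) (nat_lit 7409463484) (nat_lit 76) (nat_lit 21918952762) (nat_lit 172) (nat_lit 5) (nat_lit 178) (nat_lit 5) (nat_lit 173) (nat_lit 5) (nat_lit 518) (nat_lit 470) (nat_lit 212)))) (XT.nd (nat_lit 156) (nat_lit 380) (nat_lit 0) (XT.nd (nat_lit 78) (nat_lit 304) (nat_lit 0) (XT.lf (nat_lit 0) (nat_lit 34950041535) (nat_lit 304) (nat_lit 21871620181) (nat_lit 380) (nat_lit 15477014817) (nat_lit 168) (nat_lit 5) (nat_lit 172) (nat_lit 5) (nat_lit 173) (nat_lit 5) (nat_lit 519) (nat_lit 470) (nat_lit 211)) (XT.lf (nat_lit 0) (nat_lit 5145210859) (nat_lit 304) (nat_lit 67456651488)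 (nat_lit 380) (nat_lit 1021130035) (nat_lit 164) (nat_lit 5) (nat_lit 168) (nat_lit 5) (nat_lit 169) (nat_lit 5) (nat_lit 520) (nat_lit 470) (nat_lit 210))) (XT.nd (nat_lit 78) (nat_lit 304) (nat_lit 0) (XT.lf (nat_lit 0) (nat_lit 14194430925) (nat_lit 380) (nat_lit 25651027546) (nat_lit 76) (nat_lit 35119681266) (nat_lit 163) (nat_lit 5) (nat_lit 168) (nat_lit 5) (nat_lit 164) (nat_lit 5) (nat_lit 521) (nat_lit 470) (nat_lit 209)) (XT.lf (nat_lit 0) (nat_lit 18816439939) (nat_lit 304) (nat_lit 11209583671) (nat_lit 380) (nat_lit 46315822006) (nat_lit 159) (nat_lit 5) (nat_lit 163) (nat_lit 5) (nat_lit 164) (nat_lit 5) (nat_lit 522) (nat_lit 470) (nat_lit 208))))))))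
noncomputable def xc228 : XT := (XT.nd (nat_lit 59358) (nat_lit 0) (nat_lit 5624) (XT.nd (nat_lit 1170) (nat_lit 532) (nat_lit 0) (XT.nd (nat_lit 546) (nat_lit 1368) (nat_lit 0) (XT.nd (nat_lit 234) (nat_lit 532) (nat_lit 0) (XT.nd (nat_lit 78) (nat_lit 684) (nat_lit 0) (XT.lf (nat_lit 0) (nat_lit 46769145723) (nat_lit 380) (nat_lit 12787828146) (nat_lit 76) (nat_lit 18189781414) (nat_lit 159) (nat_lit 5) (nat_lit 164) (nat_lit 5) (nat_lit 160) (nat_lit 5) (nat_lit 523) (nat_lit 470) (nat_lit 207)) (XT.nd (nat_lit 78) (nat_lit 380) (nat_lit 0) (XT.lf (nat_lit 0) (nat_lit 33840103076) (nat_lit 304) (nat_lit 30609980661) (nat_lit 380) (nat_lit 14730662897) (nat_lit 155) (nat_lit 5) (nat_lit 159) (nat_lit 5) (nat_lit 160) (nat_lit 5) (nat_lit 524) (nat_lit 470) (nat_lit 206)) (XT.lf (nat_lit 0) (nat_lit 1482379833) (nat_lit 304) (nat_lit 626121459) (nat_lit 380) (nat_lit 78544361419) (nat_lit 150) (nat_lit 5) (nat_lit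 154) (nat_lit 5) (nat_lit 155) (nat_lit 5) (nat_lit 525) (nat_lit 470) (nat_lit 205)))) (XT.nd (nat_lit 156) (nat_lit 228) (nat_lit 0) (XT.nd (nat_lit 78) (nat_lit 304) (nat_lit 0) (XT.lf (nat_lit 0) (nat_lit 19909260420) (nat_lit 380) (nat_lit 31958247994) (nat_lit 76) (nat_lit 30274683717) (nat_lit 150) (nat_lit 5) (nat_lit 155) (nat_lit 5) (nat_lit 151) (nat_lit 5) (nat_lit 526) (nat_lit 470) (nat_lit 204)) (XT.lf (nat_lit 0) (nat_lit 16994673881) (nat_lit 304) (nat_lit 21418208281) (nat_lit 380) (nat_lit 45258254129) (nat_lit 146) (nat_lit 5) (nat_lit 150) (nat_lit 5) (nat_lit 151) (nat_lit 5) (nat_lit 527) (nat_lit 470) (nat_lit 203))) (XT.nd (nat_lit 78) (nat_lit 228) (nat_lit 0) (XT.lf (nat_lit 0) (nat_lit 57892400914) (nat_lit 380) (nat_lit 17264874629) (nat_lit 76) (nat_lit 10076049636) (nat_lit 146) (nat_lit 5) (nat_lit 151) (nat_lit 5) (nat_lit 147) (nat_lit 5) (nat_lit 528) (nat_lit 470) (nat_lit 202))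 (XT.lf (nat_lit 0) (nat_lit 34080959077) (nat_lit 228) (nat_lit 44414319707) (nat_lit 304) (nat_lit 8330931794) (nat_lit 143) (nat_lit 5) (nat_lit 146) (nat_lit 5) (nat_lit 147) (nat_lit 5) (nat_lit 529) (nat_lit 470) (nat_lit 201))))) (XT.nd (nat_lit 312) (nat_lit 760) (nat_lit 0) (XT.nd (nat_lit 156) (nat_lit 228) (nat_lit 0) (XT.nd (nat_lit 78) (nat_lit 304) (nat_lit 0) (XT.lf (nat_lit 0) (nat_lit 11205220609) (nat_lit 304) (nat_lit 1251519099) (nat_lit 76) (nat_lit 76001637537) (nat_lit 142) (nat_lit 5) (nat_lit 146) (nat_lit 5) (nat_lit 143) (nat_lit 5) (nat_lit 530) (nat_lit 470) (nat_lit 200)) (XT.lf (nat_lit 0) (nat_lit 31868741016) (nat_lit 380) (nat_lit 37591861853) (nat_lit 76) (nat_lit 20655169748) (nat_lit 138) (nat_lit 5) (nat_lit 143) (nat_lit 5) (nat_lit 139) (nat_lit 5) (nat_lit 531) (nat_lit 470) (nat_lit 199))) (XT.nd (nat_lit 78) (nat_lit 0) (nat_lit 0) (XT.lf (nat_lit 0) (nat_lit 16309485347)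 (nat_lit 228) (nat_lit 37134889690) (nat_lit 304) (nat_lit 38369748619) (nat_lit 135) (nat_lit 5) (nat_lit 138) (nat_lit 5) (nat_lit 139) (nat_lit 5) (nat_lit 532) (nat_lit 470) (nat_lit 198)) (XT.lf (nat_lit 0) (nat_lit 72597419673) (nat_lit 228) (nat_lit 3448805985) (nat_lit 304) (nat_lit 17505831185) (nat_lit 135) (nat_lit 5) (nat_lit 138) (nat_lit 5) (nat_lit 139) (nat_lit 5) (nat_lit 533) (nat_lit 470) (nat_lit 197)))) (XT.nd (nat_lit 156) (nat_lit 456) (nat_lit 0) (XT.nd (nat_lit 78) (nat_lit 0) (nat_lit 0) (XT.lf (nat_lit 0) (nat_lit 4554807696) (nat_lit 304) (nat_lit 59741876921) (nat_lit 76) (nat_lit 31024838164) (nat_lit 131) (nat_lit 5) (nat_lit 135) (nat_lit 5) (nat_lit 132) (nat_lit 5) (nat_lit 534) (nat_lit 470) (nat_lit 196)) (XT.lf (nat_lit 0) (nat_lit 27172619729) (nat_lit 304) (nat_lit 3108821622) (nat_lit 76) (nat_lit 66850015519) (nat_lit 131) (nat_lit 5) (nat_lit 135) (nat_lit 5) (nat_lit 132)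 (nat_lit 5) (nat_lit 535) (nat_lit 470) (nat_lit 195))) (XT.nd (nat_lit 78) (nat_lit 228) (nat_lit 0) (XT.lf (nat_lit 0) (nat_lit 51060797947) (nat_lit 304) (nat_lit 42709274428) (nat_lit 76) (nat_lit 5207861692) (nat_lit 128) (nat_lit 5) (nat_lit 132) (nat_lit 5) (nat_lit 129) (nat_lit 5) (nat_lit 536) (nat_lit 470) (nat_lit 194)) (XT.lf (nat_lit 0) (nat_lit 16635815214) (nat_lit 228) (nat_lit 59520624829) (nat_lit 304) (nat_lit 24708641019) (nat_lit 125) (nat_lit 5) (nat_lit 128) (nat_lit 5) (nat_lit 129) (nat_lit 5) (nat_lit 537) (nat_lit 470) (nat_lit 193)))))) (XT.nd (nat_lit 57564) (nat_lit 0) (nat_lit 13452) (XT.nd (nat_lit 57252) (nat_lit 0) (nat_lit 13300) (XT.nd (nat_lit 156) (nat_lit 532) (nat_lit 0) (XT.lf (nat_lit 0) (nat_lit 78635753987) (nat_lit 228) (nat_lit 23799870456) (nat_lit 304) (nat_lit 360297869) (nat_lit 125) (nat_lit 5) (nat_lit 128) (nat_lit 5) (nat_lit 129) (nat_lit 5) (nat_lit 538) (nat_lit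 470) (nat_lit 192)) (XT.nd (nat_lit 78) (nat_lit 228) (nat_lit 0) (XT.lf (nat_lit 0) (nat_lit 51054933335) (nat_lit 304) (nat_lit 4334144342) (nat_lit 76) (nat_lit 51384712696) (nat_lit 121) (nat_lit 5) (nat_lit 125) (nat_lit 5) (nat_lit 122) (nat_lit 5) (nat_lit 540) (nat_lit 470) (nat_lit 190)) (XT.lf (nat_lit 0) (nat_lit 61072093640) (nat_lit 228) (nat_lit 17680087168) (nat_lit 304) (nat_lit 30075509331) (nat_lit 118) (nat_lit 5) (nat_lit 121) (nat_lit 5) (nat_lit 122) (nat_lit 5) (nat_lit 541) (nat_lit 470) (nat_lit 189)))) (XT.nd (nat_lit 156) (nat_lit 0) (nat_lit 76) (XT.nd (nat_lit 78) (nat_lit 0) (nat_lit 0) (XT.lf (nat_lit 0) (nat_lit 7565828067) (nat_lit 1292) (nat_lit 4509286817) (nat_lit 1292) (nat_lit 4509286817) (nat_lit 293) (nat_lit 3) (nat_lit 310) (nat_lit 3) (nat_lit 310) (nat_lit 5) (nat_lit 471) (nat_lit 471) (nat_lit 258)) (XT.lf (nat_lit 76) (nat_lit 7512666565) (nat_lit 0) (nat_lit 7977383893)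 (nat_lit 1292) (nat_lit 18172334181) (nat_lit 294) (nat_lit 5) (nat_lit 293) (nat_lit 3) (nat_lit 310) (nat_lit 5) (nat_lit 472) (nat_lit 471) (nat_lit 257))) (XT.nd (nat_lit 78) (nat_lit 0) (nat_lit 0) (XT.lf (nat_lit 0) (nat_lit 16032300353) (nat_lit 1216) (nat_lit 9528965114) (nat_lit 1292) (nat_lit 8604315055) (nat_lit 294) (nat_lit 5) (nat_lit 310) (nat_lit 5) (nat_lit 311) (nat_lit 5) (nat_lit 473) (nat_lit 471) (nat_lit 256)) (XT.lf (nat_lit 76) (nat_lit 7659636829) (nat_lit 0) (nat_lit 9081549809) (nat_lit 1292) (nat_lit 17938174888) (nat_lit 295) (nat_lit 5) (nat_lit 294) (nat_lit 5) (nat_lit 311) (nat_lit 5) (nat_lit 474) (nat_lit 471) (nat_lit 255))))) (XT.nd (nat_lit 312) (nat_lit 0) (nat_lit 152) (XT.nd (nat_lit 156) (nat_lit 0) (nat_lit 76) (XT.nd (nat_lit 78) (nat_lit 0) (nat_lit 0) (XT.lf (nat_lit 0) (nat_lit 17642202459) (nat_lit 1216) (nat_lit 9724578287) (nat_lit 1292) (nat_lit 7836649629) (nat_lit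 295) (nat_lit 5) (nat_lit 311) (nat_lit 5) (nat_lit 312) (nat_lit 5) (nat_lit 475) (nat_lit 471) (nat_lit 254)) (XT.lf (nat_lit 76) (nat_lit 8157405461) (nat_lit 0) (nat_lit 10579055427) (nat_lit 1292) (nat_lit 17001774330) (nat_lit 296) (nat_lit 5) (nat_lit 295) (nat_lit 5) (nat_lit 312) (nat_lit 5) (nat_lit 476) (nat_lit 471) (nat_lit 253))) (XT.nd (nat_lit 78) (nat_lit 0) (nat_lit 0) (XT.lf (nat_lit 0) (nat_lit 20025180282) (nat_lit 1216) (nat_lit 9577778768) (nat_lit 1292) (nat_lit 6681276446) (nat_lit 296) (nat_lit 5) (nat_lit 312) (nat_lit 5) (nat_lit 313) (nat_lit 5) (nat_lit 477) (nat_lit 471) (nat_lit 252)) (XT.lf (nat_lit 76) (nat_lit 9035638914) (nat_lit 0) (nat_lit 12506520602) (nat_lit 1292) (nat_lit 15298768594) (nat_lit 297) (nat_lit 5) (nat_lit 296) (nat_lit 5) (nat_lit 313) (nat_lit 5) (nat_lit 478) (nat_lit 471) (nat_lit 251)))) (XT.nd (nat_lit 156) (nat_lit 0) (nat_lit 76) (XT.nd (nat_lit 78)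 (nat_lit 0) (nat_lit 0) (XT.lf (nat_lit 0) (nat_lit 23249425230) (nat_lit 1216) (nat_lit 9058986907) (nat_lit 1292) (nat_lit 5101566324) (nat_lit 297) (nat_lit 5) (nat_lit 313) (nat_lit 5) (nat_lit 314) (nat_lit 5) (nat_lit 479) (nat_lit 471) (nat_lit 250)) (XT.lf (nat_lit 76) (nat_lit 10326063413) (nat_lit 0) (nat_lit 14903041014) (nat_lit 1292) (nat_lit 12760360290) (nat_lit 298) (nat_lit 5) (nat_lit 297) (nat_lit 5) (nat_lit 314) (nat_lit 5) (nat_lit 480) (nat_lit 471) (nat_lit 249))) (XT.nd (nat_lit 78) (nat_lit 0) (nat_lit 0) (XT.lf (nat_lit 0) (nat_lit 27387787014) (nat_lit 1216) (nat_lit 8136565544) (nat_lit 1292) (nat_lit 3058394866) (nat_lit 298) (nat_lit 5) (nat_lit 314) (nat_lit 5) (nat_lit 315) (nat_lit 5) (nat_lit 481) (nat_lit 471) (nat_lit 248)) (XT.lf (nat_lit 76) (nat_lit 12062583586) (nat_lit 0) (nat_lit 17810364019) (nat_lit 1292) (nat_lit 9313029728) (nat_lit 299) (nat_lit 5) (nat_lit 298) (nat_lit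 5) (nat_lit 315) (nat_lit 5) (nat_lit 482) (nat_lit 471) (nat_lit 247))))))) (XT.nd (nat_lit 1170) (nat_lit 3876) (nat_lit 0) (XT.nd (nat_lit 546) (nat_lit 2356) (nat_lit 0) (XT.nd (nat_lit 234) (nat_lit 1900) (nat_lit 0) (XT.nd (nat_lit 78) (nat_lit 0) (nat_lit 0) (XT.lf (nat_lit 0) (nat_lit 32518075335) (nat_lit 1216) (nat_lit 6776701192) (nat_lit 1292) (nat_lit 509965481) (nat_lit 299) (nat_lit 5) (nat_lit 315) (nat_lit 5) (nat_lit 316) (nat_lit 5) (nat_lit 483) (nat_lit 471) (nat_lit 246)) (XT.nd (nat_lit 78) (nat_lit 0) (nat_lit 0) (XT.lf (nat_lit 76) (nat_lit 14281408026) (nat_lit 0) (nat_lit 21273075159) (nat_lit 1292) (nat_lit 4878228883) (nat_lit 300) (nat_lit 5) (nat_lit 299) (nat_lit 5) (nat_lit 316) (nat_lit 5) (nat_lit 484) (nat_lit 471) (nat_lit 245)) (XT.lf (nat_lit 76) (nat_lit 36108863663) (nat_lit 0) (nat_lit 2639892190) (nat_lit 1292) (nat_lit 2328762424) (nat_lit 300) (nat_lit 5) (nat_lit 299)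 (nat_lit 5) (nat_lit 316) (nat_lit 5) (nat_lit 485) (nat_lit 471) (nat_lit 244)))) (XT.nd (nat_lit 156) (nat_lit 684) (nat_lit 0) (XT.nd (nat_lit 78) (nat_lit 0) (nat_lit 0) (XT.lf (nat_lit 0) (nat_lit 615689476) (nat_lit 1292) (nat_lit 24716889377) (nat_lit 1368) (nat_lit 16399275308) (nat_lit 283) (nat_lit 5) (nat_lit 300) (nat_lit 5) (nat_lit 301) (nat_lit 5) (nat_lit 486) (nat_lit 471) (nat_lit 243)) (XT.lf (nat_lit 0) (nat_lit 3676888242) (nat_lit 1292) (nat_lit 2695405916) (nat_lit 1368) (nat_lit 36030577885) (nat_lit 283) (nat_lit 5) (nat_lit 300) (nat_lit 5) (nat_lit 301) (nat_lit 5) (nat_lit 487) (nat_lit 471) (nat_lit 242))) (XT.nd (nat_lit 78) (nat_lit 760) (nat_lit 0) (XT.lf (nat_lit 0) (nat_lit 7152729277) (nat_lit 1292) (nat_lit 22833437067) (nat_lit 76) (nat_lit 13098170128) (nat_lit 284) (nat_lit 5) (nat_lit 301) (nat_lit 5) (nat_lit 285) (nat_lit 5) (nat_lit 488) (nat_lit 471) (nat_lit 241)) (XT.lf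 (nat_lit 0) (nat_lit 92522153) (nat_lit 760) (nat_lit 10730284601) (nat_lit 836) (nat_lit 32960739439) (nat_lit 274) (nat_lit 5) (nat_lit 284) (nat_lit 5) (nat_lit 285) (nat_lit 5) (nat_lit 489) (nat_lit 471) (nat_lit 240))))) (XT.nd (nat_lit 312) (nat_lit 1140) (nat_lit 0) (XT.nd (nat_lit 156) (nat_lit 608) (nat_lit 0) (XT.nd (nat_lit 78) (nat_lit 608) (nat_lit 0) (XT.lf (nat_lit 0) (nat_lit 14921873241) (nat_lit 836) (nat_lit 20413654273) (nat_lit 76) (nat_lit 9158638281) (nat_lit 274) (nat_lit 5) (nat_lit 285) (nat_lit 5) (nat_lit 275) (nat_lit 5) (nat_lit 490) (nat_lit 471) (nat_lit 239)) (XT.lf (nat_lit 0) (nat_lit 3523213384) (nat_lit 608) (nat_lit 15759373639) (nat_lit 684) (nat_lit 25939356884) (nat_lit 266) (nat_lit 5) (nat_lit 274) (nat_lit 5) (nat_lit 275) (nat_lit 5) (nat_lit 491) (nat_lit 471) (nat_lit 238))) (XT.nd (nat_lit 78) (nat_lit 608) (nat_lit 0) (XT.lf (nat_lit 0) (nat_lit 24023233043) (nat_lit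 684) (nat_lit 17414463141) (nat_lit 76) (nat_lit 4526386031) (nat_lit 266) (nat_lit 5) (nat_lit 275) (nat_lit 5) (nat_lit 267) (nat_lit 5) (nat_lit 492) (nat_lit 471) (nat_lit 237)) (XT.lf (nat_lit 0) (nat_lit 7589065213) (nat_lit 608) (nat_lit 21544655629) (nat_lit 684) (nat_lit 17587935332) (nat_lit 258) (nat_lit 5) (nat_lit 266) (nat_lit 5) (nat_lit 267) (nat_lit 5) (nat_lit 493) (nat_lit 471) (nat_lit 236)))) (XT.nd (nat_lit 156) (nat_lit 608) (nat_lit 0) (XT.nd (nat_lit 78) (nat_lit 532) (nat_lit 0) (XT.lf (nat_lit 0) (nat_lit 33698368176) (nat_lit 608) (nat_lit 873672355) (nat_lit 684) (nat_lit 12924681472) (nat_lit 258) (nat_lit 5) (nat_lit 266) (nat_lit 5) (nat_lit 267) (nat_lit 5) (nat_lit 494) (nat_lit 471) (nat_lit 235)) (XT.lf (nat_lit 0) (nat_lit 12339114305) (nat_lit 532) (nat_lit 28147975968) (nat_lit 608) (nat_lit 7798542281) (nat_lit 251) (nat_lit 5) (nat_lit 258) (nat_lit 5) (nat_lit 259) (nat_lit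 5) (nat_lit 495) (nat_lit 471) (nat_lit 234))) (XT.nd (nat_lit 78) (nat_lit 608) (nat_lit 0) (XT.lf (nat_lit 0) (nat_lit 39533437940) (nat_lit 532) (nat_lit 7192784973) (nat_lit 608) (nat_lit 2367588726) (nat_lit 251) (nat_lit 5) (nat_lit 258) (nat_lit 5) (nat_lit 259) (nat_lit 5) (nat_lit 496) (nat_lit 471) (nat_lit 233)) (XT.lf (nat_lit 0) (nat_lit 3474842967) (nat_lit 608) (nat_lit 32125487286) (nat_lit 76) (nat_lit 14315630413) (nat_lit 243) (nat_lit 5) (nat_lit 251) (nat_lit 5) (nat_lit 244) (nat_lit 5) (nat_lit 497) (nat_lit 471) (nat_lit 232)))))) (XT.nd (nat_lit 546) (nat_lit 1824) (nat_lit 0) (XT.nd (nat_lit 234) (nat_lit 988) (nat_lit 0) (XT.nd (nat_lit 78) (nat_lit 1064) (nat_lit 0) (XT.lf (nat_lit 0) (nat_lit 9612451848) (nat_lit 608) (nat_lit 4698976480) (nat_lit 76) (nat_lit 36445618024) (nat_lit 243) (nat_lit 5) (nat_lit 251) (nat_lit 5) (nat_lit 244) (nat_lit 5) (nat_lit 498) (nat_lit 471) (nat_lit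 231)) (XT.nd (nat_lit 78) (nat_lit 532) (nat_lit 0) (XT.lf (nat_lit 0) (nat_lit 16239371623) (nat_lit 608) (nat_lit 27674239674) (nat_lit 76) (nat_lit 7700597974) (nat_lit 236) (nat_lit 5) (nat_lit 244) (nat_lit 5) (nat_lit 237) (nat_lit 5) (nat_lit 499) (nat_lit 471) (nat_lit 230)) (XT.lf (nat_lit 0) (nat_lit 913102484) (nat_lit 532) (nat_lit 22349226366) (nat_lit 608) (nat_lit 29228841468) (nat_lit 229) (nat_lit 5) (nat_lit 236) (nat_lit 5) (nat_lit 237) (nat_lit 5) (nat_lit 500) (nat_lit 471) (nat_lit 229)))) (XT.nd (nat_lit 156) (nat_lit 532) (nat_lit 0) (XT.nd (nat_lit 78) (nat_lit 456) (nat_lit 0) (XT.lf (nat_lit 0) (nat_lit 30775726861) (nat_lit 608) (nat_lit 22463451713) (nat_lit 76) (nat_lit 146869192) (nat_lit 229) (nat_lit 5) (nat_lit 237) (nat_lit 5) (nat_lit 230) (nat_lit 5) (nat_lit 501) (nat_lit 471) (nat_lit 228)) (XT.lf (nat_lit 0) (nat_lit 7447373098) (nat_lit 456) (nat_lit 31358910528) (nat_lit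 532) (nat_lit 15492735336) (nat_lit 223) (nat_lit 5) (nat_lit 229) (nat_lit 5) (nat_lit 230) (nat_lit 5) (nat_lit 502) (nat_lit 471) (nat_lit 227))) (XT.nd (nat_lit 78) (nat_lit 532) (nat_lit 0) (XT.lf (nat_lit 0) (nat_lit 38714738499) (nat_lit 456) (nat_lit 8588764281) (nat_lit 532) (nat_lit 7929104269) (nat_lit 223) (nat_lit 5) (nat_lit 229) (nat_lit 5) (nat_lit 230) (nat_lit 5) (nat_lit 503) (nat_lit 471) (nat_lit 226)) (XT.lf (nat_lit 0) (nat_lit 151743345) (nat_lit 532) (nat_lit 41315161919) (nat_lit 76) (nat_lit 14718709478) (nat_lit 216) (nat_lit 5) (nat_lit 223) (nat_lit 5) (nat_lit 217) (nat_lit 5) (nat_lit 504) (nat_lit 471) (nat_lit 225))))) (XT.nd (nat_lit 312) (nat_lit 912) (nat_lit 0) (XT.nd (nat_lit 156) (nat_lit 456) (nat_lit 0) (XT.nd (nat_lit 78) (nat_lit 456) (nat_lit 0) (XT.lf (nat_lit 0) (nat_lit 8568083621) (nat_lit 532) (nat_lit 9789644643) (nat_lit 76) (nat_lit 38799556306) (nat_lit 216)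 (nat_lit 5) (nat_lit 223) (nat_lit 5) (nat_lit 217) (nat_lit 5) (nat_lit 505) (nat_lit 471) (nat_lit 224)) (XT.lf (nat_lit 0) (nat_lit 17512786862) (nat_lit 532) (nat_lit 35074207659) (nat_lit 76) (nat_lit 5562833899) (nat_lit 210) (nat_lit 5) (nat_lit 217) (nat_lit 5) (nat_lit 211) (nat_lit 5) (nat_lit 506) (nat_lit 471) (nat_lit 223))) (XT.nd (nat_lit 78) (nat_lit 456) (nat_lit 0) (XT.lf (nat_lit 0) (nat_lit 27006420113) (nat_lit 532) (nat_lit 2225643550) (nat_lit 76) (nat_lit 29931667364) (nat_lit 210) (nat_lit 5) (nat_lit 217) (nat_lit 5) (nat_lit 211) (nat_lit 5) (nat_lit 507) (nat_lit 471) (nat_lit 222)) (XT.lf (nat_lit 0) (nat_lit 32236213935) (nat_lit 456) (nat_lit 4857546164) (nat_lit 532) (nat_lit 23105023783) (nat_lit 204) (nat_lit 5) (nat_lit 210) (nat_lit 5) (nat_lit 211) (nat_lit 5) (nat_lit 508) (nat_lit 471) (nat_lit 221)))) (XT.nd (nat_lit 156) (nat_lit 532) (nat_lit 0) (XT.nd (nat_lit 78) (nat_lit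 0) (nat_lit 0) (XT.lf (nat_lit 0) (nat_lit 6442978661) (nat_lit 380) (nat_lit 41319048981) (nat_lit 456) (nat_lit 13494511564) (nat_lit 199) (nat_lit 5) (nat_lit 204) (nat_lit 5) (nat_lit 205) (nat_lit 5) (nat_lit 509) (nat_lit 471) (nat_lit 220)) (XT.lf (nat_lit 0) (nat_lit 42403636342) (nat_lit 380) (nat_lit 16675751568) (nat_lit 456) (nat_lit 3256768037) (nat_lit 199) (nat_lit 5) (nat_lit 204) (nat_lit 5) (nat_lit 205) (nat_lit 5) (nat_lit 510) (nat_lit 471) (nat_lit 219))) (XT.nd (nat_lit 78) (nat_lit 0) (nat_lit 0) (XT.lf (nat_lit 0) (nat_lit 7387010477) (nat_lit 532) (nat_lit 47286722765) (nat_lit 76) (nat_lit 8765092709) (nat_lit 192) (nat_lit 5) (nat_lit 199) (nat_lit 5) (nat_lit 193) (nat_lit 5) (nat_lit 511) (nat_lit 471) (nat_lit 218)) (XT.lf (nat_lit 0) (nat_lit 18652109168) (nat_lit 532) (nat_lit 11041227805) (nat_lit 76) (nat_lit 34869247879) (nat_lit 192) (nat_lit 5) (nat_lit 199) (nat_lit 5) (nat_lit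 193) (nat_lit 5) (nat_lit 512) (nat_lit 471) (nat_lit 217))))))))
noncomputable def xc229 : XT := (XT.nd (nat_lit 59436) (nat_lit 0) (nat_lit 7752) (XT.nd (nat_lit 1170) (nat_lit 2204) (nat_lit 0) (XT.nd (nat_lit 546) (nat_lit 1672) (nat_lit 0) (XT.nd (nat_lit 234) (nat_lit 760) (nat_lit 0) (XT.nd (nat_lit 78) (nat_lit 380) (nat_lit 0) (XT.lf (nat_lit 0) (nat_lit 26813691512) (nat_lit 380) (nat_lit 3698331489) (nat_lit 456) (nat_lit 35200327740) (nat_lit 187) (nat_lit 5) (nat_lit 192) (nat_lit 5) (nat_lit 193) (nat_lit 5) (nat_lit 513) (nat_lit 471) (nat_lit 216)) (XT.nd (nat_lit 78) (nat_lit 380) (nat_lit 0) (XT.lf (nat_lit 0) (nat_lit 43061283073) (nat_lit 456) (nat_lit 1086785785) (nat_lit 76) (nat_lit 22738534368) (nat_lit 187) (nat_lit 5) (nat_lit 193) (nat_lit 5) (nat_lit 188) (nat_lit 5) (nat_lit 514) (nat_lit 471) (nat_lit 215)) (XT.lf (nat_lit 0) (nat_lit 38574402543) (nat_lit 380) (nat_lit 17819186299)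 (nat_lit 456) (nat_lit 11690297490) (nat_lit 182) (nat_lit 5) (nat_lit 187) (nat_lit 5) (nat_lit 188) (nat_lit 5) (nat_lit 515) (nat_lit 471) (nat_lit 214)))) (XT.nd (nat_lit 156) (nat_lit 380) (nat_lit 0) (XT.nd (nat_lit 78) (nat_lit 0) (nat_lit 0) (XT.lf (nat_lit 0) (nat_lit 993025952) (nat_lit 380) (nat_lit 59080776673) (nat_lit 76) (nat_lit 9237051184) (nat_lit 177) (nat_lit 5) (nat_lit 182) (nat_lit 5) (nat_lit 178) (nat_lit 5) (nat_lit 516) (nat_lit 471) (nat_lit 213)) (XT.lf (nat_lit 0) (nat_lit 14298417626) (nat_lit 380) (nat_lit 19095239767) (nat_lit 76) (nat_lit 37163204669) (nat_lit 177) (nat_lit 5) (nat_lit 182) (nat_lit 5) (nat_lit 178) (nat_lit 5) (nat_lit 517) (nat_lit 471) (nat_lit 212))) (XT.nd (nat_lit 78) (nat_lit 0) (nat_lit 0) (XT.lf (nat_lit 0) (nat_lit 22528340279) (nat_lit 380) (nat_lit 5690377294) (nat_lit 456) (nat_lit 43615060665) (nat_lit 172) (nat_lit 5) (nat_lit 177) (nat_lit 5) (nat_lit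 178) (nat_lit 5) (nat_lit 518) (nat_lit 471) (nat_lit 211)) (XT.lf (nat_lit 0) (nat_lit 42970150697) (nat_lit 456) (nat_lit 7573797206) (nat_lit 76) (nat_lit 22592648345) (nat_lit 172) (nat_lit 5) (nat_lit 178) (nat_lit 5) (nat_lit 173) (nat_lit 5) (nat_lit 519) (nat_lit 471) (nat_lit 210))))) (XT.nd (nat_lit 312) (nat_lit 684) (nat_lit 0) (XT.nd (nat_lit 156) (nat_lit 380) (nat_lit 0) (XT.nd (nat_lit 78) (nat_lit 304) (nat_lit 0) (XT.lf (nat_lit 0) (nat_lit 36055924825) (nat_lit 304) (nat_lit 22510357292) (nat_lit 380) (nat_lit 15900152090) (nat_lit 168) (nat_lit 5) (nat_lit 172) (nat_lit 5) (nat_lit 173) (nat_lit 5) (nat_lit 520) (nat_lit 471) (nat_lit 209)) (XT.lf (nat_lit 0) (nat_lit 5357411761) (nat_lit 304) (nat_lit 69462031347) (nat_lit 380) (nat_lit 1011049895) (nat_lit 164) (nat_lit 5) (nat_lit 168) (nat_lit 5) (nat_lit 169) (nat_lit 5) (nat_lit 521) (nat_lit 471) (nat_lit 208))) (XT.nd (nat_lit 78) (nat_lit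 304) (nat_lit 0) (XT.lf (nat_lit 0) (nat_lit 14659020711) (nat_lit 380) (nat_lit 26363624044) (nat_lit 76) (nat_lit 36190283262) (nat_lit 163) (nat_lit 5) (nat_lit 168) (nat_lit 5) (nat_lit 164) (nat_lit 5) (nat_lit 522) (nat_lit 471) (nat_lit 207)) (XT.lf (nat_lit 0) (nat_lit 19437309286) (nat_lit 304) (nat_lit 11527664971) (nat_lit 380) (nat_lit 47665978514) (nat_lit 159) (nat_lit 5) (nat_lit 163) (nat_lit 5) (nat_lit 164) (nat_lit 5) (nat_lit 523) (nat_lit 471) (nat_lit 206)))) (XT.nd (nat_lit 156) (nat_lit 380) (nat_lit 0) (XT.nd (nat_lit 78) (nat_lit 304) (nat_lit 0) (XT.lf (nat_lit 0) (nat_lit 48209448199) (nat_lit 380) (nat_lit 13115784008) (nat_lit 76) (nat_lit 18752805867) (nat_lit 159) (nat_lit 5) (nat_lit 164) (nat_lit 5) (nat_lit 160) (nat_lit 5) (nat_lit 524) (nat_lit 471) (nat_lit 205)) (XT.lf (nat_lit 0) (nat_lit 34910439278) (nat_lit 304) (nat_lit 31509820736) (nat_lit 380) (nat_lit 15134805871)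 (nat_lit 155) (nat_lit 5) (nat_lit 159) (nat_lit 5) (nat_lit 160) (nat_lit 5) (nat_lit 525) (nat_lit 471) (nat_lit 204))) (XT.nd (nat_lit 78) (nat_lit 0) (nat_lit 0) (XT.lf (nat_lit 0) (nat_lit 1582176577) (nat_lit 304) (nat_lit 626072497) (nat_lit 380) (nat_lit 80863101970) (nat_lit 150) (nat_lit 5) (nat_lit 154) (nat_lit 5) (nat_lit 155) (nat_lit 5) (nat_lit 526) (nat_lit 471) (nat_lit 203)) (XT.lf (nat_lit 0) (nat_lit 20542143838) (nat_lit 380) (nat_lit 32862391679) (nat_lit 76) (nat_lit 31200851523) (nat_lit 150) (nat_lit 5) (nat_lit 155) (nat_lit 5) (nat_lit 151) (nat_lit 5) (nat_lit 527) (nat_lit 471) (nat_lit 202)))))) (XT.nd (nat_lit 546) (nat_lit 1064) (nat_lit 0) (XT.nd (nat_lit 234) (nat_lit 608) (nat_lit 0) (XT.nd (nat_lit 78) (nat_lit 228) (nat_lit 0) (XT.lf (nat_lit 0) (nat_lit 17558582521) (nat_lit 304) (nat_lit 22041774394) (nat_lit 380) (nat_lit 46579858209) (nat_lit 146) (nat_lit 5) (nat_lit 150)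 (nat_lit 5) (nat_lit 151) (nat_lit 5) (nat_lit 528) (nat_lit 471) (nat_lit 201)) (XT.nd (nat_lit 78) (nat_lit 228) (nat_lit 0) (XT.lf (nat_lit 0) (nat_lit 59663416375) (nat_lit 380) (nat_lit 17729479866) (nat_lit 76) (nat_lit 10396398859) (nat_lit 146) (nat_lit 5) (nat_lit 151) (nat_lit 5) (nat_lit 147) (nat_lit 5) (nat_lit 529) (nat_lit 471) (nat_lit 200)) (XT.lf (nat_lit 0) (nat_lit 35156205900) (nat_lit 228) (nat_lit 45727685019) (nat_lit 304) (nat_lit 8546090905) (nat_lit 143) (nat_lit 5) (nat_lit 146) (nat_lit 5) (nat_lit 147) (nat_lit 5) (nat_lit 530) (nat_lit 471) (nat_lit 199)))) (XT.nd (nat_lit 156) (nat_lit 228) (nat_lit 0) (XT.nd (nat_lit 78) (nat_lit 304) (nat_lit 0) (XT.lf (nat_lit 0) (nat_lit 11574474682) (nat_lit 304) (nat_lit 1237123989) (nat_lit 76) (nat_lit 78299534651) (nat_lit 142) (nat_lit 5) (nat_lit 146) (nat_lit 5) (nat_lit 143) (nat_lit 5) (nat_lit 531) (nat_lit 471) (nat_lit 198)) (XT.lf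 (nat_lit 0) (nat_lit 32857611839) (nat_lit 380) (nat_lit 38667385915) (nat_lit 76) (nat_lit 21293261534) (nat_lit 138) (nat_lit 5) (nat_lit 143) (nat_lit 5) (nat_lit 139) (nat_lit 5) (nat_lit 532) (nat_lit 471) (nat_lit 197))) (XT.nd (nat_lit 78) (nat_lit 0) (nat_lit 0) (XT.lf (nat_lit 0) (nat_lit 16850489625) (nat_lit 228) (nat_lit 38229566828) (nat_lit 304) (nat_lit 39487518224) (nat_lit 135) (nat_lit 5) (nat_lit 138) (nat_lit 5) (nat_lit 139) (nat_lit 5) (nat_lit 533) (nat_lit 471) (nat_lit 196)) (XT.lf (nat_lit 0) (nat_lit 74825555580) (nat_lit 228) (nat_lit 3533464773) (nat_lit 304) (nat_lit 17998653836) (nat_lit 135) (nat_lit 5) (nat_lit 138) (nat_lit 5) (nat_lit 139) (nat_lit 5) (nat_lit 534) (nat_lit 471) (nat_lit 195))))) (XT.nd (nat_lit 390) (nat_lit 304) (nat_lit 0) (XT.nd (nat_lit 156) (nat_lit 456) (nat_lit 0) (XT.nd (nat_lit 78) (nat_lit 0) (nat_lit 0) (XT.lf (nat_lit 0) (nat_lit 4722916253) (nat_lit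 304) (nat_lit 61483027894) (nat_lit 76) (nat_lit 31974278388) (nat_lit 131) (nat_lit 5) (nat_lit 135) (nat_lit 5) (nat_lit 132) (nat_lit 5) (nat_lit 535) (nat_lit 471) (nat_lit 194)) (XT.lf (nat_lit 0) (nat_lit 28018346210) (nat_lit 304) (nat_lit 3152469442) (nat_lit 76) (nat_lit 68873666547) (nat_lit 131) (nat_lit 5) (nat_lit 135) (nat_lit 5) (nat_lit 132) (nat_lit 5) (nat_lit 536) (nat_lit 471) (nat_lit 193))) (XT.nd (nat_lit 78) (nat_lit 228) (nat_lit 0) (XT.lf (nat_lit 0) (nat_lit 52622934941) (nat_lit 304) (nat_lit 43940699113) (nat_lit 76) (nat_lit 5382726758) (nat_lit 128) (nat_lit 5) (nat_lit 132) (nat_lit 5) (nat_lit 129) (nat_lit 5) (nat_lit 537) (nat_lit 471) (nat_lit 192)) (XT.lf (nat_lit 0) (nat_lit 17184254458) (nat_lit 228) (nat_lit 61286783463) (nat_lit 304) (nat_lit 25419096604) (nat_lit 125) (nat_lit 5) (nat_lit 128) (nat_lit 5) (nat_lit 129) (nat_lit 5) (nat_lit 538) (nat_lit 471) (nat_lit 191))))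 (XT.nd (nat_lit 57174) (nat_lit 0) (nat_lit 13072) (XT.nd (nat_lit 78) (nat_lit 0) (nat_lit 0) (XT.lf (nat_lit 0) (nat_lit 25504936772) (nat_lit 304) (nat_lit 68630907512) (nat_lit 76) (nat_lit 13768790306) (nat_lit 121) (nat_lit 5) (nat_lit 125) (nat_lit 5) (nat_lit 122) (nat_lit 5) (nat_lit 540) (nat_lit 471) (nat_lit 189)) (XT.lf (nat_lit 0) (nat_lit 52614847571) (nat_lit 304) (nat_lit 4416865172) (nat_lit 76) (nat_lit 52944441729) (nat_lit 121) (nat_lit 5) (nat_lit 125) (nat_lit 5) (nat_lit 122) (nat_lit 5) (nat_lit 541) (nat_lit 471) (nat_lit 188))) (XT.nd (nat_lit 78) (nat_lit 0) (nat_lit 0) (XT.lf (nat_lit 0) (nat_lit 7851436948) (nat_lit 1292) (nat_lit 4614364816) (nat_lit 1292) (nat_lit 4614364816) (nat_lit 293) (nat_lit 3) (nat_lit 310) (nat_lit 3) (nat_lit 310) (nat_lit 5) (nat_lit 472) (nat_lit 472) (nat_lit 256)) (XT.lf (nat_lit 76) (nat_lit 7797855604) (nat_lit 0) (nat_lit 8271323791) (nat_lit 1292)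 (nat_lit 18599628133) (nat_lit 294) (nat_lit 5) (nat_lit 293) (nat_lit 3) (nat_lit 310) (nat_lit 5) (nat_lit 473) (nat_lit 472) (nat_lit 255))))))) (XT.nd (nat_lit 1170) (nat_lit 4560) (nat_lit 0) (XT.nd (nat_lit 546) (nat_lit 836) (nat_lit 0) (XT.nd (nat_lit 234) (nat_lit 0) (nat_lit 76) (XT.nd (nat_lit 78) (nat_lit 0) (nat_lit 0) (XT.lf (nat_lit 0) (nat_lit 16623854215) (nat_lit 1216) (nat_lit 9752909098) (nat_lit 1292) (nat_lit 8810451712) (nat_lit 294) (nat_lit 5) (nat_lit 310) (nat_lit 5) (nat_lit 311) (nat_lit 5) (nat_lit 474) (nat_lit 472) (nat_lit 254)) (XT.nd (nat_lit 78) (nat_lit 0) (nat_lit 76) (XT.lf (nat_lit 76) (nat_lit 7950743795) (nat_lit 0) (nat_lit 9400631801) (nat_lit 1292) (nat_lit 18365113256) (nat_lit 295) (nat_lit 5) (nat_lit 294) (nat_lit 5) (nat_lit 311) (nat_lit 5) (nat_lit 475) (nat_lit 472) (nat_lit 253)) (XT.lf (nat_lit 0) (nat_lit 18275842387) (nat_lit 1216) (nat_lit 9953189742) (nat_lit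 1292) (nat_lit 8027355456) (nat_lit 295) (nat_lit 5) (nat_lit 311) (nat_lit 5) (nat_lit 312) (nat_lit 5) (nat_lit 476) (nat_lit 472) (nat_lit 252)))) (XT.nd (nat_lit 156) (nat_lit 0) (nat_lit 76) (XT.nd (nat_lit 78) (nat_lit 0) (nat_lit 76) (XT.lf (nat_lit 76) (nat_lit 8464634637) (nat_lit 0) (nat_lit 10935854772) (nat_lit 1292) (nat_lit 17406820761) (nat_lit 296) (nat_lit 5) (nat_lit 295) (nat_lit 5) (nat_lit 312) (nat_lit 5) (nat_lit 477) (nat_lit 472) (nat_lit 251)) (XT.lf (nat_lit 0) (nat_lit 20724533449) (nat_lit 1216) (nat_lit 9801075122) (nat_lit 1292) (nat_lit 6844182403) (nat_lit 296) (nat_lit 5) (nat_lit 312) (nat_lit 5) (nat_lit 313) (nat_lit 5) (nat_lit 478) (nat_lit 472) (nat_lit 250))) (XT.nd (nat_lit 78) (nat_lit 0) (nat_lit 76) (XT.lf (nat_lit 76) (nat_lit 9370117277) (nat_lit 0) (nat_lit 12914642533) (nat_lit 1292) (nat_lit 15658492824) (nat_lit 297) (nat_lit 5) (nat_lit 296) (nat_lit 5) (nat_lit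 313) (nat_lit 5) (nat_lit 479) (nat_lit 472) (nat_lit 249)) (XT.lf (nat_lit 0) (nat_lit 24040130317) (nat_lit 1216) (nat_lit 9266068142) (nat_lit 1292) (nat_lit 5223269817) (nat_lit 297) (nat_lit 5) (nat_lit 313) (nat_lit 5) (nat_lit 314) (nat_lit 5) (nat_lit 480) (nat_lit 472) (nat_lit 248))))) (XT.nd (nat_lit 312) (nat_lit 1064) (nat_lit 0) (XT.nd (nat_lit 156) (nat_lit 0) (nat_lit 76) (XT.nd (nat_lit 78) (nat_lit 0) (nat_lit 76) (XT.lf (nat_lit 76) (nat_lit 10699899488) (nat_lit 0) (nat_lit 15377200916) (nat_lit 1292) (nat_lit 13049302075) (nat_lit 298) (nat_lit 5) (nat_lit 297) (nat_lit 5) (nat_lit 314) (nat_lit 5) (nat_lit 481) (nat_lit 472) (nat_lit 247)) (XT.lf (nat_lit 0) (nat_lit 28297636783) (nat_lit 1216) (nat_lit 8315555177) (nat_lit 1292) (nat_lit 3124379271) (nat_lit 298) (nat_lit 5) (nat_lit 314) (nat_lit 5) (nat_lit 315) (nat_lit 5) (nat_lit 482) (nat_lit 472) (nat_lit 246))) (XT.nd (nat_lit 78)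 (nat_lit 0) (nat_lit 76) (XT.lf (nat_lit 76) (nat_lit 12488930120) (nat_lit 0) (nat_lit 18366472385) (nat_lit 1292) (nat_lit 9503554377) (nat_lit 299) (nat_lit 5) (nat_lit 298) (nat_lit 5) (nat_lit 315) (nat_lit 5) (nat_lit 483) (nat_lit 472) (nat_lit 245)) (XT.lf (nat_lit 0) (nat_lit 33577168023) (nat_lit 1216) (nat_lit 6914683463) (nat_lit 1292) (nat_lit 504514835) (nat_lit 299) (nat_lit 5) (nat_lit 315) (nat_lit 5) (nat_lit 316) (nat_lit 5) (nat_lit 484) (nat_lit 472) (nat_lit 244)))) (XT.nd (nat_lit 156) (nat_lit 1216) (nat_lit 0) (XT.nd (nat_lit 78) (nat_lit 0) (nat_lit 0) (XT.lf (nat_lit 76) (nat_lit 14774528651) (nat_lit 0) (nat_lit 21928327678) (nat_lit 1292) (nat_lit 4940373840) (nat_lit 300) (nat_lit 5) (nat_lit 299) (nat_lit 5) (nat_lit 316) (nat_lit 5) (nat_lit 485) (nat_lit 472) (nat_lit 243)) (XT.lf (nat_lit 76) (nat_lit 37254924121) (nat_lit 0) (nat_lit 2735652319) (nat_lit 1292) (nat_lit 2316875869)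 (nat_lit 300) (nat_lit 5) (nat_lit 299) (nat_lit 5) (nat_lit 316) (nat_lit 5) (nat_lit 486) (nat_lit 472) (nat_lit 242))) (XT.nd (nat_lit 78) (nat_lit 0) (nat_lit 0) (XT.lf (nat_lit 0) (nat_lit 712451802) (nat_lit 1292) (nat_lit 25392123100) (nat_lit 1368) (nat_lit 16876875975) (nat_lit 283) (nat_lit 5) (nat_lit 300) (nat_lit 5) (nat_lit 301) (nat_lit 5) (nat_lit 487) (nat_lit 472) (nat_lit 241)) (XT.lf (nat_lit 0) (nat_lit 3863206192) (nat_lit 1292) (nat_lit 2711925416) (nat_lit 1368) (nat_lit 37097536394) (nat_lit 283) (nat_lit 5) (nat_lit 300) (nat_lit 5) (nat_lit 301) (nat_lit 5) (nat_lit 488) (nat_lit 472) (nat_lit 240)))))) (XT.nd (nat_lit 624) (nat_lit 2128) (nat_lit 0) (XT.nd (nat_lit 312) (nat_lit 1140) (nat_lit 0) (XT.nd (nat_lit 156) (nat_lit 608) (nat_lit 0) (XT.nd (nat_lit 78) (nat_lit 760) (nat_lit 0) (XT.lf (nat_lit 0) (nat_lit 7441618139) (nat_lit 1292) (nat_lit 23452383607) (nat_lit 76) (nat_lit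 13480626036) (nat_lit 284) (nat_lit 5) (nat_lit 301) (nat_lit 5) (nat_lit 285) (nat_lit 5) (nat_lit 489) (nat_lit 472) (nat_lit 239)) (XT.lf (nat_lit 0) (nat_lit 160706777) (nat_lit 760) (nat_lit 11059555633) (nat_lit 836) (nat_lit 33874597729) (nat_lit 274) (nat_lit 5) (nat_lit 284) (nat_lit 5) (nat_lit 285) (nat_lit 5) (nat_lit 490) (nat_lit 472) (nat_lit 238))) (XT.nd (nat_lit 78) (nat_lit 608) (nat_lit 0) (XT.lf (nat_lit 0) (nat_lit 15440112623) (nat_lit 836) (nat_lit 20960362762) (nat_lit 76) (nat_lit 9426388861) (nat_lit 274) (nat_lit 5) (nat_lit 285) (nat_lit 5) (nat_lit 275) (nat_lit 5) (nat_lit 491) (nat_lit 472) (nat_lit 237)) (XT.lf (nat_lit 0) (nat_lit 3693966796) (nat_lit 608) (nat_lit 16236250570) (nat_lit 684) (nat_lit 26646301513) (nat_lit 266) (nat_lit 5) (nat_lit 274) (nat_lit 5) (nat_lit 275) (nat_lit 5) (nat_lit 492) (nat_lit 472) (nat_lit 236)))) (XT.nd (nat_lit 156) (nat_lit 532) (nat_lit 0)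 (XT.nd (nat_lit 78) (nat_lit 608) (nat_lit 0) (XT.lf (nat_lit 0) (nat_lit 24811030385) (nat_lit 684) (nat_lit 17871674001) (nat_lit 76) (nat_lit 4658278778) (nat_lit 266) (nat_lit 5) (nat_lit 275) (nat_lit 5) (nat_lit 267) (nat_lit 5) (nat_lit 493) (nat_lit 472) (nat_lit 235)) (XT.lf (nat_lit 0) (nat_lit 7881320763) (nat_lit 608) (nat_lit 22192178493) (nat_lit 684) (nat_lit 18047825340) (nat_lit 258) (nat_lit 5) (nat_lit 266) (nat_lit 5) (nat_lit 267) (nat_lit 5) (nat_lit 494) (nat_lit 472) (nat_lit 234))) (XT.nd (nat_lit 78) (nat_lit 532) (nat_lit 0) (XT.lf (nat_lit 0) (nat_lit 34772021739) (nat_lit 608) (nat_lit 901031258) (nat_lit 684) (nat_lit 13246647108) (nat_lit 258) (nat_lit 5) (nat_lit 266) (nat_lit 5) (nat_lit 267) (nat_lit 5) (nat_lit 495) (nat_lit 472) (nat_lit 233)) (XT.lf (nat_lit 0) (nat_lit 12773291155) (nat_lit 532) (nat_lit 28991007852) (nat_lit 608) (nat_lit 7968016857) (nat_lit 251) (nat_lit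 5) (nat_lit 258) (nat_lit 5) (nat_lit 259) (nat_lit 5) (nat_lit 496) (nat_lit 472) (nat_lit 232))))) (XT.nd (nat_lit 312) (nat_lit 988) (nat_lit 0) (XT.nd (nat_lit 156) (nat_lit 532) (nat_lit 0) (XT.nd (nat_lit 78) (nat_lit 608) (nat_lit 0) (XT.lf (nat_lit 0) (nat_lit 40781580321) (nat_lit 532) (nat_lit 7407202119) (nat_lit 608) (nat_lit 2376012803) (nat_lit 251) (nat_lit 5) (nat_lit 258) (nat_lit 5) (nat_lit 259) (nat_lit 5) (nat_lit 497) (nat_lit 472) (nat_lit 231)) (XT.lf (nat_lit 0) (nat_lit 3639310066) (nat_lit 608) (nat_lit 33024716422) (nat_lit 76) (nat_lit 14747599218) (nat_lit 243) (nat_lit 5) (nat_lit 251) (nat_lit 5) (nat_lit 244) (nat_lit 5) (nat_lit 498) (nat_lit 472) (nat_lit 230))) (XT.nd (nat_lit 78) (nat_lit 532) (nat_lit 0) (XT.lf (nat_lit 0) (nat_lit 9959293180) (nat_lit 608) (nat_lit 4777289966) (nat_lit 76) (nat_lit 37541413646) (nat_lit 243) (nat_lit 5) (nat_lit 251) (nat_lit 5) (nat_lit 244)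 (nat_lit 5) (nat_lit 499) (nat_lit 472) (nat_lit 229)) (XT.lf (nat_lit 0) (nat_lit 16783958975) (nat_lit 608) (nat_lit 28440742765) (nat_lit 76) (nat_lit 7936204907) (nat_lit 236) (nat_lit 5) (nat_lit 244) (nat_lit 5) (nat_lit 237) (nat_lit 5) (nat_lit 500) (nat_lit 472) (nat_lit 228)))) (XT.nd (nat_lit 156) (nat_lit 456) (nat_lit 0) (XT.nd (nat_lit 78) (nat_lit 0) (nat_lit 0) (XT.lf (nat_lit 0) (nat_lit 1003594911) (nat_lit 532) (nat_lit 23012944531) (nat_lit 608) (nat_lit 30047669243) (nat_lit 229) (nat_lit 5) (nat_lit 236) (nat_lit 5) (nat_lit 237) (nat_lit 5) (nat_lit 501) (nat_lit 472) (nat_lit 227)) (XT.lf (nat_lit 0) (nat_lit 31753761478) (nat_lit 608) (nat_lit 23074509510) (nat_lit 76) (nat_lit 157708996) (nat_lit 229) (nat_lit 5) (nat_lit 237) (nat_lit 5) (nat_lit 230) (nat_lit 5) (nat_lit 502) (nat_lit 472) (nat_lit 226))) (XT.nd (nat_lit 78) (nat_lit 0) (nat_lit 0) (XT.lf (nat_lit 0) (nat_lit 7733023911)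 (nat_lit 456) (nat_lit 32291214191) (nat_lit 532) (nat_lit 15902132304) (nat_lit 223) (nat_lit 5) (nat_lit 229) (nat_lit 5) (nat_lit 230) (nat_lit 5) (nat_lit 503) (nat_lit 472) (nat_lit 225)) (XT.lf (nat_lit 0) (nat_lit 39936597760) (nat_lit 456) (nat_lit 8838210070) (nat_lit 532) (nat_lit 8113205463) (nat_lit 223) (nat_lit 5) (nat_lit 229) (nat_lit 5) (nat_lit 230) (nat_lit 5) (nat_lit 504) (nat_lit 472) (nat_lit 224))))))))
noncomputable def xc230 : XT := (XT.nd (nat_lit 2340) (nat_lit 1064) (nat_lit 0) (XT.nd (nat_lit 1170) (nat_lit 2812) (nat_lit 0) (XT.nd (nat_lit 546) (nat_lit 2052) (nat_lit 0) (XT.nd (nat_lit 234) (nat_lit 836) (nat_lit 0) (XT.nd (nat_lit 78) (nat_lit 456) (nat_lit 0) (XT.lf (nat_lit 0) (nat_lit 208155249) (nat_lit 532) (nat_lit 42492275920) (nat_lit 76) (nat_lit 15169190602) (nat_lit 216) (nat_lit 5) (nat_lit 223) (nat_lit 5) (nat_lit 217) (nat_lit 5) (nat_lit 505) (nat_lit 472) (nat_lit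 223)) (XT.nd (nat_lit 78) (nat_lit 456) (nat_lit 0) (XT.lf (nat_lit 0) (nat_lit 8875475259) (nat_lit 532) (nat_lit 10022808879) (nat_lit 76) (nat_lit 39972203034) (nat_lit 216) (nat_lit 5) (nat_lit 223) (nat_lit 5) (nat_lit 217) (nat_lit 5) (nat_lit 506) (nat_lit 472) (nat_lit 222)) (XT.lf (nat_lit 0) (nat_lit 18087729891) (nat_lit 532) (nat_lit 36065113777) (nat_lit 76) (nat_lit 5739987520) (nat_lit 210) (nat_lit 5) (nat_lit 217) (nat_lit 5) (nat_lit 211) (nat_lit 5) (nat_lit 507) (nat_lit 472) (nat_lit 221)))) (XT.nd (nat_lit 156) (nat_lit 380) (nat_lit 0) (XT.nd (nat_lit 78) (nat_lit 456) (nat_lit 0) (XT.lf (nat_lit 0) (nat_lit 27864728660) (nat_lit 532) (nat_lit 2232878768) (nat_lit 76) (nat_lit 30839586903) (nat_lit 210) (nat_lit 5) (nat_lit 217) (nat_lit 5) (nat_lit 211) (nat_lit 5) (nat_lit 508) (nat_lit 472) (nat_lit 220)) (XT.lf (nat_lit 0) (nat_lit 33262250775) (nat_lit 456) (nat_lit 4991603305) (nat_lit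 532) (nat_lit 23749469887) (nat_lit 204) (nat_lit 5) (nat_lit 210) (nat_lit 5) (nat_lit 211) (nat_lit 5) (nat_lit 509) (nat_lit 472) (nat_lit 219))) (XT.nd (nat_lit 78) (nat_lit 0) (nat_lit 0) (XT.lf (nat_lit 0) (nat_lit 6695938903) (nat_lit 380) (nat_lit 42545536122) (nat_lit 456) (nat_lit 13851357909) (nat_lit 199) (nat_lit 5) (nat_lit 204) (nat_lit 5) (nat_lit 205) (nat_lit 5) (nat_lit 510) (nat_lit 472) (nat_lit 218)) (XT.lf (nat_lit 0) (nat_lit 43733678327) (nat_lit 380) (nat_lit 17163320883) (nat_lit 456) (nat_lit 3307879814) (nat_lit 199) (nat_lit 5) (nat_lit 204) (nat_lit 5) (nat_lit 205) (nat_lit 5) (nat_lit 511) (nat_lit 472) (nat_lit 217))))) (XT.nd (nat_lit 312) (nat_lit 1140) (nat_lit 0) (XT.nd (nat_lit 156) (nat_lit 380) (nat_lit 0) (XT.nd (nat_lit 78) (nat_lit 0) (nat_lit 0) (XT.lf (nat_lit 0) (nat_lit 7653660875) (nat_lit 532) (nat_lit 48645831359) (nat_lit 76) (nat_lit 9041142854) (nat_lit 192)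 (nat_lit 5) (nat_lit 199) (nat_lit 5) (nat_lit 193) (nat_lit 5) (nat_lit 512) (nat_lit 472) (nat_lit 216)) (XT.lf (nat_lit 0) (nat_lit 19255400679) (nat_lit 532) (nat_lit 11314704358) (nat_lit 76) (nat_lit 35928041202) (nat_lit 192) (nat_lit 5) (nat_lit 199) (nat_lit 5) (nat_lit 193) (nat_lit 5) (nat_lit 513) (nat_lit 472) (nat_lit 215))) (XT.nd (nat_lit 78) (nat_lit 0) (nat_lit 0) (XT.lf (nat_lit 0) (nat_lit 27675296260) (nat_lit 380) (nat_lit 3795091812) (nat_lit 456) (nat_lit 36212038873) (nat_lit 187) (nat_lit 5) (nat_lit 192) (nat_lit 5) (nat_lit 193) (nat_lit 5) (nat_lit 514) (nat_lit 472) (nat_lit 214)) (XT.lf (nat_lit 0) (nat_lit 44395005819) (nat_lit 456) (nat_lit 1062737008) (nat_lit 76) (nat_lit 23434197905) (nat_lit 187) (nat_lit 5) (nat_lit 193) (nat_lit 5) (nat_lit 188) (nat_lit 5) (nat_lit 515) (nat_lit 472) (nat_lit 213)))) (XT.nd (nat_lit 156) (nat_lit 380) (nat_lit 0) (XT.nd (nat_lit 78) (nat_lit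 380) (nat_lit 0) (XT.lf (nat_lit 0) (nat_lit 39787731554) (nat_lit 380) (nat_lit 18338868515) (nat_lit 456) (nat_lit 11998562800) (nat_lit 182) (nat_lit 5) (nat_lit 187) (nat_lit 5) (nat_lit 188) (nat_lit 5) (nat_lit 516) (nat_lit 472) (nat_lit 212)) (XT.lf (nat_lit 0) (nat_lit 1063910170) (nat_lit 380) (nat_lit 60795745315) (nat_lit 76) (nat_lit 9529287416) (nat_lit 177) (nat_lit 5) (nat_lit 182) (nat_lit 5) (nat_lit 178) (nat_lit 5) (nat_lit 517) (nat_lit 472) (nat_lit 211))) (XT.nd (nat_lit 78) (nat_lit 380) (nat_lit 0) (XT.lf (nat_lit 0) (nat_lit 14767266698) (nat_lit 380) (nat_lit 19612315738) (nat_lit 76) (nat_lit 38292784980) (nat_lit 177) (nat_lit 5) (nat_lit 182) (nat_lit 5) (nat_lit 178) (nat_lit 5) (nat_lit 518) (nat_lit 472) (nat_lit 210)) (XT.lf (nat_lit 0) (nat_lit 23259424835) (nat_lit 380) (nat_lit 5845119721) (nat_lit 456) (nat_lit 44883065561) (nat_lit 172) (nat_lit 5) (nat_lit 177) (nat_lit 5)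 (nat_lit 178) (nat_lit 5) (nat_lit 519) (nat_lit 472) (nat_lit 209)))))) (XT.nd (nat_lit 546) (nat_lit 1520) (nat_lit 0) (XT.nd (nat_lit 234) (nat_lit 684) (nat_lit 0) (XT.nd (nat_lit 78) (nat_lit 608) (nat_lit 0) (XT.lf (nat_lit 0) (nat_lit 44297526051) (nat_lit 456) (nat_lit 7746387518) (nat_lit 76) (nat_lit 23285629039) (nat_lit 172) (nat_lit 5) (nat_lit 178) (nat_lit 5) (nat_lit 173) (nat_lit 5) (nat_lit 520) (nat_lit 472) (nat_lit 208)) (XT.nd (nat_lit 78) (nat_lit 304) (nat_lit 0) (XT.lf (nat_lit 0) (nat_lit 37191690649) (nat_lit 304) (nat_lit 23169256008) (nat_lit 380) (nat_lit 16338346991) (nat_lit 168) (nat_lit 5) (nat_lit 172) (nat_lit 5) (nat_lit 173) (nat_lit 5) (nat_lit 521) (nat_lit 472) (nat_lit 207)) (XT.lf (nat_lit 0) (nat_lit 5572658175) (nat_lit 304) (nat_lit 71528624226) (nat_lit 380) (nat_lit 1003004504) (nat_lit 164) (nat_lit 5) (nat_lit 168) (nat_lit 5) (nat_lit 169) (nat_lit 5) (nat_lit 522)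 (nat_lit 472) (nat_lit 206)))) (XT.nd (nat_lit 156) (nat_lit 304) (nat_lit 0) (XT.nd (nat_lit 78) (nat_lit 304) (nat_lit 0) (XT.lf (nat_lit 0) (nat_lit 15135323387) (nat_lit 380) (nat_lit 27100866700) (nat_lit 76) (nat_lit 37292026784) (nat_lit 163) (nat_lit 5) (nat_lit 168) (nat_lit 5) (nat_lit 164) (nat_lit 5) (nat_lit 523) (nat_lit 472) (nat_lit 205)) (XT.lf (nat_lit 0) (nat_lit 20073568491) (nat_lit 304) (nat_lit 11856333821) (nat_lit 380) (nat_lit 49058896741) (nat_lit 159) (nat_lit 5) (nat_lit 163) (nat_lit 5) (nat_lit 164) (nat_lit 5) (nat_lit 524) (nat_lit 472) (nat_lit 204))) (XT.nd (nat_lit 78) (nat_lit 304) (nat_lit 0) (XT.lf (nat_lit 0) (nat_lit 49690822705) (nat_lit 380) (nat_lit 13456774747) (nat_lit 76) (nat_lit 19331726183) (nat_lit 159) (nat_lit 5) (nat_lit 164) (nat_lit 5) (nat_lit 160) (nat_lit 5) (nat_lit 525) (nat_lit 472) (nat_lit 203)) (XT.lf (nat_lit 0) (nat_lit 36009720701) (nat_lit 304)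 (nat_lit 32437715654) (nat_lit 380) (nat_lit 15553241683) (nat_lit 155) (nat_lit 5) (nat_lit 159) (nat_lit 5) (nat_lit 160) (nat_lit 5) (nat_lit 526) (nat_lit 472) (nat_lit 202))))) (XT.nd (nat_lit 312) (nat_lit 836) (nat_lit 0) (XT.nd (nat_lit 156) (nat_lit 304) (nat_lit 0) (XT.nd (nat_lit 78) (nat_lit 0) (nat_lit 0) (XT.lf (nat_lit 0) (nat_lit 1681791321) (nat_lit 304) (nat_lit 627103135) (nat_lit 380) (nat_lit 83253562573) (nat_lit 150) (nat_lit 5) (nat_lit 154) (nat_lit 5) (nat_lit 155) (nat_lit 5) (nat_lit 527) (nat_lit 472) (nat_lit 201)) (XT.lf (nat_lit 0) (nat_lit 21191969851) (nat_lit 380) (nat_lit 33796794154) (nat_lit 76) (nat_lit 32153775263) (nat_lit 150) (nat_lit 5) (nat_lit 155) (nat_lit 5) (nat_lit 151) (nat_lit 5) (nat_lit 528) (nat_lit 472) (nat_lit 200))) (XT.nd (nat_lit 78) (nat_lit 0) (nat_lit 0) (XT.lf (nat_lit 0) (nat_lit 18136304671) (nat_lit 304) (nat_lit 22685137027) (nat_lit 380) (nat_lit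 47943185198) (nat_lit 146) (nat_lit 5) (nat_lit 150) (nat_lit 5) (nat_lit 151) (nat_lit 5) (nat_lit 529) (nat_lit 472) (nat_lit 199)) (XT.lf (nat_lit 0) (nat_lit 61485596586) (nat_lit 380) (nat_lit 18211085252) (nat_lit 76) (nat_lit 10725321396) (nat_lit 146) (nat_lit 5) (nat_lit 151) (nat_lit 5) (nat_lit 147) (nat_lit 5) (nat_lit 530) (nat_lit 472) (nat_lit 198)))) (XT.nd (nat_lit 156) (nat_lit 532) (nat_lit 0) (XT.nd (nat_lit 78) (nat_lit 76) (nat_lit 0) (XT.lf (nat_lit 0) (nat_lit 36260678155) (nat_lit 228) (nat_lit 47081545657) (nat_lit 304) (nat_lit 8769700664) (nat_lit 143) (nat_lit 5) (nat_lit 146) (nat_lit 5) (nat_lit 147) (nat_lit 5) (nat_lit 531) (nat_lit 472) (nat_lit 197)) (XT.lf (nat_lit 0) (nat_lit 11952906447) (nat_lit 304) (nat_lit 1225278634) (nat_lit 76) (nat_lit 80665344130) (nat_lit 142) (nat_lit 5) (nat_lit 146) (nat_lit 5) (nat_lit 143) (nat_lit 5) (nat_lit 532) (nat_lit 472) (nat_lit 196)))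 (XT.nd (nat_lit 78) (nat_lit 228) (nat_lit 0) (XT.lf (nat_lit 0) (nat_lit 33874265440) (nat_lit 380) (nat_lit 39778174018) (nat_lit 76) (nat_lit 21949437731) (nat_lit 138) (nat_lit 5) (nat_lit 143) (nat_lit 5) (nat_lit 139) (nat_lit 5) (nat_lit 533) (nat_lit 472) (nat_lit 195)) (XT.lf (nat_lit 0) (nat_lit 17404755107) (nat_lit 228) (nat_lit 39358196172) (nat_lit 304) (nat_lit 40640733785) (nat_lit 135) (nat_lit 5) (nat_lit 138) (nat_lit 5) (nat_lit 139) (nat_lit 5) (nat_lit 534) (nat_lit 472) (nat_lit 194))))))) (XT.nd (nat_lit 58344) (nat_lit 0) (nat_lit 9880) (XT.nd (nat_lit 57720) (nat_lit 0) (nat_lit 13072) (XT.nd (nat_lit 234) (nat_lit 760) (nat_lit 0) (XT.nd (nat_lit 78) (nat_lit 304) (nat_lit 0) (XT.lf (nat_lit 0) (nat_lit 77117653115) (nat_lit 228) (nat_lit 3621742832) (nat_lit 304) (nat_lit 18508118319) (nat_lit 135) (nat_lit 5) (nat_lit 138) (nat_lit 5) (nat_lit 139) (nat_lit 5) (nat_lit 535) (nat_lit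 472) (nat_lit 193)) (XT.nd (nat_lit 78) (nat_lit 0) (nat_lit 0) (XT.lf (nat_lit 0) (nat_lit 4894261886) (nat_lit 304) (nat_lit 63279347052) (nat_lit 76) (nat_lit 32951128645) (nat_lit 131) (nat_lit 5) (nat_lit 135) (nat_lit 5) (nat_lit 132) (nat_lit 5) (nat_lit 536) (nat_lit 472) (nat_lit 192)) (XT.lf (nat_lit 0) (nat_lit 28887690912) (nat_lit 304) (nat_lit 3200274904) (nat_lit 76) (nat_lit 70956985189) (nat_lit 131) (nat_lit 5) (nat_lit 135) (nat_lit 5) (nat_lit 132) (nat_lit 5) (nat_lit 537) (nat_lit 472) (nat_lit 191)))) (XT.nd (nat_lit 234) (nat_lit 304) (nat_lit 0) (XT.nd (nat_lit 156) (nat_lit 228) (nat_lit 0) (XT.lf (nat_lit 0) (nat_lit 54230195952) (nat_lit 304) (nat_lit 45211928337) (nat_lit 76) (nat_lit 5561768384) (nat_lit 128) (nat_lit 5) (nat_lit 132) (nat_lit 5) (nat_lit 129) (nat_lit 5) (nat_lit 538) (nat_lit 472) (nat_lit 190)) (XT.lf (nat_lit 0) (nat_lit 83519211965) (nat_lit 228) (nat_lit 25212013697)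 (nat_lit 304) (nat_lit 323246665) (nat_lit 125) (nat_lit 5) (nat_lit 128) (nat_lit 5) (nat_lit 129) (nat_lit 5) (nat_lit 540) (nat_lit 472) (nat_lit 188))) (XT.nd (nat_lit 57174) (nat_lit 0) (nat_lit 13072) (XT.lf (nat_lit 0) (nat_lit 26297527822) (nat_lit 304) (nat_lit 70643909009) (nat_lit 76) (nat_lit 14199511931) (nat_lit 121) (nat_lit 5) (nat_lit 125) (nat_lit 5) (nat_lit 122) (nat_lit 5) (nat_lit 541) (nat_lit 472) (nat_lit 187)) (XT.lf (nat_lit 0) (nat_lit 8142248261) (nat_lit 1292) (nat_lit 4724328793) (nat_lit 1292) (nat_lit 4724328793) (nat_lit 293) (nat_lit 3) (nat_lit 310) (nat_lit 3) (nat_lit 310) (nat_lit 5) (nat_lit 473) (nat_lit 473) (nat_lit 254))))) (XT.nd (nat_lit 312) (nat_lit 0) (nat_lit 152) (XT.nd (nat_lit 156) (nat_lit 0) (nat_lit 76) (XT.nd (nat_lit 78) (nat_lit 0) (nat_lit 76) (XT.lf (nat_lit 76) (nat_lit 8088167031) (nat_lit 0) (nat_lit 8570946567) (nat_lit 1292) (nat_lit 19046507473)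 (nat_lit 294) (nat_lit 5) (nat_lit 293) (nat_lit 3) (nat_lit 310) (nat_lit 5) (nat_lit 474) (nat_lit 473) (nat_lit 253)) (XT.lf (nat_lit 0) (nat_lit 17226806671) (nat_lit 1216) (nat_lit 9987126149) (nat_lit 1292) (nat_lit 9025757067) (nat_lit 294) (nat_lit 5) (nat_lit 310) (nat_lit 5) (nat_lit 311) (nat_lit 5) (nat_lit 475) (nat_lit 473) (nat_lit 252))) (XT.nd (nat_lit 78) (nat_lit 0) (nat_lit 76) (XT.lf (nat_lit 76) (nat_lit 8247064074) (nat_lit 0) (nat_lit 9726609184) (nat_lit 1292) (nat_lit 18811243505) (nat_lit 295) (nat_lit 5) (nat_lit 294) (nat_lit 5) (nat_lit 311) (nat_lit 5) (nat_lit 476) (nat_lit 473) (nat_lit 251)) (XT.lf (nat_lit 0) (nat_lit 18922500026) (nat_lit 1216) (nat_lit 10192283225) (nat_lit 1292) (nat_lit 8226330837) (nat_lit 295) (nat_lit 5) (nat_lit 311) (nat_lit 5) (nat_lit 312) (nat_lit 5) (nat_lit 477) (nat_lit 473) (nat_lit 250)))) (XT.nd (nat_lit 156) (nat_lit 0) (nat_lit 76) (XT.nd (nat_lit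 78) (nat_lit 0) (nat_lit 76) (XT.lf (nat_lit 76) (nat_lit 8777492530) (nat_lit 0) (nat_lit 11301094787) (nat_lit 1292) (nat_lit 17830046406) (nat_lit 296) (nat_lit 5) (nat_lit 295) (nat_lit 5) (nat_lit 312) (nat_lit 5) (nat_lit 478) (nat_lit 473) (nat_lit 249)) (XT.lf (nat_lit 0) (nat_lit 21439207297) (nat_lit 1216) (nat_lit 10034746354) (nat_lit 1292) (nat_lit 7014130048) (nat_lit 296) (nat_lit 5) (nat_lit 312) (nat_lit 5) (nat_lit 313) (nat_lit 5) (nat_lit 479) (nat_lit 473) (nat_lit 248))) (XT.nd (nat_lit 78) (nat_lit 0) (nat_lit 76) (XT.lf (nat_lit 76) (nat_lit 9710990043) (nat_lit 0) (nat_lit 13333118016) (nat_lit 1292) (nat_lit 16034705495) (nat_lit 297) (nat_lit 5) (nat_lit 296) (nat_lit 5) (nat_lit 313) (nat_lit 5) (nat_lit 480) (nat_lit 473) (nat_lit 247)) (XT.lf (nat_lit 0) (nat_lit 24849205213) (nat_lit 1216) (nat_lit 9483075191) (nat_lit 1292) (nat_lit 5350423660) (nat_lit 297) (nat_lit 5) (nat_lit 313)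 (nat_lit 5) (nat_lit 314) (nat_lit 5) (nat_lit 481) (nat_lit 473) (nat_lit 246)))))) (XT.nd (nat_lit 624) (nat_lit 2432) (nat_lit 0) (XT.nd (nat_lit 312) (nat_lit 1064) (nat_lit 0) (XT.nd (nat_lit 156) (nat_lit 0) (nat_lit 76) (XT.nd (nat_lit 78) (nat_lit 0) (nat_lit 76) (XT.lf (nat_lit 76) (nat_lit 11081273673) (nat_lit 0) (nat_lit 15864031763) (nat_lit 1292) (nat_lit 13352300579) (nat_lit 298) (nat_lit 5) (nat_lit 297) (nat_lit 5) (nat_lit 314) (nat_lit 5) (nat_lit 482) (nat_lit 473) (nat_lit 245)) (XT.lf (nat_lit 0) (nat_lit 29229718077) (nat_lit 1216) (nat_lit 8503651927) (nat_lit 1292) (nat_lit 3193822365) (nat_lit 298) (nat_lit 5) (nat_lit 314) (nat_lit 5) (nat_lit 315) (nat_lit 5) (nat_lit 483) (nat_lit 473) (nat_lit 244))) (XT.nd (nat_lit 78) (nat_lit 0) (nat_lit 76) (XT.lf (nat_lit 76) (nat_lit 12924366264) (nat_lit 0) (nat_lit 18938012740) (nat_lit 1292) (nat_lit 9704896051) (nat_lit 299) (nat_lit 5) (nat_lit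 298) (nat_lit 5) (nat_lit 315) (nat_lit 5) (nat_lit 484) (nat_lit 473) (nat_lit 243)) (XT.lf (nat_lit 0) (nat_lit 34663237356) (nat_lit 1216) (nat_lit 7060554766) (nat_lit 1292) (nat_lit 500091782) (nat_lit 299) (nat_lit 5) (nat_lit 315) (nat_lit 5) (nat_lit 316) (nat_lit 5) (nat_lit 485) (nat_lit 473) (nat_lit 242)))) (XT.nd (nat_lit 156) (nat_lit 1216) (nat_lit 0) (XT.nd (nat_lit 78) (nat_lit 0) (nat_lit 0) (XT.lf (nat_lit 76) (nat_lit 15278730092) (nat_lit 0) (nat_lit 22602258443) (nat_lit 1292) (nat_lit 5009216679) (nat_lit 300) (nat_lit 5) (nat_lit 299) (nat_lit 5) (nat_lit 316) (nat_lit 5) (nat_lit 486) (nat_lit 473) (nat_lit 241)) (XT.lf (nat_lit 76) (nat_lit 38431761730) (nat_lit 0) (nat_lit 2833334447) (nat_lit 1292) (nat_lit 2309325470) (nat_lit 300) (nat_lit 5) (nat_lit 299) (nat_lit 5) (nat_lit 316) (nat_lit 5) (nat_lit 487) (nat_lit 473) (nat_lit 240))) (XT.nd (nat_lit 78) (nat_lit 0) (nat_lit 0) (XT.lf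 (nat_lit 0) (nat_lit 807622737) (nat_lit 1292) (nat_lit 26091418175) (nat_lit 1368) (nat_lit 17369629995) (nat_lit 283) (nat_lit 5) (nat_lit 300) (nat_lit 5) (nat_lit 301) (nat_lit 5) (nat_lit 488) (nat_lit 473) (nat_lit 239)) (XT.lf (nat_lit 0) (nat_lit 4050750321) (nat_lit 1292) (nat_lit 2732634034) (nat_lit 1368) (nat_lit 38197304952) (nat_lit 283) (nat_lit 5) (nat_lit 300) (nat_lit 5) (nat_lit 301) (nat_lit 5) (nat_lit 489) (nat_lit 473) (nat_lit 238))))) (XT.nd (nat_lit 312) (nat_lit 1140) (nat_lit 0) (XT.nd (nat_lit 156) (nat_lit 608) (nat_lit 0) (XT.nd (nat_lit 78) (nat_lit 760) (nat_lit 0) (XT.lf (nat_lit 0) (nat_lit 7734908142) (nat_lit 1292) (nat_lit 24093690460) (nat_lit 76) (nat_lit 13875157744) (nat_lit 284) (nat_lit 5) (nat_lit 301) (nat_lit 5) (nat_lit 285) (nat_lit 5) (nat_lit 490) (nat_lit 473) (nat_lit 237)) (XT.lf (nat_lit 0) (nat_lit 227182198) (nat_lit 760) (nat_lit 11398282159) (nat_lit 836)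 (nat_lit 34820175001) (nat_lit 274) (nat_lit 5) (nat_lit 284) (nat_lit 5) (nat_lit 285) (nat_lit 5) (nat_lit 491) (nat_lit 473) (nat_lit 236))) (XT.nd (nat_lit 78) (nat_lit 608) (nat_lit 0) (XT.lf (nat_lit 0) (nat_lit 15969847422) (nat_lit 836) (nat_lit 21527244021) (nat_lit 76) (nat_lit 9702574280) (nat_lit 274) (nat_lit 5) (nat_lit 285) (nat_lit 5) (nat_lit 275) (nat_lit 5) (nat_lit 492) (nat_lit 473) (nat_lit 235)) (XT.lf (nat_lit 0) (nat_lit 3866108271) (nat_lit 608) (nat_lit 16727198697) (nat_lit 684) (nat_lit 27378543724) (nat_lit 266) (nat_lit 5) (nat_lit 274) (nat_lit 5) (nat_lit 275) (nat_lit 5) (nat_lit 493) (nat_lit 473) (nat_lit 234)))) (XT.nd (nat_lit 156) (nat_lit 532) (nat_lit 0) (XT.nd (nat_lit 78) (nat_lit 608) (nat_lit 0) (XT.lf (nat_lit 0) (nat_lit 25618609812) (nat_lit 684) (nat_lit 18346345255) (nat_lit 76) (nat_lit 4794352116) (nat_lit 266) (nat_lit 5) (nat_lit 275) (nat_lit 5) (nat_lit 267)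 (nat_lit 5) (nat_lit 494) (nat_lit 473) (nat_lit 233)) (XT.lf (nat_lit 0) (nat_lit 8178636617) (nat_lit 608) (nat_lit 22859059122) (nat_lit 684) (nat_lit 18525401063) (nat_lit 258) (nat_lit 5) (nat_lit 266) (nat_lit 5) (nat_lit 267) (nat_lit 5) (nat_lit 495) (nat_lit 473) (nat_lit 232))) (XT.nd (nat_lit 78) (nat_lit 532) (nat_lit 0) (XT.lf (nat_lit 0) (nat_lit 35874285528) (nat_lit 608) (nat_lit 929144987) (nat_lit 684) (nat_lit 13582047456) (nat_lit 258) (nat_lit 5) (nat_lit 266) (nat_lit 5) (nat_lit 267) (nat_lit 5) (nat_lit 496) (nat_lit 473) (nat_lit 231)) (XT.lf (nat_lit 0) (nat_lit 13216819252) (nat_lit 532) (nat_lit 29859411482) (nat_lit 608) (nat_lit 8146277184) (nat_lit 251) (nat_lit 5) (nat_lit 258) (nat_lit 5) (nat_lit 259) (nat_lit 5) (nat_lit 497) (nat_lit 473) (nat_lit 230))))))))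
noncomputable def xc231 : XT := (XT.nd (nat_lit 2340) (nat_lit 2280) (nat_lit 0) (XT.nd (nat_lit 1170) (nat_lit 3344) (nat_lit 0) (XT.nd (nat_lit 546) (nat_lit 1824) (nat_lit 0) (XT.nd (nat_lit 234) (nat_lit 1520) (nat_lit 0) (XT.nd (nat_lit 78) (nat_lit 608) (nat_lit 0) (XT.lf (nat_lit 0) (nat_lit 42063599927) (nat_lit 532) (nat_lit 7628130216) (nat_lit 608) (nat_lit 2388283304) (nat_lit 251) (nat_lit 5) (nat_lit 258) (nat_lit 5) (nat_lit 259) (nat_lit 5) (nat_lit 498) (nat_lit 473) (nat_lit 229)) (XT.nd (nat_lit 78) (nat_lit 0) (nat_lit 0) (XT.lf (nat_lit 0) (nat_lit 3805254199) (nat_lit 608) (nat_lit 33954627033) (nat_lit 76) (nat_lit 15192383584) (nat_lit 243) (nat_lit 5) (nat_lit 251) (nat_lit 5) (nat_lit 244) (nat_lit 5) (nat_lit 499) (nat_lit 473) (nat_lit 228)) (XT.lf (nat_lit 0) (nat_lit 10313183463) (nat_lit 608) (nat_lit 4861549556) (nat_lit 76) (nat_lit 38669943812) (nat_lit 243) (nat_lit 5) (nat_lit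 251) (nat_lit 5) (nat_lit 244) (nat_lit 5) (nat_lit 500) (nat_lit 473) (nat_lit 227)))) (XT.nd (nat_lit 156) (nat_lit 456) (nat_lit 0) (XT.nd (nat_lit 78) (nat_lit 532) (nat_lit 0) (XT.lf (nat_lit 0) (nat_lit 17341588596) (nat_lit 608) (nat_lit 29233898974) (nat_lit 76) (nat_lit 8178616620) (nat_lit 236) (nat_lit 5) (nat_lit 244) (nat_lit 5) (nat_lit 237) (nat_lit 5) (nat_lit 501) (nat_lit 473) (nat_lit 226)) (XT.lf (nat_lit 0) (nat_lit 1093179949) (nat_lit 532) (nat_lit 23696962215) (nat_lit 608) (nat_lit 30894393439) (nat_lit 229) (nat_lit 5) (nat_lit 236) (nat_lit 5) (nat_lit 237) (nat_lit 5) (nat_lit 502) (nat_lit 473) (nat_lit 225))) (XT.nd (nat_lit 78) (nat_lit 456) (nat_lit 0) (XT.lf (nat_lit 0) (nat_lit 32757993524) (nat_lit 608) (nat_lit 23707506644) (nat_lit 76) (nat_lit 168504672) (nat_lit 229) (nat_lit 5) (nat_lit 237) (nat_lit 5) (nat_lit 230) (nat_lit 5) (nat_lit 503) (nat_lit 473) (nat_lit 224)) (XT.lf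 (nat_lit 0) (nat_lit 8023672013) (nat_lit 456) (nat_lit 33251972812) (nat_lit 532) (nat_lit 16326990512) (nat_lit 223) (nat_lit 5) (nat_lit 229) (nat_lit 5) (nat_lit 230) (nat_lit 5) (nat_lit 504) (nat_lit 473) (nat_lit 223))))) (XT.nd (nat_lit 312) (nat_lit 836) (nat_lit 0) (XT.nd (nat_lit 156) (nat_lit 456) (nat_lit 0) (XT.nd (nat_lit 78) (nat_lit 532) (nat_lit 0) (XT.lf (nat_lit 0) (nat_lit 41191644610) (nat_lit 456) (nat_lit 9095610931) (nat_lit 532) (nat_lit 8305916422) (nat_lit 223) (nat_lit 5) (nat_lit 229) (nat_lit 5) (nat_lit 230) (nat_lit 5) (nat_lit 505) (nat_lit 473) (nat_lit 222)) (XT.lf (nat_lit 0) (nat_lit 263282556) (nat_lit 532) (nat_lit 43708281962) (nat_lit 76) (nat_lit 15632674125) (nat_lit 216) (nat_lit 5) (nat_lit 223) (nat_lit 5) (nat_lit 217) (nat_lit 5) (nat_lit 506) (nat_lit 473) (nat_lit 221))) (XT.nd (nat_lit 78) (nat_lit 456) (nat_lit 0) (XT.lf (nat_lit 0) (nat_lit 9189198400) (nat_lit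 532) (nat_lit 10266442431) (nat_lit 76) (nat_lit 41179532041) (nat_lit 216) (nat_lit 5) (nat_lit 223) (nat_lit 5) (nat_lit 217) (nat_lit 5) (nat_lit 507) (nat_lit 473) (nat_lit 220)) (XT.lf (nat_lit 0) (nat_lit 18677076297) (nat_lit 532) (nat_lit 37089267104) (nat_lit 76) (nat_lit 5921866290) (nat_lit 210) (nat_lit 5) (nat_lit 217) (nat_lit 5) (nat_lit 211) (nat_lit 5) (nat_lit 508) (nat_lit 473) (nat_lit 219)))) (XT.nd (nat_lit 156) (nat_lit 380) (nat_lit 0) (XT.nd (nat_lit 78) (nat_lit 456) (nat_lit 0) (XT.lf (nat_lit 0) (nat_lit 28746024413) (nat_lit 532) (nat_lit 2243748542) (nat_lit 76) (nat_lit 31774171737) (nat_lit 210) (nat_lit 5) (nat_lit 217) (nat_lit 5) (nat_lit 211) (nat_lit 5) (nat_lit 509) (nat_lit 473) (nat_lit 218)) (XT.lf (nat_lit 0) (nat_lit 34315684724) (nat_lit 456) (nat_lit 5130352022) (nat_lit 532) (nat_lit 24416045218) (nat_lit 204) (nat_lit 5) (nat_lit 210) (nat_lit 5) (nat_lit 211) (nat_lit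 5) (nat_lit 510) (nat_lit 473) (nat_lit 217))) (XT.nd (nat_lit 78) (nat_lit 0) (nat_lit 0) (XT.lf (nat_lit 0) (nat_lit 6953062599) (nat_lit 380) (nat_lit 43809568971) (nat_lit 456) (nat_lit 14221664410) (nat_lit 199) (nat_lit 5) (nat_lit 204) (nat_lit 5) (nat_lit 205) (nat_lit 5) (nat_lit 511) (nat_lit 473) (nat_lit 216)) (XT.lf (nat_lit 0) (nat_lit 45100295986) (nat_lit 380) (nat_lit 17666246495) (nat_lit 456) (nat_lit 3363199474) (nat_lit 199) (nat_lit 5) (nat_lit 204) (nat_lit 5) (nat_lit 205) (nat_lit 5) (nat_lit 512) (nat_lit 473) (nat_lit 215)))))) (XT.nd (nat_lit 546) (nat_lit 1672) (nat_lit 0) (XT.nd (nat_lit 234) (nat_lit 760) (nat_lit 0) (XT.nd (nat_lit 78) (nat_lit 380) (nat_lit 0) (XT.lf (nat_lit 0) (nat_lit 7925725299) (nat_lit 532) (nat_lit 50049128357) (nat_lit 76) (nat_lit 9324722660) (nat_lit 192) (nat_lit 5) (nat_lit 199) (nat_lit 5) (nat_lit 193) (nat_lit 5) (nat_lit 513) (nat_lit 473) (nat_lit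 214)) (XT.nd (nat_lit 78) (nat_lit 380) (nat_lit 0) (XT.lf (nat_lit 0) (nat_lit 19874280756) (nat_lit 532) (nat_lit 11599700885) (nat_lit 76) (nat_lit 37017868380) (nat_lit 192) (nat_lit 5) (nat_lit 199) (nat_lit 5) (nat_lit 193) (nat_lit 5) (nat_lit 514) (nat_lit 473) (nat_lit 213)) (XT.lf (nat_lit 0) (nat_lit 28559465982) (nat_lit 380) (nat_lit 3895569487) (nat_lit 456) (nat_lit 37256644267) (nat_lit 187) (nat_lit 5) (nat_lit 192) (nat_lit 5) (nat_lit 193) (nat_lit 5) (nat_lit 515) (nat_lit 473) (nat_lit 212)))) (XT.nd (nat_lit 156) (nat_lit 380) (nat_lit 0) (XT.nd (nat_lit 78) (nat_lit 380) (nat_lit 0) (XT.lf (nat_lit 0) (nat_lit 45766335920) (nat_lit 456) (nat_lit 1041218845) (nat_lit 76) (nat_lit 24149955962) (nat_lit 187) (nat_lit 5) (nat_lit 193) (nat_lit 5) (nat_lit 188) (nat_lit 5) (nat_lit 516) (nat_lit 473) (nat_lit 211)) (XT.lf (nat_lit 0) (nat_lit 41034240243) (nat_lit 380) (nat_lit 18874996138) (nat_lit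 456) (nat_lit 12318512507) (nat_lit 182) (nat_lit 5) (nat_lit 187) (nat_lit 5) (nat_lit 188) (nat_lit 5) (nat_lit 517) (nat_lit 473) (nat_lit 210))) (XT.nd (nat_lit 78) (nat_lit 0) (nat_lit 0) (XT.lf (nat_lit 0) (nat_lit 1134561984) (nat_lit 380) (nat_lit 62565461148) (nat_lit 76) (nat_lit 9829422515) (nat_lit 177) (nat_lit 5) (nat_lit 182) (nat_lit 5) (nat_lit 178) (nat_lit 5) (nat_lit 518) (nat_lit 473) (nat_lit 209)) (XT.lf (nat_lit 0) (nat_lit 15247891018) (nat_lit 380) (nat_lit 20148106059) (nat_lit 76) (nat_lit 39455409769) (nat_lit 177) (nat_lit 5) (nat_lit 182) (nat_lit 5) (nat_lit 178) (nat_lit 5) (nat_lit 519) (nat_lit 473) (nat_lit 208))))) (XT.nd (nat_lit 312) (nat_lit 684) (nat_lit 0) (XT.nd (nat_lit 156) (nat_lit 608) (nat_lit 0) (XT.nd (nat_lit 78) (nat_lit 0) (nat_lit 0) (XT.lf (nat_lit 0) (nat_lit 24009271249) (nat_lit 380) (nat_lit 6005421101) (nat_lit 456) (nat_lit 46191432423) (nat_lit 172) (nat_lit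 5) (nat_lit 177) (nat_lit 5) (nat_lit 178) (nat_lit 5) (nat_lit 520) (nat_lit 473) (nat_lit 207)) (XT.lf (nat_lit 0) (nat_lit 45662525763) (nat_lit 456) (nat_lit 7927291157) (nat_lit 76) (nat_lit 23998526541) (nat_lit 172) (nat_lit 5) (nat_lit 178) (nat_lit 5) (nat_lit 173) (nat_lit 5) (nat_lit 521) (nat_lit 473) (nat_lit 206))) (XT.nd (nat_lit 78) (nat_lit 304) (nat_lit 0) (XT.lf (nat_lit 0) (nat_lit 38358424571) (nat_lit 304) (nat_lit 23848863801) (nat_lit 380) (nat_lit 16791915571) (nat_lit 168) (nat_lit 5) (nat_lit 172) (nat_lit 5) (nat_lit 173) (nat_lit 5) (nat_lit 522) (nat_lit 473) (nat_lit 205)) (XT.lf (nat_lit 0) (nat_lit 5791232078) (nat_lit 304) (nat_lit 73658206150) (nat_lit 380) (nat_lit 996920741) (nat_lit 164) (nat_lit 5) (nat_lit 168) (nat_lit 5) (nat_lit 169) (nat_lit 5) (nat_lit 523) (nat_lit 473) (nat_lit 204)))) (XT.nd (nat_lit 156) (nat_lit 304) (nat_lit 0) (XT.nd (nat_lit 78) (nat_lit 304)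 (nat_lit 0) (XT.lf (nat_lit 0) (nat_lit 15623818055) (nat_lit 380) (nat_lit 27863307288) (nat_lit 76) (nat_lit 38425902136) (nat_lit 163) (nat_lit 5) (nat_lit 168) (nat_lit 5) (nat_lit 164) (nat_lit 5) (nat_lit 524) (nat_lit 473) (nat_lit 203)) (XT.lf (nat_lit 0) (nat_lit 20725865024) (nat_lit 304) (nat_lit 12195847854) (nat_lit 380) (nat_lit 50495729975) (nat_lit 159) (nat_lit 5) (nat_lit 163) (nat_lit 5) (nat_lit 164) (nat_lit 5) (nat_lit 525) (nat_lit 473) (nat_lit 202))) (XT.nd (nat_lit 78) (nat_lit 304) (nat_lit 0) (XT.lf (nat_lit 0) (nat_lit 51214624075) (nat_lit 380) (nat_lit 13811007935) (nat_lit 76) (nat_lit 19927076347) (nat_lit 159) (nat_lit 5) (nat_lit 164) (nat_lit 5) (nat_lit 160) (nat_lit 5) (nat_lit 526) (nat_lit 473) (nat_lit 201)) (XT.lf (nat_lit 0) (nat_lit 37138997376) (nat_lit 304) (nat_lit 33394446234) (nat_lit 380) (nat_lit 15986274636) (nat_lit 155) (nat_lit 5) (nat_lit 159) (nat_lit 5) (nat_lit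 160) (nat_lit 5) (nat_lit 527) (nat_lit 473) (nat_lit 200))))))) (XT.nd (nat_lit 58578) (nat_lit 0) (nat_lit 11324) (XT.nd (nat_lit 546) (nat_lit 988) (nat_lit 0) (XT.nd (nat_lit 234) (nat_lit 608) (nat_lit 0) (XT.nd (nat_lit 78) (nat_lit 304) (nat_lit 0) (XT.lf (nat_lit 0) (nat_lit 1781400916) (nat_lit 304) (nat_lit 629183703) (nat_lit 380) (nat_lit 85717770963) (nat_lit 150) (nat_lit 5) (nat_lit 154) (nat_lit 5) (nat_lit 155) (nat_lit 5) (nat_lit 528) (nat_lit 473) (nat_lit 199)) (XT.nd (nat_lit 78) (nat_lit 304) (nat_lit 0) (XT.lf (nat_lit 0) (nat_lit 21859364066) (nat_lit 380) (nat_lit 34762183250) (nat_lit 76) (nat_lit 33134316690) (nat_lit 150) (nat_lit 5) (nat_lit 155) (nat_lit 5) (nat_lit 151) (nat_lit 5) (nat_lit 529) (nat_lit 473) (nat_lit 198)) (XT.lf (nat_lit 0) (nat_lit 18728432906) (nat_lit 304) (nat_lit 23348827533) (nat_lit 380) (nat_lit 49349367683) (nat_lit 146) (nat_lit 5) (nat_lit 150) (nat_lit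 5) (nat_lit 151) (nat_lit 5) (nat_lit 530) (nat_lit 473) (nat_lit 197)))) (XT.nd (nat_lit 156) (nat_lit 380) (nat_lit 0) (XT.nd (nat_lit 78) (nat_lit 228) (nat_lit 0) (XT.lf (nat_lit 0) (nat_lit 63360589330) (nat_lit 380) (nat_lit 18710025020) (nat_lit 76) (nat_lit 11063133985) (nat_lit 146) (nat_lit 5) (nat_lit 151) (nat_lit 5) (nat_lit 147) (nat_lit 5) (nat_lit 531) (nat_lit 473) (nat_lit 196)) (XT.lf (nat_lit 0) (nat_lit 37395426654) (nat_lit 228) (nat_lit 48477053661) (nat_lit 304) (nat_lit 9001900017) (nat_lit 143) (nat_lit 5) (nat_lit 146) (nat_lit 5) (nat_lit 147) (nat_lit 5) (nat_lit 532) (nat_lit 473) (nat_lit 195))) (XT.nd (nat_lit 78) (nat_lit 304) (nat_lit 0) (XT.lf (nat_lit 0) (nat_lit 12340900299) (nat_lit 304) (nat_lit 1215888369) (nat_lit 76) (nat_lit 83101162160) (nat_lit 142) (nat_lit 5) (nat_lit 146) (nat_lit 5) (nat_lit 143) (nat_lit 5) (nat_lit 533) (nat_lit 473) (nat_lit 194)) (XT.lf (nat_lit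 0) (nat_lit 34919643413) (nat_lit 380) (nat_lit 40925111966) (nat_lit 76) (nat_lit 22624301626) (nat_lit 138) (nat_lit 5) (nat_lit 143) (nat_lit 5) (nat_lit 139) (nat_lit 5) (nat_lit 534) (nat_lit 473) (nat_lit 193))))) (XT.nd (nat_lit 57720) (nat_lit 0) (nat_lit 12768) (XT.nd (nat_lit 156) (nat_lit 760) (nat_lit 0) (XT.nd (nat_lit 78) (nat_lit 0) (nat_lit 0) (XT.lf (nat_lit 0) (nat_lit 17972850059) (nat_lit 228) (nat_lit 40521732460) (nat_lit 304) (nat_lit 41830348875) (nat_lit 135) (nat_lit 5) (nat_lit 138) (nat_lit 5) (nat_lit 139) (nat_lit 5) (nat_lit 535) (nat_lit 473) (nat_lit 192)) (XT.lf (nat_lit 0) (nat_lit 79475796591) (nat_lit 228) (nat_lit 3713686770) (nat_lit 304) (nat_lit 19034617283) (nat_lit 135) (nat_lit 5) (nat_lit 138) (nat_lit 5) (nat_lit 139) (nat_lit 5) (nat_lit 536) (nat_lit 473) (nat_lit 191))) (XT.nd (nat_lit 234) (nat_lit 456) (nat_lit 0) (XT.lf (nat_lit 0) (nat_lit 5069045388) (nat_lit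 304) (nat_lit 65132321036) (nat_lit 76) (nat_lit 33956272840) (nat_lit 131) (nat_lit 5) (nat_lit 135) (nat_lit 5) (nat_lit 132) (nat_lit 5) (nat_lit 537) (nat_lit 473) (nat_lit 190)) (XT.lf (nat_lit 0) (nat_lit 18322562506) (nat_lit 228) (nat_lit 64982965207) (nat_lit 304) (nat_lit 26909844495) (nat_lit 125) (nat_lit 5) (nat_lit 128) (nat_lit 5) (nat_lit 129) (nat_lit 5) (nat_lit 540) (nat_lit 473) (nat_lit 187)))) (XT.nd (nat_lit 156) (nat_lit 0) (nat_lit 76) (XT.nd (nat_lit 78) (nat_lit 0) (nat_lit 0) (XT.lf (nat_lit 0) (nat_lit 8438611292) (nat_lit 1292) (nat_lit 4839225810) (nat_lit 1292) (nat_lit 4839225810) (nat_lit 293) (nat_lit 3) (nat_lit 310) (nat_lit 3) (nat_lit 310) (nat_lit 5) (nat_lit 474) (nat_lit 474) (nat_lit 252)) (XT.lf (nat_lit 76) (nat_lit 8383951601) (nat_lit 0) (nat_lit 8876602687) (nat_lit 1292) (nat_lit 19513171333) (nat_lit 294) (nat_lit 5) (nat_lit 293) (nat_lit 3) (nat_lit 310) (nat_lit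 5) (nat_lit 475) (nat_lit 474) (nat_lit 251))) (XT.nd (nat_lit 78) (nat_lit 0) (nat_lit 0) (XT.lf (nat_lit 0) (nat_lit 17841864079) (nat_lit 1216) (nat_lit 10231720401) (nat_lit 1292) (nat_lit 9250334853) (nat_lit 294) (nat_lit 5) (nat_lit 310) (nat_lit 5) (nat_lit 311) (nat_lit 5) (nat_lit 476) (nat_lit 474) (nat_lit 250)) (XT.lf (nat_lit 76) (nat_lit 8548956122) (nat_lit 0) (nat_lit 10059842494) (nat_lit 1292) (nat_lit 19276774938) (nat_lit 295) (nat_lit 5) (nat_lit 294) (nat_lit 5) (nat_lit 311) (nat_lit 5) (nat_lit 477) (nat_lit 474) (nat_lit 249)))))) (XT.nd (nat_lit 624) (nat_lit 1596) (nat_lit 0) (XT.nd (nat_lit 312) (nat_lit 0) (nat_lit 152) (XT.nd (nat_lit 156) (nat_lit 0) (nat_lit 76) (XT.nd (nat_lit 78) (nat_lit 0) (nat_lit 0) (XT.lf (nat_lit 0) (nat_lit 19582909845) (nat_lit 1216) (nat_lit 10441965183) (nat_lit 1292) (nat_lit 8433677569) (nat_lit 295) (nat_lit 5) (nat_lit 311) (nat_lit 5) (nat_lit 312)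 (nat_lit 5) (nat_lit 478) (nat_lit 474) (nat_lit 248)) (XT.lf (nat_lit 76) (nat_lit 9096353977) (nat_lit 0) (nat_lit 11675158616) (nat_lit 1292) (nat_lit 18271650618) (nat_lit 296) (nat_lit 5) (nat_lit 295) (nat_lit 5) (nat_lit 312) (nat_lit 5) (nat_lit 479) (nat_lit 474) (nat_lit 247))) (XT.nd (nat_lit 78) (nat_lit 0) (nat_lit 0) (XT.lf (nat_lit 0) (nat_lit 22169986347) (nat_lit 1216) (nat_lit 10278892691) (nat_lit 1292) (nat_lit 7191206955) (nat_lit 296) (nat_lit 5) (nat_lit 312) (nat_lit 5) (nat_lit 313) (nat_lit 5) (nat_lit 480) (nat_lit 474) (nat_lit 246)) (XT.lf (nat_lit 76) (nat_lit 10058657992) (nat_lit 0) (nat_lit 13762366159) (nat_lit 1292) (nat_lit 16427574246) (nat_lit 297) (nat_lit 5) (nat_lit 296) (nat_lit 5) (nat_lit 313) (nat_lit 5) (nat_lit 481) (nat_lit 474) (nat_lit 245)))) (XT.nd (nat_lit 156) (nat_lit 0) (nat_lit 76) (XT.nd (nat_lit 78) (nat_lit 0) (nat_lit 0) (XT.lf (nat_lit 0) (nat_lit 25677508202)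 (nat_lit 1216) (nat_lit 9710092666) (nat_lit 1292) (nat_lit 5483088079) (nat_lit 297) (nat_lit 5) (nat_lit 313) (nat_lit 5) (nat_lit 314) (nat_lit 5) (nat_lit 482) (nat_lit 474) (nat_lit 244)) (XT.lf (nat_lit 76) (nat_lit 11470623186) (nat_lit 0) (nat_lit 16364002879) (nat_lit 1292) (nat_lit 13669468184) (nat_lit 298) (nat_lit 5) (nat_lit 297) (nat_lit 5) (nat_lit 314) (nat_lit 5) (nat_lit 483) (nat_lit 474) (nat_lit 243))) (XT.nd (nat_lit 78) (nat_lit 0) (nat_lit 0) (XT.lf (nat_lit 0) (nat_lit 30184988533) (nat_lit 1216) (nat_lit 8700914462) (nat_lit 1292) (nat_lit 3266742999) (nat_lit 298) (nat_lit 5) (nat_lit 314) (nat_lit 5) (nat_lit 315) (nat_lit 5) (nat_lit 484) (nat_lit 474) (nat_lit 242)) (XT.lf (nat_lit 76) (nat_lit 13369377146) (nat_lit 0) (nat_lit 19525519870) (nat_lit 1292) (nat_lit 9917086426) (nat_lit 299) (nat_lit 5) (nat_lit 298) (nat_lit 5) (nat_lit 315) (nat_lit 5) (nat_lit 485) (nat_lit 474) (nat_lit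 241))))) (XT.nd (nat_lit 312) (nat_lit 684) (nat_lit 0) (XT.nd (nat_lit 156) (nat_lit 1216) (nat_lit 0) (XT.nd (nat_lit 78) (nat_lit 0) (nat_lit 0) (XT.lf (nat_lit 0) (nat_lit 35777367951) (nat_lit 1216) (nat_lit 7214336533) (nat_lit 1292) (nat_lit 496658775) (nat_lit 299) (nat_lit 5) (nat_lit 315) (nat_lit 5) (nat_lit 316) (nat_lit 5) (nat_lit 486) (nat_lit 474) (nat_lit 240)) (XT.lf (nat_lit 76) (nat_lit 15794557902) (nat_lit 0) (nat_lit 23295484020) (nat_lit 1292) (nat_lit 5084680873) (nat_lit 300) (nat_lit 5) (nat_lit 299) (nat_lit 5) (nat_lit 316) (nat_lit 5) (nat_lit 487) (nat_lit 474) (nat_lit 239))) (XT.nd (nat_lit 78) (nat_lit 1216) (nat_lit 0) (XT.lf (nat_lit 76) (nat_lit 39640506725) (nat_lit 0) (nat_lit 2933050814) (nat_lit 1292) (nat_lit 2305971927) (nat_lit 300) (nat_lit 5) (nat_lit 299) (nat_lit 5) (nat_lit 316) (nat_lit 5) (nat_lit 488) (nat_lit 474) (nat_lit 238)) (XT.lf (nat_lit 0) (nat_lit 901412529)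 (nat_lit 1292) (nat_lit 26815278055) (nat_lit 1368) (nat_lit 17877944590) (nat_lit 283) (nat_lit 5) (nat_lit 300) (nat_lit 5) (nat_lit 301) (nat_lit 5) (nat_lit 489) (nat_lit 474) (nat_lit 237)))) (XT.nd (nat_lit 156) (nat_lit 684) (nat_lit 0) (XT.nd (nat_lit 78) (nat_lit 0) (nat_lit 76) (XT.lf (nat_lit 0) (nat_lit 4239807888) (nat_lit 1292) (nat_lit 2757445420) (nat_lit 1368) (nat_lit 39330821863) (nat_lit 283) (nat_lit 5) (nat_lit 300) (nat_lit 5) (nat_lit 301) (nat_lit 5) (nat_lit 490) (nat_lit 474) (nat_lit 236)) (XT.lf (nat_lit 0) (nat_lit 8032976178) (nat_lit 1292) (nat_lit 24757810764) (nat_lit 76) (nat_lit 14282092961) (nat_lit 284) (nat_lit 5) (nat_lit 301) (nat_lit 5) (nat_lit 285) (nat_lit 5) (nat_lit 491) (nat_lit 474) (nat_lit 235))) (XT.nd (nat_lit 78) (nat_lit 0) (nat_lit 0) (XT.lf (nat_lit 0) (nat_lit 292112677) (nat_lit 760) (nat_lit 11746772104) (nat_lit 836) (nat_lit 35798175802) (nat_lit 274)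 (nat_lit 5) (nat_lit 284) (nat_lit 5) (nat_lit 285) (nat_lit 5) (nat_lit 492) (nat_lit 474) (nat_lit 234)) (XT.lf (nat_lit 0) (nat_lit 16511655091) (nat_lit 836) (nat_lit 22114686731) (nat_lit 76) (nat_lit 9987424486) (nat_lit 274) (nat_lit 5) (nat_lit 285) (nat_lit 5) (nat_lit 275) (nat_lit 5) (nat_lit 493) (nat_lit 474) (nat_lit 233))))))))
noncomputable def xc232 : XT := (XT.nd (nat_lit 2340) (nat_lit 3040) (nat_lit 0) (XT.nd (nat_lit 1170) (nat_lit 3648) (nat_lit 0) (XT.nd (nat_lit 546) (nat_lit 2052) (nat_lit 0) (XT.nd (nat_lit 234) (nat_lit 1140) (nat_lit 0) (XT.nd (nat_lit 78) (nat_lit 608) (nat_lit 0) (XT.lf (nat_lit 0) (nat_lit 4039893830) (nat_lit 608) (nat_lit 17232653654) (nat_lit 684) (nat_lit 28136607704) (nat_lit 266) (nat_lit 5) (nat_lit 274) (nat_lit 5) (nat_lit 275) (nat_lit 5) (nat_lit 494) (nat_lit 474) (nat_lit 232)) (XT.nd (nat_lit 78) (nat_lit 608) (nat_lit 0) (XT.lf (nat_lit 0) (nat_lit 26446785899)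 (nat_lit 684) (nat_lit 18838785791) (nat_lit 76) (nat_lit 4934718616) (nat_lit 266) (nat_lit 5) (nat_lit 275) (nat_lit 5) (nat_lit 267) (nat_lit 5) (nat_lit 495) (nat_lit 474) (nat_lit 231)) (XT.lf (nat_lit 0) (nat_lit 8481377402) (nat_lit 608) (nat_lit 23545882149) (nat_lit 684) (nat_lit 19020969828) (nat_lit 258) (nat_lit 5) (nat_lit 266) (nat_lit 5) (nat_lit 267) (nat_lit 5) (nat_lit 496) (nat_lit 474) (nat_lit 230)))) (XT.nd (nat_lit 156) (nat_lit 608) (nat_lit 0) (XT.nd (nat_lit 78) (nat_lit 532) (nat_lit 0) (XT.lf (nat_lit 0) (nat_lit 37006224469) (nat_lit 608) (nat_lit 958039971) (nat_lit 684) (nat_lit 13931068815) (nat_lit 258) (nat_lit 5) (nat_lit 266) (nat_lit 5) (nat_lit 267) (nat_lit 5) (nat_lit 497) (nat_lit 474) (nat_lit 229)) (XT.lf (nat_lit 0) (nat_lit 13670190039) (nat_lit 532) (nat_lit 30753943374) (nat_lit 608) (nat_lit 8333374351) (nat_lit 251) (nat_lit 5) (nat_lit 258) (nat_lit 5) (nat_lit 259)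 (nat_lit 5) (nat_lit 498) (nat_lit 474) (nat_lit 228))) (XT.nd (nat_lit 78) (nat_lit 608) (nat_lit 0) (XT.lf (nat_lit 0) (nat_lit 43380717837) (nat_lit 532) (nat_lit 7855760091) (nat_lit 608) (nat_lit 2404309330) (nat_lit 251) (nat_lit 5) (nat_lit 258) (nat_lit 5) (nat_lit 259) (nat_lit 5) (nat_lit 499) (nat_lit 474) (nat_lit 227)) (XT.lf (nat_lit 0) (nat_lit 3972918123) (nat_lit 608) (nat_lit 34915926903) (nat_lit 76) (nat_lit 15650376214) (nat_lit 243) (nat_lit 5) (nat_lit 251) (nat_lit 5) (nat_lit 244) (nat_lit 5) (nat_lit 500) (nat_lit 474) (nat_lit 226))))) (XT.nd (nat_lit 312) (nat_lit 988) (nat_lit 0) (XT.nd (nat_lit 156) (nat_lit 532) (nat_lit 0) (XT.nd (nat_lit 78) (nat_lit 532) (nat_lit 0) (XT.lf (nat_lit 0) (nat_lit 10674526828) (nat_lit 608) (nat_lit 4951727169) (nat_lit 76) (nat_lit 39832198556) (nat_lit 243) (nat_lit 5) (nat_lit 251) (nat_lit 5) (nat_lit 244) (nat_lit 5) (nat_lit 501) (nat_lit 474)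 (nat_lit 225)) (XT.lf (nat_lit 0) (nat_lit 17912840921) (nat_lit 608) (nat_lit 30054297907) (nat_lit 76) (nat_lit 8428052379) (nat_lit 236) (nat_lit 5) (nat_lit 244) (nat_lit 5) (nat_lit 237) (nat_lit 5) (nat_lit 502) (nat_lit 474) (nat_lit 224))) (XT.nd (nat_lit 78) (nat_lit 0) (nat_lit 0) (XT.lf (nat_lit 0) (nat_lit 1182038305) (nat_lit 532) (nat_lit 24401866130) (nat_lit 608) (nat_lit 31769659702) (nat_lit 229) (nat_lit 5) (nat_lit 236) (nat_lit 5) (nat_lit 237) (nat_lit 5) (nat_lit 503) (nat_lit 474) (nat_lit 223)) (XT.lf (nat_lit 0) (nat_lit 33789389377) (nat_lit 608) (nat_lit 24362894205) (nat_lit 76) (nat_lit 179276097) (nat_lit 229) (nat_lit 5) (nat_lit 237) (nat_lit 5) (nat_lit 230) (nat_lit 5) (nat_lit 504) (nat_lit 474) (nat_lit 222)))) (XT.nd (nat_lit 156) (nat_lit 532) (nat_lit 0) (XT.nd (nat_lit 78) (nat_lit 0) (nat_lit 0) (XT.lf (nat_lit 0) (nat_lit 8319672384) (nat_lit 456) (nat_lit 34242012150)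 (nat_lit 532) (nat_lit 16767591291) (nat_lit 223) (nat_lit 5) (nat_lit 229) (nat_lit 5) (nat_lit 230) (nat_lit 5) (nat_lit 505) (nat_lit 474) (nat_lit 221)) (XT.lf (nat_lit 0) (nat_lit 42481073765) (nat_lit 456) (nat_lit 9361178437) (nat_lit 532) (nat_lit 8507318248) (nat_lit 223) (nat_lit 5) (nat_lit 229) (nat_lit 5) (nat_lit 230) (nat_lit 5) (nat_lit 506) (nat_lit 474) (nat_lit 220))) (XT.nd (nat_lit 78) (nat_lit 0) (nat_lit 0) (XT.lf (nat_lit 0) (nat_lit 317257619) (nat_lit 532) (nat_lit 44964141378) (nat_lit 76) (nat_lit 16109579510) (nat_lit 216) (nat_lit 5) (nat_lit 223) (nat_lit 5) (nat_lit 217) (nat_lit 5) (nat_lit 507) (nat_lit 474) (nat_lit 219)) (XT.lf (nat_lit 0) (nat_lit 9509608901) (nat_lit 532) (nat_lit 10520659934) (nat_lit 76) (nat_lit 42422612335) (nat_lit 216) (nat_lit 5) (nat_lit 223) (nat_lit 5) (nat_lit 217) (nat_lit 5) (nat_lit 508) (nat_lit 474) (nat_lit 218)))))) (XT.nd (nat_lit 546) (nat_lit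 1824) (nat_lit 0) (XT.nd (nat_lit 234) (nat_lit 912) (nat_lit 0) (XT.nd (nat_lit 78) (nat_lit 456) (nat_lit 0) (XT.lf (nat_lit 0) (nat_lit 19281421491) (nat_lit 532) (nat_lit 38147462993) (nat_lit 76) (nat_lit 6108645800) (nat_lit 210) (nat_lit 5) (nat_lit 217) (nat_lit 5) (nat_lit 211) (nat_lit 5) (nat_lit 509) (nat_lit 474) (nat_lit 217)) (XT.nd (nat_lit 78) (nat_lit 456) (nat_lit 0) (XT.lf (nat_lit 0) (nat_lit 29651155538) (nat_lit 532) (nat_lit 2258165732) (nat_lit 76) (nat_lit 32736254678) (nat_lit 210) (nat_lit 5) (nat_lit 217) (nat_lit 5) (nat_lit 211) (nat_lit 5) (nat_lit 510) (nat_lit 474) (nat_lit 216)) (XT.lf (nat_lit 0) (nat_lit 35397531951) (nat_lit 456) (nat_lit 5273894610) (nat_lit 532) (nat_lit 25105253159) (nat_lit 204) (nat_lit 5) (nat_lit 210) (nat_lit 5) (nat_lit 211) (nat_lit 5) (nat_lit 511) (nat_lit 474) (nat_lit 215)))) (XT.nd (nat_lit 156) (nat_lit 532) (nat_lit 0) (XT.nd (nat_lit 78) (nat_lit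 0) (nat_lit 0) (XT.lf (nat_lit 0) (nat_lit 7214671282) (nat_lit 380) (nat_lit 45112230784) (nat_lit 456) (nat_lit 14605676736) (nat_lit 199) (nat_lit 5) (nat_lit 204) (nat_lit 5) (nat_lit 205) (nat_lit 5) (nat_lit 512) (nat_lit 474) (nat_lit 214)) (XT.lf (nat_lit 0) (nat_lit 46504777492) (nat_lit 380) (nat_lit 18184947233) (nat_lit 456) (nat_lit 3422699724) (nat_lit 199) (nat_lit 5) (nat_lit 204) (nat_lit 5) (nat_lit 205) (nat_lit 5) (nat_lit 513) (nat_lit 474) (nat_lit 213))) (XT.nd (nat_lit 78) (nat_lit 0) (nat_lit 0) (XT.lf (nat_lit 0) (nat_lit 8203514589) (nat_lit 532) (nat_lit 51497743369) (nat_lit 76) (nat_lit 9616101177) (nat_lit 192) (nat_lit 5) (nat_lit 199) (nat_lit 5) (nat_lit 193) (nat_lit 5) (nat_lit 514) (nat_lit 474) (nat_lit 212)) (XT.lf (nat_lit 0) (nat_lit 20509361150) (nat_lit 532) (nat_lit 11896372650) (nat_lit 76) (nat_lit 38139702332) (nat_lit 192) (nat_lit 5) (nat_lit 199) (nat_lit 5) (nat_lit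 193) (nat_lit 5) (nat_lit 515) (nat_lit 474) (nat_lit 211))))) (XT.nd (nat_lit 312) (nat_lit 684) (nat_lit 0) (XT.nd (nat_lit 156) (nat_lit 760) (nat_lit 0) (XT.nd (nat_lit 78) (nat_lit 0) (nat_lit 0) (XT.lf (nat_lit 0) (nat_lit 29467066093) (nat_lit 380) (nat_lit 3999829277) (nat_lit 456) (nat_lit 38334984775) (nat_lit 187) (nat_lit 5) (nat_lit 192) (nat_lit 5) (nat_lit 193) (nat_lit 5) (nat_lit 516) (nat_lit 474) (nat_lit 210)) (XT.lf (nat_lit 0) (nat_lit 47176539614) (nat_lit 456) (nat_lit 1022120530) (nat_lit 76) (nat_lit 24886455884) (nat_lit 187) (nat_lit 5) (nat_lit 193) (nat_lit 5) (nat_lit 188) (nat_lit 5) (nat_lit 517) (nat_lit 474) (nat_lit 209))) (XT.nd (nat_lit 78) (nat_lit 380) (nat_lit 0) (XT.lf (nat_lit 0) (nat_lit 42315108851) (nat_lit 380) (nat_lit 19428013453) (nat_lit 456) (nat_lit 12650357281) (nat_lit 182) (nat_lit 5) (nat_lit 187) (nat_lit 5) (nat_lit 188) (nat_lit 5) (nat_lit 518) (nat_lit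 474) (nat_lit 208)) (XT.lf (nat_lit 0) (nat_lit 1205109833) (nat_lit 380) (nat_lit 64391377263) (nat_lit 76) (nat_lit 10137743287) (nat_lit 177) (nat_lit 5) (nat_lit 182) (nat_lit 5) (nat_lit 178) (nat_lit 5) (nat_lit 519) (nat_lit 474) (nat_lit 207)))) (XT.nd (nat_lit 156) (nat_lit 304) (nat_lit 0) (XT.nd (nat_lit 78) (nat_lit 380) (nat_lit 0) (XT.lf (nat_lit 0) (nat_lit 15740775312) (nat_lit 380) (nat_lit 20702988348) (nat_lit 76) (nat_lit 40652118758) (nat_lit 177) (nat_lit 5) (nat_lit 182) (nat_lit 5) (nat_lit 178) (nat_lit 5) (nat_lit 520) (nat_lit 474) (nat_lit 206)) (XT.lf (nat_lit 0) (nat_lit 24778624388) (nat_lit 380) (nat_lit 6171395580) (nat_lit 456) (nat_lit 47541238828) (nat_lit 172) (nat_lit 5) (nat_lit 177) (nat_lit 5) (nat_lit 178) (nat_lit 5) (nat_lit 521) (nat_lit 474) (nat_lit 205))) (XT.nd (nat_lit 78) (nat_lit 304) (nat_lit 0) (XT.lf (nat_lit 0) (nat_lit 47066404675) (nat_lit 456) (nat_lit 8116577526)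 (nat_lit 76) (nat_lit 24731988445) (nat_lit 172) (nat_lit 5) (nat_lit 178) (nat_lit 5) (nat_lit 173) (nat_lit 5) (nat_lit 522) (nat_lit 474) (nat_lit 204)) (XT.lf (nat_lit 0) (nat_lit 39557233866) (nat_lit 304) (nat_lit 24549747862) (nat_lit 380) (nat_lit 17261191156) (nat_lit 168) (nat_lit 5) (nat_lit 172) (nat_lit 5) (nat_lit 173) (nat_lit 5) (nat_lit 523) (nat_lit 474) (nat_lit 203))))))) (XT.nd (nat_lit 58734) (nat_lit 0) (nat_lit 11780) (XT.nd (nat_lit 546) (nat_lit 1672) (nat_lit 0) (XT.nd (nat_lit 234) (nat_lit 684) (nat_lit 0) (XT.nd (nat_lit 78) (nat_lit 380) (nat_lit 0) (XT.lf (nat_lit 0) (nat_lit 6013412962) (nat_lit 304) (nat_lit 75852609886) (nat_lit 380) (nat_lit 992730995) (nat_lit 164) (nat_lit 5) (nat_lit 168) (nat_lit 5) (nat_lit 169) (nat_lit 5) (nat_lit 524) (nat_lit 474) (nat_lit 202)) (XT.nd (nat_lit 78) (nat_lit 304) (nat_lit 0) (XT.lf (nat_lit 0) (nat_lit 16124990855) (nat_lit 380) (nat_lit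 28651524902) (nat_lit 76) (nat_lit 39592926111) (nat_lit 163) (nat_lit 5) (nat_lit 168) (nat_lit 5) (nat_lit 164) (nat_lit 5) (nat_lit 525) (nat_lit 474) (nat_lit 201)) (XT.lf (nat_lit 0) (nat_lit 21394855112) (nat_lit 304) (nat_lit 12546475876) (nat_lit 380) (nat_lit 51977673541) (nat_lit 159) (nat_lit 5) (nat_lit 163) (nat_lit 5) (nat_lit 164) (nat_lit 5) (nat_lit 526) (nat_lit 474) (nat_lit 200)))) (XT.nd (nat_lit 156) (nat_lit 380) (nat_lit 0) (XT.nd (nat_lit 78) (nat_lit 304) (nat_lit 0) (XT.lf (nat_lit 0) (nat_lit 52782240749) (nat_lit 380) (nat_lit 14178707901) (nat_lit 76) (nat_lit 20539403086) (nat_lit 159) (nat_lit 5) (nat_lit 164) (nat_lit 5) (nat_lit 160) (nat_lit 5) (nat_lit 527) (nat_lit 474) (nat_lit 199)) (XT.lf (nat_lit 0) (nat_lit 38299340410) (nat_lit 304) (nat_lit 34380820209) (nat_lit 380) (nat_lit 16434225305) (nat_lit 155) (nat_lit 5) (nat_lit 159) (nat_lit 5) (nat_lit 160) (nat_lit 5) (nat_lit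 528) (nat_lit 474) (nat_lit 198))) (XT.nd (nat_lit 78) (nat_lit 0) (nat_lit 0) (XT.lf (nat_lit 0) (nat_lit 1881177052) (nat_lit 304) (nat_lit 632287204) (nat_lit 380) (nat_lit 88257822813) (nat_lit 150) (nat_lit 5) (nat_lit 154) (nat_lit 5) (nat_lit 155) (nat_lit 5) (nat_lit 529) (nat_lit 474) (nat_lit 197)) (XT.lf (nat_lit 0) (nat_lit 22544964122) (nat_lit 380) (nat_lit 35759318962) (nat_lit 76) (nat_lit 34143360018) (nat_lit 150) (nat_lit 5) (nat_lit 155) (nat_lit 5) (nat_lit 151) (nat_lit 5) (nat_lit 530) (nat_lit 474) (nat_lit 196))))) (XT.nd (nat_lit 312) (nat_lit 1064) (nat_lit 0) (XT.nd (nat_lit 156) (nat_lit 304) (nat_lit 0) (XT.nd (nat_lit 78) (nat_lit 0) (nat_lit 0) (XT.lf (nat_lit 0) (nat_lit 19335567346) (nat_lit 304) (nat_lit 24033396793) (nat_lit 380) (nat_lit 50799579064) (nat_lit 146) (nat_lit 5) (nat_lit 150) (nat_lit 5) (nat_lit 151) (nat_lit 5) (nat_lit 531) (nat_lit 474) (nat_lit 195)) (XT.lf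 (nat_lit 0) (nat_lit 65290085347) (nat_lit 380) (nat_lit 19226653522) (nat_lit 76) (nat_lit 11410159447) (nat_lit 146) (nat_lit 5) (nat_lit 151) (nat_lit 5) (nat_lit 147) (nat_lit 5) (nat_lit 532) (nat_lit 474) (nat_lit 194))) (XT.nd (nat_lit 78) (nat_lit 76) (nat_lit 0) (XT.lf (nat_lit 0) (nat_lit 38561523740) (nat_lit 228) (nat_lit 49915399237) (nat_lit 304) (nat_lit 9242838659) (nat_lit 143) (nat_lit 5) (nat_lit 146) (nat_lit 5) (nat_lit 147) (nat_lit 5) (nat_lit 533) (nat_lit 474) (nat_lit 193)) (XT.lf (nat_lit 0) (nat_lit 12738845904) (nat_lit 304) (nat_lit 1208865516) (nat_lit 76) (nat_lit 85609144434) (nat_lit 142) (nat_lit 5) (nat_lit 146) (nat_lit 5) (nat_lit 143) (nat_lit 5) (nat_lit 534) (nat_lit 474) (nat_lit 192)))) (XT.nd (nat_lit 390) (nat_lit 532) (nat_lit 0) (XT.nd (nat_lit 78) (nat_lit 228) (nat_lit 0) (XT.lf (nat_lit 0) (nat_lit 35994709395) (nat_lit 380) (nat_lit 42109122020) (nat_lit 76) (nat_lit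 23318471115) (nat_lit 138) (nat_lit 5) (nat_lit 143) (nat_lit 5) (nat_lit 139) (nat_lit 5) (nat_lit 535) (nat_lit 474) (nat_lit 191)) (XT.lf (nat_lit 0) (nat_lit 18555350010) (nat_lit 228) (nat_lit 41721162738) (nat_lit 304) (nat_lit 43057351976) (nat_lit 135) (nat_lit 5) (nat_lit 138) (nat_lit 5) (nat_lit 139) (nat_lit 5) (nat_lit 536) (nat_lit 474) (nat_lit 190))) (XT.nd (nat_lit 57408) (nat_lit 0) (nat_lit 12540) (XT.lf (nat_lit 0) (nat_lit 57585942333) (nat_lit 304) (nat_lit 47877960154) (nat_lit 76) (nat_lit 5933130124) (nat_lit 128) (nat_lit 5) (nat_lit 132) (nat_lit 5) (nat_lit 129) (nat_lit 5) (nat_lit 540) (nat_lit 474) (nat_lit 186)) (XT.lf (nat_lit 0) (nat_lit 8740874715) (nat_lit 1292) (nat_lit 4959110053) (nat_lit 1292) (nat_lit 4959110053) (nat_lit 293) (nat_lit 3) (nat_lit 310) (nat_lit 3) (nat_lit 310) (nat_lit 5) (nat_lit 475) (nat_lit 475) (nat_lit 250)))))) (XT.nd (nat_lit 546) (nat_lit 760) (nat_lit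 0) (XT.nd (nat_lit 234) (nat_lit 0) (nat_lit 152) (XT.nd (nat_lit 78) (nat_lit 0) (nat_lit 76) (XT.lf (nat_lit 76) (nat_lit 8685559280) (nat_lit 0) (nat_lit 9188642802) (nat_lit 1292) (nat_lit 19999847117) (nat_lit 294) (nat_lit 5) (nat_lit 293) (nat_lit 3) (nat_lit 310) (nat_lit 5) (nat_lit 476) (nat_lit 475) (nat_lit 249)) (XT.nd (nat_lit 78) (nat_lit 0) (nat_lit 0) (XT.lf (nat_lit 0) (nat_lit 18469733074) (nat_lit 1216) (nat_lit 10486810826) (nat_lit 1292) (nat_lit 9484301751) (nat_lit 294) (nat_lit 5) (nat_lit 310) (nat_lit 5) (nat_lit 311) (nat_lit 5) (nat_lit 477) (nat_lit 475) (nat_lit 248)) (XT.lf (nat_lit 76) (nat_lit 8856777549) (nat_lit 0) (nat_lit 10400694264) (nat_lit 1292) (nat_lit 19761944176) (nat_lit 295) (nat_lit 5) (nat_lit 294) (nat_lit 5) (nat_lit 311) (nat_lit 5) (nat_lit 478) (nat_lit 475) (nat_lit 247)))) (XT.nd (nat_lit 156) (nat_lit 0) (nat_lit 76) (XT.nd (nat_lit 78) (nat_lit 0) (nat_lit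 0) (XT.lf (nat_lit 0) (nat_lit 20257808600) (nat_lit 1216) (nat_lit 10702357196) (nat_lit 1292) (nat_lit 8649508904) (nat_lit 295) (nat_lit 5) (nat_lit 311) (nat_lit 5) (nat_lit 312) (nat_lit 5) (nat_lit 479) (nat_lit 475) (nat_lit 246)) (XT.lf (nat_lit 76) (nat_lit 9421593235) (nat_lit 0) (nat_lit 12058433438) (nat_lit 1292) (nat_lit 18731858596) (nat_lit 296) (nat_lit 5) (nat_lit 295) (nat_lit 5) (nat_lit 312) (nat_lit 5) (nat_lit 480) (nat_lit 475) (nat_lit 245))) (XT.nd (nat_lit 78) (nat_lit 0) (nat_lit 0) (XT.lf (nat_lit 0) (nat_lit 22917660008) (nat_lit 1216) (nat_lit 10533629486) (nat_lit 1292) (nat_lit 7375510423) (nat_lit 296) (nat_lit 5) (nat_lit 312) (nat_lit 5) (nat_lit 313) (nat_lit 5) (nat_lit 481) (nat_lit 475) (nat_lit 244)) (XT.lf (nat_lit 76) (nat_lit 10413521935) (nat_lit 0) (nat_lit 14202812412) (nat_lit 1292) (nat_lit 16837290517) (nat_lit 297) (nat_lit 5) (nat_lit 296) (nat_lit 5) (nat_lit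 313) (nat_lit 5) (nat_lit 482) (nat_lit 475) (nat_lit 243))))) (XT.nd (nat_lit 312) (nat_lit 1064) (nat_lit 0) (XT.nd (nat_lit 156) (nat_lit 0) (nat_lit 76) (XT.nd (nat_lit 78) (nat_lit 0) (nat_lit 0) (XT.lf (nat_lit 0) (nat_lit 26525905681) (nat_lit 1216) (nat_lit 9947219952) (nat_lit 1292) (nat_lit 5621331036) (nat_lit 297) (nat_lit 5) (nat_lit 313) (nat_lit 5) (nat_lit 314) (nat_lit 5) (nat_lit 483) (nat_lit 475) (nat_lit 242)) (XT.lf (nat_lit 76) (nat_lit 11868386243) (nat_lit 0) (nat_lit 16877592552) (nat_lit 1292) (nat_lit 14000938400) (nat_lit 298) (nat_lit 5) (nat_lit 297) (nat_lit 5) (nat_lit 314) (nat_lit 5) (nat_lit 484) (nat_lit 475) (nat_lit 241))) (XT.nd (nat_lit 78) (nat_lit 0) (nat_lit 0) (XT.lf (nat_lit 0) (nat_lit 31164417834) (nat_lit 1216) (nat_lit 8907415529) (nat_lit 1292) (nat_lit 3343165462) (nat_lit 298) (nat_lit 5) (nat_lit 314) (nat_lit 5) (nat_lit 315) (nat_lit 5) (nat_lit 485) (nat_lit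 475) (nat_lit 240)) (XT.lf (nat_lit 76) (nat_lit 13824450255) (nat_lit 0) (nat_lit 20129540484) (nat_lit 1292) (nat_lit 10140174939) (nat_lit 299) (nat_lit 5) (nat_lit 298) (nat_lit 5) (nat_lit 315) (nat_lit 5) (nat_lit 486) (nat_lit 475) (nat_lit 239)))) (XT.nd (nat_lit 156) (nat_lit 1216) (nat_lit 0) (XT.nd (nat_lit 78) (nat_lit 0) (nat_lit 0) (XT.lf (nat_lit 0) (nat_lit 36920661158) (nat_lit 1216) (nat_lit 7376063191) (nat_lit 1292) (nat_lit 494181066) (nat_lit 299) (nat_lit 5) (nat_lit 315) (nat_lit 5) (nat_lit 316) (nat_lit 5) (nat_lit 487) (nat_lit 475) (nat_lit 238)) (XT.lf (nat_lit 76) (nat_lit 16322561769) (nat_lit 0) (nat_lit 24008636243) (nat_lit 1292) (nat_lit 5166703526) (nat_lit 300) (nat_lit 5) (nat_lit 299) (nat_lit 5) (nat_lit 316) (nat_lit 5) (nat_lit 488) (nat_lit 475) (nat_lit 237))) (XT.nd (nat_lit 78) (nat_lit 1216) (nat_lit 0) (XT.lf (nat_lit 76) (nat_lit 40882311372) (nat_lit 0) (nat_lit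 3034913894) (nat_lit 1292) (nat_lit 2306687226) (nat_lit 300) (nat_lit 5) (nat_lit 299) (nat_lit 5) (nat_lit 316) (nat_lit 5) (nat_lit 489) (nat_lit 475) (nat_lit 236)) (XT.lf (nat_lit 0) (nat_lit 994022922) (nat_lit 1292) (nat_lit 27564233838) (nat_lit 1368) (nat_lit 18402241920) (nat_lit 283) (nat_lit 5) (nat_lit 300) (nat_lit 5) (nat_lit 301) (nat_lit 5) (nat_lit 490) (nat_lit 475) (nat_lit 235))))))))
noncomputable def xc233 : XT := (XT.nd (nat_lit 2340) (nat_lit 3496) (nat_lit 0) (XT.nd (nat_lit 1170) (nat_lit 3952) (nat_lit 0) (XT.nd (nat_lit 546) (nat_lit 2204) (nat_lit 0) (XT.nd (nat_lit 234) (nat_lit 1216) (nat_lit 0) (XT.nd (nat_lit 78) (nat_lit 684) (nat_lit 0) (XT.lf (nat_lit 0) (nat_lit 4430660394) (nat_lit 1292) (nat_lit 2786282803) (nat_lit 1368) (nat_lit 40499056221) (nat_lit 283) (nat_lit 5) (nat_lit 300) (nat_lit 5) (nat_lit 301) (nat_lit 5) (nat_lit 491) (nat_lit 475) (nat_lit 234)) (XT.nd (nat_lit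 78) (nat_lit 760) (nat_lit 0) (XT.lf (nat_lit 0) (nat_lit 8336196392) (nat_lit 1292) (nat_lit 25445223748) (nat_lit 76) (nat_lit 14701771214) (nat_lit 284) (nat_lit 5) (nat_lit 301) (nat_lit 5) (nat_lit 285) (nat_lit 5) (nat_lit 492) (nat_lit 475) (nat_lit 233)) (XT.lf (nat_lit 0) (nat_lit 355655031) (nat_lit 760) (nat_lit 12105341240) (nat_lit 836) (nat_lit 36809339996) (nat_lit 274) (nat_lit 5) (nat_lit 284) (nat_lit 5) (nat_lit 285) (nat_lit 5) (nat_lit 493) (nat_lit 475) (nat_lit 232)))) (XT.nd (nat_lit 156) (nat_lit 608) (nat_lit 0) (XT.nd (nat_lit 78) (nat_lit 608) (nat_lit 0) (XT.lf (nat_lit 0) (nat_lit 17066117049) (nat_lit 836) (nat_lit 22723103663) (nat_lit 76) (nat_lit 10281177655) (nat_lit 274) (nat_lit 5) (nat_lit 285) (nat_lit 5) (nat_lit 275) (nat_lit 5) (nat_lit 494) (nat_lit 475) (nat_lit 231)) (XT.lf (nat_lit 0) (nat_lit 4215574866) (nat_lit 608) (nat_lit 17753063366) (nat_lit 684) (nat_lit 28921046842)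 (nat_lit 266) (nat_lit 5) (nat_lit 274) (nat_lit 5) (nat_lit 275) (nat_lit 5) (nat_lit 495) (nat_lit 475) (nat_lit 230))) (XT.nd (nat_lit 78) (nat_lit 608) (nat_lit 0) (XT.lf (nat_lit 0) (nat_lit 27296384963) (nat_lit 684) (nat_lit 19349326100) (nat_lit 76) (nat_lit 5079494962) (nat_lit 266) (nat_lit 5) (nat_lit 275) (nat_lit 5) (nat_lit 267) (nat_lit 5) (nat_lit 496) (nat_lit 475) (nat_lit 229)) (XT.lf (nat_lit 0) (nat_lit 8789906466) (nat_lit 608) (nat_lit 24253249521) (nat_lit 684) (nat_lit 19534860996) (nat_lit 258) (nat_lit 5) (nat_lit 266) (nat_lit 5) (nat_lit 267) (nat_lit 5) (nat_lit 497) (nat_lit 475) (nat_lit 228))))) (XT.nd (nat_lit 312) (nat_lit 1064) (nat_lit 0) (XT.nd (nat_lit 156) (nat_lit 608) (nat_lit 0) (XT.nd (nat_lit 78) (nat_lit 532) (nat_lit 0) (XT.lf (nat_lit 0) (nat_lit 38168923574) (nat_lit 608) (nat_lit 987743216) (nat_lit 684) (nat_lit 14293915513) (nat_lit 258) (nat_lit 5) (nat_lit 266)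 (nat_lit 5) (nat_lit 267) (nat_lit 5) (nat_lit 498) (nat_lit 475) (nat_lit 227)) (XT.lf (nat_lit 0) (nat_lit 14133897597) (nat_lit 532) (nat_lit 31675383004) (nat_lit 608) (nat_lit 8529373180) (nat_lit 251) (nat_lit 5) (nat_lit 258) (nat_lit 5) (nat_lit 259) (nat_lit 5) (nat_lit 499) (nat_lit 475) (nat_lit 226))) (XT.nd (nat_lit 78) (nat_lit 608) (nat_lit 0) (XT.lf (nat_lit 0) (nat_lit 44734180010) (nat_lit 532) (nat_lit 8090288553) (nat_lit 608) (nat_lit 2424009093) (nat_lit 251) (nat_lit 5) (nat_lit 258) (nat_lit 5) (nat_lit 259) (nat_lit 5) (nat_lit 500) (nat_lit 475) (nat_lit 225)) (XT.lf (nat_lit 0) (nat_lit 4142540484) (nat_lit 608) (nat_lit 35909357260) (nat_lit 76) (nat_lit 16121981122) (nat_lit 243) (nat_lit 5) (nat_lit 251) (nat_lit 5) (nat_lit 244) (nat_lit 5) (nat_lit 501) (nat_lit 475) (nat_lit 224)))) (XT.nd (nat_lit 156) (nat_lit 532) (nat_lit 0) (XT.nd (nat_lit 78) (nat_lit 532) (nat_lit 0) (XT.lf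 (nat_lit 0) (nat_lit 11043728475) (nat_lit 608) (nat_lit 5047805731) (nat_lit 76) (nat_lit 41029197154) (nat_lit 243) (nat_lit 5) (nat_lit 251) (nat_lit 5) (nat_lit 244) (nat_lit 5) (nat_lit 502) (nat_lit 475) (nat_lit 223)) (XT.lf (nat_lit 0) (nat_lit 18498302940) (nat_lit 608) (nat_lit 30902558915) (nat_lit 76) (nat_lit 8684737160) (nat_lit 236) (nat_lit 5) (nat_lit 244) (nat_lit 5) (nat_lit 237) (nat_lit 5) (nat_lit 503) (nat_lit 475) (nat_lit 222))) (XT.nd (nat_lit 78) (nat_lit 0) (nat_lit 0) (XT.lf (nat_lit 0) (nat_lit 1270344169) (nat_lit 532) (nat_lit 25128261871) (nat_lit 608) (nat_lit 32674144026) (nat_lit 229) (nat_lit 5) (nat_lit 236) (nat_lit 5) (nat_lit 237) (nat_lit 5) (nat_lit 504) (nat_lit 475) (nat_lit 221)) (XT.lf (nat_lit 0) (nat_lit 34848934050) (nat_lit 608) (nat_lit 25041148701) (nat_lit 76) (nat_lit 190042526) (nat_lit 229) (nat_lit 5) (nat_lit 237) (nat_lit 5) (nat_lit 230) (nat_lit 5) (nat_lit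 505) (nat_lit 475) (nat_lit 220)))))) (XT.nd (nat_lit 546) (nat_lit 2052) (nat_lit 0) (XT.nd (nat_lit 234) (nat_lit 912) (nat_lit 0) (XT.nd (nat_lit 78) (nat_lit 532) (nat_lit 0) (XT.lf (nat_lit 0) (nat_lit 8621378883) (nat_lit 456) (nat_lit 35262184338) (nat_lit 532) (nat_lit 17224234887) (nat_lit 223) (nat_lit 5) (nat_lit 229) (nat_lit 5) (nat_lit 230) (nat_lit 5) (nat_lit 506) (nat_lit 475) (nat_lit 219)) (XT.nd (nat_lit 78) (nat_lit 532) (nat_lit 0) (XT.lf (nat_lit 0) (nat_lit 43806104353) (nat_lit 456) (nat_lit 9635132066) (nat_lit 532) (nat_lit 8717504647) (nat_lit 223) (nat_lit 5) (nat_lit 229) (nat_lit 5) (nat_lit 230) (nat_lit 5) (nat_lit 507) (nat_lit 475) (nat_lit 218)) (XT.lf (nat_lit 0) (nat_lit 370206948) (nat_lit 532) (nat_lit 46260856134) (nat_lit 76) (nat_lit 16600337121) (nat_lit 216) (nat_lit 5) (nat_lit 223) (nat_lit 5) (nat_lit 217) (nat_lit 5) (nat_lit 508) (nat_lit 475) (nat_lit 217)))) (XT.nd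 (nat_lit 156) (nat_lit 456) (nat_lit 0) (XT.nd (nat_lit 78) (nat_lit 456) (nat_lit 0) (XT.lf (nat_lit 0) (nat_lit 9837063772) (nat_lit 532) (nat_lit 10785590911) (nat_lit 76) (nat_lit 43702543351) (nat_lit 216) (nat_lit 5) (nat_lit 223) (nat_lit 5) (nat_lit 217) (nat_lit 5) (nat_lit 509) (nat_lit 475) (nat_lit 216)) (XT.lf (nat_lit 0) (nat_lit 19901369372) (nat_lit 532) (nat_lit 39240532255) (nat_lit 76) (nat_lit 6300504968) (nat_lit 210) (nat_lit 5) (nat_lit 217) (nat_lit 5) (nat_lit 211) (nat_lit 5) (nat_lit 510) (nat_lit 475) (nat_lit 215))) (XT.nd (nat_lit 78) (nat_lit 456) (nat_lit 0) (XT.lf (nat_lit 0) (nat_lit 30580986551) (nat_lit 532) (nat_lit 2276051841) (nat_lit 76) (nat_lit 33726691633) (nat_lit 210) (nat_lit 5) (nat_lit 217) (nat_lit 5) (nat_lit 211) (nat_lit 5) (nat_lit 511) (nat_lit 475) (nat_lit 214)) (XT.lf (nat_lit 0) (nat_lit 36508827960) (nat_lit 456) (nat_lit 5422338639) (nat_lit 532) (nat_lit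 25817621410) (nat_lit 204) (nat_lit 5) (nat_lit 210) (nat_lit 5) (nat_lit 211) (nat_lit 5) (nat_lit 512) (nat_lit 475) (nat_lit 213))))) (XT.nd (nat_lit 312) (nat_lit 1140) (nat_lit 0) (XT.nd (nat_lit 156) (nat_lit 532) (nat_lit 0) (XT.nd (nat_lit 78) (nat_lit 0) (nat_lit 0) (XT.lf (nat_lit 0) (nat_lit 7481084844) (nat_lit 380) (nat_lit 46454639788) (nat_lit 456) (nat_lit 15003657004) (nat_lit 199) (nat_lit 5) (nat_lit 204) (nat_lit 5) (nat_lit 205) (nat_lit 5) (nat_lit 513) (nat_lit 475) (nat_lit 212)) (XT.lf (nat_lit 0) (nat_lit 47948438704) (nat_lit 380) (nat_lit 18719856894) (nat_lit 456) (nat_lit 3486361266) (nat_lit 199) (nat_lit 5) (nat_lit 204) (nat_lit 5) (nat_lit 205) (nat_lit 5) (nat_lit 514) (nat_lit 475) (nat_lit 211))) (XT.nd (nat_lit 78) (nat_lit 0) (nat_lit 0) (XT.lf (nat_lit 0) (nat_lit 8487340387) (nat_lit 532) (nat_lit 52992851144) (nat_lit 76) (nat_lit 9915553048) (nat_lit 192) (nat_lit 5) (nat_lit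 199) (nat_lit 5) (nat_lit 193) (nat_lit 5) (nat_lit 515) (nat_lit 475) (nat_lit 210)) (XT.lf (nat_lit 0) (nat_lit 21161263694) (nat_lit 532) (nat_lit 12204890504) (nat_lit 76) (nat_lit 39294542757) (nat_lit 192) (nat_lit 5) (nat_lit 199) (nat_lit 5) (nat_lit 193) (nat_lit 5) (nat_lit 516) (nat_lit 475) (nat_lit 209)))) (XT.nd (nat_lit 156) (nat_lit 760) (nat_lit 0) (XT.nd (nat_lit 78) (nat_lit 0) (nat_lit 0) (XT.lf (nat_lit 0) (nat_lit 30398977153) (nat_lit 380) (nat_lit 4107940571) (nat_lit 456) (nat_lit 39447934855) (nat_lit 187) (nat_lit 5) (nat_lit 192) (nat_lit 5) (nat_lit 193) (nat_lit 5) (nat_lit 517) (nat_lit 475) (nat_lit 208)) (XT.lf (nat_lit 0) (nat_lit 48626913205) (nat_lit 456) (nat_lit 1005338694) (nat_lit 76) (nat_lit 25644361884) (nat_lit 187) (nat_lit 5) (nat_lit 193) (nat_lit 5) (nat_lit 188) (nat_lit 5) (nat_lit 518) (nat_lit 475) (nat_lit 207))) (XT.nd (nat_lit 78) (nat_lit 380) (nat_lit 0) (XT.lf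 (nat_lit 0) (nat_lit 43631542416) (nat_lit 380) (nat_lit 19998380890) (nat_lit 456) (nat_lit 12994322141) (nat_lit 182) (nat_lit 5) (nat_lit 187) (nat_lit 5) (nat_lit 188) (nat_lit 5) (nat_lit 519) (nat_lit 475) (nat_lit 206)) (XT.lf (nat_lit 0) (nat_lit 1275678238) (nat_lit 380) (nat_lit 66275001209) (nat_lit 76) (nat_lit 10454542280) (nat_lit 177) (nat_lit 5) (nat_lit 182) (nat_lit 5) (nat_lit 178) (nat_lit 5) (nat_lit 520) (nat_lit 475) (nat_lit 205))))))) (XT.nd (nat_lit 1170) (nat_lit 836) (nat_lit 0) (XT.nd (nat_lit 546) (nat_lit 1292) (nat_lit 0) (XT.nd (nat_lit 234) (nat_lit 988) (nat_lit 0) (XT.nd (nat_lit 78) (nat_lit 380) (nat_lit 0) (XT.lf (nat_lit 0) (nat_lit 16246411298) (nat_lit 380) (nat_lit 21277362103) (nat_lit 76) (nat_lit 41883980082) (nat_lit 177) (nat_lit 5) (nat_lit 182) (nat_lit 5) (nat_lit 178) (nat_lit 5) (nat_lit 521) (nat_lit 475) (nat_lit 204)) (XT.nd (nat_lit 78) (nat_lit 0) (nat_lit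 0) (XT.lf (nat_lit 0) (nat_lit 25568241016) (nat_lit 380) (nat_lit 6343163752) (nat_lit 456) (nat_lit 48933602331) (nat_lit 172) (nat_lit 5) (nat_lit 177) (nat_lit 5) (nat_lit 178) (nat_lit 5) (nat_lit 522) (nat_lit 475) (nat_lit 203)) (XT.lf (nat_lit 0) (nat_lit 48510448035) (nat_lit 456) (nat_lit 8314328442) (nat_lit 76) (nat_lit 25486678901) (nat_lit 172) (nat_lit 5) (nat_lit 178) (nat_lit 5) (nat_lit 173) (nat_lit 5) (nat_lit 523) (nat_lit 475) (nat_lit 202)))) (XT.nd (nat_lit 156) (nat_lit 380) (nat_lit 0) (XT.nd (nat_lit 78) (nat_lit 304) (nat_lit 0) (XT.lf (nat_lit 0) (nat_lit 40789248797) (nat_lit 304) (nat_lit 25272495504) (nat_lit 380) (nat_lit 17746524410) (nat_lit 168) (nat_lit 5) (nat_lit 172) (nat_lit 5) (nat_lit 173) (nat_lit 5) (nat_lit 524) (nat_lit 475) (nat_lit 201)) (XT.lf (nat_lit 0) (nat_lit 6239478394) (nat_lit 304) (nat_lit 78113726453) (nat_lit 380) (nat_lit 990372885) (nat_lit 164) (nat_lit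 5) (nat_lit 168) (nat_lit 5) (nat_lit 169) (nat_lit 5) (nat_lit 525) (nat_lit 475) (nat_lit 200))) (XT.nd (nat_lit 78) (nat_lit 304) (nat_lit 0) (XT.lf (nat_lit 0) (nat_lit 16639335601) (nat_lit 380) (nat_lit 29466126165) (nat_lit 76) (nat_lit 40794142975) (nat_lit 163) (nat_lit 5) (nat_lit 168) (nat_lit 5) (nat_lit 164) (nat_lit 5) (nat_lit 526) (nat_lit 475) (nat_lit 199)) (XT.lf (nat_lit 0) (nat_lit 22081204618) (nat_lit 304) (nat_lit 12908498002) (nat_lit 380) (nat_lit 53505965635) (nat_lit 159) (nat_lit 5) (nat_lit 163) (nat_lit 5) (nat_lit 164) (nat_lit 5) (nat_lit 527) (nat_lit 475) (nat_lit 198))))) (XT.nd (nat_lit 312) (nat_lit 608) (nat_lit 0) (XT.nd (nat_lit 156) (nat_lit 380) (nat_lit 0) (XT.nd (nat_lit 78) (nat_lit 304) (nat_lit 0) (XT.lf (nat_lit 0) (nat_lit 54395096182) (nat_lit 380) (nat_lit 14560115635) (nat_lit 76) (nat_lit 21169266438) (nat_lit 159) (nat_lit 5) (nat_lit 164) (nat_lit 5) (nat_lit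 160) (nat_lit 5) (nat_lit 528) (nat_lit 475) (nat_lit 197)) (XT.lf (nat_lit 0) (nat_lit 39491843208) (nat_lit 304) (nat_lit 35397672838) (nat_lit 380) (nat_lit 16897430620) (nat_lit 155) (nat_lit 5) (nat_lit 159) (nat_lit 5) (nat_lit 160) (nat_lit 5) (nat_lit 529) (nat_lit 475) (nat_lit 196))) (XT.nd (nat_lit 78) (nat_lit 0) (nat_lit 0) (XT.lf (nat_lit 0) (nat_lit 1981286704) (nat_lit 304) (nat_lit 636389187) (nat_lit 380) (nat_lit 90875883374) (nat_lit 150) (nat_lit 5) (nat_lit 154) (nat_lit 5) (nat_lit 155) (nat_lit 5) (nat_lit 530) (nat_lit 475) (nat_lit 195)) (XT.lf (nat_lit 0) (nat_lit 23249420439) (nat_lit 380) (nat_lit 36788993823) (nat_lit 76) (nat_lit 35181812790) (nat_lit 150) (nat_lit 5) (nat_lit 155) (nat_lit 5) (nat_lit 151) (nat_lit 5) (nat_lit 531) (nat_lit 475) (nat_lit 194)))) (XT.nd (nat_lit 156) (nat_lit 304) (nat_lit 0) (XT.nd (nat_lit 78) (nat_lit 0) (nat_lit 0) (XT.lf (nat_lit 0) (nat_lit 19958316480)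 (nat_lit 304) (nat_lit 24739415603) (nat_lit 380) (nat_lit 52295034388) (nat_lit 146) (nat_lit 5) (nat_lit 150) (nat_lit 5) (nat_lit 151) (nat_lit 5) (nat_lit 532) (nat_lit 475) (nat_lit 193)) (XT.lf (nat_lit 0) (nat_lit 67275819989) (nat_lit 380) (nat_lit 19761345248) (nat_lit 76) (nat_lit 11766727065) (nat_lit 146) (nat_lit 5) (nat_lit 151) (nat_lit 5) (nat_lit 147) (nat_lit 5) (nat_lit 533) (nat_lit 475) (nat_lit 192))) (XT.nd (nat_lit 78) (nat_lit 76) (nat_lit 0) (XT.lf (nat_lit 0) (nat_lit 39760064509) (nat_lit 228) (nat_lit 51397811696) (nat_lit 304) (nat_lit 9492676973) (nat_lit 143) (nat_lit 5) (nat_lit 146) (nat_lit 5) (nat_lit 147) (nat_lit 5) (nat_lit 534) (nat_lit 475) (nat_lit 191)) (XT.lf (nat_lit 0) (nat_lit 13147138717) (nat_lit 304) (nat_lit 1204129027) (nat_lit 76) (nat_lit 88191508133) (nat_lit 142) (nat_lit 5) (nat_lit 146) (nat_lit 5) (nat_lit 143) (nat_lit 5) (nat_lit 535) (nat_lit 475) (nat_lit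 190)))))) (XT.nd (nat_lit 58266) (nat_lit 0) (nat_lit 12540) (XT.nd (nat_lit 57954) (nat_lit 0) (nat_lit 12388) (XT.nd (nat_lit 57798) (nat_lit 0) (nat_lit 12312) (XT.nd (nat_lit 312) (nat_lit 532) (nat_lit 0) (XT.lf (nat_lit 0) (nat_lit 37100450083) (nat_lit 380) (nat_lit 43331163421) (nat_lit 76) (nat_lit 24032579344) (nat_lit 138) (nat_lit 5) (nat_lit 143) (nat_lit 5) (nat_lit 139) (nat_lit 5) (nat_lit 536) (nat_lit 475) (nat_lit 189)) (XT.lf (nat_lit 0) (nat_lit 31645619807) (nat_lit 304) (nat_lit 3368290279) (nat_lit 76) (nat_lit 77583707257) (nat_lit 131) (nat_lit 5) (nat_lit 135) (nat_lit 5) (nat_lit 132) (nat_lit 5) (nat_lit 540) (nat_lit 475) (nat_lit 185))) (XT.nd (nat_lit 78) (nat_lit 0) (nat_lit 0) (XT.lf (nat_lit 0) (nat_lit 9049387208) (nat_lit 1292) (nat_lit 5084042718) (nat_lit 1292) (nat_lit 5084042718) (nat_lit 293) (nat_lit 3) (nat_lit 310) (nat_lit 3) (nat_lit 310) (nat_lit 5) (nat_lit 476) (nat_lit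 476) (nat_lit 248)) (XT.lf (nat_lit 76) (nat_lit 8993339869) (nat_lit 0) (nat_lit 9507418340) (nat_lit 1292) (nat_lit 20506790070) (nat_lit 294) (nat_lit 5) (nat_lit 293) (nat_lit 3) (nat_lit 310) (nat_lit 5) (nat_lit 477) (nat_lit 476) (nat_lit 247)))) (XT.nd (nat_lit 156) (nat_lit 0) (nat_lit 76) (XT.nd (nat_lit 78) (nat_lit 0) (nat_lit 0) (XT.lf (nat_lit 0) (nat_lit 19111121770) (nat_lit 1216) (nat_lit 10752531009) (nat_lit 1292) (nat_lit 9727787211) (nat_lit 294) (nat_lit 5) (nat_lit 310) (nat_lit 5) (nat_lit 311) (nat_lit 5) (nat_lit 478) (nat_lit 476) (nat_lit 246)) (XT.lf (nat_lit 76) (nat_lit 9170885762) (nat_lit 0) (nat_lit 10749529584) (nat_lit 1292) (nat_lit 20267014765) (nat_lit 295) (nat_lit 5) (nat_lit 294) (nat_lit 5) (nat_lit 311) (nat_lit 5) (nat_lit 479) (nat_lit 476) (nat_lit 245))) (XT.nd (nat_lit 78) (nat_lit 0) (nat_lit 0) (XT.lf (nat_lit 0) (nat_lit 20947936542) (nat_lit 1216) (nat_lit 10973595749)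 (nat_lit 1292) (nat_lit 8873949405) (nat_lit 295) (nat_lit 5) (nat_lit 311) (nat_lit 5) (nat_lit 312) (nat_lit 5) (nat_lit 480) (nat_lit 476) (nat_lit 244)) (XT.lf (nat_lit 76) (nat_lit 9753584644) (nat_lit 0) (nat_lit 12451311018) (nat_lit 1292) (nat_lit 19210921017) (nat_lit 296) (nat_lit 5) (nat_lit 295) (nat_lit 5) (nat_lit 312) (nat_lit 5) (nat_lit 481) (nat_lit 476) (nat_lit 243))))) (XT.nd (nat_lit 312) (nat_lit 0) (nat_lit 152) (XT.nd (nat_lit 156) (nat_lit 0) (nat_lit 76) (XT.nd (nat_lit 78) (nat_lit 0) (nat_lit 0) (XT.lf (nat_lit 0) (nat_lit 23683023790) (nat_lit 1216) (nat_lit 10799086964) (nat_lit 1292) (nat_lit 7567147363) (nat_lit 296) (nat_lit 5) (nat_lit 312) (nat_lit 5) (nat_lit 313) (nat_lit 5) (nat_lit 482) (nat_lit 476) (nat_lit 242)) (XT.lf (nat_lit 76) (nat_lit 10775983397) (nat_lit 0) (nat_lit 14654889120) (nat_lit 1292) (nat_lit 17264069185) (nat_lit 297) (nat_lit 5) (nat_lit 296) (nat_lit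 5) (nat_lit 313) (nat_lit 5) (nat_lit 483) (nat_lit 476) (nat_lit 241))) (XT.nd (nat_lit 78) (nat_lit 0) (nat_lit 0) (XT.lf (nat_lit 0) (nat_lit 27395273420) (nat_lit 1216) (nat_lit 10194570952) (nat_lit 1292) (nat_lit 5765228121) (nat_lit 297) (nat_lit 5) (nat_lit 313) (nat_lit 5) (nat_lit 314) (nat_lit 5) (nat_lit 484) (nat_lit 476) (nat_lit 240)) (XT.lf (nat_lit 76) (nat_lit 12275002786) (nat_lit 0) (nat_lit 17405288588) (nat_lit 1292) (nat_lit 14346865478) (nat_lit 298) (nat_lit 5) (nat_lit 297) (nat_lit 5) (nat_lit 314) (nat_lit 5) (nat_lit 485) (nat_lit 476) (nat_lit 239)))) (XT.nd (nat_lit 156) (nat_lit 0) (nat_lit 76) (XT.nd (nat_lit 78) (nat_lit 0) (nat_lit 0) (XT.lf (nat_lit 0) (nat_lit 32168989019) (nat_lit 1216) (nat_lit 9123241665) (nat_lit 1292) (nat_lit 3423119370) (nat_lit 298) (nat_lit 5) (nat_lit 314) (nat_lit 5) (nat_lit 315) (nat_lit 5) (nat_lit 486) (nat_lit 476) (nat_lit 238)) (XT.lf (nat_lit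 76) (nat_lit 14290076207) (nat_lit 0) (nat_lit 20750633803) (nat_lit 1292) (nat_lit 10374228354) (nat_lit 299) (nat_lit 5) (nat_lit 298) (nat_lit 5) (nat_lit 315) (nat_lit 5) (nat_lit 487) (nat_lit 476) (nat_lit 237))) (XT.nd (nat_lit 78) (nat_lit 0) (nat_lit 0) (XT.lf (nat_lit 0) (nat_lit 38094236472) (nat_lit 1216) (nat_lit 7545781851) (nat_lit 1292) (nat_lit 492626564) (nat_lit 299) (nat_lit 5) (nat_lit 315) (nat_lit 5) (nat_lit 316) (nat_lit 5) (nat_lit 488) (nat_lit 476) (nat_lit 236)) (XT.lf (nat_lit 76) (nat_lit 16863296336) (nat_lit 0) (nat_lit 24742362860) (nat_lit 1292) (nat_lit 5255234866) (nat_lit 300) (nat_lit 5) (nat_lit 299) (nat_lit 5) (nat_lit 316) (nat_lit 5) (nat_lit 489) (nat_lit 476) (nat_lit 235))))))))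
noncomputable def xc234 : XT := (XT.nd (nat_lit 2340) (nat_lit 4256) (nat_lit 0) (XT.nd (nat_lit 1170) (nat_lit 3724) (nat_lit 0) (XT.nd (nat_lit 546) (nat_lit 2280) (nat_lit 0) (XT.nd (nat_lit 234) (nat_lit 1292) (nat_lit 0) (XT.nd (nat_lit 78) (nat_lit 1216) (nat_lit 0) (XT.lf (nat_lit 76) (nat_lit 42158351310) (nat_lit 0) (nat_lit 3139036583) (nat_lit 1292) (nat_lit 2311354091) (nat_lit 300) (nat_lit 5) (nat_lit 299) (nat_lit 5) (nat_lit 316) (nat_lit 5) (nat_lit 490) (nat_lit 476) (nat_lit 234)) (XT.nd (nat_lit 78) (nat_lit 0) (nat_lit 0) (XT.lf (nat_lit 0) (nat_lit 1085647754) (nat_lit 1292) (nat_lit 28338844369) (nat_lit 1368) (nat_lit 18942959374) (nat_lit 283) (nat_lit 5) (nat_lit 300) (nat_lit 5) (nat_lit 301) (nat_lit 5) (nat_lit 491) (nat_lit 476) (nat_lit 233)) (XT.lf (nat_lit 0) (nat_lit 4623584229) (nat_lit 1292) (nat_lit 2819078584) (nat_lit 1368) (nat_lit 41703008680) (nat_lit 283) (nat_lit 5) (nat_lit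 300) (nat_lit 5) (nat_lit 301) (nat_lit 5) (nat_lit 492) (nat_lit 476) (nat_lit 232)))) (XT.nd (nat_lit 156) (nat_lit 608) (nat_lit 0) (XT.nd (nat_lit 78) (nat_lit 760) (nat_lit 0) (XT.lf (nat_lit 0) (nat_lit 8644940902) (nat_lit 1292) (nat_lit 26156434792) (nat_lit 76) (nat_lit 15134544082) (nat_lit 284) (nat_lit 5) (nat_lit 301) (nat_lit 5) (nat_lit 285) (nat_lit 5) (nat_lit 493) (nat_lit 476) (nat_lit 231)) (XT.lf (nat_lit 0) (nat_lit 417959118) (nat_lit 760) (nat_lit 12474313497) (nat_lit 836) (nat_lit 37854443005) (nat_lit 274) (nat_lit 5) (nat_lit 284) (nat_lit 5) (nat_lit 285) (nat_lit 5) (nat_lit 494) (nat_lit 476) (nat_lit 230))) (XT.nd (nat_lit 78) (nat_lit 608) (nat_lit 0) (XT.lf (nat_lit 0) (nat_lit 17633819579) (nat_lit 836) (nat_lit 23352931688) (nat_lit 76) (nat_lit 10584080357) (nat_lit 274) (nat_lit 5) (nat_lit 285) (nat_lit 5) (nat_lit 275) (nat_lit 5) (nat_lit 495) (nat_lit 476) (nat_lit 229))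 (XT.lf (nat_lit 0) (nat_lit 4393398716) (nat_lit 608) (nat_lit 18288888467) (nat_lit 684) (nat_lit 29732443830) (nat_lit 266) (nat_lit 5) (nat_lit 274) (nat_lit 5) (nat_lit 275) (nat_lit 5) (nat_lit 496) (nat_lit 476) (nat_lit 228))))) (XT.nd (nat_lit 312) (nat_lit 1140) (nat_lit 0) (XT.nd (nat_lit 156) (nat_lit 532) (nat_lit 0) (XT.nd (nat_lit 78) (nat_lit 608) (nat_lit 0) (XT.lf (nat_lit 0) (nat_lit 28168246148) (nat_lit 684) (nat_lit 19878318217) (nat_lit 76) (nat_lit 5228802035) (nat_lit 266) (nat_lit 5) (nat_lit 275) (nat_lit 5) (nat_lit 267) (nat_lit 5) (nat_lit 497) (nat_lit 476) (nat_lit 227)) (XT.lf (nat_lit 0) (nat_lit 9104586545) (nat_lit 608) (nat_lit 24981781032) (nat_lit 684) (nat_lit 20067425887) (nat_lit 258) (nat_lit 5) (nat_lit 266) (nat_lit 5) (nat_lit 267) (nat_lit 5) (nat_lit 498) (nat_lit 476) (nat_lit 226))) (XT.nd (nat_lit 78) (nat_lit 532) (nat_lit 0) (XT.lf (nat_lit 0) (nat_lit 39363489228)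 (nat_lit 608) (nat_lit 1018282333) (nat_lit 684) (nat_lit 14670809737) (nat_lit 258) (nat_lit 5) (nat_lit 266) (nat_lit 5) (nat_lit 267) (nat_lit 5) (nat_lit 499) (nat_lit 476) (nat_lit 225)) (XT.lf (nat_lit 0) (nat_lit 14608439416) (nat_lit 532) (nat_lit 32624533483) (nat_lit 608) (nat_lit 8734351932) (nat_lit 251) (nat_lit 5) (nat_lit 258) (nat_lit 5) (nat_lit 259) (nat_lit 5) (nat_lit 500) (nat_lit 476) (nat_lit 224)))) (XT.nd (nat_lit 156) (nat_lit 532) (nat_lit 0) (XT.nd (nat_lit 78) (nat_lit 608) (nat_lit 0) (XT.lf (nat_lit 0) (nat_lit 46125258703) (nat_lit 532) (nat_lit 8331918558) (nat_lit 608) (nat_lit 2447309518) (nat_lit 251) (nat_lit 5) (nat_lit 258) (nat_lit 5) (nat_lit 259) (nat_lit 5) (nat_lit 501) (nat_lit 476) (nat_lit 223)) (XT.lf (nat_lit 0) (nat_lit 4314356351) (nat_lit 608) (nat_lit 36935693072) (nat_lit 76) (nat_lit 16607613994) (nat_lit 243) (nat_lit 5) (nat_lit 251) (nat_lit 5) (nat_lit 244)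 (nat_lit 5) (nat_lit 502) (nat_lit 476) (nat_lit 222))) (XT.nd (nat_lit 78) (nat_lit 532) (nat_lit 0) (XT.lf (nat_lit 0) (nat_lit 11421195332) (nat_lit 608) (nat_lit 5149778829) (nat_lit 76) (nat_lit 42261989029) (nat_lit 243) (nat_lit 5) (nat_lit 251) (nat_lit 5) (nat_lit 244) (nat_lit 5) (nat_lit 503) (nat_lit 476) (nat_lit 221)) (XT.lf (nat_lit 0) (nat_lit 19098569015) (nat_lit 608) (nat_lit 31779331291) (nat_lit 76) (nat_lit 8948901869) (nat_lit 236) (nat_lit 5) (nat_lit 244) (nat_lit 5) (nat_lit 237) (nat_lit 5) (nat_lit 504) (nat_lit 476) (nat_lit 220)))))) (XT.nd (nat_lit 546) (nat_lit 1748) (nat_lit 0) (XT.nd (nat_lit 234) (nat_lit 988) (nat_lit 0) (XT.nd (nat_lit 78) (nat_lit 456) (nat_lit 0) (XT.lf (nat_lit 0) (nat_lit 1358265705) (nat_lit 532) (nat_lit 25876774406) (nat_lit 608) (nat_lit 33608553032) (nat_lit 229) (nat_lit 5) (nat_lit 236) (nat_lit 5) (nat_lit 237) (nat_lit 5) (nat_lit 505) (nat_lit 476)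 (nat_lit 219)) (XT.nd (nat_lit 78) (nat_lit 456) (nat_lit 0) (XT.lf (nat_lit 0) (nat_lit 35937632340) (nat_lit 608) (nat_lit 25742772143) (nat_lit 76) (nat_lit 200822647) (nat_lit 229) (nat_lit 5) (nat_lit 237) (nat_lit 5) (nat_lit 230) (nat_lit 5) (nat_lit 506) (nat_lit 476) (nat_lit 218)) (XT.lf (nat_lit 0) (nat_lit 8929144885) (nat_lit 456) (nat_lit 36313368583) (nat_lit 532) (nat_lit 17697240430) (nat_lit 223) (nat_lit 5) (nat_lit 229) (nat_lit 5) (nat_lit 230) (nat_lit 5) (nat_lit 507) (nat_lit 476) (nat_lit 217)))) (XT.nd (nat_lit 156) (nat_lit 456) (nat_lit 0) (XT.nd (nat_lit 78) (nat_lit 532) (nat_lit 0) (XT.lf (nat_lit 0) (nat_lit 45167981306) (nat_lit 456) (nat_lit 9917699343) (nat_lit 532) (nat_lit 8936581725) (nat_lit 223) (nat_lit 5) (nat_lit 229) (nat_lit 5) (nat_lit 230) (nat_lit 5) (nat_lit 508) (nat_lit 476) (nat_lit 216)) (XT.lf (nat_lit 0) (nat_lit 422251607) (nat_lit 532) (nat_lit 47599469371)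 (nat_lit 76) (nat_lit 17105388638) (nat_lit 216) (nat_lit 5) (nat_lit 223) (nat_lit 5) (nat_lit 217) (nat_lit 5) (nat_lit 509) (nat_lit 476) (nat_lit 215))) (XT.nd (nat_lit 78) (nat_lit 456) (nat_lit 0) (XT.lf (nat_lit 0) (nat_lit 10171921752) (nat_lit 532) (nat_lit 11061379564) (nat_lit 76) (nat_lit 45020455965) (nat_lit 216) (nat_lit 5) (nat_lit 223) (nat_lit 5) (nat_lit 217) (nat_lit 5) (nat_lit 510) (nat_lit 476) (nat_lit 214)) (XT.lf (nat_lit 0) (nat_lit 20537533119) (nat_lit 532) (nat_lit 40369341560) (nat_lit 76) (nat_lit 6497626248) (nat_lit 210) (nat_lit 5) (nat_lit 217) (nat_lit 5) (nat_lit 211) (nat_lit 5) (nat_lit 511) (nat_lit 476) (nat_lit 213))))) (XT.nd (nat_lit 312) (nat_lit 912) (nat_lit 0) (XT.nd (nat_lit 156) (nat_lit 380) (nat_lit 0) (XT.nd (nat_lit 78) (nat_lit 456) (nat_lit 0) (XT.lf (nat_lit 0) (nat_lit 31536399318) (nat_lit 532) (nat_lit 2297336637) (nat_lit 76) (nat_lit 34746362411) (nat_lit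 210) (nat_lit 5) (nat_lit 217) (nat_lit 5) (nat_lit 211) (nat_lit 5) (nat_lit 512) (nat_lit 476) (nat_lit 212)) (XT.lf (nat_lit 0) (nat_lit 37650628805) (nat_lit 456) (nat_lit 5575796989) (nat_lit 532) (nat_lit 26553702184) (nat_lit 204) (nat_lit 5) (nat_lit 210) (nat_lit 5) (nat_lit 211) (nat_lit 5) (nat_lit 513) (nat_lit 476) (nat_lit 211))) (XT.nd (nat_lit 78) (nat_lit 0) (nat_lit 0) (XT.lf (nat_lit 0) (nat_lit 7752622134) (nat_lit 380) (nat_lit 47837950092) (nat_lit 456) (nat_lit 15415883754) (nat_lit 199) (nat_lit 5) (nat_lit 204) (nat_lit 5) (nat_lit 205) (nat_lit 5) (nat_lit 514) (nat_lit 476) (nat_lit 210)) (XT.lf (nat_lit 0) (nat_lit 49432624627) (nat_lit 380) (nat_lit 19271424552) (nat_lit 456) (nat_lit 3554172530) (nat_lit 199) (nat_lit 5) (nat_lit 204) (nat_lit 5) (nat_lit 205) (nat_lit 5) (nat_lit 515) (nat_lit 476) (nat_lit 209)))) (XT.nd (nat_lit 156) (nat_lit 380) (nat_lit 0) (XT.nd (nat_lit 78)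 (nat_lit 0) (nat_lit 0) (XT.lf (nat_lit 0) (nat_lit 8777515656) (nat_lit 532) (nat_lit 54535672285) (nat_lit 76) (nat_lit 10223358819) (nat_lit 192) (nat_lit 5) (nat_lit 199) (nat_lit 5) (nat_lit 193) (nat_lit 5) (nat_lit 516) (nat_lit 476) (nat_lit 208)) (XT.lf (nat_lit 0) (nat_lit 21830621078) (nat_lit 532) (nat_lit 12525440720) (nat_lit 76) (nat_lit 40483417077) (nat_lit 192) (nat_lit 5) (nat_lit 199) (nat_lit 5) (nat_lit 193) (nat_lit 5) (nat_lit 517) (nat_lit 476) (nat_lit 207))) (XT.nd (nat_lit 78) (nat_lit 0) (nat_lit 0) (XT.lf (nat_lit 0) (nat_lit 31356095942) (nat_lit 380) (nat_lit 4219977370) (nat_lit 456) (nat_lit 40596403099) (nat_lit 187) (nat_lit 5) (nat_lit 192) (nat_lit 5) (nat_lit 193) (nat_lit 5) (nat_lit 518) (nat_lit 476) (nat_lit 206)) (XT.lf (nat_lit 0) (nat_lit 50118784418) (nat_lit 456) (nat_lit 990776967) (nat_lit 76) (nat_lit 26424355690) (nat_lit 187) (nat_lit 5) (nat_lit 193) (nat_lit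 5) (nat_lit 188) (nat_lit 5) (nat_lit 519) (nat_lit 476) (nat_lit 205))))))) (XT.nd (nat_lit 1170) (nat_lit 1140) (nat_lit 0) (XT.nd (nat_lit 546) (nat_lit 1368) (nat_lit 0) (XT.nd (nat_lit 234) (nat_lit 988) (nat_lit 0) (XT.nd (nat_lit 78) (nat_lit 380) (nat_lit 0) (XT.lf (nat_lit 0) (nat_lit 44984772128) (nat_lit 380) (nat_lit 20586575351) (nat_lit 456) (nat_lit 13350646424) (nat_lit 182) (nat_lit 5) (nat_lit 187) (nat_lit 5) (nat_lit 188) (nat_lit 5) (nat_lit 520) (nat_lit 476) (nat_lit 204)) (XT.nd (nat_lit 78) (nat_lit 0) (nat_lit 0) (XT.lf (nat_lit 0) (nat_lit 1346388126) (nat_lit 380) (nat_lit 68217896008) (nat_lit 76) (nat_lit 10780118123) (nat_lit 177) (nat_lit 5) (nat_lit 182) (nat_lit 5) (nat_lit 178) (nat_lit 5) (nat_lit 521) (nat_lit 476) (nat_lit 203)) (XT.lf (nat_lit 0) (nat_lit 16765298338) (nat_lit 380) (nat_lit 21871648755) (nat_lit 76) (nat_lit 43152091305) (nat_lit 177) (nat_lit 5) (nat_lit 182)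 (nat_lit 5) (nat_lit 178) (nat_lit 5) (nat_lit 522) (nat_lit 476) (nat_lit 202)))) (XT.nd (nat_lit 156) (nat_lit 608) (nat_lit 0) (XT.nd (nat_lit 78) (nat_lit 0) (nat_lit 0) (XT.lf (nat_lit 0) (nat_lit 26378890750) (nat_lit 380) (nat_lit 6520852674) (nat_lit 456) (nat_lit 50369681225) (nat_lit 172) (nat_lit 5) (nat_lit 177) (nat_lit 5) (nat_lit 178) (nat_lit 5) (nat_lit 523) (nat_lit 476) (nat_lit 201)) (XT.lf (nat_lit 0) (nat_lit 49995972825) (nat_lit 456) (nat_lit 8520637918) (nat_lit 76) (nat_lit 26263279271) (nat_lit 172) (nat_lit 5) (nat_lit 178) (nat_lit 5) (nat_lit 173) (nat_lit 5) (nat_lit 524) (nat_lit 476) (nat_lit 200))) (XT.nd (nat_lit 78) (nat_lit 304) (nat_lit 0) (XT.lf (nat_lit 0) (nat_lit 42055623890) (nat_lit 304) (nat_lit 26017714582) (nat_lit 380) (nat_lit 18248283436) (nat_lit 168) (nat_lit 5) (nat_lit 172) (nat_lit 5) (nat_lit 173) (nat_lit 5) (nat_lit 525) (nat_lit 476) (nat_lit 199)) (XT.lf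 (nat_lit 0) (nat_lit 6469704544) (nat_lit 304) (nat_lit 80443506680) (nat_lit 380) (nat_lit 989789002) (nat_lit 164) (nat_lit 5) (nat_lit 168) (nat_lit 5) (nat_lit 169) (nat_lit 5) (nat_lit 526) (nat_lit 476) (nat_lit 198))))) (XT.nd (nat_lit 312) (nat_lit 684) (nat_lit 0) (XT.nd (nat_lit 156) (nat_lit 304) (nat_lit 0) (XT.nd (nat_lit 78) (nat_lit 304) (nat_lit 0) (XT.lf (nat_lit 0) (nat_lit 17167354411) (nat_lit 380) (nat_lit 30307745463) (nat_lit 76) (nat_lit 42030625461) (nat_lit 163) (nat_lit 5) (nat_lit 168) (nat_lit 5) (nat_lit 164) (nat_lit 5) (nat_lit 527) (nat_lit 476) (nat_lit 197)) (XT.lf (nat_lit 0) (nat_lit 22785589906) (nat_lit 304) (nat_lit 13282205812) (nat_lit 380) (nat_lit 55081888207) (nat_lit 159) (nat_lit 5) (nat_lit 163) (nat_lit 5) (nat_lit 164) (nat_lit 5) (nat_lit 528) (nat_lit 476) (nat_lit 196))) (XT.nd (nat_lit 78) (nat_lit 304) (nat_lit 0) (XT.lf (nat_lit 0) (nat_lit 56054650274) (nat_lit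 380) (nat_lit 14955488712) (nat_lit 76) (nat_lit 21817240331) (nat_lit 159) (nat_lit 5) (nat_lit 164) (nat_lit 5) (nat_lit 160) (nat_lit 5) (nat_lit 529) (nat_lit 476) (nat_lit 195)) (XT.lf (nat_lit 0) (nat_lit 40717622716) (nat_lit 304) (nat_lit 36445867536) (nat_lit 380) (nat_lit 17376243967) (nat_lit 155) (nat_lit 5) (nat_lit 159) (nat_lit 5) (nat_lit 160) (nat_lit 5) (nat_lit 530) (nat_lit 476) (nat_lit 194)))) (XT.nd (nat_lit 156) (nat_lit 304) (nat_lit 0) (XT.nd (nat_lit 78) (nat_lit 0) (nat_lit 0) (XT.lf (nat_lit 0) (nat_lit 2081892560) (nat_lit 304) (nat_lit 641467636) (nat_lit 380) (nat_lit 93574189168) (nat_lit 150) (nat_lit 5) (nat_lit 154) (nat_lit 5) (nat_lit 155) (nat_lit 5) (nat_lit 531) (nat_lit 476) (nat_lit 193)) (XT.lf (nat_lit 0) (nat_lit 23973396966) (nat_lit 380) (nat_lit 37852033316) (nat_lit 76) (nat_lit 36250606765) (nat_lit 150) (nat_lit 5) (nat_lit 155) (nat_lit 5) (nat_lit 151) (nat_lit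 5) (nat_lit 532) (nat_lit 476) (nat_lit 192))) (XT.nd (nat_lit 78) (nat_lit 0) (nat_lit 0) (XT.lf (nat_lit 0) (nat_lit 20597297959) (nat_lit 304) (nat_lit 25467475067) (nat_lit 380) (nat_lit 53836991228) (nat_lit 146) (nat_lit 5) (nat_lit 150) (nat_lit 5) (nat_lit 151) (nat_lit 5) (nat_lit 533) (nat_lit 476) (nat_lit 191)) (XT.lf (nat_lit 0) (nat_lit 69319574919) (nat_lit 380) (nat_lit 20314494890) (nat_lit 76) (nat_lit 12133172968) (nat_lit 146) (nat_lit 5) (nat_lit 151) (nat_lit 5) (nat_lit 147) (nat_lit 5) (nat_lit 534) (nat_lit 476) (nat_lit 190)))))) (XT.nd (nat_lit 58266) (nat_lit 0) (nat_lit 12464) (XT.nd (nat_lit 57954) (nat_lit 0) (nat_lit 12312) (XT.nd (nat_lit 312) (nat_lit 836) (nat_lit 0) (XT.nd (nat_lit 78) (nat_lit 76) (nat_lit 0) (XT.lf (nat_lit 0) (nat_lit 40992168035) (nat_lit 228) (nat_lit 52925560432) (nat_lit 304) (nat_lit 9751585998) (nat_lit 143) (nat_lit 5) (nat_lit 146) (nat_lit 5) (nat_lit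 147) (nat_lit 5) (nat_lit 535) (nat_lit 476) (nat_lit 189)) (XT.lf (nat_lit 0) (nat_lit 13566180493) (nat_lit 304) (nat_lit 1201604152) (nat_lit 76) (nat_lit 90850533956) (nat_lit 142) (nat_lit 5) (nat_lit 146) (nat_lit 5) (nat_lit 143) (nat_lit 5) (nat_lit 536) (nat_lit 476) (nat_lit 188))) (XT.nd (nat_lit 78) (nat_lit 304) (nat_lit 0) (XT.lf (nat_lit 0) (nat_lit 86968154110) (nat_lit 228) (nat_lit 4012053977) (nat_lit 304) (nat_lit 20720517146) (nat_lit 135) (nat_lit 5) (nat_lit 138) (nat_lit 5) (nat_lit 139) (nat_lit 5) (nat_lit 539) (nat_lit 476) (nat_lit 185)) (XT.lf (nat_lit 0) (nat_lit 5616034197) (nat_lit 304) (nat_lit 71046858859) (nat_lit 76) (nat_lit 37150658193) (nat_lit 131) (nat_lit 5) (nat_lit 135) (nat_lit 5) (nat_lit 132) (nat_lit 5) (nat_lit 540) (nat_lit 476) (nat_lit 184)))) (XT.nd (nat_lit 156) (nat_lit 0) (nat_lit 76) (XT.nd (nat_lit 78) (nat_lit 0) (nat_lit 0) (XT.lf (nat_lit 0) (nat_lit 9364498055)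 (nat_lit 1292) (nat_lit 5214091913) (nat_lit 1292) (nat_lit 5214091913) (nat_lit 293) (nat_lit 3) (nat_lit 310) (nat_lit 3) (nat_lit 310) (nat_lit 5) (nat_lit 477) (nat_lit 477) (nat_lit 246)) (XT.lf (nat_lit 76) (nat_lit 9307643609) (nat_lit 0) (nat_lit 9833282095) (nat_lit 1292) (nat_lit 21034282903) (nat_lit 294) (nat_lit 5) (nat_lit 293) (nat_lit 3) (nat_lit 310) (nat_lit 5) (nat_lit 478) (nat_lit 477) (nat_lit 245))) (XT.nd (nat_lit 78) (nat_lit 0) (nat_lit 0) (XT.lf (nat_lit 0) (nat_lit 19766740938) (nat_lit 1216) (nat_lit 11029028946) (nat_lit 1292) (nat_lit 9980933305) (nat_lit 294) (nat_lit 5) (nat_lit 310) (nat_lit 5) (nat_lit 311) (nat_lit 5) (nat_lit 479) (nat_lit 477) (nat_lit 244)) (XT.lf (nat_lit 76) (nat_lit 9491638582) (nat_lit 0) (nat_lit 11106716662) (nat_lit 1292) (nat_lit 20792276846) (nat_lit 295) (nat_lit 5) (nat_lit 294) (nat_lit 5) (nat_lit 311) (nat_lit 5) (nat_lit 480) (nat_lit 477) (nat_lit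 243))))) (XT.nd (nat_lit 312) (nat_lit 0) (nat_lit 152) (XT.nd (nat_lit 156) (nat_lit 0) (nat_lit 76) (XT.nd (nat_lit 78) (nat_lit 0) (nat_lit 0) (XT.lf (nat_lit 0) (nat_lit 21654038588) (nat_lit 1216) (nat_lit 11255832028) (nat_lit 1292) (nat_lit 9107134835) (nat_lit 295) (nat_lit 5) (nat_lit 311) (nat_lit 5) (nat_lit 312) (nat_lit 5) (nat_lit 481) (nat_lit 477) (nat_lit 242)) (XT.lf (nat_lit 76) (nat_lit 10092703271) (nat_lit 0) (nat_lit 12854188247) (nat_lit 1292) (nat_lit 19709113728) (nat_lit 296) (nat_lit 5) (nat_lit 295) (nat_lit 5) (nat_lit 312) (nat_lit 5) (nat_lit 482) (nat_lit 477) (nat_lit 241))) (XT.nd (nat_lit 78) (nat_lit 0) (nat_lit 0) (XT.lf (nat_lit 0) (nat_lit 24466880496) (nat_lit 1216) (nat_lit 11075410025) (nat_lit 1292) (nat_lit 7766234201) (nat_lit 296) (nat_lit 5) (nat_lit 312) (nat_lit 5) (nat_lit 313) (nat_lit 5) (nat_lit 483) (nat_lit 477) (nat_lit 240)) (XT.lf (nat_lit 76) (nat_lit 11146445295)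 (nat_lit 0) (nat_lit 15119036062) (nat_lit 1292) (nat_lit 17708148253) (nat_lit 297) (nat_lit 5) (nat_lit 296) (nat_lit 5) (nat_lit 313) (nat_lit 5) (nat_lit 484) (nat_lit 477) (nat_lit 239)))) (XT.nd (nat_lit 156) (nat_lit 0) (nat_lit 76) (XT.nd (nat_lit 78) (nat_lit 0) (nat_lit 0) (XT.lf (nat_lit 0) (nat_lit 28286497791) (nat_lit 1216) (nat_lit 10452273857) (nat_lit 1292) (nat_lit 5914862460) (nat_lit 297) (nat_lit 5) (nat_lit 313) (nat_lit 5) (nat_lit 314) (nat_lit 5) (nat_lit 485) (nat_lit 477) (nat_lit 238)) (XT.lf (nat_lit 76) (nat_lit 12690915190) (nat_lit 0) (nat_lit 17947588879) (nat_lit 1292) (nat_lit 14707424072) (nat_lit 298) (nat_lit 5) (nat_lit 297) (nat_lit 5) (nat_lit 314) (nat_lit 5) (nat_lit 486) (nat_lit 477) (nat_lit 237))) (XT.nd (nat_lit 78) (nat_lit 0) (nat_lit 0) (XT.lf (nat_lit 0) (nat_lit 33199699796) (nat_lit 1216) (nat_lit 9348492945) (nat_lit 1292) (nat_lit 3506639556) (nat_lit 298)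 (nat_lit 5) (nat_lit 314) (nat_lit 5) (nat_lit 315) (nat_lit 5) (nat_lit 487) (nat_lit 477) (nat_lit 236)) (XT.lf (nat_lit 76) (nat_lit 14766749504) (nat_lit 0) (nat_lit 21389372164) (nat_lit 1292) (nat_lit 10619330374) (nat_lit 299) (nat_lit 5) (nat_lit 298) (nat_lit 5) (nat_lit 315) (nat_lit 5) (nat_lit 488) (nat_lit 477) (nat_lit 235))))))))
noncomputable def xc235 : XT := (XT.nd (nat_lit 2340) (nat_lit 4332) (nat_lit 0) (XT.nd (nat_lit 1170) (nat_lit 3876) (nat_lit 0) (XT.nd (nat_lit 546) (nat_lit 2356) (nat_lit 0) (XT.nd (nat_lit 234) (nat_lit 1900) (nat_lit 0) (XT.nd (nat_lit 78) (nat_lit 0) (nat_lit 0) (XT.lf (nat_lit 0) (nat_lit 39299232932) (nat_lit 1216) (nat_lit 7723552010) (nat_lit 1292) (nat_lit 491965702) (nat_lit 299) (nat_lit 5) (nat_lit 315) (nat_lit 5) (nat_lit 316) (nat_lit 5) (nat_lit 489) (nat_lit 477) (nat_lit 234)) (XT.nd (nat_lit 78) (nat_lit 0) (nat_lit 0) (XT.lf (nat_lit 76) (nat_lit 17417322019)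 (nat_lit 0) (nat_lit 25497328185) (nat_lit 1292) (nat_lit 5350237783) (nat_lit 300) (nat_lit 5) (nat_lit 299) (nat_lit 5) (nat_lit 316) (nat_lit 5) (nat_lit 490) (nat_lit 477) (nat_lit 233)) (XT.lf (nat_lit 76) (nat_lit 43469826891) (nat_lit 0) (nat_lit 3245532378) (nat_lit 1292) (nat_lit 2319865462) (nat_lit 300) (nat_lit 5) (nat_lit 299) (nat_lit 5) (nat_lit 316) (nat_lit 5) (nat_lit 491) (nat_lit 477) (nat_lit 232)))) (XT.nd (nat_lit 156) (nat_lit 684) (nat_lit 0) (XT.nd (nat_lit 78) (nat_lit 0) (nat_lit 0) (XT.lf (nat_lit 0) (nat_lit 1176473521) (nat_lit 1292) (nat_lit 29139696396) (nat_lit 1368) (nat_lit 19500549876) (nat_lit 283) (nat_lit 5) (nat_lit 300) (nat_lit 5) (nat_lit 301) (nat_lit 5) (nat_lit 492) (nat_lit 477) (nat_lit 231)) (XT.lf (nat_lit 0) (nat_lit 4818851304) (nat_lit 1292) (nat_lit 2855773947) (nat_lit 1368) (nat_lit 42943712262) (nat_lit 283) (nat_lit 5) (nat_lit 300) (nat_lit 5) (nat_lit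 301) (nat_lit 5) (nat_lit 493) (nat_lit 477) (nat_lit 230))) (XT.nd (nat_lit 78) (nat_lit 760) (nat_lit 0) (XT.lf (nat_lit 0) (nat_lit 8959580503) (nat_lit 1292) (nat_lit 26891975542) (nat_lit 76) (nat_lit 15580775457) (nat_lit 284) (nat_lit 5) (nat_lit 301) (nat_lit 5) (nat_lit 285) (nat_lit 5) (nat_lit 494) (nat_lit 477) (nat_lit 229)) (XT.lf (nat_lit 0) (nat_lit 479168300) (nat_lit 760) (nat_lit 12854021289) (nat_lit 836) (nat_lit 38934296118) (nat_lit 274) (nat_lit 5) (nat_lit 284) (nat_lit 5) (nat_lit 285) (nat_lit 5) (nat_lit 495) (nat_lit 477) (nat_lit 228))))) (XT.nd (nat_lit 312) (nat_lit 1140) (nat_lit 0) (XT.nd (nat_lit 156) (nat_lit 608) (nat_lit 0) (XT.nd (nat_lit 78) (nat_lit 608) (nat_lit 0) (XT.lf (nat_lit 0) (nat_lit 18215354684) (nat_lit 836) (nat_lit 24004631821) (nat_lit 76) (nat_lit 10896387735) (nat_lit 274) (nat_lit 5) (nat_lit 285) (nat_lit 5) (nat_lit 275) (nat_lit 5) (nat_lit 496) (nat_lit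 477) (nat_lit 227)) (XT.lf (nat_lit 0) (nat_lit 4573609203) (nat_lit 608) (nat_lit 18840602723) (nat_lit 684) (nat_lit 30571410814) (nat_lit 266) (nat_lit 5) (nat_lit 274) (nat_lit 5) (nat_lit 275) (nat_lit 5) (nat_lit 497) (nat_lit 477) (nat_lit 226))) (XT.nd (nat_lit 78) (nat_lit 608) (nat_lit 0) (XT.lf (nat_lit 0) (nat_lit 29063222495) (nat_lit 684) (nat_lit 20426135700) (nat_lit 76) (nat_lit 5382764997) (nat_lit 266) (nat_lit 5) (nat_lit 275) (nat_lit 5) (nat_lit 267) (nat_lit 5) (nat_lit 498) (nat_lit 477) (nat_lit 225)) (XT.lf (nat_lit 0) (nat_lit 9425780400) (nat_lit 608) (nat_lit 25732114871) (nat_lit 684) (nat_lit 20619037750) (nat_lit 258) (nat_lit 5) (nat_lit 266) (nat_lit 5) (nat_lit 267) (nat_lit 5) (nat_lit 499) (nat_lit 477) (nat_lit 224)))) (XT.nd (nat_lit 156) (nat_lit 608) (nat_lit 0) (XT.nd (nat_lit 78) (nat_lit 532) (nat_lit 0) (XT.lf (nat_lit 0) (nat_lit 40591050467) (nat_lit 608) (nat_lit 1049685568)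 (nat_lit 684) (nat_lit 15061991395) (nat_lit 258) (nat_lit 5) (nat_lit 266) (nat_lit 5) (nat_lit 267) (nat_lit 5) (nat_lit 500) (nat_lit 477) (nat_lit 223)) (XT.lf (nat_lit 0) (nat_lit 15094317154) (nat_lit 532) (nat_lit 33602222254) (nat_lit 608) (nat_lit 8948402056) (nat_lit 251) (nat_lit 5) (nat_lit 258) (nat_lit 5) (nat_lit 259) (nat_lit 5) (nat_lit 501) (nat_lit 477) (nat_lit 222))) (XT.nd (nat_lit 78) (nat_lit 608) (nat_lit 0) (XT.lf (nat_lit 0) (nat_lit 47555253896) (nat_lit 532) (nat_lit 8580859382) (nat_lit 608) (nat_lit 2474145858) (nat_lit 251) (nat_lit 5) (nat_lit 258) (nat_lit 5) (nat_lit 259) (nat_lit 5) (nat_lit 502) (nat_lit 477) (nat_lit 221)) (XT.lf (nat_lit 0) (nat_lit 4488597724) (nat_lit 608) (nat_lit 37995743404) (nat_lit 76) (nat_lit 17107702569) (nat_lit 243) (nat_lit 5) (nat_lit 251) (nat_lit 5) (nat_lit 244) (nat_lit 5) (nat_lit 503) (nat_lit 477) (nat_lit 220)))))) (XT.nd (nat_lit 546)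 (nat_lit 1824) (nat_lit 0) (XT.nd (nat_lit 234) (nat_lit 988) (nat_lit 0) (XT.nd (nat_lit 78) (nat_lit 1064) (nat_lit 0) (XT.lf (nat_lit 0) (nat_lit 11807336709) (nat_lit 608) (nat_lit 5257650388) (nat_lit 76) (nat_lit 43531654676) (nat_lit 243) (nat_lit 5) (nat_lit 251) (nat_lit 5) (nat_lit 244) (nat_lit 5) (nat_lit 504) (nat_lit 477) (nat_lit 219)) (XT.nd (nat_lit 78) (nat_lit 532) (nat_lit 0) (XT.lf (nat_lit 0) (nat_lit 19714241691) (nat_lit 608) (nat_lit 32685294516) (nat_lit 76) (nat_lit 9220783567) (nat_lit 236) (nat_lit 5) (nat_lit 244) (nat_lit 5) (nat_lit 237) (nat_lit 5) (nat_lit 505) (nat_lit 477) (nat_lit 218)) (XT.lf (nat_lit 0) (nat_lit 1445965521) (nat_lit 532) (nat_lit 26648048586) (nat_lit 608) (nat_lit 34573624295) (nat_lit 229) (nat_lit 5) (nat_lit 236) (nat_lit 5) (nat_lit 237) (nat_lit 5) (nat_lit 506) (nat_lit 477) (nat_lit 217)))) (XT.nd (nat_lit 156) (nat_lit 532) (nat_lit 0) (XT.nd (nat_lit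 78) (nat_lit 456) (nat_lit 0) (XT.lf (nat_lit 0) (nat_lit 37056509985) (nat_lit 608) (nat_lit 26468292164) (nat_lit 76) (nat_lit 211634624) (nat_lit 229) (nat_lit 5) (nat_lit 237) (nat_lit 5) (nat_lit 230) (nat_lit 5) (nat_lit 507) (nat_lit 477) (nat_lit 216)) (XT.lf (nat_lit 0) (nat_lit 9243323913) (nat_lit 456) (nat_lit 37396471887) (nat_lit 532) (nat_lit 18186945933) (nat_lit 223) (nat_lit 5) (nat_lit 229) (nat_lit 5) (nat_lit 230) (nat_lit 5) (nat_lit 508) (nat_lit 477) (nat_lit 215))) (XT.nd (nat_lit 78) (nat_lit 532) (nat_lit 0) (XT.lf (nat_lit 0) (nat_lit 46567976746) (nat_lit 456) (nat_lit 10209116000) (nat_lit 532) (nat_lit 9164667808) (nat_lit 223) (nat_lit 5) (nat_lit 229) (nat_lit 5) (nat_lit 230) (nat_lit 5) (nat_lit 509) (nat_lit 477) (nat_lit 214)) (XT.lf (nat_lit 0) (nat_lit 473507570) (nat_lit 532) (nat_lit 48981066000) (nat_lit 76) (nat_lit 17625187496) (nat_lit 216) (nat_lit 5) (nat_lit 223) (nat_lit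 5) (nat_lit 217) (nat_lit 5) (nat_lit 510) (nat_lit 477) (nat_lit 213))))) (XT.nd (nat_lit 312) (nat_lit 912) (nat_lit 0) (XT.nd (nat_lit 156) (nat_lit 456) (nat_lit 0) (XT.nd (nat_lit 78) (nat_lit 456) (nat_lit 0) (XT.lf (nat_lit 0) (nat_lit 10514543886) (nat_lit 532) (nat_lit 11348184590) (nat_lit 76) (nat_lit 46377513526) (nat_lit 216) (nat_lit 5) (nat_lit 223) (nat_lit 5) (nat_lit 217) (nat_lit 5) (nat_lit 511) (nat_lit 477) (nat_lit 212)) (XT.lf (nat_lit 0) (nat_lit 21190535978) (nat_lit 532) (nat_lit 41534793885) (nat_lit 76) (nat_lit 6700195841) (nat_lit 210) (nat_lit 5) (nat_lit 217) (nat_lit 5) (nat_lit 211) (nat_lit 5) (nat_lit 512) (nat_lit 477) (nat_lit 211))) (XT.nd (nat_lit 78) (nat_lit 456) (nat_lit 0) (XT.lf (nat_lit 0) (nat_lit 32518294079) (nat_lit 532) (nat_lit 2321957783) (nat_lit 76) (nat_lit 35796171542) (nat_lit 210) (nat_lit 5) (nat_lit 217) (nat_lit 5) (nat_lit 211) (nat_lit 5) (nat_lit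 513) (nat_lit 477) (nat_lit 210)) (XT.lf (nat_lit 0) (nat_lit 38824012319) (nat_lit 456) (nat_lit 5734387885) (nat_lit 532) (nat_lit 27314072446) (nat_lit 204) (nat_lit 5) (nat_lit 210) (nat_lit 5) (nat_lit 211) (nat_lit 5) (nat_lit 514) (nat_lit 477) (nat_lit 209)))) (XT.nd (nat_lit 156) (nat_lit 532) (nat_lit 0) (XT.nd (nat_lit 78) (nat_lit 0) (nat_lit 0) (XT.lf (nat_lit 0) (nat_lit 8029601538) (nat_lit 380) (nat_lit 49263352625) (nat_lit 456) (nat_lit 15842651942) (nat_lit 199) (nat_lit 5) (nat_lit 204) (nat_lit 5) (nat_lit 205) (nat_lit 5) (nat_lit 515) (nat_lit 477) (nat_lit 208)) (XT.lf (nat_lit 0) (nat_lit 50958710881) (nat_lit 380) (nat_lit 19840114891) (nat_lit 456) (nat_lit 3626129431) (nat_lit 199) (nat_lit 5) (nat_lit 204) (nat_lit 5) (nat_lit 205) (nat_lit 5) (nat_lit 516) (nat_lit 477) (nat_lit 207))) (XT.nd (nat_lit 78) (nat_lit 0) (nat_lit 0) (XT.lf (nat_lit 0) (nat_lit 9074355178) (nat_lit 532)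 (nat_lit 56127474008) (nat_lit 76) (nat_lit 10539805251) (nat_lit 192) (nat_lit 5) (nat_lit 199) (nat_lit 5) (nat_lit 193) (nat_lit 5) (nat_lit 517) (nat_lit 477) (nat_lit 206)) (XT.lf (nat_lit 0) (nat_lit 22518077625) (nat_lit 532) (nat_lit 12858224868) (nat_lit 76) (nat_lit 41707381403) (nat_lit 192) (nat_lit 5) (nat_lit 199) (nat_lit 5) (nat_lit 193) (nat_lit 5) (nat_lit 518) (nat_lit 477) (nat_lit 205))))))) (XT.nd (nat_lit 1170) (nat_lit 1140) (nat_lit 0) (XT.nd (nat_lit 546) (nat_lit 1672) (nat_lit 0) (XT.nd (nat_lit 234) (nat_lit 760) (nat_lit 0) (XT.nd (nat_lit 78) (nat_lit 380) (nat_lit 0) (XT.lf (nat_lit 0) (nat_lit 32339336530) (nat_lit 380) (nat_lit 4336018280) (nat_lit 456) (nat_lit 41781332800) (nat_lit 187) (nat_lit 5) (nat_lit 192) (nat_lit 5) (nat_lit 193) (nat_lit 5) (nat_lit 519) (nat_lit 477) (nat_lit 204)) (XT.nd (nat_lit 78) (nat_lit 380) (nat_lit 0) (XT.lf (nat_lit 0) (nat_lit 51653513769)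 (nat_lit 456) (nat_lit 978345606) (nat_lit 76) (nat_lit 27227137214) (nat_lit 187) (nat_lit 5) (nat_lit 193) (nat_lit 5) (nat_lit 188) (nat_lit 5) (nat_lit 520) (nat_lit 477) (nat_lit 203)) (XT.lf (nat_lit 0) (nat_lit 46376056680) (nat_lit 380) (nat_lit 21193090543) (nat_lit 456) (nat_lit 13719583782) (nat_lit 182) (nat_lit 5) (nat_lit 187) (nat_lit 5) (nat_lit 188) (nat_lit 5) (nat_lit 521) (nat_lit 477) (nat_lit 202)))) (XT.nd (nat_lit 156) (nat_lit 380) (nat_lit 0) (XT.nd (nat_lit 78) (nat_lit 0) (nat_lit 0) (XT.lf (nat_lit 0) (nat_lit 1417357149) (nat_lit 380) (nat_lit 70221681226) (nat_lit 76) (nat_lit 11114775861) (nat_lit 177) (nat_lit 5) (nat_lit 182) (nat_lit 5) (nat_lit 178) (nat_lit 5) (nat_lit 522) (nat_lit 477) (nat_lit 201)) (XT.lf (nat_lit 0) (nat_lit 17297944063) (nat_lit 380) (nat_lit 22486291750) (nat_lit 76) (nat_lit 44457580446) (nat_lit 177) (nat_lit 5) (nat_lit 182) (nat_lit 5) (nat_lit 178)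 (nat_lit 5) (nat_lit 523) (nat_lit 477) (nat_lit 200))) (XT.nd (nat_lit 78) (nat_lit 0) (nat_lit 0) (XT.lf (nat_lit 0) (nat_lit 27211357014) (nat_lit 380) (nat_lit 6704595899) (nat_lit 456) (nat_lit 51850675352) (nat_lit 172) (nat_lit 5) (nat_lit 177) (nat_lit 5) (nat_lit 178) (nat_lit 5) (nat_lit 524) (nat_lit 477) (nat_lit 199)) (XT.lf (nat_lit 0) (nat_lit 51524329103) (nat_lit 456) (nat_lit 8735611963) (nat_lit 76) (nat_lit 27062488802) (nat_lit 172) (nat_lit 5) (nat_lit 178) (nat_lit 5) (nat_lit 173) (nat_lit 5) (nat_lit 525) (nat_lit 477) (nat_lit 198))))) (XT.nd (nat_lit 312) (nat_lit 684) (nat_lit 0) (XT.nd (nat_lit 156) (nat_lit 380) (nat_lit 0) (XT.nd (nat_lit 78) (nat_lit 304) (nat_lit 0) (XT.lf (nat_lit 0) (nat_lit 43357539218) (nat_lit 304) (nat_lit 26786033947) (nat_lit 380) (nat_lit 18766853905) (nat_lit 168) (nat_lit 5) (nat_lit 172) (nat_lit 5) (nat_lit 173) (nat_lit 5) (nat_lit 526) (nat_lit 477)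 (nat_lit 197)) (XT.lf (nat_lit 0) (nat_lit 6704366702) (nat_lit 304) (nat_lit 82843962821) (nat_lit 380) (nat_lit 990926663) (nat_lit 164) (nat_lit 5) (nat_lit 168) (nat_lit 5) (nat_lit 169) (nat_lit 5) (nat_lit 527) (nat_lit 477) (nat_lit 196))) (XT.nd (nat_lit 78) (nat_lit 304) (nat_lit 0) (XT.lf (nat_lit 0) (nat_lit 17709558324) (nat_lit 380) (nat_lit 31177045234) (nat_lit 76) (nat_lit 43303475789) (nat_lit 163) (nat_lit 5) (nat_lit 168) (nat_lit 5) (nat_lit 164) (nat_lit 5) (nat_lit 528) (nat_lit 477) (nat_lit 195)) (XT.lf (nat_lit 0) (nat_lit 23508698699) (nat_lit 304) (nat_lit 13667902517) (nat_lit 380) (nat_lit 56706767893) (nat_lit 159) (nat_lit 5) (nat_lit 163) (nat_lit 5) (nat_lit 164) (nat_lit 5) (nat_lit 529) (nat_lit 477) (nat_lit 194)))) (XT.nd (nat_lit 156) (nat_lit 380) (nat_lit 0) (XT.nd (nat_lit 78) (nat_lit 304) (nat_lit 0) (XT.lf (nat_lit 0) (nat_lit 57762400826) (nat_lit 380) (nat_lit 15365101255)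 (nat_lit 76) (nat_lit 22483913163) (nat_lit 159) (nat_lit 5) (nat_lit 164) (nat_lit 5) (nat_lit 160) (nat_lit 5) (nat_lit 530) (nat_lit 477) (nat_lit 193)) (XT.lf (nat_lit 0) (nat_lit 41977820652) (nat_lit 304) (nat_lit 37526296548) (nat_lit 380) (nat_lit 17871035320) (nat_lit 155) (nat_lit 5) (nat_lit 159) (nat_lit 5) (nat_lit 160) (nat_lit 5) (nat_lit 531) (nat_lit 477) (nat_lit 192))) (XT.nd (nat_lit 78) (nat_lit 0) (nat_lit 0) (XT.lf (nat_lit 0) (nat_lit 2183153423) (nat_lit 304) (nat_lit 647502854) (nat_lit 380) (nat_lit 96355049768) (nat_lit 150) (nat_lit 5) (nat_lit 154) (nat_lit 5) (nat_lit 155) (nat_lit 5) (nat_lit 532) (nat_lit 477) (nat_lit 191)) (XT.lf (nat_lit 0) (nat_lit 24717571930) (nat_lit 380) (nat_lit 38949296341) (nat_lit 76) (nat_lit 37350698812) (nat_lit 150) (nat_lit 5) (nat_lit 155) (nat_lit 5) (nat_lit 151) (nat_lit 5) (nat_lit 533) (nat_lit 477) (nat_lit 190)))))) (XT.nd (nat_lit 58500)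 (nat_lit 0) (nat_lit 12160) (XT.nd (nat_lit 58188) (nat_lit 0) (nat_lit 12008) (XT.nd (nat_lit 390) (nat_lit 836) (nat_lit 0) (XT.nd (nat_lit 78) (nat_lit 0) (nat_lit 0) (XT.lf (nat_lit 0) (nat_lit 21253139402) (nat_lit 304) (nat_lit 26218187033) (nat_lit 380) (nat_lit 55426750610) (nat_lit 146) (nat_lit 5) (nat_lit 150) (nat_lit 5) (nat_lit 151) (nat_lit 5) (nat_lit 534) (nat_lit 477) (nat_lit 189)) (XT.lf (nat_lit 0) (nat_lit 71423179822) (nat_lit 380) (nat_lit 20886517432) (nat_lit 76) (nat_lit 12509840501) (nat_lit 146) (nat_lit 5) (nat_lit 151) (nat_lit 5) (nat_lit 147) (nat_lit 5) (nat_lit 535) (nat_lit 477) (nat_lit 188))) (XT.nd (nat_lit 57720) (nat_lit 0) (nat_lit 12008) (XT.lf (nat_lit 0) (nat_lit 20395160424) (nat_lit 228) (nat_lit 45545188736) (nat_lit 304) (nat_lit 46973112515) (nat_lit 135) (nat_lit 5) (nat_lit 138) (nat_lit 5) (nat_lit 139) (nat_lit 5) (nat_lit 539) (nat_lit 477) (nat_lit 184)) (XT.lf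 (nat_lit 0) (nat_lit 9686557732) (nat_lit 1292) (nat_lit 5349332573) (nat_lit 1292) (nat_lit 5349332573) (nat_lit 293) (nat_lit 3) (nat_lit 310) (nat_lit 3) (nat_lit 310) (nat_lit 5) (nat_lit 478) (nat_lit 478) (nat_lit 244)))) (XT.nd (nat_lit 156) (nat_lit 0) (nat_lit 76) (XT.nd (nat_lit 78) (nat_lit 0) (nat_lit 76) (XT.lf (nat_lit 76) (nat_lit 9628821776) (nat_lit 0) (nat_lit 10166588791) (nat_lit 1292) (nat_lit 21582635484) (nat_lit 294) (nat_lit 5) (nat_lit 293) (nat_lit 3) (nat_lit 310) (nat_lit 5) (nat_lit 479) (nat_lit 478) (nat_lit 243)) (XT.lf (nat_lit 0) (nat_lit 20437305157) (nat_lit 1216) (nat_lit 11316466888) (nat_lit 1292) (nat_lit 10243894603) (nat_lit 294) (nat_lit 5) (nat_lit 310) (nat_lit 5) (nat_lit 311) (nat_lit 5) (nat_lit 480) (nat_lit 478) (nat_lit 242))) (XT.nd (nat_lit 78) (nat_lit 0) (nat_lit 76) (XT.lf (nat_lit 76) (nat_lit 9819394854) (nat_lit 0) (nat_lit 11472627361) (nat_lit 1292) (nat_lit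 21338046884) (nat_lit 295) (nat_lit 5) (nat_lit 294) (nat_lit 5) (nat_lit 311) (nat_lit 5) (nat_lit 481) (nat_lit 478) (nat_lit 241)) (XT.lf (nat_lit 0) (nat_lit 22376865467) (nat_lit 1216) (nat_lit 11549231757) (nat_lit 1292) (nat_lit 9349212059) (nat_lit 295) (nat_lit 5) (nat_lit 311) (nat_lit 5) (nat_lit 312) (nat_lit 5) (nat_lit 482) (nat_lit 478) (nat_lit 240))))) (XT.nd (nat_lit 312) (nat_lit 0) (nat_lit 152) (XT.nd (nat_lit 156) (nat_lit 0) (nat_lit 76) (XT.nd (nat_lit 78) (nat_lit 0) (nat_lit 76) (XT.lf (nat_lit 76) (nat_lit 10439325530) (nat_lit 0) (nat_lit 13267467677) (nat_lit 1292) (nat_lit 20226737485) (nat_lit 296) (nat_lit 5) (nat_lit 295) (nat_lit 5) (nat_lit 312) (nat_lit 5) (nat_lit 483) (nat_lit 478) (nat_lit 239)) (XT.lf (nat_lit 0) (nat_lit 25270041395) (nat_lit 1216) (nat_lit 11362758056) (nat_lit 1292) (nat_lit 7972896802) (nat_lit 296) (nat_lit 5) (nat_lit 312) (nat_lit 5) (nat_lit 313) (nat_lit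 5) (nat_lit 484) (nat_lit 478) (nat_lit 238))) (XT.nd (nat_lit 78) (nat_lit 0) (nat_lit 76) (XT.lf (nat_lit 76) (nat_lit 11525312587) (nat_lit 0) (nat_lit 15595700997) (nat_lit 1292) (nat_lit 18169788583) (nat_lit 297) (nat_lit 5) (nat_lit 296) (nat_lit 5) (nat_lit 313) (nat_lit 5) (nat_lit 485) (nat_lit 478) (nat_lit 237)) (XT.lf (nat_lit 0) (nat_lit 29200476991) (nat_lit 1216) (nat_lit 10720470949) (nat_lit 1292) (nat_lit 6070324636) (nat_lit 297) (nat_lit 5) (nat_lit 313) (nat_lit 5) (nat_lit 314) (nat_lit 5) (nat_lit 486) (nat_lit 478) (nat_lit 236)))) (XT.nd (nat_lit 156) (nat_lit 0) (nat_lit 76) (XT.nd (nat_lit 78) (nat_lit 0) (nat_lit 76) (XT.lf (nat_lit 76) (nat_lit 13116568953) (nat_lit 0) (nat_lit 18505001967) (nat_lit 1292) (nat_lit 15082808950) (nat_lit 298) (nat_lit 5) (nat_lit 297) (nat_lit 5) (nat_lit 314) (nat_lit 5) (nat_lit 487) (nat_lit 478) (nat_lit 235)) (XT.lf (nat_lit 0) (nat_lit 34257563829)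 (nat_lit 1216) (nat_lit 9583282759) (nat_lit 1292) (nat_lit 3593765978) (nat_lit 298) (nat_lit 5) (nat_lit 314) (nat_lit 5) (nat_lit 315) (nat_lit 5) (nat_lit 488) (nat_lit 478) (nat_lit 234))) (XT.nd (nat_lit 78) (nat_lit 0) (nat_lit 76) (XT.lf (nat_lit 76) (nat_lit 15254969266) (nat_lit 0) (nat_lit 22046341619) (nat_lit 1292) (nat_lit 10875581290) (nat_lit 299) (nat_lit 5) (nat_lit 298) (nat_lit 5) (nat_lit 315) (nat_lit 5) (nat_lit 489) (nat_lit 478) (nat_lit 233)) (XT.lf (nat_lit 0) (nat_lit 40536810509) (nat_lit 1216) (nat_lit 7909445303) (nat_lit 1292) (nat_lit 492171313) (nat_lit 299) (nat_lit 5) (nat_lit 315) (nat_lit 5) (nat_lit 316) (nat_lit 5) (nat_lit 490) (nat_lit 478) (nat_lit 232))))))))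
noncomputable def xc236 : XT := (XT.nd (nat_lit 2340) (nat_lit 3724) (nat_lit 0) (XT.nd (nat_lit 1170) (nat_lit 4256) (nat_lit 0) (XT.nd (nat_lit 546) (nat_lit 2356) (nat_lit 0) (XT.nd (nat_lit 234) (nat_lit 684) (nat_lit 0) (XT.nd (nat_lit 78) (nat_lit 1216) (nat_lit 0) (XT.lf (nat_lit 76) (nat_lit 17985205797) (nat_lit 0) (nat_lit 26274213756) (nat_lit 1292) (nat_lit 5451687391) (nat_lit 300) (nat_lit 5) (nat_lit 299) (nat_lit 5) (nat_lit 316) (nat_lit 5) (nat_lit 491) (nat_lit 478) (nat_lit 231)) (XT.nd (nat_lit 78) (nat_lit 1216) (nat_lit 0) (XT.lf (nat_lit 76) (nat_lit 44817964530) (nat_lit 0) (nat_lit 3354515559) (nat_lit 1292) (nat_lit 2332124022) (nat_lit 300) (nat_lit 5) (nat_lit 299) (nat_lit 5) (nat_lit 316) (nat_lit 5) (nat_lit 492) (nat_lit 478) (nat_lit 230)) (XT.lf (nat_lit 0) (nat_lit 1266679909) (nat_lit 1292) (nat_lit 29967404768) (nat_lit 1368) (nat_lit 20075482218) (nat_lit 283) (nat_lit 5) (nat_lit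 300) (nat_lit 5) (nat_lit 301) (nat_lit 5) (nat_lit 493) (nat_lit 478) (nat_lit 229)))) (XT.nd (nat_lit 156) (nat_lit 684) (nat_lit 0) (XT.nd (nat_lit 78) (nat_lit 0) (nat_lit 76) (XT.lf (nat_lit 0) (nat_lit 5016729641) (nat_lit 1292) (nat_lit 2896318506) (nat_lit 1368) (nat_lit 44222233189) (nat_lit 283) (nat_lit 5) (nat_lit 300) (nat_lit 5) (nat_lit 301) (nat_lit 5) (nat_lit 494) (nat_lit 478) (nat_lit 228)) (XT.lf (nat_lit 0) (nat_lit 9280485341) (nat_lit 1292) (nat_lit 27652404057) (nat_lit 76) (nat_lit 16040841810) (nat_lit 284) (nat_lit 5) (nat_lit 301) (nat_lit 5) (nat_lit 285) (nat_lit 5) (nat_lit 495) (nat_lit 478) (nat_lit 227))) (XT.nd (nat_lit 78) (nat_lit 0) (nat_lit 0) (XT.lf (nat_lit 0) (nat_lit 539419877) (nat_lit 760) (nat_lit 13244805833) (nat_lit 836) (nat_lit 40049746835) (nat_lit 274) (nat_lit 5) (nat_lit 284) (nat_lit 5) (nat_lit 285) (nat_lit 5) (nat_lit 496) (nat_lit 478) (nat_lit 226)) (XT.lf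 (nat_lit 0) (nat_lit 18811320950) (nat_lit 836) (nat_lit 24678689319) (nat_lit 76) (nat_lit 11218363698) (nat_lit 274) (nat_lit 5) (nat_lit 285) (nat_lit 5) (nat_lit 275) (nat_lit 5) (nat_lit 497) (nat_lit 478) (nat_lit 225))))) (XT.nd (nat_lit 312) (nat_lit 1140) (nat_lit 0) (XT.nd (nat_lit 156) (nat_lit 608) (nat_lit 0) (XT.nd (nat_lit 78) (nat_lit 0) (nat_lit 0) (XT.lf (nat_lit 0) (nat_lit 4756447157) (nat_lit 608) (nat_lit 19408693462) (nat_lit 684) (nat_lit 31438589587) (nat_lit 266) (nat_lit 5) (nat_lit 274) (nat_lit 5) (nat_lit 275) (nat_lit 5) (nat_lit 498) (nat_lit 478) (nat_lit 224)) (XT.lf (nat_lit 0) (nat_lit 29982182006) (nat_lit 684) (nat_lit 20993173647) (nat_lit 76) (nat_lit 5541513383) (nat_lit 266) (nat_lit 5) (nat_lit 275) (nat_lit 5) (nat_lit 267) (nat_lit 5) (nat_lit 499) (nat_lit 478) (nat_lit 223))) (XT.nd (nat_lit 78) (nat_lit 0) (nat_lit 0) (XT.lf (nat_lit 0) (nat_lit 9753851445) (nat_lit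 608) (nat_lit 26504908186) (nat_lit 684) (nat_lit 21190091762) (nat_lit 258) (nat_lit 5) (nat_lit 266) (nat_lit 5) (nat_lit 267) (nat_lit 5) (nat_lit 500) (nat_lit 478) (nat_lit 222)) (XT.lf (nat_lit 0) (nat_lit 41852760265) (nat_lit 608) (nat_lit 1081981834) (nat_lit 684) (nat_lit 15467718010) (nat_lit 258) (nat_lit 5) (nat_lit 266) (nat_lit 5) (nat_lit 267) (nat_lit 5) (nat_lit 501) (nat_lit 478) (nat_lit 221)))) (XT.nd (nat_lit 156) (nat_lit 608) (nat_lit 0) (XT.nd (nat_lit 78) (nat_lit 0) (nat_lit 0) (XT.lf (nat_lit 0) (nat_lit 15592037380) (nat_lit 532) (nat_lit 34609301802) (nat_lit 608) (nat_lit 9171627956) (nat_lit 251) (nat_lit 5) (nat_lit 258) (nat_lit 5) (nat_lit 259) (nat_lit 5) (nat_lit 502) (nat_lit 478) (nat_lit 220)) (XT.lf (nat_lit 0) (nat_lit 49025494728) (nat_lit 532) (nat_lit 8837326796) (nat_lit 608) (nat_lit 2504461339) (nat_lit 251) (nat_lit 5) (nat_lit 258) (nat_lit 5) (nat_lit 259) (nat_lit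 5) (nat_lit 503) (nat_lit 478) (nat_lit 219))) (XT.nd (nat_lit 78) (nat_lit 0) (nat_lit 0) (XT.lf (nat_lit 0) (nat_lit 4665494021) (nat_lit 608) (nat_lit 39090351817) (nat_lit 76) (nat_lit 17622687021) (nat_lit 243) (nat_lit 5) (nat_lit 251) (nat_lit 5) (nat_lit 244) (nat_lit 5) (nat_lit 504) (nat_lit 478) (nat_lit 218)) (XT.lf (nat_lit 0) (nat_lit 12202564932) (nat_lit 608) (nat_lit 5371434376) (nat_lit 76) (nat_lit 44839306622) (nat_lit 243) (nat_lit 5) (nat_lit 251) (nat_lit 5) (nat_lit 244) (nat_lit 5) (nat_lit 505) (nat_lit 478) (nat_lit 217)))))) (XT.nd (nat_lit 546) (nat_lit 2204) (nat_lit 0) (XT.nd (nat_lit 234) (nat_lit 988) (nat_lit 0) (XT.nd (nat_lit 78) (nat_lit 532) (nat_lit 0) (XT.lf (nat_lit 0) (nat_lit 20345932498) (nat_lit 608) (nat_lit 33621158550) (nat_lit 76) (nat_lit 9500625701) (nat_lit 236) (nat_lit 5) (nat_lit 244) (nat_lit 5) (nat_lit 237) (nat_lit 5) (nat_lit 506) (nat_lit 478) (nat_lit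 216)) (XT.nd (nat_lit 78) (nat_lit 0) (nat_lit 0) (XT.lf (nat_lit 0) (nat_lit 1533601102) (nat_lit 532) (nat_lit 27442749680) (nat_lit 608) (nat_lit 35570126710) (nat_lit 229) (nat_lit 5) (nat_lit 236) (nat_lit 5) (nat_lit 237) (nat_lit 5) (nat_lit 507) (nat_lit 478) (nat_lit 215)) (XT.lf (nat_lit 0) (nat_lit 38206614818) (nat_lit 608) (nat_lit 27218262181) (nat_lit 76) (nat_lit 222496151) (nat_lit 229) (nat_lit 5) (nat_lit 237) (nat_lit 5) (nat_lit 230) (nat_lit 5) (nat_lit 508) (nat_lit 478) (nat_lit 214)))) (XT.nd (nat_lit 156) (nat_lit 532) (nat_lit 0) (XT.nd (nat_lit 78) (nat_lit 0) (nat_lit 0) (XT.lf (nat_lit 0) (nat_lit 9564270234) (nat_lit 456) (nat_lit 38512429808) (nat_lit 532) (nat_lit 18693708322) (nat_lit 223) (nat_lit 5) (nat_lit 229) (nat_lit 5) (nat_lit 230) (nat_lit 5) (nat_lit 509) (nat_lit 478) (nat_lit 213)) (XT.lf (nat_lit 0) (nat_lit 48007391391) (nat_lit 456) (nat_lit 10509626144) (nat_lit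 532) (nat_lit 9401893290) (nat_lit 223) (nat_lit 5) (nat_lit 229) (nat_lit 5) (nat_lit 230) (nat_lit 5) (nat_lit 510) (nat_lit 478) (nat_lit 212))) (XT.nd (nat_lit 78) (nat_lit 0) (nat_lit 0) (XT.lf (nat_lit 0) (nat_lit 524086079) (nat_lit 532) (nat_lit 50406773358) (nat_lit 76) (nat_lit 18160199317) (nat_lit 216) (nat_lit 5) (nat_lit 223) (nat_lit 5) (nat_lit 217) (nat_lit 5) (nat_lit 511) (nat_lit 478) (nat_lit 211)) (XT.lf (nat_lit 0) (nat_lit 10865294069) (nat_lit 532) (nat_lit 11646179038) (nat_lit 76) (nat_lit 47774912909) (nat_lit 216) (nat_lit 5) (nat_lit 223) (nat_lit 5) (nat_lit 217) (nat_lit 5) (nat_lit 512) (nat_lit 478) (nat_lit 210))))) (XT.nd (nat_lit 312) (nat_lit 912) (nat_lit 0) (XT.nd (nat_lit 156) (nat_lit 836) (nat_lit 0) (XT.nd (nat_lit 78) (nat_lit 0) (nat_lit 0) (XT.lf (nat_lit 0) (nat_lit 21861012039) (nat_lit 532) (nat_lit 42737829009) (nat_lit 76) (nat_lit 6908403908) (nat_lit 210) (nat_lit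 5) (nat_lit 217) (nat_lit 5) (nat_lit 211) (nat_lit 5) (nat_lit 513) (nat_lit 478) (nat_lit 209)) (XT.lf (nat_lit 0) (nat_lit 33527590457) (nat_lit 532) (nat_lit 2349860505) (nat_lit 76) (nat_lit 36877049107) (nat_lit 210) (nat_lit 5) (nat_lit 217) (nat_lit 5) (nat_lit 211) (nat_lit 5) (nat_lit 514) (nat_lit 478) (nat_lit 208))) (XT.nd (nat_lit 78) (nat_lit 380) (nat_lit 0) (XT.lf (nat_lit 0) (nat_lit 40030079328) (nat_lit 456) (nat_lit 5898234948) (nat_lit 532) (nat_lit 28099334186) (nat_lit 204) (nat_lit 5) (nat_lit 210) (nat_lit 5) (nat_lit 211) (nat_lit 5) (nat_lit 515) (nat_lit 478) (nat_lit 207)) (XT.lf (nat_lit 0) (nat_lit 8312341540) (nat_lit 380) (nat_lit 50732076119) (nat_lit 456) (nat_lit 16284272980) (nat_lit 199) (nat_lit 5) (nat_lit 204) (nat_lit 5) (nat_lit 205) (nat_lit 5) (nat_lit 516) (nat_lit 478) (nat_lit 206)))) (XT.nd (nat_lit 156) (nat_lit 380) (nat_lit 0) (XT.nd (nat_lit 78) (nat_lit 532)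 (nat_lit 0) (XT.lf (nat_lit 0) (nat_lit 52528105174) (nat_lit 380) (nat_lit 20426408547) (nat_lit 456) (nat_lit 3702235139) (nat_lit 199) (nat_lit 5) (nat_lit 204) (nat_lit 5) (nat_lit 205) (nat_lit 5) (nat_lit 517) (nat_lit 478) (nat_lit 205)) (XT.lf (nat_lit 0) (nat_lit 9378176041) (nat_lit 532) (nat_lit 57769570972) (nat_lit 76) (nat_lit 10865185636) (nat_lit 192) (nat_lit 5) (nat_lit 199) (nat_lit 5) (nat_lit 193) (nat_lit 5) (nat_lit 518) (nat_lit 478) (nat_lit 204))) (XT.nd (nat_lit 78) (nat_lit 380) (nat_lit 0) (XT.lf (nat_lit 0) (nat_lit 23224290059) (nat_lit 532) (nat_lit 13203459715) (nat_lit 76) (nat_lit 42967521512) (nat_lit 192) (nat_lit 5) (nat_lit 199) (nat_lit 5) (nat_lit 193) (nat_lit 5) (nat_lit 519) (nat_lit 478) (nat_lit 203)) (XT.lf (nat_lit 0) (nat_lit 33349631349) (nat_lit 380) (nat_lit 4456146513) (nat_lit 456) (nat_lit 43003702567) (nat_lit 187) (nat_lit 5) (nat_lit 192) (nat_lit 5) (nat_lit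 193) (nat_lit 5) (nat_lit 520) (nat_lit 478) (nat_lit 202))))))) (XT.nd (nat_lit 1404) (nat_lit 608) (nat_lit 0) (XT.nd (nat_lit 546) (nat_lit 1672) (nat_lit 0) (XT.nd (nat_lit 234) (nat_lit 684) (nat_lit 0) (XT.nd (nat_lit 78) (nat_lit 760) (nat_lit 0) (XT.lf (nat_lit 0) (nat_lit 53232495955) (nat_lit 456) (nat_lit 967961156) (nat_lit 76) (nat_lit 28053425223) (nat_lit 187) (nat_lit 5) (nat_lit 193) (nat_lit 5) (nat_lit 188) (nat_lit 5) (nat_lit 521) (nat_lit 478) (nat_lit 201)) (XT.nd (nat_lit 78) (nat_lit 380) (nat_lit 0) (XT.lf (nat_lit 0) (nat_lit 47806683642) (nat_lit 380) (nat_lit 21818437347) (nat_lit 456) (nat_lit 14101402199) (nat_lit 182) (nat_lit 5) (nat_lit 187) (nat_lit 5) (nat_lit 188) (nat_lit 5) (nat_lit 522) (nat_lit 478) (nat_lit 200)) (XT.lf (nat_lit 0) (nat_lit 1488699975) (nat_lit 380) (nat_lit 72288034122) (nat_lit 76) (nat_lit 11458827295) (nat_lit 177) (nat_lit 5) (nat_lit 182) (nat_lit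 5) (nat_lit 178) (nat_lit 5) (nat_lit 523) (nat_lit 478) (nat_lit 199)))) (XT.nd (nat_lit 156) (nat_lit 304) (nat_lit 0) (XT.nd (nat_lit 78) (nat_lit 380) (nat_lit 0) (XT.lf (nat_lit 0) (nat_lit 17844865018) (nat_lit 380) (nat_lit 23121756676) (nat_lit 76) (nat_lit 45801607042) (nat_lit 177) (nat_lit 5) (nat_lit 182) (nat_lit 5) (nat_lit 178) (nat_lit 5) (nat_lit 524) (nat_lit 478) (nat_lit 198)) (XT.lf (nat_lit 0) (nat_lit 28066437984) (nat_lit 380) (nat_lit 6894533516) (nat_lit 456) (nat_lit 53377826954) (nat_lit 172) (nat_lit 5) (nat_lit 177) (nat_lit 5) (nat_lit 178) (nat_lit 5) (nat_lit 525) (nat_lit 478) (nat_lit 197))) (XT.nd (nat_lit 78) (nat_lit 304) (nat_lit 0) (XT.lf (nat_lit 0) (nat_lit 53096901369) (nat_lit 456) (nat_lit 8959368424) (nat_lit 76) (nat_lit 27885025313) (nat_lit 172) (nat_lit 5) (nat_lit 178) (nat_lit 5) (nat_lit 173) (nat_lit 5) (nat_lit 526) (nat_lit 478) (nat_lit 196)) (XT.lf (nat_lit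 0) (nat_lit 44696201685) (nat_lit 304) (nat_lit 27578103917) (nat_lit 380) (nat_lit 19302639206) (nat_lit 168) (nat_lit 5) (nat_lit 172) (nat_lit 5) (nat_lit 173) (nat_lit 5) (nat_lit 527) (nat_lit 478) (nat_lit 195))))) (XT.nd (nat_lit 312) (nat_lit 988) (nat_lit 0) (XT.nd (nat_lit 156) (nat_lit 304) (nat_lit 0) (XT.nd (nat_lit 78) (nat_lit 76) (nat_lit 0) (XT.lf (nat_lit 0) (nat_lit 6943739783) (nat_lit 304) (nat_lit 85317170236) (nat_lit 380) (nat_lit 993737686) (nat_lit 164) (nat_lit 5) (nat_lit 168) (nat_lit 5) (nat_lit 169) (nat_lit 5) (nat_lit 528) (nat_lit 478) (nat_lit 194)) (XT.lf (nat_lit 0) (nat_lit 18266467922) (nat_lit 380) (nat_lit 32074716293) (nat_lit 76) (nat_lit 44613826706) (nat_lit 163) (nat_lit 5) (nat_lit 168) (nat_lit 5) (nat_lit 164) (nat_lit 5) (nat_lit 529) (nat_lit 478) (nat_lit 193))) (XT.nd (nat_lit 78) (nat_lit 0) (nat_lit 0) (XT.lf (nat_lit 0) (nat_lit 24251230936) (nat_lit 304) (nat_lit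 14065903143) (nat_lit 380) (nat_lit 58381977000) (nat_lit 159) (nat_lit 5) (nat_lit 163) (nat_lit 5) (nat_lit 164) (nat_lit 5) (nat_lit 530) (nat_lit 478) (nat_lit 192)) (XT.lf (nat_lit 0) (nat_lit 59519885014) (nat_lit 380) (nat_lit 15789243926) (nat_lit 76) (nat_lit 23169888398) (nat_lit 159) (nat_lit 5) (nat_lit 164) (nat_lit 5) (nat_lit 160) (nat_lit 5) (nat_lit 531) (nat_lit 478) (nat_lit 191)))) (XT.nd (nat_lit 156) (nat_lit 304) (nat_lit 0) (XT.nd (nat_lit 78) (nat_lit 380) (nat_lit 0) (XT.lf (nat_lit 0) (nat_lit 43273604753) (nat_lit 304) (nat_lit 38639881643) (nat_lit 380) (nat_lit 18382191389) (nat_lit 155) (nat_lit 5) (nat_lit 159) (nat_lit 5) (nat_lit 160) (nat_lit 5) (nat_lit 532) (nat_lit 478) (nat_lit 190)) (XT.lf (nat_lit 0) (nat_lit 2285224599) (nat_lit 304) (nat_lit 654477369) (nat_lit 380) (nat_lit 99220849649) (nat_lit 150) (nat_lit 5) (nat_lit 154) (nat_lit 5) (nat_lit 155) (nat_lit 5) (nat_lit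 533) (nat_lit 478) (nat_lit 189))) (XT.nd (nat_lit 78) (nat_lit 304) (nat_lit 0) (XT.lf (nat_lit 0) (nat_lit 25482638588) (nat_lit 380) (nat_lit 40081675717) (nat_lit 76) (nat_lit 38483071830) (nat_lit 150) (nat_lit 5) (nat_lit 155) (nat_lit 5) (nat_lit 151) (nat_lit 5) (nat_lit 534) (nat_lit 478) (nat_lit 188)) (XT.lf (nat_lit 0) (nat_lit 21926479182) (nat_lit 304) (nat_lit 26992184538) (nat_lit 380) (nat_lit 57065657988) (nat_lit 146) (nat_lit 5) (nat_lit 150) (nat_lit 5) (nat_lit 151) (nat_lit 5) (nat_lit 535) (nat_lit 478) (nat_lit 187)))))) (XT.nd (nat_lit 58266) (nat_lit 0) (nat_lit 12008) (XT.nd (nat_lit 57954) (nat_lit 0) (nat_lit 11856) (XT.nd (nat_lit 57798) (nat_lit 0) (nat_lit 11780) (XT.lf (nat_lit 0) (nat_lit 40611954895) (nat_lit 380) (nat_lit 47235635224) (nat_lit 76) (nat_lit 26301110310) (nat_lit 138) (nat_lit 5) (nat_lit 143) (nat_lit 5) (nat_lit 139) (nat_lit 5) (nat_lit 539) (nat_lit 478) (nat_lit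 183)) (XT.nd (nat_lit 78) (nat_lit 0) (nat_lit 0) (XT.lf (nat_lit 0) (nat_lit 10015918470) (nat_lit 1292) (nat_lit 5489846392) (nat_lit 1292) (nat_lit 5489846392) (nat_lit 293) (nat_lit 3) (nat_lit 310) (nat_lit 3) (nat_lit 310) (nat_lit 5) (nat_lit 479) (nat_lit 479) (nat_lit 242)) (XT.lf (nat_lit 76) (nat_lit 9957227252) (nat_lit 0) (nat_lit 10507695639) (nat_lit 1292) (nat_lit 22152184578) (nat_lit 294) (nat_lit 5) (nat_lit 293) (nat_lit 3) (nat_lit 310) (nat_lit 5) (nat_lit 480) (nat_lit 479) (nat_lit 241)))) (XT.nd (nat_lit 156) (nat_lit 0) (nat_lit 76) (XT.nd (nat_lit 78) (nat_lit 0) (nat_lit 0) (XT.lf (nat_lit 0) (nat_lit 21123533926) (nat_lit 1216) (nat_lit 11615021195) (nat_lit 1292) (nat_lit 10516838079) (nat_lit 294) (nat_lit 5) (nat_lit 310) (nat_lit 5) (nat_lit 311) (nat_lit 5) (nat_lit 481) (nat_lit 479) (nat_lit 240)) (XT.lf (nat_lit 76) (nat_lit 10154515029) (nat_lit 0) (nat_lit 11847637740) (nat_lit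 1292) (nat_lit 21904667443) (nat_lit 295) (nat_lit 5) (nat_lit 294) (nat_lit 5) (nat_lit 311) (nat_lit 5) (nat_lit 482) (nat_lit 479) (nat_lit 239))) (XT.nd (nat_lit 78) (nat_lit 0) (nat_lit 0) (XT.lf (nat_lit 0) (nat_lit 23117174844) (nat_lit 1216) (nat_lit 11853975058) (nat_lit 1292) (nat_lit 9600338981) (nat_lit 295) (nat_lit 5) (nat_lit 311) (nat_lit 5) (nat_lit 312) (nat_lit 5) (nat_lit 483) (nat_lit 479) (nat_lit 238)) (XT.lf (nat_lit 76) (nat_lit 10793829795) (nat_lit 0) (nat_lit 13691558050) (nat_lit 1292) (nat_lit 20764117745) (nat_lit 296) (nat_lit 5) (nat_lit 295) (nat_lit 5) (nat_lit 312) (nat_lit 5) (nat_lit 484) (nat_lit 479) (nat_lit 237))))) (XT.nd (nat_lit 312) (nat_lit 0) (nat_lit 152) (XT.nd (nat_lit 156) (nat_lit 0) (nat_lit 76) (XT.nd (nat_lit 78) (nat_lit 0) (nat_lit 0) (XT.lf (nat_lit 0) (nat_lit 26093327371) (nat_lit 1216) (nat_lit 11661304791) (nat_lit 1292) (nat_lit 8187270410) (nat_lit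 296) (nat_lit 5) (nat_lit 312) (nat_lit 5) (nat_lit 313) (nat_lit 5) (nat_lit 485) (nat_lit 479) (nat_lit 236)) (XT.lf (nat_lit 76) (nat_lit 11912992912) (nat_lit 0) (nat_lit 16085340199) (nat_lit 1292) (nat_lit 18649273684) (nat_lit 297) (nat_lit 5) (nat_lit 296) (nat_lit 5) (nat_lit 313) (nat_lit 5) (nat_lit 486) (nat_lit 479) (nat_lit 235))) (XT.nd (nat_lit 78) (nat_lit 0) (nat_lit 0) (XT.lf (nat_lit 0) (nat_lit 30138122243) (nat_lit 1216) (nat_lit 10999318443) (nat_lit 1292) (nat_lit 6231712631) (nat_lit 297) (nat_lit 5) (nat_lit 313) (nat_lit 5) (nat_lit 314) (nat_lit 5) (nat_lit 487) (nat_lit 479) (nat_lit 234)) (XT.lf (nat_lit 76) (nat_lit 13552413376) (nat_lit 0) (nat_lit 19078047607) (nat_lit 1292) (nat_lit 15473234735) (nat_lit 298) (nat_lit 5) (nat_lit 297) (nat_lit 5) (nat_lit 314) (nat_lit 5) (nat_lit 488) (nat_lit 479) (nat_lit 233)))) (XT.nd (nat_lit 156) (nat_lit 0) (nat_lit 76) (XT.nd (nat_lit 78)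 (nat_lit 0) (nat_lit 0) (XT.lf (nat_lit 0) (nat_lit 35343612017) (nat_lit 1216) (nat_lit 9827737625) (nat_lit 1292) (nat_lit 3684543643) (nat_lit 298) (nat_lit 5) (nat_lit 314) (nat_lit 5) (nat_lit 315) (nat_lit 5) (nat_lit 489) (nat_lit 479) (nat_lit 232)) (XT.lf (nat_lit 76) (nat_lit 15755239966) (nat_lit 0) (nat_lit 22722142547) (nat_lit 1292) (nat_lit 11143097673) (nat_lit 299) (nat_lit 5) (nat_lit 298) (nat_lit 5) (nat_lit 315) (nat_lit 5) (nat_lit 490) (nat_lit 479) (nat_lit 231))) (XT.nd (nat_lit 78) (nat_lit 0) (nat_lit 0) (XT.lf (nat_lit 0) (nat_lit 41808151501) (nat_lit 1216) (nat_lit 8103545264) (nat_lit 1292) (nat_lit 493218516) (nat_lit 299) (nat_lit 5) (nat_lit 315) (nat_lit 5) (nat_lit 316) (nat_lit 5) (nat_lit 491) (nat_lit 479) (nat_lit 230)) (XT.lf (nat_lit 76) (nat_lit 18567522003) (nat_lit 0) (nat_lit 27073719013) (nat_lit 1292) (nat_lit 5559570631) (nat_lit 300) (nat_lit 5) (nat_lit 299) (nat_lit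 5) (nat_lit 316) (nat_lit 5) (nat_lit 492) (nat_lit 479) (nat_lit 229))))))))
noncomputable def xc237 : XT := (XT.nd (nat_lit 2340) (nat_lit 3420) (nat_lit 0) (XT.nd (nat_lit 1170) (nat_lit 3724) (nat_lit 0) (XT.nd (nat_lit 546) (nat_lit 2280) (nat_lit 0) (XT.nd (nat_lit 234) (nat_lit 1292) (nat_lit 0) (XT.nd (nat_lit 78) (nat_lit 1216) (nat_lit 0) (XT.lf (nat_lit 76) (nat_lit 46204018061) (nat_lit 0) (nat_lit 3466101360) (nat_lit 1292) (nat_lit 2348041741) (nat_lit 300) (nat_lit 5) (nat_lit 299) (nat_lit 5) (nat_lit 316) (nat_lit 5) (nat_lit 493) (nat_lit 479) (nat_lit 228)) (XT.nd (nat_lit 78) (nat_lit 0) (nat_lit 0) (XT.lf (nat_lit 0) (nat_lit 1356440304) (nat_lit 1292) (nat_lit 30822612679) (nat_lit 1368) (nat_lit 20668241402) (nat_lit 283) (nat_lit 5) (nat_lit 300) (nat_lit 5) (nat_lit 301) (nat_lit 5) (nat_lit 494) (nat_lit 479) (nat_lit 227)) (XT.lf (nat_lit 0) (nat_lit 5217483956) (nat_lit 1292) (nat_lit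 2940669972) (nat_lit 1368) (nat_lit 45539671755) (nat_lit 283) (nat_lit 5) (nat_lit 300) (nat_lit 5) (nat_lit 301) (nat_lit 5) (nat_lit 495) (nat_lit 479) (nat_lit 226)))) (XT.nd (nat_lit 156) (nat_lit 608) (nat_lit 0) (XT.nd (nat_lit 78) (nat_lit 760) (nat_lit 0) (XT.lf (nat_lit 0) (nat_lit 9608025571) (nat_lit 1292) (nat_lit 28438305002) (nat_lit 76) (nat_lit 16515132470) (nat_lit 284) (nat_lit 5) (nat_lit 301) (nat_lit 5) (nat_lit 285) (nat_lit 5) (nat_lit 496) (nat_lit 479) (nat_lit 225)) (XT.lf (nat_lit 0) (nat_lit 598845501) (nat_lit 760) (nat_lit 13647017484) (nat_lit 836) (nat_lit 41201679275) (nat_lit 274) (nat_lit 5) (nat_lit 284) (nat_lit 5) (nat_lit 285) (nat_lit 5) (nat_lit 497) (nat_lit 479) (nat_lit 224))) (XT.nd (nat_lit 78) (nat_lit 608) (nat_lit 0) (XT.lf (nat_lit 0) (nat_lit 19422324379) (nat_lit 836) (nat_lit 25375613806) (nat_lit 76) (nat_lit 11550281120) (nat_lit 274) (nat_lit 5) (nat_lit 285)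 (nat_lit 5) (nat_lit 275) (nat_lit 5) (nat_lit 498) (nat_lit 479) (nat_lit 223)) (XT.lf (nat_lit 0) (nat_lit 4942150919) (nat_lit 608) (nat_lit 19993662020) (nat_lit 684) (nat_lit 32334651836) (nat_lit 266) (nat_lit 5) (nat_lit 274) (nat_lit 5) (nat_lit 275) (nat_lit 5) (nat_lit 499) (nat_lit 479) (nat_lit 222))))) (XT.nd (nat_lit 312) (nat_lit 1140) (nat_lit 0) (XT.nd (nat_lit 156) (nat_lit 532) (nat_lit 0) (XT.nd (nat_lit 78) (nat_lit 608) (nat_lit 0) (XT.lf (nat_lit 0) (nat_lit 30926008703) (nat_lit 684) (nat_lit 21579848746) (nat_lit 76) (nat_lit 5705181195) (nat_lit 266) (nat_lit 5) (nat_lit 275) (nat_lit 5) (nat_lit 267) (nat_lit 5) (nat_lit 500) (nat_lit 479) (nat_lit 221)) (XT.lf (nat_lit 0) (nat_lit 10089164352) (nat_lit 608) (nat_lit 27300837663) (nat_lit 684) (nat_lit 21781005071) (nat_lit 258) (nat_lit 5) (nat_lit 266) (nat_lit 5) (nat_lit 267) (nat_lit 5) (nat_lit 501) (nat_lit 479) (nat_lit 220)))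 (XT.nd (nat_lit 78) (nat_lit 532) (nat_lit 0) (XT.lf (nat_lit 0) (nat_lit 43149796824) (nat_lit 608) (nat_lit 1115200736) (nat_lit 684) (nat_lit 15888264653) (nat_lit 258) (nat_lit 5) (nat_lit 266) (nat_lit 5) (nat_lit 267) (nat_lit 5) (nat_lit 502) (nat_lit 479) (nat_lit 219)) (XT.lf (nat_lit 0) (nat_lit 16102112302) (nat_lit 532) (nat_lit 35646650402) (nat_lit 608) (nat_lit 9404146800) (nat_lit 251) (nat_lit 5) (nat_lit 258) (nat_lit 5) (nat_lit 259) (nat_lit 5) (nat_lit 503) (nat_lit 479) (nat_lit 218)))) (XT.nd (nat_lit 156) (nat_lit 532) (nat_lit 0) (XT.nd (nat_lit 78) (nat_lit 608) (nat_lit 0) (XT.lf (nat_lit 0) (nat_lit 50537340930) (nat_lit 532) (nat_lit 9101543246) (nat_lit 608) (nat_lit 2538206835) (nat_lit 251) (nat_lit 5) (nat_lit 258) (nat_lit 5) (nat_lit 259) (nat_lit 5) (nat_lit 504) (nat_lit 479) (nat_lit 217)) (XT.lf (nat_lit 0) (nat_lit 4845272553) (nat_lit 608) (nat_lit 40220396815) (nat_lit 76)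 (nat_lit 18153020356) (nat_lit 243) (nat_lit 5) (nat_lit 251) (nat_lit 5) (nat_lit 244) (nat_lit 5) (nat_lit 505) (nat_lit 479) (nat_lit 216))) (XT.nd (nat_lit 78) (nat_lit 532) (nat_lit 0) (XT.lf (nat_lit 0) (nat_lit 12607295968) (nat_lit 608) (nat_lit 5491154537) (nat_lit 76) (nat_lit 46186090406) (nat_lit 243) (nat_lit 5) (nat_lit 251) (nat_lit 5) (nat_lit 244) (nat_lit 5) (nat_lit 506) (nat_lit 479) (nat_lit 215)) (XT.lf (nat_lit 0) (nat_lit 20994262736) (nat_lit 608) (nat_lit 34587664171) (nat_lit 76) (nat_lit 9788678337) (nat_lit 236) (nat_lit 5) (nat_lit 244) (nat_lit 5) (nat_lit 237) (nat_lit 5) (nat_lit 507) (nat_lit 479) (nat_lit 214)))))) (XT.nd (nat_lit 546) (nat_lit 1748) (nat_lit 0) (XT.nd (nat_lit 234) (nat_lit 988) (nat_lit 0) (XT.nd (nat_lit 78) (nat_lit 456) (nat_lit 0) (XT.lf (nat_lit 0) (nat_lit 1621325241) (nat_lit 532) (nat_lit 28261563923) (nat_lit 608) (nat_lit 36598860907) (nat_lit 229)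 (nat_lit 5) (nat_lit 236) (nat_lit 5) (nat_lit 237) (nat_lit 5) (nat_lit 508) (nat_lit 479) (nat_lit 213)) (XT.nd (nat_lit 78) (nat_lit 456) (nat_lit 0) (XT.lf (nat_lit 0) (nat_lit 39389017932) (nat_lit 608) (nat_lit 27993261600) (nat_lit 76) (nat_lit 233424488) (nat_lit 229) (nat_lit 5) (nat_lit 237) (nat_lit 5) (nat_lit 230) (nat_lit 5) (nat_lit 509) (nat_lit 479) (nat_lit 212)) (XT.lf (nat_lit 0) (nat_lit 9892339450) (nat_lit 456) (nat_lit 39662207231) (nat_lit 532) (nat_lit 19217903501) (nat_lit 223) (nat_lit 5) (nat_lit 229) (nat_lit 5) (nat_lit 230) (nat_lit 5) (nat_lit 510) (nat_lit 479) (nat_lit 211)))) (XT.nd (nat_lit 156) (nat_lit 456) (nat_lit 0) (XT.nd (nat_lit 78) (nat_lit 532) (nat_lit 0) (XT.lf (nat_lit 0) (nat_lit 49487555958) (nat_lit 456) (nat_lit 10819482432) (nat_lit 532) (nat_lit 9648400505) (nat_lit 223) (nat_lit 5) (nat_lit 229) (nat_lit 5) (nat_lit 230) (nat_lit 5) (nat_lit 511) (nat_lit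 479) (nat_lit 210)) (XT.lf (nat_lit 0) (nat_lit 574093969) (nat_lit 532) (nat_lit 51877761909) (nat_lit 76) (nat_lit 18710902361) (nat_lit 216) (nat_lit 5) (nat_lit 223) (nat_lit 5) (nat_lit 217) (nat_lit 5) (nat_lit 512) (nat_lit 479) (nat_lit 209))) (XT.nd (nat_lit 78) (nat_lit 456) (nat_lit 0) (XT.lf (nat_lit 0) (nat_lit 11224539597) (nat_lit 532) (nat_lit 11955550186) (nat_lit 76) (nat_lit 49213885602) (nat_lit 216) (nat_lit 5) (nat_lit 223) (nat_lit 5) (nat_lit 217) (nat_lit 5) (nat_lit 513) (nat_lit 479) (nat_lit 208)) (XT.lf (nat_lit 0) (nat_lit 22549607017) (nat_lit 532) (nat_lit 43979424062) (nat_lit 76) (nat_lit 7122444782) (nat_lit 210) (nat_lit 5) (nat_lit 217) (nat_lit 5) (nat_lit 211) (nat_lit 5) (nat_lit 514) (nat_lit 479) (nat_lit 207))))) (XT.nd (nat_lit 312) (nat_lit 912) (nat_lit 0) (XT.nd (nat_lit 156) (nat_lit 380) (nat_lit 0) (XT.nd (nat_lit 78) (nat_lit 456) (nat_lit 0) (XT.lf (nat_lit 0)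 (nat_lit 34565228478) (nat_lit 532) (nat_lit 2380997274) (nat_lit 76) (nat_lit 37989951607) (nat_lit 210) (nat_lit 5) (nat_lit 217) (nat_lit 5) (nat_lit 211) (nat_lit 5) (nat_lit 515) (nat_lit 479) (nat_lit 206)) (XT.lf (nat_lit 0) (nat_lit 41269954881) (nat_lit 456) (nat_lit 6067467251) (nat_lit 532) (nat_lit 28910114727) (nat_lit 204) (nat_lit 5) (nat_lit 210) (nat_lit 5) (nat_lit 211) (nat_lit 5) (nat_lit 516) (nat_lit 479) (nat_lit 205))) (XT.nd (nat_lit 78) (nat_lit 0) (nat_lit 0) (XT.lf (nat_lit 0) (nat_lit 8601161269) (nat_lit 380) (nat_lit 52245388120) (nat_lit 456) (nat_lit 16741074786) (nat_lit 199) (nat_lit 5) (nat_lit 204) (nat_lit 5) (nat_lit 205) (nat_lit 5) (nat_lit 517) (nat_lit 479) (nat_lit 204)) (XT.lf (nat_lit 0) (nat_lit 54142248797) (nat_lit 380) (nat_lit 21030802471) (nat_lit 456) (nat_lit 3782499879) (nat_lit 199) (nat_lit 5) (nat_lit 204) (nat_lit 5) (nat_lit 205) (nat_lit 5) (nat_lit 518)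 (nat_lit 479) (nat_lit 203)))) (XT.nd (nat_lit 156) (nat_lit 380) (nat_lit 0) (XT.nd (nat_lit 78) (nat_lit 0) (nat_lit 0) (XT.lf (nat_lit 0) (nat_lit 9689298124) (nat_lit 532) (nat_lit 59463326161) (nat_lit 76) (nat_lit 11199800105) (nat_lit 192) (nat_lit 5) (nat_lit 199) (nat_lit 5) (nat_lit 193) (nat_lit 5) (nat_lit 519) (nat_lit 479) (nat_lit 202)) (XT.lf (nat_lit 0) (nat_lit 23949928276) (nat_lit 532) (nat_lit 13561377157) (nat_lit 76) (nat_lit 44264953857) (nat_lit 192) (nat_lit 5) (nat_lit 199) (nat_lit 5) (nat_lit 193) (nat_lit 5) (nat_lit 520) (nat_lit 479) (nat_lit 201))) (XT.nd (nat_lit 78) (nat_lit 0) (nat_lit 0) (XT.lf (nat_lit 0) (nat_lit 34387932264) (nat_lit 380) (nat_lit 4580449897) (nat_lit 456) (nat_lit 44264526986) (nat_lit 187) (nat_lit 5) (nat_lit 192) (nat_lit 5) (nat_lit 193) (nat_lit 5) (nat_lit 521) (nat_lit 479) (nat_lit 200)) (XT.lf (nat_lit 0) (nat_lit 54857161260) (nat_lit 456) (nat_lit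 959546113) (nat_lit 76) (nat_lit 28903958032) (nat_lit 187) (nat_lit 5) (nat_lit 193) (nat_lit 5) (nat_lit 188) (nat_lit 5) (nat_lit 522) (nat_lit 479) (nat_lit 199))))))) (XT.nd (nat_lit 59202) (nat_lit 0) (nat_lit 10716) (XT.nd (nat_lit 546) (nat_lit 1672) (nat_lit 0) (XT.nd (nat_lit 234) (nat_lit 988) (nat_lit 0) (XT.nd (nat_lit 78) (nat_lit 380) (nat_lit 0) (XT.lf (nat_lit 0) (nat_lit 49277970834) (nat_lit 380) (nat_lit 22463144193) (nat_lit 456) (nat_lit 14496384036) (nat_lit 182) (nat_lit 5) (nat_lit 187) (nat_lit 5) (nat_lit 188) (nat_lit 5) (nat_lit 523) (nat_lit 479) (nat_lit 198)) (XT.nd (nat_lit 78) (nat_lit 0) (nat_lit 0) (XT.lf (nat_lit 0) (nat_lit 1560528580) (nat_lit 380) (nat_lit 74418690848) (nat_lit 76) (nat_lit 11812591319) (nat_lit 177) (nat_lit 5) (nat_lit 182) (nat_lit 5) (nat_lit 178) (nat_lit 5) (nat_lit 524) (nat_lit 479) (nat_lit 197)) (XT.lf (nat_lit 0) (nat_lit 18406587285) (nat_lit 380)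 (nat_lit 23778531417) (nat_lit 76) (nat_lit 47185363220) (nat_lit 177) (nat_lit 5) (nat_lit 182) (nat_lit 5) (nat_lit 178) (nat_lit 5) (nat_lit 525) (nat_lit 479) (nat_lit 196)))) (XT.nd (nat_lit 156) (nat_lit 608) (nat_lit 0) (XT.nd (nat_lit 78) (nat_lit 0) (nat_lit 0) (XT.lf (nat_lit 0) (nat_lit 28944947534) (nat_lit 380) (nat_lit 7090812203) (nat_lit 456) (nat_lit 54952421581) (nat_lit 172) (nat_lit 5) (nat_lit 177) (nat_lit 5) (nat_lit 178) (nat_lit 5) (nat_lit 526) (nat_lit 479) (nat_lit 195)) (XT.lf (nat_lit 0) (nat_lit 54715109939) (nat_lit 456) (nat_lit 9192036839) (nat_lit 76) (nat_lit 28731625885) (nat_lit 172) (nat_lit 5) (nat_lit 178) (nat_lit 5) (nat_lit 173) (nat_lit 5) (nat_lit 527) (nat_lit 479) (nat_lit 194))) (XT.nd (nat_lit 78) (nat_lit 304) (nat_lit 0) (XT.lf (nat_lit 0) (nat_lit 46072846328) (nat_lit 304) (nat_lit 28394596767) (nat_lit 380) (nat_lit 19856060624) (nat_lit 168) (nat_lit 5) (nat_lit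 172) (nat_lit 5) (nat_lit 173) (nat_lit 5) (nat_lit 528) (nat_lit 479) (nat_lit 193)) (XT.lf (nat_lit 0) (nat_lit 7188098804) (nat_lit 304) (nat_lit 87865269120) (nat_lit 380) (nat_lit 998178172) (nat_lit 164) (nat_lit 5) (nat_lit 168) (nat_lit 5) (nat_lit 169) (nat_lit 5) (nat_lit 529) (nat_lit 479) (nat_lit 192))))) (XT.nd (nat_lit 312) (nat_lit 988) (nat_lit 0) (XT.nd (nat_lit 156) (nat_lit 304) (nat_lit 0) (XT.nd (nat_lit 78) (nat_lit 304) (nat_lit 0) (XT.lf (nat_lit 0) (nat_lit 18838613952) (nat_lit 380) (nat_lit 33001478190) (nat_lit 76) (nat_lit 45962842547) (nat_lit 163) (nat_lit 5) (nat_lit 168) (nat_lit 5) (nat_lit 164) (nat_lit 5) (nat_lit 530) (nat_lit 479) (nat_lit 191)) (XT.lf (nat_lit 0) (nat_lit 25013899616) (nat_lit 304) (nat_lit 14476534730) (nat_lit 380) (nat_lit 60108934537) (nat_lit 159) (nat_lit 5) (nat_lit 163) (nat_lit 5) (nat_lit 164) (nat_lit 5) (nat_lit 531) (nat_lit 479) (nat_lit 190)))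 (XT.nd (nat_lit 78) (nat_lit 304) (nat_lit 0) (XT.lf (nat_lit 0) (nat_lit 61328680889) (nat_lit 380) (nat_lit 16228223943) (nat_lit 76) (nat_lit 23875785163) (nat_lit 159) (nat_lit 5) (nat_lit 164) (nat_lit 5) (nat_lit 160) (nat_lit 5) (nat_lit 532) (nat_lit 479) (nat_lit 189)) (XT.lf (nat_lit 0) (nat_lit 44606170027) (nat_lit 304) (nat_lit 39787574838) (nat_lit 380) (nat_lit 18910115808) (nat_lit 155) (nat_lit 5) (nat_lit 159) (nat_lit 5) (nat_lit 160) (nat_lit 5) (nat_lit 533) (nat_lit 479) (nat_lit 188)))) (XT.nd (nat_lit 390) (nat_lit 608) (nat_lit 0) (XT.nd (nat_lit 78) (nat_lit 0) (nat_lit 0) (XT.lf (nat_lit 0) (nat_lit 2388258265) (nat_lit 304) (nat_lit 662375833) (nat_lit 380) (nat_lit 102174050111) (nat_lit 150) (nat_lit 5) (nat_lit 154) (nat_lit 5) (nat_lit 155) (nat_lit 5) (nat_lit 534) (nat_lit 479) (nat_lit 187)) (XT.lf (nat_lit 0) (nat_lit 26269305982) (nat_lit 380) (nat_lit 41250098734) (nat_lit 76)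 (nat_lit 39648735682) (nat_lit 150) (nat_lit 5) (nat_lit 155) (nat_lit 5) (nat_lit 151) (nat_lit 5) (nat_lit 535) (nat_lit 479) (nat_lit 186))) (XT.nd (nat_lit 57876) (nat_lit 0) (nat_lit 11476) (XT.lf (nat_lit 0) (nat_lit 14891922320) (nat_lit 304) (nat_lit 1206639761) (nat_lit 76) (nat_lit 99311387885) (nat_lit 142) (nat_lit 5) (nat_lit 146) (nat_lit 5) (nat_lit 143) (nat_lit 5) (nat_lit 539) (nat_lit 479) (nat_lit 182)) (XT.lf (nat_lit 0) (nat_lit 10352934819) (nat_lit 1292) (nat_lit 5635721765) (nat_lit 1292) (nat_lit 5635721765) (nat_lit 293) (nat_lit 3) (nat_lit 310) (nat_lit 3) (nat_lit 310) (nat_lit 5) (nat_lit 480) (nat_lit 480) (nat_lit 240)))))) (XT.nd (nat_lit 624) (nat_lit 760) (nat_lit 0) (XT.nd (nat_lit 312) (nat_lit 0) (nat_lit 152) (XT.nd (nat_lit 156) (nat_lit 0) (nat_lit 76) (XT.nd (nat_lit 78) (nat_lit 0) (nat_lit 76) (XT.lf (nat_lit 76) (nat_lit 10293215088) (nat_lit 0) (nat_lit 10856962877)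 (nat_lit 1292) (nat_lit 22743293643) (nat_lit 294) (nat_lit 5) (nat_lit 293) (nat_lit 3) (nat_lit 310) (nat_lit 5) (nat_lit 481) (nat_lit 480) (nat_lit 239)) (XT.lf (nat_lit 0) (nat_lit 21826152767) (nat_lit 1216) (nat_lit 11924882237) (nat_lit 1292) (nat_lit 10799943030) (nat_lit 294) (nat_lit 5) (nat_lit 310) (nat_lit 5) (nat_lit 311) (nat_lit 5) (nat_lit 482) (nat_lit 480) (nat_lit 238))) (XT.nd (nat_lit 78) (nat_lit 0) (nat_lit 76) (XT.lf (nat_lit 76) (nat_lit 10497361744) (nat_lit 0) (nat_lit 12232128572) (nat_lit 1292) (nat_lit 22492507016) (nat_lit 295) (nat_lit 5) (nat_lit 294) (nat_lit 5) (nat_lit 311) (nat_lit 5) (nat_lit 483) (nat_lit 480) (nat_lit 237)) (XT.lf (nat_lit 0) (nat_lit 23875732425) (nat_lit 1216) (nat_lit 12170256340) (nat_lit 1292) (nat_lit 9860684489) (nat_lit 295) (nat_lit 5) (nat_lit 311) (nat_lit 5) (nat_lit 312) (nat_lit 5) (nat_lit 484) (nat_lit 480) (nat_lit 236)))) (XT.nd (nat_lit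 156) (nat_lit 0) (nat_lit 76) (XT.nd (nat_lit 78) (nat_lit 0) (nat_lit 76) (XT.lf (nat_lit 76) (nat_lit 11156596992) (nat_lit 0) (nat_lit 14126874820) (nat_lit 1292) (nat_lit 21321604512) (nat_lit 296) (nat_lit 5) (nat_lit 295) (nat_lit 5) (nat_lit 312) (nat_lit 5) (nat_lit 485) (nat_lit 480) (nat_lit 235)) (XT.lf (nat_lit 0) (nat_lit 26937570056) (nat_lit 1216) (nat_lit 11971238188) (nat_lit 1292) (nat_lit 8409499611) (nat_lit 296) (nat_lit 5) (nat_lit 312) (nat_lit 5) (nat_lit 313) (nat_lit 5) (nat_lit 486) (nat_lit 480) (nat_lit 234))) (XT.nd (nat_lit 78) (nat_lit 0) (nat_lit 76) (XT.lf (nat_lit 76) (nat_lit 12309897214) (nat_lit 0) (nat_lit 16588418994) (nat_lit 1292) (nat_lit 19146909538) (nat_lit 297) (nat_lit 5) (nat_lit 296) (nat_lit 5) (nat_lit 313) (nat_lit 5) (nat_lit 487) (nat_lit 480) (nat_lit 233)) (XT.lf (nat_lit 0) (nat_lit 31100358984) (nat_lit 1216) (nat_lit 11288986341) (nat_lit 1292) (nat_lit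 6399131779) (nat_lit 297) (nat_lit 5) (nat_lit 313) (nat_lit 5) (nat_lit 314) (nat_lit 5) (nat_lit 488) (nat_lit 480) (nat_lit 232))))) (XT.nd (nat_lit 312) (nat_lit 1064) (nat_lit 0) (XT.nd (nat_lit 156) (nat_lit 0) (nat_lit 76) (XT.nd (nat_lit 78) (nat_lit 0) (nat_lit 76) (XT.lf (nat_lit 76) (nat_lit 13998902220) (nat_lit 0) (nat_lit 19667257336) (nat_lit 1292) (nat_lit 15878935705) (nat_lit 298) (nat_lit 5) (nat_lit 297) (nat_lit 5) (nat_lit 314) (nat_lit 5) (nat_lit 489) (nat_lit 480) (nat_lit 231)) (XT.lf (nat_lit 0) (nat_lit 36458893771) (nat_lit 1216) (nat_lit 10081997016) (nat_lit 1292) (nat_lit 3779022535) (nat_lit 298) (nat_lit 5) (nat_lit 314) (nat_lit 5) (nat_lit 315) (nat_lit 5) (nat_lit 490) (nat_lit 480) (nat_lit 230))) (XT.nd (nat_lit 78) (nat_lit 0) (nat_lit 76) (XT.lf (nat_lit 76) (nat_lit 16268072130) (nat_lit 0) (nat_lit 23417390271) (nat_lit 1292) (nat_lit 11422012098) (nat_lit 299) (nat_lit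 5) (nat_lit 298) (nat_lit 5) (nat_lit 315) (nat_lit 5) (nat_lit 491) (nat_lit 480) (nat_lit 229)) (XT.lf (nat_lit 0) (nat_lit 43114461910) (nat_lit 1216) (nat_lit 8305947127) (nat_lit 1292) (nat_lit 495084600) (nat_lit 299) (nat_lit 5) (nat_lit 315) (nat_lit 5) (nat_lit 316) (nat_lit 5) (nat_lit 492) (nat_lit 480) (nat_lit 228)))) (XT.nd (nat_lit 156) (nat_lit 1216) (nat_lit 0) (XT.nd (nat_lit 78) (nat_lit 0) (nat_lit 0) (XT.lf (nat_lit 76) (nat_lit 19164853095) (nat_lit 0) (nat_lit 27896561976) (nat_lit 1292) (nat_lit 5673885904) (nat_lit 300) (nat_lit 5) (nat_lit 299) (nat_lit 5) (nat_lit 316) (nat_lit 5) (nat_lit 493) (nat_lit 480) (nat_lit 227)) (XT.lf (nat_lit 76) (nat_lit 47629270089) (nat_lit 0) (nat_lit 3580406141) (nat_lit 1292) (nat_lit 2367539453) (nat_lit 300) (nat_lit 5) (nat_lit 299) (nat_lit 5) (nat_lit 316) (nat_lit 5) (nat_lit 494) (nat_lit 480) (nat_lit 226))) (XT.nd (nat_lit 78) (nat_lit 0) (nat_lit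 0) (XT.lf (nat_lit 0) (nat_lit 1445922276) (nat_lit 1292) (nat_lit 31705991943) (nat_lit 1368) (nat_lit 21279329004) (nat_lit 283) (nat_lit 5) (nat_lit 300) (nat_lit 5) (nat_lit 301) (nat_lit 5) (nat_lit 495) (nat_lit 480) (nat_lit 225)) (XT.lf (nat_lit 0) (nat_lit 5421376205) (nat_lit 1292) (nat_lit 2988793841) (nat_lit 1368) (nat_lit 46897163228) (nat_lit 283) (nat_lit 5) (nat_lit 300) (nat_lit 5) (nat_lit 301) (nat_lit 5) (nat_lit 496) (nat_lit 480) (nat_lit 224))))))))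
noncomputable def xc238 : XT := (XT.nd (nat_lit 2340) (nat_lit 1672) (nat_lit 0) (XT.nd (nat_lit 1170) (nat_lit 3496) (nat_lit 0) (XT.nd (nat_lit 546) (nat_lit 2660) (nat_lit 0) (XT.nd (nat_lit 234) (nat_lit 1216) (nat_lit 0) (XT.nd (nat_lit 78) (nat_lit 760) (nat_lit 0) (XT.lf (nat_lit 0) (nat_lit 9942571994) (nat_lit 1292) (nat_lit 29250289880) (nat_lit 76) (nat_lit 17004049924) (nat_lit 284) (nat_lit 5) (nat_lit 301) (nat_lit 5) (nat_lit 285) (nat_lit 5) (nat_lit 497) (nat_lit 480) (nat_lit 223)) (XT.nd (nat_lit 78) (nat_lit 0) (nat_lit 0) (XT.lf (nat_lit 0) (nat_lit 657571567) (nat_lit 760) (nat_lit 14061016071) (nat_lit 836) (nat_lit 42391014633) (nat_lit 274) (nat_lit 5) (nat_lit 284) (nat_lit 5) (nat_lit 285) (nat_lit 5) (nat_lit 498) (nat_lit 480) (nat_lit 222)) (XT.lf (nat_lit 0) (nat_lit 20048979218) (nat_lit 836) (nat_lit 26095939442) (nat_lit 76) (nat_lit 11892422046) (nat_lit 274) (nat_lit 5) (nat_lit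 285) (nat_lit 5) (nat_lit 275) (nat_lit 5) (nat_lit 499) (nat_lit 480) (nat_lit 221)))) (XT.nd (nat_lit 156) (nat_lit 608) (nat_lit 0) (XT.nd (nat_lit 78) (nat_lit 0) (nat_lit 0) (XT.lf (nat_lit 0) (nat_lit 5130956825) (nat_lit 608) (nat_lit 20596024199) (nat_lit 684) (nat_lit 33260299423) (nat_lit 266) (nat_lit 5) (nat_lit 274) (nat_lit 5) (nat_lit 275) (nat_lit 5) (nat_lit 500) (nat_lit 480) (nat_lit 220)) (XT.lf (nat_lit 0) (nat_lit 31895603684) (nat_lit 684) (nat_lit 22186599370) (nat_lit 76) (nat_lit 5873907006) (nat_lit 266) (nat_lit 5) (nat_lit 275) (nat_lit 5) (nat_lit 267) (nat_lit 5) (nat_lit 501) (nat_lit 480) (nat_lit 219))) (XT.nd (nat_lit 78) (nat_lit 0) (nat_lit 0) (XT.lf (nat_lit 0) (nat_lit 10432085643) (nat_lit 608) (nat_lit 28120600121) (nat_lit 684) (nat_lit 22392216877) (nat_lit 258) (nat_lit 5) (nat_lit 266) (nat_lit 5) (nat_lit 267) (nat_lit 5) (nat_lit 502) (nat_lit 480) (nat_lit 218)) (XT.lf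 (nat_lit 0) (nat_lit 44483364865) (nat_lit 608) (nat_lit 1149372611) (nat_lit 684) (nat_lit 16323923907) (nat_lit 258) (nat_lit 5) (nat_lit 266) (nat_lit 5) (nat_lit 267) (nat_lit 5) (nat_lit 503) (nat_lit 480) (nat_lit 217))))) (XT.nd (nat_lit 312) (nat_lit 1520) (nat_lit 0) (XT.nd (nat_lit 156) (nat_lit 608) (nat_lit 0) (XT.nd (nat_lit 78) (nat_lit 0) (nat_lit 0) (XT.lf (nat_lit 0) (nat_lit 16625060487) (nat_lit 532) (nat_lit 36715172872) (nat_lit 608) (nat_lit 9646088345) (nat_lit 251) (nat_lit 5) (nat_lit 258) (nat_lit 5) (nat_lit 259) (nat_lit 5) (nat_lit 504) (nat_lit 480) (nat_lit 216)) (XT.lf (nat_lit 0) (nat_lit 52092184279) (nat_lit 532) (nat_lit 9373738047) (nat_lit 608) (nat_lit 2575340556) (nat_lit 251) (nat_lit 5) (nat_lit 258) (nat_lit 5) (nat_lit 259) (nat_lit 5) (nat_lit 505) (nat_lit 480) (nat_lit 215))) (XT.nd (nat_lit 78) (nat_lit 0) (nat_lit 0) (XT.lf (nat_lit 0) (nat_lit 5028158970) (nat_lit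 608) (nat_lit 41386792340) (nat_lit 76) (nat_lit 18699168817) (nat_lit 243) (nat_lit 5) (nat_lit 251) (nat_lit 5) (nat_lit 244) (nat_lit 5) (nat_lit 506) (nat_lit 480) (nat_lit 214)) (XT.lf (nat_lit 0) (nat_lit 13021950032) (nat_lit 608) (nat_lit 5616844145) (nat_lit 76) (nat_lit 47573185595) (nat_lit 243) (nat_lit 5) (nat_lit 251) (nat_lit 5) (nat_lit 244) (nat_lit 5) (nat_lit 507) (nat_lit 480) (nat_lit 213)))) (XT.nd (nat_lit 156) (nat_lit 456) (nat_lit 0) (XT.nd (nat_lit 78) (nat_lit 532) (nat_lit 0) (XT.lf (nat_lit 0) (nat_lit 21659864265) (nat_lit 608) (nat_lit 35585583345) (nat_lit 76) (nat_lit 10085198396) (nat_lit 236) (nat_lit 5) (nat_lit 244) (nat_lit 5) (nat_lit 237) (nat_lit 5) (nat_lit 508) (nat_lit 480) (nat_lit 212)) (XT.lf (nat_lit 0) (nat_lit 1709286428) (nat_lit 532) (nat_lit 29105199089) (nat_lit 608) (nat_lit 37660659702) (nat_lit 229) (nat_lit 5) (nat_lit 236) (nat_lit 5) (nat_lit 237) (nat_lit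 5) (nat_lit 509) (nat_lit 480) (nat_lit 211))) (XT.nd (nat_lit 78) (nat_lit 456) (nat_lit 0) (XT.lf (nat_lit 0) (nat_lit 40604814843) (nat_lit 608) (nat_lit 28793896051) (nat_lit 76) (nat_lit 244436509) (nat_lit 229) (nat_lit 5) (nat_lit 237) (nat_lit 5) (nat_lit 230) (nat_lit 5) (nat_lit 510) (nat_lit 480) (nat_lit 210)) (XT.lf (nat_lit 0) (nat_lit 10227889075) (nat_lit 456) (nat_lit 40846799179) (nat_lit 532) (nat_lit 19759926448) (nat_lit 223) (nat_lit 5) (nat_lit 229) (nat_lit 5) (nat_lit 230) (nat_lit 5) (nat_lit 511) (nat_lit 480) (nat_lit 209)))))) (XT.nd (nat_lit 546) (nat_lit 1672) (nat_lit 0) (XT.nd (nat_lit 234) (nat_lit 1292) (nat_lit 0) (XT.nd (nat_lit 78) (nat_lit 532) (nat_lit 0) (XT.lf (nat_lit 0) (nat_lit 51009832580) (nat_lit 456) (nat_lit 11138946256) (nat_lit 532) (nat_lit 9904343629) (nat_lit 223) (nat_lit 5) (nat_lit 229) (nat_lit 5) (nat_lit 230) (nat_lit 5) (nat_lit 512) (nat_lit 480) (nat_lit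 208)) (XT.nd (nat_lit 78) (nat_lit 0) (nat_lit 0) (XT.lf (nat_lit 0) (nat_lit 623633978) (nat_lit 532) (nat_lit 53395246006) (nat_lit 76) (nat_lit 19277787981) (nat_lit 216) (nat_lit 5) (nat_lit 223) (nat_lit 5) (nat_lit 217) (nat_lit 5) (nat_lit 513) (nat_lit 480) (nat_lit 207)) (XT.lf (nat_lit 0) (nat_lit 11592651698) (nat_lit 532) (nat_lit 12276499449) (nat_lit 76) (nat_lit 50695698820) (nat_lit 216) (nat_lit 5) (nat_lit 223) (nat_lit 5) (nat_lit 217) (nat_lit 5) (nat_lit 514) (nat_lit 480) (nat_lit 206)))) (XT.nd (nat_lit 156) (nat_lit 836) (nat_lit 0) (XT.nd (nat_lit 78) (nat_lit 0) (nat_lit 0) (XT.lf (nat_lit 0) (nat_lit 23256979021) (nat_lit 532) (nat_lit 45260594118) (nat_lit 76) (nat_lit 7342517180) (nat_lit 210) (nat_lit 5) (nat_lit 217) (nat_lit 5) (nat_lit 211) (nat_lit 5) (nat_lit 515) (nat_lit 480) (nat_lit 205)) (XT.lf (nat_lit 0) (nat_lit 35632169598) (nat_lit 532) (nat_lit 2415327516) (nat_lit 76)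 (nat_lit 39135862829) (nat_lit 210) (nat_lit 5) (nat_lit 217) (nat_lit 5) (nat_lit 211) (nat_lit 5) (nat_lit 516) (nat_lit 480) (nat_lit 204))) (XT.nd (nat_lit 78) (nat_lit 380) (nat_lit 0) (XT.lf (nat_lit 0) (nat_lit 42544789481) (nat_lit 456) (nat_lit 6242219382) (nat_lit 532) (nat_lit 29747067066) (nat_lit 204) (nat_lit 5) (nat_lit 210) (nat_lit 5) (nat_lit 211) (nat_lit 5) (nat_lit 517) (nat_lit 480) (nat_lit 203)) (XT.lf (nat_lit 0) (nat_lit 8896381027) (nat_lit 380) (nat_lit 53804596042) (nat_lit 456) (nat_lit 17213401871) (nat_lit 199) (nat_lit 5) (nat_lit 204) (nat_lit 5) (nat_lit 205) (nat_lit 5) (nat_lit 518) (nat_lit 480) (nat_lit 202))))) (XT.nd (nat_lit 312) (nat_lit 760) (nat_lit 0) (XT.nd (nat_lit 156) (nat_lit 380) (nat_lit 0) (XT.nd (nat_lit 78) (nat_lit 532) (nat_lit 0) (XT.lf (nat_lit 0) (nat_lit 55802618126) (nat_lit 380) (nat_lit 21653810311) (nat_lit 456) (nat_lit 3866940740) (nat_lit 199)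 (nat_lit 5) (nat_lit 204) (nat_lit 5) (nat_lit 205) (nat_lit 5) (nat_lit 519) (nat_lit 480) (nat_lit 201)) (XT.lf (nat_lit 0) (nat_lit 10008044558) (nat_lit 532) (nat_lit 61210151820) (nat_lit 76) (nat_lit 11543955952) (nat_lit 192) (nat_lit 5) (nat_lit 199) (nat_lit 5) (nat_lit 193) (nat_lit 5) (nat_lit 520) (nat_lit 480) (nat_lit 200))) (XT.nd (nat_lit 78) (nat_lit 380) (nat_lit 0) (XT.lf (nat_lit 0) (nat_lit 24695676116) (nat_lit 532) (nat_lit 13932224174) (nat_lit 76) (nat_lit 45600826592) (nat_lit 192) (nat_lit 5) (nat_lit 199) (nat_lit 5) (nat_lit 193) (nat_lit 5) (nat_lit 521) (nat_lit 480) (nat_lit 199)) (XT.lf (nat_lit 0) (nat_lit 35455211644) (nat_lit 380) (nat_lit 4709020891) (nat_lit 456) (nat_lit 45564857311) (nat_lit 187) (nat_lit 5) (nat_lit 192) (nat_lit 5) (nat_lit 193) (nat_lit 5) (nat_lit 522) (nat_lit 480) (nat_lit 198)))) (XT.nd (nat_lit 156) (nat_lit 380) (nat_lit 0) (XT.nd (nat_lit 78) (nat_lit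 380) (nat_lit 0) (XT.lf (nat_lit 0) (nat_lit 56528976980) (nat_lit 456) (nat_lit 953028624) (nat_lit 76) (nat_lit 29779494204) (nat_lit 187) (nat_lit 5) (nat_lit 193) (nat_lit 5) (nat_lit 188) (nat_lit 5) (nat_lit 523) (nat_lit 480) (nat_lit 197)) (XT.lf (nat_lit 0) (nat_lit 50791267715) (nat_lit 380) (nat_lit 23127757461) (nat_lit 456) (nat_lit 14904826100) (nat_lit 182) (nat_lit 5) (nat_lit 187) (nat_lit 5) (nat_lit 188) (nat_lit 5) (nat_lit 524) (nat_lit 480) (nat_lit 196))) (XT.nd (nat_lit 78) (nat_lit 0) (nat_lit 0) (XT.lf (nat_lit 0) (nat_lit 1632952510) (nat_lit 380) (nat_lit 76615447730) (nat_lit 76) (nat_lit 12176394269) (nat_lit 177) (nat_lit 5) (nat_lit 182) (nat_lit 5) (nat_lit 178) (nat_lit 5) (nat_lit 525) (nat_lit 480) (nat_lit 195)) (XT.lf (nat_lit 0) (nat_lit 18983647110) (nat_lit 380) (nat_lit 24457126347) (nat_lit 76) (nat_lit 48610074806) (nat_lit 177) (nat_lit 5) (nat_lit 182) (nat_lit 5) (nat_lit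 178) (nat_lit 5) (nat_lit 526) (nat_lit 480) (nat_lit 194))))))) (XT.nd (nat_lit 59436) (nat_lit 0) (nat_lit 7828) (XT.nd (nat_lit 546) (nat_lit 304) (nat_lit 0) (XT.nd (nat_lit 234) (nat_lit 684) (nat_lit 0) (XT.nd (nat_lit 78) (nat_lit 304) (nat_lit 0) (XT.lf (nat_lit 0) (nat_lit 29847716179) (nat_lit 380) (nat_lit 7293585284) (nat_lit 456) (nat_lit 56575789043) (nat_lit 172) (nat_lit 5) (nat_lit 177) (nat_lit 5) (nat_lit 178) (nat_lit 5) (nat_lit 527) (nat_lit 480) (nat_lit 193)) (XT.nd (nat_lit 78) (nat_lit 304) (nat_lit 0) (XT.lf (nat_lit 0) (nat_lit 56380412355) (nat_lit 456) (nat_lit 9433758320) (nat_lit 76) (nat_lit 29603047574) (nat_lit 172) (nat_lit 5) (nat_lit 178) (nat_lit 5) (nat_lit 173) (nat_lit 5) (nat_lit 528) (nat_lit 480) (nat_lit 192)) (XT.lf (nat_lit 0) (nat_lit 47488737621) (nat_lit 304) (nat_lit 29236207252) (nat_lit 380) (nat_lit 20427557544) (nat_lit 168) (nat_lit 5) (nat_lit 172) (nat_lit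 5) (nat_lit 173) (nat_lit 5) (nat_lit 529) (nat_lit 480) (nat_lit 191)))) (XT.nd (nat_lit 156) (nat_lit 304) (nat_lit 0) (XT.nd (nat_lit 78) (nat_lit 76) (nat_lit 0) (XT.lf (nat_lit 0) (nat_lit 7437719361) (nat_lit 304) (nat_lit 90490466309) (nat_lit 380) (nat_lit 1004208309) (nat_lit 164) (nat_lit 5) (nat_lit 168) (nat_lit 5) (nat_lit 169) (nat_lit 5) (nat_lit 530) (nat_lit 480) (nat_lit 190)) (XT.lf (nat_lit 0) (nat_lit 19426537940) (nat_lit 380) (nat_lit 33958079618) (nat_lit 76) (nat_lit 47351720321) (nat_lit 163) (nat_lit 5) (nat_lit 168) (nat_lit 5) (nat_lit 164) (nat_lit 5) (nat_lit 531) (nat_lit 480) (nat_lit 189))) (XT.nd (nat_lit 78) (nat_lit 0) (nat_lit 0) (XT.lf (nat_lit 0) (nat_lit 25797431651) (nat_lit 304) (nat_lit 14900136542) (nat_lit 380) (nat_lit 61889107303) (nat_lit 159) (nat_lit 5) (nat_lit 163) (nat_lit 5) (nat_lit 164) (nat_lit 5) (nat_lit 532) (nat_lit 480) (nat_lit 188)) (XT.lf (nat_lit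 0) (nat_lit 63190408903) (nat_lit 380) (nat_lit 16682365127) (nat_lit 76) (nat_lit 24602238860) (nat_lit 159) (nat_lit 5) (nat_lit 164) (nat_lit 5) (nat_lit 160) (nat_lit 5) (nat_lit 533) (nat_lit 480) (nat_lit 187))))) (XT.nd (nat_lit 58578) (nat_lit 0) (nat_lit 10564) (XT.nd (nat_lit 58422) (nat_lit 0) (nat_lit 10488) (XT.nd (nat_lit 58344) (nat_lit 0) (nat_lit 10488) (XT.lf (nat_lit 0) (nat_lit 45976740019) (nat_lit 304) (nat_lit 40970359163) (nat_lit 380) (nat_lit 19455229327) (nat_lit 155) (nat_lit 5) (nat_lit 159) (nat_lit 5) (nat_lit 160) (nat_lit 5) (nat_lit 534) (nat_lit 480) (nat_lit 186)) (XT.lf (nat_lit 0) (nat_lit 10697964181) (nat_lit 1292) (nat_lit 5787053745) (nat_lit 1292) (nat_lit 5787053745) (nat_lit 293) (nat_lit 3) (nat_lit 310) (nat_lit 3) (nat_lit 310) (nat_lit 5) (nat_lit 481) (nat_lit 481) (nat_lit 238))) (XT.nd (nat_lit 78) (nat_lit 0) (nat_lit 76) (XT.lf (nat_lit 76) (nat_lit 10637143049)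 (nat_lit 0) (nat_lit 11214754306) (nat_lit 1292) (nat_lit 23356352682) (nat_lit 294) (nat_lit 5) (nat_lit 293) (nat_lit 3) (nat_lit 310) (nat_lit 5) (nat_lit 482) (nat_lit 481) (nat_lit 237)) (XT.lf (nat_lit 0) (nat_lit 22545894296) (nat_lit 1216) (nat_lit 12246254311) (nat_lit 1292) (nat_lit 11093401033) (nat_lit 294) (nat_lit 5) (nat_lit 310) (nat_lit 5) (nat_lit 311) (nat_lit 5) (nat_lit 483) (nat_lit 481) (nat_lit 236)))) (XT.nd (nat_lit 156) (nat_lit 0) (nat_lit 76) (XT.nd (nat_lit 78) (nat_lit 0) (nat_lit 76) (XT.lf (nat_lit 76) (nat_lit 10848300378) (nat_lit 0) (nat_lit 12626485869) (nat_lit 1292) (nat_lit 23101959906) (nat_lit 295) (nat_lit 5) (nat_lit 294) (nat_lit 5) (nat_lit 311) (nat_lit 5) (nat_lit 484) (nat_lit 481) (nat_lit 235)) (XT.lf (nat_lit 0) (nat_lit 24653313037) (nat_lit 1216) (nat_lit 12498284221) (nat_lit 1292) (nat_lit 10130428426) (nat_lit 295) (nat_lit 5) (nat_lit 311) (nat_lit 5) (nat_lit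 312) (nat_lit 5) (nat_lit 485) (nat_lit 481) (nat_lit 234))) (XT.nd (nat_lit 78) (nat_lit 0) (nat_lit 76) (XT.lf (nat_lit 76) (nat_lit 11528011184) (nat_lit 0) (nat_lit 14573840673) (nat_lit 1292) (nat_lit 21899572221) (nat_lit 296) (nat_lit 5) (nat_lit 295) (nat_lit 5) (nat_lit 312) (nat_lit 5) (nat_lit 486) (nat_lit 481) (nat_lit 233)) (XT.lf (nat_lit 0) (nat_lit 27803612949) (nat_lit 1216) (nat_lit 12292760340) (nat_lit 1292) (nat_lit 8639738308) (nat_lit 296) (nat_lit 5) (nat_lit 312) (nat_lit 5) (nat_lit 313) (nat_lit 5) (nat_lit 487) (nat_lit 481) (nat_lit 232)))))) (XT.nd (nat_lit 624) (nat_lit 2888) (nat_lit 0) (XT.nd (nat_lit 312) (nat_lit 0) (nat_lit 152) (XT.nd (nat_lit 156) (nat_lit 0) (nat_lit 76) (XT.nd (nat_lit 78) (nat_lit 0) (nat_lit 76) (XT.lf (nat_lit 76) (nat_lit 12716440349) (nat_lit 0) (nat_lit 17105412303) (nat_lit 1292) (nat_lit 19663024471) (nat_lit 297) (nat_lit 5) (nat_lit 296) (nat_lit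 5) (nat_lit 313) (nat_lit 5) (nat_lit 488) (nat_lit 481) (nat_lit 231)) (XT.lf (nat_lit 0) (nat_lit 32088128047) (nat_lit 1216) (nat_lit 11589658330) (nat_lit 1292) (nat_lit 6572694731) (nat_lit 297) (nat_lit 5) (nat_lit 313) (nat_lit 5) (nat_lit 314) (nat_lit 5) (nat_lit 489) (nat_lit 481) (nat_lit 230))) (XT.nd (nat_lit 78) (nat_lit 0) (nat_lit 76) (XT.lf (nat_lit 76) (nat_lit 14456494362) (nat_lit 0) (nat_lit 20273175048) (nat_lit 1292) (nat_lit 16300165617) (nat_lit 298) (nat_lit 5) (nat_lit 297) (nat_lit 5) (nat_lit 314) (nat_lit 5) (nat_lit 490) (nat_lit 481) (nat_lit 229)) (XT.lf (nat_lit 0) (nat_lit 37604478281) (nat_lit 1216) (nat_lit 10346213230) (nat_lit 1292) (nat_lit 3877257555) (nat_lit 298) (nat_lit 5) (nat_lit 314) (nat_lit 5) (nat_lit 315) (nat_lit 5) (nat_lit 491) (nat_lit 481) (nat_lit 228)))) (XT.nd (nat_lit 156) (nat_lit 0) (nat_lit 76) (XT.nd (nat_lit 78) (nat_lit 0) (nat_lit 76) (XT.lf (nat_lit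 76) (nat_lit 16793983052) (nat_lit 0) (nat_lit 24132715681) (nat_lit 1292) (nat_lit 11712472909) (nat_lit 299) (nat_lit 5) (nat_lit 298) (nat_lit 5) (nat_lit 315) (nat_lit 5) (nat_lit 492) (nat_lit 481) (nat_lit 227)) (XT.lf (nat_lit 0) (nat_lit 44456972839) (nat_lit 1216) (nat_lit 8516757650) (nat_lit 1292) (nat_lit 497748928) (nat_lit 299) (nat_lit 5) (nat_lit 315) (nat_lit 5) (nat_lit 316) (nat_lit 5) (nat_lit 493) (nat_lit 481) (nat_lit 226))) (XT.nd (nat_lit 78) (nat_lit 0) (nat_lit 0) (XT.lf (nat_lit 76) (nat_lit 19777790422) (nat_lit 0) (nat_lit 28743479943) (nat_lit 1292) (nat_lit 5794642733) (nat_lit 300) (nat_lit 5) (nat_lit 299) (nat_lit 5) (nat_lit 316) (nat_lit 5) (nat_lit 494) (nat_lit 481) (nat_lit 225)) (XT.lf (nat_lit 76) (nat_lit 49095033371) (nat_lit 0) (nat_lit 3697547555) (nat_lit 1292) (nat_lit 2390546464) (nat_lit 300) (nat_lit 5) (nat_lit 299) (nat_lit 5) (nat_lit 316) (nat_lit 5) (nat_lit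 495) (nat_lit 481) (nat_lit 224))))) (XT.nd (nat_lit 312) (nat_lit 1216) (nat_lit 0) (XT.nd (nat_lit 156) (nat_lit 684) (nat_lit 0) (XT.nd (nat_lit 78) (nat_lit 0) (nat_lit 0) (XT.lf (nat_lit 0) (nat_lit 1535288032) (nat_lit 1292) (nat_lit 32618243324) (nat_lit 1368) (nat_lit 21909263554) (nat_lit 283) (nat_lit 5) (nat_lit 300) (nat_lit 5) (nat_lit 301) (nat_lit 5) (nat_lit 496) (nat_lit 481) (nat_lit 223)) (XT.lf (nat_lit 0) (nat_lit 5628666121) (nat_lit 1292) (nat_lit 3040663115) (nat_lit 1368) (nat_lit 48295878784) (nat_lit 283) (nat_lit 5) (nat_lit 300) (nat_lit 5) (nat_lit 301) (nat_lit 5) (nat_lit 497) (nat_lit 481) (nat_lit 222))) (XT.nd (nat_lit 78) (nat_lit 760) (nat_lit 0) (XT.lf (nat_lit 0) (nat_lit 10284496675) (nat_lit 1292) (nat_lit 30088997302) (nat_lit 76) (nat_lit 17508010124) (nat_lit 284) (nat_lit 5) (nat_lit 301) (nat_lit 5) (nat_lit 285) (nat_lit 5) (nat_lit 498) (nat_lit 481) (nat_lit 221))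 (XT.lf (nat_lit 0) (nat_lit 715719584) (nat_lit 760) (nat_lit 14487171242) (nat_lit 836) (nat_lit 43618711685) (nat_lit 274) (nat_lit 5) (nat_lit 284) (nat_lit 5) (nat_lit 285) (nat_lit 5) (nat_lit 499) (nat_lit 481) (nat_lit 220)))) (XT.nd (nat_lit 156) (nat_lit 608) (nat_lit 0) (XT.nd (nat_lit 78) (nat_lit 608) (nat_lit 0) (XT.lf (nat_lit 0) (nat_lit 20691908776) (nat_lit 836) (nat_lit 26840225131) (nat_lit 76) (nat_lit 12245077912) (nat_lit 274) (nat_lit 5) (nat_lit 285) (nat_lit 5) (nat_lit 275) (nat_lit 5) (nat_lit 500) (nat_lit 481) (nat_lit 219)) (XT.lf (nat_lit 0) (nat_lit 5323099666) (nat_lit 608) (nat_lit 21216310730) (nat_lit 684) (nat_lit 34216264718) (nat_lit 266) (nat_lit 5) (nat_lit 274) (nat_lit 5) (nat_lit 275) (nat_lit 5) (nat_lit 501) (nat_lit 481) (nat_lit 218))) (XT.nd (nat_lit 78) (nat_lit 608) (nat_lit 0) (XT.lf (nat_lit 0) (nat_lit 32891886178) (nat_lit 684) (nat_lit 22813885692) (nat_lit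 76) (nat_lit 6047834062) (nat_lit 266) (nat_lit 5) (nat_lit 275) (nat_lit 5) (nat_lit 267) (nat_lit 5) (nat_lit 502) (nat_lit 481) (nat_lit 217)) (XT.lf (nat_lit 0) (nat_lit 10782984267) (nat_lit 608) (nat_lit 28964913127) (nat_lit 684) (nat_lit 23024188542) (nat_lit 258) (nat_lit 5) (nat_lit 266) (nat_lit 5) (nat_lit 267) (nat_lit 5) (nat_lit 503) (nat_lit 481) (nat_lit 216))))))))
noncomputable def xc239 : XT := (XT.nd (nat_lit 2340) (nat_lit 0) (nat_lit 0) (XT.nd (nat_lit 1170) (nat_lit 3420) (nat_lit 0) (XT.nd (nat_lit 546) (nat_lit 1900) (nat_lit 0) (XT.nd (nat_lit 234) (nat_lit 1672) (nat_lit 0) (XT.nd (nat_lit 78) (nat_lit 532) (nat_lit 0) (XT.lf (nat_lit 0) (nat_lit 45854696932) (nat_lit 608) (nat_lit 1184528549) (nat_lit 684) (nat_lit 16775005856) (nat_lit 258) (nat_lit 5) (nat_lit 266) (nat_lit 5) (nat_lit 267) (nat_lit 5) (nat_lit 504) (nat_lit 481) (nat_lit 215)) (XT.nd (nat_lit 78) (nat_lit 0) (nat_lit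 0) (XT.lf (nat_lit 0) (nat_lit 17161407565) (nat_lit 532) (nat_lit 37815801362) (nat_lit 608) (nat_lit 9897594798) (nat_lit 251) (nat_lit 5) (nat_lit 258) (nat_lit 5) (nat_lit 259) (nat_lit 5) (nat_lit 505) (nat_lit 481) (nat_lit 214)) (XT.lf (nat_lit 0) (nat_lit 53691450064) (nat_lit 532) (nat_lit 9654147570) (nat_lit 608) (nat_lit 2615827764) (nat_lit 251) (nat_lit 5) (nat_lit 258) (nat_lit 5) (nat_lit 259) (nat_lit 5) (nat_lit 506) (nat_lit 481) (nat_lit 213)))) (XT.nd (nat_lit 156) (nat_lit 1064) (nat_lit 0) (XT.nd (nat_lit 78) (nat_lit 0) (nat_lit 0) (XT.lf (nat_lit 0) (nat_lit 5214377705) (nat_lit 608) (nat_lit 42590488316) (nat_lit 76) (nat_lit 19261612305) (nat_lit 243) (nat_lit 5) (nat_lit 251) (nat_lit 5) (nat_lit 244) (nat_lit 5) (nat_lit 507) (nat_lit 481) (nat_lit 212)) (XT.lf (nat_lit 0) (nat_lit 13446952190) (nat_lit 608) (nat_lit 5748545785) (nat_lit 76) (nat_lit 49001806817) (nat_lit 243) (nat_lit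 5) (nat_lit 251) (nat_lit 5) (nat_lit 244) (nat_lit 5) (nat_lit 508) (nat_lit 481) (nat_lit 211))) (XT.nd (nat_lit 78) (nat_lit 532) (nat_lit 0) (XT.lf (nat_lit 0) (nat_lit 22343380287) (nat_lit 608) (nat_lit 36615719653) (nat_lit 76) (nat_lit 10390449898) (nat_lit 236) (nat_lit 5) (nat_lit 244) (nat_lit 5) (nat_lit 237) (nat_lit 5) (nat_lit 509) (nat_lit 481) (nat_lit 210)) (XT.lf (nat_lit 0) (nat_lit 1797629241) (nat_lit 532) (nat_lit 29974385081) (nat_lit 608) (nat_lit 38756388596) (nat_lit 229) (nat_lit 5) (nat_lit 236) (nat_lit 5) (nat_lit 237) (nat_lit 5) (nat_lit 510) (nat_lit 481) (nat_lit 209))))) (XT.nd (nat_lit 312) (nat_lit 912) (nat_lit 0) (XT.nd (nat_lit 156) (nat_lit 532) (nat_lit 0) (XT.nd (nat_lit 78) (nat_lit 456) (nat_lit 0) (XT.lf (nat_lit 0) (nat_lit 41855126668) (nat_lit 608) (nat_lit 29620797676) (nat_lit 76) (nat_lit 255548742) (nat_lit 229) (nat_lit 5) (nat_lit 237) (nat_lit 5) (nat_lit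 230) (nat_lit 5) (nat_lit 511) (nat_lit 481) (nat_lit 208)) (XT.lf (nat_lit 0) (nat_lit 10571279091) (nat_lit 456) (nat_lit 42067231650) (nat_lit 532) (nat_lit 20320191337) (nat_lit 223) (nat_lit 5) (nat_lit 229) (nat_lit 5) (nat_lit 230) (nat_lit 5) (nat_lit 512) (nat_lit 481) (nat_lit 207))) (XT.nd (nat_lit 78) (nat_lit 532) (nat_lit 0) (XT.lf (nat_lit 0) (nat_lit 52575616240) (nat_lit 456) (nat_lit 11468287940) (nat_lit 532) (nat_lit 10169888593) (nat_lit 223) (nat_lit 5) (nat_lit 229) (nat_lit 5) (nat_lit 230) (nat_lit 5) (nat_lit 513) (nat_lit 481) (nat_lit 206)) (XT.lf (nat_lit 0) (nat_lit 672805049) (nat_lit 532) (nat_lit 54960484704) (nat_lit 76) (nat_lit 19861361086) (nat_lit 216) (nat_lit 5) (nat_lit 223) (nat_lit 5) (nat_lit 217) (nat_lit 5) (nat_lit 514) (nat_lit 481) (nat_lit 205)))) (XT.nd (nat_lit 156) (nat_lit 456) (nat_lit 0) (XT.nd (nat_lit 78) (nat_lit 456) (nat_lit 0) (XT.lf (nat_lit 0) (nat_lit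 11970006056) (nat_lit 532) (nat_lit 12609242313) (nat_lit 76) (nat_lit 52221656644) (nat_lit 216) (nat_lit 5) (nat_lit 223) (nat_lit 5) (nat_lit 217) (nat_lit 5) (nat_lit 515) (nat_lit 481) (nat_lit 204)) (XT.lf (nat_lit 0) (nat_lit 23983799330) (nat_lit 532) (nat_lit 46582392839) (nat_lit 76) (nat_lit 7568824418) (nat_lit 210) (nat_lit 5) (nat_lit 217) (nat_lit 5) (nat_lit 211) (nat_lit 5) (nat_lit 516) (nat_lit 481) (nat_lit 203))) (XT.nd (nat_lit 78) (nat_lit 456) (nat_lit 0) (XT.lf (nat_lit 0) (nat_lit 36729397733) (nat_lit 532) (nat_lit 2452817339) (nat_lit 76) (nat_lit 40315794755) (nat_lit 210) (nat_lit 5) (nat_lit 217) (nat_lit 5) (nat_lit 211) (nat_lit 5) (nat_lit 517) (nat_lit 481) (nat_lit 202)) (XT.lf (nat_lit 0) (nat_lit 43855760325) (nat_lit 456) (nat_lit 6422631512) (nat_lit 532) (nat_lit 30610870253) (nat_lit 204) (nat_lit 5) (nat_lit 210) (nat_lit 5) (nat_lit 211) (nat_lit 5) (nat_lit 518) (nat_lit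 481) (nat_lit 201)))))) (XT.nd (nat_lit 546) (nat_lit 1748) (nat_lit 0) (XT.nd (nat_lit 234) (nat_lit 760) (nat_lit 0) (XT.nd (nat_lit 78) (nat_lit 532) (nat_lit 0) (XT.lf (nat_lit 0) (nat_lit 9198322812) (nat_lit 380) (nat_lit 55411048259) (nat_lit 456) (nat_lit 17701615446) (nat_lit 199) (nat_lit 5) (nat_lit 204) (nat_lit 5) (nat_lit 205) (nat_lit 5) (nat_lit 519) (nat_lit 481) (nat_lit 200)) (XT.nd (nat_lit 78) (nat_lit 532) (nat_lit 0) (XT.lf (nat_lit 0) (nat_lit 57510726140) (nat_lit 380) (nat_lit 22295962810) (nat_lit 456) (nat_lit 3955581505) (nat_lit 199) (nat_lit 5) (nat_lit 204) (nat_lit 5) (nat_lit 205) (nat_lit 5) (nat_lit 520) (nat_lit 481) (nat_lit 199)) (XT.lf (nat_lit 0) (nat_lit 10334742197) (nat_lit 532) (nat_lit 63011510455) (nat_lit 76) (nat_lit 11897967950) (nat_lit 192) (nat_lit 5) (nat_lit 199) (nat_lit 5) (nat_lit 193) (nat_lit 5) (nat_lit 521) (nat_lit 481) (nat_lit 198)))) (XT.nd (nat_lit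 156) (nat_lit 380) (nat_lit 0) (XT.nd (nat_lit 78) (nat_lit 380) (nat_lit 0) (XT.lf (nat_lit 0) (nat_lit 25462232129) (nat_lit 532) (nat_lit 14316262822) (nat_lit 76) (nat_lit 46976320633) (nat_lit 192) (nat_lit 5) (nat_lit 199) (nat_lit 5) (nat_lit 193) (nat_lit 5) (nat_lit 522) (nat_lit 481) (nat_lit 197)) (XT.lf (nat_lit 0) (nat_lit 36552463442) (nat_lit 380) (nat_lit 4841956611) (nat_lit 456) (nat_lit 46905782213) (nat_lit 187) (nat_lit 5) (nat_lit 192) (nat_lit 5) (nat_lit 193) (nat_lit 5) (nat_lit 523) (nat_lit 481) (nat_lit 196))) (XT.nd (nat_lit 78) (nat_lit 380) (nat_lit 0) (XT.lf (nat_lit 0) (nat_lit 58249448874) (nat_lit 456) (nat_lit 948342198) (nat_lit 76) (nat_lit 30680813266) (nat_lit 187) (nat_lit 5) (nat_lit 193) (nat_lit 5) (nat_lit 188) (nat_lit 5) (nat_lit 524) (nat_lit 481) (nat_lit 195)) (XT.lf (nat_lit 0) (nat_lit 52347956783) (nat_lit 380) (nat_lit 23812841897) (nat_lit 456) (nat_lit 15327039733)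 (nat_lit 182) (nat_lit 5) (nat_lit 187) (nat_lit 5) (nat_lit 188) (nat_lit 5) (nat_lit 525) (nat_lit 481) (nat_lit 194))))) (XT.nd (nat_lit 312) (nat_lit 988) (nat_lit 0) (XT.nd (nat_lit 156) (nat_lit 380) (nat_lit 0) (XT.nd (nat_lit 78) (nat_lit 0) (nat_lit 0) (XT.lf (nat_lit 0) (nat_lit 1706079151) (nat_lit 380) (nat_lit 78880162605) (nat_lit 76) (nat_lit 12550570262) (nat_lit 177) (nat_lit 5) (nat_lit 182) (nat_lit 5) (nat_lit 178) (nat_lit 5) (nat_lit 526) (nat_lit 481) (nat_lit 193)) (XT.lf (nat_lit 0) (nat_lit 19576591538) (nat_lit 380) (nat_lit 25158074548) (nat_lit 76) (nat_lit 50077002453) (nat_lit 177) (nat_lit 5) (nat_lit 182) (nat_lit 5) (nat_lit 178) (nat_lit 5) (nat_lit 527) (nat_lit 481) (nat_lit 192))) (XT.nd (nat_lit 78) (nat_lit 0) (nat_lit 0) (XT.lf (nat_lit 0) (nat_lit 30775592022) (nat_lit 380) (nat_lit 7503012801) (nat_lit 456) (nat_lit 58249304409) (nat_lit 172) (nat_lit 5) (nat_lit 177) (nat_lit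 5) (nat_lit 178) (nat_lit 5) (nat_lit 528) (nat_lit 481) (nat_lit 191)) (XT.lf (nat_lit 0) (nat_lit 58094304806) (nat_lit 456) (nat_lit 9684685458) (nat_lit 76) (nat_lit 30500068130) (nat_lit 172) (nat_lit 5) (nat_lit 178) (nat_lit 5) (nat_lit 173) (nat_lit 5) (nat_lit 529) (nat_lit 481) (nat_lit 190)))) (XT.nd (nat_lit 156) (nat_lit 380) (nat_lit 0) (XT.nd (nat_lit 78) (nat_lit 304) (nat_lit 0) (XT.lf (nat_lit 0) (nat_lit 48945170795) (nat_lit 304) (nat_lit 30103653147) (nat_lit 380) (nat_lit 21017587684) (nat_lit 168) (nat_lit 5) (nat_lit 172) (nat_lit 5) (nat_lit 173) (nat_lit 5) (nat_lit 530) (nat_lit 481) (nat_lit 189)) (XT.lf (nat_lit 0) (nat_lit 7692878081) (nat_lit 304) (nat_lit 93195037133) (nat_lit 380) (nat_lit 1011792181) (nat_lit 164) (nat_lit 5) (nat_lit 168) (nat_lit 5) (nat_lit 169) (nat_lit 5) (nat_lit 531) (nat_lit 481) (nat_lit 188))) (XT.nd (nat_lit 78) (nat_lit 304) (nat_lit 0) (XT.lf (nat_lit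 0) (nat_lit 20030792810) (nat_lit 380) (nat_lit 34945298850) (nat_lit 76) (nat_lit 48781690818) (nat_lit 163) (nat_lit 5) (nat_lit 168) (nat_lit 5) (nat_lit 164) (nat_lit 5) (nat_lit 532) (nat_lit 481) (nat_lit 187)) (XT.lf (nat_lit 0) (nat_lit 26602568707) (nat_lit 304) (nat_lit 15337060301) (nat_lit 380) (nat_lit 63724011015) (nat_lit 159) (nat_lit 5) (nat_lit 163) (nat_lit 5) (nat_lit 164) (nat_lit 5) (nat_lit 533) (nat_lit 481) (nat_lit 186))))))) (XT.nd (nat_lit 59514) (nat_lit 0) (nat_lit 5320) (XT.nd (nat_lit 58890) (nat_lit 0) (nat_lit 10412) (XT.nd (nat_lit 58578) (nat_lit 0) (nat_lit 10260) (XT.nd (nat_lit 58422) (nat_lit 0) (nat_lit 10184) (XT.lf (nat_lit 0) (nat_lit 65106733470) (nat_lit 380) (nat_lit 17152007978) (nat_lit 76) (nat_lit 25349901786) (nat_lit 159) (nat_lit 5) (nat_lit 164) (nat_lit 5) (nat_lit 160) (nat_lit 5) (nat_lit 534) (nat_lit 481) (nat_lit 185)) (XT.nd (nat_lit 78) (nat_lit 0) (nat_lit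 0) (XT.lf (nat_lit 0) (nat_lit 11051367352) (nat_lit 1292) (nat_lit 5943944015) (nat_lit 1292) (nat_lit 5943944015) (nat_lit 293) (nat_lit 3) (nat_lit 310) (nat_lit 3) (nat_lit 310) (nat_lit 5) (nat_lit 482) (nat_lit 482) (nat_lit 236)) (XT.lf (nat_lit 76) (nat_lit 10989372157) (nat_lit 0) (nat_lit 11581437808) (nat_lit 1292) (nat_lit 23991778139) (nat_lit 294) (nat_lit 5) (nat_lit 293) (nat_lit 3) (nat_lit 310) (nat_lit 5) (nat_lit 483) (nat_lit 482) (nat_lit 235)))) (XT.nd (nat_lit 156) (nat_lit 0) (nat_lit 76) (XT.nd (nat_lit 78) (nat_lit 0) (nat_lit 0) (XT.lf (nat_lit 0) (nat_lit 23283499276) (nat_lit 1216) (nat_lit 12579355587) (nat_lit 1292) (nat_lit 11397415914) (nat_lit 294) (nat_lit 5) (nat_lit 310) (nat_lit 5) (nat_lit 311) (nat_lit 5) (nat_lit 484) (nat_lit 482) (nat_lit 234)) (XT.lf (nat_lit 76) (nat_lit 11207699602) (nat_lit 0) (nat_lit 13031101389) (nat_lit 1292) (nat_lit 23733446150) (nat_lit 295)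 (nat_lit 5) (nat_lit 294) (nat_lit 5) (nat_lit 311) (nat_lit 5) (nat_lit 485) (nat_lit 482) (nat_lit 233))) (XT.nd (nat_lit 78) (nat_lit 0) (nat_lit 0) (XT.lf (nat_lit 0) (nat_lit 25450701700) (nat_lit 1216) (nat_lit 12838281470) (nat_lit 1292) (nat_lit 10409761585) (nat_lit 295) (nat_lit 5) (nat_lit 311) (nat_lit 5) (nat_lit 312) (nat_lit 5) (nat_lit 486) (nat_lit 482) (nat_lit 232)) (XT.lf (nat_lit 76) (nat_lit 11908460136) (nat_lit 0) (nat_lit 15032886045) (nat_lit 1292) (nat_lit 22498419669) (nat_lit 296) (nat_lit 5) (nat_lit 295) (nat_lit 5) (nat_lit 312) (nat_lit 5) (nat_lit 487) (nat_lit 482) (nat_lit 231))))) (XT.nd (nat_lit 312) (nat_lit 0) (nat_lit 152) (XT.nd (nat_lit 156) (nat_lit 0) (nat_lit 76) (XT.nd (nat_lit 78) (nat_lit 0) (nat_lit 0) (XT.lf (nat_lit 0) (nat_lit 28692312526) (nat_lit 1216) (nat_lit 12626087411) (nat_lit 1292) (nat_lit 8878149713) (nat_lit 296) (nat_lit 5) (nat_lit 312) (nat_lit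 5) (nat_lit 313) (nat_lit 5) (nat_lit 488) (nat_lit 482) (nat_lit 230)) (XT.lf (nat_lit 76) (nat_lit 13133041694) (nat_lit 0) (nat_lit 17636805173) (nat_lit 1292) (nat_lit 20197969072) (nat_lit 297) (nat_lit 5) (nat_lit 296) (nat_lit 5) (nat_lit 313) (nat_lit 5) (nat_lit 489) (nat_lit 482) (nat_lit 229))) (XT.nd (nat_lit 78) (nat_lit 0) (nat_lit 0) (XT.lf (nat_lit 0) (nat_lit 33102386832) (nat_lit 1216) (nat_lit 11901531697) (nat_lit 1292) (nat_lit 6752521439) (nat_lit 297) (nat_lit 5) (nat_lit 313) (nat_lit 5) (nat_lit 314) (nat_lit 5) (nat_lit 490) (nat_lit 482) (nat_lit 228)) (XT.lf (nat_lit 76) (nat_lit 14925654435) (nat_lit 0) (nat_lit 20896357566) (nat_lit 1292) (nat_lit 16737197583) (nat_lit 298) (nat_lit 5) (nat_lit 297) (nat_lit 5) (nat_lit 314) (nat_lit 5) (nat_lit 491) (nat_lit 482) (nat_lit 227)))) (XT.nd (nat_lit 156) (nat_lit 0) (nat_lit 76) (XT.nd (nat_lit 78) (nat_lit 0) (nat_lit 0) (XT.lf (nat_lit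 0) (nat_lit 38781455777) (nat_lit 1216) (nat_lit 10620551275) (nat_lit 1292) (nat_lit 3979308475) (nat_lit 298) (nat_lit 5) (nat_lit 314) (nat_lit 5) (nat_lit 315) (nat_lit 5) (nat_lit 492) (nat_lit 482) (nat_lit 226)) (XT.lf (nat_lit 76) (nat_lit 17333497481) (nat_lit 0) (nat_lit 24868765868) (nat_lit 1292) (nat_lit 12014644012) (nat_lit 299) (nat_lit 5) (nat_lit 298) (nat_lit 5) (nat_lit 315) (nat_lit 5) (nat_lit 493) (nat_lit 482) (nat_lit 225))) (XT.nd (nat_lit 78) (nat_lit 0) (nat_lit 0) (XT.lf (nat_lit 0) (nat_lit 45836941871) (nat_lit 1216) (nat_lit 8736094963) (nat_lit 1292) (nat_lit 501192840) (nat_lit 299) (nat_lit 5) (nat_lit 315) (nat_lit 5) (nat_lit 316) (nat_lit 5) (nat_lit 494) (nat_lit 482) (nat_lit 224)) (XT.lf (nat_lit 76) (nat_lit 20406934988) (nat_lit 0) (nat_lit 29615230196) (nat_lit 1292) (nat_lit 5921861459) (nat_lit 300) (nat_lit 5) (nat_lit 299) (nat_lit 5) (nat_lit 316) (nat_lit 5) (nat_lit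 495) (nat_lit 482) (nat_lit 223)))))) (XT.nd (nat_lit 624) (nat_lit 2812) (nat_lit 0) (XT.nd (nat_lit 312) (nat_lit 1292) (nat_lit 0) (XT.nd (nat_lit 156) (nat_lit 0) (nat_lit 0) (XT.nd (nat_lit 78) (nat_lit 1216) (nat_lit 0) (XT.lf (nat_lit 76) (nat_lit 50602652191) (nat_lit 0) (nat_lit 3817644715) (nat_lit 1292) (nat_lit 2417000182) (nat_lit 300) (nat_lit 5) (nat_lit 299) (nat_lit 5) (nat_lit 316) (nat_lit 5) (nat_lit 496) (nat_lit 482) (nat_lit 222)) (XT.lf (nat_lit 0) (nat_lit 1624694857) (nat_lit 1292) (nat_lit 33560096894) (nat_lit 1368) (nat_lit 22558580936) (nat_lit 283) (nat_lit 5) (nat_lit 300) (nat_lit 5) (nat_lit 301) (nat_lit 5) (nat_lit 497) (nat_lit 482) (nat_lit 221))) (XT.nd (nat_lit 78) (nat_lit 0) (nat_lit 76) (XT.lf (nat_lit 0) (nat_lit 5839611719) (nat_lit 1292) (nat_lit 3096258028) (nat_lit 1368) (nat_lit 49737026484) (nat_lit 283) (nat_lit 5) (nat_lit 300) (nat_lit 5) (nat_lit 301) (nat_lit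 5) (nat_lit 498) (nat_lit 482) (nat_lit 220)) (XT.lf (nat_lit 0) (nat_lit 10634173550) (nat_lit 1292) (nat_lit 30955093298) (nat_lit 76) (nat_lit 18027442814) (nat_lit 284) (nat_lit 5) (nat_lit 301) (nat_lit 5) (nat_lit 285) (nat_lit 5) (nat_lit 499) (nat_lit 482) (nat_lit 219)))) (XT.nd (nat_lit 156) (nat_lit 608) (nat_lit 0) (XT.nd (nat_lit 78) (nat_lit 0) (nat_lit 0) (XT.lf (nat_lit 0) (nat_lit 773406526) (nat_lit 760) (nat_lit 14925862814) (nat_lit 836) (nat_lit 44885767345) (nat_lit 274) (nat_lit 5) (nat_lit 284) (nat_lit 5) (nat_lit 285) (nat_lit 5) (nat_lit 500) (nat_lit 482) (nat_lit 218)) (XT.lf (nat_lit 0) (nat_lit 21351746237) (nat_lit 836) (nat_lit 27609054758) (nat_lit 76) (nat_lit 12608549775) (nat_lit 274) (nat_lit 5) (nat_lit 285) (nat_lit 5) (nat_lit 275) (nat_lit 5) (nat_lit 501) (nat_lit 482) (nat_lit 217))) (XT.nd (nat_lit 78) (nat_lit 0) (nat_lit 0) (XT.lf (nat_lit 0) (nat_lit 5518813145) (nat_lit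 608) (nat_lit 21855067754) (nat_lit 684) (nat_lit 35203310971) (nat_lit 266) (nat_lit 5) (nat_lit 274) (nat_lit 5) (nat_lit 275) (nat_lit 5) (nat_lit 502) (nat_lit 482) (nat_lit 216)) (XT.lf (nat_lit 0) (nat_lit 33915794601) (nat_lit 684) (nat_lit 23462189850) (nat_lit 76) (nat_lit 6227110394) (nat_lit 266) (nat_lit 5) (nat_lit 275) (nat_lit 5) (nat_lit 267) (nat_lit 5) (nat_lit 503) (nat_lit 482) (nat_lit 215))))) (XT.nd (nat_lit 312) (nat_lit 1672) (nat_lit 0) (XT.nd (nat_lit 156) (nat_lit 532) (nat_lit 0) (XT.nd (nat_lit 78) (nat_lit 0) (nat_lit 0) (XT.lf (nat_lit 0) (nat_lit 11142232165) (nat_lit 608) (nat_lit 29834515627) (nat_lit 684) (nat_lit 23677403745) (nat_lit 258) (nat_lit 5) (nat_lit 266) (nat_lit 5) (nat_lit 267) (nat_lit 5) (nat_lit 504) (nat_lit 482) (nat_lit 214)) (XT.lf (nat_lit 0) (nat_lit 47265054704) (nat_lit 608) (nat_lit 1220700431) (nat_lit 684) (nat_lit 17241838116) (nat_lit 258) (nat_lit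 5) (nat_lit 266) (nat_lit 5) (nat_lit 267) (nat_lit 5) (nat_lit 505) (nat_lit 482) (nat_lit 213))) (XT.nd (nat_lit 78) (nat_lit 0) (nat_lit 0) (XT.lf (nat_lit 0) (nat_lit 17711686934) (nat_lit 532) (nat_lit 38949496162) (nat_lit 608) (nat_lit 10158820692) (nat_lit 251) (nat_lit 5) (nat_lit 258) (nat_lit 5) (nat_lit 259) (nat_lit 5) (nat_lit 506) (nat_lit 482) (nat_lit 212)) (XT.lf (nat_lit 0) (nat_lit 55336598558) (nat_lit 532) (nat_lit 9943015453) (nat_lit 608) (nat_lit 2659640511) (nat_lit 251) (nat_lit 5) (nat_lit 258) (nat_lit 5) (nat_lit 259) (nat_lit 5) (nat_lit 507) (nat_lit 482) (nat_lit 211)))) (XT.nd (nat_lit 156) (nat_lit 1064) (nat_lit 0) (XT.nd (nat_lit 78) (nat_lit 0) (nat_lit 0) (XT.lf (nat_lit 0) (nat_lit 5404152392) (nat_lit 608) (nat_lit 43832471234) (nat_lit 76) (nat_lit 19840844805) (nat_lit 243) (nat_lit 5) (nat_lit 251) (nat_lit 5) (nat_lit 244) (nat_lit 5) (nat_lit 508) (nat_lit 482) (nat_lit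 210)) (XT.lf (nat_lit 0) (nat_lit 13882732946) (nat_lit 608) (nat_lit 5886311157) (nat_lit 76) (nat_lit 50473204837) (nat_lit 243) (nat_lit 5) (nat_lit 251) (nat_lit 5) (nat_lit 244) (nat_lit 5) (nat_lit 509) (nat_lit 482) (nat_lit 209))) (XT.nd (nat_lit 78) (nat_lit 532) (nat_lit 0) (XT.lf (nat_lit 0) (nat_lit 23045466118) (nat_lit 608) (nat_lit 37678908754) (nat_lit 76) (nat_lit 10704704209) (nat_lit 236) (nat_lit 5) (nat_lit 244) (nat_lit 5) (nat_lit 237) (nat_lit 5) (nat_lit 510) (nat_lit 482) (nat_lit 208)) (XT.lf (nat_lit 0) (nat_lit 1886494699) (nat_lit 532) (nat_lit 30869874547) (nat_lit 608) (nat_lit 39886946314) (nat_lit 229) (nat_lit 5) (nat_lit 236) (nat_lit 5) (nat_lit 237) (nat_lit 5) (nat_lit 511) (nat_lit 482) (nat_lit 207))))))))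
noncomputable def xc240 : XT := (XT.nd (nat_lit 60684) (nat_lit 0) (nat_lit 4560) (XT.nd (nat_lit 1170) (nat_lit 2432) (nat_lit 0) (XT.nd (nat_lit 546) (nat_lit 2128) (nat_lit 0) (XT.nd (nat_lit 234) (nat_lit 988) (nat_lit 0) (XT.nd (nat_lit 78) (nat_lit 456) (nat_lit 0) (XT.lf (nat_lit 0) (nat_lit 43141101309) (nat_lit 608) (nat_lit 30474625435) (nat_lit 76) (nat_lit 266777403) (nat_lit 229) (nat_lit 5) (nat_lit 237) (nat_lit 5) (nat_lit 230) (nat_lit 5) (nat_lit 512) (nat_lit 482) (nat_lit 206)) (XT.nd (nat_lit 78) (nat_lit 0) (nat_lit 0) (XT.lf (nat_lit 0) (nat_lit 10922872495) (nat_lit 456) (nat_lit 43324562480) (nat_lit 532) (nat_lit 20899131694) (nat_lit 223) (nat_lit 5) (nat_lit 229) (nat_lit 5) (nat_lit 230) (nat_lit 5) (nat_lit 513) (nat_lit 482) (nat_lit 205)) (XT.lf (nat_lit 0) (nat_lit 54186336214) (nat_lit 456) (nat_lit 11807786948) (nat_lit 532) (nat_lit 10445213035) (nat_lit 223) (nat_lit 5) (nat_lit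 229) (nat_lit 5) (nat_lit 230) (nat_lit 5) (nat_lit 514) (nat_lit 482) (nat_lit 204)))) (XT.nd (nat_lit 156) (nat_lit 456) (nat_lit 0) (XT.nd (nat_lit 78) (nat_lit 0) (nat_lit 0) (XT.lf (nat_lit 0) (nat_lit 721702605) (nat_lit 532) (nat_lit 56574782625) (nat_lit 76) (nat_lit 20462140618) (nat_lit 216) (nat_lit 5) (nat_lit 223) (nat_lit 5) (nat_lit 217) (nat_lit 5) (nat_lit 515) (nat_lit 482) (nat_lit 203)) (XT.lf (nat_lit 0) (nat_lit 12356983329) (nat_lit 532) (nat_lit 12954008301) (nat_lit 76) (nat_lit 53793101197) (nat_lit 216) (nat_lit 5) (nat_lit 223) (nat_lit 5) (nat_lit 217) (nat_lit 5) (nat_lit 516) (nat_lit 482) (nat_lit 202))) (XT.nd (nat_lit 78) (nat_lit 0) (nat_lit 0) (XT.lf (nat_lit 0) (nat_lit 24730753160) (nat_lit 532) (nat_lit 47945913165) (nat_lit 76) (nat_lit 7801574628) (nat_lit 210) (nat_lit 5) (nat_lit 217) (nat_lit 5) (nat_lit 211) (nat_lit 5) (nat_lit 517) (nat_lit 482) (nat_lit 201)) (XT.lf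 (nat_lit 0) (nat_lit 37857920297) (nat_lit 532) (nat_lit 2493439277) (nat_lit 76) (nat_lit 41530788479) (nat_lit 210) (nat_lit 5) (nat_lit 217) (nat_lit 5) (nat_lit 211) (nat_lit 5) (nat_lit 518) (nat_lit 482) (nat_lit 200))))) (XT.nd (nat_lit 312) (nat_lit 760) (nat_lit 0) (XT.nd (nat_lit 156) (nat_lit 532) (nat_lit 0) (XT.nd (nat_lit 78) (nat_lit 380) (nat_lit 0) (XT.lf (nat_lit 0) (nat_lit 45204072554) (nat_lit 456) (nat_lit 6608849479) (nat_lit 532) (nat_lit 31502229799) (nat_lit 204) (nat_lit 5) (nat_lit 210) (nat_lit 5) (nat_lit 211) (nat_lit 5) (nat_lit 519) (nat_lit 482) (nat_lit 199)) (XT.lf (nat_lit 0) (nat_lit 9507310817) (nat_lit 380) (nat_lit 57066135232) (nat_lit 456) (nat_lit 18206093563) (nat_lit 199) (nat_lit 5) (nat_lit 204) (nat_lit 5) (nat_lit 205) (nat_lit 5) (nat_lit 520) (nat_lit 482) (nat_lit 198))) (XT.nd (nat_lit 78) (nat_lit 532) (nat_lit 0) (XT.lf (nat_lit 0) (nat_lit 59268123963) (nat_lit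 380) (nat_lit 22957808223) (nat_lit 456) (nat_lit 4048452497) (nat_lit 199) (nat_lit 5) (nat_lit 204) (nat_lit 5) (nat_lit 205) (nat_lit 5) (nat_lit 521) (nat_lit 482) (nat_lit 197)) (XT.lf (nat_lit 0) (nat_lit 10669722065) (nat_lit 532) (nat_lit 64868915887) (nat_lit 76) (nat_lit 12262158681) (nat_lit 192) (nat_lit 5) (nat_lit 199) (nat_lit 5) (nat_lit 193) (nat_lit 5) (nat_lit 522) (nat_lit 482) (nat_lit 196)))) (XT.nd (nat_lit 156) (nat_lit 380) (nat_lit 0) (XT.nd (nat_lit 78) (nat_lit 380) (nat_lit 0) (XT.lf (nat_lit 0) (nat_lit 26250310357) (nat_lit 532) (nat_lit 14713770240) (nat_lit 76) (nat_lit 48392650730) (nat_lit 192) (nat_lit 5) (nat_lit 199) (nat_lit 5) (nat_lit 193) (nat_lit 5) (nat_lit 523) (nat_lit 482) (nat_lit 195)) (XT.lf (nat_lit 0) (nat_lit 37680704279) (nat_lit 380) (nat_lit 4979358860) (nat_lit 456) (nat_lit 48288428564) (nat_lit 187) (nat_lit 5) (nat_lit 192) (nat_lit 5) (nat_lit 193) (nat_lit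 5) (nat_lit 524) (nat_lit 482) (nat_lit 194))) (XT.nd (nat_lit 78) (nat_lit 380) (nat_lit 0) (XT.lf (nat_lit 0) (nat_lit 60020122636) (nat_lit 456) (nat_lit 945425431) (nat_lit 76) (nat_lit 31608716443) (nat_lit 187) (nat_lit 5) (nat_lit 193) (nat_lit 5) (nat_lit 188) (nat_lit 5) (nat_lit 525) (nat_lit 482) (nat_lit 193)) (XT.lf (nat_lit 0) (nat_lit 53949455000) (nat_lit 380) (nat_lit 24518981055) (nat_lit 456) (nat_lit 15763350925) (nat_lit 182) (nat_lit 5) (nat_lit 187) (nat_lit 5) (nat_lit 188) (nat_lit 5) (nat_lit 526) (nat_lit 482) (nat_lit 192)))))) (XT.nd (nat_lit 546) (nat_lit 988) (nat_lit 0) (XT.nd (nat_lit 234) (nat_lit 684) (nat_lit 0) (XT.nd (nat_lit 78) (nat_lit 380) (nat_lit 0) (XT.lf (nat_lit 0) (nat_lit 1780013967) (nat_lit 380) (nat_lit 81214756232) (nat_lit 76) (nat_lit 12935461548) (nat_lit 177) (nat_lit 5) (nat_lit 182) (nat_lit 5) (nat_lit 178) (nat_lit 5) (nat_lit 527) (nat_lit 482) (nat_lit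 191)) (XT.nd (nat_lit 78) (nat_lit 380) (nat_lit 0) (XT.lf (nat_lit 0) (nat_lit 20185979034) (nat_lit 380) (nat_lit 25881932075) (nat_lit 76) (nat_lit 51587442796) (nat_lit 177) (nat_lit 5) (nat_lit 182) (nat_lit 5) (nat_lit 178) (nat_lit 5) (nat_lit 528) (nat_lit 482) (nat_lit 190)) (XT.lf (nat_lit 0) (nat_lit 31729441701) (nat_lit 380) (nat_lit 7719261597) (nat_lit 456) (nat_lit 59974389060) (nat_lit 172) (nat_lit 5) (nat_lit 177) (nat_lit 5) (nat_lit 178) (nat_lit 5) (nat_lit 529) (nat_lit 482) (nat_lit 189)))) (XT.nd (nat_lit 156) (nat_lit 380) (nat_lit 0) (XT.nd (nat_lit 78) (nat_lit 304) (nat_lit 0) (XT.lf (nat_lit 0) (nat_lit 59858323583) (nat_lit 456) (nat_lit 9944982257) (nat_lit 76) (nat_lit 31423486734) (nat_lit 172) (nat_lit 5) (nat_lit 178) (nat_lit 5) (nat_lit 173) (nat_lit 5) (nat_lit 530) (nat_lit 482) (nat_lit 188)) (XT.lf (nat_lit 0) (nat_lit 50443473177) (nat_lit 304) (nat_lit 30997675813) (nat_lit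 380) (nat_lit 21626627345) (nat_lit 168) (nat_lit 5) (nat_lit 172) (nat_lit 5) (nat_lit 173) (nat_lit 5) (nat_lit 531) (nat_lit 482) (nat_lit 187))) (XT.nd (nat_lit 78) (nat_lit 76) (nat_lit 0) (XT.lf (nat_lit 0) (nat_lit 7953853075) (nat_lit 304) (nat_lit 95981327340) (nat_lit 380) (nat_lit 1020897594) (nat_lit 164) (nat_lit 5) (nat_lit 168) (nat_lit 5) (nat_lit 169) (nat_lit 5) (nat_lit 532) (nat_lit 482) (nat_lit 186)) (XT.lf (nat_lit 0) (nat_lit 20651943508) (nat_lit 380) (nat_lit 35963944216) (nat_lit 76) (nat_lit 50254019746) (nat_lit 163) (nat_lit 5) (nat_lit 168) (nat_lit 5) (nat_lit 164) (nat_lit 5) (nat_lit 533) (nat_lit 482) (nat_lit 185))))) (XT.nd (nat_lit 58656) (nat_lit 0) (nat_lit 10944) (XT.nd (nat_lit 58500) (nat_lit 0) (nat_lit 10868) (XT.nd (nat_lit 312) (nat_lit 684) (nat_lit 0) (XT.lf (nat_lit 0) (nat_lit 27430068057) (nat_lit 304) (nat_lit 15787670426) (nat_lit 380) (nat_lit 65615211497) (nat_lit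 159) (nat_lit 5) (nat_lit 163) (nat_lit 5) (nat_lit 164) (nat_lit 5) (nat_lit 534) (nat_lit 482) (nat_lit 184)) (XT.lf (nat_lit 0) (nat_lit 28766255831) (nat_lit 380) (nat_lit 44981432336) (nat_lit 76) (nat_lit 43355995499) (nat_lit 150) (nat_lit 5) (nat_lit 155) (nat_lit 5) (nat_lit 151) (nat_lit 5) (nat_lit 538) (nat_lit 482) (nat_lit 180))) (XT.nd (nat_lit 78) (nat_lit 0) (nat_lit 0) (XT.lf (nat_lit 0) (nat_lit 11413509038) (nat_lit 1292) (nat_lit 6106500866) (nat_lit 1292) (nat_lit 6106500866) (nat_lit 293) (nat_lit 3) (nat_lit 310) (nat_lit 3) (nat_lit 310) (nat_lit 5) (nat_lit 483) (nat_lit 483) (nat_lit 234)) (XT.lf (nat_lit 76) (nat_lit 11350267212) (nat_lit 0) (nat_lit 11957385865) (nat_lit 1292) (nat_lit 24650012845) (nat_lit 294) (nat_lit 5) (nat_lit 293) (nat_lit 3) (nat_lit 310) (nat_lit 5) (nat_lit 484) (nat_lit 483) (nat_lit 233)))) (XT.nd (nat_lit 156) (nat_lit 0) (nat_lit 76) (XT.nd (nat_lit 78)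 (nat_lit 0) (nat_lit 0) (XT.lf (nat_lit 0) (nat_lit 24039717660) (nat_lit 1216) (nat_lit 12924418078) (nat_lit 1292) (nat_lit 11712203741) (nat_lit 294) (nat_lit 5) (nat_lit 310) (nat_lit 5) (nat_lit 311) (nat_lit 5) (nat_lit 485) (nat_lit 483) (nat_lit 232)) (XT.lf (nat_lit 76) (nat_lit 11575931922) (nat_lit 0) (nat_lit 13446373147) (nat_lit 1292) (nat_lit 24387411499) (nat_lit 295) (nat_lit 5) (nat_lit 294) (nat_lit 5) (nat_lit 311) (nat_lit 5) (nat_lit 486) (nat_lit 483) (nat_lit 231))) (XT.nd (nat_lit 78) (nat_lit 0) (nat_lit 0) (XT.lf (nat_lit 0) (nat_lit 26268694683) (nat_lit 1216) (nat_lit 13190484984) (nat_lit 1292) (nat_lit 10698885714) (nat_lit 295) (nat_lit 5) (nat_lit 311) (nat_lit 5) (nat_lit 312) (nat_lit 5) (nat_lit 487) (nat_lit 483) (nat_lit 230)) (XT.lf (nat_lit 76) (nat_lit 12298335881) (nat_lit 0) (nat_lit 15504449638) (nat_lit 1292) (nat_lit 23118569998) (nat_lit 296) (nat_lit 5) (nat_lit 295)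 (nat_lit 5) (nat_lit 312) (nat_lit 5) (nat_lit 488) (nat_lit 483) (nat_lit 229))))))) (XT.nd (nat_lit 1170) (nat_lit 4256) (nat_lit 0) (XT.nd (nat_lit 546) (nat_lit 2280) (nat_lit 0) (XT.nd (nat_lit 234) (nat_lit 0) (nat_lit 76) (XT.nd (nat_lit 78) (nat_lit 0) (nat_lit 0) (XT.lf (nat_lit 0) (nat_lit 29604539333) (nat_lit 1216) (nat_lit 12971449599) (nat_lit 1292) (nat_lit 9124906359) (nat_lit 296) (nat_lit 5) (nat_lit 312) (nat_lit 5) (nat_lit 313) (nat_lit 5) (nat_lit 489) (nat_lit 483) (nat_lit 228)) (XT.nd (nat_lit 78) (nat_lit 0) (nat_lit 76) (XT.lf (nat_lit 76) (nat_lit 13560125728) (nat_lit 0) (nat_lit 18183093323) (nat_lit 1292) (nat_lit 20752116144) (nat_lit 297) (nat_lit 5) (nat_lit 296) (nat_lit 5) (nat_lit 313) (nat_lit 5) (nat_lit 490) (nat_lit 483) (nat_lit 227)) (XT.lf (nat_lit 0) (nat_lit 34144110472) (nat_lit 1216) (nat_lit 12224817272) (nat_lit 1292) (nat_lit 6938739146) (nat_lit 297) (nat_lit 5)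 (nat_lit 313) (nat_lit 5) (nat_lit 314) (nat_lit 5) (nat_lit 491) (nat_lit 483) (nat_lit 226)))) (XT.nd (nat_lit 156) (nat_lit 0) (nat_lit 76) (XT.nd (nat_lit 78) (nat_lit 0) (nat_lit 76) (XT.lf (nat_lit 76) (nat_lit 15406853461) (nat_lit 0) (nat_lit 21537375230) (nat_lit 1292) (nat_lit 17190323971) (nat_lit 298) (nat_lit 5) (nat_lit 297) (nat_lit 5) (nat_lit 314) (nat_lit 5) (nat_lit 492) (nat_lit 483) (nat_lit 225)) (XT.lf (nat_lit 0) (nat_lit 39990938802) (nat_lit 1216) (nat_lit 10905188784) (nat_lit 1292) (nat_lit 4085239895) (nat_lit 298) (nat_lit 5) (nat_lit 314) (nat_lit 5) (nat_lit 315) (nat_lit 5) (nat_lit 493) (nat_lit 483) (nat_lit 224))) (XT.nd (nat_lit 78) (nat_lit 0) (nat_lit 76) (XT.lf (nat_lit 76) (nat_lit 17887148306) (nat_lit 0) (nat_lit 25626204768) (nat_lit 1292) (nat_lit 12328704707) (nat_lit 299) (nat_lit 5) (nat_lit 298) (nat_lit 5) (nat_lit 315) (nat_lit 5) (nat_lit 494) (nat_lit 483) (nat_lit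 223)) (XT.lf (nat_lit 0) (nat_lit 47255654469) (nat_lit 1216) (nat_lit 8964088438) (nat_lit 1292) (nat_lit 505399559) (nat_lit 299) (nat_lit 5) (nat_lit 315) (nat_lit 5) (nat_lit 316) (nat_lit 5) (nat_lit 495) (nat_lit 483) (nat_lit 222))))) (XT.nd (nat_lit 312) (nat_lit 1292) (nat_lit 0) (XT.nd (nat_lit 156) (nat_lit 1216) (nat_lit 0) (XT.nd (nat_lit 78) (nat_lit 0) (nat_lit 0) (XT.lf (nat_lit 76) (nat_lit 21052898202) (nat_lit 0) (nat_lit 30512590725) (nat_lit 1292) (nat_lit 6055572958) (nat_lit 300) (nat_lit 5) (nat_lit 299) (nat_lit 5) (nat_lit 316) (nat_lit 5) (nat_lit 496) (nat_lit 483) (nat_lit 221)) (XT.lf (nat_lit 76) (nat_lit 52153503761) (nat_lit 0) (nat_lit 3940818351) (nat_lit 1292) (nat_lit 2446845775) (nat_lit 300) (nat_lit 5) (nat_lit 299) (nat_lit 5) (nat_lit 316) (nat_lit 5) (nat_lit 497) (nat_lit 483) (nat_lit 220))) (XT.nd (nat_lit 78) (nat_lit 0) (nat_lit 0) (XT.lf (nat_lit 0) (nat_lit 1714295523)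 (nat_lit 1292) (nat_lit 34532312441) (nat_lit 1368) (nat_lit 23227834807) (nat_lit 283) (nat_lit 5) (nat_lit 300) (nat_lit 5) (nat_lit 301) (nat_lit 5) (nat_lit 498) (nat_lit 483) (nat_lit 219)) (XT.lf (nat_lit 0) (nat_lit 6054469800) (nat_lit 1292) (nat_lit 3155565808) (nat_lit 1368) (nat_lit 51221852271) (nat_lit 283) (nat_lit 5) (nat_lit 300) (nat_lit 5) (nat_lit 301) (nat_lit 5) (nat_lit 499) (nat_lit 483) (nat_lit 218)))) (XT.nd (nat_lit 156) (nat_lit 608) (nat_lit 0) (XT.nd (nat_lit 78) (nat_lit 760) (nat_lit 0) (XT.lf (nat_lit 0) (nat_lit 10991979014) (nat_lit 1292) (nat_lit 31849271667) (nat_lit 76) (nat_lit 18562791866) (nat_lit 284) (nat_lit 5) (nat_lit 301) (nat_lit 5) (nat_lit 285) (nat_lit 5) (nat_lit 500) (nat_lit 483) (nat_lit 217)) (XT.lf (nat_lit 0) (nat_lit 830745167) (nat_lit 760) (nat_lit 15377481129) (nat_lit 836) (nat_lit 46193217272) (nat_lit 274) (nat_lit 5) (nat_lit 284) (nat_lit 5) (nat_lit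 285) (nat_lit 5) (nat_lit 501) (nat_lit 483) (nat_lit 216))) (XT.nd (nat_lit 78) (nat_lit 608) (nat_lit 0) (XT.lf (nat_lit 0) (nat_lit 22029135459) (nat_lit 836) (nat_lit 28403037469) (nat_lit 76) (nat_lit 12983148549) (nat_lit 274) (nat_lit 5) (nat_lit 285) (nat_lit 5) (nat_lit 275) (nat_lit 5) (nat_lit 502) (nat_lit 483) (nat_lit 215)) (XT.lf (nat_lit 0) (nat_lit 5718330305) (nat_lit 608) (nat_lit 22512857313) (nat_lit 684) (nat_lit 36222232726) (nat_lit 266) (nat_lit 5) (nat_lit 274) (nat_lit 5) (nat_lit 275) (nat_lit 5) (nat_lit 503) (nat_lit 483) (nat_lit 214)))))) (XT.nd (nat_lit 546) (nat_lit 2508) (nat_lit 0) (XT.nd (nat_lit 234) (nat_lit 1140) (nat_lit 0) (XT.nd (nat_lit 78) (nat_lit 608) (nat_lit 0) (XT.lf (nat_lit 0) (nat_lit 34968287609) (nat_lit 684) (nat_lit 24132016132) (nat_lit 76) (nat_lit 6411888933) (nat_lit 266) (nat_lit 5) (nat_lit 275) (nat_lit 5) (nat_lit 267) (nat_lit 5) (nat_lit 504) (nat_lit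 483) (nat_lit 213)) (XT.nd (nat_lit 78) (nat_lit 0) (nat_lit 0) (XT.lf (nat_lit 0) (nat_lit 11510204823) (nat_lit 608) (nat_lit 30730168597) (nat_lit 684) (nat_lit 24352368656) (nat_lit 258) (nat_lit 5) (nat_lit 266) (nat_lit 5) (nat_lit 267) (nat_lit 5) (nat_lit 505) (nat_lit 483) (nat_lit 212)) (XT.lf (nat_lit 0) (nat_lit 48715730319) (nat_lit 608) (nat_lit 1257920959) (nat_lit 684) (nat_lit 17724765880) (nat_lit 258) (nat_lit 5) (nat_lit 266) (nat_lit 5) (nat_lit 267) (nat_lit 5) (nat_lit 506) (nat_lit 483) (nat_lit 211)))) (XT.nd (nat_lit 156) (nat_lit 608) (nat_lit 0) (XT.nd (nat_lit 78) (nat_lit 0) (nat_lit 0) (XT.lf (nat_lit 0) (nat_lit 18276440447) (nat_lit 532) (nat_lit 40117246538) (nat_lit 608) (nat_lit 10429932801) (nat_lit 251) (nat_lit 5) (nat_lit 258) (nat_lit 5) (nat_lit 259) (nat_lit 5) (nat_lit 507) (nat_lit 483) (nat_lit 210)) (XT.lf (nat_lit 0) (nat_lit 57029126520) (nat_lit 532) (nat_lit 10240592801)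 (nat_lit 608) (nat_lit 2706757385) (nat_lit 251) (nat_lit 5) (nat_lit 258) (nat_lit 5) (nat_lit 259) (nat_lit 5) (nat_lit 508) (nat_lit 483) (nat_lit 209))) (XT.nd (nat_lit 78) (nat_lit 0) (nat_lit 0) (XT.lf (nat_lit 0) (nat_lit 5597706275) (nat_lit 608) (nat_lit 45113764786) (nat_lit 76) (nat_lit 20437374824) (nat_lit 243) (nat_lit 5) (nat_lit 251) (nat_lit 5) (nat_lit 244) (nat_lit 5) (nat_lit 509) (nat_lit 483) (nat_lit 208)) (XT.lf (nat_lit 0) (nat_lit 14329728828) (nat_lit 608) (nat_lit 6030200895) (nat_lit 76) (nat_lit 51988667658) (nat_lit 243) (nat_lit 5) (nat_lit 251) (nat_lit 5) (nat_lit 244) (nat_lit 5) (nat_lit 510) (nat_lit 483) (nat_lit 207))))) (XT.nd (nat_lit 312) (nat_lit 988) (nat_lit 0) (XT.nd (nat_lit 156) (nat_lit 456) (nat_lit 0) (XT.nd (nat_lit 78) (nat_lit 532) (nat_lit 0) (XT.lf (nat_lit 0) (nat_lit 23766789969) (nat_lit 608) (nat_lit 38776018888) (nat_lit 76) (nat_lit 11028240297) (nat_lit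 236) (nat_lit 5) (nat_lit 244) (nat_lit 5) (nat_lit 237) (nat_lit 5) (nat_lit 511) (nat_lit 483) (nat_lit 206)) (XT.lf (nat_lit 0) (nat_lit 1976020619) (nat_lit 532) (nat_lit 31792443507) (nat_lit 608) (nat_lit 41053265384) (nat_lit 229) (nat_lit 5) (nat_lit 236) (nat_lit 5) (nat_lit 237) (nat_lit 5) (nat_lit 512) (nat_lit 483) (nat_lit 205))) (XT.nd (nat_lit 78) (nat_lit 456) (nat_lit 0) (XT.lf (nat_lit 0) (nat_lit 44463914648) (nat_lit 608) (nat_lit 31356065471) (nat_lit 76) (nat_lit 278138440) (nat_lit 229) (nat_lit 5) (nat_lit 237) (nat_lit 5) (nat_lit 230) (nat_lit 5) (nat_lit 513) (nat_lit 483) (nat_lit 204)) (XT.lf (nat_lit 0) (nat_lit 11283035842) (nat_lit 456) (nat_lit 44619882238) (nat_lit 532) (nat_lit 21497200581) (nat_lit 223) (nat_lit 5) (nat_lit 229) (nat_lit 5) (nat_lit 230) (nat_lit 5) (nat_lit 514) (nat_lit 483) (nat_lit 203)))) (XT.nd (nat_lit 156) (nat_lit 456) (nat_lit 0) (XT.nd (nat_lit 78)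 (nat_lit 532) (nat_lit 0) (XT.lf (nat_lit 0) (nat_lit 55843457535) (nat_lit 456) (nat_lit 12157732093) (nat_lit 532) (nat_lit 10730506257) (nat_lit 223) (nat_lit 5) (nat_lit 229) (nat_lit 5) (nat_lit 230) (nat_lit 5) (nat_lit 515) (nat_lit 483) (nat_lit 202)) (XT.lf (nat_lit 0) (nat_lit 770418821) (nat_lit 532) (nat_lit 58239490878) (nat_lit 76) (nat_lit 21080660034) (nat_lit 216) (nat_lit 5) (nat_lit 223) (nat_lit 5) (nat_lit 217) (nat_lit 5) (nat_lit 516) (nat_lit 483) (nat_lit 201))) (XT.nd (nat_lit 78) (nat_lit 456) (nat_lit 0) (XT.lf (nat_lit 0) (nat_lit 12753969662) (nat_lit 532) (nat_lit 13311040953) (nat_lit 76) (nat_lit 55411413842) (nat_lit 216) (nat_lit 5) (nat_lit 223) (nat_lit 5) (nat_lit 217) (nat_lit 5) (nat_lit 517) (nat_lit 483) (nat_lit 200)) (XT.lf (nat_lit 0) (nat_lit 25498540446) (nat_lit 532) (nat_lit 49352288053) (nat_lit 76) (nat_lit 8040980974) (nat_lit 210) (nat_lit 5) (nat_lit 217) (nat_lit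 5) (nat_lit 211) (nat_lit 5) (nat_lit 518) (nat_lit 483) (nat_lit 199))))))))
noncomputable def xc241 : XT := (XT.nd (nat_lit 60918) (nat_lit 0) (nat_lit 988) (XT.nd (nat_lit 59748) (nat_lit 0) (nat_lit 9804) (XT.nd (nat_lit 546) (nat_lit 1748) (nat_lit 0) (XT.nd (nat_lit 234) (nat_lit 912) (nat_lit 0) (XT.nd (nat_lit 78) (nat_lit 836) (nat_lit 0) (XT.lf (nat_lit 0) (nat_lit 39018769256) (nat_lit 532) (nat_lit 2537172061) (nat_lit 76) (nat_lit 42781915150) (nat_lit 210) (nat_lit 5) (nat_lit 217) (nat_lit 5) (nat_lit 211) (nat_lit 5) (nat_lit 519) (nat_lit 483) (nat_lit 198)) (XT.nd (nat_lit 78) (nat_lit 380) (nat_lit 0) (XT.lf (nat_lit 0) (nat_lit 46590960513) (nat_lit 456) (nat_lit 6801024873) (nat_lit 532) (nat_lit 32421878123) (nat_lit 204) (nat_lit 5) (nat_lit 210) (nat_lit 5) (nat_lit 211) (nat_lit 5) (nat_lit 520) (nat_lit 483) (nat_lit 197)) (XT.lf (nat_lit 0) (nat_lit 9823671927) (nat_lit 380) (nat_lit 58771290676)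 (nat_lit 456) (nat_lit 18727231270) (nat_lit 199) (nat_lit 5) (nat_lit 204) (nat_lit 5) (nat_lit 205) (nat_lit 5) (nat_lit 521) (nat_lit 483) (nat_lit 196)))) (XT.nd (nat_lit 156) (nat_lit 380) (nat_lit 0) (XT.nd (nat_lit 78) (nat_lit 532) (nat_lit 0) (XT.lf (nat_lit 0) (nat_lit 61076402425) (nat_lit 380) (nat_lit 23639912749) (nat_lit 456) (nat_lit 4145590441) (nat_lit 199) (nat_lit 5) (nat_lit 204) (nat_lit 5) (nat_lit 205) (nat_lit 5) (nat_lit 522) (nat_lit 483) (nat_lit 195)) (XT.lf (nat_lit 0) (nat_lit 11013319809) (nat_lit 532) (nat_lit 66783934367) (nat_lit 76) (nat_lit 12636858857) (nat_lit 192) (nat_lit 5) (nat_lit 199) (nat_lit 5) (nat_lit 193) (nat_lit 5) (nat_lit 523) (nat_lit 483) (nat_lit 194))) (XT.nd (nat_lit 78) (nat_lit 380) (nat_lit 0) (XT.lf (nat_lit 0) (nat_lit 27060641107) (nat_lit 532) (nat_lit 15125038690) (nat_lit 76) (nat_lit 49851066578) (nat_lit 192) (nat_lit 5) (nat_lit 199) (nat_lit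 5) (nat_lit 193) (nat_lit 5) (nat_lit 524) (nat_lit 483) (nat_lit 193)) (XT.lf (nat_lit 0) (nat_lit 38840974528) (nat_lit 380) (nat_lit 5121334169) (nat_lit 456) (nat_lit 49713962262) (nat_lit 187) (nat_lit 5) (nat_lit 192) (nat_lit 5) (nat_lit 193) (nat_lit 5) (nat_lit 525) (nat_lit 483) (nat_lit 192))))) (XT.nd (nat_lit 312) (nat_lit 988) (nat_lit 0) (XT.nd (nat_lit 156) (nat_lit 380) (nat_lit 0) (XT.nd (nat_lit 78) (nat_lit 380) (nat_lit 0) (XT.lf (nat_lit 0) (nat_lit 61842585393) (nat_lit 456) (nat_lit 944221757) (nat_lit 76) (nat_lit 32564027402) (nat_lit 187) (nat_lit 5) (nat_lit 193) (nat_lit 5) (nat_lit 188) (nat_lit 5) (nat_lit 526) (nat_lit 483) (nat_lit 191)) (XT.lf (nat_lit 0) (nat_lit 55597215220) (nat_lit 380) (nat_lit 25246777746) (nat_lit 456) (nat_lit 16214100448) (nat_lit 182) (nat_lit 5) (nat_lit 187) (nat_lit 5) (nat_lit 188) (nat_lit 5) (nat_lit 527) (nat_lit 483) (nat_lit 190))) (XT.nd (nat_lit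 78) (nat_lit 0) (nat_lit 0) (XT.lf (nat_lit 0) (nat_lit 1854860744) (nat_lit 380) (nat_lit 83621213764) (nat_lit 76) (nat_lit 13331418860) (nat_lit 177) (nat_lit 5) (nat_lit 182) (nat_lit 5) (nat_lit 178) (nat_lit 5) (nat_lit 528) (nat_lit 483) (nat_lit 189)) (XT.lf (nat_lit 0) (nat_lit 20812380112) (nat_lit 380) (nat_lit 26629278236) (nat_lit 76) (nat_lit 53142729639) (nat_lit 177) (nat_lit 5) (nat_lit 182) (nat_lit 5) (nat_lit 178) (nat_lit 5) (nat_lit 529) (nat_lit 483) (nat_lit 188)))) (XT.nd (nat_lit 156) (nat_lit 608) (nat_lit 0) (XT.nd (nat_lit 78) (nat_lit 0) (nat_lit 0) (XT.lf (nat_lit 0) (nat_lit 32710151343) (nat_lit 380) (nat_lit 7942505400) (nat_lit 456) (nat_lit 61752511786) (nat_lit 172) (nat_lit 5) (nat_lit 177) (nat_lit 5) (nat_lit 178) (nat_lit 5) (nat_lit 530) (nat_lit 483) (nat_lit 187)) (XT.lf (nat_lit 0) (nat_lit 61674046551) (nat_lit 456) (nat_lit 10214824075) (nat_lit 76) (nat_lit 32374124752)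 (nat_lit 172) (nat_lit 5) (nat_lit 178) (nat_lit 5) (nat_lit 173) (nat_lit 5) (nat_lit 531) (nat_lit 483) (nat_lit 186))) (XT.nd (nat_lit 78) (nat_lit 304) (nat_lit 0) (XT.lf (nat_lit 0) (nat_lit 51985005536) (nat_lit 304) (nat_lit 31919040786) (nat_lit 380) (nat_lit 22255171694) (nat_lit 168) (nat_lit 5) (nat_lit 172) (nat_lit 5) (nat_lit 173) (nat_lit 5) (nat_lit 532) (nat_lit 483) (nat_lit 185)) (XT.lf (nat_lit 0) (nat_lit 8220924366) (nat_lit 304) (nat_lit 98851755089) (nat_lit 380) (nat_lit 1031495912) (nat_lit 164) (nat_lit 5) (nat_lit 168) (nat_lit 5) (nat_lit 169) (nat_lit 5) (nat_lit 533) (nat_lit 483) (nat_lit 184)))))) (XT.nd (nat_lit 546) (nat_lit 0) (nat_lit 228) (XT.nd (nat_lit 234) (nat_lit 0) (nat_lit 76) (XT.nd (nat_lit 78) (nat_lit 0) (nat_lit 0) (XT.lf (nat_lit 0) (nat_lit 11784758370) (nat_lit 1292) (nat_lit 6274839195) (nat_lit 1292) (nat_lit 6274839195) (nat_lit 293) (nat_lit 3) (nat_lit 310)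 (nat_lit 3) (nat_lit 310) (nat_lit 5) (nat_lit 484) (nat_lit 484) (nat_lit 232)) (XT.nd (nat_lit 78) (nat_lit 0) (nat_lit 76) (XT.lf (nat_lit 76) (nat_lit 11720197314) (nat_lit 0) (nat_lit 12342976065) (nat_lit 1292) (nat_lit 25331526013) (nat_lit 294) (nat_lit 5) (nat_lit 293) (nat_lit 3) (nat_lit 310) (nat_lit 5) (nat_lit 485) (nat_lit 484) (nat_lit 231)) (XT.lf (nat_lit 0) (nat_lit 24815309609) (nat_lit 1216) (nat_lit 13281687639) (nat_lit 1292) (nat_lit 12037992843) (nat_lit 294) (nat_lit 5) (nat_lit 310) (nat_lit 5) (nat_lit 311) (nat_lit 5) (nat_lit 486) (nat_lit 484) (nat_lit 230)))) (XT.nd (nat_lit 156) (nat_lit 0) (nat_lit 76) (XT.nd (nat_lit 78) (nat_lit 0) (nat_lit 76) (XT.lf (nat_lit 76) (nat_lit 11953374205) (nat_lit 0) (nat_lit 13872705916) (nat_lit 1292) (nat_lit 25064327428) (nat_lit 295) (nat_lit 5) (nat_lit 294) (nat_lit 5) (nat_lit 311) (nat_lit 5) (nat_lit 487) (nat_lit 484) (nat_lit 229)) (XT.lf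 (nat_lit 0) (nat_lit 27108100544) (nat_lit 1216) (nat_lit 13555145777) (nat_lit 1292) (nat_lit 10998013546) (nat_lit 295) (nat_lit 5) (nat_lit 311) (nat_lit 5) (nat_lit 312) (nat_lit 5) (nat_lit 488) (nat_lit 484) (nat_lit 228))) (XT.nd (nat_lit 78) (nat_lit 0) (nat_lit 76) (XT.lf (nat_lit 76) (nat_lit 12698035266) (nat_lit 0) (nat_lit 15988978934) (nat_lit 1292) (nat_lit 23760470712) (nat_lit 296) (nat_lit 5) (nat_lit 295) (nat_lit 5) (nat_lit 312) (nat_lit 5) (nat_lit 489) (nat_lit 484) (nat_lit 227)) (XT.lf (nat_lit 0) (nat_lit 30541179077) (nat_lit 1216) (nat_lit 13329091122) (nat_lit 1292) (nat_lit 9380190128) (nat_lit 296) (nat_lit 5) (nat_lit 312) (nat_lit 5) (nat_lit 313) (nat_lit 5) (nat_lit 490) (nat_lit 484) (nat_lit 226))))) (XT.nd (nat_lit 312) (nat_lit 0) (nat_lit 152) (XT.nd (nat_lit 156) (nat_lit 0) (nat_lit 76) (XT.nd (nat_lit 78) (nat_lit 0) (nat_lit 76) (XT.lf (nat_lit 76) (nat_lit 13998122622)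 (nat_lit 0) (nat_lit 18744783687) (nat_lit 1292) (nat_lit 21325860701) (nat_lit 297) (nat_lit 5) (nat_lit 296) (nat_lit 5) (nat_lit 313) (nat_lit 5) (nat_lit 491) (nat_lit 484) (nat_lit 225)) (XT.lf (nat_lit 0) (nat_lit 35214292995) (nat_lit 1216) (nat_lit 12559739397) (nat_lit 1292) (nat_lit 7131482397) (nat_lit 297) (nat_lit 5) (nat_lit 313) (nat_lit 5) (nat_lit 314) (nat_lit 5) (nat_lit 492) (nat_lit 484) (nat_lit 224))) (XT.nd (nat_lit 78) (nat_lit 0) (nat_lit 76) (XT.lf (nat_lit 76) (nat_lit 15900569473) (nat_lit 0) (nat_lit 22196812480) (nat_lit 1292) (nat_lit 17659856350) (nat_lit 298) (nat_lit 5) (nat_lit 297) (nat_lit 5) (nat_lit 314) (nat_lit 5) (nat_lit 493) (nat_lit 484) (nat_lit 223)) (XT.lf (nat_lit 0) (nat_lit 41234063471) (nat_lit 1216) (nat_lit 11200315954) (nat_lit 1292) (nat_lit 4195121218) (nat_lit 298) (nat_lit 5) (nat_lit 314) (nat_lit 5) (nat_lit 315) (nat_lit 5) (nat_lit 494) (nat_lit 484)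 (nat_lit 222)))) (XT.nd (nat_lit 156) (nat_lit 0) (nat_lit 76) (XT.nd (nat_lit 78) (nat_lit 0) (nat_lit 76) (XT.lf (nat_lit 76) (nat_lit 18455477244) (nat_lit 0) (nat_lit 26405713810) (nat_lit 1292) (nat_lit 12654849545) (nat_lit 299) (nat_lit 5) (nat_lit 298) (nat_lit 5) (nat_lit 315) (nat_lit 5) (nat_lit 495) (nat_lit 484) (nat_lit 221)) (XT.lf (nat_lit 0) (nat_lit 48714425377) (nat_lit 1216) (nat_lit 9200878587) (nat_lit 1292) (nat_lit 510354112) (nat_lit 299) (nat_lit 5) (nat_lit 315) (nat_lit 5) (nat_lit 316) (nat_lit 5) (nat_lit 496) (nat_lit 484) (nat_lit 220))) (XT.nd (nat_lit 78) (nat_lit 0) (nat_lit 0) (XT.lf (nat_lit 76) (nat_lit 21716302628) (nat_lit 0) (nat_lit 31436360967) (nat_lit 1292) (nat_lit 6195818386) (nat_lit 300) (nat_lit 5) (nat_lit 299) (nat_lit 5) (nat_lit 316) (nat_lit 5) (nat_lit 497) (nat_lit 484) (nat_lit 219)) (XT.lf (nat_lit 76) (nat_lit 53748999631) (nat_lit 0) (nat_lit 4067190979)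 (nat_lit 1292) (nat_lit 2480035847) (nat_lit 300) (nat_lit 5) (nat_lit 299) (nat_lit 5) (nat_lit 316) (nat_lit 5) (nat_lit 498) (nat_lit 484) (nat_lit 218))))))) (XT.nd (nat_lit 1170) (nat_lit 3952) (nat_lit 0) (XT.nd (nat_lit 546) (nat_lit 2812) (nat_lit 0) (XT.nd (nat_lit 234) (nat_lit 1292) (nat_lit 0) (XT.nd (nat_lit 78) (nat_lit 0) (nat_lit 0) (XT.lf (nat_lit 0) (nat_lit 1804238688) (nat_lit 1292) (nat_lit 35535679910) (nat_lit 1368) (nat_lit 23917597028) (nat_lit 283) (nat_lit 5) (nat_lit 300) (nat_lit 5) (nat_lit 301) (nat_lit 5) (nat_lit 499) (nat_lit 484) (nat_lit 217)) (XT.nd (nat_lit 78) (nat_lit 0) (nat_lit 76) (XT.lf (nat_lit 0) (nat_lit 6273496418) (nat_lit 1292) (nat_lit 3218580449) (nat_lit 1368) (nat_lit 52751641021) (nat_lit 283) (nat_lit 5) (nat_lit 300) (nat_lit 5) (nat_lit 301) (nat_lit 5) (nat_lit 500) (nat_lit 484) (nat_lit 216)) (XT.lf (nat_lit 0) (nat_lit 11358292496) (nat_lit 1292) (nat_lit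 32772254361) (nat_lit 76) (nat_lit 19114515633) (nat_lit 284) (nat_lit 5) (nat_lit 301) (nat_lit 5) (nat_lit 285) (nat_lit 5) (nat_lit 501) (nat_lit 484) (nat_lit 215)))) (XT.nd (nat_lit 156) (nat_lit 608) (nat_lit 0) (XT.nd (nat_lit 78) (nat_lit 0) (nat_lit 0) (XT.lf (nat_lit 0) (nat_lit 887844396) (nat_lit 760) (nat_lit 15842427421) (nat_lit 836) (nat_lit 47542136521) (nat_lit 274) (nat_lit 5) (nat_lit 284) (nat_lit 5) (nat_lit 285) (nat_lit 5) (nat_lit 502) (nat_lit 484) (nat_lit 214)) (XT.lf (nat_lit 0) (nat_lit 22724731773) (nat_lit 836) (nat_lit 29222807986) (nat_lit 76) (nat_lit 13369195255) (nat_lit 274) (nat_lit 5) (nat_lit 285) (nat_lit 5) (nat_lit 275) (nat_lit 5) (nat_lit 503) (nat_lit 484) (nat_lit 213))) (XT.nd (nat_lit 78) (nat_lit 0) (nat_lit 0) (XT.lf (nat_lit 0) (nat_lit 5921883952) (nat_lit 608) (nat_lit 23190257856) (nat_lit 684) (nat_lit 37273856278) (nat_lit 266) (nat_lit 5) (nat_lit 274) (nat_lit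 5) (nat_lit 275) (nat_lit 5) (nat_lit 504) (nat_lit 484) (nat_lit 212)) (XT.lf (nat_lit 0) (nat_lit 36050345163) (nat_lit 684) (nat_lit 24823891205) (nat_lit 76) (nat_lit 6602327633) (nat_lit 266) (nat_lit 5) (nat_lit 275) (nat_lit 5) (nat_lit 267) (nat_lit 5) (nat_lit 505) (nat_lit 484) (nat_lit 211))))) (XT.nd (nat_lit 312) (nat_lit 1672) (nat_lit 0) (XT.nd (nat_lit 156) (nat_lit 532) (nat_lit 0) (XT.nd (nat_lit 78) (nat_lit 0) (nat_lit 0) (XT.lf (nat_lit 0) (nat_lit 11887281816) (nat_lit 608) (nat_lit 31652655708) (nat_lit 684) (nat_lit 25049612164) (nat_lit 258) (nat_lit 5) (nat_lit 266) (nat_lit 5) (nat_lit 267) (nat_lit 5) (nat_lit 506) (nat_lit 484) (nat_lit 210)) (XT.lf (nat_lit 0) (nat_lit 50208047712) (nat_lit 608) (nat_lit 1296223688) (nat_lit 684) (nat_lit 18224152009) (nat_lit 258) (nat_lit 5) (nat_lit 266) (nat_lit 5) (nat_lit 267) (nat_lit 5) (nat_lit 507) (nat_lit 484) (nat_lit 209))) (XT.nd (nat_lit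 78) (nat_lit 0) (nat_lit 0) (XT.lf (nat_lit 0) (nat_lit 18856219102) (nat_lit 532) (nat_lit 41320071589) (nat_lit 608) (nat_lit 10711110066) (nat_lit 251) (nat_lit 5) (nat_lit 258) (nat_lit 5) (nat_lit 259) (nat_lit 5) (nat_lit 508) (nat_lit 484) (nat_lit 208)) (XT.lf (nat_lit 0) (nat_lit 58770568705) (nat_lit 532) (nat_lit 10547138405) (nat_lit 608) (nat_lit 2757163291) (nat_lit 251) (nat_lit 5) (nat_lit 258) (nat_lit 5) (nat_lit 259) (nat_lit 5) (nat_lit 509) (nat_lit 484) (nat_lit 207)))) (XT.nd (nat_lit 156) (nat_lit 1064) (nat_lit 0) (XT.nd (nat_lit 78) (nat_lit 0) (nat_lit 0) (XT.lf (nat_lit 0) (nat_lit 5795262603) (nat_lit 608) (nat_lit 46435430549) (nat_lit 76) (nat_lit 21051725851) (nat_lit 243) (nat_lit 5) (nat_lit 251) (nat_lit 5) (nat_lit 244) (nat_lit 5) (nat_lit 510) (nat_lit 484) (nat_lit 206)) (XT.lf (nat_lit 0) (nat_lit 14788382965) (nat_lit 608) (nat_lit 6180284416) (nat_lit 76) (nat_lit 53549521650)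 (nat_lit 243) (nat_lit 5) (nat_lit 251) (nat_lit 5) (nat_lit 244) (nat_lit 5) (nat_lit 511) (nat_lit 484) (nat_lit 205))) (XT.nd (nat_lit 78) (nat_lit 532) (nat_lit 0) (XT.lf (nat_lit 0) (nat_lit 24508033716) (nat_lit 608) (nat_lit 39907951421) (nat_lit 76) (nat_lit 11361344986) (nat_lit 236) (nat_lit 5) (nat_lit 244) (nat_lit 5) (nat_lit 237) (nat_lit 5) (nat_lit 512) (nat_lit 484) (nat_lit 204)) (XT.lf (nat_lit 0) (nat_lit 2066341938) (nat_lit 532) (nat_lit 32742892017) (nat_lit 608) (nat_lit 42256312756) (nat_lit 229) (nat_lit 5) (nat_lit 236) (nat_lit 5) (nat_lit 237) (nat_lit 5) (nat_lit 513) (nat_lit 484) (nat_lit 203)))))) (XT.nd (nat_lit 624) (nat_lit 2052) (nat_lit 0) (XT.nd (nat_lit 312) (nat_lit 912) (nat_lit 0) (XT.nd (nat_lit 156) (nat_lit 532) (nat_lit 0) (XT.nd (nat_lit 78) (nat_lit 456) (nat_lit 0) (XT.lf (nat_lit 0) (nat_lit 45824771762) (nat_lit 608) (nat_lit 32265831488) (nat_lit 76) (nat_lit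 289647561) (nat_lit 229) (nat_lit 5) (nat_lit 237) (nat_lit 5) (nat_lit 230) (nat_lit 5) (nat_lit 514) (nat_lit 484) (nat_lit 202)) (XT.lf (nat_lit 0) (nat_lit 11652139766) (nat_lit 456) (nat_lit 45954315148) (nat_lit 532) (nat_lit 22114870803) (nat_lit 223) (nat_lit 5) (nat_lit 229) (nat_lit 5) (nat_lit 230) (nat_lit 5) (nat_lit 515) (nat_lit 484) (nat_lit 201))) (XT.nd (nat_lit 78) (nat_lit 532) (nat_lit 0) (XT.lf (nat_lit 0) (nat_lit 57548482474) (nat_lit 456) (nat_lit 12518421768) (nat_lit 532) (nat_lit 11025969216) (nat_lit 223) (nat_lit 5) (nat_lit 229) (nat_lit 5) (nat_lit 230) (nat_lit 5) (nat_lit 516) (nat_lit 484) (nat_lit 200)) (XT.lf (nat_lit 0) (nat_lit 819042874) (nat_lit 532) (nat_lit 59956008034) (nat_lit 76) (nat_lit 21717467805) (nat_lit 216) (nat_lit 5) (nat_lit 223) (nat_lit 5) (nat_lit 217) (nat_lit 5) (nat_lit 517) (nat_lit 484) (nat_lit 199)))) (XT.nd (nat_lit 156) (nat_lit 456) (nat_lit 0)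 (XT.nd (nat_lit 78) (nat_lit 456) (nat_lit 0) (XT.lf (nat_lit 0) (nat_lit 13161357188) (nat_lit 532) (nat_lit 13680597841) (nat_lit 76) (nat_lit 57078016422) (nat_lit 216) (nat_lit 5) (nat_lit 223) (nat_lit 5) (nat_lit 217) (nat_lit 5) (nat_lit 518) (nat_lit 484) (nat_lit 198)) (XT.lf (nat_lit 0) (nat_lit 26287876612) (nat_lit 532) (nat_lit 50802691264) (nat_lit 76) (nat_lit 8287261876) (nat_lit 210) (nat_lit 5) (nat_lit 217) (nat_lit 5) (nat_lit 211) (nat_lit 5) (nat_lit 519) (nat_lit 484) (nat_lit 197))) (XT.nd (nat_lit 78) (nat_lit 456) (nat_lit 0) (XT.lf (nat_lit 0) (nat_lit 40213002190) (nat_lit 532) (nat_lit 2584000396) (nat_lit 76) (nat_lit 44070276947) (nat_lit 210) (nat_lit 5) (nat_lit 217) (nat_lit 5) (nat_lit 211) (nat_lit 5) (nat_lit 520) (nat_lit 484) (nat_lit 196)) (XT.lf (nat_lit 0) (nat_lit 48017689030) (nat_lit 456) (nat_lit 6999315124) (nat_lit 532) (nat_lit 33370575026) (nat_lit 204) (nat_lit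 5) (nat_lit 210) (nat_lit 5) (nat_lit 211) (nat_lit 5) (nat_lit 521) (nat_lit 484) (nat_lit 195))))) (XT.nd (nat_lit 312) (nat_lit 1140) (nat_lit 0) (XT.nd (nat_lit 156) (nat_lit 532) (nat_lit 0) (XT.nd (nat_lit 78) (nat_lit 0) (nat_lit 0) (XT.lf (nat_lit 0) (nat_lit 10147736205) (nat_lit 380) (nat_lit 60527992773) (nat_lit 456) (nat_lit 19265440799) (nat_lit 199) (nat_lit 5) (nat_lit 204) (nat_lit 5) (nat_lit 205) (nat_lit 5) (nat_lit 522) (nat_lit 484) (nat_lit 194)) (XT.lf (nat_lit 0) (nat_lit 62937193643) (nat_lit 380) (nat_lit 24342860983) (nat_lit 456) (nat_lit 4247038340) (nat_lit 199) (nat_lit 5) (nat_lit 204) (nat_lit 5) (nat_lit 205) (nat_lit 5) (nat_lit 523) (nat_lit 484) (nat_lit 193))) (XT.nd (nat_lit 78) (nat_lit 0) (nat_lit 0) (XT.lf (nat_lit 0) (nat_lit 11365876139) (nat_lit 532) (nat_lit 68758185740) (nat_lit 76) (nat_lit 13022407658) (nat_lit 192) (nat_lit 5) (nat_lit 199) (nat_lit 5) (nat_lit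 193) (nat_lit 5) (nat_lit 524) (nat_lit 484) (nat_lit 192)) (XT.lf (nat_lit 0) (nat_lit 27893971734) (nat_lit 532) (nat_lit 15550375620) (nat_lit 76) (nat_lit 51352853949) (nat_lit 192) (nat_lit 5) (nat_lit 199) (nat_lit 5) (nat_lit 193) (nat_lit 5) (nat_lit 525) (nat_lit 484) (nat_lit 191)))) (XT.nd (nat_lit 156) (nat_lit 760) (nat_lit 0) (XT.nd (nat_lit 78) (nat_lit 0) (nat_lit 0) (XT.lf (nat_lit 0) (nat_lit 40034339424) (nat_lit 380) (nat_lit 5267993840) (nat_lit 456) (nat_lit 51183589106) (nat_lit 187) (nat_lit 5) (nat_lit 192) (nat_lit 5) (nat_lit 193) (nat_lit 5) (nat_lit 526) (nat_lit 484) (nat_lit 190)) (XT.lf (nat_lit 0) (nat_lit 63718467232) (nat_lit 456) (nat_lit 944679207) (nat_lit 76) (nat_lit 33547593022) (nat_lit 187) (nat_lit 5) (nat_lit 193) (nat_lit 5) (nat_lit 188) (nat_lit 5) (nat_lit 527) (nat_lit 484) (nat_lit 189))) (XT.nd (nat_lit 78) (nat_lit 380) (nat_lit 0) (XT.lf (nat_lit 0) (nat_lit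 57292727651) (nat_lit 380) (nat_lit 25996854526) (nat_lit 456) (nat_lit 16679644016) (nat_lit 182) (nat_lit 5) (nat_lit 187) (nat_lit 5) (nat_lit 188) (nat_lit 5) (nat_lit 528) (nat_lit 484) (nat_lit 188)) (XT.lf (nat_lit 0) (nat_lit 1930721816) (nat_lit 380) (nat_lit 86101586292) (nat_lit 76) (nat_lit 13738801774) (nat_lit 177) (nat_lit 5) (nat_lit 182) (nat_lit 5) (nat_lit 178) (nat_lit 5) (nat_lit 529) (nat_lit 484) (nat_lit 187))))))))
noncomputable def xc242 : XT := (XT.nd (nat_lit 60996) (nat_lit 0) (nat_lit 304) (XT.nd (nat_lit 59826) (nat_lit 0) (nat_lit 6308) (XT.nd (nat_lit 59202) (nat_lit 0) (nat_lit 9576) (XT.nd (nat_lit 234) (nat_lit 304) (nat_lit 0) (XT.nd (nat_lit 78) (nat_lit 380) (nat_lit 0) (XT.lf (nat_lit 0) (nat_lit 21456377971) (nat_lit 380) (nat_lit 27400715918) (nat_lit 76) (nat_lit 54744235167) (nat_lit 177) (nat_lit 5) (nat_lit 182) (nat_lit 5) (nat_lit 178) (nat_lit 5) (nat_lit 530) (nat_lit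 484) (nat_lit 186)) (XT.nd (nat_lit 78) (nat_lit 0) (nat_lit 0) (XT.lf (nat_lit 0) (nat_lit 33718627522) (nat_lit 380) (nat_lit 8172924926) (nat_lit 456) (nat_lit 63585189933) (nat_lit 172) (nat_lit 5) (nat_lit 177) (nat_lit 5) (nat_lit 178) (nat_lit 5) (nat_lit 531) (nat_lit 484) (nat_lit 185)) (XT.lf (nat_lit 0) (nat_lit 63543094661) (nat_lit 456) (nat_lit 10494397603) (nat_lit 76) (nat_lit 33352826499) (nat_lit 172) (nat_lit 5) (nat_lit 178) (nat_lit 5) (nat_lit 173) (nat_lit 5) (nat_lit 532) (nat_lit 484) (nat_lit 184)))) (XT.nd (nat_lit 58812) (nat_lit 0) (nat_lit 9500) (XT.nd (nat_lit 58734) (nat_lit 0) (nat_lit 9500) (XT.lf (nat_lit 0) (nat_lit 53571163453) (nat_lit 304) (nat_lit 32868538392) (nat_lit 380) (nat_lit 22903735062) (nat_lit 168) (nat_lit 5) (nat_lit 172) (nat_lit 5) (nat_lit 173) (nat_lit 5) (nat_lit 533) (nat_lit 484) (nat_lit 183)) (XT.lf (nat_lit 0) (nat_lit 12165489416) (nat_lit 1292) (nat_lit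 6449080510) (nat_lit 1292) (nat_lit 6449080510) (nat_lit 293) (nat_lit 3) (nat_lit 310) (nat_lit 3) (nat_lit 310) (nat_lit 5) (nat_lit 485) (nat_lit 485) (nat_lit 230))) (XT.nd (nat_lit 78) (nat_lit 0) (nat_lit 76) (XT.lf (nat_lit 76) (nat_lit 12099536371) (nat_lit 0) (nat_lit 12738591603) (nat_lit 1292) (nat_lit 26036813280) (nat_lit 294) (nat_lit 5) (nat_lit 293) (nat_lit 3) (nat_lit 310) (nat_lit 5) (nat_lit 486) (nat_lit 485) (nat_lit 229)) (XT.lf (nat_lit 0) (nat_lit 25611046510) (nat_lit 1216) (nat_lit 13651423986) (nat_lit 1292) (nat_lit 12375023844) (nat_lit 294) (nat_lit 5) (nat_lit 310) (nat_lit 5) (nat_lit 311) (nat_lit 5) (nat_lit 487) (nat_lit 485) (nat_lit 228))))) (XT.nd (nat_lit 312) (nat_lit 0) (nat_lit 152) (XT.nd (nat_lit 156) (nat_lit 0) (nat_lit 76) (XT.nd (nat_lit 78) (nat_lit 0) (nat_lit 76) (XT.lf (nat_lit 76) (nat_lit 12340408200) (nat_lit 0) (nat_lit 14310511727) (nat_lit 1292) (nat_lit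 25764691208) (nat_lit 295) (nat_lit 5) (nat_lit 294) (nat_lit 5) (nat_lit 311) (nat_lit 5) (nat_lit 488) (nat_lit 485) (nat_lit 227)) (XT.lf (nat_lit 0) (nat_lit 27969741166) (nat_lit 1216) (nat_lit 13932529006) (nat_lit 1292) (nat_lit 11307368846) (nat_lit 295) (nat_lit 5) (nat_lit 311) (nat_lit 5) (nat_lit 312) (nat_lit 5) (nat_lit 489) (nat_lit 485) (nat_lit 226))) (XT.nd (nat_lit 78) (nat_lit 0) (nat_lit 76) (XT.lf (nat_lit 76) (nat_lit 13107960496) (nat_lit 0) (nat_lit 16486930711) (nat_lit 1292) (nat_lit 24424593734) (nat_lit 296) (nat_lit 5) (nat_lit 295) (nat_lit 5) (nat_lit 312) (nat_lit 5) (nat_lit 490) (nat_lit 485) (nat_lit 225)) (XT.lf (nat_lit 0) (nat_lit 31503133710) (nat_lit 1216) (nat_lit 13699270232) (nat_lit 1292) (nat_lit 9644192285) (nat_lit 296) (nat_lit 5) (nat_lit 312) (nat_lit 5) (nat_lit 313) (nat_lit 5) (nat_lit 491) (nat_lit 485) (nat_lit 224)))) (XT.nd (nat_lit 156) (nat_lit 0) (nat_lit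 76) (XT.nd (nat_lit 78) (nat_lit 0) (nat_lit 76) (XT.lf (nat_lit 76) (nat_lit 14447468810) (nat_lit 0) (nat_lit 19322394955) (nat_lit 1292) (nat_lit 21919620001) (nat_lit 297) (nat_lit 5) (nat_lit 296) (nat_lit 5) (nat_lit 313) (nat_lit 5) (nat_lit 492) (nat_lit 485) (nat_lit 223)) (XT.lf (nat_lit 0) (nat_lit 36313948488) (nat_lit 1216) (nat_lit 12906535922) (nat_lit 1292) (nat_lit 7330893055) (nat_lit 297) (nat_lit 5) (nat_lit 313) (nat_lit 5) (nat_lit 314) (nat_lit 5) (nat_lit 493) (nat_lit 485) (nat_lit 222))) (XT.nd (nat_lit 78) (nat_lit 0) (nat_lit 76) (XT.lf (nat_lit 76) (nat_lit 16407288139) (nat_lit 0) (nat_lit 22875268454) (nat_lit 1292) (nat_lit 18146125469) (nat_lit 298) (nat_lit 5) (nat_lit 297) (nat_lit 5) (nat_lit 314) (nat_lit 5) (nat_lit 494) (nat_lit 485) (nat_lit 221)) (XT.lf (nat_lit 0) (nat_lit 42511990743) (nat_lit 1216) (nat_lit 11506135506) (nat_lit 1292) (nat_lit 4309026628) (nat_lit 298)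 (nat_lit 5) (nat_lit 314) (nat_lit 5) (nat_lit 315) (nat_lit 5) (nat_lit 495) (nat_lit 485) (nat_lit 220)))))) (XT.nd (nat_lit 546) (nat_lit 2432) (nat_lit 0) (XT.nd (nat_lit 234) (nat_lit 1140) (nat_lit 0) (XT.nd (nat_lit 78) (nat_lit 0) (nat_lit 76) (XT.lf (nat_lit 76) (nat_lit 19039035509) (nat_lit 0) (nat_lit 27207992585) (nat_lit 1292) (nat_lit 12993288223) (nat_lit 299) (nat_lit 5) (nat_lit 298) (nat_lit 5) (nat_lit 315) (nat_lit 5) (nat_lit 496) (nat_lit 485) (nat_lit 219)) (XT.nd (nat_lit 78) (nat_lit 0) (nat_lit 0) (XT.lf (nat_lit 0) (nat_lit 50214600032) (nat_lit 1216) (nat_lit 9446616978) (nat_lit 1292) (nat_lit 516043250) (nat_lit 299) (nat_lit 5) (nat_lit 315) (nat_lit 5) (nat_lit 316) (nat_lit 5) (nat_lit 497) (nat_lit 485) (nat_lit 218)) (XT.lf (nat_lit 76) (nat_lit 22397782733) (nat_lit 0) (nat_lit 32387362550) (nat_lit 1292) (nat_lit 6342648956) (nat_lit 300) (nat_lit 5) (nat_lit 299) (nat_lit 5)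 (nat_lit 316) (nat_lit 5) (nat_lit 498) (nat_lit 485) (nat_lit 217)))) (XT.nd (nat_lit 156) (nat_lit 0) (nat_lit 0) (XT.nd (nat_lit 78) (nat_lit 1216) (nat_lit 0) (XT.lf (nat_lit 76) (nat_lit 55390587121) (nat_lit 0) (nat_lit 4196887052) (nat_lit 1292) (nat_lit 2516530144) (nat_lit 300) (nat_lit 5) (nat_lit 299) (nat_lit 5) (nat_lit 316) (nat_lit 5) (nat_lit 499) (nat_lit 485) (nat_lit 216)) (XT.lf (nat_lit 0) (nat_lit 1894669270) (nat_lit 1292) (nat_lit 36571019887) (nat_lit 1368) (nat_lit 24628458125) (nat_lit 283) (nat_lit 5) (nat_lit 300) (nat_lit 5) (nat_lit 301) (nat_lit 5) (nat_lit 500) (nat_lit 485) (nat_lit 215))) (XT.nd (nat_lit 78) (nat_lit 0) (nat_lit 76) (XT.lf (nat_lit 0) (nat_lit 6496947350) (nat_lit 1292) (nat_lit 3285302502) (nat_lit 1368) (nat_lit 54327717616) (nat_lit 283) (nat_lit 5) (nat_lit 300) (nat_lit 5) (nat_lit 301) (nat_lit 5) (nat_lit 501) (nat_lit 485) (nat_lit 214)) (XT.lf (nat_lit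 0) (nat_lit 11733497027) (nat_lit 1292) (nat_lit 33724791907) (nat_lit 76) (nat_lit 19683087317) (nat_lit 284) (nat_lit 5) (nat_lit 301) (nat_lit 5) (nat_lit 285) (nat_lit 5) (nat_lit 502) (nat_lit 485) (nat_lit 213))))) (XT.nd (nat_lit 312) (nat_lit 1140) (nat_lit 0) (XT.nd (nat_lit 156) (nat_lit 608) (nat_lit 0) (XT.nd (nat_lit 78) (nat_lit 0) (nat_lit 0) (XT.lf (nat_lit 0) (nat_lit 944809518) (nat_lit 760) (nat_lit 16321114194) (nat_lit 836) (nat_lit 48933640255) (nat_lit 274) (nat_lit 5) (nat_lit 284) (nat_lit 5) (nat_lit 285) (nat_lit 5) (nat_lit 503) (nat_lit 485) (nat_lit 212)) (XT.lf (nat_lit 0) (nat_lit 23439202777) (nat_lit 836) (nat_lit 30069026954) (nat_lit 76) (nat_lit 13767021276) (nat_lit 274) (nat_lit 5) (nat_lit 285) (nat_lit 5) (nat_lit 275) (nat_lit 5) (nat_lit 504) (nat_lit 485) (nat_lit 211))) (XT.nd (nat_lit 78) (nat_lit 0) (nat_lit 0) (XT.lf (nat_lit 0) (nat_lit 6129707063) (nat_lit 608) (nat_lit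 23887864756) (nat_lit 684) (nat_lit 38359040173) (nat_lit 266) (nat_lit 5) (nat_lit 274) (nat_lit 5) (nat_lit 275) (nat_lit 5) (nat_lit 505) (nat_lit 485) (nat_lit 210)) (XT.lf (nat_lit 0) (nat_lit 37162969597) (nat_lit 684) (nat_lit 25538364364) (nat_lit 76) (nat_lit 6798589593) (nat_lit 266) (nat_lit 5) (nat_lit 275) (nat_lit 5) (nat_lit 267) (nat_lit 5) (nat_lit 506) (nat_lit 485) (nat_lit 209)))) (XT.nd (nat_lit 156) (nat_lit 532) (nat_lit 0) (XT.nd (nat_lit 78) (nat_lit 0) (nat_lit 0) (XT.lf (nat_lit 0) (nat_lit 12273847342) (nat_lit 608) (nat_lit 32602784021) (nat_lit 684) (nat_lit 25769686114) (nat_lit 258) (nat_lit 5) (nat_lit 266) (nat_lit 5) (nat_lit 267) (nat_lit 5) (nat_lit 507) (nat_lit 485) (nat_lit 208)) (XT.lf (nat_lit 0) (nat_lit 51743363970) (nat_lit 608) (nat_lit 1335643061) (nat_lit 684) (nat_lit 18740377138) (nat_lit 258) (nat_lit 5) (nat_lit 266) (nat_lit 5) (nat_lit 267) (nat_lit 5) (nat_lit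 508) (nat_lit 485) (nat_lit 207))) (XT.nd (nat_lit 78) (nat_lit 0) (nat_lit 0) (XT.lf (nat_lit 0) (nat_lit 19451583724) (nat_lit 532) (nat_lit 42559021135) (nat_lit 608) (nat_lit 11002543547) (nat_lit 251) (nat_lit 5) (nat_lit 258) (nat_lit 5) (nat_lit 259) (nat_lit 5) (nat_lit 509) (nat_lit 485) (nat_lit 206)) (XT.lf (nat_lit 0) (nat_lit 60562499406) (nat_lit 532) (nat_lit 10862918963) (nat_lit 608) (nat_lit 2810849238) (nat_lit 251) (nat_lit 5) (nat_lit 258) (nat_lit 5) (nat_lit 259) (nat_lit 5) (nat_lit 510) (nat_lit 485) (nat_lit 205))))))) (XT.nd (nat_lit 1170) (nat_lit 1520) (nat_lit 0) (XT.nd (nat_lit 546) (nat_lit 2356) (nat_lit 0) (XT.nd (nat_lit 234) (nat_lit 988) (nat_lit 0) (XT.nd (nat_lit 78) (nat_lit 532) (nat_lit 0) (XT.lf (nat_lit 0) (nat_lit 5997045017) (nat_lit 608) (nat_lit 47798568702) (nat_lit 76) (nat_lit 21684436814) (nat_lit 243) (nat_lit 5) (nat_lit 251) (nat_lit 5) (nat_lit 244) (nat_lit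 5) (nat_lit 511) (nat_lit 485) (nat_lit 204)) (XT.nd (nat_lit 78) (nat_lit 532) (nat_lit 0) (XT.lf (nat_lit 0) (nat_lit 15259145653) (nat_lit 608) (nat_lit 6336639781) (nat_lit 76) (nat_lit 55157132724) (nat_lit 243) (nat_lit 5) (nat_lit 251) (nat_lit 5) (nat_lit 244) (nat_lit 5) (nat_lit 512) (nat_lit 485) (nat_lit 203)) (XT.lf (nat_lit 0) (nat_lit 25269893681) (nat_lit 608) (nat_lit 41075641435) (nat_lit 76) (nat_lit 11704313228) (nat_lit 236) (nat_lit 5) (nat_lit 244) (nat_lit 5) (nat_lit 237) (nat_lit 5) (nat_lit 513) (nat_lit 485) (nat_lit 202)))) (XT.nd (nat_lit 156) (nat_lit 456) (nat_lit 0) (XT.nd (nat_lit 78) (nat_lit 0) (nat_lit 0) (XT.lf (nat_lit 0) (nat_lit 2157591033) (nat_lit 532) (nat_lit 33722044838) (nat_lit 608) (nat_lit 43497090470) (nat_lit 229) (nat_lit 5) (nat_lit 236) (nat_lit 5) (nat_lit 237) (nat_lit 5) (nat_lit 514) (nat_lit 485) (nat_lit 201)) (XT.lf (nat_lit 0) (nat_lit 47224908141) (nat_lit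 608) (nat_lit 33204665188) (nat_lit 76) (nat_lit 301320274) (nat_lit 229) (nat_lit 5) (nat_lit 237) (nat_lit 5) (nat_lit 230) (nat_lit 5) (nat_lit 515) (nat_lit 485) (nat_lit 200))) (XT.nd (nat_lit 78) (nat_lit 0) (nat_lit 0) (XT.lf (nat_lit 0) (nat_lit 12030559506) (nat_lit 456) (nat_lit 47329020052) (nat_lit 532) (nat_lit 22752635152) (nat_lit 223) (nat_lit 5) (nat_lit 229) (nat_lit 5) (nat_lit 230) (nat_lit 5) (nat_lit 516) (nat_lit 485) (nat_lit 199)) (XT.lf (nat_lit 0) (nat_lit 59302952042) (nat_lit 456) (nat_lit 12890164177) (nat_lit 532) (nat_lit 11331814531) (nat_lit 223) (nat_lit 5) (nat_lit 229) (nat_lit 5) (nat_lit 230) (nat_lit 5) (nat_lit 517) (nat_lit 485) (nat_lit 198))))) (XT.nd (nat_lit 312) (nat_lit 1368) (nat_lit 0) (XT.nd (nat_lit 156) (nat_lit 456) (nat_lit 0) (XT.nd (nat_lit 78) (nat_lit 0) (nat_lit 0) (XT.lf (nat_lit 0) (nat_lit 867661185) (nat_lit 532) (nat_lit 61725781149) (nat_lit 76) (nat_lit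 22373127921) (nat_lit 216) (nat_lit 5) (nat_lit 223) (nat_lit 5) (nat_lit 217) (nat_lit 5) (nat_lit 518) (nat_lit 485) (nat_lit 197)) (XT.lf (nat_lit 0) (nat_lit 13579544529) (nat_lit 532) (nat_lit 14062950605) (nat_lit 76) (nat_lit 58794372529) (nat_lit 216) (nat_lit 5) (nat_lit 223) (nat_lit 5) (nat_lit 217) (nat_lit 5) (nat_lit 519) (nat_lit 485) (nat_lit 196))) (XT.nd (nat_lit 78) (nat_lit 0) (nat_lit 0) (XT.lf (nat_lit 0) (nat_lit 27099493353) (nat_lit 532) (nat_lit 52298338189) (nat_lit 76) (nat_lit 8540641230) (nat_lit 210) (nat_lit 5) (nat_lit 217) (nat_lit 5) (nat_lit 211) (nat_lit 5) (nat_lit 520) (nat_lit 485) (nat_lit 195)) (XT.lf (nat_lit 0) (nat_lit 41441703366) (nat_lit 532) (nat_lit 2633914765) (nat_lit 76) (nat_lit 45397008068) (nat_lit 210) (nat_lit 5) (nat_lit 217) (nat_lit 5) (nat_lit 211) (nat_lit 5) (nat_lit 521) (nat_lit 485) (nat_lit 194)))) (XT.nd (nat_lit 156) (nat_lit 532) (nat_lit 0)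 (XT.nd (nat_lit 78) (nat_lit 380) (nat_lit 0) (XT.lf (nat_lit 0) (nat_lit 49485554700) (nat_lit 456) (nat_lit 7203883610) (nat_lit 532) (nat_lit 34349108206) (nat_lit 204) (nat_lit 5) (nat_lit 210) (nat_lit 5) (nat_lit 211) (nat_lit 5) (nat_lit 522) (nat_lit 485) (nat_lit 193)) (XT.lf (nat_lit 0) (nat_lit 10479837364) (nat_lit 380) (nat_lit 62337765422) (nat_lit 456) (nat_lit 19821151776) (nat_lit 199) (nat_lit 5) (nat_lit 204) (nat_lit 5) (nat_lit 205) (nat_lit 5) (nat_lit 523) (nat_lit 485) (nat_lit 192))) (XT.nd (nat_lit 78) (nat_lit 532) (nat_lit 0) (XT.lf (nat_lit 0) (nat_lit 64852172630) (nat_lit 380) (nat_lit 25067256391) (nat_lit 456) (nat_lit 4352845367) (nat_lit 199) (nat_lit 5) (nat_lit 204) (nat_lit 5) (nat_lit 205) (nat_lit 5) (nat_lit 524) (nat_lit 485) (nat_lit 191)) (XT.lf (nat_lit 0) (nat_lit 11727737273) (nat_lit 532) (nat_lit 70793344681) (nat_lit 76) (nat_lit 13419153066) (nat_lit 192) (nat_lit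 5) (nat_lit 199) (nat_lit 5) (nat_lit 193) (nat_lit 5) (nat_lit 525) (nat_lit 485) (nat_lit 190)))))) (XT.nd (nat_lit 59358) (nat_lit 0) (nat_lit 9196) (XT.nd (nat_lit 312) (nat_lit 760) (nat_lit 0) (XT.nd (nat_lit 156) (nat_lit 380) (nat_lit 0) (XT.nd (nat_lit 78) (nat_lit 380) (nat_lit 0) (XT.lf (nat_lit 0) (nat_lit 28751067439) (nat_lit 532) (nat_lit 15990103751) (nat_lit 76) (nat_lit 52899335857) (nat_lit 192) (nat_lit 5) (nat_lit 199) (nat_lit 5) (nat_lit 193) (nat_lit 5) (nat_lit 526) (nat_lit 485) (nat_lit 189)) (XT.lf (nat_lit 0) (nat_lit 41261890165) (nat_lit 380) (nat_lit 5419454003) (nat_lit 456) (nat_lit 52698555706) (nat_lit 187) (nat_lit 5) (nat_lit 192) (nat_lit 5) (nat_lit 193) (nat_lit 5) (nat_lit 527) (nat_lit 485) (nat_lit 188))) (XT.nd (nat_lit 78) (nat_lit 380) (nat_lit 0) (XT.lf (nat_lit 0) (nat_lit 65649442756) (nat_lit 456) (nat_lit 946750187) (nat_lit 76) (nat_lit 34560284172) (nat_lit 187)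 (nat_lit 5) (nat_lit 193) (nat_lit 5) (nat_lit 188) (nat_lit 5) (nat_lit 528) (nat_lit 485) (nat_lit 187)) (XT.lf (nat_lit 0) (nat_lit 59037521334) (nat_lit 380) (nat_lit 26769854183) (nat_lit 456) (nat_lit 17160352457) (nat_lit 182) (nat_lit 5) (nat_lit 187) (nat_lit 5) (nat_lit 188) (nat_lit 5) (nat_lit 529) (nat_lit 485) (nat_lit 186)))) (XT.nd (nat_lit 156) (nat_lit 380) (nat_lit 0) (XT.nd (nat_lit 78) (nat_lit 0) (nat_lit 0) (XT.lf (nat_lit 0) (nat_lit 2007698282) (nat_lit 380) (nat_lit 88657992459) (nat_lit 76) (nat_lit 14157979069) (nat_lit 177) (nat_lit 5) (nat_lit 182) (nat_lit 5) (nat_lit 178) (nat_lit 5) (nat_lit 530) (nat_lit 485) (nat_lit 185)) (XT.lf (nat_lit 0) (nat_lit 22118569127) (nat_lit 380) (nat_lit 28196871937) (nat_lit 76) (nat_lit 56393371195) (nat_lit 177) (nat_lit 5) (nat_lit 182) (nat_lit 5) (nat_lit 178) (nat_lit 5) (nat_lit 531) (nat_lit 485) (nat_lit 184))) (XT.nd (nat_lit 78) (nat_lit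 0) (nat_lit 0) (XT.lf (nat_lit 0) (nat_lit 34755798223) (nat_lit 380) (nat_lit 8410707982) (nat_lit 456) (nat_lit 65473990605) (nat_lit 172) (nat_lit 5) (nat_lit 177) (nat_lit 5) (nat_lit 178) (nat_lit 5) (nat_lit 532) (nat_lit 485) (nat_lit 183)) (XT.lf (nat_lit 0) (nat_lit 65467133484) (nat_lit 456) (nat_lit 10783900853) (nat_lit 76) (nat_lit 34360460031) (nat_lit 172) (nat_lit 5) (nat_lit 178) (nat_lit 5) (nat_lit 173) (nat_lit 5) (nat_lit 533) (nat_lit 485) (nat_lit 182))))) (XT.nd (nat_lit 312) (nat_lit 0) (nat_lit 152) (XT.nd (nat_lit 156) (nat_lit 0) (nat_lit 76) (XT.nd (nat_lit 78) (nat_lit 0) (nat_lit 0) (XT.lf (nat_lit 0) (nat_lit 12556081674) (nat_lit 1292) (nat_lit 6629352942) (nat_lit 1292) (nat_lit 6629352942) (nat_lit 293) (nat_lit 3) (nat_lit 310) (nat_lit 3) (nat_lit 310) (nat_lit 5) (nat_lit 486) (nat_lit 486) (nat_lit 228)) (XT.lf (nat_lit 76) (nat_lit 12488663604) (nat_lit 0) (nat_lit 13144621775)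 (nat_lit 1292) (nat_lit 26766396787) (nat_lit 294) (nat_lit 5) (nat_lit 293) (nat_lit 3) (nat_lit 310) (nat_lit 5) (nat_lit 487) (nat_lit 486) (nat_lit 227))) (XT.nd (nat_lit 78) (nat_lit 0) (nat_lit 0) (XT.lf (nat_lit 0) (nat_lit 26427711973) (nat_lit 1216) (nat_lit 14033900742) (nat_lit 1292) (nat_lit 12723549717) (nat_lit 294) (nat_lit 5) (nat_lit 310) (nat_lit 5) (nat_lit 311) (nat_lit 5) (nat_lit 488) (nat_lit 486) (nat_lit 226)) (XT.lf (nat_lit 76) (nat_lit 12737421057) (nat_lit 0) (nat_lit 14760210371) (nat_lit 1292) (nat_lit 26489026003) (nat_lit 295) (nat_lit 5) (nat_lit 294) (nat_lit 5) (nat_lit 311) (nat_lit 5) (nat_lit 489) (nat_lit 486) (nat_lit 225)))) (XT.nd (nat_lit 156) (nat_lit 0) (nat_lit 76) (XT.nd (nat_lit 78) (nat_lit 0) (nat_lit 0) (XT.lf (nat_lit 0) (nat_lit 28854452786) (nat_lit 1216) (nat_lit 14322914016) (nat_lit 1292) (nat_lit 11627186474) (nat_lit 295) (nat_lit 5) (nat_lit 311) (nat_lit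 5) (nat_lit 312) (nat_lit 5) (nat_lit 490) (nat_lit 486) (nat_lit 224)) (XT.lf (nat_lit 76) (nat_lit 13528519673) (nat_lit 0) (nat_lit 16998771555) (nat_lit 1292) (nat_lit 25111435516) (nat_lit 296) (nat_lit 5) (nat_lit 295) (nat_lit 5) (nat_lit 312) (nat_lit 5) (nat_lit 491) (nat_lit 486) (nat_lit 223))) (XT.nd (nat_lit 78) (nat_lit 0) (nat_lit 0) (XT.lf (nat_lit 0) (nat_lit 32491322510) (nat_lit 1216) (nat_lit 14082259251) (nat_lit 1292) (nat_lit 9917113542) (nat_lit 296) (nat_lit 5) (nat_lit 312) (nat_lit 5) (nat_lit 313) (nat_lit 5) (nat_lit 492) (nat_lit 486) (nat_lit 222)) (XT.lf (nat_lit 76) (nat_lit 14908607559) (nat_lit 0) (nat_lit 19916458130) (nat_lit 1292) (nat_lit 22533833616) (nat_lit 297) (nat_lit 5) (nat_lit 296) (nat_lit 5) (nat_lit 313) (nat_lit 5) (nat_lit 493) (nat_lit 486) (nat_lit 221))))))))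
noncomputable def xc243 : XT := (XT.nd (nat_lit 2340) (nat_lit 2052) (nat_lit 0) (XT.nd (nat_lit 1170) (nat_lit 4104) (nat_lit 0) (XT.nd (nat_lit 546) (nat_lit 2964) (nat_lit 0) (XT.nd (nat_lit 234) (nat_lit 0) (nat_lit 76) (XT.nd (nat_lit 78) (nat_lit 0) (nat_lit 0) (XT.lf (nat_lit 0) (nat_lit 37444112255) (nat_lit 1216) (nat_lit 13265458216) (nat_lit 1292) (nat_lit 7537120333) (nat_lit 297) (nat_lit 5) (nat_lit 313) (nat_lit 5) (nat_lit 314) (nat_lit 5) (nat_lit 494) (nat_lit 486) (nat_lit 220)) (XT.nd (nat_lit 78) (nat_lit 0) (nat_lit 76) (XT.lf (nat_lit 76) (nat_lit 16927503373) (nat_lit 0) (nat_lit 23573357595) (nat_lit 1292) (nat_lit 18649481265) (nat_lit 298) (nat_lit 5) (nat_lit 297) (nat_lit 5) (nat_lit 314) (nat_lit 5) (nat_lit 495) (nat_lit 486) (nat_lit 219)) (XT.lf (nat_lit 0) (nat_lit 43825907697) (nat_lit 1216) (nat_lit 11822862669) (nat_lit 1292) (nat_lit 4427035077) (nat_lit 298) (nat_lit 5) (nat_lit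 314) (nat_lit 5) (nat_lit 315) (nat_lit 5) (nat_lit 496) (nat_lit 486) (nat_lit 218)))) (XT.nd (nat_lit 156) (nat_lit 0) (nat_lit 76) (XT.nd (nat_lit 78) (nat_lit 0) (nat_lit 76) (XT.lf (nat_lit 76) (nat_lit 19638384487) (nat_lit 0) (nat_lit 28033759519) (nat_lit 1292) (nat_lit 13344245500) (nat_lit 299) (nat_lit 5) (nat_lit 298) (nat_lit 5) (nat_lit 315) (nat_lit 5) (nat_lit 497) (nat_lit 486) (nat_lit 217)) (XT.lf (nat_lit 0) (nat_lit 51757555983) (nat_lit 1216) (nat_lit 9701466173) (nat_lit 1292) (nat_lit 522455376) (nat_lit 299) (nat_lit 5) (nat_lit 315) (nat_lit 5) (nat_lit 316) (nat_lit 5) (nat_lit 498) (nat_lit 486) (nat_lit 216))) (XT.nd (nat_lit 78) (nat_lit 0) (nat_lit 0) (XT.lf (nat_lit 76) (nat_lit 23097985633) (nat_lit 0) (nat_lit 33366440071) (nat_lit 1292) (nat_lit 6496125727) (nat_lit 300) (nat_lit 5) (nat_lit 299) (nat_lit 5) (nat_lit 316) (nat_lit 5) (nat_lit 499) (nat_lit 486) (nat_lit 215)) (XT.lf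 (nat_lit 76) (nat_lit 57079750772) (nat_lit 0) (nat_lit 4330033125) (nat_lit 1292) (nat_lit 2556295274) (nat_lit 300) (nat_lit 5) (nat_lit 299) (nat_lit 5) (nat_lit 316) (nat_lit 5) (nat_lit 500) (nat_lit 486) (nat_lit 214))))) (XT.nd (nat_lit 312) (nat_lit 1216) (nat_lit 0) (XT.nd (nat_lit 156) (nat_lit 684) (nat_lit 0) (XT.nd (nat_lit 78) (nat_lit 0) (nat_lit 0) (XT.lf (nat_lit 0) (nat_lit 1985728805) (nat_lit 1292) (nat_lit 37639184114) (nat_lit 1368) (nat_lit 25361027758) (nat_lit 283) (nat_lit 5) (nat_lit 300) (nat_lit 5) (nat_lit 301) (nat_lit 5) (nat_lit 501) (nat_lit 486) (nat_lit 213)) (XT.lf (nat_lit 0) (nat_lit 6725078544) (nat_lit 1292) (nat_lit 3355738889) (nat_lit 1368) (nat_lit 55951448066) (nat_lit 283) (nat_lit 5) (nat_lit 300) (nat_lit 5) (nat_lit 301) (nat_lit 5) (nat_lit 502) (nat_lit 486) (nat_lit 212))) (XT.nd (nat_lit 78) (nat_lit 760) (nat_lit 0) (XT.lf (nat_lit 0) (nat_lit 12117979793) (nat_lit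 1292) (nat_lit 34707663872) (nat_lit 76) (nat_lit 20268995352) (nat_lit 284) (nat_lit 5) (nat_lit 301) (nat_lit 5) (nat_lit 285) (nat_lit 5) (nat_lit 503) (nat_lit 486) (nat_lit 211)) (XT.lf (nat_lit 0) (nat_lit 1001742539) (nat_lit 760) (nat_lit 16813965594) (nat_lit 836) (nat_lit 50368884487) (nat_lit 274) (nat_lit 5) (nat_lit 284) (nat_lit 5) (nat_lit 285) (nat_lit 5) (nat_lit 504) (nat_lit 486) (nat_lit 210)))) (XT.nd (nat_lit 156) (nat_lit 608) (nat_lit 0) (XT.nd (nat_lit 78) (nat_lit 608) (nat_lit 0) (XT.lf (nat_lit 0) (nat_lit 24173229129) (nat_lit 836) (nat_lit 30942381323) (nat_lit 76) (nat_lit 14176968633) (nat_lit 274) (nat_lit 5) (nat_lit 285) (nat_lit 5) (nat_lit 275) (nat_lit 5) (nat_lit 505) (nat_lit 486) (nat_lit 209)) (XT.lf (nat_lit 0) (nat_lit 6342033182) (nat_lit 608) (nat_lit 24606290844) (nat_lit 684) (nat_lit 39478675745) (nat_lit 266) (nat_lit 5) (nat_lit 274) (nat_lit 5) (nat_lit 275) (nat_lit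 5) (nat_lit 506) (nat_lit 486) (nat_lit 208))) (XT.nd (nat_lit 78) (nat_lit 608) (nat_lit 0) (XT.lf (nat_lit 0) (nat_lit 38307186688) (nat_lit 684) (nat_lit 26276007823) (nat_lit 76) (nat_lit 7000843191) (nat_lit 266) (nat_lit 5) (nat_lit 275) (nat_lit 5) (nat_lit 267) (nat_lit 5) (nat_lit 507) (nat_lit 486) (nat_lit 207)) (XT.lf (nat_lit 0) (nat_lit 12670290749) (nat_lit 608) (nat_lit 33581384689) (nat_lit 684) (nat_lit 26513165598) (nat_lit 258) (nat_lit 5) (nat_lit 266) (nat_lit 5) (nat_lit 267) (nat_lit 5) (nat_lit 508) (nat_lit 486) (nat_lit 206)))))) (XT.nd (nat_lit 546) (nat_lit 1900) (nat_lit 0) (XT.nd (nat_lit 234) (nat_lit 1672) (nat_lit 0) (XT.nd (nat_lit 78) (nat_lit 532) (nat_lit 0) (XT.lf (nat_lit 0) (nat_lit 53323070702) (nat_lit 608) (nat_lit 1376214437) (nat_lit 684) (nat_lit 19273839812) (nat_lit 258) (nat_lit 5) (nat_lit 266) (nat_lit 5) (nat_lit 267) (nat_lit 5) (nat_lit 509) (nat_lit 486) (nat_lit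 205)) (XT.nd (nat_lit 78) (nat_lit 0) (nat_lit 0) (XT.lf (nat_lit 0) (nat_lit 20063105643) (nat_lit 532) (nat_lit 43835176629) (nat_lit 608) (nat_lit 11304436405) (nat_lit 251) (nat_lit 5) (nat_lit 258) (nat_lit 5) (nat_lit 259) (nat_lit 5) (nat_lit 510) (nat_lit 486) (nat_lit 204)) (XT.lf (nat_lit 0) (nat_lit 62406534007) (nat_lit 532) (nat_lit 11188209309) (nat_lit 608) (nat_lit 2867812143) (nat_lit 251) (nat_lit 5) (nat_lit 258) (nat_lit 5) (nat_lit 259) (nat_lit 5) (nat_lit 511) (nat_lit 486) (nat_lit 203)))) (XT.nd (nat_lit 156) (nat_lit 1064) (nat_lit 0) (XT.nd (nat_lit 78) (nat_lit 0) (nat_lit 0) (XT.lf (nat_lit 0) (nat_lit 6203277920) (nat_lit 608) (nat_lit 49204318804) (nat_lit 76) (nat_lit 22336062563) (nat_lit 243) (nat_lit 5) (nat_lit 251) (nat_lit 5) (nat_lit 244) (nat_lit 5) (nat_lit 512) (nat_lit 486) (nat_lit 202)) (XT.lf (nat_lit 0) (nat_lit 15742474929) (nat_lit 608) (nat_lit 6499353577) (nat_lit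 76) (nat_lit 56812907527) (nat_lit 243) (nat_lit 5) (nat_lit 251) (nat_lit 5) (nat_lit 244) (nat_lit 5) (nat_lit 513) (nat_lit 486) (nat_lit 201))) (XT.nd (nat_lit 78) (nat_lit 532) (nat_lit 0) (XT.lf (nat_lit 0) (nat_lit 26053081408) (nat_lit 608) (nat_lit 42280058356) (nat_lit 76) (nat_lit 12057448367) (nat_lit 236) (nat_lit 5) (nat_lit 244) (nat_lit 5) (nat_lit 237) (nat_lit 5) (nat_lit 514) (nat_lit 486) (nat_lit 200)) (XT.lf (nat_lit 0) (nat_lit 2249898024) (nat_lit 532) (nat_lit 34730752145) (nat_lit 608) (nat_lit 44776636355) (nat_lit 229) (nat_lit 5) (nat_lit 236) (nat_lit 5) (nat_lit 237) (nat_lit 5) (nat_lit 515) (nat_lit 486) (nat_lit 199))))) (XT.nd (nat_lit 312) (nat_lit 912) (nat_lit 0) (XT.nd (nat_lit 156) (nat_lit 532) (nat_lit 0) (XT.nd (nat_lit 78) (nat_lit 456) (nat_lit 0) (XT.lf (nat_lit 0) (nat_lit 48665590937) (nat_lit 608) (nat_lit 34173336725) (nat_lit 76) (nat_lit 313171916) (nat_lit 229)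 (nat_lit 5) (nat_lit 237) (nat_lit 5) (nat_lit 230) (nat_lit 5) (nat_lit 516) (nat_lit 486) (nat_lit 198)) (XT.lf (nat_lit 0) (nat_lit 12418675411) (nat_lit 456) (nat_lit 48745191387) (nat_lit 532) (nat_lit 23411006670) (nat_lit 223) (nat_lit 5) (nat_lit 229) (nat_lit 5) (nat_lit 230) (nat_lit 5) (nat_lit 517) (nat_lit 486) (nat_lit 197))) (XT.nd (nat_lit 78) (nat_lit 532) (nat_lit 0) (XT.lf (nat_lit 0) (nat_lit 61108447516) (nat_lit 456) (nat_lit 13273277582) (nat_lit 532) (nat_lit 11648266504) (nat_lit 223) (nat_lit 5) (nat_lit 229) (nat_lit 5) (nat_lit 230) (nat_lit 5) (nat_lit 518) (nat_lit 486) (nat_lit 196)) (XT.lf (nat_lit 0) (nat_lit 916357648) (nat_lit 532) (nat_lit 63550306845) (nat_lit 76) (nat_lit 23048220414) (nat_lit 216) (nat_lit 5) (nat_lit 223) (nat_lit 5) (nat_lit 217) (nat_lit 5) (nat_lit 519) (nat_lit 486) (nat_lit 195)))) (XT.nd (nat_lit 156) (nat_lit 456) (nat_lit 0) (XT.nd (nat_lit 78) (nat_lit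 456) (nat_lit 0) (XT.lf (nat_lit 0) (nat_lit 14008937299) (nat_lit 532) (nat_lit 14458385008) (nat_lit 76) (nat_lit 60561988806) (nat_lit 216) (nat_lit 5) (nat_lit 223) (nat_lit 5) (nat_lit 217) (nat_lit 5) (nat_lit 520) (nat_lit 486) (nat_lit 194)) (XT.lf (nat_lit 0) (nat_lit 27934139425) (nat_lit 532) (nat_lit 53840486740) (nat_lit 76) (nat_lit 8801348635) (nat_lit 210) (nat_lit 5) (nat_lit 217) (nat_lit 5) (nat_lit 211) (nat_lit 5) (nat_lit 521) (nat_lit 486) (nat_lit 193))) (XT.nd (nat_lit 78) (nat_lit 456) (nat_lit 0) (XT.lf (nat_lit 0) (nat_lit 42705984827) (nat_lit 532) (nat_lit 2686911242) (nat_lit 76) (nat_lit 46763275755) (nat_lit 210) (nat_lit 5) (nat_lit 217) (nat_lit 5) (nat_lit 211) (nat_lit 5) (nat_lit 522) (nat_lit 486) (nat_lit 192)) (XT.lf (nat_lit 0) (nat_lit 50995887200) (nat_lit 456) (nat_lit 7414899763) (nat_lit 532) (nat_lit 35358293799) (nat_lit 204) (nat_lit 5) (nat_lit 210) (nat_lit 5)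 (nat_lit 211) (nat_lit 5) (nat_lit 523) (nat_lit 486) (nat_lit 191))))))) (XT.nd (nat_lit 60060) (nat_lit 0) (nat_lit 6764) (XT.nd (nat_lit 546) (nat_lit 380) (nat_lit 0) (XT.nd (nat_lit 234) (nat_lit 760) (nat_lit 0) (XT.nd (nat_lit 78) (nat_lit 532) (nat_lit 0) (XT.lf (nat_lit 0) (nat_lit 10820313240) (nat_lit 380) (nat_lit 64202179529) (nat_lit 456) (nat_lit 20394811452) (nat_lit 199) (nat_lit 5) (nat_lit 204) (nat_lit 5) (nat_lit 205) (nat_lit 5) (nat_lit 524) (nat_lit 486) (nat_lit 190)) (XT.nd (nat_lit 78) (nat_lit 532) (nat_lit 0) (XT.lf (nat_lit 0) (nat_lit 66823058931) (nat_lit 380) (nat_lit 25813721795) (nat_lit 456) (nat_lit 4463066770) (nat_lit 199) (nat_lit 5) (nat_lit 204) (nat_lit 5) (nat_lit 205) (nat_lit 5) (nat_lit 525) (nat_lit 486) (nat_lit 189)) (XT.lf (nat_lit 0) (nat_lit 12099255364) (nat_lit 532) (nat_lit 72891141975) (nat_lit 76) (nat_lit 13827452210) (nat_lit 192) (nat_lit 5) (nat_lit 199)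 (nat_lit 5) (nat_lit 193) (nat_lit 5) (nat_lit 526) (nat_lit 486) (nat_lit 188)))) (XT.nd (nat_lit 156) (nat_lit 380) (nat_lit 0) (XT.nd (nat_lit 78) (nat_lit 380) (nat_lit 0) (XT.lf (nat_lit 0) (nat_lit 29632712058) (nat_lit 532) (nat_lit 16444561187) (nat_lit 76) (nat_lit 54491873751) (nat_lit 192) (nat_lit 5) (nat_lit 199) (nat_lit 5) (nat_lit 193) (nat_lit 5) (nat_lit 527) (nat_lit 486) (nat_lit 187)) (XT.lf (nat_lit 0) (nat_lit 42524745039) (nat_lit 380) (nat_lit 5575835669) (nat_lit 456) (nat_lit 54260150446) (nat_lit 187) (nat_lit 5) (nat_lit 192) (nat_lit 5) (nat_lit 193) (nat_lit 5) (nat_lit 528) (nat_lit 486) (nat_lit 186))) (XT.nd (nat_lit 78) (nat_lit 380) (nat_lit 0) (XT.lf (nat_lit 0) (nat_lit 67637232673) (nat_lit 456) (nat_lit 950391267) (nat_lit 76) (nat_lit 35602996514) (nat_lit 187) (nat_lit 5) (nat_lit 193) (nat_lit 5) (nat_lit 188) (nat_lit 5) (nat_lit 529) (nat_lit 486) (nat_lit 185)) (XT.lf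 (nat_lit 0) (nat_lit 60833165640) (nat_lit 380) (nat_lit 27566440261) (nat_lit 456) (nat_lit 17656611913) (nat_lit 182) (nat_lit 5) (nat_lit 187) (nat_lit 5) (nat_lit 188) (nat_lit 5) (nat_lit 530) (nat_lit 486) (nat_lit 184))))) (XT.nd (nat_lit 59202) (nat_lit 0) (nat_lit 8892) (XT.nd (nat_lit 59046) (nat_lit 0) (nat_lit 8816) (XT.nd (nat_lit 78) (nat_lit 0) (nat_lit 0) (XT.lf (nat_lit 0) (nat_lit 2085890218) (nat_lit 380) (nat_lit 91292620137) (nat_lit 76) (nat_lit 14589329094) (nat_lit 177) (nat_lit 5) (nat_lit 182) (nat_lit 5) (nat_lit 178) (nat_lit 5) (nat_lit 531) (nat_lit 486) (nat_lit 183)) (XT.lf (nat_lit 0) (nat_lit 22799564053) (nat_lit 380) (nat_lit 29018397420) (nat_lit 76) (nat_lit 58091590440) (nat_lit 177) (nat_lit 5) (nat_lit 182) (nat_lit 5) (nat_lit 178) (nat_lit 5) (nat_lit 532) (nat_lit 486) (nat_lit 182))) (XT.nd (nat_lit 78) (nat_lit 0) (nat_lit 0) (XT.lf (nat_lit 0) (nat_lit 12956920571)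 (nat_lit 1292) (nat_lit 6815791281) (nat_lit 1292) (nat_lit 6815791281) (nat_lit 293) (nat_lit 3) (nat_lit 310) (nat_lit 3) (nat_lit 310) (nat_lit 5) (nat_lit 487) (nat_lit 487) (nat_lit 226)) (XT.lf (nat_lit 76) (nat_lit 12887964046) (nat_lit 0) (nat_lit 13561462478) (nat_lit 1292) (nat_lit 27520825309) (nat_lit 294) (nat_lit 5) (nat_lit 293) (nat_lit 3) (nat_lit 310) (nat_lit 5) (nat_lit 488) (nat_lit 487) (nat_lit 225)))) (XT.nd (nat_lit 156) (nat_lit 0) (nat_lit 76) (XT.nd (nat_lit 78) (nat_lit 0) (nat_lit 0) (XT.lf (nat_lit 0) (nat_lit 27266102827) (nat_lit 1216) (nat_lit 14429405497) (nat_lit 1292) (nat_lit 13083835865) (nat_lit 294) (nat_lit 5) (nat_lit 310) (nat_lit 5) (nat_lit 311) (nat_lit 5) (nat_lit 489) (nat_lit 487) (nat_lit 224)) (XT.lf (nat_lit 76) (nat_lit 13144805836) (nat_lit 0) (nat_lit 15222229890) (nat_lit 1292) (nat_lit 27237881021) (nat_lit 295) (nat_lit 5) (nat_lit 294) (nat_lit 5) (nat_lit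 311) (nat_lit 5) (nat_lit 490) (nat_lit 487) (nat_lit 223))) (XT.nd (nat_lit 78) (nat_lit 0) (nat_lit 0) (XT.lf (nat_lit 0) (nat_lit 29763087016) (nat_lit 1216) (nat_lit 14726594404) (nat_lit 1292) (nat_lit 11957712468) (nat_lit 295) (nat_lit 5) (nat_lit 311) (nat_lit 5) (nat_lit 312) (nat_lit 5) (nat_lit 491) (nat_lit 487) (nat_lit 222)) (XT.lf (nat_lit 76) (nat_lit 13960127324) (nat_lit 0) (nat_lit 17524978385) (nat_lit 1292) (nat_lit 25821517171) (nat_lit 296) (nat_lit 5) (nat_lit 295) (nat_lit 5) (nat_lit 312) (nat_lit 5) (nat_lit 492) (nat_lit 487) (nat_lit 221)))))) (XT.nd (nat_lit 624) (nat_lit 2280) (nat_lit 0) (XT.nd (nat_lit 312) (nat_lit 0) (nat_lit 152) (XT.nd (nat_lit 156) (nat_lit 0) (nat_lit 76) (XT.nd (nat_lit 78) (nat_lit 0) (nat_lit 0) (XT.lf (nat_lit 0) (nat_lit 33506683157) (nat_lit 1216) (nat_lit 14478344629) (nat_lit 1292) (nat_lit 10199164123) (nat_lit 296) (nat_lit 5) (nat_lit 312) (nat_lit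 5) (nat_lit 313) (nat_lit 5) (nat_lit 493) (nat_lit 487) (nat_lit 220)) (XT.lf (nat_lit 76) (nat_lit 15381989535) (nat_lit 0) (nat_lit 20527517078) (nat_lit 1292) (nat_lit 23168963541) (nat_lit 297) (nat_lit 5) (nat_lit 296) (nat_lit 5) (nat_lit 313) (nat_lit 5) (nat_lit 494) (nat_lit 487) (nat_lit 219))) (XT.nd (nat_lit 78) (nat_lit 0) (nat_lit 0) (XT.lf (nat_lit 0) (nat_lit 38605841989) (nat_lit 1216) (nat_lit 13636771209) (nat_lit 1292) (nat_lit 7750320837) (nat_lit 297) (nat_lit 5) (nat_lit 313) (nat_lit 5) (nat_lit 314) (nat_lit 5) (nat_lit 495) (nat_lit 487) (nat_lit 218)) (XT.lf (nat_lit 76) (nat_lit 17461717946) (nat_lit 0) (nat_lit 24291710257) (nat_lit 1292) (nat_lit 19170292908) (nat_lit 298) (nat_lit 5) (nat_lit 297) (nat_lit 5) (nat_lit 314) (nat_lit 5) (nat_lit 496) (nat_lit 487) (nat_lit 217)))) (XT.nd (nat_lit 156) (nat_lit 0) (nat_lit 76) (XT.nd (nat_lit 78) (nat_lit 0) (nat_lit 0) (XT.lf (nat_lit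 0) (nat_lit 45177028817) (nat_lit 1216) (nat_lit 12150725190) (nat_lit 1292) (nat_lit 4549230285) (nat_lit 298) (nat_lit 5) (nat_lit 314) (nat_lit 5) (nat_lit 315) (nat_lit 5) (nat_lit 497) (nat_lit 487) (nat_lit 216)) (XT.lf (nat_lit 76) (nat_lit 20254096407) (nat_lit 0) (nat_lit 28883752564) (nat_lit 1292) (nat_lit 13707961150) (nat_lit 299) (nat_lit 5) (nat_lit 298) (nat_lit 5) (nat_lit 315) (nat_lit 5) (nat_lit 498) (nat_lit 487) (nat_lit 215))) (XT.nd (nat_lit 78) (nat_lit 0) (nat_lit 0) (XT.lf (nat_lit 0) (nat_lit 53344704333) (nat_lit 1216) (nat_lit 9965599692) (nat_lit 1292) (nat_lit 529580472) (nat_lit 299) (nat_lit 5) (nat_lit 315) (nat_lit 5) (nat_lit 316) (nat_lit 5) (nat_lit 499) (nat_lit 487) (nat_lit 214)) (XT.lf (nat_lit 76) (nat_lit 23817571841) (nat_lit 0) (nat_lit 34374461876) (nat_lit 1292) (nat_lit 6656319427) (nat_lit 300) (nat_lit 5) (nat_lit 299) (nat_lit 5) (nat_lit 316) (nat_lit 5) (nat_lit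 500) (nat_lit 487) (nat_lit 213))))) (XT.nd (nat_lit 312) (nat_lit 1292) (nat_lit 0) (XT.nd (nat_lit 156) (nat_lit 0) (nat_lit 0) (XT.nd (nat_lit 78) (nat_lit 1216) (nat_lit 0) (XT.lf (nat_lit 76) (nat_lit 58818013817) (nat_lit 0) (nat_lit 4466758005) (nat_lit 1292) (nat_lit 2599304451) (nat_lit 300) (nat_lit 5) (nat_lit 299) (nat_lit 5) (nat_lit 316) (nat_lit 5) (nat_lit 501) (nat_lit 487) (nat_lit 212)) (XT.lf (nat_lit 0) (nat_lit 2077555789) (nat_lit 1292) (nat_lit 38741056057) (nat_lit 1368) (nat_lit 26115935213) (nat_lit 283) (nat_lit 5) (nat_lit 300) (nat_lit 5) (nat_lit 301) (nat_lit 5) (nat_lit 502) (nat_lit 487) (nat_lit 211))) (XT.nd (nat_lit 78) (nat_lit 0) (nat_lit 76) (XT.lf (nat_lit 0) (nat_lit 6958146551) (nat_lit 1292) (nat_lit 3429902724) (nat_lit 1368) (nat_lit 57624240656) (nat_lit 283) (nat_lit 5) (nat_lit 300) (nat_lit 5) (nat_lit 301) (nat_lit 5) (nat_lit 503) (nat_lit 487) (nat_lit 210)) (XT.lf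 (nat_lit 0) (nat_lit 12512132680) (nat_lit 1292) (nat_lit 35721679355) (nat_lit 76) (nat_lit 20872743803) (nat_lit 284) (nat_lit 5) (nat_lit 301) (nat_lit 5) (nat_lit 285) (nat_lit 5) (nat_lit 504) (nat_lit 487) (nat_lit 209)))) (XT.nd (nat_lit 156) (nat_lit 608) (nat_lit 0) (XT.nd (nat_lit 78) (nat_lit 0) (nat_lit 0) (XT.lf (nat_lit 0) (nat_lit 1058742440) (nat_lit 760) (nat_lit 17321417812) (nat_lit 836) (nat_lit 51849066890) (nat_lit 274) (nat_lit 5) (nat_lit 284) (nat_lit 5) (nat_lit 285) (nat_lit 5) (nat_lit 505) (nat_lit 487) (nat_lit 208)) (XT.lf (nat_lit 0) (nat_lit 24927505341) (nat_lit 836) (nat_lit 31843584763) (nat_lit 76) (nat_lit 14599390254) (nat_lit 274) (nat_lit 5) (nat_lit 285) (nat_lit 5) (nat_lit 275) (nat_lit 5) (nat_lit 506) (nat_lit 487) (nat_lit 207))) (XT.nd (nat_lit 78) (nat_lit 0) (nat_lit 0) (XT.lf (nat_lit 0) (nat_lit 6559096804) (nat_lit 608) (nat_lit 25346166952) (nat_lit 684) (nat_lit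 40633687697) (nat_lit 266) (nat_lit 5) (nat_lit 274) (nat_lit 5) (nat_lit 275) (nat_lit 5) (nat_lit 507) (nat_lit 487) (nat_lit 206)) (XT.lf (nat_lit 0) (nat_lit 39484046744) (nat_lit 684) (nat_lit 27037417031) (nat_lit 76) (nat_lit 7209262219) (nat_lit 266) (nat_lit 5) (nat_lit 275) (nat_lit 5) (nat_lit 267) (nat_lit 5) (nat_lit 508) (nat_lit 487) (nat_lit 205))))))))
noncomputable def xc244 : XT := (XT.nd (nat_lit 61308) (nat_lit 0) (nat_lit 2508) (XT.nd (nat_lit 1170) (nat_lit 2508) (nat_lit 0) (XT.nd (nat_lit 546) (nat_lit 1976) (nat_lit 0) (XT.nd (nat_lit 234) (nat_lit 1140) (nat_lit 0) (XT.nd (nat_lit 78) (nat_lit 532) (nat_lit 0) (XT.lf (nat_lit 0) (nat_lit 13077007057) (nat_lit 608) (nat_lit 34589313690) (nat_lit 684) (nat_lit 27280649266) (nat_lit 258) (nat_lit 5) (nat_lit 266) (nat_lit 5) (nat_lit 267) (nat_lit 5) (nat_lit 509) (nat_lit 487) (nat_lit 204)) (XT.nd (nat_lit 78) (nat_lit 532) (nat_lit 0)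 (XT.lf (nat_lit 0) (nat_lit 54948595431) (nat_lit 608) (nat_lit 1417974133) (nat_lit 684) (nat_lit 19824956657) (nat_lit 258) (nat_lit 5) (nat_lit 266) (nat_lit 5) (nat_lit 267) (nat_lit 5) (nat_lit 510) (nat_lit 487) (nat_lit 203)) (XT.lf (nat_lit 0) (nat_lit 20691367374) (nat_lit 532) (nat_lit 45149652100) (nat_lit 608) (nat_lit 11617003894) (nat_lit 251) (nat_lit 5) (nat_lit 258) (nat_lit 5) (nat_lit 259) (nat_lit 5) (nat_lit 511) (nat_lit 487) (nat_lit 202)))) (XT.nd (nat_lit 156) (nat_lit 532) (nat_lit 0) (XT.nd (nat_lit 78) (nat_lit 608) (nat_lit 0) (XT.lf (nat_lit 0) (nat_lit 64304330572) (nat_lit 532) (nat_lit 11523292649) (nat_lit 608) (nat_lit 2928054660) (nat_lit 251) (nat_lit 5) (nat_lit 258) (nat_lit 5) (nat_lit 259) (nat_lit 5) (nat_lit 512) (nat_lit 487) (nat_lit 201)) (XT.lf (nat_lit 0) (nat_lit 6414186846) (nat_lit 608) (nat_lit 50653860604) (nat_lit 76) (nat_lit 23007174363) (nat_lit 243) (nat_lit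 5) (nat_lit 251) (nat_lit 5) (nat_lit 244) (nat_lit 5) (nat_lit 513) (nat_lit 487) (nat_lit 200))) (XT.nd (nat_lit 78) (nat_lit 532) (nat_lit 0) (XT.lf (nat_lit 0) (nat_lit 16238837126) (nat_lit 608) (nat_lit 6668520821) (nat_lit 76) (nat_lit 58518294678) (nat_lit 243) (nat_lit 5) (nat_lit 251) (nat_lit 5) (nat_lit 244) (nat_lit 5) (nat_lit 514) (nat_lit 487) (nat_lit 199)) (XT.lf (nat_lit 0) (nat_lit 26858324445) (nat_lit 608) (nat_lit 43522206622) (nat_lit 76) (nat_lit 12421062422) (nat_lit 236) (nat_lit 5) (nat_lit 244) (nat_lit 5) (nat_lit 237) (nat_lit 5) (nat_lit 515) (nat_lit 487) (nat_lit 198))))) (XT.nd (nat_lit 312) (nat_lit 988) (nat_lit 0) (XT.nd (nat_lit 156) (nat_lit 456) (nat_lit 0) (XT.nd (nat_lit 78) (nat_lit 0) (nat_lit 0) (XT.lf (nat_lit 0) (nat_lit 2343391063) (nat_lit 532) (nat_lit 35769890246) (nat_lit 608) (nat_lit 46096024777) (nat_lit 229) (nat_lit 5) (nat_lit 236) (nat_lit 5) (nat_lit 237)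 (nat_lit 5) (nat_lit 516) (nat_lit 487) (nat_lit 197)) (XT.lf (nat_lit 0) (nat_lit 50148120218) (nat_lit 608) (nat_lit 35172645208) (nat_lit 76) (nat_lit 325217684) (nat_lit 229) (nat_lit 5) (nat_lit 237) (nat_lit 5) (nat_lit 230) (nat_lit 5) (nat_lit 517) (nat_lit 487) (nat_lit 196))) (XT.nd (nat_lit 78) (nat_lit 0) (nat_lit 0) (XT.lf (nat_lit 0) (nat_lit 12816873453) (nat_lit 456) (nat_lit 50204060216) (nat_lit 532) (nat_lit 24090518946) (nat_lit 223) (nat_lit 5) (nat_lit 229) (nat_lit 5) (nat_lit 230) (nat_lit 5) (nat_lit 518) (nat_lit 487) (nat_lit 195)) (XT.lf (nat_lit 0) (nat_lit 62966591989) (nat_lit 456) (nat_lit 13668090557) (nat_lit 532) (nat_lit 11975561174) (nat_lit 223) (nat_lit 5) (nat_lit 229) (nat_lit 5) (nat_lit 230) (nat_lit 5) (nat_lit 519) (nat_lit 487) (nat_lit 194)))) (XT.nd (nat_lit 156) (nat_lit 456) (nat_lit 0) (XT.nd (nat_lit 78) (nat_lit 0) (nat_lit 0) (XT.lf (nat_lit 0) (nat_lit 965213847)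 (nat_lit 532) (nat_lit 65431132443) (nat_lit 76) (nat_lit 23743341882) (nat_lit 216) (nat_lit 5) (nat_lit 223) (nat_lit 5) (nat_lit 217) (nat_lit 5) (nat_lit 520) (nat_lit 487) (nat_lit 193)) (XT.lf (nat_lit 0) (nat_lit 14449948592) (nat_lit 532) (nat_lit 14867201017) (nat_lit 76) (nat_lit 62382416292) (nat_lit 216) (nat_lit 5) (nat_lit 223) (nat_lit 5) (nat_lit 217) (nat_lit 5) (nat_lit 521) (nat_lit 487) (nat_lit 192))) (XT.nd (nat_lit 78) (nat_lit 0) (nat_lit 0) (XT.lf (nat_lit 0) (nat_lit 28792581434) (nat_lit 532) (nat_lit 55430438268) (nat_lit 76) (nat_lit 9069619623) (nat_lit 210) (nat_lit 5) (nat_lit 217) (nat_lit 5) (nat_lit 211) (nat_lit 5) (nat_lit 522) (nat_lit 487) (nat_lit 191)) (XT.lf (nat_lit 0) (nat_lit 44006987504) (nat_lit 532) (nat_lit 2742991323) (nat_lit 76) (nat_lit 48170281337) (nat_lit 210) (nat_lit 5) (nat_lit 217) (nat_lit 5) (nat_lit 211) (nat_lit 5) (nat_lit 523) (nat_lit 487) (nat_lit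 190)))))) (XT.nd (nat_lit 546) (nat_lit 760) (nat_lit 0) (XT.nd (nat_lit 234) (nat_lit 912) (nat_lit 0) (XT.nd (nat_lit 78) (nat_lit 380) (nat_lit 0) (XT.lf (nat_lit 0) (nat_lit 52550050609) (nat_lit 456) (nat_lit 7632539182) (nat_lit 532) (nat_lit 36398976959) (nat_lit 204) (nat_lit 5) (nat_lit 210) (nat_lit 5) (nat_lit 211) (nat_lit 5) (nat_lit 524) (nat_lit 487) (nat_lit 189)) (XT.nd (nat_lit 78) (nat_lit 0) (nat_lit 0) (XT.lf (nat_lit 0) (nat_lit 11169506250) (nat_lit 380) (nat_lit 66122854345) (nat_lit 456) (nat_lit 20986884962) (nat_lit 199) (nat_lit 5) (nat_lit 204) (nat_lit 5) (nat_lit 205) (nat_lit 5) (nat_lit 525) (nat_lit 487) (nat_lit 188)) (XT.lf (nat_lit 0) (nat_lit 68851618284) (nat_lit 380) (nat_lit 26582899886) (nat_lit 456) (nat_lit 4577763789) (nat_lit 199) (nat_lit 5) (nat_lit 204) (nat_lit 5) (nat_lit 205) (nat_lit 5) (nat_lit 526) (nat_lit 487) (nat_lit 187)))) (XT.nd (nat_lit 156) (nat_lit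 380) (nat_lit 0) (XT.nd (nat_lit 78) (nat_lit 0) (nat_lit 0) (XT.lf (nat_lit 0) (nat_lit 12480788943) (nat_lit 532) (nat_lit 75053365869) (nat_lit 76) (nat_lit 14247671717) (nat_lit 192) (nat_lit 5) (nat_lit 199) (nat_lit 5) (nat_lit 193) (nat_lit 5) (nat_lit 527) (nat_lit 487) (nat_lit 186)) (XT.lf (nat_lit 0) (nat_lit 30539708874) (nat_lit 532) (nat_lit 16914101552) (nat_lit 76) (nat_lit 56131868740) (nat_lit 192) (nat_lit 5) (nat_lit 199) (nat_lit 5) (nat_lit 193) (nat_lit 5) (nat_lit 528) (nat_lit 487) (nat_lit 185))) (XT.nd (nat_lit 78) (nat_lit 0) (nat_lit 0) (XT.lf (nat_lit 0) (nat_lit 43824050562) (nat_lit 380) (nat_lit 5737264803) (nat_lit 456) (nat_lit 55869704482) (nat_lit 187) (nat_lit 5) (nat_lit 192) (nat_lit 5) (nat_lit 193) (nat_lit 5) (nat_lit 529) (nat_lit 487) (nat_lit 184)) (XT.lf (nat_lit 0) (nat_lit 69683605411) (nat_lit 456) (nat_lit 955562987) (nat_lit 76) (nat_lit 36676651323) (nat_lit 187)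 (nat_lit 5) (nat_lit 193) (nat_lit 5) (nat_lit 188) (nat_lit 5) (nat_lit 530) (nat_lit 487) (nat_lit 183))))) (XT.nd (nat_lit 59280) (nat_lit 0) (nat_lit 8892) (XT.nd (nat_lit 59124) (nat_lit 0) (nat_lit 8816) (XT.nd (nat_lit 78) (nat_lit 380) (nat_lit 0) (XT.lf (nat_lit 0) (nat_lit 62681271804) (nat_lit 380) (nat_lit 28387297597) (nat_lit 456) (nat_lit 18168824064) (nat_lit 182) (nat_lit 5) (nat_lit 187) (nat_lit 5) (nat_lit 188) (nat_lit 5) (nat_lit 531) (nat_lit 487) (nat_lit 182)) (XT.lf (nat_lit 0) (nat_lit 2165396878) (nat_lit 380) (nat_lit 94007728183) (nat_lit 76) (nat_lit 15033240141) (nat_lit 177) (nat_lit 5) (nat_lit 182) (nat_lit 5) (nat_lit 178) (nat_lit 5) (nat_lit 532) (nat_lit 487) (nat_lit 181))) (XT.nd (nat_lit 78) (nat_lit 0) (nat_lit 0) (XT.lf (nat_lit 0) (nat_lit 13368397957) (nat_lit 1292) (nat_lit 7008537006) (nat_lit 1292) (nat_lit 7008537006) (nat_lit 293) (nat_lit 3) (nat_lit 310) (nat_lit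 3) (nat_lit 310) (nat_lit 5) (nat_lit 488) (nat_lit 488) (nat_lit 224)) (XT.lf (nat_lit 76) (nat_lit 13297829033) (nat_lit 0) (nat_lit 13989516692) (nat_lit 1292) (nat_lit 28300674423) (nat_lit 294) (nat_lit 5) (nat_lit 293) (nat_lit 3) (nat_lit 310) (nat_lit 5) (nat_lit 489) (nat_lit 488) (nat_lit 223)))) (XT.nd (nat_lit 156) (nat_lit 0) (nat_lit 76) (XT.nd (nat_lit 78) (nat_lit 0) (nat_lit 0) (XT.lf (nat_lit 0) (nat_lit 28127030105) (nat_lit 1216) (nat_lit 14838239903) (nat_lit 1292) (nat_lit 13456160213) (nat_lit 294) (nat_lit 5) (nat_lit 310) (nat_lit 5) (nat_lit 311) (nat_lit 5) (nat_lit 490) (nat_lit 488) (nat_lit 222)) (XT.lf (nat_lit 76) (nat_lit 13562962008) (nat_lit 0) (nat_lit 15697007077) (nat_lit 1292) (nat_lit 28011831702) (nat_lit 295) (nat_lit 5) (nat_lit 294) (nat_lit 5) (nat_lit 311) (nat_lit 5) (nat_lit 491) (nat_lit 488) (nat_lit 221))) (XT.nd (nat_lit 78) (nat_lit 0) (nat_lit 0) (XT.lf (nat_lit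 0) (nat_lit 30696511859) (nat_lit 1216) (nat_lit 15143878114) (nat_lit 1292) (nat_lit 12299204139) (nat_lit 295) (nat_lit 5) (nat_lit 311) (nat_lit 5) (nat_lit 312) (nat_lit 5) (nat_lit 492) (nat_lit 488) (nat_lit 220)) (XT.lf (nat_lit 76) (nat_lit 14403204932) (nat_lit 0) (nat_lit 18066038966) (nat_lit 1292) (nat_lit 26555384657) (nat_lit 296) (nat_lit 5) (nat_lit 295) (nat_lit 5) (nat_lit 312) (nat_lit 5) (nat_lit 493) (nat_lit 488) (nat_lit 219))))))) (XT.nd (nat_lit 1170) (nat_lit 4256) (nat_lit 0) (XT.nd (nat_lit 546) (nat_lit 2280) (nat_lit 0) (XT.nd (nat_lit 234) (nat_lit 0) (nat_lit 76) (XT.nd (nat_lit 78) (nat_lit 0) (nat_lit 0) (XT.lf (nat_lit 0) (nat_lit 34550172812) (nat_lit 1216) (nat_lit 14887827026) (nat_lit 1292) (nat_lit 10490563850) (nat_lit 296) (nat_lit 5) (nat_lit 312) (nat_lit 5) (nat_lit 313) (nat_lit 5) (nat_lit 494) (nat_lit 488) (nat_lit 218)) (XT.nd (nat_lit 78) (nat_lit 0) (nat_lit 76)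 (XT.lf (nat_lit 76) (nat_lit 15868073359) (nat_lit 0) (nat_lit 21156129097) (nat_lit 1292) (nat_lit 23825494335) (nat_lit 297) (nat_lit 5) (nat_lit 296) (nat_lit 5) (nat_lit 313) (nat_lit 5) (nat_lit 495) (nat_lit 488) (nat_lit 217)) (XT.lf (nat_lit 0) (nat_lit 39800218931) (nat_lit 1216) (nat_lit 14020753455) (nat_lit 1292) (nat_lit 7970658622) (nat_lit 297) (nat_lit 5) (nat_lit 313) (nat_lit 5) (nat_lit 314) (nat_lit 5) (nat_lit 496) (nat_lit 488) (nat_lit 216)))) (XT.nd (nat_lit 156) (nat_lit 0) (nat_lit 76) (XT.nd (nat_lit 78) (nat_lit 0) (nat_lit 76) (XT.lf (nat_lit 76) (nat_lit 18010444091) (nat_lit 0) (nat_lit 25030973332) (nat_lit 1292) (nat_lit 19708948877) (nat_lit 298) (nat_lit 5) (nat_lit 297) (nat_lit 5) (nat_lit 314) (nat_lit 5) (nat_lit 497) (nat_lit 488) (nat_lit 215)) (XT.lf (nat_lit 0) (nat_lit 46566597283) (nat_lit 1216) (nat_lit 12489963357) (nat_lit 1292) (nat_lit 4675700742) (nat_lit 298) (nat_lit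 5) (nat_lit 314) (nat_lit 5) (nat_lit 315) (nat_lit 5) (nat_lit 498) (nat_lit 488) (nat_lit 214))) (XT.nd (nat_lit 78) (nat_lit 0) (nat_lit 76) (XT.lf (nat_lit 76) (nat_lit 20886755009) (nat_lit 0) (nat_lit 29758729896) (nat_lit 1292) (nat_lit 14084689931) (nat_lit 299) (nat_lit 5) (nat_lit 298) (nat_lit 5) (nat_lit 315) (nat_lit 5) (nat_lit 499) (nat_lit 488) (nat_lit 213)) (XT.lf (nat_lit 0) (nat_lit 54977491188) (nat_lit 1216) (nat_lit 10239201988) (nat_lit 1292) (nat_lit 537410044) (nat_lit 299) (nat_lit 5) (nat_lit 315) (nat_lit 5) (nat_lit 316) (nat_lit 5) (nat_lit 500) (nat_lit 488) (nat_lit 212))))) (XT.nd (nat_lit 312) (nat_lit 1292) (nat_lit 0) (XT.nd (nat_lit 156) (nat_lit 1216) (nat_lit 0) (XT.nd (nat_lit 78) (nat_lit 0) (nat_lit 0) (XT.lf (nat_lit 76) (nat_lit 24557216008) (nat_lit 0) (nat_lit 35412320865) (nat_lit 1292) (nat_lit 6823310290) (nat_lit 300) (nat_lit 5) (nat_lit 299) (nat_lit 5) (nat_lit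 316) (nat_lit 5) (nat_lit 501) (nat_lit 488) (nat_lit 211)) (XT.lf (nat_lit 76) (nat_lit 60606939681) (nat_lit 0) (nat_lit 4607192912) (nat_lit 1292) (nat_lit 2645537255) (nat_lit 300) (nat_lit 5) (nat_lit 299) (nat_lit 5) (nat_lit 316) (nat_lit 5) (nat_lit 502) (nat_lit 488) (nat_lit 210))) (XT.nd (nat_lit 78) (nat_lit 0) (nat_lit 0) (XT.lf (nat_lit 0) (nat_lit 2170286006) (nat_lit 1292) (nat_lit 39877551495) (nat_lit 1368) (nat_lit 26893829917) (nat_lit 283) (nat_lit 5) (nat_lit 300) (nat_lit 5) (nat_lit 301) (nat_lit 5) (nat_lit 503) (nat_lit 488) (nat_lit 209)) (XT.lf (nat_lit 0) (nat_lit 7196408951) (nat_lit 1292) (nat_lit 3507813162) (nat_lit 1368) (nat_lit 59347547146) (nat_lit 283) (nat_lit 5) (nat_lit 300) (nat_lit 5) (nat_lit 301) (nat_lit 5) (nat_lit 504) (nat_lit 488) (nat_lit 208)))) (XT.nd (nat_lit 156) (nat_lit 608) (nat_lit 0) (XT.nd (nat_lit 78) (nat_lit 760) (nat_lit 0) (XT.lf (nat_lit 0) (nat_lit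 12916352814) (nat_lit 1292) (nat_lit 36767677522) (nat_lit 76) (nat_lit 21494852774) (nat_lit 284) (nat_lit 5) (nat_lit 301) (nat_lit 5) (nat_lit 285) (nat_lit 5) (nat_lit 505) (nat_lit 488) (nat_lit 207)) (XT.lf (nat_lit 0) (nat_lit 1115905434) (nat_lit 760) (nat_lit 17843919476) (nat_lit 836) (nat_lit 53375427641) (nat_lit 274) (nat_lit 5) (nat_lit 284) (nat_lit 5) (nat_lit 285) (nat_lit 5) (nat_lit 506) (nat_lit 488) (nat_lit 206))) (XT.nd (nat_lit 78) (nat_lit 608) (nat_lit 0) (XT.lf (nat_lit 0) (nat_lit 25702740566) (nat_lit 836) (nat_lit 32773378121) (nat_lit 76) (nat_lit 15034650275) (nat_lit 274) (nat_lit 5) (nat_lit 285) (nat_lit 5) (nat_lit 275) (nat_lit 5) (nat_lit 507) (nat_lit 488) (nat_lit 205)) (XT.lf (nat_lit 0) (nat_lit 6781133754) (nat_lit 608) (nat_lit 26108142481) (nat_lit 684) (nat_lit 41825034721) (nat_lit 266) (nat_lit 5) (nat_lit 274) (nat_lit 5) (nat_lit 275) (nat_lit 5) (nat_lit 508) (nat_lit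 488) (nat_lit 204)))))) (XT.nd (nat_lit 546) (nat_lit 2508) (nat_lit 0) (XT.nd (nat_lit 234) (nat_lit 1140) (nat_lit 0) (XT.nd (nat_lit 78) (nat_lit 608) (nat_lit 0) (XT.lf (nat_lit 0) (nat_lit 40694625698) (nat_lit 684) (nat_lit 27823211022) (nat_lit 76) (nat_lit 7424026024) (nat_lit 266) (nat_lit 5) (nat_lit 275) (nat_lit 5) (nat_lit 267) (nat_lit 5) (nat_lit 509) (nat_lit 488) (nat_lit 203)) (XT.nd (nat_lit 78) (nat_lit 0) (nat_lit 0) (XT.lf (nat_lit 0) (nat_lit 13494397470) (nat_lit 608) (nat_lit 35627452579) (nat_lit 684) (nat_lit 28072759666) (nat_lit 258) (nat_lit 5) (nat_lit 266) (nat_lit 5) (nat_lit 267) (nat_lit 5) (nat_lit 510) (nat_lit 488) (nat_lit 202)) (XT.lf (nat_lit 0) (nat_lit 56621403003) (nat_lit 608) (nat_lit 1460959452) (nat_lit 684) (nat_lit 20394162562) (nat_lit 258) (nat_lit 5) (nat_lit 266) (nat_lit 5) (nat_lit 267) (nat_lit 5) (nat_lit 511) (nat_lit 488) (nat_lit 201)))) (XT.nd (nat_lit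 156) (nat_lit 608) (nat_lit 0) (XT.nd (nat_lit 78) (nat_lit 0) (nat_lit 0) (XT.lf (nat_lit 0) (nat_lit 21336963293) (nat_lit 532) (nat_lit 46503595119) (nat_lit 608) (nat_lit 11940473382) (nat_lit 251) (nat_lit 5) (nat_lit 258) (nat_lit 5) (nat_lit 259) (nat_lit 5) (nat_lit 512) (nat_lit 488) (nat_lit 200)) (XT.lf (nat_lit 0) (nat_lit 66257591459) (nat_lit 532) (nat_lit 11868460803) (nat_lit 608) (nat_lit 2991585009) (nat_lit 251) (nat_lit 5) (nat_lit 258) (nat_lit 5) (nat_lit 259) (nat_lit 5) (nat_lit 513) (nat_lit 488) (nat_lit 199))) (XT.nd (nat_lit 78) (nat_lit 0) (nat_lit 0) (XT.lf (nat_lit 0) (nat_lit 6629998811) (nat_lit 608) (nat_lit 52148414904) (nat_lit 76) (nat_lit 23698360395) (nat_lit 243) (nat_lit 5) (nat_lit 251) (nat_lit 5) (nat_lit 244) (nat_lit 5) (nat_lit 514) (nat_lit 488) (nat_lit 198)) (XT.lf (nat_lit 0) (nat_lit 16748707443) (nat_lit 608) (nat_lit 6844244875) (nat_lit 76) (nat_lit 60274786043)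 (nat_lit 243) (nat_lit 5) (nat_lit 251) (nat_lit 5) (nat_lit 244) (nat_lit 5) (nat_lit 515) (nat_lit 488) (nat_lit 197))))) (XT.nd (nat_lit 312) (nat_lit 988) (nat_lit 0) (XT.nd (nat_lit 156) (nat_lit 456) (nat_lit 0) (XT.nd (nat_lit 78) (nat_lit 532) (nat_lit 0) (XT.lf (nat_lit 0) (nat_lit 27686367133) (nat_lit 608) (nat_lit 44803126393) (nat_lit 76) (nat_lit 12795476371) (nat_lit 236) (nat_lit 5) (nat_lit 244) (nat_lit 5) (nat_lit 237) (nat_lit 5) (nat_lit 516) (nat_lit 488) (nat_lit 196)) (XT.lf (nat_lit 0) (nat_lit 2438196610) (nat_lit 532) (nat_lit 36840362328) (nat_lit 608) (nat_lit 47456367421) (nat_lit 229) (nat_lit 5) (nat_lit 236) (nat_lit 5) (nat_lit 237) (nat_lit 5) (nat_lit 517) (nat_lit 488) (nat_lit 195))) (XT.nd (nat_lit 78) (nat_lit 456) (nat_lit 0) (XT.lf (nat_lit 0) (nat_lit 51673830252) (nat_lit 608) (nat_lit 36203419230) (nat_lit 76) (nat_lit 337472670) (nat_lit 229) (nat_lit 5) (nat_lit 237)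 (nat_lit 5) (nat_lit 230) (nat_lit 5) (nat_lit 518) (nat_lit 488) (nat_lit 194)) (XT.lf (nat_lit 0) (nat_lit 13225545722) (nat_lit 456) (nat_lit 51706895272) (nat_lit 532) (nat_lit 24791726432) (nat_lit 223) (nat_lit 5) (nat_lit 229) (nat_lit 5) (nat_lit 230) (nat_lit 5) (nat_lit 519) (nat_lit 488) (nat_lit 193)))) (XT.nd (nat_lit 156) (nat_lit 456) (nat_lit 0) (XT.nd (nat_lit 78) (nat_lit 532) (nat_lit 0) (XT.lf (nat_lit 0) (nat_lit 64879051949) (nat_lit 456) (nat_lit 14074942255) (nat_lit 532) (nat_lit 12313946376) (nat_lit 223) (nat_lit 5) (nat_lit 229) (nat_lit 5) (nat_lit 230) (nat_lit 5) (nat_lit 520) (nat_lit 488) (nat_lit 192)) (XT.lf (nat_lit 0) (nat_lit 1014309267) (nat_lit 532) (nat_lit 67369857153) (nat_lit 76) (nat_lit 24459106042) (nat_lit 216) (nat_lit 5) (nat_lit 223) (nat_lit 5) (nat_lit 217) (nat_lit 5) (nat_lit 521) (nat_lit 488) (nat_lit 191))) (XT.nd (nat_lit 78) (nat_lit 456) (nat_lit 0) (XT.lf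 (nat_lit 0) (nat_lit 14902999482) (nat_lit 532) (nat_lit 15289712909) (nat_lit 76) (nat_lit 64257251794) (nat_lit 216) (nat_lit 5) (nat_lit 223) (nat_lit 5) (nat_lit 217) (nat_lit 5) (nat_lit 522) (nat_lit 488) (nat_lit 190)) (XT.lf (nat_lit 0) (nat_lit 29675604636) (nat_lit 532) (nat_lit 57069538546) (nat_lit 76) (nat_lit 9345695890) (nat_lit 210) (nat_lit 5) (nat_lit 217) (nat_lit 5) (nat_lit 211) (nat_lit 5) (nat_lit 523) (nat_lit 488) (nat_lit 189))))))))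
noncomputable def xc245 : XT := (XT.nd (nat_lit 61386) (nat_lit 0) (nat_lit 380) (XT.nd (nat_lit 60216) (nat_lit 0) (nat_lit 6384) (XT.nd (nat_lit 546) (nat_lit 380) (nat_lit 0) (XT.nd (nat_lit 234) (nat_lit 912) (nat_lit 0) (XT.nd (nat_lit 78) (nat_lit 836) (nat_lit 0) (XT.lf (nat_lit 0) (nat_lit 45345882332) (nat_lit 532) (nat_lit 2802161771) (nat_lit 76) (nat_lit 49619261311) (nat_lit 210) (nat_lit 5) (nat_lit 217) (nat_lit 5) (nat_lit 211) (nat_lit 5) (nat_lit 524) (nat_lit 488) (nat_lit 188)) (XT.nd (nat_lit 78) (nat_lit 380) (nat_lit 0) (XT.lf (nat_lit 0) (nat_lit 54149444759) (nat_lit 456) (nat_lit 7856983757) (nat_lit 532) (nat_lit 37472032464) (nat_lit 204) (nat_lit 5) (nat_lit 210) (nat_lit 5) (nat_lit 211) (nat_lit 5) (nat_lit 525) (nat_lit 488) (nat_lit 187)) (XT.lf (nat_lit 0) (nat_lit 11527763851) (nat_lit 380) (nat_lit 68101458846) (nat_lit 456) (nat_lit 21597855605) (nat_lit 199) (nat_lit 5) (nat_lit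 204) (nat_lit 5) (nat_lit 205) (nat_lit 5) (nat_lit 526) (nat_lit 488) (nat_lit 186)))) (XT.nd (nat_lit 156) (nat_lit 380) (nat_lit 0) (XT.nd (nat_lit 78) (nat_lit 532) (nat_lit 0) (XT.lf (nat_lit 0) (nat_lit 70939664321) (nat_lit 380) (nat_lit 27375453747) (nat_lit 456) (nat_lit 4697003589) (nat_lit 199) (nat_lit 5) (nat_lit 204) (nat_lit 5) (nat_lit 205) (nat_lit 5) (nat_lit 527) (nat_lit 488) (nat_lit 185)) (XT.lf (nat_lit 0) (nat_lit 12872703344) (nat_lit 532) (nat_lit 77281863475) (nat_lit 76) (nat_lit 14680188060) (nat_lit 192) (nat_lit 5) (nat_lit 199) (nat_lit 5) (nat_lit 193) (nat_lit 5) (nat_lit 528) (nat_lit 488) (nat_lit 184))) (XT.nd (nat_lit 78) (nat_lit 380) (nat_lit 0) (XT.lf (nat_lit 0) (nat_lit 31472881434) (nat_lit 532) (nat_lit 17399094142) (nat_lit 76) (nat_lit 57820762852) (nat_lit 192) (nat_lit 5) (nat_lit 199) (nat_lit 5) (nat_lit 193) (nat_lit 5) (nat_lit 529) (nat_lit 488) (nat_lit 183))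 (XT.lf (nat_lit 0) (nat_lit 45160982629) (nat_lit 380) (nat_lit 5903872392) (nat_lit 456) (nat_lit 57528592791) (nat_lit 187) (nat_lit 5) (nat_lit 192) (nat_lit 5) (nat_lit 193) (nat_lit 5) (nat_lit 530) (nat_lit 488) (nat_lit 182))))) (XT.nd (nat_lit 59358) (nat_lit 0) (nat_lit 8512) (XT.nd (nat_lit 59202) (nat_lit 0) (nat_lit 8436) (XT.nd (nat_lit 78) (nat_lit 380) (nat_lit 0) (XT.lf (nat_lit 0) (nat_lit 71790378780) (nat_lit 456) (nat_lit 962229671) (nat_lit 76) (nat_lit 37782196327) (nat_lit 187) (nat_lit 5) (nat_lit 193) (nat_lit 5) (nat_lit 188) (nat_lit 5) (nat_lit 531) (nat_lit 488) (nat_lit 181)) (XT.lf (nat_lit 0) (nat_lit 64583494476) (nat_lit 380) (nat_lit 29233132876) (nat_lit 456) (nat_lit 18697406358) (nat_lit 182) (nat_lit 5) (nat_lit 187) (nat_lit 5) (nat_lit 188) (nat_lit 5) (nat_lit 532) (nat_lit 488) (nat_lit 180))) (XT.nd (nat_lit 78) (nat_lit 0) (nat_lit 0) (XT.lf (nat_lit 0) (nat_lit 13790912586)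 (nat_lit 1292) (nat_lit 7207738338) (nat_lit 1292) (nat_lit 7207738338) (nat_lit 293) (nat_lit 3) (nat_lit 310) (nat_lit 3) (nat_lit 310) (nat_lit 5) (nat_lit 489) (nat_lit 489) (nat_lit 222)) (XT.lf (nat_lit 76) (nat_lit 13718656699) (nat_lit 0) (nat_lit 14429194973) (nat_lit 1292) (nat_lit 29106546721) (nat_lit 294) (nat_lit 5) (nat_lit 293) (nat_lit 3) (nat_lit 310) (nat_lit 5) (nat_lit 490) (nat_lit 489) (nat_lit 221)))) (XT.nd (nat_lit 156) (nat_lit 0) (nat_lit 76) (XT.nd (nat_lit 78) (nat_lit 0) (nat_lit 0) (XT.lf (nat_lit 0) (nat_lit 29011320030) (nat_lit 1216) (nat_lit 15260719781) (nat_lit 1292) (nat_lit 13840813322) (nat_lit 294) (nat_lit 5) (nat_lit 310) (nat_lit 5) (nat_lit 311) (nat_lit 5) (nat_lit 491) (nat_lit 489) (nat_lit 220)) (XT.lf (nat_lit 76) (nat_lit 13992295958) (nat_lit 0) (nat_lit 16184987975) (nat_lit 1292) (nat_lit 28811479943) (nat_lit 295) (nat_lit 5) (nat_lit 294) (nat_lit 5) (nat_lit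 311) (nat_lit 5) (nat_lit 492) (nat_lit 489) (nat_lit 219))) (XT.nd (nat_lit 78) (nat_lit 0) (nat_lit 0) (XT.lf (nat_lit 0) (nat_lit 31655612732) (nat_lit 1216) (nat_lit 15575087546) (nat_lit 1292) (nat_lit 12651930190) (nat_lit 295) (nat_lit 5) (nat_lit 311) (nat_lit 5) (nat_lit 312) (nat_lit 5) (nat_lit 493) (nat_lit 489) (nat_lit 218)) (XT.lf (nat_lit 76) (nat_lit 14858181453) (nat_lit 0) (nat_lit 18622452437) (nat_lit 1292) (nat_lit 27313608994) (nat_lit 296) (nat_lit 5) (nat_lit 295) (nat_lit 5) (nat_lit 312) (nat_lit 5) (nat_lit 494) (nat_lit 489) (nat_lit 217)))))) (XT.nd (nat_lit 546) (nat_lit 2280) (nat_lit 0) (XT.nd (nat_lit 234) (nat_lit 0) (nat_lit 76) (XT.nd (nat_lit 78) (nat_lit 0) (nat_lit 0) (XT.lf (nat_lit 0) (nat_lit 35622769204) (nat_lit 1216) (nat_lit 15311021416) (nat_lit 1292) (nat_lit 10791542245) (nat_lit 296) (nat_lit 5) (nat_lit 312) (nat_lit 5) (nat_lit 313) (nat_lit 5) (nat_lit 495) (nat_lit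 489) (nat_lit 216)) (XT.nd (nat_lit 78) (nat_lit 0) (nat_lit 76) (XT.lf (nat_lit 76) (nat_lit 16367326172) (nat_lit 0) (nat_lit 21802865479) (nat_lit 1292) (nat_lit 24503933298) (nat_lit 297) (nat_lit 5) (nat_lit 296) (nat_lit 5) (nat_lit 313) (nat_lit 5) (nat_lit 496) (nat_lit 489) (nat_lit 215)) (XT.lf (nat_lit 0) (nat_lit 41028349058) (nat_lit 1216) (nat_lit 14417697210) (nat_lit 1292) (nat_lit 8198305254) (nat_lit 297) (nat_lit 5) (nat_lit 313) (nat_lit 5) (nat_lit 314) (nat_lit 5) (nat_lit 497) (nat_lit 489) (nat_lit 214)))) (XT.nd (nat_lit 156) (nat_lit 0) (nat_lit 76) (XT.nd (nat_lit 78) (nat_lit 0) (nat_lit 76) (XT.lf (nat_lit 76) (nat_lit 18574204117) (nat_lit 0) (nat_lit 25791810882) (nat_lit 1292) (nat_lit 20265857066) (nat_lit 298) (nat_lit 5) (nat_lit 297) (nat_lit 5) (nat_lit 314) (nat_lit 5) (nat_lit 498) (nat_lit 489) (nat_lit 213)) (XT.lf (nat_lit 0) (nat_lit 47995886277) (nat_lit 1216) (nat_lit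 12840830050) (nat_lit 1292) (nat_lit 4806539724) (nat_lit 298) (nat_lit 5) (nat_lit 314) (nat_lit 5) (nat_lit 315) (nat_lit 5) (nat_lit 499) (nat_lit 489) (nat_lit 212))) (XT.nd (nat_lit 78) (nat_lit 0) (nat_lit 76) (XT.lf (nat_lit 76) (nat_lit 21536956218) (nat_lit 0) (nat_lit 30659470637) (nat_lit 1292) (nat_lit 14474701593) (nat_lit 299) (nat_lit 5) (nat_lit 298) (nat_lit 5) (nat_lit 315) (nat_lit 5) (nat_lit 500) (nat_lit 489) (nat_lit 211)) (XT.lf (nat_lit 0) (nat_lit 56657399132) (nat_lit 1216) (nat_lit 10522468446) (nat_lit 1292) (nat_lit 545937056) (nat_lit 299) (nat_lit 5) (nat_lit 315) (nat_lit 5) (nat_lit 316) (nat_lit 5) (nat_lit 501) (nat_lit 489) (nat_lit 210))))) (XT.nd (nat_lit 312) (nat_lit 1292) (nat_lit 0) (XT.nd (nat_lit 156) (nat_lit 1216) (nat_lit 0) (XT.nd (nat_lit 78) (nat_lit 0) (nat_lit 0) (XT.lf (nat_lit 76) (nat_lit 25317607681) (nat_lit 0) (nat_lit 36480935314) (nat_lit 1292) (nat_lit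 6997187919) (nat_lit 300) (nat_lit 5) (nat_lit 299) (nat_lit 5) (nat_lit 316) (nat_lit 5) (nat_lit 502) (nat_lit 489) (nat_lit 209)) (XT.lf (nat_lit 76) (nat_lit 62448133495) (nat_lit 0) (nat_lit 4751471634) (nat_lit 1292) (nat_lit 2694979411) (nat_lit 300) (nat_lit 5) (nat_lit 299) (nat_lit 5) (nat_lit 316) (nat_lit 5) (nat_lit 503) (nat_lit 489) (nat_lit 208))) (XT.nd (nat_lit 78) (nat_lit 0) (nat_lit 0) (XT.lf (nat_lit 0) (nat_lit 2264052843) (nat_lit 1292) (nat_lit 41049619161) (nat_lit 1368) (nat_lit 27695381970) (nat_lit 283) (nat_lit 5) (nat_lit 300) (nat_lit 5) (nat_lit 301) (nat_lit 5) (nat_lit 504) (nat_lit 489) (nat_lit 207)) (XT.lf (nat_lit 0) (nat_lit 7440124769) (nat_lit 1292) (nat_lit 3589495248) (nat_lit 1368) (nat_lit 61122864002) (nat_lit 283) (nat_lit 5) (nat_lit 300) (nat_lit 5) (nat_lit 301) (nat_lit 5) (nat_lit 505) (nat_lit 489) (nat_lit 206)))) (XT.nd (nat_lit 156) (nat_lit 608) (nat_lit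 0) (XT.nd (nat_lit 78) (nat_lit 760) (nat_lit 0) (XT.lf (nat_lit 0) (nat_lit 13331043090) (nat_lit 1292) (nat_lit 37846528176) (nat_lit 76) (nat_lit 22135858840) (nat_lit 284) (nat_lit 5) (nat_lit 301) (nat_lit 5) (nat_lit 285) (nat_lit 5) (nat_lit 506) (nat_lit 489) (nat_lit 205)) (XT.lf (nat_lit 0) (nat_lit 1173325213) (nat_lit 760) (nat_lit 18381932063) (nat_lit 836) (nat_lit 54949250319) (nat_lit 274) (nat_lit 5) (nat_lit 284) (nat_lit 5) (nat_lit 285) (nat_lit 5) (nat_lit 507) (nat_lit 489) (nat_lit 204))) (XT.nd (nat_lit 78) (nat_lit 608) (nat_lit 0) (XT.lf (nat_lit 0) (nat_lit 26499659397) (nat_lit 836) (nat_lit 33732529898) (nat_lit 76) (nat_lit 15483124333) (nat_lit 274) (nat_lit 5) (nat_lit 285) (nat_lit 5) (nat_lit 275) (nat_lit 5) (nat_lit 508) (nat_lit 489) (nat_lit 203)) (XT.lf (nat_lit 0) (nat_lit 7008381553) (nat_lit 608) (nat_lit 26892885973) (nat_lit 684) (nat_lit 43053710160) (nat_lit 266) (nat_lit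 5) (nat_lit 274) (nat_lit 5) (nat_lit 275) (nat_lit 5) (nat_lit 509) (nat_lit 489) (nat_lit 202))))))) (XT.nd (nat_lit 1170) (nat_lit 1748) (nat_lit 0) (XT.nd (nat_lit 546) (nat_lit 2508) (nat_lit 0) (XT.nd (nat_lit 234) (nat_lit 1140) (nat_lit 0) (XT.nd (nat_lit 78) (nat_lit 608) (nat_lit 0) (XT.lf (nat_lit 0) (nat_lit 41940026210) (nat_lit 684) (nat_lit 28634032793) (nat_lit 76) (nat_lit 7645319656) (nat_lit 266) (nat_lit 5) (nat_lit 275) (nat_lit 5) (nat_lit 267) (nat_lit 5) (nat_lit 510) (nat_lit 489) (nat_lit 201)) (XT.nd (nat_lit 78) (nat_lit 0) (nat_lit 0) (XT.lf (nat_lit 0) (nat_lit 13922869889) (nat_lit 608) (nat_lit 36696709259) (nat_lit 684) (nat_lit 28890143627) (nat_lit 258) (nat_lit 5) (nat_lit 266) (nat_lit 5) (nat_lit 267) (nat_lit 5) (nat_lit 511) (nat_lit 489) (nat_lit 200)) (XT.lf (nat_lit 0) (nat_lit 58342997030) (nat_lit 608) (nat_lit 1505208724) (nat_lit 684) (nat_lit 20981910906) (nat_lit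 258) (nat_lit 5) (nat_lit 266) (nat_lit 5) (nat_lit 267) (nat_lit 5) (nat_lit 512) (nat_lit 489) (nat_lit 199)))) (XT.nd (nat_lit 156) (nat_lit 608) (nat_lit 0) (XT.nd (nat_lit 78) (nat_lit 0) (nat_lit 0) (XT.lf (nat_lit 0) (nat_lit 22000500318) (nat_lit 532) (nat_lit 47898187803) (nat_lit 608) (nat_lit 12275084389) (nat_lit 251) (nat_lit 5) (nat_lit 258) (nat_lit 5) (nat_lit 259) (nat_lit 5) (nat_lit 513) (nat_lit 489) (nat_lit 198)) (XT.lf (nat_lit 0) (nat_lit 68268064955) (nat_lit 532) (nat_lit 12224014462) (nat_lit 608) (nat_lit 3058416837) (nat_lit 251) (nat_lit 5) (nat_lit 258) (nat_lit 5) (nat_lit 259) (nat_lit 5) (nat_lit 514) (nat_lit 489) (nat_lit 197))) (XT.nd (nat_lit 78) (nat_lit 0) (nat_lit 0) (XT.lf (nat_lit 0) (nat_lit 6850942661) (nat_lit 608) (nat_lit 53689244467) (nat_lit 76) (nat_lit 24410226280) (nat_lit 243) (nat_lit 5) (nat_lit 251) (nat_lit 5) (nat_lit 244) (nat_lit 5) (nat_lit 515) (nat_lit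 489) (nat_lit 196)) (XT.lf (nat_lit 0) (nat_lit 17272570498) (nat_lit 608) (nat_lit 7026637382) (nat_lit 76) (nat_lit 62083918045) (nat_lit 243) (nat_lit 5) (nat_lit 251) (nat_lit 5) (nat_lit 244) (nat_lit 5) (nat_lit 516) (nat_lit 489) (nat_lit 195))))) (XT.nd (nat_lit 312) (nat_lit 988) (nat_lit 0) (XT.nd (nat_lit 156) (nat_lit 456) (nat_lit 0) (XT.nd (nat_lit 78) (nat_lit 532) (nat_lit 0) (XT.lf (nat_lit 0) (nat_lit 28537971395) (nat_lit 608) (nat_lit 46123894304) (nat_lit 76) (nat_lit 13181020439) (nat_lit 236) (nat_lit 5) (nat_lit 244) (nat_lit 5) (nat_lit 237) (nat_lit 5) (nat_lit 517) (nat_lit 489) (nat_lit 194)) (XT.lf (nat_lit 0) (nat_lit 2534439704) (nat_lit 532) (nat_lit 37943099238) (nat_lit 608) (nat_lit 48858814124) (nat_lit 229) (nat_lit 5) (nat_lit 236) (nat_lit 5) (nat_lit 237) (nat_lit 5) (nat_lit 518) (nat_lit 489) (nat_lit 193))) (XT.nd (nat_lit 78) (nat_lit 456) (nat_lit 0) (XT.lf (nat_lit 0)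 (nat_lit 53244090807) (nat_lit 608) (nat_lit 37266517439) (nat_lit 76) (nat_lit 349951883) (nat_lit 229) (nat_lit 5) (nat_lit 237) (nat_lit 5) (nat_lit 230) (nat_lit 5) (nat_lit 519) (nat_lit 489) (nat_lit 192)) (XT.lf (nat_lit 0) (nat_lit 13645090929) (nat_lit 456) (nat_lit 53255004054) (nat_lit 532) (nat_lit 25515204794) (nat_lit 223) (nat_lit 5) (nat_lit 229) (nat_lit 5) (nat_lit 230) (nat_lit 5) (nat_lit 520) (nat_lit 489) (nat_lit 191)))) (XT.nd (nat_lit 156) (nat_lit 456) (nat_lit 0) (XT.nd (nat_lit 78) (nat_lit 532) (nat_lit 0) (XT.lf (nat_lit 0) (nat_lit 66847538881) (nat_lit 456) (nat_lit 14494182681) (nat_lit 532) (nat_lit 12663681825) (nat_lit 223) (nat_lit 5) (nat_lit 229) (nat_lit 5) (nat_lit 230) (nat_lit 5) (nat_lit 521) (nat_lit 489) (nat_lit 190)) (XT.lf (nat_lit 0) (nat_lit 1063721488) (nat_lit 532) (nat_lit 69368133316) (nat_lit 76) (nat_lit 25196144285) (nat_lit 216) (nat_lit 5) (nat_lit 223)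 (nat_lit 5) (nat_lit 217) (nat_lit 5) (nat_lit 522) (nat_lit 489) (nat_lit 189))) (XT.nd (nat_lit 78) (nat_lit 456) (nat_lit 0) (XT.lf (nat_lit 0) (nat_lit 15368519508) (nat_lit 532) (nat_lit 15726249391) (nat_lit 76) (nat_lit 66188139311) (nat_lit 216) (nat_lit 5) (nat_lit 223) (nat_lit 5) (nat_lit 217) (nat_lit 5) (nat_lit 523) (nat_lit 489) (nat_lit 188)) (XT.lf (nat_lit 0) (nat_lit 30584013749) (nat_lit 532) (nat_lit 58759178788) (nat_lit 76) (nat_lit 9629825537) (nat_lit 210) (nat_lit 5) (nat_lit 217) (nat_lit 5) (nat_lit 211) (nat_lit 5) (nat_lit 524) (nat_lit 489) (nat_lit 187)))))) (XT.nd (nat_lit 59826) (nat_lit 0) (nat_lit 8056) (XT.nd (nat_lit 312) (nat_lit 912) (nat_lit 0) (XT.nd (nat_lit 156) (nat_lit 380) (nat_lit 0) (XT.nd (nat_lit 78) (nat_lit 456) (nat_lit 0) (XT.lf (nat_lit 0) (nat_lit 46723871399) (nat_lit 532) (nat_lit 2864434475) (nat_lit 76) (nat_lit 51111488441) (nat_lit 210) (nat_lit 5) (nat_lit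 217) (nat_lit 5) (nat_lit 211) (nat_lit 5) (nat_lit 525) (nat_lit 489) (nat_lit 186)) (XT.lf (nat_lit 0) (nat_lit 55795506603) (nat_lit 456) (nat_lit 8088421803) (nat_lit 532) (nat_lit 38578365364) (nat_lit 204) (nat_lit 5) (nat_lit 210) (nat_lit 5) (nat_lit 211) (nat_lit 5) (nat_lit 526) (nat_lit 489) (nat_lit 185))) (XT.nd (nat_lit 78) (nat_lit 0) (nat_lit 0) (XT.lf (nat_lit 0) (nat_lit 11895438988) (nat_lit 380) (nat_lit 70139713159) (nat_lit 456) (nat_lit 22228225144) (nat_lit 199) (nat_lit 5) (nat_lit 204) (nat_lit 5) (nat_lit 205) (nat_lit 5) (nat_lit 527) (nat_lit 489) (nat_lit 184)) (XT.lf (nat_lit 0) (nat_lit 73089060292) (nat_lit 380) (nat_lit 28192067406) (nat_lit 456) (nat_lit 4820859203) (nat_lit 199) (nat_lit 5) (nat_lit 204) (nat_lit 5) (nat_lit 205) (nat_lit 5) (nat_lit 528) (nat_lit 489) (nat_lit 183)))) (XT.nd (nat_lit 156) (nat_lit 380) (nat_lit 0) (XT.nd (nat_lit 78) (nat_lit 0) (nat_lit 0) (XT.lf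 (nat_lit 0) (nat_lit 13275371137) (nat_lit 532) (nat_lit 79578542238) (nat_lit 76) (nat_lit 15125387924) (nat_lit 192) (nat_lit 5) (nat_lit 199) (nat_lit 5) (nat_lit 193) (nat_lit 5) (nat_lit 529) (nat_lit 489) (nat_lit 182)) (XT.lf (nat_lit 0) (nat_lit 32433074374) (nat_lit 532) (nat_lit 17899924110) (nat_lit 76) (nat_lit 59560040323) (nat_lit 192) (nat_lit 5) (nat_lit 199) (nat_lit 5) (nat_lit 193) (nat_lit 5) (nat_lit 530) (nat_lit 489) (nat_lit 181))) (XT.nd (nat_lit 59280) (nat_lit 0) (nat_lit 8056) (XT.lf (nat_lit 0) (nat_lit 46536747681) (nat_lit 380) (nat_lit 6075794525) (nat_lit 456) (nat_lit 59238235262) (nat_lit 187) (nat_lit 5) (nat_lit 192) (nat_lit 5) (nat_lit 193) (nat_lit 5) (nat_lit 531) (nat_lit 489) (nat_lit 180)) (XT.lf (nat_lit 0) (nat_lit 14224870608) (nat_lit 1292) (nat_lit 7413550301) (nat_lit 1292) (nat_lit 7413550301) (nat_lit 293) (nat_lit 3) (nat_lit 310) (nat_lit 3) (nat_lit 310) (nat_lit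 5) (nat_lit 490) (nat_lit 490) (nat_lit 220))))) (XT.nd (nat_lit 312) (nat_lit 0) (nat_lit 152) (XT.nd (nat_lit 156) (nat_lit 0) (nat_lit 76) (XT.nd (nat_lit 78) (nat_lit 0) (nat_lit 76) (XT.lf (nat_lit 76) (nat_lit 14150852459) (nat_lit 0) (nat_lit 14880915934) (nat_lit 1292) (nat_lit 29939072055) (nat_lit 294) (nat_lit 5) (nat_lit 293) (nat_lit 3) (nat_lit 310) (nat_lit 5) (nat_lit 491) (nat_lit 490) (nat_lit 219)) (XT.lf (nat_lit 0) (nat_lit 29919814990) (nat_lit 1216) (nat_lit 15697175252) (nat_lit 1292) (nat_lit 14238098521) (nat_lit 294) (nat_lit 5) (nat_lit 310) (nat_lit 5) (nat_lit 311) (nat_lit 5) (nat_lit 492) (nat_lit 490) (nat_lit 218))) (XT.nd (nat_lit 78) (nat_lit 0) (nat_lit 76) (XT.lf (nat_lit 76) (nat_lit 14433221488) (nat_lit 0) (nat_lit 16686628373) (nat_lit 1292) (nat_lit 29637454362) (nat_lit 295) (nat_lit 5) (nat_lit 294) (nat_lit 5) (nat_lit 311) (nat_lit 5) (nat_lit 493) (nat_lit 490) (nat_lit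 217)) (XT.lf (nat_lit 0) (nat_lit 32641293478) (nat_lit 1216) (nat_lit 16020559692) (nat_lit 1292) (nat_lit 13016170844) (nat_lit 295) (nat_lit 5) (nat_lit 311) (nat_lit 5) (nat_lit 312) (nat_lit 5) (nat_lit 494) (nat_lit 490) (nat_lit 216)))) (XT.nd (nat_lit 156) (nat_lit 0) (nat_lit 76) (XT.nd (nat_lit 78) (nat_lit 0) (nat_lit 76) (XT.lf (nat_lit 76) (nat_lit 15325493843) (nat_lit 0) (nat_lit 19194729839) (nat_lit 1292) (nat_lit 28096786514) (nat_lit 296) (nat_lit 5) (nat_lit 295) (nat_lit 5) (nat_lit 312) (nat_lit 5) (nat_lit 495) (nat_lit 490) (nat_lit 215)) (XT.lf (nat_lit 0) (nat_lit 36725471704) (nat_lit 1216) (nat_lit 15748257215) (nat_lit 1292) (nat_lit 11102338640) (nat_lit 296) (nat_lit 5) (nat_lit 312) (nat_lit 5) (nat_lit 313) (nat_lit 5) (nat_lit 496) (nat_lit 490) (nat_lit 214))) (XT.nd (nat_lit 78) (nat_lit 0) (nat_lit 76) (XT.lf (nat_lit 76) (nat_lit 16880224186) (nat_lit 0) (nat_lit 22468312089)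 (nat_lit 1292) (nat_lit 25204810684) (nat_lit 297) (nat_lit 5) (nat_lit 296) (nat_lit 5) (nat_lit 313) (nat_lit 5) (nat_lit 497) (nat_lit 490) (nat_lit 213)) (XT.lf (nat_lit 0) (nat_lit 42291364256) (nat_lit 1216) (nat_lit 14827908540) (nat_lit 1292) (nat_lit 8433439888) (nat_lit 297) (nat_lit 5) (nat_lit 313) (nat_lit 5) (nat_lit 314) (nat_lit 5) (nat_lit 498) (nat_lit 490) (nat_lit 212))))))))
noncomputable def xc246 : XT := (XT.nd (nat_lit 2340) (nat_lit 532) (nat_lit 0) (XT.nd (nat_lit 1170) (nat_lit 4484) (nat_lit 0) (XT.nd (nat_lit 546) (nat_lit 1900) (nat_lit 0) (XT.nd (nat_lit 234) (nat_lit 1064) (nat_lit 0) (XT.nd (nat_lit 78) (nat_lit 0) (nat_lit 76) (XT.lf (nat_lit 76) (nat_lit 19153531008) (nat_lit 0) (nat_lit 26574904777) (nat_lit 1292) (nat_lit 20841444921) (nat_lit 298) (nat_lit 5) (nat_lit 297) (nat_lit 5) (nat_lit 314) (nat_lit 5) (nat_lit 499) (nat_lit 490) (nat_lit 211)) (XT.nd (nat_lit 78) (nat_lit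 0) (nat_lit 0) (XT.lf (nat_lit 0) (nat_lit 49466200300) (nat_lit 1216) (nat_lit 13203590811) (nat_lit 1292) (nat_lit 4941845313) (nat_lit 298) (nat_lit 5) (nat_lit 314) (nat_lit 5) (nat_lit 315) (nat_lit 5) (nat_lit 500) (nat_lit 490) (nat_lit 210)) (XT.lf (nat_lit 76) (nat_lit 22205308809) (nat_lit 0) (nat_lit 31586775581) (nat_lit 1292) (nat_lit 14878280906) (nat_lit 299) (nat_lit 5) (nat_lit 298) (nat_lit 5) (nat_lit 315) (nat_lit 5) (nat_lit 501) (nat_lit 490) (nat_lit 209)))) (XT.nd (nat_lit 156) (nat_lit 1216) (nat_lit 0) (XT.nd (nat_lit 78) (nat_lit 0) (nat_lit 0) (XT.lf (nat_lit 0) (nat_lit 58385948713) (nat_lit 1216) (nat_lit 10815605408) (nat_lit 1292) (nat_lit 555155879) (nat_lit 299) (nat_lit 5) (nat_lit 315) (nat_lit 5) (nat_lit 316) (nat_lit 5) (nat_lit 502) (nat_lit 490) (nat_lit 208)) (XT.lf (nat_lit 76) (nat_lit 26099452052) (nat_lit 0) (nat_lit 37581249717) (nat_lit 1292) (nat_lit 7178051167) (nat_lit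 300) (nat_lit 5) (nat_lit 299) (nat_lit 5) (nat_lit 316) (nat_lit 5) (nat_lit 503) (nat_lit 490) (nat_lit 207))) (XT.nd (nat_lit 78) (nat_lit 1216) (nat_lit 0) (XT.lf (nat_lit 76) (nat_lit 64343243656) (nat_lit 0) (nat_lit 4899730681) (nat_lit 1292) (nat_lit 2747622591) (nat_lit 300) (nat_lit 5) (nat_lit 299) (nat_lit 5) (nat_lit 316) (nat_lit 5) (nat_lit 504) (nat_lit 490) (nat_lit 206)) (XT.lf (nat_lit 0) (nat_lit 2358987583) (nat_lit 1292) (nat_lit 42258241417) (nat_lit 1368) (nat_lit 28521282694) (nat_lit 283) (nat_lit 5) (nat_lit 300) (nat_lit 5) (nat_lit 301) (nat_lit 5) (nat_lit 505) (nat_lit 490) (nat_lit 205))))) (XT.nd (nat_lit 312) (nat_lit 1216) (nat_lit 0) (XT.nd (nat_lit 156) (nat_lit 684) (nat_lit 0) (XT.nd (nat_lit 78) (nat_lit 0) (nat_lit 76) (XT.lf (nat_lit 0) (nat_lit 7689554876) (nat_lit 1292) (nat_lit 3674979795) (nat_lit 1368) (nat_lit 62951733674) (nat_lit 283) (nat_lit 5) (nat_lit 300) (nat_lit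 5) (nat_lit 301) (nat_lit 5) (nat_lit 506) (nat_lit 490) (nat_lit 204)) (XT.lf (nat_lit 0) (nat_lit 13756612702) (nat_lit 1292) (nat_lit 38959132362) (nat_lit 76) (nat_lit 22796315493) (nat_lit 284) (nat_lit 5) (nat_lit 301) (nat_lit 5) (nat_lit 285) (nat_lit 5) (nat_lit 507) (nat_lit 490) (nat_lit 203))) (XT.nd (nat_lit 78) (nat_lit 0) (nat_lit 0) (XT.lf (nat_lit 0) (nat_lit 1231093182) (nat_lit 760) (nat_lit 18935930324) (nat_lit 836) (nat_lit 56571862854) (nat_lit 274) (nat_lit 5) (nat_lit 284) (nat_lit 5) (nat_lit 285) (nat_lit 5) (nat_lit 508) (nat_lit 490) (nat_lit 202)) (XT.lf (nat_lit 0) (nat_lit 27319002667) (nat_lit 836) (nat_lit 34721836771) (nat_lit 76) (nat_lit 15945199880) (nat_lit 274) (nat_lit 5) (nat_lit 285) (nat_lit 5) (nat_lit 275) (nat_lit 5) (nat_lit 509) (nat_lit 490) (nat_lit 201)))) (XT.nd (nat_lit 156) (nat_lit 608) (nat_lit 0) (XT.nd (nat_lit 78) (nat_lit 0) (nat_lit 0) (XT.lf (nat_lit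 0) (nat_lit 7241079778) (nat_lit 608) (nat_lit 27701085709) (nat_lit 684) (nat_lit 44320742708) (nat_lit 266) (nat_lit 5) (nat_lit 274) (nat_lit 5) (nat_lit 275) (nat_lit 5) (nat_lit 510) (nat_lit 490) (nat_lit 200)) (XT.lf (nat_lit 0) (nat_lit 43221378793) (nat_lit 684) (nat_lit 29470549715) (nat_lit 76) (nat_lit 7873334021) (nat_lit 266) (nat_lit 5) (nat_lit 275) (nat_lit 5) (nat_lit 267) (nat_lit 5) (nat_lit 511) (nat_lit 490) (nat_lit 199))) (XT.nd (nat_lit 78) (nat_lit 0) (nat_lit 0) (XT.lf (nat_lit 0) (nat_lit 14362839419) (nat_lit 608) (nat_lit 37798018777) (nat_lit 684) (nat_lit 29733472661) (nat_lit 258) (nat_lit 5) (nat_lit 266) (nat_lit 5) (nat_lit 267) (nat_lit 5) (nat_lit 512) (nat_lit 490) (nat_lit 198)) (XT.lf (nat_lit 0) (nat_lit 60114921343) (nat_lit 608) (nat_lit 1550761336) (nat_lit 684) (nat_lit 21588673792) (nat_lit 258) (nat_lit 5) (nat_lit 266) (nat_lit 5) (nat_lit 267) (nat_lit 5) (nat_lit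 513) (nat_lit 490) (nat_lit 197)))))) (XT.nd (nat_lit 546) (nat_lit 2280) (nat_lit 0) (XT.nd (nat_lit 234) (nat_lit 1064) (nat_lit 0) (XT.nd (nat_lit 78) (nat_lit 608) (nat_lit 0) (XT.lf (nat_lit 0) (nat_lit 22682598583) (nat_lit 532) (nat_lit 49334647840) (nat_lit 608) (nat_lit 12621088646) (nat_lit 251) (nat_lit 5) (nat_lit 258) (nat_lit 5) (nat_lit 259) (nat_lit 5) (nat_lit 514) (nat_lit 490) (nat_lit 196)) (XT.nd (nat_lit 78) (nat_lit 608) (nat_lit 0) (XT.lf (nat_lit 0) (nat_lit 70337546958) (nat_lit 532) (nat_lit 12590263443) (nat_lit 608) (nat_lit 3128569075) (nat_lit 251) (nat_lit 5) (nat_lit 258) (nat_lit 5) (nat_lit 259) (nat_lit 5) (nat_lit 515) (nat_lit 490) (nat_lit 195)) (XT.lf (nat_lit 0) (nat_lit 7077249418) (nat_lit 608) (nat_lit 55277654967) (nat_lit 76) (nat_lit 25143395613) (nat_lit 243) (nat_lit 5) (nat_lit 251) (nat_lit 5) (nat_lit 244) (nat_lit 5) (nat_lit 516) (nat_lit 490) (nat_lit 194))))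 (XT.nd (nat_lit 156) (nat_lit 532) (nat_lit 0) (XT.nd (nat_lit 78) (nat_lit 532) (nat_lit 0) (XT.lf (nat_lit 0) (nat_lit 17810920891) (nat_lit 608) (nat_lit 7215818218) (nat_lit 76) (nat_lit 63947273008) (nat_lit 243) (nat_lit 5) (nat_lit 251) (nat_lit 5) (nat_lit 244) (nat_lit 5) (nat_lit 517) (nat_lit 490) (nat_lit 193)) (XT.lf (nat_lit 0) (nat_lit 29413917538) (nat_lit 608) (nat_lit 47485624253) (nat_lit 76) (nat_lit 13578034404) (nat_lit 236) (nat_lit 5) (nat_lit 244) (nat_lit 5) (nat_lit 237) (nat_lit 5) (nat_lit 518) (nat_lit 490) (nat_lit 192))) (XT.nd (nat_lit 78) (nat_lit 0) (nat_lit 0) (XT.lf (nat_lit 0) (nat_lit 2632244218) (nat_lit 532) (nat_lit 39079060270) (nat_lit 608) (nat_lit 50304553739) (nat_lit 229) (nat_lit 5) (nat_lit 236) (nat_lit 5) (nat_lit 237) (nat_lit 5) (nat_lit 519) (nat_lit 490) (nat_lit 191)) (XT.lf (nat_lit 0) (nat_lit 54860308477) (nat_lit 608) (nat_lit 38362829140) (nat_lit 76)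 (nat_lit 362670285) (nat_lit 229) (nat_lit 5) (nat_lit 237) (nat_lit 5) (nat_lit 230) (nat_lit 5) (nat_lit 520) (nat_lit 490) (nat_lit 190))))) (XT.nd (nat_lit 312) (nat_lit 1292) (nat_lit 0) (XT.nd (nat_lit 156) (nat_lit 532) (nat_lit 0) (XT.nd (nat_lit 78) (nat_lit 0) (nat_lit 0) (XT.lf (nat_lit 0) (nat_lit 14075914893) (nat_lit 456) (nat_lit 54849733940) (nat_lit 532) (nat_lit 26261551285) (nat_lit 223) (nat_lit 5) (nat_lit 229) (nat_lit 5) (nat_lit 230) (nat_lit 5) (nat_lit 521) (nat_lit 490) (nat_lit 189)) (XT.lf (nat_lit 0) (nat_lit 68873810908) (nat_lit 456) (nat_lit 14926172982) (nat_lit 532) (nat_lit 13025039219) (nat_lit 223) (nat_lit 5) (nat_lit 229) (nat_lit 5) (nat_lit 230) (nat_lit 5) (nat_lit 522) (nat_lit 490) (nat_lit 188))) (XT.nd (nat_lit 78) (nat_lit 0) (nat_lit 0) (XT.lf (nat_lit 0) (nat_lit 1113526378) (nat_lit 532) (nat_lit 71427667698) (nat_lit 76) (nat_lit 25955106248) (nat_lit 216) (nat_lit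 5) (nat_lit 223) (nat_lit 5) (nat_lit 217) (nat_lit 5) (nat_lit 523) (nat_lit 490) (nat_lit 187)) (XT.lf (nat_lit 0) (nat_lit 15846947176) (nat_lit 532) (nat_lit 16177153750) (nat_lit 76) (nat_lit 68176771484) (nat_lit 216) (nat_lit 5) (nat_lit 223) (nat_lit 5) (nat_lit 217) (nat_lit 5) (nat_lit 524) (nat_lit 490) (nat_lit 186)))) (XT.nd (nat_lit 156) (nat_lit 836) (nat_lit 0) (XT.nd (nat_lit 78) (nat_lit 0) (nat_lit 0) (XT.lf (nat_lit 0) (nat_lit 31518633770) (nat_lit 532) (nat_lit 60500796725) (nat_lit 76) (nat_lit 9922263305) (nat_lit 210) (nat_lit 5) (nat_lit 217) (nat_lit 5) (nat_lit 211) (nat_lit 5) (nat_lit 525) (nat_lit 490) (nat_lit 185)) (XT.lf (nat_lit 0) (nat_lit 48142189102) (nat_lit 532) (nat_lit 2929826318) (nat_lit 76) (nat_lit 52648272902) (nat_lit 210) (nat_lit 5) (nat_lit 217) (nat_lit 5) (nat_lit 211) (nat_lit 5) (nat_lit 526) (nat_lit 490) (nat_lit 184))) (XT.nd (nat_lit 78) (nat_lit 380) (nat_lit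 0) (XT.lf (nat_lit 0) (nat_lit 57489711608) (nat_lit 456) (nat_lit 8327048189) (nat_lit 532) (nat_lit 39718911655) (nat_lit 204) (nat_lit 5) (nat_lit 210) (nat_lit 5) (nat_lit 211) (nat_lit 5) (nat_lit 527) (nat_lit 490) (nat_lit 183)) (XT.lf (nat_lit 0) (nat_lit 12272890547) (nat_lit 380) (nat_lit 72239390036) (nat_lit 456) (nat_lit 22878514136) (nat_lit 199) (nat_lit 5) (nat_lit 204) (nat_lit 5) (nat_lit 205) (nat_lit 5) (nat_lit 528) (nat_lit 490) (nat_lit 182))))))) (XT.nd (nat_lit 60450) (nat_lit 0) (nat_lit 3876) (XT.nd (nat_lit 59826) (nat_lit 0) (nat_lit 7828) (XT.nd (nat_lit 59514) (nat_lit 0) (nat_lit 7676) (XT.nd (nat_lit 78) (nat_lit 532) (nat_lit 0) (XT.lf (nat_lit 0) (nat_lit 75301720827) (nat_lit 380) (nat_lit 29033446402) (nat_lit 456) (nat_lit 4949409482) (nat_lit 199) (nat_lit 5) (nat_lit 204) (nat_lit 5) (nat_lit 205) (nat_lit 5) (nat_lit 529) (nat_lit 490) (nat_lit 181)) (XT.nd (nat_lit 78) (nat_lit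 0) (nat_lit 0) (XT.lf (nat_lit 0) (nat_lit 13689172560) (nat_lit 532) (nat_lit 81945371460) (nat_lit 76) (nat_lit 15583668577) (nat_lit 192) (nat_lit 5) (nat_lit 199) (nat_lit 5) (nat_lit 193) (nat_lit 5) (nat_lit 530) (nat_lit 490) (nat_lit 180)) (XT.lf (nat_lit 0) (nat_lit 33421154265) (nat_lit 532) (nat_lit 18416992664) (nat_lit 76) (nat_lit 61351228926) (nat_lit 192) (nat_lit 5) (nat_lit 199) (nat_lit 5) (nat_lit 193) (nat_lit 5) (nat_lit 531) (nat_lit 490) (nat_lit 179)))) (XT.nd (nat_lit 156) (nat_lit 0) (nat_lit 76) (XT.nd (nat_lit 78) (nat_lit 0) (nat_lit 0) (XT.lf (nat_lit 0) (nat_lit 14670686049) (nat_lit 1292) (nat_lit 7626134783) (nat_lit 1292) (nat_lit 7626134783) (nat_lit 293) (nat_lit 3) (nat_lit 310) (nat_lit 3) (nat_lit 310) (nat_lit 5) (nat_lit 491) (nat_lit 491) (nat_lit 218)) (XT.lf (nat_lit 76) (nat_lit 14594829498) (nat_lit 0) (nat_lit 15345106738) (nat_lit 1292) (nat_lit 30798907835) (nat_lit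 294) (nat_lit 5) (nat_lit 293) (nat_lit 3) (nat_lit 310) (nat_lit 5) (nat_lit 492) (nat_lit 491) (nat_lit 217))) (XT.nd (nat_lit 78) (nat_lit 0) (nat_lit 0) (XT.lf (nat_lit 0) (nat_lit 30853374526) (nat_lit 1216) (nat_lit 16147950890) (nat_lit 1292) (nat_lit 14648332060) (nat_lit 294) (nat_lit 5) (nat_lit 310) (nat_lit 5) (nat_lit 311) (nat_lit 5) (nat_lit 493) (nat_lit 491) (nat_lit 216)) (XT.lf (nat_lit 76) (nat_lit 14886160304) (nat_lit 0) (nat_lit 17202394308) (nat_lit 1292) (nat_lit 30490410607) (nat_lit 295) (nat_lit 5) (nat_lit 294) (nat_lit 5) (nat_lit 311) (nat_lit 5) (nat_lit 494) (nat_lit 491) (nat_lit 215))))) (XT.nd (nat_lit 312) (nat_lit 0) (nat_lit 152) (XT.nd (nat_lit 156) (nat_lit 0) (nat_lit 76) (XT.nd (nat_lit 78) (nat_lit 0) (nat_lit 0) (XT.lf (nat_lit 0) (nat_lit 33654477389) (nat_lit 1216) (nat_lit 16480646292) (nat_lit 1292) (nat_lit 13392217989) (nat_lit 295) (nat_lit 5) (nat_lit 311) (nat_lit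 5) (nat_lit 312) (nat_lit 5) (nat_lit 495) (nat_lit 491) (nat_lit 214)) (XT.lf (nat_lit 76) (nat_lit 15805587573) (nat_lit 0) (nat_lit 19783394648) (nat_lit 1292) (nat_lit 28905539152) (nat_lit 296) (nat_lit 5) (nat_lit 295) (nat_lit 5) (nat_lit 312) (nat_lit 5) (nat_lit 496) (nat_lit 491) (nat_lit 213))) (XT.nd (nat_lit 78) (nat_lit 0) (nat_lit 0) (XT.lf (nat_lit 0) (nat_lit 37859302424) (nat_lit 1216) (nat_lit 16199878421) (nat_lit 1292) (nat_lit 11423202302) (nat_lit 296) (nat_lit 5) (nat_lit 312) (nat_lit 5) (nat_lit 313) (nat_lit 5) (nat_lit 497) (nat_lit 491) (nat_lit 212)) (XT.lf (nat_lit 76) (nat_lit 17407253240) (nat_lit 0) (nat_lit 23153069950) (nat_lit 1292) (nat_lit 25928679942) (nat_lit 297) (nat_lit 5) (nat_lit 296) (nat_lit 5) (nat_lit 313) (nat_lit 5) (nat_lit 498) (nat_lit 491) (nat_lit 211)))) (XT.nd (nat_lit 156) (nat_lit 0) (nat_lit 76) (XT.nd (nat_lit 78) (nat_lit 0) (nat_lit 0) (XT.lf (nat_lit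 0) (nat_lit 43590423523) (nat_lit 1216) (nat_lit 15251707446) (nat_lit 1292) (nat_lit 8676249360) (nat_lit 297) (nat_lit 5) (nat_lit 313) (nat_lit 5) (nat_lit 314) (nat_lit 5) (nat_lit 499) (nat_lit 491) (nat_lit 210)) (XT.lf (nat_lit 76) (nat_lit 19748969030) (nat_lit 0) (nat_lit 27380955361) (nat_lit 1292) (nat_lit 21436159607) (nat_lit 298) (nat_lit 5) (nat_lit 297) (nat_lit 5) (nat_lit 314) (nat_lit 5) (nat_lit 500) (nat_lit 491) (nat_lit 209))) (XT.nd (nat_lit 78) (nat_lit 0) (nat_lit 0) (XT.lf (nat_lit 0) (nat_lit 50978876511) (nat_lit 1216) (nat_lit 13578523928) (nat_lit 1292) (nat_lit 5081720427) (nat_lit 298) (nat_lit 5) (nat_lit 314) (nat_lit 5) (nat_lit 315) (nat_lit 5) (nat_lit 501) (nat_lit 491) (nat_lit 208)) (XT.lf (nat_lit 76) (nat_lit 22892435086) (nat_lit 0) (nat_lit 32541467948) (nat_lit 1292) (nat_lit 15295727707) (nat_lit 299) (nat_lit 5) (nat_lit 298) (nat_lit 5) (nat_lit 315) (nat_lit 5) (nat_lit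 502) (nat_lit 491) (nat_lit 207)))))) (XT.nd (nat_lit 624) (nat_lit 2356) (nat_lit 0) (XT.nd (nat_lit 312) (nat_lit 684) (nat_lit 0) (XT.nd (nat_lit 156) (nat_lit 1216) (nat_lit 0) (XT.nd (nat_lit 78) (nat_lit 0) (nat_lit 0) (XT.lf (nat_lit 0) (nat_lit 60164699959) (nat_lit 1216) (nat_lit 11118830199) (nat_lit 1292) (nat_lit 565062240) (nat_lit 299) (nat_lit 5) (nat_lit 315) (nat_lit 5) (nat_lit 316) (nat_lit 5) (nat_lit 503) (nat_lit 491) (nat_lit 206)) (XT.lf (nat_lit 76) (nat_lit 26903470716) (nat_lit 0) (nat_lit 38714235653) (nat_lit 1292) (nat_lit 7366008039) (nat_lit 300) (nat_lit 5) (nat_lit 299) (nat_lit 5) (nat_lit 316) (nat_lit 5) (nat_lit 504) (nat_lit 491) (nat_lit 205))) (XT.nd (nat_lit 78) (nat_lit 1216) (nat_lit 0) (XT.lf (nat_lit 76) (nat_lit 66293963395) (nat_lit 0) (nat_lit 5052109440) (nat_lit 1292) (nat_lit 2803464217) (nat_lit 300) (nat_lit 5) (nat_lit 299) (nat_lit 5) (nat_lit 316) (nat_lit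 5) (nat_lit 505) (nat_lit 491) (nat_lit 204)) (XT.lf (nat_lit 0) (nat_lit 2455219700) (nat_lit 1292) (nat_lit 43504434960) (nat_lit 1368) (nat_lit 29372245206) (nat_lit 283) (nat_lit 5) (nat_lit 300) (nat_lit 5) (nat_lit 301) (nat_lit 5) (nat_lit 506) (nat_lit 491) (nat_lit 203)))) (XT.nd (nat_lit 156) (nat_lit 684) (nat_lit 0) (XT.nd (nat_lit 78) (nat_lit 0) (nat_lit 76) (XT.lf (nat_lit 0) (nat_lit 7944962386) (nat_lit 1292) (nat_lit 3764303268) (nat_lit 1368) (nat_lit 64835745909) (nat_lit 283) (nat_lit 5) (nat_lit 300) (nat_lit 5) (nat_lit 301) (nat_lit 5) (nat_lit 507) (nat_lit 491) (nat_lit 202)) (XT.lf (nat_lit 0) (nat_lit 14193477657) (nat_lit 1292) (nat_lit 40106423008) (nat_lit 76) (nat_lit 23476793597) (nat_lit 284) (nat_lit 5) (nat_lit 301) (nat_lit 5) (nat_lit 285) (nat_lit 5) (nat_lit 508) (nat_lit 491) (nat_lit 201))) (XT.nd (nat_lit 78) (nat_lit 0) (nat_lit 0) (XT.lf (nat_lit 0) (nat_lit 1289298681)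 (nat_lit 760) (nat_lit 19506402710) (nat_lit 836) (nat_lit 58244638521) (nat_lit 274) (nat_lit 5) (nat_lit 284) (nat_lit 5) (nat_lit 285) (nat_lit 5) (nat_lit 509) (nat_lit 491) (nat_lit 200)) (XT.lf (nat_lit 0) (nat_lit 28161528244) (nat_lit 836) (nat_lit 35742124146) (nat_lit 76) (nat_lit 16421276507) (nat_lit 274) (nat_lit 5) (nat_lit 285) (nat_lit 5) (nat_lit 275) (nat_lit 5) (nat_lit 510) (nat_lit 491) (nat_lit 199))))) (XT.nd (nat_lit 312) (nat_lit 1140) (nat_lit 0) (XT.nd (nat_lit 156) (nat_lit 608) (nat_lit 0) (XT.nd (nat_lit 78) (nat_lit 0) (nat_lit 0) (XT.lf (nat_lit 0) (nat_lit 7479470412) (nat_lit 608) (nat_lit 28533450317) (nat_lit 684) (nat_lit 45627197154) (nat_lit 266) (nat_lit 5) (nat_lit 274) (nat_lit 5) (nat_lit 275) (nat_lit 5) (nat_lit 511) (nat_lit 491) (nat_lit 198)) (XT.lf (nat_lit 0) (nat_lit 44539842945) (nat_lit 684) (nat_lit 30333453970) (nat_lit 76) (nat_lit 8108266039) (nat_lit 266)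 (nat_lit 5) (nat_lit 275) (nat_lit 5) (nat_lit 267) (nat_lit 5) (nat_lit 512) (nat_lit 491) (nat_lit 197))) (XT.nd (nat_lit 78) (nat_lit 0) (nat_lit 0) (XT.lf (nat_lit 0) (nat_lit 14814728876) (nat_lit 608) (nat_lit 38932344147) (nat_lit 684) (nat_lit 30603443403) (nat_lit 258) (nat_lit 5) (nat_lit 266) (nat_lit 5) (nat_lit 267) (nat_lit 5) (nat_lit 513) (nat_lit 491) (nat_lit 196)) (XT.lf (nat_lit 0) (nat_lit 61938761482) (nat_lit 608) (nat_lit 1597657774) (nat_lit 684) (nat_lit 22214942318) (nat_lit 258) (nat_lit 5) (nat_lit 266) (nat_lit 5) (nat_lit 267) (nat_lit 5) (nat_lit 514) (nat_lit 491) (nat_lit 195)))) (XT.nd (nat_lit 156) (nat_lit 608) (nat_lit 0) (XT.nd (nat_lit 78) (nat_lit 0) (nat_lit 0) (XT.lf (nat_lit 0) (nat_lit 23383892126) (nat_lit 532) (nat_lit 50814229554) (nat_lit 608) (nat_lit 12978750173) (nat_lit 251) (nat_lit 5) (nat_lit 258) (nat_lit 5) (nat_lit 259) (nat_lit 5) (nat_lit 515) (nat_lit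 491) (nat_lit 194)) (XT.lf (nat_lit 0) (nat_lit 72467882673) (nat_lit 532) (nat_lit 12967526956) (nat_lit 608) (nat_lit 3202065825) (nat_lit 251) (nat_lit 5) (nat_lit 258) (nat_lit 5) (nat_lit 259) (nat_lit 5) (nat_lit 516) (nat_lit 491) (nat_lit 193))) (XT.nd (nat_lit 78) (nat_lit 0) (nat_lit 0) (XT.lf (nat_lit 0) (nat_lit 7309152608) (nat_lit 608) (nat_lit 56914995989) (nat_lit 76) (nat_lit 25898510512) (nat_lit 243) (nat_lit 5) (nat_lit 251) (nat_lit 5) (nat_lit 244) (nat_lit 5) (nat_lit 517) (nat_lit 491) (nat_lit 192)) (XT.lf (nat_lit 0) (nat_lit 18364263768) (nat_lit 608) (nat_lit 7411915457) (nat_lit 76) (nat_lit 65866480548) (nat_lit 243) (nat_lit 5) (nat_lit 251) (nat_lit 5) (nat_lit 244) (nat_lit 5) (nat_lit 518) (nat_lit 491) (nat_lit 191))))))))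
noncomputable def xc247 : XT := (XT.nd (nat_lit 61698) (nat_lit 0) (nat_lit 532) (XT.nd (nat_lit 60528) (nat_lit 0) (nat_lit 6916) (XT.nd (nat_lit 546) (nat_lit 1824) (nat_lit 0) (XT.nd (nat_lit 234) (nat_lit 988) (nat_lit 0) (XT.nd (nat_lit 78) (nat_lit 532) (nat_lit 0) (XT.lf (nat_lit 0) (nat_lit 30315005063) (nat_lit 608) (nat_lit 48889468237) (nat_lit 76) (nat_lit 13986867897) (nat_lit 236) (nat_lit 5) (nat_lit 244) (nat_lit 5) (nat_lit 237) (nat_lit 5) (nat_lit 519) (nat_lit 491) (nat_lit 190)) (XT.nd (nat_lit 78) (nat_lit 0) (nat_lit 0) (XT.lf (nat_lit 0) (nat_lit 2731733104) (nat_lit 532) (nat_lit 40249233997) (nat_lit 608) (nat_lit 51794815048) (nat_lit 229) (nat_lit 5) (nat_lit 236) (nat_lit 5) (nat_lit 237) (nat_lit 5) (nat_lit 520) (nat_lit 491) (nat_lit 189)) (XT.lf (nat_lit 0) (nat_lit 56523928029) (nat_lit 608) (nat_lit 39493274931) (nat_lit 76) (nat_lit 375642810) (nat_lit 229) (nat_lit 5) (nat_lit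 237) (nat_lit 5) (nat_lit 230) (nat_lit 5) (nat_lit 521) (nat_lit 491) (nat_lit 188)))) (XT.nd (nat_lit 156) (nat_lit 532) (nat_lit 0) (XT.nd (nat_lit 78) (nat_lit 0) (nat_lit 0) (XT.lf (nat_lit 0) (nat_lit 14518431039) (nat_lit 456) (nat_lit 56492473357) (nat_lit 532) (nat_lit 27031385144) (nat_lit 223) (nat_lit 5) (nat_lit 229) (nat_lit 5) (nat_lit 230) (nat_lit 5) (nat_lit 522) (nat_lit 491) (nat_lit 187)) (XT.lf (nat_lit 0) (nat_lit 70959674459) (nat_lit 456) (nat_lit 15371285743) (nat_lit 532) (nat_lit 13398302357) (nat_lit 223) (nat_lit 5) (nat_lit 229) (nat_lit 5) (nat_lit 230) (nat_lit 5) (nat_lit 523) (nat_lit 491) (nat_lit 186))) (XT.nd (nat_lit 78) (nat_lit 0) (nat_lit 0) (XT.lf (nat_lit 0) (nat_lit 1163798268) (nat_lit 532) (nat_lit 73550222853) (nat_lit 76) (nat_lit 26736660400) (nat_lit 216) (nat_lit 5) (nat_lit 223) (nat_lit 5) (nat_lit 217) (nat_lit 5) (nat_lit 524) (nat_lit 491) (nat_lit 185)) (XT.lf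 (nat_lit 0) (nat_lit 16338730445) (nat_lit 532) (nat_lit 16642784016) (nat_lit 76) (nat_lit 70224891100) (nat_lit 216) (nat_lit 5) (nat_lit 223) (nat_lit 5) (nat_lit 217) (nat_lit 5) (nat_lit 525) (nat_lit 491) (nat_lit 184))))) (XT.nd (nat_lit 312) (nat_lit 532) (nat_lit 0) (XT.nd (nat_lit 156) (nat_lit 836) (nat_lit 0) (XT.nd (nat_lit 78) (nat_lit 0) (nat_lit 0) (XT.lf (nat_lit 0) (nat_lit 32480310803) (nat_lit 532) (nat_lit 62295877723) (nat_lit 76) (nat_lit 10223270822) (nat_lit 210) (nat_lit 5) (nat_lit 217) (nat_lit 5) (nat_lit 211) (nat_lit 5) (nat_lit 526) (nat_lit 491) (nat_lit 183)) (XT.lf (nat_lit 0) (nat_lit 49602103338) (nat_lit 532) (nat_lit 2998359065) (nat_lit 76) (nat_lit 54230963437) (nat_lit 210) (nat_lit 5) (nat_lit 217) (nat_lit 5) (nat_lit 211) (nat_lit 5) (nat_lit 527) (nat_lit 491) (nat_lit 182))) (XT.nd (nat_lit 78) (nat_lit 380) (nat_lit 0) (XT.lf (nat_lit 0) (nat_lit 59233575174) (nat_lit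 456) (nat_lit 8573064491) (nat_lit 532) (nat_lit 40894638992) (nat_lit 204) (nat_lit 5) (nat_lit 210) (nat_lit 5) (nat_lit 211) (nat_lit 5) (nat_lit 528) (nat_lit 491) (nat_lit 181)) (XT.lf (nat_lit 0) (nat_lit 12660483795) (nat_lit 380) (nat_lit 74402316372) (nat_lit 456) (nat_lit 23549262282) (nat_lit 199) (nat_lit 5) (nat_lit 204) (nat_lit 5) (nat_lit 205) (nat_lit 5) (nat_lit 529) (nat_lit 491) (nat_lit 180)))) (XT.nd (nat_lit 59514) (nat_lit 0) (nat_lit 7676) (XT.nd (nat_lit 78) (nat_lit 532) (nat_lit 0) (XT.lf (nat_lit 0) (nat_lit 77579613745) (nat_lit 380) (nat_lit 29900318370) (nat_lit 456) (nat_lit 5082739069) (nat_lit 199) (nat_lit 5) (nat_lit 204) (nat_lit 5) (nat_lit 205) (nat_lit 5) (nat_lit 530) (nat_lit 491) (nat_lit 179)) (XT.lf (nat_lit 0) (nat_lit 14114495950) (nat_lit 532) (nat_lit 84384383896) (nat_lit 76) (nat_lit 16055438239) (nat_lit 192) (nat_lit 5) (nat_lit 199) (nat_lit 5) (nat_lit 193)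 (nat_lit 5) (nat_lit 531) (nat_lit 491) (nat_lit 178))) (XT.nd (nat_lit 78) (nat_lit 0) (nat_lit 0) (XT.lf (nat_lit 0) (nat_lit 15128781296) (nat_lit 1292) (nat_lit 7845660624) (nat_lit 1292) (nat_lit 7845660624) (nat_lit 293) (nat_lit 3) (nat_lit 310) (nat_lit 3) (nat_lit 310) (nat_lit 5) (nat_lit 492) (nat_lit 492) (nat_lit 216)) (XT.lf (nat_lit 76) (nat_lit 15051009254) (nat_lit 0) (nat_lit 15822203579) (nat_lit 1292) (nat_lit 31686739353) (nat_lit 294) (nat_lit 5) (nat_lit 293) (nat_lit 3) (nat_lit 310) (nat_lit 5) (nat_lit 493) (nat_lit 492) (nat_lit 215)))))) (XT.nd (nat_lit 546) (nat_lit 836) (nat_lit 0) (XT.nd (nat_lit 234) (nat_lit 0) (nat_lit 76) (XT.nd (nat_lit 78) (nat_lit 0) (nat_lit 0) (XT.lf (nat_lit 0) (nat_lit 31812876304) (nat_lit 1216) (nat_lit 16613405894) (nat_lit 1292) (nat_lit 15071843274) (nat_lit 294) (nat_lit 5) (nat_lit 310) (nat_lit 5) (nat_lit 311) (nat_lit 5) (nat_lit 494) (nat_lit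 492) (nat_lit 214)) (XT.nd (nat_lit 78) (nat_lit 0) (nat_lit 76) (XT.lf (nat_lit 76) (nat_lit 15351542523) (nat_lit 0) (nat_lit 17732762568) (nat_lit 1292) (nat_lit 31371031696) (nat_lit 295) (nat_lit 5) (nat_lit 294) (nat_lit 5) (nat_lit 311) (nat_lit 5) (nat_lit 495) (nat_lit 492) (nat_lit 213)) (XT.lf (nat_lit 0) (nat_lit 34696108230) (nat_lit 1216) (nat_lit 16955714006) (nat_lit 1292) (nat_lit 13780375349) (nat_lit 295) (nat_lit 5) (nat_lit 311) (nat_lit 5) (nat_lit 312) (nat_lit 5) (nat_lit 496) (nat_lit 492) (nat_lit 212)))) (XT.nd (nat_lit 156) (nat_lit 0) (nat_lit 76) (XT.nd (nat_lit 78) (nat_lit 0) (nat_lit 76) (XT.lf (nat_lit 76) (nat_lit 16298917152) (nat_lit 0) (nat_lit 20388983313) (nat_lit 1292) (nat_lit 29740514774) (nat_lit 296) (nat_lit 5) (nat_lit 295) (nat_lit 5) (nat_lit 312) (nat_lit 5) (nat_lit 497) (nat_lit 492) (nat_lit 211)) (XT.lf (nat_lit 0) (nat_lit 39025307315) (nat_lit 1216) (nat_lit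 16666243791) (nat_lit 1292) (nat_lit 11754392576) (nat_lit 296) (nat_lit 5) (nat_lit 312) (nat_lit 5) (nat_lit 313) (nat_lit 5) (nat_lit 498) (nat_lit 492) (nat_lit 210))) (XT.nd (nat_lit 78) (nat_lit 0) (nat_lit 76) (XT.lf (nat_lit 76) (nat_lit 17948909360) (nat_lit 0) (nat_lit 23857755834) (nat_lit 1292) (nat_lit 26676117998) (nat_lit 297) (nat_lit 5) (nat_lit 296) (nat_lit 5) (nat_lit 313) (nat_lit 5) (nat_lit 499) (nat_lit 492) (nat_lit 209)) (XT.lf (nat_lit 0) (nat_lit 44926714172) (nat_lit 1216) (nat_lit 15689428006) (nat_lit 1292) (nat_lit 8926928278) (nat_lit 297) (nat_lit 5) (nat_lit 313) (nat_lit 5) (nat_lit 314) (nat_lit 5) (nat_lit 500) (nat_lit 492) (nat_lit 208))))) (XT.nd (nat_lit 312) (nat_lit 1064) (nat_lit 0) (XT.nd (nat_lit 156) (nat_lit 0) (nat_lit 76) (XT.nd (nat_lit 78) (nat_lit 0) (nat_lit 76) (XT.lf (nat_lit 76) (nat_lit 20361074346) (nat_lit 0) (nat_lit 28210682108) (nat_lit 1292) (nat_lit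 22050468203) (nat_lit 298) (nat_lit 5) (nat_lit 297) (nat_lit 5) (nat_lit 314) (nat_lit 5) (nat_lit 501) (nat_lit 492) (nat_lit 207)) (XT.lf (nat_lit 0) (nat_lit 52535286074) (nat_lit 1216) (nat_lit 13965920547) (nat_lit 1292) (nat_lit 5226272855) (nat_lit 298) (nat_lit 5) (nat_lit 314) (nat_lit 5) (nat_lit 315) (nat_lit 5) (nat_lit 502) (nat_lit 492) (nat_lit 206))) (XT.nd (nat_lit 78) (nat_lit 0) (nat_lit 76) (XT.lf (nat_lit 76) (nat_lit 23598971560) (nat_lit 0) (nat_lit 33524394143) (nat_lit 1292) (nat_lit 15727356983) (nat_lit 299) (nat_lit 5) (nat_lit 298) (nat_lit 5) (nat_lit 315) (nat_lit 5) (nat_lit 503) (nat_lit 492) (nat_lit 205)) (XT.lf (nat_lit 0) (nat_lit 61995253913) (nat_lit 1216) (nat_lit 11432371191) (nat_lit 1292) (nat_lit 575653172) (nat_lit 299) (nat_lit 5) (nat_lit 315) (nat_lit 5) (nat_lit 316) (nat_lit 5) (nat_lit 504) (nat_lit 492) (nat_lit 204)))) (XT.nd (nat_lit 156) (nat_lit 1216) (nat_lit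 0) (XT.nd (nat_lit 78) (nat_lit 0) (nat_lit 0) (XT.lf (nat_lit 76) (nat_lit 27730402439) (nat_lit 0) (nat_lit 39880892663) (nat_lit 1292) (nat_lit 7561175609) (nat_lit 300) (nat_lit 5) (nat_lit 299) (nat_lit 5) (nat_lit 316) (nat_lit 5) (nat_lit 505) (nat_lit 492) (nat_lit 203)) (XT.lf (nat_lit 76) (nat_lit 68302032395) (nat_lit 0) (nat_lit 5208750336) (nat_lit 1292) (nat_lit 2862507297) (nat_lit 300) (nat_lit 5) (nat_lit 299) (nat_lit 5) (nat_lit 316) (nat_lit 5) (nat_lit 506) (nat_lit 492) (nat_lit 202))) (XT.nd (nat_lit 78) (nat_lit 0) (nat_lit 0) (XT.lf (nat_lit 0) (nat_lit 2552877129) (nat_lit 1292) (nat_lit 44789251581) (nat_lit 1368) (nat_lit 30249005013) (nat_lit 283) (nat_lit 5) (nat_lit 300) (nat_lit 5) (nat_lit 301) (nat_lit 5) (nat_lit 507) (nat_lit 492) (nat_lit 201)) (XT.lf (nat_lit 0) (nat_lit 8206613042) (nat_lit 1292) (nat_lit 3857507678) (nat_lit 1368) (nat_lit 66776539112) (nat_lit 283) (nat_lit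 5) (nat_lit 300) (nat_lit 5) (nat_lit 301) (nat_lit 5) (nat_lit 508) (nat_lit 492) (nat_lit 200))))))) (XT.nd (nat_lit 1170) (nat_lit 1824) (nat_lit 0) (XT.nd (nat_lit 546) (nat_lit 2660) (nat_lit 0) (XT.nd (nat_lit 234) (nat_lit 1216) (nat_lit 0) (XT.nd (nat_lit 78) (nat_lit 760) (nat_lit 0) (XT.lf (nat_lit 0) (nat_lit 14642061301) (nat_lit 1292) (nat_lit 41289365604) (nat_lit 76) (nat_lit 24177881870) (nat_lit 284) (nat_lit 5) (nat_lit 301) (nat_lit 5) (nat_lit 285) (nat_lit 5) (nat_lit 509) (nat_lit 492) (nat_lit 199)) (XT.nd (nat_lit 78) (nat_lit 0) (nat_lit 0) (XT.lf (nat_lit 0) (nat_lit 1348029205) (nat_lit 760) (nat_lit 20093851814) (nat_lit 836) (nat_lit 59968996982) (nat_lit 274) (nat_lit 5) (nat_lit 284) (nat_lit 5) (nat_lit 285) (nat_lit 5) (nat_lit 510) (nat_lit 492) (nat_lit 198)) (XT.lf (nat_lit 0) (nat_lit 29028011850) (nat_lit 836) (nat_lit 36794246737) (nat_lit 76) (nat_lit 16911766277) (nat_lit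 274) (nat_lit 5) (nat_lit 285) (nat_lit 5) (nat_lit 275) (nat_lit 5) (nat_lit 511) (nat_lit 492) (nat_lit 197)))) (XT.nd (nat_lit 156) (nat_lit 608) (nat_lit 0) (XT.nd (nat_lit 78) (nat_lit 0) (nat_lit 0) (XT.lf (nat_lit 0) (nat_lit 7723798196) (nat_lit 608) (nat_lit 29390709398) (nat_lit 684) (nat_lit 46974175162) (nat_lit 266) (nat_lit 5) (nat_lit 274) (nat_lit 5) (nat_lit 275) (nat_lit 5) (nat_lit 512) (nat_lit 492) (nat_lit 196)) (XT.lf (nat_lit 0) (nat_lit 45896608305) (nat_lit 684) (nat_lit 31223463021) (nat_lit 76) (nat_lit 8350318806) (nat_lit 266) (nat_lit 5) (nat_lit 275) (nat_lit 5) (nat_lit 267) (nat_lit 5) (nat_lit 513) (nat_lit 492) (nat_lit 195))) (XT.nd (nat_lit 78) (nat_lit 0) (nat_lit 0) (XT.lf (nat_lit 0) (nat_lit 15278969284) (nat_lit 608) (nat_lit 40100677188) (nat_lit 684) (nat_lit 31500778076) (nat_lit 258) (nat_lit 5) (nat_lit 266) (nat_lit 5) (nat_lit 267) (nat_lit 5) (nat_lit 514) (nat_lit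 492) (nat_lit 194)) (XT.lf (nat_lit 0) (nat_lit 63816146212) (nat_lit 608) (nat_lit 1645939659) (nat_lit 684) (nat_lit 22861226870) (nat_lit 258) (nat_lit 5) (nat_lit 266) (nat_lit 5) (nat_lit 267) (nat_lit 5) (nat_lit 515) (nat_lit 492) (nat_lit 193))))) (XT.nd (nat_lit 312) (nat_lit 1520) (nat_lit 0) (XT.nd (nat_lit 156) (nat_lit 608) (nat_lit 0) (XT.nd (nat_lit 78) (nat_lit 0) (nat_lit 0) (XT.lf (nat_lit 0) (nat_lit 24105029576) (nat_lit 532) (nat_lit 52338224994) (nat_lit 608) (nat_lit 13348345374) (nat_lit 251) (nat_lit 5) (nat_lit 258) (nat_lit 5) (nat_lit 259) (nat_lit 5) (nat_lit 516) (nat_lit 492) (nat_lit 192)) (XT.lf (nat_lit 0) (nat_lit 74660968364) (nat_lit 532) (nat_lit 13356133884) (nat_lit 608) (nat_lit 3278936243) (nat_lit 251) (nat_lit 5) (nat_lit 258) (nat_lit 5) (nat_lit 259) (nat_lit 5) (nat_lit 517) (nat_lit 492) (nat_lit 191))) (XT.nd (nat_lit 78) (nat_lit 0) (nat_lit 0) (XT.lf (nat_lit 0)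 (nat_lit 7546888594) (nat_lit 608) (nat_lit 58602662075) (nat_lit 76) (nat_lit 26676232186) (nat_lit 243) (nat_lit 5) (nat_lit 251) (nat_lit 5) (nat_lit 244) (nat_lit 5) (nat_lit 518) (nat_lit 492) (nat_lit 190)) (XT.lf (nat_lit 0) (nat_lit 18933115378) (nat_lit 608) (nat_lit 7615065354) (nat_lit 76) (nat_lit 67843219003) (nat_lit 243) (nat_lit 5) (nat_lit 251) (nat_lit 5) (nat_lit 244) (nat_lit 5) (nat_lit 519) (nat_lit 492) (nat_lit 189)))) (XT.nd (nat_lit 156) (nat_lit 456) (nat_lit 0) (XT.nd (nat_lit 78) (nat_lit 532) (nat_lit 0) (XT.lf (nat_lit 0) (nat_lit 31242053479) (nat_lit 608) (nat_lit 50336617226) (nat_lit 76) (nat_lit 14407880721) (nat_lit 236) (nat_lit 5) (nat_lit 244) (nat_lit 5) (nat_lit 237) (nat_lit 5) (nat_lit 520) (nat_lit 492) (nat_lit 188)) (XT.lf (nat_lit 0) (nat_lit 2833028636) (nat_lit 532) (nat_lit 41454639114) (nat_lit 608) (nat_lit 53330867716) (nat_lit 229) (nat_lit 5) (nat_lit 236)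 (nat_lit 5) (nat_lit 237) (nat_lit 5) (nat_lit 521) (nat_lit 492) (nat_lit 187))) (XT.nd (nat_lit 78) (nat_lit 456) (nat_lit 0) (XT.lf (nat_lit 0) (nat_lit 58236433784) (nat_lit 608) (nat_lit 40658807383) (nat_lit 76) (nat_lit 388884398) (nat_lit 229) (nat_lit 5) (nat_lit 237) (nat_lit 5) (nat_lit 230) (nat_lit 5) (nat_lit 522) (nat_lit 492) (nat_lit 186)) (XT.lf (nat_lit 0) (nat_lit 14973060886) (nat_lit 456) (nat_lit 58184652967) (nat_lit 532) (nat_lit 27825348019) (nat_lit 223) (nat_lit 5) (nat_lit 229) (nat_lit 5) (nat_lit 230) (nat_lit 5) (nat_lit 523) (nat_lit 492) (nat_lit 185)))))) (XT.nd (nat_lit 60138) (nat_lit 0) (nat_lit 7144) (XT.nd (nat_lit 312) (nat_lit 836) (nat_lit 0) (XT.nd (nat_lit 156) (nat_lit 456) (nat_lit 0) (XT.nd (nat_lit 78) (nat_lit 532) (nat_lit 0) (XT.lf (nat_lit 0) (nat_lit 73106985970) (nat_lit 456) (nat_lit 15829905295) (nat_lit 532) (nat_lit 13783767273) (nat_lit 223) (nat_lit 5)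 (nat_lit 229) (nat_lit 5) (nat_lit 230) (nat_lit 5) (nat_lit 524) (nat_lit 492) (nat_lit 184)) (XT.lf (nat_lit 0) (nat_lit 1214610133) (nat_lit 532) (nat_lit 75737618522) (nat_lit 76) (nat_lit 27541494650) (nat_lit 216) (nat_lit 5) (nat_lit 223) (nat_lit 5) (nat_lit 217) (nat_lit 5) (nat_lit 525) (nat_lit 492) (nat_lit 183))) (XT.nd (nat_lit 78) (nat_lit 456) (nat_lit 0) (XT.lf (nat_lit 0) (nat_lit 16844327228) (nat_lit 532) (nat_lit 17123513152) (nat_lit 76) (nat_lit 72334292627) (nat_lit 216) (nat_lit 5) (nat_lit 223) (nat_lit 5) (nat_lit 217) (nat_lit 5) (nat_lit 526) (nat_lit 492) (nat_lit 182)) (XT.lf (nat_lit 0) (nat_lit 33469912907) (nat_lit 532) (nat_lit 64145955955) (nat_lit 76) (nat_lit 10533116858) (nat_lit 210) (nat_lit 5) (nat_lit 217) (nat_lit 5) (nat_lit 211) (nat_lit 5) (nat_lit 527) (nat_lit 492) (nat_lit 181)))) (XT.nd (nat_lit 156) (nat_lit 380) (nat_lit 0) (XT.nd (nat_lit 78) (nat_lit 456) (nat_lit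 0) (XT.lf (nat_lit 0) (nat_lit 51104916710) (nat_lit 532) (nat_lit 3070059255) (nat_lit 76) (nat_lit 55860948564) (nat_lit 210) (nat_lit 5) (nat_lit 217) (nat_lit 5) (nat_lit 211) (nat_lit 5) (nat_lit 528) (nat_lit 492) (nat_lit 180)) (XT.lf (nat_lit 0) (nat_lit 61028654085) (nat_lit 456) (nat_lit 8826679139) (nat_lit 532) (nat_lit 42106547431) (nat_lit 204) (nat_lit 5) (nat_lit 210) (nat_lit 5) (nat_lit 211) (nat_lit 5) (nat_lit 529) (nat_lit 492) (nat_lit 179))) (XT.nd (nat_lit 59592) (nat_lit 0) (nat_lit 7144) (XT.lf (nat_lit 0) (nat_lit 13058590825) (nat_lit 380) (nat_lit 76630374772) (nat_lit 456) (nat_lit 24241028794) (nat_lit 199) (nat_lit 5) (nat_lit 204) (nat_lit 5) (nat_lit 205) (nat_lit 5) (nat_lit 530) (nat_lit 492) (nat_lit 178)) (XT.lf (nat_lit 0) (nat_lit 15599587582) (nat_lit 1292) (nat_lit 8072303699) (nat_lit 1292) (nat_lit 8072303699) (nat_lit 293) (nat_lit 3) (nat_lit 310) (nat_lit 3) (nat_lit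 310) (nat_lit 5) (nat_lit 493) (nat_lit 493) (nat_lit 214))))) (XT.nd (nat_lit 312) (nat_lit 0) (nat_lit 152) (XT.nd (nat_lit 156) (nat_lit 0) (nat_lit 76) (XT.nd (nat_lit 78) (nat_lit 0) (nat_lit 76) (XT.lf (nat_lit 76) (nat_lit 15519821906) (nat_lit 0) (nat_lit 16312652171) (nat_lit 1292) (nat_lit 32603280155) (nat_lit 294) (nat_lit 5) (nat_lit 293) (nat_lit 3) (nat_lit 310) (nat_lit 5) (nat_lit 494) (nat_lit 493) (nat_lit 213)) (XT.lf (nat_lit 0) (nat_lit 32799217107) (nat_lit 1216) (nat_lit 17093914280) (nat_lit 1292) (nat_lit 15508974775) (nat_lit 294) (nat_lit 5) (nat_lit 310) (nat_lit 5) (nat_lit 311) (nat_lit 5) (nat_lit 495) (nat_lit 493) (nat_lit 212))) (XT.nd (nat_lit 78) (nat_lit 0) (nat_lit 76) (XT.lf (nat_lit 76) (nat_lit 15829807161) (nat_lit 0) (nat_lit 18278221202) (nat_lit 1292) (nat_lit 32280028394) (nat_lit 295) (nat_lit 5) (nat_lit 294) (nat_lit 5) (nat_lit 311) (nat_lit 5) (nat_lit 496) (nat_lit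 493) (nat_lit 211)) (XT.lf (nat_lit 0) (nat_lit 35767151265) (nat_lit 1216) (nat_lit 17446144617) (nat_lit 1292) (nat_lit 14180958651) (nat_lit 295) (nat_lit 5) (nat_lit 311) (nat_lit 5) (nat_lit 312) (nat_lit 5) (nat_lit 497) (nat_lit 493) (nat_lit 210)))) (XT.nd (nat_lit 156) (nat_lit 0) (nat_lit 76) (XT.nd (nat_lit 78) (nat_lit 0) (nat_lit 76) (XT.lf (nat_lit 76) (nat_lit 16805946645) (nat_lit 0) (nat_lit 21012045805) (nat_lit 1292) (nat_lit 30602387535) (nat_lit 296) (nat_lit 5) (nat_lit 295) (nat_lit 5) (nat_lit 312) (nat_lit 5) (nat_lit 498) (nat_lit 493) (nat_lit 209)) (XT.lf (nat_lit 0) (nat_lit 40224557266) (nat_lit 1216) (nat_lit 17147727020) (nat_lit 1292) (nat_lit 12096179039) (nat_lit 296) (nat_lit 5) (nat_lit 312) (nat_lit 5) (nat_lit 313) (nat_lit 5) (nat_lit 499) (nat_lit 493) (nat_lit 208))) (XT.nd (nat_lit 78) (nat_lit 0) (nat_lit 76) (XT.lf (nat_lit 76) (nat_lit 18505699312) (nat_lit 0) (nat_lit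 24583002871) (nat_lit 1292) (nat_lit 27447725564) (nat_lit 297) (nat_lit 5) (nat_lit 296) (nat_lit 5) (nat_lit 313) (nat_lit 5) (nat_lit 500) (nat_lit 493) (nat_lit 207)) (XT.lf (nat_lit 0) (nat_lit 46301453049) (nat_lit 1216) (nat_lit 16141418544) (nat_lit 1292) (nat_lit 9185679134) (nat_lit 297) (nat_lit 5) (nat_lit 313) (nat_lit 5) (nat_lit 314) (nat_lit 5) (nat_lit 501) (nat_lit 493) (nat_lit 206))))))))
noncomputable def xc248 : XT := (XT.nd (nat_lit 61932) (nat_lit 0) (nat_lit 1900) (XT.nd (nat_lit 1170) (nat_lit 4104) (nat_lit 0) (XT.nd (nat_lit 546) (nat_lit 1900) (nat_lit 0) (XT.nd (nat_lit 234) (nat_lit 1064) (nat_lit 0) (XT.nd (nat_lit 78) (nat_lit 0) (nat_lit 76) (XT.lf (nat_lit 76) (nat_lit 20990415620) (nat_lit 0) (nat_lit 29064824313) (nat_lit 1292) (nat_lit 22684857929) (nat_lit 298) (nat_lit 5) (nat_lit 297) (nat_lit 5) (nat_lit 314) (nat_lit 5) (nat_lit 502) (nat_lit 493) (nat_lit 205)) (XT.nd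 (nat_lit 78) (nat_lit 0) (nat_lit 0) (XT.lf (nat_lit 0) (nat_lit 54136835529) (nat_lit 1216) (nat_lit 14366084799) (nat_lit 1292) (nat_lit 5375615301) (nat_lit 298) (nat_lit 5) (nat_lit 314) (nat_lit 5) (nat_lit 315) (nat_lit 5) (nat_lit 503) (nat_lit 493) (nat_lit 204)) (XT.lf (nat_lit 76) (nat_lit 24325569627) (nat_lit 0) (nat_lit 34536424540) (nat_lit 1292) (nat_lit 16173498972) (nat_lit 299) (nat_lit 5) (nat_lit 298) (nat_lit 5) (nat_lit 315) (nat_lit 5) (nat_lit 504) (nat_lit 493) (nat_lit 203)))) (XT.nd (nat_lit 156) (nat_lit 1216) (nat_lit 0) (XT.nd (nat_lit 78) (nat_lit 0) (nat_lit 0) (XT.lf (nat_lit 0) (nat_lit 63879254197) (nat_lit 1216) (nat_lit 11756467867) (nat_lit 1292) (nat_lit 586926976) (nat_lit 299) (nat_lit 5) (nat_lit 315) (nat_lit 5) (nat_lit 316) (nat_lit 5) (nat_lit 505) (nat_lit 493) (nat_lit 202)) (XT.lf (nat_lit 76) (nat_lit 28581003928) (nat_lit 0) (nat_lit 41082249164) (nat_lit 1292)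 (nat_lit 7763679959) (nat_lit 300) (nat_lit 5) (nat_lit 299) (nat_lit 5) (nat_lit 316) (nat_lit 5) (nat_lit 506) (nat_lit 493) (nat_lit 201))) (XT.nd (nat_lit 78) (nat_lit 1216) (nat_lit 0) (XT.lf (nat_lit 76) (nat_lit 70369238431) (nat_lit 0) (nat_lit 5369798982) (nat_lit 1292) (nat_lit 2924760265) (nat_lit 300) (nat_lit 5) (nat_lit 299) (nat_lit 5) (nat_lit 316) (nat_lit 5) (nat_lit 507) (nat_lit 493) (nat_lit 200)) (XT.lf (nat_lit 0) (nat_lit 2652086535) (nat_lit 1292) (nat_lit 46113778946) (nat_lit 1368) (nat_lit 31152320625) (nat_lit 283) (nat_lit 5) (nat_lit 300) (nat_lit 5) (nat_lit 301) (nat_lit 5) (nat_lit 508) (nat_lit 493) (nat_lit 199))))) (XT.nd (nat_lit 312) (nat_lit 1216) (nat_lit 0) (XT.nd (nat_lit 156) (nat_lit 684) (nat_lit 0) (XT.nd (nat_lit 78) (nat_lit 0) (nat_lit 76) (XT.lf (nat_lit 0) (nat_lit 8474775600) (nat_lit 1292) (nat_lit 3954640498) (nat_lit 1368) (nat_lit 68775801753) (nat_lit 283)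 (nat_lit 5) (nat_lit 300) (nat_lit 5) (nat_lit 301) (nat_lit 5) (nat_lit 509) (nat_lit 493) (nat_lit 198)) (XT.lf (nat_lit 0) (nat_lit 15102794828) (nat_lit 1292) (nat_lit 42508958916) (nat_lit 76) (nat_lit 24900187376) (nat_lit 284) (nat_lit 5) (nat_lit 301) (nat_lit 5) (nat_lit 285) (nat_lit 5) (nat_lit 510) (nat_lit 493) (nat_lit 197))) (XT.nd (nat_lit 78) (nat_lit 0) (nat_lit 0) (XT.lf (nat_lit 0) (nat_lit 1407370604) (nat_lit 760) (nat_lit 20698794829) (nat_lit 836) (nat_lit 61746405383) (nat_lit 274) (nat_lit 5) (nat_lit 284) (nat_lit 5) (nat_lit 285) (nat_lit 5) (nat_lit 511) (nat_lit 493) (nat_lit 196)) (XT.lf (nat_lit 0) (nat_lit 29919247867) (nat_lit 836) (nat_lit 37879089189) (nat_lit 76) (nat_lit 17417094075) (nat_lit 274) (nat_lit 5) (nat_lit 285) (nat_lit 5) (nat_lit 275) (nat_lit 5) (nat_lit 512) (nat_lit 493) (nat_lit 195)))) (XT.nd (nat_lit 156) (nat_lit 608) (nat_lit 0) (XT.nd (nat_lit 78) (nat_lit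 0) (nat_lit 0) (XT.lf (nat_lit 0) (nat_lit 7974310965) (nat_lit 608) (nat_lit 30273614176) (nat_lit 684) (nat_lit 48362816095) (nat_lit 266) (nat_lit 5) (nat_lit 274) (nat_lit 5) (nat_lit 275) (nat_lit 5) (nat_lit 513) (nat_lit 493) (nat_lit 194)) (XT.lf (nat_lit 0) (nat_lit 47292895820) (nat_lit 684) (nat_lit 32141320115) (nat_lit 76) (nat_lit 8599701766) (nat_lit 266) (nat_lit 5) (nat_lit 275) (nat_lit 5) (nat_lit 267) (nat_lit 5) (nat_lit 514) (nat_lit 493) (nat_lit 193))) (XT.nd (nat_lit 78) (nat_lit 0) (nat_lit 0) (XT.lf (nat_lit 0) (nat_lit 15756000388) (nat_lit 608) (nat_lit 41304039398) (nat_lit 684) (nat_lit 32426224993) (nat_lit 258) (nat_lit 5) (nat_lit 266) (nat_lit 5) (nat_lit 267) (nat_lit 5) (nat_lit 515) (nat_lit 493) (nat_lit 192)) (XT.lf (nat_lit 0) (nat_lit 65748749069) (nat_lit 608) (nat_lit 1695649786) (nat_lit 684) (nat_lit 23528057439) (nat_lit 258) (nat_lit 5) (nat_lit 266) (nat_lit 5) (nat_lit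 267) (nat_lit 5) (nat_lit 516) (nat_lit 493) (nat_lit 191)))))) (XT.nd (nat_lit 546) (nat_lit 1900) (nat_lit 0) (XT.nd (nat_lit 234) (nat_lit 1064) (nat_lit 0) (XT.nd (nat_lit 78) (nat_lit 608) (nat_lit 0) (XT.lf (nat_lit 0) (nat_lit 24846674842) (nat_lit 532) (nat_lit 53907965063) (nat_lit 608) (nat_lit 13730163156) (nat_lit 251) (nat_lit 5) (nat_lit 258) (nat_lit 5) (nat_lit 259) (nat_lit 5) (nat_lit 517) (nat_lit 493) (nat_lit 190)) (XT.nd (nat_lit 78) (nat_lit 608) (nat_lit 0) (XT.lf (nat_lit 0) (nat_lit 76918753122) (nat_lit 532) (nat_lit 13756423066) (nat_lit 608) (nat_lit 3359214447) (nat_lit 251) (nat_lit 5) (nat_lit 258) (nat_lit 5) (nat_lit 259) (nat_lit 5) (nat_lit 518) (nat_lit 493) (nat_lit 189)) (XT.lf (nat_lit 0) (nat_lit 7790696899) (nat_lit 608) (nat_lit 60342093815) (nat_lit 76) (nat_lit 27477241519) (nat_lit 243) (nat_lit 5) (nat_lit 251) (nat_lit 5) (nat_lit 244) (nat_lit 5) (nat_lit 519) (nat_lit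 493) (nat_lit 188)))) (XT.nd (nat_lit 156) (nat_lit 532) (nat_lit 0) (XT.nd (nat_lit 78) (nat_lit 532) (nat_lit 0) (XT.lf (nat_lit 0) (nat_lit 19518003643) (nat_lit 608) (nat_lit 7825412341) (nat_lit 76) (nat_lit 69879216900) (nat_lit 243) (nat_lit 5) (nat_lit 251) (nat_lit 5) (nat_lit 244) (nat_lit 5) (nat_lit 520) (nat_lit 493) (nat_lit 187)) (XT.lf (nat_lit 0) (nat_lit 32195903135) (nat_lit 608) (nat_lit 51828302076) (nat_lit 76) (nat_lit 14841443174) (nat_lit 236) (nat_lit 5) (nat_lit 244) (nat_lit 5) (nat_lit 237) (nat_lit 5) (nat_lit 521) (nat_lit 493) (nat_lit 186))) (XT.nd (nat_lit 78) (nat_lit 0) (nat_lit 0) (XT.lf (nat_lit 0) (nat_lit 2936252635) (nat_lit 532) (nat_lit 42696325320) (nat_lit 608) (nat_lit 54914023286) (nat_lit 229) (nat_lit 5) (nat_lit 236) (nat_lit 5) (nat_lit 237) (nat_lit 5) (nat_lit 522) (nat_lit 493) (nat_lit 185)) (XT.lf (nat_lit 0) (nat_lit 59999351017) (nat_lit 608) (nat_lit 41860411744)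 (nat_lit 76) (nat_lit 402410015) (nat_lit 229) (nat_lit 5) (nat_lit 237) (nat_lit 5) (nat_lit 230) (nat_lit 5) (nat_lit 523) (nat_lit 493) (nat_lit 184))))) (XT.nd (nat_lit 312) (nat_lit 912) (nat_lit 0) (XT.nd (nat_lit 156) (nat_lit 532) (nat_lit 0) (XT.nd (nat_lit 78) (nat_lit 0) (nat_lit 0) (XT.lf (nat_lit 0) (nat_lit 15440234535) (nat_lit 456) (nat_lit 59927746906) (nat_lit 532) (nat_lit 28644104426) (nat_lit 223) (nat_lit 5) (nat_lit 229) (nat_lit 5) (nat_lit 230) (nat_lit 5) (nat_lit 524) (nat_lit 493) (nat_lit 183)) (XT.lf (nat_lit 0) (nat_lit 75317653629) (nat_lit 456) (nat_lit 16302428036) (nat_lit 532) (nat_lit 14181742395) (nat_lit 223) (nat_lit 5) (nat_lit 229) (nat_lit 5) (nat_lit 230) (nat_lit 5) (nat_lit 525) (nat_lit 493) (nat_lit 182))) (XT.nd (nat_lit 78) (nat_lit 0) (nat_lit 0) (XT.lf (nat_lit 0) (nat_lit 1266033747) (nat_lit 532) (nat_lit 77991733113) (nat_lit 76) (nat_lit 28370316960) (nat_lit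 216) (nat_lit 5) (nat_lit 223) (nat_lit 5) (nat_lit 217) (nat_lit 5) (nat_lit 526) (nat_lit 493) (nat_lit 181)) (XT.lf (nat_lit 0) (nat_lit 17364205890) (nat_lit 532) (nat_lit 17619729260) (nat_lit 76) (nat_lit 74506823803) (nat_lit 216) (nat_lit 5) (nat_lit 223) (nat_lit 5) (nat_lit 217) (nat_lit 5) (nat_lit 527) (nat_lit 493) (nat_lit 180)))) (XT.nd (nat_lit 156) (nat_lit 456) (nat_lit 0) (XT.nd (nat_lit 78) (nat_lit 0) (nat_lit 0) (XT.lf (nat_lit 0) (nat_lit 34488330947) (nat_lit 532) (nat_lit 66052615622) (nat_lit 76) (nat_lit 10852077571) (nat_lit 210) (nat_lit 5) (nat_lit 217) (nat_lit 5) (nat_lit 211) (nat_lit 5) (nat_lit 528) (nat_lit 493) (nat_lit 179)) (XT.lf (nat_lit 0) (nat_lit 52651967757) (nat_lit 532) (nat_lit 3144958108) (nat_lit 76) (nat_lit 57539657805) (nat_lit 210) (nat_lit 5) (nat_lit 217) (nat_lit 5) (nat_lit 211) (nat_lit 5) (nat_lit 529) (nat_lit 493) (nat_lit 178))) (XT.nd (nat_lit 59670)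 (nat_lit 0) (nat_lit 6764) (XT.lf (nat_lit 0) (nat_lit 62876547975) (nat_lit 456) (nat_lit 9088107578) (nat_lit 532) (nat_lit 43355670207) (nat_lit 204) (nat_lit 5) (nat_lit 210) (nat_lit 5) (nat_lit 211) (nat_lit 5) (nat_lit 530) (nat_lit 493) (nat_lit 177)) (XT.lf (nat_lit 0) (nat_lit 16083545467) (nat_lit 1292) (nat_lit 8306247018) (nat_lit 1292) (nat_lit 8306247018) (nat_lit 293) (nat_lit 3) (nat_lit 310) (nat_lit 3) (nat_lit 310) (nat_lit 5) (nat_lit 494) (nat_lit 494) (nat_lit 212))))))) (XT.nd (nat_lit 1170) (nat_lit 4104) (nat_lit 0) (XT.nd (nat_lit 546) (nat_lit 760) (nat_lit 0) (XT.nd (nat_lit 234) (nat_lit 0) (nat_lit 152) (XT.nd (nat_lit 78) (nat_lit 0) (nat_lit 76) (XT.lf (nat_lit 76) (nat_lit 16001706858) (nat_lit 0) (nat_lit 16816908242) (nat_lit 1292) (nat_lit 33549272443) (nat_lit 294) (nat_lit 5) (nat_lit 293) (nat_lit 3) (nat_lit 310) (nat_lit 5) (nat_lit 495) (nat_lit 494) (nat_lit 211)) (XT.nd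 (nat_lit 78) (nat_lit 0) (nat_lit 0) (XT.lf (nat_lit 0) (nat_lit 33813313813) (nat_lit 1216) (nat_lit 17589865094) (nat_lit 1292) (nat_lit 15960082648) (nat_lit 294) (nat_lit 5) (nat_lit 310) (nat_lit 5) (nat_lit 311) (nat_lit 5) (nat_lit 496) (nat_lit 494) (nat_lit 210)) (XT.lf (nat_lit 76) (nat_lit 16321402631) (nat_lit 0) (nat_lit 18839270032) (nat_lit 1292) (nat_lit 33218139630) (nat_lit 295) (nat_lit 5) (nat_lit 294) (nat_lit 5) (nat_lit 311) (nat_lit 5) (nat_lit 497) (nat_lit 494) (nat_lit 209)))) (XT.nd (nat_lit 156) (nat_lit 0) (nat_lit 76) (XT.nd (nat_lit 78) (nat_lit 0) (nat_lit 0) (XT.lf (nat_lit 0) (nat_lit 36868594295) (nat_lit 1216) (nat_lit 17952335243) (nat_lit 1292) (nat_lit 14594295830) (nat_lit 295) (nat_lit 5) (nat_lit 311) (nat_lit 5) (nat_lit 312) (nat_lit 5) (nat_lit 498) (nat_lit 494) (nat_lit 208)) (XT.lf (nat_lit 76) (nat_lit 17327150190) (nat_lit 0) (nat_lit 21653146167) (nat_lit 1292)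 (nat_lit 31491858272) (nat_lit 296) (nat_lit 5) (nat_lit 295) (nat_lit 5) (nat_lit 312) (nat_lit 5) (nat_lit 499) (nat_lit 494) (nat_lit 207))) (XT.nd (nat_lit 78) (nat_lit 0) (nat_lit 0) (XT.lf (nat_lit 0) (nat_lit 41458149231) (nat_lit 1216) (nat_lit 17644716957) (nat_lit 1292) (nat_lit 12448841661) (nat_lit 296) (nat_lit 5) (nat_lit 312) (nat_lit 5) (nat_lit 313) (nat_lit 5) (nat_lit 500) (nat_lit 494) (nat_lit 206)) (XT.lf (nat_lit 76) (nat_lit 19078141167) (nat_lit 0) (nat_lit 25329461156) (nat_lit 1292) (nat_lit 28244127474) (nat_lit 297) (nat_lit 5) (nat_lit 296) (nat_lit 5) (nat_lit 313) (nat_lit 5) (nat_lit 501) (nat_lit 494) (nat_lit 205))))) (XT.nd (nat_lit 312) (nat_lit 1064) (nat_lit 0) (XT.nd (nat_lit 156) (nat_lit 0) (nat_lit 76) (XT.nd (nat_lit 78) (nat_lit 0) (nat_lit 0) (XT.lf (nat_lit 0) (nat_lit 47715887773) (nat_lit 1216) (nat_lit 16608041813) (nat_lit 1292) (nat_lit 9452712424) (nat_lit 297)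 (nat_lit 5) (nat_lit 313) (nat_lit 5) (nat_lit 314) (nat_lit 5) (nat_lit 502) (nat_lit 494) (nat_lit 204)) (XT.lf (nat_lit 76) (nat_lit 21637574638) (nat_lit 0) (nat_lit 29944141785) (nat_lit 1292) (nat_lit 23339836394) (nat_lit 298) (nat_lit 5) (nat_lit 297) (nat_lit 5) (nat_lit 314) (nat_lit 5) (nat_lit 503) (nat_lit 494) (nat_lit 203))) (XT.nd (nat_lit 78) (nat_lit 0) (nat_lit 0) (XT.lf (nat_lit 0) (nat_lit 55784968187) (nat_lit 1216) (nat_lit 14779333943) (nat_lit 1292) (nat_lit 5529865436) (nat_lit 298) (nat_lit 5) (nat_lit 314) (nat_lit 5) (nat_lit 315) (nat_lit 5) (nat_lit 504) (nat_lit 494) (nat_lit 202)) (XT.lf (nat_lit 76) (nat_lit 25072896259) (nat_lit 0) (nat_lit 35578454285) (nat_lit 1292) (nat_lit 16634499284) (nat_lit 299) (nat_lit 5) (nat_lit 298) (nat_lit 5) (nat_lit 315) (nat_lit 5) (nat_lit 505) (nat_lit 494) (nat_lit 201)))) (XT.nd (nat_lit 156) (nat_lit 1216) (nat_lit 0) (XT.nd (nat_lit 78)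 (nat_lit 0) (nat_lit 0) (XT.lf (nat_lit 0) (nat_lit 65818388603) (nat_lit 1216) (nat_lit 12091370915) (nat_lit 1292) (nat_lit 598883176) (nat_lit 299) (nat_lit 5) (nat_lit 315) (nat_lit 5) (nat_lit 316) (nat_lit 5) (nat_lit 506) (nat_lit 494) (nat_lit 200)) (XT.lf (nat_lit 76) (nat_lit 29456050613) (nat_lit 0) (nat_lit 42319363373) (nat_lit 1292) (nat_lit 7973656133) (nat_lit 300) (nat_lit 5) (nat_lit 299) (nat_lit 5) (nat_lit 316) (nat_lit 5) (nat_lit 507) (nat_lit 494) (nat_lit 199))) (XT.nd (nat_lit 78) (nat_lit 1216) (nat_lit 0) (XT.lf (nat_lit 76) (nat_lit 72497419047) (nat_lit 0) (nat_lit 5535404345) (nat_lit 1292) (nat_lit 2990236836) (nat_lit 300) (nat_lit 5) (nat_lit 299) (nat_lit 5) (nat_lit 316) (nat_lit 5) (nat_lit 508) (nat_lit 494) (nat_lit 198)) (XT.lf (nat_lit 0) (nat_lit 2752973565) (nat_lit 1292) (nat_lit 47479141430) (nat_lit 1368) (nat_lit 32082974193) (nat_lit 283) (nat_lit 5) (nat_lit 300)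 (nat_lit 5) (nat_lit 301) (nat_lit 5) (nat_lit 509) (nat_lit 494) (nat_lit 197)))))) (XT.nd (nat_lit 546) (nat_lit 2204) (nat_lit 0) (XT.nd (nat_lit 234) (nat_lit 1216) (nat_lit 0) (XT.nd (nat_lit 78) (nat_lit 684) (nat_lit 0) (XT.lf (nat_lit 0) (nat_lit 8749722202) (nat_lit 1292) (nat_lit 4055754583) (nat_lit 1368) (nat_lit 70835273815) (nat_lit 283) (nat_lit 5) (nat_lit 300) (nat_lit 5) (nat_lit 301) (nat_lit 5) (nat_lit 510) (nat_lit 494) (nat_lit 196)) (XT.nd (nat_lit 78) (nat_lit 760) (nat_lit 0) (XT.lf (nat_lit 0) (nat_lit 15576117798) (nat_lit 1292) (nat_lit 43766235737) (nat_lit 76) (nat_lit 25644336036) (nat_lit 284) (nat_lit 5) (nat_lit 301) (nat_lit 5) (nat_lit 285) (nat_lit 5) (nat_lit 511) (nat_lit 494) (nat_lit 195)) (XT.lf (nat_lit 0) (nat_lit 1467407277) (nat_lit 760) (nat_lit 21321764009) (nat_lit 836) (nat_lit 63578379495) (nat_lit 274) (nat_lit 5) (nat_lit 284) (nat_lit 5) (nat_lit 285) (nat_lit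 5) (nat_lit 512) (nat_lit 494) (nat_lit 194)))) (XT.nd (nat_lit 156) (nat_lit 608) (nat_lit 0) (XT.nd (nat_lit 78) (nat_lit 608) (nat_lit 0) (XT.lf (nat_lit 0) (nat_lit 30836050171) (nat_lit 836) (nat_lit 38997566728) (nat_lit 76) (nat_lit 17937697962) (nat_lit 274) (nat_lit 5) (nat_lit 285) (nat_lit 5) (nat_lit 275) (nat_lit 5) (nat_lit 513) (nat_lit 494) (nat_lit 193)) (XT.lf (nat_lit 0) (nat_lit 8231259988) (nat_lit 608) (nat_lit 31182938160) (nat_lit 684) (nat_lit 49794297881) (nat_lit 266) (nat_lit 5) (nat_lit 274) (nat_lit 5) (nat_lit 275) (nat_lit 5) (nat_lit 514) (nat_lit 494) (nat_lit 192))) (XT.nd (nat_lit 78) (nat_lit 608) (nat_lit 0) (XT.lf (nat_lit 0) (nat_lit 48729958936) (nat_lit 684) (nat_lit 33087794804) (nat_lit 76) (nat_lit 8856630886) (nat_lit 266) (nat_lit 5) (nat_lit 275) (nat_lit 5) (nat_lit 267) (nat_lit 5) (nat_lit 515) (nat_lit 494) (nat_lit 191)) (XT.lf (nat_lit 0) (nat_lit 16246271148)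 (nat_lit 608) (nat_lit 42543482849) (nat_lit 684) (nat_lit 33380559085) (nat_lit 258) (nat_lit 5) (nat_lit 266) (nat_lit 5) (nat_lit 267) (nat_lit 5) (nat_lit 516) (nat_lit 494) (nat_lit 190))))) (XT.nd (nat_lit 312) (nat_lit 1064) (nat_lit 0) (XT.nd (nat_lit 156) (nat_lit 608) (nat_lit 0) (XT.nd (nat_lit 78) (nat_lit 532) (nat_lit 0) (XT.lf (nat_lit 0) (nat_lit 67738289938) (nat_lit 608) (nat_lit 1746832162) (nat_lit 684) (nat_lit 24215983960) (nat_lit 258) (nat_lit 5) (nat_lit 266) (nat_lit 5) (nat_lit 267) (nat_lit 5) (nat_lit 517) (nat_lit 494) (nat_lit 189)) (XT.lf (nat_lit 0) (nat_lit 25609507813) (nat_lit 532) (nat_lit 55524820681) (nat_lit 608) (nat_lit 14124505057) (nat_lit 251) (nat_lit 5) (nat_lit 258) (nat_lit 5) (nat_lit 259) (nat_lit 5) (nat_lit 518) (nat_lit 494) (nat_lit 188))) (XT.nd (nat_lit 78) (nat_lit 608) (nat_lit 0) (XT.lf (nat_lit 0) (nat_lit 79243240692) (nat_lit 532) (nat_lit 14168743588)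 (nat_lit 608) (nat_lit 3442939430) (nat_lit 251) (nat_lit 5) (nat_lit 258) (nat_lit 5) (nat_lit 259) (nat_lit 5) (nat_lit 519) (nat_lit 494) (nat_lit 187)) (XT.lf (nat_lit 0) (nat_lit 8040820528) (nat_lit 608) (nat_lit 62134778985) (nat_lit 76) (nat_lit 28302239665) (nat_lit 243) (nat_lit 5) (nat_lit 251) (nat_lit 5) (nat_lit 244) (nat_lit 5) (nat_lit 520) (nat_lit 494) (nat_lit 186)))) (XT.nd (nat_lit 156) (nat_lit 532) (nat_lit 0) (XT.nd (nat_lit 78) (nat_lit 532) (nat_lit 0) (XT.lf (nat_lit 0) (nat_lit 20119468724) (nat_lit 608) (nat_lit 8043109037) (nat_lit 76) (nat_lit 71976254476) (nat_lit 243) (nat_lit 5) (nat_lit 251) (nat_lit 5) (nat_lit 244) (nat_lit 5) (nat_lit 521) (nat_lit 494) (nat_lit 185)) (XT.lf (nat_lit 0) (nat_lit 33177416059) (nat_lit 608) (nat_lit 53365794492) (nat_lit 76) (nat_lit 15287936382) (nat_lit 236) (nat_lit 5) (nat_lit 244) (nat_lit 5) (nat_lit 237) (nat_lit 5) (nat_lit 522) (nat_lit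 494) (nat_lit 184))) (XT.nd (nat_lit 78) (nat_lit 0) (nat_lit 0) (XT.lf (nat_lit 0) (nat_lit 3041526697) (nat_lit 532) (nat_lit 43975374221) (nat_lit 608) (nat_lit 56545636215) (nat_lit 229) (nat_lit 5) (nat_lit 236) (nat_lit 5) (nat_lit 237) (nat_lit 5) (nat_lit 523) (nat_lit 494) (nat_lit 183)) (XT.lf (nat_lit 0) (nat_lit 61814247392) (nat_lit 608) (nat_lit 43099106686) (nat_lit 76) (nat_lit 416234681) (nat_lit 229) (nat_lit 5) (nat_lit 237) (nat_lit 5) (nat_lit 230) (nat_lit 5) (nat_lit 524) (nat_lit 494) (nat_lit 182))))))))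
noncomputable def xc249 : XT := (XT.nd (nat_lit 62088) (nat_lit 0) (nat_lit 456) (XT.nd (nat_lit 60918) (nat_lit 0) (nat_lit 3116) (XT.nd (nat_lit 60294) (nat_lit 0) (nat_lit 6384) (XT.nd (nat_lit 234) (nat_lit 456) (nat_lit 0) (XT.nd (nat_lit 78) (nat_lit 532) (nat_lit 0) (XT.lf (nat_lit 0) (nat_lit 15920391164) (nat_lit 456) (nat_lit 61723274053) (nat_lit 532) (nat_lit 29488342223) (nat_lit 223) (nat_lit 5) (nat_lit 229) (nat_lit 5) (nat_lit 230) (nat_lit 5) (nat_lit 525) (nat_lit 494) (nat_lit 181)) (XT.nd (nat_lit 78) (nat_lit 532) (nat_lit 0) (XT.lf (nat_lit 0) (nat_lit 77593639153) (nat_lit 456) (nat_lit 16789262760) (nat_lit 532) (nat_lit 14592548709) (nat_lit 223) (nat_lit 5) (nat_lit 229) (nat_lit 5) (nat_lit 230) (nat_lit 5) (nat_lit 526) (nat_lit 494) (nat_lit 180)) (XT.lf (nat_lit 0) (nat_lit 1318139852) (nat_lit 532) (nat_lit 80314505216) (nat_lit 76) (nat_lit 29223855981) (nat_lit 216) (nat_lit 5)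 (nat_lit 223) (nat_lit 5) (nat_lit 217) (nat_lit 5) (nat_lit 527) (nat_lit 494) (nat_lit 179)))) (XT.nd (nat_lit 59904) (nat_lit 0) (nat_lit 6308) (XT.nd (nat_lit 78) (nat_lit 456) (nat_lit 0) (XT.lf (nat_lit 0) (nat_lit 17898845749) (nat_lit 532) (nat_lit 18131835808) (nat_lit 76) (nat_lit 76744387268) (nat_lit 216) (nat_lit 5) (nat_lit 223) (nat_lit 5) (nat_lit 217) (nat_lit 5) (nat_lit 528) (nat_lit 494) (nat_lit 178)) (XT.lf (nat_lit 0) (nat_lit 35536479464) (nat_lit 532) (nat_lit 68017492222) (nat_lit 76) (nat_lit 11180436776) (nat_lit 210) (nat_lit 5) (nat_lit 217) (nat_lit 5) (nat_lit 211) (nat_lit 5) (nat_lit 529) (nat_lit 494) (nat_lit 177))) (XT.nd (nat_lit 78) (nat_lit 0) (nat_lit 0) (XT.lf (nat_lit 0) (nat_lit 16581105330) (nat_lit 1292) (nat_lit 8547680830) (nat_lit 1292) (nat_lit 8547680830) (nat_lit 293) (nat_lit 3) (nat_lit 310) (nat_lit 3) (nat_lit 310) (nat_lit 5) (nat_lit 495) (nat_lit 495) (nat_lit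 210)) (XT.lf (nat_lit 76) (nat_lit 16497113230) (nat_lit 0) (nat_lit 17335438022) (nat_lit 1292) (nat_lit 34525487523) (nat_lit 294) (nat_lit 5) (nat_lit 293) (nat_lit 3) (nat_lit 310) (nat_lit 5) (nat_lit 496) (nat_lit 495) (nat_lit 209))))) (XT.nd (nat_lit 312) (nat_lit 0) (nat_lit 152) (XT.nd (nat_lit 156) (nat_lit 0) (nat_lit 76) (XT.nd (nat_lit 78) (nat_lit 0) (nat_lit 0) (XT.lf (nat_lit 0) (nat_lit 34856104398) (nat_lit 1216) (nat_lit 18101662646) (nat_lit 1292) (nat_lit 16425536677) (nat_lit 294) (nat_lit 5) (nat_lit 310) (nat_lit 5) (nat_lit 311) (nat_lit 5) (nat_lit 497) (nat_lit 495) (nat_lit 208)) (XT.lf (nat_lit 76) (nat_lit 16826787245) (nat_lit 0) (nat_lit 19416421168) (nat_lit 1292) (nat_lit 34186132951) (nat_lit 295) (nat_lit 5) (nat_lit 294) (nat_lit 5) (nat_lit 311) (nat_lit 5) (nat_lit 498) (nat_lit 495) (nat_lit 207))) (XT.nd (nat_lit 78) (nat_lit 0) (nat_lit 0) (XT.lf (nat_lit 0) (nat_lit 38001448705)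 (nat_lit 1216) (nat_lit 18474698578) (nat_lit 1292) (nat_lit 15020727231) (nat_lit 295) (nat_lit 5) (nat_lit 311) (nat_lit 5) (nat_lit 312) (nat_lit 5) (nat_lit 499) (nat_lit 495) (nat_lit 206)) (XT.lf (nat_lit 76) (nat_lit 17863012529) (nat_lit 0) (nat_lit 22312863078) (nat_lit 1292) (nat_lit 32409654939) (nat_lit 296) (nat_lit 5) (nat_lit 295) (nat_lit 5) (nat_lit 312) (nat_lit 5) (nat_lit 500) (nat_lit 495) (nat_lit 205)))) (XT.nd (nat_lit 156) (nat_lit 0) (nat_lit 76) (XT.nd (nat_lit 78) (nat_lit 0) (nat_lit 0) (XT.lf (nat_lit 0) (nat_lit 42727207355) (nat_lit 1216) (nat_lit 18157617826) (nat_lit 1292) (nat_lit 12812670989) (nat_lit 296) (nat_lit 5) (nat_lit 312) (nat_lit 5) (nat_lit 313) (nat_lit 5) (nat_lit 501) (nat_lit 495) (nat_lit 204)) (XT.lf (nat_lit 76) (nat_lit 19666764859) (nat_lit 0) (nat_lit 26097798378) (nat_lit 1292) (nat_lit 29065973066) (nat_lit 297) (nat_lit 5) (nat_lit 296) (nat_lit 5) (nat_lit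 313) (nat_lit 5) (nat_lit 502) (nat_lit 495) (nat_lit 203))) (XT.nd (nat_lit 78) (nat_lit 0) (nat_lit 0) (XT.lf (nat_lit 0) (nat_lit 49171297983) (nat_lit 1216) (nat_lit 17089675200) (nat_lit 1292) (nat_lit 9728246776) (nat_lit 297) (nat_lit 5) (nat_lit 313) (nat_lit 5) (nat_lit 314) (nat_lit 5) (nat_lit 503) (nat_lit 495) (nat_lit 202)) (XT.lf (nat_lit 76) (nat_lit 22303146923) (nat_lit 0) (nat_lit 30849415555) (nat_lit 1292) (nat_lit 24015931878) (nat_lit 298) (nat_lit 5) (nat_lit 297) (nat_lit 5) (nat_lit 314) (nat_lit 5) (nat_lit 504) (nat_lit 495) (nat_lit 201)))))) (XT.nd (nat_lit 546) (nat_lit 2432) (nat_lit 0) (XT.nd (nat_lit 234) (nat_lit 1140) (nat_lit 0) (XT.nd (nat_lit 78) (nat_lit 0) (nat_lit 0) (XT.lf (nat_lit 0) (nat_lit 57481165543) (nat_lit 1216) (nat_lit 15205998530) (nat_lit 1292) (nat_lit 5689145955) (nat_lit 298) (nat_lit 5) (nat_lit 314) (nat_lit 5) (nat_lit 315) (nat_lit 5) (nat_lit 505) (nat_lit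 495) (nat_lit 200)) (XT.nd (nat_lit 78) (nat_lit 0) (nat_lit 76) (XT.lf (nat_lit 76) (nat_lit 25841634701) (nat_lit 0) (nat_lit 36651404114) (nat_lit 1292) (nat_lit 17110719052) (nat_lit 299) (nat_lit 5) (nat_lit 298) (nat_lit 5) (nat_lit 315) (nat_lit 5) (nat_lit 506) (nat_lit 495) (nat_lit 199)) (XT.lf (nat_lit 0) (nat_lit 67814390708) (nat_lit 1216) (nat_lit 12437342329) (nat_lit 1292) (nat_lit 611522489) (nat_lit 299) (nat_lit 5) (nat_lit 315) (nat_lit 5) (nat_lit 316) (nat_lit 5) (nat_lit 507) (nat_lit 495) (nat_lit 198)))) (XT.nd (nat_lit 156) (nat_lit 1216) (nat_lit 0) (XT.nd (nat_lit 78) (nat_lit 0) (nat_lit 0) (XT.lf (nat_lit 76) (nat_lit 30356337435) (nat_lit 0) (nat_lit 43593324267) (nat_lit 1292) (nat_lit 8191248111) (nat_lit 300) (nat_lit 5) (nat_lit 299) (nat_lit 5) (nat_lit 316) (nat_lit 5) (nat_lit 508) (nat_lit 495) (nat_lit 197)) (XT.lf (nat_lit 76) (nat_lit 74688463273) (nat_lit 0) (nat_lit 5705718895)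 (nat_lit 1292) (nat_lit 3058955877) (nat_lit 300) (nat_lit 5) (nat_lit 299) (nat_lit 5) (nat_lit 316) (nat_lit 5) (nat_lit 509) (nat_lit 495) (nat_lit 196))) (XT.nd (nat_lit 78) (nat_lit 0) (nat_lit 0) (XT.lf (nat_lit 0) (nat_lit 2855663096) (nat_lit 1292) (nat_lit 48886500984) (nat_lit 1368) (nat_lit 33041772166) (nat_lit 283) (nat_lit 5) (nat_lit 300) (nat_lit 5) (nat_lit 301) (nat_lit 5) (nat_lit 510) (nat_lit 495) (nat_lit 195)) (XT.lf (nat_lit 0) (nat_lit 9031728746) (nat_lit 1292) (nat_lit 4160908105) (nat_lit 1368) (nat_lit 72956748289) (nat_lit 283) (nat_lit 5) (nat_lit 300) (nat_lit 5) (nat_lit 301) (nat_lit 5) (nat_lit 511) (nat_lit 495) (nat_lit 194))))) (XT.nd (nat_lit 312) (nat_lit 1140) (nat_lit 0) (XT.nd (nat_lit 156) (nat_lit 608) (nat_lit 0) (XT.nd (nat_lit 78) (nat_lit 760) (nat_lit 0) (XT.lf (nat_lit 0) (nat_lit 16062478649) (nat_lit 1292) (nat_lit 45062263674) (nat_lit 76) (nat_lit 26410973157)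 (nat_lit 284) (nat_lit 5) (nat_lit 301) (nat_lit 5) (nat_lit 285) (nat_lit 5) (nat_lit 512) (nat_lit 495) (nat_lit 193)) (XT.lf (nat_lit 0) (nat_lit 1528222364) (nat_lit 760) (nat_lit 21963307150) (nat_lit 836) (nat_lit 65466484910) (nat_lit 274) (nat_lit 5) (nat_lit 284) (nat_lit 5) (nat_lit 285) (nat_lit 5) (nat_lit 513) (nat_lit 495) (nat_lit 192))) (XT.nd (nat_lit 78) (nat_lit 608) (nat_lit 0) (XT.lf (nat_lit 0) (nat_lit 31779252958) (nat_lit 836) (nat_lit 40150625848) (nat_lit 76) (nat_lit 18474029545) (nat_lit 274) (nat_lit 5) (nat_lit 285) (nat_lit 5) (nat_lit 275) (nat_lit 5) (nat_lit 514) (nat_lit 495) (nat_lit 191)) (XT.lf (nat_lit 0) (nat_lit 8494900298) (nat_lit 608) (nat_lit 32119477827) (nat_lit 684) (nat_lit 51269837914) (nat_lit 266) (nat_lit 5) (nat_lit 274) (nat_lit 5) (nat_lit 275) (nat_lit 5) (nat_lit 515) (nat_lit 495) (nat_lit 190)))) (XT.nd (nat_lit 156) (nat_lit 532) (nat_lit 0) (XT.nd (nat_lit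 78) (nat_lit 608) (nat_lit 0) (XT.lf (nat_lit 0) (nat_lit 50209084815) (nat_lit 684) (nat_lit 34063683512) (nat_lit 76) (nat_lit 9121328840) (nat_lit 266) (nat_lit 5) (nat_lit 275) (nat_lit 5) (nat_lit 267) (nat_lit 5) (nat_lit 516) (nat_lit 495) (nat_lit 189)) (XT.lf (nat_lit 0) (nat_lit 16750240250) (nat_lit 608) (nat_lit 43820091104) (nat_lit 684) (nat_lit 34364582458) (nat_lit 258) (nat_lit 5) (nat_lit 266) (nat_lit 5) (nat_lit 267) (nat_lit 5) (nat_lit 517) (nat_lit 495) (nat_lit 188))) (XT.nd (nat_lit 78) (nat_lit 532) (nat_lit 0) (XT.lf (nat_lit 0) (nat_lit 69786536663) (nat_lit 608) (nat_lit 1799532048) (nat_lit 684) (nat_lit 24925576683) (nat_lit 258) (nat_lit 5) (nat_lit 266) (nat_lit 5) (nat_lit 267) (nat_lit 5) (nat_lit 518) (nat_lit 495) (nat_lit 187)) (XT.lf (nat_lit 0) (nat_lit 26394225063) (nat_lit 532) (nat_lit 57190203971) (nat_lit 608) (nat_lit 14531685403) (nat_lit 251) (nat_lit 5) (nat_lit 258)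 (nat_lit 5) (nat_lit 259) (nat_lit 5) (nat_lit 519) (nat_lit 495) (nat_lit 186))))))) (XT.nd (nat_lit 60996) (nat_lit 0) (nat_lit 3800) (XT.nd (nat_lit 546) (nat_lit 532) (nat_lit 0) (XT.nd (nat_lit 234) (nat_lit 1520) (nat_lit 0) (XT.nd (nat_lit 78) (nat_lit 608) (nat_lit 0) (XT.lf (nat_lit 0) (nat_lit 81636491326) (nat_lit 532) (nat_lit 14593455091) (nat_lit 608) (nat_lit 3530154986) (nat_lit 251) (nat_lit 5) (nat_lit 258) (nat_lit 5) (nat_lit 259) (nat_lit 5) (nat_lit 520) (nat_lit 495) (nat_lit 185)) (XT.nd (nat_lit 78) (nat_lit 0) (nat_lit 0) (XT.lf (nat_lit 0) (nat_lit 8297506282) (nat_lit 608) (nat_lit 63982253739) (nat_lit 76) (nat_lit 29151948669) (nat_lit 243) (nat_lit 5) (nat_lit 251) (nat_lit 5) (nat_lit 244) (nat_lit 5) (nat_lit 521) (nat_lit 495) (nat_lit 184)) (XT.lf (nat_lit 0) (nat_lit 20738063600) (nat_lit 608) (nat_lit 8268316273) (nat_lit 76) (nat_lit 74136165230) (nat_lit 243) (nat_lit 5) (nat_lit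 251) (nat_lit 5) (nat_lit 244) (nat_lit 5) (nat_lit 522) (nat_lit 495) (nat_lit 183)))) (XT.nd (nat_lit 156) (nat_lit 456) (nat_lit 0) (XT.nd (nat_lit 78) (nat_lit 532) (nat_lit 0) (XT.lf (nat_lit 0) (nat_lit 34187476810) (nat_lit 608) (nat_lit 54950408023) (nat_lit 76) (nat_lit 15747752636) (nat_lit 236) (nat_lit 5) (nat_lit 244) (nat_lit 5) (nat_lit 237) (nat_lit 5) (nat_lit 523) (nat_lit 495) (nat_lit 182)) (XT.lf (nat_lit 0) (nat_lit 3148972406) (nat_lit 532) (nat_lit 45292900261) (nat_lit 608) (nat_lit 58227104963) (nat_lit 229) (nat_lit 5) (nat_lit 236) (nat_lit 5) (nat_lit 237) (nat_lit 5) (nat_lit 524) (nat_lit 495) (nat_lit 181))) (XT.nd (nat_lit 78) (nat_lit 456) (nat_lit 0) (XT.lf (nat_lit 0) (nat_lit 63682734428) (nat_lit 608) (nat_lit 44375945086) (nat_lit 76) (nat_lit 430373495) (nat_lit 229) (nat_lit 5) (nat_lit 237) (nat_lit 5) (nat_lit 230) (nat_lit 5) (nat_lit 525) (nat_lit 495) (nat_lit 180))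 (XT.lf (nat_lit 0) (nat_lit 16413979515) (nat_lit 456) (nat_lit 63572799345) (nat_lit 532) (nat_lit 30358773113) (nat_lit 223) (nat_lit 5) (nat_lit 229) (nat_lit 5) (nat_lit 230) (nat_lit 5) (nat_lit 526) (nat_lit 495) (nat_lit 179))))) (XT.nd (nat_lit 60138) (nat_lit 0) (nat_lit 5852) (XT.nd (nat_lit 156) (nat_lit 0) (nat_lit 0) (XT.nd (nat_lit 78) (nat_lit 532) (nat_lit 0) (XT.lf (nat_lit 0) (nat_lit 79936959605) (nat_lit 456) (nat_lit 17290831003) (nat_lit 532) (nat_lit 15016519951) (nat_lit 223) (nat_lit 5) (nat_lit 229) (nat_lit 5) (nat_lit 230) (nat_lit 5) (nat_lit 527) (nat_lit 495) (nat_lit 178)) (XT.lf (nat_lit 0) (nat_lit 1370998302) (nat_lit 532) (nat_lit 82707935198) (nat_lit 76) (nat_lit 30102861709) (nat_lit 216) (nat_lit 5) (nat_lit 223) (nat_lit 5) (nat_lit 217) (nat_lit 5) (nat_lit 528) (nat_lit 495) (nat_lit 177))) (XT.nd (nat_lit 59904) (nat_lit 0) (nat_lit 5852) (XT.lf (nat_lit 0) (nat_lit 18448737582)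 (nat_lit 532) (nat_lit 18660251877) (nat_lit 76) (nat_lit 79048942234) (nat_lit 216) (nat_lit 5) (nat_lit 223) (nat_lit 5) (nat_lit 217) (nat_lit 5) (nat_lit 529) (nat_lit 495) (nat_lit 176)) (XT.lf (nat_lit 0) (nat_lit 17092727857) (nat_lit 1292) (nat_lit 8796802744) (nat_lit 1292) (nat_lit 8796802744) (nat_lit 293) (nat_lit 3) (nat_lit 310) (nat_lit 3) (nat_lit 310) (nat_lit 5) (nat_lit 496) (nat_lit 496) (nat_lit 208)))) (XT.nd (nat_lit 156) (nat_lit 0) (nat_lit 76) (XT.nd (nat_lit 78) (nat_lit 0) (nat_lit 76) (XT.lf (nat_lit 76) (nat_lit 17006500343) (nat_lit 0) (nat_lit 17868718746) (nat_lit 1292) (nat_lit 35532726280) (nat_lit 294) (nat_lit 5) (nat_lit 293) (nat_lit 3) (nat_lit 310) (nat_lit 5) (nat_lit 497) (nat_lit 496) (nat_lit 207)) (XT.lf (nat_lit 0) (nat_lit 35928548932) (nat_lit 1216) (nat_lit 18629726757) (nat_lit 1292) (nat_lit 16905720584) (nat_lit 294) (nat_lit 5) (nat_lit 310) (nat_lit 5) (nat_lit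 311) (nat_lit 5) (nat_lit 498) (nat_lit 496) (nat_lit 206))) (XT.nd (nat_lit 78) (nat_lit 0) (nat_lit 76) (XT.lf (nat_lit 76) (nat_lit 17346429711) (nat_lit 0) (nat_lit 20010199538) (nat_lit 1292) (nat_lit 35184805008) (nat_lit 295) (nat_lit 5) (nat_lit 294) (nat_lit 5) (nat_lit 311) (nat_lit 5) (nat_lit 499) (nat_lit 496) (nat_lit 205)) (XT.lf (nat_lit 0) (nat_lit 39166750514) (nat_lit 1216) (nat_lit 19013663145) (nat_lit 1292) (nat_lit 15460605835) (nat_lit 295) (nat_lit 5) (nat_lit 311) (nat_lit 5) (nat_lit 312) (nat_lit 5) (nat_lit 500) (nat_lit 496) (nat_lit 204)))))) (XT.nd (nat_lit 624) (nat_lit 2204) (nat_lit 0) (XT.nd (nat_lit 312) (nat_lit 0) (nat_lit 152) (XT.nd (nat_lit 156) (nat_lit 0) (nat_lit 76) (XT.nd (nat_lit 78) (nat_lit 0) (nat_lit 76) (XT.lf (nat_lit 76) (nat_lit 18414029527) (nat_lit 0) (nat_lit 22991790423) (nat_lit 1292) (nat_lit 33356533068) (nat_lit 296) (nat_lit 5) (nat_lit 295) (nat_lit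 5) (nat_lit 312) (nat_lit 5) (nat_lit 501) (nat_lit 496) (nat_lit 203)) (XT.lf (nat_lit 0) (nat_lit 44032884115) (nat_lit 1216) (nat_lit 18686849481) (nat_lit 1292) (nat_lit 13187968338) (nat_lit 296) (nat_lit 5) (nat_lit 312) (nat_lit 5) (nat_lit 313) (nat_lit 5) (nat_lit 502) (nat_lit 496) (nat_lit 202))) (XT.nd (nat_lit 78) (nat_lit 0) (nat_lit 76) (XT.lf (nat_lit 76) (nat_lit 20272112753) (nat_lit 0) (nat_lit 26888700457) (nat_lit 1292) (nat_lit 29913936581) (nat_lit 297) (nat_lit 5) (nat_lit 296) (nat_lit 5) (nat_lit 313) (nat_lit 5) (nat_lit 503) (nat_lit 496) (nat_lit 201)) (XT.lf (nat_lit 0) (nat_lit 50668996614) (nat_lit 1216) (nat_lit 17586710947) (nat_lit 1292) (nat_lit 10012509090) (nat_lit 297) (nat_lit 5) (nat_lit 313) (nat_lit 5) (nat_lit 314) (nat_lit 5) (nat_lit 504) (nat_lit 496) (nat_lit 200)))) (XT.nd (nat_lit 156) (nat_lit 0) (nat_lit 76) (XT.nd (nat_lit 78) (nat_lit 0) (nat_lit 76) (XT.lf (nat_lit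 76) (nat_lit 22987742363) (nat_lit 0) (nat_lit 31781448608) (nat_lit 1292) (nat_lit 24713693643) (nat_lit 298) (nat_lit 5) (nat_lit 297) (nat_lit 5) (nat_lit 314) (nat_lit 5) (nat_lit 505) (nat_lit 496) (nat_lit 199)) (XT.lf (nat_lit 0) (nat_lit 59226948714) (nat_lit 1216) (nat_lit 15646422590) (nat_lit 1292) (nat_lit 5853584644) (nat_lit 298) (nat_lit 5) (nat_lit 314) (nat_lit 5) (nat_lit 315) (nat_lit 5) (nat_lit 506) (nat_lit 496) (nat_lit 198))) (XT.nd (nat_lit 78) (nat_lit 0) (nat_lit 76) (XT.lf (nat_lit 76) (nat_lit 26632485169) (nat_lit 0) (nat_lit 37756221194) (nat_lit 1292) (nat_lit 17602535099) (nat_lit 299) (nat_lit 5) (nat_lit 298) (nat_lit 5) (nat_lit 315) (nat_lit 5) (nat_lit 507) (nat_lit 496) (nat_lit 197)) (XT.lf (nat_lit 0) (nat_lit 69869041532) (nat_lit 1216) (nat_lit 12794655536) (nat_lit 1292) (nat_lit 624846782) (nat_lit 299) (nat_lit 5) (nat_lit 315) (nat_lit 5) (nat_lit 316) (nat_lit 5) (nat_lit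 508) (nat_lit 496) (nat_lit 196))))) (XT.nd (nat_lit 312) (nat_lit 1292) (nat_lit 0) (XT.nd (nat_lit 156) (nat_lit 1216) (nat_lit 0) (XT.nd (nat_lit 78) (nat_lit 0) (nat_lit 0) (XT.lf (nat_lit 76) (nat_lit 31282679650) (nat_lit 0) (nat_lit 44905252559) (nat_lit 1292) (nat_lit 8416608793) (nat_lit 300) (nat_lit 5) (nat_lit 299) (nat_lit 5) (nat_lit 316) (nat_lit 5) (nat_lit 509) (nat_lit 496) (nat_lit 195)) (XT.lf (nat_lit 76) (nat_lit 76944313377) (nat_lit 0) (nat_lit 5880898776) (nat_lit 1292) (nat_lit 3130941290) (nat_lit 300) (nat_lit 5) (nat_lit 299) (nat_lit 5) (nat_lit 316) (nat_lit 5) (nat_lit 510) (nat_lit 496) (nat_lit 194))) (XT.nd (nat_lit 78) (nat_lit 0) (nat_lit 0) (XT.lf (nat_lit 0) (nat_lit 2960279472) (nat_lit 1292) (nat_lit 50337058038) (nat_lit 1368) (nat_lit 34029545971) (nat_lit 283) (nat_lit 5) (nat_lit 300) (nat_lit 5) (nat_lit 301) (nat_lit 5) (nat_lit 511) (nat_lit 496) (nat_lit 193)) (XT.lf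 (nat_lit 0) (nat_lit 9321075253) (nat_lit 1292) (nat_lit 4270164498) (nat_lit 1368) (nat_lit 75142072718) (nat_lit 283) (nat_lit 5) (nat_lit 300) (nat_lit 5) (nat_lit 301) (nat_lit 5) (nat_lit 512) (nat_lit 496) (nat_lit 192)))) (XT.nd (nat_lit 156) (nat_lit 608) (nat_lit 0) (XT.nd (nat_lit 78) (nat_lit 760) (nat_lit 0) (XT.lf (nat_lit 0) (nat_lit 16562335209) (nat_lit 1292) (nat_lit 46398145973) (nat_lit 76) (nat_lit 27200763979) (nat_lit 284) (nat_lit 5) (nat_lit 301) (nat_lit 5) (nat_lit 285) (nat_lit 5) (nat_lit 513) (nat_lit 496) (nat_lit 191)) (XT.lf (nat_lit 0) (nat_lit 1589897925) (nat_lit 760) (nat_lit 22623988080) (nat_lit 836) (nat_lit 67412338285) (nat_lit 274) (nat_lit 5) (nat_lit 284) (nat_lit 5) (nat_lit 285) (nat_lit 5) (nat_lit 514) (nat_lit 496) (nat_lit 190))) (XT.nd (nat_lit 78) (nat_lit 608) (nat_lit 0) (XT.lf (nat_lit 0) (nat_lit 32749711593) (nat_lit 836) (nat_lit 41339245027) (nat_lit 76)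 (nat_lit 19026554366) (nat_lit 274) (nat_lit 5) (nat_lit 285) (nat_lit 5) (nat_lit 275) (nat_lit 5) (nat_lit 515) (nat_lit 496) (nat_lit 189)) (XT.lf (nat_lit 0) (nat_lit 8765491026) (nat_lit 608) (nat_lit 33084053321) (nat_lit 684) (nat_lit 52790694006) (nat_lit 266) (nat_lit 5) (nat_lit 274) (nat_lit 5) (nat_lit 275) (nat_lit 5) (nat_lit 516) (nat_lit 496) (nat_lit 188))))))))
noncomputable def xc250 : XT := (XT.nd (nat_lit 62244) (nat_lit 0) (nat_lit 532) (XT.nd (nat_lit 61074) (nat_lit 0) (nat_lit 5092) (XT.nd (nat_lit 546) (nat_lit 2052) (nat_lit 0) (XT.nd (nat_lit 234) (nat_lit 1140) (nat_lit 0) (XT.nd (nat_lit 78) (nat_lit 608) (nat_lit 0) (XT.lf (nat_lit 0) (nat_lit 51731595564) (nat_lit 684) (nat_lit 35069810122) (nat_lit 76) (nat_lit 9394025192) (nat_lit 266) (nat_lit 5) (nat_lit 275) (nat_lit 5) (nat_lit 267) (nat_lit 5) (nat_lit 517) (nat_lit 496) (nat_lit 187)) (XT.nd (nat_lit 78) (nat_lit 0) (nat_lit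 0) (XT.lf (nat_lit 0) (nat_lit 17268376610) (nat_lit 608) (nat_lit 45134980169) (nat_lit 684) (nat_lit 35379124984) (nat_lit 258) (nat_lit 5) (nat_lit 266) (nat_lit 5) (nat_lit 267) (nat_lit 5) (nat_lit 518) (nat_lit 496) (nat_lit 186)) (XT.lf (nat_lit 0) (nat_lit 71895306697) (nat_lit 608) (nat_lit 1853796002) (nat_lit 684) (nat_lit 25657426559) (nat_lit 258) (nat_lit 5) (nat_lit 266) (nat_lit 5) (nat_lit 267) (nat_lit 5) (nat_lit 519) (nat_lit 496) (nat_lit 185)))) (XT.nd (nat_lit 156) (nat_lit 608) (nat_lit 0) (XT.nd (nat_lit 78) (nat_lit 0) (nat_lit 0) (XT.lf (nat_lit 0) (nat_lit 27201540566) (nat_lit 532) (nat_lit 58905569502) (nat_lit 608) (nat_lit 14952031473) (nat_lit 251) (nat_lit 5) (nat_lit 258) (nat_lit 5) (nat_lit 259) (nat_lit 5) (nat_lit 520) (nat_lit 496) (nat_lit 184)) (XT.lf (nat_lit 0) (nat_lit 84100623688) (nat_lit 532) (nat_lit 15030928075) (nat_lit 608) (nat_lit 3620909643) (nat_lit 251) (nat_lit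 5) (nat_lit 258) (nat_lit 5) (nat_lit 259) (nat_lit 5) (nat_lit 521) (nat_lit 496) (nat_lit 183))) (XT.nd (nat_lit 78) (nat_lit 0) (nat_lit 0) (XT.lf (nat_lit 0) (nat_lit 8561005076) (nat_lit 608) (nat_lit 65886103841) (nat_lit 76) (nat_lit 30027112100) (nat_lit 243) (nat_lit 5) (nat_lit 251) (nat_lit 5) (nat_lit 244) (nat_lit 5) (nat_lit 522) (nat_lit 496) (nat_lit 182)) (XT.lf (nat_lit 0) (nat_lit 21374354640) (nat_lit 608) (nat_lit 8501203131) (nat_lit 76) (nat_lit 76360837538) (nat_lit 243) (nat_lit 5) (nat_lit 251) (nat_lit 5) (nat_lit 244) (nat_lit 5) (nat_lit 523) (nat_lit 496) (nat_lit 181))))) (XT.nd (nat_lit 312) (nat_lit 532) (nat_lit 0) (XT.nd (nat_lit 156) (nat_lit 456) (nat_lit 0) (XT.nd (nat_lit 78) (nat_lit 532) (nat_lit 0) (XT.lf (nat_lit 0) (nat_lit 35226993346) (nat_lit 608) (nat_lit 56583499109) (nat_lit 76) (nat_lit 16221295745) (nat_lit 236) (nat_lit 5) (nat_lit 244) (nat_lit 5) (nat_lit 237)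 (nat_lit 5) (nat_lit 524) (nat_lit 496) (nat_lit 180)) (XT.lf (nat_lit 0) (nat_lit 3258711546) (nat_lit 532) (nat_lit 46650051690) (nat_lit 608) (nat_lit 59959873114) (nat_lit 229) (nat_lit 5) (nat_lit 236) (nat_lit 5) (nat_lit 237) (nat_lit 5) (nat_lit 525) (nat_lit 496) (nat_lit 179))) (XT.nd (nat_lit 78) (nat_lit 456) (nat_lit 0) (XT.lf (nat_lit 0) (nat_lit 65606468995) (nat_lit 608) (nat_lit 45692014841) (nat_lit 76) (nat_lit 444841654) (nat_lit 229) (nat_lit 5) (nat_lit 237) (nat_lit 5) (nat_lit 230) (nat_lit 5) (nat_lit 526) (nat_lit 496) (nat_lit 178)) (XT.lf (nat_lit 0) (nat_lit 16921458394) (nat_lit 456) (nat_lit 65477935132) (nat_lit 532) (nat_lit 31256133181) (nat_lit 223) (nat_lit 5) (nat_lit 229) (nat_lit 5) (nat_lit 230) (nat_lit 5) (nat_lit 527) (nat_lit 496) (nat_lit 177)))) (XT.nd (nat_lit 60060) (nat_lit 0) (nat_lit 5852) (XT.nd (nat_lit 78) (nat_lit 532) (nat_lit 0) (XT.lf (nat_lit 0) (nat_lit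 82349689261) (nat_lit 456) (nat_lit 17807567396) (nat_lit 532) (nat_lit 15454002806) (nat_lit 223) (nat_lit 5) (nat_lit 229) (nat_lit 5) (nat_lit 230) (nat_lit 5) (nat_lit 528) (nat_lit 496) (nat_lit 176)) (XT.lf (nat_lit 0) (nat_lit 1424678213) (nat_lit 532) (nat_lit 85174086841) (nat_lit 76) (nat_lit 31008106151) (nat_lit 216) (nat_lit 5) (nat_lit 223) (nat_lit 5) (nat_lit 217) (nat_lit 5) (nat_lit 529) (nat_lit 496) (nat_lit 175))) (XT.nd (nat_lit 78) (nat_lit 0) (nat_lit 0) (XT.lf (nat_lit 0) (nat_lit 17618884532) (nat_lit 1292) (nat_lit 9053817855) (nat_lit 1292) (nat_lit 9053817855) (nat_lit 293) (nat_lit 3) (nat_lit 310) (nat_lit 3) (nat_lit 310) (nat_lit 5) (nat_lit 497) (nat_lit 497) (nat_lit 206)) (XT.lf (nat_lit 76) (nat_lit 17530338219) (nat_lit 0) (nat_lit 18417239147) (nat_lit 1292) (nat_lit 36571819702) (nat_lit 294) (nat_lit 5) (nat_lit 293) (nat_lit 3) (nat_lit 310) (nat_lit 5) (nat_lit 498) (nat_lit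 497) (nat_lit 205)))))) (XT.nd (nat_lit 546) (nat_lit 836) (nat_lit 0) (XT.nd (nat_lit 234) (nat_lit 0) (nat_lit 76) (XT.nd (nat_lit 78) (nat_lit 0) (nat_lit 0) (XT.lf (nat_lit 0) (nat_lit 37031630588) (nat_lit 1216) (nat_lit 19174493036) (nat_lit 1292) (nat_lit 17401032276) (nat_lit 294) (nat_lit 5) (nat_lit 310) (nat_lit 5) (nat_lit 311) (nat_lit 5) (nat_lit 499) (nat_lit 497) (nat_lit 204)) (XT.nd (nat_lit 78) (nat_lit 0) (nat_lit 76) (XT.lf (nat_lit 76) (nat_lit 17880809640) (nat_lit 0) (nat_lit 20621143411) (nat_lit 1292) (nat_lit 36214982082) (nat_lit 295) (nat_lit 5) (nat_lit 294) (nat_lit 5) (nat_lit 311) (nat_lit 5) (nat_lit 500) (nat_lit 497) (nat_lit 203)) (XT.lf (nat_lit 0) (nat_lit 40365561444) (nat_lit 1216) (nat_lit 19569673576) (nat_lit 1292) (nat_lit 15914297502) (nat_lit 295) (nat_lit 5) (nat_lit 311) (nat_lit 5) (nat_lit 312) (nat_lit 5) (nat_lit 501) (nat_lit 497) (nat_lit 202)))) (XT.nd (nat_lit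 156) (nat_lit 0) (nat_lit 76) (XT.nd (nat_lit 78) (nat_lit 0) (nat_lit 76) (XT.lf (nat_lit 76) (nat_lit 18980708705) (nat_lit 0) (nat_lit 23690537869) (nat_lit 1292) (nat_lit 34333276266) (nat_lit 296) (nat_lit 5) (nat_lit 295) (nat_lit 5) (nat_lit 312) (nat_lit 5) (nat_lit 502) (nat_lit 497) (nat_lit 201)) (XT.lf (nat_lit 0) (nat_lit 45376361485) (nat_lit 1216) (nat_lit 19232847671) (nat_lit 1292) (nat_lit 13575045997) (nat_lit 296) (nat_lit 5) (nat_lit 312) (nat_lit 5) (nat_lit 313) (nat_lit 5) (nat_lit 503) (nat_lit 497) (nat_lit 200))) (XT.nd (nat_lit 78) (nat_lit 0) (nat_lit 76) (XT.lf (nat_lit 76) (nat_lit 20894740222) (nat_lit 0) (nat_lit 27702872196) (nat_lit 1292) (nat_lit 30788717599) (nat_lit 297) (nat_lit 5) (nat_lit 296) (nat_lit 5) (nat_lit 313) (nat_lit 5) (nat_lit 504) (nat_lit 497) (nat_lit 199)) (XT.lf (nat_lit 0) (nat_lit 52210331186) (nat_lit 1216) (nat_lit 18099556400) (nat_lit 1292) (nat_lit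 10305734690) (nat_lit 297) (nat_lit 5) (nat_lit 313) (nat_lit 5) (nat_lit 314) (nat_lit 5) (nat_lit 505) (nat_lit 497) (nat_lit 198))))) (XT.nd (nat_lit 312) (nat_lit 1064) (nat_lit 0) (XT.nd (nat_lit 156) (nat_lit 0) (nat_lit 76) (XT.nd (nat_lit 78) (nat_lit 0) (nat_lit 76) (XT.lf (nat_lit 76) (nat_lit 23691985845) (nat_lit 0) (nat_lit 32741066622) (nat_lit 1292) (nat_lit 25433692264) (nat_lit 298) (nat_lit 5) (nat_lit 297) (nat_lit 5) (nat_lit 314) (nat_lit 5) (nat_lit 506) (nat_lit 497) (nat_lit 197)) (XT.lf (nat_lit 0) (nat_lit 61023879905) (nat_lit 1216) (nat_lit 16100963824) (nat_lit 1292) (nat_lit 6023314448) (nat_lit 298) (nat_lit 5) (nat_lit 314) (nat_lit 5) (nat_lit 315) (nat_lit 5) (nat_lit 507) (nat_lit 497) (nat_lit 196))) (XT.nd (nat_lit 78) (nat_lit 0) (nat_lit 76) (XT.lf (nat_lit 76) (nat_lit 27446165565) (nat_lit 0) (nat_lit 38893879981) (nat_lit 1292) (nat_lit 18110340133) (nat_lit 299) (nat_lit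 5) (nat_lit 298) (nat_lit 5) (nat_lit 315) (nat_lit 5) (nat_lit 508) (nat_lit 497) (nat_lit 195)) (XT.lf (nat_lit 0) (nat_lit 71984171223) (nat_lit 1216) (nat_lit 13163595530) (nat_lit 1292) (nat_lit 638859053) (nat_lit 299) (nat_lit 5) (nat_lit 315) (nat_lit 5) (nat_lit 316) (nat_lit 5) (nat_lit 509) (nat_lit 497) (nat_lit 194)))) (XT.nd (nat_lit 156) (nat_lit 1216) (nat_lit 0) (XT.nd (nat_lit 78) (nat_lit 0) (nat_lit 0) (XT.lf (nat_lit 76) (nat_lit 32235913637) (nat_lit 0) (nat_lit 46256301703) (nat_lit 1292) (nat_lit 8649900005) (nat_lit 300) (nat_lit 5) (nat_lit 299) (nat_lit 5) (nat_lit 316) (nat_lit 5) (nat_lit 510) (nat_lit 497) (nat_lit 193)) (XT.lf (nat_lit 76) (nat_lit 79266966659) (nat_lit 0) (nat_lit 6061103960) (nat_lit 1292) (nat_lit 3206221906) (nat_lit 300) (nat_lit 5) (nat_lit 299) (nat_lit 5) (nat_lit 316) (nat_lit 5) (nat_lit 511) (nat_lit 497) (nat_lit 192))) (XT.nd (nat_lit 78) (nat_lit 0) (nat_lit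 0) (XT.lf (nat_lit 0) (nat_lit 3066946734) (nat_lit 1292) (nat_lit 51832052448) (nat_lit 1368) (nat_lit 35047152719) (nat_lit 283) (nat_lit 5) (nat_lit 300) (nat_lit 5) (nat_lit 301) (nat_lit 5) (nat_lit 512) (nat_lit 497) (nat_lit 191)) (XT.lf (nat_lit 0) (nat_lit 9618046227) (nat_lit 1292) (nat_lit 4383592412) (nat_lit 1368) (nat_lit 77393150792) (nat_lit 283) (nat_lit 5) (nat_lit 300) (nat_lit 5) (nat_lit 301) (nat_lit 5) (nat_lit 513) (nat_lit 497) (nat_lit 190))))))) (XT.nd (nat_lit 61230) (nat_lit 0) (nat_lit 4560) (XT.nd (nat_lit 546) (nat_lit 2660) (nat_lit 0) (XT.nd (nat_lit 234) (nat_lit 1216) (nat_lit 0) (XT.nd (nat_lit 78) (nat_lit 760) (nat_lit 0) (XT.lf (nat_lit 0) (nat_lit 17076155215) (nat_lit 1292) (nat_lit 47775022381) (nat_lit 76) (nat_lit 28014394239) (nat_lit 284) (nat_lit 5) (nat_lit 301) (nat_lit 5) (nat_lit 285) (nat_lit 5) (nat_lit 514) (nat_lit 497) (nat_lit 189)) (XT.nd (nat_lit 78) (nat_lit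 0) (nat_lit 0) (XT.lf (nat_lit 0) (nat_lit 1652515109) (nat_lit 760) (nat_lit 23304387159) (nat_lit 836) (nat_lit 69417608639) (nat_lit 274) (nat_lit 5) (nat_lit 284) (nat_lit 5) (nat_lit 285) (nat_lit 5) (nat_lit 515) (nat_lit 497) (nat_lit 188)) (XT.lf (nat_lit 0) (nat_lit 33748303465) (nat_lit 836) (nat_lit 42564435483) (nat_lit 76) (nat_lit 19595752293) (nat_lit 274) (nat_lit 5) (nat_lit 285) (nat_lit 5) (nat_lit 275) (nat_lit 5) (nat_lit 516) (nat_lit 497) (nat_lit 187)))) (XT.nd (nat_lit 156) (nat_lit 608) (nat_lit 0) (XT.nd (nat_lit 78) (nat_lit 0) (nat_lit 0) (XT.lf (nat_lit 0) (nat_lit 9043295721) (nat_lit 608) (nat_lit 34077509184) (nat_lit 684) (nat_lit 54358165373) (nat_lit 266) (nat_lit 5) (nat_lit 274) (nat_lit 5) (nat_lit 275) (nat_lit 5) (nat_lit 517) (nat_lit 497) (nat_lit 186)) (XT.lf (nat_lit 0) (nat_lit 53298849496) (nat_lit 684) (nat_lit 36107026589) (nat_lit 76) (nat_lit 9674956596) (nat_lit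 266) (nat_lit 5) (nat_lit 275) (nat_lit 5) (nat_lit 267) (nat_lit 5) (nat_lit 518) (nat_lit 497) (nat_lit 185))) (XT.nd (nat_lit 78) (nat_lit 0) (nat_lit 0) (XT.lf (nat_lit 0) (nat_lit 17801159883) (nat_lit 608) (nat_lit 46489299469) (nat_lit 684) (nat_lit 36425044924) (nat_lit 258) (nat_lit 5) (nat_lit 266) (nat_lit 5) (nat_lit 267) (nat_lit 5) (nat_lit 519) (nat_lit 497) (nat_lit 184)) (XT.lf (nat_lit 0) (nat_lit 74066468786) (nat_lit 608) (nat_lit 1909671916) (nat_lit 684) (nat_lit 26412145656) (nat_lit 258) (nat_lit 5) (nat_lit 266) (nat_lit 5) (nat_lit 267) (nat_lit 5) (nat_lit 520) (nat_lit 497) (nat_lit 183))))) (XT.nd (nat_lit 312) (nat_lit 1520) (nat_lit 0) (XT.nd (nat_lit 156) (nat_lit 608) (nat_lit 0) (XT.nd (nat_lit 78) (nat_lit 0) (nat_lit 0) (XT.lf (nat_lit 0) (nat_lit 28032186417) (nat_lit 532) (nat_lit 60672415551) (nat_lit 608) (nat_lit 15385883687) (nat_lit 251) (nat_lit 5) (nat_lit 258) (nat_lit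 5) (nat_lit 259) (nat_lit 5) (nat_lit 521) (nat_lit 497) (nat_lit 182)) (XT.lf (nat_lit 0) (nat_lit 86637816800) (nat_lit 532) (nat_lit 15481544231) (nat_lit 608) (nat_lit 3715256612) (nat_lit 251) (nat_lit 5) (nat_lit 258) (nat_lit 5) (nat_lit 259) (nat_lit 5) (nat_lit 522) (nat_lit 497) (nat_lit 181))) (XT.nd (nat_lit 78) (nat_lit 0) (nat_lit 0) (XT.lf (nat_lit 0) (nat_lit 8831572250) (nat_lit 608) (nat_lit 67847965956) (nat_lit 76) (nat_lit 30928495706) (nat_lit 243) (nat_lit 5) (nat_lit 251) (nat_lit 5) (nat_lit 244) (nat_lit 5) (nat_lit 523) (nat_lit 497) (nat_lit 180)) (XT.lf (nat_lit 0) (nat_lit 22028922193) (nat_lit 608) (nat_lit 8741946991) (nat_lit 76) (nat_lit 78652216298) (nat_lit 243) (nat_lit 5) (nat_lit 251) (nat_lit 5) (nat_lit 244) (nat_lit 5) (nat_lit 524) (nat_lit 497) (nat_lit 179)))) (XT.nd (nat_lit 156) (nat_lit 456) (nat_lit 0) (XT.nd (nat_lit 78) (nat_lit 532) (nat_lit 0) (XT.lf (nat_lit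 0) (nat_lit 36296897908) (nat_lit 608) (nat_lit 58266468164) (nat_lit 76) (nat_lit 16708981400) (nat_lit 236) (nat_lit 5) (nat_lit 244) (nat_lit 5) (nat_lit 237) (nat_lit 5) (nat_lit 525) (nat_lit 497) (nat_lit 178)) (XT.lf (nat_lit 0) (nat_lit 3370866302) (nat_lit 532) (nat_lit 48048011550) (nat_lit 608) (nat_lit 61745430550) (nat_lit 229) (nat_lit 5) (nat_lit 236) (nat_lit 5) (nat_lit 237) (nat_lit 5) (nat_lit 526) (nat_lit 497) (nat_lit 177))) (XT.nd (nat_lit 78) (nat_lit 456) (nat_lit 0) (XT.lf (nat_lit 0) (nat_lit 67587154850) (nat_lit 608) (nat_lit 47048439725) (nat_lit 76) (nat_lit 459654483) (nat_lit 229) (nat_lit 5) (nat_lit 237) (nat_lit 5) (nat_lit 230) (nat_lit 5) (nat_lit 527) (nat_lit 497) (nat_lit 176)) (XT.lf (nat_lit 0) (nat_lit 17443297163) (nat_lit 456) (nat_lit 67440342567) (nat_lit 532) (nat_lit 32181183445) (nat_lit 223) (nat_lit 5) (nat_lit 229) (nat_lit 5) (nat_lit 230) (nat_lit 5) (nat_lit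 528) (nat_lit 497) (nat_lit 175)))))) (XT.nd (nat_lit 624) (nat_lit 760) (nat_lit 0) (XT.nd (nat_lit 312) (nat_lit 0) (nat_lit 152) (XT.nd (nat_lit 156) (nat_lit 0) (nat_lit 76) (XT.nd (nat_lit 78) (nat_lit 0) (nat_lit 0) (XT.lf (nat_lit 0) (nat_lit 18160058137) (nat_lit 1292) (nat_lit 9318938874) (nat_lit 1292) (nat_lit 9318938874) (nat_lit 293) (nat_lit 3) (nat_lit 310) (nat_lit 3) (nat_lit 310) (nat_lit 5) (nat_lit 498) (nat_lit 498) (nat_lit 204)) (XT.lf (nat_lit 76) (nat_lit 18069108076) (nat_lit 0) (nat_lit 18981499973) (nat_lit 1292) (nat_lit 37643629428) (nat_lit 294) (nat_lit 5) (nat_lit 293) (nat_lit 3) (nat_lit 310) (nat_lit 5) (nat_lit 499) (nat_lit 498) (nat_lit 203))) (XT.nd (nat_lit 78) (nat_lit 0) (nat_lit 0) (XT.lf (nat_lit 0) (nat_lit 38166356664) (nat_lit 1216) (nat_lit 19736413166) (nat_lit 1292) (nat_lit 17911884128) (nat_lit 294) (nat_lit 5) (nat_lit 310) (nat_lit 5) (nat_lit 311) (nat_lit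 5) (nat_lit 500) (nat_lit 498) (nat_lit 202)) (XT.lf (nat_lit 76) (nat_lit 18430418055) (nat_lit 0) (nat_lit 21249804942) (nat_lit 1292) (nat_lit 37277520642) (nat_lit 295) (nat_lit 5) (nat_lit 294) (nat_lit 5) (nat_lit 311) (nat_lit 5) (nat_lit 501) (nat_lit 498) (nat_lit 201)))) (XT.nd (nat_lit 156) (nat_lit 0) (nat_lit 76) (XT.nd (nat_lit 78) (nat_lit 0) (nat_lit 0) (XT.lf (nat_lit 0) (nat_lit 41598970002) (nat_lit 1216) (nat_lit 20143190908) (nat_lit 1292) (nat_lit 16382181221) (nat_lit 295) (nat_lit 5) (nat_lit 311) (nat_lit 5) (nat_lit 312) (nat_lit 5) (nat_lit 502) (nat_lit 498) (nat_lit 200)) (XT.lf (nat_lit 76) (nat_lit 19563569774) (nat_lit 0) (nat_lit 24409731461) (nat_lit 1292) (nat_lit 35340696748) (nat_lit 296) (nat_lit 5) (nat_lit 295) (nat_lit 5) (nat_lit 312) (nat_lit 5) (nat_lit 503) (nat_lit 498) (nat_lit 199))) (XT.nd (nat_lit 78) (nat_lit 0) (nat_lit 0) (XT.lf (nat_lit 0) (nat_lit 46758852110)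 (nat_lit 1216) (nat_lit 19796064324) (nat_lit 1292) (nat_lit 13974227444) (nat_lit 296) (nat_lit 5) (nat_lit 312) (nat_lit 5) (nat_lit 313) (nat_lit 5) (nat_lit 504) (nat_lit 498) (nat_lit 198)) (XT.lf (nat_lit 76) (nat_lit 21535216218) (nat_lit 0) (nat_lit 28541037940) (nat_lit 1292) (nat_lit 31691041508) (nat_lit 297) (nat_lit 5) (nat_lit 296) (nat_lit 5) (nat_lit 313) (nat_lit 5) (nat_lit 505) (nat_lit 498) (nat_lit 197))))) (XT.nd (nat_lit 312) (nat_lit 1064) (nat_lit 0) (XT.nd (nat_lit 156) (nat_lit 0) (nat_lit 76) (XT.nd (nat_lit 78) (nat_lit 0) (nat_lit 0) (XT.lf (nat_lit 0) (nat_lit 53796685116) (nat_lit 1216) (nat_lit 18628634264) (nat_lit 1292) (nat_lit 10608167477) (nat_lit 297) (nat_lit 5) (nat_lit 313) (nat_lit 5) (nat_lit 314) (nat_lit 5) (nat_lit 506) (nat_lit 498) (nat_lit 196)) (XT.lf (nat_lit 76) (nat_lit 24416517887) (nat_lit 0) (nat_lit 33729118731) (nat_lit 1292) (nat_lit 26176519990) (nat_lit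 298) (nat_lit 5) (nat_lit 297) (nat_lit 5) (nat_lit 314) (nat_lit 5) (nat_lit 507) (nat_lit 498) (nat_lit 195))) (XT.nd (nat_lit 78) (nat_lit 0) (nat_lit 0) (XT.lf (nat_lit 0) (nat_lit 62873563906) (nat_lit 1216) (nat_lit 16569993828) (nat_lit 1292) (nat_lit 6198473552) (nat_lit 298) (nat_lit 5) (nat_lit 314) (nat_lit 5) (nat_lit 315) (nat_lit 5) (nat_lit 508) (nat_lit 498) (nat_lit 194)) (XT.lf (nat_lit 76) (nat_lit 28283412198) (nat_lit 0) (nat_lit 40065383110) (nat_lit 1292) (nat_lit 18634542957) (nat_lit 299) (nat_lit 5) (nat_lit 298) (nat_lit 5) (nat_lit 315) (nat_lit 5) (nat_lit 509) (nat_lit 498) (nat_lit 193)))) (XT.nd (nat_lit 156) (nat_lit 1216) (nat_lit 0) (XT.nd (nat_lit 78) (nat_lit 0) (nat_lit 0) (XT.lf (nat_lit 0) (nat_lit 74161660771) (nat_lit 1216) (nat_lit 13544459025) (nat_lit 1292) (nat_lit 653563393) (nat_lit 299) (nat_lit 5) (nat_lit 315) (nat_lit 5) (nat_lit 316) (nat_lit 5) (nat_lit 510)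 (nat_lit 498) (nat_lit 192)) (XT.lf (nat_lit 76) (nat_lit 33216897727) (nat_lit 0) (nat_lit 47647658929) (nat_lit 1292) (nat_lit 8891292517) (nat_lit 300) (nat_lit 5) (nat_lit 299) (nat_lit 5) (nat_lit 316) (nat_lit 5) (nat_lit 511) (nat_lit 498) (nat_lit 191))) (XT.nd (nat_lit 78) (nat_lit 1216) (nat_lit 0) (XT.lf (nat_lit 76) (nat_lit 81658477290) (nat_lit 0) (nat_lit 6246498414) (nat_lit 1292) (nat_lit 3284831390) (nat_lit 300) (nat_lit 5) (nat_lit 299) (nat_lit 5) (nat_lit 316) (nat_lit 5) (nat_lit 512) (nat_lit 498) (nat_lit 190)) (XT.lf (nat_lit 0) (nat_lit 3175788841) (nat_lit 1292) (nat_lit 53372764487) (nat_lit 1368) (nat_lit 36095475935) (nat_lit 283) (nat_lit 5) (nat_lit 300) (nat_lit 5) (nat_lit 301) (nat_lit 5) (nat_lit 513) (nat_lit 498) (nat_lit 189))))))))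
noncomputable def xc251 : XT := (XT.nd (nat_lit 62478) (nat_lit 0) (nat_lit 532) (XT.nd (nat_lit 61308) (nat_lit 0) (nat_lit 4864) (XT.nd (nat_lit 546) (nat_lit 2204) (nat_lit 0) (XT.nd (nat_lit 234) (nat_lit 1216) (nat_lit 0) (XT.nd (nat_lit 78) (nat_lit 684) (nat_lit 0) (XT.lf (nat_lit 0) (nat_lit 9922931016) (nat_lit 1292) (nat_lit 4501265685) (nat_lit 1368) (nat_lit 79711943989) (nat_lit 283) (nat_lit 5) (nat_lit 300) (nat_lit 5) (nat_lit 301) (nat_lit 5) (nat_lit 514) (nat_lit 498) (nat_lit 188)) (XT.nd (nat_lit 78) (nat_lit 760) (nat_lit 0) (XT.lf (nat_lit 0) (nat_lit 17604416824) (nat_lit 1292) (nat_lit 49194070043) (nat_lit 76) (nat_lit 28852570755) (nat_lit 284) (nat_lit 5) (nat_lit 301) (nat_lit 5) (nat_lit 285) (nat_lit 5) (nat_lit 515) (nat_lit 498) (nat_lit 187)) (XT.lf (nat_lit 0) (nat_lit 1716154326) (nat_lit 760) (nat_lit 24005101804) (nat_lit 836) (nat_lit 71484018701) (nat_lit 274) (nat_lit 5)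 (nat_lit 284) (nat_lit 5) (nat_lit 285) (nat_lit 5) (nat_lit 516) (nat_lit 498) (nat_lit 186)))) (XT.nd (nat_lit 156) (nat_lit 608) (nat_lit 0) (XT.nd (nat_lit 78) (nat_lit 608) (nat_lit 0) (XT.lf (nat_lit 0) (nat_lit 34775928857) (nat_lit 836) (nat_lit 43827241961) (nat_lit 76) (nat_lit 20182117930) (nat_lit 274) (nat_lit 5) (nat_lit 285) (nat_lit 5) (nat_lit 275) (nat_lit 5) (nat_lit 517) (nat_lit 498) (nat_lit 185)) (XT.lf (nat_lit 0) (nat_lit 9328582682) (nat_lit 608) (nat_lit 35100715092) (nat_lit 684) (nat_lit 55973593666) (nat_lit 266) (nat_lit 5) (nat_lit 274) (nat_lit 5) (nat_lit 275) (nat_lit 5) (nat_lit 518) (nat_lit 498) (nat_lit 184))) (XT.nd (nat_lit 78) (nat_lit 608) (nat_lit 0) (XT.lf (nat_lit 0) (nat_lit 54912242415) (nat_lit 684) (nat_lit 37176213600) (nat_lit 76) (nat_lit 9964366994) (nat_lit 266) (nat_lit 5) (nat_lit 275) (nat_lit 5) (nat_lit 267) (nat_lit 5) (nat_lit 519) (nat_lit 498) (nat_lit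 183)) (XT.lf (nat_lit 0) (nat_lit 18349080978) (nat_lit 608) (nat_lit 47884232856) (nat_lit 684) (nat_lit 37503229573) (nat_lit 258) (nat_lit 5) (nat_lit 266) (nat_lit 5) (nat_lit 267) (nat_lit 5) (nat_lit 520) (nat_lit 498) (nat_lit 182))))) (XT.nd (nat_lit 312) (nat_lit 1064) (nat_lit 0) (XT.nd (nat_lit 156) (nat_lit 608) (nat_lit 0) (XT.nd (nat_lit 78) (nat_lit 532) (nat_lit 0) (XT.lf (nat_lit 0) (nat_lit 76301944694) (nat_lit 608) (nat_lit 1967209066) (nat_lit 684) (nat_lit 27190367600) (nat_lit 258) (nat_lit 5) (nat_lit 266) (nat_lit 5) (nat_lit 267) (nat_lit 5) (nat_lit 521) (nat_lit 498) (nat_lit 181)) (XT.lf (nat_lit 0) (nat_lit 28886913564) (nat_lit 532) (nat_lit 62492285409) (nat_lit 608) (nat_lit 15833595808) (nat_lit 251) (nat_lit 5) (nat_lit 258) (nat_lit 5) (nat_lit 259) (nat_lit 5) (nat_lit 522) (nat_lit 498) (nat_lit 180))) (XT.nd (nat_lit 78) (nat_lit 608) (nat_lit 0) (XT.lf (nat_lit 0) (nat_lit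 89250312037) (nat_lit 532) (nat_lit 15945696764) (nat_lit 608) (nat_lit 3813253738) (nat_lit 251) (nat_lit 5) (nat_lit 258) (nat_lit 5) (nat_lit 259) (nat_lit 5) (nat_lit 523) (nat_lit 498) (nat_lit 179)) (XT.lf (nat_lit 0) (nat_lit 9109467877) (nat_lit 608) (nat_lit 69869528980) (nat_lit 76) (nat_lit 31856888087) (nat_lit 243) (nat_lit 5) (nat_lit 251) (nat_lit 5) (nat_lit 244) (nat_lit 5) (nat_lit 524) (nat_lit 498) (nat_lit 178)))) (XT.nd (nat_lit 156) (nat_lit 532) (nat_lit 0) (XT.nd (nat_lit 78) (nat_lit 532) (nat_lit 0) (XT.lf (nat_lit 0) (nat_lit 22702361179) (nat_lit 608) (nat_lit 8990733600) (nat_lit 76) (nat_lit 81012304641) (nat_lit 243) (nat_lit 5) (nat_lit 251) (nat_lit 5) (nat_lit 244) (nat_lit 5) (nat_lit 525) (nat_lit 498) (nat_lit 177)) (XT.lf (nat_lit 0) (nat_lit 37398147914) (nat_lit 608) (nat_lit 60000760712) (nat_lit 76) (nat_lit 17211237534) (nat_lit 236) (nat_lit 5) (nat_lit 244) (nat_lit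 5) (nat_lit 237) (nat_lit 5) (nat_lit 526) (nat_lit 498) (nat_lit 176))) (XT.nd (nat_lit 78) (nat_lit 0) (nat_lit 0) (XT.lf (nat_lit 0) (nat_lit 3485559459) (nat_lit 532) (nat_lit 49487998706) (nat_lit 608) (nat_lit 63585314667) (nat_lit 229) (nat_lit 5) (nat_lit 236) (nat_lit 5) (nat_lit 237) (nat_lit 5) (nat_lit 527) (nat_lit 498) (nat_lit 175)) (XT.lf (nat_lit 0) (nat_lit 69626544201) (nat_lit 608) (nat_lit 48446380275) (nat_lit 76) (nat_lit 474827451) (nat_lit 229) (nat_lit 5) (nat_lit 237) (nat_lit 5) (nat_lit 230) (nat_lit 5) (nat_lit 528) (nat_lit 498) (nat_lit 174)))))) (XT.nd (nat_lit 546) (nat_lit 0) (nat_lit 228) (XT.nd (nat_lit 234) (nat_lit 0) (nat_lit 76) (XT.nd (nat_lit 78) (nat_lit 0) (nat_lit 0) (XT.lf (nat_lit 0) (nat_lit 18716743252) (nat_lit 1292) (nat_lit 9592386277) (nat_lit 1292) (nat_lit 9592386277) (nat_lit 293) (nat_lit 3) (nat_lit 310) (nat_lit 3) (nat_lit 310) (nat_lit 5) (nat_lit 499)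 (nat_lit 499) (nat_lit 202)) (XT.nd (nat_lit 78) (nat_lit 0) (nat_lit 76) (XT.lf (nat_lit 76) (nat_lit 18623302828) (nat_lit 0) (nat_lit 19562014489) (nat_lit 1292) (nat_lit 38749048345) (nat_lit 294) (nat_lit 5) (nat_lit 293) (nat_lit 3) (nat_lit 310) (nat_lit 5) (nat_lit 500) (nat_lit 499) (nat_lit 201)) (XT.lf (nat_lit 0) (nat_lit 39333759616) (nat_lit 1216) (nat_lit 20315955216) (nat_lit 1292) (nat_lit 18438703263) (nat_lit 294) (nat_lit 5) (nat_lit 310) (nat_lit 5) (nat_lit 311) (nat_lit 5) (nat_lit 501) (nat_lit 499) (nat_lit 200)))) (XT.nd (nat_lit 156) (nat_lit 0) (nat_lit 76) (XT.nd (nat_lit 78) (nat_lit 0) (nat_lit 76) (XT.lf (nat_lit 76) (nat_lit 18995757899) (nat_lit 0) (nat_lit 21896750716) (nat_lit 1292) (nat_lit 38373307942) (nat_lit 295) (nat_lit 5) (nat_lit 294) (nat_lit 5) (nat_lit 311) (nat_lit 5) (nat_lit 502) (nat_lit 499) (nat_lit 199)) (XT.lf (nat_lit 0) (nat_lit 42868092571) (nat_lit 1216)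 (nat_lit 20734692898) (nat_lit 1292) (nat_lit 16864649386) (nat_lit 295) (nat_lit 5) (nat_lit 311) (nat_lit 5) (nat_lit 312) (nat_lit 5) (nat_lit 503) (nat_lit 499) (nat_lit 198))) (XT.nd (nat_lit 78) (nat_lit 0) (nat_lit 76) (XT.lf (nat_lit 76) (nat_lit 20163145175) (nat_lit 0) (nat_lit 25150014221) (nat_lit 1292) (nat_lit 36379635904) (nat_lit 296) (nat_lit 5) (nat_lit 295) (nat_lit 5) (nat_lit 312) (nat_lit 5) (nat_lit 504) (nat_lit 499) (nat_lit 197)) (XT.lf (nat_lit 0) (nat_lit 48181600499) (nat_lit 1216) (nat_lit 20376967862) (nat_lit 1292) (nat_lit 14385847582) (nat_lit 296) (nat_lit 5) (nat_lit 312) (nat_lit 5) (nat_lit 313) (nat_lit 5) (nat_lit 505) (nat_lit 499) (nat_lit 196))))) (XT.nd (nat_lit 312) (nat_lit 0) (nat_lit 152) (XT.nd (nat_lit 156) (nat_lit 0) (nat_lit 76) (XT.nd (nat_lit 78) (nat_lit 0) (nat_lit 76) (XT.lf (nat_lit 76) (nat_lit 22194123857) (nat_lit 0) (nat_lit 29403942261) (nat_lit 1292)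 (nat_lit 32621660002) (nat_lit 297) (nat_lit 5) (nat_lit 296) (nat_lit 5) (nat_lit 313) (nat_lit 5) (nat_lit 506) (nat_lit 499) (nat_lit 195)) (XT.lf (nat_lit 0) (nat_lit 55429479056) (nat_lit 1216) (nat_lit 19174382887) (nat_lit 1292) (nat_lit 10920060109) (nat_lit 297) (nat_lit 5) (nat_lit 313) (nat_lit 5) (nat_lit 314) (nat_lit 5) (nat_lit 507) (nat_lit 499) (nat_lit 194))) (XT.nd (nat_lit 78) (nat_lit 0) (nat_lit 76) (XT.lf (nat_lit 76) (nat_lit 25161995295) (nat_lit 0) (nat_lit 34746478306) (nat_lit 1292) (nat_lit 26942791137) (nat_lit 298) (nat_lit 5) (nat_lit 297) (nat_lit 5) (nat_lit 314) (nat_lit 5) (nat_lit 508) (nat_lit 499) (nat_lit 193)) (XT.lf (nat_lit 0) (nat_lit 64777649608) (nat_lit 1216) (nat_lit 17053898328) (nat_lit 1292) (nat_lit 6379205466) (nat_lit 298) (nat_lit 5) (nat_lit 314) (nat_lit 5) (nat_lit 315) (nat_lit 5) (nat_lit 509) (nat_lit 499) (nat_lit 192)))) (XT.nd (nat_lit 156) (nat_lit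 0) (nat_lit 76) (XT.nd (nat_lit 78) (nat_lit 0) (nat_lit 76) (XT.lf (nat_lit 76) (nat_lit 29144980513) (nat_lit 0) (nat_lit 41271762296) (nat_lit 1292) (nat_lit 19175568707) (nat_lit 299) (nat_lit 5) (nat_lit 298) (nat_lit 5) (nat_lit 315) (nat_lit 5) (nat_lit 510) (nat_lit 499) (nat_lit 191)) (XT.lf (nat_lit 0) (nat_lit 76403443775) (nat_lit 1216) (nat_lit 13937554630) (nat_lit 1292) (nat_lit 668964967) (nat_lit 299) (nat_lit 5) (nat_lit 315) (nat_lit 5) (nat_lit 316) (nat_lit 5) (nat_lit 511) (nat_lit 499) (nat_lit 190))) (XT.nd (nat_lit 78) (nat_lit 0) (nat_lit 0) (XT.lf (nat_lit 76) (nat_lit 34226513039) (nat_lit 0) (nat_lit 49080546304) (nat_lit 1292) (nat_lit 9140966076) (nat_lit 300) (nat_lit 5) (nat_lit 299) (nat_lit 5) (nat_lit 316) (nat_lit 5) (nat_lit 512) (nat_lit 499) (nat_lit 189)) (XT.lf (nat_lit 76) (nat_lit 84120958192) (nat_lit 0) (nat_lit 6437250266) (nat_lit 1292) (nat_lit 3366808160) (nat_lit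 300) (nat_lit 5) (nat_lit 299) (nat_lit 5) (nat_lit 316) (nat_lit 5) (nat_lit 513) (nat_lit 499) (nat_lit 188))))))) (XT.nd (nat_lit 61464) (nat_lit 0) (nat_lit 3572) (XT.nd (nat_lit 546) (nat_lit 2280) (nat_lit 0) (XT.nd (nat_lit 234) (nat_lit 1292) (nat_lit 0) (XT.nd (nat_lit 78) (nat_lit 0) (nat_lit 0) (XT.lf (nat_lit 0) (nat_lit 3286929888) (nat_lit 1292) (nat_lit 54960515869) (nat_lit 1368) (nat_lit 37175426303) (nat_lit 283) (nat_lit 5) (nat_lit 300) (nat_lit 5) (nat_lit 301) (nat_lit 5) (nat_lit 514) (nat_lit 499) (nat_lit 187)) (XT.nd (nat_lit 78) (nat_lit 0) (nat_lit 76) (XT.lf (nat_lit 0) (nat_lit 10236024172) (nat_lit 1292) (nat_lit 4623263314) (nat_lit 1368) (nat_lit 82100473271) (nat_lit 283) (nat_lit 5) (nat_lit 300) (nat_lit 5) (nat_lit 301) (nat_lit 5) (nat_lit 515) (nat_lit 499) (nat_lit 186)) (XT.lf (nat_lit 0) (nat_lit 18147609139) (nat_lit 1292) (nat_lit 50656504447) (nat_lit 76) (nat_lit 29716022030)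 (nat_lit 284) (nat_lit 5) (nat_lit 301) (nat_lit 5) (nat_lit 285) (nat_lit 5) (nat_lit 516) (nat_lit 499) (nat_lit 185)))) (XT.nd (nat_lit 156) (nat_lit 608) (nat_lit 0) (XT.nd (nat_lit 78) (nat_lit 0) (nat_lit 0) (XT.lf (nat_lit 0) (nat_lit 1780895402) (nat_lit 760) (nat_lit 24726747016) (nat_lit 836) (nat_lit 73613346316) (nat_lit 274) (nat_lit 5) (nat_lit 284) (nat_lit 5) (nat_lit 285) (nat_lit 5) (nat_lit 517) (nat_lit 499) (nat_lit 184)) (XT.lf (nat_lit 0) (nat_lit 35833511830) (nat_lit 836) (nat_lit 45128743558) (nat_lit 76) (nat_lit 20786161040) (nat_lit 274) (nat_lit 5) (nat_lit 285) (nat_lit 5) (nat_lit 275) (nat_lit 5) (nat_lit 518) (nat_lit 499) (nat_lit 183))) (XT.nd (nat_lit 78) (nat_lit 0) (nat_lit 0) (XT.lf (nat_lit 0) (nat_lit 9621625279) (nat_lit 608) (nat_lit 36154566626) (nat_lit 684) (nat_lit 57638364047) (nat_lit 266) (nat_lit 5) (nat_lit 274) (nat_lit 5) (nat_lit 275) (nat_lit 5) (nat_lit 519)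 (nat_lit 499) (nat_lit 182)) (XT.lf (nat_lit 0) (nat_lit 56573208928) (nat_lit 684) (nat_lit 38278281243) (nat_lit 76) (nat_lit 10262507827) (nat_lit 266) (nat_lit 5) (nat_lit 275) (nat_lit 5) (nat_lit 267) (nat_lit 5) (nat_lit 520) (nat_lit 499) (nat_lit 181))))) (XT.nd (nat_lit 312) (nat_lit 1140) (nat_lit 0) (XT.nd (nat_lit 156) (nat_lit 532) (nat_lit 0) (XT.nd (nat_lit 78) (nat_lit 0) (nat_lit 0) (XT.lf (nat_lit 0) (nat_lit 18912642577) (nat_lit 608) (nat_lit 49320999640) (nat_lit 684) (nat_lit 38614595950) (nat_lit 258) (nat_lit 5) (nat_lit 266) (nat_lit 5) (nat_lit 267) (nat_lit 5) (nat_lit 521) (nat_lit 499) (nat_lit 180)) (XT.lf (nat_lit 0) (nat_lit 78603710965) (nat_lit 608) (nat_lit 2026458152) (nat_lit 684) (nat_lit 27992748035) (nat_lit 258) (nat_lit 5) (nat_lit 266) (nat_lit 5) (nat_lit 267) (nat_lit 5) (nat_lit 522) (nat_lit 499) (nat_lit 179))) (XT.nd (nat_lit 78) (nat_lit 0) (nat_lit 0) (XT.lf (nat_lit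 0) (nat_lit 29766492556) (nat_lit 532) (nat_lit 64366768734) (nat_lit 608) (nat_lit 16295535166) (nat_lit 251) (nat_lit 5) (nat_lit 258) (nat_lit 5) (nat_lit 259) (nat_lit 5) (nat_lit 523) (nat_lit 499) (nat_lit 178)) (XT.lf (nat_lit 0) (nat_lit 91940415170) (nat_lit 532) (nat_lit 16423790738) (nat_lit 608) (nat_lit 3914963470) (nat_lit 251) (nat_lit 5) (nat_lit 258) (nat_lit 5) (nat_lit 259) (nat_lit 5) (nat_lit 524) (nat_lit 499) (nat_lit 177)))) (XT.nd (nat_lit 156) (nat_lit 532) (nat_lit 0) (XT.nd (nat_lit 78) (nat_lit 0) (nat_lit 0) (XT.lf (nat_lit 0) (nat_lit 9394957079) (nat_lit 608) (nat_lit 71952535431) (nat_lit 76) (nat_lit 32813101383) (nat_lit 243) (nat_lit 5) (nat_lit 251) (nat_lit 5) (nat_lit 244) (nat_lit 5) (nat_lit 525) (nat_lit 499) (nat_lit 176)) (XT.lf (nat_lit 0) (nat_lit 23395281689) (nat_lit 608) (nat_lit 9247757144) (nat_lit 76) (nat_lit 83443165677) (nat_lit 243) (nat_lit 5) (nat_lit 251)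 (nat_lit 5) (nat_lit 244) (nat_lit 5) (nat_lit 526) (nat_lit 499) (nat_lit 175))) (XT.nd (nat_lit 60372) (nat_lit 0) (nat_lit 4332) (XT.lf (nat_lit 0) (nat_lit 38531726877) (nat_lit 608) (nat_lit 61787868559) (nat_lit 76) (nat_lit 17728504712) (nat_lit 236) (nat_lit 5) (nat_lit 244) (nat_lit 5) (nat_lit 237) (nat_lit 5) (nat_lit 527) (nat_lit 499) (nat_lit 174)) (XT.lf (nat_lit 0) (nat_lit 19289446767) (nat_lit 1292) (nat_lit 9874388460) (nat_lit 1292) (nat_lit 9874388460) (nat_lit 293) (nat_lit 3) (nat_lit 310) (nat_lit 3) (nat_lit 310) (nat_lit 5) (nat_lit 500) (nat_lit 500) (nat_lit 200)))))) (XT.nd (nat_lit 624) (nat_lit 760) (nat_lit 0) (XT.nd (nat_lit 312) (nat_lit 0) (nat_lit 152) (XT.nd (nat_lit 156) (nat_lit 0) (nat_lit 76) (XT.nd (nat_lit 78) (nat_lit 0) (nat_lit 76) (XT.lf (nat_lit 76) (nat_lit 19193427598) (nat_lit 0) (nat_lit 20159309006) (nat_lit 1292) (nat_lit 39889001212) (nat_lit 294) (nat_lit 5)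 (nat_lit 293) (nat_lit 3) (nat_lit 310) (nat_lit 5) (nat_lit 501) (nat_lit 500) (nat_lit 199)) (XT.lf (nat_lit 0) (nat_lit 40534898102) (nat_lit 1216) (nat_lit 20913603968) (nat_lit 1292) (nat_lit 18981931860) (nat_lit 294) (nat_lit 5) (nat_lit 310) (nat_lit 5) (nat_lit 311) (nat_lit 5) (nat_lit 502) (nat_lit 500) (nat_lit 198))) (XT.nd (nat_lit 78) (nat_lit 0) (nat_lit 76) (XT.lf (nat_lit 76) (nat_lit 19577344560) (nat_lit 0) (nat_lit 22562562300) (nat_lit 1292) (nat_lit 39503262654) (nat_lit 295) (nat_lit 5) (nat_lit 294) (nat_lit 5) (nat_lit 311) (nat_lit 5) (nat_lit 503) (nat_lit 500) (nat_lit 197)) (XT.lf (nat_lit 0) (nat_lit 44174074521) (nat_lit 1216) (nat_lit 21344674362) (nat_lit 1292) (nat_lit 17362108077) (nat_lit 295) (nat_lit 5) (nat_lit 311) (nat_lit 5) (nat_lit 312) (nat_lit 5) (nat_lit 504) (nat_lit 500) (nat_lit 196)))) (XT.nd (nat_lit 156) (nat_lit 0) (nat_lit 76) (XT.nd (nat_lit 78) (nat_lit 0)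 (nat_lit 76) (XT.lf (nat_lit 76) (nat_lit 20779980625) (nat_lit 0) (nat_lit 25912046758) (nat_lit 1292) (nat_lit 37450964893) (nat_lit 296) (nat_lit 5) (nat_lit 295) (nat_lit 5) (nat_lit 312) (nat_lit 5) (nat_lit 505) (nat_lit 500) (nat_lit 195)) (XT.lf (nat_lit 0) (nat_lit 49645884244) (nat_lit 1216) (nat_lit 20976043518) (nat_lit 1292) (nat_lit 14810252979) (nat_lit 296) (nat_lit 5) (nat_lit 312) (nat_lit 5) (nat_lit 313) (nat_lit 5) (nat_lit 506) (nat_lit 500) (nat_lit 194))) (XT.nd (nat_lit 78) (nat_lit 0) (nat_lit 76) (XT.lf (nat_lit 76) (nat_lit 22872061018) (nat_lit 0) (nat_lit 30292350642) (nat_lit 1292) (nat_lit 33581351604) (nat_lit 297) (nat_lit 5) (nat_lit 296) (nat_lit 5) (nat_lit 313) (nat_lit 5) (nat_lit 507) (nat_lit 500) (nat_lit 193)) (XT.lf (nat_lit 0) (nat_lit 57110172257) (nat_lit 1216) (nat_lit 19737256560) (nat_lit 1292) (nat_lit 11241674174) (nat_lit 297) (nat_lit 5) (nat_lit 313) (nat_lit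 5) (nat_lit 314) (nat_lit 5) (nat_lit 508) (nat_lit 500) (nat_lit 192))))) (XT.nd (nat_lit 312) (nat_lit 1064) (nat_lit 0) (XT.nd (nat_lit 156) (nat_lit 0) (nat_lit 76) (XT.nd (nat_lit 78) (nat_lit 0) (nat_lit 76) (XT.lf (nat_lit 76) (nat_lit 25929091812) (nat_lit 0) (nat_lit 35794043748) (nat_lit 1292) (nat_lit 27733142500) (nat_lit 298) (nat_lit 5) (nat_lit 297) (nat_lit 5) (nat_lit 314) (nat_lit 5) (nat_lit 509) (nat_lit 500) (nat_lit 191)) (XT.lf (nat_lit 0) (nat_lit 66737831567) (nat_lit 1216) (nat_lit 17553077427) (nat_lit 1292) (nat_lit 6565659119) (nat_lit 298) (nat_lit 5) (nat_lit 314) (nat_lit 5) (nat_lit 315) (nat_lit 5) (nat_lit 510) (nat_lit 500) (nat_lit 190))) (XT.nd (nat_lit 78) (nat_lit 0) (nat_lit 76) (XT.lf (nat_lit 76) (nat_lit 30031645839) (nat_lit 0) (nat_lit 42514079264) (nat_lit 1292) (nat_lit 19733859109) (nat_lit 299) (nat_lit 5) (nat_lit 298) (nat_lit 5) (nat_lit 315) (nat_lit 5) (nat_lit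 511) (nat_lit 500) (nat_lit 189)) (XT.lf (nat_lit 0) (nat_lit 78711508235) (nat_lit 1216) (nat_lit 14343203027) (nat_lit 1292) (nat_lit 685069991) (nat_lit 299) (nat_lit 5) (nat_lit 315) (nat_lit 5) (nat_lit 316) (nat_lit 5) (nat_lit 512) (nat_lit 500) (nat_lit 188)))) (XT.nd (nat_lit 156) (nat_lit 1216) (nat_lit 0) (XT.nd (nat_lit 78) (nat_lit 0) (nat_lit 0) (XT.lf (nat_lit 76) (nat_lit 35265664336) (nat_lit 0) (nat_lit 50556221819) (nat_lit 1292) (nat_lit 9399109455) (nat_lit 300) (nat_lit 5) (nat_lit 299) (nat_lit 5) (nat_lit 316) (nat_lit 5) (nat_lit 513) (nat_lit 500) (nat_lit 187)) (XT.lf (nat_lit 76) (nat_lit 86656582963) (nat_lit 0) (nat_lit 6633531974) (nat_lit 1292) (nat_lit 3452195314) (nat_lit 300) (nat_lit 5) (nat_lit 299) (nat_lit 5) (nat_lit 316) (nat_lit 5) (nat_lit 514) (nat_lit 500) (nat_lit 186))) (XT.nd (nat_lit 78) (nat_lit 0) (nat_lit 0) (XT.lf (nat_lit 0) (nat_lit 3400494314) (nat_lit 1292)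 (nat_lit 56596670819) (nat_lit 1368) (nat_lit 38287942454) (nat_lit 283) (nat_lit 5) (nat_lit 300) (nat_lit 5) (nat_lit 301) (nat_lit 5) (nat_lit 515) (nat_lit 500) (nat_lit 185)) (XT.lf (nat_lit 0) (nat_lit 10557625799) (nat_lit 1292) (nat_lit 4749669440) (nat_lit 1368) (nat_lit 84560820829) (nat_lit 283) (nat_lit 5) (nat_lit 300) (nat_lit 5) (nat_lit 301) (nat_lit 5) (nat_lit 516) (nat_lit 500) (nat_lit 184))))))))
noncomputable def xc252 : XT := (XT.nd (nat_lit 62712) (nat_lit 0) (nat_lit 608) (XT.nd (nat_lit 61542) (nat_lit 0) (nat_lit 2356) (XT.nd (nat_lit 546) (nat_lit 1140) (nat_lit 0) (XT.nd (nat_lit 234) (nat_lit 1216) (nat_lit 0) (XT.nd (nat_lit 78) (nat_lit 760) (nat_lit 0) (XT.lf (nat_lit 0) (nat_lit 18706232728) (nat_lit 1292) (nat_lit 52163580391) (nat_lit 76) (nat_lit 30605498876) (nat_lit 284) (nat_lit 5) (nat_lit 301) (nat_lit 5) (nat_lit 285) (nat_lit 5) (nat_lit 517) (nat_lit 500) (nat_lit 183))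 (XT.nd (nat_lit 78) (nat_lit 0) (nat_lit 0) (XT.lf (nat_lit 0) (nat_lit 1846817735) (nat_lit 760) (nat_lit 25469955929) (nat_lit 836) (nat_lit 75807425897) (nat_lit 274) (nat_lit 5) (nat_lit 284) (nat_lit 5) (nat_lit 285) (nat_lit 5) (nat_lit 518) (nat_lit 500) (nat_lit 182)) (XT.lf (nat_lit 0) (nat_lit 36922001120) (nat_lit 836) (nat_lit 46470054577) (nat_lit 76) (nat_lit 21408406982) (nat_lit 274) (nat_lit 5) (nat_lit 285) (nat_lit 5) (nat_lit 275) (nat_lit 5) (nat_lit 519) (nat_lit 500) (nat_lit 181)))) (XT.nd (nat_lit 156) (nat_lit 608) (nat_lit 0) (XT.nd (nat_lit 78) (nat_lit 0) (nat_lit 0) (XT.lf (nat_lit 0) (nat_lit 9922702274) (nat_lit 608) (nat_lit 37239986055) (nat_lit 684) (nat_lit 59353906307) (nat_lit 266) (nat_lit 5) (nat_lit 274) (nat_lit 5) (nat_lit 275) (nat_lit 5) (nat_lit 520) (nat_lit 500) (nat_lit 180)) (XT.lf (nat_lit 0) (nat_lit 58283223785) (nat_lit 684) (nat_lit 39414169727) (nat_lit 76)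 (nat_lit 10569638244) (nat_lit 266) (nat_lit 5) (nat_lit 275) (nat_lit 5) (nat_lit 267) (nat_lit 5) (nat_lit 521) (nat_lit 500) (nat_lit 179))) (XT.nd (nat_lit 78) (nat_lit 0) (nat_lit 0) (XT.lf (nat_lit 0) (nat_lit 19492359651) (nat_lit 608) (nat_lit 50800855662) (nat_lit 684) (nat_lit 39760091505) (nat_lit 258) (nat_lit 5) (nat_lit 266) (nat_lit 5) (nat_lit 267) (nat_lit 5) (nat_lit 522) (nat_lit 500) (nat_lit 178)) (XT.lf (nat_lit 0) (nat_lit 80973800738) (nat_lit 608) (nat_lit 2087471346) (nat_lit 684) (nat_lit 28819965115) (nat_lit 258) (nat_lit 5) (nat_lit 266) (nat_lit 5) (nat_lit 267) (nat_lit 5) (nat_lit 523) (nat_lit 500) (nat_lit 177))))) (XT.nd (nat_lit 60684) (nat_lit 0) (nat_lit 3800) (XT.nd (nat_lit 156) (nat_lit 608) (nat_lit 0) (XT.nd (nat_lit 78) (nat_lit 0) (nat_lit 0) (XT.lf (nat_lit 0) (nat_lit 30671714296) (nat_lit 532) (nat_lit 66297502933) (nat_lit 608) (nat_lit 16772082891) (nat_lit 251)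 (nat_lit 5) (nat_lit 258) (nat_lit 5) (nat_lit 259) (nat_lit 5) (nat_lit 524) (nat_lit 500) (nat_lit 176)) (XT.lf (nat_lit 0) (nat_lit 94710498463) (nat_lit 532) (nat_lit 16916243428) (nat_lit 608) (nat_lit 4020452831) (nat_lit 251) (nat_lit 5) (nat_lit 258) (nat_lit 5) (nat_lit 259) (nat_lit 5) (nat_lit 525) (nat_lit 500) (nat_lit 175))) (XT.nd (nat_lit 78) (nat_lit 0) (nat_lit 0) (XT.lf (nat_lit 0) (nat_lit 9688310330) (nat_lit 608) (nat_lit 74098782888) (nat_lit 76) (nat_lit 33797971994) (nat_lit 243) (nat_lit 5) (nat_lit 251) (nat_lit 5) (nat_lit 244) (nat_lit 5) (nat_lit 526) (nat_lit 500) (nat_lit 174)) (XT.lf (nat_lit 0) (nat_lit 24108309595) (nat_lit 608) (nat_lit 9513220338) (nat_lit 76) (nat_lit 85946924307) (nat_lit 243) (nat_lit 5) (nat_lit 251) (nat_lit 5) (nat_lit 244) (nat_lit 5) (nat_lit 527) (nat_lit 500) (nat_lit 173)))) (XT.nd (nat_lit 156) (nat_lit 0) (nat_lit 76) (XT.nd (nat_lit 78) (nat_lit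 0) (nat_lit 0) (XT.lf (nat_lit 0) (nat_lit 19878688392) (nat_lit 1292) (nat_lit 10165181896) (nat_lit 1292) (nat_lit 10165181896) (nat_lit 293) (nat_lit 3) (nat_lit 310) (nat_lit 3) (nat_lit 310) (nat_lit 5) (nat_lit 501) (nat_lit 501) (nat_lit 198)) (XT.lf (nat_lit 76) (nat_lit 19780000230) (nat_lit 0) (nat_lit 20773923399) (nat_lit 1292) (nat_lit 41064445323) (nat_lit 294) (nat_lit 5) (nat_lit 293) (nat_lit 3) (nat_lit 310) (nat_lit 5) (nat_lit 502) (nat_lit 501) (nat_lit 197))) (XT.nd (nat_lit 78) (nat_lit 0) (nat_lit 0) (XT.lf (nat_lit 0) (nat_lit 41770858041) (nat_lit 1216) (nat_lit 21529861268) (nat_lit 1292) (nat_lit 19542027482) (nat_lit 294) (nat_lit 5) (nat_lit 310) (nat_lit 5) (nat_lit 311) (nat_lit 5) (nat_lit 503) (nat_lit 501) (nat_lit 196)) (XT.lf (nat_lit 76) (nat_lit 20175706394) (nat_lit 0) (nat_lit 23247836815) (nat_lit 1292) (nat_lit 40668335529) (nat_lit 295) (nat_lit 5) (nat_lit 294) (nat_lit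 5) (nat_lit 311) (nat_lit 5) (nat_lit 504) (nat_lit 501) (nat_lit 195)))))) (XT.nd (nat_lit 546) (nat_lit 1596) (nat_lit 0) (XT.nd (nat_lit 234) (nat_lit 0) (nat_lit 76) (XT.nd (nat_lit 78) (nat_lit 0) (nat_lit 0) (XT.lf (nat_lit 0) (nat_lit 45518091339) (nat_lit 1216) (nat_lit 21973647523) (nat_lit 1292) (nat_lit 17874977360) (nat_lit 295) (nat_lit 5) (nat_lit 311) (nat_lit 5) (nat_lit 312) (nat_lit 5) (nat_lit 505) (nat_lit 501) (nat_lit 194)) (XT.nd (nat_lit 78) (nat_lit 0) (nat_lit 76) (XT.lf (nat_lit 76) (nat_lit 21414635672) (nat_lit 0) (nat_lit 26696507897) (nat_lit 1292) (nat_lit 38555585283) (nat_lit 296) (nat_lit 5) (nat_lit 295) (nat_lit 5) (nat_lit 312) (nat_lit 5) (nat_lit 506) (nat_lit 501) (nat_lit 193)) (XT.lf (nat_lit 0) (nat_lit 51153015254) (nat_lit 1216) (nat_lit 21593793690) (nat_lit 1292) (nat_lit 15247802126) (nat_lit 296) (nat_lit 5) (nat_lit 312) (nat_lit 5) (nat_lit 313) (nat_lit 5) (nat_lit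 507) (nat_lit 501) (nat_lit 192)))) (XT.nd (nat_lit 156) (nat_lit 0) (nat_lit 76) (XT.nd (nat_lit 78) (nat_lit 0) (nat_lit 76) (XT.lf (nat_lit 76) (nat_lit 23569640932) (nat_lit 0) (nat_lit 31207050197) (nat_lit 1292) (nat_lit 34570922233) (nat_lit 297) (nat_lit 5) (nat_lit 296) (nat_lit 5) (nat_lit 313) (nat_lit 5) (nat_lit 508) (nat_lit 501) (nat_lit 191)) (XT.lf (nat_lit 0) (nat_lit 58840263955) (nat_lit 1216) (nat_lit 20317725833) (nat_lit 1292) (nat_lit 11573280381) (nat_lit 297) (nat_lit 5) (nat_lit 313) (nat_lit 5) (nat_lit 314) (nat_lit 5) (nat_lit 509) (nat_lit 501) (nat_lit 190))) (XT.nd (nat_lit 78) (nat_lit 0) (nat_lit 76) (XT.lf (nat_lit 76) (nat_lit 26718498791) (nat_lit 0) (nat_lit 36872739312) (nat_lit 1292) (nat_lit 28548233795) (nat_lit 298) (nat_lit 5) (nat_lit 297) (nat_lit 5) (nat_lit 314) (nat_lit 5) (nat_lit 510) (nat_lit 501) (nat_lit 189)) (XT.lf (nat_lit 0) (nat_lit 68755851583) (nat_lit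 1216) (nat_lit 18067945883) (nat_lit 1292) (nat_lit 6757988954) (nat_lit 298) (nat_lit 5) (nat_lit 314) (nat_lit 5) (nat_lit 315) (nat_lit 5) (nat_lit 511) (nat_lit 501) (nat_lit 188))))) (XT.nd (nat_lit 312) (nat_lit 1824) (nat_lit 0) (XT.nd (nat_lit 156) (nat_lit 0) (nat_lit 76) (XT.nd (nat_lit 78) (nat_lit 0) (nat_lit 76) (XT.lf (nat_lit 76) (nat_lit 30944204141) (nat_lit 0) (nat_lit 43793426704) (nat_lit 1292) (nat_lit 20309872753) (nat_lit 299) (nat_lit 5) (nat_lit 298) (nat_lit 5) (nat_lit 315) (nat_lit 5) (nat_lit 512) (nat_lit 501) (nat_lit 187)) (XT.lf (nat_lit 0) (nat_lit 81087898394) (nat_lit 1216) (nat_lit 14761737179) (nat_lit 1292) (nat_lit 701885712) (nat_lit 299) (nat_lit 5) (nat_lit 315) (nat_lit 5) (nat_lit 316) (nat_lit 5) (nat_lit 513) (nat_lit 501) (nat_lit 186))) (XT.nd (nat_lit 78) (nat_lit 0) (nat_lit 0) (XT.lf (nat_lit 76) (nat_lit 36335280892) (nat_lit 0) (nat_lit 52075980512) (nat_lit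 1292) (nat_lit 9665920514) (nat_lit 300) (nat_lit 5) (nat_lit 299) (nat_lit 5) (nat_lit 316) (nat_lit 5) (nat_lit 514) (nat_lit 501) (nat_lit 185)) (XT.lf (nat_lit 76) (nat_lit 89267587856) (nat_lit 0) (nat_lit 6835520495) (nat_lit 1292) (nat_lit 3541040567) (nat_lit 300) (nat_lit 5) (nat_lit 299) (nat_lit 5) (nat_lit 316) (nat_lit 5) (nat_lit 515) (nat_lit 501) (nat_lit 184)))) (XT.nd (nat_lit 156) (nat_lit 684) (nat_lit 0) (XT.nd (nat_lit 78) (nat_lit 0) (nat_lit 0) (XT.lf (nat_lit 0) (nat_lit 3516607106) (nat_lit 1292) (nat_lit 58282637183) (nat_lit 1368) (nat_lit 39433991756) (nat_lit 283) (nat_lit 5) (nat_lit 300) (nat_lit 5) (nat_lit 301) (nat_lit 5) (nat_lit 516) (nat_lit 501) (nat_lit 183)) (XT.lf (nat_lit 0) (nat_lit 10888041915) (nat_lit 1292) (nat_lit 4880573348) (nat_lit 1368) (nat_lit 87095131890) (nat_lit 283) (nat_lit 5) (nat_lit 300) (nat_lit 5) (nat_lit 301) (nat_lit 5) (nat_lit 517) (nat_lit 501)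 (nat_lit 182))) (XT.nd (nat_lit 78) (nat_lit 760) (nat_lit 0) (XT.lf (nat_lit 0) (nat_lit 19280800156) (nat_lit 1292) (nat_lit 53716593007) (nat_lit 76) (nat_lit 31521775054) (nat_lit 284) (nat_lit 5) (nat_lit 301) (nat_lit 5) (nat_lit 285) (nat_lit 5) (nat_lit 518) (nat_lit 501) (nat_lit 181)) (XT.lf (nat_lit 0) (nat_lit 1914000448) (nat_lit 760) (nat_lit 26235380370) (nat_lit 836) (nat_lit 78068149938) (nat_lit 274) (nat_lit 5) (nat_lit 284) (nat_lit 5) (nat_lit 285) (nat_lit 5) (nat_lit 519) (nat_lit 501) (nat_lit 180))))))) (XT.nd (nat_lit 61698) (nat_lit 0) (nat_lit 532) (XT.nd (nat_lit 61074) (nat_lit 0) (nat_lit 3192) (XT.nd (nat_lit 234) (nat_lit 1140) (nat_lit 0) (XT.nd (nat_lit 78) (nat_lit 608) (nat_lit 0) (XT.lf (nat_lit 0) (nat_lit 38042371056) (nat_lit 836) (nat_lit 47852325421) (nat_lit 76) (nat_lit 22049397160) (nat_lit 274) (nat_lit 5) (nat_lit 285) (nat_lit 5) (nat_lit 275) (nat_lit 5) (nat_lit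 520) (nat_lit 501) (nat_lit 179)) (XT.nd (nat_lit 78) (nat_lit 0) (nat_lit 0) (XT.lf (nat_lit 0) (nat_lit 10232098147) (nat_lit 608) (nat_lit 38357923153) (nat_lit 684) (nat_lit 61121696028) (nat_lit 266) (nat_lit 5) (nat_lit 274) (nat_lit 5) (nat_lit 275) (nat_lit 5) (nat_lit 521) (nat_lit 501) (nat_lit 178)) (XT.lf (nat_lit 0) (nat_lit 60043803247) (nat_lit 684) (nat_lit 40584850117) (nat_lit 76) (nat_lit 10886025328) (nat_lit 266) (nat_lit 5) (nat_lit 275) (nat_lit 5) (nat_lit 267) (nat_lit 5) (nat_lit 522) (nat_lit 501) (nat_lit 177)))) (XT.nd (nat_lit 156) (nat_lit 532) (nat_lit 0) (XT.nd (nat_lit 78) (nat_lit 0) (nat_lit 0) (XT.lf (nat_lit 0) (nat_lit 20088759998) (nat_lit 608) (nat_lit 52325094389) (nat_lit 684) (nat_lit 40940694870) (nat_lit 258) (nat_lit 5) (nat_lit 266) (nat_lit 5) (nat_lit 267) (nat_lit 5) (nat_lit 523) (nat_lit 501) (nat_lit 176)) (XT.lf (nat_lit 0) (nat_lit 83414305592) (nat_lit 608)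 (nat_lit 2150302338) (nat_lit 684) (nat_lit 29672720009) (nat_lit 258) (nat_lit 5) (nat_lit 266) (nat_lit 5) (nat_lit 267) (nat_lit 5) (nat_lit 524) (nat_lit 501) (nat_lit 175))) (XT.nd (nat_lit 78) (nat_lit 0) (nat_lit 0) (XT.lf (nat_lit 0) (nat_lit 31603390810) (nat_lit 532) (nat_lit 68286174592) (nat_lit 608) (nat_lit 17263634170) (nat_lit 251) (nat_lit 5) (nat_lit 258) (nat_lit 5) (nat_lit 259) (nat_lit 5) (nat_lit 525) (nat_lit 501) (nat_lit 174)) (XT.lf (nat_lit 0) (nat_lit 97563002820) (nat_lit 532) (nat_lit 17423484683) (nat_lit 608) (nat_lit 4129793398) (nat_lit 251) (nat_lit 5) (nat_lit 258) (nat_lit 5) (nat_lit 259) (nat_lit 5) (nat_lit 526) (nat_lit 501) (nat_lit 173))))) (XT.nd (nat_lit 312) (nat_lit 0) (nat_lit 152) (XT.nd (nat_lit 156) (nat_lit 0) (nat_lit 76) (XT.nd (nat_lit 78) (nat_lit 0) (nat_lit 0) (XT.lf (nat_lit 0) (nat_lit 20485001180) (nat_lit 1292) (nat_lit 10465011311) (nat_lit 1292) (nat_lit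 10465011311) (nat_lit 293) (nat_lit 3) (nat_lit 310) (nat_lit 3) (nat_lit 310) (nat_lit 5) (nat_lit 502) (nat_lit 502) (nat_lit 196)) (XT.lf (nat_lit 76) (nat_lit 20383551811) (nat_lit 0) (nat_lit 21406411647) (nat_lit 1292) (nat_lit 42276371213) (nat_lit 294) (nat_lit 5) (nat_lit 293) (nat_lit 3) (nat_lit 310) (nat_lit 5) (nat_lit 503) (nat_lit 502) (nat_lit 195))) (XT.nd (nat_lit 78) (nat_lit 0) (nat_lit 0) (XT.lf (nat_lit 0) (nat_lit 43042753691) (nat_lit 1216) (nat_lit 22165246390) (nat_lit 1292) (nat_lit 20119463409) (nat_lit 294) (nat_lit 5) (nat_lit 310) (nat_lit 5) (nat_lit 311) (nat_lit 5) (nat_lit 504) (nat_lit 502) (nat_lit 194)) (XT.lf (nat_lit 76) (nat_lit 20791385256) (nat_lit 0) (nat_lit 23953187507) (nat_lit 1292) (nat_lit 41869510108) (nat_lit 295) (nat_lit 5) (nat_lit 294) (nat_lit 5) (nat_lit 311) (nat_lit 5) (nat_lit 505) (nat_lit 502) (nat_lit 193)))) (XT.nd (nat_lit 156) (nat_lit 0) (nat_lit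 76) (XT.nd (nat_lit 78) (nat_lit 0) (nat_lit 0) (XT.lf (nat_lit 0) (nat_lit 46901349776) (nat_lit 1216) (nat_lit 22622142396) (nat_lit 1292) (nat_lit 18403691607) (nat_lit 295) (nat_lit 5) (nat_lit 311) (nat_lit 5) (nat_lit 312) (nat_lit 5) (nat_lit 506) (nat_lit 502) (nat_lit 192)) (XT.lf (nat_lit 76) (nat_lit 22067684250) (nat_lit 0) (nat_lit 27504095316) (nat_lit 1292) (nat_lit 39694429713) (nat_lit 296) (nat_lit 5) (nat_lit 295) (nat_lit 5) (nat_lit 312) (nat_lit 5) (nat_lit 507) (nat_lit 502) (nat_lit 191))) (XT.nd (nat_lit 78) (nat_lit 0) (nat_lit 0) (XT.lf (nat_lit 0) (nat_lit 52704341014) (nat_lit 1216) (nat_lit 22230738301) (nat_lit 1292) (nat_lit 15698865711) (nat_lit 296) (nat_lit 5) (nat_lit 312) (nat_lit 5) (nat_lit 313) (nat_lit 5) (nat_lit 508) (nat_lit 502) (nat_lit 190)) (XT.lf (nat_lit 76) (nat_lit 24287492798) (nat_lit 0) (nat_lit 32148850388) (nat_lit 1292) (nat_lit 35591205787) (nat_lit 297)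 (nat_lit 5) (nat_lit 296) (nat_lit 5) (nat_lit 313) (nat_lit 5) (nat_lit 509) (nat_lit 502) (nat_lit 189)))))) (XT.nd (nat_lit 546) (nat_lit 2964) (nat_lit 0) (XT.nd (nat_lit 234) (nat_lit 0) (nat_lit 76) (XT.nd (nat_lit 78) (nat_lit 0) (nat_lit 0) (XT.lf (nat_lit 0) (nat_lit 60621294787) (nat_lit 1216) (nat_lit 20916277850) (nat_lit 1292) (nat_lit 11915158764) (nat_lit 297) (nat_lit 5) (nat_lit 313) (nat_lit 5) (nat_lit 314) (nat_lit 5) (nat_lit 510) (nat_lit 502) (nat_lit 188)) (XT.nd (nat_lit 78) (nat_lit 0) (nat_lit 76) (XT.lf (nat_lit 76) (nat_lit 27530925867) (nat_lit 0) (nat_lit 37983515941) (nat_lit 1292) (nat_lit 29388748130) (nat_lit 298) (nat_lit 5) (nat_lit 297) (nat_lit 5) (nat_lit 314) (nat_lit 5) (nat_lit 511) (nat_lit 502) (nat_lit 187)) (XT.lf (nat_lit 0) (nat_lit 70833500331) (nat_lit 1216) (nat_lit 18598933391) (nat_lit 1292) (nat_lit 6956355035) (nat_lit 298) (nat_lit 5) (nat_lit 314) (nat_lit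 5) (nat_lit 315) (nat_lit 5) (nat_lit 512) (nat_lit 502) (nat_lit 186)))) (XT.nd (nat_lit 156) (nat_lit 0) (nat_lit 76) (XT.nd (nat_lit 78) (nat_lit 0) (nat_lit 76) (XT.lf (nat_lit 76) (nat_lit 31883472793) (nat_lit 0) (nat_lit 45110929253) (nat_lit 1292) (nat_lit 20904085393) (nat_lit 299) (nat_lit 5) (nat_lit 298) (nat_lit 5) (nat_lit 315) (nat_lit 5) (nat_lit 513) (nat_lit 502) (nat_lit 185)) (XT.lf (nat_lit 0) (nat_lit 83534716618) (nat_lit 1216) (nat_lit 15193502538) (nat_lit 1292) (nat_lit 719420388) (nat_lit 299) (nat_lit 5) (nat_lit 315) (nat_lit 5) (nat_lit 316) (nat_lit 5) (nat_lit 514) (nat_lit 502) (nat_lit 184))) (XT.nd (nat_lit 78) (nat_lit 0) (nat_lit 0) (XT.lf (nat_lit 76) (nat_lit 37436317381) (nat_lit 0) (nat_lit 53641155619) (nat_lit 1292) (nat_lit 9941606280) (nat_lit 300) (nat_lit 5) (nat_lit 299) (nat_lit 5) (nat_lit 316) (nat_lit 5) (nat_lit 515) (nat_lit 502) (nat_lit 183)) (XT.lf (nat_lit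 76) (nat_lit 91956273804) (nat_lit 0) (nat_lit 7043397461) (nat_lit 1292) (nat_lit 3633396201) (nat_lit 300) (nat_lit 5) (nat_lit 299) (nat_lit 5) (nat_lit 316) (nat_lit 5) (nat_lit 516) (nat_lit 502) (nat_lit 182))))) (XT.nd (nat_lit 312) (nat_lit 1216) (nat_lit 0) (XT.nd (nat_lit 156) (nat_lit 684) (nat_lit 0) (XT.nd (nat_lit 78) (nat_lit 0) (nat_lit 0) (XT.lf (nat_lit 0) (nat_lit 3635394001) (nat_lit 1292) (nat_lit 60019867584) (nat_lit 1368) (nat_lit 40614571156) (nat_lit 283) (nat_lit 5) (nat_lit 300) (nat_lit 5) (nat_lit 301) (nat_lit 5) (nat_lit 517) (nat_lit 502) (nat_lit 181)) (XT.lf (nat_lit 0) (nat_lit 11227584806) (nat_lit 1292) (nat_lit 5016069467) (nat_lit 1368) (nat_lit 89705616572) (nat_lit 283) (nat_lit 5) (nat_lit 300) (nat_lit 5) (nat_lit 301) (nat_lit 5) (nat_lit 518) (nat_lit 502) (nat_lit 180))) (XT.nd (nat_lit 78) (nat_lit 760) (nat_lit 0) (XT.lf (nat_lit 0) (nat_lit 19871836515) (nat_lit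 1292) (nat_lit 55316878811) (nat_lit 76) (nat_lit 32465647942) (nat_lit 284) (nat_lit 5) (nat_lit 301) (nat_lit 5) (nat_lit 285) (nat_lit 5) (nat_lit 519) (nat_lit 502) (nat_lit 179)) (XT.lf (nat_lit 0) (nat_lit 1982522526) (nat_lit 760) (nat_lit 27023691440) (nat_lit 836) (nat_lit 80397470582) (nat_lit 274) (nat_lit 5) (nat_lit 284) (nat_lit 5) (nat_lit 285) (nat_lit 5) (nat_lit 520) (nat_lit 502) (nat_lit 178)))) (XT.nd (nat_lit 156) (nat_lit 608) (nat_lit 0) (XT.nd (nat_lit 78) (nat_lit 608) (nat_lit 0) (XT.lf (nat_lit 0) (nat_lit 39195622490) (nat_lit 836) (nat_lit 49276743526) (nat_lit 76) (nat_lit 22709689489) (nat_lit 274) (nat_lit 5) (nat_lit 285) (nat_lit 5) (nat_lit 275) (nat_lit 5) (nat_lit 521) (nat_lit 502) (nat_lit 177)) (XT.lf (nat_lit 0) (nat_lit 10550103419) (nat_lit 608) (nat_lit 39509356027) (nat_lit 684) (nat_lit 62943255789) (nat_lit 266) (nat_lit 5) (nat_lit 274) (nat_lit 5) (nat_lit 275) (nat_lit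 5) (nat_lit 522) (nat_lit 502) (nat_lit 176))) (XT.nd (nat_lit 78) (nat_lit 608) (nat_lit 0) (XT.lf (nat_lit 0) (nat_lit 61856506494) (nat_lit 684) (nat_lit 41791325114) (nat_lit 76) (nat_lit 11211944327) (nat_lit 266) (nat_lit 5) (nat_lit 275) (nat_lit 5) (nat_lit 267) (nat_lit 5) (nat_lit 523) (nat_lit 502) (nat_lit 175)) (XT.lf (nat_lit 0) (nat_lit 20702384770) (nat_lit 608) (nat_lit 53895048048) (nat_lit 684) (nat_lit 42157416630) (nat_lit 258) (nat_lit 5) (nat_lit 266) (nat_lit 5) (nat_lit 267) (nat_lit 5) (nat_lit 524) (nat_lit 502) (nat_lit 174))))))))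
noncomputable def xc253 : XT := (XT.nd (nat_lit 123708) (nat_lit 0) (nat_lit 1140) (XT.nd (nat_lit 61776) (nat_lit 0) (nat_lit 532) (XT.nd (nat_lit 61152) (nat_lit 0) (nat_lit 3344) (XT.nd (nat_lit 60840) (nat_lit 0) (nat_lit 3192) (XT.nd (nat_lit 78) (nat_lit 532) (nat_lit 0) (XT.lf (nat_lit 0) (nat_lit 85927377452) (nat_lit 608) (nat_lit 2215006387) (nat_lit 684) (nat_lit 30551737448) (nat_lit 258) (nat_lit 5) (nat_lit 266) (nat_lit 5) (nat_lit 267) (nat_lit 5) (nat_lit 525) (nat_lit 502) (nat_lit 173)) (XT.nd (nat_lit 60684) (nat_lit 0) (nat_lit 3192) (XT.lf (nat_lit 0) (nat_lit 32562356032) (nat_lit 532) (nat_lit 70334520948) (nat_lit 608) (nat_lit 17770598518) (nat_lit 251) (nat_lit 5) (nat_lit 258) (nat_lit 5) (nat_lit 259) (nat_lit 5) (nat_lit 526) (nat_lit 502) (nat_lit 172)) (XT.lf (nat_lit 0) (nat_lit 21108932059) (nat_lit 1292) (nat_lit 10774129864) (nat_lit 1292) (nat_lit 10774129864) (nat_lit 293) (nat_lit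 3) (nat_lit 310) (nat_lit 3) (nat_lit 310) (nat_lit 5) (nat_lit 503) (nat_lit 503) (nat_lit 194)))) (XT.nd (nat_lit 156) (nat_lit 0) (nat_lit 76) (XT.nd (nat_lit 78) (nat_lit 0) (nat_lit 76) (XT.lf (nat_lit 76) (nat_lit 21004627197) (nat_lit 0) (nat_lit 22057342376) (nat_lit 1292) (nat_lit 43525803389) (nat_lit 294) (nat_lit 5) (nat_lit 293) (nat_lit 3) (nat_lit 310) (nat_lit 5) (nat_lit 504) (nat_lit 503) (nat_lit 193)) (XT.lf (nat_lit 0) (nat_lit 44351728741) (nat_lit 1216) (nat_lit 22820296424) (nat_lit 1292) (nat_lit 20714728998) (nat_lit 294) (nat_lit 5) (nat_lit 310) (nat_lit 5) (nat_lit 311) (nat_lit 5) (nat_lit 505) (nat_lit 503) (nat_lit 192))) (XT.nd (nat_lit 78) (nat_lit 0) (nat_lit 76) (XT.lf (nat_lit 76) (nat_lit 21424937041) (nat_lit 0) (nat_lit 24679244332) (nat_lit 1292) (nat_lit 43107803454) (nat_lit 295) (nat_lit 5) (nat_lit 294) (nat_lit 5) (nat_lit 311) (nat_lit 5) (nat_lit 506) (nat_lit 503)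 (nat_lit 191)) (XT.lf (nat_lit 0) (nat_lit 48325089013) (nat_lit 1216) (nat_lit 23290707174) (nat_lit 1292) (nat_lit 18948699826) (nat_lit 295) (nat_lit 5) (nat_lit 311) (nat_lit 5) (nat_lit 312) (nat_lit 5) (nat_lit 507) (nat_lit 503) (nat_lit 190))))) (XT.nd (nat_lit 312) (nat_lit 0) (nat_lit 152) (XT.nd (nat_lit 156) (nat_lit 0) (nat_lit 76) (XT.nd (nat_lit 78) (nat_lit 0) (nat_lit 76) (XT.lf (nat_lit 76) (nat_lit 22739715257) (nat_lit 0) (nat_lit 28335526199) (nat_lit 1292) (nat_lit 40868462596) (nat_lit 296) (nat_lit 5) (nat_lit 295) (nat_lit 5) (nat_lit 312) (nat_lit 5) (nat_lit 508) (nat_lit 503) (nat_lit 189)) (XT.lf (nat_lit 0) (nat_lit 54301245872) (nat_lit 1216) (nat_lit 22887415187) (nat_lit 1292) (nat_lit 16163826894) (nat_lit 296) (nat_lit 5) (nat_lit 312) (nat_lit 5) (nat_lit 313) (nat_lit 5) (nat_lit 509) (nat_lit 503) (nat_lit 188))) (XT.nd (nat_lit 78) (nat_lit 0) (nat_lit 76) (XT.lf (nat_lit 76)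 (nat_lit 25026262401) (nat_lit 0) (nat_lit 33118583771) (nat_lit 1292) (nat_lit 36643064769) (nat_lit 297) (nat_lit 5) (nat_lit 296) (nat_lit 5) (nat_lit 313) (nat_lit 5) (nat_lit 510) (nat_lit 503) (nat_lit 187)) (XT.lf (nat_lit 0) (nat_lit 62454848245) (nat_lit 1216) (nat_lit 21533416711) (nat_lit 1292) (nat_lit 12267598889) (nat_lit 297) (nat_lit 5) (nat_lit 313) (nat_lit 5) (nat_lit 314) (nat_lit 5) (nat_lit 511) (nat_lit 503) (nat_lit 186)))) (XT.nd (nat_lit 156) (nat_lit 0) (nat_lit 76) (XT.nd (nat_lit 78) (nat_lit 0) (nat_lit 76) (XT.lf (nat_lit 76) (nat_lit 28367101652) (nat_lit 0) (nat_lit 39127352128) (nat_lit 1292) (nat_lit 30255392495) (nat_lit 298) (nat_lit 5) (nat_lit 297) (nat_lit 5) (nat_lit 314) (nat_lit 5) (nat_lit 512) (nat_lit 503) (nat_lit 185)) (XT.lf (nat_lit 0) (nat_lit 72972619020) (nat_lit 1216) (nat_lit 19146484889) (nat_lit 1292) (nat_lit 7160923161) (nat_lit 298) (nat_lit 5) (nat_lit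 314) (nat_lit 5) (nat_lit 315) (nat_lit 5) (nat_lit 513) (nat_lit 503) (nat_lit 184))) (XT.nd (nat_lit 78) (nat_lit 0) (nat_lit 76) (XT.lf (nat_lit 76) (nat_lit 32850291358) (nat_lit 0) (nat_lit 46467744498) (nat_lit 1292) (nat_lit 21516990270) (nat_lit 299) (nat_lit 5) (nat_lit 298) (nat_lit 5) (nat_lit 315) (nat_lit 5) (nat_lit 514) (nat_lit 503) (nat_lit 183)) (XT.lf (nat_lit 0) (nat_lit 86054125326) (nat_lit 1216) (nat_lit 15638857284) (nat_lit 1292) (nat_lit 737683275) (nat_lit 299) (nat_lit 5) (nat_lit 315) (nat_lit 5) (nat_lit 316) (nat_lit 5) (nat_lit 515) (nat_lit 503) (nat_lit 182)))))) (XT.nd (nat_lit 546) (nat_lit 1216) (nat_lit 0) (XT.nd (nat_lit 234) (nat_lit 684) (nat_lit 0) (XT.nd (nat_lit 78) (nat_lit 1216) (nat_lit 0) (XT.lf (nat_lit 76) (nat_lit 38569754779) (nat_lit 0) (nat_lit 55253119755) (nat_lit 1292) (nat_lit 10226383028) (nat_lit 300) (nat_lit 5) (nat_lit 299) (nat_lit 5) (nat_lit 316)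 (nat_lit 5) (nat_lit 516) (nat_lit 503) (nat_lit 181)) (XT.nd (nat_lit 78) (nat_lit 1216) (nat_lit 0) (XT.lf (nat_lit 76) (nat_lit 94725008500) (nat_lit 0) (nat_lit 7257349353) (nat_lit 1292) (nat_lit 3729319020) (nat_lit 300) (nat_lit 5) (nat_lit 299) (nat_lit 5) (nat_lit 316) (nat_lit 5) (nat_lit 517) (nat_lit 503) (nat_lit 180)) (XT.lf (nat_lit 0) (nat_lit 3756981679) (nat_lit 1292) (nat_lit 61809860620) (nat_lit 1368) (nat_lit 41830708024) (nat_lit 283) (nat_lit 5) (nat_lit 300) (nat_lit 5) (nat_lit 301) (nat_lit 5) (nat_lit 518) (nat_lit 503) (nat_lit 179)))) (XT.nd (nat_lit 156) (nat_lit 684) (nat_lit 0) (XT.nd (nat_lit 78) (nat_lit 0) (nat_lit 76) (XT.lf (nat_lit 0) (nat_lit 11576573377) (nat_lit 1292) (nat_lit 5156257384) (nat_lit 1368) (nat_lit 92394551800) (nat_lit 283) (nat_lit 5) (nat_lit 300) (nat_lit 5) (nat_lit 301) (nat_lit 5) (nat_lit 519) (nat_lit 503) (nat_lit 178)) (XT.lf (nat_lit 0) (nat_lit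 20479879963) (nat_lit 1292) (nat_lit 56965816803) (nat_lit 76) (nat_lit 33437939217) (nat_lit 284) (nat_lit 5) (nat_lit 301) (nat_lit 5) (nat_lit 285) (nat_lit 5) (nat_lit 520) (nat_lit 503) (nat_lit 177))) (XT.nd (nat_lit 78) (nat_lit 0) (nat_lit 0) (XT.lf (nat_lit 0) (nat_lit 2052462963) (nat_lit 760) (nat_lit 27835580106) (nat_lit 836) (nat_lit 82797401248) (nat_lit 274) (nat_lit 5) (nat_lit 284) (nat_lit 5) (nat_lit 285) (nat_lit 5) (nat_lit 521) (nat_lit 503) (nat_lit 176)) (XT.lf (nat_lit 0) (nat_lit 40382783749) (nat_lit 836) (nat_lit 50744534325) (nat_lit 76) (nat_lit 23389858875) (nat_lit 274) (nat_lit 5) (nat_lit 285) (nat_lit 5) (nat_lit 275) (nat_lit 5) (nat_lit 522) (nat_lit 503) (nat_lit 175))))) (XT.nd (nat_lit 61074) (nat_lit 0) (nat_lit 2660) (XT.nd (nat_lit 156) (nat_lit 608) (nat_lit 0) (XT.nd (nat_lit 78) (nat_lit 0) (nat_lit 0) (XT.lf (nat_lit 0) (nat_lit 10877014974) (nat_lit 608) (nat_lit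 40695291981) (nat_lit 684) (nat_lit 64820156423) (nat_lit 266) (nat_lit 5) (nat_lit 274) (nat_lit 5) (nat_lit 275) (nat_lit 5) (nat_lit 523) (nat_lit 503) (nat_lit 174)) (XT.lf (nat_lit 0) (nat_lit 63722937055) (nat_lit 684) (nat_lit 43034629852) (nat_lit 76) (nat_lit 11547678884) (nat_lit 266) (nat_lit 5) (nat_lit 275) (nat_lit 5) (nat_lit 267) (nat_lit 5) (nat_lit 524) (nat_lit 503) (nat_lit 173))) (XT.nd (nat_lit 60840) (nat_lit 0) (nat_lit 2660) (XT.lf (nat_lit 0) (nat_lit 21333789024) (nat_lit 608) (nat_lit 55512088789) (nat_lit 684) (nat_lit 43411300137) (nat_lit 258) (nat_lit 5) (nat_lit 266) (nat_lit 5) (nat_lit 267) (nat_lit 5) (nat_lit 525) (nat_lit 503) (nat_lit 172)) (XT.lf (nat_lit 0) (nat_lit 21751042365) (nat_lit 1292) (nat_lit 11092799338) (nat_lit 1292) (nat_lit 11092799338) (nat_lit 293) (nat_lit 3) (nat_lit 310) (nat_lit 3) (nat_lit 310) (nat_lit 5) (nat_lit 504) (nat_lit 504) (nat_lit 192))))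 (XT.nd (nat_lit 156) (nat_lit 0) (nat_lit 76) (XT.nd (nat_lit 78) (nat_lit 0) (nat_lit 76) (XT.lf (nat_lit 76) (nat_lit 21643785554) (nat_lit 0) (nat_lit 22727299408) (nat_lit 1292) (nat_lit 44813801113) (nat_lit 294) (nat_lit 5) (nat_lit 293) (nat_lit 3) (nat_lit 310) (nat_lit 5) (nat_lit 505) (nat_lit 504) (nat_lit 191)) (XT.lf (nat_lit 0) (nat_lit 45698957424) (nat_lit 1216) (nat_lit 23495566681) (nat_lit 1292) (nat_lit 21328330061) (nat_lit 294) (nat_lit 5) (nat_lit 310) (nat_lit 5) (nat_lit 311) (nat_lit 5) (nat_lit 506) (nat_lit 504) (nat_lit 190))) (XT.nd (nat_lit 78) (nat_lit 0) (nat_lit 76) (XT.lf (nat_lit 76) (nat_lit 22076932232) (nat_lit 0) (nat_lit 25426654559) (nat_lit 1292) (nat_lit 44384266932) (nat_lit 295) (nat_lit 5) (nat_lit 294) (nat_lit 5) (nat_lit 311) (nat_lit 5) (nat_lit 507) (nat_lit 504) (nat_lit 189)) (XT.lf (nat_lit 0) (nat_lit 49790581850) (nat_lit 1216) (nat_lit 23979908648) (nat_lit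 1292) (nat_lit 19510466006) (nat_lit 295) (nat_lit 5) (nat_lit 311) (nat_lit 5) (nat_lit 312) (nat_lit 5) (nat_lit 508) (nat_lit 504) (nat_lit 188))))))) (XT.nd (nat_lit 1170) (nat_lit 608) (nat_lit 0) (XT.nd (nat_lit 546) (nat_lit 1596) (nat_lit 0) (XT.nd (nat_lit 234) (nat_lit 0) (nat_lit 152) (XT.nd (nat_lit 78) (nat_lit 0) (nat_lit 76) (XT.lf (nat_lit 76) (nat_lit 23431333125) (nat_lit 0) (nat_lit 29191537902) (nat_lit 1292) (nat_lit 42078680855) (nat_lit 296) (nat_lit 5) (nat_lit 295) (nat_lit 5) (nat_lit 312) (nat_lit 5) (nat_lit 509) (nat_lit 504) (nat_lit 187)) (XT.nd (nat_lit 78) (nat_lit 0) (nat_lit 0) (XT.lf (nat_lit 0) (nat_lit 55945152347) (nat_lit 1216) (nat_lit 23564380500) (nat_lit 1292) (nat_lit 16643081613) (nat_lit 296) (nat_lit 5) (nat_lit 312) (nat_lit 5) (nat_lit 313) (nat_lit 5) (nat_lit 510) (nat_lit 504) (nat_lit 186)) (XT.lf (nat_lit 76) (nat_lit 25786612738) (nat_lit 0) (nat_lit 34117106758)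 (nat_lit 1292) (nat_lit 37727390936) (nat_lit 297) (nat_lit 5) (nat_lit 296) (nat_lit 5) (nat_lit 313) (nat_lit 5) (nat_lit 511) (nat_lit 504) (nat_lit 185)))) (XT.nd (nat_lit 156) (nat_lit 0) (nat_lit 76) (XT.nd (nat_lit 78) (nat_lit 0) (nat_lit 0) (XT.lf (nat_lit 0) (nat_lit 64342552147) (nat_lit 1216) (nat_lit 22169663841) (nat_lit 1292) (nat_lit 12630900080) (nat_lit 297) (nat_lit 5) (nat_lit 313) (nat_lit 5) (nat_lit 314) (nat_lit 5) (nat_lit 512) (nat_lit 504) (nat_lit 184)) (XT.lf (nat_lit 76) (nat_lit 29227774433) (nat_lit 0) (nat_lit 40305254800) (nat_lit 1292) (nat_lit 31148898290) (nat_lit 298) (nat_lit 5) (nat_lit 297) (nat_lit 5) (nat_lit 314) (nat_lit 5) (nat_lit 513) (nat_lit 504) (nat_lit 183))) (XT.nd (nat_lit 78) (nat_lit 0) (nat_lit 0) (XT.lf (nat_lit 0) (nat_lit 75175101085) (nat_lit 1216) (nat_lit 19711060882) (nat_lit 1292) (nat_lit 7371864980) (nat_lit 298) (nat_lit 5) (nat_lit 314) (nat_lit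 5) (nat_lit 315) (nat_lit 5) (nat_lit 514) (nat_lit 504) (nat_lit 182)) (XT.lf (nat_lit 76) (nat_lit 33845522392) (nat_lit 0) (nat_lit 47865064011) (nat_lit 1292) (nat_lit 22149098446) (nat_lit 299) (nat_lit 5) (nat_lit 298) (nat_lit 5) (nat_lit 315) (nat_lit 5) (nat_lit 515) (nat_lit 504) (nat_lit 181))))) (XT.nd (nat_lit 312) (nat_lit 684) (nat_lit 0) (XT.nd (nat_lit 156) (nat_lit 1216) (nat_lit 0) (XT.nd (nat_lit 78) (nat_lit 0) (nat_lit 0) (XT.lf (nat_lit 0) (nat_lit 88648348963) (nat_lit 1216) (nat_lit 16098172563) (nat_lit 1292) (nat_lit 756684615) (nat_lit 299) (nat_lit 5) (nat_lit 315) (nat_lit 5) (nat_lit 316) (nat_lit 5) (nat_lit 516) (nat_lit 504) (nat_lit 180)) (XT.lf (nat_lit 76) (nat_lit 39736601288) (nat_lit 0) (nat_lit 56913286131) (nat_lit 1292) (nat_lit 10520476395) (nat_lit 300) (nat_lit 5) (nat_lit 299) (nat_lit 5) (nat_lit 316) (nat_lit 5) (nat_lit 517) (nat_lit 504) (nat_lit 179))) (XT.nd (nat_lit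 78) (nat_lit 1216) (nat_lit 0) (XT.lf (nat_lit 76) (nat_lit 97576228528) (nat_lit 0) (nat_lit 7477567682) (nat_lit 1292) (nat_lit 3828870315) (nat_lit 300) (nat_lit 5) (nat_lit 299) (nat_lit 5) (nat_lit 316) (nat_lit 5) (nat_lit 518) (nat_lit 504) (nat_lit 178)) (XT.lf (nat_lit 0) (nat_lit 3881497951) (nat_lit 1292) (nat_lit 63654162102) (nat_lit 1368) (nat_lit 43083461042) (nat_lit 283) (nat_lit 5) (nat_lit 300) (nat_lit 5) (nat_lit 301) (nat_lit 5) (nat_lit 519) (nat_lit 504) (nat_lit 177)))) (XT.nd (nat_lit 156) (nat_lit 684) (nat_lit 0) (XT.nd (nat_lit 78) (nat_lit 0) (nat_lit 76) (XT.lf (nat_lit 0) (nat_lit 11935333512) (nat_lit 1292) (nat_lit 5301241866) (nat_lit 1368) (nat_lit 95164283284) (nat_lit 283) (nat_lit 5) (nat_lit 300) (nat_lit 5) (nat_lit 301) (nat_lit 5) (nat_lit 520) (nat_lit 504) (nat_lit 176)) (XT.lf (nat_lit 0) (nat_lit 21105482275) (nat_lit 1292) (nat_lit 58664829602) (nat_lit 76) (nat_lit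 34439495564) (nat_lit 284) (nat_lit 5) (nat_lit 301) (nat_lit 5) (nat_lit 285) (nat_lit 5) (nat_lit 521) (nat_lit 504) (nat_lit 175))) (XT.nd (nat_lit 78) (nat_lit 0) (nat_lit 0) (XT.lf (nat_lit 0) (nat_lit 2123900892) (nat_lit 760) (nat_lit 28671757815) (nat_lit 836) (nat_lit 85270018306) (nat_lit 274) (nat_lit 5) (nat_lit 284) (nat_lit 5) (nat_lit 285) (nat_lit 5) (nat_lit 522) (nat_lit 504) (nat_lit 174)) (XT.lf (nat_lit 0) (nat_lit 41604911604) (nat_lit 836) (nat_lit 52256962252) (nat_lit 76) (nat_lit 24090497709) (nat_lit 274) (nat_lit 5) (nat_lit 285) (nat_lit 5) (nat_lit 275) (nat_lit 5) (nat_lit 523) (nat_lit 504) (nat_lit 173)))))) (XT.nd (nat_lit 61464) (nat_lit 0) (nat_lit 2280) (XT.nd (nat_lit 61152) (nat_lit 0) (nat_lit 2128) (XT.nd (nat_lit 60996) (nat_lit 0) (nat_lit 2052) (XT.nd (nat_lit 78) (nat_lit 0) (nat_lit 0) (XT.lf (nat_lit 0) (nat_lit 11213136388) (nat_lit 608) (nat_lit 41916768398) (nat_lit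 684) (nat_lit 66754018313) (nat_lit 266) (nat_lit 5) (nat_lit 274) (nat_lit 5) (nat_lit 275) (nat_lit 5) (nat_lit 524) (nat_lit 504) (nat_lit 172)) (XT.lf (nat_lit 0) (nat_lit 65644744279) (nat_lit 684) (nat_lit 44315832746) (nat_lit 76) (nat_lit 11893521284) (nat_lit 266) (nat_lit 5) (nat_lit 275) (nat_lit 5) (nat_lit 267) (nat_lit 5) (nat_lit 525) (nat_lit 504) (nat_lit 171))) (XT.nd (nat_lit 78) (nat_lit 0) (nat_lit 0) (XT.lf (nat_lit 0) (nat_lit 22411908393) (nat_lit 1292) (nat_lit 11421290338) (nat_lit 1292) (nat_lit 11421290338) (nat_lit 293) (nat_lit 3) (nat_lit 310) (nat_lit 3) (nat_lit 310) (nat_lit 5) (nat_lit 505) (nat_lit 505) (nat_lit 190)) (XT.lf (nat_lit 76) (nat_lit 22301600904) (nat_lit 0) (nat_lit 23416882327) (nat_lit 1292) (nat_lit 46141459205) (nat_lit 294) (nat_lit 5) (nat_lit 293) (nat_lit 3) (nat_lit 310) (nat_lit 5) (nat_lit 506) (nat_lit 505) (nat_lit 189)))) (XT.nd (nat_lit 156) (nat_lit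 0) (nat_lit 76) (XT.nd (nat_lit 78) (nat_lit 0) (nat_lit 0) (XT.lf (nat_lit 0) (nat_lit 47085645650) (nat_lit 1216) (nat_lit 24191631122) (nat_lit 1292) (nat_lit 21960789250) (nat_lit 294) (nat_lit 5) (nat_lit 310) (nat_lit 5) (nat_lit 311) (nat_lit 5) (nat_lit 507) (nat_lit 505) (nat_lit 188)) (XT.lf (nat_lit 76) (nat_lit 22747956459) (nat_lit 0) (nat_lit 26196083375) (nat_lit 1292) (nat_lit 45699987016) (nat_lit 295) (nat_lit 5) (nat_lit 294) (nat_lit 5) (nat_lit 311) (nat_lit 5) (nat_lit 508) (nat_lit 505) (nat_lit 187))) (XT.nd (nat_lit 78) (nat_lit 0) (nat_lit 0) (XT.lf (nat_lit 0) (nat_lit 51299135923) (nat_lit 1216) (nat_lit 24690332638) (nat_lit 1292) (nat_lit 20089469481) (nat_lit 295) (nat_lit 5) (nat_lit 311) (nat_lit 5) (nat_lit 312) (nat_lit 5) (nat_lit 509) (nat_lit 505) (nat_lit 186)) (XT.lf (nat_lit 76) (nat_lit 24143158415) (nat_lit 0) (nat_lit 30072888637) (nat_lit 1292) (nat_lit 43326114692) (nat_lit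 296) (nat_lit 5) (nat_lit 295) (nat_lit 5) (nat_lit 312) (nat_lit 5) (nat_lit 510) (nat_lit 505) (nat_lit 185))))) (XT.nd (nat_lit 312) (nat_lit 0) (nat_lit 152) (XT.nd (nat_lit 156) (nat_lit 0) (nat_lit 76) (XT.nd (nat_lit 78) (nat_lit 0) (nat_lit 0) (XT.lf (nat_lit 0) (nat_lit 57637522470) (nat_lit 1216) (nat_lit 24262209132) (nat_lit 1292) (nat_lit 17137038885) (nat_lit 296) (nat_lit 5) (nat_lit 312) (nat_lit 5) (nat_lit 313) (nat_lit 5) (nat_lit 511) (nat_lit 505) (nat_lit 184)) (XT.lf (nat_lit 76) (nat_lit 26569224661) (nat_lit 0) (nat_lit 35145300397) (nat_lit 1292) (nat_lit 38845105984) (nat_lit 297) (nat_lit 5) (nat_lit 296) (nat_lit 5) (nat_lit 313) (nat_lit 5) (nat_lit 512) (nat_lit 505) (nat_lit 183))) (XT.nd (nat_lit 78) (nat_lit 0) (nat_lit 0) (XT.lf (nat_lit 0) (nat_lit 66286080153) (nat_lit 1216) (nat_lit 22825558382) (nat_lit 1292) (nat_lit 13005371642) (nat_lit 297) (nat_lit 5) (nat_lit 313) (nat_lit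 5) (nat_lit 314) (nat_lit 5) (nat_lit 513) (nat_lit 505) (nat_lit 182)) (XT.lf (nat_lit 76) (nat_lit 30113712889) (nat_lit 0) (nat_lit 41518260223) (nat_lit 1292) (nat_lit 32070021871) (nat_lit 298) (nat_lit 5) (nat_lit 297) (nat_lit 5) (nat_lit 314) (nat_lit 5) (nat_lit 514) (nat_lit 505) (nat_lit 181)))) (XT.nd (nat_lit 156) (nat_lit 0) (nat_lit 76) (XT.nd (nat_lit 78) (nat_lit 0) (nat_lit 0) (XT.lf (nat_lit 0) (nat_lit 77442893938) (nat_lit 1216) (nat_lit 20293137780) (nat_lit 1292) (nat_lit 7589358119) (nat_lit 298) (nat_lit 5) (nat_lit 314) (nat_lit 5) (nat_lit 315) (nat_lit 5) (nat_lit 515) (nat_lit 505) (nat_lit 180)) (XT.lf (nat_lit 76) (nat_lit 34870052258) (nat_lit 0) (nat_lit 49304114412) (nat_lit 1292) (nat_lit 22800939171) (nat_lit 299) (nat_lit 5) (nat_lit 298) (nat_lit 5) (nat_lit 315) (nat_lit 5) (nat_lit 516) (nat_lit 505) (nat_lit 179))) (XT.nd (nat_lit 78) (nat_lit 0) (nat_lit 0) (XT.lf (nat_lit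 0) (nat_lit 91319676024) (nat_lit 1216) (nat_lit 16571832757) (nat_lit 1292) (nat_lit 776435622) (nat_lit 299) (nat_lit 5) (nat_lit 315) (nat_lit 5) (nat_lit 316) (nat_lit 5) (nat_lit 517) (nat_lit 505) (nat_lit 178)) (XT.lf (nat_lit 76) (nat_lit 40937893281) (nat_lit 0) (nat_lit 58623109811) (nat_lit 1292) (nat_lit 10824121487) (nat_lit 300) (nat_lit 5) (nat_lit 299) (nat_lit 5) (nat_lit 316) (nat_lit 5) (nat_lit 518) (nat_lit 505) (nat_lit 177))))))))
noncomputable def xc254 : XT := (XT.nd (nat_lit 124410) (nat_lit 0) (nat_lit 684) (XT.nd (nat_lit 62166) (nat_lit 0) (nat_lit 0) (XT.nd (nat_lit 61542) (nat_lit 0) (nat_lit 1444) (XT.nd (nat_lit 234) (nat_lit 684) (nat_lit 0) (XT.nd (nat_lit 78) (nat_lit 1216) (nat_lit 0) (XT.lf (nat_lit 76) (nat_lit 100512441553) (nat_lit 0) (nat_lit 7704249175) (nat_lit 1292) (nat_lit 3932115842) (nat_lit 300) (nat_lit 5) (nat_lit 299) (nat_lit 5) (nat_lit 316) (nat_lit 5) (nat_lit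 519) (nat_lit 505) (nat_lit 176)) (XT.nd (nat_lit 78) (nat_lit 0) (nat_lit 0) (XT.lf (nat_lit 0) (nat_lit 4009071952) (nat_lit 1292) (nat_lit 65554366345) (nat_lit 1368) (nat_lit 44373921116) (nat_lit 283) (nat_lit 5) (nat_lit 300) (nat_lit 5) (nat_lit 301) (nat_lit 5) (nat_lit 520) (nat_lit 505) (nat_lit 175)) (XT.lf (nat_lit 0) (nat_lit 12304198433) (nat_lit 1292) (nat_lit 5451132888) (nat_lit 1368) (nat_lit 98017227552) (nat_lit 283) (nat_lit 5) (nat_lit 300) (nat_lit 5) (nat_lit 301) (nat_lit 5) (nat_lit 521) (nat_lit 505) (nat_lit 174)))) (XT.nd (nat_lit 156) (nat_lit 0) (nat_lit 0) (XT.nd (nat_lit 78) (nat_lit 760) (nat_lit 0) (XT.lf (nat_lit 0) (nat_lit 21749209391) (nat_lit 1292) (nat_lit 60415384628) (nat_lit 76) (nat_lit 35471189404) (nat_lit 284) (nat_lit 5) (nat_lit 301) (nat_lit 5) (nat_lit 285) (nat_lit 5) (nat_lit 522) (nat_lit 505) (nat_lit 173)) (XT.lf (nat_lit 0) (nat_lit 2196915724) (nat_lit 760)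 (nat_lit 29532957119) (nat_lit 836) (nat_lit 87817462829) (nat_lit 274) (nat_lit 5) (nat_lit 284) (nat_lit 5) (nat_lit 285) (nat_lit 5) (nat_lit 523) (nat_lit 505) (nat_lit 172))) (XT.nd (nat_lit 61074) (nat_lit 0) (nat_lit 1444) (XT.lf (nat_lit 0) (nat_lit 42863092267) (nat_lit 836) (nat_lit 53815331782) (nat_lit 76) (nat_lit 24812216381) (nat_lit 274) (nat_lit 5) (nat_lit 285) (nat_lit 5) (nat_lit 275) (nat_lit 5) (nat_lit 524) (nat_lit 505) (nat_lit 171)) (XT.lf (nat_lit 0) (nat_lit 23092121954) (nat_lit 1292) (nat_lit 11759882504) (nat_lit 1292) (nat_lit 11759882504) (nat_lit 293) (nat_lit 3) (nat_lit 310) (nat_lit 3) (nat_lit 310) (nat_lit 5) (nat_lit 506) (nat_lit 506) (nat_lit 188))))) (XT.nd (nat_lit 312) (nat_lit 0) (nat_lit 152) (XT.nd (nat_lit 156) (nat_lit 0) (nat_lit 76) (XT.nd (nat_lit 78) (nat_lit 0) (nat_lit 76) (XT.lf (nat_lit 76) (nat_lit 22978662677) (nat_lit 0) (nat_lit 24126707052) (nat_lit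 1292) (nat_lit 47509908900) (nat_lit 294) (nat_lit 5) (nat_lit 293) (nat_lit 3) (nat_lit 310) (nat_lit 5) (nat_lit 507) (nat_lit 506) (nat_lit 187)) (XT.lf (nat_lit 0) (nat_lit 48513032159) (nat_lit 1216) (nat_lit 24909082799) (nat_lit 1292) (nat_lit 22612646471) (nat_lit 294) (nat_lit 5) (nat_lit 310) (nat_lit 5) (nat_lit 311) (nat_lit 5) (nat_lit 508) (nat_lit 506) (nat_lit 186))) (XT.nd (nat_lit 78) (nat_lit 0) (nat_lit 76) (XT.lf (nat_lit 76) (nat_lit 23438611064) (nat_lit 0) (nat_lit 26988214514) (nat_lit 1292) (nat_lit 47056086143) (nat_lit 295) (nat_lit 5) (nat_lit 294) (nat_lit 5) (nat_lit 311) (nat_lit 5) (nat_lit 509) (nat_lit 506) (nat_lit 185)) (XT.lf (nat_lit 0) (nat_lit 52852094935) (nat_lit 1216) (nat_lit 25422584450) (nat_lit 1292) (nat_lit 20686205309) (nat_lit 295) (nat_lit 5) (nat_lit 311) (nat_lit 5) (nat_lit 312) (nat_lit 5) (nat_lit 510) (nat_lit 506) (nat_lit 184)))) (XT.nd (nat_lit 156) (nat_lit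 0) (nat_lit 76) (XT.nd (nat_lit 78) (nat_lit 0) (nat_lit 76) (XT.lf (nat_lit 76) (nat_lit 24875828412) (nat_lit 0) (nat_lit 30980358167) (nat_lit 1292) (nat_lit 44611828390) (nat_lit 296) (nat_lit 5) (nat_lit 295) (nat_lit 5) (nat_lit 312) (nat_lit 5) (nat_lit 511) (nat_lit 506) (nat_lit 183)) (XT.lf (nat_lit 0) (nat_lit 59379859146) (nat_lit 1216) (nat_lit 24981495160) (nat_lit 1292) (nat_lit 17646121136) (nat_lit 296) (nat_lit 5) (nat_lit 312) (nat_lit 5) (nat_lit 313) (nat_lit 5) (nat_lit 512) (nat_lit 506) (nat_lit 182))) (XT.nd (nat_lit 78) (nat_lit 0) (nat_lit 76) (XT.lf (nat_lit 76) (nat_lit 27374797527) (nat_lit 0) (nat_lit 36204071168) (nat_lit 1292) (nat_lit 39997162265) (nat_lit 297) (nat_lit 5) (nat_lit 296) (nat_lit 5) (nat_lit 313) (nat_lit 5) (nat_lit 513) (nat_lit 506) (nat_lit 181)) (XT.lf (nat_lit 0) (nat_lit 68287153312) (nat_lit 1216) (nat_lit 23501657611) (nat_lit 1292) (nat_lit 13391333111)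 (nat_lit 297) (nat_lit 5) (nat_lit 313) (nat_lit 5) (nat_lit 314) (nat_lit 5) (nat_lit 514) (nat_lit 506) (nat_lit 180)))))) (XT.nd (nat_lit 546) (nat_lit 684) (nat_lit 0) (XT.nd (nat_lit 234) (nat_lit 1064) (nat_lit 0) (XT.nd (nat_lit 78) (nat_lit 0) (nat_lit 76) (XT.lf (nat_lit 76) (nat_lit 31025706822) (nat_lit 0) (nat_lit 42767434931) (nat_lit 1292) (nat_lit 33019545123) (nat_lit 298) (nat_lit 5) (nat_lit 297) (nat_lit 5) (nat_lit 314) (nat_lit 5) (nat_lit 515) (nat_lit 506) (nat_lit 179)) (XT.nd (nat_lit 78) (nat_lit 0) (nat_lit 0) (XT.lf (nat_lit 0) (nat_lit 79778000740) (nat_lit 1216) (nat_lit 20893208255) (nat_lit 1292) (nat_lit 7813586312) (nat_lit 298) (nat_lit 5) (nat_lit 314) (nat_lit 5) (nat_lit 315) (nat_lit 5) (nat_lit 516) (nat_lit 506) (nat_lit 178)) (XT.lf (nat_lit 76) (nat_lit 35924791957) (nat_lit 0) (nat_lit 50786158459) (nat_lit 1292) (nat_lit 23473060258) (nat_lit 299) (nat_lit 5) (nat_lit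 298) (nat_lit 5) (nat_lit 315) (nat_lit 5) (nat_lit 517) (nat_lit 506) (nat_lit 177)))) (XT.nd (nat_lit 156) (nat_lit 1216) (nat_lit 0) (XT.nd (nat_lit 78) (nat_lit 0) (nat_lit 0) (XT.lf (nat_lit 0) (nat_lit 94070461132) (nat_lit 1216) (nat_lit 17060235752) (nat_lit 1292) (nat_lit 796948473) (nat_lit 299) (nat_lit 5) (nat_lit 315) (nat_lit 5) (nat_lit 316) (nat_lit 5) (nat_lit 518) (nat_lit 506) (nat_lit 176)) (XT.lf (nat_lit 76) (nat_lit 42174696263) (nat_lit 0) (nat_lit 60384088991) (nat_lit 1292) (nat_lit 11137563013) (nat_lit 300) (nat_lit 5) (nat_lit 299) (nat_lit 5) (nat_lit 316) (nat_lit 5) (nat_lit 519) (nat_lit 506) (nat_lit 175))) (XT.nd (nat_lit 78) (nat_lit 1216) (nat_lit 0) (XT.lf (nat_lit 76) (nat_lit 103536228570) (nat_lit 0) (nat_lit 7937595956) (nat_lit 1292) (nat_lit 4039125804) (nat_lit 300) (nat_lit 5) (nat_lit 299) (nat_lit 5) (nat_lit 316) (nat_lit 5) (nat_lit 520) (nat_lit 506) (nat_lit 174))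 (XT.lf (nat_lit 0) (nat_lit 4139834319) (nat_lit 1292) (nat_lit 67512117496) (nat_lit 1368) (nat_lit 45703212312) (nat_lit 283) (nat_lit 5) (nat_lit 300) (nat_lit 5) (nat_lit 301) (nat_lit 5) (nat_lit 521) (nat_lit 506) (nat_lit 173))))) (XT.nd (nat_lit 61386) (nat_lit 0) (nat_lit 1444) (XT.nd (nat_lit 156) (nat_lit 684) (nat_lit 0) (XT.nd (nat_lit 78) (nat_lit 0) (nat_lit 76) (XT.lf (nat_lit 0) (nat_lit 12683509054) (nat_lit 1292) (nat_lit 5606045672) (nat_lit 1368) (nat_lit 100955874052) (nat_lit 283) (nat_lit 5) (nat_lit 300) (nat_lit 5) (nat_lit 301) (nat_lit 5) (nat_lit 522) (nat_lit 506) (nat_lit 172)) (XT.lf (nat_lit 0) (nat_lit 22411641982) (nat_lit 1292) (nat_lit 62218995322) (nat_lit 76) (nat_lit 36533919651) (nat_lit 284) (nat_lit 5) (nat_lit 301) (nat_lit 5) (nat_lit 285) (nat_lit 5) (nat_lit 523) (nat_lit 506) (nat_lit 171))) (XT.nd (nat_lit 61152) (nat_lit 0) (nat_lit 1444) (XT.lf (nat_lit 0) (nat_lit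 2271587268) (nat_lit 760) (nat_lit 30419932325) (nat_lit 836) (nat_lit 90441942386) (nat_lit 274) (nat_lit 5) (nat_lit 284) (nat_lit 5) (nat_lit 285) (nat_lit 5) (nat_lit 524) (nat_lit 506) (nat_lit 170)) (XT.lf (nat_lit 0) (nat_lit 23792290936) (nat_lit 1292) (nat_lit 12108864722) (nat_lit 1292) (nat_lit 12108864722) (nat_lit 293) (nat_lit 3) (nat_lit 310) (nat_lit 3) (nat_lit 310) (nat_lit 5) (nat_lit 507) (nat_lit 507) (nat_lit 186)))) (XT.nd (nat_lit 156) (nat_lit 0) (nat_lit 76) (XT.nd (nat_lit 78) (nat_lit 0) (nat_lit 76) (XT.lf (nat_lit 76) (nat_lit 23675576281) (nat_lit 0) (nat_lit 24857406420) (nat_lit 1292) (nat_lit 48920318730) (nat_lit 294) (nat_lit 5) (nat_lit 293) (nat_lit 3) (nat_lit 310) (nat_lit 5) (nat_lit 508) (nat_lit 507) (nat_lit 185)) (XT.lf (nat_lit 0) (nat_lit 49982389698) (nat_lit 1216) (nat_lit 25648534323) (nat_lit 1292) (nat_lit 23284459313) (nat_lit 294) (nat_lit 5) (nat_lit 310) (nat_lit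 5) (nat_lit 311) (nat_lit 5) (nat_lit 509) (nat_lit 507) (nat_lit 184))) (XT.nd (nat_lit 78) (nat_lit 0) (nat_lit 76) (XT.lf (nat_lit 76) (nat_lit 24149513680) (nat_lit 0) (nat_lit 27803750889) (nat_lit 1292) (nat_lit 48453723592) (nat_lit 295) (nat_lit 5) (nat_lit 294) (nat_lit 5) (nat_lit 311) (nat_lit 5) (nat_lit 510) (nat_lit 507) (nat_lit 183)) (XT.lf (nat_lit 0) (nat_lit 54450839925) (nat_lit 1216) (nat_lit 26177289350) (nat_lit 1292) (nat_lit 21301184666) (nat_lit 295) (nat_lit 5) (nat_lit 311) (nat_lit 5) (nat_lit 312) (nat_lit 5) (nat_lit 511) (nat_lit 507) (nat_lit 182))))))) (XT.nd (nat_lit 62400) (nat_lit 0) (nat_lit 0) (XT.nd (nat_lit 546) (nat_lit 912) (nat_lit 0) (XT.nd (nat_lit 234) (nat_lit 0) (nat_lit 152) (XT.nd (nat_lit 78) (nat_lit 0) (nat_lit 76) (XT.lf (nat_lit 76) (nat_lit 25629997735) (nat_lit 0) (nat_lit 31914748524) (nat_lit 1292) (nat_lit 45936921161) (nat_lit 296) (nat_lit 5) (nat_lit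 295) (nat_lit 5) (nat_lit 312) (nat_lit 5) (nat_lit 512) (nat_lit 507) (nat_lit 181)) (XT.nd (nat_lit 78) (nat_lit 0) (nat_lit 0) (XT.lf (nat_lit 0) (nat_lit 61173707557) (nat_lit 1216) (nat_lit 25722852309) (nat_lit 1292) (nat_lit 18170764535) (nat_lit 296) (nat_lit 5) (nat_lit 312) (nat_lit 5) (nat_lit 313) (nat_lit 5) (nat_lit 513) (nat_lit 507) (nat_lit 180)) (XT.lf (nat_lit 76) (nat_lit 28204049867) (nat_lit 0) (nat_lit 37294351809) (nat_lit 1292) (nat_lit 41184543531) (nat_lit 297) (nat_lit 5) (nat_lit 296) (nat_lit 5) (nat_lit 313) (nat_lit 5) (nat_lit 514) (nat_lit 507) (nat_lit 179)))) (XT.nd (nat_lit 156) (nat_lit 0) (nat_lit 76) (XT.nd (nat_lit 78) (nat_lit 0) (nat_lit 0) (XT.lf (nat_lit 0) (nat_lit 70347541645) (nat_lit 1216) (nat_lit 24198537369) (nat_lit 1292) (nat_lit 13789114504) (nat_lit 297) (nat_lit 5) (nat_lit 313) (nat_lit 5) (nat_lit 314) (nat_lit 5) (nat_lit 515) (nat_lit 507) (nat_lit 178))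 (XT.lf (nat_lit 76) (nat_lit 31964567900) (nat_lit 0) (nat_lit 44053876680) (nat_lit 1292) (nat_lit 33998276067) (nat_lit 298) (nat_lit 5) (nat_lit 297) (nat_lit 5) (nat_lit 314) (nat_lit 5) (nat_lit 516) (nat_lit 507) (nat_lit 177))) (XT.nd (nat_lit 78) (nat_lit 0) (nat_lit 0) (XT.lf (nat_lit 0) (nat_lit 82182482230) (nat_lit 1216) (nat_lit 21511781619) (nat_lit 1292) (nat_lit 8044739542) (nat_lit 298) (nat_lit 5) (nat_lit 314) (nat_lit 5) (nat_lit 315) (nat_lit 5) (nat_lit 517) (nat_lit 507) (nat_lit 176)) (XT.lf (nat_lit 76) (nat_lit 37010677984) (nat_lit 0) (nat_lit 52312496173) (nat_lit 1292) (nat_lit 24166028494) (nat_lit 299) (nat_lit 5) (nat_lit 298) (nat_lit 5) (nat_lit 315) (nat_lit 5) (nat_lit 518) (nat_lit 507) (nat_lit 175))))) (XT.nd (nat_lit 312) (nat_lit 0) (nat_lit 0) (XT.nd (nat_lit 156) (nat_lit 1216) (nat_lit 0) (XT.nd (nat_lit 78) (nat_lit 0) (nat_lit 0) (XT.lf (nat_lit 0) (nat_lit 96903127165)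 (nat_lit 1216) (nat_lit 17563793237) (nat_lit 1292) (nat_lit 818236307) (nat_lit 299) (nat_lit 5) (nat_lit 315) (nat_lit 5) (nat_lit 316) (nat_lit 5) (nat_lit 519) (nat_lit 507) (nat_lit 174)) (XT.lf (nat_lit 76) (nat_lit 43448105860) (nat_lit 0) (nat_lit 62197766327) (nat_lit 1292) (nat_lit 11461055425) (nat_lit 300) (nat_lit 5) (nat_lit 299) (nat_lit 5) (nat_lit 316) (nat_lit 5) (nat_lit 520) (nat_lit 507) (nat_lit 173))) (XT.nd (nat_lit 78) (nat_lit 1216) (nat_lit 0) (XT.lf (nat_lit 76) (nat_lit 106650246213) (nat_lit 0) (nat_lit 8177815744) (nat_lit 1292) (nat_lit 4149974841) (nat_lit 300) (nat_lit 5) (nat_lit 299) (nat_lit 5) (nat_lit 316) (nat_lit 5) (nat_lit 521) (nat_lit 507) (nat_lit 172)) (XT.lf (nat_lit 0) (nat_lit 4273917376) (nat_lit 1292) (nat_lit 69529110922) (nat_lit 1368) (nat_lit 47072492830) (nat_lit 283) (nat_lit 5) (nat_lit 300) (nat_lit 5) (nat_lit 301) (nat_lit 5) (nat_lit 522) (nat_lit 507)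 (nat_lit 171)))) (XT.nd (nat_lit 61386) (nat_lit 0) (nat_lit 760) (XT.nd (nat_lit 61308) (nat_lit 0) (nat_lit 760) (XT.lf (nat_lit 0) (nat_lit 13073614352) (nat_lit 1292) (nat_lit 5766100732) (nat_lit 1368) (nat_lit 103982787310) (nat_lit 283) (nat_lit 5) (nat_lit 300) (nat_lit 5) (nat_lit 301) (nat_lit 5) (nat_lit 523) (nat_lit 507) (nat_lit 170)) (XT.lf (nat_lit 0) (nat_lit 24513039893) (nat_lit 1292) (nat_lit 12468535361) (nat_lit 1292) (nat_lit 12468535361) (nat_lit 293) (nat_lit 3) (nat_lit 310) (nat_lit 3) (nat_lit 310) (nat_lit 5) (nat_lit 508) (nat_lit 508) (nat_lit 184))) (XT.nd (nat_lit 78) (nat_lit 0) (nat_lit 76) (XT.lf (nat_lit 76) (nat_lit 24392963679) (nat_lit 0) (nat_lit 25609630788) (nat_lit 1292) (nat_lit 50373895455) (nat_lit 294) (nat_lit 5) (nat_lit 293) (nat_lit 3) (nat_lit 310) (nat_lit 5) (nat_lit 509) (nat_lit 508) (nat_lit 183)) (XT.lf (nat_lit 0) (nat_lit 51495026225) (nat_lit 1216) (nat_lit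 26410618348) (nat_lit 1292) (nat_lit 23976803486) (nat_lit 294) (nat_lit 5) (nat_lit 310) (nat_lit 5) (nat_lit 311) (nat_lit 5) (nat_lit 510) (nat_lit 508) (nat_lit 182)))))) (XT.nd (nat_lit 624) (nat_lit 836) (nat_lit 0) (XT.nd (nat_lit 312) (nat_lit 0) (nat_lit 152) (XT.nd (nat_lit 156) (nat_lit 0) (nat_lit 76) (XT.nd (nat_lit 78) (nat_lit 0) (nat_lit 76) (XT.lf (nat_lit 76) (nat_lit 24881298821) (nat_lit 0) (nat_lit 28643415250) (nat_lit 1292) (nat_lit 49894096413) (nat_lit 295) (nat_lit 5) (nat_lit 294) (nat_lit 5) (nat_lit 311) (nat_lit 5) (nat_lit 511) (nat_lit 508) (nat_lit 181)) (XT.lf (nat_lit 0) (nat_lit 56096790557) (nat_lit 1216) (nat_lit 26955093058) (nat_lit 1292) (nat_lit 21934935258) (nat_lit 295) (nat_lit 5) (nat_lit 311) (nat_lit 5) (nat_lit 312) (nat_lit 5) (nat_lit 512) (nat_lit 508) (nat_lit 180))) (XT.nd (nat_lit 78) (nat_lit 0) (nat_lit 76) (XT.lf (nat_lit 76) (nat_lit 26406338962) (nat_lit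 0) (nat_lit 32876884742) (nat_lit 1292) (nat_lit 47302528012) (nat_lit 296) (nat_lit 5) (nat_lit 295) (nat_lit 5) (nat_lit 312) (nat_lit 5) (nat_lit 513) (nat_lit 508) (nat_lit 179)) (XT.lf (nat_lit 0) (nat_lit 63020656588) (nat_lit 1216) (nat_lit 26486914441) (nat_lit 1292) (nat_lit 18711419345) (nat_lit 296) (nat_lit 5) (nat_lit 312) (nat_lit 5) (nat_lit 313) (nat_lit 5) (nat_lit 514) (nat_lit 508) (nat_lit 178)))) (XT.nd (nat_lit 156) (nat_lit 0) (nat_lit 76) (XT.nd (nat_lit 78) (nat_lit 0) (nat_lit 76) (XT.lf (nat_lit 76) (nat_lit 29057720061) (nat_lit 0) (nat_lit 38417102155) (nat_lit 1292) (nat_lit 42408265715) (nat_lit 297) (nat_lit 5) (nat_lit 296) (nat_lit 5) (nat_lit 313) (nat_lit 5) (nat_lit 515) (nat_lit 508) (nat_lit 177)) (XT.lf (nat_lit 0) (nat_lit 72469065768) (nat_lit 1216) (nat_lit 24916792509) (nat_lit 1292) (nat_lit 14199056578) (nat_lit 297) (nat_lit 5) (nat_lit 313) (nat_lit 5) (nat_lit 314)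 (nat_lit 5) (nat_lit 516) (nat_lit 508) (nat_lit 176))) (XT.nd (nat_lit 78) (nat_lit 0) (nat_lit 76) (XT.lf (nat_lit 76) (nat_lit 32931130418) (nat_lit 0) (nat_lit 45378715435) (nat_lit 1292) (nat_lit 35007049488) (nat_lit 298) (nat_lit 5) (nat_lit 297) (nat_lit 5) (nat_lit 314) (nat_lit 5) (nat_lit 517) (nat_lit 508) (nat_lit 175)) (XT.lf (nat_lit 0) (nat_lit 84658458599) (nat_lit 1216) (nat_lit 22149384210) (nat_lit 1292) (nat_lit 8283014182) (nat_lit 298) (nat_lit 5) (nat_lit 314) (nat_lit 5) (nat_lit 315) (nat_lit 5) (nat_lit 518) (nat_lit 508) (nat_lit 174))))) (XT.nd (nat_lit 312) (nat_lit 1140) (nat_lit 0) (XT.nd (nat_lit 156) (nat_lit 0) (nat_lit 76) (XT.nd (nat_lit 78) (nat_lit 0) (nat_lit 76) (XT.lf (nat_lit 76) (nat_lit 38128673192) (nat_lit 0) (nat_lit 53884465987) (nat_lit 1292) (nat_lit 24880430056) (nat_lit 299) (nat_lit 5) (nat_lit 298) (nat_lit 5) (nat_lit 315) (nat_lit 5) (nat_lit 519) (nat_lit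 508) (nat_lit 173)) (XT.lf (nat_lit 0) (nat_lit 99820167439) (nat_lit 1216) (nat_lit 18082931007) (nat_lit 1292) (nat_lit 840313209) (nat_lit 299) (nat_lit 5) (nat_lit 315) (nat_lit 5) (nat_lit 316) (nat_lit 5) (nat_lit 520) (nat_lit 508) (nat_lit 172))) (XT.nd (nat_lit 78) (nat_lit 0) (nat_lit 0) (XT.lf (nat_lit 76) (nat_lit 44759248828) (nat_lit 0) (nat_lit 64065730297) (nat_lit 1292) (nat_lit 11794863071) (nat_lit 300) (nat_lit 5) (nat_lit 299) (nat_lit 5) (nat_lit 316) (nat_lit 5) (nat_lit 521) (nat_lit 508) (nat_lit 171)) (XT.lf (nat_lit 76) (nat_lit 109857229126) (nat_lit 0) (nat_lit 8425122041) (nat_lit 1292) (nat_lit 4264742032) (nat_lit 300) (nat_lit 5) (nat_lit 299) (nat_lit 5) (nat_lit 316) (nat_lit 5) (nat_lit 522) (nat_lit 508) (nat_lit 170)))) (XT.nd (nat_lit 61464) (nat_lit 0) (nat_lit 760) (XT.nd (nat_lit 61386) (nat_lit 0) (nat_lit 760) (XT.lf (nat_lit 0) (nat_lit 4411455312) (nat_lit 1292) (nat_lit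 71607094628) (nat_lit 1368) (nat_lit 48482956000) (nat_lit 283) (nat_lit 5) (nat_lit 300) (nat_lit 5) (nat_lit 301) (nat_lit 5) (nat_lit 523) (nat_lit 508) (nat_lit 169)) (XT.lf (nat_lit 0) (nat_lit 25255010624) (nat_lit 1292) (nat_lit 12839202504) (nat_lit 1292) (nat_lit 12839202504) (nat_lit 293) (nat_lit 3) (nat_lit 310) (nat_lit 3) (nat_lit 310) (nat_lit 5) (nat_lit 509) (nat_lit 509) (nat_lit 182))) (XT.nd (nat_lit 78) (nat_lit 0) (nat_lit 76) (XT.lf (nat_lit 76) (nat_lit 25131463976) (nat_lit 0) (nat_lit 26384048635) (nat_lit 1292) (nat_lit 51871885024) (nat_lit 294) (nat_lit 5) (nat_lit 293) (nat_lit 3) (nat_lit 310) (nat_lit 5) (nat_lit 510) (nat_lit 509) (nat_lit 181)) (XT.lf (nat_lit 0) (nat_lit 53052286133) (nat_lit 1216) (nat_lit 27195988077) (nat_lit 1292) (nat_lit 24690273294) (nat_lit 294) (nat_lit 5) (nat_lit 310) (nat_lit 5) (nat_lit 311) (nat_lit 5) (nat_lit 511) (nat_lit 509) (nat_lit 180))))))))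
noncomputable def xc255 : XT := (XT.nd (nat_lit 125424) (nat_lit 0) (nat_lit 0) (XT.nd (nat_lit 62634) (nat_lit 0) (nat_lit 0) (XT.nd (nat_lit 546) (nat_lit 76) (nat_lit 0) (XT.nd (nat_lit 234) (nat_lit 0) (nat_lit 152) (XT.nd (nat_lit 78) (nat_lit 0) (nat_lit 76) (XT.lf (nat_lit 76) (nat_lit 25634618481) (nat_lit 0) (nat_lit 29507950843) (nat_lit 1292) (nat_lit 51378440385) (nat_lit 295) (nat_lit 5) (nat_lit 294) (nat_lit 5) (nat_lit 311) (nat_lit 5) (nat_lit 512) (nat_lit 509) (nat_lit 179)) (XT.nd (nat_lit 78) (nat_lit 0) (nat_lit 0) (XT.lf (nat_lit 0) (nat_lit 57791406436) (nat_lit 1216) (nat_lit 27756662268) (nat_lit 1292) (nat_lit 22588001744) (nat_lit 295) (nat_lit 5) (nat_lit 311) (nat_lit 5) (nat_lit 312) (nat_lit 5) (nat_lit 513) (nat_lit 509) (nat_lit 178)) (XT.lf (nat_lit 76) (nat_lit 27205543266) (nat_lit 0) (nat_lit 33867615605) (nat_lit 1292) (nat_lit 48709820665) (nat_lit 296) (nat_lit 5) (nat_lit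 295) (nat_lit 5) (nat_lit 312) (nat_lit 5) (nat_lit 514) (nat_lit 509) (nat_lit 177)))) (XT.nd (nat_lit 156) (nat_lit 0) (nat_lit 76) (XT.nd (nat_lit 78) (nat_lit 0) (nat_lit 0) (XT.lf (nat_lit 0) (nat_lit 64922340292) (nat_lit 1216) (nat_lit 27274336053) (nat_lit 1292) (nat_lit 19268550288) (nat_lit 296) (nat_lit 5) (nat_lit 312) (nat_lit 5) (nat_lit 313) (nat_lit 5) (nat_lit 515) (nat_lit 509) (nat_lit 176)) (XT.lf (nat_lit 76) (nat_lit 29936567035) (nat_lit 0) (nat_lit 39573309998) (nat_lit 1292) (nat_lit 43669377744) (nat_lit 297) (nat_lit 5) (nat_lit 296) (nat_lit 5) (nat_lit 313) (nat_lit 5) (nat_lit 516) (nat_lit 509) (nat_lit 175))) (XT.nd (nat_lit 78) (nat_lit 0) (nat_lit 0) (XT.lf (nat_lit 0) (nat_lit 74653598551) (nat_lit 1216) (nat_lit 25657037372) (nat_lit 1292) (nat_lit 14621511110) (nat_lit 297) (nat_lit 5) (nat_lit 313) (nat_lit 5) (nat_lit 314) (nat_lit 5) (nat_lit 517) (nat_lit 509) (nat_lit 174))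 (XT.lf (nat_lit 76) (nat_lit 33926252078) (nat_lit 0) (nat_lit 46743114370) (nat_lit 1292) (nat_lit 36046727594) (nat_lit 298) (nat_lit 5) (nat_lit 297) (nat_lit 5) (nat_lit 314) (nat_lit 5) (nat_lit 518) (nat_lit 509) (nat_lit 173))))) (XT.nd (nat_lit 61776) (nat_lit 380) (nat_lit 0) (XT.nd (nat_lit 156) (nat_lit 0) (nat_lit 76) (XT.nd (nat_lit 78) (nat_lit 0) (nat_lit 0) (XT.lf (nat_lit 0) (nat_lit 87208111407) (nat_lit 1216) (nat_lit 22806559810) (nat_lit 1292) (nat_lit 8528613151) (nat_lit 298) (nat_lit 5) (nat_lit 314) (nat_lit 5) (nat_lit 315) (nat_lit 5) (nat_lit 519) (nat_lit 509) (nat_lit 172)) (XT.lf (nat_lit 76) (nat_lit 39279767687) (nat_lit 0) (nat_lit 55503445935) (nat_lit 1292) (nat_lit 25616870960) (nat_lit 299) (nat_lit 5) (nat_lit 298) (nat_lit 5) (nat_lit 315) (nat_lit 5) (nat_lit 520) (nat_lit 509) (nat_lit 171))) (XT.nd (nat_lit 78) (nat_lit 0) (nat_lit 0) (XT.lf (nat_lit 0) (nat_lit 102824147954)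 (nat_lit 1216) (nat_lit 18618089285) (nat_lit 1292) (nat_lit 863194218) (nat_lit 299) (nat_lit 5) (nat_lit 315) (nat_lit 5) (nat_lit 316) (nat_lit 5) (nat_lit 521) (nat_lit 509) (nat_lit 170)) (XT.lf (nat_lit 76) (nat_lit 46109284085) (nat_lit 0) (nat_lit 65989616599) (nat_lit 1292) (nat_lit 12139260367) (nat_lit 300) (nat_lit 5) (nat_lit 299) (nat_lit 5) (nat_lit 316) (nat_lit 5) (nat_lit 522) (nat_lit 509) (nat_lit 169)))) (XT.nd (nat_lit 156) (nat_lit 0) (nat_lit 76) (XT.nd (nat_lit 78) (nat_lit 0) (nat_lit 0) (XT.lf (nat_lit 0) (nat_lit 26018862786) (nat_lit 1292) (nat_lit 13221184199) (nat_lit 1292) (nat_lit 13221184199) (nat_lit 293) (nat_lit 3) (nat_lit 310) (nat_lit 3) (nat_lit 310) (nat_lit 5) (nat_lit 510) (nat_lit 510) (nat_lit 180)) (XT.lf (nat_lit 76) (nat_lit 25891734020) (nat_lit 0) (nat_lit 27181347192) (nat_lit 1292) (nat_lit 53415573580) (nat_lit 294) (nat_lit 5) (nat_lit 293) (nat_lit 3) (nat_lit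 310) (nat_lit 5) (nat_lit 511) (nat_lit 510) (nat_lit 179))) (XT.nd (nat_lit 78) (nat_lit 0) (nat_lit 0) (XT.lf (nat_lit 0) (nat_lit 54655551503) (nat_lit 1216) (nat_lit 28005317788) (nat_lit 1292) (nat_lit 25425482108) (nat_lit 294) (nat_lit 5) (nat_lit 310) (nat_lit 5) (nat_lit 311) (nat_lit 5) (nat_lit 512) (nat_lit 510) (nat_lit 178)) (XT.lf (nat_lit 76) (nat_lit 26410142752) (nat_lit 0) (nat_lit 30398122100) (nat_lit 1292) (nat_lit 52908031017) (nat_lit 295) (nat_lit 5) (nat_lit 294) (nat_lit 5) (nat_lit 311) (nat_lit 5) (nat_lit 513) (nat_lit 510) (nat_lit 177)))))) (XT.nd (nat_lit 546) (nat_lit 152) (nat_lit 0) (XT.nd (nat_lit 234) (nat_lit 0) (nat_lit 76) (XT.nd (nat_lit 78) (nat_lit 0) (nat_lit 0) (XT.lf (nat_lit 0) (nat_lit 59536188465) (nat_lit 1216) (nat_lit 28582685181) (nat_lit 1292) (nat_lit 23260946188) (nat_lit 295) (nat_lit 5) (nat_lit 311) (nat_lit 5) (nat_lit 312) (nat_lit 5) (nat_lit 514) (nat_lit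 510) (nat_lit 176)) (XT.nd (nat_lit 78) (nat_lit 0) (nat_lit 76) (XT.lf (nat_lit 76) (nat_lit 28028321059) (nat_lit 0) (nat_lit 34887814420) (nat_lit 1292) (nat_lit 50160008500) (nat_lit 296) (nat_lit 5) (nat_lit 295) (nat_lit 5) (nat_lit 312) (nat_lit 5) (nat_lit 515) (nat_lit 510) (nat_lit 175)) (XT.lf (nat_lit 0) (nat_lit 66880439388) (nat_lit 1216) (nat_lit 28085792809) (nat_lit 1292) (nat_lit 19842636925) (nat_lit 296) (nat_lit 5) (nat_lit 312) (nat_lit 5) (nat_lit 313) (nat_lit 5) (nat_lit 516) (nat_lit 510) (nat_lit 174)))) (XT.nd (nat_lit 156) (nat_lit 0) (nat_lit 76) (XT.nd (nat_lit 78) (nat_lit 0) (nat_lit 76) (XT.lf (nat_lit 76) (nat_lit 30841370966) (nat_lit 0) (nat_lit 40763991982) (nat_lit 1292) (nat_lit 44968962382) (nat_lit 297) (nat_lit 5) (nat_lit 296) (nat_lit 5) (nat_lit 313) (nat_lit 5) (nat_lit 517) (nat_lit 510) (nat_lit 173)) (XT.lf (nat_lit 0) (nat_lit 76903066825) (nat_lit 1216) (nat_lit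 26419906271) (nat_lit 1292) (nat_lit 15056841177) (nat_lit 297) (nat_lit 5) (nat_lit 313) (nat_lit 5) (nat_lit 314) (nat_lit 5) (nat_lit 518) (nat_lit 510) (nat_lit 172))) (XT.nd (nat_lit 78) (nat_lit 0) (nat_lit 76) (XT.lf (nat_lit 76) (nat_lit 34950814781) (nat_lit 0) (nat_lit 48148270910) (nat_lit 1292) (nat_lit 37118200703) (nat_lit 298) (nat_lit 5) (nat_lit 297) (nat_lit 5) (nat_lit 314) (nat_lit 5) (nat_lit 519) (nat_lit 510) (nat_lit 171)) (XT.lf (nat_lit 0) (nat_lit 89833685553) (nat_lit 1216) (nat_lit 23483870068) (nat_lit 1292) (nat_lit 8781746070) (nat_lit 298) (nat_lit 5) (nat_lit 314) (nat_lit 5) (nat_lit 315) (nat_lit 5) (nat_lit 520) (nat_lit 510) (nat_lit 170))))) (XT.nd (nat_lit 61932) (nat_lit 0) (nat_lit 76) (XT.nd (nat_lit 61776) (nat_lit 0) (nat_lit 0) (XT.nd (nat_lit 61698) (nat_lit 380) (nat_lit 0) (XT.lf (nat_lit 76) (nat_lit 40464979739) (nat_lit 0) (nat_lit 57170854874) (nat_lit 1292) (nat_lit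 26375977524) (nat_lit 299) (nat_lit 5) (nat_lit 298) (nat_lit 5) (nat_lit 315) (nat_lit 5) (nat_lit 521) (nat_lit 510) (nat_lit 169)) (XT.lf (nat_lit 0) (nat_lit 26805274500) (nat_lit 1292) (nat_lit 13614808716) (nat_lit 1292) (nat_lit 13614808716) (nat_lit 293) (nat_lit 3) (nat_lit 310) (nat_lit 3) (nat_lit 310) (nat_lit 5) (nat_lit 511) (nat_lit 511) (nat_lit 178))) (XT.nd (nat_lit 78) (nat_lit 0) (nat_lit 76) (XT.lf (nat_lit 76) (nat_lit 26674449020) (nat_lit 0) (nat_lit 28002233077) (nat_lit 1292) (nat_lit 55006288508) (nat_lit 294) (nat_lit 5) (nat_lit 293) (nat_lit 3) (nat_lit 310) (nat_lit 5) (nat_lit 512) (nat_lit 511) (nat_lit 177)) (XT.lf (nat_lit 0) (nat_lit 56306243392) (nat_lit 1216) (nat_lit 28839303384) (nat_lit 1292) (nat_lit 26183062874) (nat_lit 294) (nat_lit 5) (nat_lit 310) (nat_lit 5) (nat_lit 311) (nat_lit 5) (nat_lit 513) (nat_lit 511) (nat_lit 176)))) (XT.nd (nat_lit 156) (nat_lit 0) (nat_lit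 76) (XT.nd (nat_lit 78) (nat_lit 0) (nat_lit 76) (XT.lf (nat_lit 76) (nat_lit 27208560443) (nat_lit 0) (nat_lit 31314715336) (nat_lit 1292) (nat_lit 54484184588) (nat_lit 295) (nat_lit 5) (nat_lit 294) (nat_lit 5) (nat_lit 311) (nat_lit 5) (nat_lit 514) (nat_lit 511) (nat_lit 175)) (XT.lf (nat_lit 0) (nat_lit 61332680224) (nat_lit 1216) (nat_lit 29433872066) (nat_lit 1292) (nat_lit 23954348512) (nat_lit 295) (nat_lit 5) (nat_lit 311) (nat_lit 5) (nat_lit 312) (nat_lit 5) (nat_lit 515) (nat_lit 511) (nat_lit 174))) (XT.nd (nat_lit 78) (nat_lit 0) (nat_lit 76) (XT.lf (nat_lit 76) (nat_lit 28875402659) (nat_lit 0) (nat_lit 35938379804) (nat_lit 1292) (nat_lit 51654339546) (nat_lit 296) (nat_lit 5) (nat_lit 295) (nat_lit 5) (nat_lit 312) (nat_lit 5) (nat_lit 516) (nat_lit 511) (nat_lit 173)) (XT.lf (nat_lit 0) (nat_lit 68896682796) (nat_lit 1216) (nat_lit 28921982084) (nat_lit 1292) (nat_lit 20434174047) (nat_lit 296)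 (nat_lit 5) (nat_lit 312) (nat_lit 5) (nat_lit 313) (nat_lit 5) (nat_lit 517) (nat_lit 511) (nat_lit 172))))))) (XT.nd (nat_lit 124722) (nat_lit 0) (nat_lit 0) (XT.nd (nat_lit 62244) (nat_lit 0) (nat_lit 0) (XT.nd (nat_lit 234) (nat_lit 228) (nat_lit 0) (XT.nd (nat_lit 78) (nat_lit 0) (nat_lit 76) (XT.lf (nat_lit 76) (nat_lit 31772934011) (nat_lit 0) (nat_lit 41990194505) (nat_lit 1292) (nat_lit 46308137112) (nat_lit 297) (nat_lit 5) (nat_lit 296) (nat_lit 5) (nat_lit 313) (nat_lit 5) (nat_lit 518) (nat_lit 511) (nat_lit 171)) (XT.nd (nat_lit 78) (nat_lit 0) (nat_lit 0) (XT.lf (nat_lit 0) (nat_lit 79219453124) (nat_lit 1216) (nat_lit 27206054009) (nat_lit 1292) (nat_lit 15505421456) (nat_lit 297) (nat_lit 5) (nat_lit 313) (nat_lit 5) (nat_lit 314) (nat_lit 5) (nat_lit 519) (nat_lit 511) (nat_lit 170)) (XT.lf (nat_lit 76) (nat_lit 36005725445) (nat_lit 0) (nat_lit 49595417792) (nat_lit 1292) (nat_lit 38222387954)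 (nat_lit 298) (nat_lit 5) (nat_lit 297) (nat_lit 5) (nat_lit 314) (nat_lit 5) (nat_lit 520) (nat_lit 511) (nat_lit 169)))) (XT.nd (nat_lit 61854) (nat_lit 0) (nat_lit 0) (XT.nd (nat_lit 61776) (nat_lit 380) (nat_lit 0) (XT.lf (nat_lit 0) (nat_lit 92537491297) (nat_lit 1216) (nat_lit 24181894950) (nat_lit 1292) (nat_lit 9042629431) (nat_lit 298) (nat_lit 5) (nat_lit 314) (nat_lit 5) (nat_lit 315) (nat_lit 5) (nat_lit 521) (nat_lit 511) (nat_lit 168)) (XT.lf (nat_lit 0) (nat_lit 27614942992) (nat_lit 1292) (nat_lit 14020414812) (nat_lit 1292) (nat_lit 14020414812) (nat_lit 293) (nat_lit 3) (nat_lit 310) (nat_lit 3) (nat_lit 310) (nat_lit 5) (nat_lit 512) (nat_lit 512) (nat_lit 176))) (XT.nd (nat_lit 78) (nat_lit 0) (nat_lit 76) (XT.lf (nat_lit 76) (nat_lit 27480303171) (nat_lit 0) (nat_lit 28847432946) (nat_lit 1292) (nat_lit 56645399512) (nat_lit 294) (nat_lit 5) (nat_lit 293) (nat_lit 3) (nat_lit 310) (nat_lit 5)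 (nat_lit 513) (nat_lit 512) (nat_lit 175)) (XT.lf (nat_lit 0) (nat_lit 58005823137) (nat_lit 1216) (nat_lit 29698662956) (nat_lit 1292) (nat_lit 26963668628) (nat_lit 294) (nat_lit 5) (nat_lit 310) (nat_lit 5) (nat_lit 311) (nat_lit 5) (nat_lit 514) (nat_lit 512) (nat_lit 174))))) (XT.nd (nat_lit 312) (nat_lit 76) (nat_lit 0) (XT.nd (nat_lit 156) (nat_lit 0) (nat_lit 76) (XT.nd (nat_lit 78) (nat_lit 0) (nat_lit 76) (XT.lf (nat_lit 76) (nat_lit 28030579731) (nat_lit 0) (nat_lit 32258539465) (nat_lit 1292) (nat_lit 56108259226) (nat_lit 295) (nat_lit 5) (nat_lit 294) (nat_lit 5) (nat_lit 311) (nat_lit 5) (nat_lit 515) (nat_lit 512) (nat_lit 173)) (XT.lf (nat_lit 0) (nat_lit 63182469383) (nat_lit 1216) (nat_lit 30310955840) (nat_lit 1292) (nat_lit 24668806980) (nat_lit 295) (nat_lit 5) (nat_lit 311) (nat_lit 5) (nat_lit 312) (nat_lit 5) (nat_lit 516) (nat_lit 512) (nat_lit 172))) (XT.nd (nat_lit 78) (nat_lit 0) (nat_lit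 76) (XT.lf (nat_lit 76) (nat_lit 29747538966) (nat_lit 0) (nat_lit 37020236497) (nat_lit 1292) (nat_lit 53194101498) (nat_lit 296) (nat_lit 5) (nat_lit 295) (nat_lit 5) (nat_lit 312) (nat_lit 5) (nat_lit 517) (nat_lit 512) (nat_lit 171)) (XT.lf (nat_lit 0) (nat_lit 70972849211) (nat_lit 1216) (nat_lit 29783623534) (nat_lit 1292) (nat_lit 21043672089) (nat_lit 296) (nat_lit 5) (nat_lit 312) (nat_lit 5) (nat_lit 313) (nat_lit 5) (nat_lit 518) (nat_lit 512) (nat_lit 170)))) (XT.nd (nat_lit 62010) (nat_lit 228) (nat_lit 0) (XT.nd (nat_lit 78) (nat_lit 0) (nat_lit 76) (XT.lf (nat_lit 76) (nat_lit 32732081043) (nat_lit 0) (nat_lit 43252994659) (nat_lit 1292) (nat_lit 47688055049) (nat_lit 297) (nat_lit 5) (nat_lit 296) (nat_lit 5) (nat_lit 313) (nat_lit 5) (nat_lit 519) (nat_lit 512) (nat_lit 169)) (XT.lf (nat_lit 0) (nat_lit 81604797482) (nat_lit 1216) (nat_lit 28016156404) (nat_lit 1292) (nat_lit 15967638529) (nat_lit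 297) (nat_lit 5) (nat_lit 313) (nat_lit 5) (nat_lit 314) (nat_lit 5) (nat_lit 520) (nat_lit 512) (nat_lit 168))) (XT.nd (nat_lit 78) (nat_lit 0) (nat_lit 0) (XT.lf (nat_lit 0) (nat_lit 28448585227) (nat_lit 1292) (nat_lit 14438352014) (nat_lit 1292) (nat_lit 14438352014) (nat_lit 293) (nat_lit 3) (nat_lit 310) (nat_lit 3) (nat_lit 310) (nat_lit 5) (nat_lit 513) (nat_lit 513) (nat_lit 174)) (XT.lf (nat_lit 76) (nat_lit 28310010296) (nat_lit 0) (nat_lit 29717694163) (nat_lit 1292) (nat_lit 58334319749) (nat_lit 294) (nat_lit 5) (nat_lit 293) (nat_lit 3) (nat_lit 310) (nat_lit 5) (nat_lit 514) (nat_lit 513) (nat_lit 173)))))) (XT.nd (nat_lit 62634) (nat_lit 0) (nat_lit 0) (XT.nd (nat_lit 312) (nat_lit 76) (nat_lit 0) (XT.nd (nat_lit 156) (nat_lit 0) (nat_lit 76) (XT.nd (nat_lit 78) (nat_lit 0) (nat_lit 0) (XT.lf (nat_lit 0) (nat_lit 59755793705) (nat_lit 1216) (nat_lit 30584137381) (nat_lit 1292) (nat_lit 27767973039)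 (nat_lit 294) (nat_lit 5) (nat_lit 310) (nat_lit 5) (nat_lit 311) (nat_lit 5) (nat_lit 515) (nat_lit 513) (nat_lit 172)) (XT.lf (nat_lit 76) (nat_lit 28876928808) (nat_lit 0) (nat_lit 33230426734) (nat_lit 1292) (nat_lit 57781656027) (nat_lit 295) (nat_lit 5) (nat_lit 294) (nat_lit 5) (nat_lit 311) (nat_lit 5) (nat_lit 516) (nat_lit 513) (nat_lit 171))) (XT.nd (nat_lit 78) (nat_lit 0) (nat_lit 0) (XT.lf (nat_lit 0) (nat_lit 65087189154) (nat_lit 1216) (nat_lit 31214692670) (nat_lit 1292) (nat_lit 25404938692) (nat_lit 295) (nat_lit 5) (nat_lit 311) (nat_lit 5) (nat_lit 312) (nat_lit 5) (nat_lit 517) (nat_lit 513) (nat_lit 170)) (XT.lf (nat_lit 76) (nat_lit 30645502158) (nat_lit 0) (nat_lit 38134336192) (nat_lit 1292) (nat_lit 54780622786) (nat_lit 296) (nat_lit 5) (nat_lit 295) (nat_lit 5) (nat_lit 312) (nat_lit 5) (nat_lit 518) (nat_lit 513) (nat_lit 169)))) (XT.nd (nat_lit 62166) (nat_lit 0) (nat_lit 0) (XT.nd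 (nat_lit 62088) (nat_lit 228) (nat_lit 0) (XT.lf (nat_lit 0) (nat_lit 73110768716) (nat_lit 1216) (nat_lit 30671459687) (nat_lit 1292) (nat_lit 21671657546) (nat_lit 296) (nat_lit 5) (nat_lit 312) (nat_lit 5) (nat_lit 313) (nat_lit 5) (nat_lit 519) (nat_lit 513) (nat_lit 168)) (XT.lf (nat_lit 0) (nat_lit 29306938576) (nat_lit 1292) (nat_lit 14868980901) (nat_lit 1292) (nat_lit 14868980901) (nat_lit 293) (nat_lit 3) (nat_lit 310) (nat_lit 3) (nat_lit 310) (nat_lit 5) (nat_lit 514) (nat_lit 514) (nat_lit 172))) (XT.nd (nat_lit 78) (nat_lit 0) (nat_lit 76) (XT.lf (nat_lit 76) (nat_lit 29164304506) (nat_lit 0) (nat_lit 30613785482) (nat_lit 1292) (nat_lit 60074506992) (nat_lit 294) (nat_lit 5) (nat_lit 293) (nat_lit 3) (nat_lit 310) (nat_lit 5) (nat_lit 515) (nat_lit 514) (nat_lit 171)) (XT.lf (nat_lit 0) (nat_lit 61557701068) (nat_lit 1216) (nat_lit 31496490927) (nat_lit 1292) (nat_lit 28596670965) (nat_lit 294) (nat_lit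 5) (nat_lit 310) (nat_lit 5) (nat_lit 311) (nat_lit 5) (nat_lit 516) (nat_lit 514) (nat_lit 170))))) (XT.nd (nat_lit 62400) (nat_lit 0) (nat_lit 0) (XT.nd (nat_lit 156) (nat_lit 76) (nat_lit 0) (XT.nd (nat_lit 78) (nat_lit 0) (nat_lit 76) (XT.lf (nat_lit 76) (nat_lit 29748356556) (nat_lit 0) (nat_lit 34231233481) (nat_lit 1292) (nat_lit 59505820219) (nat_lit 295) (nat_lit 5) (nat_lit 294) (nat_lit 5) (nat_lit 311) (nat_lit 5) (nat_lit 517) (nat_lit 514) (nat_lit 169)) (XT.lf (nat_lit 0) (nat_lit 67048519777) (nat_lit 1216) (nat_lit 32145862600) (nat_lit 1292) (nat_lit 26163380096) (nat_lit 295) (nat_lit 5) (nat_lit 311) (nat_lit 5) (nat_lit 312) (nat_lit 5) (nat_lit 518) (nat_lit 514) (nat_lit 168))) (XT.nd (nat_lit 62166) (nat_lit 152) (nat_lit 0) (XT.lf (nat_lit 76) (nat_lit 31570086398) (nat_lit 0) (nat_lit 39281658388) (nat_lit 1292) (nat_lit 56415273672) (nat_lit 296) (nat_lit 5) (nat_lit 295) (nat_lit 5) (nat_lit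 312) (nat_lit 5) (nat_lit 519) (nat_lit 514) (nat_lit 167)) (XT.lf (nat_lit 0) (nat_lit 30190761486) (nat_lit 1292) (nat_lit 15312673409) (nat_lit 1292) (nat_lit 15312673409) (nat_lit 293) (nat_lit 3) (nat_lit 310) (nat_lit 3) (nat_lit 310) (nat_lit 5) (nat_lit 515) (nat_lit 515) (nat_lit 170)))) (XT.nd (nat_lit 156) (nat_lit 0) (nat_lit 0) (XT.nd (nat_lit 78) (nat_lit 0) (nat_lit 76) (XT.lf (nat_lit 76) (nat_lit 30043940873) (nat_lit 0) (nat_lit 31536497750) (nat_lit 1292) (nat_lit 61867464843) (nat_lit 294) (nat_lit 5) (nat_lit 293) (nat_lit 3) (nat_lit 310) (nat_lit 5) (nat_lit 516) (nat_lit 515) (nat_lit 169)) (XT.lf (nat_lit 0) (nat_lit 63413135608) (nat_lit 1216) (nat_lit 32436511891) (nat_lit 1292) (nat_lit 29450479036) (nat_lit 294) (nat_lit 5) (nat_lit 310) (nat_lit 5) (nat_lit 311) (nat_lit 5) (nat_lit 517) (nat_lit 515) (nat_lit 168))) (XT.nd (nat_lit 62400) (nat_lit 76) (nat_lit 0) (XT.lf (nat_lit 76)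 (nat_lit 30645633235) (nat_lit 0) (nat_lit 35261840901) (nat_lit 1292) (nat_lit 61282242362) (nat_lit 295) (nat_lit 5) (nat_lit 294) (nat_lit 5) (nat_lit 311) (nat_lit 5) (nat_lit 518) (nat_lit 515) (nat_lit 167)) (XT.lf (nat_lit 76) (nat_lit 30949696116) (nat_lit 0) (nat_lit 32486644623) (nat_lit 1292) (nat_lit 63714743988) (nat_lit 294) (nat_lit 5) (nat_lit 293) (nat_lit 3) (nat_lit 310) (nat_lit 5) (nat_lit 517) (nat_lit 516) (nat_lit 167))))))))

set_option maxRecDepth 10000000 in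
noncomputable def Tp : PT := (PT.nd (nat_lit 12947142) (PT.nd (nat_lit 11700078) (PT.nd (nat_lit 10388118) (PT.nd (nat_lit 8889660) (PT.nd (nat_lit 7453680) (PT.nd (nat_lit 6517056) pc0 pc1) (PT.nd (nat_lit 811590) pc2 pc3)) (PT.nd (nat_lit 874224) (PT.nd (nat_lit 499434) pc4 pc5) (PT.nd (nat_lit 312390) pc6 pc7))) (PT.nd (nat_lit 811512) (PT.nd (nat_lit 437190) (PT.nd (nat_lit 249600) pc8 pc9) (PT.nd (nat_lit 187356) pc10 pc11)) (PT.nd (nat_lit 250614) (PT.nd (nat_lit 125424) pc12 pc13) (PT.nd (nat_lit 124956) pc14 pc15)))) (PT.nd (nat_lit 748332) (PT.nd (nat_lit 435942) (PT.nd (nat_lit 248742) (PT.nd (nat_lit 124488) pc16 pc17) (PT.nd (nat_lit 63414) pc18 pc19)) (PT.nd (nat_lit 126360) (PT.nd (nat_lit 63180) pc20 pc21) (PT.nd (nat_lit 123162) pc22 pc23))) (PT.nd (nat_lit 250302) (PT.nd (nat_lit 125268) (PT.nd (nat_lit 62634) pc24 pc25) (PT.nd (nat_lit 62556) pc26 pc27)) (PT.nd (nat_lit 124410) (PT.nd (nat_lit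 62244) pc28 pc29) (PT.nd (nat_lit 62088) pc30 pc31))))) (PT.nd (nat_lit 686790) (PT.nd (nat_lit 374244) (PT.nd (nat_lit 187668) (PT.nd (nat_lit 64662) (PT.nd (nat_lit 2886) pc32 pc33) (PT.nd (nat_lit 61542) pc34 pc35)) (PT.nd (nat_lit 64272) (PT.nd (nat_lit 61308) pc36 pc37) (PT.nd (nat_lit 61230) pc38 pc39))) (PT.nd (nat_lit 127452) (PT.nd (nat_lit 63804) (PT.nd (nat_lit 2886) pc40 pc41) (PT.nd (nat_lit 60684) pc42 pc43)) (PT.nd (nat_lit 63414) (PT.nd (nat_lit 60450) pc44 pc45) (PT.nd (nat_lit 61464) pc46 pc47)))) (PT.nd (nat_lit 691236) (PT.nd (nat_lit 253578) (PT.nd (nat_lit 124254) (PT.nd (nat_lit 61932) pc48 pc49) (PT.nd (nat_lit 65988) pc50 pc51)) (PT.nd (nat_lit 187668) (PT.nd (nat_lit 119418) pc52 pc53) (PT.nd (nat_lit 124800) pc54 pc55))) (PT.nd (nat_lit 688428) (PT.nd (nat_lit 312702) (PT.nd (nat_lit 125502) pc56 pc57) (PT.nd (nat_lit 179478) pc58 pc59)) (PT.nd (nat_lit 489216) (PT.nd (nat_lit 249990)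 pc60 pc61) (PT.nd (nat_lit 249132) pc62 pc63))))))

set_option maxRecDepth 10000000 in
noncomputable def Tx : XT := (XT.nd (nat_lit 20286006) (nat_lit 0) (nat_lit 456) XT.nil (XT.nd (nat_lit 11993046) (nat_lit 0) (nat_lit 0) (XT.nd (nat_lit 5552664) (nat_lit 0) (nat_lit 2736) (XT.nd (nat_lit 3808818) (nat_lit 0) (nat_lit 1292) (XT.nd (nat_lit 2682108) (nat_lit 0) (nat_lit 684) (XT.nd (nat_lit 1871142) (nat_lit 0) (nat_lit 380) (XT.nd (nat_lit 1308918) (nat_lit 0) (nat_lit 152) (XT.nd (nat_lit 873912) (nat_lit 0) (nat_lit 152) (XT.nd (nat_lit 623298) (nat_lit 0) (nat_lit 0) (XT.nd (nat_lit 374868) (nat_lit 0) (nat_lit 0) xc0 xc1) (XT.nd (nat_lit 125580) (nat_lit 0) (nat_lit 152) xc2 xc3)) (XT.nd (nat_lit 248118) (nat_lit 0) (nat_lit 0) (XT.nd (nat_lit 124332) (nat_lit 0) (nat_lit 0) xc4 xc5) (XT.nd (nat_lit 64038) (nat_lit 0) (nat_lit 0) xc6 xc7))) (XT.nd (nat_lit 311766) (nat_lit 0) (nat_lit 76) (XT.nd (nat_lit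 126984) (nat_lit 0) (nat_lit 76) (XT.nd (nat_lit 63492) (nat_lit 0) (nat_lit 76) xc8 xc9) (XT.nd (nat_lit 63336) (nat_lit 0) (nat_lit 0) xc10 xc11)) (XT.nd (nat_lit 125502) (nat_lit 0) (nat_lit 76) (XT.nd (nat_lit 62790) (nat_lit 0) (nat_lit 0) xc12 xc13) (XT.nd (nat_lit 62556) (nat_lit 0) (nat_lit 76) xc14 xc15)))) (XT.nd (nat_lit 437034) (nat_lit 0) (nat_lit 76) (XT.nd (nat_lit 247962) (nat_lit 0) (nat_lit 76) (XT.nd (nat_lit 124254) (nat_lit 0) (nat_lit 0) (XT.nd (nat_lit 62166) (nat_lit 0) (nat_lit 0) xc16 xc17) (XT.nd (nat_lit 61932) (nat_lit 0) (nat_lit 0) xc18 xc19)) (XT.nd (nat_lit 66300) (nat_lit 0) (nat_lit 0) (XT.nd (nat_lit 4680) (nat_lit 228) (nat_lit 0) xc20 xc21) (XT.nd (nat_lit 61464) (nat_lit 0) (nat_lit 0) xc22 xc23))) (XT.nd (nat_lit 187668) (nat_lit 0) (nat_lit 152) (XT.nd (nat_lit 65832) (nat_lit 0) (nat_lit 0) (XT.nd (nat_lit 61074) (nat_lit 0) (nat_lit 152) xc24 xc25) (XT.nd (nat_lit 60996)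 (nat_lit 0) (nat_lit 76) xc26 xc27)) (XT.nd (nat_lit 65364) (nat_lit 0) (nat_lit 0) (XT.nd (nat_lit 60606) (nat_lit 0) (nat_lit 228) xc28 xc29) (XT.nd (nat_lit 60528) (nat_lit 0) (nat_lit 0) xc30 xc31))))) (XT.nd (nat_lit 623454) (nat_lit 0) (nat_lit 304) (XT.nd (nat_lit 313638) (nat_lit 0) (nat_lit 152) (XT.nd (nat_lit 184860) (nat_lit 0) (nat_lit 0) (XT.nd (nat_lit 64896) (nat_lit 0) (nat_lit 0) (XT.nd (nat_lit 60138) (nat_lit 0) (nat_lit 1140) xc32 xc33) (XT.nd (nat_lit 60060) (nat_lit 0) (nat_lit 0) xc34 xc35)) (XT.nd (nat_lit 64428) (nat_lit 0) (nat_lit 76) (XT.nd (nat_lit 4680) (nat_lit 1520) (nat_lit 0) xc36 xc37) (XT.nd (nat_lit 4758) (nat_lit 152) (nat_lit 0) xc38 xc39))) (XT.nd (nat_lit 128154) (nat_lit 0) (nat_lit 0) (XT.nd (nat_lit 64116) (nat_lit 0) (nat_lit 0) (XT.nd (nat_lit 59358) (nat_lit 0) (nat_lit 912) xc40 xc41) (XT.nd (nat_lit 59280) (nat_lit 0) (nat_lit 76) xc42 xc43)) (XT.nd (nat_lit 118014)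 (nat_lit 0) (nat_lit 76) (XT.nd (nat_lit 59046) (nat_lit 0) (nat_lit 76) xc44 xc45) (XT.nd (nat_lit 4758) (nat_lit 1368) (nat_lit 0) xc46 xc47)))) (XT.nd (nat_lit 252876) (nat_lit 0) (nat_lit 152) (XT.nd (nat_lit 126750) (nat_lit 0) (nat_lit 76) (XT.nd (nat_lit 63414) (nat_lit 0) (nat_lit 76) (XT.nd (nat_lit 4680) (nat_lit 608) (nat_lit 0) xc48 xc49) (XT.nd (nat_lit 4758) (nat_lit 0) (nat_lit 0) xc50 xc51)) (XT.nd (nat_lit 63102) (nat_lit 0) (nat_lit 0) (XT.nd (nat_lit 58344) (nat_lit 0) (nat_lit 2356) xc52 xc53) (XT.nd (nat_lit 58266) (nat_lit 0) (nat_lit 1900) xc54 xc55))) (XT.nd (nat_lit 125502) (nat_lit 0) (nat_lit 0) (XT.nd (nat_lit 62790) (nat_lit 0) (nat_lit 0) (XT.nd (nat_lit 58032) (nat_lit 0) (nat_lit 1672) xc56 xc57) (XT.nd (nat_lit 57954) (nat_lit 0) (nat_lit 1520) xc58 xc59)) (XT.nd (nat_lit 62478) (nat_lit 0) (nat_lit 152) (XT.nd (nat_lit 57720) (nat_lit 0) (nat_lit 1596) xc60 xc61) (XT.nd (nat_lit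 57642) (nat_lit 0) (nat_lit 1520) xc62 xc63)))))) (XT.nd (nat_lit 876018) (nat_lit 0) (nat_lit 684) (XT.nd (nat_lit 493272) (nat_lit 0) (nat_lit 304) (XT.nd (nat_lit 247884) (nat_lit 0) (nat_lit 152) (XT.nd (nat_lit 124254) (nat_lit 0) (nat_lit 76) (XT.nd (nat_lit 62166) (nat_lit 0) (nat_lit 0) (XT.nd (nat_lit 57408) (nat_lit 0) (nat_lit 1824) xc64 xc65) (XT.nd (nat_lit 57330) (nat_lit 0) (nat_lit 2204) xc66 xc67)) (XT.nd (nat_lit 61854) (nat_lit 0) (nat_lit 0) (XT.nd (nat_lit 57096) (nat_lit 0) (nat_lit 2812) xc68 xc69) (XT.nd (nat_lit 57018) (nat_lit 0) (nat_lit 3724) xc70 xc71))) (XT.nd (nat_lit 123006) (nat_lit 0) (nat_lit 76) (XT.nd (nat_lit 61542) (nat_lit 0) (nat_lit 76) (XT.nd (nat_lit 56784) (nat_lit 0) (nat_lit 4864) xc72 xc73) (XT.nd (nat_lit 4758) (nat_lit 304) (nat_lit 0) xc74 xc75)) (XT.nd (nat_lit 61230) (nat_lit 0) (nat_lit 76) (XT.nd (nat_lit 4680) (nat_lit 1064) (nat_lit 0) xc76 xc77) (XT.nd (nat_lit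 4758) (nat_lit 1900) (nat_lit 0) xc78 xc79)))) (XT.nd (nat_lit 192036) (nat_lit 0) (nat_lit 228) (XT.nd (nat_lit 70434) (nat_lit 0) (nat_lit 152) (XT.nd (nat_lit 60918) (nat_lit 0) (nat_lit 684) (XT.nd (nat_lit 4680) (nat_lit 3496) (nat_lit 0) xc80 xc81) (XT.nd (nat_lit 4758) (nat_lit 5016) (nat_lit 0) xc82 xc83)) (XT.nd (nat_lit 60840) (nat_lit 0) (nat_lit 0) (XT.nd (nat_lit 56082) (nat_lit 0) (nat_lit 1748) xc84 xc85) (XT.nd (nat_lit 56004) (nat_lit 0) (nat_lit 3724) xc86 xc87))) (XT.nd (nat_lit 120978) (nat_lit 0) (nat_lit 76) (XT.nd (nat_lit 60528) (nat_lit 0) (nat_lit 0) (XT.nd (nat_lit 55770) (nat_lit 0) (nat_lit 6688) xc88 xc89) (XT.nd (nat_lit 4758) (nat_lit 988) (nat_lit 0) xc90 xc91)) (XT.nd (nat_lit 60216) (nat_lit 0) (nat_lit 608) (XT.nd (nat_lit 4680) (nat_lit 2888) (nat_lit 0) xc92 xc93) (XT.nd (nat_lit 4758) (nat_lit 5396) (nat_lit 0) xc94 xc95))))) (XT.nd (nat_lit 431808) (nat_lit 0) (nat_lit 304)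 (XT.nd (nat_lit 240864) (nat_lit 0) (nat_lit 152) (XT.nd (nat_lit 120276) (nat_lit 0) (nat_lit 76) (XT.nd (nat_lit 60060) (nat_lit 0) (nat_lit 0) (XT.nd (nat_lit 55302) (nat_lit 0) (nat_lit 2812) xc96 xc97) (XT.nd (nat_lit 55458) (nat_lit 0) (nat_lit 6080) xc98 xc99)) (XT.nd (nat_lit 60216) (nat_lit 0) (nat_lit 0) (XT.nd (nat_lit 4680) (nat_lit 608) (nat_lit 0) xc100 xc101) (XT.nd (nat_lit 4758) (nat_lit 2508) (nat_lit 0) xc102 xc103))) (XT.nd (nat_lit 69888) (nat_lit 0) (nat_lit 76) (XT.nd (nat_lit 9438) (nat_lit 380) (nat_lit 0) (XT.nd (nat_lit 4680) (nat_lit 5092) (nat_lit 0) xc104 xc105) (XT.nd (nat_lit 55692) (nat_lit 0) (nat_lit 2052) xc106 xc107)) (XT.nd (nat_lit 60450) (nat_lit 0) (nat_lit 76) (XT.nd (nat_lit 55692) (nat_lit 0) (nat_lit 4484) xc108 xc109) (XT.nd (nat_lit 55848) (nat_lit 0) (nat_lit 8132) xc110 xc111)))) (XT.nd (nat_lit 191724) (nat_lit 0) (nat_lit 228) (XT.nd (nat_lit 121368) (nat_lit 0)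 (nat_lit 152) (XT.nd (nat_lit 60606) (nat_lit 0) (nat_lit 0) (XT.nd (nat_lit 4680) (nat_lit 1368) (nat_lit 0) xc112 xc113) (XT.nd (nat_lit 4758) (nat_lit 3192) (nat_lit 0) xc114 xc115)) (XT.nd (nat_lit 9438) (nat_lit 380) (nat_lit 0) (XT.nd (nat_lit 4680) (nat_lit 5548) (nat_lit 0) xc116 xc117) (XT.nd (nat_lit 56160) (nat_lit 0) (nat_lit 1748) xc118 xc119))) (XT.nd (nat_lit 121992) (nat_lit 0) (nat_lit 76) (XT.nd (nat_lit 60918) (nat_lit 0) (nat_lit 0) (XT.nd (nat_lit 56160) (nat_lit 0) (nat_lit 3420) xc120 xc121) (XT.nd (nat_lit 56316) (nat_lit 0) (nat_lit 5852) xc122 xc123)) (XT.nd (nat_lit 61074) (nat_lit 0) (nat_lit 76) (XT.nd (nat_lit 4680) (nat_lit 304) (nat_lit 0) xc124 xc125) (XT.nd (nat_lit 4758) (nat_lit 1292) (nat_lit 0) xc126 xc127))))))) (XT.nd (nat_lit 2003430) (nat_lit 0) (nat_lit 2432) (XT.nd (nat_lit 937326) (nat_lit 0) (nat_lit 988) (XT.nd (nat_lit 439998) (nat_lit 0) (nat_lit 456) (XT.nd (nat_lit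 193440) (nat_lit 0) (nat_lit 152) (XT.nd (nat_lit 122538) (nat_lit 0) (nat_lit 76) (XT.nd (nat_lit 61230) (nat_lit 0) (nat_lit 0) (XT.nd (nat_lit 4680) (nat_lit 2736) (nat_lit 0) xc128 xc129) (XT.nd (nat_lit 4680) (nat_lit 4560) (nat_lit 0) xc130 xc131)) (XT.nd (nat_lit 9438) (nat_lit 532) (nat_lit 0) (XT.nd (nat_lit 4680) (nat_lit 6232) (nat_lit 0) xc132 xc133) (XT.nd (nat_lit 56706) (nat_lit 0) (nat_lit 1444) xc134 xc135))) (XT.nd (nat_lit 123084) (nat_lit 0) (nat_lit 76) (XT.nd (nat_lit 61464) (nat_lit 0) (nat_lit 76) (XT.nd (nat_lit 56706) (nat_lit 0) (nat_lit 2584) xc136 xc137) (XT.nd (nat_lit 56862) (nat_lit 0) (nat_lit 3724) xc138 xc139)) (XT.nd (nat_lit 61620) (nat_lit 0) (nat_lit 152) (XT.nd (nat_lit 56862) (nat_lit 0) (nat_lit 5320) xc140 xc141) (XT.nd (nat_lit 57096) (nat_lit 0) (nat_lit 6460) xc142 xc143)))) (XT.nd (nat_lit 248040) (nat_lit 0) (nat_lit 228) (XT.nd (nat_lit 123864) (nat_lit 0) (nat_lit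 76) (XT.nd (nat_lit 61854) (nat_lit 0) (nat_lit 0) (XT.nd (nat_lit 4680) (nat_lit 228) (nat_lit 0) xc144 xc145) (XT.nd (nat_lit 4758) (nat_lit 684) (nat_lit 0) xc146 xc147)) (XT.nd (nat_lit 62010) (nat_lit 0) (nat_lit 76) (XT.nd (nat_lit 4680) (nat_lit 1292) (nat_lit 0) xc148 xc149) (XT.nd (nat_lit 4758) (nat_lit 1748) (nat_lit 0) xc150 xc151))) (XT.nd (nat_lit 124488) (nat_lit 0) (nat_lit 76) (XT.nd (nat_lit 62166) (nat_lit 0) (nat_lit 0) (XT.nd (nat_lit 4680) (nat_lit 2204) (nat_lit 0) xc152 xc153) (XT.nd (nat_lit 4758) (nat_lit 2508) (nat_lit 0) xc154 xc155)) (XT.nd (nat_lit 62322) (nat_lit 0) (nat_lit 76) (XT.nd (nat_lit 4680) (nat_lit 2812) (nat_lit 0) xc156 xc157) (XT.nd (nat_lit 4758) (nat_lit 3116) (nat_lit 0) xc158 xc159))))) (XT.nd (nat_lit 502944) (nat_lit 0) (nat_lit 532) (XT.nd (nat_lit 250848) (nat_lit 0) (nat_lit 228) (XT.nd (nat_lit 125268) (nat_lit 0) (nat_lit 152) (XT.nd (nat_lit 62556) (nat_lit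 0) (nat_lit 0) (XT.nd (nat_lit 4680) (nat_lit 3116) (nat_lit 0) xc160 xc161) (XT.nd (nat_lit 4758) (nat_lit 2964) (nat_lit 0) xc162 xc163)) (XT.nd (nat_lit 62712) (nat_lit 0) (nat_lit 0) (XT.nd (nat_lit 4680) (nat_lit 2660) (nat_lit 0) xc164 xc165) (XT.nd (nat_lit 4758) (nat_lit 2432) (nat_lit 0) xc166 xc167))) (XT.nd (nat_lit 125892) (nat_lit 0) (nat_lit 228) (XT.nd (nat_lit 62868) (nat_lit 0) (nat_lit 0) (XT.nd (nat_lit 4680) (nat_lit 1976) (nat_lit 0) xc168 xc169) (XT.nd (nat_lit 4758) (nat_lit 1520) (nat_lit 0) xc170 xc171)) (XT.nd (nat_lit 63024) (nat_lit 0) (nat_lit 0) (XT.nd (nat_lit 4680) (nat_lit 836) (nat_lit 0) xc172 xc173) (XT.nd (nat_lit 4758) (nat_lit 304) (nat_lit 0) xc174 xc175)))) (XT.nd (nat_lit 253656) (nat_lit 0) (nat_lit 456) (XT.nd (nat_lit 126672) (nat_lit 0) (nat_lit 304) (XT.nd (nat_lit 63258) (nat_lit 0) (nat_lit 228) (XT.nd (nat_lit 58500) (nat_lit 0) (nat_lit 5016) xc176 xc177) (XT.nd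 (nat_lit 58656) (nat_lit 0) (nat_lit 3116) xc178 xc179)) (XT.nd (nat_lit 63414) (nat_lit 0) (nat_lit 0) (XT.nd (nat_lit 58656) (nat_lit 0) (nat_lit 1900) xc180 xc181) (XT.nd (nat_lit 58812) (nat_lit 0) (nat_lit 608) xc182 xc183))) (XT.nd (nat_lit 181584) (nat_lit 0) (nat_lit 304) (XT.nd (nat_lit 117780) (nat_lit 0) (nat_lit 152) (XT.nd (nat_lit 58812) (nat_lit 0) (nat_lit 76) xc184 xc185) (XT.nd (nat_lit 4758) (nat_lit 4180) (nat_lit 0) xc186 xc187)) (XT.nd (nat_lit 63882) (nat_lit 0) (nat_lit 152) (XT.nd (nat_lit 4680) (nat_lit 2052) (nat_lit 0) xc188 xc189) (XT.nd (nat_lit 4758) (nat_lit 0) (nat_lit 0) xc190 xc191)))))) (XT.nd (nat_lit 1374048) (nat_lit 0) (nat_lit 2888) (XT.nd (nat_lit 625794) (nat_lit 0) (nat_lit 1140) (XT.nd (nat_lit 311766) (nat_lit 0) (nat_lit 608) (XT.nd (nat_lit 182988) (nat_lit 0) (nat_lit 304) (XT.nd (nat_lit 64038) (nat_lit 0) (nat_lit 152) (XT.nd (nat_lit 59280) (nat_lit 0) (nat_lit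 2432) xc192 xc193) (XT.nd (nat_lit 59436) (nat_lit 0) (nat_lit 76) xc194 xc195)) (XT.nd (nat_lit 64272) (nat_lit 0) (nat_lit 152) (XT.nd (nat_lit 4680) (nat_lit 4940) (nat_lit 0) xc196 xc197) (XT.nd (nat_lit 4758) (nat_lit 1444) (nat_lit 0) xc198 xc199))) (XT.nd (nat_lit 184392) (nat_lit 0) (nat_lit 152) (XT.nd (nat_lit 64506) (nat_lit 0) (nat_lit 0) (XT.nd (nat_lit 59748) (nat_lit 0) (nat_lit 2736) xc200 xc201) (XT.nd (nat_lit 59904) (nat_lit 0) (nat_lit 152) xc202 xc203)) (XT.nd (nat_lit 64740) (nat_lit 0) (nat_lit 228) (XT.nd (nat_lit 4680) (nat_lit 3572) (nat_lit 0) xc204 xc205) (XT.nd (nat_lit 60138) (nat_lit 0) (nat_lit 3648) xc206 xc207)))) (XT.nd (nat_lit 372372) (nat_lit 0) (nat_lit 760) (XT.nd (nat_lit 185796) (nat_lit 0) (nat_lit 380) (XT.nd (nat_lit 120588) (nat_lit 0) (nat_lit 228) (XT.nd (nat_lit 60216) (nat_lit 0) (nat_lit 152) xc208 xc209) (XT.nd (nat_lit 4758) (nat_lit 2964) (nat_lit 0) xc210 xc211))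 (XT.nd (nat_lit 65208) (nat_lit 0) (nat_lit 152) (XT.nd (nat_lit 60450) (nat_lit 0) (nat_lit 1672) xc212 xc213) (XT.nd (nat_lit 60606) (nat_lit 0) (nat_lit 228) xc214 xc215))) (XT.nd (nat_lit 187434) (nat_lit 0) (nat_lit 380) (XT.nd (nat_lit 65520) (nat_lit 0) (nat_lit 152) (XT.nd (nat_lit 60762) (nat_lit 0) (nat_lit 2736) xc216 xc217) (XT.nd (nat_lit 60918) (nat_lit 0) (nat_lit 228) xc218 xc219)) (XT.nd (nat_lit 65754) (nat_lit 0) (nat_lit 152) (XT.nd (nat_lit 60996) (nat_lit 0) (nat_lit 2356) xc220 xc221) (XT.nd (nat_lit 61308) (nat_lit 0) (nat_lit 304) xc222 xc223))))) (XT.nd (nat_lit 938184) (nat_lit 0) (nat_lit 2888) (XT.nd (nat_lit 436956) (nat_lit 0) (nat_lit 1216) (XT.nd (nat_lit 189306) (nat_lit 0) (nat_lit 456) (XT.nd (nat_lit 122928) (nat_lit 0) (nat_lit 304) (XT.nd (nat_lit 61386) (nat_lit 0) (nat_lit 0) xc224 xc225) (XT.nd (nat_lit 4758) (nat_lit 1140) (nat_lit 0) xc226 xc227)) (XT.nd (nat_lit 123552)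 (nat_lit 0) (nat_lit 228) (XT.nd (nat_lit 61698) (nat_lit 0) (nat_lit 228) xc228 xc229) (XT.nd (nat_lit 61932) (nat_lit 0) (nat_lit 304) xc230 xc231))) (XT.nd (nat_lit 249678) (nat_lit 0) (nat_lit 760) (XT.nd (nat_lit 124644) (nat_lit 0) (nat_lit 228) (XT.nd (nat_lit 62244) (nat_lit 0) (nat_lit 228) xc232 xc233) (XT.nd (nat_lit 62400) (nat_lit 0) (nat_lit 304) xc234 xc235)) (XT.nd (nat_lit 125424) (nat_lit 0) (nat_lit 1292) (XT.nd (nat_lit 62634) (nat_lit 0) (nat_lit 304) xc236 xc237) (XT.nd (nat_lit 63024) (nat_lit 0) (nat_lit 304) xc238 xc239)))) (XT.nd (nat_lit 686478) (nat_lit 0) (nat_lit 4104) (XT.nd (nat_lit 312156) (nat_lit 0) (nat_lit 2052) (XT.nd (nat_lit 126360) (nat_lit 0) (nat_lit 1368) (XT.nd (nat_lit 63024) (nat_lit 0) (nat_lit 1064) xc240 xc241) (XT.nd (nat_lit 122148) (nat_lit 0) (nat_lit 684) xc242 xc243)) (XT.nd (nat_lit 186654) (nat_lit 0) (nat_lit 1140) (XT.nd (nat_lit 63648) (nat_lit 0) (nat_lit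 380) xc244 xc245) (XT.nd (nat_lit 64038) (nat_lit 0) (nat_lit 0) xc246 xc247))) (XT.nd (nat_lit 438516) (nat_lit 0) (nat_lit 2964) (XT.nd (nat_lit 188604) (nat_lit 0) (nat_lit 912) (XT.nd (nat_lit 64272) (nat_lit 0) (nat_lit 456) xc248 xc249) (XT.nd (nat_lit 124722) (nat_lit 0) (nat_lit 988) xc250 xc251)) (XT.nd (nat_lit 312546) (nat_lit 0) (nat_lit 2356) (XT.nd (nat_lit 125580) (nat_lit 0) (nat_lit 608) xc252 xc253) (XT.nd (nat_lit 249366) (nat_lit 0) (nat_lit 1444) xc254 xc255)))))))) XT.nil))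

set_option maxRecDepth 10000000 in
noncomputable def Te : XT := XT.nil

set_option maxRecDepth 10000000 in
noncomputable def Tz : ZL := (ZL.cons (nat_lit 76) (nat_lit 3) (nat_lit 205482471746731260537) (ZL.cons (nat_lit 152) (nat_lit 6) (nat_lit 405033326939270559012) (ZL.cons (nat_lit 228) (nat_lit 6) (nat_lit 382008135914796783140) (ZL.cons (nat_lit 380) (nat_lit 3) (nat_lit 188212397313813147581) (ZL.cons (nat_lit 456) (nat_lit 6) (nat_lit 371006534840667638758) (ZL.cons (nat_lit 608) (nat_lit 3) (nat_lit 182794780314490245868) (ZL.cons (nat_lit 684) (nat_lit 6) (nat_lit 360332972083007726624) (ZL.cons (nat_lit 760) (nat_lit 6) (nat_lit 355232176067126648778) (ZL.cons (nat_lit 836) (nat_lit 3) (nat_lit 177538873701920252906) (ZL.cons (nat_lit 912) (nat_lit 6) (nat_lit 349978356170769138598) (ZL.cons (nat_lit 988) (nat_lit 6) (nat_lit 345030342605046281062) (ZL.cons (nat_lit 1064) (nat_lit 3) (nat_lit 172440205931995886665)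 (ZL.cons (nat_lit 1140) (nat_lit 6) (nat_lit 339933888632351737800) (ZL.cons (nat_lit 1216) (nat_lit 6) (nat_lit 335134464271083521300) (ZL.cons (nat_lit 1292) (nat_lit 3) (nat_lit 167494450222408504469) (ZL.cons (nat_lit 1368) (nat_lit 6) (nat_lit 330191057178977258306) (ZL.cons (nat_lit 1444) (nat_lit 6) (nat_lit 325536166544600198740) (ZL.cons (nat_lit 1520) (nat_lit 3) (nat_lit 162697421220714413757) (ZL.cons (nat_lit 1596) (nat_lit 6) (nat_lit 320741629191191827388) (ZL.cons (nat_lit 1672) (nat_lit 6) (nat_lit 316227351513775759572) (ZL.cons (nat_lit 1748) (nat_lit 3) (nat_lit 158045071823309544241) (ZL.cons (nat_lit 1824) (nat_lit 6) (nat_lit 311577645506037209726) (ZL.cons (nat_lit 1900) (nat_lit 6) (nat_lit 307200191809905876858) (ZL.cons (nat_lit 1976) (nat_lit 3) (nat_lit 153533490144197272849) (ZL.cons (nat_lit 2052) (nat_lit 6) (nat_lit 302691414502890604000) (ZL.cons (nat_lit 2128) (nat_lit 6) (nat_lit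 298447124839615720994) (ZL.cons (nat_lit 2204) (nat_lit 3) (nat_lit 149158896632666437606) (ZL.cons (nat_lit 2280) (nat_lit 6) (nat_lit 294075506486442591498) (ZL.cons (nat_lit 2356) (nat_lit 6) (nat_lit 289960847313694508926) (ZL.cons (nat_lit 2432) (nat_lit 3) (nat_lit 144917641339234222528) (ZL.cons (nat_lit 2508) (nat_lit 6) (nat_lit 285722748365763983874) (ZL.cons (nat_lit 2584) (nat_lit 6) (nat_lit 281734310071745291430) (ZL.cons (nat_lit 2660) (nat_lit 3) (nat_lit 140806201329452226363) (ZL.cons (nat_lit 2736) (nat_lit 6) (nat_lit 277626218628906038216) (ZL.cons (nat_lit 2812) (nat_lit 6) (nat_lit 273760713202344469890) (ZL.cons (nat_lit 2888) (nat_lit 3) (nat_lit 136821178245424254989) (ZL.cons (nat_lit 2964) (nat_lit 6) (nat_lit 269779242612986054510) (ZL.cons (nat_lit 3040) (nat_lit 6) (nat_lit 266033501458920539568) (ZL.cons (nat_lit 3116) (nat_lit 3) (nat_lit 132959296015141842644) (ZL.cons (nat_lit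 3192) (nat_lit 6) (nat_lit 262175388070233059178) (ZL.cons (nat_lit 3268) (nat_lit 6) (nat_lit 258546359972092384374) (ZL.cons (nat_lit 3344) (nat_lit 3) (nat_lit 129217398710008884283) (ZL.cons (nat_lit 3420) (nat_lit 6) (nat_lit 254808461031007489326) (ZL.cons (nat_lit 3496) (nat_lit 6) (nat_lit 251293210259755513442) (ZL.cons (nat_lit 3572) (nat_lit 3) (nat_lit 125592448551200758757) (ZL.cons (nat_lit 3648) (nat_lit 6) (nat_lit 247672501965365978284) (ZL.cons (nat_lit 3724) (nat_lit 6) (nat_lit 244268206536771423106) (ZL.cons (nat_lit 3800) (nat_lit 3) (nat_lit 122081524065786684403) (ZL.cons (nat_lit 3876) (nat_lit 6) (nat_lit 240761782245319031272) (ZL.cons (nat_lit 3952) (nat_lit 6) (nat_lit 237465732326702355096) (ZL.cons (nat_lit 4028) (nat_lit 3) (nat_lit 118681818393837558956) (ZL.cons (nat_lit 4104) (nat_lit 6) (nat_lit 234070800910527178634) (ZL.cons (nat_lit 4180) (nat_lit 6) (nat_lit 230880397378642754076)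 (ZL.cons (nat_lit 4256) (nat_lit 3) (nat_lit 115390637748046019182) (ZL.cons (nat_lit 4332) (nat_lit 6) (nat_lit 227594281740801796782) (ZL.cons (nat_lit 4408) (nat_lit 6) (nat_lit 224507034892831443002) (ZL.cons (nat_lit 4484) (nat_lit 3) (nat_lit 112205400027701781833) (ZL.cons (nat_lit 4560) (nat_lit 6) (nat_lit 221516837357847799038) (ZL.cons (nat_lit 4636) (nat_lit 6) (nat_lit 221327170639421978604) (ZL.cons (nat_lit 4712) (nat_lit 6) (nat_lit 218340699059386766422) (ZL.cons (nat_lit 4788) (nat_lit 3) (nat_lit 109123633589194412662) (ZL.cons (nat_lit 4864) (nat_lit 6) (nat_lit 215448775777024109946) (ZL.cons (nat_lit 4940) (nat_lit 6) (nat_lit 215264633331950497876) (ZL.cons (nat_lit 5016) (nat_lit 6) (nat_lit 212376662915192632678) (ZL.cons (nat_lit 5092) (nat_lit 3) (nat_lit 106142976175558480853) (ZL.cons (nat_lit 5168) (nat_lit 6) (nat_lit 209580832458819033532) (ZL.cons (nat_lit 5244) (nat_lit 6) (nat_lit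 209402053385932031522) (ZL.cons (nat_lit 5320) (nat_lit 6) (nat_lit 206610416524678555442) (ZL.cons (nat_lit 5396) (nat_lit 3) (nat_lit 103261174007933612202) (ZL.cons (nat_lit 5472) (nat_lit 6) (nat_lit 203908602473011748880) (ZL.cons (nat_lit 5548) (nat_lit 6) (nat_lit 203735030557587475082) (ZL.cons (nat_lit 5624) (nat_lit 6) (nat_lit 201037665490983607078) (ZL.cons (nat_lit 5700) (nat_lit 3) (nat_lit 100476081042185332159) (ZL.cons (nat_lit 5776) (nat_lit 6) (nat_lit 198427895895123636428) (ZL.cons (nat_lit 5852) (nat_lit 6) (nat_lit 198259379472381623032) (ZL.cons (nat_lit 5928) (nat_lit 6) (nat_lit 195654329804774923902) (ZL.cons (nat_lit 6004) (nat_lit 3) (nat_lit 97785658394322926633) (ZL.cons (nat_lit 6080) (nat_lit 6) (nat_lit 193134736824559454276) (ZL.cons (nat_lit 6156) (nat_lit 6) (nat_lit 192971128647140023798) (ZL.cons (nat_lit 6232) (nat_lit 6) (nat_lit 190456543038808449926) (ZL.cons (nat_lit 6308)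 (nat_lit 3) (nat_lit 95187973938759045042) (ZL.cons (nat_lit 6384) (nat_lit 6) (nat_lit 188025362752925405034) (ZL.cons (nat_lit 6460) (nat_lit 6) (nat_lit 187866519862226928838) (ZL.cons (nat_lit 6536) (nat_lit 6) (nat_lit 185675463457202253448) (ZL.cons (nat_lit 6612) (nat_lit 6) (nat_lit 185440651897175508952) (ZL.cons (nat_lit 6688) (nat_lit 3) (nat_lit 92681202083883696299) (ZL.cons (nat_lit 6764) (nat_lit 6) (nat_lit 183096224291908931122) (ZL.cons (nat_lit 6840) (nat_lit 6) (nat_lit 182942007893172546468) (ZL.cons (nat_lit 6916) (nat_lit 6) (nat_lit 180831188517451719702) (ZL.cons (nat_lit 6992) (nat_lit 6) (nat_lit 180603216129076239606) (ZL.cons (nat_lit 7068) (nat_lit 3) (nat_lit 90263623729873985653) (ZL.cons (nat_lit 7144) (nat_lit 6) (nat_lit 178343985271024407282) (ZL.cons (nat_lit 7220) (nat_lit 6) (nat_lit 178194260612057043540) (ZL.cons (nat_lit 7296) (nat_lit 6) (nat_lit 176162341233801276052)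 (ZL.cons (nat_lit 7372) (nat_lit 6) (nat_lit 175941008817902751688) (ZL.cons (nat_lit 7448) (nat_lit 3) (nat_lit 87933626414131828123) (ZL.cons (nat_lit 7524) (nat_lit 6) (nat_lit 173765523216494087140) (ZL.cons (nat_lit 7600) (nat_lit 6) (nat_lit 173620159469923831076) (ZL.cons (nat_lit 7676) (nat_lit 6) (nat_lit 171665902898082246210) (ZL.cons (nat_lit 7752) (nat_lit 6) (nat_lit 171451017057404067214) (ZL.cons (nat_lit 7828) (nat_lit 3) (nat_lit 85689704650236453296) (ZL.cons (nat_lit 7904) (nat_lit 6) (nat_lit 169357930223547793990) (ZL.cons (nat_lit 7980) (nat_lit 6) (nat_lit 169216800372508710436) (ZL.cons (nat_lit 8056) (nat_lit 6) (nat_lit 167339070057529311744) (ZL.cons (nat_lit 8132) (nat_lit 6) (nat_lit 167130443027744671946) (ZL.cons (nat_lit 8208) (nat_lit 3) (nat_lit 83530460466818374507) (ZL.cons (nat_lit 8284) (nat_lit 6) (nat_lit 165392672506776371324) (ZL.cons (nat_lit 8360) (nat_lit 6) (nat_lit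 165118514235491191480) (ZL.cons (nat_lit 8436) (nat_lit 6) (nat_lit 164981494962637712304) (ZL.cons (nat_lit 8512) (nat_lit 6) (nat_lit 163179255999716202892) (ZL.cons (nat_lit 8588) (nat_lit 6) (nat_lit 162976705485362183670) (ZL.cons (nat_lit 8664) (nat_lit 3) (nat_lit 81454604153308313713) (ZL.cons (nat_lit 8740) (nat_lit 6) (nat_lit 161310973822932135802) (ZL.cons (nat_lit 8816) (nat_lit 6) (nat_lit 161044800744014485468) (ZL.cons (nat_lit 8892) (nat_lit 6) (nat_lit 160911772323768389178) (ZL.cons (nat_lit 8968) (nat_lit 6) (nat_lit 159184092666490527478) (ZL.cons (nat_lit 9044) (nat_lit 6) (nat_lit 158987441681680800076) (ZL.cons (nat_lit 9120) (nat_lit 3) (nat_lit 79460955220090130015) (ZL.cons (nat_lit 9196) (nat_lit 6) (nat_lit 157392955391363347014) (ZL.cons (nat_lit 9272) (nat_lit 6) (nat_lit 157134534926394754456) (ZL.cons (nat_lit 9348) (nat_lit 6) (nat_lit 157005381120330583298) (ZL.cons (nat_lit 9424)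 (nat_lit 6) (nat_lit 155669823847227493142) (ZL.cons (nat_lit 9500) (nat_lit 6) (nat_lit 155351433013172623734) (ZL.cons (nat_lit 9576) (nat_lit 6) (nat_lit 155160509726949587420) (ZL.cons (nat_lit 9652) (nat_lit 3) (nat_lit 77548443581192978154) (ZL.cons (nat_lit 9728) (nat_lit 6) (nat_lit 153636577891798971098) (ZL.cons (nat_lit 9804) (nat_lit 6) (nat_lit 153385684236489657934) (ZL.cons (nat_lit 9880) (nat_lit 6) (nat_lit 153260292191767161666) (ZL.cons (nat_lit 9956) (nat_lit 6) (nat_lit 151988471145177450636) (ZL.cons (nat_lit 10032) (nat_lit 6) (nat_lit 151679353830561072568) (ZL.cons (nat_lit 10108) (nat_lit 6) (nat_lit 151493991416752299450) (ZL.cons (nat_lit 10184) (nat_lit 3) (nat_lit 75716110968296717147) (ZL.cons (nat_lit 10260) (nat_lit 6) (nat_lit 150040027540847971398) (ZL.cons (nat_lit 10336) (nat_lit 6) (nat_lit 149796441467732133376) (ZL.cons (nat_lit 10412) (nat_lit 6) (nat_lit 149674701618486991370)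 (ZL.cons (nat_lit 10488) (nat_lit 6) (nat_lit 148466272946320508022) (ZL.cons (nat_lit 10564) (nat_lit 6) (nat_lit 148166159048634704074) (ZL.cons (nat_lit 10640) (nat_lit 6) (nat_lit 147986195540082497164) (ZL.cons (nat_lit 10716) (nat_lit 3) (nat_lit 73963112585498110157) (ZL.cons (nat_lit 10792) (nat_lit 6) (nat_lit 146956714921604823492) (ZL.cons (nat_lit 10868) (nat_lit 6) (nat_lit 146601719640841382722) (ZL.cons (nat_lit 10944) (nat_lit 6) (nat_lit 146365228307719209886) (ZL.cons (nat_lit 11020) (nat_lit 6) (nat_lit 146247034279325868132) (ZL.cons (nat_lit 11096) (nat_lit 6) (nat_lit 145101756258461864478) (ZL.cons (nat_lit 11172) (nat_lit 6) (nat_lit 144810383542262054820) (ZL.cons (nat_lit 11248) (nat_lit 6) (nat_lit 144635661689298747140) (ZL.cons (nat_lit 11324) (nat_lit 3) (nat_lit 72288719014995841118) (ZL.cons (nat_lit 11400) (nat_lit 6) (nat_lit 143664958253880477918) (ZL.cons (nat_lit 11476) (nat_lit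 6) (nat_lit 143320302641488787850) (ZL.cons (nat_lit 11552) (nat_lit 6) (nat_lit 143090699405447843348) (ZL.cons (nat_lit 11628) (nat_lit 6) (nat_lit 142975947921570812518) (ZL.cons (nat_lit 11704) (nat_lit 6) (nat_lit 142290070172530113090) (ZL.cons (nat_lit 11780) (nat_lit 6) (nat_lit 141893683592961840102) (ZL.cons (nat_lit 11856) (nat_lit 6) (nat_lit 141610797460729015190) (ZL.cons (nat_lit 11932) (nat_lit 6) (nat_lit 141441164593774347538) (ZL.cons (nat_lit 12008) (nat_lit 3) (nat_lit 70692318384602190806) (ZL.cons (nat_lit 12084) (nat_lit 6) (nat_lit 140529279836347547252) (ZL.cons (nat_lit 12160) (nat_lit 6) (nat_lit 140194662736938139420) (ZL.cons (nat_lit 12236) (nat_lit 6) (nat_lit 139971746973791591358) (ZL.cons (nat_lit 12312) (nat_lit 6) (nat_lit 139860337766143988610) (ZL.cons (nat_lit 12388) (nat_lit 6) (nat_lit 139225899174188673508) (ZL.cons (nat_lit 12464) (nat_lit 6) (nat_lit 138841057834802000704)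 (ZL.cons (nat_lit 12540) (nat_lit 6) (nat_lit 138566411104478869722) (ZL.cons (nat_lit 12616) (nat_lit 6) (nat_lit 138401719000639386564) (ZL.cons (nat_lit 12692) (nat_lit 3) (nat_lit 69173418808780874871) (ZL.cons (nat_lit 12768) (nat_lit 6) (nat_lit 137548799992755625720) (ZL.cons (nat_lit 12844) (nat_lit 6) (nat_lit 137223929022455229766) (ZL.cons (nat_lit 12920) (nat_lit 6) (nat_lit 137007505951439163688) (ZL.cons (nat_lit 12996) (nat_lit 6) (nat_lit 136899341672169646456) (ZL.cons (nat_lit 13072) (nat_lit 6) (nat_lit 136316760053461304044) (ZL.cons (nat_lit 13148) (nat_lit 6) (nat_lit 135943127685124728506) (ZL.cons (nat_lit 13224) (nat_lit 6) (nat_lit 135676480374131397456) (ZL.cons (nat_lit 13300) (nat_lit 6) (nat_lit 135516585127685297304) (ZL.cons (nat_lit 13376) (nat_lit 3) (nat_lit 67731651115746708447) (ZL.cons (nat_lit 13452) (nat_lit 6) (nat_lit 135143861477166254230) (ZL.cons (nat_lit 13528) (nat_lit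 6) (nat_lit 134722887945687756764) (ZL.cons (nat_lit 13604) (nat_lit 6) (nat_lit 134407479236658246130) (ZL.cons (nat_lit 13680) (nat_lit 6) (nat_lit 134197359750234881006) (ZL.cons (nat_lit 13756) (nat_lit 6) (nat_lit 134092345886866417676) (ZL.cons (nat_lit 13832) (nat_lit 6) (nat_lit 133562143575245777382) (ZL.cons (nat_lit 13908) (nat_lit 6) (nat_lit 133199393703074344820) (ZL.cons (nat_lit 13984) (nat_lit 6) (nat_lit 132940512818614800112) (ZL.cons (nat_lit 14060) (nat_lit 6) (nat_lit 132785274715269071810) (ZL.cons (nat_lit 14136) (nat_lit 3) (nat_lit 66366771874046244445) (ZL.cons (nat_lit 14212) (nat_lit 6) (nat_lit 132459880331145006108) (ZL.cons (nat_lit 14288) (nat_lit 6) (nat_lit 132051168164661027984) (ZL.cons (nat_lit 14364) (nat_lit 6) (nat_lit 131744946117059561348) (ZL.cons (nat_lit 14440) (nat_lit 6) (nat_lit 131540946615677653462) (ZL.cons (nat_lit 14516) (nat_lit 6) (nat_lit 131438991408523805570)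 (ZL.cons (nat_lit 14592) (nat_lit 6) (nat_lit 131415135070744966534) (ZL.cons (nat_lit 14668) (nat_lit 6) (nat_lit 130961799317549779132) (ZL.cons (nat_lit 14744) (nat_lit 6) (nat_lit 130609614975635766934) (ZL.cons (nat_lit 14820) (nat_lit 6) (nat_lit 130358274311111937120) (ZL.cons (nat_lit 14896) (nat_lit 6) (nat_lit 130207557705921909644) (ZL.cons (nat_lit 14972) (nat_lit 3) (nat_lit 65078666732972322336) (ZL.cons (nat_lit 15048) (nat_lit 6) (nat_lit 130426994909837542126) (ZL.cons (nat_lit 15124) (nat_lit 6) (nat_lit 129930335286048947652) (ZL.cons (nat_lit 15200) (nat_lit 6) (nat_lit 129533527357423726176) (ZL.cons (nat_lit 15276) (nat_lit 6) (nat_lit 129236224398587350800) (ZL.cons (nat_lit 15352) (nat_lit 6) (nat_lit 129038166630255401396) (ZL.cons (nat_lit 15428) (nat_lit 6) (nat_lit 128939180992241956840) (ZL.cons (nat_lit 15504) (nat_lit 6) (nat_lit 128955874790907707582) (ZL.cons (nat_lit 15580) (nat_lit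 6) (nat_lit 128515742991689079034) (ZL.cons (nat_lit 15656) (nat_lit 6) (nat_lit 128173816446141494380) (ZL.cons (nat_lit 15732) (nat_lit 6) (nat_lit 127929796383496999414) (ZL.cons (nat_lit 15808) (nat_lit 6) (nat_lit 127783469582341632930) (ZL.cons (nat_lit 15884) (nat_lit 3) (nat_lit 63867354092152726673) (ZL.cons (nat_lit 15960) (nat_lit 6) (nat_lit 128037566361790498612) (ZL.cons (nat_lit 16036) (nat_lit 6) (nat_lit 127555372552287008832) (ZL.cons (nat_lit 16112) (nat_lit 6) (nat_lit 127170122136146017106) (ZL.cons (nat_lit 16188) (nat_lit 6) (nat_lit 126881478486790312862) (ZL.cons (nat_lit 16264) (nat_lit 6) (nat_lit 126689189391322400816) (ZL.cons (nat_lit 16340) (nat_lit 6) (nat_lit 126593086830144299304) (ZL.cons (nat_lit 16416) (nat_lit 6) (nat_lit 127174607593273820266) (ZL.cons (nat_lit 16492) (nat_lit 6) (nat_lit 126651576880581144824) (ZL.cons (nat_lit 16568) (nat_lit 6) (nat_lit 126224264454155291866)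 (ZL.cons (nat_lit 16644) (nat_lit 6) (nat_lit 125892296934206180550) (ZL.cons (nat_lit 16720) (nat_lit 6) (nat_lit 125655384252027059226) (ZL.cons (nat_lit 16796) (nat_lit 6) (nat_lit 125513319396536412152) (ZL.cons (nat_lit 16872) (nat_lit 3) (nat_lit 62732989116697245112) (ZL.cons (nat_lit 16948) (nat_lit 6) (nat_lit 125803566252198151792) (ZL.cons (nat_lit 17024) (nat_lit 6) (nat_lit 125335416922583113172) (ZL.cons (nat_lit 17100) (nat_lit 6) (nat_lit 124961387392349140624) (ZL.cons (nat_lit 17176) (nat_lit 6) (nat_lit 124681150839576612228) (ZL.cons (nat_lit 17252) (nat_lit 6) (nat_lit 124494462397374755876) (ZL.cons (nat_lit 17328) (nat_lit 6) (nat_lit 124401158939920288386) (ZL.cons (nat_lit 17404) (nat_lit 6) (nat_lit 125010599686977306732) (ZL.cons (nat_lit 17480) (nat_lit 6) (nat_lit 124502802878537816010) (ZL.cons (nat_lit 17556) (nat_lit 6) (nat_lit 124087936445114657800) (ZL.cons (nat_lit 17632) (nat_lit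 6) (nat_lit 123765637882057268172) (ZL.cons (nat_lit 17708) (nat_lit 6) (nat_lit 123535625569262004748) (ZL.cons (nat_lit 17784) (nat_lit 6) (nat_lit 123397698525096327980) (ZL.cons (nat_lit 17860) (nat_lit 3) (nat_lit 61675868115391891209) (ZL.cons (nat_lit 17936) (nat_lit 6) (nat_lit 124271984301512105990) (ZL.cons (nat_lit 18012) (nat_lit 6) (nat_lit 123725694795184797698) (ZL.cons (nat_lit 18088) (nat_lit 6) (nat_lit 123271180882937187386) (ZL.cons (nat_lit 18164) (nat_lit 6) (nat_lit 122908045416690612096) (ZL.cons (nat_lit 18240) (nat_lit 6) (nat_lit 122635971093610487440) (ZL.cons (nat_lit 18316) (nat_lit 6) (nat_lit 122454720178851403600) (ZL.cons (nat_lit 18392) (nat_lit 6) (nat_lit 122364134297827648760) (ZL.cons (nat_lit 18468) (nat_lit 6) (nat_lit 123587074703718162502) (ZL.cons (nat_lit 18544) (nat_lit 6) (nat_lit 123003413646043458508) (ZL.cons (nat_lit 18620) (nat_lit 6) (nat_lit 122510407035908030626)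 (ZL.cons (nat_lit 18696) (nat_lit 6) (nat_lit 122107624090837003234) (ZL.cons (nat_lit 18772) (nat_lit 6) (nat_lit 121794712864567692916) (ZL.cons (nat_lit 18848) (nat_lit 6) (nat_lit 121571399939523747844) (ZL.cons (nat_lit 18924) (nat_lit 6) (nat_lit 121437490187906585932) (ZL.cons (nat_lit 19000) (nat_lit 3) (nat_lit 60696433300597688327) (ZL.cons (nat_lit 19076) (nat_lit 6) (nat_lit 122335328311663092414) (ZL.cons (nat_lit 19152) (nat_lit 6) (nat_lit 121804950150180268830) (ZL.cons (nat_lit 19228) (nat_lit 6) (nat_lit 121363674507221423868) (ZL.cons (nat_lit 19304) (nat_lit 6) (nat_lit 121011115802127661448) (ZL.cons (nat_lit 19380) (nat_lit 6) (nat_lit 120746965973894530714) (ZL.cons (nat_lit 19456) (nat_lit 6) (nat_lit 120570994211992507570) (ZL.cons (nat_lit 19532) (nat_lit 6) (nat_lit 120483046754687891220) (ZL.cons (nat_lit 19608) (nat_lit 6) (nat_lit 121720855028159289394) (ZL.cons (nat_lit 19684) (nat_lit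 6) (nat_lit 121154193807115887458) (ZL.cons (nat_lit 19760) (nat_lit 6) (nat_lit 120675546612809646794) (ZL.cons (nat_lit 19836) (nat_lit 6) (nat_lit 120284495209828066804) (ZL.cons (nat_lit 19912) (nat_lit 6) (nat_lit 119980697902770483968) (ZL.cons (nat_lit 19988) (nat_lit 6) (nat_lit 119763889237679275162) (ZL.cons (nat_lit 20064) (nat_lit 6) (nat_lit 119633879770089797580) (ZL.cons (nat_lit 20140) (nat_lit 3) (nat_lit 59795277949748195254) (ZL.cons (nat_lit 20216) (nat_lit 6) (nat_lit 121159456877128987866) (ZL.cons (nat_lit 20292) (nat_lit 6) (nat_lit 120557569384667548696) (ZL.cons (nat_lit 20368) (nat_lit 6) (nat_lit 120042639130800729680) (ZL.cons (nat_lit 20444) (nat_lit 6) (nat_lit 119614216176471753988) (ZL.cons (nat_lit 20520) (nat_lit 6) (nat_lit 119271926171526353582) (ZL.cons (nat_lit 20596) (nat_lit 6) (nat_lit 119015470027610692674) (ZL.cons (nat_lit 20672) (nat_lit 6) (nat_lit 118844623656832029430)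 (ZL.cons (nat_lit 20748) (nat_lit 6) (nat_lit 118759237775953761126) (ZL.cons (nat_lit 20824) (nat_lit 6) (nat_lit 120650643316498472036) (ZL.cons (nat_lit 20900) (nat_lit 6) (nat_lit 120014555560524375358) (ZL.cons (nat_lit 20976) (nat_lit 6) (nat_lit 119464399035239519108) (ZL.cons (nat_lit 21052) (nat_lit 6) (nat_lit 118999693021349965064) (ZL.cons (nat_lit 21128) (nat_lit 6) (nat_lit 118620031465057168956) (ZL.cons (nat_lit 21204) (nat_lit 6) (nat_lit 118325082623253690478) (ZL.cons (nat_lit 21280) (nat_lit 6) (nat_lit 118114588773650575132) (ZL.cons (nat_lit 21356) (nat_lit 6) (nat_lit 117988365989583121166) (ZL.cons (nat_lit 21432) (nat_lit 3) (nat_lit 58973151989649129967) (ZL.cons (nat_lit 21508) (nat_lit 6) (nat_lit 119789037148163160494) (ZL.cons (nat_lit 21584) (nat_lit 6) (nat_lit 120193969751894375432) (ZL.cons (nat_lit 21660) (nat_lit 6) (nat_lit 119524677856587601560) (ZL.cons (nat_lit 21736) (nat_lit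 6) (nat_lit 118940321067790087802) (ZL.cons (nat_lit 21812) (nat_lit 6) (nat_lit 118440388782482496524) (ZL.cons (nat_lit 21888) (nat_lit 6) (nat_lit 118024444166629122064) (ZL.cons (nat_lit 21964) (nat_lit 6) (nat_lit 117692123773478247884) (ZL.cons (nat_lit 22040) (nat_lit 6) (nat_lit 117443137225987314968) (ZL.cons (nat_lit 22116) (nat_lit 6) (nat_lit 117277266963095408900) (ZL.cons (nat_lit 22192) (nat_lit 6) (nat_lit 117194368049621362006) (ZL.cons (nat_lit 22268) (nat_lit 3) (nat_lit 58725669225113491530) (ZL.cons (nat_lit 22344) (nat_lit 6) (nat_lit 117476786658194616008) (ZL.cons (nat_lit 22420) (nat_lit 6) (nat_lit 117553153518395739002) (ZL.cons (nat_lit 22496) (nat_lit 6) (nat_lit 117680505759154799622) (ZL.cons (nat_lit 22572) (nat_lit 6) (nat_lit 117858954659128771804) (ZL.cons (nat_lit 22648) (nat_lit 6) (nat_lit 118088656144540933782) (ZL.cons (nat_lit 22724) (nat_lit 6) (nat_lit 118369810925427082586)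 (ZL.cons (nat_lit 22800) (nat_lit 6) (nat_lit 118702664671013235236) (ZL.cons (nat_lit 22876) (nat_lit 6) (nat_lit 119087508224378059252) (ZL.cons (nat_lit 22952) (nat_lit 6) (nat_lit 118469947296247868300) (ZL.cons (nat_lit 23028) (nat_lit 6) (nat_lit 117935814747427619514) (ZL.cons (nat_lit 23104) (nat_lit 6) (nat_lit 117484643860156207820) (ZL.cons (nat_lit 23180) (nat_lit 6) (nat_lit 117116040407444755288) (ZL.cons (nat_lit 23256) (nat_lit 6) (nat_lit 116829682308606426670) (ZL.cons (nat_lit 23332) (nat_lit 6) (nat_lit 116625319347826703032) (ZL.cons (nat_lit 23408) (nat_lit 6) (nat_lit 116502772955528204036) (ZL.cons (nat_lit 23484) (nat_lit 3) (nat_lit 58230968026169509187) (ZL.cons (nat_lit 23560) (nat_lit 6) (nat_lit 116600694684562950272) (ZL.cons (nat_lit 23636) (nat_lit 6) (nat_lit 116652354546737245160) (ZL.cons (nat_lit 23712) (nat_lit 6) (nat_lit 116755719410771229948) (ZL.cons (nat_lit 23788) (nat_lit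 6) (nat_lit 116910879595478138218) (ZL.cons (nat_lit 23864) (nat_lit 6) (nat_lit 117117970677718393482) (ZL.cons (nat_lit 23940) (nat_lit 6) (nat_lit 117377173610864827030) (ZL.cons (nat_lit 24016) (nat_lit 6) (nat_lit 117688714882917275552) (ZL.cons (nat_lit 24092) (nat_lit 6) (nat_lit 118052866714404716914) (ZL.cons (nat_lit 24168) (nat_lit 6) (nat_lit 117485530026251790934) (ZL.cons (nat_lit 24244) (nat_lit 6) (nat_lit 117000158875467721732) (ZL.cons (nat_lit 24320) (nat_lit 6) (nat_lit 116596329151338231966) (ZL.cons (nat_lit 24396) (nat_lit 6) (nat_lit 116273687992939324996) (ZL.cons (nat_lit 24472) (nat_lit 6) (nat_lit 116031953480812205656) (ZL.cons (nat_lit 24548) (nat_lit 6) (nat_lit 115870914390625889090) (ZL.cons (nat_lit 24624) (nat_lit 6) (nat_lit 115790430008612251326) (ZL.cons (nat_lit 24700) (nat_lit 3) (nat_lit 57900137579438091228) (ZL.cons (nat_lit 24776) (nat_lit 6) (nat_lit 115826486813082844396)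 (ZL.cons (nat_lit 24852) (nat_lit 6) (nat_lit 115905144679090001078) (ZL.cons (nat_lit 24928) (nat_lit 6) (nat_lit 116036317487071833516) (ZL.cons (nat_lit 25004) (nat_lit 6) (nat_lit 116220119854045024868) (ZL.cons (nat_lit 25080) (nat_lit 6) (nat_lit 116456712384019551702) (ZL.cons (nat_lit 25156) (nat_lit 6) (nat_lit 116746301808332284968) (ZL.cons (nat_lit 25232) (nat_lit 6) (nat_lit 117089141166286022202) (ZL.cons (nat_lit 25308) (nat_lit 6) (nat_lit 116570565876169275806) (ZL.cons (nat_lit 25384) (nat_lit 6) (nat_lit 116132535888527128532) (ZL.cons (nat_lit 25460) (nat_lit 6) (nat_lit 115774668458710184328) (ZL.cons (nat_lit 25536) (nat_lit 6) (nat_lit 115496650887022486636) (ZL.cons (nat_lit 25612) (nat_lit 6) (nat_lit 115298240245488774368) (ZL.cons (nat_lit 25688) (nat_lit 6) (nat_lit 115179263165587319034) (ZL.cons (nat_lit 25764) (nat_lit 3) (nat_lit 57569807843381433466) (ZL.cons (nat_lit 25840) (nat_lit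 6) (nat_lit 115074828685432256164) (ZL.cons (nat_lit 25916) (nat_lit 6) (nat_lit 115128038343471779898) (ZL.cons (nat_lit 25992) (nat_lit 6) (nat_lit 115234504153426784230) (ZL.cons (nat_lit 26068) (nat_lit 6) (nat_lit 115394319143674899750) (ZL.cons (nat_lit 26144) (nat_lit 6) (nat_lit 115607622958382362672) (ZL.cons (nat_lit 26220) (nat_lit 6) (nat_lit 115874601979523189224) (ZL.cons (nat_lit 26296) (nat_lit 6) (nat_lit 116195489489737211202) (ZL.cons (nat_lit 26372) (nat_lit 6) (nat_lit 115724255362762386734) (ZL.cons (nat_lit 26448) (nat_lit 6) (nat_lit 115332187669432785022) (ZL.cons (nat_lit 26524) (nat_lit 6) (nat_lit 115018943826327050096) (ZL.cons (nat_lit 26600) (nat_lit 6) (nat_lit 114784250125232759476) (ZL.cons (nat_lit 26676) (nat_lit 6) (nat_lit 114627901493983908440) (ZL.cons (nat_lit 26752) (nat_lit 6) (nat_lit 114549761317271638768) (ZL.cons (nat_lit 26828) (nat_lit 3) (nat_lit 57198361687565125900)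 (ZL.cons (nat_lit 26904) (nat_lit 6) (nat_lit 114423721378963113594) (ZL.cons (nat_lit 26980) (nat_lit 6) (nat_lit 114504738980950484978) (ZL.cons (nat_lit 27056) (nat_lit 6) (nat_lit 114639846973171772392) (ZL.cons (nat_lit 27132) (nat_lit 6) (nat_lit 114829163411154159482) (ZL.cons (nat_lit 27208) (nat_lit 6) (nat_lit 115072853717027922122) (ZL.cons (nat_lit 27284) (nat_lit 6) (nat_lit 115371130824070037386) (ZL.cons (nat_lit 27360) (nat_lit 6) (nat_lit 114945858991407758480) (ZL.cons (nat_lit 27436) (nat_lit 6) (nat_lit 114598414884789366046) (ZL.cons (nat_lit 27512) (nat_lit 6) (nat_lit 114328494912277038192) (ZL.cons (nat_lit 27588) (nat_lit 6) (nat_lit 114135863221467608804) (ZL.cons (nat_lit 27664) (nat_lit 6) (nat_lit 114020351493407943430) (ZL.cons (nat_lit 27740) (nat_lit 3) (nat_lit 56990929397760062930) (ZL.cons (nat_lit 27816) (nat_lit 6) (nat_lit 113791578362973654792) (ZL.cons (nat_lit 27892) (nat_lit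 6) (nat_lit 113846384310754364236) (ZL.cons (nat_lit 27968) (nat_lit 6) (nat_lit 113956044095008018702) (ZL.cons (nat_lit 28044) (nat_lit 6) (nat_lit 114120653534963577686) (ZL.cons (nat_lit 28120) (nat_lit 6) (nat_lit 114340356464112264494) (ZL.cons (nat_lit 28196) (nat_lit 6) (nat_lit 114615344855887315846) (ZL.cons (nat_lit 28272) (nat_lit 6) (nat_lit 114234696609936246218) (ZL.cons (nat_lit 28348) (nat_lit 6) (nat_lit 113930576373911260856) (ZL.cons (nat_lit 28424) (nat_lit 6) (nat_lit 113702718411683794234) (ZL.cons (nat_lit 28500) (nat_lit 6) (nat_lit 113550923624063550508) (ZL.cons (nat_lit 28576) (nat_lit 6) (nat_lit 113475059374828337236) (ZL.cons (nat_lit 28652) (nat_lit 3) (nat_lit 56615528468764133531) (ZL.cons (nat_lit 28728) (nat_lit 6) (nat_lit 113258864881476114712) (ZL.cons (nat_lit 28804) (nat_lit 6) (nat_lit 113342313011523107238) (ZL.cons (nat_lit 28880) (nat_lit 6) (nat_lit 113481474243511033274)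 (ZL.cons (nat_lit 28956) (nat_lit 6) (nat_lit 113676470174632891976) (ZL.cons (nat_lit 29032) (nat_lit 6) (nat_lit 113927471189682867496) (ZL.cons (nat_lit 29108) (nat_lit 6) (nat_lit 113590146814325204940) (ZL.cons (nat_lit 29184) (nat_lit 6) (nat_lit 113328088588585080810) (ZL.cons (nat_lit 29260) (nat_lit 6) (nat_lit 113141067529546799850) (ZL.cons (nat_lit 29336) (nat_lit 6) (nat_lit 113028920220751008226) (ZL.cons (nat_lit 29412) (nat_lit 3) (nat_lit 56495774334701806262) (ZL.cons (nat_lit 29488) (nat_lit 6) (nat_lit 112741667326624134054) (ZL.cons (nat_lit 29564) (nat_lit 6) (nat_lit 112798117452838264786) (ZL.cons (nat_lit 29640) (nat_lit 6) (nat_lit 112911067030619528882) (ZL.cons (nat_lit 29716) (nat_lit 6) (nat_lit 113080614753773754636) (ZL.cons (nat_lit 29792) (nat_lit 6) (nat_lit 113306908770796902050) (ZL.cons (nat_lit 29868) (nat_lit 6) (nat_lit 113011646405724100726) (ZL.cons (nat_lit 29944) (nat_lit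 6) (nat_lit 112790425083173162258) (ZL.cons (nat_lit 30020) (nat_lit 6) (nat_lit 112643051502959333400) (ZL.cons (nat_lit 30096) (nat_lit 6) (nat_lit 112569396892051359346) (ZL.cons (nat_lit 30172) (nat_lit 3) (nat_lit 56147169863002431139) (ZL.cons (nat_lit 30248) (nat_lit 6) (nat_lit 112322981908271145360) (ZL.cons (nat_lit 30324) (nat_lit 6) (nat_lit 112408933482219547662) (ZL.cons (nat_lit 30400) (nat_lit 6) (nat_lit 112552269551167111476) (ZL.cons (nat_lit 30476) (nat_lit 6) (nat_lit 112753115360222625942) (ZL.cons (nat_lit 30552) (nat_lit 6) (nat_lit 112498689898339010280) (ZL.cons (nat_lit 30628) (nat_lit 6) (nat_lit 112317116054612523914) (ZL.cons (nat_lit 30704) (nat_lit 6) (nat_lit 112208235172286512626) (ZL.cons (nat_lit 30780) (nat_lit 3) (nat_lit 56085976056362967137) (ZL.cons (nat_lit 30856) (nat_lit 6) (nat_lit 111916491210841059246) (ZL.cons (nat_lit 30932) (nat_lit 6) (nat_lit 111974634840841613898)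 (ZL.cons (nat_lit 31008) (nat_lit 6) (nat_lit 112090972905956315918) (ZL.cons (nat_lit 31084) (nat_lit 6) (nat_lit 112265607060805168444) (ZL.cons (nat_lit 31160) (nat_lit 6) (nat_lit 112050829077746004884) (ZL.cons (nat_lit 31236) (nat_lit 6) (nat_lit 111907747931907336088) (ZL.cons (nat_lit 31312) (nat_lit 6) (nat_lit 111836238600928720502) (ZL.cons (nat_lit 31388) (nat_lit 3) (nat_lit 55789145087250854158) (ZL.cons (nat_lit 31464) (nat_lit 6) (nat_lit 111607791622235979886) (ZL.cons (nat_lit 31540) (nat_lit 6) (nat_lit 111696321743402834256) (ZL.cons (nat_lit 31616) (nat_lit 6) (nat_lit 111843957894418824988) (ZL.cons (nat_lit 31692) (nat_lit 6) (nat_lit 111667672609247478998) (ZL.cons (nat_lit 31768) (nat_lit 6) (nat_lit 111561963014756205904) (ZL.cons (nat_lit 31844) (nat_lit 3) (nat_lit 55763368371669084335) (ZL.cons (nat_lit 31920) (nat_lit 6) (nat_lit 111308083283784446526) (ZL.cons (nat_lit 31996) (nat_lit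 6) (nat_lit 111367971222685017814) (ZL.cons (nat_lit 32072) (nat_lit 6) (nat_lit 111487799429753160896) (ZL.cons (nat_lit 32148) (nat_lit 6) (nat_lit 111348885695929210608) (ZL.cons (nat_lit 32224) (nat_lit 6) (nat_lit 111279459160998515866) (ZL.cons (nat_lit 32300) (nat_lit 3) (nat_lit 55537623972207290219) (ZL.cons (nat_lit 32376) (nat_lit 6) (nat_lit 111105634435580880156) (ZL.cons (nat_lit 32452) (nat_lit 6) (nat_lit 111196820460382740156) (ZL.cons (nat_lit 32528) (nat_lit 6) (nat_lit 111094189786119368220) (ZL.cons (nat_lit 32604) (nat_lit 3) (nat_lit 55529994761303355356) (ZL.cons (nat_lit 32680) (nat_lit 6) (nat_lit 110909082155771592420) (ZL.cons (nat_lit 32756) (nat_lit 6) (nat_lit 110970766732839180850) (ZL.cons (nat_lit 32832) (nat_lit 6) (nat_lit 110903362329993846148) (ZL.cons (nat_lit 32908) (nat_lit 3) (nat_lit 55389071319273320818) (ZL.cons (nat_lit 32984) (nat_lit 6) (nat_lit 110809440724447930348)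 (ZL.cons (nat_lit 33060) (nat_lit 3) (nat_lit 55388118292557626577) (ZL.cons (nat_lit 33136) (nat_lit 6) (nat_lit 110712701470735637072) (ZL.cons (nat_lit 33212) (nat_lit 1) (nat_lit 18446744073709551617) ZL.nil)))))))))))))))))))))))))))))))))))))))))))))))))))))))))))))))))))))))))))))))))))))))))))))))))))))))))))))))))))))))))))))))))))))))))))))))))))))))))))))))))))))))))))))))))))))))))))))))))))))))))))))))))))))))))))))))))))))))))))))))))))))))))))))))))))))))))))))))))))))))))))))))))))))))))))))))))))))))))))))))))))))))))))))))))))))))))))))))))))))))))))))))))))))))))))))))))))))))))))))))))))))))))))))))))))))))))))))))))))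

noncomputable def vl : XL := ⟨(nat_lit 0), (nat_lit 76), (nat_lit 92839414), (nat_lit 152), (nat_lit 99607234), (nat_lit 152), (nat_lit 99607234), (nat_lit 1), (nat_lit 4), (nat_lit 2), (nat_lit 5), (nat_lit 2), (nat_lit 4), (nat_lit 0), (nat_lit 0), (nat_lit 0)⟩

noncomputable def cp0 : Nat := (nat_lit 382974520011895090184612549276111364613560604442386674399073352022372110484661812604948170824379675051110020350005584087244473911035420559730199467331649156455871564729802055447311484110286436177852293485146654189750904720399617719929381974033946375864608548314149723816991911712059822045854282228638421359693025932804141611248377914218977258072999299619513193673316495375244533220664536132938213749719124607082114949084814500099303525982660972659981866919832907968166376642711592134688020898279595929761703140539494910493329406917758235625356769204801387896271163068261089142436006714259007389502517005416578806539554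3366958776945588419122727549582784635341814222435623361363968631580744995354628151492351745740711042668090979203774166107191831554684472747041597394782926892625982587490834286393654009396632873809216815724877861722213462399706119400885135171583144335720177240124939584701708955155325542921493419946915524303876802488731498722381100725264022281090079535958780947050714354138898184236460981664253601649568327189763886099967163747729177459830739637785439833481771999927329171170053750578614747081961457970614886764757754182501836023533530443501904710523851042862319636787824623945821236056872599931460978619557090349022335669154394187038755069554964176805135408869224689749396393477712148796602326620094116927968178072558650828191871933769742061920928819666889349327555959718576307456317833205469579024717578169016197480733205442586261345883295601973574407383701851178160855008012606582187129243969475643931379157816668639524381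2785627651323230861536812087967324925388639949718501862722712822847024265112917544466243025762101983753302291024897293222503726421839332149543443699052495210489765221270561909578987670064394539862262320461762207779329856910237738240649019972150607553277739547806744655887999458088931230897861768870112281171611566738426262854768158376348503336770339137544161271331305402075538945125894755259775361569950098162232343746946124102536141536736100763489888153283648550933617261117924497689848026852815412076232376617887741827442004817204040160317517987349788375799739674311259858395473134513711069264628467689557154594292730647441530869401799072026260567445873331723020619075159010145522479290151619758951634881842827149026976517148691843174946103782520807845679916109480108309422714563566713579517586307166846247750755741020727041717218503544921374711161407556207282602269658947567198375270581125873317505301248378929051172229464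5860939459904768453732659053268078051195067918937810176891246528949500383485523310813388723612191651356504994010625755688616822620235500010827314036941035493243173929867908529456898933301000351899395381680593675669767061021770106862256136211128036206265327149450303364629202013146418234727856390146631233863438044091352132518412728146090922017647864120844537073911136876804928933846108578628518565438975004390497418865809482377076911834828331658878680445090707024804262074063437889948047261896822314165727370718480257441370240679797984076958351426988312005713680398858633882966582011936793894592846465705764873599944937041936002353692273090885867722535886423608733688161112782169801584894476520833938746029523759110007070808515395302770437327404614522654357963009307049437231765786609449539357420286647875613405371654075606737145351405227164575498172335234424372628048869614649276339676757402695580248236544232021154539473901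0096129891371255117911303612539502547138024083891282578413179556530405810397141298984652833740678112997930709438636051825095303751284649876863491946406961846857003735145797328474186972168309125872881873827915647700466701886881028378528016507898800928607186104362584009224189972383743134926163150943216838764123949608408966889781855933281803867921131901960014920008163896061992422114115257499380945880581786598080929885886986554390169439062266344360959761285673838152513687331797739350049173089495142693009297718967786822681833167845469436255914227330058902524213264350477122234851432302138880640081239574993797898921623615806972915463294110428811206509198514564865189494015841546790320007626180511471688871517053453114664213538270577935888303608419610918614836028756847642553341990413449509056932861188940099932216064402029291232587445130763245767522053318445601381940108801577641043129504528203214863323110396961319714937769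7322286694171786145402557077383861608339670531528273638188686875597010542732383579535039103091343368518357418994484980236237307461421192545902593331010607176872617481192543934622823919379425063340261808667352050609466122311494460945570308653438182016591169933060606351160912073536758229461576858474753154648342996202069734120842765364530142593123863798165188374343103771092274044507934726162398081712876454284494658612565377233622497040785771379523269937088301775487464410865778400714065142021053909846887676619127862626459447406377558145609133073382330529953068889937771517604259882210489571963116197529221838819151855195920659657777662533586278300890349512457885926621198100249097610333573010792210401630279106136262575148241593883938082386584704353089835228352068234826498037893101276999442333517734776547636126266967361974662949275168667837949718713004943668352428431523843607047490581366601687919116097726351856780092118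4854008326459036078538897715690883364407370683190155496564398045674816732186176772108740183341683682009368280176413075093971793170872241860042065717505762420593369245569911673295700670346915503364305336829314532179528753352124035927847026940697304109597421400289989350238187342592089457722128606116080697874449409888351011411003466950434506034578319403174990379891047063790953600542927587828844460716417883409764054013183932903128220451712245913432614486074850874435551022288656177652229817148215313440998677564652703400423370836922537821162156707648907842271567235239915618112630564638020697158309413731929225986017409529464762640443792465940138986594510670137338602186472764414923412583803820332527653799268659073180978150146884792014339977329253788520408514894147055269847710599757623750013397719770397224767969361490791165768130340746771015664590225668734798529701098667175863040760183227465332696271326356349165234810964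7543967954549805588076386489755046884244424200544404359214561884770919201071314838642379532269240317243704908720723201641868000839064768887535420747534957800976742941363122793535342924869005168491726341215026883679802514856750087521348527969135393889910755218059340594193751833552049101246338237012639929105246550926688266936294432064738057964789075775148075692206191417856548208588407948728723906127687958169799153388555635121050136522726805615905786613416286870249751355706088437572621490809337128339720739555072662397285193221250719142183372448259407199077485568114816191515095247874933544027334833336863940607683451928374556728108043309666046859678806412263362464925734227754952815241834906490118321006608841021018792659486567887276379455947396328791365405146187452442719152505197587790069746359489702597088152086933695145241994055312639727548855038666800368040679517377274467395710705690294487873652458470247586826417335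5215335992543845601997434122986251316807038118101921935821233736682027431009296250541083993879426117225774978025333759383548943867304701787308595189599363147891143554470293207004171679336267519217043949475322109163778846466743867518936585994582863514206868778173073403741418628440979091098055888476481733201230671570469464660520507302486551272895939117036420976849094267024067432173415020077999978777442601749247710698695215130464737119506045060569604853660190422631583449984738649591494268732850292240631723800400983240134875308848551290359420110136538228736851700220194322644092910622939480165209674591546775975638507372726087791223043979992629396431895962816882650897997346857986639470540544522443217965003291379248067976966457228238806859243356388320472424946302701521617345852142663594366928699931465395110737892946742801859414947962054414209291788840818745150998130330984167326974872208710338018063865452561858968104779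4411840775163298490263724922859935035376917549026103665082737079826714985836156606765180417796089868744316513429465002486756633823907369359093007619328742193492821126266140101755823506984480013080442789489532152453872051235437050788368583775472386006096445986119390299588197520683999237841380458175385802304171079629376841299824903614822119338880026608740097996861936898487783389126631168341632262362669954899224416343767734845077856144116091777715283580529038262635266824914552457698954421403010081874605452048615679027339541372947800227453725584437531423742493865975795846103530884585281784224111921107453795287513334279854472197050018394800821016396184640414821199867019736727410965075961528284338102680437018126370618532233537274645419913877655772384902518498417819284215065655625272763376064663568163687623237350068347738243629603781901252445903315986682800579203362648886207626531070445255380984665971517350598380490461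709983966346542524421739114254983769003838329690417590494082231920456380150867503940508353524530488992715447360078574468955911977209225842810949510477100645343500592131793036741575154128731191398914117732885016237588477742236793719038824830870360228933588302395331461139589627953864256109689770545788614329050037417895619586295165909872552622314877874787164072754708625379571772565891084382066958244300676380591131216383679639187385266328766377411774824382067073033575925487844192918229764109371364519148619375568206177933565003230702429916520107232233382592266944967493361885569866972441020037745232888903192088709851939445110687601234392811181127895615489535960557720214750416323515057514023530791473249812869023736891747031726992221515912464713503957405396995097360759282705997231209685029942870316487069799592375049145072710295869153101588647451965211146136923256889156023543570340045543787738936339496213958119132995777482794966857676291982306726155758686576799431238448872291491344768758675735576603165593345447357462530208893565945804053588783997301572661925055037440)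

noncomputable def cp1 : Nat := (nat_lit 4700075386512632738165149588967997545620482466429132624959302113168630803852231973934541638481849391668351022720064307357079108600754007767587960870975126509376048872333180603571021104663899121433122191966108083825430204954977882505034855566822172553787040491219774787827159784031370443020270385469014977644880723159749477384870344788199327524630728717628596140422412304340918407004764747012217569770630564935213435239055762551444998668340401075902807366105334792748323107454162275976258673875971611919894570947124342897799304474295813735307670751208688151580494065681928767149904965087752423772175339922114881933776811143397855694488087125792870572392197862065620047233998050980682407425018550306908484974992275754373858106356242961497975535565964059452456725353125677769817906945811705226649412157355320069673220714498627727579939066819340525597043029451875911655767094225370014140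2489548754135306562550585867859141423524778096444426915415153936581392102947392569592913793827450137382140129824418218263105120217208211861944682262050667057790951573147460530762683580290222354084760756236802218506177238896227942046731395867577561031194413369535443279597400422886275111384082581346040169501701460720343296658597924422612674646426684263679480155222069560169603038010625059765739032958333702006087225277640502622496062425102669569986008453984476340576892965357493389699469715447605457486386362384435612171897443001920232277186487457661331071398258169281715553873521548300030957477133556102362670676189108134927728480890799419693171820277471650202068338571282226079567615653569046314063122592200856055712754857351326610253501210529737134638825316146011708954043003364276649865152320949511277962995518203136919238966118215216531123205912401865273418149521085488456508386418559205007366964007872524526335739744506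4585167648672618634319142935609829518659739482596584622379849347719081537140201293714765398557473816031625686595916215454400793953027184318765276425377025472008272579093106840107444692925510046882382966533524557465725717105137960643289781819762806184370660745372432520627191833769728288030001337877673800567247456546779087373609091521322089583089139432839048289425294551782782541938983548713324883082664544726109920581254083508050528901088638328722787845719468111350571021048331166627281133699570402007195811070088581826654861905804119626209745165033159333823144663931230491869181074477971855140231708939029865224510448828311677908455414418956326966939378140558751282645200632034760513387809043945551413152056438761555933604991215900967641304371301226797360320039472513155612400797797066645760250978997661442233680490266970795549537461439146625651285969792410715602955467726670267619632346116335676251576672037540617255421170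0414654662341955436939036737222426900419909558110447119136726112501526494881045112821093869749153373892425944328020489948962818104514805388707688908827552115737051833043182881056876915684408668208368165136053539353568506840460218755979839446245653568642653758424756750950445948363888482770280687417603368145097604068095523015424129563477894522161100809008399079057419545208739601657989520517488120142296770486769861518214301233415334409476124058564421719848864433120615722666552246648833503308470186583750573563891346442443345893326190966265795095389561228241535161827506705339426574253763488872381297101724457265959348349390492518061979596056097506165872254089968106866268711803299231217093534918037244766264368557801369580821086794523409190775391465083415985282015082985929087726383848133293088053980262899627010020493805245733093161291156045603240346783092701657588267215722757712017554508218520023556783332072067063034625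2269209888794396707231409455699366669707613414315013475119085949662328258101810642441764780975043510095423651924686094519938229718089829253191245831994789634558676690194338691856740632302482725868770129893252255822867299578291640222692269347449729808733642719797738942034392166446571037977309459077152058834834032648700179311734322382348050199277500762356070421402722857491535733548457330206249024148860189060205983454812192070786592130645432720252134689274610709799310511499351105460665239172659987027822443779332850514556023430155383136192394412196508400264654366084790641943792820323209921107199292529769235941294124896434850074970453075027913258518699509161085204984299085056400559964251845510595389900603615157227327112384168737105838903803627717637949574835818894612344088580089008627281738937078298788771927274549498882117412773003054947356269936573860369041102511704818673241781274086763125308253266445113951752466414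1081305313076654813741349216577938068392612123699109289978806316314592310035305233551106341348904711388240772162758023036713041592282240235779865418311865775289813408358862461029539534635403664780667575490828819510826558849669586786413133535035963935431390291407666488015955496464447565716111869079174477677127262609623248490268945768288418182184601316716594630239599423967714164470289831843089273989199713227665561361254933261180679110646699421635051603062963583991779102870022740655405191126592852518318132127186863261529734929428909963643909809682683506231132038265516060657218022691143939661725907234571278223925559572775887331355705211746549746310226078764946915017816786998453733662078340512196439979053809127491325789331381072066495030898112856552214133472784623688747806769506382883084950429973568401382650204284056604115030675126118322600097111799105086828699207513805459489899083863959740124876939414857564888736821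0032776510973859571220297305907992558636680284671275666416541315098432220605225137948012408316813743887355030717075276614738387104104874792335258489527164692527357377004185167301831507752918804483883267946529317718754975171815962727181876531973221546204673128935746484575453865117185679414232477836854448464194706381994007390906264482591312075705690489749181231325254537635436853732896763169935163785760831147461081241287904138426514348599007467165290483863671641015020344279887336793954435649431474123032788005433656101190240730194370764637712276821893562718213063508529704783197046945546891307007992183002531688285867895809258770719971148553787567190903588158316045863313548476074921357120703863529442179408494001759499274463993993101859991030962011044077363222484036859280193296984917069313589289669156183329326602199925809062133358358182402691697491821033451221792821379331686649908136881534832579389095520103696095297797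8720863945164780091738931327069816655496629878832247700672630308871034795627298686596077189762910593075810960323757865174977992569677005166165215609231040112258370425457513009223023252046359848212608167081325295426530900971349648567611262999139937926518210283434317880803251571604086560298862948175188525585593218079992050217509810693542050234770609946099172639452984945578913059593601064891445953097045907721868995629408850166029660854493403153724918825866873023208159588502311108393426959193259781977369029187196840394608405060522380516930275422243421591992190663531492874523310272083834600946399237014177067320297603315018595184936260268454293270459831260264101069545018474132398128583703185456777632769151365830604926159806049614227150133427955722998806137883499916263220426340990188880258018485210815676661470953024408039548416585389850575126597968166168389927025824981209243004298918289198778632433074081815171079805029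2499038333114671355652768159850434752782738263729170483550369393821572210391368754676111799387304531760930513645476289532269416453591073484716920706802971753045754880014569761470342699292761691969743929037810905890426650199767719081071273953409847507892055639274577679714237098633867686193988668959103668712763535568729899844318796230000604036790488666400687145824458558291309792559988874882341877638980587568864527364039382551910861221382000756175019612381234281984751797547467158583073069711611767866977551074834540376006198544190460650096243826051483850867414735545384491956263847637913804943167225619221137211404858326331148149522181351127905734550086079806212029849982536128776987598707822596850518087927985177292361793771167633327554652903756070142978742340188800038131248800018556090462551686055289975829299424802440826925492932420572056433920884758950168893166588743901593812832800357559004259586690002647661545446425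0277786777752595831136687096176905550627513813256441767441243075235767782197496192023093192520024558406058757275772960215775457290061856797258497537293677599352832648389986158246804655160629246738263452934866992491852168979116357003488558871049574681274782776987347266803767411393012035814550109963290901123967157368612811155759042656720569830599195775017211605080948712403553553451682562514928375134548349481018169680574335483254788521012793863462758668816873199796811655274189442576724126380696059309509607366288987308512424723999832133765208469845861240955847568606864007155072135994607205938999248248393285789994557423154092746895632032390066034458156149629797763296972609934630324085547148621334831551031756945439121172676175973367018138527199667497191480845757612171717114517304141427813580185167134560855448203071542737930844664864281109109946451207189572558294770033886843278613939767275467108014866301842787829831319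48668305909408780433187026271116303262315266095505871756400240718225646749484941539160349094556140784931534982833497526759351205428382649345201682553818407857573289355033323622001127290814362843800825660190840968778257881498634417857624879238487709963459051253480269987590683443074272170420472918964270395813443170345422755459471176339247264330465182726828105107677692659873739070657312336947140463259315049534445572273581490334715719740673694615375503847306989390945466638113111414276996113230065592928964639036072304870926223355623160285663633105057693275129480487209525021111449102000163355723417299191788321614385079707316434749702924433542131173063719818038204333341583359978361558169626845821356757128793091596411071160003310311682021897198212509723995952534090250032565153383023448437352793161448030208)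

noncomputable def rc0 : Nat := (nat_lit 3754633828089655231949936934556463846445487779867729417738361437705401987776640096104594644300347004322403256397033785998089081772675847457108870388077993429912160641630522031163192811632676616256491023052697645615358093403930587336671140943024355907830430845170995247671661917278742954923501713309986386285571313881190907740179983745255028900263994428733448839944262706845205769214521006925952686036880639807997754262031473895221516372086331564999716554560721771776761643077167471494300027178170867313155773860362691809513651610181151645765908190365898601412251176082406396997675782709374102600184856393425853482847539019171599016515737861947630107622846802299242881962334819719536323283918012807166376604965533314611875622465197596427702866782900437755572963761706842618126712027034572660920718717324745773240052325932225217810732468495278380481319893071047418184076339058678177616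9257925220940811651496762870977032444548653686620841493539506624789323235926975451271784815911762539275924086071791287086748001955679955867436600210048564173896776943819425206039988213186023527843243913506908873956093155155253280159532986069277332147157893912986821979886959668681669320585448348518678559004532042451267324794098214333724073072865963067055827807635827978185314624545335346515876224896677223402720012281238515478878181660112802318363248617466395564800471796363455055829296833059288479301921335190092836337194081498940343872796860267180264810364514651279389977529090019428886781615782724946658655459758106657034724150311527331805118479987420522606035688396953996449385521655562866356555898701037850325776533924053691854728762125083836888203683945291752553725952350368099459671142911967134510130729678410129225251630416071600894253047266140027637191891398590711413942847698837331735004171914179291883190507907365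6443434050059990928782677073062506103859072346135564505455168972553594278411556636338317874573879770450988010052476429008197327824765893816462825113594512517446108060912599177151315498767288159316604707626620016632730535267538421449073860347507130733738439291810910057750392973778743712194030378459530022656220145395429806042826590578225717431627314593006454380144062238638784215504814492305620103780420676194987456307888809683244333032933053397375020054041628862802577479479595515672351336041682214598422139950135581735348061619102125846791172710432884043925289813657490157312006281336239290540859611427808873561085790423503365314752565378189864463355042487650328823672786313123747967694288114651422719728380079613466383420339368985711148694909527362199153919265949412401234500855865989901682166029332486049589142427062287173887408415591220636584983579028017876626922001966347011642583973713165593519298293472743010720948556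9833579362786776347608457721170125353376974550922260747698645384548100130326600089315380664917262230651670558193667642899142520929197645784804396600050646216801801047722338066285900105726201497885744310942985694762075884995880006328681563107957829594062417397785981275127110876494666474807671931373743932875189004122783439926266813591640003763211832483549576895342068317365599826947442238389475358567486312835960812586424933027622090292661233666561018051436530370270833197233842834330521119314832572470572781809013783716956285713683460944177840648228965027101151836054504672769866946954037798960716549395025426275241859283159271194571847152266557162559265401863739216622519648125366152184081685628965579694448919637222552383376469939838643524841175121159772580466590945914328292923331972333852394216778760485165498300200275030781678728660466776393975183612846081429088327067304302853642184737981363676187496007886264965302543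7886711352980262503277092847537878754148255158634300079394662606615349235537117353038341184592226933657866074281550313705998053801100042740298267272753408305289084038235006154812255834842102452941059805656002948493058457859857404905185106462009161706430350584048820993166086510203132846278525504635757931542566622784283702298422610887094931319491939804012410954289768748767273896595980310730048567867586081017061400765002434271616954777076589112001893819136972923622263945064189963243832905622690079636893176697506204813382337924990665756535651688866796935283825808042744418065529195781311729593717885196549088899595056816184168456777076404798308895107961940654846446254250407374377043474107542017329612512485397562085547873436281764501157212873089986895419250491814514671797983678620058851198665101825747854079540091203175740795202149359729936350026799846813656679165877012413772672848988473276268962599405043948901212047456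4336422048478498737062485838460829862862269224083540787720038736881378883729393922174816211118069961270906784527018716631127091651337404543733643845169960261155950876088489991286193430259385938390240756075601506782220400045705280855519940877138112950832481946681386235150226525070381518604161439961935800620602022463184218951150885499192386793984426261386559385378676826363574476751479559620752165953558628430355252117555117446781153209959236943068458273979961469931401804211695345804542963168145347393331632898431833490266298327621762483831226311960843429309328172924139961510398319664760247284440092521696368798095774129338964185121431436969872761831873723603461650279237107131933341952696238433996546740469790622233883528451328222394993044576610320579932574631245963310415046986177728986525388081254470381081614895817078306118567783708214321141984001571289359864252827068648157817360759644280616538550170742214111030238249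6624164246947223342420192984743139630981930658252884509555960410261397030171793850878572449033341571284539031241265982462198604217025177055455423903372591806767262871844638450320402268200815936356935783591036990350058777063747412220685624806871863148842042268476477598899710227687145855976386061938807064688203246000805890594417741693957397197139921253331568924441733419173494997410780517776636991921414044390408732890578031402558220331622901559686102921201612202450257972565238176285029874016779827982884766273959872795688627559305368977421156393996498393592290577153278361627673565332567748373053479792545226520326522196309145791057286175987969622762018783747126109941394592636409317329737010522444726049326497762766203225440968630757943670256367921796059870987978599126785442261098699419083677399036648479517701759573689904254867012614326364851966621263816675152913620507387688745660800032850167116073101324542599870324926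1260374020425184404648208315102478706685057797608619889335449750160354788428559424142210695214079570506508484178097953677216666790979133104073925906733019946583315617346510893314890424080914461108189462183357166124766988295475809535153772293949784884157019256201513313337394200982526605140427377784727714420619839820897106177896044363528957293338245789872470620933048593067122433765861341345781112527895076665389773253831495168591353854421116368275811620175654668434984960455848336724713253462886004261687718336166232797878682226841881116677449219208920844417749942424464522188214522227898243626138806409926013546410927327223128042654040221776676388867867828727239537413452847500429205934686415145128239552119440046425941088108004719691656777014750123358796645650405469329410244015514328771468930922935690274813178329994627908381950049754783845061658413992741400806933854062408324922849951212474059946432098673032180944755190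5837778234038507306865119126215770169385615945462754680166978269464815325996928795365229740233021536590218251351094085909097682289158616695402123071322866915647843532576454247844820785684189614510490989670592237792821472743919055843037330963863849697345605560682219414370901254382542920825631961762378826943918862795168332738359502991856779856540239801643338036058898550731405071921767762944523986817672230442243013246490780007963442318909071944708542542998805584773284486660245673365412706715700267650806379173651372254073128847282893875035242779623723355744793563551226573606004730897385327164074323276887020320912419682039687286228423422382492246818815150595864568831530167898844454866320902732039791447843677651172764742518025875086525222303494939933499203872170299841274534492965770736964891870890621561727336572018545793044637642045675298795918790885915224346977642391572282669385518809136594767561276849788057039363972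3859406609617854902778390609755343097994700674698875726036102629678635599790903598451963119258150607908571428059255453370172758388013426161167652320592838374502494230461023067167957517805846693714585161909406602530448725393445622058677109205592334548734546223771195667004800890322624875552042493147419845061060203267135717867270017336070658261193678608829214093260552883176886383008552264780230474228658335951039861884810186233659273112160076660726851417963539217865416994616414013696699297218655657876975237926631571768137999479564160971787391348933086094065519053541466391092396081858123685275868591948696788166728085613648846343498844284411969725868091717578942424504204885104181577177639163468208696333961744607871685837102273015025137940053770571028000805120923531291198662564218864081910430111275395004348084170299293665669515467462092628037291575032931257176809331015393803466392523861429600705220134158502881248451433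91526560733897886994551675600353482104441876822950662347084778581495537192862090779400957806855268062881969720002504567433868970656589054192573007203185463062821080402757641776372824850904244489200974116039776838504568765925307927768287973031705751448805959132686958099134751884024685324335695056252165149430815022732054363674911534569178225783375327086420577570118889415955348166595969935264332207738970629280921857877519865437312128794557319394298635292164463696679767912108771849028483879896465850100890603352415316491469493851616910167858133564458310113762540877889665193316423649307683210704863158895336747235871617369714910916904973700285179574191527358801420554571818019318291738439769088641245597161745182278528761226569283194595894545936914523713182985201975938845974498196979515426539690952172240896)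

noncomputable def rc1 : Nat := (nat_lit 3794670329257594556881113112443215799641780884442340914230212407979197940758272535613307777972734772658887700581610934694515096331407381741262249912677420214678523268573171332428824899473769499208404710017387560187126327092360215682627528780330330217032005196787858212591675793969420428312732350839529692514320203028458618313292587285741790424956470103823861326356499532591320261312548449562643252296467363114859254246393707463895505029008405981208283841391991273553406737967705839977689722797634317658521026435905499035898529251539421053961991816783673354666849124139442213061971974033378397873030683487586572695931766171520807248164795947182064766066914385918155171321866647463216411056768141135829257504454085612644698977008149316609983144723406873212023047933694112292930807032975084662616135158915224475920148200932894090709042657536580564716456137825444932869640280168663171750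7915767356000952307929755894809791929360643174383701098072814796528206553460294298711194442684149514740953045717917308808446691837862145661111421128354427251344749265829135737319327405514354329194749410079497478626873880830165108481437947912754488275214956098751341825203257416490911304653033294397624672963210741128758428193228574960361938440685365829871075751000316793448834846952240058070063199591747297433779772276365421394413917432718296794972869351340269441524712809929806426215178054607249874626971268639311363576446785330209492007267089608423974614667599943889192896137358301042802566851274477900625674229585458650092654265874497957732171400570111992665877261427099179742499519726186652015022533257165176818293523306435046662783175445044243420039226736346403809473924440780351311243958002113051403258901389699348263489110313893966583641017750102282638802694749845341613231263745359124336494984906203873158727419520314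0893040962712379130262261130584538363691121866397177525960572924895226494351310097836038217056216935617312006165753096796331513728443079582505442599162250044399039899086149286557715370542619668559230567502208282598742376967134121310524914605986049396636497784397461065218610131482034324399379910891772925964903541020581369982684585793377866437438761744636120200674225127658410633803048031750055828045857239226148676491528676750978702836989139475666773106592700996186848023228560497828911361530961207601256726341574172212382697155871829774536801358612445937578104008657931234012748600733209113042993725922368321760231772491169893538565859116279889161004709420633077507075293946286004201308111713963205655703594885726866099681030242783650384680842205349909598026642386896555170280734092426498960125059013479167409708816802186266901228009878487019516429880999641436051462071367069536232713068154895549984490163093651999323391659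8769395927694771151136403092181047718292073608979057445449476901649032594692154829545869373851615039053776262395062525268395245820106953272891206855085412134546782609877223276605616845655800354571995856879707527563291615852959132943924954825994262947228498054202917277979344976830261584091999082952986161307024035209074109875271756221273441717443987858258124511334348952052792642687936559997803984609984976807179626537766517648230381242777485585223840929536584281953449697510048483327746787544727553145023915762264791516025501640859698582373187528169160452732449570860713767464721728446478574612155007486062126844780460933988126859587623339882218272830705116323972814237737168220008364979028980030928604112249526045030778006591580873820912685908621975066944594058730731639405237746683269136944028801094773228222256717682028126675514110533916424203161741083827036584910591882871916731712989047334212999461193638169434061864387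7185940772738349383646267376518902209154364019319838628913704252514862268473623655988865678227622130321024204944233451839635062881340909824360122676505392682205981357939275477791411214663827354056139936187345556690462107794035556126547514443078446694723687921316387051245451859415317767712834565180066629144516576305192186843543460449687794789158865183168509665893454063567916850097475199849930213960796804433976612747480550449211121274478910818033872845549404354281181586252654880578074979371694291657388960207771256058332911581354949637465766644784046153628620451485728207008531899978553169265850313771255416409840567740322736898581919230432544196639700895450143218265996849854983625647342108932800375205845580094616734260884425522303733824938678177528224283725520593949888697059399536351568073859042524166387794531050294429726645149443985942388269632777231547295444438120685530793614985866713890797183898151467630018618968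1644061088951664758648947250711179255614092563134047068133403940123795630217726305892578423443207965263016605398753107766102514474291645578268888638960473703631229327149115501690220874500018002916409813812452764300394349375803650318337434476656632917049683180776069118457707072129450696412149623667320580021120796732889395365560215610468389672621890956152101412313906863895489384941702557553406149157627453511407065135972003555056780891657694692080247886375658509510779660553973204183934704312423331591313414351234649811005322037852813259850750287279859225544653825815785649614889517875296798401252580434059667985332529801282165121369465761335148519050990460780157638259599715893958456141283691246912203043813005300405700656215545828990257602480060290904371874018327007958762232451957379002136793380933325346128270180881802324741585658839111277330812890293399013612642958439990637730090820235483521885008656240400392968322978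9483670741592774332694277803469796040930630201901552614796704719969041149216187384376755922279611366313001494184803840315857246775607461119065245987048301742375016607109356367699872519392057176878572764217536227353968674051828476435038468040597865876117336290579953723316984796770631766012497505986171509340007224342218264881779648353882437910888489554106153074304646693538783836066381070373109913578617856660394195143487475676981930430510681122784591052297764439630499551257085466541226071868357587579230350801900730549055173098881964432417966721971267996294403946455395296381007374482342412572439377208362442063462466454381464161018907679737442965031823402407912074390624300161428107418800954504498933174529519486371558507487055313210109390085069401619033982619637478730410308927159329318100499688636965846746441852208912543611021243929082619288996493818539774887508212466679219916052045839333547386371815305380554894407439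1640486277156652290495187816020198836690446091432804780783219073536095748937424675046310965981357702787331230003356875007234168623959854844613248406671728496414416133047990413293563193529982494815071806943512310621999269730973146764810296581208238624743348069912439911384665513982892591842704373267750687781890723557983143194020892529474867275290899930871195677178769874078934695737996708007039670250273964148130262946443096856647680702422158590070013114098405034513541098586885276702941093391913729913307404634644325087257724567084171451500198678844596686014847725865288937811186762937054706384827599586839012333266983286286311730931242991058202960842917683352718492961713281431288304580426299172330374432356035921309288232342525000852396022998198295812319628077917402260009529109559595905570011751677084601242564252484389515926885700012272191490883417502393302518869671335393630473484197247379656458322207751154461814435550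6768296138918145635356604671264612789727846464882025704469246249496820375157107304577958819921406558511691068776655880097207273478274431137723331225817193688938982983959304537315475353181106349856518570481873901500023232167437993543497601275735410333604689529919543045418307441953586107174408028396181906474756240477409426798573964366275880990149943016736791274046437040502298611420675184052895207355876681648876034870132517854976732519378928937107358358291826257464464070922532386400009840232261616377082250406701477376651869404800719656538156591348710472268331373724506119986165794473839171177347697052934836227015207110249661982248214522622254728637678404857779349881062102646907338377365153562310371963557984621915816528885385892643963094663633583411343451332226602453194132999879332078748142496924407257837087294592548978737347520221957235369333124688310789083812167419719578053372435301807882771867037795676448655516291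5200481855302399656672626733875475799455864974765120377302985689029059767669522385179071707048405138683961796963708995756297840748331528328659278887268257505888983695527923747305504829641523423576262017928772292565699498786292249651375658780858596964172560564905234298011786922477665864003421905720526509950100113912625316790470122862552937840036383430698717938621930853354727305567237634585760339342597210143397425783386054471756168992018945778455065776823008469094154949013308010173455135460203942093449388981733861355086480823838266704796788865578192872088943982837703617684970753296761843743085942409263699543824519058622850985118583176845069143201093313212904483800265836424619756299300812691906583994868972405775764099262918811942693649862004464646762819298621510286672734531501034984066093665366519242352208255126795760786723768210339679853007191347908481585211159959187845107236511833696842943307263946662331930008379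22347441058525445409501914771475233253531771083100228223363267806628893728425267802345018225643362500138005438193741978549077223349423939421931876456754456712346477556320737501964385079586546094064659634669681058973081105187560249816715961128797732259665405770748776634763513463086216092912071643646831883580693113890244753936371635117565273910574308224276156069471638813596177923230125322974837966114297455622730455819940837002707173503166772826698315438941288771993091763716620004624804799095893915825487661915604700515872773780104152054974012625963349546908711052168156652868826451522700206301557946948001660845569576115593482958110253048366773387124285416671352666678253588346156772151053631520709113438764630264155054911364675707961909536551660615618329104164054981911516340483621343761005746906128711680)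

noncomputable def rc2 : Nat := (nat_lit 3836142185251896772587520685066181880955655887829381476075982841734298056139004306619726870000475874581671787059859034637254026369500715143629614047686475650806012475650214698976143630093882305260817158994268533425862139113721899582798023929940637622590105696178857335623305007675699157867989899376567384076989294644524671819790219528481889253419634090548603003554859719509803049018405906319926385878276842314561996781842456831481468744959503477530428320616177794920043403897237792637246897959014244319014370642842978094607699717494164226443063525772819674512136205490950721208760693239508232889612205632506744809918453373708717903413778246200393149036311321158767876162262170082391104581820368062282930840444019765343916482258544460927071508117759927491120672008374952818001046500481066170165390659811932499025348396768833917283623414867484419098833245871220817440214726953133855658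5363048241579395008774411951995404593935967832960569019255702763184625683341477834413204018463315393141478736483462576339099194385313410721286282369429548628266852568234195041049915618381730218105272320183862103823395275784027229808632455367330845708513072832282825313824898671990701545800612835348803751738779361877493136768151376634665544014916552373984995927426464978080151257015044271009575627653631701512511105037153544215305631921845401005100628717337474154010756795494638385037252885223553064130238829598956077456465459737053271815280581290149169225376958155176370363333677270584391667001183490482337729402782070941686814279329405720335168042302623512346862383149154294197351679050828951934017597121493888598713100993262343471720622657087590790568133660124154342593735068783974306736500364712944584027260524256211342842942444995335704385766740663735483660978788847078920037741704899685005390101709204758954252634446649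6094446315122283550925395601447883377304176264750292304637031653713513653222193931925673606217181117688104211527062262116561744808395795634673216949862818846454463770137397782542912462320855335730005534767914174565194994678367978003271933270568601740082400974656419351986817175452307578607796532512298314452382209388604295646676608070891477646446208631689042798092281506930588594498046891633537468914980512943575161233903024986047247773188081001496023645841483600381218345412849692186733843632736478093056511894089373746219921316529548702751200014904315844727645868230163550222646315356045313864583860797045834036869616304918777352186003821307935891231148063654051386469625881943499705197517467558307678507000655127467573787567405658820714810767160888077270801622572721736392532224436049924026220639342253662845118297643620032032084327440672363983676404749794279178743265086390793951346871731558981420072571517486872122776850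5150700134675723006284221780732406488381403678569170607185656612199570760402480097658202174765374277902436234703061610584645025193435820776555085459408799840630219416850513281759274531120088153030835536715448310823237002935819098212649750116247900510196129136313278567567112092554220377225962834404417785094521721047259337032932336302134919111557694156977348623637088824754651539002885391576727168814719436209314819140279650181513994009675862732581813830205963715927189585499633777223916151171234579786338772859860827797248868337482947480160310119581783786276804251053798713880725515013228688621454474102539107365436868913172908583723795323041714290987962676804925611758568511270941468169102987569812810636974488217846244985349786971432558926961596077328789033177544239550016094215201231095381611404769428748934559911808038978996560919563726099520195882630482275651782301082150215098700006212575065219397107140254086038738443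4917583096645149931724217088655594485305037955944525521562690192711769862869339879910542895063167241131183776448858725186553419421654068689705695350502156863723938687384899300073825251406258147139864807916419053380452389074427001207788764299642551161957233803227039051876975627562950290605356329350180104258890923944725368769953657292478569755302710650273578365167917053324540320971282167061853584672908776742455127512177199366286947528939652998456644401936982431007587670283188034112798338389929153617249796138542977498473257918832340885234438438480820097026276984532846204769081492543258071094055858483728879920304930407691979885728211493668157824831957381170937487198805347324261160956932136343930822695860746567813389294074865091424266445504080698167800020683611434477273849743139613818142242715258883589896928496043943238179408324617358893006159668675983828887537864216825630080789727626407830552592961822442482447599559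1129036239686656516389241146984610896518485334665041481035189336087889403959845765952522318830777601311073625958242436108126160653068020011812648466649322486359619274453727402286469476199986766652345989783551008883888284119495838441377162016273089255485750491034134299304131590316088365356580295336028437072646362707256726587230764419817109624684786321680445912764581463320602238923285957082584347480515894738357460703605558962410087674243548937342933242570632996647083047706823118532662151636314878953642553468769472475902938110484807339278702757572113492795504631337602628579610804067990100808184656100180112854286014809838365023966952111262114711667543371445410044719693842095811276473235359906681160808708040455342322872830051372475494952896677105523391705990974467416968545076729609673951756727557869007369702386697782122928129520483789465331779733163028087091412872590216924431360341269391492726526109205802550809804395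0255130938393214517888061759052459072948335764555269190683654274556964100349820307758516181411113152368184702370880265238679975075567696124721401461674928499182488901318448503274070078371109119475360828302371834876093551228658346500728315581608240991945894569832683702562104038371169423686362256268723490426658757233176699913448681202391843278097410223341300320696641452789221601374640603269385260678311852923295087356296005133902233426978268701096360198410022509177580330903613961306334306262760510800450395944503229784538922026469592652467154240123070278325766622908566808807427902359852153654306026653135963501636182635345367819160564924799122305532772701064005401646736086959187032378471307998260390898726719857221796938873328808508660090431311129495362030387974116066673684206708331415069630304445555331814703283419223694920675285104286121964207475269091957746854294585859859382178616420125118580140843842297940217489113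3421513510311791572791476615703063097173752869790687765343307155627982572213320594669392679057528204976220080005143251214869921859222434210398393000131604873506225540557893231643326839612478304151351529512267653526601249425648768676506733467664295018604967466833056352502522587625425015265761825486031363370800541393525265525919558924026919787875881877055504739072782887443428326582905159443143468224271865741449243890525779469936946965827812792382791713323867912527966676306787877020354906501745742337866748654138454307432692541456954457387908057157990499364553529234058535103527340635280181743674037608103076114916641872315147841914673359063784868123797208994209901534481281294698267980023849840180233693665793503551475799793989177406892523861831958766453560492443360946643996339172567811468576404139149793607486436134337111133129440318204543431002399698891493187814422084573496821096376241950047106181631300820505102205177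4366916500527778776161179586452689296777357511235883068835901321296394955470149705770372206246613665429411953680593882333757294274996140080540915141415781888342182625489616126234975512534266992016837481765972745973959236521829033531606732343296776231279308523207633583681115666247109671245214530702430776751260298495297331234263144712193348253749388770547255277735633588851650006005611279899918290063495870586507804291908637016494469329329483705525581342948562933644991115831499163348973182065060210928166149586526922855399734288027301052511782238310367600926135346565247626605241909490256998785907040921988795215375234121210502081273987143486169919991646388445647577122236703080057542414281370307012657875361306555367823835950132405549548865489465854459657086216373986562145086264786311532960283903421469468869998350180632302686656128413398183843472033424125563944192686058231169660365678924646759462719040745101598785866141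3832823032966348676034156625662779803925645828175666558719392206104175720230046704086894308446697549136599033152644681259762485099344253055387841607739102743934595450792399933082155939209014619597348375617921548257176439598947508528035518043401591499422214247477769902024037914440848983797434030760735161157674994651857242645680879261589613264275341749039759394079451285895796690947851120967691296928656921226326914472696043550200524796844563373166115379776257999093586405497647551281443346659596376638326914672767182245462621846372503851434400744080227697374362432255965372683429896836486176744188691481129723979935459196719092654069581481599436689829482021342393615988412503063748625377228713895348951550904386351503976525499628365724333673786028094423257196049861508019826704896152679231712913399416929633293735886650539291874189690305715670091236491083376772478619895649432306826661790508022263315355139963296078327257053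68506936319628418977055716380482457748005102000574345813611104621389672459209529733785938053823962475081890928887688355356251465609917897284847223370498176354410909189739739560650731195622681811398316686893016320156328649574925701654106718122360901265681813530690366739157535699877597659796737385038721960587237906794793410276165693321844069870571923469516526194845986929347968078426445373071610924189225179441895980611006021714223459778625108251040449778111679603050076487432175782695820669131436813575257732473369196631684550360659283369909994988620131919346217032425045399176900759758855148425226913047146906273156992843336954483585178997180578185604288459587999908365098569363359569796267837286832392203516950901745650714314526032076132416075781184477740831097452715708058169233262093109703478902530244608)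

noncomputable def rc3 : Nat := (nat_lit 3878622226488170500118025430924532812777045337333132715680572736887641204772282375068595277359833493685369104754553394172545548747716493708843878328660658130415991504213565312521292595788622835862581510063167524786575678331058007730733093199428951303662363513262405300247269749353817453078273610324864694834367983848803572573358414954026088194310659605283600752805354307146282118546022576916224600909950159123225285105506684054350166835516596143104755648579424272292538773716837559741655459521076766497383489996791026418438686285423164824684559294478841402391812695489729268251199459397360885353143887987208126466049297672856475961848177001298873968717917818910675262030149282372094365454384340295405629565039937200597516121882051468917634038112990030333768250672273950741457383409882676009073868487001845055190072649558092394739396753378907391417232379098661351917135000392068427387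3837081238017731825729497093544848502918160235078757512705744954704361512743108914744009713770478179013554598937316954193354760362689927557124545603386028745244386220812194486028925579443525217998090335446661098445964683413090091168181056378650931356295745598536910750323513825902942939611901386539520086326763667067268438224437508017407299961559552130954116844143496753685522663423295449701650835504973478863623287695037658653423227328121553384109886022213256425304810402465706236499942566929395309151109655100974764565830384807276369197520127258684574373864384081752918853491731001876100315179595866338379184169286982324630889817529957536626301578242845013948930790430872707873563782600194650868802000897934689160617002819951932434899939120376025878743583719112582789855076885601445569497156921591668421711798920536192476939360572302144658455958035856214693958258244419004649943865338687136450997922489874799908721516363814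7785231507304071920874936202804386716492852789857382609815015417146221070541883987118071862038967318653072428422277090568069242874271259439334620242021117346017452146174726690087648730569176964901109648194080264428914487869078978118027295474729307941728567404151176563454399889294956134887495712983747749110352565453159448442338624429889278874757665762181172826401334723820592506519663293617190068947219405999963114061259839690368560506334078611860977972989760801361999369990958836052048965537489977886243574734994587292265014040465692184785119765973931579249385791975156330562861927094932331178601193020202994508318330031603296109456227434946532674018247144488964081711095145425656024482987612088849944623338335661286918170776280288056631931512308626898070516407905113202050139231150894198052083877070009090372525081010119282702927642401938310933679302173940245464675224449369108586329587213061183546173360464500961344275686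3083778276240349824479338910893785978837922324140145130328945215907703246114759406263502100457951802209578844787491669750028992517021201771547789342981621064196873976437718481454312605806258767392161463781716779290683650255267469189831646477402124580440052195112199130888710856869299268406861181562614993181998382206229395402523076419485745013265821011813264131249825107398096543857245844205121538853683482661877381389354302269007694995018660445419874646195309746515325390190764769183298346121846915892207466734703021916934406402806708986599622108529899531298401629329373333595148820431320764862039074981125812935134724916708834091838689041517835525394301785361990144205248899227171140973231112895297577994550644636179373852987459678928248225003949988050666805744875538862657863600736477286562671151345308651744362634045372783282879108991122839432617486689946224961796707685249862851509656612564162494753521795829295734756990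2571078530566777840138916100103143460213494432861971826129171280038903118956770800060210039931198477006634718613978192644349013382837729521222623384822539448600419822189557816884419406007252529626885219371626610801552650615361744505147130604788356682642350597606899784338353242154664226571582635614034013207169893331213036033967576330286083635090614607651183852876690437471452648733986315107445034735156642876121712230811013606794522526844625526687502859799745046656762237281330340400254897574521898589583035762268877695279834210360710028295539237372646621713599993402173295260964604014201095204835259352842399063388989115333639131718378562977285962295665777516648870504822570625034157771122855846124272740520907180351179294386801853019767996943694649110989850744438142688245099974240312526175631043223769457145352489138125332551906715926661794708339458878791304890469832476565016514581614070591919936566771010717964688399281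5384969334004746606610266053535662733132192655586730298947583334849814388652047733811382838088742084705999948961999255858919409839662058606865808060997388731241001274733318634264177033545697099401572861496033429485782751158296288251617072619254195568539166158665760785760903676880280228617543762256853752699177403286009903719873656476684161092470355773302890037615725013324066565973921326082738997429845147765472150602106601220573403072176462841548031160064210228075580119062839384780391445272259558797707744737440222874126550508052097750984906476718910732019372089749177691696078311522392483555781650624962423005664297085396086029185314005494307832040069333850268369663294882960174487406147793934849117796126977049601950452093357108539804060771279990840453439275580328810364414317313144473554663665606410849085465781846548600369983297110792714312619883118862726517793841133414566448540050030168491891736722263647994363502474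0566171049395232166734890616918548008394223677579987910366616473600494097957188825237116775836382615256976345498157084078743729508217020787967256651706483884024008945475978750732943686496730185383898419050953152331106327285214936815200480376671500924326084416588602854553388870009141686447640263180215413790999863110737836743593874467636498454967048758966349736269113644214836192513841324596119703686098935771065862524623139247815937631735231033869087464023707493811700174850659689876886260498200931765395949080258268800576982213210957566308142172251853366501569616150052622493340442231165860548870481368968014717084161038824106365776352617019928316082186868593442869411789166927991509035473317685304838071667192948279966611688493829132334430063783993795150572326670476582444958099591323925224348924121694317504418298686565251887872852894042366951419465123693514936754287612893265934641267871995672538199919692349906385113250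1104251999617581617204869671961835811129082868728849379338965539043460194751059247828235633790456368348361747366077212059596203957693303658691201305013227521421196860673117313508673005590305096476745177808493331444320904485923831956942595832660652750460919730794088478094113330304904826671609634705389602652242330235696446118075466924027438038068108775652087945736597378787620545627211884695826033753367820407025273048128153965045919103397586458998787881767943775774534322363439323645430293697037786322912874729771965431799817766870649609680350255912299088560556647911521300767944236095757169552375638234051479243987618003001532980599610569237313797823748712084262217850711339274145913520923974800051114888224263666714836174198526637265807025508924041167906303306477250615517198232031505156326817888621546776545831368219026735456946807355688977780279935483096224827765720438881777872684038256614468020252311987033290787749921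7887170009504752844885123464195900543420326206604111947037524519629312927134234048592449726863049684839500394471637092249658332234525459850374594707912944405295372777071753604595136209224797573916741823547874173437759375066417068438961145419454469047216815317633420538111446211672976395424809974065413336352993342861947162689568477770711033237626435406367174257086824773385167060838010042487563583614124802999288897495546822925604185088222058476499530250466396739448530454178104967145643306933572395254589057050376643794660540247746816225225641613381157718839500435109054996051371971209398630393753290270368710889786207724310141848334005046879154397122987874230415607010071501444636769194803799860066572569102967258752513416134970654859371764781810189729393046646899725769471060011827982423037889482065213732257024223837573480532143393608942148653306847904945728950870887256185736610180214756598422510151872845720512674205173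2823611260596980770448737186359088047115395184892147205659194267707733531507115575120896319442028293269433784060754709855311459002238392302797453040435013187304341215213167694143672074916619201466434719435972703965600698183338081344501991537799309573975842289757686916625157399664729859075333827036406637080174524918789955714179119733790878488836281032271255984043614201634484229503601798642258703099678588693688906363595143377669218583912122902758789786248747337425135664067601235848480853590262720435026928788402603608141330254142359878016785334958386058375854197046288246100787516817493044942985515559709490432015259142904193398017327779923932531535346112864269292645593040886971002218630852651468125510010482688719601272713857188669083370115541653081206041533474896374556356929739500427995584110254686595921746770350558209654266248304501793244179853222617599470110799815015770311605566454439310579905913789116076017401317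72393636916958975572274005936277256021888912729145758814274579060652838908168268170258766874863874629799023479660132194518752431425337815194649131796764634065179940176899494392344975490007555092447624163233696178765110853318762304157335759621357789562935964174620961086835103331682840298362875337144248076292709486181258243564150435810034031142138326310528854624715615209070625376806065886817069274105163927497451871452312312670610272244461112152749356124495826746878978614487564496120049189182997464834078069613919092632280246693923392096670679234032713331862953280676864182818816004367823963006731093691565133411174064210911199603299271939993444583437338297529768215244476875276069866642032553157645353868339478225303399881855425156067497132936726601315305985542050782700884396269128620053471262932455129088)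

noncomputable def rc4 : Nat := (nat_lit 3921943728574249003667091364700785420256148939549623812321981773836222739810727546866536490341139730336019684002238216492852391366480220240537021708321038659445967062827943237711871350839937273133446505341768580434709711717868336211642139271072611968469948070638348601261799854520366357735622851260893913715775603856402898715572313371728523901562790175409580433940910441129063575614541001666271180255449792090188106244081440414742625155583822676838401470520297076079122281070464689309952181570849399932242997895017911486431201780348104621083961976727082514843120382740803309451120787656416288032304587571291517091590300208505856820201456643499808521880098324171047019338128386290137402375777686421401100605575859308793770240693868508896259467805234696801537300076910473905537118340910575406772479881954774355865115636588467588816438258247138385609028044784123590034863552557430272761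6109132774347528082025527465435113567668998424810120448970470938994251399628499902635084425657221488886301730608153706805834678806794440718941803386504860212464075443185394580566462202493798262718952498527063478761986961396539936940286512158475269489743969185100674080017896742048818960429602857668396146976106676435234643753549499753939470844313616928987108567417869673992339904499568261525847133944967331239570799339407079147302184721426112863782502368611309936671595980336897007414917938298887664033819882153904644682448741640532830581050314540293174608806852805009815551172260374222961564587403796867057443532802818450304389271018847876666168030216911096518650989422989906356389529092909141781970963143280066285543379388629114085594371420648666604942365023594233383451721060527932279088728787560734493047255871692203410197259891901941320902679356497866576011812789371003250201014913366516852109582671107059512136101735867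2469201535624053258843570758032217724825332526815827157564455648961259522175914707953068979169257983236084792087887995218173930168606855190002739099841177225379647154316424284705760393230511244555715872266820087917337525383404585337609638728518022828786870442896718646553052064738657580654109832101215856741765344882541947866614617272370242571532453273676243421848876818629978306819654873762864136372736765922001261990865790810940724515027023219656869638317080142364489384499090591780437343062581335642764566367824518133144212460556274017720723276583552601018518648990042582825784651765037348174275360559725603088305961438839141345130944321756168463935838824847121923965785990185013219611960842520888813286448257877585256624148484361837923471408535832711090196696003242868168293956581738400675995891192191627893106334534026015045813120426281743374122578885373992227040797500582106452881159905053834009374776770116968461132902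6015884376725026928708699947472287242960833874467224283577960234991728759930493488432340328594395852432966519563969414727270884823619618740375131545284698288033293821648921019295015492795893509735706655252545636154587785364073871746016127208860447354036861748844891363352009691778916950070541174451717409231458590481902352484068628415980716161323980623881153801040984671189042726578826568017026403319467973986760596942699310153819168886768124875022339475707996487454809668840067485952364834924750674739147568806728003064066639954720141650468397902084091632644381718166929225640924460695013952006798286575417641257887782502791406474147189811730661827814768760059146147190901325565837008274889738740771576125882331180982399729909895638036053464253639657302164154784131759351730765505259273247966592385557402258256965606440822063723981002405389393979665598644865434998586991047091795138224964127572896028393934278816604490176002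0836207641980102303957542117833563044855922208734599423837883945778931398898877291026040933649856319094459568862625100950640881696924555417422576360229605580347615910919071777101516040441134915716432573596833761258329466823577903422450496524744030386228178317969623013464832973138124360709398661996592389542001692183259250678139242942309422562106443974778329970029672168098310731287313927600410788787021116676624067454900343322700487192002636394492779188675552127568950716604761085339493557853387181981355458031318933360130774795146453936256126357618888503590573011479714720028197683988461560029819369269838172086029182938770978429006226910631320393217159064581896787603910561847402192022696265827573690612475931094186722415768273737255529498377575025940765535038820425781514280492698761630632861230803154646120471216418554310521059727845176364556651983360604356184237732928860942553639152238795926956936394007410914656579596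9378937999818097428054969112070262807753375128270238464266732791988605821281793869045577383126463941072406590339315084300022227157082694009694640115569987726577794830877412552186966073739996992772305197574848876892840233247179192622172876566558226708812660939142777520587574535663961207523656154019874431692536872768576419813985849715773699954746751480286017652907968395098498770994256110226026413663350153575238510812460242991059474732001567363801391749280446692985075539210851361317574419891955202941192171527454001499859318172927469421034368359374998604921258993392521322615834398546427718852155763895703578588427171204441302559780165134051971477711950296485535680157325335942312264167262413518072761369140949885842659879037573329578768391730945295003466684414945461036086643772503514602536539705995088350571311455221004595712409590285965266331851360773385627228083417899007455505033551135463566019053097849620195158335342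4540464467300914353696736408131321646932845369715324053262529821512728297437153792404395734698858885639771608982419863915830100827853104313974036876523860341978118603272485626070652179851151797208598114293784194905898565379840585250932245523290701237030910565330849090191762306365407942818530281918938294796302599625300449038309439761425875517237089726479326324755213853699216549001102605661492647729054343820009529416430689344619673756633884097719652592791959762923966652259189620959452227423958704308564556769426971624711727667566734437631395254000373618050893604803493615241409874652830532967149248413327698416863520256953822336561090800722109879905407715574474155270816195185890557027999110714930479084143701239394189396089699835407214874905774332706069264676575099797548095732382336577899497584394608914414557460337533472474508007066153730338160059360145394524777452654696569106184570345755190792178928194768903960276923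3312214376509623610901231846482203808645991540492280890402157947006074356428358509006705010374488610596962465562853376850367201689850923679168502054409519124365925757811279723785281371010188573212475290376006959202504442208289485465862392153955054481502400916583703331940400831110107747470257390687303089395126183168656993947453626851425106407757291583993637516704758303864295460276964483780638700419559849584827481372964120114805951259036726313490269150990095944775712362063476374808469818599435450457058796235402296668419311899692682426111017519844335796853325349008270046663054734425848306833538138077422812266160290210231284220144895491874656522360633896384166639393487164080204425103715518612319290351749178466955760989129618540532269640468287382056321489252673980377557103752555296063726528406313268901116025893700187959204179921868456099784622880108401338705702549969978311897067629298466773555604006170430927840756330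8375571367190822743702805890205904048657256018966262409489084256352575118897557251712402486216056714998224777649415029877656127089039679031669969400386941582773858114838846928245471048433408089729114252393665378170458717155652319578666341458865689378282988768669831401405307023092374794797269995058313386148119353581873822161469951045655385856175075157967616419081677026415512138594793781598403794844120886427485815196117833908043797757299217694483812056976475554981546971634748012728865866007806102080537126225436770980075851160988285438845140981292230281130547858314196490011399128167160888025012646330118889931898645352959731828477170108808461595868697517096618838003685786736647980105398803523232075301542234606634166086177782477087566945194442735184154102997473141861559242732778088750088741264795665951629471800987146814666291505226241941219117425103237053513428565461827135722705684032226377119708807376841606135702293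7184839521945379618635547612968080427260038481675615132523854928097720753501652184921668073713629848626883174043912242475278529703696547151392317424304269481789498990788881877245070701996393475843922590128330882253886743211485919127977536828163759756780353364764547716786166256324313614165826317044386800714516404948339088398352950125151494322455386691593421047101569170028184318675206150368560217065421697860143063671019317295513708730916162827813404902652098377775164956905117363760881100319549945444358583154994041671972758018759013332975938437005678264761979956263844842282532381437593843553675515789027535262921439397920930598440162728774651270459006589870970646709138080838275000043118255680889080061711941353062382253410779853957584864698831626153168987332925029723219185041434421631449993166047917462255405830932946900249555620706852036235437813913044444686319254779822890907246403542346062320589969386730168834834255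19594361860011060551711712266402812729348995926822252778403964757563873522893759434078090609949461277658672709979751326309210579661305491437139788415356188302650750149429675591105606831895721723612490492904278462853010826408054569165950635287180870376493147669942309839028229849632378127323808177939778251070327519412570700715748137547242286544941563218343376696903574490801730563223336181982369220987903399128166280656918191979689357844082499142885400467068699733846440666428038146135449779467302098887327254238721163079020901516202225909715864476910665307873290450404349714282941796732563958728546339743129720504676621778543358326123898120754363176066872352831777107940356529873307104748521574396550197587855571808578069135694348947510823055034669372336754863217986297697319212139926573812024762257811439616)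

noncomputable def rc5 : Nat := (nat_lit 3965931813345418511021876430694156053199554499626185485776485896579647257795601172400302576954687808559914528847312886096840339486684656916682123382978417208335729106175379352900457050824912915967081896072896320009196584695682027220609815760971544040096939111899526680026110567187957912451207663072817246217585481940593532903057046545870878398088508190804483559609567204305490249477641266142678300588883494356212144277918646939940876833218807372935311667528117754551486251158438338383281507285852596476317575443344363689240559055199877961351458858143559684994146809684894862612741740835904952054059255171055596807029200488876024832085826866164250720848927102597923782970710861399233236327120992280352935050084981743443318572204748819101369260173418230059617921680936849783419444734693820434457036736838624020604194444816052591284948568813765473199338974100218347797794214436942157200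5034766902518566825100399100936263008224896489499684483394309489045357365281247428922632852386592571041249041488571801649110647102091598610969046955022168645821633489018602850699515010512521621983356399946811213349960442945721278293102578231030370967010697920487328109570497196593869074081303134953949191408573939682075802614785258361224723083811251697307148045812042376681267559373144901697652898538144364696882567599473795865341596423054338270137020466434437593863829141666177079831725009850180217821959738968129230128908148034563214748004785838648153417881307896374626970163689286184193659892060207959660149409953973495531492512542564275802111403612050427611784399313461425025099253332995244587404359250802019711913931952095725295629963940951879398595281412329967649697535776343698619130546431717391002909197146706756480292481180601889531987329038909268683398126437328970138323856327355688639149542165389782286655615951640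1235001843371347661967910054424276033308117060644707822533199405311151516990769946266621333641028823956696113986792588835300545071434327782067790073433163925850477549391237227680572612337438556937728959847930734666929194736697570212837227397846457634390399555056774648681985393970833023861792627125528314090795200373030640539445112490483307798082872411427790938035341621133482616370408354173215535055645765226834922639513395135896685334487938871926206201947998498341573051042727861975056506660013652414630900764704473041282107451695589615651165655707321771381030756650723147149324820505316711290854122651820389618035588851103178031677579999098071553577899049932489392511260486515244586898924017258017359992417937154246018443433355611345855443084438174130071210651470871865777656858640125128401113995871828125494618765067346099885115430705329261942663474385360649334593194544771415619343923302110197605004286258910100578388845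7505547263167546157028274027116685296676117643728539931532612603042174546589128238935493961549701266106560335954723862660322113125164257108166387168923423204036182793777415767721335737155700579229090530869477844281314153251783280354159413709895549619416304846066296552453643488891928766311823709635095512615095390032552697704030083907691038962681387350283117223469653362594798213147371621880297008193007681147164993245943347852229176968050272823129395291623667775519805981562486902967705146464708961790806216432117516159448718522569067928203846817358321407381242206842234915146565125263191052656212028210382596854438760707199577330360097503264941624724028855893515349483906942627070715052954401660182817536094904210161542993605313143297809243108512852477541070888798036593847177921747069030602479679365970265398959617184939805798386261894553295443398446994306325930674330858069218581738501106084281141966893599503234935602791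3722186787660557817881530479673710717625510472887236714493343373728738534449977866343836395379735697973223004681700360463911106305062535515289123574733589992712170547854541451549013682676950144923863500571421952945620759667470312928854941762700728972937864431280117543049496193813319536920323975640546163604218681722459826892961145039720757581436664217451447755795193189521121151091527200314336702428247512253357449991746838898198833823234993615797760183647861759136154947438555647241741979249462257839777311323606989155870033231918016136232287480544432364114306321756968229663405881413512783880061170342368136130545860723833834813204493921502800606620496397653768889931124332542304287662136960592693580029646302027231887163482989291205856485527565443490543369197852853562706049496981215234137894875250326981640440719522643304497185912881394819594487987792894880045182401924813243762580691437242683393814309487779470710346139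5045388348014986535247882208795341304127979293354004881486894451180989256875208469115229885957981365310226136929075108603870737617502244603641816305933126758878438807803182990587504409293598049404044659447861314263743010150882056400891135489911267181912863833312673847388876481788980915378713601454622235097418412728353501568355007573983014238435725973789502288149947931114733498284644723306593417346732699822614075984697295230491217434971216810910542969778054528513017532165564172529413122942106579289225008000602287278081717363940225367154542497275023742652066326663814745664296294472639781593483036990558219829457510959579416426846445016630967330091264340717461243524756428243392260199974756715356399989451447569228829024759257472964824788515873397515708915448569500382481253187659043687215946404103045893943999464741063196597542830205521833608453513238034466359940121943154214060771159150722324385900061146231299562627693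6144659653055426126504853490745374945282528352713093052524375327817477154750284532702804668761528825082682786198716219117155741924801600233166183752154099033110928701640120446477147126723175857297763006723213210170073020344015964583381266318515469842703186133824214936486691234418199541735677254511177632843084643889681130944296012782294989532353093460927640752240818813904227899816548423891176689930971022554515837988161319538858513284175921240857739183257840602904945031216568529189815152251726011275934822274511992202137147522037448916763653784297857655040230242143413143324024263752952253440119149881099259061299401480498782547818655680342882940142817947066977743767965545058282767188986041084420433056619233903687803040924359531684550211581928171621500376429191796788864454541584557294391831711767713166422346508522582745684556086990189383329327731824934175003848252213510987800541439044796222068589430220197719441516562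8140186785163378130543456964473900476952084003319387046732506506744074164392002514878658837002870044508339704511979764758193554162600499902910820502438773882454102999707221384494445529695812502543055687627541518473497200972796593228382031057069913073818346797248963202489180764532155346980321019543886084062220432805437571906025789144106925945928565730077824136855714608568127402886273766763743594745379813876167923562795828021991108295011814409600756758630407229236811670689228338357346305783742905606412630245405046570684596423594368523388234287153788101003796305868677020141260264691007786862147603577279757592454404447565254696726555734037001039651992379974350649508436470052040066950931739889477479771994251762117297120382678512014435832859932936407606003712339298783140225171005607236642692047565483445553231852860510315523591527858401111964173334025357882202012065425219441040713006643272000664315952044278118480665467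8007171659593479350327281044024229250901480569113748558347928997815301842894474604918695627398100936621904427999565862958832434189115239105542155045479139758262671958258120114111703433336060322124238360230244861867719798431478647495959918795995119899544613375265556669913203951394555383199065281066677599179253058814785671740454805164991001040047019133147354252560964265942627551715075509370425677970897963052342715939698903674022949315140426677240264415012579322790926175406270025050371243832214074875324019766318936860261307524645666288991172055545518399694563470001934936478327129296107494511514567218825347452761207308857022167898333627047394131810305531676611112422639829541814292211416823002167772407234802100417306589362011553640643808834670647792506125839154286543569517955696874243482520649490336969907333468068518282623319614398308605786856540952324203552970495553131927962709846679648570163978795025220329501013693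2514560743197422376341388569859139222269767116216278513567614161820607128527175064238052182439271436362858065801088234178363381303058484486749661844131459650371636862419942453994807372245085060501705949936767990654291876085694645478277465661321682711329041414166772113316264239378690440763640921049026120153604572387873392932425862686933250241077147473180486226364210584419794282664158618098099132993854101041240140369809250615522353024893322167580002016469020088475269691912813990091828447893069407947168347889109544990546274434501942547566766199667718044444817662855854100623479793723552751935113697233541816799678165380783561784926532375495367710452174451893791633223178109094346910986356647878805270384727442044987449500494077540514994042040938171377534765639495401915016977427490850903237905463082281243476459977912329404598801537512432439244522229545442063181340440349920629956315728771096494293651959169146669187542072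62815141005574171086588884509727703124245898908561309662027582582203075401240363615291154180112639800173776843580914232043103819679018125418531559815317665509245246887462178224861647371146724067942589365618886019503126267862887190973216760953384925725419173605566309307322889765047049217499475462231847712427853087871900579879583175059406941329301108390710481188958587079407193968680121880689744752595775063123092952488789810152053905060186841950500411649363444474245044632213674605065820688322135760234966652117416896678310291538090562217821457060527866198279025261544692274194689463725986467391536387638775583418954903990321936141614800557017948235241385970444373941144108570421864093877157528230251347991145353169094208215146192886384830319691220445663449578448297795968450070350582248700480530492707307520)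

noncomputable def rc6 : Nat := (nat_lit 4010422759761869263462741398588654225832564130233148814542043962946243656377617630618262724474279418242876112353855062775138724413379716768399910320023553980259099319553815794597874302566558024550342447431936488010298176651585631590709345899301031521630251532041198349505620880356490885189241274837235212860919735005439325910373412025717655033796749814174932576132835798633429576033235273110570091224122966181272297145385868154550845725752149917687723354619462135534884736038745552061670950817465217632990835487392934044824916071954905487493282847855129700216470415038854563986851849524463241158362534040578615463134751333032397972774164309036916360341315201992547418405860036924392175769041570089742821281861854077614829130176788982492785023574076309741132198671934208182275345295260256933764413645033720232367935115655718072132531749349352356420068163665941776485599561541131927735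3962543896160711586271664957335304978197935506711023280147148686039116175913541062352057517496694706888400498240818789346276853789479232937223767541737548082044910874790497707870847300470055079194154152954861978880761571125470705244847197559210649493072794883300298460695174493103769625107331053292673386536074942776225277586458682313021494277210295838473193571352499904829473637407469543624009503225421750430687025444844782161036776078819369649971713916727759851153957622156796089975377396582012040238416773532090435619043344419508365213769965382312190121843361221479131312402398467847965435240130317421919504068907904741333349983094543737635677517850492228133394034456001890111676379100645461981131750337519848069022972480547869355633606074858395191997431235443934865278220240841734902933795443323138429226317437904804030121268804675532273981422958765937512961913249498779500537803247464188578575818178817467096760386995818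4831665943056706701947209114000629159608378799479980187049214076577891041727407907188416544449049092333380198861198176605271683283345898062268455100905527395667625298336796372110769176433583998419292780501965820760878327153533218587385019319960848029418378123233490665632130251051023502270972481104514987983445680268932182479728548645269729014257711834655196929914764843425684422017989223818665882638309474164318538020206848434222686162648591186514096254520513357544090437199000373190398152826341149992991387050623265590141643100657515132510849146343927655286961321314312283403009362221882865731894291079752729606723617013113908606227981462296613051806556639273996326946460906373978264330046740904239273536704957471500653865784976268634201690988066204176486639837043170187991843419604819253318725177987249252529518947467972229311391123050607298204487575249680409562378191105355308342973978090771400680107626276486632721935918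7611921298479014592601147642832569586780448129458225190598720005365980158331847246232118250352256108897951613265989201325561215995415873899270038823355280881546447501168554934013876333514631700582034543890380348722149162089062727493582134969057941213374893902163241342955572743235345468133746928440317266225173966182176887367447603957233825361512191341143064456268079620321237344962356081139876647549309319935968164033254234075041774595320019249172391180267024409852304684536163567105244757870908819587528726535777649988785408736290903087819794691861965432031123625370444365462652640154405066864946828778161893676277704376826439793908529431515259693870837283456823130210741150320404421783419835641921238829906270909918868053406227674106069532554056682214453474028344488790971921437305215396742174309968567842830484790572671268450944771972258881413603257855727903969906415525044598685343838385078818159967949275013260136387107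4275802150036694349198079551396754916447020983600222363639599236224789507331144856015817099118122584042455103992917250422260365826854227397781607337534846567874058457471391996984217673082024342296632284375293220492353814138958314674579031338827828734177883129553759451212313704460535757623794113801921409262525281356100943014702540415268900025629841929958364894175417847640209825162204364595584793090758104611551809078212573925909460774236033891942671542661394685170956122615140845814637012539829654760609742814976058522982840517208171436763800380827292934106506301774416256404964361698100776492091990201203025249434458106321995826230945386172691963916200777881872065742732489598370030304597917999934339648019144193821275693641471657852160078391618452518409488859610700642231267418331499637297676157010140240634415581946994374589153289329867438135696403111293427072752280278158511592278439437639769932063895048799870750165263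3414519330469212348342221010127652386319928045204762700216551250565049755973313876300577997519274168702379070819847808037014118992554052457749116415916200341089881523441316974620506187408474242852248504999886277446232725565012219817853187357432961564719730958320848147873894620186634924387882060275762368956861634711628117312241622232469387184834068844824224593723304866315249250254610948838107051248064244128168506776423857132982918183758541294986075811620209375979562077780740515568120846182993160902099266692498560097826839689608385142140379758486649587479208627548353955257702073573175947545042319926020079189607628035678787543966855857261600862343086233304892319874783555759824325506392136593207103721509839836610192596042200121800543777589334219870771029530544006901748327593968436817273288837990693433853845518872789740396757697545691544911548626716965894273614419610987611985098966679133897920574102991995055131115624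4664910524725495624346948069965088769234872832840436606463663626412734015347782740524807188922894649333485518430573165286984014012496162799248398607925998918784603249565441674219711433780946618625474601661680866182409016254171056868448870141811018759612120630252199890508843532247905759400580479325464321954844638750035478381811260773521886994007786217532938213001207593229260608462924019868976563831656206906368596076661480526618164001359344520404132207036381434650755825622844372608872940544624792768522766405315132663060015751232506479573266778798941089312742603575026874674634524594720793659514953485389238570708699756255083274287331031491856259456712553362173307169212483468260196407296498677108022721715358010084468325515351344866543376873785091275680513738795165462974942310518294813796556452095020666085638120107000975169934799739856030803429719008074223286590845895049485215273740096173933493527735828094265823641735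1713825606655791732416744982584669776697746740520089739296838349186620635029603428693065220529719325254962862511156428784665545933333305960621621214614484761849893004547870095960315835838140347540211067544408285889365234185131816494196372404568033445451011633127998406143607170974244407960399434402521781606063332180660046897449655702575120104772353447766545414550296540685261254984503716298035643783361401039330577015149234693115366787899406611964417772481227363097986994171641511945428908593760339215711321662533248206138703475442896295722791883336122801243449459422464496537806903999587725907953898143302600007082359233203896756082586309165553044651325108708647282740345106167677806299761033325948599707104553343395040918056065641094359507751211818036145162198006017098917167044354962223193871038657591881849188237017317294199329946211269932140578507291292937328945824688201765013930896990279864350836889903076369385335953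7848058631364102898895325024127070838940775394503952102723729410971895170910429331290509070710559647480919259442837323848900125126703981723527582623543437392428792224760002200031606658445488453042144908820286970300145869556685993377347125379845490348264771088624667929217342305391699728681750183552952548605552092711800207889506031726351528265764410118888823931609054967177503526819834794479540571940361949007378692944547202894337468205217975772010247624306655998421912905264830490447373818137445537677111872635066067433673154554593537763633515019814562858261950467069475992719018700306309419952557654941089979199984965545702388171786817437244357853008280285680574967414676321636967952475058539772695128263071446942579857613674816307709706090415311550306548938008161432852182159030085262515976002317473933440829322572193858255374907645836945349354587393802625704053863660941985335368097172956784041589165844210188975813150799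3310378551247267858401067933655098690966681754296764784746828280760586645264757562397155916390471936029798200738704257910793944299847906497792239014583273409623404556109879536994885984911868626985636839247568157851181601607323630023106138456626040426186544914559938732921341421383699654807181696300717375833148212498017908750285846521790156937814647628625245642735291617165501798903625130459819208317959952744960669806509577872399387646255036941377207860982553443041801973432626435507242971911583669051147248451444244513691231806393582446439813079216566559781543455443127594945083100337327043525730006367594417358805412453562372406476570170422293410562298287025743615703340355600172722289992379711997995147159784994822506954890749816046697215721576468892095412857390938670712569232179183668270149511255592865135644426678553538548393337486795145863214600735634957616948092140625317275294164888716832978611377176869794188564376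59450224662287066671853563300053612953557231033824390480338762313594719353005236462904785693081806906562119116177466797854509090198932395641995471692940862087922461746468422033167873654234157063774219765717320607660101624990393466676115476959075464888933384316280890148878497065997668556746706705323744327101408111355486522953993339645744508037262850854838976256392550169752757768672094996253797420170365556848955274925228378204286699267442746796518890119746190164931824454886348460949536630967272683278889244787919680095028238375765909003984718559313679128294629162640535197924632266128696874765405362087064518880003857378708628454053166284351669496867066389305130219429813187847078961967173650053272866028677337951545214868404586432698336785849899629527723493799886103815517365261422327902368171269537398784)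

noncomputable def rc7 : Nat := (nat_lit 4055265516170597641241736310728725955489831940525654657452315036290154537070194792678197965210795616709519100122747687911485076977572436183085901338845692743628763866025055702408925319091101931141816989650807610477662873868286218610779813176858665856516549742384919266472553712164464136198779563291880998567564517173387132926579178807098802786624557386154184079935900479205182219631142443012267242207274762390545301061397292050064666537114745462597057270378519971439844687659780513501861217997848363639566176719382777419214050787472087606750843153565281870235436276640005895271697013197374390120942280948064390483950945211901997533491857420449451059386957805622959590583042798750565769736730530213334918823179922150750985495005224945392505088841782337767699835982812107565153462539717599372015332141849073375873290119088871681750845561490826840325111483337771990166116450519637948551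2424990263858211704588615884836979041750424215684242058378861480719313064388152826525880951572647010533882468208024520301209831260653755663959251090985676096306754770503753254338920852707489979306016654092167529031114452848901796441169526921108700446989279320286914645468621924828926647215684593891202032332230662630905727135833806881807484262205360233175204260162383327211757776261202840343131183731235154618434223596942938323907629040237882094001229278666850739701397046261875239120596067645968526131399496268945009386375368846063549996229856907440285878422019616785844591090293116824650810686199061473980400454223057078396253664191087485586780066819495211565689032538317160199706568493999032885027547538733781586687366951754787149180698207320497212034667961077069003157363222171501580465121603498727820333001988661777094289079743669826625124527172476315472343412433923085433298042739100451402712652326040319224957811551513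3468786941576147025848463115125705506600990034131741887343876761971210412157233638120875527743724797109980887511509208755736458801168565943382779920522916573845991674234555134974941865256680661814049422706209432924347219691589176281726687376782095722794387431837520493901746669786457245020646326090214365647380068417313475111798255166242440514677699529614628157025348224739625479182780767175981171406952694197756188463391995151525799481522919488707577624729340455174317274485158827895623803129840392249673789451122673562377696635194814755905117159903654344612787886992677086348892557180126956642537076647433353668852004528551722834742355259907354490854041372382102630517000837955675633595451468149872930293778687473532356414955316678020185272024292670500241775238079848432047219977407952781308568205313863689689800630461282382499902677698743481583553980068421710935729378028005913726233169614288660875260015474129475422379561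8099920993541544415719854094687763172957237536546047001116262414487192803105974689752821006079772373141011092121660714529451663212315669270430883676411398330728898552450420471746590490902056864665245958154475470697493551674119624054405340354863040848646111194601484975851715416921057696225387116396011375987984132026130726516789983211359983447165382413587072116239673562395544369263390795371762074277757045342730939357668867692455820370046720642202450902826030379952592104403155401207076819586803841253127649311224494757348216676680682394775945630561950000785283031046780279651909655769132457259050454154071127184886613457481990067595156468296508985010871772234279416984968612571352691351438765180938616049469140813392924184024897198293722793499862453771057989296424000817518403355693432202298322254272724650999640409786734541794620703202843264253692287439576269504068515041243644806568233984350321110015664331780535888716898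4329575695090256334088542363752597618201008125809505969312699700290051882470900604600627145143267482995863539373231810188379170540571898074149943122007041303473328467353514612742760715628312372372146325388840272920479669979700691312864491883014953746640999429463538464172476989707296314311648510288214306662807214055305868569737217601682349496501921815564600724507606668056142464921703198996685450386135520413971181751023159474465743600126182849922090494582771998499792295221919974446642348031171240039412120303930552490173968432552457259196989388416265762711983057722976022467995693150507429910020369331923724804815163290112744480241821704220378278322674708244057345906713829213639952159645575130641242461749540310188930058598427553489923509576961663599526803663949756328554832016134237618910557685427029739735564618926210056076033197813676340722689864285926162668517998520732599238205216072203948301196586902213534110837229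6284991300585365155390076181713125292789473485113119171649411238901824753692420718906909016747644174328189439411843975045888236280280272941053218772182756682194644964782485420310764631368236265640886050629348856856291050101478323526054879390400102320080909325993084727048479842955096719367660727467332775637449695832273327454489642379774088070857791870382200704755800212139697033198156135831802778928323790392598044959522892120099481848924630596474822420279458179829461104390797164387708064501115780537670775398786459867751935286335207431994773331935820659022123882563400979431108539935212534046367121280827043126331647829386377511541824250165257201298801391404523911557909180580217066813264650998522739295144127812213444877805619161267802407876067597005986084932328047641305291338095358856284559184275435684058782879407469644539088313367155410934608245575321257830695456448370938906267578970149517203410713362729100415717380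2383110871523661071838550830608678522320269872050616260833940885285843184073741345026810977077498560348841637913364696115608875224908561746006559628012314241072088433760476528717314152171935650986585639677723849544377053408565523405522308619631464380923339513456293397013742856371983084952466889711296494396309733097532834713613136550623246903539549382999933635542596672011345257512665743574775504159976910297866672756576243668957618232026393520210808976332618028423531287014137617310366533942974930514862645134308382624479865940995434995233859001720342754711699135971438523564185743571922881643116486022984161136564333123070581868684869967144280367670442332195953374958943198018749139052057174101397510389590493522431529138575454681181547203881849553593820264716327936656554427691469388910660451292706514874341154395130094529661451734347459659475663424901325511231306798041607296521792922186408914687127275149788694163908901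5033644373729298851165790696124434714788277651744145886698981628713459795842450250449436022403835513996931147052112892915546207945285658623933727226356342185182944565393385104641653606336572122742464932519633962253877073394730951694827452251340262322514823045289534256190582446630189307303071967663213751502759900054309445304141062427022491728311578208282957147753718490432842669781353437840556350980175142547844714941354498907866179590628817704221772832446707108079478997801225972339477957580225797732861468698771906492731492588984666562484987332348776947408115968541150967531126404879824359812097954855174394319025128168877403526937478350939458048144999416406740142998615578923999439658838649698908017629930870741888794986101730091663878270019096032871876653298678123784645110532359191245292435498106809873066749411066974376479774859223370680094125495360406178213329844032434817201492554721007168411159738545904886929950115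2271359120183901017054651793933805533426736767185904752630066686091369013481432400410296947024151597334530256831818778213724395350307007461800152201592548755511235238034986026531750202309331120284869711997076907501688308770422440413431343803221527261086351627296682665747803498646588164867007001526816000442435505023619780323578027928430149633533688676816586605929792940812421131301877424723116503703894712965038558743585201015442031126974273190673513023436635729484944954848179242544798902429525962172748561049825474901580451983452343058839182922819212093661133912826045533207169029760234941787987592264377304686097874453767711746405166657828328228106495144918861325445104300448355589178658970605231462058331133573551072218678330822021472165042377218856067210928248808924209901848852770970227027508838924832977473231323728836731476974876917930893956132112413356931030873628760673488457264102817473052830315660918214785985551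1700350370425406062689461957577481800525748894302780275109335895071630623824802340334701595164728279428306866406806634465663128364628257172280258473958591070702317530902820244657175802031193717784537777412027489788278153738138969704966028786463901150056732614201253949525651786339293409068710677621010043155448968354323966349738725478970634342673990111746502459577096158551181146370880045537595499784370719448504486854344960090860171125226101657245927274187699887479678225531987673875570865638249730480617584298887633883886567899935736698431252049511002337826191021087517140884064168031574910546024649074862889015106539329665886598247506200355962776150208619561324785499984370360465033526816083729934807474475463210352660648392716054595969418297375613548217776632564288801452980104601580420613389315377119764684032641164601270577645470314187324687380592743950280950339611498923650156719054494646749182425961128346803149532866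90970960261750449487949193932998607979066528153375846518790735159646889786176234360282567109859368614422844643674223895359703677065639985238624907040345689530141642475606055467686288601752490573045638448046346265331057386846284981095272722153549429254949807326822298304572111206806116161431826867913512929554754801104669222150424357885780147497805049139499533777503094307291251064699665391292932911326331611121902875413884196309226303119141348586724185260234865034635800596134950455020053557157500839210576292472533561164456510930897260319746428250340575686939794071152028256423883434357620534238450916399696990698909348203535650472127959826738077221026670947705661647907291122895546381714072675244227937500385204119485852802099460615600679605874780011699541051508095484508652110858220104937948401168315056128)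

noncomputable def rc8 : Nat := (nat_lit 4100322008206295121329318641375332183410060162161032800321889547772216832917713267137179753275556516425304715001594728069909778063333078977262292828605586033271597886896189722869294973065154873029027825645059101821057881527448523199005912143858459725088114800493033513929240535805581811313139421578295879949993659494943733427164433751716619666831753475764902434821509395997870118045593266866047583586180411143225527037414596886534407257334991566477286420718193634002020521195595850540809800995100636271265208442329366712984656442788228950817265845438885330000570460296991163491744626613653330006569045503587996604464979022503642560046435511996142212807125994899568237543249864078044299946092988677830213044311090106207939688024179368466301641729834686844019934235163460183938343086053560935857243208987980507431819962732137957203907771858173058053426267593299366667734236858669202869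7667280169229692029263223105636939148491773543749305247922955070753597617080832249216695793294855561222072159127050639874521044549482484755148837684267348325286633963240359828462865247487621708934844312199776562475378638139844364961211894766207036743839204367553799124480198276514034291178966527648020541698938976207968550294752820439867000470345721393672578942406565874870143993896176431770034493923665325355163806987085303594983604398654436758070130453104745112646653968547815751161016446807067619750389877258310935283587182378662400261017106285091108157666806639769290612690649426527913720211818145944300134867903715312412545226494387456178079822113557948954736034207053448576484547018207548280284550408597121430514483939429998198056122521131871429123457079823830821232466613374964222163287628167697341284149012718862104378209357378878139184453755028630032978498546925628817526762035247532015998268255722231306103391890537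4886633626612371088138295744403876069817306376471231237551091314807820581820167532931721917172449892313110390690663874037289311512055285483089225335982599326175286413003126029802182016222275622519625697110169927248228491525062153454480130559239027637531116908280837598822157096906684813701983529615641509497218695785595320635399628995947906904399303154006718788701991900033954549004953867191183048773888498476190323157456669532204513652074889797690458751184070027592652898335195890929137036985620351477490717371825023871572450117847330502767341609530689752058614271514957558146667972373968823799064477347087830475058698022184957837185781816832989177651315189869757700266314927506104636355347729291679022547803808710195257973304369872687596991248022859772543069144295522197695677099500897889392720386576872168458814869570335956444087707560825063417944994768861153133749814573016010668715173797349848825230727305424288462806997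2754836018893028011157103190377805288659164640333071270242700671143344109004536537420631900614185601826573303653531285982611614184777991079397628462574644111613445019263338082751375709014363042458628872346829600204779820103170436747270162013879937071210297476111376140970773664928020963410744523061776054091494210024591802559835883043674242951704952563349227740087794186796073394949978027989389227932368462661823185457249578711232629343912732246075130395170686563371330234888797947131329171300221648128167338350597554772107688474525456824348990986211665557130521144022524176905389953538790146986830641597420161943664707789882285421213157441767455118644566892956462558980849269016743239385056803453231126671184344717395713762209749794752506688278946669076304489369980753245930027088049883550698465134688766888983402498859137187446782743831450157857838674035360469944135926186886616933375160047682961462299572219224607826485328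0484530116009958891779978512380164125517405824905626655399879817257772109148857515007745588425136745539365569230274328678286017270548534969370257484202932616257163588347249018879089690004598870597784849735042671918804247166770829677166613470929669259550235416511377984751994799919079320707897973635674985685865213661940856733968504782771318826351430342073420287541678982790567167754709949388665418757899298796098201057769815395801958318573666656310383424027981347519001145055938300987244658909604451159006216026288776100177150815662284635801179321521456715956516666680779149912693239639152707114225835780844937039331092401574874784075186982039712900044255634401336149451241882343413125196379827773034248437483439276512054609926380286227810210830392072569300560977027862646731445977976999106993175533510673243323223332915841218633808015867114792490451807228853059483000440024870385467408766329828991000231145098770994235349805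5192087513579849630358335813810220051574329163284576087910137447236462900227298663018500787728279725659556689006544091524119431966270554439336804633479740198782940954826063688145355557189469653199725227847115253977279898518250751929151672041443229053657555883038042354939739569376729882292345068738843569962401034236147626980148199710991230403379036075281217500129525548614751526015053710733229082528888986184726102033772782422877636283417048555462126064980822216942433565466558762413783706278419428471384405296933973599782725785541685965144306271668415939489758164477239584166403330653628077076353293491675994576424977059876897045289832669604266196556288732115299724517562190628653330286365833234371070353546721805675571958566947992018230330006579581727898165982835132872096442033105089371675806049599715956683872173173577110185327648701072759652549061387280625732544380604277437980039862759139868559819404906250356628502830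4429263008639459443174628504250664985152953920717569829993622478090305964633744080687524975785485353099785604639868131561665559944738426831225495378839536427316819688750215152900980133902656380291948209294341753649618431188093326616190086119202981415741137306035961606604218313799488813957518260407563808597081458434495711319889236667898987299782811659319389096537452623855089239020748925059583983215777438771458175393150683031112522975224002340118738035703794256169442384358867423568256163867151171206406192508186539754611444144950445285144201029174446768300573922702963890705760754504933450414938150292157760386693486722104840391819579450890338873134276140885204073419251020083685835541432421362863566597350032577109229173882163178920921624887310402434695122865568653597651917969706635937857699769753362133236369913575389878132525605310886934285469220264550267107151561221879623774266525288392883084557726108961879123001614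7376620507403064540027529578185297749189880601465884597558024373879392245001859025192917054202914710886833506881206345529959844467627475105943766122491277784644451419389042123161505779949204891533358230713675176599017507552592292994776373956586447415152454013400568162327126397865020153073216674885555430680267625609960064237818194138514796807916094488029642470267420214404081296100742794997089811189487290740592031891131693794381949294036840306009198427106424101510795757918490915447710259975118584598424044392647042398778385256313134194297108720951901667955839588776360141905750948509206160398617690635495971061060497388324074157689350686353517567540733757335406250927335829301620069564994286179387264187394189421648162304412432599419752887578544075404272475712492198785240277457853950290743473414906037829628372227632919713014959081989522358236065428442187412848631193920743871638158792937610778872796094146857436598160315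7338537866797712008206273454686003174536829627372600806527375633221167738794285731936777664163464299140740717342439866070379413184607306774279036144267352706305489584875647590740479342782734516678887811082051810830045277862544773273868061034835987353378703820081862034340589770946056307409039692165808964243620214394914333122967606860430028643101711465367558010379214156048298656754250850822109504433734695784804197284815062774678055332478815027338823693029320962130168764251452826128514053669638598613516474438788089292566122211934755618275188494724009950699209829455553722752259276946805920364294048725620888357753215153225897406451666679003933167061470644278513177992514226562721399810892710710356990380268602412020443140244795645415683928542632633161312968051359212170163224222615639272097457980203028709140909391708448458360409648095198546434985346476799136661865973840987889897421196165923300555470648129462775075040915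7840354152009288518307713883499074493200028296626595521342861614739468392485815745598864256643336247686808445267238510260577327863125059762303384246461298549704983082528159080245015103952108332929072267719266344147563643352381839367154661633633300404154511614828910022370440276877975553962065145902189741254590168592688180471957213364948350976760047427038831757787353933590239993243422004476534053383949443007375793171098961212451153895605652828105691216872890360527905393121537337380390232656259394250634807389519468958020864640054257214612075221162050087926493009173437675231115919291172325485491948702111094041015599993974438171129824625015766680137586356946833880673237602166738073065040762191623812423976419806379093687107510302256314271167405059800201945663998326432794711157632900040084339100904270395424899507014070904403237734958544287243517531721699827993014232643992665428665947197776792391851451954330874758283926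00064789698208007030792300725038379003366440975726096105188676425242361895650977419724608460904235837640418892994094109427868455756450119948622742609980301033198636494880797069534064427290210699808994056082410758740188842787613294999832593756558885634145115592554216930079199569761935812614866251378700956975846469329543531044745225523003660949633501188213810877909602137579494154204900918566565825576155333791771992894535016546704283302757988974153607679332776884193172292588806035346074789200786729780970334966196378149429428782288182409916865839329282364272873298832021688667881582159940613497454678346758488759559813525166698807330675554242601885277424051989465626483994894492746814945488574107708589742160434460859729361450703712665299149779471276543395891523785944960156099668956184879937009216028409856)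

noncomputable def rc9 : Nat := (nat_lit 4145465366058295530823754310581256320438822787978502167164155862194247433340613912634944368761333025688100828736839263080478849762666310439234259328410924432351130765086611070269678429304894223911493542077096497021250243246321653252526914372295102204422637988015930072802832113639824851445836095819269449343376533732750975861109780847356534525896505045750080303037112520164443235351529483511561122694178675594108640168904375144334664597003664603466955453079804078141419861583681568426412442032924447120152530964730355391578660433102370834932427847367655745060729086468804448832329268354083828614320413652471865222796456407148495681289292198097321781296605730559215521300280251147724029310630674710009668636522595495556434169904267032010903179080394592091641646818575363550920819375370609619513092879445376750029455148588793663831022345732775983173415864675885128865809981709667113498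6272138050372570987768241477556649429812249848899525204990191285257550364849120044232645220412439160999532850411692939216322295552137741719980615038645730309352609857819236658530168320398015221681644890553225766395781007256611740438900617576329268290108826566376407820748016848456863898804775623459825902146484150598363385237050951440312206884960733815613701214056854284058527032676004512481302780450672650758566640186784236613390467415950694022223146440713690856759233340961854759242727242279997860614903884693410100532439563782802171532053856821312061043689283667032177301155071069761129549544869454314394881181472243263932426185880595269985115990592261284184293850176507609834604996915582934791247791249407042433601428278634463058148943092155190893343484324662714764355686515952277430191772371599455113801137586879216941253574207341442171952377965862895349250009726663766339926590303303487313660873443558854616075484037038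1950689554416011927298755116637797647956012596462990702657009410405392648777364977603271708188196114578756852673938336855764771146300847730277170617892237273455384914358978980375364659002961761054611480955568266432250072534875917077128438321151708182959331377765338640190989700330591443436770858635983368658236543637191503774210165634334471854722645973419320207092387668032730358372363951341279765871149937706163784833746422369895028958287295122269116576823378879004799164227279300864457699201318472793030083048179898961512581136292312024508367122632492284150687382144008616908477168311899923616231528097428687865277658505376520227108109941662722406938775649967696456823122045852644041073568582107157146089555695429066084478589834487871162333707934136308123233487818629479111222950665377197612473355159487557668117716297319083410279690392893994558192102033685260380680368226582923602947851801163615979789974901164112880073096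3525484027345458230325408201650811743611573033010922152457813856223358731553636317398506222900598757859450413693525213299139206225183362360060765399554478771219864816252044788644875790111021267619663526719257952285411792993132189761144419131456880627015073272405856532336156254812677828877607648250440243080068150578848327578950378087316323523084835591621592216403288835779422939554742611671583213165602922577782338847478019357121497790552517383753458931599190939736655381604787069787718917029523668192369045445719653781265493165063154797495199445788485186113870604536562351009643520239814114462060281152140919053108404867649858427379379847185500803338524688328723385996522259692644212334740705192556608328131195366041760548025943987691454322730850247066575078875718249246754148366836264812724207184098381633862667488421217080807292265832544810442986085146541543535947990423337694958412551336416803756677403400812224560513437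2930529321034967454492174071185987007191297412139532246345676557057303068539249883780067819361351855887841796767479313264408175960223671848039006379121368887218437210731464026535455911977623393313642956346339377305997498803839475867807517134102884372623726204069997035596596920247463979105350522584022170972033208388259933732844476043938610230424463733913560957607349585347319904916924032428291133697915572250877756830913573477983708843441426390383822615254598034351959192243951597910631583292794859440655902419413207420551704120487580088719684982485148838775629576382247461194164194927083608732700067372365171552645335164780944393860277029393400837465969426797914524597311139884475400186338328019191969075515642435853941105228160911478322077863169699360426715188110977513743663660716915313684240306042012429512219632314780762949326223874229104331841286285690751291241830240052187753341557961856880507461919241942066555467395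6397108057023564220092897133495426101398411759388651954003186625790977750757057910527699860454214477080098156352960028523357394613544092501851758997371775496176221624439956969094580579662990445960866189396843395617021588648913677032851718623527750712844851387439439188097844397712517413987285217887023966904229262353211334956377825922149213506280931346713118610233152224875872754066556626979356528591219055080205377038509643362770061096367038978836288907298072889014972766465172248356201922452742775329126777557871075912433992681733413460544872410573767060363096802890588175313344234680084074145639972823165360094596467045146347727404452754802939985371893126145293347077102458327045290183676733167869522966537199644695610932090498876758416623073524981859004186613239552926983238596131274213333068754936357345545897077953255204850182872296098612387536498272231513767955515034683209540589671899841648784420835859850013847408661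6730801863112000949261664667148834635605195479352889321363170656996112423020490558071528895202776755441874273385539905607908910384822402652862314321743695135561768844698980632675504709934736641910620323649640668608715330750717385234038532945814911984382426606681327305365034816060849878118547102158387682554972894544113655317312763297818738983437201019545633598586024188982772096254501716075819593735533239601370989437536933756535412170655294233833396098534189659971619857980604344399019144824462277474665705938423027263353177779392391984894059474485680735150873132015722752843286258808295010283005674252794474578859103802716985243495886888798710810807371996740572344320750687325628621567279452779036752241996923296260443680230191362343689484327233846214920757982907662439532589422967222506518130191540684778625551557885407183668738610874095127264012799965880669648945702184660175381978612820876641345111272676440834848740504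4917435636345286610065519037161592435791858525105746653560000194411049060641095662601627858915506837457955195074540136130870126558429279526897848860688926519227179084489250818118115456398980849745835773619302302421915178549245536395456320040489270631264875120347371624425989103272938310081811804651097031610463463987452260712127358703125232659312873305255479688786264000961148228786315971062010481444784465837121363224391222339838560239226646072239891623322033589356888206327564387925566352747768220033211145695552794712730376536941068184643594352674946862523923822011718338943002449496942808815214684459860045043754946808118259461019154536466720582404685363123956098026998694112669558696941455722296232361107432116125119654781364779020482023428220067339663243272606403940989365822353544061464578034305014590240685186907352475068724767527780695221861320620579939752819412434360508669787313090674602094270010635566288337237142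8746402022357841122932668322589828783642372474469030515556831945065076900838466174966022781328703920669979978256919476077179758321836098022389447569679892875946208818401512910492037137417209791429397584167253351809197980476017274069751618796859691880417801936752484737480251979137058712488604709817623153141474843466554987597939703909697712963185857145730055516263324739223641342760055852602689294718970770341264194037672104974180989659883215950024081261036814745100889970810186476807899339532604553816874260444956602931464406209570810157144028063840733975461398358518810273312192404480152576559178633604562402068653360596855711516657080887564513766425382345495739357424857495636072336118483502896014657781819942171406567312413506269990069946779311672935772134478020695624957298928364863172763879372938854291202168419943142188903089567184158472507306794283342740331732895069004988234325295639387786907159760113654011820137287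3052465311843740105952063247394239789143561445840048978360673766647686797845890181332464410334330288126459894603179777608003359323276255120697685032613688514593210725619552078404035964411468180170095272378655159789970826184312275255903173184140436266957773479939770816927555497414108019211636223201563986468883021090427214396863752907295826264612211956159202666433388839516163647155103707586970748221472461722817089758863878895326814965527025791267930954346938199181345757044137938857336825803127427632691138247392003155742235455939590234758359078921497412154505813825337015176484748144648988280163885743067393187802251594650905886795992735353616553644419905660288293177804605771311135141956435246394708997193230032397857774667548824971379592664637349041472662552694754191649058016102067260943511308033732607982416513441466630172036092246630373511783775392511798066336863080100473394995090022306087243181473542270217904361343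28602529739896757191578571601900222594698772762262318002631848882252634015967013385881774117144134879413254851872685835239557022220876806999642054405060750769998327811093550580344344801592938543633403104029540413481686937497196372928021081524818493357230910778458142415398293699559883862136862800469614670825534089308860813719983839125833203009267330111290946252610346764866982749426643657302084099196077217923959471054514715033661133584059025710699698852308454704883956534476059091379719055796799298549150498111328348338051396164299870123844284830523139553255210630810585471265893771144539627616578478130040439948853559808245247824706458777855833004634319011374348652569460135474956373036510447150883012290072145309620473835960177932082049403480554870367816522361237739742873320980735164530725884491863162880)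

noncomputable def rc10 : Nat := (nat_lit 419057981502939418258365139856139067699032165605247266246087300039787263205049496711706929256376139773275189539205144470981106368652291307316488676488639337517794813549741259220636441316860529415587059922336528436980637970085703407179512838872454156308170216587275473286706759308340555189700134280941358316849464946405825144483287488800696100628031392194236920247676086647624514176482003021249308836612979227160418738263295440655636256995847119044330432092033808011026118554413962498286816559286033245001826701660442790227980270948258548553244799306270844149873190006988706998532110936068075415613599950300636485831168082366232287651669788784875619577670595083534688185406976538983202413384186137143234463692666626800933202081428342929815688333700789279780005572770740865586006858664205816209386699715229372481535717580101536002013490927320018822281245516396226592096519518599734087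8018220699758276680327642606535036638351185747060221202152066822352874611651803040162717738139169624544490928714038561706185874468429420402663348824171627755933510984402736822828502758182075814892694832936395871373055716813162111952097321230237355857276205586393214491792212733703289940958581955131776379695267013877528011306675977936337802587931599032617354281635941348638230252577569646801973321961065058611420720209410918890089145446814150598118217373513130031886688387121484221610526539028122197518297283947667282521105112999374986572951751850330644604776774707441300289463363455636743048849927820654196354181731507477034962017269836937430658265522671325315136451645373148141831110212848871378653860287881141976978376707177822229680626408633335931287955489386767469029530790042309978419275935494109269768559664738585213008390327581093744652055457654379063498862803885530649890524449572766569014920534458546558259478769828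6205510633391539129495166755564452854372128737372376715692993681854777963901769812385676357949805264535960777482744682969146826509995491738900094782616593517490239414540622481209283317467159069887059476343582217354702268812260354009614486115642852960144231232894221095321053669821812211434766926608576427247488313738660412643870015847086767185975678665883274451816697803392139694249052153024956169070116385530931854103753606021177120263303157981433117680748323890371961052240757292470563657906644339581870458214346587355540218293918921976176005742812000225006058668232705832950590411102256228971822088598984685803041554770730417801065502852023428733046608400149558274358737171672269046535661671025043482327925869730721173356476817418155731481740540085289859561627717569241931707493706966742773632049005317040320500420270363387342584904160370200276712666644379606522232764723722843990715705220229138910925827054038984713050934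0687692928033743537717618099694116362458163036936789188339971727126534953732002861628073087855563766643156152600909980917863800614321565861214195493673742966457269008202511367448267799031289315287571145009762188514195650087439193225636303317387711976292638776841301048127465703335961844519342665318811541617029162277233549642012774528074144609726623949081497379884838915451944492482427160106337848077688802772932790938565945088309118858960227460577514856253663446382083921747436177461481478052995706978985342661524242745661119598765163424293699750516192647261571971047931228603413072128538996584305803815490692727921321566537968556130571200841108571877889058957639570161346317505850769616014686886739709892325907249464631504000599055293020225052031997659850461633173171027254275598350381807684137536847713666148361465967168920013632218669793821011657920506064620763719405244702307265021385514655803949345011940522270328484618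0803360500499269438150838686988795603496840453858502197811686761064280431346458327416088794587301990319940948234197139561899755720977226635435465445691536612759245703126505476229388770886096850648152125798218084613700769195518519080962534717314950678216200464332414070963737498734797070946627430293565154395604918246938380603160249594473125425855573912758480405841471154269891407068657597486956770712248562313669437571982600146666348117297326688702816139317891651672305211481045919305704400871889562988628076224341742934313358727358061003629344882974015478948251093765764167700285968391721129427460042460505614065154190921937569476740696233688727481752199734332030509303291552033579067481150954872528836329698227280342334806310372421600468311357868641315063049656988330009408052076750061144531634172884218363336985480334455108155348990330879852129561343631379834307891338729039139377825267392355988123001304693473300143683802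8337377607400389962823762575249374448575002592479386506710335307196484681122665107548883752067513255213316105010592536180216023083097692536483749213081852234074697835318782771569094656221011024672889377889378166083018755923676925381586172805786029398741543865636640594390338473469830441865318962061191924549273261271711271902793293191266237819035040267975013411102041222448190212375123647376697455694885020170497190002986409380721963384022680455236002977908349874849397404352646058105048806774610662585887691581260366757601639260731723939052465403863373499103001488036629296403857715569322140057309401738127453025479494835772950502297037886107162629068382557889501014867488797787795955720905771328651917234933361148800301786176054314430425301152251293230615806239101497626221667051649248616785039504594755094475744972126342701110524367657079382566611137294218111281109037524059218728810783312185728607758850264669608328112784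3963837468429264750596915948681488769031643106090060709653224529644710774430430888902357151043372110628162549780713297445279543930864063828352055418165421686974843231097341509886412312172591090660579939391032910145178871684772207478201609584871807989151698557054998291980313766396190935619294429021263322764216795864333877695727508916875739310096308835496124023668493295018886508763836155029188257339897044254328746448272870584264288879643051289284029555752635193457002344256811001560244053593327247990714785602587764807997424187315800956862244938063370489153090439828627284309564173391592866912006873937380049534075183001371103337630070216744766440241824328845367674623295598370585990462596751322772469641846346607613373786317073292996991260333385227080370989606274691199361935884354984897585140637276866758830824041490800998874639041359847466243354583914978651026702656712498765556317571293502776796907316853128485406138257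5679236320743232774438893747948732079180400158784985463002546614480877257618176331917574955025564370862076685052801729820297097485017607582064879096115634588573859662349068436858254079491929013366970392036609311965898816095347391735299419971455569529718503796642229413617842004919301429084100741680137753486772847387396478232985582001058009893842644850191145537986153209682496606580475726407471880390415035422416010844056851243565731562424490538943389839385999829439416273515541146440024851765016200729527262943360016906963805500065195329290478306489090395400775053257242419788264907359593931888623176032698348572239759800614648916561724637500245979743988906143077192954557886968223761032370255344514517196234275627603569774854788327059884863735106347340275236015310976838331063254436768629209635764657738431898895002870064210920580741506864914471649208529037122183310314496770761130582556353892466252916792377465683623360399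5647066471006067135211681971114673898402634319731374568108694178133568401824636248999569559648995270623378539981806593429039486597043827863835172083011175526363179979947167463602829859456954285928624084406517777903914718386711590348045614934183028240154822313232679292943879726842455235494850956819452581614047130878352370284041226618821093124860471428386881926599384563883978007810555439162438297051777964584696705670565267693556080713842767322609740486981590803119995097260017311000642080912502651768675889684767991820893932886531110270809208114081227293982435317006971945631309279963031898732697800483929128299090044791058416929686255588978676998167719163332587239812505664521433584648838980987826475289423527036370482633378012364150356971330911804314161802405464554491542292172744352004240635259326833453648200150743995934092064367894359455369217022533353692168856312618418077393100778840749820576449774880760991748721767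4005382348028105335235414077893082720227841056287370027531758887352058811988481817026507146133521071567271498637192128554749353135864783491879542473852694057149145369628117195373498888055443928832619666944322865920724375879734488839329907512247297393338742985968215697659027636083791580153799815308839349678020475370106429726466509352405520218442969024507081635811454675235664774980946469942620972260104861606789738918944653533133090634863042743981688246925186230698875650687596725331163401836910464098847348781643334132069957750082527375745189633170379098581451313291717136048058222787526013486416385459892541063065711093506889375424657294379672995763073482255656410427796061361771442500756673724699392948623718402956224061015279019832397975162202370819022177126450936894054364742862911040279484941981480734437058948735358588603698130979801214799672070107344163096640274010846195380009133933960341355180549954936334536145199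689337294495021481684392883790873659966083172650013351978389805232576164596277991847625052071017361676914303888077656011509438140786602509007266048546260754917112604117432664326522831065338177916594541514410314041565142802970273730183786138963168713460710780832690946351710030802460131536210196498624399278682521165267214490522064763285650709880145869069604679465941041791213834569225582537148836678370059332714718363103294680026274461737865958889003267410323832757286925747756443522777372521029448657586535628077868107074714334620558485170189259769829679182727457079716306744048445827567297800626513882846417128399467665948654359934090384418271196590375934320969972964727825061743099047012505923898172280182321787723518241436423836312388139969869987024553623588121861889511459871253429162863110039544608587776)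

noncomputable def rc11 : Nat := (nat_lit 423556041483057831717793132403235434926800252755927294539458896898333169933566113782803468291883627971754141135945030682319025182500877884885101427894945904859993738366318007449167384306567862990503501126287098592552157775069690811966475331516655628834944235535530633195902792254967755587197688566828113610547509481474558446139031966201395544848797805278380686235847881928341222028298566286638580545441882946042443402916916536773633081653995631365928012819632890750764828463715295010619663875606167658579224085456741044204452534181536958951903701007819902695559392553584204280991903506805963417817639452996287569687111998080850670683567937979666137876358956025547524921931961601578396199770709335233425184338899499623968885313775267464576204720141636166674802675839802243208332575564759512303844814424185582334022655902489114858884624008752861447852072800418299138705922570296206727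5589881102880132432506535590199813999856103381105895604601506687539506973231515578979263687835483471319859656001313361654694766949955701031248078318086064528123965965640717293636311640486792398084224960675200595766228184911785910964494504830463006091978072720538574720288771068131094422774523129876853317316263462909012282936330007317137898068898679967843329275821850827661815534779436697880731843478442162697655806325370578938091960132090046873064585808886269560741933498049342771002772819309303589323763076725713980054834857035445997001187913169223742329800617429718423959197335609386719479141236404927599984808361047959811678901200477985908613336282071473463484111983389824753460790597451905204598998175632058838916124411173209481881117513067812181286419572859957705469652940082558923631140394788830122008256009437190105856202344295435894866214216962793950285937253104455808240532119142506886940385446090765423017318948252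2808234793186066312862883133425749009312522760881759597544105324073863905193690312027661475839626970874735354264835790549426783484584462633503510578431765622902105407988187917918106801716837473598843788784151234892720420725514729382571005314092574194485108875701150436286785906991366489561054076971270259315281747818730740566667310341113801023284129731593102953736276963078994610985475026946476583892645011773934844584439753829989944850004148358659891283783032211487188634094459800058438230083052918907690305550417926393967499830314773460585712177923929311117816559110975092690673233825891492232008906670728774129931408887589388099362242529544695411541022803696374412849843078349732476660115027367803412347666510272754494492784200462794050997872335070230741241005142757004885717425063193510663293324624630794965110636179414400004465653517630752477677803133872764518102140199926833384749124382154065183827863502514548315742208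1997222503204125740167152496603618452647019396057709291108114741999436960396341716904509466024443238545677343911822256917153462437318463388138987996060876239060461076597742616651334830961287804383267552417161946475035786759590974536801332763653573685135333648950532018015355558611076878558243309224003364574951098633777538285808078182503855056727343744967534651586279145095213659174025703935520148464915526067607401623314007145785656287487429548499448457057491242051354736456849615486783653965984766804207892640147118797125756699513938251559902327219799833615122176981121075386654753350847555488214418095354066370031447788508363224727467593260125009542783960836982378413004897254271837092046337417519723401288832338151862613645683206656998412868050592159053181244835969772639574839856224982721767487439732127936128214328293503452091022624656168130271854628638915054947217978362426215807918843716475598126655531125675101726545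9716676706278428282597558702118547616966325534453236317764188803404388753938828136883348921562064622873393599697134511959548068455842653591021300595643284552806552450292343202649909270612809258017551948124944471137677832949390028602181727458495502597986663619650577441383852231940359152349039253859265820020210979143968608376233259780352824609259089583746667290392193068436358588128775775269367674160098325059628280378750588609189694153917454861696206956915192047239434286571738653887117371458367775697254278916296955511414328156023896634023996235713218882737277909069648310301873845413923816008244758721631690837165714369246101575274039446015386517909136456452429877847551156193153900946899065254061579638159548594017368327429707436054179343926071180363264564720695521598124463861315604046908069053090726581641832628641800166575304458302238256438163771848449689908515244213105237105146297545544133037760949918866333437973405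5525916466553599318521186240158813437303160086831963893541284311465786210297425718458059777373301613732630168676177902676080530144856075422361486193372585257449721968861181274340663226538277588620141001592056897509050046761731035801670689196328307603173810582735236700059262838709254147870978639072029201458132739311794335633036095919855080029851983396278340993922325487887440156397900134440469845308224242650817433243089639228761194655498781285637978323229446950697174622794261909102974583073835585519718842501226240976966829945535246304625592447541234269908294326646163028762593289191227377931787633587564931864445765341337925544360340120839762159765232203119906357802647021603377701624025991175523055043112145297488055498223045052636507796167008854150831336284354443313958671463471674504318009228452669721325782044205220072650684018473749699071290577097076004948215611097434144193308516477288504190356125063165082834698564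2346122317964158533335671225365063454159524943104542470382785350706320078994496759568267141121619995794629680096562469470641380771533857136549608415251081550668692016394654380649907438893899989991985834994140338156612021421599057670671325888215448534120402184360680873116236015666968383141086187453023605487764403230615914661264973131217110938290978151899982265002024138139379799030898973570737738913952339805607652777492527816982258306086295031984987533630883401398760848168655869965895756560508290402740438594875378904510955092014386868570332471944819675756183570927466836630656815861617449221158476302348693335868692721930718912610743168380354167601477141189430468460572155167114388782355372973356692189793437883446063697075853372882906079986453628915460038240572396190079706429483135444610368471208588437354167732563292998393414671654452304042774034936255486495980704792259515917524747145798771206440066336802668805597713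7380147962085937515472610598880043110128642830171508202440172366403840526293706310209156562643848767552205107750374621604349177654707192105512200324668498671004019664700117406197616473412454903685468678144891842681288516241579202088228308446262685423556062299061236693185846899606234320603464069371755329037313626910900633383365922685400932881572926225513622907381930840527857197060073000531458347726873052235444760100811614432281343737597161070771624366245494254280638725988996528570419989931225976567917637957924132864653282693265748062706347427826668095626320929183084277087035682792436939443513858025413380280962031626270901303037326808888695513133984924531733021137157493985338218863228914530969386153288883075632294050429183212800167621565549276315507124748130527676312251333530583816365853263725048094635134928893224423088399681318870855145779069126879158628339385408302822382565194425492720625137034572665103250756152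9288395008420347234971962728789519812127911140296589942820637585652779185036572036663532465827708644178205309060718270831662171841091605582180425741451867949979080923916702434894707210077742540559413745654625764311445185185233488914195273622727983560181230044684190946919898550722930129515044800929894474970764513149593634044566886908073247744202356552918280679174887452348858185227661646595205229104572597105440625523403967702723882619362263624850365689313881891172531126703369084437296666326191802824695614792079758433003199528186832885868554143769837915260544359169729258542546544976414847383104607704055761464324590731649335146670981581264475168358411119954311871373751662797832526314421151407116157699327917200144899395565837050570939539877460391814757137314090580143669396677928422173048290814709412710745135842424258492338764057451001180346934739300560460167215921996327269769099139821605522296324362083220169255378078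3624505328464199791018219174888304927339328257634527346663992474171319086798726084000240863423704627018678645421735985600849484123682361836418441280669337266253438827525583163703675528403916562638862942396687196569246119295558590284816587224046472520560204882708180348607772629593406267426473793215557005658078282572740869918199062762319767903468028543755011863229483240402559002875012408953464171735341872883639281549282656047540102219923930861257599987222256981343213146270906410540438720481774369953418879583581379778017630054583337951995627892632657984960603034378196733854855851979090681075802995810534960159018859390642639070207707948316009236100980885273066906777784620355087032013908239201228724831321276070711066837140359985659001019147611606905476387679734184332925411288283064300540604252195722821461089625810772406469790849138389230047135132043609470023371101279794441516935382897249123657165052390649789489085244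652840110593773497916615056525058770191646853310608022671872179169769014848966143399617510906906730747867838824275053306508461084857485523475202961150373320560475853544838588074730257033762665901494561459939106930902035310824430814519894960502787322872517648530495127788006165149985334498794135612102124690975262714078070893214642602274539189376170432426948449477050075318343521818077213603241627649659423781313951818140210679400438605746331475264847507752437138630755836108964562366024575951959885982725379899960886257612243893002627527361804402388061064416252841304692380326564908844820389021073341067082997347936393822158757535880237288965115446147489912979820997424848963842977663499316763858050652712355757831027363165136755418009015130971260116796878139417125033032176300327320805135480608499974486884352)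

noncomputable def rc12 : Nat := (nat_lit 428031190102821120543297470813609751129607014811689947175890191460952198003979838082699670733604707149193988248870908322474533350733071077687698963129261611780614720633672664521376185599286101739353243403058516084505691750926847594891425572290411834012410387744024102182042356391802987171112940208285253354191077077968839909364586873157611788335531897762350553619167728019544895494187671518815356076183710177200998170588664506321845216973086803677094856613467987266187723504362009491001231077759396325587595539708754737334720384854748122325682283384754998949279798375818177000735833665920846066769063706825614861094777233744283103571345280903572468590831977916472231961643135059042966326937684268493405308392694848056889370943271394943570002229606915209114233694886984692491730328639118118667127459371182534979218642364064820831129885230034441048356100270374350412962563427140050073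4538699537880394396121218922476410529849477848634636055966116192594189175118100922883651043926900319964626819549546037660230259691251022890645416264165229155543673636138686804351311858639555528691678259317328761897166472123233425044872096573478793661467240652217814405026582899875922454056720850783713505170410183943471496283417634456684148876013501108650734039978255901148009219781791569565049213037085211693670209308723418446868330294498316006172620401124665642054884668051572027501081769949314432927740134213194135070087450179342314676463660051010274366947535081499546393195507317885347761065114936792184134935901307347056940374533194939102251412245120666985973136139874653917732061850549882761216972653925339920106227343220736425756017762503834666300146240630131300693612527316620252309883779386051895145706565284451621983139348383823939481761846473600648556004259460353808391893803010679350393924682874327016697914806312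8148169113726405384664970192221227019402969839397138256775631025057893974879494446955905882914535854064369630829913565960130316914547612383001896519797961617212609005148512326131796850015265388381070829295143365570134917315756069948734637632903132306954056954204122728465354143885612190143953458065317668592601006953987397637973381329488283750505706273659800290545780114936513499394954045094377019447430751044114090783485513863118664223097970039140369228532975885492851377094057081713867775086320707058564876827224422245832424703937966719793213888779014836262868414512775968615099373183986744266429010446309872984430776445843667927233229821149247251165432959876704905755552488662921466945630566349390459741148996686477889051934813135444990496135639724118774349249019001990012337428739170369762669210886462449276550139913281201060406398303751093759025001226742169316087072153060810000593582595447696201716429561543564802309409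9130615847714635683767102556733292357138237655668220461136434549115725278659796819283410158840955144828544074753990031926710544798496251029075216682770389421440264615786465834774961735392414195433552751941785724609742003024458580564289033546968488894541240888268232361636812720772122944018330643150825715174450576448008478787246308447994427644127797372140579624969060778393765960799361638364622371301264430698931398237789236290765737654084883330870864441263782209956106792064906378530198019382543617141177075288418211946706425939207152233424093604713564258105262296941754987252927358700574676923771586433802225081427712456747782516593782283270700747747673877014177469729302206841986820679668715215952147568366706998329935081475349880136209654359674217391681106119397201886341908865192085890989480500226447962753729540016032639802574372749699103716851671329321472970608697959803115173845144347755888832707109021737397539252402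5973258349304058422388905769016286207818860940859128013230300316007682136396692432694556428777994414325921285417138669255625632995704034082051420326428405106166715538335904249353629131530958582671576570775617282340000122906601273208156460597157995670354394865097027288751411416209333550532844705204544386658837793465095871545752815901644323550629012986141912486218623113119701304361716644533907953090749662124305675939166826607112869491529502304066551859700070103226159426200764024584586492493740594173326581226653688375746074165325964973495759082889872253161596134751828344905063277163006033353388468197791675785399190086684398413374924545998427698331249286034954232604327393180251347453340062434752529239641662202767705023677058348131332420519033947697033424329694869479130135787198267117064596054942153342467955043435218590776832840218188862788491295827965235567913751898301261018283369693503427291349117759280857505847998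5154610788647407595892055884241431791997149371923525752303156557314048323956106405401702032803392669953608196575501210488462205369892739868124730125658265629401187387794695658726053707808409000915316239816771214306537864691811700809190127955654189949306705906354228127064827911516105216619975649710639189297558439124846232592842210658795434547952407110113349680428018216411722374990961184771862465437737770922543728508486704252533911827368446954525199614581714001808324802678417088875378502967084916201060193155144166263468942534919686005063233660635293828870090803793723790618348196782109683374495503007725452077926880373290073333842638366710311867742269305728408488445232361951276759204781894470824020695666702350547042169144455713788174164015586782007953390662558332832988422736079286888248209543221447095649315812911799504117940464504153782569440336268726223660597232151995164230671112147452496825903347833420645282109732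3222658690989738805871509464420835165458815342285593652022877807587368039324292063831647019498386829771238877324146878976422252529805158143618866919910714569261118207466614986210121517911885749229435846513726263141711693750736759473009620241025358398612121918813862010829165366482555835784379179592015706072164691024971239955514025414015800194898606024740493520750754433804176631090020375618776988379791367464533780968931289565273560858139345584320516354846514571927665283307579080688739745421277019033516349930614389762241943898222716790267782974971717611370783600568471354732786425933760787389691863927749334041607700075733500495600675646478361487806506722833978385999103261620085410432950356677797338379316858087865597894037143276341192925234537744573064838442395685217486206417254743077116599607082784406754506772374683282481038298172120681419421166822830155469889017053422310422568995976456138183504362357656378305927214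0472485194915863194726843573536437733313835909905585826839386055237813847529677990855800860080587493030433756826767958415467780408230993523166744663190653770960325491889786890550637206090479560439293122684870865334069169479182999659081711793737896051989316312506873279703469998241077200732271395347307446764803532781326190840949639873762347481452880627774816019266840483719433740055240465083524116197263667659955189054274438239751447732554894337619654096434449594831705964560937843415316654320163063048490989503933074923555645295944896969565517736476539815759899022675114865419902041271658895056847742672962159627677498068977924565564684474565002032927913345286474364983925182785445729092587671624768064075555018258564829456326373762591439724899277424346015040474985520695804585290571201277770756629217531469651694192760683221866947253809155560961938444205909670395372938763675421408693183042547687527010841603244314348691674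7413487234473335153839280451344976142426160788190300685208281582020793659930382627661303942495327377367371799673560274762748759588624045332764415482020676389914938543772710504601130647772108859798238430651529712375926898856963169034000573689420326471252092463804947717665150163743269524936753815748993551399857544250182325291944089406169426255606904715887846456003155669207411824870730051996655089549013104055996633189535753884757839853694502272587021513951522395838671470875199017965207421228924877432197289463287302197258414803765233275170954409324228504151866118649331261567234515297646492232530614644999934168225547490094084478810300037627623362288243371511540769766783104004197652808703746123729595259535194396481749030978340840711770880715308927573373424380681699397893361774005570053668446777687751848179726552205661691135079396696426079634585857094020761298191488784334840679131353164660904206159812820772757380460100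6039891496217064232083493260006765645881188180454769180467814820804807584927464157249157279516971771906787482627779215169665772514857028791507773584285363521554018309614350282805785472069657780002607249662384736515289325926054692153958261220037254868123779839169305583206307932230818008035076484035399344783358794388329594313974725269185662377935458591852447169245853044640980079424914056945631725706938677212293049359359986532544561261250613833677958294266522633630973754082611935769684827205159213733769376295794136909143354106334790164413485940344115799115996067362184136882277561159924956461700800235130434399963678826546726062123136591027312464852169227034720993244569260422529169208557945671498603588436913404267281748203744718381335861469169499983607531472401931065061124160995859814180986914761830060201810950642254093468981499874894356734508910362772475118237001561289315441463310304122332122190275252899603838418144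983373410784984601811746500580237158625649513797907785605689768255735873386745561273113026943956857559704873417351406735067289097704943950276315531211478725251752426268609732889540955061993014792969167018346141318885262966326233066050238490222371398217820458036736488219692601934386664344287661254575493129831899808299723294128203041216037478012490555077544335374878775851061691988530531337454881732228777517696369077471980744117485146735203314913702727237840422715232165297764134605562362736266297357817107726716628602782537006360965032078980338203517676782635829108295633950774651522993710368335596081768603476741930227112196361348359891632197433317407616059835497602002928059445074362887597517031562398666272694845965888880387874770610436013007257929401028549014530674528642574196819247649333553858814672896)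

noncomputable def rc13 : Nat := (nat_lit 432474753358228758789967171402139602736621558194869332402580791347536042725077000689212945667293273564921880903582845071686870299460099144747135832768862656628317025483818449159527597916847854531434362357222935835664027900792916799542778743735219732350822339611112107033014881776065639267001577965821859643132423984293664652269186538678287893945859187161413528728537713346743331280701630241327186384056728570161070185276145216721151025531684245541028286619688566177823323323366634597380563757858915417561122098086388388379816978082806834611416545423259934503534714806659133406545431079709397436036230756638482561176403296492340652071316101308167837796917932467048771597197069672251591584540267306069768464716492216791734555334669476147488300721252712200306126214785828263466030848371384160566572145379599537069003810062884256315006148367078132694640494130777763944986825619324013640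5767242177146173594247709290176823727906219668835869210952110538654391672159420786115469841693813035212875032549732786988935511281569645142676612225408701864184064644323798647970270269311526708080880753943329064580243362738330001570160113651201397818199320830589464779286476403837348182836028540279793443842319364923289597185275887342289160429449685487050987447014180616833916970830312458566578239753472802353790958653705292234032342415514041001662420349194698753592260322741785258230423676354573880796473874358340384215702713974467925227805316575828506259707191562130235979934636851177765476356754535120565908429992056362672612801377427256271821088998955108298235026722633973430101210326911163666724988856110300573106731563094958672434124136827708689391434989411669015311131144256847212556695205905169009821567643480582003364903537798519773645144691904797114052187501520287003905147355909347233624803196373644002850537132783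6515180095750403732618102100463479071693858292006531322406265804948355327217161982407510921985482927476405823170153000368634347870223421456623278354728029676008777279015090732022391265593529790995074927653021582834144381504304326917075003187381626327937811382691040067664773355053979957360170602538615568366678553448535633689156993957007196500298701035503209173770409169536579382842564291049218832510041622023008600929791208050362383041209748844081411573606342876773852518900708441893154774043411184291846998364093209087093652422536431358878048079589745812551059543024462584711236680779061814460952211628594305001019581132999063896096137404373248134077468379335111506586499527888940916435291748839548372932614177543940631091785444021302560303410485501022084625860498332266592517405038924995663604067796838952490269654583549027180263504131797020829950560791378991249140217040652398116473102141715103428283506474805365705088771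5200113093581037242902109438464208665406539457594605651179323684372185264227596231591744730875810379315224473428506038761980980927604426553769529010732104025589798950449407031764791608752052412228386430051794203405449889803839311394012331637923153539807711858889671328716321144536863666126946878919255410299136096931262449927348938033906981127423460965172471546201456001988469822874605260308387643402637930876215601011470136449251703799618075746729304978286914371741162639477118463829760509172418434614216813997139847168210851562160395292790876066288136122143870461793144294651456630954301657567047366964680213988088569890369039735231758454754913990084549960531394597338658937847420296337170805717857644830311891798411262728541249788696356261306659872897667001228967595105665743182229389954828912915710715157710976758831742419960671986926531733512450247100940632430656359013763524886993184361821153271805995412476552549387273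1662913767353387333271474970696941677460095679888797085044308982878725149542252998708515829893337209357426685948504586499814617142983339072172097088237022526702891990930161235623317728583244548669815768493355908354424311011453147951188355642877634253878192046498769285707983088167020383594137420586697833168329445997895896267315651243649481462940358318261034302260816571202909115486971849621365895385263087528498586348111215513754509814939733379166415103379275878458831848291740757964702380267382983599184003477978612057369302599156778071346403588980734193435209760180525941757217926227069587713942484393118829104665390560568128574361405369625170016359440026242251329865860563917361673957281173922875468290998592480860450611859030945433488814316116816416837839254008464003304940651435454692948853348779059971288218437673270170973772983767493446624525796114726027361736434112506850227435070493131419348876767140512989152200261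8412008979029398175970291136072312613531119372414284703661864594954836464703211694612255611780335976205604024100979127055075629525089678020128565034756530145158437908222741315349447008371415775517273446432689247164180072729837860585776458409691230757144836437389341855261456863502937159446435334821491322487252959561797668319673899745687063483547433903992566248281845682978769027718199217279533442500631352499860209814528656589524605223410217912461669447735124048915192725350387000936504250216300205175786732326467722964854267131526596950442903136592980680247797063486304220474294467249876930574680267467429774172887601358033522662498417247098803544065785155434171327245214433076413573726882488228715280417658839504628264561199650132440248610524705263742548877301004329882824662646974363993513397683133499892079696246569778972971858619800973562295616973472162994998853791263507643563745068150149970689459649017524768045381988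1011537131116690294102673444590629909778466863601964631845245525466323889970182126525508019291311304205893516397556684874191927893126729330818306419010571637997619807876715099169730245092491436351123047195781704153737900100194050487127367137748495003261633465283813108521076675559565423796269493436370559678764408955669771080751080411030770955692863726409449292093553766199768680706188315619278309605577276840247708721187700065439396604473274358792428508004414425021003660037042826460726508628796494050742274977700339134061391954164648247243738101257024329131560601765115673344417129794097512147231874572013277048572544515746893142658695487152558468771572939114119524359600108170937233301389896938711334019801074260636174431014459122175028396917585918182321982452208667752828199815162498012405960679591724073702450901370295088927011725401145758911279436653489692997380326604577639901646456749229711077227074737736230799482732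5476072972200015638479644857469972026750083498631557880204817933542173784418315722438151085312347188517697907112607602782964571285261551191978123602597802784070174788937095865017047723477338444261287290191547436658948486261453636858565309813657551866553275960303821241127447336808929348865238151545926352400228977159327036387407281073840424230833434422523744860652248958572339039424037189118586017817333104533954039533539398489093492333659995835375269034229869947403875334806826649067120126833266161826958869548997124052606119030567970474248995590821525115623585673394642680481218735766829018577792137142244283432032581538802887489524829264868716268733966870504304011120421378876798166099015288285164599214733824739788366215185749925563701295008665806616612468623053097925548159727264376575521263289379691227757390257960894179328866279577269849851166341226431426776877103774985945814842726997327655395732789352067976487888106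5123784359751307030689089848032503368047380878504703258282734458365029921926492176804255459283077178082652134402642745431967836926669983803765261289004415404691478540370349733351229992144347990777744107246053652295800192626296986468962008570603961811295155001115247143819654568346988947309686470656876818963483099885354316993223074146492511740826363485025215582018150831753306909933648902443881421753256523368859322445033114335433976546995482531357487280082879139160505579987480252457241051002900995459192608626504177335561014480555263462996697467946314677356647170707000807962146587307727438506877750117262719281801957407969679105645131093251017435068158722699209701771079575286918999457252062121395091166182354709681884152481530928040457514229944042665443550939132151364025441098146606254385897146610535843658392518597712139213297961161480932470142200607717297685054560344566879101231679445860447882985645430064486233271588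1281864269426311717333007613346372231088617617894504190924437051523278008517718173991698101413116140160807277012892792542570598243253253025863644693402680613975254016846895538937024232661922357533823487120283720395031472846029574840462367715308692029553305266579935195559023366639791252800844120951243494844806565764452735395016628292219108623023125834307282801842341485996367808384349002982997729297921963791489852556109389562244589707007220730438375742862562081767357471361033917617691142687171513338480870705607679927705166260289986768268071808901657079151499715264460950846352718838203328123345555975589732146545970523368055401692233606769237567577866655651392788146510375474389614867780395883624689322503982331126073429444465481775307260068204101909650330156432674928875620286043162480524159469582500135882410633486734592049036324390138464274775457508214006286464315694783147349648496306482897789179183615010331456716090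080145323964070394355199541612247677565325827555001965187935521835927009212223713110960102781487544720950610898198613665681910178151031359180786655940791181791350282685068405501457761394372349178318566893938373613029330334495522381296827205645585713804886434770262799990775520153162257663963900111739774112519919088491838979871178287752877797043644157440071515182650234263057301422730052983784084759018627838227587535285404919482795448320528768224307134141836398389767652411944999429068733330812785665246903048763300375969891941563437272592574798209289122700519841722259925168478447537549263057238315333620204964944822424491984384393696561892822171423465982166123224877119456659337982888085931046015266069845963880736247801484202414328925385023480882051878365821188292926875338846510740536499657986548143489024)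

noncomputable def rc14 : Nat := (nat_lit 436879015378921138337650660130107820679577688007754984303443895925297351758767477870390771702364624874373196666225177922196762735036240248544465368862393982700100746353637188837924805242425323121746505596649038374196146650622151814481407538492738482855640669477758979367101972229040124709821353379581966353630383440564930750809005497220803314053559406496471560329000422742399530430269436465681594458369021717125514951939947560705939705303313840834179829350923405111350286260170537488175949134158467709868775807560425331572292233288747787297518112177735037393377410251902848276441726896489732462815901295953353505536684725233696670517133131582931327997958771247134156252651584987677011974977086084662936252611759605452244560058861612280032369531385920033434823172905318098363710275173470982964138820081136086241297031579951109931271042726309091075918133661700789187083532626933450956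2026579997722650256094523790525747968598741744662822832261502418858745237302564253123826071647948940498857766162699171632083765376714222358163620953469897957086842702348219483666455633170014673135955636450404266411675631855455610589032361765299539457537438065761069579283154793164666335222709735949877118140360309697501131173670521438726762960638214456089382886264108887942160503328339660671017474909470128237909003667780887597261302947851523610349629211571020335068855646438183128579697270762958429767465717553832636246197155368077999424567744265326026824461983949901253655220105790158460880333802554176663412016002809583258692770393554979483508817283675415191743921948017511914276853310158098373740115077879106870377268041655967852437670773720458587530903207193006531068776134229920755101474602702174466827442257779805051550875014669591583169842122915645584954318986035651171311338333839665880110165240006903865821673132994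8011194691412594403606562950660228438571994642417803560401009227314147189934471274667756146822945532853329534493488220810122622095138579518276710516769311360633995706908741934037577507920753276903033846345334472547151173694791647127025596488009219289645380083481303834648231866383120006550294500403870702452394902464535634944408884542719190297042419083065270594157787282963190111984071720143769148747670855569115537375405079675741723017739823852866657778773318106281189471454573235504969452802754735023750625766133727959487061937904793328565434644927267164918070678885786001597998071160202466304129075128344642229615355327647874156977919536163118374562769330833644426762500122913209265616275335756050846666998613023499658544664621081801718789454114564462630035252357094180023213689650401811784506613667986908480090918003597278222599680786772764721278069007307727571812951782310178389477500491873165629799938116754485926809027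5491373592679982682311409857424243485179537459622495034599041481558685868681895247877086507615289566817668720232165306273048191912113405845451442779873197123473139095541399544008435004555965426946600031190633204335406022681901210949147372924459821806530007397918581942809722237617139428115267142542855634768427569211859829200554748538444330624400175905479105423677660752239377312766166947988684056904346012697632921310428119999602433656499912296004286153478548754086054913255403264069932731999630271012303200174449514178420531420860621159377158536524710965482753750429730674522593072700087350141343364726558082819165257919492970071121165069878236264306036242480282640039732665862514193886271135722596525232710480193333231973844378220107294174005762244508043083106877940740731372598734789143659737662374486737397260909054871277375572115939425039432649921005028014138781266048096740071429565268227464377030319742546528490199959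5091934943418993003801796209178093027382746681571813709826867609757040583723761445302626389097380335914842981899512828160544053412767305912199688685863488367935662110247912976070526009796755404410308245604310489901559530238227230989937528377372397317409332262611873517626994130057903107890995857448305006267995732017514507668141650055344452442747706704645224099041489582134394109513033773667232931258106916830550708210811135996600134496807698101096159181471056555797693210085708586719482910407027329846827261132198736970937634157119022395058741241632788439940676334887324880585229294290568980260706660512180096934677540258675778817011089877638537976501206016654774581133799531353262545350974262213051559654601895149935560822638335773349243652420277856567346363820659379449004319611255405141424127999441557391163013049102390925831946452078367533656462777603564854942668712298533802112566563400741313842557277476696542113521285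6355537364728632931969758154987168147353769057084905757341032857672001618254417914676455593865472147933957692715213962083863014097555225233433504438026251241865685067391145666977027755969550147150904831359170914032323772544190324397397498484041232691725513456453510676019192769683568450179943904312286897336212062862034622810538376386873430327179613412897714209668719320062083822665079838795269505014172358468893071501332004499554791531326034726717998421782638345622928697404754998558585787186350032991759621560055964186560443129060632309637305985384848064152260654360922383729679096425695638326075800206962407281711085397108279985444287993379508640420694455792255669201621707807746018238161740512269011119546742869182963266102894875493949920288696848133448686327762946759505501657026881881961925904004688498171232726868654137536780872701792218444964691327364055288383525536488297242436266311538551423309073931504074601708080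0912276325975858384781600627412852393782820018942968876559452561868941439205092938185399081152740249934809945915396160560184283097311830691608159538773886969596535752428767124759552540473156754446303278198987356723011492028186643036729808398811202946081231642287381680384880997880949473649142878444383788794509771492033656769080556511308689435519188506449873297954337286205489870808652834198436837561326823979328410499304216359847178788447148378612292522294579401603547877709271515769901169107494912295657810921933713251650014989768540367077448067212456374552969181185311178069676638376857066482047537323927779882764402301177952094619743263177887099750717083533619393775444722205770250817806122744704993588990618286198229461666219716943602612496905871170738426558962749163762072056845905984363999609498350662312988708002353775827524543425257484387447727100621020090648113943902157685516386154689671784436184661881219735249233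8931146305937809277180082187183364856039688134515720823446929330920614424026221736422977085974429495463991908577024218434646889919105749629533858501762599462138027386588089210212907970548453303131175930474428283620731472803029314991159953442628234513688671209338293766298812909313860060916915617713140289448101522835317980420307059603331562269657906758584498929531366812721178334010602972469078482006304180987547896447886548119199129174879515060760483314746467306281040017345971189389625958147738417817906958126286970277783926288378632149042202568493155144218220908047418514871251354993521724535919487302670981552266826469518311372956106115650933345080280649000296784494939194434041880561178204646401309972744524003809664099388709581779090655914915047283699491143540342148407176846583922245899536065081745192745287705338099901840863342015651615891558176876523970079411915628448801047133979570862004336176935306951382879270616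9415130936686121537222880755592165050991984316504325118503864094960565070790702532066312478358397298997669852741733497530765789326670557205747348665985777147918774210411847305597101490468235617294308826085654338485911442008799815592983069617908245010510659461456308673622567827804501182989485208931035546836653039465012744225686064491897235218683340746393703846367354938383777072139441530254808346624087690771363555697943288021797811549628472249039539140647272143168304114615023781751019754209547415951986407440316226213971683958612889497616061473096173836636896055008700589566440502950350432732066682095446652910932550636094104696204493377152504379353462065003036249908641943358409784027885964270393032525113758764358494462260321408555473552149886781828457120186953933726982595506327942178351430837922305545308042708208797353507231160403240813802425422914836911180392208474068469012293035555277044629184418399794467359107305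3616477642048247999874467358628662868916628761836168595015560260350754332723447064244387123656799087726910767988958134434091513953335031603971630712935756959475800089543145159244871198842614980617539619534510698628740500955883566793353960839185056566296723957171000685922209981261300492858393182795388286317244880670144521756325713282567949042233739763731697191680939394175532889554043371000864510642575299404960033629441643327974243858857263498885681059926731787441094036517148035284722813416704961419997512970192447077326265735304879708144508856724042866328063743407485838088032517233619365927882390026136881047188144911172338673732404176562679704778448882251080627823086928974883275566882203748052676509682405204042740253760279132264120022099941046806603153550860306545322447802472376004627538249452846960608979325938473170166614385430345069981238553175216977851537576788931208836655101171380911951570013281037719560980490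657251509669396943311962327775529779783680410611822908801449629052028477616941992422555223952231399990403788638698340479585382055302778762386019531175010968904250056599381727323847217928889008434054993667233655896058836452778381543624274517131404657311873902740732162571543106814184705707071413219912142462076716872510737908127094964748674983838368583789941131254997190692587399061324724417086394858286504160418204199349089011583933383926230748486895465925481588241015948490179234704285704300888625589762464289352252012432523139307544544400020162973419032997358908307983971351997000433642078074826386090690991592717754771689300163796030817886980385540505266992862700804240270169505673395926100189311932110416439190139538858520413883915306362345865057791824260003517166067771257259109709861699023299964659826688)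

noncomputable def rc15 : Nat := (nat_lit 441237030404060010953868605958125517013264751777676700958655878526349281225894634093628517808532473724569677617313822364302851104375128934923495464490169695253532954986009528391617783889508421666047760642541135691498932098564589348542683188757594102145192402118511102197908051651454365054600822769393656785751662681987134757889466843670494021765140289751230437866337872345243891663857921020548720461151754371871823530270150903652492117681818909840847268892459633714406431885590883366393489926649430557283790453160403312371578286805233909059477152687436362755683699093271393520492917853092489155180118669411825471898220021095456238533784965278799782915959071146971980007939920826415120700775475153238334321654424009620758703606784211359983400433303367124041007146349291320787257731346166009369476075397058963032518044439379917225792533450626443676189460525311786851818620034040933875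6927095101151697348800851628696776703951446384378954393026565238591160460855744148586025736531362791193396529162692879308741012370912287798819702726826585383810262062628837539699913446688154899805200299874014350025246836537403888500958721917128422309900637998600436671549384861587978612636801596339916439002350083081188079116215053699508532500990057587834411473842917110138571553523020804585989516330552014700664945519356318005332219550739116061334261160133656625190873406728262151026078106462654508922061416653798073970555056154179154237552741642532235285406242798401753930112607617182018237004788418777308364257192509411023786693158658349437254305993458840147906190880512054472990413746442666545021364199623373901190400048797651038482531386997999299564134718291900562286667614603778789485882582094468670682876754118930564435963738925649376893750096793023470586210171674691822383807920360167482884062807646424483413038745299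4593153977805369883726875427427967462617465081510345297523028610333937658739593194382088390655171068208164680030466493664021492203591194986038775818865765688011096608917488219293209060786281887428646436704683740658633855019133791563573468270145373273878649120939624227781535506195791079037418866232172783034272810159489909397796576968564426204405120275087670200260956464542155229854366732042878577839029597098355544028785511887808469600193493710459913164397089606695007605601715669868586117709691932253619081891640687343435544329209220152953296610586874817083776098054767633298774310011685365672556834338018740748430378835680313214657460548027645288740750997508462181566439214851914013142722889085142426744511300202453942333137517623892721238871438943070705220889734430671434901172184502743776556646627483559834832624151442783687702849138117082002206033339024053255925446047889042556590694248890457286262557183198513893436442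8840091913254883749940056308683808826390088789107227770622442865475034788175827371218058872876719209846327726411838241875046151064294804439172798122712315773381547169162098415816520140959394514516804010340321270239463204437749555973284014330036015444677152710626623876911498684651938478677787211595740584528123557040018019032125537930062005456791825932179922937630172577892436925299756120157727607375310057996838029203580176649962580899427778101772846358973175943556135655913267607468138438762215109244898003959719805070564315513765959625165587616370376459513641820108927485396152384987835859443355452960201712922620372819177780216297280327801530313759460116143784420646217688183083342448888736902318456124136681733347598505761630005114314509901223790800059483219455105168583753907670355145296457664157922597433179159476177255207245695052842325287401835781703874818944414780513318019743957827916069164654915824731864418950561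9777526857903782927558080886515944319918997163909141298328286764567279955405762295672524813537920019919605435825048486622410433001522510580408386238813191739220389595393232203525149281497249476012018702875971198349881546742685109826063363309909716368724097371155860223251411806285601446263314790986307247835115365153363099185930815243580702338613713765663048811220598744005998552960976950830054273782420452538933991568277457936864580868639567413139455619474948465190717681616267785407596029793458739794339720380958140773308296420124706095429389478314274635588663035165443465939433235602173833885329662348495407817896862598181365543703673725692233021927194721619208768124582876087118109514352379212195960111923174171025519343826840568096117417283404727509020990628541183227646750530082595224798396290862607125955654078953063361497425370928159884195145671859411189297183361715983268655736669687870014874885403336232639860072618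6778970660578590219067104426702971095786065755097839640934840532761157568962841457527227752119304846316346450244573106387707233059834832644174672051117525001230735308260039873735321486542584893334270476259769128955593369060446366192703571437820478123974506186313150350962155502810620162572978473304188246380483371624447758344943366494766244395961561145226546160481009727707446290190540411006372824641403420785872895435249265001675454394016372890127688174489611240241009485288093893478500193278076396021553620248203193960315848380377435471574330180201696211160225991132896267085376916825446740852562574129129582090692609544913166612046793431153798208975762914321231522944418989978791631232965706693776187169987291097137481449405703892434552411787889483260997906634949362184730830670034933083163299685885979485630432111727758493903933240053072795144652740876475175037555832566088074293809938895961913091035808916049880651707025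9146026698433248134371206443857191387980412422904221701869306052475842236895902515248562476318921418216179075444379297973593403121079754747633370163008216463645699706187269095853385539002839754414366767800859345688489856759259043723267653973037456541244910378803577945196692654189775864970402896506953972937077648568898251792175358470324979472567043518969485271830390763210994386162578348606538795809178194303896957058205052661448779736989040110979246650560929007924999758992747727385523752576935284982980136517340497480899470106942918610754609893169604627497508845874495109555786639076595821764349700467803215161522394092424897556810963746723636015831766006290411799038911309023543654340024860052585514645856049649947940415250807742196683759161900335893424350320629762648507712899656839617971991145275218817911569726250920091858097252291261493240363880898785835592268308560566573598285509346806565020672310032635657423587271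6991570287128210990732646503935102476834060132368057609500802784205862808748266958366581949840891233042228054115674731124161307109539712502661464032090886537698686811903426739346417528060965051328248948570234991671283251736904411910658453914363396284102021505439434247789754027190010490426809555467435053075006630325962898643516113887996115882723869828594588806761134268498818679943431859468808189260879063743742973295680384507797461071611731621886329252853920518045778284158818581885273789244840544469599709854695696741595113390310735181699226861354990114125648602604021544929347789197067927414192400794844114862675897826525202236191300220012980731956483094688987764717524508604547390706733630948449757315963498488122161578143207626974702915258868723816056933004577297304426482160709910586885829254081764974312518574364941276403977537295103616469846193748294418815783625290702721514590661636915970507611381693616700831492643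4959729252120515658127408447882822319047864646625415971950169023365860054131913177945632580750315425998132386194274733997266518977582532538495707547888624529599689024318159330548354373854838280959151972073797285541129599295857409100624855484803183173028108640502051384100817526878342988117874738749031879295140057893439881194802493306633889080458369731119269895296869377518324050080211848412955236505107397640564052238594252660996434576311637090226466355674411302858297155611048265405636056363378795525709484084779831109875588359627981136184542938762234042411779893523941980143765174832769677903440816558762170707666179560169293204074586278908032592488341120713631700698935141599450506835836169225735677899294306028016499197400357641581664331385798996050644960583941985077233356254630115206204335708980216307562249216388351531760191654791996660054765151918556679712126245443535241676090869691624354194791868027259314631411999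6985296248357722651007650532827187920748275180465741295612928174117726847977585673448279606830086695559024180267673819336025014874774635408151026632456924344710534719628424233613944488058115718251278370013290038685302246740149734073368651179717810016898017193884242166447038326644289809684280097356033611997216350707064288313118408918803631104678145095160335207846035298753402353310660126598686839832531801190805533850961608512935557509411396644441911949439120750533814155630157632327945558372493603310442937835287755798605241629526527208788562658703676952674513224716855513205348412980000078284815886360491240479702703477561641750999466215521517791286277449968331749054453604592996393408848625353698809333891397171656529397690289636024050926443299409964741906963417067910655934549450496199792137174796069394415173125753225820687694115689664422272543716759356418191249381945606065634026196248787552782392414399170248428351217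392747468183702906530913785792538026814258122311011795747780302267173565118936670529769848959415632520020797209581844784867000749024966446442944896867077096678257379931882456119005261410391423407787354692998968084837277964402318899198969876643903769637745182561755523597071099766817468055194581567238926318762956657262036671804428755604890196832492362007978095573299063226145110186700206765071429379843302383388515023244446126506192628899003893496882183728597456932431054370651546625338685838396518623429255187651261509292650033124910219988489292705194068697142574363177934815085605550108337073178517933501124205878891298019523753693801686176629915683302832732838859016127191645976067416004496008357009480824936568335823632483829111516049663279817538662142562186929094708465876503631041925597683886727087783936)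

noncomputable def rc16 : Nat := (nat_lit 445542554491362515380314940310922987452262280610049267169686422718485016216868911823196475178390170997362018376079326263184910334681144799494693392326175703641926481882378577764590836134172779070593540374965203896836733256014797234218578324181233541973947417070931789912848145169203204544026860742801597150242072567718822432969654243444568114526105728957602612792248376529468259743797536742579445787828658465370919569311840106563252635477067362764576165509089334444883781997933624496215254918279475610545049520042601458598058072825967010049334620472235882087461390476612433418416630382331594237181481477767440584935754797554013246874465582939417939285032201533160951164568360950448029484833362363955461493728747522587627157307300776509431034812360668722067053664135544954686867903224944454659805343081407201472020330415991425189987595650095816503409560032461941301094344528146440936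5305843117435716151737724420149655315229501138372309031712280684116182084983817771668545840802219429985788491256692591508925120195163132552802166297109744953225616903466878919755201180791579525455384350266116151662668582470504667363042948421241479395102231070352512099685570842749463063882476419901290124700738859820830205326700850485997847937198398815993501271983045592399833939317208994632791143825314956892755809066430574680476623870142660993998850174104721414244260594365963076084272142877493168567100257979873108651958930210336525055855779858808085213895557176987229649781674982087049416225408736175044506844991533757659962548216454413331121931392564887287958016518677831530071455319034587491272211245127971591582626728877455004185534598963547793709475323636250744545469886705072560626660918813556843009450650265845624812858879732880188875115573620578188221854623851664441303941405245868563765302409626540728282575768774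6301259776132852067141859102971479190004985054408806034239024777155108973612281097797726537833462116138851606105887489505405786121107194431978004048191372167158262522215654033040509972638636907327999609476075679493776216773199949170108111036639632329161559542053233649162757480815146911995028562201786988436098688971454228000080386193581244158990670871383779851237921257065763448210247852522607248269050367394538449460692243825047583415791589256545720767106845149992505918578774408892285691946411783909226187212291356524388318830892903327314326581266594601216876430805104863550692648918342758781115877044037043221649989056413651429772838967896586344892418295792503685649929796252988952169820352445905590989689929073100209049118621060162552758582623929659235213526009520907337899066398023473877693754413511307217904741737271983394515542970545673852161837444373209404034403158320026843715634941367904655878101909014042484586315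8343909766423166108513851655581906980419035873695623264572015424864370585909244531886391604074788998880232227591383538227338083404151003130863204794829822631937003736509956144654032284494715671953406065324438472872325187148713420560901932434454644632034638419645622278051381177003433954041830406324745867937294303272085098782519763500822973049622142173309654421143133551823379435322081283742362072784296954797406716076638930508862954554634194454803881896181538236249066547690203599833540762165304200524494145398384585839721926178837589734098837807455083331213968883583393135172606613476063003817813060945280554814713034490358382228501608122282378305318482224193918141050645050932339652036824665598464314227958647137018436476469347967525734121432147604269287374917478861136824920088982945702397470421887279410012984327507081359785143267338914736577057860892101285381919924567849986645586333469496514175262832433879809889848003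4540303095196806511372338569465890392101234369990878078054140198522556862170301657236114148114988852447666009777136895179798037626212864715431138285516394839016359257929482028575718929360684472703935534437071669759255213141420012582570494164619363779706097087369202687167594392743054470379472905569451888822532504974943740642919608299394386405296683049471691341532428823177889632933424295454306262964051842488057994493191821832670898377768714922325524768016470572908824105847793344412449848903626521164599447746800201608237640210874565559276661481266682357753013807802745214221892186299509415241967530201899305706147663920401989306855375300941502839505193519727934857720634015164599102154182189023200612027691616392405333494740611405706192088108284488564733321947040696147364418869241333474051005992336556235766331299958582944766977746203724270858388238787120735007229491413713215492005900678270473242516415073288751498841005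9891868567788241912903453891094367327370371187904848751934159401249644427569102239482799324910012849916884162067953250461850598272623602848898691643061147544557187747922320055009694381396647041311855465766240803955442572183064015821795198049243794522226453032176372834072265470684106080223517676044970428205558008387898118938848821636681368995731210401604047918432217520014238829066246590101407447249756904878575983878384536726469589434991090224087877201082443056111545115515116488850676664091868427960320244504512097991672006923840719709559811749270343388822062282803514053186781825255966088222152835037535233806649927104775843097772154838315718290633569335702834399396509040252445635137062865491721586181827289880762006255987326092730755052151203989870976817588579962502688351092813452844157560213775695019572179578354692718398578297510818908623049361918673728293095129812162346191638366298378453732613773787717126020693633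3596713657420128729075272126893176429964156228985790506900242091512049769394658998810257329297358609127703055090279062364049858309251577855077311898136457533730686562896718785674530868219157773235755519303534719842276945314306353902130244009023162638082168600362937157625706909721667949517586134285424218739542201043590449527743085003285045476106014014308903946206045582197184616004497181869067400888028838192958478115734427863301299725205373296611061494074419250877889065040288156037698802008131835105028112458231689868923554957297665507142213169620237711854800521161566920396954370345667650731608625153407865163538387241939055672288549012822376138469320908292327100763100512767169602147286670197464255828187683420019412198565048011549957488943304260555383441122770393616282530661963277947106205514596697585548986117500457454985623839283710736443616065370373290056257370097550638801425017197653534362751351083472605739430005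3012092044665145694361524235962410378554091142583981294949211180617255633033415314193589190580781658517025249873264471720192604619357948881173671106542344910892264674871052060522964378841980175184962834150125838269565352165852562769554418087152217104328092319917237140796016093795461823352876666748011260056353606811553422498560029260609339301887373349596726680995923822224030880037492147023014690090430418645056882362194333725626672267980042995715241701726229206342870482581105061446288557608447585402176155383607924164641794329103770389867310196388069609894855437369357631282016034428268874719441975078048504333328449158060873544189834310187246028151768121369279154644912019687402002739460213414336793839572240038735675867866599674822169210243025476630533391571823045032080027908490773634740271776390493500200786933427112012423052822043149663346969575149117288177407857413632009605800222641703595506499081941454961795837334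1808315918845673278767281467736688058627835995810058925254023923571422490943278299655478377046571983552493029991251087799435760985141111616525918119692058190027645546981577459710862657193461375665484682005737787469626882546998904966441360782370313719394874727102712740365396737860582622591385413100391597119900183528838182828811940367628688325257928576487010055391976322770456571659970769746534767246359841533534471805102646468620662954712525966207892893594413068335959804370166906195241847538268166933696897981356229389186782850855226531013491497186331677858194921982428329879486936232880287304209389060371776936605094073929186401242114507959007347802159807414724520500753907112058323237742233336365094015296120023979023539563113550729028345860881093020499923223577056895791482992081320504420657604221027098561269108531960697917312449140709049429607625969823630883239634480841930049155065114931480677672710965087214759997526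0645064980936272393334918866554973470076257502178898167590308483182626209422238943639430071940088107067614142789710646966789514035797488724188798391037823361429382856740765167157423423355241661231247068549807398717659398668066680356007412157834240538906192178138621791767934072853877685720433054458498931857369150049410456457064536408746417386697048059774643927220406206761445474387659929102731980581707780972007219164886662332380247217096859399957507958107255755302612737584804753980677161331506471972206964331418570731746434828949083970336801896855952029879721867498526053784461421547466838938689188108648655692073857226322320053059599744296165450279526298748980742573171890378529122038915673029799634360791720069959210013850027886103501450997794124546220769725833151446003182431815817891588891675973852818586844702324897788138124302489031966438393812717932433237097742549166486271913875312121668896495499573702259111687144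234413058700067706768636798346967828077967894982499283543876792690587358832569382601109279372320211680952462379703245872715823313409349333321599524654635525745124323970554576924615846369599570261818411206831669300375376193358516422677922309106603719425788634053248518984065170361424281248989840536434141083466438705057329010768207064087688466996693501624202897272388203270940759073551700106265869681085255130908048925242543509779886371276040426178576748358292062009114329915554336096503336828604317310720859956801066701860688378303906540088245818875691148367173390945266562753008140363648366341616644182114444937453884190534105984621912856699558429905654105998435103249841189440535294857519129547324764365529658579709975687800494113024466450941646766713820741413043347193159892610670871961335453929822624940032)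

noncomputable def rc17 : Nat := (nat_lit 449790049670360080668764969016150836349511441195808212979888915270573339769284463942907512047571815261576414299983574529869587194085100151230935473347296361386966314091747021353772419911483208061731209061551819187539969734206632567015905451881258681753519655183873590135655043288402732503790884500541409469679153064511896402263087143908895938754361885007025994951828202827954012045020184969620868500015409054696661664677404748818353334700905422454158360141803258873008538082639670286383380858431167927423949234834474905679128953270257617267269040003274743623787854885152238844656886472387174041013748328505943662521106141431507739049055394206754919513571808099712996199256661944545808534687637867175095340761372054253348765765210247567034716078029447621368838866649547061914770507324677480163409801324693981413898852772022688919061238617110456451998099386742446070195986815267575325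0842511110075454241916715791754033772883616583858691539986680317519146351714313431932889588992524712812389225473445019695454832789335815286006602057598349743267387658074421352823076493354445680212721427794752799364355190495626082122251706340774171618461288416122600648686664726013118724108327062991347413739436852061752618290812557224686948620263823574031894399483637617678057966484239685829682193594553140421579250370063267788752073916410611460411740034475753282756875781706242562315001323491255408300575445479255101521725020999674857487915855902350325336935323539769976336206297246628300653159408529103180452187032339330808459235830578870063581401425177232664677938407305792124374014251270055294371797851589301986491413742823535735572637725414873497087826119388041204937452346157131921822268084836572725406485310645312125371335547271969778208464635772657217054224071909160917274253057224417013484001124485957870029516852661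6597091695780053061030547764083604916192071090415439007155622816477700328871444952191391964041123965278121524379412911066401096953058956096677779533945789425538224390728128715359253856150343651628034685123720862779748236457145129160207265518426835149424661846632946274801167217541632839055807204272802555334173361164628508432334423602282447391073223409679464239680309555433799955517823549185454981266125937460865378158219771429502990014745635498027754006527059101626589973326713157492321477214849812023604951706580256361153558038218417787851649504307518295164836123407982354235002850733343725281856285498103078663571706819612104894276529113639622364982037207423502690915190155617594968985017084170793746226560419022978220691970409614746507746463783671213758664232054166849071472423706042729534735689015170376571621478283860288890458916394216097706705555492702025403372441392404137524096375459569288559529531406782120001580477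8807271690705393110085073587298768249460202323677879566007063091515067094309221480142572795078515794666945954687147946196060055550802594796908594098180614599623756787337400264214271677432706865010478720797430287623551068036683833877737055424270419920433107255699816213635957492111201339608282354631093792755796132767653728755700955523375821608737299050364858274855426447800360446753634066204818225383911647943708054831988900915563174087029961252747488282622225439648685516822909772108457425203117413930189062331026296159970308942823497959162675043650111694756596496371663689597750567351075674667366115572746669591463681302601763291190412809442065167193847778699148388153886019588547343220862710180304625159878914621873951579110293862047101575735343232963539891036763027685652221421228103692820219322500081789281951904483729371807557361144548131337215868654707944873852884701716248189749633584595903904190716928104308073463209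9630218432439896107653168045218328131229675298802516338745032342661401731805609185076926492328308883446153435650213341812586136565866613540273557256544836293116617614366851136465101237932064408187082099905782310679343391961694013465857876112299852818639059025023766938097023462380220622914960328560786665215205416265722883279331156352358426094742690207783771514256649392839620965828666920147513512079250189934398751188966045740110373602461047047155252125046613398258386394403134553845662915923334059948353431133115117239971668355316770009874614688919285955053005348273074993432131606496909875729969063237873853073250479984539523457007630357251131168449748457039129421421921404992779725442762873078283879413330414648430738848737676405892727110468694691313031635349492873061927667770187335122726658809964247841279064549044334220608813143805873726154848583410340846811802281875553355246087940418263678535248243481027270915248894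2071496926945670627238500155912829766901291342894739689790242516529048502935450064834620484191942784850511077901260681162887168175506032748752593696494923693743979012044342199950419068679559605368735689058485441838047072992380331763893681904583472111728666952773033129769173398108881550981253388215801449931317174324168713961627371814182228099086973532605338884744064087408687879954119777585997499012174785390705120922734759364801048615576139910384280430895880832887830515650657930771740616041434155991189303647577631515465516793808236016260005387327479611769842686418903630517023080384069868513365588233429115395036207258253262246480571126319023299745202297269899650988612896479962239221129771042273741875639906563529539425343383593500411992358547810044806412055718201395489405315086718045659510866513893913978838027167045163134846316200208368858703391204975344821778241638653581821569299084910988079125609699109028901673427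3336443999664215840369127838236505632100711815202430632130055611904379309585081380205833833818793099342485070094476236961068289668778325152839046304256700403581965561930892066859926625691473364538782143022110392443537518901295218467099065175086514094216915982310915608488996063311108709521198089287909738623437148836908276909536915738162951168433481558109871586021173992369308881169153335594439061894494989070383372541234918687715412489563176003936291958107152020878574167187628617352231668802166483559342250110997685025884173943423044632480425548462692004056233033524982597136466067280958054839699168935207518346461970186568236171306773800505194097386520694098410715528201441724501302215275604576515459517164840257723929804420827470027862880579768314476400376413567857742181872683835668039161523600586268362999919351678768451975063391066850032510999641663593483987438971233135519352648479484714491250330582437117740072556728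8074677260349834238059833518999903052224436278727990673850253287321855281773534728571980488392746172282951109145453137998314180304514272182171704510473284187466157927328694437133843953387370286450455261007591783749066260710568096611194246052653624968041235174262378637652363768526916032784946444327154346965283106955562590041761824022143055560586691838003556899324603381554786115472017452674554192566030469356515150570724037752095801606021201045287653976234213228679550419532144232365299239667221643900075767161944716749535875289476904278398545185352833373870998888192070524388553042454777856738643201084057036469998889656887229737700697075818232292198939143509802776780467251879630720760628191779377709984766010515282706725793934035182732858403056202509110311701724777964006447232546203679932701134714784739948157024081470255287574497504113055694417544870628937553185089342962220709837861100757777506816100997680696670637563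5584095511490686327232315911854782797310352578936507962884122961117300346300922292531460713042399613182676588964084469185375530403816587034053527684157029938255014185496256523716554688516826303178721441018116529020893853863345256649941645832905468138065264408777814878301161068381284609285114603676307528793182140596147465174083070158098634362436900198233417818620372896374873067762626655602153600255184850708611203333956374589415601450172636720112364442399453996435411768253390480218231507290968434511509925352892387803087337873090999352928611169195013807689763374329353410136873416587548222967148742437207253818183575179809097015377169132738114439151665527902059619412713336805153535699441834028792531118072936975644204420794821555451185640901978035892586884117203751296936920889336272771430000046762763820866736158888757050974112760181053797142704074299086469122295523290184633092890445921918155696344588959465637362111447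9813086089118281431562984808353435394434618322079759924736481746507262301237328996886011517745516791425018272855771528342132051437017373710186895060585818959112826577126655637775287026442447265037551929187340645248821037443661801661314762298810931520260478113584000599057497543897095458588068331681135255941365224716869829982009202078902980460595250836371763029992195152089727083372007356098861267003293289909909147213448417076246719776688671284623810349047480904342244982632993467416610612509705169740009028336925230739131338837091768699795413711904743269283954859046436032924120683318937741064201981136898165729265468449335217802233940087559903586872805808541424644604202758268298101463257704219876086779521437283559020624718485166914898778482920831834144074931715711588197506727318733705365633425999546520135717936151815224932766379615429019305453434404936454040530453513570615830524934759056205421432484557523603999898547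005256411298853020788802322136842875091847562908683393332122480190671579876439533673406378446630930566268191272045342988584239684334287166420898549127969482515143885531150483218625467133393584618903080007010628684819082695965305579490244935654717772991844467314721122761635943882236150692326076729375998288216375550244561124266021198924013182750574790091459148518455415416630180218206997959684951008656451851487455720487751453773801223803296774790801972714530523724762301105595126150007622299523042194365564432951225999279349215395400365268574471862884170706112174357127406609735727615711966100016626216815674273725995830924287318374315797449027195934736396165849485398245069291650748063669674474310975451331834258475064481413130364791175092792798538628971515817317776477197240250923056106593521892423523893248)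

noncomputable def rc18 : Nat := (nat_lit 453974677419464891401323272787513812758704157457469245872679429174936022478499305148184676938841677782838004161841071208612962133073098846945305144130187406022693920794721185199863618042200361535009408538591207746054567214895750785663339979312658714688864740425058690882065746278202672867170714687625619644399350620205596967557461172142724306644221952963857383318667588737380661084562208819655646475730563433242582644708747575658978842975290548499456504373502895462111822993912884738750567612701662781909853093628230176610616147017531225250957521348609084258904084592261312832009383066496714508047557969644231224039353251292493453434670304774080063457856838456251148255856633004213566689726964746111807101357452254779176661579356903512915215042420074415808498666003139502685256148125078338603386168295723518548970006969920018412488890944287309685032863010598852755291485045173230208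3887240011974232870152888238571650664279836268977132139525735807581680432153463251565168921509462988296254971808603985548800287085032490724897325755504442819503220806698768898748744965506800472664193344730669458879259785351003984999583896359441782802693266784422606642946151042404191985665187017382181839724703902167365487994700786519173233019441498173605293171613559958847321121939446842599192121498684926997852449270773650996821218087990378599096257450878974015245758541906881976497753901612298529127258976803858674633728089609123058865173920305967747725641820302000444304430351596127917460854729238573889615571691120957561654539279698184366055698961994200915072836452797589824542238728665101687662755741420654995221913213520587146995820611383177038318650154625934066653128591435974613740112430459374692069770595044721070619616424894530944389449246960899407303633003367919844041211564100789140493129351390296786676919325023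6464187073449119717153789816555163461305478980648132953478913550456308311742086295969596409967168575240975014016770222175810209277948485041247178581150917481052975533507531515981293168728456523352668376186223526757985498508673659354257368067697858975485068245387619767796773069278482995276493011581014795583691611111378972090351026438434096598769678915352164650299099580865957259715769952932365709590806553751730195995344911556747649941899302701114961315568967985092825126066337484238706136641355625744165712392161678214654429883614838667554156703551030898285203584084089591973107167530243805809979651472385768348493015804054282101401141775057173706981975175667307574279657141400033040133199855105921555260809799171964779207350632219165280212117835151511859114291890292108101311127162691441738182205609053381556687378558758121328466933069760618167034432826253333144645993771867464551316384615849755835728404179531782441246880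0426790096682375493555816973147917595421755296957050062025941192208742988317530641496181617331612221995969316937095961965948471267017518946329246681411470085913280534816400822827926317393299340038276471720464621863282830308541923650603693709321870292979714413091966086280814146925393541071106136797006473387681684754804031286116804308661963952338673452014628537413492189298530695024599159017706829663665486391656032330427435761783071883055063551446571633394175832217180480276761018882463937733264590560345614971413996207407112121506584982211390365405858457408432446310572691033712148088707256194242992178615822583972237034936766664168272277756683386093497915804120879791251988848366797246108922599029653636402479023745823091075845791910945362804024695120327807916344491511074470149810252470295867916211344110073427451180640516737581277379871583061480474348115798522695284611996017383140456694915156664072829520356846486257918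2198036339351530349688748330236828116684193277351392406340150271819909073144300439364714813231764867092584346273716985845674793918123902371189683837525450158340650354048808895816835827464628572363591666288353330896385046209818362806820856175547675601780868436715597650589801509628792538588990776435149015611453555119372835015709073560914317311035279954708904464472076352197189845619940754445694338157369891008994677146648575489430724780520923223116140351633812305597144259763292080877719776067720411158935683568354383559544081766757061006060122656878863765853138770818800547287161026779926161815293304708332107939166269770660752814614548728272555056496376961514037918809897016790543882355126279722380039917304610007471398122881040711504561776910267421241582642387993449222284311702048055614013661178590189141345639789264080074986424782054292700363770548368277575443796853252879033007383466616555393991320562983287154056808853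6145997125255093176776785637164095492878967222882696472602375574857728488738785130655960927390299717100564013349369891779740152439544966250258860312445477793285662227183018130807259780065763784200870713246379077757733484186836544860066212764685669160806166876726823237102911905687066544652253213732324027816437645348880318306967516165975456768557674312243455135062998536904090676853635087752550511143412665799644230062689963846280058542342940870889997475090449376633136953669159031450387582572531409204734353066171389259984168864914592374445080367168910986834463760321476882071923687001387292899221959329545806052600021246162075791079113281866651046605473724304718314829407330218662383787910665621014689263073265154543932857068489274128609439968978921423031742785129485029280708985417259474248113454916555851811756063227774392247046477713942362314576680650636792261619402928681892381373837398646886505908324121511377137461699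3130074042340565561953338597684166265682967157689625887472339877186224354712685115511479953487961129902789074639998743112950189975597668720273382394703107585226262795422431167147364644893160551430574461936688969050765234846029681403834800958834144389211049699199805679294628971215537570774690508309201949723958365749559332844617360687491984434641705935879257981425540069969335332203556682265457486078444651002829142684152657286271430084546791476277129212179404592408625126145870229411886637538376451887685959119847158550003841227498567706084693185246188705737986363011393581637885038081982968221270296881506052171095926657544977673967892778928724682754161974480930785250111553274694963374266754204519094357435166409332808005547218896952177261373288485221557033628212974354799743883267207405288733882283094955478440659691621937593099852911393682120347300682468409183240480828814662166630129834220133419485234947526031196073957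5492149862267575809931656831543319247381031017535670506858549141178219150518324164376036309787059996978942036417617853007391016953532956977682528509325730388468579295082176072451097552522399177619191484252905870314736356229588171181223291366957994216485268957014947754103701093412492305619852469032430671468745376046180965738617409704431238461202005668019005268239745819874223946079820328927225319774469948679385780780591848083172358671780083771700987285910357603893561386277308320175209756619293824348014584639044578338903709748159126549763221333730249722168189538504118562836281038141471492673013352324141452214170365782323765006702824263340338075886495468236731242752456030184246079799011432649565357710636445662409270398208361936769982520173568541409520881284282849710701863145595110820658325736122553381854096219956166236550285588912205785422454616122328776208711352591650188384770313917355044800030264593679934139115984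5976052607254447647276860258379176013778989120821487789925396379511342721394246256882441689822093077306487194892787623715416048307373890591246646926916719804490902576508268927984365898821591137795676115684441023630064535167161719397560632308749551892880057575867685562714363915847604305599840676291532343375097016434131109490840954788591245509963711310982105869728927766229612992375399987948864391044021745489824477429207240134358013436116026453095449457102350813292387368620102466177304417613073320007521307944123331465205082835911710302231750537553204799656712116510718742626269480032815570010112990430069488386455448645145364552963098287284733555555530668193809986247100074901611439152173478148990621710813189680895997383152130670664934119665203111583031232480967909809551462056024459929657478667138045910899111377638289018990950927254523425726683166970277900377335171451072165374897357184888172556852719968131151159475493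9658498398517201476227680177533503842934027151147420824907562748060808337563284904551997624233140161336926456902829156187145931599410349066084476435457641096865152565287656053286467231999084068384682959023368022385327001547617246279849741646535097563673649752238607342582542306790073142021156115926315333277974479598552033619530569132191450337365549829896537993087108127272236389101290379652438087835986312959354333804850701117913025863187817676000087456771937529384831376537031073948170639797554611596550102843325067449367166216918269196671097008720145878976903752604960721110282482663519210409822356074759118826489291010568645878862534752017518790151808496549166398103997268857074166843682461811866727686465958774997281625530199516608346925001457308352985760520416566855644294739918788463099479539970158244060118631094245315781623207457852594184407963499435644344172260790442871936467246960293741253397488476490726968221301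323402348196421503514927063219148726061634450194413482860921304791888372325259583752796987547253581810523630214394769118559811634768224025005980685710406668564201380989372861074353197626325805640937969653140977362210945541953000818488359845790366811559934428046144370154445009163911198076648004117164473627364185474640910695419259144562234045025364520925008399982457729525376017045461182481216269764204577668003278680482037226877282811518819872334818463445168581447173014114147732610588718330749042930388884484080813704622430691816728997360812447994113758997130543918156808384176940992872796589381927701337579595515671000690233604758151819433502630160191934182653718891034423053807985978483440331625730793486864979970283457040964426294008711069802882352569766469945909298409448923841766411277617196751067807744)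

noncomputable def rc19 : Nat := (nat_lit 458092196959971711339874286498180564893002773684852161902214554365338357012244923024858967953339703593867283174022120586303638681403474351516274206717517340383042053680723504554970241039949239552507903948605345597009798991877694741432808878434004351493473163449104683309439666310185446961073252770446206811661380672580896108882082298210720041938066521751623833440750625575532529132743177452415698441997981588245227779477037619118202453115599352506071244306972992042707187803938150847478610558301940763911156292276366349322321382294059803364434704559986805736636955766020378218149176352833627731808114087171762283928404898781931622658186847411962212270662200382916564896091160290471778226844367360256238030929702332551074964761710261083211783856927637115103489959457024154453700215754829461448149320398390980378073841215572516625080359357444470888317523166197717555479574594533509640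9917436092590166033377038530407399820110279069645603205998250184282265093882522889087677690693515762467335848779322673276700515954090673473035227376339017852800521758855207347555260848811883164178091768368253417709266072657049295090218257065537285606659186539688248614016624423052990673646015562550986417034004217620140726722875529419526114658463955922194626986516822926148399501948693008975691743230410685600728108929252806601127499657292622982731697466067827549302441702059296384585002372356150789606348495378006688430513775385371225341691392437358072485233804965427637585616120953304155718765299877123963440131485268822773813833608932691529082899252562764907680071950854740027529054630442747286913806207327568720480960672014656990328663142317575180558603920593905903848028925430815063955460733815150140700077768508339998291164196292295456350425144581820117195205776279359478372070911403975819671993352278925751323234485140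4311959484921199516495403289962170204639740270681393562497027300051858122893802053963255850418864711559004432401369275179492493488525513028688391196311758127236081220079776680192167080244292372312120700137943878339717437725735989740463654304128807453585754692153855776788654232224225158906932765809321460410474859508352200891717118561493772555721284383603983430295430220042718735873160932176812472477313388382436702251048226332018784987236073483699594952820289903770864004314383268376740442196741156979717452077152136426837347306790707319531748438074586198754203115011606492495602825939572815400611967267084866741277972856787788555340045905452113641414710729301685979809745712695930882255258313406341366244687418821146975310163568650489145727431203959294268029332272357455110477042502831014313548875187212450034135217222476481843496727690476156579077378399026552659300211847936868278654075622162537800874242215006353789711744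3472527482733170356750588780267633865984557741349612426429522289689383909165185047295707574556051914727093008600253430527488209799893433607888131353117703884479586583269005018667559692692413553664312978996906276885095036582332091852603515017481622388245920328905504572627058375950560484638604286090699593571057039073469534844809304585407118578462408759687026428557546374216560116981372126798254801215006033592713138169137841374033780617842939585089027220192382026712106760374821226749548381182729842700199896541358018649037693615840217118696266138937244678114899829211748715189998712617414604945868208634786842504095096392578640834628280616016848212777891831977511292286625546804714177736668927206191849762965204297584929453106027586726712600602685867714093676411680533858976671398021359061001214817406076285677091657304540944655708506965497425578161198637234367745744858083171373046614059015191320623906089122799837304320050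2798643422653019317632580718438748299437285372124828235117075346779220158677323534649348235411245116670877132400086217949431932939434272878316647860603729595982183126396281960279618096080000273987946677680716630484571994114544284975143711199823402245494601689605757642550447431619723273063347968674804048833674462642028226883148130839691594549316096364636624586509432609868676585015253204742255935676610951733157480781676488936827048077668388276277095322141722647609394226067848927933916224534485847128289909995673011318352022425463849329384248241804617264317138213901254836319513823313776367341382550264314966437034942717067481478626751065403523630839501241232010696928635446007764877278713747018098512992477954289885173831742189177353130212620582082193880705390731691143874540147967526385639532678164321137935183554376924662573071800142877828965452056112982335135372899786519894216708603201307091373178118170952208952065537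6691310349829538146822012781005136049691062628135321390032493108515887629773175981168923516186989338188950881223876134469924161830734130779852344384013650388536910549375143450358735829952450795733291936680885265169026638340946704049104804788648356800361931029861241603907721493413583602567956051784048827225814321035064283614880278862368040388182202391170857572957458485907022247915521867685564130297432999944740769537643515492433357500937103440937867447549268008979282870907241815851615588032598991705644653243121519007951728550676860772201795247767468789821868753081876956626127488246697871215211873052654480400429139758275409947613708907134530052953351555843288953414814063430080264626836069106323114827656764148550127006317092359928988480248043551941354557459477494290175802828742402640747250156233705840770610176525395984818423701747391031005651490803090937000322517430487403541778787236114815807873624671315578100018717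7936354541726382523383854570203350676432711236760007373870957965254312857200094081510608610148622906258494642013190262517852040693168416926686038244132216057839333146950121526809313862472781456105977977575772937704320379047635946810150342374668653995718461635804798717952920813531324378722917947863758865661802646766652724108001725521470561138592742461392451576014230133533466183731795301699766130900420491642891932504270788046022752687011008419377813500058177451690772364536559457448018821451639292306244574715865990295412136821006145215797900352532599588917364878514892299072616688035459379180728966720896247793705193729893631590024971863825987744018238040230512838583958080061289278472914438077317798827709126658319117008559247533770410971883998757939683326165702169911187066571828837257371269766806000198268744519750846231546095598875705089201062442307045440090328430213854736617541111676836899839969532844407858578286517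5683162766184527151474627196280643666063771352564276758031238618429613048669378898012124375741426333401695653665453355581234230886449091465432082535825899658822464253936570891347412988863945229998061895332172814454493092521020625755338449234207296488809107290205082293759572039201968647164729873938778702656588573646542542415555377963603503818554848839409392883197718015993432514357997654199038487296491557602511159648004359117925370153132928289256289801581363445517570174034100656873664204952743457867455524074925011413885209747641553793254714493061207040572096823773421323569379461892116529910299551912793133835280145771783763819251620975481312196997966042854034024945399730927885062753176517744011225591516395463636119267082026189870770433900473297774340445896843014537361015162751209747026513253316618964137829540633304129728357121872974739879388103997495527750816162002325984179523711254888717619036934741616958684340823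8737539303111952545402338264774552264686988961031721139124135900897164475741278827185455481628447641690000430066938034538165568718959681400746161110429253132770477813112988319508866460263140886316110290252294267064904120242011103418583625791174258382362700289548287667374165469887704690507512277305521800144071984249411553794920515713079359522725221935556281651690605104687954818564203044234164062025693728858549916010147785306406104168126942491620776108927547055931609018370193155608774499055463710010590498926611393378602184378782577999711739254734846220428632357027519324462563539100702759391331257327201380033930128389216932963051475488938299694482938310948820301272093197633181619529764206251939034271036993923179828199731117974990483694595432313754393770238519587391663484422018993431977684238334553657666735843021284715629568988764442285341497318439931603698709413927168641779599783139365172192911073635508932127321222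1286370674028865184416249291496961683545628966919265427011338100098662498512449161248159470520666060924956404873497645533984457762708413836009638628058777938415762739646161201228369895710349299464218369693936979443212866410940587371146989420969522679205501471547381447527334868522436491507881883820418780394362334582171378444868348652625673639664392242011889265413667320868619488633548227948962487253267480580031827383580686226159047877717962481493491072102182774084486699976458146214632823579134751678328492923420784633139089372763463292627145070104707072316437362545800209379982378278932277160159706127253061738116924784151858531815798187390271776924931370695757678451967375601987811726203436468604384314235678937843833722798288556211929305981645798195054315521818500469824528931355081901825974127313845586295010439922396368976459943334219304099884849461046408936020177163589039762660580003340035978191809989033538626410050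284648440695402847699684537698539384749365949714456363592658469884456478580584668778897633586299848196813500471405314614709167526214300326591295481951808284570703576389390375416719691977391639288488280208642620972519460128124138325836379928495512657000682566502273353404267455500371553977888501224353391710931159915135073918856606169585542412155861227312436493214630294924344227808366330521358504471059053775214037165209277641840711077876661506565546080607985212960608057514808933500765272362060632371719294726364758355793069790228586087686560292412244329139601692753875192101160058248690521673474155409973269545936148173612154368693051503193036011791619122850369998425307957043303857786274876956499162981105498308764550169018899251311268245589586356416122964721274761464677636297915311878657684035878248251392)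

noncomputable def rc20 : Nat := (nat_lit 462138887741880747783130293570338750065907028838402638395462331376764093934497972462482113909132212799518286733353106921664460712819528152907051919419176275285434970402142554432194079010267818315259257086068174841179841652338512824231353586949643981530707537255076126119735262903368544020141717189338979641161010057757678834788650436449251811948939533113210880271996824826150783878401954830399356392566662482329845327657724240556440680555295086138698459324912829669072729582453252565375683669644673860710357136459295282038453850588316398090055442156513664410494795810224681764473237185632474277935299308857064484150285181996127438158554493366406286390418002017145914784593427106677444615791935835872795666380560151788768609136875318203427382594471770198080598937429232183109587750210833683342644202990629824350403133150435098818817403768441839321540080957362918766006938486700117040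0793544122874890649665533649559863616003823396930528987762235863810119103769931669633987384444676504711552639717562401195292590801527704706376423956920728721878656387460477366095652613898527250341819827894693526782773546974018470162242804825137712646967421462172442784944875059246238147120860619948357362642795698638990191178972410305816672640384757832602798262659258899474809220235331003425497259919438161792709846128104768704199099539732127479669260218251548281431307307071898949593986771094223266533051751824240554877018777444161456763892424246464155394261356307263398038903443014039042092450885684480272765178607226751717734766343158530967192693285265428972144890293212275638955581829897548372610207277493437027671429037276503834371268231733970949174198830038076839851259826451513058359325863401743632736557744108282971000862579380463595519557122607188355252530725251152047096180147519818070544269702855046643869292779462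3126730465407701214819564456234228363699435890183432897889441791252530029966436908797502125607608741133079225457253632818453740028886564809538565654901153959554196043543341644043635998289817596039741512237252335868348780577748597208261639076265105004279380989397374758096547926758727852681108071243950633037923218343934590837346894197617976589896067080319914997804817403575703027292904291446057228320865494359231226453865302021079628169326234401788141182715874148597416930049069736290719904943213631786673415112929412587287530960299866607672414645828681863018707871328359047814900790719887587052121742757775919011988988629815744182873551888975296710391837211157649633105690855255426309494755594758778550925124589343681094493181845600058946095258665073926473860814527001978178423029721742754873891302975047621340668227564245468175861361981238113588273182530135647679236350180763523181503777509919583629904091028770216337636253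6134672296698733869465580616239098009767071951369380457781515477461519489506016733018637496279287778437223663044325125966383894028531151847001597213263589144962910080760582080854419761436327664541537910642313226897280607188834524854552818800238940419996846104629098453205296696621032057512973945382069280639819453178218123825065857506514226375322247349623290997558889073533940436629445750532957201698508908677550017255301291901769980347021228151746096179384911085282963012597367162749223157904792882470393433562845008431547117469494246742665950229533519839611338353443021763911074121880697405574416234418292693014909554985082548930030324554455416896709754094456681389052984057857194867217135961407589820283253458523730006061059530498321206173108635760560689456629919878744524762586873049275721823623923437001508289376286387537563577012608560987796747965483135253077835283769601367231494557267973983482664618744578117924930976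3815781055218309433754669297327303098814412804331503041909113417110133425165416409656320085297766631807497520509878671047203376894016270857384500732116089932054311794822707617128278240918604610948646188090365632991228370549851646821684061171616506294506589659272714847916230496243787679879667828289886019540086686227424599523205862124452360565664808879969436275335389068613894894189118434293456509850991313612588746168428114636713906990325606630175968672724429345260382718234118749186436489148423857835823173965682684040817787851893637422825053073808000434196357274345501493088401915665189967442985297323479579625278708520048840882853603993053769200761113462106533002614657721140398976231113992726526062641676306742070661684103899399017600058595824595658392538488034295535251250137150455273515973230431507191353111694717779342097873189397982580197037266820121256402469707805239608829469550429623329110555470040220031919298534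9786342809936613689681337196519799622567311727116235797225277461099608446128611930940034002729375041516833873380251985035243952687168816552269718961454894650557973879705669675031261645485465506835763127620715120327379658677079092780855476774515391876457164845102257347266419313722681475674110548682470303402656101428342325196073852038756793689968372905643947897366776075778667229634834675560535897987095322635353080434634218272622717141097381184529782339162932870640286664238814232002287341375108797614158585212141783399406933869058257274526501136610059664464925513856098480156479016142053992189710824427654331459603107220454829946402502391843952420455490483838478748251720954306162323679988666834850563839369913674062705397272150107963762467580977769681100183935566878321228659595107802944651106483632190772612482335309132011877173232671614954790124095210903381468949656387484224114041514101014317738862989338729605509496613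5912866508573227759206874222174218712946721166891408236659013301220694358452609380088286697339571185547878476553951110036664557409612013011683659223844622613316597417422954400967108632736351756792823683046347989198978392275108977265803637656683632910667799369901280925540213309186164626338280821181951701974782359166955147277275610812690507770416718043025426982126248556027090036682475338547320932403949633103773262729049071518110061700423245092276516488049578759381625068736490709409090192811818140980911383469136693169074437104599385122974246316856856433151451606702525885274255322597077317041331124361459491316775982937905090673763088699889066202391749060492086073853371921454962438218382035456006149183238361740674118313170369035297442589880127458259551694153571241106669413303109783860771081415386012727099871260129960632175700784428765145779480731468671058674502743872293369092723717559227823447437276381204935716213021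3005304671825409272480731185368212273796911975554228757508875077669344121738096212270017915513058399087672642390903215380139681007647057157268971357324009617205235789342217249129560353659026549699493465147354093891418905661887683503464513712381788660098385222585332745320001055177812694819327153042626478680939010362456124605615384318405416547300981584626947440996085778549748016109318726979264522234833993208705550233994379328609678881545886168542473708099324528870748096033849471332594240734195455769507157000863418935825659101621819679682052047251602804987222907502283355646976568397904263165396932115435338346839170299319145022329244471189371721516294578682018363521995160394133427017347463595554715302193465010588394540480993080910954356251395040208882139118596180349047136175029170960876152620453534329151248059533958755486964494727520393808428790622958169381370539113202514483422605542568959580637340054953911224738188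4464501024644533246398209877496619478767634272699659146289137380911867960579328861129000980444308837955000850286593358777652466790529173723330759874506284022714240517730127606649190751835206007688551258793084200289733260447582188969572510429753123176737918754385254994016843549734936347896465544122572519966336873873968365417499747508952806874062609569803230491256546404424980889463066445413483860133022945164514110095926912744135986995590533422211526606840964104466626020609599009781959447554986388850363538344250806237603497714077231414163514593018999891904525482046393738165231332035250447894335172764153289415771465341305295727622975083962026444519226462507363220625727822581639516553690092265471917522634139427896384933480271007684293018129380296647535586729979114602872644882721492712450997121682972803511648437773133689336601427272907835233241375190574178635407199110149691770898312729503403051146647781103271805294575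2981641068890260224618373108277238847471250216786212580376001140550003435653285648183265749755084660601626781590343658056042797487336856766926404076460302594232498026172378145430777235707472300181625465242440652046939876107357083670805528763204014342760584066960731973078015880645107890043642059277112501600851349668853531036778858951391907627144979053470982220625647924004999851839880546127051148144381689987526542773335427519431613126060838504620174722743285853449950408065199155633320282414456495295345783256509330409013653752572228213594745080395976445058542055480540308873643606076117491258048424882969274321967852030493314559670889594394747854522417724852512959146644266962729320125629978427341436497329726859254841052102976462218448133018388672672904691376060274591758037456453445076455728949079790288245208467674000272935123997343294866228947039908631745291632315565868280365758295063310934695983758935936458419957156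168191839967370587178241811203710828704199781920206635202038653881311605153792353242263529283384558577142302459751355061079866697244387297916577643719305804484824662413700239440512925805965508739590755874370584955247910870613560918274383063562221849010914725719473228866699618156556114249119617632592677243958264254348205240450968806568841724218098006112573641655606579123831147090508255039051579802254517008695045603234499173352820380981743923256155470596981795808084534618782491260236086507452728428455143973312305517307925878462946657764229395855975417308250149879591981235787341144384860014963877537405110971957197372424261116419762674236042589459051469362676825421395158372417356472022439719278801567455509527452854594270145828167045654420220151664161780372563958624774446589583807722782604302159169191936)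

noncomputable def rc21 : Nat := (nat_lit 466111572221566309006700053138657777015999234664271155475657595008437312550757340022620591807830956735840153331394825039803916358489140760916229278280206278879744090900772504098817896427116583311781533096655936128436552619497552907449926353156085842435680443812660039125645250743461524445859915598196459863895884149094532368662709718983682327338656273322280285313710558334439613035979848773377314420859572612428623516520307304884322892881732134930917777724876328032690288422631442239428032738036035926347662005212139695925649436018485888596075277322333426681166887156575704351078445618701339722676371859419114356846005204307004552094446684366544190938742742883247451797249853292159917434095208526011009018142160955565540260857745596988927151065880251234852627131899772545211992052396900884470050586673810892197052484017796212768340972019194847547531202782525139495552175616826201356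0160516690111232256375247293637918915430395583555775037232152537272165138465902407602485164309353675423779452878544289360989430672161270789493700919632929494153989745885639178970830655090598536251308019756102750389774674159214047514408372959006126215323709719912308649098439565054043905837938481401324270612170691029133563874203424803443822091275741510847599340853725593938083565671468224081155305673616226968511323316466096082724668338050201109435284319568057035020711167857719564529640877277497409644550669819985065646399365156497099392412532944377641349459499614575514362816312722357287968164177691403309738752353398081631681578470271253811852650063640524477078760754231859580581108327429311550993149188447984956226504492831108363961981589527327969546656953557809854888147623706680939207640652101034749496050360464788244123267804320055245089626064419097264373171832911556363777444299247670902711039497930967248445488350666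8261938412829920227576489315065173370123634569638951715479735647880208595560230024136646633865890604313462926300009744111164287147858232884818160578324593481157530956865244498126855669945522036883184071732881545697485493914886374247252325248369815962066718252486198263870163617921911795401808484510503652008379146581085841919240892671129272456921670260452375299065711938252701086213518221831556885252739372154975113062897324342295459874721277436393839081633152948053399580432408982553254130166212361208654814860030746961368027903014905581746978527303321732497473559403175366110918926431807373538945663204499343836690007041661571394215023617740521942899188149635788631020328115423896661007892358761296278452545626570167971479128449055115999100751653737970737687831670162496369036526139308188230350664233014971018462726689291179720734977503619663177994594099245743112519551277358461751087791029205175415229308159986218526188753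8507748753632192687103173814546086953834834685975465219634640241510572467016489075654167508209173859518510601867409988756010327296267951123298266974368204270603481396777131014876207718883062570590846027798123790528045284017538831602528681926395847761461904560078916629232181503002008581293092063948497988905201995691907439750156515735513001547247696514959741196780432776186903435971585481969493337415770940624909791677124715805453767847492557926654829416991665619112445904011227858789502740622415248510020535238043730547630392934132606477734653414943135482907115180839319202966056439633622946762708079760841665476351328909021214434106832479675238283295201664966248314095529086193556645147467002602905668526954778632786961679157675329778015636815757301553268602457354770172824949022109811610195514593308050868981634727347507043862389425150043095195635687338678323686333351295433340276433052507656758874504767715918636209430836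6864669915101689445321295314262227393378761618208590311349019047355115182555575841201347112499709300215937060907191071336928443468816210505387840354715359643035437519506040179928595744964768109499146909896050502339258603419972980576351015647615297495780999551594894594154016076044599980436814807732997072438938951835725728146848595236518583556201053013379023140820364257759559963078600981716707700828963775884063807017486334262080879587360434082431830722676618926925481751844264434025443290528486333826970057229834335514127262529405353514508885016557504499447049660711427165410195337894891101604888562417181396031622444771521596293291971598600954685104331740722302127774436299011865575940208264660460168202944815783919520147858108996552329590634319083905514877259494150123300757077535994964392938276669486745189500774100463936744472108420890623198651096502831277162152209817346292077844900496365426218573528479534812945819055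0570749787129025715941455117666339858230482554603157550568336250067454064563152612405806870952546739452965518376984483507782334162923181894149519930963561932095991911456235800568783706512897901960288056619400486414704524558392715836025592619656303539610024203319714448974361098417573803674774555763264224511589657950807730265195270119263945782356256197239708310070752743081453185361885767830657728784372097493583579507183628890934292314788947588190942773662011519517607026588595994946725226817335413645949490923357059913836330907497692961602091934686611529064015114075907133990859448339756313831328093638820029342330537882033609515716464720840908227799044732328777015528510349611253616630832907984397254690420321688325827731860875412335263844672539947894836899238742939543807991465620202362661491521262879150556203412186500146549307993210101587104361408121094896985409828919490273236382243552367445178176754839491242369698829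4146984648802683386762220615920971219362965413341395583361954481722265460831205955519882843522763326801834384877017393707591308185806236654169557738674322223198465967418833964747085302730125843387414840639040868412699023375069034911332761064180742020117981426134385445277218243132931511099891106768310924217732113361663052029146767640524964334015504260307438746069494817054856767741228196443131671338320679109914325594345394887949951081908228893285212177642165958133128614061141483158431928489245884244644329306327756497708055517103005100256297544747604959884837652061121518828880039268382948429292796511398091247890179942166431970626921581236391394648642184467045974914933769353205828144567093193854240082016770639266502538050474095854036901489171121228006869472522398369273185679828966651923316515543033464745829396756432357647896212859190846279751206472668792941134021578286425865443382657281433803113363371023946267229421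2421934877939518133211924398848473787899491376331730599430966615878606627729268369600686704600729132179566813436965760654245888628164869997674069711207058031220030607630505101503689443173053498866556735166587342971807751553541450277080660923936347970459128454323868682800804929470133829122591792589525816968316776852209324215444264595826449887802174867139438035563037785571516871837331448383402472583491401574769948937071750027381400276942402062100028528227539084183529273146456633693195866588048240174201947471901525984241442948482400365560474610419326496292562277529841272142347542460893370346283884125898928786190677922709383171972967636577920165701896448692291667825765455306198023423671114612662882047796006133153323642048381629200302702620875492585104467194689642098403934187210699358191210424429834838790196198512051528557055302652597515712752945438950164060469826467384248506115361530002512603128636195539328051833969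9443215337530186058642509949263827609837922954221274695948179814424798818276025110937600860045663640226223402294793963614246161858036202680357752305854303228708048001051716039689737865729697357356222629605410156849760672665901257788976679582299910948120356631546912946694811216379566351073134418680580379394171632814426166945329562132754528505783434079165857431673333438186692106560208519950590607089186225863679243471496747859089421364286746987898935578266016904057951180133816386689838678867868501418607250472134954309508918803083638209576912862296393253682008511620083692148156310106770941915129843406999321846224261706902304983539098408882766840986434626363866577854889530067549444509293326787581504012644460633287931940125594449341079999440801415133003442055501211461859770156681234721608950913405781948729537570545730811555333295708171919938622744954005500252498223760697404048388566277489268015386456324180725021843692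7648290703702224098187501525577241846256594045340776382082909833138039916828384793532947848148109917947837706493010914603132745241471117644206794679597117352321169337817831770387780859710398931045553308239379606221010788579663289888146310711552577254047976409865016049824827594906947628075937533886261881983722018792849717053697432632952932031181629749480637797295071794353563724546019687885791346505210790719768730520196234612832026130925614366585724481655890270705955577516639264989431035847276049965029706806127845354536953387758640473480808089507371921378505277308947876066146365967549168531354262764484106540256044378933724609479606747809986874365838854645375390191926956814665402072581692401275338079612866524667306524617987761334699998820185822079797735757302255844044181995729490112270559464734051969141408614224075686254187528182310893604406425265460806234238524448874808787269566655653249267912648287807766714563270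975789679574420188336030035272218339210925197358721182854184073122057124761359134857779816484320647486880154117439052561796791242488259612647305893101138715275667946642013135931317799573962654144303210321341352788524683861827657061062058190810883999744922683201170680115599792358392069259449095302310700946560112222441088614050016010996483806620459542592597208638583780909221100964144869151937454916442779299397048616465850613425219837133816666053504345531722947641180230258404688316036745387037325065667654871270705021791954115931792111396233912632249012544188125336271773952203426446530226156617550439321656754400417582268017026983318502367029508548277564809823488299282190681339873229249304368659354106013727598447805319582923841934943035437277004074663343218007516811118927251256758780891418107509831892992)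

noncomputable def rc22 : Nat := (nat_lit 470007538651263273816514958896799754562048246642913262495930211316863080385223197393454163848184939166835102272006430735707910860075400776758796087097512650937604887233318060357102110466389912143312219196610808382543020495497788250503485556682217255378704049121977478782715978403137044302027038546901497764488072315974947738487034478819932752463072871762859614042241230434091840700476474701221756977063056493521343523905576255144499866834040107590280736610533479274832310745416227597625867387597161191989457094712434289779930447429581373530767075120868815158049406568192876714990496508775242377217533992211488193377681114339785569448808712579287057239219786206562004723399805098068240742501855030690848497499227575437385810635624296149797553556596405945245672535312567776981790694581170522664941215735532006967322071449862772757993906681934052559704302945187591165576709422537001414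0248954875413530656255058586785914142352477809644442691541515393658139210294739256959291379382745013738214012982441821826310512021720821186194468226205066705779095157314746053076268358029022235408476075623680221850617723889622794204673139586757756103119441336953544327959740042288627511138408258134604016950170146072034329665859792442261267464642668426367948015522206956016960303801062505976573903295833370200608722527764050262249606242510266956998600845398447634057689296535749338969946971544760545748638636238443561217189744300192023227718648745766133107139825816928171555387352154830003095747713355610236267067618910813492772848089079941969317182027747165020206833857128222607956761565356904631406312259220085605571275485735132661025350121052973713463882531614601170895404300336427664986515232094951127796299551820313691923896611821521653112320591240186527341814952108548845650838641855920500736696400787252452633573974450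6458516764867261863431914293560982951865973948259658462237984934771908153714020129371476539855747381603162568659591621545440079395302718431876527642537702547200827257909310684010744469292551004688238296653352455746572571710513796064328978181976280618437066074537243252062719183376972828803000133787767380056724745654677908737360909152132208958308913943283904828942529455178278254193898354871332488308266454472610992058125408350805052890108863832872278784571946811135057102104833116662728113369957040200719581107008858182665486190580411962620974516503315933382314466393123049186918107447797185514023170893902986522451044882831167790845541441895632696693937814055875128264520063203476051338780904394555141315205643876155593360499121590096764130437130122679736032003947251315561240079779706664576025097899766144223368049026697079554953746143914662565128596979241071560295546772667026761963234611633567625157667203754061725542117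0041465466234195543693903673722242690041990955811044711913672611250152649488104511282109386974915337389242594432802048994896281810451480538870768890882755211573705183304318288105687691568440866820836816513605353935356850684046021875597983944624565356864265375842475675095044594836388848277028068741760336814509760406809552301542412956347789452216110080900839907905741954520873960165798952051748812014229677048676986151821430123341533440947612405856442171984886443312061572266655224664883350330847018658375057356389134644244334589332619096626579509538956122824153516182750670533942657425376348887238129710172445726595934834939049251806197959605609750616587225408996810686626871180329923121709353491803724476626436855780136958082108679452340919077539146508341598528201508298592908772638384813329308805398026289962701002049380524573309316129115604560324034678309270165758826721572275771201755450821852002355678333207206706303462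5226920988879439670723140945569936666970761341431501347511908594966232825810181064244176478097504351009542365192468609451993822971808982925319124583199478963455867669019433869185674063230248272586877012989325225582286729957829164022269226934744972980873364271979773894203439216644657103797730945907715205883483403264870017931173432238234805019927750076235607042140272285749153573354845733020624902414886018906020598345481219207078659213064543272025213468927461070979931051149935110546066523917265998702782244377933285051455602343015538313619239441219650840026465436608479064194379282032320992110719929252976923594129412489643485007497045307502791325851869950916108520498429908505640055996425184551059538990060361515722732711238416873710583890380362771763794957483581889461234408858008900862728173893707829878877192727454949888211741277300305494735626993657386036904110251170481867324178127408676312530825326644511395175246641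4108130531307665481374134921657793806839261212369910928997880631631459231003530523355110634134890471138824077216275802303671304159228224023577986541831186577528981340835886246102953953463540366478066757549082881951082655884966958678641313353503596393543139029140766648801595549646444756571611186907917447767712726260962324849026894576828841818218460131671659463023959942396771416447028983184308927398919971322766556136125493326118067911064669942163505160306296358399177910287002274065540519112659285251831813212718686326152973492942890996364390980968268350623113203826551606065721802269114393966172590723457127822392555957277588733135570521174654974631022607876494691501781678699845373366207834051219643997905380912749132578933138107206649503089811285655221413347278462368874780676950638288308495042997356840138265020428405660411503067512611832260009711179910508682869920751380545948989908386395974012487693941485756488873682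1003277651097385957122029730590799255863668028467127566641654131509843222060522513794801240831681374388735503071707527661473838710410487479233525848952716469252735737700418516730183150775291880448388326794652931771875497517181596272718187653197322154620467312893574648457545386511718567941423247783685444846419470638199400739090626448259131207570569048974918123132525453763543685373289676316993516378576083114746108124128790413842651434859900746716529048386367164101502034427988733679395443564943147412303278800543365610119024073019437076463771227682189356271821306350852970478319704694554689130700799218300253168828586789580925877071997114855378756719090358815831604586331354847607492135712070386352944217940849400175949927446399399310185999103096201104407736322248403685928019329698491706931358928966915618332932660219992580906213335835818240269169749182103345122179282137933168664990813688153483257938909552010369609529779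7872086394516478009173893132706981665549662987883224770067263030887103479562729868659607718976291059307581096032375786517497799256967700516616521560923104011225837042545751300922302325204635984821260816708132529542653090097134964856761126299913993792651821028343431788080325157160408656029886294817518852558559321807999205021750981069354205023477060994609917263945298494557891305959360106489144595309704590772186899562940885016602966085449340315372491882586687302320815958850231110839342695919325978197736902918719684039460840506052238051693027542224342159199219066353149287452331027208383460094639923701417706732029760331501859518493626026845429327045983126026410106954501847413239812858370318545677763276915136583060492615980604961422715013342795572299880613788349991626322042634099018888025801848521081567666147095302440803954841658538985057512659796816616838992702582498120924300429891828919877863243307408181517107980502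9249903833311467135565276815985043475278273826372917048355036939382157221039136875467611179938730453176093051364547628953226941645359107348471692070680297175304575488001456976147034269929276169196974392903781090589042665019976771908107127395340984750789205563927457767971423709863386768619398866895910366871276353556872989984431879623000060403679048866640068714582445855829130979255998887488234187763898058756886452736403938255191086122138200075617501961238123428198475179754746715858307306971161176786697755107483454037600619854419046065009624382605148385086741473554538449195626384763791380494316722561922113721140485832633114814952218135112790573455008607980621202984998253612877698759870782259685051808792798517729236179377116763332755465290375607014297874234018880003813124880001855609046255168605528997582929942480244082692549293242057205643392088475895016889316658874390159381283280035755900425958669000264766154544642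5027778677775259583113668709617690555062751381325644176744124307523576778219749619202309319252002455840605875727577296021577545729006185679725849753729367759935283264838998615824680465516062924673826345293486699249185216897911635700348855887104957468127478277698734726680376741139301203581455010996329090112396715736861281115575904265672056983059919577501721160508094871240355355345168256251492837513454834948101816968057433548325478852101279386346275866881687319979681165527418944257672412638069605930950960736628898730851242472399983213376520846984586124095584756860686400715507213599460720593899924824839328578999455742315409274689563203239006603445815614962979776329697260993463032408554714862133483155103175694543912117267617597336701813852719966749719148084575761217171711451730414142781358018516713456085544820307154273793084466486428110910994645120718957255829477003388684327861393976727546710801486630184278782983131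948668305909408780433187026271116303262315266095505871756400240718225646749484941539160349094556140784931534982833497526759351205428382649345201682553818407857573289355033323622001127290814362843800825660190840968778257881498634417857624879238487709963459051253480269987590683443074272170420472918964270395813443170345422755459471176339247264330465182726828105107677692659873739070657312336947140463259315049534445572273581490334715719740673694615375503847306989390945466638113111414276996113230065592928964639036072304870926223355623160285663633105057693275129480487209525021111449102000163355723417299191788321614385079707316434749702924433542131173063719818038204333341583359978361558169626845821356757128793091596411071160003310311682021897198212509723995952534090250032565153383023448437352793161448030208)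

end Vale.Agent.Lib.P154.PChain.BD.S6
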