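import Vale.Agent.Lib.P154.PChain.BD.R6_2

set_option linter.all false

namespace Vale.Agent.Lib.P154.PChain.BD.S7

open Vale.Agent.Lib.P154.Chain

noncomputable def pc0 : PT := (PT.nd (nat_lit 8640060) (PT.nd (nat_lit 8327748) (PT.nd (nat_lit 8140392) (PT.nd (nat_lit 8015592) (PT.nd (nat_lit 5330754) (PT.nd (nat_lit 5330676) (PT.nd (nat_lit 5268276) PT.nil (PT.lf (nat_lit 76) (nat_lit 3) (nat_lit 1) (nat_lit 1) (nat_lit 258) (nat_lit 84) (nat_lit 258))) (PT.lf (nat_lit 152) (nat_lit 6) (nat_lit 2) (nat_lit 3) (nat_lit 257) (nat_lit 85) (nat_lit 258))) (PT.nd (nat_lit 2684760) (PT.lf (nat_lit 152) (nat_lit 6) (nat_lit 2) (nat_lit 1) (nat_lit 258) (nat_lit 85) (nat_lit 257)) (PT.lf (nat_lit 4712) (nat_lit 6) (nat_lit 62) (nat_lit 3) (nat_lit 235) (nat_lit 128) (nat_lit 237)))) (PT.nd (nat_lit 62400) (PT.nd (nat_lit 78) (PT.lf (nat_lit 4788) (nat_lit 3) (nat_lit 63) (nat_lit 1) (nat_lit 236) (nat_lit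 128) (nat_lit 236)) (PT.lf (nat_lit 4712) (nat_lit 6) (nat_lit 62) (nat_lit 1) (nat_lit 237) (nat_lit 128) (nat_lit 235))) (PT.nd (nat_lit 78) (PT.lf (nat_lit 4940) (nat_lit 6) (nat_lit 65) (nat_lit 3) (nat_lit 235) (nat_lit 129) (nat_lit 236)) (PT.lf (nat_lit 4940) (nat_lit 6) (nat_lit 65) (nat_lit 1) (nat_lit 236) (nat_lit 129) (nat_lit 235))))) (PT.nd (nat_lit 62556) (PT.nd (nat_lit 156) (PT.nd (nat_lit 78) (PT.lf (nat_lit 5016) (nat_lit 6) (nat_lit 66) (nat_lit 3) (nat_lit 234) (nat_lit 130) (nat_lit 236)) (PT.lf (nat_lit 5092) (nat_lit 3) (nat_lit 67) (nat_lit 1) (nat_lit 235) (nat_lit 130) (nat_lit 235))) (PT.nd (nat_lit 62322) (PT.lf (nat_lit 5016) (nat_lit 6) (nat_lit 66) (nat_lit 1) (nat_lit 236) (nat_lit 130) (nat_lit 234)) (PT.lf (nat_lit 5244) (nat_lit 6) (nat_lit 69) (nat_lit 3) (nat_lit 234) (nat_lit 131) (nat_lit 235)))) (PT.nd (nat_lit 62400) (PT.nd (nat_lit 62322) (PT.lf (nat_lit 5244)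 (nat_lit 6) (nat_lit 69) (nat_lit 1) (nat_lit 235) (nat_lit 131) (nat_lit 234)) (PT.lf (nat_lit 5320) (nat_lit 6) (nat_lit 70) (nat_lit 3) (nat_lit 233) (nat_lit 132) (nat_lit 235))) (PT.nd (nat_lit 78) (PT.lf (nat_lit 5396) (nat_lit 3) (nat_lit 71) (nat_lit 1) (nat_lit 234) (nat_lit 132) (nat_lit 234)) (PT.lf (nat_lit 5320) (nat_lit 6) (nat_lit 70) (nat_lit 1) (nat_lit 235) (nat_lit 132) (nat_lit 233)))))) (PT.nd (nat_lit 187356) (PT.nd (nat_lit 62556) (PT.nd (nat_lit 62400) (PT.nd (nat_lit 78) (PT.lf (nat_lit 5548) (nat_lit 6) (nat_lit 73) (nat_lit 3) (nat_lit 233) (nat_lit 133) (nat_lit 234)) (PT.lf (nat_lit 5548) (nat_lit 6) (nat_lit 73) (nat_lit 1) (nat_lit 234) (nat_lit 133) (nat_lit 233))) (PT.nd (nat_lit 78) (PT.lf (nat_lit 5624) (nat_lit 6) (nat_lit 74) (nat_lit 3) (nat_lit 232) (nat_lit 134) (nat_lit 234)) (PT.lf (nat_lit 5700) (nat_lit 3) (nat_lit 75) (nat_lit 1) (nat_lit 233) (nat_lit 134)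 (nat_lit 233)))) (PT.nd (nat_lit 62400) (PT.nd (nat_lit 62322) (PT.lf (nat_lit 5624) (nat_lit 6) (nat_lit 74) (nat_lit 1) (nat_lit 234) (nat_lit 134) (nat_lit 232)) (PT.lf (nat_lit 5852) (nat_lit 6) (nat_lit 77) (nat_lit 3) (nat_lit 232) (nat_lit 135) (nat_lit 233))) (PT.nd (nat_lit 62322) (PT.lf (nat_lit 5852) (nat_lit 6) (nat_lit 77) (nat_lit 1) (nat_lit 233) (nat_lit 135) (nat_lit 232)) (PT.lf (nat_lit 5928) (nat_lit 6) (nat_lit 78) (nat_lit 3) (nat_lit 231) (nat_lit 136) (nat_lit 233))))) (PT.nd (nat_lit 62478) (PT.nd (nat_lit 62322) (PT.nd (nat_lit 78) (PT.lf (nat_lit 6004) (nat_lit 3) (nat_lit 79) (nat_lit 1) (nat_lit 232) (nat_lit 136) (nat_lit 232)) (PT.lf (nat_lit 5928) (nat_lit 6) (nat_lit 78) (nat_lit 1) (nat_lit 233) (nat_lit 136) (nat_lit 231))) (PT.nd (nat_lit 78) (PT.lf (nat_lit 6080) (nat_lit 6) (nat_lit 80) (nat_lit 3) (nat_lit 230) (nat_lit 137) (nat_lit 233)) (PT.lf (nat_lit 6156)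 (nat_lit 6) (nat_lit 81) (nat_lit 3) (nat_lit 231) (nat_lit 137) (nat_lit 232)))) (PT.nd (nat_lit 62322) (PT.nd (nat_lit 78) (PT.lf (nat_lit 6156) (nat_lit 6) (nat_lit 81) (nat_lit 1) (nat_lit 232) (nat_lit 137) (nat_lit 231)) (PT.lf (nat_lit 6080) (nat_lit 6) (nat_lit 80) (nat_lit 1) (nat_lit 233) (nat_lit 137) (nat_lit 230))) (PT.nd (nat_lit 78) (PT.lf (nat_lit 6232) (nat_lit 6) (nat_lit 82) (nat_lit 3) (nat_lit 230) (nat_lit 138) (nat_lit 232)) (PT.lf (nat_lit 6308) (nat_lit 3) (nat_lit 83) (nat_lit 1) (nat_lit 231) (nat_lit 138) (nat_lit 231))))))) (PT.nd (nat_lit 312078) (PT.nd (nat_lit 187122) (PT.nd (nat_lit 62478) (PT.nd (nat_lit 62322) (PT.nd (nat_lit 62244) (PT.lf (nat_lit 6232) (nat_lit 6) (nat_lit 82) (nat_lit 1) (nat_lit 232) (nat_lit 138) (nat_lit 230)) (PT.lf (nat_lit 6384) (nat_lit 6) (nat_lit 84) (nat_lit 3) (nat_lit 229) (nat_lit 139) (nat_lit 232))) (PT.nd (nat_lit 78) (PT.lf (nat_lit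 6460) (nat_lit 6) (nat_lit 85) (nat_lit 3) (nat_lit 230) (nat_lit 139) (nat_lit 231)) (PT.lf (nat_lit 6460) (nat_lit 6) (nat_lit 85) (nat_lit 1) (nat_lit 231) (nat_lit 139) (nat_lit 230)))) (PT.nd (nat_lit 62322) (PT.nd (nat_lit 62244) (PT.lf (nat_lit 6384) (nat_lit 6) (nat_lit 84) (nat_lit 1) (nat_lit 232) (nat_lit 139) (nat_lit 229)) (PT.lf (nat_lit 6612) (nat_lit 6) (nat_lit 87) (nat_lit 3) (nat_lit 229) (nat_lit 140) (nat_lit 231))) (PT.nd (nat_lit 78) (PT.lf (nat_lit 6688) (nat_lit 3) (nat_lit 88) (nat_lit 1) (nat_lit 230) (nat_lit 140) (nat_lit 230)) (PT.lf (nat_lit 6612) (nat_lit 6) (nat_lit 87) (nat_lit 1) (nat_lit 231) (nat_lit 140) (nat_lit 229))))) (PT.nd (nat_lit 62478) (PT.nd (nat_lit 156) (PT.nd (nat_lit 78) (PT.lf (nat_lit 6764) (nat_lit 6) (nat_lit 89) (nat_lit 3) (nat_lit 228) (nat_lit 141) (nat_lit 231)) (PT.lf (nat_lit 6840) (nat_lit 6) (nat_lit 90) (nat_lit 3) (nat_lit 229) (nat_lit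 141) (nat_lit 230))) (PT.nd (nat_lit 78) (PT.lf (nat_lit 6840) (nat_lit 6) (nat_lit 90) (nat_lit 1) (nat_lit 230) (nat_lit 141) (nat_lit 229)) (PT.lf (nat_lit 6764) (nat_lit 6) (nat_lit 89) (nat_lit 1) (nat_lit 231) (nat_lit 141) (nat_lit 228)))) (PT.nd (nat_lit 156) (PT.nd (nat_lit 78) (PT.lf (nat_lit 6992) (nat_lit 6) (nat_lit 92) (nat_lit 3) (nat_lit 228) (nat_lit 142) (nat_lit 230)) (PT.lf (nat_lit 7068) (nat_lit 3) (nat_lit 93) (nat_lit 1) (nat_lit 229) (nat_lit 142) (nat_lit 229))) (PT.nd (nat_lit 62244) (PT.lf (nat_lit 6992) (nat_lit 6) (nat_lit 92) (nat_lit 1) (nat_lit 230) (nat_lit 142) (nat_lit 228)) (PT.lf (nat_lit 7144) (nat_lit 6) (nat_lit 94) (nat_lit 3) (nat_lit 227) (nat_lit 143) (nat_lit 230)))))) (PT.nd (nat_lit 124800) (PT.nd (nat_lit 62400) (PT.nd (nat_lit 156) (PT.nd (nat_lit 78) (PT.lf (nat_lit 7220) (nat_lit 6) (nat_lit 95) (nat_lit 3) (nat_lit 228) (nat_lit 143) (nat_lit 229))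 (PT.lf (nat_lit 7220) (nat_lit 6) (nat_lit 95) (nat_lit 1) (nat_lit 229) (nat_lit 143) (nat_lit 228))) (PT.nd (nat_lit 62166) (PT.lf (nat_lit 7144) (nat_lit 6) (nat_lit 94) (nat_lit 1) (nat_lit 230) (nat_lit 143) (nat_lit 227)) (PT.lf (nat_lit 7296) (nat_lit 6) (nat_lit 96) (nat_lit 3) (nat_lit 226) (nat_lit 144) (nat_lit 230)))) (PT.nd (nat_lit 156) (PT.nd (nat_lit 78) (PT.lf (nat_lit 7372) (nat_lit 6) (nat_lit 97) (nat_lit 3) (nat_lit 227) (nat_lit 144) (nat_lit 229)) (PT.lf (nat_lit 7448) (nat_lit 3) (nat_lit 98) (nat_lit 1) (nat_lit 228) (nat_lit 144) (nat_lit 228))) (PT.nd (nat_lit 78) (PT.lf (nat_lit 7372) (nat_lit 6) (nat_lit 97) (nat_lit 1) (nat_lit 229) (nat_lit 144) (nat_lit 227)) (PT.lf (nat_lit 7296) (nat_lit 6) (nat_lit 96) (nat_lit 1) (nat_lit 230) (nat_lit 144) (nat_lit 226))))) (PT.nd (nat_lit 62400) (PT.nd (nat_lit 156) (PT.nd (nat_lit 78) (PT.lf (nat_lit 7524) (nat_lit 6) (nat_lit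 99) (nat_lit 3) (nat_lit 226) (nat_lit 145) (nat_lit 229)) (PT.lf (nat_lit 7600) (nat_lit 6) (nat_lit 100) (nat_lit 3) (nat_lit 227) (nat_lit 145) (nat_lit 228))) (PT.nd (nat_lit 78) (PT.lf (nat_lit 7600) (nat_lit 6) (nat_lit 100) (nat_lit 1) (nat_lit 228) (nat_lit 145) (nat_lit 227)) (PT.lf (nat_lit 7524) (nat_lit 6) (nat_lit 99) (nat_lit 1) (nat_lit 229) (nat_lit 145) (nat_lit 226)))) (PT.nd (nat_lit 156) (PT.nd (nat_lit 78) (PT.lf (nat_lit 7676) (nat_lit 6) (nat_lit 101) (nat_lit 3) (nat_lit 225) (nat_lit 146) (nat_lit 229)) (PT.lf (nat_lit 7752) (nat_lit 6) (nat_lit 102) (nat_lit 3) (nat_lit 226) (nat_lit 146) (nat_lit 228))) (PT.nd (nat_lit 78) (PT.lf (nat_lit 7828) (nat_lit 3) (nat_lit 103) (nat_lit 1) (nat_lit 227) (nat_lit 146) (nat_lit 227)) (PT.lf (nat_lit 7752) (nat_lit 6) (nat_lit 102) (nat_lit 1) (nat_lit 228) (nat_lit 146) (nat_lit 226))))))))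
noncomputable def pc1 : PT := (PT.nd (nat_lit 249600) (PT.nd (nat_lit 124800) (PT.nd (nat_lit 62400) (PT.nd (nat_lit 62244) (PT.nd (nat_lit 62166) (PT.lf (nat_lit 7676) (nat_lit 6) (nat_lit 101) (nat_lit 1) (nat_lit 229) (nat_lit 146) (nat_lit 225)) (PT.lf (nat_lit 7904) (nat_lit 6) (nat_lit 104) (nat_lit 3) (nat_lit 225) (nat_lit 147) (nat_lit 228))) (PT.nd (nat_lit 78) (PT.lf (nat_lit 7980) (nat_lit 6) (nat_lit 105) (nat_lit 3) (nat_lit 226) (nat_lit 147) (nat_lit 227)) (PT.lf (nat_lit 7980) (nat_lit 6) (nat_lit 105) (nat_lit 1) (nat_lit 227) (nat_lit 147) (nat_lit 226)))) (PT.nd (nat_lit 62244) (PT.nd (nat_lit 62166) (PT.lf (nat_lit 7904) (nat_lit 6) (nat_lit 104) (nat_lit 1) (nat_lit 228) (nat_lit 147) (nat_lit 225)) (PT.lf (nat_lit 8056) (nat_lit 6) (nat_lit 106) (nat_lit 3) (nat_lit 224) (nat_lit 148) (nat_lit 228))) (PT.nd (nat_lit 78) (PT.lf (nat_lit 8132) (nat_lit 6) (nat_lit 107) (nat_lit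 3) (nat_lit 225) (nat_lit 148) (nat_lit 227)) (PT.lf (nat_lit 8208) (nat_lit 3) (nat_lit 108) (nat_lit 1) (nat_lit 226) (nat_lit 148) (nat_lit 226))))) (PT.nd (nat_lit 62400) (PT.nd (nat_lit 62244) (PT.nd (nat_lit 78) (PT.lf (nat_lit 8132) (nat_lit 6) (nat_lit 107) (nat_lit 1) (nat_lit 227) (nat_lit 148) (nat_lit 225)) (PT.lf (nat_lit 8056) (nat_lit 6) (nat_lit 106) (nat_lit 1) (nat_lit 228) (nat_lit 148) (nat_lit 224))) (PT.nd (nat_lit 78) (PT.lf (nat_lit 8360) (nat_lit 6) (nat_lit 110) (nat_lit 3) (nat_lit 224) (nat_lit 149) (nat_lit 227)) (PT.lf (nat_lit 8436) (nat_lit 6) (nat_lit 111) (nat_lit 3) (nat_lit 225) (nat_lit 149) (nat_lit 226)))) (PT.nd (nat_lit 62244) (PT.nd (nat_lit 78) (PT.lf (nat_lit 8436) (nat_lit 6) (nat_lit 111) (nat_lit 1) (nat_lit 226) (nat_lit 149) (nat_lit 225)) (PT.lf (nat_lit 8360) (nat_lit 6) (nat_lit 110) (nat_lit 1) (nat_lit 227) (nat_lit 149) (nat_lit 224))) (PT.nd (nat_lit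 78) (PT.lf (nat_lit 8512) (nat_lit 6) (nat_lit 112) (nat_lit 3) (nat_lit 223) (nat_lit 150) (nat_lit 227)) (PT.lf (nat_lit 8588) (nat_lit 6) (nat_lit 113) (nat_lit 3) (nat_lit 224) (nat_lit 150) (nat_lit 226)))))) (PT.nd (nat_lit 62634) (PT.nd (nat_lit 62322) (PT.nd (nat_lit 156) (PT.nd (nat_lit 78) (PT.lf (nat_lit 8664) (nat_lit 3) (nat_lit 114) (nat_lit 1) (nat_lit 225) (nat_lit 150) (nat_lit 225)) (PT.lf (nat_lit 8588) (nat_lit 6) (nat_lit 113) (nat_lit 1) (nat_lit 226) (nat_lit 150) (nat_lit 224))) (PT.nd (nat_lit 62088) (PT.lf (nat_lit 8512) (nat_lit 6) (nat_lit 112) (nat_lit 1) (nat_lit 227) (nat_lit 150) (nat_lit 223)) (PT.lf (nat_lit 8740) (nat_lit 6) (nat_lit 115) (nat_lit 3) (nat_lit 222) (nat_lit 151) (nat_lit 227)))) (PT.nd (nat_lit 156) (PT.nd (nat_lit 78) (PT.lf (nat_lit 8816) (nat_lit 6) (nat_lit 116) (nat_lit 3) (nat_lit 223) (nat_lit 151) (nat_lit 226)) (PT.lf (nat_lit 8892) (nat_lit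 6) (nat_lit 117) (nat_lit 3) (nat_lit 224) (nat_lit 151) (nat_lit 225))) (PT.nd (nat_lit 78) (PT.lf (nat_lit 8892) (nat_lit 6) (nat_lit 117) (nat_lit 1) (nat_lit 225) (nat_lit 151) (nat_lit 224)) (PT.lf (nat_lit 8816) (nat_lit 6) (nat_lit 116) (nat_lit 1) (nat_lit 226) (nat_lit 151) (nat_lit 223))))) (PT.nd (nat_lit 62322) (PT.nd (nat_lit 62166) (PT.nd (nat_lit 62088) (PT.lf (nat_lit 8740) (nat_lit 6) (nat_lit 115) (nat_lit 1) (nat_lit 227) (nat_lit 151) (nat_lit 222)) (PT.lf (nat_lit 8968) (nat_lit 6) (nat_lit 118) (nat_lit 3) (nat_lit 222) (nat_lit 152) (nat_lit 226))) (PT.nd (nat_lit 78) (PT.lf (nat_lit 9044) (nat_lit 6) (nat_lit 119) (nat_lit 3) (nat_lit 223) (nat_lit 152) (nat_lit 225)) (PT.lf (nat_lit 9120) (nat_lit 3) (nat_lit 120) (nat_lit 1) (nat_lit 224) (nat_lit 152) (nat_lit 224)))) (PT.nd (nat_lit 62166) (PT.nd (nat_lit 78) (PT.lf (nat_lit 9044) (nat_lit 6) (nat_lit 119) (nat_lit 1) (nat_lit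 225) (nat_lit 152) (nat_lit 223)) (PT.lf (nat_lit 8968) (nat_lit 6) (nat_lit 118) (nat_lit 1) (nat_lit 226) (nat_lit 152) (nat_lit 222))) (PT.nd (nat_lit 78) (PT.lf (nat_lit 9196) (nat_lit 6) (nat_lit 121) (nat_lit 3) (nat_lit 221) (nat_lit 153) (nat_lit 226)) (PT.lf (nat_lit 9272) (nat_lit 6) (nat_lit 122) (nat_lit 3) (nat_lit 222) (nat_lit 153) (nat_lit 225)))))))
noncomputable def pc2 : PT := (PT.nd (nat_lit 187200) (PT.nd (nat_lit 62634) (PT.nd (nat_lit 62322) (PT.nd (nat_lit 156) (PT.nd (nat_lit 78) (PT.lf (nat_lit 9348) (nat_lit 6) (nat_lit 123) (nat_lit 3) (nat_lit 223) (nat_lit 153) (nat_lit 224)) (PT.lf (nat_lit 9348) (nat_lit 6) (nat_lit 123) (nat_lit 1) (nat_lit 224) (nat_lit 153) (nat_lit 223))) (PT.nd (nat_lit 78) (PT.lf (nat_lit 9272) (nat_lit 6) (nat_lit 122) (nat_lit 1) (nat_lit 225) (nat_lit 153) (nat_lit 222)) (PT.lf (nat_lit 9196) (nat_lit 6) (nat_lit 121) (nat_lit 1) (nat_lit 226)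 (nat_lit 153) (nat_lit 221)))) (PT.nd (nat_lit 156) (PT.nd (nat_lit 78) (PT.lf (nat_lit 9500) (nat_lit 6) (nat_lit 125) (nat_lit 3) (nat_lit 221) (nat_lit 154) (nat_lit 225)) (PT.lf (nat_lit 9576) (nat_lit 6) (nat_lit 126) (nat_lit 3) (nat_lit 222) (nat_lit 154) (nat_lit 224))) (PT.nd (nat_lit 78) (PT.lf (nat_lit 9652) (nat_lit 3) (nat_lit 127) (nat_lit 1) (nat_lit 223) (nat_lit 154) (nat_lit 223)) (PT.lf (nat_lit 9576) (nat_lit 6) (nat_lit 126) (nat_lit 1) (nat_lit 224) (nat_lit 154) (nat_lit 222))))) (PT.nd (nat_lit 62322) (PT.nd (nat_lit 62166) (PT.nd (nat_lit 62088) (PT.lf (nat_lit 9500) (nat_lit 6) (nat_lit 125) (nat_lit 1) (nat_lit 225) (nat_lit 154) (nat_lit 221)) (PT.lf (nat_lit 9728) (nat_lit 6) (nat_lit 128) (nat_lit 3) (nat_lit 220) (nat_lit 155) (nat_lit 225))) (PT.nd (nat_lit 78) (PT.lf (nat_lit 9804) (nat_lit 6) (nat_lit 129) (nat_lit 3) (nat_lit 221) (nat_lit 155) (nat_lit 224)) (PT.lf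 (nat_lit 9880) (nat_lit 6) (nat_lit 130) (nat_lit 3) (nat_lit 222) (nat_lit 155) (nat_lit 223)))) (PT.nd (nat_lit 156) (PT.nd (nat_lit 78) (PT.lf (nat_lit 9880) (nat_lit 6) (nat_lit 130) (nat_lit 1) (nat_lit 223) (nat_lit 155) (nat_lit 222)) (PT.lf (nat_lit 9804) (nat_lit 6) (nat_lit 129) (nat_lit 1) (nat_lit 224) (nat_lit 155) (nat_lit 221))) (PT.nd (nat_lit 62010) (PT.lf (nat_lit 9728) (nat_lit 6) (nat_lit 128) (nat_lit 1) (nat_lit 225) (nat_lit 155) (nat_lit 220)) (PT.lf (nat_lit 9956) (nat_lit 6) (nat_lit 131) (nat_lit 3) (nat_lit 219) (nat_lit 156) (nat_lit 225)))))) (PT.nd (nat_lit 62556) (PT.nd (nat_lit 312) (PT.nd (nat_lit 156) (PT.nd (nat_lit 78) (PT.lf (nat_lit 10032) (nat_lit 6) (nat_lit 132) (nat_lit 3) (nat_lit 220) (nat_lit 156) (nat_lit 224)) (PT.lf (nat_lit 10108) (nat_lit 6) (nat_lit 133) (nat_lit 3) (nat_lit 221) (nat_lit 156) (nat_lit 223))) (PT.nd (nat_lit 78) (PT.lf (nat_lit 10184)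 (nat_lit 3) (nat_lit 134) (nat_lit 1) (nat_lit 222) (nat_lit 156) (nat_lit 222)) (PT.lf (nat_lit 10108) (nat_lit 6) (nat_lit 133) (nat_lit 1) (nat_lit 223) (nat_lit 156) (nat_lit 221)))) (PT.nd (nat_lit 62088) (PT.nd (nat_lit 78) (PT.lf (nat_lit 10032) (nat_lit 6) (nat_lit 132) (nat_lit 1) (nat_lit 224) (nat_lit 156) (nat_lit 220)) (PT.lf (nat_lit 9956) (nat_lit 6) (nat_lit 131) (nat_lit 1) (nat_lit 225) (nat_lit 156) (nat_lit 219))) (PT.nd (nat_lit 78) (PT.lf (nat_lit 10260) (nat_lit 6) (nat_lit 135) (nat_lit 3) (nat_lit 219) (nat_lit 157) (nat_lit 224)) (PT.lf (nat_lit 10336) (nat_lit 6) (nat_lit 136) (nat_lit 3) (nat_lit 220) (nat_lit 157) (nat_lit 223))))) (PT.nd (nat_lit 62244) (PT.nd (nat_lit 156) (PT.nd (nat_lit 78) (PT.lf (nat_lit 10412) (nat_lit 6) (nat_lit 137) (nat_lit 3) (nat_lit 221) (nat_lit 157) (nat_lit 222)) (PT.lf (nat_lit 10412) (nat_lit 6) (nat_lit 137) (nat_lit 1) (nat_lit 222)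 (nat_lit 157) (nat_lit 221))) (PT.nd (nat_lit 78) (PT.lf (nat_lit 10336) (nat_lit 6) (nat_lit 136) (nat_lit 1) (nat_lit 223) (nat_lit 157) (nat_lit 220)) (PT.lf (nat_lit 10260) (nat_lit 6) (nat_lit 135) (nat_lit 1) (nat_lit 224) (nat_lit 157) (nat_lit 219)))) (PT.nd (nat_lit 156) (PT.nd (nat_lit 78) (PT.lf (nat_lit 10488) (nat_lit 6) (nat_lit 138) (nat_lit 3) (nat_lit 218) (nat_lit 158) (nat_lit 224)) (PT.lf (nat_lit 10564) (nat_lit 6) (nat_lit 139) (nat_lit 3) (nat_lit 219) (nat_lit 158) (nat_lit 223))) (PT.nd (nat_lit 78) (PT.lf (nat_lit 10640) (nat_lit 6) (nat_lit 140) (nat_lit 3) (nat_lit 220) (nat_lit 158) (nat_lit 222)) (PT.nd (nat_lit 78) (PT.lf (nat_lit 10716) (nat_lit 3) (nat_lit 141) (nat_lit 1) (nat_lit 221) (nat_lit 158) (nat_lit 221)) (PT.lf (nat_lit 10640) (nat_lit 6) (nat_lit 140) (nat_lit 1) (nat_lit 222) (nat_lit 158) (nat_lit 220))))))))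
noncomputable def pc3 : PT := (PT.nd (nat_lit 311766) (PT.nd (nat_lit 124956) (PT.nd (nat_lit 62478) (PT.nd (nat_lit 62166) (PT.nd (nat_lit 62010) (PT.nd (nat_lit 78) (PT.lf (nat_lit 10564) (nat_lit 6) (nat_lit 139) (nat_lit 1) (nat_lit 223) (nat_lit 158) (nat_lit 219)) (PT.lf (nat_lit 10488) (nat_lit 6) (nat_lit 138) (nat_lit 1) (nat_lit 224) (nat_lit 158) (nat_lit 218))) (PT.nd (nat_lit 78) (PT.lf (nat_lit 10792) (nat_lit 6) (nat_lit 142) (nat_lit 3) (nat_lit 217) (nat_lit 159) (nat_lit 224)) (PT.lf (nat_lit 10868) (nat_lit 6) (nat_lit 143) (nat_lit 3) (nat_lit 218) (nat_lit 159) (nat_lit 223)))) (PT.nd (nat_lit 156) (PT.nd (nat_lit 78) (PT.lf (nat_lit 10944) (nat_lit 6) (nat_lit 144) (nat_lit 3) (nat_lit 219) (nat_lit 159) (nat_lit 222)) (PT.lf (nat_lit 11020) (nat_lit 6) (nat_lit 145) (nat_lit 3) (nat_lit 220) (nat_lit 159) (nat_lit 221))) (PT.nd (nat_lit 78) (PT.lf (nat_lit 11020) (nat_lit 6)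 (nat_lit 145) (nat_lit 1) (nat_lit 221) (nat_lit 159) (nat_lit 220)) (PT.lf (nat_lit 10944) (nat_lit 6) (nat_lit 144) (nat_lit 1) (nat_lit 222) (nat_lit 159) (nat_lit 219))))) (PT.nd (nat_lit 62166) (PT.nd (nat_lit 62010) (PT.nd (nat_lit 78) (PT.lf (nat_lit 10868) (nat_lit 6) (nat_lit 143) (nat_lit 1) (nat_lit 223) (nat_lit 159) (nat_lit 218)) (PT.lf (nat_lit 10792) (nat_lit 6) (nat_lit 142) (nat_lit 1) (nat_lit 224) (nat_lit 159) (nat_lit 217))) (PT.nd (nat_lit 78) (PT.lf (nat_lit 11096) (nat_lit 6) (nat_lit 146) (nat_lit 3) (nat_lit 217) (nat_lit 160) (nat_lit 223)) (PT.lf (nat_lit 11172) (nat_lit 6) (nat_lit 147) (nat_lit 3) (nat_lit 218) (nat_lit 160) (nat_lit 222)))) (PT.nd (nat_lit 156) (PT.nd (nat_lit 78) (PT.lf (nat_lit 11248) (nat_lit 6) (nat_lit 148) (nat_lit 3) (nat_lit 219) (nat_lit 160) (nat_lit 221)) (PT.lf (nat_lit 11324) (nat_lit 3) (nat_lit 149) (nat_lit 1) (nat_lit 220) (nat_lit 160)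 (nat_lit 220))) (PT.nd (nat_lit 78) (PT.lf (nat_lit 11248) (nat_lit 6) (nat_lit 148) (nat_lit 1) (nat_lit 221) (nat_lit 160) (nat_lit 219)) (PT.lf (nat_lit 11172) (nat_lit 6) (nat_lit 147) (nat_lit 1) (nat_lit 222) (nat_lit 160) (nat_lit 218)))))) (PT.nd (nat_lit 62478) (PT.nd (nat_lit 62166) (PT.nd (nat_lit 62010) (PT.nd (nat_lit 61932) (PT.lf (nat_lit 11096) (nat_lit 6) (nat_lit 146) (nat_lit 1) (nat_lit 223) (nat_lit 160) (nat_lit 217)) (PT.lf (nat_lit 11400) (nat_lit 6) (nat_lit 150) (nat_lit 3) (nat_lit 216) (nat_lit 161) (nat_lit 223))) (PT.nd (nat_lit 78) (PT.lf (nat_lit 11476) (nat_lit 6) (nat_lit 151) (nat_lit 3) (nat_lit 217) (nat_lit 161) (nat_lit 222)) (PT.lf (nat_lit 11552) (nat_lit 6) (nat_lit 152) (nat_lit 3) (nat_lit 218) (nat_lit 161) (nat_lit 221)))) (PT.nd (nat_lit 156) (PT.nd (nat_lit 78) (PT.lf (nat_lit 11628) (nat_lit 6) (nat_lit 153) (nat_lit 3) (nat_lit 219) (nat_lit 161) (nat_lit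 220)) (PT.lf (nat_lit 11628) (nat_lit 6) (nat_lit 153) (nat_lit 1) (nat_lit 220) (nat_lit 161) (nat_lit 219))) (PT.nd (nat_lit 78) (PT.lf (nat_lit 11552) (nat_lit 6) (nat_lit 152) (nat_lit 1) (nat_lit 221) (nat_lit 161) (nat_lit 218)) (PT.lf (nat_lit 11476) (nat_lit 6) (nat_lit 151) (nat_lit 1) (nat_lit 222) (nat_lit 161) (nat_lit 217))))) (PT.nd (nat_lit 62166) (PT.nd (nat_lit 62010) (PT.nd (nat_lit 61932) (PT.lf (nat_lit 11400) (nat_lit 6) (nat_lit 150) (nat_lit 1) (nat_lit 223) (nat_lit 161) (nat_lit 216)) (PT.lf (nat_lit 11780) (nat_lit 6) (nat_lit 155) (nat_lit 3) (nat_lit 216) (nat_lit 162) (nat_lit 222))) (PT.nd (nat_lit 78) (PT.lf (nat_lit 11856) (nat_lit 6) (nat_lit 156) (nat_lit 3) (nat_lit 217) (nat_lit 162) (nat_lit 221)) (PT.lf (nat_lit 11932) (nat_lit 6) (nat_lit 157) (nat_lit 3) (nat_lit 218) (nat_lit 162) (nat_lit 220)))) (PT.nd (nat_lit 156) (PT.nd (nat_lit 78) (PT.lf (nat_lit 12008)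 (nat_lit 3) (nat_lit 158) (nat_lit 1) (nat_lit 219) (nat_lit 162) (nat_lit 219)) (PT.lf (nat_lit 11932) (nat_lit 6) (nat_lit 157) (nat_lit 1) (nat_lit 220) (nat_lit 162) (nat_lit 218))) (PT.nd (nat_lit 78) (PT.lf (nat_lit 11856) (nat_lit 6) (nat_lit 156) (nat_lit 1) (nat_lit 221) (nat_lit 162) (nat_lit 217)) (PT.lf (nat_lit 11780) (nat_lit 6) (nat_lit 155) (nat_lit 1) (nat_lit 222) (nat_lit 162) (nat_lit 216))))))) (PT.nd (nat_lit 63024) (PT.nd (nat_lit 62400) (PT.nd (nat_lit 312) (PT.nd (nat_lit 156) (PT.nd (nat_lit 78) (PT.lf (nat_lit 12084) (nat_lit 6) (nat_lit 159) (nat_lit 3) (nat_lit 215) (nat_lit 163) (nat_lit 222)) (PT.lf (nat_lit 12160) (nat_lit 6) (nat_lit 160) (nat_lit 3) (nat_lit 216) (nat_lit 163) (nat_lit 221))) (PT.nd (nat_lit 78) (PT.lf (nat_lit 12236) (nat_lit 6) (nat_lit 161) (nat_lit 3) (nat_lit 217) (nat_lit 163) (nat_lit 220)) (PT.lf (nat_lit 12312) (nat_lit 6) (nat_lit 162) (nat_lit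 3) (nat_lit 218) (nat_lit 163) (nat_lit 219)))) (PT.nd (nat_lit 156) (PT.nd (nat_lit 78) (PT.lf (nat_lit 12312) (nat_lit 6) (nat_lit 162) (nat_lit 1) (nat_lit 219) (nat_lit 163) (nat_lit 218)) (PT.lf (nat_lit 12236) (nat_lit 6) (nat_lit 161) (nat_lit 1) (nat_lit 220) (nat_lit 163) (nat_lit 217))) (PT.nd (nat_lit 78) (PT.lf (nat_lit 12160) (nat_lit 6) (nat_lit 160) (nat_lit 1) (nat_lit 221) (nat_lit 163) (nat_lit 216)) (PT.lf (nat_lit 12084) (nat_lit 6) (nat_lit 159) (nat_lit 1) (nat_lit 222) (nat_lit 163) (nat_lit 215))))) (PT.nd (nat_lit 312) (PT.nd (nat_lit 156) (PT.nd (nat_lit 78) (PT.lf (nat_lit 12388) (nat_lit 6) (nat_lit 163) (nat_lit 3) (nat_lit 214) (nat_lit 164) (nat_lit 222)) (PT.lf (nat_lit 12464) (nat_lit 6) (nat_lit 164) (nat_lit 3) (nat_lit 215) (nat_lit 164) (nat_lit 221))) (PT.nd (nat_lit 78) (PT.lf (nat_lit 12540) (nat_lit 6) (nat_lit 165) (nat_lit 3) (nat_lit 216) (nat_lit 164) (nat_lit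 220)) (PT.lf (nat_lit 12616) (nat_lit 6) (nat_lit 166) (nat_lit 3) (nat_lit 217) (nat_lit 164) (nat_lit 219)))) (PT.nd (nat_lit 156) (PT.nd (nat_lit 78) (PT.lf (nat_lit 12692) (nat_lit 3) (nat_lit 167) (nat_lit 1) (nat_lit 218) (nat_lit 164) (nat_lit 218)) (PT.lf (nat_lit 12616) (nat_lit 6) (nat_lit 166) (nat_lit 1) (nat_lit 219) (nat_lit 164) (nat_lit 217))) (PT.nd (nat_lit 78) (PT.lf (nat_lit 12540) (nat_lit 6) (nat_lit 165) (nat_lit 1) (nat_lit 220) (nat_lit 164) (nat_lit 216)) (PT.lf (nat_lit 12464) (nat_lit 6) (nat_lit 164) (nat_lit 1) (nat_lit 221) (nat_lit 164) (nat_lit 215)))))) (PT.nd (nat_lit 62400) (PT.nd (nat_lit 62088) (PT.nd (nat_lit 61932) (PT.nd (nat_lit 61854) (PT.lf (nat_lit 12388) (nat_lit 6) (nat_lit 163) (nat_lit 1) (nat_lit 222) (nat_lit 164) (nat_lit 214)) (PT.lf (nat_lit 12768) (nat_lit 6) (nat_lit 168) (nat_lit 3) (nat_lit 214) (nat_lit 165) (nat_lit 221))) (PT.nd (nat_lit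 78) (PT.lf (nat_lit 12844) (nat_lit 6) (nat_lit 169) (nat_lit 3) (nat_lit 215) (nat_lit 165) (nat_lit 220)) (PT.lf (nat_lit 12920) (nat_lit 6) (nat_lit 170) (nat_lit 3) (nat_lit 216) (nat_lit 165) (nat_lit 219)))) (PT.nd (nat_lit 156) (PT.nd (nat_lit 78) (PT.lf (nat_lit 12996) (nat_lit 6) (nat_lit 171) (nat_lit 3) (nat_lit 217) (nat_lit 165) (nat_lit 218)) (PT.lf (nat_lit 12996) (nat_lit 6) (nat_lit 171) (nat_lit 1) (nat_lit 218) (nat_lit 165) (nat_lit 217))) (PT.nd (nat_lit 78) (PT.lf (nat_lit 12920) (nat_lit 6) (nat_lit 170) (nat_lit 1) (nat_lit 219) (nat_lit 165) (nat_lit 216)) (PT.lf (nat_lit 12844) (nat_lit 6) (nat_lit 169) (nat_lit 1) (nat_lit 220) (nat_lit 165) (nat_lit 215))))) (PT.nd (nat_lit 62088) (PT.nd (nat_lit 61932) (PT.nd (nat_lit 61854) (PT.lf (nat_lit 12768) (nat_lit 6) (nat_lit 168) (nat_lit 1) (nat_lit 221) (nat_lit 165) (nat_lit 214)) (PT.lf (nat_lit 13072) (nat_lit 6) (nat_lit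 172) (nat_lit 3) (nat_lit 213) (nat_lit 166) (nat_lit 221))) (PT.nd (nat_lit 78) (PT.lf (nat_lit 13148) (nat_lit 6) (nat_lit 173) (nat_lit 3) (nat_lit 214) (nat_lit 166) (nat_lit 220)) (PT.lf (nat_lit 13224) (nat_lit 6) (nat_lit 174) (nat_lit 3) (nat_lit 215) (nat_lit 166) (nat_lit 219)))) (PT.nd (nat_lit 156) (PT.nd (nat_lit 78) (PT.lf (nat_lit 13300) (nat_lit 6) (nat_lit 175) (nat_lit 3) (nat_lit 216) (nat_lit 166) (nat_lit 218)) (PT.lf (nat_lit 13376) (nat_lit 3) (nat_lit 176) (nat_lit 1) (nat_lit 217) (nat_lit 166) (nat_lit 217))) (PT.nd (nat_lit 78) (PT.lf (nat_lit 13300) (nat_lit 6) (nat_lit 175) (nat_lit 1) (nat_lit 218) (nat_lit 166) (nat_lit 216)) (PT.lf (nat_lit 13224) (nat_lit 6) (nat_lit 174) (nat_lit 1) (nat_lit 219) (nat_lit 166) (nat_lit 215))))))))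
noncomputable def pc4 : PT := (PT.nd (nat_lit 124644) (PT.nd (nat_lit 62322) (PT.nd (nat_lit 62010) (PT.nd (nat_lit 61854) (PT.nd (nat_lit 78) (PT.lf (nat_lit 13148) (nat_lit 6) (nat_lit 173) (nat_lit 1) (nat_lit 220) (nat_lit 166) (nat_lit 214)) (PT.lf (nat_lit 13072) (nat_lit 6) (nat_lit 172) (nat_lit 1) (nat_lit 221) (nat_lit 166) (nat_lit 213))) (PT.nd (nat_lit 78) (PT.lf (nat_lit 13452) (nat_lit 6) (nat_lit 177) (nat_lit 3) (nat_lit 212) (nat_lit 167) (nat_lit 221)) (PT.lf (nat_lit 13528) (nat_lit 6) (nat_lit 178) (nat_lit 3) (nat_lit 213) (nat_lit 167) (nat_lit 220)))) (PT.nd (nat_lit 156) (PT.nd (nat_lit 78) (PT.lf (nat_lit 13604) (nat_lit 6) (nat_lit 179) (nat_lit 3) (nat_lit 214) (nat_lit 167) (nat_lit 219)) (PT.lf (nat_lit 13680) (nat_lit 6) (nat_lit 180) (nat_lit 3) (nat_lit 215) (nat_lit 167) (nat_lit 218))) (PT.nd (nat_lit 78) (PT.lf (nat_lit 13756) (nat_lit 6) (nat_lit 181) (nat_lit 3)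 (nat_lit 216) (nat_lit 167) (nat_lit 217)) (PT.lf (nat_lit 13756) (nat_lit 6) (nat_lit 181) (nat_lit 1) (nat_lit 217) (nat_lit 167) (nat_lit 216))))) (PT.nd (nat_lit 62010) (PT.nd (nat_lit 156) (PT.nd (nat_lit 78) (PT.lf (nat_lit 13680) (nat_lit 6) (nat_lit 180) (nat_lit 1) (nat_lit 218) (nat_lit 167) (nat_lit 215)) (PT.lf (nat_lit 13604) (nat_lit 6) (nat_lit 179) (nat_lit 1) (nat_lit 219) (nat_lit 167) (nat_lit 214))) (PT.nd (nat_lit 78) (PT.lf (nat_lit 13528) (nat_lit 6) (nat_lit 178) (nat_lit 1) (nat_lit 220) (nat_lit 167) (nat_lit 213)) (PT.lf (nat_lit 13452) (nat_lit 6) (nat_lit 177) (nat_lit 1) (nat_lit 221) (nat_lit 167) (nat_lit 212)))) (PT.nd (nat_lit 156) (PT.nd (nat_lit 78) (PT.lf (nat_lit 13832) (nat_lit 6) (nat_lit 182) (nat_lit 3) (nat_lit 212) (nat_lit 168) (nat_lit 220)) (PT.lf (nat_lit 13908) (nat_lit 6) (nat_lit 183) (nat_lit 3) (nat_lit 213) (nat_lit 168) (nat_lit 219))) (PT.nd (nat_lit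 78) (PT.lf (nat_lit 13984) (nat_lit 6) (nat_lit 184) (nat_lit 3) (nat_lit 214) (nat_lit 168) (nat_lit 218)) (PT.lf (nat_lit 14060) (nat_lit 6) (nat_lit 185) (nat_lit 3) (nat_lit 215) (nat_lit 168) (nat_lit 217)))))) (PT.nd (nat_lit 62322) (PT.nd (nat_lit 312) (PT.nd (nat_lit 156) (PT.nd (nat_lit 78) (PT.lf (nat_lit 14136) (nat_lit 3) (nat_lit 186) (nat_lit 1) (nat_lit 216) (nat_lit 168) (nat_lit 216)) (PT.lf (nat_lit 14060) (nat_lit 6) (nat_lit 185) (nat_lit 1) (nat_lit 217) (nat_lit 168) (nat_lit 215))) (PT.nd (nat_lit 78) (PT.lf (nat_lit 13984) (nat_lit 6) (nat_lit 184) (nat_lit 1) (nat_lit 218) (nat_lit 168) (nat_lit 214)) (PT.lf (nat_lit 13908) (nat_lit 6) (nat_lit 183) (nat_lit 1) (nat_lit 219) (nat_lit 168) (nat_lit 213)))) (PT.nd (nat_lit 61854) (PT.nd (nat_lit 61776) (PT.lf (nat_lit 13832) (nat_lit 6) (nat_lit 182) (nat_lit 1) (nat_lit 220) (nat_lit 168) (nat_lit 212)) (PT.lf (nat_lit 14212)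 (nat_lit 6) (nat_lit 187) (nat_lit 3) (nat_lit 211) (nat_lit 169) (nat_lit 220))) (PT.nd (nat_lit 78) (PT.lf (nat_lit 14288) (nat_lit 6) (nat_lit 188) (nat_lit 3) (nat_lit 212) (nat_lit 169) (nat_lit 219)) (PT.lf (nat_lit 14364) (nat_lit 6) (nat_lit 189) (nat_lit 3) (nat_lit 213) (nat_lit 169) (nat_lit 218))))) (PT.nd (nat_lit 312) (PT.nd (nat_lit 156) (PT.nd (nat_lit 78) (PT.lf (nat_lit 14440) (nat_lit 6) (nat_lit 190) (nat_lit 3) (nat_lit 214) (nat_lit 169) (nat_lit 217)) (PT.lf (nat_lit 14516) (nat_lit 6) (nat_lit 191) (nat_lit 3) (nat_lit 215) (nat_lit 169) (nat_lit 216))) (PT.nd (nat_lit 78) (PT.lf (nat_lit 14516) (nat_lit 6) (nat_lit 191) (nat_lit 1) (nat_lit 216) (nat_lit 169) (nat_lit 215)) (PT.lf (nat_lit 14440) (nat_lit 6) (nat_lit 190) (nat_lit 1) (nat_lit 217) (nat_lit 169) (nat_lit 214)))) (PT.nd (nat_lit 156) (PT.nd (nat_lit 78) (PT.lf (nat_lit 14364) (nat_lit 6) (nat_lit 189) (nat_lit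 1) (nat_lit 218) (nat_lit 169) (nat_lit 213)) (PT.lf (nat_lit 14288) (nat_lit 6) (nat_lit 188) (nat_lit 1) (nat_lit 219) (nat_lit 169) (nat_lit 212))) (PT.nd (nat_lit 61698) (PT.lf (nat_lit 14212) (nat_lit 6) (nat_lit 187) (nat_lit 1) (nat_lit 220) (nat_lit 169) (nat_lit 211)) (PT.lf (nat_lit 14592) (nat_lit 6) (nat_lit 192) (nat_lit 3) (nat_lit 210) (nat_lit 170) (nat_lit 220)))))))
noncomputable def pc5 : PT := (PT.nd (nat_lit 62868) (PT.nd (nat_lit 624) (PT.nd (nat_lit 312) (PT.nd (nat_lit 156) (PT.nd (nat_lit 78) (PT.lf (nat_lit 14668) (nat_lit 6) (nat_lit 193) (nat_lit 3) (nat_lit 211) (nat_lit 170) (nat_lit 219)) (PT.lf (nat_lit 14744) (nat_lit 6) (nat_lit 194) (nat_lit 3) (nat_lit 212) (nat_lit 170) (nat_lit 218))) (PT.nd (nat_lit 78) (PT.lf (nat_lit 14820) (nat_lit 6) (nat_lit 195) (nat_lit 3) (nat_lit 213) (nat_lit 170) (nat_lit 217)) (PT.lf (nat_lit 14896) (nat_lit 6) (nat_lit 196) (nat_lit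 3) (nat_lit 214) (nat_lit 170) (nat_lit 216)))) (PT.nd (nat_lit 156) (PT.nd (nat_lit 78) (PT.lf (nat_lit 14972) (nat_lit 3) (nat_lit 197) (nat_lit 1) (nat_lit 215) (nat_lit 170) (nat_lit 215)) (PT.lf (nat_lit 14896) (nat_lit 6) (nat_lit 196) (nat_lit 1) (nat_lit 216) (nat_lit 170) (nat_lit 214))) (PT.nd (nat_lit 78) (PT.lf (nat_lit 14820) (nat_lit 6) (nat_lit 195) (nat_lit 1) (nat_lit 217) (nat_lit 170) (nat_lit 213)) (PT.lf (nat_lit 14744) (nat_lit 6) (nat_lit 194) (nat_lit 1) (nat_lit 218) (nat_lit 170) (nat_lit 212))))) (PT.nd (nat_lit 61932) (PT.nd (nat_lit 61776) (PT.nd (nat_lit 78) (PT.lf (nat_lit 14668) (nat_lit 6) (nat_lit 193) (nat_lit 1) (nat_lit 219) (nat_lit 170) (nat_lit 211)) (PT.lf (nat_lit 14592) (nat_lit 6) (nat_lit 192) (nat_lit 1) (nat_lit 220) (nat_lit 170) (nat_lit 210))) (PT.nd (nat_lit 78) (PT.lf (nat_lit 15124) (nat_lit 6) (nat_lit 199) (nat_lit 3) (nat_lit 210) (nat_lit 171)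 (nat_lit 219)) (PT.lf (nat_lit 15200) (nat_lit 6) (nat_lit 200) (nat_lit 3) (nat_lit 211) (nat_lit 171) (nat_lit 218)))) (PT.nd (nat_lit 156) (PT.nd (nat_lit 78) (PT.lf (nat_lit 15276) (nat_lit 6) (nat_lit 201) (nat_lit 3) (nat_lit 212) (nat_lit 171) (nat_lit 217)) (PT.lf (nat_lit 15352) (nat_lit 6) (nat_lit 202) (nat_lit 3) (nat_lit 213) (nat_lit 171) (nat_lit 216))) (PT.nd (nat_lit 78) (PT.lf (nat_lit 15428) (nat_lit 6) (nat_lit 203) (nat_lit 3) (nat_lit 214) (nat_lit 171) (nat_lit 215)) (PT.lf (nat_lit 15428) (nat_lit 6) (nat_lit 203) (nat_lit 1) (nat_lit 215) (nat_lit 171) (nat_lit 214)))))) (PT.nd (nat_lit 62244) (PT.nd (nat_lit 61932) (PT.nd (nat_lit 156) (PT.nd (nat_lit 78) (PT.lf (nat_lit 15352) (nat_lit 6) (nat_lit 202) (nat_lit 1) (nat_lit 216) (nat_lit 171) (nat_lit 213)) (PT.lf (nat_lit 15276) (nat_lit 6) (nat_lit 201) (nat_lit 1) (nat_lit 217) (nat_lit 171) (nat_lit 212))) (PT.nd (nat_lit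 78) (PT.lf (nat_lit 15200) (nat_lit 6) (nat_lit 200) (nat_lit 1) (nat_lit 218) (nat_lit 171) (nat_lit 211)) (PT.lf (nat_lit 15124) (nat_lit 6) (nat_lit 199) (nat_lit 1) (nat_lit 219) (nat_lit 171) (nat_lit 210)))) (PT.nd (nat_lit 156) (PT.nd (nat_lit 78) (PT.lf (nat_lit 15504) (nat_lit 6) (nat_lit 204) (nat_lit 3) (nat_lit 209) (nat_lit 172) (nat_lit 219)) (PT.lf (nat_lit 15580) (nat_lit 6) (nat_lit 205) (nat_lit 3) (nat_lit 210) (nat_lit 172) (nat_lit 218))) (PT.nd (nat_lit 78) (PT.lf (nat_lit 15656) (nat_lit 6) (nat_lit 206) (nat_lit 3) (nat_lit 211) (nat_lit 172) (nat_lit 217)) (PT.lf (nat_lit 15732) (nat_lit 6) (nat_lit 207) (nat_lit 3) (nat_lit 212) (nat_lit 172) (nat_lit 216))))) (PT.nd (nat_lit 312) (PT.nd (nat_lit 156) (PT.nd (nat_lit 78) (PT.lf (nat_lit 15808) (nat_lit 6) (nat_lit 208) (nat_lit 3) (nat_lit 213) (nat_lit 172) (nat_lit 215)) (PT.lf (nat_lit 15884) (nat_lit 3) (nat_lit 209) (nat_lit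 1) (nat_lit 214) (nat_lit 172) (nat_lit 214))) (PT.nd (nat_lit 78) (PT.lf (nat_lit 15808) (nat_lit 6) (nat_lit 208) (nat_lit 1) (nat_lit 215) (nat_lit 172) (nat_lit 213)) (PT.lf (nat_lit 15732) (nat_lit 6) (nat_lit 207) (nat_lit 1) (nat_lit 216) (nat_lit 172) (nat_lit 212)))) (PT.nd (nat_lit 156) (PT.nd (nat_lit 78) (PT.lf (nat_lit 15656) (nat_lit 6) (nat_lit 206) (nat_lit 1) (nat_lit 217) (nat_lit 172) (nat_lit 211)) (PT.lf (nat_lit 15580) (nat_lit 6) (nat_lit 205) (nat_lit 1) (nat_lit 218) (nat_lit 172) (nat_lit 210))) (PT.nd (nat_lit 61620) (PT.lf (nat_lit 15504) (nat_lit 6) (nat_lit 204) (nat_lit 1) (nat_lit 219) (nat_lit 172) (nat_lit 209)) (PT.nd (nat_lit 78) (PT.lf (nat_lit 15960) (nat_lit 6) (nat_lit 210) (nat_lit 3) (nat_lit 208) (nat_lit 173) (nat_lit 219)) (PT.lf (nat_lit 16036) (nat_lit 6) (nat_lit 211) (nat_lit 3) (nat_lit 209) (nat_lit 173) (nat_lit 218))))))))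
noncomputable def pc6 : PT := (PT.nd (nat_lit 125424) (PT.nd (nat_lit 62712) (PT.nd (nat_lit 624) (PT.nd (nat_lit 312) (PT.nd (nat_lit 156) (PT.nd (nat_lit 78) (PT.lf (nat_lit 16112) (nat_lit 6) (nat_lit 212) (nat_lit 3) (nat_lit 210) (nat_lit 173) (nat_lit 217)) (PT.lf (nat_lit 16188) (nat_lit 6) (nat_lit 213) (nat_lit 3) (nat_lit 211) (nat_lit 173) (nat_lit 216))) (PT.nd (nat_lit 78) (PT.lf (nat_lit 16264) (nat_lit 6) (nat_lit 214) (nat_lit 3) (nat_lit 212) (nat_lit 173) (nat_lit 215)) (PT.lf (nat_lit 16340) (nat_lit 6) (nat_lit 215) (nat_lit 3) (nat_lit 213) (nat_lit 173) (nat_lit 214)))) (PT.nd (nat_lit 156) (PT.nd (nat_lit 78) (PT.lf (nat_lit 16340) (nat_lit 6) (nat_lit 215) (nat_lit 1) (nat_lit 214) (nat_lit 173) (nat_lit 213)) (PT.lf (nat_lit 16264) (nat_lit 6) (nat_lit 214) (nat_lit 1) (nat_lit 215) (nat_lit 173) (nat_lit 212))) (PT.nd (nat_lit 78) (PT.lf (nat_lit 16188) (nat_lit 6) (nat_lit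 213) (nat_lit 1) (nat_lit 216) (nat_lit 173) (nat_lit 211)) (PT.lf (nat_lit 16112) (nat_lit 6) (nat_lit 212) (nat_lit 1) (nat_lit 217) (nat_lit 173) (nat_lit 210))))) (PT.nd (nat_lit 61776) (PT.nd (nat_lit 61620) (PT.nd (nat_lit 78) (PT.lf (nat_lit 16036) (nat_lit 6) (nat_lit 211) (nat_lit 1) (nat_lit 218) (nat_lit 173) (nat_lit 209)) (PT.lf (nat_lit 15960) (nat_lit 6) (nat_lit 210) (nat_lit 1) (nat_lit 219) (nat_lit 173) (nat_lit 208))) (PT.nd (nat_lit 78) (PT.lf (nat_lit 16416) (nat_lit 6) (nat_lit 216) (nat_lit 3) (nat_lit 207) (nat_lit 174) (nat_lit 219)) (PT.lf (nat_lit 16492) (nat_lit 6) (nat_lit 217) (nat_lit 3) (nat_lit 208) (nat_lit 174) (nat_lit 218)))) (PT.nd (nat_lit 156) (PT.nd (nat_lit 78) (PT.lf (nat_lit 16568) (nat_lit 6) (nat_lit 218) (nat_lit 3) (nat_lit 209) (nat_lit 174) (nat_lit 217)) (PT.lf (nat_lit 16644) (nat_lit 6) (nat_lit 219) (nat_lit 3) (nat_lit 210) (nat_lit 174) (nat_lit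 216))) (PT.nd (nat_lit 78) (PT.lf (nat_lit 16720) (nat_lit 6) (nat_lit 220) (nat_lit 3) (nat_lit 211) (nat_lit 174) (nat_lit 215)) (PT.lf (nat_lit 16796) (nat_lit 6) (nat_lit 221) (nat_lit 3) (nat_lit 212) (nat_lit 174) (nat_lit 214)))))) (PT.nd (nat_lit 62088) (PT.nd (nat_lit 312) (PT.nd (nat_lit 156) (PT.nd (nat_lit 78) (PT.lf (nat_lit 16872) (nat_lit 3) (nat_lit 222) (nat_lit 1) (nat_lit 213) (nat_lit 174) (nat_lit 213)) (PT.lf (nat_lit 16796) (nat_lit 6) (nat_lit 221) (nat_lit 1) (nat_lit 214) (nat_lit 174) (nat_lit 212))) (PT.nd (nat_lit 78) (PT.lf (nat_lit 16720) (nat_lit 6) (nat_lit 220) (nat_lit 1) (nat_lit 215) (nat_lit 174) (nat_lit 211)) (PT.lf (nat_lit 16644) (nat_lit 6) (nat_lit 219) (nat_lit 1) (nat_lit 216) (nat_lit 174) (nat_lit 210)))) (PT.nd (nat_lit 156) (PT.nd (nat_lit 78) (PT.lf (nat_lit 16568) (nat_lit 6) (nat_lit 218) (nat_lit 1) (nat_lit 217) (nat_lit 174) (nat_lit 209)) (PT.lf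 (nat_lit 16492) (nat_lit 6) (nat_lit 217) (nat_lit 1) (nat_lit 218) (nat_lit 174) (nat_lit 208))) (PT.nd (nat_lit 61542) (PT.lf (nat_lit 16416) (nat_lit 6) (nat_lit 216) (nat_lit 1) (nat_lit 219) (nat_lit 174) (nat_lit 207)) (PT.lf (nat_lit 16948) (nat_lit 6) (nat_lit 223) (nat_lit 3) (nat_lit 207) (nat_lit 175) (nat_lit 218))))) (PT.nd (nat_lit 312) (PT.nd (nat_lit 156) (PT.nd (nat_lit 78) (PT.lf (nat_lit 17024) (nat_lit 6) (nat_lit 224) (nat_lit 3) (nat_lit 208) (nat_lit 175) (nat_lit 217)) (PT.lf (nat_lit 17100) (nat_lit 6) (nat_lit 225) (nat_lit 3) (nat_lit 209) (nat_lit 175) (nat_lit 216))) (PT.nd (nat_lit 78) (PT.lf (nat_lit 17176) (nat_lit 6) (nat_lit 226) (nat_lit 3) (nat_lit 210) (nat_lit 175) (nat_lit 215)) (PT.lf (nat_lit 17252) (nat_lit 6) (nat_lit 227) (nat_lit 3) (nat_lit 211) (nat_lit 175) (nat_lit 214)))) (PT.nd (nat_lit 156) (PT.nd (nat_lit 78) (PT.lf (nat_lit 17328) (nat_lit 6) (nat_lit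 228) (nat_lit 3) (nat_lit 212) (nat_lit 175) (nat_lit 213)) (PT.lf (nat_lit 17328) (nat_lit 6) (nat_lit 228) (nat_lit 1) (nat_lit 213) (nat_lit 175) (nat_lit 212))) (PT.nd (nat_lit 78) (PT.lf (nat_lit 17252) (nat_lit 6) (nat_lit 227) (nat_lit 1) (nat_lit 214) (nat_lit 175) (nat_lit 211)) (PT.lf (nat_lit 17176) (nat_lit 6) (nat_lit 226) (nat_lit 1) (nat_lit 215) (nat_lit 175) (nat_lit 210))))))) (PT.nd (nat_lit 124098) (PT.nd (nat_lit 62088) (PT.nd (nat_lit 61776) (PT.nd (nat_lit 156) (PT.nd (nat_lit 78) (PT.lf (nat_lit 17100) (nat_lit 6) (nat_lit 225) (nat_lit 1) (nat_lit 216) (nat_lit 175) (nat_lit 209)) (PT.lf (nat_lit 17024) (nat_lit 6) (nat_lit 224) (nat_lit 1) (nat_lit 217) (nat_lit 175) (nat_lit 208))) (PT.nd (nat_lit 61542) (PT.lf (nat_lit 16948) (nat_lit 6) (nat_lit 223) (nat_lit 1) (nat_lit 218) (nat_lit 175) (nat_lit 207)) (PT.lf (nat_lit 17404) (nat_lit 6) (nat_lit 229) (nat_lit 3) (nat_lit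 206) (nat_lit 176) (nat_lit 218)))) (PT.nd (nat_lit 156) (PT.nd (nat_lit 78) (PT.lf (nat_lit 17480) (nat_lit 6) (nat_lit 230) (nat_lit 3) (nat_lit 207) (nat_lit 176) (nat_lit 217)) (PT.lf (nat_lit 17556) (nat_lit 6) (nat_lit 231) (nat_lit 3) (nat_lit 208) (nat_lit 176) (nat_lit 216))) (PT.nd (nat_lit 78) (PT.lf (nat_lit 17632) (nat_lit 6) (nat_lit 232) (nat_lit 3) (nat_lit 209) (nat_lit 176) (nat_lit 215)) (PT.lf (nat_lit 17708) (nat_lit 6) (nat_lit 233) (nat_lit 3) (nat_lit 210) (nat_lit 176) (nat_lit 214))))) (PT.nd (nat_lit 312) (PT.nd (nat_lit 156) (PT.nd (nat_lit 78) (PT.lf (nat_lit 17784) (nat_lit 6) (nat_lit 234) (nat_lit 3) (nat_lit 211) (nat_lit 176) (nat_lit 213)) (PT.lf (nat_lit 17860) (nat_lit 3) (nat_lit 235) (nat_lit 1) (nat_lit 212) (nat_lit 176) (nat_lit 212))) (PT.nd (nat_lit 78) (PT.lf (nat_lit 17784) (nat_lit 6) (nat_lit 234) (nat_lit 1) (nat_lit 213) (nat_lit 176) (nat_lit 211))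 (PT.lf (nat_lit 17708) (nat_lit 6) (nat_lit 233) (nat_lit 1) (nat_lit 214) (nat_lit 176) (nat_lit 210)))) (PT.nd (nat_lit 156) (PT.nd (nat_lit 78) (PT.lf (nat_lit 17632) (nat_lit 6) (nat_lit 232) (nat_lit 1) (nat_lit 215) (nat_lit 176) (nat_lit 209)) (PT.lf (nat_lit 17556) (nat_lit 6) (nat_lit 231) (nat_lit 1) (nat_lit 216) (nat_lit 176) (nat_lit 208))) (PT.nd (nat_lit 78) (PT.lf (nat_lit 17480) (nat_lit 6) (nat_lit 230) (nat_lit 1) (nat_lit 217) (nat_lit 176) (nat_lit 207)) (PT.lf (nat_lit 17404) (nat_lit 6) (nat_lit 229) (nat_lit 1) (nat_lit 218) (nat_lit 176) (nat_lit 206)))))) (PT.nd (nat_lit 624) (PT.nd (nat_lit 312) (PT.nd (nat_lit 156) (PT.nd (nat_lit 78) (PT.lf (nat_lit 17936) (nat_lit 6) (nat_lit 236) (nat_lit 3) (nat_lit 205) (nat_lit 177) (nat_lit 218)) (PT.lf (nat_lit 18012) (nat_lit 6) (nat_lit 237) (nat_lit 3) (nat_lit 206) (nat_lit 177) (nat_lit 217))) (PT.nd (nat_lit 78) (PT.lf (nat_lit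 18088) (nat_lit 6) (nat_lit 238) (nat_lit 3) (nat_lit 207) (nat_lit 177) (nat_lit 216)) (PT.lf (nat_lit 18164) (nat_lit 6) (nat_lit 239) (nat_lit 3) (nat_lit 208) (nat_lit 177) (nat_lit 215)))) (PT.nd (nat_lit 156) (PT.nd (nat_lit 78) (PT.lf (nat_lit 18240) (nat_lit 6) (nat_lit 240) (nat_lit 3) (nat_lit 209) (nat_lit 177) (nat_lit 214)) (PT.lf (nat_lit 18316) (nat_lit 6) (nat_lit 241) (nat_lit 3) (nat_lit 210) (nat_lit 177) (nat_lit 213))) (PT.nd (nat_lit 78) (PT.lf (nat_lit 18392) (nat_lit 6) (nat_lit 242) (nat_lit 3) (nat_lit 211) (nat_lit 177) (nat_lit 212)) (PT.lf (nat_lit 18392) (nat_lit 6) (nat_lit 242) (nat_lit 1) (nat_lit 212) (nat_lit 177) (nat_lit 211))))) (PT.nd (nat_lit 312) (PT.nd (nat_lit 156) (PT.nd (nat_lit 78) (PT.lf (nat_lit 18316) (nat_lit 6) (nat_lit 241) (nat_lit 1) (nat_lit 213) (nat_lit 177) (nat_lit 210)) (PT.lf (nat_lit 18240) (nat_lit 6) (nat_lit 240) (nat_lit 1) (nat_lit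 214) (nat_lit 177) (nat_lit 209))) (PT.nd (nat_lit 78) (PT.lf (nat_lit 18164) (nat_lit 6) (nat_lit 239) (nat_lit 1) (nat_lit 215) (nat_lit 177) (nat_lit 208)) (PT.lf (nat_lit 18088) (nat_lit 6) (nat_lit 238) (nat_lit 1) (nat_lit 216) (nat_lit 177) (nat_lit 207)))) (PT.nd (nat_lit 61464) (PT.nd (nat_lit 78) (PT.lf (nat_lit 18012) (nat_lit 6) (nat_lit 237) (nat_lit 1) (nat_lit 217) (nat_lit 177) (nat_lit 206)) (PT.lf (nat_lit 17936) (nat_lit 6) (nat_lit 236) (nat_lit 1) (nat_lit 218) (nat_lit 177) (nat_lit 205))) (PT.nd (nat_lit 78) (PT.lf (nat_lit 18468) (nat_lit 6) (nat_lit 243) (nat_lit 3) (nat_lit 204) (nat_lit 178) (nat_lit 218)) (PT.lf (nat_lit 18544) (nat_lit 6) (nat_lit 244) (nat_lit 3) (nat_lit 205) (nat_lit 178) (nat_lit 217))))))))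
noncomputable def pc7 : PT := (PT.nd (nat_lit 62556) (PT.nd (nat_lit 624) (PT.nd (nat_lit 312) (PT.nd (nat_lit 156) (PT.nd (nat_lit 78) (PT.lf (nat_lit 18620) (nat_lit 6) (nat_lit 245) (nat_lit 3) (nat_lit 206) (nat_lit 178) (nat_lit 216)) (PT.lf (nat_lit 18696) (nat_lit 6) (nat_lit 246) (nat_lit 3) (nat_lit 207) (nat_lit 178) (nat_lit 215))) (PT.nd (nat_lit 78) (PT.lf (nat_lit 18772) (nat_lit 6) (nat_lit 247) (nat_lit 3) (nat_lit 208) (nat_lit 178) (nat_lit 214)) (PT.lf (nat_lit 18848) (nat_lit 6) (nat_lit 248) (nat_lit 3) (nat_lit 209) (nat_lit 178) (nat_lit 213)))) (PT.nd (nat_lit 156) (PT.nd (nat_lit 78) (PT.lf (nat_lit 18924) (nat_lit 6) (nat_lit 249) (nat_lit 3) (nat_lit 210) (nat_lit 178) (nat_lit 212)) (PT.lf (nat_lit 19000) (nat_lit 3) (nat_lit 250) (nat_lit 1) (nat_lit 211) (nat_lit 178) (nat_lit 211))) (PT.nd (nat_lit 78) (PT.lf (nat_lit 18924) (nat_lit 6) (nat_lit 249) (nat_lit 1) (nat_lit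 212) (nat_lit 178) (nat_lit 210)) (PT.lf (nat_lit 18848) (nat_lit 6) (nat_lit 248) (nat_lit 1) (nat_lit 213) (nat_lit 178) (nat_lit 209))))) (PT.nd (nat_lit 312) (PT.nd (nat_lit 156) (PT.nd (nat_lit 78) (PT.lf (nat_lit 18772) (nat_lit 6) (nat_lit 247) (nat_lit 1) (nat_lit 214) (nat_lit 178) (nat_lit 208)) (PT.lf (nat_lit 18696) (nat_lit 6) (nat_lit 246) (nat_lit 1) (nat_lit 215) (nat_lit 178) (nat_lit 207))) (PT.nd (nat_lit 78) (PT.lf (nat_lit 18620) (nat_lit 6) (nat_lit 245) (nat_lit 1) (nat_lit 216) (nat_lit 178) (nat_lit 206)) (PT.lf (nat_lit 18544) (nat_lit 6) (nat_lit 244) (nat_lit 1) (nat_lit 217) (nat_lit 178) (nat_lit 205)))) (PT.nd (nat_lit 61464) (PT.nd (nat_lit 61386) (PT.lf (nat_lit 18468) (nat_lit 6) (nat_lit 243) (nat_lit 1) (nat_lit 218) (nat_lit 178) (nat_lit 204)) (PT.lf (nat_lit 19076) (nat_lit 6) (nat_lit 251) (nat_lit 3) (nat_lit 204) (nat_lit 179) (nat_lit 217))) (PT.nd (nat_lit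 78) (PT.lf (nat_lit 19152) (nat_lit 6) (nat_lit 252) (nat_lit 3) (nat_lit 205) (nat_lit 179) (nat_lit 216)) (PT.lf (nat_lit 19228) (nat_lit 6) (nat_lit 253) (nat_lit 3) (nat_lit 206) (nat_lit 179) (nat_lit 215)))))) (PT.nd (nat_lit 624) (PT.nd (nat_lit 312) (PT.nd (nat_lit 156) (PT.nd (nat_lit 78) (PT.lf (nat_lit 19304) (nat_lit 6) (nat_lit 254) (nat_lit 3) (nat_lit 207) (nat_lit 179) (nat_lit 214)) (PT.lf (nat_lit 19380) (nat_lit 6) (nat_lit 255) (nat_lit 3) (nat_lit 208) (nat_lit 179) (nat_lit 213))) (PT.nd (nat_lit 78) (PT.lf (nat_lit 19456) (nat_lit 6) (nat_lit 256) (nat_lit 3) (nat_lit 209) (nat_lit 179) (nat_lit 212)) (PT.lf (nat_lit 19532) (nat_lit 6) (nat_lit 257) (nat_lit 3) (nat_lit 210) (nat_lit 179) (nat_lit 211)))) (PT.nd (nat_lit 156) (PT.nd (nat_lit 78) (PT.lf (nat_lit 19532) (nat_lit 6) (nat_lit 257) (nat_lit 1) (nat_lit 211) (nat_lit 179) (nat_lit 210)) (PT.lf (nat_lit 19456) (nat_lit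 6) (nat_lit 256) (nat_lit 1) (nat_lit 212) (nat_lit 179) (nat_lit 209))) (PT.nd (nat_lit 78) (PT.lf (nat_lit 19380) (nat_lit 6) (nat_lit 255) (nat_lit 1) (nat_lit 213) (nat_lit 179) (nat_lit 208)) (PT.lf (nat_lit 19304) (nat_lit 6) (nat_lit 254) (nat_lit 1) (nat_lit 214) (nat_lit 179) (nat_lit 207))))) (PT.nd (nat_lit 61620) (PT.nd (nat_lit 156) (PT.nd (nat_lit 78) (PT.lf (nat_lit 19228) (nat_lit 6) (nat_lit 253) (nat_lit 1) (nat_lit 215) (nat_lit 179) (nat_lit 206)) (PT.lf (nat_lit 19152) (nat_lit 6) (nat_lit 252) (nat_lit 1) (nat_lit 216) (nat_lit 179) (nat_lit 205))) (PT.nd (nat_lit 61386) (PT.lf (nat_lit 19076) (nat_lit 6) (nat_lit 251) (nat_lit 1) (nat_lit 217) (nat_lit 179) (nat_lit 204)) (PT.lf (nat_lit 19608) (nat_lit 6) (nat_lit 258) (nat_lit 3) (nat_lit 203) (nat_lit 180) (nat_lit 217)))) (PT.nd (nat_lit 156) (PT.nd (nat_lit 78) (PT.lf (nat_lit 19684) (nat_lit 6) (nat_lit 259) (nat_lit 3)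 (nat_lit 204) (nat_lit 180) (nat_lit 216)) (PT.lf (nat_lit 19760) (nat_lit 6) (nat_lit 260) (nat_lit 3) (nat_lit 205) (nat_lit 180) (nat_lit 215))) (PT.nd (nat_lit 78) (PT.lf (nat_lit 19836) (nat_lit 6) (nat_lit 261) (nat_lit 3) (nat_lit 206) (nat_lit 180) (nat_lit 214)) (PT.lf (nat_lit 19912) (nat_lit 6) (nat_lit 262) (nat_lit 3) (nat_lit 207) (nat_lit 180) (nat_lit 213)))))))
noncomputable def pc8 : PT := (PT.nd (nat_lit 62478) (PT.nd (nat_lit 624) (PT.nd (nat_lit 312) (PT.nd (nat_lit 156) (PT.nd (nat_lit 78) (PT.lf (nat_lit 19988) (nat_lit 6) (nat_lit 263) (nat_lit 3) (nat_lit 208) (nat_lit 180) (nat_lit 212)) (PT.lf (nat_lit 20064) (nat_lit 6) (nat_lit 264) (nat_lit 3) (nat_lit 209) (nat_lit 180) (nat_lit 211))) (PT.nd (nat_lit 78) (PT.lf (nat_lit 20140) (nat_lit 3) (nat_lit 265) (nat_lit 1) (nat_lit 210) (nat_lit 180) (nat_lit 210)) (PT.lf (nat_lit 20064) (nat_lit 6) (nat_lit 264) (nat_lit 1)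 (nat_lit 211) (nat_lit 180) (nat_lit 209)))) (PT.nd (nat_lit 156) (PT.nd (nat_lit 78) (PT.lf (nat_lit 19988) (nat_lit 6) (nat_lit 263) (nat_lit 1) (nat_lit 212) (nat_lit 180) (nat_lit 208)) (PT.lf (nat_lit 19912) (nat_lit 6) (nat_lit 262) (nat_lit 1) (nat_lit 213) (nat_lit 180) (nat_lit 207))) (PT.nd (nat_lit 78) (PT.lf (nat_lit 19836) (nat_lit 6) (nat_lit 261) (nat_lit 1) (nat_lit 214) (nat_lit 180) (nat_lit 206)) (PT.lf (nat_lit 19760) (nat_lit 6) (nat_lit 260) (nat_lit 1) (nat_lit 215) (nat_lit 180) (nat_lit 205))))) (PT.nd (nat_lit 61542) (PT.nd (nat_lit 61386) (PT.nd (nat_lit 78) (PT.lf (nat_lit 19684) (nat_lit 6) (nat_lit 259) (nat_lit 1) (nat_lit 216) (nat_lit 180) (nat_lit 204)) (PT.lf (nat_lit 19608) (nat_lit 6) (nat_lit 258) (nat_lit 1) (nat_lit 217) (nat_lit 180) (nat_lit 203))) (PT.nd (nat_lit 78) (PT.lf (nat_lit 20216) (nat_lit 6) (nat_lit 266) (nat_lit 3) (nat_lit 202) (nat_lit 181) (nat_lit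 217)) (PT.lf (nat_lit 20292) (nat_lit 6) (nat_lit 267) (nat_lit 3) (nat_lit 203) (nat_lit 181) (nat_lit 216)))) (PT.nd (nat_lit 156) (PT.nd (nat_lit 78) (PT.lf (nat_lit 20368) (nat_lit 6) (nat_lit 268) (nat_lit 3) (nat_lit 204) (nat_lit 181) (nat_lit 215)) (PT.lf (nat_lit 20444) (nat_lit 6) (nat_lit 269) (nat_lit 3) (nat_lit 205) (nat_lit 181) (nat_lit 214))) (PT.nd (nat_lit 78) (PT.lf (nat_lit 20520) (nat_lit 6) (nat_lit 270) (nat_lit 3) (nat_lit 206) (nat_lit 181) (nat_lit 213)) (PT.lf (nat_lit 20596) (nat_lit 6) (nat_lit 271) (nat_lit 3) (nat_lit 207) (nat_lit 181) (nat_lit 212)))))) (PT.nd (nat_lit 624) (PT.nd (nat_lit 312) (PT.nd (nat_lit 156) (PT.nd (nat_lit 78) (PT.lf (nat_lit 20672) (nat_lit 6) (nat_lit 272) (nat_lit 3) (nat_lit 208) (nat_lit 181) (nat_lit 211)) (PT.lf (nat_lit 20748) (nat_lit 6) (nat_lit 273) (nat_lit 3) (nat_lit 209) (nat_lit 181) (nat_lit 210))) (PT.nd (nat_lit 78) (PT.lf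 (nat_lit 20748) (nat_lit 6) (nat_lit 273) (nat_lit 1) (nat_lit 210) (nat_lit 181) (nat_lit 209)) (PT.lf (nat_lit 20672) (nat_lit 6) (nat_lit 272) (nat_lit 1) (nat_lit 211) (nat_lit 181) (nat_lit 208)))) (PT.nd (nat_lit 156) (PT.nd (nat_lit 78) (PT.lf (nat_lit 20596) (nat_lit 6) (nat_lit 271) (nat_lit 1) (nat_lit 212) (nat_lit 181) (nat_lit 207)) (PT.lf (nat_lit 20520) (nat_lit 6) (nat_lit 270) (nat_lit 1) (nat_lit 213) (nat_lit 181) (nat_lit 206))) (PT.nd (nat_lit 78) (PT.lf (nat_lit 20444) (nat_lit 6) (nat_lit 269) (nat_lit 1) (nat_lit 214) (nat_lit 181) (nat_lit 205)) (PT.lf (nat_lit 20368) (nat_lit 6) (nat_lit 268) (nat_lit 1) (nat_lit 215) (nat_lit 181) (nat_lit 204))))) (PT.nd (nat_lit 61464) (PT.nd (nat_lit 61308) (PT.nd (nat_lit 78) (PT.lf (nat_lit 20292) (nat_lit 6) (nat_lit 267) (nat_lit 1) (nat_lit 216) (nat_lit 181) (nat_lit 203)) (PT.lf (nat_lit 20216) (nat_lit 6) (nat_lit 266) (nat_lit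 1) (nat_lit 217) (nat_lit 181) (nat_lit 202))) (PT.nd (nat_lit 78) (PT.lf (nat_lit 20824) (nat_lit 6) (nat_lit 274) (nat_lit 3) (nat_lit 201) (nat_lit 182) (nat_lit 217)) (PT.lf (nat_lit 20900) (nat_lit 6) (nat_lit 275) (nat_lit 3) (nat_lit 202) (nat_lit 182) (nat_lit 216)))) (PT.nd (nat_lit 156) (PT.nd (nat_lit 78) (PT.lf (nat_lit 20976) (nat_lit 6) (nat_lit 276) (nat_lit 3) (nat_lit 203) (nat_lit 182) (nat_lit 215)) (PT.lf (nat_lit 21052) (nat_lit 6) (nat_lit 277) (nat_lit 3) (nat_lit 204) (nat_lit 182) (nat_lit 214))) (PT.nd (nat_lit 78) (PT.lf (nat_lit 21128) (nat_lit 6) (nat_lit 278) (nat_lit 3) (nat_lit 205) (nat_lit 182) (nat_lit 213)) (PT.nd (nat_lit 78) (PT.lf (nat_lit 21204) (nat_lit 6) (nat_lit 279) (nat_lit 3) (nat_lit 206) (nat_lit 182) (nat_lit 212)) (PT.lf (nat_lit 21280) (nat_lit 6) (nat_lit 280) (nat_lit 3) (nat_lit 207) (nat_lit 182) (nat_lit 211))))))))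
noncomputable def pc9 : PT := (PT.nd (nat_lit 62322) (PT.nd (nat_lit 624) (PT.nd (nat_lit 312) (PT.nd (nat_lit 156) (PT.nd (nat_lit 78) (PT.lf (nat_lit 21356) (nat_lit 6) (nat_lit 281) (nat_lit 3) (nat_lit 208) (nat_lit 182) (nat_lit 210)) (PT.lf (nat_lit 21432) (nat_lit 3) (nat_lit 282) (nat_lit 1) (nat_lit 209) (nat_lit 182) (nat_lit 209))) (PT.nd (nat_lit 78) (PT.lf (nat_lit 21356) (nat_lit 6) (nat_lit 281) (nat_lit 1) (nat_lit 210) (nat_lit 182) (nat_lit 208)) (PT.lf (nat_lit 21280) (nat_lit 6) (nat_lit 280) (nat_lit 1) (nat_lit 211) (nat_lit 182) (nat_lit 207)))) (PT.nd (nat_lit 156) (PT.nd (nat_lit 78) (PT.lf (nat_lit 21204) (nat_lit 6) (nat_lit 279) (nat_lit 1) (nat_lit 212) (nat_lit 182) (nat_lit 206)) (PT.lf (nat_lit 21128) (nat_lit 6) (nat_lit 278) (nat_lit 1) (nat_lit 213) (nat_lit 182) (nat_lit 205))) (PT.nd (nat_lit 78) (PT.lf (nat_lit 21052) (nat_lit 6) (nat_lit 277) (nat_lit 1) (nat_lit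 214) (nat_lit 182) (nat_lit 204)) (PT.lf (nat_lit 20976) (nat_lit 6) (nat_lit 276) (nat_lit 1) (nat_lit 215) (nat_lit 182) (nat_lit 203))))) (PT.nd (nat_lit 61386) (PT.nd (nat_lit 61230) (PT.nd (nat_lit 78) (PT.lf (nat_lit 20900) (nat_lit 6) (nat_lit 275) (nat_lit 1) (nat_lit 216) (nat_lit 182) (nat_lit 202)) (PT.lf (nat_lit 20824) (nat_lit 6) (nat_lit 274) (nat_lit 1) (nat_lit 217) (nat_lit 182) (nat_lit 201))) (PT.nd (nat_lit 78) (PT.lf (nat_lit 21584) (nat_lit 6) (nat_lit 284) (nat_lit 3) (nat_lit 200) (nat_lit 183) (nat_lit 217)) (PT.lf (nat_lit 21660) (nat_lit 6) (nat_lit 285) (nat_lit 3) (nat_lit 201) (nat_lit 183) (nat_lit 216)))) (PT.nd (nat_lit 156) (PT.nd (nat_lit 78) (PT.lf (nat_lit 21736) (nat_lit 6) (nat_lit 286) (nat_lit 3) (nat_lit 202) (nat_lit 183) (nat_lit 215)) (PT.lf (nat_lit 21812) (nat_lit 6) (nat_lit 287) (nat_lit 3) (nat_lit 203) (nat_lit 183) (nat_lit 214))) (PT.nd (nat_lit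 78) (PT.lf (nat_lit 21888) (nat_lit 6) (nat_lit 288) (nat_lit 3) (nat_lit 204) (nat_lit 183) (nat_lit 213)) (PT.lf (nat_lit 21964) (nat_lit 6) (nat_lit 289) (nat_lit 3) (nat_lit 205) (nat_lit 183) (nat_lit 212)))))) (PT.nd (nat_lit 624) (PT.nd (nat_lit 312) (PT.nd (nat_lit 156) (PT.nd (nat_lit 78) (PT.lf (nat_lit 22040) (nat_lit 6) (nat_lit 290) (nat_lit 3) (nat_lit 206) (nat_lit 183) (nat_lit 211)) (PT.lf (nat_lit 22116) (nat_lit 6) (nat_lit 291) (nat_lit 3) (nat_lit 207) (nat_lit 183) (nat_lit 210))) (PT.nd (nat_lit 78) (PT.lf (nat_lit 22192) (nat_lit 6) (nat_lit 292) (nat_lit 3) (nat_lit 208) (nat_lit 183) (nat_lit 209)) (PT.lf (nat_lit 22192) (nat_lit 6) (nat_lit 292) (nat_lit 1) (nat_lit 209) (nat_lit 183) (nat_lit 208)))) (PT.nd (nat_lit 156) (PT.nd (nat_lit 78) (PT.lf (nat_lit 22116) (nat_lit 6) (nat_lit 291) (nat_lit 1) (nat_lit 210) (nat_lit 183) (nat_lit 207)) (PT.lf (nat_lit 22040) (nat_lit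 6) (nat_lit 290) (nat_lit 1) (nat_lit 211) (nat_lit 183) (nat_lit 206))) (PT.nd (nat_lit 78) (PT.lf (nat_lit 21964) (nat_lit 6) (nat_lit 289) (nat_lit 1) (nat_lit 212) (nat_lit 183) (nat_lit 205)) (PT.lf (nat_lit 21888) (nat_lit 6) (nat_lit 288) (nat_lit 1) (nat_lit 213) (nat_lit 183) (nat_lit 204))))) (PT.nd (nat_lit 61308) (PT.nd (nat_lit 156) (PT.nd (nat_lit 78) (PT.lf (nat_lit 21812) (nat_lit 6) (nat_lit 287) (nat_lit 1) (nat_lit 214) (nat_lit 183) (nat_lit 203)) (PT.lf (nat_lit 21736) (nat_lit 6) (nat_lit 286) (nat_lit 1) (nat_lit 215) (nat_lit 183) (nat_lit 202))) (PT.nd (nat_lit 78) (PT.lf (nat_lit 21660) (nat_lit 6) (nat_lit 285) (nat_lit 1) (nat_lit 216) (nat_lit 183) (nat_lit 201)) (PT.lf (nat_lit 21584) (nat_lit 6) (nat_lit 284) (nat_lit 1) (nat_lit 217) (nat_lit 183) (nat_lit 200)))) (PT.nd (nat_lit 156) (PT.nd (nat_lit 78) (PT.lf (nat_lit 21508) (nat_lit 6) (nat_lit 283) (nat_lit 3) (nat_lit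 199) (nat_lit 184) (nat_lit 217)) (PT.lf (nat_lit 22876) (nat_lit 6) (nat_lit 301) (nat_lit 3) (nat_lit 200) (nat_lit 184) (nat_lit 216))) (PT.nd (nat_lit 78) (PT.lf (nat_lit 22952) (nat_lit 6) (nat_lit 302) (nat_lit 3) (nat_lit 201) (nat_lit 184) (nat_lit 215)) (PT.lf (nat_lit 23028) (nat_lit 6) (nat_lit 303) (nat_lit 3) (nat_lit 202) (nat_lit 184) (nat_lit 214)))))))
noncomputable def pc10 : PT := (PT.nd (nat_lit 62244) (PT.nd (nat_lit 624) (PT.nd (nat_lit 312) (PT.nd (nat_lit 156) (PT.nd (nat_lit 78) (PT.lf (nat_lit 23104) (nat_lit 6) (nat_lit 304) (nat_lit 3) (nat_lit 203) (nat_lit 184) (nat_lit 213)) (PT.lf (nat_lit 23180) (nat_lit 6) (nat_lit 305) (nat_lit 3) (nat_lit 204) (nat_lit 184) (nat_lit 212))) (PT.nd (nat_lit 78) (PT.lf (nat_lit 23256) (nat_lit 6) (nat_lit 306) (nat_lit 3) (nat_lit 205) (nat_lit 184) (nat_lit 211)) (PT.lf (nat_lit 23332) (nat_lit 6) (nat_lit 307) (nat_lit 3) (nat_lit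 206) (nat_lit 184) (nat_lit 210)))) (PT.nd (nat_lit 156) (PT.nd (nat_lit 78) (PT.lf (nat_lit 23408) (nat_lit 6) (nat_lit 308) (nat_lit 3) (nat_lit 207) (nat_lit 184) (nat_lit 209)) (PT.lf (nat_lit 23484) (nat_lit 3) (nat_lit 309) (nat_lit 1) (nat_lit 208) (nat_lit 184) (nat_lit 208))) (PT.nd (nat_lit 78) (PT.lf (nat_lit 23408) (nat_lit 6) (nat_lit 308) (nat_lit 1) (nat_lit 209) (nat_lit 184) (nat_lit 207)) (PT.lf (nat_lit 23332) (nat_lit 6) (nat_lit 307) (nat_lit 1) (nat_lit 210) (nat_lit 184) (nat_lit 206))))) (PT.nd (nat_lit 312) (PT.nd (nat_lit 156) (PT.nd (nat_lit 78) (PT.lf (nat_lit 23256) (nat_lit 6) (nat_lit 306) (nat_lit 1) (nat_lit 211) (nat_lit 184) (nat_lit 205)) (PT.lf (nat_lit 23180) (nat_lit 6) (nat_lit 305) (nat_lit 1) (nat_lit 212) (nat_lit 184) (nat_lit 204))) (PT.nd (nat_lit 78) (PT.lf (nat_lit 23104) (nat_lit 6) (nat_lit 304) (nat_lit 1) (nat_lit 213) (nat_lit 184) (nat_lit 203))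 (PT.lf (nat_lit 23028) (nat_lit 6) (nat_lit 303) (nat_lit 1) (nat_lit 214) (nat_lit 184) (nat_lit 202)))) (PT.nd (nat_lit 156) (PT.nd (nat_lit 78) (PT.lf (nat_lit 22952) (nat_lit 6) (nat_lit 302) (nat_lit 1) (nat_lit 215) (nat_lit 184) (nat_lit 201)) (PT.lf (nat_lit 22876) (nat_lit 6) (nat_lit 301) (nat_lit 1) (nat_lit 216) (nat_lit 184) (nat_lit 200))) (PT.nd (nat_lit 61074) (PT.lf (nat_lit 21508) (nat_lit 6) (nat_lit 283) (nat_lit 1) (nat_lit 217) (nat_lit 184) (nat_lit 199)) (PT.lf (nat_lit 22800) (nat_lit 6) (nat_lit 300) (nat_lit 3) (nat_lit 199) (nat_lit 185) (nat_lit 216)))))) (PT.nd (nat_lit 624) (PT.nd (nat_lit 312) (PT.nd (nat_lit 156) (PT.nd (nat_lit 78) (PT.lf (nat_lit 24092) (nat_lit 6) (nat_lit 317) (nat_lit 3) (nat_lit 200) (nat_lit 185) (nat_lit 215)) (PT.lf (nat_lit 24168) (nat_lit 6) (nat_lit 318) (nat_lit 3) (nat_lit 201) (nat_lit 185) (nat_lit 214))) (PT.nd (nat_lit 78) (PT.lf (nat_lit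 24244) (nat_lit 6) (nat_lit 319) (nat_lit 3) (nat_lit 202) (nat_lit 185) (nat_lit 213)) (PT.lf (nat_lit 24320) (nat_lit 6) (nat_lit 320) (nat_lit 3) (nat_lit 203) (nat_lit 185) (nat_lit 212)))) (PT.nd (nat_lit 156) (PT.nd (nat_lit 78) (PT.lf (nat_lit 24396) (nat_lit 6) (nat_lit 321) (nat_lit 3) (nat_lit 204) (nat_lit 185) (nat_lit 211)) (PT.lf (nat_lit 24472) (nat_lit 6) (nat_lit 322) (nat_lit 3) (nat_lit 205) (nat_lit 185) (nat_lit 210))) (PT.nd (nat_lit 78) (PT.lf (nat_lit 24548) (nat_lit 6) (nat_lit 323) (nat_lit 3) (nat_lit 206) (nat_lit 185) (nat_lit 209)) (PT.lf (nat_lit 24624) (nat_lit 6) (nat_lit 324) (nat_lit 3) (nat_lit 207) (nat_lit 185) (nat_lit 208))))) (PT.nd (nat_lit 312) (PT.nd (nat_lit 156) (PT.nd (nat_lit 78) (PT.lf (nat_lit 24624) (nat_lit 6) (nat_lit 324) (nat_lit 1) (nat_lit 208) (nat_lit 185) (nat_lit 207)) (PT.lf (nat_lit 24548) (nat_lit 6) (nat_lit 323) (nat_lit 1) (nat_lit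 209) (nat_lit 185) (nat_lit 206))) (PT.nd (nat_lit 78) (PT.lf (nat_lit 24472) (nat_lit 6) (nat_lit 322) (nat_lit 1) (nat_lit 210) (nat_lit 185) (nat_lit 205)) (PT.lf (nat_lit 24396) (nat_lit 6) (nat_lit 321) (nat_lit 1) (nat_lit 211) (nat_lit 185) (nat_lit 204)))) (PT.nd (nat_lit 156) (PT.nd (nat_lit 78) (PT.lf (nat_lit 24320) (nat_lit 6) (nat_lit 320) (nat_lit 1) (nat_lit 212) (nat_lit 185) (nat_lit 203)) (PT.lf (nat_lit 24244) (nat_lit 6) (nat_lit 319) (nat_lit 1) (nat_lit 213) (nat_lit 185) (nat_lit 202))) (PT.nd (nat_lit 78) (PT.lf (nat_lit 24168) (nat_lit 6) (nat_lit 318) (nat_lit 1) (nat_lit 214) (nat_lit 185) (nat_lit 201)) (PT.nd (nat_lit 78) (PT.lf (nat_lit 24092) (nat_lit 6) (nat_lit 317) (nat_lit 1) (nat_lit 215) (nat_lit 185) (nat_lit 200)) (PT.lf (nat_lit 22800) (nat_lit 6) (nat_lit 300) (nat_lit 1) (nat_lit 216) (nat_lit 185) (nat_lit 199))))))))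
noncomputable def pc11 : PT := (PT.nd (nat_lit 1248) (PT.nd (nat_lit 624) (PT.nd (nat_lit 312) (PT.nd (nat_lit 156) (PT.nd (nat_lit 78) (PT.lf (nat_lit 22724) (nat_lit 6) (nat_lit 299) (nat_lit 3) (nat_lit 198) (nat_lit 186) (nat_lit 216)) (PT.lf (nat_lit 24016) (nat_lit 6) (nat_lit 316) (nat_lit 3) (nat_lit 199) (nat_lit 186) (nat_lit 215))) (PT.nd (nat_lit 78) (PT.lf (nat_lit 25232) (nat_lit 6) (nat_lit 332) (nat_lit 3) (nat_lit 200) (nat_lit 186) (nat_lit 214)) (PT.lf (nat_lit 25308) (nat_lit 6) (nat_lit 333) (nat_lit 3) (nat_lit 201) (nat_lit 186) (nat_lit 213)))) (PT.nd (nat_lit 156) (PT.nd (nat_lit 78) (PT.lf (nat_lit 25384) (nat_lit 6) (nat_lit 334) (nat_lit 3) (nat_lit 202) (nat_lit 186) (nat_lit 212)) (PT.lf (nat_lit 25460) (nat_lit 6) (nat_lit 335) (nat_lit 3) (nat_lit 203) (nat_lit 186) (nat_lit 211))) (PT.nd (nat_lit 78) (PT.lf (nat_lit 25536) (nat_lit 6) (nat_lit 336) (nat_lit 3) (nat_lit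 204) (nat_lit 186) (nat_lit 210)) (PT.lf (nat_lit 25612) (nat_lit 6) (nat_lit 337) (nat_lit 3) (nat_lit 205) (nat_lit 186) (nat_lit 209))))) (PT.nd (nat_lit 312) (PT.nd (nat_lit 156) (PT.nd (nat_lit 78) (PT.lf (nat_lit 25688) (nat_lit 6) (nat_lit 338) (nat_lit 3) (nat_lit 206) (nat_lit 186) (nat_lit 208)) (PT.lf (nat_lit 25764) (nat_lit 3) (nat_lit 339) (nat_lit 1) (nat_lit 207) (nat_lit 186) (nat_lit 207))) (PT.nd (nat_lit 78) (PT.lf (nat_lit 25688) (nat_lit 6) (nat_lit 338) (nat_lit 1) (nat_lit 208) (nat_lit 186) (nat_lit 206)) (PT.lf (nat_lit 25612) (nat_lit 6) (nat_lit 337) (nat_lit 1) (nat_lit 209) (nat_lit 186) (nat_lit 205)))) (PT.nd (nat_lit 156) (PT.nd (nat_lit 78) (PT.lf (nat_lit 25536) (nat_lit 6) (nat_lit 336) (nat_lit 1) (nat_lit 210) (nat_lit 186) (nat_lit 204)) (PT.lf (nat_lit 25460) (nat_lit 6) (nat_lit 335) (nat_lit 1) (nat_lit 211) (nat_lit 186) (nat_lit 203))) (PT.nd (nat_lit 78)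 (PT.lf (nat_lit 25384) (nat_lit 6) (nat_lit 334) (nat_lit 1) (nat_lit 212) (nat_lit 186) (nat_lit 202)) (PT.lf (nat_lit 25308) (nat_lit 6) (nat_lit 333) (nat_lit 1) (nat_lit 213) (nat_lit 186) (nat_lit 201)))))) (PT.nd (nat_lit 61542) (PT.nd (nat_lit 61230) (PT.nd (nat_lit 156) (PT.nd (nat_lit 78) (PT.lf (nat_lit 25232) (nat_lit 6) (nat_lit 332) (nat_lit 1) (nat_lit 214) (nat_lit 186) (nat_lit 200)) (PT.lf (nat_lit 24016) (nat_lit 6) (nat_lit 316) (nat_lit 1) (nat_lit 215) (nat_lit 186) (nat_lit 199))) (PT.nd (nat_lit 60996) (PT.lf (nat_lit 22724) (nat_lit 6) (nat_lit 299) (nat_lit 1) (nat_lit 216) (nat_lit 186) (nat_lit 198)) (PT.lf (nat_lit 22648) (nat_lit 6) (nat_lit 298) (nat_lit 3) (nat_lit 197) (nat_lit 187) (nat_lit 216)))) (PT.nd (nat_lit 156) (PT.nd (nat_lit 78) (PT.lf (nat_lit 23940) (nat_lit 6) (nat_lit 315) (nat_lit 3) (nat_lit 198) (nat_lit 187) (nat_lit 215)) (PT.lf (nat_lit 25156) (nat_lit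 6) (nat_lit 331) (nat_lit 3) (nat_lit 199) (nat_lit 187) (nat_lit 214))) (PT.nd (nat_lit 78) (PT.lf (nat_lit 26296) (nat_lit 6) (nat_lit 346) (nat_lit 3) (nat_lit 200) (nat_lit 187) (nat_lit 213)) (PT.lf (nat_lit 26372) (nat_lit 6) (nat_lit 347) (nat_lit 3) (nat_lit 201) (nat_lit 187) (nat_lit 212))))) (PT.nd (nat_lit 312) (PT.nd (nat_lit 156) (PT.nd (nat_lit 78) (PT.lf (nat_lit 26448) (nat_lit 6) (nat_lit 348) (nat_lit 3) (nat_lit 202) (nat_lit 187) (nat_lit 211)) (PT.lf (nat_lit 26524) (nat_lit 6) (nat_lit 349) (nat_lit 3) (nat_lit 203) (nat_lit 187) (nat_lit 210))) (PT.nd (nat_lit 78) (PT.lf (nat_lit 26600) (nat_lit 6) (nat_lit 350) (nat_lit 3) (nat_lit 204) (nat_lit 187) (nat_lit 209)) (PT.lf (nat_lit 26676) (nat_lit 6) (nat_lit 351) (nat_lit 3) (nat_lit 205) (nat_lit 187) (nat_lit 208)))) (PT.nd (nat_lit 156) (PT.nd (nat_lit 78) (PT.lf (nat_lit 26752) (nat_lit 6) (nat_lit 352) (nat_lit 3) (nat_lit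 206) (nat_lit 187) (nat_lit 207)) (PT.lf (nat_lit 26752) (nat_lit 6) (nat_lit 352) (nat_lit 1) (nat_lit 207) (nat_lit 187) (nat_lit 206))) (PT.nd (nat_lit 78) (PT.lf (nat_lit 26676) (nat_lit 6) (nat_lit 351) (nat_lit 1) (nat_lit 208) (nat_lit 187) (nat_lit 205)) (PT.lf (nat_lit 26600) (nat_lit 6) (nat_lit 350) (nat_lit 1) (nat_lit 209) (nat_lit 187) (nat_lit 204)))))))
noncomputable def pc12 : PT := (PT.nd (nat_lit 62088) (PT.nd (nat_lit 61464) (PT.nd (nat_lit 312) (PT.nd (nat_lit 156) (PT.nd (nat_lit 78) (PT.lf (nat_lit 26524) (nat_lit 6) (nat_lit 349) (nat_lit 1) (nat_lit 210) (nat_lit 187) (nat_lit 203)) (PT.lf (nat_lit 26448) (nat_lit 6) (nat_lit 348) (nat_lit 1) (nat_lit 211) (nat_lit 187) (nat_lit 202))) (PT.nd (nat_lit 78) (PT.lf (nat_lit 26372) (nat_lit 6) (nat_lit 347) (nat_lit 1) (nat_lit 212) (nat_lit 187) (nat_lit 201)) (PT.lf (nat_lit 26296) (nat_lit 6) (nat_lit 346) (nat_lit 1) (nat_lit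 213) (nat_lit 187) (nat_lit 200)))) (PT.nd (nat_lit 156) (PT.nd (nat_lit 78) (PT.lf (nat_lit 25156) (nat_lit 6) (nat_lit 331) (nat_lit 1) (nat_lit 214) (nat_lit 187) (nat_lit 199)) (PT.lf (nat_lit 23940) (nat_lit 6) (nat_lit 315) (nat_lit 1) (nat_lit 215) (nat_lit 187) (nat_lit 198))) (PT.nd (nat_lit 60918) (PT.lf (nat_lit 22648) (nat_lit 6) (nat_lit 298) (nat_lit 1) (nat_lit 216) (nat_lit 187) (nat_lit 197)) (PT.lf (nat_lit 22572) (nat_lit 6) (nat_lit 297) (nat_lit 3) (nat_lit 196) (nat_lit 188) (nat_lit 216))))) (PT.nd (nat_lit 312) (PT.nd (nat_lit 156) (PT.nd (nat_lit 78) (PT.lf (nat_lit 23864) (nat_lit 6) (nat_lit 314) (nat_lit 3) (nat_lit 197) (nat_lit 188) (nat_lit 215)) (PT.lf (nat_lit 25080) (nat_lit 6) (nat_lit 330) (nat_lit 3) (nat_lit 198) (nat_lit 188) (nat_lit 214))) (PT.nd (nat_lit 78) (PT.lf (nat_lit 26220) (nat_lit 6) (nat_lit 345) (nat_lit 3) (nat_lit 199) (nat_lit 188) (nat_lit 213))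 (PT.lf (nat_lit 27284) (nat_lit 6) (nat_lit 359) (nat_lit 3) (nat_lit 200) (nat_lit 188) (nat_lit 212)))) (PT.nd (nat_lit 156) (PT.nd (nat_lit 78) (PT.lf (nat_lit 27360) (nat_lit 6) (nat_lit 360) (nat_lit 3) (nat_lit 201) (nat_lit 188) (nat_lit 211)) (PT.lf (nat_lit 27436) (nat_lit 6) (nat_lit 361) (nat_lit 3) (nat_lit 202) (nat_lit 188) (nat_lit 210))) (PT.nd (nat_lit 78) (PT.lf (nat_lit 27512) (nat_lit 6) (nat_lit 362) (nat_lit 3) (nat_lit 203) (nat_lit 188) (nat_lit 209)) (PT.lf (nat_lit 27588) (nat_lit 6) (nat_lit 363) (nat_lit 3) (nat_lit 204) (nat_lit 188) (nat_lit 208)))))) (PT.nd (nat_lit 624) (PT.nd (nat_lit 312) (PT.nd (nat_lit 156) (PT.nd (nat_lit 78) (PT.lf (nat_lit 27664) (nat_lit 6) (nat_lit 364) (nat_lit 3) (nat_lit 205) (nat_lit 188) (nat_lit 207)) (PT.lf (nat_lit 27740) (nat_lit 3) (nat_lit 365) (nat_lit 1) (nat_lit 206) (nat_lit 188) (nat_lit 206))) (PT.nd (nat_lit 78) (PT.lf (nat_lit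 27664) (nat_lit 6) (nat_lit 364) (nat_lit 1) (nat_lit 207) (nat_lit 188) (nat_lit 205)) (PT.lf (nat_lit 27588) (nat_lit 6) (nat_lit 363) (nat_lit 1) (nat_lit 208) (nat_lit 188) (nat_lit 204)))) (PT.nd (nat_lit 156) (PT.nd (nat_lit 78) (PT.lf (nat_lit 27512) (nat_lit 6) (nat_lit 362) (nat_lit 1) (nat_lit 209) (nat_lit 188) (nat_lit 203)) (PT.lf (nat_lit 27436) (nat_lit 6) (nat_lit 361) (nat_lit 1) (nat_lit 210) (nat_lit 188) (nat_lit 202))) (PT.nd (nat_lit 78) (PT.lf (nat_lit 27360) (nat_lit 6) (nat_lit 360) (nat_lit 1) (nat_lit 211) (nat_lit 188) (nat_lit 201)) (PT.lf (nat_lit 27284) (nat_lit 6) (nat_lit 359) (nat_lit 1) (nat_lit 212) (nat_lit 188) (nat_lit 200))))) (PT.nd (nat_lit 61074) (PT.nd (nat_lit 156) (PT.nd (nat_lit 78) (PT.lf (nat_lit 26220) (nat_lit 6) (nat_lit 345) (nat_lit 1) (nat_lit 213) (nat_lit 188) (nat_lit 199)) (PT.lf (nat_lit 25080) (nat_lit 6) (nat_lit 330) (nat_lit 1) (nat_lit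 214) (nat_lit 188) (nat_lit 198))) (PT.nd (nat_lit 78) (PT.lf (nat_lit 23864) (nat_lit 6) (nat_lit 314) (nat_lit 1) (nat_lit 215) (nat_lit 188) (nat_lit 197)) (PT.lf (nat_lit 22572) (nat_lit 6) (nat_lit 297) (nat_lit 1) (nat_lit 216) (nat_lit 188) (nat_lit 196)))) (PT.nd (nat_lit 156) (PT.nd (nat_lit 78) (PT.lf (nat_lit 22496) (nat_lit 6) (nat_lit 296) (nat_lit 3) (nat_lit 195) (nat_lit 189) (nat_lit 216)) (PT.lf (nat_lit 23788) (nat_lit 6) (nat_lit 313) (nat_lit 3) (nat_lit 196) (nat_lit 189) (nat_lit 215))) (PT.nd (nat_lit 78) (PT.lf (nat_lit 25004) (nat_lit 6) (nat_lit 329) (nat_lit 3) (nat_lit 197) (nat_lit 189) (nat_lit 214)) (PT.nd (nat_lit 78) (PT.lf (nat_lit 26144) (nat_lit 6) (nat_lit 344) (nat_lit 3) (nat_lit 198) (nat_lit 189) (nat_lit 213)) (PT.lf (nat_lit 27208) (nat_lit 6) (nat_lit 358) (nat_lit 3) (nat_lit 199) (nat_lit 189) (nat_lit 212))))))))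
noncomputable def pc13 : PT := (PT.nd (nat_lit 63180) (PT.nd (nat_lit 1248) (PT.nd (nat_lit 624) (PT.nd (nat_lit 312) (PT.nd (nat_lit 156) (PT.nd (nat_lit 78) (PT.lf (nat_lit 28196) (nat_lit 6) (nat_lit 371) (nat_lit 3) (nat_lit 200) (nat_lit 189) (nat_lit 211)) (PT.lf (nat_lit 28272) (nat_lit 6) (nat_lit 372) (nat_lit 3) (nat_lit 201) (nat_lit 189) (nat_lit 210))) (PT.nd (nat_lit 78) (PT.lf (nat_lit 28348) (nat_lit 6) (nat_lit 373) (nat_lit 3) (nat_lit 202) (nat_lit 189) (nat_lit 209)) (PT.lf (nat_lit 28424) (nat_lit 6) (nat_lit 374) (nat_lit 3) (nat_lit 203) (nat_lit 189) (nat_lit 208)))) (PT.nd (nat_lit 156) (PT.nd (nat_lit 78) (PT.lf (nat_lit 28500) (nat_lit 6) (nat_lit 375) (nat_lit 3) (nat_lit 204) (nat_lit 189) (nat_lit 207)) (PT.lf (nat_lit 28576) (nat_lit 6) (nat_lit 376) (nat_lit 3) (nat_lit 205) (nat_lit 189) (nat_lit 206))) (PT.nd (nat_lit 78) (PT.lf (nat_lit 28576) (nat_lit 6) (nat_lit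 376) (nat_lit 1) (nat_lit 206) (nat_lit 189) (nat_lit 205)) (PT.lf (nat_lit 28500) (nat_lit 6) (nat_lit 375) (nat_lit 1) (nat_lit 207) (nat_lit 189) (nat_lit 204))))) (PT.nd (nat_lit 312) (PT.nd (nat_lit 156) (PT.nd (nat_lit 78) (PT.lf (nat_lit 28424) (nat_lit 6) (nat_lit 374) (nat_lit 1) (nat_lit 208) (nat_lit 189) (nat_lit 203)) (PT.lf (nat_lit 28348) (nat_lit 6) (nat_lit 373) (nat_lit 1) (nat_lit 209) (nat_lit 189) (nat_lit 202))) (PT.nd (nat_lit 78) (PT.lf (nat_lit 28272) (nat_lit 6) (nat_lit 372) (nat_lit 1) (nat_lit 210) (nat_lit 189) (nat_lit 201)) (PT.lf (nat_lit 28196) (nat_lit 6) (nat_lit 371) (nat_lit 1) (nat_lit 211) (nat_lit 189) (nat_lit 200)))) (PT.nd (nat_lit 156) (PT.nd (nat_lit 78) (PT.lf (nat_lit 27208) (nat_lit 6) (nat_lit 358) (nat_lit 1) (nat_lit 212) (nat_lit 189) (nat_lit 199)) (PT.lf (nat_lit 26144) (nat_lit 6) (nat_lit 344) (nat_lit 1) (nat_lit 213) (nat_lit 189) (nat_lit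 198))) (PT.nd (nat_lit 78) (PT.lf (nat_lit 25004) (nat_lit 6) (nat_lit 329) (nat_lit 1) (nat_lit 214) (nat_lit 189) (nat_lit 197)) (PT.lf (nat_lit 23788) (nat_lit 6) (nat_lit 313) (nat_lit 1) (nat_lit 215) (nat_lit 189) (nat_lit 196)))))) (PT.nd (nat_lit 61308) (PT.nd (nat_lit 60996) (PT.nd (nat_lit 60840) (PT.nd (nat_lit 60762) (PT.lf (nat_lit 22496) (nat_lit 6) (nat_lit 296) (nat_lit 1) (nat_lit 216) (nat_lit 189) (nat_lit 195)) (PT.lf (nat_lit 22420) (nat_lit 6) (nat_lit 295) (nat_lit 3) (nat_lit 194) (nat_lit 190) (nat_lit 216))) (PT.nd (nat_lit 78) (PT.lf (nat_lit 23712) (nat_lit 6) (nat_lit 312) (nat_lit 3) (nat_lit 195) (nat_lit 190) (nat_lit 215)) (PT.lf (nat_lit 24928) (nat_lit 6) (nat_lit 328) (nat_lit 3) (nat_lit 196) (nat_lit 190) (nat_lit 214)))) (PT.nd (nat_lit 156) (PT.nd (nat_lit 78) (PT.lf (nat_lit 26068) (nat_lit 6) (nat_lit 343) (nat_lit 3) (nat_lit 197) (nat_lit 190) (nat_lit 213))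 (PT.lf (nat_lit 27132) (nat_lit 6) (nat_lit 357) (nat_lit 3) (nat_lit 198) (nat_lit 190) (nat_lit 212))) (PT.nd (nat_lit 78) (PT.lf (nat_lit 28120) (nat_lit 6) (nat_lit 370) (nat_lit 3) (nat_lit 199) (nat_lit 190) (nat_lit 211)) (PT.lf (nat_lit 29032) (nat_lit 6) (nat_lit 382) (nat_lit 3) (nat_lit 200) (nat_lit 190) (nat_lit 210))))) (PT.nd (nat_lit 312) (PT.nd (nat_lit 156) (PT.nd (nat_lit 78) (PT.lf (nat_lit 29108) (nat_lit 6) (nat_lit 383) (nat_lit 3) (nat_lit 201) (nat_lit 190) (nat_lit 209)) (PT.lf (nat_lit 29184) (nat_lit 6) (nat_lit 384) (nat_lit 3) (nat_lit 202) (nat_lit 190) (nat_lit 208))) (PT.nd (nat_lit 78) (PT.lf (nat_lit 29260) (nat_lit 6) (nat_lit 385) (nat_lit 3) (nat_lit 203) (nat_lit 190) (nat_lit 207)) (PT.lf (nat_lit 29336) (nat_lit 6) (nat_lit 386) (nat_lit 3) (nat_lit 204) (nat_lit 190) (nat_lit 206)))) (PT.nd (nat_lit 156) (PT.nd (nat_lit 78) (PT.lf (nat_lit 29412) (nat_lit 3)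 (nat_lit 387) (nat_lit 1) (nat_lit 205) (nat_lit 190) (nat_lit 205)) (PT.lf (nat_lit 29336) (nat_lit 6) (nat_lit 386) (nat_lit 1) (nat_lit 206) (nat_lit 190) (nat_lit 204))) (PT.nd (nat_lit 78) (PT.lf (nat_lit 29260) (nat_lit 6) (nat_lit 385) (nat_lit 1) (nat_lit 207) (nat_lit 190) (nat_lit 203)) (PT.lf (nat_lit 29184) (nat_lit 6) (nat_lit 384) (nat_lit 1) (nat_lit 208) (nat_lit 190) (nat_lit 202))))))) (PT.nd (nat_lit 61854) (PT.nd (nat_lit 61230) (PT.nd (nat_lit 312) (PT.nd (nat_lit 156) (PT.nd (nat_lit 78) (PT.lf (nat_lit 29108) (nat_lit 6) (nat_lit 383) (nat_lit 1) (nat_lit 209) (nat_lit 190) (nat_lit 201)) (PT.lf (nat_lit 29032) (nat_lit 6) (nat_lit 382) (nat_lit 1) (nat_lit 210) (nat_lit 190) (nat_lit 200))) (PT.nd (nat_lit 78) (PT.lf (nat_lit 28120) (nat_lit 6) (nat_lit 370) (nat_lit 1) (nat_lit 211) (nat_lit 190) (nat_lit 199)) (PT.lf (nat_lit 27132) (nat_lit 6) (nat_lit 357) (nat_lit 1) (nat_lit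 212) (nat_lit 190) (nat_lit 198)))) (PT.nd (nat_lit 156) (PT.nd (nat_lit 78) (PT.lf (nat_lit 26068) (nat_lit 6) (nat_lit 343) (nat_lit 1) (nat_lit 213) (nat_lit 190) (nat_lit 197)) (PT.lf (nat_lit 24928) (nat_lit 6) (nat_lit 328) (nat_lit 1) (nat_lit 214) (nat_lit 190) (nat_lit 196))) (PT.nd (nat_lit 78) (PT.lf (nat_lit 23712) (nat_lit 6) (nat_lit 312) (nat_lit 1) (nat_lit 215) (nat_lit 190) (nat_lit 195)) (PT.lf (nat_lit 22420) (nat_lit 6) (nat_lit 295) (nat_lit 1) (nat_lit 216) (nat_lit 190) (nat_lit 194))))) (PT.nd (nat_lit 312) (PT.nd (nat_lit 156) (PT.nd (nat_lit 78) (PT.lf (nat_lit 22344) (nat_lit 6) (nat_lit 294) (nat_lit 3) (nat_lit 193) (nat_lit 191) (nat_lit 216)) (PT.lf (nat_lit 23636) (nat_lit 6) (nat_lit 311) (nat_lit 3) (nat_lit 194) (nat_lit 191) (nat_lit 215))) (PT.nd (nat_lit 78) (PT.lf (nat_lit 24852) (nat_lit 6) (nat_lit 327) (nat_lit 3) (nat_lit 195) (nat_lit 191) (nat_lit 214))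 (PT.lf (nat_lit 25992) (nat_lit 6) (nat_lit 342) (nat_lit 3) (nat_lit 196) (nat_lit 191) (nat_lit 213)))) (PT.nd (nat_lit 156) (PT.nd (nat_lit 78) (PT.lf (nat_lit 27056) (nat_lit 6) (nat_lit 356) (nat_lit 3) (nat_lit 197) (nat_lit 191) (nat_lit 212)) (PT.lf (nat_lit 28044) (nat_lit 6) (nat_lit 369) (nat_lit 3) (nat_lit 198) (nat_lit 191) (nat_lit 211))) (PT.nd (nat_lit 78) (PT.lf (nat_lit 28956) (nat_lit 6) (nat_lit 381) (nat_lit 3) (nat_lit 199) (nat_lit 191) (nat_lit 210)) (PT.lf (nat_lit 29792) (nat_lit 6) (nat_lit 392) (nat_lit 3) (nat_lit 200) (nat_lit 191) (nat_lit 209)))))) (PT.nd (nat_lit 624) (PT.nd (nat_lit 312) (PT.nd (nat_lit 156) (PT.nd (nat_lit 78) (PT.lf (nat_lit 29868) (nat_lit 6) (nat_lit 393) (nat_lit 3) (nat_lit 201) (nat_lit 191) (nat_lit 208)) (PT.lf (nat_lit 29944) (nat_lit 6) (nat_lit 394) (nat_lit 3) (nat_lit 202) (nat_lit 191) (nat_lit 207))) (PT.nd (nat_lit 78) (PT.lf (nat_lit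 30020) (nat_lit 6) (nat_lit 395) (nat_lit 3) (nat_lit 203) (nat_lit 191) (nat_lit 206)) (PT.lf (nat_lit 30096) (nat_lit 6) (nat_lit 396) (nat_lit 3) (nat_lit 204) (nat_lit 191) (nat_lit 205)))) (PT.nd (nat_lit 156) (PT.nd (nat_lit 78) (PT.lf (nat_lit 30096) (nat_lit 6) (nat_lit 396) (nat_lit 1) (nat_lit 205) (nat_lit 191) (nat_lit 204)) (PT.lf (nat_lit 30020) (nat_lit 6) (nat_lit 395) (nat_lit 1) (nat_lit 206) (nat_lit 191) (nat_lit 203))) (PT.nd (nat_lit 78) (PT.lf (nat_lit 29944) (nat_lit 6) (nat_lit 394) (nat_lit 1) (nat_lit 207) (nat_lit 191) (nat_lit 202)) (PT.lf (nat_lit 29868) (nat_lit 6) (nat_lit 393) (nat_lit 1) (nat_lit 208) (nat_lit 191) (nat_lit 201))))) (PT.nd (nat_lit 312) (PT.nd (nat_lit 156) (PT.nd (nat_lit 78) (PT.lf (nat_lit 29792) (nat_lit 6) (nat_lit 392) (nat_lit 1) (nat_lit 209) (nat_lit 191) (nat_lit 200)) (PT.lf (nat_lit 28956) (nat_lit 6) (nat_lit 381) (nat_lit 1) (nat_lit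 210) (nat_lit 191) (nat_lit 199))) (PT.nd (nat_lit 78) (PT.lf (nat_lit 28044) (nat_lit 6) (nat_lit 369) (nat_lit 1) (nat_lit 211) (nat_lit 191) (nat_lit 198)) (PT.lf (nat_lit 27056) (nat_lit 6) (nat_lit 356) (nat_lit 1) (nat_lit 212) (nat_lit 191) (nat_lit 197)))) (PT.nd (nat_lit 156) (PT.nd (nat_lit 78) (PT.lf (nat_lit 25992) (nat_lit 6) (nat_lit 342) (nat_lit 1) (nat_lit 213) (nat_lit 191) (nat_lit 196)) (PT.lf (nat_lit 24852) (nat_lit 6) (nat_lit 327) (nat_lit 1) (nat_lit 214) (nat_lit 191) (nat_lit 195))) (PT.nd (nat_lit 78) (PT.lf (nat_lit 23636) (nat_lit 6) (nat_lit 311) (nat_lit 1) (nat_lit 215) (nat_lit 191) (nat_lit 194)) (PT.lf (nat_lit 22344) (nat_lit 6) (nat_lit 294) (nat_lit 1) (nat_lit 216) (nat_lit 191) (nat_lit 193))))))))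
noncomputable def pc14 : PT := (PT.nd (nat_lit 1248) (PT.nd (nat_lit 624) (PT.nd (nat_lit 312) (PT.nd (nat_lit 156) (PT.nd (nat_lit 78) (PT.lf (nat_lit 22268) (nat_lit 3) (nat_lit 293) (nat_lit 3) (nat_lit 192) (nat_lit 192) (nat_lit 216)) (PT.lf (nat_lit 23560) (nat_lit 6) (nat_lit 310) (nat_lit 3) (nat_lit 193) (nat_lit 192) (nat_lit 215))) (PT.nd (nat_lit 78) (PT.lf (nat_lit 24776) (nat_lit 6) (nat_lit 326) (nat_lit 3) (nat_lit 194) (nat_lit 192) (nat_lit 214)) (PT.lf (nat_lit 25916) (nat_lit 6) (nat_lit 341) (nat_lit 3) (nat_lit 195) (nat_lit 192) (nat_lit 213)))) (PT.nd (nat_lit 156) (PT.nd (nat_lit 78) (PT.lf (nat_lit 26980) (nat_lit 6) (nat_lit 355) (nat_lit 3) (nat_lit 196) (nat_lit 192) (nat_lit 212)) (PT.lf (nat_lit 27968) (nat_lit 6) (nat_lit 368) (nat_lit 3) (nat_lit 197) (nat_lit 192) (nat_lit 211))) (PT.nd (nat_lit 78) (PT.lf (nat_lit 28880) (nat_lit 6) (nat_lit 380) (nat_lit 3) (nat_lit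 198) (nat_lit 192) (nat_lit 210)) (PT.lf (nat_lit 29716) (nat_lit 6) (nat_lit 391) (nat_lit 3) (nat_lit 199) (nat_lit 192) (nat_lit 209))))) (PT.nd (nat_lit 312) (PT.nd (nat_lit 156) (PT.nd (nat_lit 78) (PT.lf (nat_lit 30476) (nat_lit 6) (nat_lit 401) (nat_lit 3) (nat_lit 200) (nat_lit 192) (nat_lit 208)) (PT.lf (nat_lit 30552) (nat_lit 6) (nat_lit 402) (nat_lit 3) (nat_lit 201) (nat_lit 192) (nat_lit 207))) (PT.nd (nat_lit 78) (PT.lf (nat_lit 30628) (nat_lit 6) (nat_lit 403) (nat_lit 3) (nat_lit 202) (nat_lit 192) (nat_lit 206)) (PT.lf (nat_lit 30704) (nat_lit 6) (nat_lit 404) (nat_lit 3) (nat_lit 203) (nat_lit 192) (nat_lit 205)))) (PT.nd (nat_lit 156) (PT.nd (nat_lit 78) (PT.lf (nat_lit 30780) (nat_lit 3) (nat_lit 405) (nat_lit 1) (nat_lit 204) (nat_lit 192) (nat_lit 204)) (PT.lf (nat_lit 30704) (nat_lit 6) (nat_lit 404) (nat_lit 1) (nat_lit 205) (nat_lit 192) (nat_lit 203))) (PT.nd (nat_lit 78)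 (PT.lf (nat_lit 30628) (nat_lit 6) (nat_lit 403) (nat_lit 1) (nat_lit 206) (nat_lit 192) (nat_lit 202)) (PT.lf (nat_lit 30552) (nat_lit 6) (nat_lit 402) (nat_lit 1) (nat_lit 207) (nat_lit 192) (nat_lit 201)))))) (PT.nd (nat_lit 624) (PT.nd (nat_lit 312) (PT.nd (nat_lit 156) (PT.nd (nat_lit 78) (PT.lf (nat_lit 30476) (nat_lit 6) (nat_lit 401) (nat_lit 1) (nat_lit 208) (nat_lit 192) (nat_lit 200)) (PT.lf (nat_lit 29716) (nat_lit 6) (nat_lit 391) (nat_lit 1) (nat_lit 209) (nat_lit 192) (nat_lit 199))) (PT.nd (nat_lit 78) (PT.lf (nat_lit 28880) (nat_lit 6) (nat_lit 380) (nat_lit 1) (nat_lit 210) (nat_lit 192) (nat_lit 198)) (PT.lf (nat_lit 27968) (nat_lit 6) (nat_lit 368) (nat_lit 1) (nat_lit 211) (nat_lit 192) (nat_lit 197)))) (PT.nd (nat_lit 156) (PT.nd (nat_lit 78) (PT.lf (nat_lit 26980) (nat_lit 6) (nat_lit 355) (nat_lit 1) (nat_lit 212) (nat_lit 192) (nat_lit 196)) (PT.lf (nat_lit 25916) (nat_lit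 6) (nat_lit 341) (nat_lit 1) (nat_lit 213) (nat_lit 192) (nat_lit 195))) (PT.nd (nat_lit 78) (PT.lf (nat_lit 24776) (nat_lit 6) (nat_lit 326) (nat_lit 1) (nat_lit 214) (nat_lit 192) (nat_lit 194)) (PT.lf (nat_lit 23560) (nat_lit 6) (nat_lit 310) (nat_lit 1) (nat_lit 215) (nat_lit 192) (nat_lit 193))))) (PT.nd (nat_lit 60762) (PT.nd (nat_lit 60606) (PT.nd (nat_lit 60528) (PT.lf (nat_lit 22268) (nat_lit 3) (nat_lit 293) (nat_lit 0) (nat_lit 216) (nat_lit 192) (nat_lit 192)) (PT.lf (nat_lit 22344) (nat_lit 6) (nat_lit 294) (nat_lit 5) (nat_lit 191) (nat_lit 193) (nat_lit 216))) (PT.nd (nat_lit 78) (PT.lf (nat_lit 23560) (nat_lit 6) (nat_lit 310) (nat_lit 5) (nat_lit 192) (nat_lit 193) (nat_lit 215)) (PT.lf (nat_lit 24700) (nat_lit 3) (nat_lit 325) (nat_lit 3) (nat_lit 193) (nat_lit 193) (nat_lit 214)))) (PT.nd (nat_lit 156) (PT.nd (nat_lit 78) (PT.lf (nat_lit 25840) (nat_lit 6) (nat_lit 340) (nat_lit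 3) (nat_lit 194) (nat_lit 193) (nat_lit 213)) (PT.lf (nat_lit 26904) (nat_lit 6) (nat_lit 354) (nat_lit 3) (nat_lit 195) (nat_lit 193) (nat_lit 212))) (PT.nd (nat_lit 78) (PT.lf (nat_lit 27892) (nat_lit 6) (nat_lit 367) (nat_lit 3) (nat_lit 196) (nat_lit 193) (nat_lit 211)) (PT.lf (nat_lit 28804) (nat_lit 6) (nat_lit 379) (nat_lit 3) (nat_lit 197) (nat_lit 193) (nat_lit 210)))))))
noncomputable def pc15 : PT := (PT.nd (nat_lit 1248) (PT.nd (nat_lit 624) (PT.nd (nat_lit 312) (PT.nd (nat_lit 156) (PT.nd (nat_lit 78) (PT.lf (nat_lit 29640) (nat_lit 6) (nat_lit 390) (nat_lit 3) (nat_lit 198) (nat_lit 193) (nat_lit 209)) (PT.lf (nat_lit 30400) (nat_lit 6) (nat_lit 400) (nat_lit 3) (nat_lit 199) (nat_lit 193) (nat_lit 208))) (PT.nd (nat_lit 78) (PT.lf (nat_lit 31084) (nat_lit 6) (nat_lit 409) (nat_lit 3) (nat_lit 200) (nat_lit 193) (nat_lit 207)) (PT.lf (nat_lit 31160) (nat_lit 6) (nat_lit 410) (nat_lit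 3) (nat_lit 201) (nat_lit 193) (nat_lit 206)))) (PT.nd (nat_lit 156) (PT.nd (nat_lit 78) (PT.lf (nat_lit 31236) (nat_lit 6) (nat_lit 411) (nat_lit 3) (nat_lit 202) (nat_lit 193) (nat_lit 205)) (PT.lf (nat_lit 31312) (nat_lit 6) (nat_lit 412) (nat_lit 3) (nat_lit 203) (nat_lit 193) (nat_lit 204))) (PT.nd (nat_lit 78) (PT.lf (nat_lit 31312) (nat_lit 6) (nat_lit 412) (nat_lit 1) (nat_lit 204) (nat_lit 193) (nat_lit 203)) (PT.lf (nat_lit 31236) (nat_lit 6) (nat_lit 411) (nat_lit 1) (nat_lit 205) (nat_lit 193) (nat_lit 202))))) (PT.nd (nat_lit 312) (PT.nd (nat_lit 156) (PT.nd (nat_lit 78) (PT.lf (nat_lit 31160) (nat_lit 6) (nat_lit 410) (nat_lit 1) (nat_lit 206) (nat_lit 193) (nat_lit 201)) (PT.lf (nat_lit 31084) (nat_lit 6) (nat_lit 409) (nat_lit 1) (nat_lit 207) (nat_lit 193) (nat_lit 200))) (PT.nd (nat_lit 78) (PT.lf (nat_lit 30400) (nat_lit 6) (nat_lit 400) (nat_lit 1) (nat_lit 208) (nat_lit 193) (nat_lit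 199)) (PT.lf (nat_lit 29640) (nat_lit 6) (nat_lit 390) (nat_lit 1) (nat_lit 209) (nat_lit 193) (nat_lit 198)))) (PT.nd (nat_lit 156) (PT.nd (nat_lit 78) (PT.lf (nat_lit 28804) (nat_lit 6) (nat_lit 379) (nat_lit 1) (nat_lit 210) (nat_lit 193) (nat_lit 197)) (PT.lf (nat_lit 27892) (nat_lit 6) (nat_lit 367) (nat_lit 1) (nat_lit 211) (nat_lit 193) (nat_lit 196))) (PT.nd (nat_lit 78) (PT.lf (nat_lit 26904) (nat_lit 6) (nat_lit 354) (nat_lit 1) (nat_lit 212) (nat_lit 193) (nat_lit 195)) (PT.lf (nat_lit 25840) (nat_lit 6) (nat_lit 340) (nat_lit 1) (nat_lit 213) (nat_lit 193) (nat_lit 194)))))) (PT.nd (nat_lit 60996) (PT.nd (nat_lit 60684) (PT.nd (nat_lit 156) (PT.nd (nat_lit 78) (PT.lf (nat_lit 24700) (nat_lit 3) (nat_lit 325) (nat_lit 0) (nat_lit 214) (nat_lit 193) (nat_lit 193)) (PT.lf (nat_lit 23560) (nat_lit 6) (nat_lit 310) (nat_lit 0) (nat_lit 215) (nat_lit 193) (nat_lit 192))) (PT.nd (nat_lit 60450)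 (PT.lf (nat_lit 22344) (nat_lit 6) (nat_lit 294) (nat_lit 0) (nat_lit 216) (nat_lit 193) (nat_lit 191)) (PT.lf (nat_lit 22420) (nat_lit 6) (nat_lit 295) (nat_lit 5) (nat_lit 190) (nat_lit 194) (nat_lit 216)))) (PT.nd (nat_lit 156) (PT.nd (nat_lit 78) (PT.lf (nat_lit 23636) (nat_lit 6) (nat_lit 311) (nat_lit 5) (nat_lit 191) (nat_lit 194) (nat_lit 215)) (PT.lf (nat_lit 24776) (nat_lit 6) (nat_lit 326) (nat_lit 5) (nat_lit 192) (nat_lit 194) (nat_lit 214))) (PT.nd (nat_lit 78) (PT.lf (nat_lit 25840) (nat_lit 6) (nat_lit 340) (nat_lit 5) (nat_lit 193) (nat_lit 194) (nat_lit 213)) (PT.lf (nat_lit 26828) (nat_lit 3) (nat_lit 353) (nat_lit 3) (nat_lit 194) (nat_lit 194) (nat_lit 212))))) (PT.nd (nat_lit 312) (PT.nd (nat_lit 156) (PT.nd (nat_lit 78) (PT.lf (nat_lit 27816) (nat_lit 6) (nat_lit 366) (nat_lit 3) (nat_lit 195) (nat_lit 194) (nat_lit 211)) (PT.lf (nat_lit 28728) (nat_lit 6) (nat_lit 378) (nat_lit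 3) (nat_lit 196) (nat_lit 194) (nat_lit 210))) (PT.nd (nat_lit 78) (PT.lf (nat_lit 29564) (nat_lit 6) (nat_lit 389) (nat_lit 3) (nat_lit 197) (nat_lit 194) (nat_lit 209)) (PT.lf (nat_lit 30324) (nat_lit 6) (nat_lit 399) (nat_lit 3) (nat_lit 198) (nat_lit 194) (nat_lit 208)))) (PT.nd (nat_lit 156) (PT.nd (nat_lit 78) (PT.lf (nat_lit 31008) (nat_lit 6) (nat_lit 408) (nat_lit 3) (nat_lit 199) (nat_lit 194) (nat_lit 207)) (PT.lf (nat_lit 31616) (nat_lit 6) (nat_lit 416) (nat_lit 3) (nat_lit 200) (nat_lit 194) (nat_lit 206))) (PT.nd (nat_lit 78) (PT.lf (nat_lit 31692) (nat_lit 6) (nat_lit 417) (nat_lit 3) (nat_lit 201) (nat_lit 194) (nat_lit 205)) (PT.nd (nat_lit 78) (PT.lf (nat_lit 31768) (nat_lit 6) (nat_lit 418) (nat_lit 3) (nat_lit 202) (nat_lit 194) (nat_lit 204)) (PT.lf (nat_lit 31844) (nat_lit 3) (nat_lit 419) (nat_lit 1) (nat_lit 203) (nat_lit 194) (nat_lit 203))))))))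
noncomputable def pc16 : PT := (PT.nd (nat_lit 62790) (PT.nd (nat_lit 61542) (PT.nd (nat_lit 624) (PT.nd (nat_lit 312) (PT.nd (nat_lit 156) (PT.nd (nat_lit 78) (PT.lf (nat_lit 31768) (nat_lit 6) (nat_lit 418) (nat_lit 1) (nat_lit 204) (nat_lit 194) (nat_lit 202)) (PT.lf (nat_lit 31692) (nat_lit 6) (nat_lit 417) (nat_lit 1) (nat_lit 205) (nat_lit 194) (nat_lit 201))) (PT.nd (nat_lit 78) (PT.lf (nat_lit 31616) (nat_lit 6) (nat_lit 416) (nat_lit 1) (nat_lit 206) (nat_lit 194) (nat_lit 200)) (PT.lf (nat_lit 31008) (nat_lit 6) (nat_lit 408) (nat_lit 1) (nat_lit 207) (nat_lit 194) (nat_lit 199)))) (PT.nd (nat_lit 156) (PT.nd (nat_lit 78) (PT.lf (nat_lit 30324) (nat_lit 6) (nat_lit 399) (nat_lit 1) (nat_lit 208) (nat_lit 194) (nat_lit 198)) (PT.lf (nat_lit 29564) (nat_lit 6) (nat_lit 389) (nat_lit 1) (nat_lit 209) (nat_lit 194) (nat_lit 197))) (PT.nd (nat_lit 78) (PT.lf (nat_lit 28728) (nat_lit 6) (nat_lit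 378) (nat_lit 1) (nat_lit 210) (nat_lit 194) (nat_lit 196)) (PT.lf (nat_lit 27816) (nat_lit 6) (nat_lit 366) (nat_lit 1) (nat_lit 211) (nat_lit 194) (nat_lit 195))))) (PT.nd (nat_lit 312) (PT.nd (nat_lit 156) (PT.nd (nat_lit 78) (PT.lf (nat_lit 26828) (nat_lit 3) (nat_lit 353) (nat_lit 0) (nat_lit 212) (nat_lit 194) (nat_lit 194)) (PT.lf (nat_lit 25840) (nat_lit 6) (nat_lit 340) (nat_lit 0) (nat_lit 213) (nat_lit 194) (nat_lit 193))) (PT.nd (nat_lit 78) (PT.lf (nat_lit 24776) (nat_lit 6) (nat_lit 326) (nat_lit 0) (nat_lit 214) (nat_lit 194) (nat_lit 192)) (PT.lf (nat_lit 23636) (nat_lit 6) (nat_lit 311) (nat_lit 0) (nat_lit 215) (nat_lit 194) (nat_lit 191)))) (PT.nd (nat_lit 60450) (PT.nd (nat_lit 60372) (PT.lf (nat_lit 22420) (nat_lit 6) (nat_lit 295) (nat_lit 0) (nat_lit 216) (nat_lit 194) (nat_lit 190)) (PT.lf (nat_lit 22496) (nat_lit 6) (nat_lit 296) (nat_lit 5) (nat_lit 189) (nat_lit 195) (nat_lit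 216))) (PT.nd (nat_lit 78) (PT.lf (nat_lit 23712) (nat_lit 6) (nat_lit 312) (nat_lit 5) (nat_lit 190) (nat_lit 195) (nat_lit 215)) (PT.lf (nat_lit 24852) (nat_lit 6) (nat_lit 327) (nat_lit 5) (nat_lit 191) (nat_lit 195) (nat_lit 214)))))) (PT.nd (nat_lit 624) (PT.nd (nat_lit 312) (PT.nd (nat_lit 156) (PT.nd (nat_lit 78) (PT.lf (nat_lit 25916) (nat_lit 6) (nat_lit 341) (nat_lit 5) (nat_lit 192) (nat_lit 195) (nat_lit 213)) (PT.lf (nat_lit 26904) (nat_lit 6) (nat_lit 354) (nat_lit 5) (nat_lit 193) (nat_lit 195) (nat_lit 212))) (PT.nd (nat_lit 78) (PT.lf (nat_lit 27816) (nat_lit 6) (nat_lit 366) (nat_lit 5) (nat_lit 194) (nat_lit 195) (nat_lit 211)) (PT.lf (nat_lit 28652) (nat_lit 3) (nat_lit 377) (nat_lit 3) (nat_lit 195) (nat_lit 195) (nat_lit 210)))) (PT.nd (nat_lit 156) (PT.nd (nat_lit 78) (PT.lf (nat_lit 29488) (nat_lit 6) (nat_lit 388) (nat_lit 3) (nat_lit 196) (nat_lit 195) (nat_lit 209)) (PT.lf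 (nat_lit 30248) (nat_lit 6) (nat_lit 398) (nat_lit 3) (nat_lit 197) (nat_lit 195) (nat_lit 208))) (PT.nd (nat_lit 78) (PT.lf (nat_lit 30932) (nat_lit 6) (nat_lit 407) (nat_lit 3) (nat_lit 198) (nat_lit 195) (nat_lit 207)) (PT.lf (nat_lit 31540) (nat_lit 6) (nat_lit 415) (nat_lit 3) (nat_lit 199) (nat_lit 195) (nat_lit 206))))) (PT.nd (nat_lit 312) (PT.nd (nat_lit 156) (PT.nd (nat_lit 78) (PT.lf (nat_lit 32072) (nat_lit 6) (nat_lit 422) (nat_lit 3) (nat_lit 200) (nat_lit 195) (nat_lit 205)) (PT.lf (nat_lit 32148) (nat_lit 6) (nat_lit 423) (nat_lit 3) (nat_lit 201) (nat_lit 195) (nat_lit 204))) (PT.nd (nat_lit 78) (PT.lf (nat_lit 32224) (nat_lit 6) (nat_lit 424) (nat_lit 3) (nat_lit 202) (nat_lit 195) (nat_lit 203)) (PT.lf (nat_lit 32224) (nat_lit 6) (nat_lit 424) (nat_lit 1) (nat_lit 203) (nat_lit 195) (nat_lit 202)))) (PT.nd (nat_lit 156) (PT.nd (nat_lit 78) (PT.lf (nat_lit 32148) (nat_lit 6) (nat_lit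 423) (nat_lit 1) (nat_lit 204) (nat_lit 195) (nat_lit 201)) (PT.lf (nat_lit 32072) (nat_lit 6) (nat_lit 422) (nat_lit 1) (nat_lit 205) (nat_lit 195) (nat_lit 200))) (PT.nd (nat_lit 78) (PT.lf (nat_lit 31540) (nat_lit 6) (nat_lit 415) (nat_lit 1) (nat_lit 206) (nat_lit 195) (nat_lit 199)) (PT.lf (nat_lit 30932) (nat_lit 6) (nat_lit 407) (nat_lit 1) (nat_lit 207) (nat_lit 195) (nat_lit 198))))))) (PT.nd (nat_lit 61464) (PT.nd (nat_lit 624) (PT.nd (nat_lit 312) (PT.nd (nat_lit 156) (PT.nd (nat_lit 78) (PT.lf (nat_lit 30248) (nat_lit 6) (nat_lit 398) (nat_lit 1) (nat_lit 208) (nat_lit 195) (nat_lit 197)) (PT.lf (nat_lit 29488) (nat_lit 6) (nat_lit 388) (nat_lit 1) (nat_lit 209) (nat_lit 195) (nat_lit 196))) (PT.nd (nat_lit 78) (PT.lf (nat_lit 28652) (nat_lit 3) (nat_lit 377) (nat_lit 0) (nat_lit 210) (nat_lit 195) (nat_lit 195)) (PT.lf (nat_lit 27816) (nat_lit 6) (nat_lit 366) (nat_lit 0) (nat_lit 211)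 (nat_lit 195) (nat_lit 194)))) (PT.nd (nat_lit 156) (PT.nd (nat_lit 78) (PT.lf (nat_lit 26904) (nat_lit 6) (nat_lit 354) (nat_lit 0) (nat_lit 212) (nat_lit 195) (nat_lit 193)) (PT.lf (nat_lit 25916) (nat_lit 6) (nat_lit 341) (nat_lit 0) (nat_lit 213) (nat_lit 195) (nat_lit 192))) (PT.nd (nat_lit 78) (PT.lf (nat_lit 24852) (nat_lit 6) (nat_lit 327) (nat_lit 0) (nat_lit 214) (nat_lit 195) (nat_lit 191)) (PT.lf (nat_lit 23712) (nat_lit 6) (nat_lit 312) (nat_lit 0) (nat_lit 215) (nat_lit 195) (nat_lit 190))))) (PT.nd (nat_lit 60528) (PT.nd (nat_lit 60372) (PT.nd (nat_lit 60294) (PT.lf (nat_lit 22496) (nat_lit 6) (nat_lit 296) (nat_lit 0) (nat_lit 216) (nat_lit 195) (nat_lit 189)) (PT.lf (nat_lit 22572) (nat_lit 6) (nat_lit 297) (nat_lit 5) (nat_lit 188) (nat_lit 196) (nat_lit 216))) (PT.nd (nat_lit 78) (PT.lf (nat_lit 23788) (nat_lit 6) (nat_lit 313) (nat_lit 5) (nat_lit 189) (nat_lit 196) (nat_lit 215))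 (PT.lf (nat_lit 24928) (nat_lit 6) (nat_lit 328) (nat_lit 5) (nat_lit 190) (nat_lit 196) (nat_lit 214)))) (PT.nd (nat_lit 156) (PT.nd (nat_lit 78) (PT.lf (nat_lit 25992) (nat_lit 6) (nat_lit 342) (nat_lit 5) (nat_lit 191) (nat_lit 196) (nat_lit 213)) (PT.lf (nat_lit 26980) (nat_lit 6) (nat_lit 355) (nat_lit 5) (nat_lit 192) (nat_lit 196) (nat_lit 212))) (PT.nd (nat_lit 78) (PT.lf (nat_lit 27892) (nat_lit 6) (nat_lit 367) (nat_lit 5) (nat_lit 193) (nat_lit 196) (nat_lit 211)) (PT.lf (nat_lit 28728) (nat_lit 6) (nat_lit 378) (nat_lit 5) (nat_lit 194) (nat_lit 196) (nat_lit 210)))))) (PT.nd (nat_lit 624) (PT.nd (nat_lit 312) (PT.nd (nat_lit 156) (PT.nd (nat_lit 78) (PT.lf (nat_lit 29488) (nat_lit 6) (nat_lit 388) (nat_lit 5) (nat_lit 195) (nat_lit 196) (nat_lit 209)) (PT.lf (nat_lit 30172) (nat_lit 3) (nat_lit 397) (nat_lit 3) (nat_lit 196) (nat_lit 196) (nat_lit 208))) (PT.nd (nat_lit 78) (PT.lf (nat_lit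 30856) (nat_lit 6) (nat_lit 406) (nat_lit 3) (nat_lit 197) (nat_lit 196) (nat_lit 207)) (PT.lf (nat_lit 31464) (nat_lit 6) (nat_lit 414) (nat_lit 3) (nat_lit 198) (nat_lit 196) (nat_lit 206)))) (PT.nd (nat_lit 156) (PT.nd (nat_lit 78) (PT.lf (nat_lit 31996) (nat_lit 6) (nat_lit 421) (nat_lit 3) (nat_lit 199) (nat_lit 196) (nat_lit 205)) (PT.lf (nat_lit 32452) (nat_lit 6) (nat_lit 427) (nat_lit 3) (nat_lit 200) (nat_lit 196) (nat_lit 204))) (PT.nd (nat_lit 78) (PT.lf (nat_lit 32528) (nat_lit 6) (nat_lit 428) (nat_lit 3) (nat_lit 201) (nat_lit 196) (nat_lit 203)) (PT.lf (nat_lit 32604) (nat_lit 3) (nat_lit 429) (nat_lit 1) (nat_lit 202) (nat_lit 196) (nat_lit 202))))) (PT.nd (nat_lit 312) (PT.nd (nat_lit 156) (PT.nd (nat_lit 78) (PT.lf (nat_lit 32528) (nat_lit 6) (nat_lit 428) (nat_lit 1) (nat_lit 203) (nat_lit 196) (nat_lit 201)) (PT.lf (nat_lit 32452) (nat_lit 6) (nat_lit 427) (nat_lit 1) (nat_lit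 204) (nat_lit 196) (nat_lit 200))) (PT.nd (nat_lit 78) (PT.lf (nat_lit 31996) (nat_lit 6) (nat_lit 421) (nat_lit 1) (nat_lit 205) (nat_lit 196) (nat_lit 199)) (PT.lf (nat_lit 31464) (nat_lit 6) (nat_lit 414) (nat_lit 1) (nat_lit 206) (nat_lit 196) (nat_lit 198)))) (PT.nd (nat_lit 156) (PT.nd (nat_lit 78) (PT.lf (nat_lit 30856) (nat_lit 6) (nat_lit 406) (nat_lit 1) (nat_lit 207) (nat_lit 196) (nat_lit 197)) (PT.lf (nat_lit 30172) (nat_lit 3) (nat_lit 397) (nat_lit 0) (nat_lit 208) (nat_lit 196) (nat_lit 196))) (PT.nd (nat_lit 78) (PT.lf (nat_lit 29488) (nat_lit 6) (nat_lit 388) (nat_lit 0) (nat_lit 209) (nat_lit 196) (nat_lit 195)) (PT.lf (nat_lit 28728) (nat_lit 6) (nat_lit 378) (nat_lit 0) (nat_lit 210) (nat_lit 196) (nat_lit 194))))))))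
noncomputable def pc17 : PT := (PT.nd (nat_lit 61386) (PT.nd (nat_lit 60762) (PT.nd (nat_lit 312) (PT.nd (nat_lit 156) (PT.nd (nat_lit 78) (PT.lf (nat_lit 27892) (nat_lit 6) (nat_lit 367) (nat_lit 0) (nat_lit 211) (nat_lit 196) (nat_lit 193)) (PT.lf (nat_lit 26980) (nat_lit 6) (nat_lit 355) (nat_lit 0) (nat_lit 212) (nat_lit 196) (nat_lit 192))) (PT.nd (nat_lit 78) (PT.lf (nat_lit 25992) (nat_lit 6) (nat_lit 342) (nat_lit 0) (nat_lit 213) (nat_lit 196) (nat_lit 191)) (PT.lf (nat_lit 24928) (nat_lit 6) (nat_lit 328) (nat_lit 0) (nat_lit 214) (nat_lit 196) (nat_lit 190)))) (PT.nd (nat_lit 60294) (PT.nd (nat_lit 78) (PT.lf (nat_lit 23788) (nat_lit 6) (nat_lit 313) (nat_lit 0) (nat_lit 215) (nat_lit 196) (nat_lit 189)) (PT.lf (nat_lit 22572) (nat_lit 6) (nat_lit 297) (nat_lit 0) (nat_lit 216) (nat_lit 196) (nat_lit 188))) (PT.nd (nat_lit 78) (PT.lf (nat_lit 22648) (nat_lit 6) (nat_lit 298) (nat_lit 5)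 (nat_lit 187) (nat_lit 197) (nat_lit 216)) (PT.lf (nat_lit 23864) (nat_lit 6) (nat_lit 314) (nat_lit 5) (nat_lit 188) (nat_lit 197) (nat_lit 215))))) (PT.nd (nat_lit 312) (PT.nd (nat_lit 156) (PT.nd (nat_lit 78) (PT.lf (nat_lit 25004) (nat_lit 6) (nat_lit 329) (nat_lit 5) (nat_lit 189) (nat_lit 197) (nat_lit 214)) (PT.lf (nat_lit 26068) (nat_lit 6) (nat_lit 343) (nat_lit 5) (nat_lit 190) (nat_lit 197) (nat_lit 213))) (PT.nd (nat_lit 78) (PT.lf (nat_lit 27056) (nat_lit 6) (nat_lit 356) (nat_lit 5) (nat_lit 191) (nat_lit 197) (nat_lit 212)) (PT.lf (nat_lit 27968) (nat_lit 6) (nat_lit 368) (nat_lit 5) (nat_lit 192) (nat_lit 197) (nat_lit 211)))) (PT.nd (nat_lit 156) (PT.nd (nat_lit 78) (PT.lf (nat_lit 28804) (nat_lit 6) (nat_lit 379) (nat_lit 5) (nat_lit 193) (nat_lit 197) (nat_lit 210)) (PT.lf (nat_lit 29564) (nat_lit 6) (nat_lit 389) (nat_lit 5) (nat_lit 194) (nat_lit 197) (nat_lit 209))) (PT.nd (nat_lit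 78) (PT.lf (nat_lit 30248) (nat_lit 6) (nat_lit 398) (nat_lit 5) (nat_lit 195) (nat_lit 197) (nat_lit 208)) (PT.lf (nat_lit 30856) (nat_lit 6) (nat_lit 406) (nat_lit 5) (nat_lit 196) (nat_lit 197) (nat_lit 207)))))) (PT.nd (nat_lit 624) (PT.nd (nat_lit 312) (PT.nd (nat_lit 156) (PT.nd (nat_lit 78) (PT.lf (nat_lit 31388) (nat_lit 3) (nat_lit 413) (nat_lit 3) (nat_lit 197) (nat_lit 197) (nat_lit 206)) (PT.lf (nat_lit 31920) (nat_lit 6) (nat_lit 420) (nat_lit 3) (nat_lit 198) (nat_lit 197) (nat_lit 205))) (PT.nd (nat_lit 78) (PT.lf (nat_lit 32376) (nat_lit 6) (nat_lit 426) (nat_lit 3) (nat_lit 199) (nat_lit 197) (nat_lit 204)) (PT.lf (nat_lit 32756) (nat_lit 6) (nat_lit 431) (nat_lit 3) (nat_lit 200) (nat_lit 197) (nat_lit 203)))) (PT.nd (nat_lit 156) (PT.nd (nat_lit 78) (PT.lf (nat_lit 32832) (nat_lit 6) (nat_lit 432) (nat_lit 3) (nat_lit 201) (nat_lit 197) (nat_lit 202)) (PT.lf (nat_lit 32832) (nat_lit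 6) (nat_lit 432) (nat_lit 1) (nat_lit 202) (nat_lit 197) (nat_lit 201))) (PT.nd (nat_lit 78) (PT.lf (nat_lit 32756) (nat_lit 6) (nat_lit 431) (nat_lit 1) (nat_lit 203) (nat_lit 197) (nat_lit 200)) (PT.lf (nat_lit 32376) (nat_lit 6) (nat_lit 426) (nat_lit 1) (nat_lit 204) (nat_lit 197) (nat_lit 199))))) (PT.nd (nat_lit 312) (PT.nd (nat_lit 156) (PT.nd (nat_lit 78) (PT.lf (nat_lit 31920) (nat_lit 6) (nat_lit 420) (nat_lit 1) (nat_lit 205) (nat_lit 197) (nat_lit 198)) (PT.lf (nat_lit 31388) (nat_lit 3) (nat_lit 413) (nat_lit 0) (nat_lit 206) (nat_lit 197) (nat_lit 197))) (PT.nd (nat_lit 78) (PT.lf (nat_lit 30856) (nat_lit 6) (nat_lit 406) (nat_lit 0) (nat_lit 207) (nat_lit 197) (nat_lit 196)) (PT.lf (nat_lit 30248) (nat_lit 6) (nat_lit 398) (nat_lit 0) (nat_lit 208) (nat_lit 197) (nat_lit 195)))) (PT.nd (nat_lit 156) (PT.nd (nat_lit 78) (PT.lf (nat_lit 29564) (nat_lit 6) (nat_lit 389) (nat_lit 0) (nat_lit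 209) (nat_lit 197) (nat_lit 194)) (PT.lf (nat_lit 28804) (nat_lit 6) (nat_lit 379) (nat_lit 0) (nat_lit 210) (nat_lit 197) (nat_lit 193))) (PT.nd (nat_lit 78) (PT.lf (nat_lit 27968) (nat_lit 6) (nat_lit 368) (nat_lit 0) (nat_lit 211) (nat_lit 197) (nat_lit 192)) (PT.lf (nat_lit 27056) (nat_lit 6) (nat_lit 356) (nat_lit 0) (nat_lit 212) (nat_lit 197) (nat_lit 191)))))))
noncomputable def pc18 : PT := (PT.nd (nat_lit 61308) (PT.nd (nat_lit 60684) (PT.nd (nat_lit 60372) (PT.nd (nat_lit 156) (PT.nd (nat_lit 78) (PT.lf (nat_lit 26068) (nat_lit 6) (nat_lit 343) (nat_lit 0) (nat_lit 213) (nat_lit 197) (nat_lit 190)) (PT.lf (nat_lit 25004) (nat_lit 6) (nat_lit 329) (nat_lit 0) (nat_lit 214) (nat_lit 197) (nat_lit 189))) (PT.nd (nat_lit 78) (PT.lf (nat_lit 23864) (nat_lit 6) (nat_lit 314) (nat_lit 0) (nat_lit 215) (nat_lit 197) (nat_lit 188)) (PT.lf (nat_lit 22648) (nat_lit 6) (nat_lit 298) (nat_lit 0) (nat_lit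 216) (nat_lit 197) (nat_lit 187)))) (PT.nd (nat_lit 156) (PT.nd (nat_lit 78) (PT.lf (nat_lit 22724) (nat_lit 6) (nat_lit 299) (nat_lit 5) (nat_lit 186) (nat_lit 198) (nat_lit 216)) (PT.lf (nat_lit 23940) (nat_lit 6) (nat_lit 315) (nat_lit 5) (nat_lit 187) (nat_lit 198) (nat_lit 215))) (PT.nd (nat_lit 78) (PT.lf (nat_lit 25080) (nat_lit 6) (nat_lit 330) (nat_lit 5) (nat_lit 188) (nat_lit 198) (nat_lit 214)) (PT.lf (nat_lit 26144) (nat_lit 6) (nat_lit 344) (nat_lit 5) (nat_lit 189) (nat_lit 198) (nat_lit 213))))) (PT.nd (nat_lit 312) (PT.nd (nat_lit 156) (PT.nd (nat_lit 78) (PT.lf (nat_lit 27132) (nat_lit 6) (nat_lit 357) (nat_lit 5) (nat_lit 190) (nat_lit 198) (nat_lit 212)) (PT.lf (nat_lit 28044) (nat_lit 6) (nat_lit 369) (nat_lit 5) (nat_lit 191) (nat_lit 198) (nat_lit 211))) (PT.nd (nat_lit 78) (PT.lf (nat_lit 28880) (nat_lit 6) (nat_lit 380) (nat_lit 5) (nat_lit 192) (nat_lit 198) (nat_lit 210))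 (PT.lf (nat_lit 29640) (nat_lit 6) (nat_lit 390) (nat_lit 5) (nat_lit 193) (nat_lit 198) (nat_lit 209)))) (PT.nd (nat_lit 156) (PT.nd (nat_lit 78) (PT.lf (nat_lit 30324) (nat_lit 6) (nat_lit 399) (nat_lit 5) (nat_lit 194) (nat_lit 198) (nat_lit 208)) (PT.lf (nat_lit 30932) (nat_lit 6) (nat_lit 407) (nat_lit 5) (nat_lit 195) (nat_lit 198) (nat_lit 207))) (PT.nd (nat_lit 78) (PT.lf (nat_lit 31464) (nat_lit 6) (nat_lit 414) (nat_lit 5) (nat_lit 196) (nat_lit 198) (nat_lit 206)) (PT.lf (nat_lit 31920) (nat_lit 6) (nat_lit 420) (nat_lit 5) (nat_lit 197) (nat_lit 198) (nat_lit 205)))))) (PT.nd (nat_lit 624) (PT.nd (nat_lit 312) (PT.nd (nat_lit 156) (PT.nd (nat_lit 78) (PT.lf (nat_lit 32300) (nat_lit 3) (nat_lit 425) (nat_lit 3) (nat_lit 198) (nat_lit 198) (nat_lit 204)) (PT.lf (nat_lit 32680) (nat_lit 6) (nat_lit 430) (nat_lit 3) (nat_lit 199) (nat_lit 198) (nat_lit 203))) (PT.nd (nat_lit 78) (PT.lf (nat_lit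 32984) (nat_lit 6) (nat_lit 434) (nat_lit 3) (nat_lit 200) (nat_lit 198) (nat_lit 202)) (PT.lf (nat_lit 33060) (nat_lit 3) (nat_lit 435) (nat_lit 1) (nat_lit 201) (nat_lit 198) (nat_lit 201)))) (PT.nd (nat_lit 156) (PT.nd (nat_lit 78) (PT.lf (nat_lit 32984) (nat_lit 6) (nat_lit 434) (nat_lit 1) (nat_lit 202) (nat_lit 198) (nat_lit 200)) (PT.lf (nat_lit 32680) (nat_lit 6) (nat_lit 430) (nat_lit 1) (nat_lit 203) (nat_lit 198) (nat_lit 199))) (PT.nd (nat_lit 78) (PT.lf (nat_lit 32300) (nat_lit 3) (nat_lit 425) (nat_lit 0) (nat_lit 204) (nat_lit 198) (nat_lit 198)) (PT.lf (nat_lit 31920) (nat_lit 6) (nat_lit 420) (nat_lit 0) (nat_lit 205) (nat_lit 198) (nat_lit 197))))) (PT.nd (nat_lit 312) (PT.nd (nat_lit 156) (PT.nd (nat_lit 78) (PT.lf (nat_lit 31464) (nat_lit 6) (nat_lit 414) (nat_lit 0) (nat_lit 206) (nat_lit 198) (nat_lit 196)) (PT.lf (nat_lit 30932) (nat_lit 6) (nat_lit 407) (nat_lit 0) (nat_lit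 207) (nat_lit 198) (nat_lit 195))) (PT.nd (nat_lit 78) (PT.lf (nat_lit 30324) (nat_lit 6) (nat_lit 399) (nat_lit 0) (nat_lit 208) (nat_lit 198) (nat_lit 194)) (PT.lf (nat_lit 29640) (nat_lit 6) (nat_lit 390) (nat_lit 0) (nat_lit 209) (nat_lit 198) (nat_lit 193)))) (PT.nd (nat_lit 156) (PT.nd (nat_lit 78) (PT.lf (nat_lit 28880) (nat_lit 6) (nat_lit 380) (nat_lit 0) (nat_lit 210) (nat_lit 198) (nat_lit 192)) (PT.lf (nat_lit 28044) (nat_lit 6) (nat_lit 369) (nat_lit 0) (nat_lit 211) (nat_lit 198) (nat_lit 191))) (PT.nd (nat_lit 78) (PT.lf (nat_lit 27132) (nat_lit 6) (nat_lit 357) (nat_lit 0) (nat_lit 212) (nat_lit 198) (nat_lit 190)) (PT.nd (nat_lit 78) (PT.lf (nat_lit 26144) (nat_lit 6) (nat_lit 344) (nat_lit 0) (nat_lit 213) (nat_lit 198) (nat_lit 189)) (PT.lf (nat_lit 25080) (nat_lit 6) (nat_lit 330) (nat_lit 0) (nat_lit 214) (nat_lit 198) (nat_lit 188))))))))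
noncomputable def pc19 : PT := (PT.nd (nat_lit 62400) (PT.nd (nat_lit 61152) (PT.nd (nat_lit 60528) (PT.nd (nat_lit 60216) (PT.nd (nat_lit 60060) (PT.nd (nat_lit 78) (PT.lf (nat_lit 23940) (nat_lit 6) (nat_lit 315) (nat_lit 0) (nat_lit 215) (nat_lit 198) (nat_lit 187)) (PT.lf (nat_lit 22724) (nat_lit 6) (nat_lit 299) (nat_lit 0) (nat_lit 216) (nat_lit 198) (nat_lit 186))) (PT.nd (nat_lit 78) (PT.lf (nat_lit 21508) (nat_lit 6) (nat_lit 283) (nat_lit 5) (nat_lit 184) (nat_lit 199) (nat_lit 217)) (PT.lf (nat_lit 22800) (nat_lit 6) (nat_lit 300) (nat_lit 5) (nat_lit 185) (nat_lit 199) (nat_lit 216)))) (PT.nd (nat_lit 156) (PT.nd (nat_lit 78) (PT.lf (nat_lit 24016) (nat_lit 6) (nat_lit 316) (nat_lit 5) (nat_lit 186) (nat_lit 199) (nat_lit 215)) (PT.lf (nat_lit 25156) (nat_lit 6) (nat_lit 331) (nat_lit 5) (nat_lit 187) (nat_lit 199) (nat_lit 214))) (PT.nd (nat_lit 78) (PT.lf (nat_lit 26220) (nat_lit 6) (nat_lit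 345) (nat_lit 5) (nat_lit 188) (nat_lit 199) (nat_lit 213)) (PT.lf (nat_lit 27208) (nat_lit 6) (nat_lit 358) (nat_lit 5) (nat_lit 189) (nat_lit 199) (nat_lit 212))))) (PT.nd (nat_lit 312) (PT.nd (nat_lit 156) (PT.nd (nat_lit 78) (PT.lf (nat_lit 28120) (nat_lit 6) (nat_lit 370) (nat_lit 5) (nat_lit 190) (nat_lit 199) (nat_lit 211)) (PT.lf (nat_lit 28956) (nat_lit 6) (nat_lit 381) (nat_lit 5) (nat_lit 191) (nat_lit 199) (nat_lit 210))) (PT.nd (nat_lit 78) (PT.lf (nat_lit 29716) (nat_lit 6) (nat_lit 391) (nat_lit 5) (nat_lit 192) (nat_lit 199) (nat_lit 209)) (PT.lf (nat_lit 30400) (nat_lit 6) (nat_lit 400) (nat_lit 5) (nat_lit 193) (nat_lit 199) (nat_lit 208)))) (PT.nd (nat_lit 156) (PT.nd (nat_lit 78) (PT.lf (nat_lit 31008) (nat_lit 6) (nat_lit 408) (nat_lit 5) (nat_lit 194) (nat_lit 199) (nat_lit 207)) (PT.lf (nat_lit 31540) (nat_lit 6) (nat_lit 415) (nat_lit 5) (nat_lit 195) (nat_lit 199) (nat_lit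 206))) (PT.nd (nat_lit 78) (PT.lf (nat_lit 31996) (nat_lit 6) (nat_lit 421) (nat_lit 5) (nat_lit 196) (nat_lit 199) (nat_lit 205)) (PT.lf (nat_lit 32376) (nat_lit 6) (nat_lit 426) (nat_lit 5) (nat_lit 197) (nat_lit 199) (nat_lit 204)))))) (PT.nd (nat_lit 624) (PT.nd (nat_lit 312) (PT.nd (nat_lit 156) (PT.nd (nat_lit 78) (PT.lf (nat_lit 32680) (nat_lit 6) (nat_lit 430) (nat_lit 5) (nat_lit 198) (nat_lit 199) (nat_lit 203)) (PT.lf (nat_lit 32908) (nat_lit 3) (nat_lit 433) (nat_lit 3) (nat_lit 199) (nat_lit 199) (nat_lit 202))) (PT.nd (nat_lit 78) (PT.lf (nat_lit 33136) (nat_lit 6) (nat_lit 436) (nat_lit 3) (nat_lit 200) (nat_lit 199) (nat_lit 201)) (PT.lf (nat_lit 33136) (nat_lit 6) (nat_lit 436) (nat_lit 1) (nat_lit 201) (nat_lit 199) (nat_lit 200)))) (PT.nd (nat_lit 156) (PT.nd (nat_lit 78) (PT.lf (nat_lit 32908) (nat_lit 3) (nat_lit 433) (nat_lit 0) (nat_lit 202) (nat_lit 199) (nat_lit 199)) (PT.lf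 (nat_lit 32680) (nat_lit 6) (nat_lit 430) (nat_lit 0) (nat_lit 203) (nat_lit 199) (nat_lit 198))) (PT.nd (nat_lit 78) (PT.lf (nat_lit 32376) (nat_lit 6) (nat_lit 426) (nat_lit 0) (nat_lit 204) (nat_lit 199) (nat_lit 197)) (PT.lf (nat_lit 31996) (nat_lit 6) (nat_lit 421) (nat_lit 0) (nat_lit 205) (nat_lit 199) (nat_lit 196))))) (PT.nd (nat_lit 312) (PT.nd (nat_lit 156) (PT.nd (nat_lit 78) (PT.lf (nat_lit 31540) (nat_lit 6) (nat_lit 415) (nat_lit 0) (nat_lit 206) (nat_lit 199) (nat_lit 195)) (PT.lf (nat_lit 31008) (nat_lit 6) (nat_lit 408) (nat_lit 0) (nat_lit 207) (nat_lit 199) (nat_lit 194))) (PT.nd (nat_lit 78) (PT.lf (nat_lit 30400) (nat_lit 6) (nat_lit 400) (nat_lit 0) (nat_lit 208) (nat_lit 199) (nat_lit 193)) (PT.lf (nat_lit 29716) (nat_lit 6) (nat_lit 391) (nat_lit 0) (nat_lit 209) (nat_lit 199) (nat_lit 192)))) (PT.nd (nat_lit 156) (PT.nd (nat_lit 78) (PT.lf (nat_lit 28956) (nat_lit 6) (nat_lit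 381) (nat_lit 0) (nat_lit 210) (nat_lit 199) (nat_lit 191)) (PT.lf (nat_lit 28120) (nat_lit 6) (nat_lit 370) (nat_lit 0) (nat_lit 211) (nat_lit 199) (nat_lit 190))) (PT.nd (nat_lit 78) (PT.lf (nat_lit 27208) (nat_lit 6) (nat_lit 358) (nat_lit 0) (nat_lit 212) (nat_lit 199) (nat_lit 189)) (PT.lf (nat_lit 26220) (nat_lit 6) (nat_lit 345) (nat_lit 0) (nat_lit 213) (nat_lit 199) (nat_lit 188))))))) (PT.nd (nat_lit 60996) (PT.nd (nat_lit 60372) (PT.nd (nat_lit 60060) (PT.nd (nat_lit 156) (PT.nd (nat_lit 78) (PT.lf (nat_lit 25156) (nat_lit 6) (nat_lit 331) (nat_lit 0) (nat_lit 214) (nat_lit 199) (nat_lit 187)) (PT.lf (nat_lit 24016) (nat_lit 6) (nat_lit 316) (nat_lit 0) (nat_lit 215) (nat_lit 199) (nat_lit 186))) (PT.nd (nat_lit 78) (PT.lf (nat_lit 22800) (nat_lit 6) (nat_lit 300) (nat_lit 0) (nat_lit 216) (nat_lit 199) (nat_lit 185)) (PT.lf (nat_lit 21508) (nat_lit 6) (nat_lit 283) (nat_lit 0) (nat_lit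 217) (nat_lit 199) (nat_lit 184)))) (PT.nd (nat_lit 156) (PT.nd (nat_lit 78) (PT.lf (nat_lit 21584) (nat_lit 6) (nat_lit 284) (nat_lit 5) (nat_lit 183) (nat_lit 200) (nat_lit 217)) (PT.lf (nat_lit 22876) (nat_lit 6) (nat_lit 301) (nat_lit 5) (nat_lit 184) (nat_lit 200) (nat_lit 216))) (PT.nd (nat_lit 78) (PT.lf (nat_lit 24092) (nat_lit 6) (nat_lit 317) (nat_lit 5) (nat_lit 185) (nat_lit 200) (nat_lit 215)) (PT.lf (nat_lit 25232) (nat_lit 6) (nat_lit 332) (nat_lit 5) (nat_lit 186) (nat_lit 200) (nat_lit 214))))) (PT.nd (nat_lit 312) (PT.nd (nat_lit 156) (PT.nd (nat_lit 78) (PT.lf (nat_lit 26296) (nat_lit 6) (nat_lit 346) (nat_lit 5) (nat_lit 187) (nat_lit 200) (nat_lit 213)) (PT.lf (nat_lit 27284) (nat_lit 6) (nat_lit 359) (nat_lit 5) (nat_lit 188) (nat_lit 200) (nat_lit 212))) (PT.nd (nat_lit 78) (PT.lf (nat_lit 28196) (nat_lit 6) (nat_lit 371) (nat_lit 5) (nat_lit 189) (nat_lit 200) (nat_lit 211))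 (PT.lf (nat_lit 29032) (nat_lit 6) (nat_lit 382) (nat_lit 5) (nat_lit 190) (nat_lit 200) (nat_lit 210)))) (PT.nd (nat_lit 156) (PT.nd (nat_lit 78) (PT.lf (nat_lit 29792) (nat_lit 6) (nat_lit 392) (nat_lit 5) (nat_lit 191) (nat_lit 200) (nat_lit 209)) (PT.lf (nat_lit 30476) (nat_lit 6) (nat_lit 401) (nat_lit 5) (nat_lit 192) (nat_lit 200) (nat_lit 208))) (PT.nd (nat_lit 78) (PT.lf (nat_lit 31084) (nat_lit 6) (nat_lit 409) (nat_lit 5) (nat_lit 193) (nat_lit 200) (nat_lit 207)) (PT.lf (nat_lit 31616) (nat_lit 6) (nat_lit 416) (nat_lit 5) (nat_lit 194) (nat_lit 200) (nat_lit 206)))))) (PT.nd (nat_lit 624) (PT.nd (nat_lit 312) (PT.nd (nat_lit 156) (PT.nd (nat_lit 78) (PT.lf (nat_lit 32072) (nat_lit 6) (nat_lit 422) (nat_lit 5) (nat_lit 195) (nat_lit 200) (nat_lit 205)) (PT.lf (nat_lit 32452) (nat_lit 6) (nat_lit 427) (nat_lit 5) (nat_lit 196) (nat_lit 200) (nat_lit 204))) (PT.nd (nat_lit 78) (PT.lf (nat_lit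 32756) (nat_lit 6) (nat_lit 431) (nat_lit 5) (nat_lit 197) (nat_lit 200) (nat_lit 203)) (PT.lf (nat_lit 32984) (nat_lit 6) (nat_lit 434) (nat_lit 5) (nat_lit 198) (nat_lit 200) (nat_lit 202)))) (PT.nd (nat_lit 156) (PT.nd (nat_lit 78) (PT.lf (nat_lit 33136) (nat_lit 6) (nat_lit 436) (nat_lit 5) (nat_lit 199) (nat_lit 200) (nat_lit 201)) (PT.lf (nat_lit 33212) (nat_lit 1) (nat_lit 437) (nat_lit 0) (nat_lit 200) (nat_lit 200) (nat_lit 200))) (PT.nd (nat_lit 78) (PT.lf (nat_lit 33136) (nat_lit 6) (nat_lit 436) (nat_lit 0) (nat_lit 201) (nat_lit 200) (nat_lit 199)) (PT.lf (nat_lit 32984) (nat_lit 6) (nat_lit 434) (nat_lit 0) (nat_lit 202) (nat_lit 200) (nat_lit 198))))) (PT.nd (nat_lit 312) (PT.nd (nat_lit 156) (PT.nd (nat_lit 78) (PT.lf (nat_lit 32756) (nat_lit 6) (nat_lit 431) (nat_lit 0) (nat_lit 203) (nat_lit 200) (nat_lit 197)) (PT.lf (nat_lit 32452) (nat_lit 6) (nat_lit 427) (nat_lit 0) (nat_lit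 204) (nat_lit 200) (nat_lit 196))) (PT.nd (nat_lit 78) (PT.lf (nat_lit 32072) (nat_lit 6) (nat_lit 422) (nat_lit 0) (nat_lit 205) (nat_lit 200) (nat_lit 195)) (PT.lf (nat_lit 31616) (nat_lit 6) (nat_lit 416) (nat_lit 0) (nat_lit 206) (nat_lit 200) (nat_lit 194)))) (PT.nd (nat_lit 156) (PT.nd (nat_lit 78) (PT.lf (nat_lit 31084) (nat_lit 6) (nat_lit 409) (nat_lit 0) (nat_lit 207) (nat_lit 200) (nat_lit 193)) (PT.lf (nat_lit 30476) (nat_lit 6) (nat_lit 401) (nat_lit 0) (nat_lit 208) (nat_lit 200) (nat_lit 192))) (PT.nd (nat_lit 78) (PT.lf (nat_lit 29792) (nat_lit 6) (nat_lit 392) (nat_lit 0) (nat_lit 209) (nat_lit 200) (nat_lit 191)) (PT.lf (nat_lit 29032) (nat_lit 6) (nat_lit 382) (nat_lit 0) (nat_lit 210) (nat_lit 200) (nat_lit 190))))))))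
noncomputable def pc20 : PT := (PT.nd (nat_lit 60918) (PT.nd (nat_lit 60294) (PT.nd (nat_lit 312) (PT.nd (nat_lit 156) (PT.nd (nat_lit 78) (PT.lf (nat_lit 28196) (nat_lit 6) (nat_lit 371) (nat_lit 0) (nat_lit 211) (nat_lit 200) (nat_lit 189)) (PT.lf (nat_lit 27284) (nat_lit 6) (nat_lit 359) (nat_lit 0) (nat_lit 212) (nat_lit 200) (nat_lit 188))) (PT.nd (nat_lit 78) (PT.lf (nat_lit 26296) (nat_lit 6) (nat_lit 346) (nat_lit 0) (nat_lit 213) (nat_lit 200) (nat_lit 187)) (PT.lf (nat_lit 25232) (nat_lit 6) (nat_lit 332) (nat_lit 0) (nat_lit 214) (nat_lit 200) (nat_lit 186)))) (PT.nd (nat_lit 156) (PT.nd (nat_lit 78) (PT.lf (nat_lit 24092) (nat_lit 6) (nat_lit 317) (nat_lit 0) (nat_lit 215) (nat_lit 200) (nat_lit 185)) (PT.lf (nat_lit 22876) (nat_lit 6) (nat_lit 301) (nat_lit 0) (nat_lit 216) (nat_lit 200) (nat_lit 184))) (PT.nd (nat_lit 59748) (PT.lf (nat_lit 21584) (nat_lit 6) (nat_lit 284) (nat_lit 0)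 (nat_lit 217) (nat_lit 200) (nat_lit 183)) (PT.lf (nat_lit 20824) (nat_lit 6) (nat_lit 274) (nat_lit 5) (nat_lit 182) (nat_lit 201) (nat_lit 217))))) (PT.nd (nat_lit 312) (PT.nd (nat_lit 156) (PT.nd (nat_lit 78) (PT.lf (nat_lit 21660) (nat_lit 6) (nat_lit 285) (nat_lit 5) (nat_lit 183) (nat_lit 201) (nat_lit 216)) (PT.lf (nat_lit 22952) (nat_lit 6) (nat_lit 302) (nat_lit 5) (nat_lit 184) (nat_lit 201) (nat_lit 215))) (PT.nd (nat_lit 78) (PT.lf (nat_lit 24168) (nat_lit 6) (nat_lit 318) (nat_lit 5) (nat_lit 185) (nat_lit 201) (nat_lit 214)) (PT.lf (nat_lit 25308) (nat_lit 6) (nat_lit 333) (nat_lit 5) (nat_lit 186) (nat_lit 201) (nat_lit 213)))) (PT.nd (nat_lit 156) (PT.nd (nat_lit 78) (PT.lf (nat_lit 26372) (nat_lit 6) (nat_lit 347) (nat_lit 5) (nat_lit 187) (nat_lit 201) (nat_lit 212)) (PT.lf (nat_lit 27360) (nat_lit 6) (nat_lit 360) (nat_lit 5) (nat_lit 188) (nat_lit 201) (nat_lit 211))) (PT.nd (nat_lit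 78) (PT.lf (nat_lit 28272) (nat_lit 6) (nat_lit 372) (nat_lit 5) (nat_lit 189) (nat_lit 201) (nat_lit 210)) (PT.lf (nat_lit 29108) (nat_lit 6) (nat_lit 383) (nat_lit 5) (nat_lit 190) (nat_lit 201) (nat_lit 209)))))) (PT.nd (nat_lit 624) (PT.nd (nat_lit 312) (PT.nd (nat_lit 156) (PT.nd (nat_lit 78) (PT.lf (nat_lit 29868) (nat_lit 6) (nat_lit 393) (nat_lit 5) (nat_lit 191) (nat_lit 201) (nat_lit 208)) (PT.lf (nat_lit 30552) (nat_lit 6) (nat_lit 402) (nat_lit 5) (nat_lit 192) (nat_lit 201) (nat_lit 207))) (PT.nd (nat_lit 78) (PT.lf (nat_lit 31160) (nat_lit 6) (nat_lit 410) (nat_lit 5) (nat_lit 193) (nat_lit 201) (nat_lit 206)) (PT.lf (nat_lit 31692) (nat_lit 6) (nat_lit 417) (nat_lit 5) (nat_lit 194) (nat_lit 201) (nat_lit 205)))) (PT.nd (nat_lit 156) (PT.nd (nat_lit 78) (PT.lf (nat_lit 32148) (nat_lit 6) (nat_lit 423) (nat_lit 5) (nat_lit 195) (nat_lit 201) (nat_lit 204)) (PT.lf (nat_lit 32528) (nat_lit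 6) (nat_lit 428) (nat_lit 5) (nat_lit 196) (nat_lit 201) (nat_lit 203))) (PT.nd (nat_lit 78) (PT.lf (nat_lit 32832) (nat_lit 6) (nat_lit 432) (nat_lit 5) (nat_lit 197) (nat_lit 201) (nat_lit 202)) (PT.lf (nat_lit 33060) (nat_lit 3) (nat_lit 435) (nat_lit 4) (nat_lit 198) (nat_lit 201) (nat_lit 201))))) (PT.nd (nat_lit 312) (PT.nd (nat_lit 156) (PT.nd (nat_lit 78) (PT.lf (nat_lit 33136) (nat_lit 6) (nat_lit 436) (nat_lit 4) (nat_lit 199) (nat_lit 201) (nat_lit 200)) (PT.lf (nat_lit 33136) (nat_lit 6) (nat_lit 436) (nat_lit 2) (nat_lit 200) (nat_lit 201) (nat_lit 199))) (PT.nd (nat_lit 78) (PT.lf (nat_lit 33060) (nat_lit 3) (nat_lit 435) (nat_lit 0) (nat_lit 201) (nat_lit 201) (nat_lit 198)) (PT.lf (nat_lit 32832) (nat_lit 6) (nat_lit 432) (nat_lit 0) (nat_lit 202) (nat_lit 201) (nat_lit 197)))) (PT.nd (nat_lit 156) (PT.nd (nat_lit 78) (PT.lf (nat_lit 32528) (nat_lit 6) (nat_lit 428) (nat_lit 0) (nat_lit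 203) (nat_lit 201) (nat_lit 196)) (PT.lf (nat_lit 32148) (nat_lit 6) (nat_lit 423) (nat_lit 0) (nat_lit 204) (nat_lit 201) (nat_lit 195))) (PT.nd (nat_lit 78) (PT.lf (nat_lit 31692) (nat_lit 6) (nat_lit 417) (nat_lit 0) (nat_lit 205) (nat_lit 201) (nat_lit 194)) (PT.lf (nat_lit 31160) (nat_lit 6) (nat_lit 410) (nat_lit 0) (nat_lit 206) (nat_lit 201) (nat_lit 193)))))))
noncomputable def pc21 : PT := (PT.nd (nat_lit 60840) (PT.nd (nat_lit 624) (PT.nd (nat_lit 312) (PT.nd (nat_lit 156) (PT.nd (nat_lit 78) (PT.lf (nat_lit 30552) (nat_lit 6) (nat_lit 402) (nat_lit 0) (nat_lit 207) (nat_lit 201) (nat_lit 192)) (PT.lf (nat_lit 29868) (nat_lit 6) (nat_lit 393) (nat_lit 0) (nat_lit 208) (nat_lit 201) (nat_lit 191))) (PT.nd (nat_lit 78) (PT.lf (nat_lit 29108) (nat_lit 6) (nat_lit 383) (nat_lit 0) (nat_lit 209) (nat_lit 201) (nat_lit 190)) (PT.lf (nat_lit 28272) (nat_lit 6) (nat_lit 372) (nat_lit 0) (nat_lit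 210) (nat_lit 201) (nat_lit 189)))) (PT.nd (nat_lit 156) (PT.nd (nat_lit 78) (PT.lf (nat_lit 27360) (nat_lit 6) (nat_lit 360) (nat_lit 0) (nat_lit 211) (nat_lit 201) (nat_lit 188)) (PT.lf (nat_lit 26372) (nat_lit 6) (nat_lit 347) (nat_lit 0) (nat_lit 212) (nat_lit 201) (nat_lit 187))) (PT.nd (nat_lit 78) (PT.lf (nat_lit 25308) (nat_lit 6) (nat_lit 333) (nat_lit 0) (nat_lit 213) (nat_lit 201) (nat_lit 186)) (PT.lf (nat_lit 24168) (nat_lit 6) (nat_lit 318) (nat_lit 0) (nat_lit 214) (nat_lit 201) (nat_lit 185))))) (PT.nd (nat_lit 59904) (PT.nd (nat_lit 156) (PT.nd (nat_lit 78) (PT.lf (nat_lit 22952) (nat_lit 6) (nat_lit 302) (nat_lit 0) (nat_lit 215) (nat_lit 201) (nat_lit 184)) (PT.lf (nat_lit 21660) (nat_lit 6) (nat_lit 285) (nat_lit 0) (nat_lit 216) (nat_lit 201) (nat_lit 183))) (PT.nd (nat_lit 59670) (PT.lf (nat_lit 20824) (nat_lit 6) (nat_lit 274) (nat_lit 0) (nat_lit 217) (nat_lit 201) (nat_lit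 182)) (PT.lf (nat_lit 20216) (nat_lit 6) (nat_lit 266) (nat_lit 5) (nat_lit 181) (nat_lit 202) (nat_lit 217)))) (PT.nd (nat_lit 156) (PT.nd (nat_lit 78) (PT.lf (nat_lit 20900) (nat_lit 6) (nat_lit 275) (nat_lit 5) (nat_lit 182) (nat_lit 202) (nat_lit 216)) (PT.lf (nat_lit 21736) (nat_lit 6) (nat_lit 286) (nat_lit 5) (nat_lit 183) (nat_lit 202) (nat_lit 215))) (PT.nd (nat_lit 78) (PT.lf (nat_lit 23028) (nat_lit 6) (nat_lit 303) (nat_lit 5) (nat_lit 184) (nat_lit 202) (nat_lit 214)) (PT.lf (nat_lit 24244) (nat_lit 6) (nat_lit 319) (nat_lit 5) (nat_lit 185) (nat_lit 202) (nat_lit 213)))))) (PT.nd (nat_lit 624) (PT.nd (nat_lit 312) (PT.nd (nat_lit 156) (PT.nd (nat_lit 78) (PT.lf (nat_lit 25384) (nat_lit 6) (nat_lit 334) (nat_lit 5) (nat_lit 186) (nat_lit 202) (nat_lit 212)) (PT.lf (nat_lit 26448) (nat_lit 6) (nat_lit 348) (nat_lit 5) (nat_lit 187) (nat_lit 202) (nat_lit 211))) (PT.nd (nat_lit 78) (PT.lf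 (nat_lit 27436) (nat_lit 6) (nat_lit 361) (nat_lit 5) (nat_lit 188) (nat_lit 202) (nat_lit 210)) (PT.lf (nat_lit 28348) (nat_lit 6) (nat_lit 373) (nat_lit 5) (nat_lit 189) (nat_lit 202) (nat_lit 209)))) (PT.nd (nat_lit 156) (PT.nd (nat_lit 78) (PT.lf (nat_lit 29184) (nat_lit 6) (nat_lit 384) (nat_lit 5) (nat_lit 190) (nat_lit 202) (nat_lit 208)) (PT.lf (nat_lit 29944) (nat_lit 6) (nat_lit 394) (nat_lit 5) (nat_lit 191) (nat_lit 202) (nat_lit 207))) (PT.nd (nat_lit 78) (PT.lf (nat_lit 30628) (nat_lit 6) (nat_lit 403) (nat_lit 5) (nat_lit 192) (nat_lit 202) (nat_lit 206)) (PT.lf (nat_lit 31236) (nat_lit 6) (nat_lit 411) (nat_lit 5) (nat_lit 193) (nat_lit 202) (nat_lit 205))))) (PT.nd (nat_lit 312) (PT.nd (nat_lit 156) (PT.nd (nat_lit 78) (PT.lf (nat_lit 31768) (nat_lit 6) (nat_lit 418) (nat_lit 5) (nat_lit 194) (nat_lit 202) (nat_lit 204)) (PT.lf (nat_lit 32224) (nat_lit 6) (nat_lit 424) (nat_lit 5)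 (nat_lit 195) (nat_lit 202) (nat_lit 203))) (PT.nd (nat_lit 78) (PT.lf (nat_lit 32604) (nat_lit 3) (nat_lit 429) (nat_lit 4) (nat_lit 196) (nat_lit 202) (nat_lit 202)) (PT.lf (nat_lit 32832) (nat_lit 6) (nat_lit 432) (nat_lit 4) (nat_lit 197) (nat_lit 202) (nat_lit 201)))) (PT.nd (nat_lit 156) (PT.nd (nat_lit 78) (PT.lf (nat_lit 32984) (nat_lit 6) (nat_lit 434) (nat_lit 4) (nat_lit 198) (nat_lit 202) (nat_lit 200)) (PT.lf (nat_lit 32908) (nat_lit 3) (nat_lit 433) (nat_lit 2) (nat_lit 199) (nat_lit 202) (nat_lit 199))) (PT.nd (nat_lit 78) (PT.lf (nat_lit 32984) (nat_lit 6) (nat_lit 434) (nat_lit 2) (nat_lit 200) (nat_lit 202) (nat_lit 198)) (PT.nd (nat_lit 78) (PT.lf (nat_lit 32832) (nat_lit 6) (nat_lit 432) (nat_lit 2) (nat_lit 201) (nat_lit 202) (nat_lit 197)) (PT.lf (nat_lit 32604) (nat_lit 3) (nat_lit 429) (nat_lit 0) (nat_lit 202) (nat_lit 202) (nat_lit 196))))))))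
noncomputable def pc22 : PT := (PT.nd (nat_lit 60762) (PT.nd (nat_lit 624) (PT.nd (nat_lit 312) (PT.nd (nat_lit 156) (PT.nd (nat_lit 78) (PT.lf (nat_lit 32224) (nat_lit 6) (nat_lit 424) (nat_lit 0) (nat_lit 203) (nat_lit 202) (nat_lit 195)) (PT.lf (nat_lit 31768) (nat_lit 6) (nat_lit 418) (nat_lit 0) (nat_lit 204) (nat_lit 202) (nat_lit 194))) (PT.nd (nat_lit 78) (PT.lf (nat_lit 31236) (nat_lit 6) (nat_lit 411) (nat_lit 0) (nat_lit 205) (nat_lit 202) (nat_lit 193)) (PT.lf (nat_lit 30628) (nat_lit 6) (nat_lit 403) (nat_lit 0) (nat_lit 206) (nat_lit 202) (nat_lit 192)))) (PT.nd (nat_lit 156) (PT.nd (nat_lit 78) (PT.lf (nat_lit 29944) (nat_lit 6) (nat_lit 394) (nat_lit 0) (nat_lit 207) (nat_lit 202) (nat_lit 191)) (PT.lf (nat_lit 29184) (nat_lit 6) (nat_lit 384) (nat_lit 0) (nat_lit 208) (nat_lit 202) (nat_lit 190))) (PT.nd (nat_lit 78) (PT.lf (nat_lit 28348) (nat_lit 6) (nat_lit 373) (nat_lit 0) (nat_lit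 209) (nat_lit 202) (nat_lit 189)) (PT.lf (nat_lit 27436) (nat_lit 6) (nat_lit 361) (nat_lit 0) (nat_lit 210) (nat_lit 202) (nat_lit 188))))) (PT.nd (nat_lit 312) (PT.nd (nat_lit 156) (PT.nd (nat_lit 78) (PT.lf (nat_lit 26448) (nat_lit 6) (nat_lit 348) (nat_lit 0) (nat_lit 211) (nat_lit 202) (nat_lit 187)) (PT.lf (nat_lit 25384) (nat_lit 6) (nat_lit 334) (nat_lit 0) (nat_lit 212) (nat_lit 202) (nat_lit 186))) (PT.nd (nat_lit 78) (PT.lf (nat_lit 24244) (nat_lit 6) (nat_lit 319) (nat_lit 0) (nat_lit 213) (nat_lit 202) (nat_lit 185)) (PT.lf (nat_lit 23028) (nat_lit 6) (nat_lit 303) (nat_lit 0) (nat_lit 214) (nat_lit 202) (nat_lit 184)))) (PT.nd (nat_lit 156) (PT.nd (nat_lit 78) (PT.lf (nat_lit 21736) (nat_lit 6) (nat_lit 286) (nat_lit 0) (nat_lit 215) (nat_lit 202) (nat_lit 183)) (PT.lf (nat_lit 20900) (nat_lit 6) (nat_lit 275) (nat_lit 0) (nat_lit 216) (nat_lit 202) (nat_lit 182))) (PT.nd (nat_lit 59592)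 (PT.lf (nat_lit 20216) (nat_lit 6) (nat_lit 266) (nat_lit 0) (nat_lit 217) (nat_lit 202) (nat_lit 181)) (PT.lf (nat_lit 19608) (nat_lit 6) (nat_lit 258) (nat_lit 5) (nat_lit 180) (nat_lit 203) (nat_lit 217)))))) (PT.nd (nat_lit 624) (PT.nd (nat_lit 312) (PT.nd (nat_lit 156) (PT.nd (nat_lit 78) (PT.lf (nat_lit 20292) (nat_lit 6) (nat_lit 267) (nat_lit 5) (nat_lit 181) (nat_lit 203) (nat_lit 216)) (PT.lf (nat_lit 20976) (nat_lit 6) (nat_lit 276) (nat_lit 5) (nat_lit 182) (nat_lit 203) (nat_lit 215))) (PT.nd (nat_lit 78) (PT.lf (nat_lit 21812) (nat_lit 6) (nat_lit 287) (nat_lit 5) (nat_lit 183) (nat_lit 203) (nat_lit 214)) (PT.lf (nat_lit 23104) (nat_lit 6) (nat_lit 304) (nat_lit 5) (nat_lit 184) (nat_lit 203) (nat_lit 213)))) (PT.nd (nat_lit 156) (PT.nd (nat_lit 78) (PT.lf (nat_lit 24320) (nat_lit 6) (nat_lit 320) (nat_lit 5) (nat_lit 185) (nat_lit 203) (nat_lit 212)) (PT.lf (nat_lit 25460) (nat_lit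 6) (nat_lit 335) (nat_lit 5) (nat_lit 186) (nat_lit 203) (nat_lit 211))) (PT.nd (nat_lit 78) (PT.lf (nat_lit 26524) (nat_lit 6) (nat_lit 349) (nat_lit 5) (nat_lit 187) (nat_lit 203) (nat_lit 210)) (PT.lf (nat_lit 27512) (nat_lit 6) (nat_lit 362) (nat_lit 5) (nat_lit 188) (nat_lit 203) (nat_lit 209))))) (PT.nd (nat_lit 312) (PT.nd (nat_lit 156) (PT.nd (nat_lit 78) (PT.lf (nat_lit 28424) (nat_lit 6) (nat_lit 374) (nat_lit 5) (nat_lit 189) (nat_lit 203) (nat_lit 208)) (PT.lf (nat_lit 29260) (nat_lit 6) (nat_lit 385) (nat_lit 5) (nat_lit 190) (nat_lit 203) (nat_lit 207))) (PT.nd (nat_lit 78) (PT.lf (nat_lit 30020) (nat_lit 6) (nat_lit 395) (nat_lit 5) (nat_lit 191) (nat_lit 203) (nat_lit 206)) (PT.lf (nat_lit 30704) (nat_lit 6) (nat_lit 404) (nat_lit 5) (nat_lit 192) (nat_lit 203) (nat_lit 205)))) (PT.nd (nat_lit 156) (PT.nd (nat_lit 78) (PT.lf (nat_lit 31312) (nat_lit 6) (nat_lit 412) (nat_lit 5) (nat_lit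 193) (nat_lit 203) (nat_lit 204)) (PT.lf (nat_lit 31844) (nat_lit 3) (nat_lit 419) (nat_lit 4) (nat_lit 194) (nat_lit 203) (nat_lit 203))) (PT.nd (nat_lit 78) (PT.lf (nat_lit 32224) (nat_lit 6) (nat_lit 424) (nat_lit 4) (nat_lit 195) (nat_lit 203) (nat_lit 202)) (PT.lf (nat_lit 32528) (nat_lit 6) (nat_lit 428) (nat_lit 4) (nat_lit 196) (nat_lit 203) (nat_lit 201)))))))
noncomputable def pc23 : PT := (PT.nd (nat_lit 1248) (PT.nd (nat_lit 624) (PT.nd (nat_lit 312) (PT.nd (nat_lit 156) (PT.nd (nat_lit 78) (PT.lf (nat_lit 32756) (nat_lit 6) (nat_lit 431) (nat_lit 4) (nat_lit 197) (nat_lit 203) (nat_lit 200)) (PT.lf (nat_lit 32680) (nat_lit 6) (nat_lit 430) (nat_lit 4) (nat_lit 198) (nat_lit 203) (nat_lit 199))) (PT.nd (nat_lit 78) (PT.lf (nat_lit 32680) (nat_lit 6) (nat_lit 430) (nat_lit 2) (nat_lit 199) (nat_lit 203) (nat_lit 198)) (PT.lf (nat_lit 32756) (nat_lit 6) (nat_lit 431) (nat_lit 2) (nat_lit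 200) (nat_lit 203) (nat_lit 197)))) (PT.nd (nat_lit 156) (PT.nd (nat_lit 78) (PT.lf (nat_lit 32528) (nat_lit 6) (nat_lit 428) (nat_lit 2) (nat_lit 201) (nat_lit 203) (nat_lit 196)) (PT.lf (nat_lit 32224) (nat_lit 6) (nat_lit 424) (nat_lit 2) (nat_lit 202) (nat_lit 203) (nat_lit 195))) (PT.nd (nat_lit 78) (PT.lf (nat_lit 31844) (nat_lit 3) (nat_lit 419) (nat_lit 0) (nat_lit 203) (nat_lit 203) (nat_lit 194)) (PT.lf (nat_lit 31312) (nat_lit 6) (nat_lit 412) (nat_lit 0) (nat_lit 204) (nat_lit 203) (nat_lit 193))))) (PT.nd (nat_lit 312) (PT.nd (nat_lit 156) (PT.nd (nat_lit 78) (PT.lf (nat_lit 30704) (nat_lit 6) (nat_lit 404) (nat_lit 0) (nat_lit 205) (nat_lit 203) (nat_lit 192)) (PT.lf (nat_lit 30020) (nat_lit 6) (nat_lit 395) (nat_lit 0) (nat_lit 206) (nat_lit 203) (nat_lit 191))) (PT.nd (nat_lit 78) (PT.lf (nat_lit 29260) (nat_lit 6) (nat_lit 385) (nat_lit 0) (nat_lit 207) (nat_lit 203) (nat_lit 190))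 (PT.lf (nat_lit 28424) (nat_lit 6) (nat_lit 374) (nat_lit 0) (nat_lit 208) (nat_lit 203) (nat_lit 189)))) (PT.nd (nat_lit 156) (PT.nd (nat_lit 78) (PT.lf (nat_lit 27512) (nat_lit 6) (nat_lit 362) (nat_lit 0) (nat_lit 209) (nat_lit 203) (nat_lit 188)) (PT.lf (nat_lit 26524) (nat_lit 6) (nat_lit 349) (nat_lit 0) (nat_lit 210) (nat_lit 203) (nat_lit 187))) (PT.nd (nat_lit 78) (PT.lf (nat_lit 25460) (nat_lit 6) (nat_lit 335) (nat_lit 0) (nat_lit 211) (nat_lit 203) (nat_lit 186)) (PT.lf (nat_lit 24320) (nat_lit 6) (nat_lit 320) (nat_lit 0) (nat_lit 212) (nat_lit 203) (nat_lit 185)))))) (PT.nd (nat_lit 59982) (PT.nd (nat_lit 312) (PT.nd (nat_lit 156) (PT.nd (nat_lit 78) (PT.lf (nat_lit 23104) (nat_lit 6) (nat_lit 304) (nat_lit 0) (nat_lit 213) (nat_lit 203) (nat_lit 184)) (PT.lf (nat_lit 21812) (nat_lit 6) (nat_lit 287) (nat_lit 0) (nat_lit 214) (nat_lit 203) (nat_lit 183))) (PT.nd (nat_lit 78) (PT.lf (nat_lit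 20976) (nat_lit 6) (nat_lit 276) (nat_lit 0) (nat_lit 215) (nat_lit 203) (nat_lit 182)) (PT.lf (nat_lit 20292) (nat_lit 6) (nat_lit 267) (nat_lit 0) (nat_lit 216) (nat_lit 203) (nat_lit 181)))) (PT.nd (nat_lit 59514) (PT.nd (nat_lit 59436) (PT.lf (nat_lit 19608) (nat_lit 6) (nat_lit 258) (nat_lit 0) (nat_lit 217) (nat_lit 203) (nat_lit 180)) (PT.lf (nat_lit 18468) (nat_lit 6) (nat_lit 243) (nat_lit 5) (nat_lit 178) (nat_lit 204) (nat_lit 218))) (PT.nd (nat_lit 78) (PT.lf (nat_lit 19076) (nat_lit 6) (nat_lit 251) (nat_lit 5) (nat_lit 179) (nat_lit 204) (nat_lit 217)) (PT.lf (nat_lit 19684) (nat_lit 6) (nat_lit 259) (nat_lit 5) (nat_lit 180) (nat_lit 204) (nat_lit 216))))) (PT.nd (nat_lit 312) (PT.nd (nat_lit 156) (PT.nd (nat_lit 78) (PT.lf (nat_lit 20368) (nat_lit 6) (nat_lit 268) (nat_lit 5) (nat_lit 181) (nat_lit 204) (nat_lit 215)) (PT.lf (nat_lit 21052) (nat_lit 6) (nat_lit 277) (nat_lit 5) (nat_lit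 182) (nat_lit 204) (nat_lit 214))) (PT.nd (nat_lit 78) (PT.lf (nat_lit 21888) (nat_lit 6) (nat_lit 288) (nat_lit 5) (nat_lit 183) (nat_lit 204) (nat_lit 213)) (PT.lf (nat_lit 23180) (nat_lit 6) (nat_lit 305) (nat_lit 5) (nat_lit 184) (nat_lit 204) (nat_lit 212)))) (PT.nd (nat_lit 156) (PT.nd (nat_lit 78) (PT.lf (nat_lit 24396) (nat_lit 6) (nat_lit 321) (nat_lit 5) (nat_lit 185) (nat_lit 204) (nat_lit 211)) (PT.lf (nat_lit 25536) (nat_lit 6) (nat_lit 336) (nat_lit 5) (nat_lit 186) (nat_lit 204) (nat_lit 210))) (PT.nd (nat_lit 78) (PT.lf (nat_lit 26600) (nat_lit 6) (nat_lit 350) (nat_lit 5) (nat_lit 187) (nat_lit 204) (nat_lit 209)) (PT.nd (nat_lit 78) (PT.lf (nat_lit 27588) (nat_lit 6) (nat_lit 363) (nat_lit 5) (nat_lit 188) (nat_lit 204) (nat_lit 208)) (PT.lf (nat_lit 28500) (nat_lit 6) (nat_lit 375) (nat_lit 5) (nat_lit 189) (nat_lit 204) (nat_lit 207))))))))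
noncomputable def pc24 : PT := (PT.nd (nat_lit 1248) (PT.nd (nat_lit 624) (PT.nd (nat_lit 312) (PT.nd (nat_lit 156) (PT.nd (nat_lit 78) (PT.lf (nat_lit 29336) (nat_lit 6) (nat_lit 386) (nat_lit 5) (nat_lit 190) (nat_lit 204) (nat_lit 206)) (PT.lf (nat_lit 30096) (nat_lit 6) (nat_lit 396) (nat_lit 5) (nat_lit 191) (nat_lit 204) (nat_lit 205))) (PT.nd (nat_lit 78) (PT.lf (nat_lit 30780) (nat_lit 3) (nat_lit 405) (nat_lit 4) (nat_lit 192) (nat_lit 204) (nat_lit 204)) (PT.lf (nat_lit 31312) (nat_lit 6) (nat_lit 412) (nat_lit 4) (nat_lit 193) (nat_lit 204) (nat_lit 203)))) (PT.nd (nat_lit 156) (PT.nd (nat_lit 78) (PT.lf (nat_lit 31768) (nat_lit 6) (nat_lit 418) (nat_lit 4) (nat_lit 194) (nat_lit 204) (nat_lit 202)) (PT.lf (nat_lit 32148) (nat_lit 6) (nat_lit 423) (nat_lit 4) (nat_lit 195) (nat_lit 204) (nat_lit 201))) (PT.nd (nat_lit 78) (PT.lf (nat_lit 32452) (nat_lit 6) (nat_lit 427) (nat_lit 4) (nat_lit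 196) (nat_lit 204) (nat_lit 200)) (PT.lf (nat_lit 32376) (nat_lit 6) (nat_lit 426) (nat_lit 4) (nat_lit 197) (nat_lit 204) (nat_lit 199))))) (PT.nd (nat_lit 312) (PT.nd (nat_lit 156) (PT.nd (nat_lit 78) (PT.lf (nat_lit 32300) (nat_lit 3) (nat_lit 425) (nat_lit 2) (nat_lit 198) (nat_lit 204) (nat_lit 198)) (PT.lf (nat_lit 32376) (nat_lit 6) (nat_lit 426) (nat_lit 2) (nat_lit 199) (nat_lit 204) (nat_lit 197))) (PT.nd (nat_lit 78) (PT.lf (nat_lit 32452) (nat_lit 6) (nat_lit 427) (nat_lit 2) (nat_lit 200) (nat_lit 204) (nat_lit 196)) (PT.lf (nat_lit 32148) (nat_lit 6) (nat_lit 423) (nat_lit 2) (nat_lit 201) (nat_lit 204) (nat_lit 195)))) (PT.nd (nat_lit 156) (PT.nd (nat_lit 78) (PT.lf (nat_lit 31768) (nat_lit 6) (nat_lit 418) (nat_lit 2) (nat_lit 202) (nat_lit 204) (nat_lit 194)) (PT.lf (nat_lit 31312) (nat_lit 6) (nat_lit 412) (nat_lit 2) (nat_lit 203) (nat_lit 204) (nat_lit 193))) (PT.nd (nat_lit 78)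 (PT.lf (nat_lit 30780) (nat_lit 3) (nat_lit 405) (nat_lit 0) (nat_lit 204) (nat_lit 204) (nat_lit 192)) (PT.lf (nat_lit 30096) (nat_lit 6) (nat_lit 396) (nat_lit 0) (nat_lit 205) (nat_lit 204) (nat_lit 191)))))) (PT.nd (nat_lit 624) (PT.nd (nat_lit 312) (PT.nd (nat_lit 156) (PT.nd (nat_lit 78) (PT.lf (nat_lit 29336) (nat_lit 6) (nat_lit 386) (nat_lit 0) (nat_lit 206) (nat_lit 204) (nat_lit 190)) (PT.lf (nat_lit 28500) (nat_lit 6) (nat_lit 375) (nat_lit 0) (nat_lit 207) (nat_lit 204) (nat_lit 189))) (PT.nd (nat_lit 78) (PT.lf (nat_lit 27588) (nat_lit 6) (nat_lit 363) (nat_lit 0) (nat_lit 208) (nat_lit 204) (nat_lit 188)) (PT.lf (nat_lit 26600) (nat_lit 6) (nat_lit 350) (nat_lit 0) (nat_lit 209) (nat_lit 204) (nat_lit 187)))) (PT.nd (nat_lit 156) (PT.nd (nat_lit 78) (PT.lf (nat_lit 25536) (nat_lit 6) (nat_lit 336) (nat_lit 0) (nat_lit 210) (nat_lit 204) (nat_lit 186)) (PT.lf (nat_lit 24396) (nat_lit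 6) (nat_lit 321) (nat_lit 0) (nat_lit 211) (nat_lit 204) (nat_lit 185))) (PT.nd (nat_lit 78) (PT.lf (nat_lit 23180) (nat_lit 6) (nat_lit 305) (nat_lit 0) (nat_lit 212) (nat_lit 204) (nat_lit 184)) (PT.lf (nat_lit 21888) (nat_lit 6) (nat_lit 288) (nat_lit 0) (nat_lit 213) (nat_lit 204) (nat_lit 183))))) (PT.nd (nat_lit 312) (PT.nd (nat_lit 156) (PT.nd (nat_lit 78) (PT.lf (nat_lit 21052) (nat_lit 6) (nat_lit 277) (nat_lit 0) (nat_lit 214) (nat_lit 204) (nat_lit 182)) (PT.lf (nat_lit 20368) (nat_lit 6) (nat_lit 268) (nat_lit 0) (nat_lit 215) (nat_lit 204) (nat_lit 181))) (PT.nd (nat_lit 78) (PT.lf (nat_lit 19684) (nat_lit 6) (nat_lit 259) (nat_lit 0) (nat_lit 216) (nat_lit 204) (nat_lit 180)) (PT.lf (nat_lit 19076) (nat_lit 6) (nat_lit 251) (nat_lit 0) (nat_lit 217) (nat_lit 204) (nat_lit 179)))) (PT.nd (nat_lit 59358) (PT.nd (nat_lit 59280) (PT.lf (nat_lit 18468) (nat_lit 6) (nat_lit 243) (nat_lit 0)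 (nat_lit 218) (nat_lit 204) (nat_lit 178)) (PT.lf (nat_lit 17936) (nat_lit 6) (nat_lit 236) (nat_lit 5) (nat_lit 177) (nat_lit 205) (nat_lit 218))) (PT.nd (nat_lit 78) (PT.lf (nat_lit 18544) (nat_lit 6) (nat_lit 244) (nat_lit 5) (nat_lit 178) (nat_lit 205) (nat_lit 217)) (PT.lf (nat_lit 19152) (nat_lit 6) (nat_lit 252) (nat_lit 5) (nat_lit 179) (nat_lit 205) (nat_lit 216)))))))
noncomputable def pc25 : PT := (PT.nd (nat_lit 1248) (PT.nd (nat_lit 624) (PT.nd (nat_lit 312) (PT.nd (nat_lit 156) (PT.nd (nat_lit 78) (PT.lf (nat_lit 19760) (nat_lit 6) (nat_lit 260) (nat_lit 5) (nat_lit 180) (nat_lit 205) (nat_lit 215)) (PT.lf (nat_lit 20444) (nat_lit 6) (nat_lit 269) (nat_lit 5) (nat_lit 181) (nat_lit 205) (nat_lit 214))) (PT.nd (nat_lit 78) (PT.lf (nat_lit 21128) (nat_lit 6) (nat_lit 278) (nat_lit 5) (nat_lit 182) (nat_lit 205) (nat_lit 213)) (PT.lf (nat_lit 21964) (nat_lit 6) (nat_lit 289) (nat_lit 5)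 (nat_lit 183) (nat_lit 205) (nat_lit 212)))) (PT.nd (nat_lit 156) (PT.nd (nat_lit 78) (PT.lf (nat_lit 23256) (nat_lit 6) (nat_lit 306) (nat_lit 5) (nat_lit 184) (nat_lit 205) (nat_lit 211)) (PT.lf (nat_lit 24472) (nat_lit 6) (nat_lit 322) (nat_lit 5) (nat_lit 185) (nat_lit 205) (nat_lit 210))) (PT.nd (nat_lit 78) (PT.lf (nat_lit 25612) (nat_lit 6) (nat_lit 337) (nat_lit 5) (nat_lit 186) (nat_lit 205) (nat_lit 209)) (PT.lf (nat_lit 26676) (nat_lit 6) (nat_lit 351) (nat_lit 5) (nat_lit 187) (nat_lit 205) (nat_lit 208))))) (PT.nd (nat_lit 312) (PT.nd (nat_lit 156) (PT.nd (nat_lit 78) (PT.lf (nat_lit 27664) (nat_lit 6) (nat_lit 364) (nat_lit 5) (nat_lit 188) (nat_lit 205) (nat_lit 207)) (PT.lf (nat_lit 28576) (nat_lit 6) (nat_lit 376) (nat_lit 5) (nat_lit 189) (nat_lit 205) (nat_lit 206))) (PT.nd (nat_lit 78) (PT.lf (nat_lit 29412) (nat_lit 3) (nat_lit 387) (nat_lit 4) (nat_lit 190) (nat_lit 205) (nat_lit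 205)) (PT.lf (nat_lit 30096) (nat_lit 6) (nat_lit 396) (nat_lit 4) (nat_lit 191) (nat_lit 205) (nat_lit 204)))) (PT.nd (nat_lit 156) (PT.nd (nat_lit 78) (PT.lf (nat_lit 30704) (nat_lit 6) (nat_lit 404) (nat_lit 4) (nat_lit 192) (nat_lit 205) (nat_lit 203)) (PT.lf (nat_lit 31236) (nat_lit 6) (nat_lit 411) (nat_lit 4) (nat_lit 193) (nat_lit 205) (nat_lit 202))) (PT.nd (nat_lit 78) (PT.lf (nat_lit 31692) (nat_lit 6) (nat_lit 417) (nat_lit 4) (nat_lit 194) (nat_lit 205) (nat_lit 201)) (PT.lf (nat_lit 32072) (nat_lit 6) (nat_lit 422) (nat_lit 4) (nat_lit 195) (nat_lit 205) (nat_lit 200)))))) (PT.nd (nat_lit 624) (PT.nd (nat_lit 312) (PT.nd (nat_lit 156) (PT.nd (nat_lit 78) (PT.lf (nat_lit 31996) (nat_lit 6) (nat_lit 421) (nat_lit 4) (nat_lit 196) (nat_lit 205) (nat_lit 199)) (PT.lf (nat_lit 31920) (nat_lit 6) (nat_lit 420) (nat_lit 4) (nat_lit 197) (nat_lit 205) (nat_lit 198))) (PT.nd (nat_lit 78) (PT.lf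 (nat_lit 31920) (nat_lit 6) (nat_lit 420) (nat_lit 2) (nat_lit 198) (nat_lit 205) (nat_lit 197)) (PT.lf (nat_lit 31996) (nat_lit 6) (nat_lit 421) (nat_lit 2) (nat_lit 199) (nat_lit 205) (nat_lit 196)))) (PT.nd (nat_lit 156) (PT.nd (nat_lit 78) (PT.lf (nat_lit 32072) (nat_lit 6) (nat_lit 422) (nat_lit 2) (nat_lit 200) (nat_lit 205) (nat_lit 195)) (PT.lf (nat_lit 31692) (nat_lit 6) (nat_lit 417) (nat_lit 2) (nat_lit 201) (nat_lit 205) (nat_lit 194))) (PT.nd (nat_lit 78) (PT.lf (nat_lit 31236) (nat_lit 6) (nat_lit 411) (nat_lit 2) (nat_lit 202) (nat_lit 205) (nat_lit 193)) (PT.lf (nat_lit 30704) (nat_lit 6) (nat_lit 404) (nat_lit 2) (nat_lit 203) (nat_lit 205) (nat_lit 192))))) (PT.nd (nat_lit 312) (PT.nd (nat_lit 156) (PT.nd (nat_lit 78) (PT.lf (nat_lit 30096) (nat_lit 6) (nat_lit 396) (nat_lit 2) (nat_lit 204) (nat_lit 205) (nat_lit 191)) (PT.lf (nat_lit 29412) (nat_lit 3) (nat_lit 387) (nat_lit 0)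 (nat_lit 205) (nat_lit 205) (nat_lit 190))) (PT.nd (nat_lit 78) (PT.lf (nat_lit 28576) (nat_lit 6) (nat_lit 376) (nat_lit 0) (nat_lit 206) (nat_lit 205) (nat_lit 189)) (PT.lf (nat_lit 27664) (nat_lit 6) (nat_lit 364) (nat_lit 0) (nat_lit 207) (nat_lit 205) (nat_lit 188)))) (PT.nd (nat_lit 156) (PT.nd (nat_lit 78) (PT.lf (nat_lit 26676) (nat_lit 6) (nat_lit 351) (nat_lit 0) (nat_lit 208) (nat_lit 205) (nat_lit 187)) (PT.lf (nat_lit 25612) (nat_lit 6) (nat_lit 337) (nat_lit 0) (nat_lit 209) (nat_lit 205) (nat_lit 186))) (PT.nd (nat_lit 78) (PT.lf (nat_lit 24472) (nat_lit 6) (nat_lit 322) (nat_lit 0) (nat_lit 210) (nat_lit 205) (nat_lit 185)) (PT.nd (nat_lit 78) (PT.lf (nat_lit 23256) (nat_lit 6) (nat_lit 306) (nat_lit 0) (nat_lit 211) (nat_lit 205) (nat_lit 184)) (PT.lf (nat_lit 21964) (nat_lit 6) (nat_lit 289) (nat_lit 0) (nat_lit 212) (nat_lit 205) (nat_lit 183))))))))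
noncomputable def pc26 : PT := (PT.nd (nat_lit 61620) (PT.nd (nat_lit 60372) (PT.nd (nat_lit 59748) (PT.nd (nat_lit 312) (PT.nd (nat_lit 156) (PT.nd (nat_lit 78) (PT.lf (nat_lit 21128) (nat_lit 6) (nat_lit 278) (nat_lit 0) (nat_lit 213) (nat_lit 205) (nat_lit 182)) (PT.lf (nat_lit 20444) (nat_lit 6) (nat_lit 269) (nat_lit 0) (nat_lit 214) (nat_lit 205) (nat_lit 181))) (PT.nd (nat_lit 78) (PT.lf (nat_lit 19760) (nat_lit 6) (nat_lit 260) (nat_lit 0) (nat_lit 215) (nat_lit 205) (nat_lit 180)) (PT.lf (nat_lit 19152) (nat_lit 6) (nat_lit 252) (nat_lit 0) (nat_lit 216) (nat_lit 205) (nat_lit 179)))) (PT.nd (nat_lit 59280) (PT.nd (nat_lit 78) (PT.lf (nat_lit 18544) (nat_lit 6) (nat_lit 244) (nat_lit 0) (nat_lit 217) (nat_lit 205) (nat_lit 178)) (PT.lf (nat_lit 17936) (nat_lit 6) (nat_lit 236) (nat_lit 0) (nat_lit 218) (nat_lit 205) (nat_lit 177))) (PT.nd (nat_lit 78) (PT.lf (nat_lit 17404) (nat_lit 6) (nat_lit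 229) (nat_lit 5) (nat_lit 176) (nat_lit 206) (nat_lit 218)) (PT.lf (nat_lit 18012) (nat_lit 6) (nat_lit 237) (nat_lit 5) (nat_lit 177) (nat_lit 206) (nat_lit 217))))) (PT.nd (nat_lit 312) (PT.nd (nat_lit 156) (PT.nd (nat_lit 78) (PT.lf (nat_lit 18620) (nat_lit 6) (nat_lit 245) (nat_lit 5) (nat_lit 178) (nat_lit 206) (nat_lit 216)) (PT.lf (nat_lit 19228) (nat_lit 6) (nat_lit 253) (nat_lit 5) (nat_lit 179) (nat_lit 206) (nat_lit 215))) (PT.nd (nat_lit 78) (PT.lf (nat_lit 19836) (nat_lit 6) (nat_lit 261) (nat_lit 5) (nat_lit 180) (nat_lit 206) (nat_lit 214)) (PT.lf (nat_lit 20520) (nat_lit 6) (nat_lit 270) (nat_lit 5) (nat_lit 181) (nat_lit 206) (nat_lit 213)))) (PT.nd (nat_lit 156) (PT.nd (nat_lit 78) (PT.lf (nat_lit 21204) (nat_lit 6) (nat_lit 279) (nat_lit 5) (nat_lit 182) (nat_lit 206) (nat_lit 212)) (PT.lf (nat_lit 22040) (nat_lit 6) (nat_lit 290) (nat_lit 5) (nat_lit 183) (nat_lit 206) (nat_lit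 211))) (PT.nd (nat_lit 78) (PT.lf (nat_lit 23332) (nat_lit 6) (nat_lit 307) (nat_lit 5) (nat_lit 184) (nat_lit 206) (nat_lit 210)) (PT.lf (nat_lit 24548) (nat_lit 6) (nat_lit 323) (nat_lit 5) (nat_lit 185) (nat_lit 206) (nat_lit 209)))))) (PT.nd (nat_lit 624) (PT.nd (nat_lit 312) (PT.nd (nat_lit 156) (PT.nd (nat_lit 78) (PT.lf (nat_lit 25688) (nat_lit 6) (nat_lit 338) (nat_lit 5) (nat_lit 186) (nat_lit 206) (nat_lit 208)) (PT.lf (nat_lit 26752) (nat_lit 6) (nat_lit 352) (nat_lit 5) (nat_lit 187) (nat_lit 206) (nat_lit 207))) (PT.nd (nat_lit 78) (PT.lf (nat_lit 27740) (nat_lit 3) (nat_lit 365) (nat_lit 4) (nat_lit 188) (nat_lit 206) (nat_lit 206)) (PT.lf (nat_lit 28576) (nat_lit 6) (nat_lit 376) (nat_lit 4) (nat_lit 189) (nat_lit 206) (nat_lit 205)))) (PT.nd (nat_lit 156) (PT.nd (nat_lit 78) (PT.lf (nat_lit 29336) (nat_lit 6) (nat_lit 386) (nat_lit 4) (nat_lit 190) (nat_lit 206) (nat_lit 204)) (PT.lf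 (nat_lit 30020) (nat_lit 6) (nat_lit 395) (nat_lit 4) (nat_lit 191) (nat_lit 206) (nat_lit 203))) (PT.nd (nat_lit 78) (PT.lf (nat_lit 30628) (nat_lit 6) (nat_lit 403) (nat_lit 4) (nat_lit 192) (nat_lit 206) (nat_lit 202)) (PT.lf (nat_lit 31160) (nat_lit 6) (nat_lit 410) (nat_lit 4) (nat_lit 193) (nat_lit 206) (nat_lit 201))))) (PT.nd (nat_lit 312) (PT.nd (nat_lit 156) (PT.nd (nat_lit 78) (PT.lf (nat_lit 31616) (nat_lit 6) (nat_lit 416) (nat_lit 4) (nat_lit 194) (nat_lit 206) (nat_lit 200)) (PT.lf (nat_lit 31540) (nat_lit 6) (nat_lit 415) (nat_lit 4) (nat_lit 195) (nat_lit 206) (nat_lit 199))) (PT.nd (nat_lit 78) (PT.lf (nat_lit 31464) (nat_lit 6) (nat_lit 414) (nat_lit 4) (nat_lit 196) (nat_lit 206) (nat_lit 198)) (PT.lf (nat_lit 31388) (nat_lit 3) (nat_lit 413) (nat_lit 2) (nat_lit 197) (nat_lit 206) (nat_lit 197)))) (PT.nd (nat_lit 156) (PT.nd (nat_lit 78) (PT.lf (nat_lit 31464) (nat_lit 6) (nat_lit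 414) (nat_lit 2) (nat_lit 198) (nat_lit 206) (nat_lit 196)) (PT.lf (nat_lit 31540) (nat_lit 6) (nat_lit 415) (nat_lit 2) (nat_lit 199) (nat_lit 206) (nat_lit 195))) (PT.nd (nat_lit 78) (PT.lf (nat_lit 31616) (nat_lit 6) (nat_lit 416) (nat_lit 2) (nat_lit 200) (nat_lit 206) (nat_lit 194)) (PT.lf (nat_lit 31160) (nat_lit 6) (nat_lit 410) (nat_lit 2) (nat_lit 201) (nat_lit 206) (nat_lit 193))))))) (PT.nd (nat_lit 1248) (PT.nd (nat_lit 624) (PT.nd (nat_lit 312) (PT.nd (nat_lit 156) (PT.nd (nat_lit 78) (PT.lf (nat_lit 30628) (nat_lit 6) (nat_lit 403) (nat_lit 2) (nat_lit 202) (nat_lit 206) (nat_lit 192)) (PT.lf (nat_lit 30020) (nat_lit 6) (nat_lit 395) (nat_lit 2) (nat_lit 203) (nat_lit 206) (nat_lit 191))) (PT.nd (nat_lit 78) (PT.lf (nat_lit 29336) (nat_lit 6) (nat_lit 386) (nat_lit 2) (nat_lit 204) (nat_lit 206) (nat_lit 190)) (PT.lf (nat_lit 28576) (nat_lit 6) (nat_lit 376) (nat_lit 2) (nat_lit 205)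 (nat_lit 206) (nat_lit 189)))) (PT.nd (nat_lit 156) (PT.nd (nat_lit 78) (PT.lf (nat_lit 27740) (nat_lit 3) (nat_lit 365) (nat_lit 0) (nat_lit 206) (nat_lit 206) (nat_lit 188)) (PT.lf (nat_lit 26752) (nat_lit 6) (nat_lit 352) (nat_lit 0) (nat_lit 207) (nat_lit 206) (nat_lit 187))) (PT.nd (nat_lit 78) (PT.lf (nat_lit 25688) (nat_lit 6) (nat_lit 338) (nat_lit 0) (nat_lit 208) (nat_lit 206) (nat_lit 186)) (PT.lf (nat_lit 24548) (nat_lit 6) (nat_lit 323) (nat_lit 0) (nat_lit 209) (nat_lit 206) (nat_lit 185))))) (PT.nd (nat_lit 312) (PT.nd (nat_lit 156) (PT.nd (nat_lit 78) (PT.lf (nat_lit 23332) (nat_lit 6) (nat_lit 307) (nat_lit 0) (nat_lit 210) (nat_lit 206) (nat_lit 184)) (PT.lf (nat_lit 22040) (nat_lit 6) (nat_lit 290) (nat_lit 0) (nat_lit 211) (nat_lit 206) (nat_lit 183))) (PT.nd (nat_lit 78) (PT.lf (nat_lit 21204) (nat_lit 6) (nat_lit 279) (nat_lit 0) (nat_lit 212) (nat_lit 206) (nat_lit 182)) (PT.lf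 (nat_lit 20520) (nat_lit 6) (nat_lit 270) (nat_lit 0) (nat_lit 213) (nat_lit 206) (nat_lit 181)))) (PT.nd (nat_lit 156) (PT.nd (nat_lit 78) (PT.lf (nat_lit 19836) (nat_lit 6) (nat_lit 261) (nat_lit 0) (nat_lit 214) (nat_lit 206) (nat_lit 180)) (PT.lf (nat_lit 19228) (nat_lit 6) (nat_lit 253) (nat_lit 0) (nat_lit 215) (nat_lit 206) (nat_lit 179))) (PT.nd (nat_lit 78) (PT.lf (nat_lit 18620) (nat_lit 6) (nat_lit 245) (nat_lit 0) (nat_lit 216) (nat_lit 206) (nat_lit 178)) (PT.lf (nat_lit 18012) (nat_lit 6) (nat_lit 237) (nat_lit 0) (nat_lit 217) (nat_lit 206) (nat_lit 177)))))) (PT.nd (nat_lit 59592) (PT.nd (nat_lit 59280) (PT.nd (nat_lit 59124) (PT.nd (nat_lit 59046) (PT.lf (nat_lit 17404) (nat_lit 6) (nat_lit 229) (nat_lit 0) (nat_lit 218) (nat_lit 206) (nat_lit 176)) (PT.lf (nat_lit 16416) (nat_lit 6) (nat_lit 216) (nat_lit 5) (nat_lit 174) (nat_lit 207) (nat_lit 219))) (PT.nd (nat_lit 78) (PT.lf (nat_lit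 16948) (nat_lit 6) (nat_lit 223) (nat_lit 5) (nat_lit 175) (nat_lit 207) (nat_lit 218)) (PT.lf (nat_lit 17480) (nat_lit 6) (nat_lit 230) (nat_lit 5) (nat_lit 176) (nat_lit 207) (nat_lit 217)))) (PT.nd (nat_lit 156) (PT.nd (nat_lit 78) (PT.lf (nat_lit 18088) (nat_lit 6) (nat_lit 238) (nat_lit 5) (nat_lit 177) (nat_lit 207) (nat_lit 216)) (PT.lf (nat_lit 18696) (nat_lit 6) (nat_lit 246) (nat_lit 5) (nat_lit 178) (nat_lit 207) (nat_lit 215))) (PT.nd (nat_lit 78) (PT.lf (nat_lit 19304) (nat_lit 6) (nat_lit 254) (nat_lit 5) (nat_lit 179) (nat_lit 207) (nat_lit 214)) (PT.lf (nat_lit 19912) (nat_lit 6) (nat_lit 262) (nat_lit 5) (nat_lit 180) (nat_lit 207) (nat_lit 213))))) (PT.nd (nat_lit 312) (PT.nd (nat_lit 156) (PT.nd (nat_lit 78) (PT.lf (nat_lit 20596) (nat_lit 6) (nat_lit 271) (nat_lit 5) (nat_lit 181) (nat_lit 207) (nat_lit 212)) (PT.lf (nat_lit 21280) (nat_lit 6) (nat_lit 280) (nat_lit 5) (nat_lit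 182) (nat_lit 207) (nat_lit 211))) (PT.nd (nat_lit 78) (PT.lf (nat_lit 22116) (nat_lit 6) (nat_lit 291) (nat_lit 5) (nat_lit 183) (nat_lit 207) (nat_lit 210)) (PT.lf (nat_lit 23408) (nat_lit 6) (nat_lit 308) (nat_lit 5) (nat_lit 184) (nat_lit 207) (nat_lit 209)))) (PT.nd (nat_lit 156) (PT.nd (nat_lit 78) (PT.lf (nat_lit 24624) (nat_lit 6) (nat_lit 324) (nat_lit 5) (nat_lit 185) (nat_lit 207) (nat_lit 208)) (PT.lf (nat_lit 25764) (nat_lit 3) (nat_lit 339) (nat_lit 4) (nat_lit 186) (nat_lit 207) (nat_lit 207))) (PT.nd (nat_lit 78) (PT.lf (nat_lit 26752) (nat_lit 6) (nat_lit 352) (nat_lit 4) (nat_lit 187) (nat_lit 207) (nat_lit 206)) (PT.lf (nat_lit 27664) (nat_lit 6) (nat_lit 364) (nat_lit 4) (nat_lit 188) (nat_lit 207) (nat_lit 205))))))))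
noncomputable def pc27 : PT := (PT.nd (nat_lit 1248) (PT.nd (nat_lit 624) (PT.nd (nat_lit 312) (PT.nd (nat_lit 156) (PT.nd (nat_lit 78) (PT.lf (nat_lit 28500) (nat_lit 6) (nat_lit 375) (nat_lit 4) (nat_lit 189) (nat_lit 207) (nat_lit 204)) (PT.lf (nat_lit 29260) (nat_lit 6) (nat_lit 385) (nat_lit 4) (nat_lit 190) (nat_lit 207) (nat_lit 203))) (PT.nd (nat_lit 78) (PT.lf (nat_lit 29944) (nat_lit 6) (nat_lit 394) (nat_lit 4) (nat_lit 191) (nat_lit 207) (nat_lit 202)) (PT.lf (nat_lit 30552) (nat_lit 6) (nat_lit 402) (nat_lit 4) (nat_lit 192) (nat_lit 207) (nat_lit 201)))) (PT.nd (nat_lit 156) (PT.nd (nat_lit 78) (PT.lf (nat_lit 31084) (nat_lit 6) (nat_lit 409) (nat_lit 4) (nat_lit 193) (nat_lit 207) (nat_lit 200)) (PT.lf (nat_lit 31008) (nat_lit 6) (nat_lit 408) (nat_lit 4) (nat_lit 194) (nat_lit 207) (nat_lit 199))) (PT.nd (nat_lit 78) (PT.lf (nat_lit 30932) (nat_lit 6) (nat_lit 407) (nat_lit 4) (nat_lit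 195) (nat_lit 207) (nat_lit 198)) (PT.lf (nat_lit 30856) (nat_lit 6) (nat_lit 406) (nat_lit 4) (nat_lit 196) (nat_lit 207) (nat_lit 197))))) (PT.nd (nat_lit 312) (PT.nd (nat_lit 156) (PT.nd (nat_lit 78) (PT.lf (nat_lit 30856) (nat_lit 6) (nat_lit 406) (nat_lit 2) (nat_lit 197) (nat_lit 207) (nat_lit 196)) (PT.lf (nat_lit 30932) (nat_lit 6) (nat_lit 407) (nat_lit 2) (nat_lit 198) (nat_lit 207) (nat_lit 195))) (PT.nd (nat_lit 78) (PT.lf (nat_lit 31008) (nat_lit 6) (nat_lit 408) (nat_lit 2) (nat_lit 199) (nat_lit 207) (nat_lit 194)) (PT.lf (nat_lit 31084) (nat_lit 6) (nat_lit 409) (nat_lit 2) (nat_lit 200) (nat_lit 207) (nat_lit 193)))) (PT.nd (nat_lit 156) (PT.nd (nat_lit 78) (PT.lf (nat_lit 30552) (nat_lit 6) (nat_lit 402) (nat_lit 2) (nat_lit 201) (nat_lit 207) (nat_lit 192)) (PT.lf (nat_lit 29944) (nat_lit 6) (nat_lit 394) (nat_lit 2) (nat_lit 202) (nat_lit 207) (nat_lit 191))) (PT.nd (nat_lit 78)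 (PT.lf (nat_lit 29260) (nat_lit 6) (nat_lit 385) (nat_lit 2) (nat_lit 203) (nat_lit 207) (nat_lit 190)) (PT.lf (nat_lit 28500) (nat_lit 6) (nat_lit 375) (nat_lit 2) (nat_lit 204) (nat_lit 207) (nat_lit 189)))))) (PT.nd (nat_lit 624) (PT.nd (nat_lit 312) (PT.nd (nat_lit 156) (PT.nd (nat_lit 78) (PT.lf (nat_lit 27664) (nat_lit 6) (nat_lit 364) (nat_lit 2) (nat_lit 205) (nat_lit 207) (nat_lit 188)) (PT.lf (nat_lit 26752) (nat_lit 6) (nat_lit 352) (nat_lit 2) (nat_lit 206) (nat_lit 207) (nat_lit 187))) (PT.nd (nat_lit 78) (PT.lf (nat_lit 25764) (nat_lit 3) (nat_lit 339) (nat_lit 0) (nat_lit 207) (nat_lit 207) (nat_lit 186)) (PT.lf (nat_lit 24624) (nat_lit 6) (nat_lit 324) (nat_lit 0) (nat_lit 208) (nat_lit 207) (nat_lit 185)))) (PT.nd (nat_lit 156) (PT.nd (nat_lit 78) (PT.lf (nat_lit 23408) (nat_lit 6) (nat_lit 308) (nat_lit 0) (nat_lit 209) (nat_lit 207) (nat_lit 184)) (PT.lf (nat_lit 22116) (nat_lit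 6) (nat_lit 291) (nat_lit 0) (nat_lit 210) (nat_lit 207) (nat_lit 183))) (PT.nd (nat_lit 78) (PT.lf (nat_lit 21280) (nat_lit 6) (nat_lit 280) (nat_lit 0) (nat_lit 211) (nat_lit 207) (nat_lit 182)) (PT.lf (nat_lit 20596) (nat_lit 6) (nat_lit 271) (nat_lit 0) (nat_lit 212) (nat_lit 207) (nat_lit 181))))) (PT.nd (nat_lit 312) (PT.nd (nat_lit 156) (PT.nd (nat_lit 78) (PT.lf (nat_lit 19912) (nat_lit 6) (nat_lit 262) (nat_lit 0) (nat_lit 213) (nat_lit 207) (nat_lit 180)) (PT.lf (nat_lit 19304) (nat_lit 6) (nat_lit 254) (nat_lit 0) (nat_lit 214) (nat_lit 207) (nat_lit 179))) (PT.nd (nat_lit 78) (PT.lf (nat_lit 18696) (nat_lit 6) (nat_lit 246) (nat_lit 0) (nat_lit 215) (nat_lit 207) (nat_lit 178)) (PT.lf (nat_lit 18088) (nat_lit 6) (nat_lit 238) (nat_lit 0) (nat_lit 216) (nat_lit 207) (nat_lit 177)))) (PT.nd (nat_lit 156) (PT.nd (nat_lit 78) (PT.lf (nat_lit 17480) (nat_lit 6) (nat_lit 230) (nat_lit 0) (nat_lit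 217) (nat_lit 207) (nat_lit 176)) (PT.lf (nat_lit 16948) (nat_lit 6) (nat_lit 223) (nat_lit 0) (nat_lit 218) (nat_lit 207) (nat_lit 175))) (PT.nd (nat_lit 58890) (PT.lf (nat_lit 16416) (nat_lit 6) (nat_lit 216) (nat_lit 0) (nat_lit 219) (nat_lit 207) (nat_lit 174)) (PT.lf (nat_lit 15960) (nat_lit 6) (nat_lit 210) (nat_lit 5) (nat_lit 173) (nat_lit 208) (nat_lit 219)))))))
noncomputable def pc28 : PT := (PT.nd (nat_lit 1248) (PT.nd (nat_lit 624) (PT.nd (nat_lit 312) (PT.nd (nat_lit 156) (PT.nd (nat_lit 78) (PT.lf (nat_lit 16492) (nat_lit 6) (nat_lit 217) (nat_lit 5) (nat_lit 174) (nat_lit 208) (nat_lit 218)) (PT.lf (nat_lit 17024) (nat_lit 6) (nat_lit 224) (nat_lit 5) (nat_lit 175) (nat_lit 208) (nat_lit 217))) (PT.nd (nat_lit 78) (PT.lf (nat_lit 17556) (nat_lit 6) (nat_lit 231) (nat_lit 5) (nat_lit 176) (nat_lit 208) (nat_lit 216)) (PT.lf (nat_lit 18164) (nat_lit 6) (nat_lit 239) (nat_lit 5) (nat_lit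 177) (nat_lit 208) (nat_lit 215)))) (PT.nd (nat_lit 156) (PT.nd (nat_lit 78) (PT.lf (nat_lit 18772) (nat_lit 6) (nat_lit 247) (nat_lit 5) (nat_lit 178) (nat_lit 208) (nat_lit 214)) (PT.lf (nat_lit 19380) (nat_lit 6) (nat_lit 255) (nat_lit 5) (nat_lit 179) (nat_lit 208) (nat_lit 213))) (PT.nd (nat_lit 78) (PT.lf (nat_lit 19988) (nat_lit 6) (nat_lit 263) (nat_lit 5) (nat_lit 180) (nat_lit 208) (nat_lit 212)) (PT.lf (nat_lit 20672) (nat_lit 6) (nat_lit 272) (nat_lit 5) (nat_lit 181) (nat_lit 208) (nat_lit 211))))) (PT.nd (nat_lit 312) (PT.nd (nat_lit 156) (PT.nd (nat_lit 78) (PT.lf (nat_lit 21356) (nat_lit 6) (nat_lit 281) (nat_lit 5) (nat_lit 182) (nat_lit 208) (nat_lit 210)) (PT.lf (nat_lit 22192) (nat_lit 6) (nat_lit 292) (nat_lit 5) (nat_lit 183) (nat_lit 208) (nat_lit 209))) (PT.nd (nat_lit 78) (PT.lf (nat_lit 23484) (nat_lit 3) (nat_lit 309) (nat_lit 4) (nat_lit 184) (nat_lit 208) (nat_lit 208))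 (PT.lf (nat_lit 24624) (nat_lit 6) (nat_lit 324) (nat_lit 4) (nat_lit 185) (nat_lit 208) (nat_lit 207)))) (PT.nd (nat_lit 156) (PT.nd (nat_lit 78) (PT.lf (nat_lit 25688) (nat_lit 6) (nat_lit 338) (nat_lit 4) (nat_lit 186) (nat_lit 208) (nat_lit 206)) (PT.lf (nat_lit 26676) (nat_lit 6) (nat_lit 351) (nat_lit 4) (nat_lit 187) (nat_lit 208) (nat_lit 205))) (PT.nd (nat_lit 78) (PT.lf (nat_lit 27588) (nat_lit 6) (nat_lit 363) (nat_lit 4) (nat_lit 188) (nat_lit 208) (nat_lit 204)) (PT.lf (nat_lit 28424) (nat_lit 6) (nat_lit 374) (nat_lit 4) (nat_lit 189) (nat_lit 208) (nat_lit 203)))))) (PT.nd (nat_lit 624) (PT.nd (nat_lit 312) (PT.nd (nat_lit 156) (PT.nd (nat_lit 78) (PT.lf (nat_lit 29184) (nat_lit 6) (nat_lit 384) (nat_lit 4) (nat_lit 190) (nat_lit 208) (nat_lit 202)) (PT.lf (nat_lit 29868) (nat_lit 6) (nat_lit 393) (nat_lit 4) (nat_lit 191) (nat_lit 208) (nat_lit 201))) (PT.nd (nat_lit 78) (PT.lf (nat_lit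 30476) (nat_lit 6) (nat_lit 401) (nat_lit 4) (nat_lit 192) (nat_lit 208) (nat_lit 200)) (PT.lf (nat_lit 30400) (nat_lit 6) (nat_lit 400) (nat_lit 4) (nat_lit 193) (nat_lit 208) (nat_lit 199)))) (PT.nd (nat_lit 156) (PT.nd (nat_lit 78) (PT.lf (nat_lit 30324) (nat_lit 6) (nat_lit 399) (nat_lit 4) (nat_lit 194) (nat_lit 208) (nat_lit 198)) (PT.lf (nat_lit 30248) (nat_lit 6) (nat_lit 398) (nat_lit 4) (nat_lit 195) (nat_lit 208) (nat_lit 197))) (PT.nd (nat_lit 78) (PT.lf (nat_lit 30172) (nat_lit 3) (nat_lit 397) (nat_lit 2) (nat_lit 196) (nat_lit 208) (nat_lit 196)) (PT.lf (nat_lit 30248) (nat_lit 6) (nat_lit 398) (nat_lit 2) (nat_lit 197) (nat_lit 208) (nat_lit 195))))) (PT.nd (nat_lit 312) (PT.nd (nat_lit 156) (PT.nd (nat_lit 78) (PT.lf (nat_lit 30324) (nat_lit 6) (nat_lit 399) (nat_lit 2) (nat_lit 198) (nat_lit 208) (nat_lit 194)) (PT.lf (nat_lit 30400) (nat_lit 6) (nat_lit 400) (nat_lit 2) (nat_lit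 199) (nat_lit 208) (nat_lit 193))) (PT.nd (nat_lit 78) (PT.lf (nat_lit 30476) (nat_lit 6) (nat_lit 401) (nat_lit 2) (nat_lit 200) (nat_lit 208) (nat_lit 192)) (PT.lf (nat_lit 29868) (nat_lit 6) (nat_lit 393) (nat_lit 2) (nat_lit 201) (nat_lit 208) (nat_lit 191)))) (PT.nd (nat_lit 156) (PT.nd (nat_lit 78) (PT.lf (nat_lit 29184) (nat_lit 6) (nat_lit 384) (nat_lit 2) (nat_lit 202) (nat_lit 208) (nat_lit 190)) (PT.lf (nat_lit 28424) (nat_lit 6) (nat_lit 374) (nat_lit 2) (nat_lit 203) (nat_lit 208) (nat_lit 189))) (PT.nd (nat_lit 78) (PT.lf (nat_lit 27588) (nat_lit 6) (nat_lit 363) (nat_lit 2) (nat_lit 204) (nat_lit 208) (nat_lit 188)) (PT.nd (nat_lit 78) (PT.lf (nat_lit 26676) (nat_lit 6) (nat_lit 351) (nat_lit 2) (nat_lit 205) (nat_lit 208) (nat_lit 187)) (PT.lf (nat_lit 25688) (nat_lit 6) (nat_lit 338) (nat_lit 2) (nat_lit 206) (nat_lit 208) (nat_lit 186))))))))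
noncomputable def pc29 : PT := (PT.nd (nat_lit 61230) (PT.nd (nat_lit 59982) (PT.nd (nat_lit 624) (PT.nd (nat_lit 312) (PT.nd (nat_lit 156) (PT.nd (nat_lit 78) (PT.lf (nat_lit 24624) (nat_lit 6) (nat_lit 324) (nat_lit 2) (nat_lit 207) (nat_lit 208) (nat_lit 185)) (PT.lf (nat_lit 23484) (nat_lit 3) (nat_lit 309) (nat_lit 0) (nat_lit 208) (nat_lit 208) (nat_lit 184))) (PT.nd (nat_lit 78) (PT.lf (nat_lit 22192) (nat_lit 6) (nat_lit 292) (nat_lit 0) (nat_lit 209) (nat_lit 208) (nat_lit 183)) (PT.lf (nat_lit 21356) (nat_lit 6) (nat_lit 281) (nat_lit 0) (nat_lit 210) (nat_lit 208) (nat_lit 182)))) (PT.nd (nat_lit 156) (PT.nd (nat_lit 78) (PT.lf (nat_lit 20672) (nat_lit 6) (nat_lit 272) (nat_lit 0) (nat_lit 211) (nat_lit 208) (nat_lit 181)) (PT.lf (nat_lit 19988) (nat_lit 6) (nat_lit 263) (nat_lit 0) (nat_lit 212) (nat_lit 208) (nat_lit 180))) (PT.nd (nat_lit 78) (PT.lf (nat_lit 19380) (nat_lit 6) (nat_lit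 255) (nat_lit 0) (nat_lit 213) (nat_lit 208) (nat_lit 179)) (PT.lf (nat_lit 18772) (nat_lit 6) (nat_lit 247) (nat_lit 0) (nat_lit 214) (nat_lit 208) (nat_lit 178))))) (PT.nd (nat_lit 312) (PT.nd (nat_lit 156) (PT.nd (nat_lit 78) (PT.lf (nat_lit 18164) (nat_lit 6) (nat_lit 239) (nat_lit 0) (nat_lit 215) (nat_lit 208) (nat_lit 177)) (PT.lf (nat_lit 17556) (nat_lit 6) (nat_lit 231) (nat_lit 0) (nat_lit 216) (nat_lit 208) (nat_lit 176))) (PT.nd (nat_lit 78) (PT.lf (nat_lit 17024) (nat_lit 6) (nat_lit 224) (nat_lit 0) (nat_lit 217) (nat_lit 208) (nat_lit 175)) (PT.lf (nat_lit 16492) (nat_lit 6) (nat_lit 217) (nat_lit 0) (nat_lit 218) (nat_lit 208) (nat_lit 174)))) (PT.nd (nat_lit 58890) (PT.nd (nat_lit 58812) (PT.lf (nat_lit 15960) (nat_lit 6) (nat_lit 210) (nat_lit 0) (nat_lit 219) (nat_lit 208) (nat_lit 173)) (PT.lf (nat_lit 15504) (nat_lit 6) (nat_lit 204) (nat_lit 5) (nat_lit 172) (nat_lit 209) (nat_lit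 219))) (PT.nd (nat_lit 78) (PT.lf (nat_lit 16036) (nat_lit 6) (nat_lit 211) (nat_lit 5) (nat_lit 173) (nat_lit 209) (nat_lit 218)) (PT.lf (nat_lit 16568) (nat_lit 6) (nat_lit 218) (nat_lit 5) (nat_lit 174) (nat_lit 209) (nat_lit 217)))))) (PT.nd (nat_lit 624) (PT.nd (nat_lit 312) (PT.nd (nat_lit 156) (PT.nd (nat_lit 78) (PT.lf (nat_lit 17100) (nat_lit 6) (nat_lit 225) (nat_lit 5) (nat_lit 175) (nat_lit 209) (nat_lit 216)) (PT.lf (nat_lit 17632) (nat_lit 6) (nat_lit 232) (nat_lit 5) (nat_lit 176) (nat_lit 209) (nat_lit 215))) (PT.nd (nat_lit 78) (PT.lf (nat_lit 18240) (nat_lit 6) (nat_lit 240) (nat_lit 5) (nat_lit 177) (nat_lit 209) (nat_lit 214)) (PT.lf (nat_lit 18848) (nat_lit 6) (nat_lit 248) (nat_lit 5) (nat_lit 178) (nat_lit 209) (nat_lit 213)))) (PT.nd (nat_lit 156) (PT.nd (nat_lit 78) (PT.lf (nat_lit 19456) (nat_lit 6) (nat_lit 256) (nat_lit 5) (nat_lit 179) (nat_lit 209) (nat_lit 212)) (PT.lf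 (nat_lit 20064) (nat_lit 6) (nat_lit 264) (nat_lit 5) (nat_lit 180) (nat_lit 209) (nat_lit 211))) (PT.nd (nat_lit 78) (PT.lf (nat_lit 20748) (nat_lit 6) (nat_lit 273) (nat_lit 5) (nat_lit 181) (nat_lit 209) (nat_lit 210)) (PT.lf (nat_lit 21432) (nat_lit 3) (nat_lit 282) (nat_lit 4) (nat_lit 182) (nat_lit 209) (nat_lit 209))))) (PT.nd (nat_lit 312) (PT.nd (nat_lit 156) (PT.nd (nat_lit 78) (PT.lf (nat_lit 22192) (nat_lit 6) (nat_lit 292) (nat_lit 4) (nat_lit 183) (nat_lit 209) (nat_lit 208)) (PT.lf (nat_lit 23408) (nat_lit 6) (nat_lit 308) (nat_lit 4) (nat_lit 184) (nat_lit 209) (nat_lit 207))) (PT.nd (nat_lit 78) (PT.lf (nat_lit 24548) (nat_lit 6) (nat_lit 323) (nat_lit 4) (nat_lit 185) (nat_lit 209) (nat_lit 206)) (PT.lf (nat_lit 25612) (nat_lit 6) (nat_lit 337) (nat_lit 4) (nat_lit 186) (nat_lit 209) (nat_lit 205)))) (PT.nd (nat_lit 156) (PT.nd (nat_lit 78) (PT.lf (nat_lit 26600) (nat_lit 6) (nat_lit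 350) (nat_lit 4) (nat_lit 187) (nat_lit 209) (nat_lit 204)) (PT.lf (nat_lit 27512) (nat_lit 6) (nat_lit 362) (nat_lit 4) (nat_lit 188) (nat_lit 209) (nat_lit 203))) (PT.nd (nat_lit 78) (PT.lf (nat_lit 28348) (nat_lit 6) (nat_lit 373) (nat_lit 4) (nat_lit 189) (nat_lit 209) (nat_lit 202)) (PT.lf (nat_lit 29108) (nat_lit 6) (nat_lit 383) (nat_lit 4) (nat_lit 190) (nat_lit 209) (nat_lit 201))))))) (PT.nd (nat_lit 1248) (PT.nd (nat_lit 624) (PT.nd (nat_lit 312) (PT.nd (nat_lit 156) (PT.nd (nat_lit 78) (PT.lf (nat_lit 29792) (nat_lit 6) (nat_lit 392) (nat_lit 4) (nat_lit 191) (nat_lit 209) (nat_lit 200)) (PT.lf (nat_lit 29716) (nat_lit 6) (nat_lit 391) (nat_lit 4) (nat_lit 192) (nat_lit 209) (nat_lit 199))) (PT.nd (nat_lit 78) (PT.lf (nat_lit 29640) (nat_lit 6) (nat_lit 390) (nat_lit 4) (nat_lit 193) (nat_lit 209) (nat_lit 198)) (PT.lf (nat_lit 29564) (nat_lit 6) (nat_lit 389) (nat_lit 4) (nat_lit 194)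 (nat_lit 209) (nat_lit 197)))) (PT.nd (nat_lit 156) (PT.nd (nat_lit 78) (PT.lf (nat_lit 29488) (nat_lit 6) (nat_lit 388) (nat_lit 4) (nat_lit 195) (nat_lit 209) (nat_lit 196)) (PT.lf (nat_lit 29488) (nat_lit 6) (nat_lit 388) (nat_lit 2) (nat_lit 196) (nat_lit 209) (nat_lit 195))) (PT.nd (nat_lit 78) (PT.lf (nat_lit 29564) (nat_lit 6) (nat_lit 389) (nat_lit 2) (nat_lit 197) (nat_lit 209) (nat_lit 194)) (PT.lf (nat_lit 29640) (nat_lit 6) (nat_lit 390) (nat_lit 2) (nat_lit 198) (nat_lit 209) (nat_lit 193))))) (PT.nd (nat_lit 312) (PT.nd (nat_lit 156) (PT.nd (nat_lit 78) (PT.lf (nat_lit 29716) (nat_lit 6) (nat_lit 391) (nat_lit 2) (nat_lit 199) (nat_lit 209) (nat_lit 192)) (PT.lf (nat_lit 29792) (nat_lit 6) (nat_lit 392) (nat_lit 2) (nat_lit 200) (nat_lit 209) (nat_lit 191))) (PT.nd (nat_lit 78) (PT.lf (nat_lit 29108) (nat_lit 6) (nat_lit 383) (nat_lit 2) (nat_lit 201) (nat_lit 209) (nat_lit 190)) (PT.lf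 (nat_lit 28348) (nat_lit 6) (nat_lit 373) (nat_lit 2) (nat_lit 202) (nat_lit 209) (nat_lit 189)))) (PT.nd (nat_lit 156) (PT.nd (nat_lit 78) (PT.lf (nat_lit 27512) (nat_lit 6) (nat_lit 362) (nat_lit 2) (nat_lit 203) (nat_lit 209) (nat_lit 188)) (PT.lf (nat_lit 26600) (nat_lit 6) (nat_lit 350) (nat_lit 2) (nat_lit 204) (nat_lit 209) (nat_lit 187))) (PT.nd (nat_lit 78) (PT.lf (nat_lit 25612) (nat_lit 6) (nat_lit 337) (nat_lit 2) (nat_lit 205) (nat_lit 209) (nat_lit 186)) (PT.lf (nat_lit 24548) (nat_lit 6) (nat_lit 323) (nat_lit 2) (nat_lit 206) (nat_lit 209) (nat_lit 185)))))) (PT.nd (nat_lit 624) (PT.nd (nat_lit 312) (PT.nd (nat_lit 156) (PT.nd (nat_lit 78) (PT.lf (nat_lit 23408) (nat_lit 6) (nat_lit 308) (nat_lit 2) (nat_lit 207) (nat_lit 209) (nat_lit 184)) (PT.lf (nat_lit 22192) (nat_lit 6) (nat_lit 292) (nat_lit 2) (nat_lit 208) (nat_lit 209) (nat_lit 183))) (PT.nd (nat_lit 78) (PT.lf (nat_lit 21432)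 (nat_lit 3) (nat_lit 282) (nat_lit 0) (nat_lit 209) (nat_lit 209) (nat_lit 182)) (PT.lf (nat_lit 20748) (nat_lit 6) (nat_lit 273) (nat_lit 0) (nat_lit 210) (nat_lit 209) (nat_lit 181)))) (PT.nd (nat_lit 156) (PT.nd (nat_lit 78) (PT.lf (nat_lit 20064) (nat_lit 6) (nat_lit 264) (nat_lit 0) (nat_lit 211) (nat_lit 209) (nat_lit 180)) (PT.lf (nat_lit 19456) (nat_lit 6) (nat_lit 256) (nat_lit 0) (nat_lit 212) (nat_lit 209) (nat_lit 179))) (PT.nd (nat_lit 78) (PT.lf (nat_lit 18848) (nat_lit 6) (nat_lit 248) (nat_lit 0) (nat_lit 213) (nat_lit 209) (nat_lit 178)) (PT.lf (nat_lit 18240) (nat_lit 6) (nat_lit 240) (nat_lit 0) (nat_lit 214) (nat_lit 209) (nat_lit 177))))) (PT.nd (nat_lit 312) (PT.nd (nat_lit 156) (PT.nd (nat_lit 78) (PT.lf (nat_lit 17632) (nat_lit 6) (nat_lit 232) (nat_lit 0) (nat_lit 215) (nat_lit 209) (nat_lit 176)) (PT.lf (nat_lit 17100) (nat_lit 6) (nat_lit 225) (nat_lit 0) (nat_lit 216) (nat_lit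 209) (nat_lit 175))) (PT.nd (nat_lit 78) (PT.lf (nat_lit 16568) (nat_lit 6) (nat_lit 218) (nat_lit 0) (nat_lit 217) (nat_lit 209) (nat_lit 174)) (PT.lf (nat_lit 16036) (nat_lit 6) (nat_lit 211) (nat_lit 0) (nat_lit 218) (nat_lit 209) (nat_lit 173)))) (PT.nd (nat_lit 58734) (PT.nd (nat_lit 58656) (PT.lf (nat_lit 15504) (nat_lit 6) (nat_lit 204) (nat_lit 0) (nat_lit 219) (nat_lit 209) (nat_lit 172)) (PT.lf (nat_lit 14592) (nat_lit 6) (nat_lit 192) (nat_lit 5) (nat_lit 170) (nat_lit 210) (nat_lit 220))) (PT.nd (nat_lit 78) (PT.lf (nat_lit 15124) (nat_lit 6) (nat_lit 199) (nat_lit 5) (nat_lit 171) (nat_lit 210) (nat_lit 219)) (PT.lf (nat_lit 15580) (nat_lit 6) (nat_lit 205) (nat_lit 5) (nat_lit 172) (nat_lit 210) (nat_lit 218))))))))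
noncomputable def pc30 : PT := (PT.nd (nat_lit 1248) (PT.nd (nat_lit 624) (PT.nd (nat_lit 312) (PT.nd (nat_lit 156) (PT.nd (nat_lit 78) (PT.lf (nat_lit 16112) (nat_lit 6) (nat_lit 212) (nat_lit 5) (nat_lit 173) (nat_lit 210) (nat_lit 217)) (PT.lf (nat_lit 16644) (nat_lit 6) (nat_lit 219) (nat_lit 5) (nat_lit 174) (nat_lit 210) (nat_lit 216))) (PT.nd (nat_lit 78) (PT.lf (nat_lit 17176) (nat_lit 6) (nat_lit 226) (nat_lit 5) (nat_lit 175) (nat_lit 210) (nat_lit 215)) (PT.lf (nat_lit 17708) (nat_lit 6) (nat_lit 233) (nat_lit 5) (nat_lit 176) (nat_lit 210) (nat_lit 214)))) (PT.nd (nat_lit 156) (PT.nd (nat_lit 78) (PT.lf (nat_lit 18316) (nat_lit 6) (nat_lit 241) (nat_lit 5) (nat_lit 177) (nat_lit 210) (nat_lit 213)) (PT.lf (nat_lit 18924) (nat_lit 6) (nat_lit 249) (nat_lit 5) (nat_lit 178) (nat_lit 210) (nat_lit 212))) (PT.nd (nat_lit 78) (PT.lf (nat_lit 19532) (nat_lit 6) (nat_lit 257) (nat_lit 5) (nat_lit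 179) (nat_lit 210) (nat_lit 211)) (PT.lf (nat_lit 20140) (nat_lit 3) (nat_lit 265) (nat_lit 4) (nat_lit 180) (nat_lit 210) (nat_lit 210))))) (PT.nd (nat_lit 312) (PT.nd (nat_lit 156) (PT.nd (nat_lit 78) (PT.lf (nat_lit 20748) (nat_lit 6) (nat_lit 273) (nat_lit 4) (nat_lit 181) (nat_lit 210) (nat_lit 209)) (PT.lf (nat_lit 21356) (nat_lit 6) (nat_lit 281) (nat_lit 4) (nat_lit 182) (nat_lit 210) (nat_lit 208))) (PT.nd (nat_lit 78) (PT.lf (nat_lit 22116) (nat_lit 6) (nat_lit 291) (nat_lit 4) (nat_lit 183) (nat_lit 210) (nat_lit 207)) (PT.lf (nat_lit 23332) (nat_lit 6) (nat_lit 307) (nat_lit 4) (nat_lit 184) (nat_lit 210) (nat_lit 206)))) (PT.nd (nat_lit 156) (PT.nd (nat_lit 78) (PT.lf (nat_lit 24472) (nat_lit 6) (nat_lit 322) (nat_lit 4) (nat_lit 185) (nat_lit 210) (nat_lit 205)) (PT.lf (nat_lit 25536) (nat_lit 6) (nat_lit 336) (nat_lit 4) (nat_lit 186) (nat_lit 210) (nat_lit 204))) (PT.nd (nat_lit 78)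 (PT.lf (nat_lit 26524) (nat_lit 6) (nat_lit 349) (nat_lit 4) (nat_lit 187) (nat_lit 210) (nat_lit 203)) (PT.lf (nat_lit 27436) (nat_lit 6) (nat_lit 361) (nat_lit 4) (nat_lit 188) (nat_lit 210) (nat_lit 202)))))) (PT.nd (nat_lit 624) (PT.nd (nat_lit 312) (PT.nd (nat_lit 156) (PT.nd (nat_lit 78) (PT.lf (nat_lit 28272) (nat_lit 6) (nat_lit 372) (nat_lit 4) (nat_lit 189) (nat_lit 210) (nat_lit 201)) (PT.lf (nat_lit 29032) (nat_lit 6) (nat_lit 382) (nat_lit 4) (nat_lit 190) (nat_lit 210) (nat_lit 200))) (PT.nd (nat_lit 78) (PT.lf (nat_lit 28956) (nat_lit 6) (nat_lit 381) (nat_lit 4) (nat_lit 191) (nat_lit 210) (nat_lit 199)) (PT.lf (nat_lit 28880) (nat_lit 6) (nat_lit 380) (nat_lit 4) (nat_lit 192) (nat_lit 210) (nat_lit 198)))) (PT.nd (nat_lit 156) (PT.nd (nat_lit 78) (PT.lf (nat_lit 28804) (nat_lit 6) (nat_lit 379) (nat_lit 4) (nat_lit 193) (nat_lit 210) (nat_lit 197)) (PT.lf (nat_lit 28728) (nat_lit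 6) (nat_lit 378) (nat_lit 4) (nat_lit 194) (nat_lit 210) (nat_lit 196))) (PT.nd (nat_lit 78) (PT.lf (nat_lit 28652) (nat_lit 3) (nat_lit 377) (nat_lit 2) (nat_lit 195) (nat_lit 210) (nat_lit 195)) (PT.lf (nat_lit 28728) (nat_lit 6) (nat_lit 378) (nat_lit 2) (nat_lit 196) (nat_lit 210) (nat_lit 194))))) (PT.nd (nat_lit 312) (PT.nd (nat_lit 156) (PT.nd (nat_lit 78) (PT.lf (nat_lit 28804) (nat_lit 6) (nat_lit 379) (nat_lit 2) (nat_lit 197) (nat_lit 210) (nat_lit 193)) (PT.lf (nat_lit 28880) (nat_lit 6) (nat_lit 380) (nat_lit 2) (nat_lit 198) (nat_lit 210) (nat_lit 192))) (PT.nd (nat_lit 78) (PT.lf (nat_lit 28956) (nat_lit 6) (nat_lit 381) (nat_lit 2) (nat_lit 199) (nat_lit 210) (nat_lit 191)) (PT.lf (nat_lit 29032) (nat_lit 6) (nat_lit 382) (nat_lit 2) (nat_lit 200) (nat_lit 210) (nat_lit 190)))) (PT.nd (nat_lit 156) (PT.nd (nat_lit 78) (PT.lf (nat_lit 28272) (nat_lit 6) (nat_lit 372) (nat_lit 2) (nat_lit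 201) (nat_lit 210) (nat_lit 189)) (PT.lf (nat_lit 27436) (nat_lit 6) (nat_lit 361) (nat_lit 2) (nat_lit 202) (nat_lit 210) (nat_lit 188))) (PT.nd (nat_lit 78) (PT.lf (nat_lit 26524) (nat_lit 6) (nat_lit 349) (nat_lit 2) (nat_lit 203) (nat_lit 210) (nat_lit 187)) (PT.lf (nat_lit 25536) (nat_lit 6) (nat_lit 336) (nat_lit 2) (nat_lit 204) (nat_lit 210) (nat_lit 186)))))))
noncomputable def pc31 : PT := (PT.nd (nat_lit 59670) (PT.nd (nat_lit 624) (PT.nd (nat_lit 312) (PT.nd (nat_lit 156) (PT.nd (nat_lit 78) (PT.lf (nat_lit 24472) (nat_lit 6) (nat_lit 322) (nat_lit 2) (nat_lit 205) (nat_lit 210) (nat_lit 185)) (PT.lf (nat_lit 23332) (nat_lit 6) (nat_lit 307) (nat_lit 2) (nat_lit 206) (nat_lit 210) (nat_lit 184))) (PT.nd (nat_lit 78) (PT.lf (nat_lit 22116) (nat_lit 6) (nat_lit 291) (nat_lit 2) (nat_lit 207) (nat_lit 210) (nat_lit 183)) (PT.lf (nat_lit 21356) (nat_lit 6) (nat_lit 281) (nat_lit 2) (nat_lit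 208) (nat_lit 210) (nat_lit 182)))) (PT.nd (nat_lit 156) (PT.nd (nat_lit 78) (PT.lf (nat_lit 20748) (nat_lit 6) (nat_lit 273) (nat_lit 2) (nat_lit 209) (nat_lit 210) (nat_lit 181)) (PT.lf (nat_lit 20140) (nat_lit 3) (nat_lit 265) (nat_lit 0) (nat_lit 210) (nat_lit 210) (nat_lit 180))) (PT.nd (nat_lit 78) (PT.lf (nat_lit 19532) (nat_lit 6) (nat_lit 257) (nat_lit 0) (nat_lit 211) (nat_lit 210) (nat_lit 179)) (PT.lf (nat_lit 18924) (nat_lit 6) (nat_lit 249) (nat_lit 0) (nat_lit 212) (nat_lit 210) (nat_lit 178))))) (PT.nd (nat_lit 312) (PT.nd (nat_lit 156) (PT.nd (nat_lit 78) (PT.lf (nat_lit 18316) (nat_lit 6) (nat_lit 241) (nat_lit 0) (nat_lit 213) (nat_lit 210) (nat_lit 177)) (PT.lf (nat_lit 17708) (nat_lit 6) (nat_lit 233) (nat_lit 0) (nat_lit 214) (nat_lit 210) (nat_lit 176))) (PT.nd (nat_lit 78) (PT.lf (nat_lit 17176) (nat_lit 6) (nat_lit 226) (nat_lit 0) (nat_lit 215) (nat_lit 210) (nat_lit 175))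 (PT.lf (nat_lit 16644) (nat_lit 6) (nat_lit 219) (nat_lit 0) (nat_lit 216) (nat_lit 210) (nat_lit 174)))) (PT.nd (nat_lit 156) (PT.nd (nat_lit 78) (PT.lf (nat_lit 16112) (nat_lit 6) (nat_lit 212) (nat_lit 0) (nat_lit 217) (nat_lit 210) (nat_lit 173)) (PT.lf (nat_lit 15580) (nat_lit 6) (nat_lit 205) (nat_lit 0) (nat_lit 218) (nat_lit 210) (nat_lit 172))) (PT.nd (nat_lit 78) (PT.lf (nat_lit 15124) (nat_lit 6) (nat_lit 199) (nat_lit 0) (nat_lit 219) (nat_lit 210) (nat_lit 171)) (PT.lf (nat_lit 14592) (nat_lit 6) (nat_lit 192) (nat_lit 0) (nat_lit 220) (nat_lit 210) (nat_lit 170)))))) (PT.nd (nat_lit 624) (PT.nd (nat_lit 312) (PT.nd (nat_lit 156) (PT.nd (nat_lit 78) (PT.lf (nat_lit 14212) (nat_lit 6) (nat_lit 187) (nat_lit 5) (nat_lit 169) (nat_lit 211) (nat_lit 220)) (PT.lf (nat_lit 14668) (nat_lit 6) (nat_lit 193) (nat_lit 5) (nat_lit 170) (nat_lit 211) (nat_lit 219))) (PT.nd (nat_lit 78) (PT.lf (nat_lit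 15200) (nat_lit 6) (nat_lit 200) (nat_lit 5) (nat_lit 171) (nat_lit 211) (nat_lit 218)) (PT.lf (nat_lit 15656) (nat_lit 6) (nat_lit 206) (nat_lit 5) (nat_lit 172) (nat_lit 211) (nat_lit 217)))) (PT.nd (nat_lit 156) (PT.nd (nat_lit 78) (PT.lf (nat_lit 16188) (nat_lit 6) (nat_lit 213) (nat_lit 5) (nat_lit 173) (nat_lit 211) (nat_lit 216)) (PT.lf (nat_lit 16720) (nat_lit 6) (nat_lit 220) (nat_lit 5) (nat_lit 174) (nat_lit 211) (nat_lit 215))) (PT.nd (nat_lit 78) (PT.lf (nat_lit 17252) (nat_lit 6) (nat_lit 227) (nat_lit 5) (nat_lit 175) (nat_lit 211) (nat_lit 214)) (PT.lf (nat_lit 17784) (nat_lit 6) (nat_lit 234) (nat_lit 5) (nat_lit 176) (nat_lit 211) (nat_lit 213))))) (PT.nd (nat_lit 312) (PT.nd (nat_lit 156) (PT.nd (nat_lit 78) (PT.lf (nat_lit 18392) (nat_lit 6) (nat_lit 242) (nat_lit 5) (nat_lit 177) (nat_lit 211) (nat_lit 212)) (PT.lf (nat_lit 19000) (nat_lit 3) (nat_lit 250) (nat_lit 4) (nat_lit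 178) (nat_lit 211) (nat_lit 211))) (PT.nd (nat_lit 78) (PT.lf (nat_lit 19532) (nat_lit 6) (nat_lit 257) (nat_lit 4) (nat_lit 179) (nat_lit 211) (nat_lit 210)) (PT.lf (nat_lit 20064) (nat_lit 6) (nat_lit 264) (nat_lit 4) (nat_lit 180) (nat_lit 211) (nat_lit 209)))) (PT.nd (nat_lit 156) (PT.nd (nat_lit 78) (PT.lf (nat_lit 20672) (nat_lit 6) (nat_lit 272) (nat_lit 4) (nat_lit 181) (nat_lit 211) (nat_lit 208)) (PT.lf (nat_lit 21280) (nat_lit 6) (nat_lit 280) (nat_lit 4) (nat_lit 182) (nat_lit 211) (nat_lit 207))) (PT.nd (nat_lit 78) (PT.lf (nat_lit 22040) (nat_lit 6) (nat_lit 290) (nat_lit 4) (nat_lit 183) (nat_lit 211) (nat_lit 206)) (PT.nd (nat_lit 78) (PT.lf (nat_lit 23256) (nat_lit 6) (nat_lit 306) (nat_lit 4) (nat_lit 184) (nat_lit 211) (nat_lit 205)) (PT.lf (nat_lit 24396) (nat_lit 6) (nat_lit 321) (nat_lit 4) (nat_lit 185) (nat_lit 211) (nat_lit 204))))))))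
noncomputable def pc32 : PT := (PT.nd (nat_lit 2496) (PT.nd (nat_lit 1248) (PT.nd (nat_lit 624) (PT.nd (nat_lit 312) (PT.nd (nat_lit 156) (PT.nd (nat_lit 78) (PT.lf (nat_lit 25460) (nat_lit 6) (nat_lit 335) (nat_lit 4) (nat_lit 186) (nat_lit 211) (nat_lit 203)) (PT.lf (nat_lit 26448) (nat_lit 6) (nat_lit 348) (nat_lit 4) (nat_lit 187) (nat_lit 211) (nat_lit 202))) (PT.nd (nat_lit 78) (PT.lf (nat_lit 27360) (nat_lit 6) (nat_lit 360) (nat_lit 4) (nat_lit 188) (nat_lit 211) (nat_lit 201)) (PT.lf (nat_lit 28196) (nat_lit 6) (nat_lit 371) (nat_lit 4) (nat_lit 189) (nat_lit 211) (nat_lit 200)))) (PT.nd (nat_lit 156) (PT.nd (nat_lit 78) (PT.lf (nat_lit 28120) (nat_lit 6) (nat_lit 370) (nat_lit 4) (nat_lit 190) (nat_lit 211) (nat_lit 199)) (PT.lf (nat_lit 28044) (nat_lit 6) (nat_lit 369) (nat_lit 4) (nat_lit 191) (nat_lit 211) (nat_lit 198))) (PT.nd (nat_lit 78) (PT.lf (nat_lit 27968) (nat_lit 6) (nat_lit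 368) (nat_lit 4) (nat_lit 192) (nat_lit 211) (nat_lit 197)) (PT.lf (nat_lit 27892) (nat_lit 6) (nat_lit 367) (nat_lit 4) (nat_lit 193) (nat_lit 211) (nat_lit 196))))) (PT.nd (nat_lit 312) (PT.nd (nat_lit 156) (PT.nd (nat_lit 78) (PT.lf (nat_lit 27816) (nat_lit 6) (nat_lit 366) (nat_lit 4) (nat_lit 194) (nat_lit 211) (nat_lit 195)) (PT.lf (nat_lit 27816) (nat_lit 6) (nat_lit 366) (nat_lit 2) (nat_lit 195) (nat_lit 211) (nat_lit 194))) (PT.nd (nat_lit 78) (PT.lf (nat_lit 27892) (nat_lit 6) (nat_lit 367) (nat_lit 2) (nat_lit 196) (nat_lit 211) (nat_lit 193)) (PT.lf (nat_lit 27968) (nat_lit 6) (nat_lit 368) (nat_lit 2) (nat_lit 197) (nat_lit 211) (nat_lit 192)))) (PT.nd (nat_lit 156) (PT.nd (nat_lit 78) (PT.lf (nat_lit 28044) (nat_lit 6) (nat_lit 369) (nat_lit 2) (nat_lit 198) (nat_lit 211) (nat_lit 191)) (PT.lf (nat_lit 28120) (nat_lit 6) (nat_lit 370) (nat_lit 2) (nat_lit 199) (nat_lit 211) (nat_lit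 190))) (PT.nd (nat_lit 78) (PT.lf (nat_lit 28196) (nat_lit 6) (nat_lit 371) (nat_lit 2) (nat_lit 200) (nat_lit 211) (nat_lit 189)) (PT.lf (nat_lit 27360) (nat_lit 6) (nat_lit 360) (nat_lit 2) (nat_lit 201) (nat_lit 211) (nat_lit 188)))))) (PT.nd (nat_lit 624) (PT.nd (nat_lit 312) (PT.nd (nat_lit 156) (PT.nd (nat_lit 78) (PT.lf (nat_lit 26448) (nat_lit 6) (nat_lit 348) (nat_lit 2) (nat_lit 202) (nat_lit 211) (nat_lit 187)) (PT.lf (nat_lit 25460) (nat_lit 6) (nat_lit 335) (nat_lit 2) (nat_lit 203) (nat_lit 211) (nat_lit 186))) (PT.nd (nat_lit 78) (PT.lf (nat_lit 24396) (nat_lit 6) (nat_lit 321) (nat_lit 2) (nat_lit 204) (nat_lit 211) (nat_lit 185)) (PT.lf (nat_lit 23256) (nat_lit 6) (nat_lit 306) (nat_lit 2) (nat_lit 205) (nat_lit 211) (nat_lit 184)))) (PT.nd (nat_lit 156) (PT.nd (nat_lit 78) (PT.lf (nat_lit 22040) (nat_lit 6) (nat_lit 290) (nat_lit 2) (nat_lit 206) (nat_lit 211) (nat_lit 183)) (PT.lf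 (nat_lit 21280) (nat_lit 6) (nat_lit 280) (nat_lit 2) (nat_lit 207) (nat_lit 211) (nat_lit 182))) (PT.nd (nat_lit 78) (PT.lf (nat_lit 20672) (nat_lit 6) (nat_lit 272) (nat_lit 2) (nat_lit 208) (nat_lit 211) (nat_lit 181)) (PT.lf (nat_lit 20064) (nat_lit 6) (nat_lit 264) (nat_lit 2) (nat_lit 209) (nat_lit 211) (nat_lit 180))))) (PT.nd (nat_lit 312) (PT.nd (nat_lit 156) (PT.nd (nat_lit 78) (PT.lf (nat_lit 19532) (nat_lit 6) (nat_lit 257) (nat_lit 2) (nat_lit 210) (nat_lit 211) (nat_lit 179)) (PT.lf (nat_lit 19000) (nat_lit 3) (nat_lit 250) (nat_lit 0) (nat_lit 211) (nat_lit 211) (nat_lit 178))) (PT.nd (nat_lit 78) (PT.lf (nat_lit 18392) (nat_lit 6) (nat_lit 242) (nat_lit 0) (nat_lit 212) (nat_lit 211) (nat_lit 177)) (PT.lf (nat_lit 17784) (nat_lit 6) (nat_lit 234) (nat_lit 0) (nat_lit 213) (nat_lit 211) (nat_lit 176)))) (PT.nd (nat_lit 156) (PT.nd (nat_lit 78) (PT.lf (nat_lit 17252) (nat_lit 6) (nat_lit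 227) (nat_lit 0) (nat_lit 214) (nat_lit 211) (nat_lit 175)) (PT.lf (nat_lit 16720) (nat_lit 6) (nat_lit 220) (nat_lit 0) (nat_lit 215) (nat_lit 211) (nat_lit 174))) (PT.nd (nat_lit 78) (PT.lf (nat_lit 16188) (nat_lit 6) (nat_lit 213) (nat_lit 0) (nat_lit 216) (nat_lit 211) (nat_lit 173)) (PT.lf (nat_lit 15656) (nat_lit 6) (nat_lit 206) (nat_lit 0) (nat_lit 217) (nat_lit 211) (nat_lit 172))))))) (PT.nd (nat_lit 59514) (PT.nd (nat_lit 58890) (PT.nd (nat_lit 58578) (PT.nd (nat_lit 156) (PT.nd (nat_lit 78) (PT.lf (nat_lit 15200) (nat_lit 6) (nat_lit 200) (nat_lit 0) (nat_lit 218) (nat_lit 211) (nat_lit 171)) (PT.lf (nat_lit 14668) (nat_lit 6) (nat_lit 193) (nat_lit 0) (nat_lit 219) (nat_lit 211) (nat_lit 170))) (PT.nd (nat_lit 58344) (PT.lf (nat_lit 14212) (nat_lit 6) (nat_lit 187) (nat_lit 0) (nat_lit 220) (nat_lit 211) (nat_lit 169)) (PT.lf (nat_lit 13452) (nat_lit 6) (nat_lit 177) (nat_lit 5) (nat_lit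 167) (nat_lit 212) (nat_lit 221)))) (PT.nd (nat_lit 156) (PT.nd (nat_lit 78) (PT.lf (nat_lit 13832) (nat_lit 6) (nat_lit 182) (nat_lit 5) (nat_lit 168) (nat_lit 212) (nat_lit 220)) (PT.lf (nat_lit 14288) (nat_lit 6) (nat_lit 188) (nat_lit 5) (nat_lit 169) (nat_lit 212) (nat_lit 219))) (PT.nd (nat_lit 78) (PT.lf (nat_lit 14744) (nat_lit 6) (nat_lit 194) (nat_lit 5) (nat_lit 170) (nat_lit 212) (nat_lit 218)) (PT.lf (nat_lit 15276) (nat_lit 6) (nat_lit 201) (nat_lit 5) (nat_lit 171) (nat_lit 212) (nat_lit 217))))) (PT.nd (nat_lit 312) (PT.nd (nat_lit 156) (PT.nd (nat_lit 78) (PT.lf (nat_lit 15732) (nat_lit 6) (nat_lit 207) (nat_lit 5) (nat_lit 172) (nat_lit 212) (nat_lit 216)) (PT.lf (nat_lit 16264) (nat_lit 6) (nat_lit 214) (nat_lit 5) (nat_lit 173) (nat_lit 212) (nat_lit 215))) (PT.nd (nat_lit 78) (PT.lf (nat_lit 16796) (nat_lit 6) (nat_lit 221) (nat_lit 5) (nat_lit 174) (nat_lit 212) (nat_lit 214))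 (PT.lf (nat_lit 17328) (nat_lit 6) (nat_lit 228) (nat_lit 5) (nat_lit 175) (nat_lit 212) (nat_lit 213)))) (PT.nd (nat_lit 156) (PT.nd (nat_lit 78) (PT.lf (nat_lit 17860) (nat_lit 3) (nat_lit 235) (nat_lit 4) (nat_lit 176) (nat_lit 212) (nat_lit 212)) (PT.lf (nat_lit 18392) (nat_lit 6) (nat_lit 242) (nat_lit 4) (nat_lit 177) (nat_lit 212) (nat_lit 211))) (PT.nd (nat_lit 78) (PT.lf (nat_lit 18924) (nat_lit 6) (nat_lit 249) (nat_lit 4) (nat_lit 178) (nat_lit 212) (nat_lit 210)) (PT.lf (nat_lit 19456) (nat_lit 6) (nat_lit 256) (nat_lit 4) (nat_lit 179) (nat_lit 212) (nat_lit 209)))))) (PT.nd (nat_lit 624) (PT.nd (nat_lit 312) (PT.nd (nat_lit 156) (PT.nd (nat_lit 78) (PT.lf (nat_lit 19988) (nat_lit 6) (nat_lit 263) (nat_lit 4) (nat_lit 180) (nat_lit 212) (nat_lit 208)) (PT.lf (nat_lit 20596) (nat_lit 6) (nat_lit 271) (nat_lit 4) (nat_lit 181) (nat_lit 212) (nat_lit 207))) (PT.nd (nat_lit 78) (PT.lf (nat_lit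 21204) (nat_lit 6) (nat_lit 279) (nat_lit 4) (nat_lit 182) (nat_lit 212) (nat_lit 206)) (PT.lf (nat_lit 21964) (nat_lit 6) (nat_lit 289) (nat_lit 4) (nat_lit 183) (nat_lit 212) (nat_lit 205)))) (PT.nd (nat_lit 156) (PT.nd (nat_lit 78) (PT.lf (nat_lit 23180) (nat_lit 6) (nat_lit 305) (nat_lit 4) (nat_lit 184) (nat_lit 212) (nat_lit 204)) (PT.lf (nat_lit 24320) (nat_lit 6) (nat_lit 320) (nat_lit 4) (nat_lit 185) (nat_lit 212) (nat_lit 203))) (PT.nd (nat_lit 78) (PT.lf (nat_lit 25384) (nat_lit 6) (nat_lit 334) (nat_lit 4) (nat_lit 186) (nat_lit 212) (nat_lit 202)) (PT.lf (nat_lit 26372) (nat_lit 6) (nat_lit 347) (nat_lit 4) (nat_lit 187) (nat_lit 212) (nat_lit 201))))) (PT.nd (nat_lit 312) (PT.nd (nat_lit 156) (PT.nd (nat_lit 78) (PT.lf (nat_lit 27284) (nat_lit 6) (nat_lit 359) (nat_lit 4) (nat_lit 188) (nat_lit 212) (nat_lit 200)) (PT.lf (nat_lit 27208) (nat_lit 6) (nat_lit 358) (nat_lit 4) (nat_lit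 189) (nat_lit 212) (nat_lit 199))) (PT.nd (nat_lit 78) (PT.lf (nat_lit 27132) (nat_lit 6) (nat_lit 357) (nat_lit 4) (nat_lit 190) (nat_lit 212) (nat_lit 198)) (PT.lf (nat_lit 27056) (nat_lit 6) (nat_lit 356) (nat_lit 4) (nat_lit 191) (nat_lit 212) (nat_lit 197)))) (PT.nd (nat_lit 156) (PT.nd (nat_lit 78) (PT.lf (nat_lit 26980) (nat_lit 6) (nat_lit 355) (nat_lit 4) (nat_lit 192) (nat_lit 212) (nat_lit 196)) (PT.lf (nat_lit 26904) (nat_lit 6) (nat_lit 354) (nat_lit 4) (nat_lit 193) (nat_lit 212) (nat_lit 195))) (PT.nd (nat_lit 78) (PT.lf (nat_lit 26828) (nat_lit 3) (nat_lit 353) (nat_lit 2) (nat_lit 194) (nat_lit 212) (nat_lit 194)) (PT.lf (nat_lit 26904) (nat_lit 6) (nat_lit 354) (nat_lit 2) (nat_lit 195) (nat_lit 212) (nat_lit 193))))))))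
noncomputable def pc33 : PT := (PT.nd (nat_lit 1248) (PT.nd (nat_lit 624) (PT.nd (nat_lit 312) (PT.nd (nat_lit 156) (PT.nd (nat_lit 78) (PT.lf (nat_lit 26980) (nat_lit 6) (nat_lit 355) (nat_lit 2) (nat_lit 196) (nat_lit 212) (nat_lit 192)) (PT.lf (nat_lit 27056) (nat_lit 6) (nat_lit 356) (nat_lit 2) (nat_lit 197) (nat_lit 212) (nat_lit 191))) (PT.nd (nat_lit 78) (PT.lf (nat_lit 27132) (nat_lit 6) (nat_lit 357) (nat_lit 2) (nat_lit 198) (nat_lit 212) (nat_lit 190)) (PT.lf (nat_lit 27208) (nat_lit 6) (nat_lit 358) (nat_lit 2) (nat_lit 199) (nat_lit 212) (nat_lit 189)))) (PT.nd (nat_lit 156) (PT.nd (nat_lit 78) (PT.lf (nat_lit 27284) (nat_lit 6) (nat_lit 359) (nat_lit 2) (nat_lit 200) (nat_lit 212) (nat_lit 188)) (PT.lf (nat_lit 26372) (nat_lit 6) (nat_lit 347) (nat_lit 2) (nat_lit 201) (nat_lit 212) (nat_lit 187))) (PT.nd (nat_lit 78) (PT.lf (nat_lit 25384) (nat_lit 6) (nat_lit 334) (nat_lit 2) (nat_lit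 202) (nat_lit 212) (nat_lit 186)) (PT.lf (nat_lit 24320) (nat_lit 6) (nat_lit 320) (nat_lit 2) (nat_lit 203) (nat_lit 212) (nat_lit 185))))) (PT.nd (nat_lit 312) (PT.nd (nat_lit 156) (PT.nd (nat_lit 78) (PT.lf (nat_lit 23180) (nat_lit 6) (nat_lit 305) (nat_lit 2) (nat_lit 204) (nat_lit 212) (nat_lit 184)) (PT.lf (nat_lit 21964) (nat_lit 6) (nat_lit 289) (nat_lit 2) (nat_lit 205) (nat_lit 212) (nat_lit 183))) (PT.nd (nat_lit 78) (PT.lf (nat_lit 21204) (nat_lit 6) (nat_lit 279) (nat_lit 2) (nat_lit 206) (nat_lit 212) (nat_lit 182)) (PT.lf (nat_lit 20596) (nat_lit 6) (nat_lit 271) (nat_lit 2) (nat_lit 207) (nat_lit 212) (nat_lit 181)))) (PT.nd (nat_lit 156) (PT.nd (nat_lit 78) (PT.lf (nat_lit 19988) (nat_lit 6) (nat_lit 263) (nat_lit 2) (nat_lit 208) (nat_lit 212) (nat_lit 180)) (PT.lf (nat_lit 19456) (nat_lit 6) (nat_lit 256) (nat_lit 2) (nat_lit 209) (nat_lit 212) (nat_lit 179))) (PT.nd (nat_lit 78)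 (PT.lf (nat_lit 18924) (nat_lit 6) (nat_lit 249) (nat_lit 2) (nat_lit 210) (nat_lit 212) (nat_lit 178)) (PT.lf (nat_lit 18392) (nat_lit 6) (nat_lit 242) (nat_lit 2) (nat_lit 211) (nat_lit 212) (nat_lit 177)))))) (PT.nd (nat_lit 624) (PT.nd (nat_lit 312) (PT.nd (nat_lit 156) (PT.nd (nat_lit 78) (PT.lf (nat_lit 17860) (nat_lit 3) (nat_lit 235) (nat_lit 0) (nat_lit 212) (nat_lit 212) (nat_lit 176)) (PT.lf (nat_lit 17328) (nat_lit 6) (nat_lit 228) (nat_lit 0) (nat_lit 213) (nat_lit 212) (nat_lit 175))) (PT.nd (nat_lit 78) (PT.lf (nat_lit 16796) (nat_lit 6) (nat_lit 221) (nat_lit 0) (nat_lit 214) (nat_lit 212) (nat_lit 174)) (PT.lf (nat_lit 16264) (nat_lit 6) (nat_lit 214) (nat_lit 0) (nat_lit 215) (nat_lit 212) (nat_lit 173)))) (PT.nd (nat_lit 156) (PT.nd (nat_lit 78) (PT.lf (nat_lit 15732) (nat_lit 6) (nat_lit 207) (nat_lit 0) (nat_lit 216) (nat_lit 212) (nat_lit 172)) (PT.lf (nat_lit 15276) (nat_lit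 6) (nat_lit 201) (nat_lit 0) (nat_lit 217) (nat_lit 212) (nat_lit 171))) (PT.nd (nat_lit 78) (PT.lf (nat_lit 14744) (nat_lit 6) (nat_lit 194) (nat_lit 0) (nat_lit 218) (nat_lit 212) (nat_lit 170)) (PT.lf (nat_lit 14288) (nat_lit 6) (nat_lit 188) (nat_lit 0) (nat_lit 219) (nat_lit 212) (nat_lit 169))))) (PT.nd (nat_lit 58422) (PT.nd (nat_lit 58266) (PT.nd (nat_lit 78) (PT.lf (nat_lit 13832) (nat_lit 6) (nat_lit 182) (nat_lit 0) (nat_lit 220) (nat_lit 212) (nat_lit 168)) (PT.lf (nat_lit 13452) (nat_lit 6) (nat_lit 177) (nat_lit 0) (nat_lit 221) (nat_lit 212) (nat_lit 167))) (PT.nd (nat_lit 78) (PT.lf (nat_lit 13072) (nat_lit 6) (nat_lit 172) (nat_lit 5) (nat_lit 166) (nat_lit 213) (nat_lit 221)) (PT.lf (nat_lit 13528) (nat_lit 6) (nat_lit 178) (nat_lit 5) (nat_lit 167) (nat_lit 213) (nat_lit 220)))) (PT.nd (nat_lit 156) (PT.nd (nat_lit 78) (PT.lf (nat_lit 13908) (nat_lit 6) (nat_lit 183) (nat_lit 5)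 (nat_lit 168) (nat_lit 213) (nat_lit 219)) (PT.lf (nat_lit 14364) (nat_lit 6) (nat_lit 189) (nat_lit 5) (nat_lit 169) (nat_lit 213) (nat_lit 218))) (PT.nd (nat_lit 78) (PT.lf (nat_lit 14820) (nat_lit 6) (nat_lit 195) (nat_lit 5) (nat_lit 170) (nat_lit 213) (nat_lit 217)) (PT.lf (nat_lit 15352) (nat_lit 6) (nat_lit 202) (nat_lit 5) (nat_lit 171) (nat_lit 213) (nat_lit 216)))))))
noncomputable def pc34 : PT := (PT.nd (nat_lit 1248) (PT.nd (nat_lit 624) (PT.nd (nat_lit 312) (PT.nd (nat_lit 156) (PT.nd (nat_lit 78) (PT.lf (nat_lit 15808) (nat_lit 6) (nat_lit 208) (nat_lit 5) (nat_lit 172) (nat_lit 213) (nat_lit 215)) (PT.lf (nat_lit 16340) (nat_lit 6) (nat_lit 215) (nat_lit 5) (nat_lit 173) (nat_lit 213) (nat_lit 214))) (PT.nd (nat_lit 78) (PT.lf (nat_lit 16872) (nat_lit 3) (nat_lit 222) (nat_lit 4) (nat_lit 174) (nat_lit 213) (nat_lit 213)) (PT.lf (nat_lit 17328) (nat_lit 6) (nat_lit 228) (nat_lit 4)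 (nat_lit 175) (nat_lit 213) (nat_lit 212)))) (PT.nd (nat_lit 156) (PT.nd (nat_lit 78) (PT.lf (nat_lit 17784) (nat_lit 6) (nat_lit 234) (nat_lit 4) (nat_lit 176) (nat_lit 213) (nat_lit 211)) (PT.lf (nat_lit 18316) (nat_lit 6) (nat_lit 241) (nat_lit 4) (nat_lit 177) (nat_lit 213) (nat_lit 210))) (PT.nd (nat_lit 78) (PT.lf (nat_lit 18848) (nat_lit 6) (nat_lit 248) (nat_lit 4) (nat_lit 178) (nat_lit 213) (nat_lit 209)) (PT.lf (nat_lit 19380) (nat_lit 6) (nat_lit 255) (nat_lit 4) (nat_lit 179) (nat_lit 213) (nat_lit 208))))) (PT.nd (nat_lit 312) (PT.nd (nat_lit 156) (PT.nd (nat_lit 78) (PT.lf (nat_lit 19912) (nat_lit 6) (nat_lit 262) (nat_lit 4) (nat_lit 180) (nat_lit 213) (nat_lit 207)) (PT.lf (nat_lit 20520) (nat_lit 6) (nat_lit 270) (nat_lit 4) (nat_lit 181) (nat_lit 213) (nat_lit 206))) (PT.nd (nat_lit 78) (PT.lf (nat_lit 21128) (nat_lit 6) (nat_lit 278) (nat_lit 4) (nat_lit 182) (nat_lit 213) (nat_lit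 205)) (PT.lf (nat_lit 21888) (nat_lit 6) (nat_lit 288) (nat_lit 4) (nat_lit 183) (nat_lit 213) (nat_lit 204)))) (PT.nd (nat_lit 156) (PT.nd (nat_lit 78) (PT.lf (nat_lit 23104) (nat_lit 6) (nat_lit 304) (nat_lit 4) (nat_lit 184) (nat_lit 213) (nat_lit 203)) (PT.lf (nat_lit 24244) (nat_lit 6) (nat_lit 319) (nat_lit 4) (nat_lit 185) (nat_lit 213) (nat_lit 202))) (PT.nd (nat_lit 78) (PT.lf (nat_lit 25308) (nat_lit 6) (nat_lit 333) (nat_lit 4) (nat_lit 186) (nat_lit 213) (nat_lit 201)) (PT.lf (nat_lit 26296) (nat_lit 6) (nat_lit 346) (nat_lit 4) (nat_lit 187) (nat_lit 213) (nat_lit 200)))))) (PT.nd (nat_lit 624) (PT.nd (nat_lit 312) (PT.nd (nat_lit 156) (PT.nd (nat_lit 78) (PT.lf (nat_lit 26220) (nat_lit 6) (nat_lit 345) (nat_lit 4) (nat_lit 188) (nat_lit 213) (nat_lit 199)) (PT.lf (nat_lit 26144) (nat_lit 6) (nat_lit 344) (nat_lit 4) (nat_lit 189) (nat_lit 213) (nat_lit 198))) (PT.nd (nat_lit 78) (PT.lf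 (nat_lit 26068) (nat_lit 6) (nat_lit 343) (nat_lit 4) (nat_lit 190) (nat_lit 213) (nat_lit 197)) (PT.lf (nat_lit 25992) (nat_lit 6) (nat_lit 342) (nat_lit 4) (nat_lit 191) (nat_lit 213) (nat_lit 196)))) (PT.nd (nat_lit 156) (PT.nd (nat_lit 78) (PT.lf (nat_lit 25916) (nat_lit 6) (nat_lit 341) (nat_lit 4) (nat_lit 192) (nat_lit 213) (nat_lit 195)) (PT.lf (nat_lit 25840) (nat_lit 6) (nat_lit 340) (nat_lit 4) (nat_lit 193) (nat_lit 213) (nat_lit 194))) (PT.nd (nat_lit 78) (PT.lf (nat_lit 25840) (nat_lit 6) (nat_lit 340) (nat_lit 2) (nat_lit 194) (nat_lit 213) (nat_lit 193)) (PT.lf (nat_lit 25916) (nat_lit 6) (nat_lit 341) (nat_lit 2) (nat_lit 195) (nat_lit 213) (nat_lit 192))))) (PT.nd (nat_lit 312) (PT.nd (nat_lit 156) (PT.nd (nat_lit 78) (PT.lf (nat_lit 25992) (nat_lit 6) (nat_lit 342) (nat_lit 2) (nat_lit 196) (nat_lit 213) (nat_lit 191)) (PT.lf (nat_lit 26068) (nat_lit 6) (nat_lit 343) (nat_lit 2)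 (nat_lit 197) (nat_lit 213) (nat_lit 190))) (PT.nd (nat_lit 78) (PT.lf (nat_lit 26144) (nat_lit 6) (nat_lit 344) (nat_lit 2) (nat_lit 198) (nat_lit 213) (nat_lit 189)) (PT.lf (nat_lit 26220) (nat_lit 6) (nat_lit 345) (nat_lit 2) (nat_lit 199) (nat_lit 213) (nat_lit 188)))) (PT.nd (nat_lit 156) (PT.nd (nat_lit 78) (PT.lf (nat_lit 26296) (nat_lit 6) (nat_lit 346) (nat_lit 2) (nat_lit 200) (nat_lit 213) (nat_lit 187)) (PT.lf (nat_lit 25308) (nat_lit 6) (nat_lit 333) (nat_lit 2) (nat_lit 201) (nat_lit 213) (nat_lit 186))) (PT.nd (nat_lit 78) (PT.lf (nat_lit 24244) (nat_lit 6) (nat_lit 319) (nat_lit 2) (nat_lit 202) (nat_lit 213) (nat_lit 185)) (PT.nd (nat_lit 78) (PT.lf (nat_lit 23104) (nat_lit 6) (nat_lit 304) (nat_lit 2) (nat_lit 203) (nat_lit 213) (nat_lit 184)) (PT.lf (nat_lit 21888) (nat_lit 6) (nat_lit 288) (nat_lit 2) (nat_lit 204) (nat_lit 213) (nat_lit 183))))))))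
noncomputable def pc35 : PT := (PT.nd (nat_lit 1248) (PT.nd (nat_lit 624) (PT.nd (nat_lit 312) (PT.nd (nat_lit 156) (PT.nd (nat_lit 78) (PT.lf (nat_lit 21128) (nat_lit 6) (nat_lit 278) (nat_lit 2) (nat_lit 205) (nat_lit 213) (nat_lit 182)) (PT.lf (nat_lit 20520) (nat_lit 6) (nat_lit 270) (nat_lit 2) (nat_lit 206) (nat_lit 213) (nat_lit 181))) (PT.nd (nat_lit 78) (PT.lf (nat_lit 19912) (nat_lit 6) (nat_lit 262) (nat_lit 2) (nat_lit 207) (nat_lit 213) (nat_lit 180)) (PT.lf (nat_lit 19380) (nat_lit 6) (nat_lit 255) (nat_lit 2) (nat_lit 208) (nat_lit 213) (nat_lit 179)))) (PT.nd (nat_lit 156) (PT.nd (nat_lit 78) (PT.lf (nat_lit 18848) (nat_lit 6) (nat_lit 248) (nat_lit 2) (nat_lit 209) (nat_lit 213) (nat_lit 178)) (PT.lf (nat_lit 18316) (nat_lit 6) (nat_lit 241) (nat_lit 2) (nat_lit 210) (nat_lit 213) (nat_lit 177))) (PT.nd (nat_lit 78) (PT.lf (nat_lit 17784) (nat_lit 6) (nat_lit 234) (nat_lit 2) (nat_lit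 211) (nat_lit 213) (nat_lit 176)) (PT.lf (nat_lit 17328) (nat_lit 6) (nat_lit 228) (nat_lit 2) (nat_lit 212) (nat_lit 213) (nat_lit 175))))) (PT.nd (nat_lit 312) (PT.nd (nat_lit 156) (PT.nd (nat_lit 78) (PT.lf (nat_lit 16872) (nat_lit 3) (nat_lit 222) (nat_lit 0) (nat_lit 213) (nat_lit 213) (nat_lit 174)) (PT.lf (nat_lit 16340) (nat_lit 6) (nat_lit 215) (nat_lit 0) (nat_lit 214) (nat_lit 213) (nat_lit 173))) (PT.nd (nat_lit 78) (PT.lf (nat_lit 15808) (nat_lit 6) (nat_lit 208) (nat_lit 0) (nat_lit 215) (nat_lit 213) (nat_lit 172)) (PT.lf (nat_lit 15352) (nat_lit 6) (nat_lit 202) (nat_lit 0) (nat_lit 216) (nat_lit 213) (nat_lit 171)))) (PT.nd (nat_lit 156) (PT.nd (nat_lit 78) (PT.lf (nat_lit 14820) (nat_lit 6) (nat_lit 195) (nat_lit 0) (nat_lit 217) (nat_lit 213) (nat_lit 170)) (PT.lf (nat_lit 14364) (nat_lit 6) (nat_lit 189) (nat_lit 0) (nat_lit 218) (nat_lit 213) (nat_lit 169))) (PT.nd (nat_lit 78)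 (PT.lf (nat_lit 13908) (nat_lit 6) (nat_lit 183) (nat_lit 0) (nat_lit 219) (nat_lit 213) (nat_lit 168)) (PT.lf (nat_lit 13528) (nat_lit 6) (nat_lit 178) (nat_lit 0) (nat_lit 220) (nat_lit 213) (nat_lit 167)))))) (PT.nd (nat_lit 58578) (PT.nd (nat_lit 58266) (PT.nd (nat_lit 58110) (PT.nd (nat_lit 58032) (PT.lf (nat_lit 13072) (nat_lit 6) (nat_lit 172) (nat_lit 0) (nat_lit 221) (nat_lit 213) (nat_lit 166)) (PT.lf (nat_lit 12388) (nat_lit 6) (nat_lit 163) (nat_lit 5) (nat_lit 164) (nat_lit 214) (nat_lit 222))) (PT.nd (nat_lit 78) (PT.lf (nat_lit 12768) (nat_lit 6) (nat_lit 168) (nat_lit 5) (nat_lit 165) (nat_lit 214) (nat_lit 221)) (PT.lf (nat_lit 13148) (nat_lit 6) (nat_lit 173) (nat_lit 5) (nat_lit 166) (nat_lit 214) (nat_lit 220)))) (PT.nd (nat_lit 156) (PT.nd (nat_lit 78) (PT.lf (nat_lit 13604) (nat_lit 6) (nat_lit 179) (nat_lit 5) (nat_lit 167) (nat_lit 214) (nat_lit 219)) (PT.lf (nat_lit 13984)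 (nat_lit 6) (nat_lit 184) (nat_lit 5) (nat_lit 168) (nat_lit 214) (nat_lit 218))) (PT.nd (nat_lit 78) (PT.lf (nat_lit 14440) (nat_lit 6) (nat_lit 190) (nat_lit 5) (nat_lit 169) (nat_lit 214) (nat_lit 217)) (PT.lf (nat_lit 14896) (nat_lit 6) (nat_lit 196) (nat_lit 5) (nat_lit 170) (nat_lit 214) (nat_lit 216))))) (PT.nd (nat_lit 312) (PT.nd (nat_lit 156) (PT.nd (nat_lit 78) (PT.lf (nat_lit 15428) (nat_lit 6) (nat_lit 203) (nat_lit 5) (nat_lit 171) (nat_lit 214) (nat_lit 215)) (PT.lf (nat_lit 15884) (nat_lit 3) (nat_lit 209) (nat_lit 4) (nat_lit 172) (nat_lit 214) (nat_lit 214))) (PT.nd (nat_lit 78) (PT.lf (nat_lit 16340) (nat_lit 6) (nat_lit 215) (nat_lit 4) (nat_lit 173) (nat_lit 214) (nat_lit 213)) (PT.lf (nat_lit 16796) (nat_lit 6) (nat_lit 221) (nat_lit 4) (nat_lit 174) (nat_lit 214) (nat_lit 212)))) (PT.nd (nat_lit 156) (PT.nd (nat_lit 78) (PT.lf (nat_lit 17252) (nat_lit 6) (nat_lit 227) (nat_lit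 4) (nat_lit 175) (nat_lit 214) (nat_lit 211)) (PT.lf (nat_lit 17708) (nat_lit 6) (nat_lit 233) (nat_lit 4) (nat_lit 176) (nat_lit 214) (nat_lit 210))) (PT.nd (nat_lit 78) (PT.lf (nat_lit 18240) (nat_lit 6) (nat_lit 240) (nat_lit 4) (nat_lit 177) (nat_lit 214) (nat_lit 209)) (PT.lf (nat_lit 18772) (nat_lit 6) (nat_lit 247) (nat_lit 4) (nat_lit 178) (nat_lit 214) (nat_lit 208)))))))
noncomputable def pc36 : PT := (PT.nd (nat_lit 1248) (PT.nd (nat_lit 624) (PT.nd (nat_lit 312) (PT.nd (nat_lit 156) (PT.nd (nat_lit 78) (PT.lf (nat_lit 19304) (nat_lit 6) (nat_lit 254) (nat_lit 4) (nat_lit 179) (nat_lit 214) (nat_lit 207)) (PT.lf (nat_lit 19836) (nat_lit 6) (nat_lit 261) (nat_lit 4) (nat_lit 180) (nat_lit 214) (nat_lit 206))) (PT.nd (nat_lit 78) (PT.lf (nat_lit 20444) (nat_lit 6) (nat_lit 269) (nat_lit 4) (nat_lit 181) (nat_lit 214) (nat_lit 205)) (PT.lf (nat_lit 21052) (nat_lit 6) (nat_lit 277) (nat_lit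 4) (nat_lit 182) (nat_lit 214) (nat_lit 204)))) (PT.nd (nat_lit 156) (PT.nd (nat_lit 78) (PT.lf (nat_lit 21812) (nat_lit 6) (nat_lit 287) (nat_lit 4) (nat_lit 183) (nat_lit 214) (nat_lit 203)) (PT.lf (nat_lit 23028) (nat_lit 6) (nat_lit 303) (nat_lit 4) (nat_lit 184) (nat_lit 214) (nat_lit 202))) (PT.nd (nat_lit 78) (PT.lf (nat_lit 24168) (nat_lit 6) (nat_lit 318) (nat_lit 4) (nat_lit 185) (nat_lit 214) (nat_lit 201)) (PT.lf (nat_lit 25232) (nat_lit 6) (nat_lit 332) (nat_lit 4) (nat_lit 186) (nat_lit 214) (nat_lit 200))))) (PT.nd (nat_lit 312) (PT.nd (nat_lit 156) (PT.nd (nat_lit 78) (PT.lf (nat_lit 25156) (nat_lit 6) (nat_lit 331) (nat_lit 4) (nat_lit 187) (nat_lit 214) (nat_lit 199)) (PT.lf (nat_lit 25080) (nat_lit 6) (nat_lit 330) (nat_lit 4) (nat_lit 188) (nat_lit 214) (nat_lit 198))) (PT.nd (nat_lit 78) (PT.lf (nat_lit 25004) (nat_lit 6) (nat_lit 329) (nat_lit 4) (nat_lit 189) (nat_lit 214) (nat_lit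 197)) (PT.lf (nat_lit 24928) (nat_lit 6) (nat_lit 328) (nat_lit 4) (nat_lit 190) (nat_lit 214) (nat_lit 196)))) (PT.nd (nat_lit 156) (PT.nd (nat_lit 78) (PT.lf (nat_lit 24852) (nat_lit 6) (nat_lit 327) (nat_lit 4) (nat_lit 191) (nat_lit 214) (nat_lit 195)) (PT.lf (nat_lit 24776) (nat_lit 6) (nat_lit 326) (nat_lit 4) (nat_lit 192) (nat_lit 214) (nat_lit 194))) (PT.nd (nat_lit 78) (PT.lf (nat_lit 24700) (nat_lit 3) (nat_lit 325) (nat_lit 2) (nat_lit 193) (nat_lit 214) (nat_lit 193)) (PT.lf (nat_lit 24776) (nat_lit 6) (nat_lit 326) (nat_lit 2) (nat_lit 194) (nat_lit 214) (nat_lit 192)))))) (PT.nd (nat_lit 624) (PT.nd (nat_lit 312) (PT.nd (nat_lit 156) (PT.nd (nat_lit 78) (PT.lf (nat_lit 24852) (nat_lit 6) (nat_lit 327) (nat_lit 2) (nat_lit 195) (nat_lit 214) (nat_lit 191)) (PT.lf (nat_lit 24928) (nat_lit 6) (nat_lit 328) (nat_lit 2) (nat_lit 196) (nat_lit 214) (nat_lit 190))) (PT.nd (nat_lit 78) (PT.lf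 (nat_lit 25004) (nat_lit 6) (nat_lit 329) (nat_lit 2) (nat_lit 197) (nat_lit 214) (nat_lit 189)) (PT.lf (nat_lit 25080) (nat_lit 6) (nat_lit 330) (nat_lit 2) (nat_lit 198) (nat_lit 214) (nat_lit 188)))) (PT.nd (nat_lit 156) (PT.nd (nat_lit 78) (PT.lf (nat_lit 25156) (nat_lit 6) (nat_lit 331) (nat_lit 2) (nat_lit 199) (nat_lit 214) (nat_lit 187)) (PT.lf (nat_lit 25232) (nat_lit 6) (nat_lit 332) (nat_lit 2) (nat_lit 200) (nat_lit 214) (nat_lit 186))) (PT.nd (nat_lit 78) (PT.lf (nat_lit 24168) (nat_lit 6) (nat_lit 318) (nat_lit 2) (nat_lit 201) (nat_lit 214) (nat_lit 185)) (PT.lf (nat_lit 23028) (nat_lit 6) (nat_lit 303) (nat_lit 2) (nat_lit 202) (nat_lit 214) (nat_lit 184))))) (PT.nd (nat_lit 312) (PT.nd (nat_lit 156) (PT.nd (nat_lit 78) (PT.lf (nat_lit 21812) (nat_lit 6) (nat_lit 287) (nat_lit 2) (nat_lit 203) (nat_lit 214) (nat_lit 183)) (PT.lf (nat_lit 21052) (nat_lit 6) (nat_lit 277) (nat_lit 2)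 (nat_lit 204) (nat_lit 214) (nat_lit 182))) (PT.nd (nat_lit 78) (PT.lf (nat_lit 20444) (nat_lit 6) (nat_lit 269) (nat_lit 2) (nat_lit 205) (nat_lit 214) (nat_lit 181)) (PT.lf (nat_lit 19836) (nat_lit 6) (nat_lit 261) (nat_lit 2) (nat_lit 206) (nat_lit 214) (nat_lit 180)))) (PT.nd (nat_lit 156) (PT.nd (nat_lit 78) (PT.lf (nat_lit 19304) (nat_lit 6) (nat_lit 254) (nat_lit 2) (nat_lit 207) (nat_lit 214) (nat_lit 179)) (PT.lf (nat_lit 18772) (nat_lit 6) (nat_lit 247) (nat_lit 2) (nat_lit 208) (nat_lit 214) (nat_lit 178))) (PT.nd (nat_lit 78) (PT.lf (nat_lit 18240) (nat_lit 6) (nat_lit 240) (nat_lit 2) (nat_lit 209) (nat_lit 214) (nat_lit 177)) (PT.nd (nat_lit 78) (PT.lf (nat_lit 17708) (nat_lit 6) (nat_lit 233) (nat_lit 2) (nat_lit 210) (nat_lit 214) (nat_lit 176)) (PT.lf (nat_lit 17252) (nat_lit 6) (nat_lit 227) (nat_lit 2) (nat_lit 211) (nat_lit 214) (nat_lit 175))))))))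
noncomputable def pc37 : PT := (PT.nd (nat_lit 59046) (PT.nd (nat_lit 624) (PT.nd (nat_lit 312) (PT.nd (nat_lit 156) (PT.nd (nat_lit 78) (PT.lf (nat_lit 16796) (nat_lit 6) (nat_lit 221) (nat_lit 2) (nat_lit 212) (nat_lit 214) (nat_lit 174)) (PT.lf (nat_lit 16340) (nat_lit 6) (nat_lit 215) (nat_lit 2) (nat_lit 213) (nat_lit 214) (nat_lit 173))) (PT.nd (nat_lit 78) (PT.lf (nat_lit 15884) (nat_lit 3) (nat_lit 209) (nat_lit 0) (nat_lit 214) (nat_lit 214) (nat_lit 172)) (PT.lf (nat_lit 15428) (nat_lit 6) (nat_lit 203) (nat_lit 0) (nat_lit 215) (nat_lit 214) (nat_lit 171)))) (PT.nd (nat_lit 156) (PT.nd (nat_lit 78) (PT.lf (nat_lit 14896) (nat_lit 6) (nat_lit 196) (nat_lit 0) (nat_lit 216) (nat_lit 214) (nat_lit 170)) (PT.lf (nat_lit 14440) (nat_lit 6) (nat_lit 190) (nat_lit 0) (nat_lit 217) (nat_lit 214) (nat_lit 169))) (PT.nd (nat_lit 78) (PT.lf (nat_lit 13984) (nat_lit 6) (nat_lit 184) (nat_lit 0) (nat_lit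 218) (nat_lit 214) (nat_lit 168)) (PT.lf (nat_lit 13604) (nat_lit 6) (nat_lit 179) (nat_lit 0) (nat_lit 219) (nat_lit 214) (nat_lit 167))))) (PT.nd (nat_lit 58110) (PT.nd (nat_lit 156) (PT.nd (nat_lit 78) (PT.lf (nat_lit 13148) (nat_lit 6) (nat_lit 173) (nat_lit 0) (nat_lit 220) (nat_lit 214) (nat_lit 166)) (PT.lf (nat_lit 12768) (nat_lit 6) (nat_lit 168) (nat_lit 0) (nat_lit 221) (nat_lit 214) (nat_lit 165))) (PT.nd (nat_lit 57876) (PT.lf (nat_lit 12388) (nat_lit 6) (nat_lit 163) (nat_lit 0) (nat_lit 222) (nat_lit 214) (nat_lit 164)) (PT.lf (nat_lit 12084) (nat_lit 6) (nat_lit 159) (nat_lit 5) (nat_lit 163) (nat_lit 215) (nat_lit 222)))) (PT.nd (nat_lit 156) (PT.nd (nat_lit 78) (PT.lf (nat_lit 12464) (nat_lit 6) (nat_lit 164) (nat_lit 5) (nat_lit 164) (nat_lit 215) (nat_lit 221)) (PT.lf (nat_lit 12844) (nat_lit 6) (nat_lit 169) (nat_lit 5) (nat_lit 165) (nat_lit 215) (nat_lit 220))) (PT.nd (nat_lit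 78) (PT.lf (nat_lit 13224) (nat_lit 6) (nat_lit 174) (nat_lit 5) (nat_lit 166) (nat_lit 215) (nat_lit 219)) (PT.lf (nat_lit 13680) (nat_lit 6) (nat_lit 180) (nat_lit 5) (nat_lit 167) (nat_lit 215) (nat_lit 218)))))) (PT.nd (nat_lit 624) (PT.nd (nat_lit 312) (PT.nd (nat_lit 156) (PT.nd (nat_lit 78) (PT.lf (nat_lit 14060) (nat_lit 6) (nat_lit 185) (nat_lit 5) (nat_lit 168) (nat_lit 215) (nat_lit 217)) (PT.lf (nat_lit 14516) (nat_lit 6) (nat_lit 191) (nat_lit 5) (nat_lit 169) (nat_lit 215) (nat_lit 216))) (PT.nd (nat_lit 78) (PT.lf (nat_lit 14972) (nat_lit 3) (nat_lit 197) (nat_lit 4) (nat_lit 170) (nat_lit 215) (nat_lit 215)) (PT.lf (nat_lit 15428) (nat_lit 6) (nat_lit 203) (nat_lit 4) (nat_lit 171) (nat_lit 215) (nat_lit 214)))) (PT.nd (nat_lit 156) (PT.nd (nat_lit 78) (PT.lf (nat_lit 15808) (nat_lit 6) (nat_lit 208) (nat_lit 4) (nat_lit 172) (nat_lit 215) (nat_lit 213)) (PT.lf (nat_lit 16264) (nat_lit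 6) (nat_lit 214) (nat_lit 4) (nat_lit 173) (nat_lit 215) (nat_lit 212))) (PT.nd (nat_lit 78) (PT.lf (nat_lit 16720) (nat_lit 6) (nat_lit 220) (nat_lit 4) (nat_lit 174) (nat_lit 215) (nat_lit 211)) (PT.lf (nat_lit 17176) (nat_lit 6) (nat_lit 226) (nat_lit 4) (nat_lit 175) (nat_lit 215) (nat_lit 210))))) (PT.nd (nat_lit 312) (PT.nd (nat_lit 156) (PT.nd (nat_lit 78) (PT.lf (nat_lit 17632) (nat_lit 6) (nat_lit 232) (nat_lit 4) (nat_lit 176) (nat_lit 215) (nat_lit 209)) (PT.lf (nat_lit 18164) (nat_lit 6) (nat_lit 239) (nat_lit 4) (nat_lit 177) (nat_lit 215) (nat_lit 208))) (PT.nd (nat_lit 78) (PT.lf (nat_lit 18696) (nat_lit 6) (nat_lit 246) (nat_lit 4) (nat_lit 178) (nat_lit 215) (nat_lit 207)) (PT.lf (nat_lit 19228) (nat_lit 6) (nat_lit 253) (nat_lit 4) (nat_lit 179) (nat_lit 215) (nat_lit 206)))) (PT.nd (nat_lit 156) (PT.nd (nat_lit 78) (PT.lf (nat_lit 19760) (nat_lit 6) (nat_lit 260) (nat_lit 4) (nat_lit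 180) (nat_lit 215) (nat_lit 205)) (PT.lf (nat_lit 20368) (nat_lit 6) (nat_lit 268) (nat_lit 4) (nat_lit 181) (nat_lit 215) (nat_lit 204))) (PT.nd (nat_lit 78) (PT.lf (nat_lit 20976) (nat_lit 6) (nat_lit 276) (nat_lit 4) (nat_lit 182) (nat_lit 215) (nat_lit 203)) (PT.lf (nat_lit 21736) (nat_lit 6) (nat_lit 286) (nat_lit 4) (nat_lit 183) (nat_lit 215) (nat_lit 202)))))))
noncomputable def pc38 : PT := (PT.nd (nat_lit 1248) (PT.nd (nat_lit 624) (PT.nd (nat_lit 312) (PT.nd (nat_lit 156) (PT.nd (nat_lit 78) (PT.lf (nat_lit 22952) (nat_lit 6) (nat_lit 302) (nat_lit 4) (nat_lit 184) (nat_lit 215) (nat_lit 201)) (PT.lf (nat_lit 24092) (nat_lit 6) (nat_lit 317) (nat_lit 4) (nat_lit 185) (nat_lit 215) (nat_lit 200))) (PT.nd (nat_lit 78) (PT.lf (nat_lit 24016) (nat_lit 6) (nat_lit 316) (nat_lit 4) (nat_lit 186) (nat_lit 215) (nat_lit 199)) (PT.lf (nat_lit 23940) (nat_lit 6) (nat_lit 315) (nat_lit 4) (nat_lit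 187) (nat_lit 215) (nat_lit 198)))) (PT.nd (nat_lit 156) (PT.nd (nat_lit 78) (PT.lf (nat_lit 23864) (nat_lit 6) (nat_lit 314) (nat_lit 4) (nat_lit 188) (nat_lit 215) (nat_lit 197)) (PT.lf (nat_lit 23788) (nat_lit 6) (nat_lit 313) (nat_lit 4) (nat_lit 189) (nat_lit 215) (nat_lit 196))) (PT.nd (nat_lit 78) (PT.lf (nat_lit 23712) (nat_lit 6) (nat_lit 312) (nat_lit 4) (nat_lit 190) (nat_lit 215) (nat_lit 195)) (PT.lf (nat_lit 23636) (nat_lit 6) (nat_lit 311) (nat_lit 4) (nat_lit 191) (nat_lit 215) (nat_lit 194))))) (PT.nd (nat_lit 312) (PT.nd (nat_lit 156) (PT.nd (nat_lit 78) (PT.lf (nat_lit 23560) (nat_lit 6) (nat_lit 310) (nat_lit 4) (nat_lit 192) (nat_lit 215) (nat_lit 193)) (PT.lf (nat_lit 23560) (nat_lit 6) (nat_lit 310) (nat_lit 2) (nat_lit 193) (nat_lit 215) (nat_lit 192))) (PT.nd (nat_lit 78) (PT.lf (nat_lit 23636) (nat_lit 6) (nat_lit 311) (nat_lit 2) (nat_lit 194) (nat_lit 215) (nat_lit 191))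 (PT.lf (nat_lit 23712) (nat_lit 6) (nat_lit 312) (nat_lit 2) (nat_lit 195) (nat_lit 215) (nat_lit 190)))) (PT.nd (nat_lit 156) (PT.nd (nat_lit 78) (PT.lf (nat_lit 23788) (nat_lit 6) (nat_lit 313) (nat_lit 2) (nat_lit 196) (nat_lit 215) (nat_lit 189)) (PT.lf (nat_lit 23864) (nat_lit 6) (nat_lit 314) (nat_lit 2) (nat_lit 197) (nat_lit 215) (nat_lit 188))) (PT.nd (nat_lit 78) (PT.lf (nat_lit 23940) (nat_lit 6) (nat_lit 315) (nat_lit 2) (nat_lit 198) (nat_lit 215) (nat_lit 187)) (PT.lf (nat_lit 24016) (nat_lit 6) (nat_lit 316) (nat_lit 2) (nat_lit 199) (nat_lit 215) (nat_lit 186)))))) (PT.nd (nat_lit 624) (PT.nd (nat_lit 312) (PT.nd (nat_lit 156) (PT.nd (nat_lit 78) (PT.lf (nat_lit 24092) (nat_lit 6) (nat_lit 317) (nat_lit 2) (nat_lit 200) (nat_lit 215) (nat_lit 185)) (PT.lf (nat_lit 22952) (nat_lit 6) (nat_lit 302) (nat_lit 2) (nat_lit 201) (nat_lit 215) (nat_lit 184))) (PT.nd (nat_lit 78) (PT.lf (nat_lit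 21736) (nat_lit 6) (nat_lit 286) (nat_lit 2) (nat_lit 202) (nat_lit 215) (nat_lit 183)) (PT.lf (nat_lit 20976) (nat_lit 6) (nat_lit 276) (nat_lit 2) (nat_lit 203) (nat_lit 215) (nat_lit 182)))) (PT.nd (nat_lit 156) (PT.nd (nat_lit 78) (PT.lf (nat_lit 20368) (nat_lit 6) (nat_lit 268) (nat_lit 2) (nat_lit 204) (nat_lit 215) (nat_lit 181)) (PT.lf (nat_lit 19760) (nat_lit 6) (nat_lit 260) (nat_lit 2) (nat_lit 205) (nat_lit 215) (nat_lit 180))) (PT.nd (nat_lit 78) (PT.lf (nat_lit 19228) (nat_lit 6) (nat_lit 253) (nat_lit 2) (nat_lit 206) (nat_lit 215) (nat_lit 179)) (PT.lf (nat_lit 18696) (nat_lit 6) (nat_lit 246) (nat_lit 2) (nat_lit 207) (nat_lit 215) (nat_lit 178))))) (PT.nd (nat_lit 312) (PT.nd (nat_lit 156) (PT.nd (nat_lit 78) (PT.lf (nat_lit 18164) (nat_lit 6) (nat_lit 239) (nat_lit 2) (nat_lit 208) (nat_lit 215) (nat_lit 177)) (PT.lf (nat_lit 17632) (nat_lit 6) (nat_lit 232) (nat_lit 2) (nat_lit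 209) (nat_lit 215) (nat_lit 176))) (PT.nd (nat_lit 78) (PT.lf (nat_lit 17176) (nat_lit 6) (nat_lit 226) (nat_lit 2) (nat_lit 210) (nat_lit 215) (nat_lit 175)) (PT.lf (nat_lit 16720) (nat_lit 6) (nat_lit 220) (nat_lit 2) (nat_lit 211) (nat_lit 215) (nat_lit 174)))) (PT.nd (nat_lit 156) (PT.nd (nat_lit 78) (PT.lf (nat_lit 16264) (nat_lit 6) (nat_lit 214) (nat_lit 2) (nat_lit 212) (nat_lit 215) (nat_lit 173)) (PT.lf (nat_lit 15808) (nat_lit 6) (nat_lit 208) (nat_lit 2) (nat_lit 213) (nat_lit 215) (nat_lit 172))) (PT.nd (nat_lit 78) (PT.lf (nat_lit 15428) (nat_lit 6) (nat_lit 203) (nat_lit 2) (nat_lit 214) (nat_lit 215) (nat_lit 171)) (PT.nd (nat_lit 78) (PT.lf (nat_lit 14972) (nat_lit 3) (nat_lit 197) (nat_lit 0) (nat_lit 215) (nat_lit 215) (nat_lit 170)) (PT.lf (nat_lit 14516) (nat_lit 6) (nat_lit 191) (nat_lit 0) (nat_lit 216) (nat_lit 215) (nat_lit 169))))))))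
noncomputable def pc39 : PT := (PT.nd (nat_lit 60138) (PT.nd (nat_lit 58890) (PT.nd (nat_lit 58266) (PT.nd (nat_lit 312) (PT.nd (nat_lit 156) (PT.nd (nat_lit 78) (PT.lf (nat_lit 14060) (nat_lit 6) (nat_lit 185) (nat_lit 0) (nat_lit 217) (nat_lit 215) (nat_lit 168)) (PT.lf (nat_lit 13680) (nat_lit 6) (nat_lit 180) (nat_lit 0) (nat_lit 218) (nat_lit 215) (nat_lit 167))) (PT.nd (nat_lit 78) (PT.lf (nat_lit 13224) (nat_lit 6) (nat_lit 174) (nat_lit 0) (nat_lit 219) (nat_lit 215) (nat_lit 166)) (PT.lf (nat_lit 12844) (nat_lit 6) (nat_lit 169) (nat_lit 0) (nat_lit 220) (nat_lit 215) (nat_lit 165)))) (PT.nd (nat_lit 57798) (PT.nd (nat_lit 78) (PT.lf (nat_lit 12464) (nat_lit 6) (nat_lit 164) (nat_lit 0) (nat_lit 221) (nat_lit 215) (nat_lit 164)) (PT.lf (nat_lit 12084) (nat_lit 6) (nat_lit 159) (nat_lit 0) (nat_lit 222) (nat_lit 215) (nat_lit 163))) (PT.nd (nat_lit 78) (PT.lf (nat_lit 11400) (nat_lit 6) (nat_lit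 150) (nat_lit 5) (nat_lit 161) (nat_lit 216) (nat_lit 223)) (PT.lf (nat_lit 11780) (nat_lit 6) (nat_lit 155) (nat_lit 5) (nat_lit 162) (nat_lit 216) (nat_lit 222))))) (PT.nd (nat_lit 312) (PT.nd (nat_lit 156) (PT.nd (nat_lit 78) (PT.lf (nat_lit 12160) (nat_lit 6) (nat_lit 160) (nat_lit 5) (nat_lit 163) (nat_lit 216) (nat_lit 221)) (PT.lf (nat_lit 12540) (nat_lit 6) (nat_lit 165) (nat_lit 5) (nat_lit 164) (nat_lit 216) (nat_lit 220))) (PT.nd (nat_lit 78) (PT.lf (nat_lit 12920) (nat_lit 6) (nat_lit 170) (nat_lit 5) (nat_lit 165) (nat_lit 216) (nat_lit 219)) (PT.lf (nat_lit 13300) (nat_lit 6) (nat_lit 175) (nat_lit 5) (nat_lit 166) (nat_lit 216) (nat_lit 218)))) (PT.nd (nat_lit 156) (PT.nd (nat_lit 78) (PT.lf (nat_lit 13756) (nat_lit 6) (nat_lit 181) (nat_lit 5) (nat_lit 167) (nat_lit 216) (nat_lit 217)) (PT.lf (nat_lit 14136) (nat_lit 3) (nat_lit 186) (nat_lit 4) (nat_lit 168) (nat_lit 216) (nat_lit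 216))) (PT.nd (nat_lit 78) (PT.lf (nat_lit 14516) (nat_lit 6) (nat_lit 191) (nat_lit 4) (nat_lit 169) (nat_lit 216) (nat_lit 215)) (PT.lf (nat_lit 14896) (nat_lit 6) (nat_lit 196) (nat_lit 4) (nat_lit 170) (nat_lit 216) (nat_lit 214)))))) (PT.nd (nat_lit 624) (PT.nd (nat_lit 312) (PT.nd (nat_lit 156) (PT.nd (nat_lit 78) (PT.lf (nat_lit 15352) (nat_lit 6) (nat_lit 202) (nat_lit 4) (nat_lit 171) (nat_lit 216) (nat_lit 213)) (PT.lf (nat_lit 15732) (nat_lit 6) (nat_lit 207) (nat_lit 4) (nat_lit 172) (nat_lit 216) (nat_lit 212))) (PT.nd (nat_lit 78) (PT.lf (nat_lit 16188) (nat_lit 6) (nat_lit 213) (nat_lit 4) (nat_lit 173) (nat_lit 216) (nat_lit 211)) (PT.lf (nat_lit 16644) (nat_lit 6) (nat_lit 219) (nat_lit 4) (nat_lit 174) (nat_lit 216) (nat_lit 210)))) (PT.nd (nat_lit 156) (PT.nd (nat_lit 78) (PT.lf (nat_lit 17100) (nat_lit 6) (nat_lit 225) (nat_lit 4) (nat_lit 175) (nat_lit 216) (nat_lit 209)) (PT.lf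 (nat_lit 17556) (nat_lit 6) (nat_lit 231) (nat_lit 4) (nat_lit 176) (nat_lit 216) (nat_lit 208))) (PT.nd (nat_lit 78) (PT.lf (nat_lit 18088) (nat_lit 6) (nat_lit 238) (nat_lit 4) (nat_lit 177) (nat_lit 216) (nat_lit 207)) (PT.lf (nat_lit 18620) (nat_lit 6) (nat_lit 245) (nat_lit 4) (nat_lit 178) (nat_lit 216) (nat_lit 206))))) (PT.nd (nat_lit 312) (PT.nd (nat_lit 156) (PT.nd (nat_lit 78) (PT.lf (nat_lit 19152) (nat_lit 6) (nat_lit 252) (nat_lit 4) (nat_lit 179) (nat_lit 216) (nat_lit 205)) (PT.lf (nat_lit 19684) (nat_lit 6) (nat_lit 259) (nat_lit 4) (nat_lit 180) (nat_lit 216) (nat_lit 204))) (PT.nd (nat_lit 78) (PT.lf (nat_lit 20292) (nat_lit 6) (nat_lit 267) (nat_lit 4) (nat_lit 181) (nat_lit 216) (nat_lit 203)) (PT.lf (nat_lit 20900) (nat_lit 6) (nat_lit 275) (nat_lit 4) (nat_lit 182) (nat_lit 216) (nat_lit 202)))) (PT.nd (nat_lit 156) (PT.nd (nat_lit 78) (PT.lf (nat_lit 21660) (nat_lit 6) (nat_lit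 285) (nat_lit 4) (nat_lit 183) (nat_lit 216) (nat_lit 201)) (PT.lf (nat_lit 22876) (nat_lit 6) (nat_lit 301) (nat_lit 4) (nat_lit 184) (nat_lit 216) (nat_lit 200))) (PT.nd (nat_lit 78) (PT.lf (nat_lit 22800) (nat_lit 6) (nat_lit 300) (nat_lit 4) (nat_lit 185) (nat_lit 216) (nat_lit 199)) (PT.lf (nat_lit 22724) (nat_lit 6) (nat_lit 299) (nat_lit 4) (nat_lit 186) (nat_lit 216) (nat_lit 198))))))) (PT.nd (nat_lit 1248) (PT.nd (nat_lit 624) (PT.nd (nat_lit 312) (PT.nd (nat_lit 156) (PT.nd (nat_lit 78) (PT.lf (nat_lit 22648) (nat_lit 6) (nat_lit 298) (nat_lit 4) (nat_lit 187) (nat_lit 216) (nat_lit 197)) (PT.lf (nat_lit 22572) (nat_lit 6) (nat_lit 297) (nat_lit 4) (nat_lit 188) (nat_lit 216) (nat_lit 196))) (PT.nd (nat_lit 78) (PT.lf (nat_lit 22496) (nat_lit 6) (nat_lit 296) (nat_lit 4) (nat_lit 189) (nat_lit 216) (nat_lit 195)) (PT.lf (nat_lit 22420) (nat_lit 6) (nat_lit 295) (nat_lit 4) (nat_lit 190)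 (nat_lit 216) (nat_lit 194)))) (PT.nd (nat_lit 156) (PT.nd (nat_lit 78) (PT.lf (nat_lit 22344) (nat_lit 6) (nat_lit 294) (nat_lit 4) (nat_lit 191) (nat_lit 216) (nat_lit 193)) (PT.lf (nat_lit 22268) (nat_lit 3) (nat_lit 293) (nat_lit 2) (nat_lit 192) (nat_lit 216) (nat_lit 192))) (PT.nd (nat_lit 78) (PT.lf (nat_lit 22344) (nat_lit 6) (nat_lit 294) (nat_lit 2) (nat_lit 193) (nat_lit 216) (nat_lit 191)) (PT.lf (nat_lit 22420) (nat_lit 6) (nat_lit 295) (nat_lit 2) (nat_lit 194) (nat_lit 216) (nat_lit 190))))) (PT.nd (nat_lit 312) (PT.nd (nat_lit 156) (PT.nd (nat_lit 78) (PT.lf (nat_lit 22496) (nat_lit 6) (nat_lit 296) (nat_lit 2) (nat_lit 195) (nat_lit 216) (nat_lit 189)) (PT.lf (nat_lit 22572) (nat_lit 6) (nat_lit 297) (nat_lit 2) (nat_lit 196) (nat_lit 216) (nat_lit 188))) (PT.nd (nat_lit 78) (PT.lf (nat_lit 22648) (nat_lit 6) (nat_lit 298) (nat_lit 2) (nat_lit 197) (nat_lit 216) (nat_lit 187)) (PT.lf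 (nat_lit 22724) (nat_lit 6) (nat_lit 299) (nat_lit 2) (nat_lit 198) (nat_lit 216) (nat_lit 186)))) (PT.nd (nat_lit 156) (PT.nd (nat_lit 78) (PT.lf (nat_lit 22800) (nat_lit 6) (nat_lit 300) (nat_lit 2) (nat_lit 199) (nat_lit 216) (nat_lit 185)) (PT.lf (nat_lit 22876) (nat_lit 6) (nat_lit 301) (nat_lit 2) (nat_lit 200) (nat_lit 216) (nat_lit 184))) (PT.nd (nat_lit 78) (PT.lf (nat_lit 21660) (nat_lit 6) (nat_lit 285) (nat_lit 2) (nat_lit 201) (nat_lit 216) (nat_lit 183)) (PT.lf (nat_lit 20900) (nat_lit 6) (nat_lit 275) (nat_lit 2) (nat_lit 202) (nat_lit 216) (nat_lit 182)))))) (PT.nd (nat_lit 624) (PT.nd (nat_lit 312) (PT.nd (nat_lit 156) (PT.nd (nat_lit 78) (PT.lf (nat_lit 20292) (nat_lit 6) (nat_lit 267) (nat_lit 2) (nat_lit 203) (nat_lit 216) (nat_lit 181)) (PT.lf (nat_lit 19684) (nat_lit 6) (nat_lit 259) (nat_lit 2) (nat_lit 204) (nat_lit 216) (nat_lit 180))) (PT.nd (nat_lit 78) (PT.lf (nat_lit 19152)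 (nat_lit 6) (nat_lit 252) (nat_lit 2) (nat_lit 205) (nat_lit 216) (nat_lit 179)) (PT.lf (nat_lit 18620) (nat_lit 6) (nat_lit 245) (nat_lit 2) (nat_lit 206) (nat_lit 216) (nat_lit 178)))) (PT.nd (nat_lit 156) (PT.nd (nat_lit 78) (PT.lf (nat_lit 18088) (nat_lit 6) (nat_lit 238) (nat_lit 2) (nat_lit 207) (nat_lit 216) (nat_lit 177)) (PT.lf (nat_lit 17556) (nat_lit 6) (nat_lit 231) (nat_lit 2) (nat_lit 208) (nat_lit 216) (nat_lit 176))) (PT.nd (nat_lit 78) (PT.lf (nat_lit 17100) (nat_lit 6) (nat_lit 225) (nat_lit 2) (nat_lit 209) (nat_lit 216) (nat_lit 175)) (PT.lf (nat_lit 16644) (nat_lit 6) (nat_lit 219) (nat_lit 2) (nat_lit 210) (nat_lit 216) (nat_lit 174))))) (PT.nd (nat_lit 312) (PT.nd (nat_lit 156) (PT.nd (nat_lit 78) (PT.lf (nat_lit 16188) (nat_lit 6) (nat_lit 213) (nat_lit 2) (nat_lit 211) (nat_lit 216) (nat_lit 173)) (PT.lf (nat_lit 15732) (nat_lit 6) (nat_lit 207) (nat_lit 2) (nat_lit 212) (nat_lit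 216) (nat_lit 172))) (PT.nd (nat_lit 78) (PT.lf (nat_lit 15352) (nat_lit 6) (nat_lit 202) (nat_lit 2) (nat_lit 213) (nat_lit 216) (nat_lit 171)) (PT.lf (nat_lit 14896) (nat_lit 6) (nat_lit 196) (nat_lit 2) (nat_lit 214) (nat_lit 216) (nat_lit 170)))) (PT.nd (nat_lit 156) (PT.nd (nat_lit 78) (PT.lf (nat_lit 14516) (nat_lit 6) (nat_lit 191) (nat_lit 2) (nat_lit 215) (nat_lit 216) (nat_lit 169)) (PT.lf (nat_lit 14136) (nat_lit 3) (nat_lit 186) (nat_lit 0) (nat_lit 216) (nat_lit 216) (nat_lit 168))) (PT.nd (nat_lit 78) (PT.lf (nat_lit 13756) (nat_lit 6) (nat_lit 181) (nat_lit 0) (nat_lit 217) (nat_lit 216) (nat_lit 167)) (PT.lf (nat_lit 13300) (nat_lit 6) (nat_lit 175) (nat_lit 0) (nat_lit 218) (nat_lit 216) (nat_lit 166))))))))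
noncomputable def pc40 : PT := (PT.nd (nat_lit 58656) (PT.nd (nat_lit 58032) (PT.nd (nat_lit 312) (PT.nd (nat_lit 156) (PT.nd (nat_lit 78) (PT.lf (nat_lit 12920) (nat_lit 6) (nat_lit 170) (nat_lit 0) (nat_lit 219) (nat_lit 216) (nat_lit 165)) (PT.lf (nat_lit 12540) (nat_lit 6) (nat_lit 165) (nat_lit 0) (nat_lit 220) (nat_lit 216) (nat_lit 164))) (PT.nd (nat_lit 78) (PT.lf (nat_lit 12160) (nat_lit 6) (nat_lit 160) (nat_lit 0) (nat_lit 221) (nat_lit 216) (nat_lit 163)) (PT.lf (nat_lit 11780) (nat_lit 6) (nat_lit 155) (nat_lit 0) (nat_lit 222) (nat_lit 216) (nat_lit 162)))) (PT.nd (nat_lit 57564) (PT.nd (nat_lit 57486) (PT.lf (nat_lit 11400) (nat_lit 6) (nat_lit 150) (nat_lit 0) (nat_lit 223) (nat_lit 216) (nat_lit 161)) (PT.lf (nat_lit 10792) (nat_lit 6) (nat_lit 142) (nat_lit 5) (nat_lit 159) (nat_lit 217) (nat_lit 224))) (PT.nd (nat_lit 78) (PT.lf (nat_lit 11096) (nat_lit 6) (nat_lit 146) (nat_lit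 5) (nat_lit 160) (nat_lit 217) (nat_lit 223)) (PT.lf (nat_lit 11476) (nat_lit 6) (nat_lit 151) (nat_lit 5) (nat_lit 161) (nat_lit 217) (nat_lit 222))))) (PT.nd (nat_lit 312) (PT.nd (nat_lit 156) (PT.nd (nat_lit 78) (PT.lf (nat_lit 11856) (nat_lit 6) (nat_lit 156) (nat_lit 5) (nat_lit 162) (nat_lit 217) (nat_lit 221)) (PT.lf (nat_lit 12236) (nat_lit 6) (nat_lit 161) (nat_lit 5) (nat_lit 163) (nat_lit 217) (nat_lit 220))) (PT.nd (nat_lit 78) (PT.lf (nat_lit 12616) (nat_lit 6) (nat_lit 166) (nat_lit 5) (nat_lit 164) (nat_lit 217) (nat_lit 219)) (PT.lf (nat_lit 12996) (nat_lit 6) (nat_lit 171) (nat_lit 5) (nat_lit 165) (nat_lit 217) (nat_lit 218)))) (PT.nd (nat_lit 156) (PT.nd (nat_lit 78) (PT.lf (nat_lit 13376) (nat_lit 3) (nat_lit 176) (nat_lit 4) (nat_lit 166) (nat_lit 217) (nat_lit 217)) (PT.lf (nat_lit 13756) (nat_lit 6) (nat_lit 181) (nat_lit 4) (nat_lit 167) (nat_lit 217) (nat_lit 216))) (PT.nd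 (nat_lit 78) (PT.lf (nat_lit 14060) (nat_lit 6) (nat_lit 185) (nat_lit 4) (nat_lit 168) (nat_lit 217) (nat_lit 215)) (PT.lf (nat_lit 14440) (nat_lit 6) (nat_lit 190) (nat_lit 4) (nat_lit 169) (nat_lit 217) (nat_lit 214)))))) (PT.nd (nat_lit 624) (PT.nd (nat_lit 312) (PT.nd (nat_lit 156) (PT.nd (nat_lit 78) (PT.lf (nat_lit 14820) (nat_lit 6) (nat_lit 195) (nat_lit 4) (nat_lit 170) (nat_lit 217) (nat_lit 213)) (PT.lf (nat_lit 15276) (nat_lit 6) (nat_lit 201) (nat_lit 4) (nat_lit 171) (nat_lit 217) (nat_lit 212))) (PT.nd (nat_lit 78) (PT.lf (nat_lit 15656) (nat_lit 6) (nat_lit 206) (nat_lit 4) (nat_lit 172) (nat_lit 217) (nat_lit 211)) (PT.lf (nat_lit 16112) (nat_lit 6) (nat_lit 212) (nat_lit 4) (nat_lit 173) (nat_lit 217) (nat_lit 210)))) (PT.nd (nat_lit 156) (PT.nd (nat_lit 78) (PT.lf (nat_lit 16568) (nat_lit 6) (nat_lit 218) (nat_lit 4) (nat_lit 174) (nat_lit 217) (nat_lit 209)) (PT.lf (nat_lit 17024)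 (nat_lit 6) (nat_lit 224) (nat_lit 4) (nat_lit 175) (nat_lit 217) (nat_lit 208))) (PT.nd (nat_lit 78) (PT.lf (nat_lit 17480) (nat_lit 6) (nat_lit 230) (nat_lit 4) (nat_lit 176) (nat_lit 217) (nat_lit 207)) (PT.lf (nat_lit 18012) (nat_lit 6) (nat_lit 237) (nat_lit 4) (nat_lit 177) (nat_lit 217) (nat_lit 206))))) (PT.nd (nat_lit 312) (PT.nd (nat_lit 156) (PT.nd (nat_lit 78) (PT.lf (nat_lit 18544) (nat_lit 6) (nat_lit 244) (nat_lit 4) (nat_lit 178) (nat_lit 217) (nat_lit 205)) (PT.lf (nat_lit 19076) (nat_lit 6) (nat_lit 251) (nat_lit 4) (nat_lit 179) (nat_lit 217) (nat_lit 204))) (PT.nd (nat_lit 78) (PT.lf (nat_lit 19608) (nat_lit 6) (nat_lit 258) (nat_lit 4) (nat_lit 180) (nat_lit 217) (nat_lit 203)) (PT.lf (nat_lit 20216) (nat_lit 6) (nat_lit 266) (nat_lit 4) (nat_lit 181) (nat_lit 217) (nat_lit 202)))) (PT.nd (nat_lit 156) (PT.nd (nat_lit 78) (PT.lf (nat_lit 20824) (nat_lit 6) (nat_lit 274) (nat_lit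 4) (nat_lit 182) (nat_lit 217) (nat_lit 201)) (PT.lf (nat_lit 21584) (nat_lit 6) (nat_lit 284) (nat_lit 4) (nat_lit 183) (nat_lit 217) (nat_lit 200))) (PT.nd (nat_lit 1170) (PT.lf (nat_lit 21508) (nat_lit 6) (nat_lit 283) (nat_lit 4) (nat_lit 184) (nat_lit 217) (nat_lit 199)) (PT.lf (nat_lit 21508) (nat_lit 6) (nat_lit 283) (nat_lit 2) (nat_lit 199) (nat_lit 217) (nat_lit 184)))))))
noncomputable def pc41 : PT := (PT.nd (nat_lit 1248) (PT.nd (nat_lit 624) (PT.nd (nat_lit 312) (PT.nd (nat_lit 156) (PT.nd (nat_lit 78) (PT.lf (nat_lit 21584) (nat_lit 6) (nat_lit 284) (nat_lit 2) (nat_lit 200) (nat_lit 217) (nat_lit 183)) (PT.lf (nat_lit 20824) (nat_lit 6) (nat_lit 274) (nat_lit 2) (nat_lit 201) (nat_lit 217) (nat_lit 182))) (PT.nd (nat_lit 78) (PT.lf (nat_lit 20216) (nat_lit 6) (nat_lit 266) (nat_lit 2) (nat_lit 202) (nat_lit 217) (nat_lit 181)) (PT.lf (nat_lit 19608) (nat_lit 6) (nat_lit 258) (nat_lit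 2) (nat_lit 203) (nat_lit 217) (nat_lit 180)))) (PT.nd (nat_lit 156) (PT.nd (nat_lit 78) (PT.lf (nat_lit 19076) (nat_lit 6) (nat_lit 251) (nat_lit 2) (nat_lit 204) (nat_lit 217) (nat_lit 179)) (PT.lf (nat_lit 18544) (nat_lit 6) (nat_lit 244) (nat_lit 2) (nat_lit 205) (nat_lit 217) (nat_lit 178))) (PT.nd (nat_lit 78) (PT.lf (nat_lit 18012) (nat_lit 6) (nat_lit 237) (nat_lit 2) (nat_lit 206) (nat_lit 217) (nat_lit 177)) (PT.lf (nat_lit 17480) (nat_lit 6) (nat_lit 230) (nat_lit 2) (nat_lit 207) (nat_lit 217) (nat_lit 176))))) (PT.nd (nat_lit 312) (PT.nd (nat_lit 156) (PT.nd (nat_lit 78) (PT.lf (nat_lit 17024) (nat_lit 6) (nat_lit 224) (nat_lit 2) (nat_lit 208) (nat_lit 217) (nat_lit 175)) (PT.lf (nat_lit 16568) (nat_lit 6) (nat_lit 218) (nat_lit 2) (nat_lit 209) (nat_lit 217) (nat_lit 174))) (PT.nd (nat_lit 78) (PT.lf (nat_lit 16112) (nat_lit 6) (nat_lit 212) (nat_lit 2) (nat_lit 210) (nat_lit 217) (nat_lit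 173)) (PT.lf (nat_lit 15656) (nat_lit 6) (nat_lit 206) (nat_lit 2) (nat_lit 211) (nat_lit 217) (nat_lit 172)))) (PT.nd (nat_lit 156) (PT.nd (nat_lit 78) (PT.lf (nat_lit 15276) (nat_lit 6) (nat_lit 201) (nat_lit 2) (nat_lit 212) (nat_lit 217) (nat_lit 171)) (PT.lf (nat_lit 14820) (nat_lit 6) (nat_lit 195) (nat_lit 2) (nat_lit 213) (nat_lit 217) (nat_lit 170))) (PT.nd (nat_lit 78) (PT.lf (nat_lit 14440) (nat_lit 6) (nat_lit 190) (nat_lit 2) (nat_lit 214) (nat_lit 217) (nat_lit 169)) (PT.lf (nat_lit 14060) (nat_lit 6) (nat_lit 185) (nat_lit 2) (nat_lit 215) (nat_lit 217) (nat_lit 168)))))) (PT.nd (nat_lit 624) (PT.nd (nat_lit 312) (PT.nd (nat_lit 156) (PT.nd (nat_lit 78) (PT.lf (nat_lit 13756) (nat_lit 6) (nat_lit 181) (nat_lit 2) (nat_lit 216) (nat_lit 217) (nat_lit 167)) (PT.lf (nat_lit 13376) (nat_lit 3) (nat_lit 176) (nat_lit 0) (nat_lit 217) (nat_lit 217) (nat_lit 166))) (PT.nd (nat_lit 78) (PT.lf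 (nat_lit 12996) (nat_lit 6) (nat_lit 171) (nat_lit 0) (nat_lit 218) (nat_lit 217) (nat_lit 165)) (PT.lf (nat_lit 12616) (nat_lit 6) (nat_lit 166) (nat_lit 0) (nat_lit 219) (nat_lit 217) (nat_lit 164)))) (PT.nd (nat_lit 156) (PT.nd (nat_lit 78) (PT.lf (nat_lit 12236) (nat_lit 6) (nat_lit 161) (nat_lit 0) (nat_lit 220) (nat_lit 217) (nat_lit 163)) (PT.lf (nat_lit 11856) (nat_lit 6) (nat_lit 156) (nat_lit 0) (nat_lit 221) (nat_lit 217) (nat_lit 162))) (PT.nd (nat_lit 78) (PT.lf (nat_lit 11476) (nat_lit 6) (nat_lit 151) (nat_lit 0) (nat_lit 222) (nat_lit 217) (nat_lit 161)) (PT.lf (nat_lit 11096) (nat_lit 6) (nat_lit 146) (nat_lit 0) (nat_lit 223) (nat_lit 217) (nat_lit 160))))) (PT.nd (nat_lit 57564) (PT.nd (nat_lit 57408) (PT.nd (nat_lit 57330) (PT.lf (nat_lit 10792) (nat_lit 6) (nat_lit 142) (nat_lit 0) (nat_lit 224) (nat_lit 217) (nat_lit 159)) (PT.lf (nat_lit 10488) (nat_lit 6) (nat_lit 138) (nat_lit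 5) (nat_lit 158) (nat_lit 218) (nat_lit 224))) (PT.nd (nat_lit 78) (PT.lf (nat_lit 10868) (nat_lit 6) (nat_lit 143) (nat_lit 5) (nat_lit 159) (nat_lit 218) (nat_lit 223)) (PT.lf (nat_lit 11172) (nat_lit 6) (nat_lit 147) (nat_lit 5) (nat_lit 160) (nat_lit 218) (nat_lit 222)))) (PT.nd (nat_lit 156) (PT.nd (nat_lit 78) (PT.lf (nat_lit 11552) (nat_lit 6) (nat_lit 152) (nat_lit 5) (nat_lit 161) (nat_lit 218) (nat_lit 221)) (PT.lf (nat_lit 11932) (nat_lit 6) (nat_lit 157) (nat_lit 5) (nat_lit 162) (nat_lit 218) (nat_lit 220))) (PT.nd (nat_lit 78) (PT.lf (nat_lit 12312) (nat_lit 6) (nat_lit 162) (nat_lit 5) (nat_lit 163) (nat_lit 218) (nat_lit 219)) (PT.nd (nat_lit 78) (PT.lf (nat_lit 12692) (nat_lit 3) (nat_lit 167) (nat_lit 4) (nat_lit 164) (nat_lit 218) (nat_lit 218)) (PT.lf (nat_lit 12996) (nat_lit 6) (nat_lit 171) (nat_lit 4) (nat_lit 165) (nat_lit 218) (nat_lit 217))))))))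
noncomputable def pc42 : PT := (PT.nd (nat_lit 4446) (PT.nd (nat_lit 3198) (PT.nd (nat_lit 624) (PT.nd (nat_lit 312) (PT.nd (nat_lit 156) (PT.nd (nat_lit 78) (PT.lf (nat_lit 13300) (nat_lit 6) (nat_lit 175) (nat_lit 4) (nat_lit 166) (nat_lit 218) (nat_lit 216)) (PT.lf (nat_lit 13680) (nat_lit 6) (nat_lit 180) (nat_lit 4) (nat_lit 167) (nat_lit 218) (nat_lit 215))) (PT.nd (nat_lit 78) (PT.lf (nat_lit 13984) (nat_lit 6) (nat_lit 184) (nat_lit 4) (nat_lit 168) (nat_lit 218) (nat_lit 214)) (PT.lf (nat_lit 14364) (nat_lit 6) (nat_lit 189) (nat_lit 4) (nat_lit 169) (nat_lit 218) (nat_lit 213)))) (PT.nd (nat_lit 156) (PT.nd (nat_lit 78) (PT.lf (nat_lit 14744) (nat_lit 6) (nat_lit 194) (nat_lit 4) (nat_lit 170) (nat_lit 218) (nat_lit 212)) (PT.lf (nat_lit 15200) (nat_lit 6) (nat_lit 200) (nat_lit 4) (nat_lit 171) (nat_lit 218) (nat_lit 211))) (PT.nd (nat_lit 78) (PT.lf (nat_lit 15580) (nat_lit 6) (nat_lit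 205) (nat_lit 4) (nat_lit 172) (nat_lit 218) (nat_lit 210)) (PT.lf (nat_lit 16036) (nat_lit 6) (nat_lit 211) (nat_lit 4) (nat_lit 173) (nat_lit 218) (nat_lit 209))))) (PT.nd (nat_lit 312) (PT.nd (nat_lit 156) (PT.nd (nat_lit 78) (PT.lf (nat_lit 16492) (nat_lit 6) (nat_lit 217) (nat_lit 4) (nat_lit 174) (nat_lit 218) (nat_lit 208)) (PT.lf (nat_lit 16948) (nat_lit 6) (nat_lit 223) (nat_lit 4) (nat_lit 175) (nat_lit 218) (nat_lit 207))) (PT.nd (nat_lit 78) (PT.lf (nat_lit 17404) (nat_lit 6) (nat_lit 229) (nat_lit 4) (nat_lit 176) (nat_lit 218) (nat_lit 206)) (PT.lf (nat_lit 17936) (nat_lit 6) (nat_lit 236) (nat_lit 4) (nat_lit 177) (nat_lit 218) (nat_lit 205)))) (PT.nd (nat_lit 2106) (PT.nd (nat_lit 2028) (PT.lf (nat_lit 18468) (nat_lit 6) (nat_lit 243) (nat_lit 4) (nat_lit 178) (nat_lit 218) (nat_lit 204)) (PT.lf (nat_lit 18468) (nat_lit 6) (nat_lit 243) (nat_lit 2) (nat_lit 204) (nat_lit 218) (nat_lit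 178))) (PT.nd (nat_lit 78) (PT.lf (nat_lit 17936) (nat_lit 6) (nat_lit 236) (nat_lit 2) (nat_lit 205) (nat_lit 218) (nat_lit 177)) (PT.lf (nat_lit 17404) (nat_lit 6) (nat_lit 229) (nat_lit 2) (nat_lit 206) (nat_lit 218) (nat_lit 176)))))) (PT.nd (nat_lit 624) (PT.nd (nat_lit 312) (PT.nd (nat_lit 156) (PT.nd (nat_lit 78) (PT.lf (nat_lit 16948) (nat_lit 6) (nat_lit 223) (nat_lit 2) (nat_lit 207) (nat_lit 218) (nat_lit 175)) (PT.lf (nat_lit 16492) (nat_lit 6) (nat_lit 217) (nat_lit 2) (nat_lit 208) (nat_lit 218) (nat_lit 174))) (PT.nd (nat_lit 78) (PT.lf (nat_lit 16036) (nat_lit 6) (nat_lit 211) (nat_lit 2) (nat_lit 209) (nat_lit 218) (nat_lit 173)) (PT.lf (nat_lit 15580) (nat_lit 6) (nat_lit 205) (nat_lit 2) (nat_lit 210) (nat_lit 218) (nat_lit 172)))) (PT.nd (nat_lit 156) (PT.nd (nat_lit 78) (PT.lf (nat_lit 15200) (nat_lit 6) (nat_lit 200) (nat_lit 2) (nat_lit 211) (nat_lit 218) (nat_lit 171)) (PT.lf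 (nat_lit 14744) (nat_lit 6) (nat_lit 194) (nat_lit 2) (nat_lit 212) (nat_lit 218) (nat_lit 170))) (PT.nd (nat_lit 78) (PT.lf (nat_lit 14364) (nat_lit 6) (nat_lit 189) (nat_lit 2) (nat_lit 213) (nat_lit 218) (nat_lit 169)) (PT.lf (nat_lit 13984) (nat_lit 6) (nat_lit 184) (nat_lit 2) (nat_lit 214) (nat_lit 218) (nat_lit 168))))) (PT.nd (nat_lit 312) (PT.nd (nat_lit 156) (PT.nd (nat_lit 78) (PT.lf (nat_lit 13680) (nat_lit 6) (nat_lit 180) (nat_lit 2) (nat_lit 215) (nat_lit 218) (nat_lit 167)) (PT.lf (nat_lit 13300) (nat_lit 6) (nat_lit 175) (nat_lit 2) (nat_lit 216) (nat_lit 218) (nat_lit 166))) (PT.nd (nat_lit 78) (PT.lf (nat_lit 12996) (nat_lit 6) (nat_lit 171) (nat_lit 2) (nat_lit 217) (nat_lit 218) (nat_lit 165)) (PT.lf (nat_lit 12692) (nat_lit 3) (nat_lit 167) (nat_lit 0) (nat_lit 218) (nat_lit 218) (nat_lit 164)))) (PT.nd (nat_lit 156) (PT.nd (nat_lit 78) (PT.lf (nat_lit 12312) (nat_lit 6) (nat_lit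 162) (nat_lit 0) (nat_lit 219) (nat_lit 218) (nat_lit 163)) (PT.lf (nat_lit 11932) (nat_lit 6) (nat_lit 157) (nat_lit 0) (nat_lit 220) (nat_lit 218) (nat_lit 162))) (PT.nd (nat_lit 78) (PT.lf (nat_lit 11552) (nat_lit 6) (nat_lit 152) (nat_lit 0) (nat_lit 221) (nat_lit 218) (nat_lit 161)) (PT.lf (nat_lit 11172) (nat_lit 6) (nat_lit 147) (nat_lit 0) (nat_lit 222) (nat_lit 218) (nat_lit 160))))))) (PT.nd (nat_lit 58344) (PT.nd (nat_lit 57720) (PT.nd (nat_lit 57408) (PT.nd (nat_lit 57252) (PT.nd (nat_lit 78) (PT.lf (nat_lit 10868) (nat_lit 6) (nat_lit 143) (nat_lit 0) (nat_lit 223) (nat_lit 218) (nat_lit 159)) (PT.lf (nat_lit 10488) (nat_lit 6) (nat_lit 138) (nat_lit 0) (nat_lit 224) (nat_lit 218) (nat_lit 158))) (PT.nd (nat_lit 78) (PT.lf (nat_lit 9956) (nat_lit 6) (nat_lit 131) (nat_lit 5) (nat_lit 156) (nat_lit 219) (nat_lit 225)) (PT.lf (nat_lit 10260) (nat_lit 6) (nat_lit 135) (nat_lit 5) (nat_lit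 157) (nat_lit 219) (nat_lit 224)))) (PT.nd (nat_lit 156) (PT.nd (nat_lit 78) (PT.lf (nat_lit 10564) (nat_lit 6) (nat_lit 139) (nat_lit 5) (nat_lit 158) (nat_lit 219) (nat_lit 223)) (PT.lf (nat_lit 10944) (nat_lit 6) (nat_lit 144) (nat_lit 5) (nat_lit 159) (nat_lit 219) (nat_lit 222))) (PT.nd (nat_lit 78) (PT.lf (nat_lit 11248) (nat_lit 6) (nat_lit 148) (nat_lit 5) (nat_lit 160) (nat_lit 219) (nat_lit 221)) (PT.lf (nat_lit 11628) (nat_lit 6) (nat_lit 153) (nat_lit 5) (nat_lit 161) (nat_lit 219) (nat_lit 220))))) (PT.nd (nat_lit 312) (PT.nd (nat_lit 156) (PT.nd (nat_lit 78) (PT.lf (nat_lit 12008) (nat_lit 3) (nat_lit 158) (nat_lit 4) (nat_lit 162) (nat_lit 219) (nat_lit 219)) (PT.lf (nat_lit 12312) (nat_lit 6) (nat_lit 162) (nat_lit 4) (nat_lit 163) (nat_lit 219) (nat_lit 218))) (PT.nd (nat_lit 78) (PT.lf (nat_lit 12616) (nat_lit 6) (nat_lit 166) (nat_lit 4) (nat_lit 164) (nat_lit 219) (nat_lit 217))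 (PT.lf (nat_lit 12920) (nat_lit 6) (nat_lit 170) (nat_lit 4) (nat_lit 165) (nat_lit 219) (nat_lit 216)))) (PT.nd (nat_lit 156) (PT.nd (nat_lit 78) (PT.lf (nat_lit 13224) (nat_lit 6) (nat_lit 174) (nat_lit 4) (nat_lit 166) (nat_lit 219) (nat_lit 215)) (PT.lf (nat_lit 13604) (nat_lit 6) (nat_lit 179) (nat_lit 4) (nat_lit 167) (nat_lit 219) (nat_lit 214))) (PT.nd (nat_lit 78) (PT.lf (nat_lit 13908) (nat_lit 6) (nat_lit 183) (nat_lit 4) (nat_lit 168) (nat_lit 219) (nat_lit 213)) (PT.lf (nat_lit 14288) (nat_lit 6) (nat_lit 188) (nat_lit 4) (nat_lit 169) (nat_lit 219) (nat_lit 212)))))) (PT.nd (nat_lit 3120) (PT.nd (nat_lit 312) (PT.nd (nat_lit 156) (PT.nd (nat_lit 78) (PT.lf (nat_lit 14668) (nat_lit 6) (nat_lit 193) (nat_lit 4) (nat_lit 170) (nat_lit 219) (nat_lit 211)) (PT.lf (nat_lit 15124) (nat_lit 6) (nat_lit 199) (nat_lit 4) (nat_lit 171) (nat_lit 219) (nat_lit 210))) (PT.nd (nat_lit 78) (PT.lf (nat_lit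 15504) (nat_lit 6) (nat_lit 204) (nat_lit 4) (nat_lit 172) (nat_lit 219) (nat_lit 209)) (PT.lf (nat_lit 15960) (nat_lit 6) (nat_lit 210) (nat_lit 4) (nat_lit 173) (nat_lit 219) (nat_lit 208)))) (PT.nd (nat_lit 2652) (PT.nd (nat_lit 2574) (PT.lf (nat_lit 16416) (nat_lit 6) (nat_lit 216) (nat_lit 4) (nat_lit 174) (nat_lit 219) (nat_lit 207)) (PT.lf (nat_lit 16416) (nat_lit 6) (nat_lit 216) (nat_lit 2) (nat_lit 207) (nat_lit 219) (nat_lit 174))) (PT.nd (nat_lit 78) (PT.lf (nat_lit 15960) (nat_lit 6) (nat_lit 210) (nat_lit 2) (nat_lit 208) (nat_lit 219) (nat_lit 173)) (PT.lf (nat_lit 15504) (nat_lit 6) (nat_lit 204) (nat_lit 2) (nat_lit 209) (nat_lit 219) (nat_lit 172))))) (PT.nd (nat_lit 312) (PT.nd (nat_lit 156) (PT.nd (nat_lit 78) (PT.lf (nat_lit 15124) (nat_lit 6) (nat_lit 199) (nat_lit 2) (nat_lit 210) (nat_lit 219) (nat_lit 171)) (PT.lf (nat_lit 14668) (nat_lit 6) (nat_lit 193) (nat_lit 2) (nat_lit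 211) (nat_lit 219) (nat_lit 170))) (PT.nd (nat_lit 78) (PT.lf (nat_lit 14288) (nat_lit 6) (nat_lit 188) (nat_lit 2) (nat_lit 212) (nat_lit 219) (nat_lit 169)) (PT.lf (nat_lit 13908) (nat_lit 6) (nat_lit 183) (nat_lit 2) (nat_lit 213) (nat_lit 219) (nat_lit 168)))) (PT.nd (nat_lit 156) (PT.nd (nat_lit 78) (PT.lf (nat_lit 13604) (nat_lit 6) (nat_lit 179) (nat_lit 2) (nat_lit 214) (nat_lit 219) (nat_lit 167)) (PT.lf (nat_lit 13224) (nat_lit 6) (nat_lit 174) (nat_lit 2) (nat_lit 215) (nat_lit 219) (nat_lit 166))) (PT.nd (nat_lit 78) (PT.lf (nat_lit 12920) (nat_lit 6) (nat_lit 170) (nat_lit 2) (nat_lit 216) (nat_lit 219) (nat_lit 165)) (PT.lf (nat_lit 12616) (nat_lit 6) (nat_lit 166) (nat_lit 2) (nat_lit 217) (nat_lit 219) (nat_lit 164))))))))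
noncomputable def pc43 : PT := (PT.nd (nat_lit 58188) (PT.nd (nat_lit 57564) (PT.nd (nat_lit 312) (PT.nd (nat_lit 156) (PT.nd (nat_lit 78) (PT.lf (nat_lit 12312) (nat_lit 6) (nat_lit 162) (nat_lit 2) (nat_lit 218) (nat_lit 219) (nat_lit 163)) (PT.lf (nat_lit 12008) (nat_lit 3) (nat_lit 158) (nat_lit 0) (nat_lit 219) (nat_lit 219) (nat_lit 162))) (PT.nd (nat_lit 78) (PT.lf (nat_lit 11628) (nat_lit 6) (nat_lit 153) (nat_lit 0) (nat_lit 220) (nat_lit 219) (nat_lit 161)) (PT.lf (nat_lit 11248) (nat_lit 6) (nat_lit 148) (nat_lit 0) (nat_lit 221) (nat_lit 219) (nat_lit 160)))) (PT.nd (nat_lit 156) (PT.nd (nat_lit 78) (PT.lf (nat_lit 10944) (nat_lit 6) (nat_lit 144) (nat_lit 0) (nat_lit 222) (nat_lit 219) (nat_lit 159)) (PT.lf (nat_lit 10564) (nat_lit 6) (nat_lit 139) (nat_lit 0) (nat_lit 223) (nat_lit 219) (nat_lit 158))) (PT.nd (nat_lit 78) (PT.lf (nat_lit 10260) (nat_lit 6) (nat_lit 135) (nat_lit 0) (nat_lit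 224) (nat_lit 219) (nat_lit 157)) (PT.lf (nat_lit 9956) (nat_lit 6) (nat_lit 131) (nat_lit 0) (nat_lit 225) (nat_lit 219) (nat_lit 156))))) (PT.nd (nat_lit 312) (PT.nd (nat_lit 156) (PT.nd (nat_lit 78) (PT.lf (nat_lit 9728) (nat_lit 6) (nat_lit 128) (nat_lit 5) (nat_lit 155) (nat_lit 220) (nat_lit 225)) (PT.lf (nat_lit 10032) (nat_lit 6) (nat_lit 132) (nat_lit 5) (nat_lit 156) (nat_lit 220) (nat_lit 224))) (PT.nd (nat_lit 78) (PT.lf (nat_lit 10336) (nat_lit 6) (nat_lit 136) (nat_lit 5) (nat_lit 157) (nat_lit 220) (nat_lit 223)) (PT.lf (nat_lit 10640) (nat_lit 6) (nat_lit 140) (nat_lit 5) (nat_lit 158) (nat_lit 220) (nat_lit 222)))) (PT.nd (nat_lit 156) (PT.nd (nat_lit 78) (PT.lf (nat_lit 11020) (nat_lit 6) (nat_lit 145) (nat_lit 5) (nat_lit 159) (nat_lit 220) (nat_lit 221)) (PT.lf (nat_lit 11324) (nat_lit 3) (nat_lit 149) (nat_lit 4) (nat_lit 160) (nat_lit 220) (nat_lit 220))) (PT.nd (nat_lit 78) (PT.lf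 (nat_lit 11628) (nat_lit 6) (nat_lit 153) (nat_lit 4) (nat_lit 161) (nat_lit 220) (nat_lit 219)) (PT.lf (nat_lit 11932) (nat_lit 6) (nat_lit 157) (nat_lit 4) (nat_lit 162) (nat_lit 220) (nat_lit 218)))))) (PT.nd (nat_lit 3666) (PT.nd (nat_lit 312) (PT.nd (nat_lit 156) (PT.nd (nat_lit 78) (PT.lf (nat_lit 12236) (nat_lit 6) (nat_lit 161) (nat_lit 4) (nat_lit 163) (nat_lit 220) (nat_lit 217)) (PT.lf (nat_lit 12540) (nat_lit 6) (nat_lit 165) (nat_lit 4) (nat_lit 164) (nat_lit 220) (nat_lit 216))) (PT.nd (nat_lit 78) (PT.lf (nat_lit 12844) (nat_lit 6) (nat_lit 169) (nat_lit 4) (nat_lit 165) (nat_lit 220) (nat_lit 215)) (PT.lf (nat_lit 13148) (nat_lit 6) (nat_lit 173) (nat_lit 4) (nat_lit 166) (nat_lit 220) (nat_lit 214)))) (PT.nd (nat_lit 156) (PT.nd (nat_lit 78) (PT.lf (nat_lit 13528) (nat_lit 6) (nat_lit 178) (nat_lit 4) (nat_lit 167) (nat_lit 220) (nat_lit 213)) (PT.lf (nat_lit 13832) (nat_lit 6) (nat_lit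 182) (nat_lit 4) (nat_lit 168) (nat_lit 220) (nat_lit 212))) (PT.nd (nat_lit 78) (PT.lf (nat_lit 14212) (nat_lit 6) (nat_lit 187) (nat_lit 4) (nat_lit 169) (nat_lit 220) (nat_lit 211)) (PT.lf (nat_lit 14592) (nat_lit 6) (nat_lit 192) (nat_lit 4) (nat_lit 170) (nat_lit 220) (nat_lit 210))))) (PT.nd (nat_lit 312) (PT.nd (nat_lit 156) (PT.nd (nat_lit 78) (PT.lf (nat_lit 14592) (nat_lit 6) (nat_lit 192) (nat_lit 2) (nat_lit 210) (nat_lit 220) (nat_lit 170)) (PT.lf (nat_lit 14212) (nat_lit 6) (nat_lit 187) (nat_lit 2) (nat_lit 211) (nat_lit 220) (nat_lit 169))) (PT.nd (nat_lit 78) (PT.lf (nat_lit 13832) (nat_lit 6) (nat_lit 182) (nat_lit 2) (nat_lit 212) (nat_lit 220) (nat_lit 168)) (PT.lf (nat_lit 13528) (nat_lit 6) (nat_lit 178) (nat_lit 2) (nat_lit 213) (nat_lit 220) (nat_lit 167)))) (PT.nd (nat_lit 156) (PT.nd (nat_lit 78) (PT.lf (nat_lit 13148) (nat_lit 6) (nat_lit 173) (nat_lit 2) (nat_lit 214) (nat_lit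 220) (nat_lit 166)) (PT.lf (nat_lit 12844) (nat_lit 6) (nat_lit 169) (nat_lit 2) (nat_lit 215) (nat_lit 220) (nat_lit 165))) (PT.nd (nat_lit 78) (PT.lf (nat_lit 12540) (nat_lit 6) (nat_lit 165) (nat_lit 2) (nat_lit 216) (nat_lit 220) (nat_lit 164)) (PT.lf (nat_lit 12236) (nat_lit 6) (nat_lit 161) (nat_lit 2) (nat_lit 217) (nat_lit 220) (nat_lit 163)))))))
noncomputable def pc44 : PT := (PT.nd (nat_lit 58032) (PT.nd (nat_lit 57408) (PT.nd (nat_lit 312) (PT.nd (nat_lit 156) (PT.nd (nat_lit 78) (PT.lf (nat_lit 11932) (nat_lit 6) (nat_lit 157) (nat_lit 2) (nat_lit 218) (nat_lit 220) (nat_lit 162)) (PT.lf (nat_lit 11628) (nat_lit 6) (nat_lit 153) (nat_lit 2) (nat_lit 219) (nat_lit 220) (nat_lit 161))) (PT.nd (nat_lit 78) (PT.lf (nat_lit 11324) (nat_lit 3) (nat_lit 149) (nat_lit 0) (nat_lit 220) (nat_lit 220) (nat_lit 160)) (PT.lf (nat_lit 11020) (nat_lit 6) (nat_lit 145) (nat_lit 0) (nat_lit 221) (nat_lit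 220) (nat_lit 159)))) (PT.nd (nat_lit 156) (PT.nd (nat_lit 78) (PT.lf (nat_lit 10640) (nat_lit 6) (nat_lit 140) (nat_lit 0) (nat_lit 222) (nat_lit 220) (nat_lit 158)) (PT.lf (nat_lit 10336) (nat_lit 6) (nat_lit 136) (nat_lit 0) (nat_lit 223) (nat_lit 220) (nat_lit 157))) (PT.nd (nat_lit 78) (PT.lf (nat_lit 10032) (nat_lit 6) (nat_lit 132) (nat_lit 0) (nat_lit 224) (nat_lit 220) (nat_lit 156)) (PT.lf (nat_lit 9728) (nat_lit 6) (nat_lit 128) (nat_lit 0) (nat_lit 225) (nat_lit 220) (nat_lit 155))))) (PT.nd (nat_lit 312) (PT.nd (nat_lit 156) (PT.nd (nat_lit 78) (PT.lf (nat_lit 9196) (nat_lit 6) (nat_lit 121) (nat_lit 5) (nat_lit 153) (nat_lit 221) (nat_lit 226)) (PT.lf (nat_lit 9500) (nat_lit 6) (nat_lit 125) (nat_lit 5) (nat_lit 154) (nat_lit 221) (nat_lit 225))) (PT.nd (nat_lit 78) (PT.lf (nat_lit 9804) (nat_lit 6) (nat_lit 129) (nat_lit 5) (nat_lit 155) (nat_lit 221) (nat_lit 224)) (PT.lf (nat_lit 10108)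 (nat_lit 6) (nat_lit 133) (nat_lit 5) (nat_lit 156) (nat_lit 221) (nat_lit 223)))) (PT.nd (nat_lit 156) (PT.nd (nat_lit 78) (PT.lf (nat_lit 10412) (nat_lit 6) (nat_lit 137) (nat_lit 5) (nat_lit 157) (nat_lit 221) (nat_lit 222)) (PT.lf (nat_lit 10716) (nat_lit 3) (nat_lit 141) (nat_lit 4) (nat_lit 158) (nat_lit 221) (nat_lit 221))) (PT.nd (nat_lit 78) (PT.lf (nat_lit 11020) (nat_lit 6) (nat_lit 145) (nat_lit 4) (nat_lit 159) (nat_lit 221) (nat_lit 220)) (PT.lf (nat_lit 11248) (nat_lit 6) (nat_lit 148) (nat_lit 4) (nat_lit 160) (nat_lit 221) (nat_lit 219)))))) (PT.nd (nat_lit 4056) (PT.nd (nat_lit 312) (PT.nd (nat_lit 156) (PT.nd (nat_lit 78) (PT.lf (nat_lit 11552) (nat_lit 6) (nat_lit 152) (nat_lit 4) (nat_lit 161) (nat_lit 221) (nat_lit 218)) (PT.lf (nat_lit 11856) (nat_lit 6) (nat_lit 156) (nat_lit 4) (nat_lit 162) (nat_lit 221) (nat_lit 217))) (PT.nd (nat_lit 78) (PT.lf (nat_lit 12160) (nat_lit 6)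 (nat_lit 160) (nat_lit 4) (nat_lit 163) (nat_lit 221) (nat_lit 216)) (PT.lf (nat_lit 12464) (nat_lit 6) (nat_lit 164) (nat_lit 4) (nat_lit 164) (nat_lit 221) (nat_lit 215)))) (PT.nd (nat_lit 156) (PT.nd (nat_lit 78) (PT.lf (nat_lit 12768) (nat_lit 6) (nat_lit 168) (nat_lit 4) (nat_lit 165) (nat_lit 221) (nat_lit 214)) (PT.lf (nat_lit 13072) (nat_lit 6) (nat_lit 172) (nat_lit 4) (nat_lit 166) (nat_lit 221) (nat_lit 213))) (PT.nd (nat_lit 3510) (PT.lf (nat_lit 13452) (nat_lit 6) (nat_lit 177) (nat_lit 4) (nat_lit 167) (nat_lit 221) (nat_lit 212)) (PT.lf (nat_lit 13452) (nat_lit 6) (nat_lit 177) (nat_lit 2) (nat_lit 212) (nat_lit 221) (nat_lit 167))))) (PT.nd (nat_lit 312) (PT.nd (nat_lit 156) (PT.nd (nat_lit 78) (PT.lf (nat_lit 13072) (nat_lit 6) (nat_lit 172) (nat_lit 2) (nat_lit 213) (nat_lit 221) (nat_lit 166)) (PT.lf (nat_lit 12768) (nat_lit 6) (nat_lit 168) (nat_lit 2) (nat_lit 214) (nat_lit 221)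 (nat_lit 165))) (PT.nd (nat_lit 78) (PT.lf (nat_lit 12464) (nat_lit 6) (nat_lit 164) (nat_lit 2) (nat_lit 215) (nat_lit 221) (nat_lit 164)) (PT.lf (nat_lit 12160) (nat_lit 6) (nat_lit 160) (nat_lit 2) (nat_lit 216) (nat_lit 221) (nat_lit 163)))) (PT.nd (nat_lit 156) (PT.nd (nat_lit 78) (PT.lf (nat_lit 11856) (nat_lit 6) (nat_lit 156) (nat_lit 2) (nat_lit 217) (nat_lit 221) (nat_lit 162)) (PT.lf (nat_lit 11552) (nat_lit 6) (nat_lit 152) (nat_lit 2) (nat_lit 218) (nat_lit 221) (nat_lit 161))) (PT.nd (nat_lit 78) (PT.lf (nat_lit 11248) (nat_lit 6) (nat_lit 148) (nat_lit 2) (nat_lit 219) (nat_lit 221) (nat_lit 160)) (PT.nd (nat_lit 78) (PT.lf (nat_lit 11020) (nat_lit 6) (nat_lit 145) (nat_lit 2) (nat_lit 220) (nat_lit 221) (nat_lit 159)) (PT.lf (nat_lit 10716) (nat_lit 3) (nat_lit 141) (nat_lit 0) (nat_lit 221) (nat_lit 221) (nat_lit 158))))))))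
noncomputable def pc45 : PT := (PT.nd (nat_lit 62868) (PT.nd (nat_lit 57798) (PT.nd (nat_lit 57174) (PT.nd (nat_lit 312) (PT.nd (nat_lit 156) (PT.nd (nat_lit 78) (PT.lf (nat_lit 10412) (nat_lit 6) (nat_lit 137) (nat_lit 0) (nat_lit 222) (nat_lit 221) (nat_lit 157)) (PT.lf (nat_lit 10108) (nat_lit 6) (nat_lit 133) (nat_lit 0) (nat_lit 223) (nat_lit 221) (nat_lit 156))) (PT.nd (nat_lit 78) (PT.lf (nat_lit 9804) (nat_lit 6) (nat_lit 129) (nat_lit 0) (nat_lit 224) (nat_lit 221) (nat_lit 155)) (PT.lf (nat_lit 9500) (nat_lit 6) (nat_lit 125) (nat_lit 0) (nat_lit 225) (nat_lit 221) (nat_lit 154)))) (PT.nd (nat_lit 56706) (PT.nd (nat_lit 56628) (PT.lf (nat_lit 9196) (nat_lit 6) (nat_lit 121) (nat_lit 0) (nat_lit 226) (nat_lit 221) (nat_lit 153)) (PT.lf (nat_lit 8740) (nat_lit 6) (nat_lit 115) (nat_lit 5) (nat_lit 151) (nat_lit 222) (nat_lit 227))) (PT.nd (nat_lit 78) (PT.lf (nat_lit 8968) (nat_lit 6) (nat_lit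 118) (nat_lit 5) (nat_lit 152) (nat_lit 222) (nat_lit 226)) (PT.lf (nat_lit 9272) (nat_lit 6) (nat_lit 122) (nat_lit 5) (nat_lit 153) (nat_lit 222) (nat_lit 225))))) (PT.nd (nat_lit 312) (PT.nd (nat_lit 156) (PT.nd (nat_lit 78) (PT.lf (nat_lit 9576) (nat_lit 6) (nat_lit 126) (nat_lit 5) (nat_lit 154) (nat_lit 222) (nat_lit 224)) (PT.lf (nat_lit 9880) (nat_lit 6) (nat_lit 130) (nat_lit 5) (nat_lit 155) (nat_lit 222) (nat_lit 223))) (PT.nd (nat_lit 78) (PT.lf (nat_lit 10184) (nat_lit 3) (nat_lit 134) (nat_lit 4) (nat_lit 156) (nat_lit 222) (nat_lit 222)) (PT.lf (nat_lit 10412) (nat_lit 6) (nat_lit 137) (nat_lit 4) (nat_lit 157) (nat_lit 222) (nat_lit 221)))) (PT.nd (nat_lit 156) (PT.nd (nat_lit 78) (PT.lf (nat_lit 10640) (nat_lit 6) (nat_lit 140) (nat_lit 4) (nat_lit 158) (nat_lit 222) (nat_lit 220)) (PT.lf (nat_lit 10944) (nat_lit 6) (nat_lit 144) (nat_lit 4) (nat_lit 159) (nat_lit 222) (nat_lit 219)))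 (PT.nd (nat_lit 78) (PT.lf (nat_lit 11172) (nat_lit 6) (nat_lit 147) (nat_lit 4) (nat_lit 160) (nat_lit 222) (nat_lit 218)) (PT.lf (nat_lit 11476) (nat_lit 6) (nat_lit 151) (nat_lit 4) (nat_lit 161) (nat_lit 222) (nat_lit 217)))))) (PT.nd (nat_lit 4446) (PT.nd (nat_lit 4134) (PT.nd (nat_lit 156) (PT.nd (nat_lit 78) (PT.lf (nat_lit 11780) (nat_lit 6) (nat_lit 155) (nat_lit 4) (nat_lit 162) (nat_lit 222) (nat_lit 216)) (PT.lf (nat_lit 12084) (nat_lit 6) (nat_lit 159) (nat_lit 4) (nat_lit 163) (nat_lit 222) (nat_lit 215))) (PT.nd (nat_lit 3900) (PT.lf (nat_lit 12388) (nat_lit 6) (nat_lit 163) (nat_lit 4) (nat_lit 164) (nat_lit 222) (nat_lit 214)) (PT.lf (nat_lit 12388) (nat_lit 6) (nat_lit 163) (nat_lit 2) (nat_lit 214) (nat_lit 222) (nat_lit 164)))) (PT.nd (nat_lit 156) (PT.nd (nat_lit 78) (PT.lf (nat_lit 12084) (nat_lit 6) (nat_lit 159) (nat_lit 2) (nat_lit 215) (nat_lit 222) (nat_lit 163)) (PT.lf (nat_lit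 11780) (nat_lit 6) (nat_lit 155) (nat_lit 2) (nat_lit 216) (nat_lit 222) (nat_lit 162))) (PT.nd (nat_lit 78) (PT.lf (nat_lit 11476) (nat_lit 6) (nat_lit 151) (nat_lit 2) (nat_lit 217) (nat_lit 222) (nat_lit 161)) (PT.lf (nat_lit 11172) (nat_lit 6) (nat_lit 147) (nat_lit 2) (nat_lit 218) (nat_lit 222) (nat_lit 160))))) (PT.nd (nat_lit 312) (PT.nd (nat_lit 156) (PT.nd (nat_lit 78) (PT.lf (nat_lit 10944) (nat_lit 6) (nat_lit 144) (nat_lit 2) (nat_lit 219) (nat_lit 222) (nat_lit 159)) (PT.lf (nat_lit 10640) (nat_lit 6) (nat_lit 140) (nat_lit 2) (nat_lit 220) (nat_lit 222) (nat_lit 158))) (PT.nd (nat_lit 78) (PT.lf (nat_lit 10412) (nat_lit 6) (nat_lit 137) (nat_lit 2) (nat_lit 221) (nat_lit 222) (nat_lit 157)) (PT.lf (nat_lit 10184) (nat_lit 3) (nat_lit 134) (nat_lit 0) (nat_lit 222) (nat_lit 222) (nat_lit 156)))) (PT.nd (nat_lit 156) (PT.nd (nat_lit 78) (PT.lf (nat_lit 9880) (nat_lit 6) (nat_lit 130) (nat_lit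 0) (nat_lit 223) (nat_lit 222) (nat_lit 155)) (PT.lf (nat_lit 9576) (nat_lit 6) (nat_lit 126) (nat_lit 0) (nat_lit 224) (nat_lit 222) (nat_lit 154))) (PT.nd (nat_lit 78) (PT.lf (nat_lit 9272) (nat_lit 6) (nat_lit 122) (nat_lit 0) (nat_lit 225) (nat_lit 222) (nat_lit 153)) (PT.lf (nat_lit 8968) (nat_lit 6) (nat_lit 118) (nat_lit 0) (nat_lit 226) (nat_lit 222) (nat_lit 152))))))) (PT.nd (nat_lit 61854) (PT.nd (nat_lit 57018) (PT.nd (nat_lit 56706) (PT.nd (nat_lit 56550) (PT.nd (nat_lit 56472) (PT.lf (nat_lit 8740) (nat_lit 6) (nat_lit 115) (nat_lit 0) (nat_lit 227) (nat_lit 222) (nat_lit 151)) (PT.lf (nat_lit 8512) (nat_lit 6) (nat_lit 112) (nat_lit 5) (nat_lit 150) (nat_lit 223) (nat_lit 227))) (PT.nd (nat_lit 78) (PT.lf (nat_lit 8816) (nat_lit 6) (nat_lit 116) (nat_lit 5) (nat_lit 151) (nat_lit 223) (nat_lit 226)) (PT.lf (nat_lit 9044) (nat_lit 6) (nat_lit 119) (nat_lit 5) (nat_lit 152) (nat_lit 223)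 (nat_lit 225)))) (PT.nd (nat_lit 156) (PT.nd (nat_lit 78) (PT.lf (nat_lit 9348) (nat_lit 6) (nat_lit 123) (nat_lit 5) (nat_lit 153) (nat_lit 223) (nat_lit 224)) (PT.lf (nat_lit 9652) (nat_lit 3) (nat_lit 127) (nat_lit 4) (nat_lit 154) (nat_lit 223) (nat_lit 223))) (PT.nd (nat_lit 78) (PT.lf (nat_lit 9880) (nat_lit 6) (nat_lit 130) (nat_lit 4) (nat_lit 155) (nat_lit 223) (nat_lit 222)) (PT.lf (nat_lit 10108) (nat_lit 6) (nat_lit 133) (nat_lit 4) (nat_lit 156) (nat_lit 223) (nat_lit 221))))) (PT.nd (nat_lit 312) (PT.nd (nat_lit 156) (PT.nd (nat_lit 78) (PT.lf (nat_lit 10336) (nat_lit 6) (nat_lit 136) (nat_lit 4) (nat_lit 157) (nat_lit 223) (nat_lit 220)) (PT.lf (nat_lit 10564) (nat_lit 6) (nat_lit 139) (nat_lit 4) (nat_lit 158) (nat_lit 223) (nat_lit 219))) (PT.nd (nat_lit 78) (PT.lf (nat_lit 10868) (nat_lit 6) (nat_lit 143) (nat_lit 4) (nat_lit 159) (nat_lit 223) (nat_lit 218)) (PT.lf (nat_lit 11096)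 (nat_lit 6) (nat_lit 146) (nat_lit 4) (nat_lit 160) (nat_lit 223) (nat_lit 217)))) (PT.nd (nat_lit 4368) (PT.nd (nat_lit 4290) (PT.lf (nat_lit 11400) (nat_lit 6) (nat_lit 150) (nat_lit 4) (nat_lit 161) (nat_lit 223) (nat_lit 216)) (PT.lf (nat_lit 11400) (nat_lit 6) (nat_lit 150) (nat_lit 2) (nat_lit 216) (nat_lit 223) (nat_lit 161))) (PT.nd (nat_lit 78) (PT.lf (nat_lit 11096) (nat_lit 6) (nat_lit 146) (nat_lit 2) (nat_lit 217) (nat_lit 223) (nat_lit 160)) (PT.lf (nat_lit 10868) (nat_lit 6) (nat_lit 143) (nat_lit 2) (nat_lit 218) (nat_lit 223) (nat_lit 159)))))) (PT.nd (nat_lit 624) (PT.nd (nat_lit 312) (PT.nd (nat_lit 156) (PT.nd (nat_lit 78) (PT.lf (nat_lit 10564) (nat_lit 6) (nat_lit 139) (nat_lit 2) (nat_lit 219) (nat_lit 223) (nat_lit 158)) (PT.lf (nat_lit 10336) (nat_lit 6) (nat_lit 136) (nat_lit 2) (nat_lit 220) (nat_lit 223) (nat_lit 157))) (PT.nd (nat_lit 78) (PT.lf (nat_lit 10108) (nat_lit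 6) (nat_lit 133) (nat_lit 2) (nat_lit 221) (nat_lit 223) (nat_lit 156)) (PT.lf (nat_lit 9880) (nat_lit 6) (nat_lit 130) (nat_lit 2) (nat_lit 222) (nat_lit 223) (nat_lit 155)))) (PT.nd (nat_lit 156) (PT.nd (nat_lit 78) (PT.lf (nat_lit 9652) (nat_lit 3) (nat_lit 127) (nat_lit 0) (nat_lit 223) (nat_lit 223) (nat_lit 154)) (PT.lf (nat_lit 9348) (nat_lit 6) (nat_lit 123) (nat_lit 0) (nat_lit 224) (nat_lit 223) (nat_lit 153))) (PT.nd (nat_lit 78) (PT.lf (nat_lit 9044) (nat_lit 6) (nat_lit 119) (nat_lit 0) (nat_lit 225) (nat_lit 223) (nat_lit 152)) (PT.lf (nat_lit 8816) (nat_lit 6) (nat_lit 116) (nat_lit 0) (nat_lit 226) (nat_lit 223) (nat_lit 151))))) (PT.nd (nat_lit 56550) (PT.nd (nat_lit 56394) (PT.nd (nat_lit 56316) (PT.lf (nat_lit 8512) (nat_lit 6) (nat_lit 112) (nat_lit 0) (nat_lit 227) (nat_lit 223) (nat_lit 150)) (PT.lf (nat_lit 8056) (nat_lit 6) (nat_lit 106) (nat_lit 5) (nat_lit 148) (nat_lit 224)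 (nat_lit 228))) (PT.nd (nat_lit 78) (PT.lf (nat_lit 8360) (nat_lit 6) (nat_lit 110) (nat_lit 5) (nat_lit 149) (nat_lit 224) (nat_lit 227)) (PT.lf (nat_lit 8588) (nat_lit 6) (nat_lit 113) (nat_lit 5) (nat_lit 150) (nat_lit 224) (nat_lit 226)))) (PT.nd (nat_lit 156) (PT.nd (nat_lit 78) (PT.lf (nat_lit 8892) (nat_lit 6) (nat_lit 117) (nat_lit 5) (nat_lit 151) (nat_lit 224) (nat_lit 225)) (PT.lf (nat_lit 9120) (nat_lit 3) (nat_lit 120) (nat_lit 4) (nat_lit 152) (nat_lit 224) (nat_lit 224))) (PT.nd (nat_lit 78) (PT.lf (nat_lit 9348) (nat_lit 6) (nat_lit 123) (nat_lit 4) (nat_lit 153) (nat_lit 224) (nat_lit 223)) (PT.lf (nat_lit 9576) (nat_lit 6) (nat_lit 126) (nat_lit 4) (nat_lit 154) (nat_lit 224) (nat_lit 222))))))))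
noncomputable def pc46 : PT := (PT.nd (nat_lit 5694) (PT.nd (nat_lit 5070) (PT.nd (nat_lit 312) (PT.nd (nat_lit 156) (PT.nd (nat_lit 78) (PT.lf (nat_lit 9804) (nat_lit 6) (nat_lit 129) (nat_lit 4) (nat_lit 155) (nat_lit 224) (nat_lit 221)) (PT.lf (nat_lit 10032) (nat_lit 6) (nat_lit 132) (nat_lit 4) (nat_lit 156) (nat_lit 224) (nat_lit 220))) (PT.nd (nat_lit 78) (PT.lf (nat_lit 10260) (nat_lit 6) (nat_lit 135) (nat_lit 4) (nat_lit 157) (nat_lit 224) (nat_lit 219)) (PT.lf (nat_lit 10488) (nat_lit 6) (nat_lit 138) (nat_lit 4) (nat_lit 158) (nat_lit 224) (nat_lit 218)))) (PT.nd (nat_lit 4602) (PT.nd (nat_lit 4524) (PT.lf (nat_lit 10792) (nat_lit 6) (nat_lit 142) (nat_lit 4) (nat_lit 159) (nat_lit 224) (nat_lit 217)) (PT.lf (nat_lit 10792) (nat_lit 6) (nat_lit 142) (nat_lit 2) (nat_lit 217) (nat_lit 224) (nat_lit 159))) (PT.nd (nat_lit 78) (PT.lf (nat_lit 10488) (nat_lit 6) (nat_lit 138) (nat_lit 2) (nat_lit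 218) (nat_lit 224) (nat_lit 158)) (PT.lf (nat_lit 10260) (nat_lit 6) (nat_lit 135) (nat_lit 2) (nat_lit 219) (nat_lit 224) (nat_lit 157))))) (PT.nd (nat_lit 312) (PT.nd (nat_lit 156) (PT.nd (nat_lit 78) (PT.lf (nat_lit 10032) (nat_lit 6) (nat_lit 132) (nat_lit 2) (nat_lit 220) (nat_lit 224) (nat_lit 156)) (PT.lf (nat_lit 9804) (nat_lit 6) (nat_lit 129) (nat_lit 2) (nat_lit 221) (nat_lit 224) (nat_lit 155))) (PT.nd (nat_lit 78) (PT.lf (nat_lit 9576) (nat_lit 6) (nat_lit 126) (nat_lit 2) (nat_lit 222) (nat_lit 224) (nat_lit 154)) (PT.lf (nat_lit 9348) (nat_lit 6) (nat_lit 123) (nat_lit 2) (nat_lit 223) (nat_lit 224) (nat_lit 153)))) (PT.nd (nat_lit 156) (PT.nd (nat_lit 78) (PT.lf (nat_lit 9120) (nat_lit 3) (nat_lit 120) (nat_lit 0) (nat_lit 224) (nat_lit 224) (nat_lit 152)) (PT.lf (nat_lit 8892) (nat_lit 6) (nat_lit 117) (nat_lit 0) (nat_lit 225) (nat_lit 224) (nat_lit 151))) (PT.nd (nat_lit 78) (PT.lf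 (nat_lit 8588) (nat_lit 6) (nat_lit 113) (nat_lit 0) (nat_lit 226) (nat_lit 224) (nat_lit 150)) (PT.lf (nat_lit 8360) (nat_lit 6) (nat_lit 110) (nat_lit 0) (nat_lit 227) (nat_lit 224) (nat_lit 149)))))) (PT.nd (nat_lit 56628) (PT.nd (nat_lit 56316) (PT.nd (nat_lit 56160) (PT.nd (nat_lit 56082) (PT.lf (nat_lit 8056) (nat_lit 6) (nat_lit 106) (nat_lit 0) (nat_lit 228) (nat_lit 224) (nat_lit 148)) (PT.lf (nat_lit 7676) (nat_lit 6) (nat_lit 101) (nat_lit 5) (nat_lit 146) (nat_lit 225) (nat_lit 229))) (PT.nd (nat_lit 78) (PT.lf (nat_lit 7904) (nat_lit 6) (nat_lit 104) (nat_lit 5) (nat_lit 147) (nat_lit 225) (nat_lit 228)) (PT.lf (nat_lit 8132) (nat_lit 6) (nat_lit 107) (nat_lit 5) (nat_lit 148) (nat_lit 225) (nat_lit 227)))) (PT.nd (nat_lit 156) (PT.nd (nat_lit 78) (PT.lf (nat_lit 8436) (nat_lit 6) (nat_lit 111) (nat_lit 5) (nat_lit 149) (nat_lit 225) (nat_lit 226)) (PT.lf (nat_lit 8664) (nat_lit 3) (nat_lit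 114) (nat_lit 4) (nat_lit 150) (nat_lit 225) (nat_lit 225))) (PT.nd (nat_lit 78) (PT.lf (nat_lit 8892) (nat_lit 6) (nat_lit 117) (nat_lit 4) (nat_lit 151) (nat_lit 225) (nat_lit 224)) (PT.lf (nat_lit 9044) (nat_lit 6) (nat_lit 119) (nat_lit 4) (nat_lit 152) (nat_lit 225) (nat_lit 223))))) (PT.nd (nat_lit 5148) (PT.nd (nat_lit 156) (PT.nd (nat_lit 78) (PT.lf (nat_lit 9272) (nat_lit 6) (nat_lit 122) (nat_lit 4) (nat_lit 153) (nat_lit 225) (nat_lit 222)) (PT.lf (nat_lit 9500) (nat_lit 6) (nat_lit 125) (nat_lit 4) (nat_lit 154) (nat_lit 225) (nat_lit 221))) (PT.nd (nat_lit 78) (PT.lf (nat_lit 9728) (nat_lit 6) (nat_lit 128) (nat_lit 4) (nat_lit 155) (nat_lit 225) (nat_lit 220)) (PT.lf (nat_lit 9956) (nat_lit 6) (nat_lit 131) (nat_lit 4) (nat_lit 156) (nat_lit 225) (nat_lit 219)))) (PT.nd (nat_lit 156) (PT.nd (nat_lit 78) (PT.lf (nat_lit 9956) (nat_lit 6) (nat_lit 131) (nat_lit 2) (nat_lit 219) (nat_lit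 225) (nat_lit 156)) (PT.lf (nat_lit 9728) (nat_lit 6) (nat_lit 128) (nat_lit 2) (nat_lit 220) (nat_lit 225) (nat_lit 155))) (PT.nd (nat_lit 78) (PT.lf (nat_lit 9500) (nat_lit 6) (nat_lit 125) (nat_lit 2) (nat_lit 221) (nat_lit 225) (nat_lit 154)) (PT.lf (nat_lit 9272) (nat_lit 6) (nat_lit 122) (nat_lit 2) (nat_lit 222) (nat_lit 225) (nat_lit 153)))))))
noncomputable def pc47 : PT := (PT.nd (nat_lit 57018) (PT.nd (nat_lit 56394) (PT.nd (nat_lit 312) (PT.nd (nat_lit 156) (PT.nd (nat_lit 78) (PT.lf (nat_lit 9044) (nat_lit 6) (nat_lit 119) (nat_lit 2) (nat_lit 223) (nat_lit 225) (nat_lit 152)) (PT.lf (nat_lit 8892) (nat_lit 6) (nat_lit 117) (nat_lit 2) (nat_lit 224) (nat_lit 225) (nat_lit 151))) (PT.nd (nat_lit 78) (PT.lf (nat_lit 8664) (nat_lit 3) (nat_lit 114) (nat_lit 0) (nat_lit 225) (nat_lit 225) (nat_lit 150)) (PT.lf (nat_lit 8436) (nat_lit 6) (nat_lit 111) (nat_lit 0) (nat_lit 226) (nat_lit 225)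 (nat_lit 149)))) (PT.nd (nat_lit 156) (PT.nd (nat_lit 78) (PT.lf (nat_lit 8132) (nat_lit 6) (nat_lit 107) (nat_lit 0) (nat_lit 227) (nat_lit 225) (nat_lit 148)) (PT.lf (nat_lit 7904) (nat_lit 6) (nat_lit 104) (nat_lit 0) (nat_lit 228) (nat_lit 225) (nat_lit 147))) (PT.nd (nat_lit 55848) (PT.lf (nat_lit 7676) (nat_lit 6) (nat_lit 101) (nat_lit 0) (nat_lit 229) (nat_lit 225) (nat_lit 146)) (PT.lf (nat_lit 7296) (nat_lit 6) (nat_lit 96) (nat_lit 5) (nat_lit 144) (nat_lit 226) (nat_lit 230))))) (PT.nd (nat_lit 312) (PT.nd (nat_lit 156) (PT.nd (nat_lit 78) (PT.lf (nat_lit 7524) (nat_lit 6) (nat_lit 99) (nat_lit 5) (nat_lit 145) (nat_lit 226) (nat_lit 229)) (PT.lf (nat_lit 7752) (nat_lit 6) (nat_lit 102) (nat_lit 5) (nat_lit 146) (nat_lit 226) (nat_lit 228))) (PT.nd (nat_lit 78) (PT.lf (nat_lit 7980) (nat_lit 6) (nat_lit 105) (nat_lit 5) (nat_lit 147) (nat_lit 226) (nat_lit 227)) (PT.lf (nat_lit 8208) (nat_lit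 3) (nat_lit 108) (nat_lit 4) (nat_lit 148) (nat_lit 226) (nat_lit 226)))) (PT.nd (nat_lit 156) (PT.nd (nat_lit 78) (PT.lf (nat_lit 8436) (nat_lit 6) (nat_lit 111) (nat_lit 4) (nat_lit 149) (nat_lit 226) (nat_lit 225)) (PT.lf (nat_lit 8588) (nat_lit 6) (nat_lit 113) (nat_lit 4) (nat_lit 150) (nat_lit 226) (nat_lit 224))) (PT.nd (nat_lit 78) (PT.lf (nat_lit 8816) (nat_lit 6) (nat_lit 116) (nat_lit 4) (nat_lit 151) (nat_lit 226) (nat_lit 223)) (PT.lf (nat_lit 8968) (nat_lit 6) (nat_lit 118) (nat_lit 4) (nat_lit 152) (nat_lit 226) (nat_lit 222)))))) (PT.nd (nat_lit 5850) (PT.nd (nat_lit 5538) (PT.nd (nat_lit 5382) (PT.nd (nat_lit 5304) (PT.lf (nat_lit 9196) (nat_lit 6) (nat_lit 121) (nat_lit 4) (nat_lit 153) (nat_lit 226) (nat_lit 221)) (PT.lf (nat_lit 9196) (nat_lit 6) (nat_lit 121) (nat_lit 2) (nat_lit 221) (nat_lit 226) (nat_lit 153))) (PT.nd (nat_lit 78) (PT.lf (nat_lit 8968) (nat_lit 6) (nat_lit 118)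 (nat_lit 2) (nat_lit 222) (nat_lit 226) (nat_lit 152)) (PT.lf (nat_lit 8816) (nat_lit 6) (nat_lit 116) (nat_lit 2) (nat_lit 223) (nat_lit 226) (nat_lit 151)))) (PT.nd (nat_lit 156) (PT.nd (nat_lit 78) (PT.lf (nat_lit 8588) (nat_lit 6) (nat_lit 113) (nat_lit 2) (nat_lit 224) (nat_lit 226) (nat_lit 150)) (PT.lf (nat_lit 8436) (nat_lit 6) (nat_lit 111) (nat_lit 2) (nat_lit 225) (nat_lit 226) (nat_lit 149))) (PT.nd (nat_lit 78) (PT.lf (nat_lit 8208) (nat_lit 3) (nat_lit 108) (nat_lit 0) (nat_lit 226) (nat_lit 226) (nat_lit 148)) (PT.lf (nat_lit 7980) (nat_lit 6) (nat_lit 105) (nat_lit 0) (nat_lit 227) (nat_lit 226) (nat_lit 147))))) (PT.nd (nat_lit 55926) (PT.nd (nat_lit 156) (PT.nd (nat_lit 78) (PT.lf (nat_lit 7752) (nat_lit 6) (nat_lit 102) (nat_lit 0) (nat_lit 228) (nat_lit 226) (nat_lit 146)) (PT.lf (nat_lit 7524) (nat_lit 6) (nat_lit 99) (nat_lit 0) (nat_lit 229) (nat_lit 226) (nat_lit 145))) (PT.nd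 (nat_lit 55692) (PT.lf (nat_lit 7296) (nat_lit 6) (nat_lit 96) (nat_lit 0) (nat_lit 230) (nat_lit 226) (nat_lit 144)) (PT.lf (nat_lit 7144) (nat_lit 6) (nat_lit 94) (nat_lit 5) (nat_lit 143) (nat_lit 227) (nat_lit 230)))) (PT.nd (nat_lit 156) (PT.nd (nat_lit 78) (PT.lf (nat_lit 7372) (nat_lit 6) (nat_lit 97) (nat_lit 5) (nat_lit 144) (nat_lit 227) (nat_lit 229)) (PT.lf (nat_lit 7600) (nat_lit 6) (nat_lit 100) (nat_lit 5) (nat_lit 145) (nat_lit 227) (nat_lit 228))) (PT.nd (nat_lit 78) (PT.lf (nat_lit 7828) (nat_lit 3) (nat_lit 103) (nat_lit 4) (nat_lit 146) (nat_lit 227) (nat_lit 227)) (PT.nd (nat_lit 78) (PT.lf (nat_lit 7980) (nat_lit 6) (nat_lit 105) (nat_lit 4) (nat_lit 147) (nat_lit 227) (nat_lit 226)) (PT.lf (nat_lit 8132) (nat_lit 6) (nat_lit 107) (nat_lit 4) (nat_lit 148) (nat_lit 227) (nat_lit 225))))))))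
noncomputable def pc48 : PT := (PT.nd (nat_lit 62166) (PT.nd (nat_lit 6084) (PT.nd (nat_lit 5772) (PT.nd (nat_lit 156) (PT.nd (nat_lit 78) (PT.lf (nat_lit 8360) (nat_lit 6) (nat_lit 110) (nat_lit 4) (nat_lit 149) (nat_lit 227) (nat_lit 224)) (PT.lf (nat_lit 8512) (nat_lit 6) (nat_lit 112) (nat_lit 4) (nat_lit 150) (nat_lit 227) (nat_lit 223))) (PT.nd (nat_lit 5538) (PT.lf (nat_lit 8740) (nat_lit 6) (nat_lit 115) (nat_lit 4) (nat_lit 151) (nat_lit 227) (nat_lit 222)) (PT.lf (nat_lit 8740) (nat_lit 6) (nat_lit 115) (nat_lit 2) (nat_lit 222) (nat_lit 227) (nat_lit 151)))) (PT.nd (nat_lit 156) (PT.nd (nat_lit 78) (PT.lf (nat_lit 8512) (nat_lit 6) (nat_lit 112) (nat_lit 2) (nat_lit 223) (nat_lit 227) (nat_lit 150)) (PT.lf (nat_lit 8360) (nat_lit 6) (nat_lit 110) (nat_lit 2) (nat_lit 224) (nat_lit 227) (nat_lit 149))) (PT.nd (nat_lit 78) (PT.lf (nat_lit 8132) (nat_lit 6) (nat_lit 107) (nat_lit 2) (nat_lit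 225) (nat_lit 227) (nat_lit 148)) (PT.lf (nat_lit 7980) (nat_lit 6) (nat_lit 105) (nat_lit 2) (nat_lit 226) (nat_lit 227) (nat_lit 147))))) (PT.nd (nat_lit 55770) (PT.nd (nat_lit 156) (PT.nd (nat_lit 78) (PT.lf (nat_lit 7828) (nat_lit 3) (nat_lit 103) (nat_lit 0) (nat_lit 227) (nat_lit 227) (nat_lit 146)) (PT.lf (nat_lit 7600) (nat_lit 6) (nat_lit 100) (nat_lit 0) (nat_lit 228) (nat_lit 227) (nat_lit 145))) (PT.nd (nat_lit 78) (PT.lf (nat_lit 7372) (nat_lit 6) (nat_lit 97) (nat_lit 0) (nat_lit 229) (nat_lit 227) (nat_lit 144)) (PT.lf (nat_lit 7144) (nat_lit 6) (nat_lit 94) (nat_lit 0) (nat_lit 230) (nat_lit 227) (nat_lit 143)))) (PT.nd (nat_lit 156) (PT.nd (nat_lit 78) (PT.lf (nat_lit 6764) (nat_lit 6) (nat_lit 89) (nat_lit 5) (nat_lit 141) (nat_lit 228) (nat_lit 231)) (PT.lf (nat_lit 6992) (nat_lit 6) (nat_lit 92) (nat_lit 5) (nat_lit 142) (nat_lit 228) (nat_lit 230))) (PT.nd (nat_lit 78) (PT.lf (nat_lit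 7220) (nat_lit 6) (nat_lit 95) (nat_lit 5) (nat_lit 143) (nat_lit 228) (nat_lit 229)) (PT.lf (nat_lit 7448) (nat_lit 3) (nat_lit 98) (nat_lit 4) (nat_lit 144) (nat_lit 228) (nat_lit 228)))))) (PT.nd (nat_lit 6474) (PT.nd (nat_lit 6162) (PT.nd (nat_lit 156) (PT.nd (nat_lit 78) (PT.lf (nat_lit 7600) (nat_lit 6) (nat_lit 100) (nat_lit 4) (nat_lit 145) (nat_lit 228) (nat_lit 227)) (PT.lf (nat_lit 7752) (nat_lit 6) (nat_lit 102) (nat_lit 4) (nat_lit 146) (nat_lit 228) (nat_lit 226))) (PT.nd (nat_lit 78) (PT.lf (nat_lit 7904) (nat_lit 6) (nat_lit 104) (nat_lit 4) (nat_lit 147) (nat_lit 228) (nat_lit 225)) (PT.lf (nat_lit 8056) (nat_lit 6) (nat_lit 106) (nat_lit 4) (nat_lit 148) (nat_lit 228) (nat_lit 224)))) (PT.nd (nat_lit 156) (PT.nd (nat_lit 78) (PT.lf (nat_lit 8056) (nat_lit 6) (nat_lit 106) (nat_lit 2) (nat_lit 224) (nat_lit 228) (nat_lit 148)) (PT.lf (nat_lit 7904) (nat_lit 6) (nat_lit 104) (nat_lit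 2) (nat_lit 225) (nat_lit 228) (nat_lit 147))) (PT.nd (nat_lit 78) (PT.lf (nat_lit 7752) (nat_lit 6) (nat_lit 102) (nat_lit 2) (nat_lit 226) (nat_lit 228) (nat_lit 146)) (PT.lf (nat_lit 7600) (nat_lit 6) (nat_lit 100) (nat_lit 2) (nat_lit 227) (nat_lit 228) (nat_lit 145))))) (PT.nd (nat_lit 55536) (PT.nd (nat_lit 156) (PT.nd (nat_lit 78) (PT.lf (nat_lit 7448) (nat_lit 3) (nat_lit 98) (nat_lit 0) (nat_lit 228) (nat_lit 228) (nat_lit 144)) (PT.lf (nat_lit 7220) (nat_lit 6) (nat_lit 95) (nat_lit 0) (nat_lit 229) (nat_lit 228) (nat_lit 143))) (PT.nd (nat_lit 78) (PT.lf (nat_lit 6992) (nat_lit 6) (nat_lit 92) (nat_lit 0) (nat_lit 230) (nat_lit 228) (nat_lit 142)) (PT.lf (nat_lit 6764) (nat_lit 6) (nat_lit 89) (nat_lit 0) (nat_lit 231) (nat_lit 228) (nat_lit 141)))) (PT.nd (nat_lit 156) (PT.nd (nat_lit 78) (PT.lf (nat_lit 6384) (nat_lit 6) (nat_lit 84) (nat_lit 5) (nat_lit 139) (nat_lit 229) (nat_lit 232))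 (PT.lf (nat_lit 6612) (nat_lit 6) (nat_lit 87) (nat_lit 5) (nat_lit 140) (nat_lit 229) (nat_lit 231))) (PT.nd (nat_lit 78) (PT.lf (nat_lit 6840) (nat_lit 6) (nat_lit 90) (nat_lit 5) (nat_lit 141) (nat_lit 229) (nat_lit 230)) (PT.lf (nat_lit 7068) (nat_lit 3) (nat_lit 93) (nat_lit 4) (nat_lit 142) (nat_lit 229) (nat_lit 229)))))))
noncomputable def pc49 : PT := (PT.nd (nat_lit 62322) (PT.nd (nat_lit 6708) (PT.nd (nat_lit 6396) (PT.nd (nat_lit 156) (PT.nd (nat_lit 78) (PT.lf (nat_lit 7220) (nat_lit 6) (nat_lit 95) (nat_lit 4) (nat_lit 143) (nat_lit 229) (nat_lit 228)) (PT.lf (nat_lit 7372) (nat_lit 6) (nat_lit 97) (nat_lit 4) (nat_lit 144) (nat_lit 229) (nat_lit 227))) (PT.nd (nat_lit 78) (PT.lf (nat_lit 7524) (nat_lit 6) (nat_lit 99) (nat_lit 4) (nat_lit 145) (nat_lit 229) (nat_lit 226)) (PT.lf (nat_lit 7676) (nat_lit 6) (nat_lit 101) (nat_lit 4) (nat_lit 146) (nat_lit 229) (nat_lit 225)))) (PT.nd (nat_lit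 156) (PT.nd (nat_lit 78) (PT.lf (nat_lit 7676) (nat_lit 6) (nat_lit 101) (nat_lit 2) (nat_lit 225) (nat_lit 229) (nat_lit 146)) (PT.lf (nat_lit 7524) (nat_lit 6) (nat_lit 99) (nat_lit 2) (nat_lit 226) (nat_lit 229) (nat_lit 145))) (PT.nd (nat_lit 78) (PT.lf (nat_lit 7372) (nat_lit 6) (nat_lit 97) (nat_lit 2) (nat_lit 227) (nat_lit 229) (nat_lit 144)) (PT.lf (nat_lit 7220) (nat_lit 6) (nat_lit 95) (nat_lit 2) (nat_lit 228) (nat_lit 229) (nat_lit 143))))) (PT.nd (nat_lit 55302) (PT.nd (nat_lit 156) (PT.nd (nat_lit 78) (PT.lf (nat_lit 7068) (nat_lit 3) (nat_lit 93) (nat_lit 0) (nat_lit 229) (nat_lit 229) (nat_lit 142)) (PT.lf (nat_lit 6840) (nat_lit 6) (nat_lit 90) (nat_lit 0) (nat_lit 230) (nat_lit 229) (nat_lit 141))) (PT.nd (nat_lit 78) (PT.lf (nat_lit 6612) (nat_lit 6) (nat_lit 87) (nat_lit 0) (nat_lit 231) (nat_lit 229) (nat_lit 140)) (PT.lf (nat_lit 6384) (nat_lit 6) (nat_lit 84) (nat_lit 0) (nat_lit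 232) (nat_lit 229) (nat_lit 139)))) (PT.nd (nat_lit 156) (PT.nd (nat_lit 78) (PT.lf (nat_lit 6080) (nat_lit 6) (nat_lit 80) (nat_lit 5) (nat_lit 137) (nat_lit 230) (nat_lit 233)) (PT.lf (nat_lit 6232) (nat_lit 6) (nat_lit 82) (nat_lit 5) (nat_lit 138) (nat_lit 230) (nat_lit 232))) (PT.nd (nat_lit 78) (PT.lf (nat_lit 6460) (nat_lit 6) (nat_lit 85) (nat_lit 5) (nat_lit 139) (nat_lit 230) (nat_lit 231)) (PT.lf (nat_lit 6688) (nat_lit 3) (nat_lit 88) (nat_lit 4) (nat_lit 140) (nat_lit 230) (nat_lit 230)))))) (PT.nd (nat_lit 6942) (PT.nd (nat_lit 6630) (PT.nd (nat_lit 156) (PT.nd (nat_lit 78) (PT.lf (nat_lit 6840) (nat_lit 6) (nat_lit 90) (nat_lit 4) (nat_lit 141) (nat_lit 230) (nat_lit 229)) (PT.lf (nat_lit 6992) (nat_lit 6) (nat_lit 92) (nat_lit 4) (nat_lit 142) (nat_lit 230) (nat_lit 228))) (PT.nd (nat_lit 78) (PT.lf (nat_lit 7144) (nat_lit 6) (nat_lit 94) (nat_lit 4) (nat_lit 143) (nat_lit 230) (nat_lit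 227)) (PT.lf (nat_lit 7296) (nat_lit 6) (nat_lit 96) (nat_lit 4) (nat_lit 144) (nat_lit 230) (nat_lit 226)))) (PT.nd (nat_lit 156) (PT.nd (nat_lit 78) (PT.lf (nat_lit 7296) (nat_lit 6) (nat_lit 96) (nat_lit 2) (nat_lit 226) (nat_lit 230) (nat_lit 144)) (PT.lf (nat_lit 7144) (nat_lit 6) (nat_lit 94) (nat_lit 2) (nat_lit 227) (nat_lit 230) (nat_lit 143))) (PT.nd (nat_lit 78) (PT.lf (nat_lit 6992) (nat_lit 6) (nat_lit 92) (nat_lit 2) (nat_lit 228) (nat_lit 230) (nat_lit 142)) (PT.lf (nat_lit 6840) (nat_lit 6) (nat_lit 90) (nat_lit 2) (nat_lit 229) (nat_lit 230) (nat_lit 141))))) (PT.nd (nat_lit 55146) (PT.nd (nat_lit 156) (PT.nd (nat_lit 78) (PT.lf (nat_lit 6688) (nat_lit 3) (nat_lit 88) (nat_lit 0) (nat_lit 230) (nat_lit 230) (nat_lit 140)) (PT.lf (nat_lit 6460) (nat_lit 6) (nat_lit 85) (nat_lit 0) (nat_lit 231) (nat_lit 230) (nat_lit 139))) (PT.nd (nat_lit 78) (PT.lf (nat_lit 6232) (nat_lit 6) (nat_lit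 82) (nat_lit 0) (nat_lit 232) (nat_lit 230) (nat_lit 138)) (PT.lf (nat_lit 6080) (nat_lit 6) (nat_lit 80) (nat_lit 0) (nat_lit 233) (nat_lit 230) (nat_lit 137)))) (PT.nd (nat_lit 156) (PT.nd (nat_lit 78) (PT.lf (nat_lit 5928) (nat_lit 6) (nat_lit 78) (nat_lit 5) (nat_lit 136) (nat_lit 231) (nat_lit 233)) (PT.lf (nat_lit 6156) (nat_lit 6) (nat_lit 81) (nat_lit 5) (nat_lit 137) (nat_lit 231) (nat_lit 232))) (PT.nd (nat_lit 78) (PT.lf (nat_lit 6308) (nat_lit 3) (nat_lit 83) (nat_lit 4) (nat_lit 138) (nat_lit 231) (nat_lit 231)) (PT.nd (nat_lit 78) (PT.lf (nat_lit 6460) (nat_lit 6) (nat_lit 85) (nat_lit 4) (nat_lit 139) (nat_lit 231) (nat_lit 230)) (PT.lf (nat_lit 6612) (nat_lit 6) (nat_lit 87) (nat_lit 4) (nat_lit 140) (nat_lit 231) (nat_lit 229))))))))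
noncomputable def pc50 : PT := (PT.nd (nat_lit 69576) (PT.nd (nat_lit 62010) (PT.nd (nat_lit 7020) (PT.nd (nat_lit 6864) (PT.nd (nat_lit 6786) (PT.lf (nat_lit 6764) (nat_lit 6) (nat_lit 89) (nat_lit 4) (nat_lit 141) (nat_lit 231) (nat_lit 228)) (PT.lf (nat_lit 6764) (nat_lit 6) (nat_lit 89) (nat_lit 2) (nat_lit 228) (nat_lit 231) (nat_lit 141))) (PT.nd (nat_lit 78) (PT.lf (nat_lit 6612) (nat_lit 6) (nat_lit 87) (nat_lit 2) (nat_lit 229) (nat_lit 231) (nat_lit 140)) (PT.lf (nat_lit 6460) (nat_lit 6) (nat_lit 85) (nat_lit 2) (nat_lit 230) (nat_lit 231) (nat_lit 139)))) (PT.nd (nat_lit 156) (PT.nd (nat_lit 78) (PT.lf (nat_lit 6308) (nat_lit 3) (nat_lit 83) (nat_lit 0) (nat_lit 231) (nat_lit 231) (nat_lit 138)) (PT.lf (nat_lit 6156) (nat_lit 6) (nat_lit 81) (nat_lit 0) (nat_lit 232) (nat_lit 231) (nat_lit 137))) (PT.nd (nat_lit 54756) (PT.lf (nat_lit 5928) (nat_lit 6) (nat_lit 78) (nat_lit 0) (nat_lit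 233) (nat_lit 231) (nat_lit 136)) (PT.lf (nat_lit 5624) (nat_lit 6) (nat_lit 74) (nat_lit 5) (nat_lit 134) (nat_lit 232) (nat_lit 234))))) (PT.nd (nat_lit 312) (PT.nd (nat_lit 156) (PT.nd (nat_lit 78) (PT.lf (nat_lit 5852) (nat_lit 6) (nat_lit 77) (nat_lit 5) (nat_lit 135) (nat_lit 232) (nat_lit 233)) (PT.lf (nat_lit 6004) (nat_lit 3) (nat_lit 79) (nat_lit 4) (nat_lit 136) (nat_lit 232) (nat_lit 232))) (PT.nd (nat_lit 78) (PT.lf (nat_lit 6156) (nat_lit 6) (nat_lit 81) (nat_lit 4) (nat_lit 137) (nat_lit 232) (nat_lit 231)) (PT.lf (nat_lit 6232) (nat_lit 6) (nat_lit 82) (nat_lit 4) (nat_lit 138) (nat_lit 232) (nat_lit 230)))) (PT.nd (nat_lit 7098) (PT.nd (nat_lit 7020) (PT.lf (nat_lit 6384) (nat_lit 6) (nat_lit 84) (nat_lit 4) (nat_lit 139) (nat_lit 232) (nat_lit 229)) (PT.lf (nat_lit 6384) (nat_lit 6) (nat_lit 84) (nat_lit 2) (nat_lit 229) (nat_lit 232) (nat_lit 139))) (PT.nd (nat_lit 78) (PT.lf (nat_lit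 6232) (nat_lit 6) (nat_lit 82) (nat_lit 2) (nat_lit 230) (nat_lit 232) (nat_lit 138)) (PT.lf (nat_lit 6156) (nat_lit 6) (nat_lit 81) (nat_lit 2) (nat_lit 231) (nat_lit 232) (nat_lit 137)))))) (PT.nd (nat_lit 55068) (PT.nd (nat_lit 54756) (PT.nd (nat_lit 156) (PT.nd (nat_lit 78) (PT.lf (nat_lit 6004) (nat_lit 3) (nat_lit 79) (nat_lit 0) (nat_lit 232) (nat_lit 232) (nat_lit 136)) (PT.lf (nat_lit 5852) (nat_lit 6) (nat_lit 77) (nat_lit 0) (nat_lit 233) (nat_lit 232) (nat_lit 135))) (PT.nd (nat_lit 54522) (PT.lf (nat_lit 5624) (nat_lit 6) (nat_lit 74) (nat_lit 0) (nat_lit 234) (nat_lit 232) (nat_lit 134)) (PT.lf (nat_lit 5320) (nat_lit 6) (nat_lit 70) (nat_lit 5) (nat_lit 132) (nat_lit 233) (nat_lit 235)))) (PT.nd (nat_lit 156) (PT.nd (nat_lit 78) (PT.lf (nat_lit 5548) (nat_lit 6) (nat_lit 73) (nat_lit 5) (nat_lit 133) (nat_lit 233) (nat_lit 234)) (PT.lf (nat_lit 5700) (nat_lit 3) (nat_lit 75) (nat_lit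 4) (nat_lit 134) (nat_lit 233) (nat_lit 233))) (PT.nd (nat_lit 78) (PT.lf (nat_lit 5852) (nat_lit 6) (nat_lit 77) (nat_lit 4) (nat_lit 135) (nat_lit 233) (nat_lit 232)) (PT.lf (nat_lit 5928) (nat_lit 6) (nat_lit 78) (nat_lit 4) (nat_lit 136) (nat_lit 233) (nat_lit 231))))) (PT.nd (nat_lit 7488) (PT.nd (nat_lit 7332) (PT.nd (nat_lit 7254) (PT.lf (nat_lit 6080) (nat_lit 6) (nat_lit 80) (nat_lit 4) (nat_lit 137) (nat_lit 233) (nat_lit 230)) (PT.lf (nat_lit 6080) (nat_lit 6) (nat_lit 80) (nat_lit 2) (nat_lit 230) (nat_lit 233) (nat_lit 137))) (PT.nd (nat_lit 78) (PT.lf (nat_lit 5928) (nat_lit 6) (nat_lit 78) (nat_lit 2) (nat_lit 231) (nat_lit 233) (nat_lit 136)) (PT.lf (nat_lit 5852) (nat_lit 6) (nat_lit 77) (nat_lit 2) (nat_lit 232) (nat_lit 233) (nat_lit 135)))) (PT.nd (nat_lit 156) (PT.nd (nat_lit 78) (PT.lf (nat_lit 5700) (nat_lit 3) (nat_lit 75) (nat_lit 0) (nat_lit 233) (nat_lit 233) (nat_lit 134))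 (PT.lf (nat_lit 5548) (nat_lit 6) (nat_lit 73) (nat_lit 0) (nat_lit 234) (nat_lit 233) (nat_lit 133))) (PT.nd (nat_lit 54288) (PT.lf (nat_lit 5320) (nat_lit 6) (nat_lit 70) (nat_lit 0) (nat_lit 235) (nat_lit 233) (nat_lit 132)) (PT.lf (nat_lit 5016) (nat_lit 6) (nat_lit 66) (nat_lit 5) (nat_lit 130) (nat_lit 234) (nat_lit 236)))))))
noncomputable def pc51 : PT := (PT.nd (nat_lit 70590) (PT.nd (nat_lit 8190) (PT.nd (nat_lit 7878) (PT.nd (nat_lit 156) (PT.nd (nat_lit 78) (PT.lf (nat_lit 5244) (nat_lit 6) (nat_lit 69) (nat_lit 5) (nat_lit 131) (nat_lit 234) (nat_lit 235)) (PT.lf (nat_lit 5396) (nat_lit 3) (nat_lit 71) (nat_lit 4) (nat_lit 132) (nat_lit 234) (nat_lit 234))) (PT.nd (nat_lit 78) (PT.lf (nat_lit 5548) (nat_lit 6) (nat_lit 73) (nat_lit 4) (nat_lit 133) (nat_lit 234) (nat_lit 233)) (PT.lf (nat_lit 5624) (nat_lit 6) (nat_lit 74) (nat_lit 4) (nat_lit 134) (nat_lit 234) (nat_lit 232)))) (PT.nd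 (nat_lit 156) (PT.nd (nat_lit 78) (PT.lf (nat_lit 5624) (nat_lit 6) (nat_lit 74) (nat_lit 2) (nat_lit 232) (nat_lit 234) (nat_lit 134)) (PT.lf (nat_lit 5548) (nat_lit 6) (nat_lit 73) (nat_lit 2) (nat_lit 233) (nat_lit 234) (nat_lit 133))) (PT.nd (nat_lit 78) (PT.lf (nat_lit 5396) (nat_lit 3) (nat_lit 71) (nat_lit 0) (nat_lit 234) (nat_lit 234) (nat_lit 132)) (PT.lf (nat_lit 5244) (nat_lit 6) (nat_lit 69) (nat_lit 0) (nat_lit 235) (nat_lit 234) (nat_lit 131))))) (PT.nd (nat_lit 54288) (PT.nd (nat_lit 54132) (PT.nd (nat_lit 54054) (PT.lf (nat_lit 5016) (nat_lit 6) (nat_lit 66) (nat_lit 0) (nat_lit 236) (nat_lit 234) (nat_lit 130)) (PT.lf (nat_lit 4712) (nat_lit 6) (nat_lit 62) (nat_lit 5) (nat_lit 128) (nat_lit 235) (nat_lit 237))) (PT.nd (nat_lit 78) (PT.lf (nat_lit 4940) (nat_lit 6) (nat_lit 65) (nat_lit 5) (nat_lit 129) (nat_lit 235) (nat_lit 236)) (PT.lf (nat_lit 5092) (nat_lit 3) (nat_lit 67) (nat_lit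 4) (nat_lit 130) (nat_lit 235) (nat_lit 235)))) (PT.nd (nat_lit 7956) (PT.nd (nat_lit 78) (PT.lf (nat_lit 5244) (nat_lit 6) (nat_lit 69) (nat_lit 4) (nat_lit 131) (nat_lit 235) (nat_lit 234)) (PT.lf (nat_lit 5320) (nat_lit 6) (nat_lit 70) (nat_lit 4) (nat_lit 132) (nat_lit 235) (nat_lit 233))) (PT.nd (nat_lit 78) (PT.lf (nat_lit 5320) (nat_lit 6) (nat_lit 70) (nat_lit 2) (nat_lit 233) (nat_lit 235) (nat_lit 132)) (PT.lf (nat_lit 5244) (nat_lit 6) (nat_lit 69) (nat_lit 2) (nat_lit 234) (nat_lit 235) (nat_lit 131)))))) (PT.nd (nat_lit 62556) (PT.nd (nat_lit 54210) (PT.nd (nat_lit 156) (PT.nd (nat_lit 78) (PT.lf (nat_lit 5092) (nat_lit 3) (nat_lit 67) (nat_lit 0) (nat_lit 235) (nat_lit 235) (nat_lit 130)) (PT.lf (nat_lit 4940) (nat_lit 6) (nat_lit 65) (nat_lit 0) (nat_lit 236) (nat_lit 235) (nat_lit 129))) (PT.nd (nat_lit 53976) (PT.lf (nat_lit 4712) (nat_lit 6) (nat_lit 62) (nat_lit 0) (nat_lit 237)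 (nat_lit 235) (nat_lit 128)) (PT.lf (nat_lit 4788) (nat_lit 3) (nat_lit 63) (nat_lit 4) (nat_lit 128) (nat_lit 236) (nat_lit 236)))) (PT.nd (nat_lit 8190) (PT.nd (nat_lit 78) (PT.lf (nat_lit 4940) (nat_lit 6) (nat_lit 65) (nat_lit 4) (nat_lit 129) (nat_lit 236) (nat_lit 235)) (PT.lf (nat_lit 5016) (nat_lit 6) (nat_lit 66) (nat_lit 4) (nat_lit 130) (nat_lit 236) (nat_lit 234))) (PT.nd (nat_lit 78) (PT.lf (nat_lit 5016) (nat_lit 6) (nat_lit 66) (nat_lit 2) (nat_lit 234) (nat_lit 236) (nat_lit 130)) (PT.lf (nat_lit 4940) (nat_lit 6) (nat_lit 65) (nat_lit 2) (nat_lit 235) (nat_lit 236) (nat_lit 129))))) (PT.nd (nat_lit 1313754) (PT.nd (nat_lit 62400) (PT.nd (nat_lit 54054) (PT.lf (nat_lit 4788) (nat_lit 3) (nat_lit 63) (nat_lit 0) (nat_lit 236) (nat_lit 236) (nat_lit 128)) (PT.lf (nat_lit 4712) (nat_lit 6) (nat_lit 62) (nat_lit 4) (nat_lit 128) (nat_lit 237) (nat_lit 235))) (PT.nd (nat_lit 1237860) (PT.lf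 (nat_lit 4712) (nat_lit 6) (nat_lit 62) (nat_lit 2) (nat_lit 235) (nat_lit 237) (nat_lit 128)) (PT.lf (nat_lit 152) (nat_lit 6) (nat_lit 2) (nat_lit 5) (nat_lit 85) (nat_lit 257) (nat_lit 258)))) (PT.nd (nat_lit 48984) (PT.nd (nat_lit 48906) (PT.lf (nat_lit 152) (nat_lit 6) (nat_lit 2) (nat_lit 0) (nat_lit 258) (nat_lit 257) (nat_lit 85)) (PT.lf (nat_lit 76) (nat_lit 3) (nat_lit 1) (nat_lit 4) (nat_lit 84) (nat_lit 258) (nat_lit 258))) (PT.nd (nat_lit 13416) (PT.lf (nat_lit 152) (nat_lit 6) (nat_lit 2) (nat_lit 4) (nat_lit 85) (nat_lit 258) (nat_lit 257)) (PT.nd (nat_lit 78) (PT.lf (nat_lit 152) (nat_lit 6) (nat_lit 2) (nat_lit 2) (nat_lit 257) (nat_lit 258) (nat_lit 85)) (PT.lf (nat_lit 76) (nat_lit 3) (nat_lit 1) (nat_lit 0) (nat_lit 258) (nat_lit 258) (nat_lit 84))))))))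
noncomputable def xc0 : XT := (XT.nd (nat_lit 249678) (nat_lit 0) (nat_lit 0) (XT.nd (nat_lit 186966) (nat_lit 0) (nat_lit 0) (XT.nd (nat_lit 124644) (nat_lit 0) (nat_lit 0) (XT.nd (nat_lit 62400) (nat_lit 0) (nat_lit 0) (XT.nd (nat_lit 78) (nat_lit 152) (nat_lit 0) (XT.lf (nat_lit 0) (nat_lit 94591139) (nat_lit 152) (nat_lit 7695581639) (nat_lit 0) (nat_lit 94591139) (nat_lit 13) (nat_lit 5) (nat_lit 15) (nat_lit 4) (nat_lit 13) (nat_lit 4) (nat_lit 488) (nat_lit 356) (nat_lit 356)) (XT.nd (nat_lit 62244) (nat_lit 0) (nat_lit 608) (XT.lf (nat_lit 0) (nat_lit 4599005577) (nat_lit 152) (nat_lit 5939709478) (nat_lit 152) (nat_lit 5487539217) (nat_lit 11) (nat_lit 4) (nat_lit 13) (nat_lit 5) (nat_lit 13) (nat_lit 4) (nat_lit 489) (nat_lit 356) (nat_lit 355)) (XT.lf (nat_lit 0) (nat_lit 3615012613) (nat_lit 152) (nat_lit 2010512631) (nat_lit 152) (nat_lit 2010512631) (nat_lit 19) (nat_lit 4) (nat_lit 21)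 (nat_lit 5) (nat_lit 21) (nat_lit 4) (nat_lit 486) (nat_lit 357) (nat_lit 357)))) (XT.nd (nat_lit 78) (nat_lit 456) (nat_lit 0) (XT.lf (nat_lit 0) (nat_lit 6041182452) (nat_lit 152) (nat_lit 3910928552) (nat_lit 0) (nat_lit 5566132376) (nat_lit 17) (nat_lit 5) (nat_lit 19) (nat_lit 4) (nat_lit 17) (nat_lit 4) (nat_lit 487) (nat_lit 357) (nat_lit 356)) (XT.nd (nat_lit 78) (nat_lit 152) (nat_lit 0) (XT.lf (nat_lit 0) (nat_lit 178088373) (nat_lit 76) (nat_lit 373571089) (nat_lit 152) (nat_lit 15219935180) (nat_lit 13) (nat_lit 5) (nat_lit 14) (nat_lit 5) (nat_lit 15) (nat_lit 4) (nat_lit 488) (nat_lit 357) (nat_lit 355)) (XT.lf (nat_lit 0) (nat_lit 4199757164) (nat_lit 152) (nat_lit 6593811926) (nat_lit 152) (nat_lit 5236906046) (nat_lit 11) (nat_lit 4) (nat_lit 13) (nat_lit 5) (nat_lit 13) (nat_lit 4) (nat_lit 489) (nat_lit 357) (nat_lit 354))))) (XT.nd (nat_lit 234) (nat_lit 608) (nat_lit 0) (XT.nd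 (nat_lit 78) (nat_lit 456) (nat_lit 0) (XT.lf (nat_lit 0) (nat_lit 3324904408) (nat_lit 152) (nat_lit 748529277) (nat_lit 0) (nat_lit 3324904408) (nat_lit 25) (nat_lit 5) (nat_lit 27) (nat_lit 4) (nat_lit 25) (nat_lit 4) (nat_lit 484) (nat_lit 358) (nat_lit 358)) (XT.nd (nat_lit 78) (nat_lit 152) (nat_lit 0) (XT.lf (nat_lit 0) (nat_lit 1650280110) (nat_lit 152) (nat_lit 12231097356) (nat_lit 0) (nat_lit 1151192501) (nat_lit 21) (nat_lit 5) (nat_lit 23) (nat_lit 4) (nat_lit 21) (nat_lit 4) (nat_lit 485) (nat_lit 358) (nat_lit 357)) (XT.lf (nat_lit 0) (nat_lit 7037816472) (nat_lit 152) (nat_lit 4609973346) (nat_lit 152) (nat_lit 3626334660) (nat_lit 19) (nat_lit 4) (nat_lit 21) (nat_lit 5) (nat_lit 21) (nat_lit 4) (nat_lit 486) (nat_lit 358) (nat_lit 356)))) (XT.nd (nat_lit 78) (nat_lit 456) (nat_lit 0) (XT.lf (nat_lit 0) (nat_lit 6323743847) (nat_lit 152) (nat_lit 4300459209) (nat_lit 0) (nat_lit 4898178529)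 (nat_lit 17) (nat_lit 5) (nat_lit 19) (nat_lit 4) (nat_lit 17) (nat_lit 4) (nat_lit 487) (nat_lit 358) (nat_lit 355)) (XT.nd (nat_lit 78) (nat_lit 228) (nat_lit 0) (XT.lf (nat_lit 0) (nat_lit 721928796) (nat_lit 228) (nat_lit 415049407) (nat_lit 76) (nat_lit 14640810130) (nat_lit 14) (nat_lit 5) (nat_lit 17) (nat_lit 5) (nat_lit 15) (nat_lit 4) (nat_lit 488) (nat_lit 358) (nat_lit 354)) (XT.lf (nat_lit 0) (nat_lit 3400911480) (nat_lit 152) (nat_lit 7450418110) (nat_lit 152) (nat_lit 5187590962) (nat_lit 11) (nat_lit 4) (nat_lit 13) (nat_lit 5) (nat_lit 13) (nat_lit 4) (nat_lit 489) (nat_lit 358) (nat_lit 353)))))) (XT.nd (nat_lit 468) (nat_lit 456) (nat_lit 0) (XT.nd (nat_lit 234) (nat_lit 608) (nat_lit 0) (XT.nd (nat_lit 78) (nat_lit 304) (nat_lit 0) (XT.lf (nat_lit 0) (nat_lit 1101526274) (nat_lit 152) (nat_lit 4967738198) (nat_lit 0) (nat_lit 1101526274) (nat_lit 29) (nat_lit 5) (nat_lit 31) (nat_lit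 4) (nat_lit 29) (nat_lit 4) (nat_lit 482) (nat_lit 359) (nat_lit 359)) (XT.nd (nat_lit 78) (nat_lit 152) (nat_lit 0) (XT.lf (nat_lit 0) (nat_lit 8783496417) (nat_lit 152) (nat_lit 3159236689) (nat_lit 152) (nat_lit 2624408418) (nat_lit 27) (nat_lit 4) (nat_lit 29) (nat_lit 5) (nat_lit 29) (nat_lit 4) (nat_lit 483) (nat_lit 359) (nat_lit 358)) (XT.lf (nat_lit 0) (nat_lit 7073770667) (nat_lit 152) (nat_lit 1684555100) (nat_lit 0) (nat_lit 6040359863) (nat_lit 25) (nat_lit 5) (nat_lit 27) (nat_lit 4) (nat_lit 25) (nat_lit 4) (nat_lit 484) (nat_lit 359) (nat_lit 357)))) (XT.nd (nat_lit 78) (nat_lit 304) (nat_lit 0) (XT.lf (nat_lit 0) (nat_lit 1959106670) (nat_lit 152) (nat_lit 12616163796) (nat_lit 0) (nat_lit 461407747) (nat_lit 21) (nat_lit 5) (nat_lit 23) (nat_lit 4) (nat_lit 21) (nat_lit 4) (nat_lit 485) (nat_lit 359) (nat_lit 356)) (XT.nd (nat_lit 78) (nat_lit 152) (nat_lit 0) (XT.lf (nat_lit 0) (nat_lit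 6461022260) (nat_lit 152) (nat_lit 5393693524) (nat_lit 152) (nat_lit 3425556662) (nat_lit 19) (nat_lit 4) (nat_lit 21) (nat_lit 5) (nat_lit 21) (nat_lit 4) (nat_lit 486) (nat_lit 359) (nat_lit 355)) (XT.lf (nat_lit 0) (nat_lit 6414063461) (nat_lit 152) (nat_lit 5079860889) (nat_lit 0) (nat_lit 4036737261) (nat_lit 17) (nat_lit 5) (nat_lit 19) (nat_lit 4) (nat_lit 17) (nat_lit 4) (nat_lit 487) (nat_lit 359) (nat_lit 354))))) (XT.nd (nat_lit 61932) (nat_lit 0) (nat_lit 1064) (XT.nd (nat_lit 78) (nat_lit 228) (nat_lit 0) (XT.lf (nat_lit 0) (nat_lit 699899416) (nat_lit 228) (nat_lit 1398267493) (nat_lit 76) (nat_lit 13689952205) (nat_lit 14) (nat_lit 5) (nat_lit 17) (nat_lit 5) (nat_lit 15) (nat_lit 4) (nat_lit 488) (nat_lit 359) (nat_lit 353)) (XT.nd (nat_lit 61776) (nat_lit 0) (nat_lit 1900) (XT.lf (nat_lit 0) (nat_lit 2201770505) (nat_lit 152) (nat_lit 8510276518) (nat_lit 152) (nat_lit 5339550877)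 (nat_lit 11) (nat_lit 4) (nat_lit 13) (nat_lit 5) (nat_lit 13) (nat_lit 4) (nat_lit 489) (nat_lit 359) (nat_lit 352)) (XT.lf (nat_lit 0) (nat_lit 4841851997) (nat_lit 152) (nat_lit 1055467282) (nat_lit 152) (nat_lit 1055467282) (nat_lit 36) (nat_lit 4) (nat_lit 38) (nat_lit 5) (nat_lit 38) (nat_lit 4) (nat_lit 480) (nat_lit 360) (nat_lit 360)))) (XT.nd (nat_lit 156) (nat_lit 304) (nat_lit 0) (XT.nd (nat_lit 78) (nat_lit 304) (nat_lit 0) (XT.lf (nat_lit 0) (nat_lit 7331024573) (nat_lit 228) (nat_lit 21545518) (nat_lit 0) (nat_lit 6769133991) (nat_lit 33) (nat_lit 5) (nat_lit 36) (nat_lit 4) (nat_lit 33) (nat_lit 4) (nat_lit 481) (nat_lit 360) (nat_lit 359)) (XT.lf (nat_lit 0) (nat_lit 2654244943) (nat_lit 152) (nat_lit 10120788554) (nat_lit 0) (nat_lit 1568543553) (nat_lit 29) (nat_lit 5) (nat_lit 31) (nat_lit 4) (nat_lit 29) (nat_lit 4) (nat_lit 482) (nat_lit 360) (nat_lit 358))) (XT.nd (nat_lit 78)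 (nat_lit 152) (nat_lit 0) (XT.lf (nat_lit 0) (nat_lit 8413415872) (nat_lit 152) (nat_lit 3881329419) (nat_lit 152) (nat_lit 2276377280) (nat_lit 27) (nat_lit 4) (nat_lit 29) (nat_lit 5) (nat_lit 29) (nat_lit 4) (nat_lit 483) (nat_lit 360) (nat_lit 357)) (XT.lf (nat_lit 0) (nat_lit 7312615864) (nat_lit 152) (nat_lit 2247208568) (nat_lit 0) (nat_lit 5244891277) (nat_lit 25) (nat_lit 5) (nat_lit 27) (nat_lit 4) (nat_lit 25) (nat_lit 4) (nat_lit 484) (nat_lit 360) (nat_lit 356))))))) (XT.nd (nat_lit 62478) (nat_lit 0) (nat_lit 152) (XT.nd (nat_lit 62010) (nat_lit 0) (nat_lit 1064) (XT.nd (nat_lit 234) (nat_lit 456) (nat_lit 0) (XT.nd (nat_lit 78) (nat_lit 304) (nat_lit 0) (XT.lf (nat_lit 0) (nat_lit 1655448901) (nat_lit 76) (nat_lit 425254161) (nat_lit 152) (nat_lit 12964140014) (nat_lit 21) (nat_lit 5) (nat_lit 22) (nat_lit 5) (nat_lit 23) (nat_lit 4) (nat_lit 485) (nat_lit 360) (nat_lit 355)) (XT.nd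 (nat_lit 78) (nat_lit 152) (nat_lit 0) (XT.lf (nat_lit 0) (nat_lit 5499138595) (nat_lit 152) (nat_lit 6372870601) (nat_lit 152) (nat_lit 3418515831) (nat_lit 19) (nat_lit 4) (nat_lit 21) (nat_lit 5) (nat_lit 21) (nat_lit 4) (nat_lit 486) (nat_lit 360) (nat_lit 354)) (XT.lf (nat_lit 0) (nat_lit 6312220214) (nat_lit 152) (nat_lit 6249814622) (nat_lit 0) (nat_lit 2981055855) (nat_lit 17) (nat_lit 5) (nat_lit 19) (nat_lit 4) (nat_lit 17) (nat_lit 4) (nat_lit 487) (nat_lit 360) (nat_lit 353)))) (XT.nd (nat_lit 78) (nat_lit 228) (nat_lit 0) (XT.lf (nat_lit 0) (nat_lit 484395807) (nat_lit 228) (nat_lit 2774760666) (nat_lit 76) (nat_lit 12543462663) (nat_lit 14) (nat_lit 5) (nat_lit 17) (nat_lit 5) (nat_lit 15) (nat_lit 4) (nat_lit 488) (nat_lit 360) (nat_lit 352)) (XT.nd (nat_lit 61620) (nat_lit 0) (nat_lit 2280) (XT.lf (nat_lit 0) (nat_lit 601286445) (nat_lit 152) (nat_lit 9774313242) (nat_lit 152) (nat_lit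 5692918569) (nat_lit 11) (nat_lit 4) (nat_lit 13) (nat_lit 5) (nat_lit 13) (nat_lit 4) (nat_lit 489) (nat_lit 360) (nat_lit 351)) (XT.lf (nat_lit 0) (nat_lit 460866978) (nat_lit 152) (nat_lit 3141490978) (nat_lit 152) (nat_lit 3141490978) (nat_lit 41) (nat_lit 4) (nat_lit 43) (nat_lit 5) (nat_lit 43) (nat_lit 4) (nat_lit 478) (nat_lit 361) (nat_lit 361))))) (XT.nd (nat_lit 234) (nat_lit 608) (nat_lit 0) (XT.nd (nat_lit 78) (nat_lit 380) (nat_lit 0) (XT.lf (nat_lit 0) (nat_lit 2909413627) (nat_lit 228) (nat_lit 8466364554) (nat_lit 0) (nat_lit 2319091382) (nat_lit 38) (nat_lit 5) (nat_lit 41) (nat_lit 4) (nat_lit 38) (nat_lit 4) (nat_lit 479) (nat_lit 361) (nat_lit 360)) (XT.nd (nat_lit 78) (nat_lit 228) (nat_lit 0) (XT.lf (nat_lit 0) (nat_lit 9505678921) (nat_lit 152) (nat_lit 2782639882) (nat_lit 152) (nat_lit 1619189244) (nat_lit 36) (nat_lit 4) (nat_lit 38) (nat_lit 5) (nat_lit 38) (nat_lit 4) (nat_lit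 480) (nat_lit 361) (nat_lit 359)) (XT.lf (nat_lit 0) (nat_lit 7714646989) (nat_lit 228) (nat_lit 382479341) (nat_lit 0) (nat_lit 6028484272) (nat_lit 33) (nat_lit 5) (nat_lit 36) (nat_lit 4) (nat_lit 33) (nat_lit 4) (nat_lit 481) (nat_lit 361) (nat_lit 358)))) (XT.nd (nat_lit 78) (nat_lit 304) (nat_lit 0) (XT.lf (nat_lit 0) (nat_lit 2922514985) (nat_lit 152) (nat_lit 10676886947) (nat_lit 0) (nat_lit 750163534) (nat_lit 29) (nat_lit 5) (nat_lit 31) (nat_lit 4) (nat_lit 29) (nat_lit 4) (nat_lit 482) (nat_lit 361) (nat_lit 357)) (XT.nd (nat_lit 78) (nat_lit 152) (nat_lit 0) (XT.lf (nat_lit 0) (nat_lit 7672931411) (nat_lit 152) (nat_lit 4791317563) (nat_lit 152) (nat_lit 2114839171) (nat_lit 27) (nat_lit 4) (nat_lit 29) (nat_lit 5) (nat_lit 29) (nat_lit 4) (nat_lit 483) (nat_lit 361) (nat_lit 356)) (XT.lf (nat_lit 0) (nat_lit 7366553110) (nat_lit 152) (nat_lit 3185510598) (nat_lit 0) (nat_lit 4262707989)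 (nat_lit 25) (nat_lit 5) (nat_lit 27) (nat_lit 4) (nat_lit 25) (nat_lit 4) (nat_lit 484) (nat_lit 361) (nat_lit 355)))))) (XT.nd (nat_lit 61854) (nat_lit 0) (nat_lit 1064) (XT.nd (nat_lit 234) (nat_lit 304) (nat_lit 0) (XT.nd (nat_lit 78) (nat_lit 304) (nat_lit 0) (XT.lf (nat_lit 0) (nat_lit 504041093) (nat_lit 76) (nat_lit 1512670190) (nat_lit 152) (nat_lit 13040329690) (nat_lit 21) (nat_lit 5) (nat_lit 22) (nat_lit 5) (nat_lit 23) (nat_lit 4) (nat_lit 485) (nat_lit 361) (nat_lit 354)) (XT.nd (nat_lit 78) (nat_lit 152) (nat_lit 0) (XT.lf (nat_lit 0) (nat_lit 4151324997) (nat_lit 152) (nat_lit 7548360168) (nat_lit 152) (nat_lit 3605206016) (nat_lit 19) (nat_lit 4) (nat_lit 21) (nat_lit 5) (nat_lit 21) (nat_lit 4) (nat_lit 486) (nat_lit 361) (nat_lit 353)) (XT.lf (nat_lit 0) (nat_lit 6018125116) (nat_lit 152) (nat_lit 7811342699) (nat_lit 0) (nat_lit 1730211874) (nat_lit 17) (nat_lit 5) (nat_lit 19)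 (nat_lit 4) (nat_lit 17) (nat_lit 4) (nat_lit 487) (nat_lit 361) (nat_lit 352)))) (XT.nd (nat_lit 78) (nat_lit 76) (nat_lit 0) (XT.lf (nat_lit 0) (nat_lit 75229663) (nat_lit 228) (nat_lit 4545731689) (nat_lit 76) (nat_lit 11200339718) (nat_lit 14) (nat_lit 5) (nat_lit 17) (nat_lit 5) (nat_lit 15) (nat_lit 4) (nat_lit 488) (nat_lit 361) (nat_lit 351)) (XT.nd (nat_lit 61464) (nat_lit 0) (nat_lit 2660) (XT.lf (nat_lit 0) (nat_lit 9850795918) (nat_lit 152) (nat_lit 1383552494) (nat_lit 0) (nat_lit 4855165948) (nat_lit 13) (nat_lit 5) (nat_lit 15) (nat_lit 4) (nat_lit 13) (nat_lit 4) (nat_lit 489) (nat_lit 361) (nat_lit 350)) (XT.lf (nat_lit 0) (nat_lit 1408770517) (nat_lit 228) (nat_lit 3726065724) (nat_lit 0) (nat_lit 1408770517) (nat_lit 48) (nat_lit 5) (nat_lit 51) (nat_lit 4) (nat_lit 48) (nat_lit 4) (nat_lit 476) (nat_lit 362) (nat_lit 362))))) (XT.nd (nat_lit 234) (nat_lit 836) (nat_lit 0) (XT.nd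 (nat_lit 78) (nat_lit 608) (nat_lit 0) (XT.lf (nat_lit 0) (nat_lit 9945996195) (nat_lit 152) (nat_lit 1986280033) (nat_lit 152) (nat_lit 1353683631) (nat_lit 46) (nat_lit 4) (nat_lit 48) (nat_lit 5) (nat_lit 48) (nat_lit 4) (nat_lit 477) (nat_lit 362) (nat_lit 361)) (XT.nd (nat_lit 78) (nat_lit 228) (nat_lit 0) (XT.lf (nat_lit 0) (nat_lit 745842260) (nat_lit 152) (nat_lit 6983049684) (nat_lit 152) (nat_lit 5760728443) (nat_lit 41) (nat_lit 4) (nat_lit 43) (nat_lit 5) (nat_lit 43) (nat_lit 4) (nat_lit 478) (nat_lit 362) (nat_lit 360)) (XT.lf (nat_lit 0) (nat_lit 3323608665) (nat_lit 228) (nat_lit 8823015747) (nat_lit 0) (nat_lit 1552126115) (nat_lit 38) (nat_lit 5) (nat_lit 41) (nat_lit 4) (nat_lit 38) (nat_lit 4) (nat_lit 479) (nat_lit 362) (nat_lit 359)))) (XT.nd (nat_lit 156) (nat_lit 456) (nat_lit 0) (XT.nd (nat_lit 78) (nat_lit 228) (nat_lit 0) (XT.lf (nat_lit 0) (nat_lit 8971448144) (nat_lit 152)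 (nat_lit 3634892122) (nat_lit 152) (nat_lit 1306974238) (nat_lit 36) (nat_lit 4) (nat_lit 38) (nat_lit 5) (nat_lit 38) (nat_lit 4) (nat_lit 480) (nat_lit 362) (nat_lit 358)) (XT.lf (nat_lit 0) (nat_lit 7920336445) (nat_lit 228) (nat_lit 1104662365) (nat_lit 0) (nat_lit 5108428247) (nat_lit 33) (nat_lit 5) (nat_lit 36) (nat_lit 4) (nat_lit 33) (nat_lit 4) (nat_lit 481) (nat_lit 362) (nat_lit 357))) (XT.nd (nat_lit 78) (nat_lit 152) (nat_lit 0) (XT.lf (nat_lit 0) (nat_lit 2753598047) (nat_lit 76) (nat_lit 256162212) (nat_lit 152) (nat_lit 11349758450) (nat_lit 29) (nat_lit 5) (nat_lit 30) (nat_lit 5) (nat_lit 31) (nat_lit 4) (nat_lit 482) (nat_lit 362) (nat_lit 356)) (XT.lf (nat_lit 0) (nat_lit 6561396010) (nat_lit 152) (nat_lit 5889996256) (nat_lit 152) (nat_lit 2139652940) (nat_lit 27) (nat_lit 4) (nat_lit 29) (nat_lit 5) (nat_lit 29) (nat_lit 4) (nat_lit 483) (nat_lit 362) (nat_lit 355))))))))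
noncomputable def xc1 : XT := (XT.nd (nat_lit 124254) (nat_lit 0) (nat_lit 0) (XT.nd (nat_lit 62166) (nat_lit 0) (nat_lit 0) (XT.nd (nat_lit 61698) (nat_lit 0) (nat_lit 1900) (XT.nd (nat_lit 234) (nat_lit 456) (nat_lit 0) (XT.nd (nat_lit 78) (nat_lit 456) (nat_lit 0) (XT.lf (nat_lit 0) (nat_lit 7235629532) (nat_lit 152) (nat_lit 4500281064) (nat_lit 0) (nat_lit 3092951780) (nat_lit 25) (nat_lit 5) (nat_lit 27) (nat_lit 4) (nat_lit 25) (nat_lit 4) (nat_lit 484) (nat_lit 362) (nat_lit 354)) (XT.nd (nat_lit 78) (nat_lit 228) (nat_lit 0) (XT.lf (nat_lit 0) (nat_lit 1770737798) (nat_lit 228) (nat_lit 1018088933) (nat_lit 76) (nat_lit 12284382587) (nat_lit 22) (nat_lit 5) (nat_lit 25) (nat_lit 5) (nat_lit 23) (nat_lit 4) (nat_lit 485) (nat_lit 362) (nat_lit 353)) (XT.lf (nat_lit 0) (nat_lit 2416403764) (nat_lit 152) (nat_lit 8921189352) (nat_lit 152) (nat_lit 3985790344) (nat_lit 19) (nat_lit 4) (nat_lit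 21) (nat_lit 5) (nat_lit 21) (nat_lit 4) (nat_lit 486) (nat_lit 362) (nat_lit 352)))) (XT.nd (nat_lit 78) (nat_lit 304) (nat_lit 0) (XT.lf (nat_lit 0) (nat_lit 5531521191) (nat_lit 152) (nat_lit 9765809562) (nat_lit 0) (nat_lit 283112344) (nat_lit 17) (nat_lit 5) (nat_lit 19) (nat_lit 4) (nat_lit 17) (nat_lit 4) (nat_lit 487) (nat_lit 362) (nat_lit 351)) (XT.nd (nat_lit 78) (nat_lit 152) (nat_lit 0) (XT.lf (nat_lit 0) (nat_lit 9127910363) (nat_lit 152) (nat_lit 6181228608) (nat_lit 152) (nat_lit 534972802) (nat_lit 15) (nat_lit 4) (nat_lit 17) (nat_lit 5) (nat_lit 17) (nat_lit 4) (nat_lit 488) (nat_lit 362) (nat_lit 350)) (XT.lf (nat_lit 0) (nat_lit 9134597057) (nat_lit 152) (nat_lit 3759692427) (nat_lit 0) (nat_lit 3220366675) (nat_lit 13) (nat_lit 5) (nat_lit 15) (nat_lit 4) (nat_lit 13) (nat_lit 4) (nat_lit 489) (nat_lit 362) (nat_lit 349))))) (XT.nd (nat_lit 234) (nat_lit 760) (nat_lit 0) (XT.nd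 (nat_lit 78) (nat_lit 684) (nat_lit 0) (XT.lf (nat_lit 0) (nat_lit 4954783043) (nat_lit 228) (nat_lit 698467824) (nat_lit 228) (nat_lit 698467824) (nat_lit 57) (nat_lit 4) (nat_lit 60) (nat_lit 5) (nat_lit 60) (nat_lit 4) (nat_lit 474) (nat_lit 363) (nat_lit 363)) (XT.nd (nat_lit 78) (nat_lit 228) (nat_lit 0) (XT.lf (nat_lit 0) (nat_lit 1312262129) (nat_lit 228) (nat_lit 6123014431) (nat_lit 228) (nat_lit 5458408652) (nat_lit 51) (nat_lit 4) (nat_lit 54) (nat_lit 5) (nat_lit 54) (nat_lit 4) (nat_lit 475) (nat_lit 363) (nat_lit 362)) (XT.lf (nat_lit 0) (nat_lit 3374828983) (nat_lit 228) (nat_lit 7623614273) (nat_lit 0) (nat_lit 2090658287) (nat_lit 48) (nat_lit 5) (nat_lit 51) (nat_lit 4) (nat_lit 48) (nat_lit 4) (nat_lit 476) (nat_lit 363) (nat_lit 361)))) (XT.nd (nat_lit 78) (nat_lit 608) (nat_lit 0) (XT.lf (nat_lit 0) (nat_lit 9603533736) (nat_lit 152) (nat_lit 2792266806) (nat_lit 152) (nat_lit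 893924847) (nat_lit 46) (nat_lit 4) (nat_lit 48) (nat_lit 5) (nat_lit 48) (nat_lit 4) (nat_lit 477) (nat_lit 363) (nat_lit 360)) (XT.nd (nat_lit 78) (nat_lit 228) (nat_lit 0) (XT.lf (nat_lit 0) (nat_lit 218013481) (nat_lit 152) (nat_lit 7861543334) (nat_lit 152) (nat_lit 5415832805) (nat_lit 41) (nat_lit 4) (nat_lit 43) (nat_lit 5) (nat_lit 43) (nat_lit 4) (nat_lit 478) (nat_lit 363) (nat_lit 359)) (XT.lf (nat_lit 0) (nat_lit 3562038415) (nat_lit 228) (nat_lit 9536629770) (nat_lit 0) (nat_lit 607847661) (nat_lit 38) (nat_lit 5) (nat_lit 41) (nat_lit 4) (nat_lit 38) (nat_lit 4) (nat_lit 479) (nat_lit 363) (nat_lit 358)))))) (XT.nd (nat_lit 468) (nat_lit 684) (nat_lit 0) (XT.nd (nat_lit 234) (nat_lit 532) (nat_lit 0) (XT.nd (nat_lit 78) (nat_lit 532) (nat_lit 0) (XT.lf (nat_lit 0) (nat_lit 8080544860) (nat_lit 152) (nat_lit 4668435971) (nat_lit 152) (nat_lit 1174016739) (nat_lit 36) (nat_lit 4) (nat_lit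 38) (nat_lit 5) (nat_lit 38) (nat_lit 4) (nat_lit 480) (nat_lit 363) (nat_lit 357)) (XT.nd (nat_lit 78) (nat_lit 304) (nat_lit 0) (XT.lf (nat_lit 0) (nat_lit 7948272669) (nat_lit 228) (nat_lit 2188725625) (nat_lit 0) (nat_lit 4008161982) (nat_lit 33) (nat_lit 5) (nat_lit 36) (nat_lit 4) (nat_lit 33) (nat_lit 4) (nat_lit 481) (nat_lit 363) (nat_lit 356)) (XT.lf (nat_lit 0) (nat_lit 1460163377) (nat_lit 76) (nat_lit 1460384428) (nat_lit 152) (nat_lit 11452807855) (nat_lit 29) (nat_lit 5) (nat_lit 30) (nat_lit 5) (nat_lit 31) (nat_lit 4) (nat_lit 482) (nat_lit 363) (nat_lit 355)))) (XT.nd (nat_lit 78) (nat_lit 380) (nat_lit 0) (XT.lf (nat_lit 0) (nat_lit 5077838422) (nat_lit 152) (nat_lit 7178325508) (nat_lit 152) (nat_lit 2350840271) (nat_lit 27) (nat_lit 4) (nat_lit 29) (nat_lit 5) (nat_lit 29) (nat_lit 4) (nat_lit 483) (nat_lit 363) (nat_lit 354)) (XT.nd (nat_lit 78) (nat_lit 228) (nat_lit 0) (XT.lf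 (nat_lit 0) (nat_lit 6919730732) (nat_lit 152) (nat_lit 6192668797) (nat_lit 0) (nat_lit 1734600534) (nat_lit 25) (nat_lit 5) (nat_lit 27) (nat_lit 4) (nat_lit 25) (nat_lit 4) (nat_lit 484) (nat_lit 363) (nat_lit 353)) (XT.lf (nat_lit 0) (nat_lit 1341639969) (nat_lit 228) (nat_lit 2914145163) (nat_lit 76) (nat_lit 10837595658) (nat_lit 22) (nat_lit 5) (nat_lit 25) (nat_lit 5) (nat_lit 23) (nat_lit 4) (nat_lit 485) (nat_lit 363) (nat_lit 352))))) (XT.nd (nat_lit 234) (nat_lit 152) (nat_lit 0) (XT.nd (nat_lit 78) (nat_lit 304) (nat_lit 0) (XT.lf (nat_lit 0) (nat_lit 292858946) (nat_lit 152) (nat_lit 10492557714) (nat_lit 152) (nat_lit 4560601364) (nat_lit 19) (nat_lit 4) (nat_lit 21) (nat_lit 5) (nat_lit 21) (nat_lit 4) (nat_lit 486) (nat_lit 363) (nat_lit 351)) (XT.nd (nat_lit 78) (nat_lit 152) (nat_lit 0) (XT.lf (nat_lit 0) (nat_lit 3481339635) (nat_lit 76) (nat_lit 1379600901) (nat_lit 152) (nat_lit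 10744279379) (nat_lit 17) (nat_lit 5) (nat_lit 18) (nat_lit 5) (nat_lit 19) (nat_lit 4) (nat_lit 487) (nat_lit 363) (nat_lit 350)) (XT.lf (nat_lit 0) (nat_lit 6584740437) (nat_lit 152) (nat_lit 7943057197) (nat_lit 152) (nat_lit 1343307573) (nat_lit 15) (nat_lit 4) (nat_lit 17) (nat_lit 5) (nat_lit 17) (nat_lit 4) (nat_lit 488) (nat_lit 363) (nat_lit 349)))) (XT.nd (nat_lit 61230) (nat_lit 0) (nat_lit 3344) (XT.nd (nat_lit 61152) (nat_lit 0) (nat_lit 3800) (XT.lf (nat_lit 0) (nat_lit 8222473349) (nat_lit 152) (nat_lit 6537095572) (nat_lit 0) (nat_lit 1384474781) (nat_lit 13) (nat_lit 5) (nat_lit 15) (nat_lit 4) (nat_lit 13) (nat_lit 4) (nat_lit 489) (nat_lit 363) (nat_lit 348)) (XT.lf (nat_lit 0) (nat_lit 735539994) (nat_lit 228) (nat_lit 2715991303) (nat_lit 228) (nat_lit 2715991303) (nat_lit 63) (nat_lit 4) (nat_lit 66) (nat_lit 5) (nat_lit 66) (nat_lit 4) (nat_lit 472) (nat_lit 364) (nat_lit 364)))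 (XT.nd (nat_lit 78) (nat_lit 228) (nat_lit 0) (XT.lf (nat_lit 0) (nat_lit 3153490354) (nat_lit 228) (nat_lit 6908933768) (nat_lit 0) (nat_lit 2455255522) (nat_lit 60) (nat_lit 5) (nat_lit 63) (nat_lit 4) (nat_lit 60) (nat_lit 4) (nat_lit 473) (nat_lit 364) (nat_lit 363)) (XT.lf (nat_lit 0) (nat_lit 9744994920) (nat_lit 228) (nat_lit 2168204200) (nat_lit 228) (nat_lit 792071473) (nat_lit 57) (nat_lit 4) (nat_lit 60) (nat_lit 5) (nat_lit 60) (nat_lit 4) (nat_lit 474) (nat_lit 364) (nat_lit 362))))))) (XT.nd (nat_lit 1014) (nat_lit 304) (nat_lit 0) (XT.nd (nat_lit 468) (nat_lit 1444) (nat_lit 0) (XT.nd (nat_lit 234) (nat_lit 760) (nat_lit 0) (XT.nd (nat_lit 78) (nat_lit 380) (nat_lit 0) (XT.lf (nat_lit 0) (nat_lit 973992649) (nat_lit 228) (nat_lit 6958916802) (nat_lit 228) (nat_lit 4964518740) (nat_lit 51) (nat_lit 4) (nat_lit 54) (nat_lit 5) (nat_lit 54) (nat_lit 4) (nat_lit 475) (nat_lit 364) (nat_lit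 361)) (XT.nd (nat_lit 78) (nat_lit 152) (nat_lit 0) (XT.lf (nat_lit 0) (nat_lit 3763009082) (nat_lit 228) (nat_lit 8138212585) (nat_lit 0) (nat_lit 1193545601) (nat_lit 48) (nat_lit 5) (nat_lit 51) (nat_lit 4) (nat_lit 48) (nat_lit 4) (nat_lit 476) (nat_lit 364) (nat_lit 360)) (XT.lf (nat_lit 0) (nat_lit 8918309577) (nat_lit 152) (nat_lit 3772348210) (nat_lit 152) (nat_lit 606601949) (nat_lit 46) (nat_lit 4) (nat_lit 48) (nat_lit 5) (nat_lit 48) (nat_lit 4) (nat_lit 477) (nat_lit 364) (nat_lit 359)))) (XT.nd (nat_lit 78) (nat_lit 532) (nat_lit 0) (XT.lf (nat_lit 0) (nat_lit 8261316462) (nat_lit 228) (nat_lit 653528540) (nat_lit 0) (nat_lit 4590079617) (nat_lit 43) (nat_lit 5) (nat_lit 46) (nat_lit 4) (nat_lit 43) (nat_lit 4) (nat_lit 478) (nat_lit 364) (nat_lit 358)) (XT.nd (nat_lit 78) (nat_lit 152) (nat_lit 0) (XT.lf (nat_lit 0) (nat_lit 3106889107) (nat_lit 152) (nat_lit 521407427) (nat_lit 228)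 (nat_lit 10089808065) (nat_lit 38) (nat_lit 5) (nat_lit 40) (nat_lit 5) (nat_lit 41) (nat_lit 4) (nat_lit 479) (nat_lit 364) (nat_lit 357)) (XT.lf (nat_lit 0) (nat_lit 6832190610) (nat_lit 152) (nat_lit 5884174525) (nat_lit 152) (nat_lit 1220200569) (nat_lit 36) (nat_lit 4) (nat_lit 38) (nat_lit 5) (nat_lit 38) (nat_lit 4) (nat_lit 480) (nat_lit 364) (nat_lit 356))))) (XT.nd (nat_lit 234) (nat_lit 760) (nat_lit 0) (XT.nd (nat_lit 78) (nat_lit 456) (nat_lit 0) (XT.lf (nat_lit 0) (nat_lit 7798480071) (nat_lit 228) (nat_lit 3635616360) (nat_lit 0) (nat_lit 2726724080) (nat_lit 33) (nat_lit 5) (nat_lit 36) (nat_lit 4) (nat_lit 33) (nat_lit 4) (nat_lit 481) (nat_lit 364) (nat_lit 355)) (XT.nd (nat_lit 78) (nat_lit 228) (nat_lit 0) (XT.lf (nat_lit 0) (nat_lit 2651187081) (nat_lit 228) (nat_lit 201049836) (nat_lit 76) (nat_lit 11538923745) (nat_lit 30) (nat_lit 5) (nat_lit 33) (nat_lit 5) (nat_lit 31) (nat_lit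 4) (nat_lit 482) (nat_lit 364) (nat_lit 354)) (XT.lf (nat_lit 0) (nat_lit 3220962336) (nat_lit 152) (nat_lit 8657431045) (nat_lit 152) (nat_lit 2748585694) (nat_lit 27) (nat_lit 4) (nat_lit 29) (nat_lit 5) (nat_lit 29) (nat_lit 4) (nat_lit 483) (nat_lit 364) (nat_lit 353)))) (XT.nd (nat_lit 156) (nat_lit 380) (nat_lit 0) (XT.nd (nat_lit 78) (nat_lit 228) (nat_lit 0) (XT.lf (nat_lit 0) (nat_lit 6418580682) (nat_lit 152) (nat_lit 8264152580) (nat_lit 0) (nat_lit 186467341) (nat_lit 25) (nat_lit 5) (nat_lit 27) (nat_lit 4) (nat_lit 25) (nat_lit 4) (nat_lit 484) (nat_lit 364) (nat_lit 352)) (XT.lf (nat_lit 0) (nat_lit 725770288) (nat_lit 228) (nat_lit 5192394933) (nat_lit 76) (nat_lit 9199473245) (nat_lit 22) (nat_lit 5) (nat_lit 25) (nat_lit 5) (nat_lit 23) (nat_lit 4) (nat_lit 485) (nat_lit 364) (nat_lit 351))) (XT.nd (nat_lit 78) (nat_lit 304) (nat_lit 0) (XT.lf (nat_lit 0) (nat_lit 10057094587) (nat_lit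 152) (nat_lit 2192034003) (nat_lit 0) (nat_lit 3123397633) (nat_lit 21) (nat_lit 5) (nat_lit 23) (nat_lit 4) (nat_lit 21) (nat_lit 4) (nat_lit 486) (nat_lit 364) (nat_lit 350)) (XT.lf (nat_lit 0) (nat_lit 752325959) (nat_lit 76) (nat_lit 3247677645) (nat_lit 152) (nat_lit 11634144058) (nat_lit 17) (nat_lit 5) (nat_lit 18) (nat_lit 5) (nat_lit 19) (nat_lit 4) (nat_lit 487) (nat_lit 364) (nat_lit 349)))))) (XT.nd (nat_lit 61386) (nat_lit 0) (nat_lit 1748) (XT.nd (nat_lit 61152) (nat_lit 0) (nat_lit 3572) (XT.nd (nat_lit 78) (nat_lit 152) (nat_lit 0) (XT.lf (nat_lit 0) (nat_lit 3644342246) (nat_lit 152) (nat_lit 9908491411) (nat_lit 152) (nat_lit 2349481199) (nat_lit 15) (nat_lit 4) (nat_lit 17) (nat_lit 5) (nat_lit 17) (nat_lit 4) (nat_lit 488) (nat_lit 364) (nat_lit 348)) (XT.nd (nat_lit 60996) (nat_lit 0) (nat_lit 4484) (XT.lf (nat_lit 0) (nat_lit 6455124433) (nat_lit 76) (nat_lit 662806740) (nat_lit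 152) (nat_lit 9059685424) (nat_lit 13) (nat_lit 5) (nat_lit 14) (nat_lit 5) (nat_lit 15) (nat_lit 4) (nat_lit 489) (nat_lit 364) (nat_lit 347)) (XT.lf (nat_lit 0) (nat_lit 1361559227) (nat_lit 304) (nat_lit 3267834535) (nat_lit 0) (nat_lit 1361559227) (nat_lit 72) (nat_lit 5) (nat_lit 76) (nat_lit 4) (nat_lit 72) (nat_lit 4) (nat_lit 470) (nat_lit 365) (nat_lit 365)))) (XT.nd (nat_lit 78) (nat_lit 684) (nat_lit 0) (XT.lf (nat_lit 0) (nat_lit 9544034742) (nat_lit 228) (nat_lit 1680737554) (nat_lit 228) (nat_lit 932500729) (nat_lit 69) (nat_lit 4) (nat_lit 72) (nat_lit 5) (nat_lit 72) (nat_lit 4) (nat_lit 471) (nat_lit 365) (nat_lit 364)) (XT.nd (nat_lit 78) (nat_lit 228) (nat_lit 0) (XT.lf (nat_lit 0) (nat_lit 1308572390) (nat_lit 228) (nat_lit 6237030472) (nat_lit 228) (nat_lit 4791265429) (nat_lit 63) (nat_lit 4) (nat_lit 66) (nat_lit 5) (nat_lit 66) (nat_lit 4) (nat_lit 472) (nat_lit 365) (nat_lit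 363)) (XT.lf (nat_lit 0) (nat_lit 3689020281) (nat_lit 228) (nat_lit 7238631724) (nat_lit 0) (nat_lit 1593705677) (nat_lit 60) (nat_lit 5) (nat_lit 63) (nat_lit 4) (nat_lit 60) (nat_lit 4) (nat_lit 473) (nat_lit 365) (nat_lit 362))))) (XT.nd (nat_lit 234) (nat_lit 912) (nat_lit 0) (XT.nd (nat_lit 78) (nat_lit 684) (nat_lit 0) (XT.lf (nat_lit 0) (nat_lit 9251137621) (nat_lit 228) (nat_lit 3106551055) (nat_lit 228) (nat_lit 353083155) (nat_lit 57) (nat_lit 4) (nat_lit 60) (nat_lit 5) (nat_lit 60) (nat_lit 4) (nat_lit 474) (nat_lit 365) (nat_lit 361)) (XT.nd (nat_lit 78) (nat_lit 228) (nat_lit 0) (XT.lf (nat_lit 0) (nat_lit 297158115) (nat_lit 228) (nat_lit 7966846164) (nat_lit 228) (nat_lit 4640913142) (nat_lit 51) (nat_lit 4) (nat_lit 54) (nat_lit 5) (nat_lit 54) (nat_lit 4) (nat_lit 475) (nat_lit 365) (nat_lit 360)) (XT.lf (nat_lit 0) (nat_lit 3982420519) (nat_lit 228) (nat_lit 8996376033) (nat_lit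 0) (nat_lit 125419090) (nat_lit 48) (nat_lit 5) (nat_lit 51) (nat_lit 4) (nat_lit 48) (nat_lit 4) (nat_lit 476) (nat_lit 365) (nat_lit 359)))) (XT.nd (nat_lit 156) (nat_lit 532) (nat_lit 0) (XT.nd (nat_lit 78) (nat_lit 228) (nat_lit 0) (XT.lf (nat_lit 0) (nat_lit 7889724981) (nat_lit 152) (nat_lit 4927380628) (nat_lit 152) (nat_lit 491463878) (nat_lit 46) (nat_lit 4) (nat_lit 48) (nat_lit 5) (nat_lit 48) (nat_lit 4) (nat_lit 477) (nat_lit 365) (nat_lit 358)) (XT.lf (nat_lit 0) (nat_lit 8273734902) (nat_lit 228) (nat_lit 1870746845) (nat_lit 0) (nat_lit 3373763864) (nat_lit 43) (nat_lit 5) (nat_lit 46) (nat_lit 4) (nat_lit 43) (nat_lit 4) (nat_lit 478) (nat_lit 365) (nat_lit 357))) (XT.nd (nat_lit 78) (nat_lit 152) (nat_lit 0) (XT.lf (nat_lit 0) (nat_lit 1683990126) (nat_lit 152) (nat_lit 1840239926) (nat_lit 228) (nat_lit 10209261077) (nat_lit 38) (nat_lit 5) (nat_lit 40) (nat_lit 5) (nat_lit 41) (nat_lit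 4) (nat_lit 479) (nat_lit 365) (nat_lit 356)) (XT.lf (nat_lit 0) (nat_lit 5225294599) (nat_lit 152) (nat_lit 7283170082) (nat_lit 152) (nat_lit 1445566084) (nat_lit 36) (nat_lit 4) (nat_lit 38) (nat_lit 5) (nat_lit 38) (nat_lit 4) (nat_lit 480) (nat_lit 365) (nat_lit 355))))))))
noncomputable def xc2 : XT := (XT.nd (nat_lit 62712) (nat_lit 0) (nat_lit 76) (XT.nd (nat_lit 61698) (nat_lit 0) (nat_lit 1216) (XT.nd (nat_lit 468) (nat_lit 608) (nat_lit 0) (XT.nd (nat_lit 234) (nat_lit 456) (nat_lit 0) (XT.nd (nat_lit 78) (nat_lit 456) (nat_lit 0) (XT.lf (nat_lit 0) (nat_lit 7470827764) (nat_lit 228) (nat_lit 5446598844) (nat_lit 0) (nat_lit 1262994838) (nat_lit 33) (nat_lit 5) (nat_lit 36) (nat_lit 4) (nat_lit 33) (nat_lit 4) (nat_lit 481) (nat_lit 365) (nat_lit 354)) (XT.nd (nat_lit 78) (nat_lit 228) (nat_lit 0) (XT.lf (nat_lit 0) (nat_lit 2212013869) (nat_lit 228) (nat_lit 2210139425) (nat_lit 76) (nat_lit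 9990584556) (nat_lit 30) (nat_lit 5) (nat_lit 33) (nat_lit 5) (nat_lit 31) (nat_lit 4) (nat_lit 482) (nat_lit 365) (nat_lit 353)) (XT.lf (nat_lit 0) (nat_lit 989145239) (nat_lit 152) (nat_lit 10328605289) (nat_lit 152) (nat_lit 3333236755) (nat_lit 27) (nat_lit 4) (nat_lit 29) (nat_lit 5) (nat_lit 29) (nat_lit 4) (nat_lit 483) (nat_lit 365) (nat_lit 352)))) (XT.nd (nat_lit 78) (nat_lit 304) (nat_lit 0) (XT.lf (nat_lit 0) (nat_lit 4168520840) (nat_lit 76) (nat_lit 1573436437) (nat_lit 152) (nat_lit 9153321805) (nat_lit 25) (nat_lit 5) (nat_lit 26) (nat_lit 5) (nat_lit 27) (nat_lit 4) (nat_lit 484) (nat_lit 365) (nat_lit 351)) (XT.nd (nat_lit 78) (nat_lit 152) (nat_lit 0) (XT.lf (nat_lit 0) (nat_lit 7290655141) (nat_lit 152) (nat_lit 7776900107) (nat_lit 152) (nat_lit 78438110) (nat_lit 23) (nat_lit 4) (nat_lit 25) (nat_lit 5) (nat_lit 25) (nat_lit 4) (nat_lit 485) (nat_lit 365) (nat_lit 350)) (XT.lf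 (nat_lit 0) (nat_lit 9142007568) (nat_lit 152) (nat_lit 5060611870) (nat_lit 0) (nat_lit 1200511439) (nat_lit 21) (nat_lit 5) (nat_lit 23) (nat_lit 4) (nat_lit 21) (nat_lit 4) (nat_lit 486) (nat_lit 365) (nat_lit 349))))) (XT.nd (nat_lit 60996) (nat_lit 0) (nat_lit 4484) (XT.nd (nat_lit 78) (nat_lit 380) (nat_lit 0) (XT.lf (nat_lit 0) (nat_lit 2961501929) (nat_lit 228) (nat_lit 2341771325) (nat_lit 76) (nat_lit 10363707485) (nat_lit 18) (nat_lit 5) (nat_lit 21) (nat_lit 5) (nat_lit 19) (nat_lit 4) (nat_lit 487) (nat_lit 365) (nat_lit 348)) (XT.nd (nat_lit 78) (nat_lit 152) (nat_lit 0) (XT.lf (nat_lit 0) (nat_lit 304146512) (nat_lit 152) (nat_lit 12079248622) (nat_lit 152) (nat_lit 3554372861) (nat_lit 15) (nat_lit 4) (nat_lit 17) (nat_lit 5) (nat_lit 17) (nat_lit 4) (nat_lit 488) (nat_lit 365) (nat_lit 347)) (XT.lf (nat_lit 0) (nat_lit 2890469194) (nat_lit 76) (nat_lit 2935682699) (nat_lit 152) (nat_lit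 10389129360) (nat_lit 13) (nat_lit 5) (nat_lit 14) (nat_lit 5) (nat_lit 15) (nat_lit 4) (nat_lit 489) (nat_lit 365) (nat_lit 346)))) (XT.nd (nat_lit 78) (nat_lit 836) (nat_lit 0) (XT.lf (nat_lit 0) (nat_lit 4562929627) (nat_lit 228) (nat_lit 629380656) (nat_lit 228) (nat_lit 629380656) (nat_lit 83) (nat_lit 4) (nat_lit 86) (nat_lit 5) (nat_lit 86) (nat_lit 4) (nat_lit 468) (nat_lit 366) (nat_lit 366)) (XT.nd (nat_lit 78) (nat_lit 304) (nat_lit 0) (XT.lf (nat_lit 0) (nat_lit 1356872433) (nat_lit 228) (nat_lit 5620229768) (nat_lit 228) (nat_lit 4834132160) (nat_lit 76) (nat_lit 4) (nat_lit 79) (nat_lit 5) (nat_lit 79) (nat_lit 4) (nat_lit 469) (nat_lit 366) (nat_lit 365)) (XT.lf (nat_lit 0) (nat_lit 3404305540) (nat_lit 304) (nat_lit 6694008307) (nat_lit 0) (nat_lit 1885384786) (nat_lit 72) (nat_lit 5) (nat_lit 76) (nat_lit 4) (nat_lit 72) (nat_lit 4) (nat_lit 470) (nat_lit 366) (nat_lit 364)))))) (XT.nd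 (nat_lit 468) (nat_lit 1444) (nat_lit 0) (XT.nd (nat_lit 234) (nat_lit 912) (nat_lit 0) (XT.nd (nat_lit 78) (nat_lit 684) (nat_lit 0) (XT.lf (nat_lit 0) (nat_lit 9227820890) (nat_lit 228) (nat_lit 2589195284) (nat_lit 228) (nat_lit 343831010) (nat_lit 69) (nat_lit 4) (nat_lit 72) (nat_lit 5) (nat_lit 72) (nat_lit 4) (nat_lit 471) (nat_lit 366) (nat_lit 363)) (XT.nd (nat_lit 78) (nat_lit 228) (nat_lit 0) (XT.lf (nat_lit 0) (nat_lit 820907599) (nat_lit 228) (nat_lit 7207112469) (nat_lit 228) (nat_lit 4314319093) (nat_lit 63) (nat_lit 4) (nat_lit 66) (nat_lit 5) (nat_lit 66) (nat_lit 4) (nat_lit 472) (nat_lit 366) (nat_lit 362)) (XT.lf (nat_lit 0) (nat_lit 4062313242) (nat_lit 228) (nat_lit 7898315721) (nat_lit 0) (nat_lit 568088009) (nat_lit 60) (nat_lit 5) (nat_lit 63) (nat_lit 4) (nat_lit 60) (nat_lit 4) (nat_lit 473) (nat_lit 366) (nat_lit 361)))) (XT.nd (nat_lit 78) (nat_lit 684) (nat_lit 0) (XT.lf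 (nat_lit 0) (nat_lit 8427562663) (nat_lit 228) (nat_lit 4212796126) (nat_lit 228) (nat_lit 79587110) (nat_lit 57) (nat_lit 4) (nat_lit 60) (nat_lit 5) (nat_lit 60) (nat_lit 4) (nat_lit 474) (nat_lit 366) (nat_lit 360)) (XT.nd (nat_lit 78) (nat_lit 456) (nat_lit 0) (XT.lf (nat_lit 0) (nat_lit 8433517490) (nat_lit 228) (nat_lit 709405260) (nat_lit 0) (nat_lit 3773143352) (nat_lit 54) (nat_lit 5) (nat_lit 57) (nat_lit 4) (nat_lit 54) (nat_lit 4) (nat_lit 475) (nat_lit 366) (nat_lit 359)) (XT.lf (nat_lit 0) (nat_lit 2911120536) (nat_lit 152) (nat_lit 1129467731) (nat_lit 228) (nat_lit 9076719992) (nat_lit 48) (nat_lit 5) (nat_lit 50) (nat_lit 5) (nat_lit 51) (nat_lit 4) (nat_lit 476) (nat_lit 366) (nat_lit 358))))) (XT.nd (nat_lit 234) (nat_lit 836) (nat_lit 0) (XT.nd (nat_lit 78) (nat_lit 456) (nat_lit 0) (XT.lf (nat_lit 0) (nat_lit 6516881183) (nat_lit 152) (nat_lit 6258373310) (nat_lit 152) (nat_lit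 548410028) (nat_lit 46) (nat_lit 4) (nat_lit 48) (nat_lit 5) (nat_lit 48) (nat_lit 4) (nat_lit 477) (nat_lit 366) (nat_lit 357)) (XT.nd (nat_lit 78) (nat_lit 228) (nat_lit 0) (XT.lf (nat_lit 0) (nat_lit 8115407499) (nat_lit 228) (nat_lit 3437564308) (nat_lit 0) (nat_lit 1982420739) (nat_lit 43) (nat_lit 5) (nat_lit 46) (nat_lit 4) (nat_lit 43) (nat_lit 4) (nat_lit 478) (nat_lit 366) (nat_lit 356)) (XT.lf (nat_lit 0) (nat_lit 3246372173) (nat_lit 228) (nat_lit 94716466) (nat_lit 76) (nat_lit 10411667759) (nat_lit 40) (nat_lit 5) (nat_lit 43) (nat_lit 5) (nat_lit 41) (nat_lit 4) (nat_lit 479) (nat_lit 366) (nat_lit 355)))) (XT.nd (nat_lit 156) (nat_lit 304) (nat_lit 0) (XT.nd (nat_lit 78) (nat_lit 228) (nat_lit 0) (XT.lf (nat_lit 0) (nat_lit 3258452742) (nat_lit 152) (nat_lit 8866645063) (nat_lit 152) (nat_lit 1850310204) (nat_lit 36) (nat_lit 4) (nat_lit 38) (nat_lit 5) (nat_lit 38) (nat_lit 4) (nat_lit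 480) (nat_lit 366) (nat_lit 354)) (XT.lf (nat_lit 0) (nat_lit 6578145832) (nat_lit 152) (nat_lit 389411938) (nat_lit 228) (nat_lit 7236371870) (nat_lit 33) (nat_lit 5) (nat_lit 35) (nat_lit 5) (nat_lit 36) (nat_lit 4) (nat_lit 481) (nat_lit 366) (nat_lit 353))) (XT.nd (nat_lit 78) (nat_lit 76) (nat_lit 0) (XT.lf (nat_lit 0) (nat_lit 1593164076) (nat_lit 228) (nat_lit 4588011208) (nat_lit 76) (nat_lit 8257120400) (nat_lit 30) (nat_lit 5) (nat_lit 33) (nat_lit 5) (nat_lit 31) (nat_lit 4) (nat_lit 482) (nat_lit 366) (nat_lit 352)) (XT.lf (nat_lit 0) (nat_lit 10584260765) (nat_lit 152) (nat_lit 1598322139) (nat_lit 0) (nat_lit 2496256592) (nat_lit 29) (nat_lit 5) (nat_lit 31) (nat_lit 4) (nat_lit 29) (nat_lit 4) (nat_lit 483) (nat_lit 366) (nat_lit 351))))))) (XT.nd (nat_lit 61542) (nat_lit 0) (nat_lit 912) (XT.nd (nat_lit 61074) (nat_lit 0) (nat_lit 4104) (XT.nd (nat_lit 234) (nat_lit 532) (nat_lit 0)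 (XT.nd (nat_lit 78) (nat_lit 304) (nat_lit 0) (XT.lf (nat_lit 0) (nat_lit 1350505818) (nat_lit 76) (nat_lit 3531032977) (nat_lit 152) (nat_lit 10043874099) (nat_lit 25) (nat_lit 5) (nat_lit 26) (nat_lit 5) (nat_lit 27) (nat_lit 4) (nat_lit 484) (nat_lit 366) (nat_lit 350)) (XT.nd (nat_lit 78) (nat_lit 152) (nat_lit 0) (XT.lf (nat_lit 0) (nat_lit 4267556333) (nat_lit 152) (nat_lit 9828001878) (nat_lit 152) (nat_lit 1082801991) (nat_lit 23) (nat_lit 4) (nat_lit 25) (nat_lit 5) (nat_lit 25) (nat_lit 4) (nat_lit 485) (nat_lit 366) (nat_lit 349)) (XT.lf (nat_lit 0) (nat_lit 7112509187) (nat_lit 76) (nat_lit 930989996) (nat_lit 152) (nat_lit 7394276686) (nat_lit 21) (nat_lit 5) (nat_lit 22) (nat_lit 5) (nat_lit 23) (nat_lit 4) (nat_lit 486) (nat_lit 366) (nat_lit 348)))) (XT.nd (nat_lit 78) (nat_lit 304) (nat_lit 0) (XT.lf (nat_lit 0) (nat_lit 1736582983) (nat_lit 228) (nat_lit 5819704901) (nat_lit 76) (nat_lit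 8147618854) (nat_lit 18) (nat_lit 5) (nat_lit 21) (nat_lit 5) (nat_lit 19) (nat_lit 4) (nat_lit 487) (nat_lit 366) (nat_lit 347)) (XT.nd (nat_lit 78) (nat_lit 228) (nat_lit 0) (XT.lf (nat_lit 0) (nat_lit 11040786967) (nat_lit 152) (nat_lit 3393665357) (nat_lit 0) (nat_lit 1542596737) (nat_lit 17) (nat_lit 5) (nat_lit 19) (nat_lit 4) (nat_lit 17) (nat_lit 4) (nat_lit 488) (nat_lit 366) (nat_lit 346)) (XT.lf (nat_lit 0) (nat_lit 4343915923) (nat_lit 228) (nat_lit 1066666346) (nat_lit 76) (nat_lit 10846530125) (nat_lit 14) (nat_lit 5) (nat_lit 17) (nat_lit 5) (nat_lit 15) (nat_lit 4) (nat_lit 489) (nat_lit 366) (nat_lit 345))))) (XT.nd (nat_lit 234) (nat_lit 1140) (nat_lit 0) (XT.nd (nat_lit 78) (nat_lit 532) (nat_lit 0) (XT.lf (nat_lit 0) (nat_lit 616669258) (nat_lit 228) (nat_lit 2521253556) (nat_lit 228) (nat_lit 2521253556) (nat_lit 90) (nat_lit 4) (nat_lit 93) (nat_lit 5) (nat_lit 93) (nat_lit 4)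 (nat_lit 466) (nat_lit 367) (nat_lit 367)) (XT.nd (nat_lit 78) (nat_lit 228) (nat_lit 0) (XT.lf (nat_lit 0) (nat_lit 2961426254) (nat_lit 304) (nat_lit 6382538547) (nat_lit 0) (nat_lit 2135552107) (nat_lit 86) (nat_lit 5) (nat_lit 90) (nat_lit 4) (nat_lit 86) (nat_lit 4) (nat_lit 467) (nat_lit 367) (nat_lit 366)) (XT.lf (nat_lit 0) (nat_lit 8974102653) (nat_lit 228) (nat_lit 2149358261) (nat_lit 228) (nat_lit 521664554) (nat_lit 83) (nat_lit 4) (nat_lit 86) (nat_lit 5) (nat_lit 86) (nat_lit 4) (nat_lit 468) (nat_lit 367) (nat_lit 365)))) (XT.nd (nat_lit 78) (nat_lit 608) (nat_lit 0) (XT.lf (nat_lit 0) (nat_lit 1044729874) (nat_lit 228) (nat_lit 6564520237) (nat_lit 228) (nat_lit 4205540532) (nat_lit 76) (nat_lit 4) (nat_lit 79) (nat_lit 5) (nat_lit 79) (nat_lit 4) (nat_lit 469) (nat_lit 367) (nat_lit 364)) (XT.nd (nat_lit 78) (nat_lit 304) (nat_lit 0) (XT.lf (nat_lit 0) (nat_lit 3929541256) (nat_lit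 304) (nat_lit 7169164372) (nat_lit 0) (nat_lit 890372536) (nat_lit 72) (nat_lit 5) (nat_lit 76) (nat_lit 4) (nat_lit 72) (nat_lit 4) (nat_lit 470) (nat_lit 367) (nat_lit 363)) (XT.lf (nat_lit 0) (nat_lit 84660875) (nat_lit 304) (nat_lit 3573438722) (nat_lit 76) (nat_lit 8509887887) (nat_lit 68) (nat_lit 5) (nat_lit 72) (nat_lit 5) (nat_lit 69) (nat_lit 4) (nat_lit 471) (nat_lit 367) (nat_lit 362)))))) (XT.nd (nat_lit 468) (nat_lit 1520) (nat_lit 0) (XT.nd (nat_lit 234) (nat_lit 760) (nat_lit 0) (XT.nd (nat_lit 78) (nat_lit 532) (nat_lit 0) (XT.lf (nat_lit 0) (nat_lit 7659500) (nat_lit 228) (nat_lit 8343076240) (nat_lit 228) (nat_lit 4000726848) (nat_lit 63) (nat_lit 4) (nat_lit 66) (nat_lit 5) (nat_lit 66) (nat_lit 4) (nat_lit 472) (nat_lit 367) (nat_lit 361)) (XT.nd (nat_lit 78) (nat_lit 304) (nat_lit 0) (XT.lf (nat_lit 0) (nat_lit 3647024503) (nat_lit 152) (nat_lit 630766265) (nat_lit 228) (nat_lit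 8261891269) (nat_lit 60) (nat_lit 5) (nat_lit 62) (nat_lit 5) (nat_lit 63) (nat_lit 4) (nat_lit 473) (nat_lit 367) (nat_lit 360)) (XT.lf (nat_lit 0) (nat_lit 28279813) (nat_lit 304) (nat_lit 5459436449) (nat_lit 76) (nat_lit 7245080831) (nat_lit 56) (nat_lit 5) (nat_lit 60) (nat_lit 5) (nat_lit 57) (nat_lit 4) (nat_lit 474) (nat_lit 367) (nat_lit 359)))) (XT.nd (nat_lit 78) (nat_lit 608) (nat_lit 0) (XT.lf (nat_lit 0) (nat_lit 8441063123) (nat_lit 228) (nat_lit 2047655835) (nat_lit 0) (nat_lit 2442175699) (nat_lit 54) (nat_lit 5) (nat_lit 57) (nat_lit 4) (nat_lit 54) (nat_lit 4) (nat_lit 475) (nat_lit 367) (nat_lit 358)) (XT.nd (nat_lit 78) (nat_lit 152) (nat_lit 0) (XT.lf (nat_lit 0) (nat_lit 1370835483) (nat_lit 152) (nat_lit 2561351492) (nat_lit 228) (nat_lit 9201977104) (nat_lit 48) (nat_lit 5) (nat_lit 50) (nat_lit 5) (nat_lit 51) (nat_lit 4) (nat_lit 476) (nat_lit 367) (nat_lit 357)) (XT.lf (nat_lit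 0) (nat_lit 4798578611) (nat_lit 152) (nat_lit 7766489261) (nat_lit 152) (nat_lit 777490158) (nat_lit 46) (nat_lit 4) (nat_lit 48) (nat_lit 5) (nat_lit 48) (nat_lit 4) (nat_lit 477) (nat_lit 367) (nat_lit 356))))) (XT.nd (nat_lit 234) (nat_lit 760) (nat_lit 0) (XT.nd (nat_lit 78) (nat_lit 532) (nat_lit 0) (XT.lf (nat_lit 0) (nat_lit 7786195908) (nat_lit 228) (nat_lit 5355349993) (nat_lit 0) (nat_lit 414834506) (nat_lit 43) (nat_lit 5) (nat_lit 46) (nat_lit 4) (nat_lit 43) (nat_lit 4) (nat_lit 478) (nat_lit 367) (nat_lit 355)) (XT.nd (nat_lit 78) (nat_lit 304) (nat_lit 0) (XT.lf (nat_lit 0) (nat_lit 2807118420) (nat_lit 228) (nat_lit 2205255491) (nat_lit 76) (nat_lit 8763290563) (nat_lit 40) (nat_lit 5) (nat_lit 43) (nat_lit 5) (nat_lit 41) (nat_lit 4) (nat_lit 479) (nat_lit 367) (nat_lit 354)) (XT.lf (nat_lit 0) (nat_lit 929946441) (nat_lit 152) (nat_lit 10635983087) (nat_lit 152) (nat_lit 2434786590)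 (nat_lit 36) (nat_lit 4) (nat_lit 38) (nat_lit 5) (nat_lit 38) (nat_lit 4) (nat_lit 480) (nat_lit 367) (nat_lit 353)))) (XT.nd (nat_lit 156) (nat_lit 304) (nat_lit 0) (XT.nd (nat_lit 78) (nat_lit 228) (nat_lit 0) (XT.lf (nat_lit 0) (nat_lit 4049154509) (nat_lit 152) (nat_lit 2246071647) (nat_lit 228) (nat_lit 7935999565) (nat_lit 33) (nat_lit 5) (nat_lit 35) (nat_lit 5) (nat_lit 36) (nat_lit 4) (nat_lit 481) (nat_lit 367) (nat_lit 352)) (XT.lf (nat_lit 0) (nat_lit 794096959) (nat_lit 228) (nat_lit 7336742939) (nat_lit 76) (nat_lit 6337016599) (nat_lit 30) (nat_lit 5) (nat_lit 33) (nat_lit 5) (nat_lit 31) (nat_lit 4) (nat_lit 482) (nat_lit 367) (nat_lit 351))) (XT.nd (nat_lit 78) (nat_lit 228) (nat_lit 0) (XT.lf (nat_lit 0) (nat_lit 9675642728) (nat_lit 152) (nat_lit 4547014407) (nat_lit 0) (nat_lit 487935726) (nat_lit 29) (nat_lit 5) (nat_lit 31) (nat_lit 4) (nat_lit 29) (nat_lit 4) (nat_lit 483) (nat_lit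 367) (nat_lit 350)) (XT.lf (nat_lit 0) (nat_lit 3847359435) (nat_lit 228) (nat_lit 1825942278) (nat_lit 76) (nat_lit 9286110939) (nat_lit 26) (nat_lit 5) (nat_lit 29) (nat_lit 5) (nat_lit 27) (nat_lit 4) (nat_lit 484) (nat_lit 367) (nat_lit 349))))))))
noncomputable def xc3 : XT := (XT.nd (nat_lit 62400) (nat_lit 0) (nat_lit 0) (XT.nd (nat_lit 61386) (nat_lit 0) (nat_lit 1140) (XT.nd (nat_lit 60918) (nat_lit 0) (nat_lit 4408) (XT.nd (nat_lit 234) (nat_lit 304) (nat_lit 0) (XT.nd (nat_lit 78) (nat_lit 380) (nat_lit 0) (XT.lf (nat_lit 0) (nat_lit 858175868) (nat_lit 152) (nat_lit 12078133061) (nat_lit 152) (nat_lit 2278553846) (nat_lit 23) (nat_lit 4) (nat_lit 25) (nat_lit 5) (nat_lit 25) (nat_lit 4) (nat_lit 485) (nat_lit 367) (nat_lit 348)) (XT.nd (nat_lit 78) (nat_lit 228) (nat_lit 0) (XT.lf (nat_lit 0) (nat_lit 3484424830) (nat_lit 76) (nat_lit 3279337278) (nat_lit 152) (nat_lit 8712666310) (nat_lit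 21) (nat_lit 5) (nat_lit 22) (nat_lit 5) (nat_lit 23) (nat_lit 4) (nat_lit 486) (nat_lit 367) (nat_lit 347)) (XT.lf (nat_lit 0) (nat_lit 319291848) (nat_lit 228) (nat_lit 9694380630) (nat_lit 76) (nat_lit 5731383139) (nat_lit 18) (nat_lit 5) (nat_lit 21) (nat_lit 5) (nat_lit 19) (nat_lit 4) (nat_lit 487) (nat_lit 367) (nat_lit 346)))) (XT.nd (nat_lit 78) (nat_lit 228) (nat_lit 0) (XT.lf (nat_lit 0) (nat_lit 8525862661) (nat_lit 76) (nat_lit 986643691) (nat_lit 152) (nat_lit 6507912624) (nat_lit 17) (nat_lit 5) (nat_lit 18) (nat_lit 5) (nat_lit 19) (nat_lit 4) (nat_lit 488) (nat_lit 367) (nat_lit 345)) (XT.nd (nat_lit 60528) (nat_lit 0) (nat_lit 6612) (XT.lf (nat_lit 0) (nat_lit 2684334085) (nat_lit 228) (nat_lit 5390639801) (nat_lit 76) (nat_lit 8227884569) (nat_lit 14) (nat_lit 5) (nat_lit 17) (nat_lit 5) (nat_lit 15) (nat_lit 4) (nat_lit 489) (nat_lit 367) (nat_lit 344)) (XT.lf (nat_lit 0) (nat_lit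 1201518692) (nat_lit 304) (nat_lit 3100370966) (nat_lit 0) (nat_lit 1201518692) (nat_lit 101) (nat_lit 5) (nat_lit 105) (nat_lit 4) (nat_lit 101) (nat_lit 4) (nat_lit 464) (nat_lit 368) (nat_lit 368))))) (XT.nd (nat_lit 234) (nat_lit 1064) (nat_lit 0) (XT.nd (nat_lit 78) (nat_lit 836) (nat_lit 0) (XT.lf (nat_lit 0) (nat_lit 8596586510) (nat_lit 304) (nat_lit 1724981638) (nat_lit 304) (nat_lit 839964992) (nat_lit 97) (nat_lit 4) (nat_lit 101) (nat_lit 5) (nat_lit 101) (nat_lit 4) (nat_lit 465) (nat_lit 368) (nat_lit 367)) (XT.nd (nat_lit 78) (nat_lit 304) (nat_lit 0) (XT.lf (nat_lit 0) (nat_lit 1083593889) (nat_lit 228) (nat_lit 5973274864) (nat_lit 228) (nat_lit 4263219855) (nat_lit 90) (nat_lit 4) (nat_lit 93) (nat_lit 5) (nat_lit 93) (nat_lit 4) (nat_lit 466) (nat_lit 368) (nat_lit 366)) (XT.lf (nat_lit 0) (nat_lit 3637398181) (nat_lit 304) (nat_lit 6686564106) (nat_lit 0) (nat_lit 1159054102) (nat_lit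 86) (nat_lit 5) (nat_lit 90) (nat_lit 4) (nat_lit 86) (nat_lit 4) (nat_lit 467) (nat_lit 368) (nat_lit 365)))) (XT.nd (nat_lit 78) (nat_lit 760) (nat_lit 0) (XT.lf (nat_lit 0) (nat_lit 61755383) (nat_lit 304) (nat_lit 3132063795) (nat_lit 76) (nat_lit 8456530454) (nat_lit 82) (nat_lit 5) (nat_lit 86) (nat_lit 5) (nat_lit 83) (nat_lit 4) (nat_lit 468) (nat_lit 368) (nat_lit 364)) (XT.nd (nat_lit 78) (nat_lit 304) (nat_lit 0) (XT.lf (nat_lit 0) (nat_lit 420172009) (nat_lit 228) (nat_lit 7667828675) (nat_lit 228) (nat_lit 3733905628) (nat_lit 76) (nat_lit 4) (nat_lit 79) (nat_lit 5) (nat_lit 79) (nat_lit 4) (nat_lit 469) (nat_lit 368) (nat_lit 363)) (XT.lf (nat_lit 0) (nat_lit 4034733379) (nat_lit 228) (nat_lit 266280034) (nat_lit 304) (nat_lit 7697001283) (nat_lit 72) (nat_lit 5) (nat_lit 75) (nat_lit 5) (nat_lit 76) (nat_lit 4) (nat_lit 470) (nat_lit 368) (nat_lit 362)))))) (XT.nd (nat_lit 468) (nat_lit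 1596) (nat_lit 0) (XT.nd (nat_lit 234) (nat_lit 760) (nat_lit 0) (XT.nd (nat_lit 78) (nat_lit 608) (nat_lit 0) (XT.lf (nat_lit 0) (nat_lit 352047096) (nat_lit 304) (nat_lit 4535679824) (nat_lit 76) (nat_lit 7290960350) (nat_lit 68) (nat_lit 5) (nat_lit 72) (nat_lit 5) (nat_lit 69) (nat_lit 4) (nat_lit 471) (nat_lit 368) (nat_lit 361)) (XT.nd (nat_lit 78) (nat_lit 456) (nat_lit 0) (XT.lf (nat_lit 0) (nat_lit 8521380796) (nat_lit 228) (nat_lit 1117037669) (nat_lit 0) (nat_lit 2725681102) (nat_lit 66) (nat_lit 5) (nat_lit 69) (nat_lit 4) (nat_lit 66) (nat_lit 4) (nat_lit 472) (nat_lit 368) (nat_lit 360)) (XT.lf (nat_lit 0) (nat_lit 2330991216) (nat_lit 152) (nat_lit 2005380549) (nat_lit 228) (nat_lit 8217876082) (nat_lit 60) (nat_lit 5) (nat_lit 62) (nat_lit 5) (nat_lit 63) (nat_lit 4) (nat_lit 473) (nat_lit 368) (nat_lit 359)))) (XT.nd (nat_lit 78) (nat_lit 532) (nat_lit 0) (XT.lf (nat_lit 0) (nat_lit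 5788092524) (nat_lit 228) (nat_lit 6932994957) (nat_lit 228) (nat_lit 28260329) (nat_lit 57) (nat_lit 4) (nat_lit 60) (nat_lit 5) (nat_lit 60) (nat_lit 4) (nat_lit 474) (nat_lit 368) (nat_lit 358)) (XT.nd (nat_lit 78) (nat_lit 304) (nat_lit 0) (XT.lf (nat_lit 0) (nat_lit 8284718426) (nat_lit 228) (nat_lit 3722660237) (nat_lit 0) (nat_lit 942075968) (nat_lit 54) (nat_lit 5) (nat_lit 57) (nat_lit 4) (nat_lit 54) (nat_lit 4) (nat_lit 475) (nat_lit 368) (nat_lit 357)) (XT.lf (nat_lit 0) (nat_lit 3659630911) (nat_lit 304) (nat_lit 506784894) (nat_lit 76) (nat_lit 8988331848) (nat_lit 50) (nat_lit 5) (nat_lit 54) (nat_lit 5) (nat_lit 51) (nat_lit 4) (nat_lit 476) (nat_lit 368) (nat_lit 356))))) (XT.nd (nat_lit 234) (nat_lit 836) (nat_lit 0) (XT.nd (nat_lit 78) (nat_lit 456) (nat_lit 0) (XT.lf (nat_lit 0) (nat_lit 2733315836) (nat_lit 152) (nat_lit 9453046252) (nat_lit 152) (nat_lit 1178904435) (nat_lit 46)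 (nat_lit 4) (nat_lit 48) (nat_lit 5) (nat_lit 48) (nat_lit 4) (nat_lit 477) (nat_lit 368) (nat_lit 355)) (XT.nd (nat_lit 78) (nat_lit 228) (nat_lit 0) (XT.lf (nat_lit 0) (nat_lit 5946520451) (nat_lit 152) (nat_lit 1348044415) (nat_lit 228) (nat_lit 6286487618) (nat_lit 43) (nat_lit 5) (nat_lit 45) (nat_lit 5) (nat_lit 46) (nat_lit 4) (nat_lit 478) (nat_lit 368) (nat_lit 354)) (XT.lf (nat_lit 0) (nat_lit 2195151397) (nat_lit 228) (nat_lit 4671556943) (nat_lit 76) (nat_lit 6935745705) (nat_lit 40) (nat_lit 5) (nat_lit 43) (nat_lit 5) (nat_lit 41) (nat_lit 4) (nat_lit 479) (nat_lit 368) (nat_lit 353)))) (XT.nd (nat_lit 156) (nat_lit 304) (nat_lit 0) (XT.nd (nat_lit 78) (nat_lit 380) (nat_lit 0) (XT.lf (nat_lit 0) (nat_lit 10841913012) (nat_lit 228) (nat_lit 1739146578) (nat_lit 0) (nat_lit 1448688782) (nat_lit 38) (nat_lit 5) (nat_lit 41) (nat_lit 4) (nat_lit 38) (nat_lit 4) (nat_lit 480) (nat_lit 368)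 (nat_lit 352)) (XT.lf (nat_lit 0) (nat_lit 1153114194) (nat_lit 152) (nat_lit 4291822078) (nat_lit 228) (nat_lit 8817563450) (nat_lit 33) (nat_lit 5) (nat_lit 35) (nat_lit 5) (nat_lit 36) (nat_lit 4) (nat_lit 481) (nat_lit 368) (nat_lit 351))) (XT.nd (nat_lit 78) (nat_lit 152) (nat_lit 0) (XT.lf (nat_lit 0) (nat_lit 4041462307) (nat_lit 152) (nat_lit 10271603336) (nat_lit 152) (nat_lit 188356016) (nat_lit 31) (nat_lit 4) (nat_lit 33) (nat_lit 5) (nat_lit 33) (nat_lit 4) (nat_lit 482) (nat_lit 368) (nat_lit 350)) (XT.lf (nat_lit 0) (nat_lit 6862442575) (nat_lit 76) (nat_lit 1733492700) (nat_lit 152) (nat_lit 6150243192) (nat_lit 29) (nat_lit 5) (nat_lit 30) (nat_lit 5) (nat_lit 31) (nat_lit 4) (nat_lit 483) (nat_lit 368) (nat_lit 349))))))) (XT.nd (nat_lit 61308) (nat_lit 0) (nat_lit 1596) (XT.nd (nat_lit 60762) (nat_lit 0) (nat_lit 5168) (XT.nd (nat_lit 234) (nat_lit 608) (nat_lit 0) (XT.nd (nat_lit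 78) (nat_lit 304) (nat_lit 0) (XT.lf (nat_lit 0) (nat_lit 2637763540) (nat_lit 228) (nat_lit 5365118033) (nat_lit 76) (nat_lit 6994441528) (nat_lit 26) (nat_lit 5) (nat_lit 29) (nat_lit 5) (nat_lit 27) (nat_lit 4) (nat_lit 484) (nat_lit 368) (nat_lit 348)) (XT.nd (nat_lit 78) (nat_lit 228) (nat_lit 0) (XT.lf (nat_lit 0) (nat_lit 11607885916) (nat_lit 152) (nat_lit 2901900592) (nat_lit 0) (nat_lit 745364634) (nat_lit 25) (nat_lit 5) (nat_lit 27) (nat_lit 4) (nat_lit 25) (nat_lit 4) (nat_lit 485) (nat_lit 368) (nat_lit 347)) (XT.lf (nat_lit 0) (nat_lit 5297265599) (nat_lit 228) (nat_lit 529807309) (nat_lit 76) (nat_lit 9692137640) (nat_lit 22) (nat_lit 5) (nat_lit 25) (nat_lit 5) (nat_lit 23) (nat_lit 4) (nat_lit 486) (nat_lit 368) (nat_lit 346)))) (XT.nd (nat_lit 78) (nat_lit 380) (nat_lit 0) (XT.lf (nat_lit 0) (nat_lit 1812611796) (nat_lit 152) (nat_lit 12668906884) (nat_lit 152) (nat_lit 1308774700)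 (nat_lit 19) (nat_lit 4) (nat_lit 21) (nat_lit 5) (nat_lit 21) (nat_lit 4) (nat_lit 487) (nat_lit 368) (nat_lit 345)) (XT.nd (nat_lit 78) (nat_lit 228) (nat_lit 0) (XT.lf (nat_lit 0) (nat_lit 4056672018) (nat_lit 76) (nat_lit 3743654010) (nat_lit 152) (nat_lit 8267527443) (nat_lit 17) (nat_lit 5) (nat_lit 18) (nat_lit 5) (nat_lit 19) (nat_lit 4) (nat_lit 488) (nat_lit 368) (nat_lit 344)) (XT.lf (nat_lit 0) (nat_lit 827189415) (nat_lit 228) (nat_lit 10123138425) (nat_lit 76) (nat_lit 5402606904) (nat_lit 14) (nat_lit 5) (nat_lit 17) (nat_lit 5) (nat_lit 15) (nat_lit 4) (nat_lit 489) (nat_lit 368) (nat_lit 343))))) (XT.nd (nat_lit 234) (nat_lit 1444) (nat_lit 0) (XT.nd (nat_lit 78) (nat_lit 912) (nat_lit 0) (XT.lf (nat_lit 0) (nat_lit 4093028760) (nat_lit 304) (nat_lit 630548152) (nat_lit 304) (nat_lit 630548152) (nat_lit 113) (nat_lit 4) (nat_lit 117) (nat_lit 5) (nat_lit 117) (nat_lit 4) (nat_lit 462)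 (nat_lit 369) (nat_lit 369)) (XT.nd (nat_lit 78) (nat_lit 304) (nat_lit 0) (XT.lf (nat_lit 0) (nat_lit 1035295412) (nat_lit 304) (nat_lit 5375409521) (nat_lit 304) (nat_lit 4445611032) (nat_lit 105) (nat_lit 4) (nat_lit 109) (nat_lit 5) (nat_lit 109) (nat_lit 4) (nat_lit 463) (nat_lit 369) (nat_lit 368)) (XT.lf (nat_lit 0) (nat_lit 3229288923) (nat_lit 304) (nat_lit 6346532178) (nat_lit 0) (nat_lit 1432705131) (nat_lit 101) (nat_lit 5) (nat_lit 105) (nat_lit 4) (nat_lit 101) (nat_lit 4) (nat_lit 464) (nat_lit 369) (nat_lit 367)))) (XT.nd (nat_lit 156) (nat_lit 608) (nat_lit 0) (XT.nd (nat_lit 78) (nat_lit 532) (nat_lit 0) (XT.lf (nat_lit 0) (nat_lit 8305433819) (nat_lit 304) (nat_lit 2757664823) (nat_lit 304) (nat_lit 101841568) (nat_lit 97) (nat_lit 4) (nat_lit 101) (nat_lit 5) (nat_lit 101) (nat_lit 4) (nat_lit 465) (nat_lit 369) (nat_lit 366)) (XT.lf (nat_lit 0) (nat_lit 634229162) (nat_lit 228)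 (nat_lit 7056336399) (nat_lit 228) (nat_lit 3634732159) (nat_lit 90) (nat_lit 4) (nat_lit 93) (nat_lit 5) (nat_lit 93) (nat_lit 4) (nat_lit 466) (nat_lit 369) (nat_lit 365))) (XT.nd (nat_lit 78) (nat_lit 304) (nat_lit 0) (XT.lf (nat_lit 0) (nat_lit 4164058543) (nat_lit 304) (nat_lit 7294880878) (nat_lit 0) (nat_lit 31078989) (nat_lit 86) (nat_lit 5) (nat_lit 90) (nat_lit 4) (nat_lit 86) (nat_lit 4) (nat_lit 467) (nat_lit 369) (nat_lit 364)) (XT.lf (nat_lit 0) (nat_lit 487986015) (nat_lit 304) (nat_lit 3903039639) (nat_lit 76) (nat_lit 7267993457) (nat_lit 82) (nat_lit 5) (nat_lit 86) (nat_lit 5) (nat_lit 83) (nat_lit 4) (nat_lit 468) (nat_lit 369) (nat_lit 363)))))) (XT.nd (nat_lit 468) (nat_lit 1672) (nat_lit 0) (XT.nd (nat_lit 234) (nat_lit 836) (nat_lit 0) (XT.nd (nat_lit 78) (nat_lit 836) (nat_lit 0) (XT.lf (nat_lit 0) (nat_lit 8417131205) (nat_lit 304) (nat_lit 510561794) (nat_lit 0) (nat_lit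 2904827408) (nat_lit 79) (nat_lit 5) (nat_lit 83) (nat_lit 4) (nat_lit 79) (nat_lit 4) (nat_lit 469) (nat_lit 369) (nat_lit 362)) (XT.nd (nat_lit 78) (nat_lit 304) (nat_lit 0) (XT.lf (nat_lit 0) (nat_lit 2928185103) (nat_lit 228) (nat_lit 1596035908) (nat_lit 304) (nat_lit 7486191535) (nat_lit 72) (nat_lit 5) (nat_lit 75) (nat_lit 5) (nat_lit 76) (nat_lit 4) (nat_lit 470) (nat_lit 369) (nat_lit 361)) (XT.lf (nat_lit 0) (nat_lit 463070698) (nat_lit 304) (nat_lit 5818358016) (nat_lit 76) (nat_lit 5911571828) (nat_lit 68) (nat_lit 5) (nat_lit 72) (nat_lit 5) (nat_lit 69) (nat_lit 4) (nat_lit 471) (nat_lit 369) (nat_lit 360)))) (XT.nd (nat_lit 78) (nat_lit 684) (nat_lit 0) (XT.lf (nat_lit 0) (nat_lit 8534923700) (nat_lit 228) (nat_lit 2564631550) (nat_lit 0) (nat_lit 1280809500) (nat_lit 66) (nat_lit 5) (nat_lit 69) (nat_lit 4) (nat_lit 66) (nat_lit 4) (nat_lit 472) (nat_lit 369) (nat_lit 359)) (XT.nd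 (nat_lit 78) (nat_lit 228) (nat_lit 0) (XT.lf (nat_lit 0) (nat_lit 684963627) (nat_lit 152) (nat_lit 3549406370) (nat_lit 228) (nat_lit 8338131878) (nat_lit 60) (nat_lit 5) (nat_lit 62) (nat_lit 5) (nat_lit 63) (nat_lit 4) (nat_lit 473) (nat_lit 369) (nat_lit 358)) (XT.lf (nat_lit 0) (nat_lit 3969891011) (nat_lit 228) (nat_lit 8549325590) (nat_lit 228) (nat_lit 250384745) (nat_lit 57) (nat_lit 4) (nat_lit 60) (nat_lit 5) (nat_lit 60) (nat_lit 4) (nat_lit 474) (nat_lit 369) (nat_lit 357))))) (XT.nd (nat_lit 234) (nat_lit 836) (nat_lit 0) (XT.nd (nat_lit 78) (nat_lit 608) (nat_lit 0) (XT.lf (nat_lit 0) (nat_lit 7230991784) (nat_lit 152) (nat_lit 738147544) (nat_lit 228) (nat_lit 5002527062) (nat_lit 54) (nat_lit 5) (nat_lit 56) (nat_lit 5) (nat_lit 57) (nat_lit 4) (nat_lit 475) (nat_lit 369) (nat_lit 356)) (XT.nd (nat_lit 78) (nat_lit 304) (nat_lit 0) (XT.lf (nat_lit 0) (nat_lit 3230489888) (nat_lit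 304) (nat_lit 2707609136) (nat_lit 76) (nat_lit 7240821783) (nat_lit 50) (nat_lit 5) (nat_lit 54) (nat_lit 5) (nat_lit 51) (nat_lit 4) (nat_lit 476) (nat_lit 369) (nat_lit 355)) (XT.lf (nat_lit 0) (nat_lit 319288260) (nat_lit 152) (nat_lit 11319517972) (nat_lit 152) (nat_lit 1753003610) (nat_lit 46) (nat_lit 4) (nat_lit 48) (nat_lit 5) (nat_lit 48) (nat_lit 4) (nat_lit 477) (nat_lit 369) (nat_lit 354)))) (XT.nd (nat_lit 156) (nat_lit 380) (nat_lit 0) (XT.nd (nat_lit 78) (nat_lit 228) (nat_lit 0) (XT.lf (nat_lit 0) (nat_lit 3337277770) (nat_lit 152) (nat_lit 3297954691) (nat_lit 228) (nat_lit 6974294922) (nat_lit 43) (nat_lit 5) (nat_lit 45) (nat_lit 5) (nat_lit 46) (nat_lit 4) (nat_lit 478) (nat_lit 369) (nat_lit 353)) (XT.lf (nat_lit 0) (nat_lit 1409936377) (nat_lit 228) (nat_lit 7495775842) (nat_lit 76) (nat_lit 4927436301) (nat_lit 40) (nat_lit 5) (nat_lit 43) (nat_lit 5) (nat_lit 41) (nat_lit 4)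 (nat_lit 479) (nat_lit 369) (nat_lit 352))) (XT.nd (nat_lit 78) (nat_lit 228) (nat_lit 0) (XT.lf (nat_lit 0) (nat_lit 9300974933) (nat_lit 152) (nat_lit 652640789) (nat_lit 228) (nat_lit 4108890414) (nat_lit 38) (nat_lit 5) (nat_lit 40) (nat_lit 5) (nat_lit 41) (nat_lit 4) (nat_lit 480) (nat_lit 369) (nat_lit 351)) (XT.lf (nat_lit 0) (nat_lit 4429660931) (nat_lit 228) (nat_lit 2084799742) (nat_lit 76) (nat_lit 7783043980) (nat_lit 35) (nat_lit 5) (nat_lit 38) (nat_lit 5) (nat_lit 36) (nat_lit 4) (nat_lit 481) (nat_lit 369) (nat_lit 350))))))))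
noncomputable def xc4 : XT := (XT.nd (nat_lit 62088) (nat_lit 0) (nat_lit 152) (XT.nd (nat_lit 61074) (nat_lit 0) (nat_lit 2660) (XT.nd (nat_lit 468) (nat_lit 456) (nat_lit 0) (XT.nd (nat_lit 234) (nat_lit 380) (nat_lit 0) (XT.nd (nat_lit 78) (nat_lit 380) (nat_lit 0) (XT.lf (nat_lit 0) (nat_lit 573330914) (nat_lit 152) (nat_lit 12600036054) (nat_lit 152) (nat_lit 1365549609) (nat_lit 31) (nat_lit 4) (nat_lit 33) (nat_lit 5) (nat_lit 33) (nat_lit 4) (nat_lit 482) (nat_lit 369) (nat_lit 349)) (XT.nd (nat_lit 78) (nat_lit 228) (nat_lit 0) (XT.lf (nat_lit 0) (nat_lit 3181150649) (nat_lit 76) (nat_lit 4156254699) (nat_lit 152) (nat_lit 7448357853) (nat_lit 29) (nat_lit 5) (nat_lit 30) (nat_lit 5) (nat_lit 31) (nat_lit 4) (nat_lit 483) (nat_lit 369) (nat_lit 348)) (XT.lf (nat_lit 0) (nat_lit 1242925805) (nat_lit 228) (nat_lit 9287826054) (nat_lit 76) (nat_lit 4508600878) (nat_lit 26) (nat_lit 5) (nat_lit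 29) (nat_lit 5) (nat_lit 27) (nat_lit 4) (nat_lit 484) (nat_lit 369) (nat_lit 347)))) (XT.nd (nat_lit 78) (nat_lit 304) (nat_lit 0) (XT.lf (nat_lit 0) (nat_lit 8249001176) (nat_lit 76) (nat_lit 1861224143) (nat_lit 152) (nat_lit 5189013253) (nat_lit 25) (nat_lit 5) (nat_lit 26) (nat_lit 5) (nat_lit 27) (nat_lit 4) (nat_lit 485) (nat_lit 369) (nat_lit 346)) (XT.nd (nat_lit 78) (nat_lit 76) (nat_lit 0) (XT.lf (nat_lit 0) (nat_lit 3664438482) (nat_lit 228) (nat_lit 4889840144) (nat_lit 76) (nat_lit 7011446811) (nat_lit 22) (nat_lit 5) (nat_lit 25) (nat_lit 5) (nat_lit 23) (nat_lit 4) (nat_lit 486) (nat_lit 369) (nat_lit 345)) (XT.lf (nat_lit 0) (nat_lit 12719431929) (nat_lit 152) (nat_lit 2791371374) (nat_lit 0) (nat_lit 328591395) (nat_lit 21) (nat_lit 5) (nat_lit 23) (nat_lit 4) (nat_lit 21) (nat_lit 4) (nat_lit 487) (nat_lit 369) (nat_lit 344))))) (XT.nd (nat_lit 60372) (nat_lit 0) (nat_lit 6840) (XT.nd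 (nat_lit 78) (nat_lit 228) (nat_lit 0) (XT.lf (nat_lit 0) (nat_lit 5897910575) (nat_lit 228) (nat_lit 807016874) (nat_lit 76) (nat_lit 9414563331) (nat_lit 18) (nat_lit 5) (nat_lit 21) (nat_lit 5) (nat_lit 19) (nat_lit 4) (nat_lit 488) (nat_lit 369) (nat_lit 343)) (XT.nd (nat_lit 60216) (nat_lit 0) (nat_lit 8132) (XT.lf (nat_lit 0) (nat_lit 1130839426) (nat_lit 152) (nat_lit 14030908393) (nat_lit 152) (nat_lit 1245475469) (nat_lit 15) (nat_lit 4) (nat_lit 17) (nat_lit 5) (nat_lit 17) (nat_lit 4) (nat_lit 489) (nat_lit 369) (nat_lit 342)) (XT.lf (nat_lit 0) (nat_lit 491739321) (nat_lit 304) (nat_lit 2359578266) (nat_lit 304) (nat_lit 2359578266) (nat_lit 122) (nat_lit 4) (nat_lit 126) (nat_lit 5) (nat_lit 126) (nat_lit 4) (nat_lit 460) (nat_lit 370) (nat_lit 370)))) (XT.nd (nat_lit 78) (nat_lit 912) (nat_lit 0) (XT.lf (nat_lit 0) (nat_lit 2740210918) (nat_lit 380) (nat_lit 6060272250) (nat_lit 0) (nat_lit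 1763364626) (nat_lit 117) (nat_lit 5) (nat_lit 122) (nat_lit 4) (nat_lit 117) (nat_lit 4) (nat_lit 461) (nat_lit 370) (nat_lit 369)) (XT.nd (nat_lit 78) (nat_lit 608) (nat_lit 0) (XT.lf (nat_lit 0) (nat_lit 8046568028) (nat_lit 304) (nat_lit 2294294525) (nat_lit 304) (nat_lit 369053774) (nat_lit 113) (nat_lit 4) (nat_lit 117) (nat_lit 5) (nat_lit 117) (nat_lit 4) (nat_lit 462) (nat_lit 370) (nat_lit 368)) (XT.lf (nat_lit 0) (nat_lit 748129917) (nat_lit 304) (nat_lit 6450894042) (nat_lit 304) (nat_lit 3660686131) (nat_lit 105) (nat_lit 4) (nat_lit 109) (nat_lit 5) (nat_lit 109) (nat_lit 4) (nat_lit 463) (nat_lit 370) (nat_lit 367)))))) (XT.nd (nat_lit 468) (nat_lit 2204) (nat_lit 0) (XT.nd (nat_lit 234) (nat_lit 1064) (nat_lit 0) (XT.nd (nat_lit 78) (nat_lit 608) (nat_lit 0) (XT.lf (nat_lit 0) (nat_lit 3912181711) (nat_lit 304) (nat_lit 6784030300) (nat_lit 0) (nat_lit 317444296) (nat_lit 101) (nat_lit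 5) (nat_lit 105) (nat_lit 4) (nat_lit 101) (nat_lit 4) (nat_lit 464) (nat_lit 370) (nat_lit 366)) (XT.nd (nat_lit 78) (nat_lit 228) (nat_lit 0) (XT.lf (nat_lit 0) (nat_lit 483606716) (nat_lit 380) (nat_lit 3452064917) (nat_lit 76) (nat_lit 7236022060) (nat_lit 96) (nat_lit 5) (nat_lit 101) (nat_lit 5) (nat_lit 97) (nat_lit 4) (nat_lit 465) (nat_lit 370) (nat_lit 365)) (XT.lf (nat_lit 0) (nat_lit 8178237390) (nat_lit 304) (nat_lit 113638122) (nat_lit 0) (nat_lit 3042094167) (nat_lit 93) (nat_lit 5) (nat_lit 97) (nat_lit 4) (nat_lit 93) (nat_lit 4) (nat_lit 466) (nat_lit 370) (nat_lit 364)))) (XT.nd (nat_lit 78) (nat_lit 532) (nat_lit 0) (XT.lf (nat_lit 0) (nat_lit 3284124833) (nat_lit 228) (nat_lit 1265962161) (nat_lit 304) (nat_lit 6950277706) (nat_lit 86) (nat_lit 5) (nat_lit 89) (nat_lit 5) (nat_lit 90) (nat_lit 4) (nat_lit 467) (nat_lit 370) (nat_lit 363)) (XT.nd (nat_lit 78) (nat_lit 228) (nat_lit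 0) (XT.lf (nat_lit 0) (nat_lit 764241498) (nat_lit 304) (nat_lit 4981237024) (nat_lit 76) (nat_lit 5925730699) (nat_lit 82) (nat_lit 5) (nat_lit 86) (nat_lit 5) (nat_lit 83) (nat_lit 4) (nat_lit 468) (nat_lit 370) (nat_lit 362)) (XT.lf (nat_lit 0) (nat_lit 8598332675) (nat_lit 304) (nat_lit 1745449909) (nat_lit 0) (nat_lit 1502831551) (nat_lit 79) (nat_lit 5) (nat_lit 83) (nat_lit 4) (nat_lit 79) (nat_lit 4) (nat_lit 469) (nat_lit 370) (nat_lit 361))))) (XT.nd (nat_lit 234) (nat_lit 1216) (nat_lit 0) (XT.nd (nat_lit 78) (nat_lit 456) (nat_lit 0) (XT.lf (nat_lit 0) (nat_lit 1505276947) (nat_lit 228) (nat_lit 3088224425) (nat_lit 304) (nat_lit 7432898332) (nat_lit 72) (nat_lit 5) (nat_lit 75) (nat_lit 5) (nat_lit 76) (nat_lit 4) (nat_lit 470) (nat_lit 370) (nat_lit 360)) (XT.nd (nat_lit 78) (nat_lit 152) (nat_lit 0) (XT.lf (nat_lit 0) (nat_lit 417828689) (nat_lit 304) (nat_lit 7422594082) (nat_lit 76)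 (nat_lit 4370517031) (nat_lit 68) (nat_lit 5) (nat_lit 72) (nat_lit 5) (nat_lit 69) (nat_lit 4) (nat_lit 471) (nat_lit 370) (nat_lit 359)) (XT.lf (nat_lit 0) (nat_lit 8061587891) (nat_lit 152) (nat_lit 331893538) (nat_lit 228) (nat_lit 4006748820) (nat_lit 66) (nat_lit 5) (nat_lit 68) (nat_lit 5) (nat_lit 69) (nat_lit 4) (nat_lit 472) (nat_lit 370) (nat_lit 358)))) (XT.nd (nat_lit 156) (nat_lit 532) (nat_lit 0) (XT.nd (nat_lit 78) (nat_lit 380) (nat_lit 0) (XT.lf (nat_lit 0) (nat_lit 3980088084) (nat_lit 304) (nat_lit 1275545213) (nat_lit 76) (nat_lit 7338658942) (nat_lit 62) (nat_lit 5) (nat_lit 66) (nat_lit 5) (nat_lit 63) (nat_lit 4) (nat_lit 473) (nat_lit 370) (nat_lit 357)) (XT.lf (nat_lit 0) (nat_lit 1817357157) (nat_lit 228) (nat_lit 10338310263) (nat_lit 228) (nat_lit 637911698) (nat_lit 57) (nat_lit 4) (nat_lit 60) (nat_lit 5) (nat_lit 60) (nat_lit 4) (nat_lit 474) (nat_lit 370) (nat_lit 356)))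 (XT.nd (nat_lit 78) (nat_lit 304) (nat_lit 0) (XT.lf (nat_lit 0) (nat_lit 4891504371) (nat_lit 152) (nat_lit 2605077786) (nat_lit 228) (nat_lit 5500916542) (nat_lit 54) (nat_lit 5) (nat_lit 56) (nat_lit 5) (nat_lit 57) (nat_lit 4) (nat_lit 475) (nat_lit 370) (nat_lit 355)) (XT.lf (nat_lit 0) (nat_lit 2635488556) (nat_lit 304) (nat_lit 5251539044) (nat_lit 76) (nat_lit 5319855069) (nat_lit 50) (nat_lit 5) (nat_lit 54) (nat_lit 5) (nat_lit 51) (nat_lit 4) (nat_lit 476) (nat_lit 370) (nat_lit 354))))))) (XT.nd (nat_lit 936) (nat_lit 76) (nat_lit 0) (XT.nd (nat_lit 468) (nat_lit 1140) (nat_lit 0) (XT.nd (nat_lit 234) (nat_lit 532) (nat_lit 0) (XT.nd (nat_lit 78) (nat_lit 608) (nat_lit 0) (XT.lf (nat_lit 0) (nat_lit 10937800403) (nat_lit 228) (nat_lit 2413538801) (nat_lit 0) (nat_lit 70554405) (nat_lit 48) (nat_lit 5) (nat_lit 51) (nat_lit 4) (nat_lit 48) (nat_lit 4) (nat_lit 477) (nat_lit 370) (nat_lit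 353)) (XT.nd (nat_lit 78) (nat_lit 228) (nat_lit 0) (XT.lf (nat_lit 0) (nat_lit 373806208) (nat_lit 152) (nat_lit 5431087194) (nat_lit 228) (nat_lit 7836991166) (nat_lit 43) (nat_lit 5) (nat_lit 45) (nat_lit 5) (nat_lit 46) (nat_lit 4) (nat_lit 478) (nat_lit 370) (nat_lit 352)) (XT.lf (nat_lit 0) (nat_lit 450787248) (nat_lit 228) (nat_lit 10680379951) (nat_lit 76) (nat_lit 2736607518) (nat_lit 40) (nat_lit 5) (nat_lit 43) (nat_lit 5) (nat_lit 41) (nat_lit 4) (nat_lit 479) (nat_lit 370) (nat_lit 351)))) (XT.nd (nat_lit 78) (nat_lit 380) (nat_lit 0) (XT.lf (nat_lit 0) (nat_lit 5940459746) (nat_lit 152) (nat_lit 2960268092) (nat_lit 228) (nat_lit 5198280867) (nat_lit 38) (nat_lit 5) (nat_lit 40) (nat_lit 5) (nat_lit 41) (nat_lit 4) (nat_lit 480) (nat_lit 370) (nat_lit 350)) (XT.nd (nat_lit 78) (nat_lit 152) (nat_lit 0) (XT.lf (nat_lit 0) (nat_lit 3244690093) (nat_lit 228) (nat_lit 5675138820) (nat_lit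 76) (nat_lit 5416518647) (nat_lit 35) (nat_lit 5) (nat_lit 38) (nat_lit 5) (nat_lit 36) (nat_lit 4) (nat_lit 481) (nat_lit 370) (nat_lit 349)) (XT.lf (nat_lit 0) (nat_lit 11348469597) (nat_lit 152) (nat_lit 528719784) (nat_lit 228) (nat_lit 2702795712) (nat_lit 33) (nat_lit 5) (nat_lit 35) (nat_lit 5) (nat_lit 36) (nat_lit 4) (nat_lit 482) (nat_lit 370) (nat_lit 348))))) (XT.nd (nat_lit 234) (nat_lit 532) (nat_lit 0) (XT.nd (nat_lit 78) (nat_lit 380) (nat_lit 0) (XT.lf (nat_lit 0) (nat_lit 5901458258) (nat_lit 228) (nat_lit 868695178) (nat_lit 76) (nat_lit 8059178116) (nat_lit 30) (nat_lit 5) (nat_lit 33) (nat_lit 5) (nat_lit 31) (nat_lit 4) (nat_lit 483) (nat_lit 370) (nat_lit 347)) (XT.nd (nat_lit 78) (nat_lit 152) (nat_lit 0) (XT.lf (nat_lit 0) (nat_lit 1485773675) (nat_lit 152) (nat_lit 13256850732) (nat_lit 152) (nat_lit 342869354) (nat_lit 27) (nat_lit 4) (nat_lit 29) (nat_lit 5) (nat_lit 29)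 (nat_lit 4) (nat_lit 484) (nat_lit 370) (nat_lit 346)) (XT.lf (nat_lit 0) (nat_lit 3751562569) (nat_lit 76) (nat_lit 4678999794) (nat_lit 152) (nat_lit 6916830345) (nat_lit 25) (nat_lit 5) (nat_lit 26) (nat_lit 5) (nat_lit 27) (nat_lit 4) (nat_lit 485) (nat_lit 370) (nat_lit 345)))) (XT.nd (nat_lit 78) (nat_lit 304) (nat_lit 0) (XT.lf (nat_lit 0) (nat_lit 1841230820) (nat_lit 228) (nat_lit 9645182271) (nat_lit 76) (nat_lit 4130053104) (nat_lit 22) (nat_lit 5) (nat_lit 25) (nat_lit 5) (nat_lit 23) (nat_lit 4) (nat_lit 486) (nat_lit 370) (nat_lit 344)) (XT.nd (nat_lit 78) (nat_lit 228) (nat_lit 0) (XT.lf (nat_lit 0) (nat_lit 8103504524) (nat_lit 76) (nat_lit 2690816204) (nat_lit 152) (nat_lit 5097853997) (nat_lit 21) (nat_lit 5) (nat_lit 22) (nat_lit 5) (nat_lit 23) (nat_lit 4) (nat_lit 487) (nat_lit 370) (nat_lit 343)) (XT.lf (nat_lit 0) (nat_lit 3827280963) (nat_lit 228) (nat_lit 6021613629) (nat_lit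 76) (nat_lit 6326007768) (nat_lit 18) (nat_lit 5) (nat_lit 21) (nat_lit 5) (nat_lit 19) (nat_lit 4) (nat_lit 488) (nat_lit 370) (nat_lit 342)))))) (XT.nd (nat_lit 60450) (nat_lit 0) (nat_lit 4712) (XT.nd (nat_lit 60216) (nat_lit 0) (nat_lit 7220) (XT.nd (nat_lit 60060) (nat_lit 0) (nat_lit 8664) (XT.lf (nat_lit 0) (nat_lit 12129476793) (nat_lit 76) (nat_lit 837460268) (nat_lit 152) (nat_lit 3498182536) (nat_lit 17) (nat_lit 5) (nat_lit 18) (nat_lit 5) (nat_lit 19) (nat_lit 4) (nat_lit 489) (nat_lit 370) (nat_lit 341)) (XT.nd (nat_lit 78) (nat_lit 304) (nat_lit 0) (XT.lf (nat_lit 0) (nat_lit 1098995150) (nat_lit 380) (nat_lit 2875729664) (nat_lit 0) (nat_lit 1098995150) (nat_lit 135) (nat_lit 5) (nat_lit 140) (nat_lit 4) (nat_lit 135) (nat_lit 4) (nat_lit 458) (nat_lit 371) (nat_lit 371)) (XT.lf (nat_lit 0) (nat_lit 7820308841) (nat_lit 304) (nat_lit 1755086612) (nat_lit 304) (nat_lit 708286404) (nat_lit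 131) (nat_lit 4) (nat_lit 135) (nat_lit 5) (nat_lit 135) (nat_lit 4) (nat_lit 459) (nat_lit 371) (nat_lit 370)))) (XT.nd (nat_lit 78) (nat_lit 760) (nat_lit 0) (XT.lf (nat_lit 0) (nat_lit 845968984) (nat_lit 304) (nat_lit 5800070838) (nat_lit 304) (nat_lit 3777412905) (nat_lit 122) (nat_lit 4) (nat_lit 126) (nat_lit 5) (nat_lit 126) (nat_lit 4) (nat_lit 460) (nat_lit 371) (nat_lit 369)) (XT.nd (nat_lit 78) (nat_lit 380) (nat_lit 0) (XT.lf (nat_lit 0) (nat_lit 3579431829) (nat_lit 380) (nat_lit 6339722177) (nat_lit 0) (nat_lit 648039397) (nat_lit 117) (nat_lit 5) (nat_lit 122) (nat_lit 4) (nat_lit 117) (nat_lit 4) (nat_lit 461) (nat_lit 371) (nat_lit 368)) (XT.lf (nat_lit 0) (nat_lit 377594489) (nat_lit 380) (nat_lit 3089422881) (nat_lit 76) (nat_lit 7247849319) (nat_lit 112) (nat_lit 5) (nat_lit 117) (nat_lit 5) (nat_lit 113) (nat_lit 4) (nat_lit 462) (nat_lit 371) (nat_lit 367))))) (XT.nd (nat_lit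 234) (nat_lit 1292) (nat_lit 0) (XT.nd (nat_lit 78) (nat_lit 684) (nat_lit 0) (XT.lf (nat_lit 0) (nat_lit 173548006) (nat_lit 304) (nat_lit 7673004340) (nat_lit 304) (nat_lit 3019948960) (nat_lit 105) (nat_lit 4) (nat_lit 109) (nat_lit 5) (nat_lit 109) (nat_lit 4) (nat_lit 463) (nat_lit 371) (nat_lit 366)) (XT.nd (nat_lit 78) (nat_lit 380) (nat_lit 0) (XT.lf (nat_lit 0) (nat_lit 3502259977) (nat_lit 228) (nat_lit 956261155) (nat_lit 304) (nat_lit 6563566107) (nat_lit 101) (nat_lit 5) (nat_lit 104) (nat_lit 5) (nat_lit 105) (nat_lit 4) (nat_lit 464) (nat_lit 371) (nat_lit 365)) (XT.lf (nat_lit 0) (nat_lit 923899533) (nat_lit 380) (nat_lit 4339670615) (nat_lit 76) (nat_lit 5918298731) (nat_lit 96) (nat_lit 5) (nat_lit 101) (nat_lit 5) (nat_lit 97) (nat_lit 4) (nat_lit 465) (nat_lit 371) (nat_lit 364)))) (XT.nd (nat_lit 156) (nat_lit 532) (nat_lit 0) (XT.nd (nat_lit 78) (nat_lit 532) (nat_lit 0) (XT.lf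 (nat_lit 0) (nat_lit 8525632056) (nat_lit 304) (nat_lit 1149911614) (nat_lit 0) (nat_lit 1670461958) (nat_lit 93) (nat_lit 5) (nat_lit 97) (nat_lit 4) (nat_lit 93) (nat_lit 4) (nat_lit 466) (nat_lit 371) (nat_lit 363)) (XT.lf (nat_lit 0) (nat_lit 2069770165) (nat_lit 228) (nat_lit 2719038901) (nat_lit 304) (nat_lit 6725395469) (nat_lit 86) (nat_lit 5) (nat_lit 89) (nat_lit 5) (nat_lit 90) (nat_lit 4) (nat_lit 467) (nat_lit 371) (nat_lit 362))) (XT.nd (nat_lit 78) (nat_lit 228) (nat_lit 0) (XT.lf (nat_lit 0) (nat_lit 890763222) (nat_lit 304) (nat_lit 6367598064) (nat_lit 76) (nat_lit 4428569328) (nat_lit 82) (nat_lit 5) (nat_lit 86) (nat_lit 5) (nat_lit 83) (nat_lit 4) (nat_lit 468) (nat_lit 371) (nat_lit 361)) (XT.lf (nat_lit 0) (nat_lit 8572797507) (nat_lit 228) (nat_lit 56605402) (nat_lit 304) (nat_lit 3234844112) (nat_lit 79) (nat_lit 5) (nat_lit 82) (nat_lit 5) (nat_lit 83) (nat_lit 4) (nat_lit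 469) (nat_lit 371) (nat_lit 360))))))))
noncomputable def xc5 : XT := (XT.nd (nat_lit 61776) (nat_lit 0) (nat_lit 608) (XT.nd (nat_lit 936) (nat_lit 1368) (nat_lit 0) (XT.nd (nat_lit 468) (nat_lit 1444) (nat_lit 0) (XT.nd (nat_lit 234) (nat_lit 912) (nat_lit 0) (XT.nd (nat_lit 78) (nat_lit 684) (nat_lit 0) (XT.lf (nat_lit 0) (nat_lit 4510442331) (nat_lit 304) (nat_lit 232149264) (nat_lit 76) (nat_lit 7303367999) (nat_lit 75) (nat_lit 5) (nat_lit 79) (nat_lit 5) (nat_lit 76) (nat_lit 4) (nat_lit 470) (nat_lit 371) (nat_lit 359)) (XT.nd (nat_lit 78) (nat_lit 152) (nat_lit 0) (XT.lf (nat_lit 0) (nat_lit 216281540) (nat_lit 304) (nat_lit 9349789784) (nat_lit 76) (nat_lit 2666449407) (nat_lit 68) (nat_lit 5) (nat_lit 72) (nat_lit 5) (nat_lit 69) (nat_lit 4) (nat_lit 471) (nat_lit 371) (nat_lit 358)) (XT.lf (nat_lit 0) (nat_lit 5975591747) (nat_lit 152) (nat_lit 2128693032) (nat_lit 228) (nat_lit 4319281555)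 (nat_lit 66) (nat_lit 5) (nat_lit 68) (nat_lit 5) (nat_lit 69) (nat_lit 4) (nat_lit 472) (nat_lit 371) (nat_lit 357)))) (XT.nd (nat_lit 78) (nat_lit 608) (nat_lit 0) (XT.lf (nat_lit 0) (nat_lit 3571515095) (nat_lit 304) (nat_lit 3555861630) (nat_lit 76) (nat_lit 5492297028) (nat_lit 62) (nat_lit 5) (nat_lit 66) (nat_lit 5) (nat_lit 63) (nat_lit 4) (nat_lit 473) (nat_lit 371) (nat_lit 356)) (XT.nd (nat_lit 78) (nat_lit 456) (nat_lit 0) (XT.lf (nat_lit 0) (nat_lit 11634481382) (nat_lit 228) (nat_lit 662584492) (nat_lit 0) (nat_lit 524149022) (nat_lit 60) (nat_lit 5) (nat_lit 63) (nat_lit 4) (nat_lit 60) (nat_lit 4) (nat_lit 474) (nat_lit 371) (nat_lit 355)) (XT.lf (nat_lit 0) (nat_lit 2212609769) (nat_lit 152) (nat_lit 4647826363) (nat_lit 228) (nat_lit 6166661960) (nat_lit 54) (nat_lit 5) (nat_lit 56) (nat_lit 5) (nat_lit 57) (nat_lit 4) (nat_lit 475) (nat_lit 371) (nat_lit 354))))) (XT.nd (nat_lit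 234) (nat_lit 760) (nat_lit 0) (XT.nd (nat_lit 78) (nat_lit 380) (nat_lit 0) (XT.lf (nat_lit 0) (nat_lit 1874107011) (nat_lit 304) (nat_lit 8140797471) (nat_lit 76) (nat_lit 3223753191) (nat_lit 50) (nat_lit 5) (nat_lit 54) (nat_lit 5) (nat_lit 51) (nat_lit 4) (nat_lit 476) (nat_lit 371) (nat_lit 353)) (XT.nd (nat_lit 78) (nat_lit 228) (nat_lit 0) (XT.lf (nat_lit 0) (nat_lit 7950805507) (nat_lit 152) (nat_lit 2134257987) (nat_lit 228) (nat_lit 3370433989) (nat_lit 48) (nat_lit 5) (nat_lit 50) (nat_lit 5) (nat_lit 51) (nat_lit 4) (nat_lit 477) (nat_lit 371) (nat_lit 352)) (XT.lf (nat_lit 0) (nat_lit 4821952675) (nat_lit 228) (nat_lit 2907840013) (nat_lit 76) (nat_lit 5947977012) (nat_lit 45) (nat_lit 5) (nat_lit 48) (nat_lit 5) (nat_lit 46) (nat_lit 4) (nat_lit 478) (nat_lit 371) (nat_lit 351)))) (XT.nd (nat_lit 78) (nat_lit 608) (nat_lit 0) (XT.lf (nat_lit 0) (nat_lit 13216179471) (nat_lit 228) (nat_lit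 322092784) (nat_lit 0) (nat_lit 367958374) (nat_lit 43) (nat_lit 5) (nat_lit 46) (nat_lit 4) (nat_lit 43) (nat_lit 4) (nat_lit 479) (nat_lit 371) (nat_lit 350)) (XT.nd (nat_lit 78) (nat_lit 228) (nat_lit 0) (XT.lf (nat_lit 0) (nat_lit 2215841327) (nat_lit 152) (nat_lit 5456957187) (nat_lit 228) (nat_lit 6466680077) (nat_lit 38) (nat_lit 5) (nat_lit 40) (nat_lit 5) (nat_lit 41) (nat_lit 4) (nat_lit 480) (nat_lit 371) (nat_lit 349)) (XT.lf (nat_lit 0) (nat_lit 1881501563) (nat_lit 228) (nat_lit 9636163529) (nat_lit 76) (nat_lit 2861547027) (nat_lit 35) (nat_lit 5) (nat_lit 38) (nat_lit 5) (nat_lit 36) (nat_lit 4) (nat_lit 481) (nat_lit 371) (nat_lit 348)))))) (XT.nd (nat_lit 468) (nat_lit 304) (nat_lit 0) (XT.nd (nat_lit 234) (nat_lit 608) (nat_lit 0) (XT.nd (nat_lit 78) (nat_lit 304) (nat_lit 0) (XT.lf (nat_lit 0) (nat_lit 7207362100) (nat_lit 152) (nat_lit 3211518846) (nat_lit 228) (nat_lit 4205872536)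 (nat_lit 33) (nat_lit 5) (nat_lit 35) (nat_lit 5) (nat_lit 36) (nat_lit 4) (nat_lit 482) (nat_lit 371) (nat_lit 347)) (XT.nd (nat_lit 78) (nat_lit 76) (nat_lit 0) (XT.lf (nat_lit 0) (nat_lit 4304264231) (nat_lit 228) (nat_lit 5255435232) (nat_lit 76) (nat_lit 5316873627) (nat_lit 30) (nat_lit 5) (nat_lit 33) (nat_lit 5) (nat_lit 31) (nat_lit 4) (nat_lit 483) (nat_lit 371) (nat_lit 346)) (XT.lf (nat_lit 0) (nat_lit 11993931223) (nat_lit 76) (nat_lit 1033522277) (nat_lit 152) (nat_lit 2107642660) (nat_lit 29) (nat_lit 5) (nat_lit 30) (nat_lit 5) (nat_lit 31) (nat_lit 4) (nat_lit 484) (nat_lit 371) (nat_lit 345)))) (XT.nd (nat_lit 78) (nat_lit 380) (nat_lit 0) (XT.lf (nat_lit 0) (nat_lit 6569914272) (nat_lit 228) (nat_lit 1123068297) (nat_lit 76) (nat_lit 7706623360) (nat_lit 26) (nat_lit 5) (nat_lit 29) (nat_lit 5) (nat_lit 27) (nat_lit 4) (nat_lit 485) (nat_lit 371) (nat_lit 344)) (XT.nd (nat_lit 78)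 (nat_lit 152) (nat_lit 0) (XT.lf (nat_lit 0) (nat_lit 870321015) (nat_lit 152) (nat_lit 14624871060) (nat_lit 152) (nat_lit 176262193) (nat_lit 23) (nat_lit 4) (nat_lit 25) (nat_lit 5) (nat_lit 25) (nat_lit 4) (nat_lit 486) (nat_lit 371) (nat_lit 343)) (XT.lf (nat_lit 0) (nat_lit 2755741150) (nat_lit 76) (nat_lit 5923022349) (nat_lit 152) (nat_lit 7270430869) (nat_lit 21) (nat_lit 5) (nat_lit 22) (nat_lit 5) (nat_lit 23) (nat_lit 4) (nat_lit 487) (nat_lit 371) (nat_lit 342))))) (XT.nd (nat_lit 60060) (nat_lit 0) (nat_lit 7980) (XT.nd (nat_lit 78) (nat_lit 76) (nat_lit 0) (XT.lf (nat_lit 0) (nat_lit 1560289298) (nat_lit 228) (nat_lit 11644878670) (nat_lit 76) (nat_lit 3029495430) (nat_lit 18) (nat_lit 5) (nat_lit 21) (nat_lit 5) (nat_lit 19) (nat_lit 4) (nat_lit 488) (nat_lit 371) (nat_lit 341)) (XT.nd (nat_lit 59904) (nat_lit 0) (nat_lit 10108) (XT.lf (nat_lit 0) (nat_lit 6309245930) (nat_lit 76) (nat_lit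 4288707136) (nat_lit 152) (nat_lit 5928968492) (nat_lit 17) (nat_lit 5) (nat_lit 18) (nat_lit 5) (nat_lit 19) (nat_lit 4) (nat_lit 489) (nat_lit 371) (nat_lit 340)) (XT.lf (nat_lit 0) (nat_lit 3847114092) (nat_lit 380) (nat_lit 547651572) (nat_lit 380) (nat_lit 547651572) (nat_lit 150) (nat_lit 4) (nat_lit 155) (nat_lit 5) (nat_lit 155) (nat_lit 4) (nat_lit 456) (nat_lit 372) (nat_lit 372)))) (XT.nd (nat_lit 156) (nat_lit 988) (nat_lit 0) (XT.nd (nat_lit 78) (nat_lit 380) (nat_lit 0) (XT.lf (nat_lit 0) (nat_lit 1000211243) (nat_lit 380) (nat_lit 5057301378) (nat_lit 380) (nat_lit 3957533078) (nat_lit 140) (nat_lit 4) (nat_lit 145) (nat_lit 5) (nat_lit 145) (nat_lit 4) (nat_lit 457) (nat_lit 372) (nat_lit 371)) (XT.lf (nat_lit 0) (nat_lit 3194440642) (nat_lit 380) (nat_lit 5885201948) (nat_lit 0) (nat_lit 1069436218) (nat_lit 135) (nat_lit 5) (nat_lit 140) (nat_lit 4) (nat_lit 135) (nat_lit 4) (nat_lit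 458) (nat_lit 372) (nat_lit 370))) (XT.nd (nat_lit 78) (nat_lit 608) (nat_lit 0) (XT.lf (nat_lit 0) (nat_lit 201119619) (nat_lit 380) (nat_lit 2735053674) (nat_lit 76) (nat_lit 7350746810) (nat_lit 130) (nat_lit 5) (nat_lit 135) (nat_lit 5) (nat_lit 131) (nat_lit 4) (nat_lit 459) (nat_lit 372) (nat_lit 369)) (XT.lf (nat_lit 0) (nat_lit 433319857) (nat_lit 304) (nat_lit 7021100310) (nat_lit 304) (nat_lit 2974017074) (nat_lit 122) (nat_lit 4) (nat_lit 126) (nat_lit 5) (nat_lit 126) (nat_lit 4) (nat_lit 460) (nat_lit 372) (nat_lit 368))))))) (XT.nd (nat_lit 1014) (nat_lit 2812) (nat_lit 0) (XT.nd (nat_lit 468) (nat_lit 2356) (nat_lit 0) (XT.nd (nat_lit 234) (nat_lit 1216) (nat_lit 0) (XT.nd (nat_lit 78) (nat_lit 608) (nat_lit 0) (XT.lf (nat_lit 0) (nat_lit 3670949795) (nat_lit 304) (nat_lit 614802569) (nat_lit 380) (nat_lit 6288055348) (nat_lit 117) (nat_lit 5) (nat_lit 121) (nat_lit 5) (nat_lit 122)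 (nat_lit 4) (nat_lit 461) (nat_lit 372) (nat_lit 367)) (XT.nd (nat_lit 78) (nat_lit 228) (nat_lit 0) (XT.lf (nat_lit 0) (nat_lit 981515554) (nat_lit 380) (nat_lit 3799791298) (nat_lit 76) (nat_lit 5941818637) (nat_lit 112) (nat_lit 5) (nat_lit 117) (nat_lit 5) (nat_lit 113) (nat_lit 4) (nat_lit 462) (nat_lit 372) (nat_lit 366)) (XT.lf (nat_lit 0) (nat_lit 8358329031) (nat_lit 304) (nat_lit 679916647) (nat_lit 0) (nat_lit 1838360406) (nat_lit 109) (nat_lit 5) (nat_lit 113) (nat_lit 4) (nat_lit 109) (nat_lit 4) (nat_lit 463) (nat_lit 372) (nat_lit 365)))) (XT.nd (nat_lit 78) (nat_lit 608) (nat_lit 0) (XT.lf (nat_lit 0) (nat_lit 2482482090) (nat_lit 228) (nat_lit 2383143963) (nat_lit 304) (nat_lit 6168263512) (nat_lit 101) (nat_lit 5) (nat_lit 104) (nat_lit 5) (nat_lit 105) (nat_lit 4) (nat_lit 464) (nat_lit 372) (nat_lit 364)) (XT.nd (nat_lit 78) (nat_lit 228) (nat_lit 0) (XT.lf (nat_lit 0) (nat_lit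 1220757273) (nat_lit 380) (nat_lit 5522437840) (nat_lit 76) (nat_lit 4452292769) (nat_lit 96) (nat_lit 5) (nat_lit 101) (nat_lit 5) (nat_lit 97) (nat_lit 4) (nat_lit 465) (nat_lit 372) (nat_lit 363)) (XT.lf (nat_lit 0) (nat_lit 8728935273) (nat_lit 304) (nat_lit 2483814822) (nat_lit 0) (nat_lit 148748346) (nat_lit 93) (nat_lit 5) (nat_lit 97) (nat_lit 4) (nat_lit 93) (nat_lit 4) (nat_lit 466) (nat_lit 372) (nat_lit 362))))) (XT.nd (nat_lit 234) (nat_lit 1292) (nat_lit 0) (XT.nd (nat_lit 78) (nat_lit 532) (nat_lit 0) (XT.lf (nat_lit 0) (nat_lit 551220998) (nat_lit 228) (nat_lit 4329007885) (nat_lit 304) (nat_lit 6651325213) (nat_lit 86) (nat_lit 5) (nat_lit 89) (nat_lit 5) (nat_lit 90) (nat_lit 4) (nat_lit 467) (nat_lit 372) (nat_lit 361)) (XT.nd (nat_lit 78) (nat_lit 228) (nat_lit 0) (XT.lf (nat_lit 0) (nat_lit 867661740) (nat_lit 304) (nat_lit 8063334143) (nat_lit 76) (nat_lit 2775201145) (nat_lit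 82) (nat_lit 5) (nat_lit 86) (nat_lit 5) (nat_lit 83) (nat_lit 4) (nat_lit 468) (nat_lit 372) (nat_lit 360)) (XT.lf (nat_lit 0) (nat_lit 6724752724) (nat_lit 228) (nat_lit 1796175414) (nat_lit 304) (nat_lit 3364295152) (nat_lit 79) (nat_lit 5) (nat_lit 82) (nat_lit 5) (nat_lit 83) (nat_lit 4) (nat_lit 469) (nat_lit 372) (nat_lit 359)))) (XT.nd (nat_lit 156) (nat_lit 532) (nat_lit 0) (XT.nd (nat_lit 78) (nat_lit 456) (nat_lit 0) (XT.lf (nat_lit 0) (nat_lit 4285287899) (nat_lit 304) (nat_lit 2264772163) (nat_lit 76) (nat_lit 5518842911) (nat_lit 75) (nat_lit 5) (nat_lit 79) (nat_lit 5) (nat_lit 76) (nat_lit 4) (nat_lit 470) (nat_lit 372) (nat_lit 358)) (XT.lf (nat_lit 0) (nat_lit 655181907) (nat_lit 228) (nat_lit 11458931023) (nat_lit 228) (nat_lit 143630601) (nat_lit 69) (nat_lit 4) (nat_lit 72) (nat_lit 5) (nat_lit 72) (nat_lit 4) (nat_lit 471) (nat_lit 372) (nat_lit 357))) (XT.nd (nat_lit 78) (nat_lit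 304) (nat_lit 0) (XT.lf (nat_lit 0) (nat_lit 3564516959) (nat_lit 152) (nat_lit 4094137714) (nat_lit 228) (nat_lit 4791907249) (nat_lit 66) (nat_lit 5) (nat_lit 68) (nat_lit 5) (nat_lit 69) (nat_lit 4) (nat_lit 472) (nat_lit 372) (nat_lit 356)) (XT.lf (nat_lit 0) (nat_lit 3003846786) (nat_lit 304) (nat_lit 6166961553) (nat_lit 76) (nat_lit 3477949201) (nat_lit 62) (nat_lit 5) (nat_lit 66) (nat_lit 5) (nat_lit 63) (nat_lit 4) (nat_lit 473) (nat_lit 372) (nat_lit 355)))))) (XT.nd (nat_lit 468) (nat_lit 1368) (nat_lit 0) (XT.nd (nat_lit 234) (nat_lit 532) (nat_lit 0) (XT.nd (nat_lit 78) (nat_lit 760) (nat_lit 0) (XT.lf (nat_lit 0) (nat_lit 9389196271) (nat_lit 152) (nat_lit 1585937376) (nat_lit 228) (nat_lit 1877000567) (nat_lit 60) (nat_lit 5) (nat_lit 62) (nat_lit 5) (nat_lit 63) (nat_lit 4) (nat_lit 474) (nat_lit 372) (nat_lit 354)) (XT.nd (nat_lit 78) (nat_lit 456) (nat_lit 0) (XT.lf (nat_lit 0) (nat_lit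 6065391680) (nat_lit 304) (nat_lit 797435309) (nat_lit 76) (nat_lit 6197558513) (nat_lit 56) (nat_lit 5) (nat_lit 60) (nat_lit 5) (nat_lit 57) (nat_lit 4) (nat_lit 475) (nat_lit 372) (nat_lit 353)) (XT.lf (nat_lit 0) (nat_lit 945679969) (nat_lit 304) (nat_lit 11377909011) (nat_lit 76) (nat_lit 950684604) (nat_lit 50) (nat_lit 5) (nat_lit 54) (nat_lit 5) (nat_lit 51) (nat_lit 4) (nat_lit 476) (nat_lit 372) (nat_lit 352)))) (XT.nd (nat_lit 78) (nat_lit 380) (nat_lit 0) (XT.lf (nat_lit 0) (nat_lit 4544103965) (nat_lit 152) (nat_lit 4521446466) (nat_lit 228) (nat_lit 4427386393) (nat_lit 48) (nat_lit 5) (nat_lit 50) (nat_lit 5) (nat_lit 51) (nat_lit 4) (nat_lit 477) (nat_lit 372) (nat_lit 351)) (XT.nd (nat_lit 78) (nat_lit 152) (nat_lit 0) (XT.lf (nat_lit 0) (nat_lit 3671166695) (nat_lit 228) (nat_lit 6539585460) (nat_lit 76) (nat_lit 3506749678) (nat_lit 45) (nat_lit 5) (nat_lit 48) (nat_lit 5) (nat_lit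 46) (nat_lit 4) (nat_lit 478) (nat_lit 372) (nat_lit 350)) (XT.lf (nat_lit 0) (nat_lit 9782196225) (nat_lit 152) (nat_lit 2188709120) (nat_lit 228) (nat_lit 1976948759) (nat_lit 43) (nat_lit 5) (nat_lit 45) (nat_lit 5) (nat_lit 46) (nat_lit 4) (nat_lit 479) (nat_lit 372) (nat_lit 349))))) (XT.nd (nat_lit 234) (nat_lit 608) (nat_lit 0) (XT.nd (nat_lit 78) (nat_lit 532) (nat_lit 0) (XT.lf (nat_lit 0) (nat_lit 6280935916) (nat_lit 228) (nat_lit 1851528998) (nat_lit 76) (nat_lit 6051242623) (nat_lit 40) (nat_lit 5) (nat_lit 43) (nat_lit 5) (nat_lit 41) (nat_lit 4) (nat_lit 480) (nat_lit 372) (nat_lit 348)) (XT.nd (nat_lit 78) (nat_lit 152) (nat_lit 0) (XT.lf (nat_lit 0) (nat_lit 338904207) (nat_lit 228) (nat_lit 13971334959) (nat_lit 76) (nat_lit 115896619) (nat_lit 35) (nat_lit 5) (nat_lit 38) (nat_lit 5) (nat_lit 36) (nat_lit 4) (nat_lit 481) (nat_lit 372) (nat_lit 347)) (XT.lf (nat_lit 0) (nat_lit 2690847597)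 (nat_lit 152) (nat_lit 6089866067) (nat_lit 228) (nat_lit 5892876273) (nat_lit 33) (nat_lit 5) (nat_lit 35) (nat_lit 5) (nat_lit 36) (nat_lit 4) (nat_lit 482) (nat_lit 372) (nat_lit 346)))) (XT.nd (nat_lit 156) (nat_lit 304) (nat_lit 0) (XT.nd (nat_lit 78) (nat_lit 76) (nat_lit 0) (XT.lf (nat_lit 0) (nat_lit 2523773521) (nat_lit 228) (nat_lit 10024623949) (nat_lit 76) (nat_lit 2379544707) (nat_lit 30) (nat_lit 5) (nat_lit 33) (nat_lit 5) (nat_lit 31) (nat_lit 4) (nat_lit 483) (nat_lit 372) (nat_lit 345)) (XT.lf (nat_lit 0) (nat_lit 7039797584) (nat_lit 76) (nat_lit 4110252034) (nat_lit 152) (nat_lit 4038355177) (nat_lit 29) (nat_lit 5) (nat_lit 30) (nat_lit 5) (nat_lit 31) (nat_lit 4) (nat_lit 484) (nat_lit 372) (nat_lit 344))) (XT.nd (nat_lit 78) (nat_lit 76) (nat_lit 0) (XT.lf (nat_lit 0) (nat_lit 4546191432) (nat_lit 228) (nat_lit 6339687696) (nat_lit 76) (nat_lit 4569654007) (nat_lit 26) (nat_lit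 5) (nat_lit 29) (nat_lit 5) (nat_lit 27) (nat_lit 4) (nat_lit 485) (nat_lit 372) (nat_lit 343)) (XT.lf (nat_lit 0) (nat_lit 11132089870) (nat_lit 76) (nat_lit 2228490108) (nat_lit 152) (nat_lit 2369020468) (nat_lit 25) (nat_lit 5) (nat_lit 26) (nat_lit 5) (nat_lit 27) (nat_lit 4) (nat_lit 486) (nat_lit 372) (nat_lit 342))))))))
noncomputable def xc6 : XT := (XT.nd (nat_lit 61620) (nat_lit 0) (nat_lit 76) (XT.nd (nat_lit 60606) (nat_lit 0) (nat_lit 2964) (XT.nd (nat_lit 60138) (nat_lit 0) (nat_lit 7220) (XT.nd (nat_lit 59904) (nat_lit 0) (nat_lit 10108) (XT.nd (nat_lit 78) (nat_lit 380) (nat_lit 0) (XT.lf (nat_lit 0) (nat_lit 6388213192) (nat_lit 228) (nat_lit 2958418751) (nat_lit 76) (nat_lit 6663525479) (nat_lit 22) (nat_lit 5) (nat_lit 25) (nat_lit 5) (nat_lit 23) (nat_lit 4) (nat_lit 487) (nat_lit 372) (nat_lit 341)) (XT.nd (nat_lit 78) (nat_lit 304) (nat_lit 0) (XT.lf (nat_lit 0) (nat_lit 14924664367)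 (nat_lit 76) (nat_lit 469033208) (nat_lit 152) (nat_lit 904768186) (nat_lit 21) (nat_lit 5) (nat_lit 22) (nat_lit 5) (nat_lit 23) (nat_lit 4) (nat_lit 488) (nat_lit 372) (nat_lit 340)) (XT.lf (nat_lit 0) (nat_lit 73497222) (nat_lit 76) (nat_lit 7956301117) (nat_lit 152) (nat_lit 8563343382) (nat_lit 17) (nat_lit 5) (nat_lit 18) (nat_lit 5) (nat_lit 19) (nat_lit 4) (nat_lit 489) (nat_lit 372) (nat_lit 339)))) (XT.nd (nat_lit 78) (nat_lit 836) (nat_lit 0) (XT.lf (nat_lit 0) (nat_lit 636945519) (nat_lit 380) (nat_lit 2089826922) (nat_lit 380) (nat_lit 2089826922) (nat_lit 161) (nat_lit 4) (nat_lit 166) (nat_lit 5) (nat_lit 166) (nat_lit 4) (nat_lit 454) (nat_lit 373) (nat_lit 373)) (XT.nd (nat_lit 78) (nat_lit 380) (nat_lit 0) (XT.lf (nat_lit 0) (nat_lit 2779725945) (nat_lit 456) (nat_lit 5353922535) (nat_lit 0) (nat_lit 1624309369) (nat_lit 155) (nat_lit 5) (nat_lit 161) (nat_lit 4) (nat_lit 155) (nat_lit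 4) (nat_lit 455) (nat_lit 373) (nat_lit 372)) (XT.lf (nat_lit 0) (nat_lit 7566552958) (nat_lit 380) (nat_lit 2298531550) (nat_lit 380) (nat_lit 21351309) (nat_lit 150) (nat_lit 4) (nat_lit 155) (nat_lit 5) (nat_lit 155) (nat_lit 4) (nat_lit 456) (nat_lit 373) (nat_lit 371))))) (XT.nd (nat_lit 234) (nat_lit 1368) (nat_lit 0) (XT.nd (nat_lit 78) (nat_lit 760) (nat_lit 0) (XT.lf (nat_lit 0) (nat_lit 737061979) (nat_lit 380) (nat_lit 6290753314) (nat_lit 380) (nat_lit 2990487453) (nat_lit 140) (nat_lit 4) (nat_lit 145) (nat_lit 5) (nat_lit 145) (nat_lit 4) (nat_lit 457) (nat_lit 373) (nat_lit 370)) (XT.nd (nat_lit 78) (nat_lit 380) (nat_lit 0) (XT.lf (nat_lit 0) (nat_lit 3866160397) (nat_lit 304) (nat_lit 194762057) (nat_lit 380) (nat_lit 6093049137) (nat_lit 135) (nat_lit 5) (nat_lit 139) (nat_lit 5) (nat_lit 140) (nat_lit 4) (nat_lit 458) (nat_lit 373) (nat_lit 369)) (XT.lf (nat_lit 0) (nat_lit 969068334)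 (nat_lit 380) (nat_lit 3281057206) (nat_lit 76) (nat_lit 6043225787) (nat_lit 130) (nat_lit 5) (nat_lit 135) (nat_lit 5) (nat_lit 131) (nat_lit 4) (nat_lit 459) (nat_lit 373) (nat_lit 368)))) (XT.nd (nat_lit 78) (nat_lit 1064) (nat_lit 0) (XT.lf (nat_lit 0) (nat_lit 8130137083) (nat_lit 380) (nat_lit 251487174) (nat_lit 0) (nat_lit 2055092257) (nat_lit 126) (nat_lit 5) (nat_lit 131) (nat_lit 4) (nat_lit 126) (nat_lit 4) (nat_lit 460) (nat_lit 373) (nat_lit 367)) (XT.nd (nat_lit 78) (nat_lit 380) (nat_lit 0) (XT.lf (nat_lit 0) (nat_lit 2832308215) (nat_lit 304) (nat_lit 2028674375) (nat_lit 380) (nat_lit 5722690049) (nat_lit 117) (nat_lit 5) (nat_lit 121) (nat_lit 5) (nat_lit 122) (nat_lit 4) (nat_lit 461) (nat_lit 373) (nat_lit 366)) (XT.lf (nat_lit 0) (nat_lit 1448077324) (nat_lit 380) (nat_lit 4792678120) (nat_lit 76) (nat_lit 4493992423) (nat_lit 112) (nat_lit 5) (nat_lit 117) (nat_lit 5) (nat_lit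 113) (nat_lit 4) (nat_lit 462) (nat_lit 373) (nat_lit 365)))))) (XT.nd (nat_lit 468) (nat_lit 1976) (nat_lit 0) (XT.nd (nat_lit 234) (nat_lit 1064) (nat_lit 0) (XT.nd (nat_lit 78) (nat_lit 988) (nat_lit 0) (XT.lf (nat_lit 0) (nat_lit 8733325192) (nat_lit 304) (nat_lit 1815991320) (nat_lit 0) (nat_lit 340746263) (nat_lit 109) (nat_lit 5) (nat_lit 113) (nat_lit 4) (nat_lit 109) (nat_lit 4) (nat_lit 463) (nat_lit 373) (nat_lit 364)) (XT.nd (nat_lit 78) (nat_lit 380) (nat_lit 0) (XT.lf (nat_lit 0) (nat_lit 1171531498) (nat_lit 228) (nat_lit 3960232250) (nat_lit 304) (nat_lit 5917351620) (nat_lit 101) (nat_lit 5) (nat_lit 104) (nat_lit 5) (nat_lit 105) (nat_lit 4) (nat_lit 464) (nat_lit 373) (nat_lit 363)) (XT.lf (nat_lit 0) (nat_lit 1374439327) (nat_lit 380) (nat_lit 7001400078) (nat_lit 76) (nat_lit 2836723199) (nat_lit 96) (nat_lit 5) (nat_lit 101) (nat_lit 5) (nat_lit 97) (nat_lit 4) (nat_lit 465) (nat_lit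 373) (nat_lit 362)))) (XT.nd (nat_lit 78) (nat_lit 836) (nat_lit 0) (XT.lf (nat_lit 0) (nat_lit 7253718994) (nat_lit 228) (nat_lit 1544634481) (nat_lit 304) (nat_lit 2581907604) (nat_lit 93) (nat_lit 5) (nat_lit 96) (nat_lit 5) (nat_lit 97) (nat_lit 4) (nat_lit 466) (nat_lit 373) (nat_lit 361)) (XT.nd (nat_lit 78) (nat_lit 532) (nat_lit 0) (XT.lf (nat_lit 0) (nat_lit 4832690511) (nat_lit 304) (nat_lit 1256155902) (nat_lit 76) (nat_lit 5463416848) (nat_lit 89) (nat_lit 5) (nat_lit 93) (nat_lit 5) (nat_lit 90) (nat_lit 4) (nat_lit 467) (nat_lit 373) (nat_lit 360)) (XT.lf (nat_lit 0) (nat_lit 694916865) (nat_lit 304) (nat_lit 10069926970) (nat_lit 76) (nat_lit 964181459) (nat_lit 82) (nat_lit 5) (nat_lit 86) (nat_lit 5) (nat_lit 83) (nat_lit 4) (nat_lit 468) (nat_lit 373) (nat_lit 359))))) (XT.nd (nat_lit 234) (nat_lit 1216) (nat_lit 0) (XT.nd (nat_lit 78) (nat_lit 532) (nat_lit 0) (XT.lf (nat_lit 0)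 (nat_lit 4565499873) (nat_lit 228) (nat_lit 3697426656) (nat_lit 304) (nat_lit 3646832485) (nat_lit 79) (nat_lit 5) (nat_lit 82) (nat_lit 5) (nat_lit 83) (nat_lit 4) (nat_lit 469) (nat_lit 373) (nat_lit 358)) (XT.nd (nat_lit 78) (nat_lit 228) (nat_lit 0) (XT.lf (nat_lit 0) (nat_lit 3908068084) (nat_lit 304) (nat_lit 4614109804) (nat_lit 76) (nat_lit 3573267467) (nat_lit 75) (nat_lit 5) (nat_lit 79) (nat_lit 5) (nat_lit 76) (nat_lit 4) (nat_lit 470) (nat_lit 373) (nat_lit 357)) (XT.lf (nat_lit 0) (nat_lit 10405255989) (nat_lit 228) (nat_lit 1236398309) (nat_lit 304) (nat_lit 644538536) (nat_lit 72) (nat_lit 5) (nat_lit 75) (nat_lit 5) (nat_lit 76) (nat_lit 4) (nat_lit 471) (nat_lit 373) (nat_lit 356)))) (XT.nd (nat_lit 156) (nat_lit 456) (nat_lit 0) (XT.nd (nat_lit 78) (nat_lit 304) (nat_lit 0) (XT.lf (nat_lit 0) (nat_lit 826256764) (nat_lit 152) (nat_lit 6229944963) (nat_lit 228) (nat_lit 5425038875)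 (nat_lit 66) (nat_lit 5) (nat_lit 68) (nat_lit 5) (nat_lit 69) (nat_lit 4) (nat_lit 472) (nat_lit 373) (nat_lit 355)) (XT.lf (nat_lit 0) (nat_lit 2276587137) (nat_lit 304) (nat_lit 9111126525) (nat_lit 76) (nat_lit 1293855349) (nat_lit 62) (nat_lit 5) (nat_lit 66) (nat_lit 5) (nat_lit 63) (nat_lit 4) (nat_lit 473) (nat_lit 373) (nat_lit 354))) (XT.nd (nat_lit 78) (nat_lit 304) (nat_lit 0) (XT.lf (nat_lit 0) (nat_lit 6282456951) (nat_lit 152) (nat_lit 3877064251) (nat_lit 228) (nat_lit 2727193427) (nat_lit 60) (nat_lit 5) (nat_lit 62) (nat_lit 5) (nat_lit 63) (nat_lit 4) (nat_lit 474) (nat_lit 373) (nat_lit 353)) (XT.lf (nat_lit 0) (nat_lit 5122104954) (nat_lit 304) (nat_lit 4118332278) (nat_lit 76) (nat_lit 3856725768) (nat_lit 56) (nat_lit 5) (nat_lit 60) (nat_lit 5) (nat_lit 57) (nat_lit 4) (nat_lit 475) (nat_lit 373) (nat_lit 352))))))) (XT.nd (nat_lit 936) (nat_lit 304) (nat_lit 0) (XT.nd (nat_lit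 468) (nat_lit 1216) (nat_lit 0) (XT.nd (nat_lit 234) (nat_lit 532) (nat_lit 0) (XT.nd (nat_lit 78) (nat_lit 684) (nat_lit 0) (XT.lf (nat_lit 0) (nat_lit 11672258411) (nat_lit 152) (nat_lit 1509410182) (nat_lit 228) (nat_lit 131662471) (nat_lit 54) (nat_lit 5) (nat_lit 56) (nat_lit 5) (nat_lit 57) (nat_lit 4) (nat_lit 476) (nat_lit 373) (nat_lit 351)) (XT.nd (nat_lit 78) (nat_lit 228) (nat_lit 0) (XT.lf (nat_lit 0) (nat_lit 785746910) (nat_lit 152) (nat_lit 7092159293) (nat_lit 228) (nat_lit 5656347428) (nat_lit 48) (nat_lit 5) (nat_lit 50) (nat_lit 5) (nat_lit 51) (nat_lit 4) (nat_lit 477) (nat_lit 373) (nat_lit 350)) (XT.lf (nat_lit 0) (nat_lit 2349102921) (nat_lit 228) (nat_lit 10529506036) (nat_lit 76) (nat_lit 882555263) (nat_lit 45) (nat_lit 5) (nat_lit 48) (nat_lit 5) (nat_lit 46) (nat_lit 4) (nat_lit 478) (nat_lit 373) (nat_lit 349)))) (XT.nd (nat_lit 78) (nat_lit 380) (nat_lit 0) (XT.lf (nat_lit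 0) (nat_lit 5618473663) (nat_lit 152) (nat_lit 4937929786) (nat_lit 228) (nat_lit 3436963338) (nat_lit 43) (nat_lit 5) (nat_lit 45) (nat_lit 5) (nat_lit 46) (nat_lit 4) (nat_lit 479) (nat_lit 373) (nat_lit 348)) (XT.nd (nat_lit 78) (nat_lit 152) (nat_lit 0) (XT.lf (nat_lit 0) (nat_lit 4728527151) (nat_lit 228) (nat_lit 6255906576) (nat_lit 76) (nat_lit 3247208392) (nat_lit 40) (nat_lit 5) (nat_lit 43) (nat_lit 5) (nat_lit 41) (nat_lit 4) (nat_lit 480) (nat_lit 373) (nat_lit 347)) (XT.lf (nat_lit 0) (nat_lit 10296461155) (nat_lit 152) (nat_lit 2823375763) (nat_lit 228) (nat_lit 1356226316) (nat_lit 38) (nat_lit 5) (nat_lit 40) (nat_lit 5) (nat_lit 41) (nat_lit 4) (nat_lit 481) (nat_lit 373) (nat_lit 346))))) (XT.nd (nat_lit 234) (nat_lit 532) (nat_lit 0) (XT.nd (nat_lit 78) (nat_lit 456) (nat_lit 0) (XT.lf (nat_lit 0) (nat_lit 6975572582) (nat_lit 228) (nat_lit 2176101141) (nat_lit 76) (nat_lit 5574577076)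 (nat_lit 35) (nat_lit 5) (nat_lit 38) (nat_lit 5) (nat_lit 36) (nat_lit 4) (nat_lit 482) (nat_lit 373) (nat_lit 345)) (XT.nd (nat_lit 78) (nat_lit 228) (nat_lit 0) (XT.lf (nat_lit 0) (nat_lit 564711541) (nat_lit 228) (nat_lit 199364399) (nat_lit 76) (nat_lit 14219282134) (nat_lit 32) (nat_lit 5) (nat_lit 35) (nat_lit 5) (nat_lit 33) (nat_lit 5) (nat_lit 483) (nat_lit 373) (nat_lit 344)) (XT.lf (nat_lit 0) (nat_lit 1697450833) (nat_lit 76) (nat_lit 7389707767) (nat_lit 152) (nat_lit 6158739920) (nat_lit 29) (nat_lit 5) (nat_lit 30) (nat_lit 5) (nat_lit 31) (nat_lit 4) (nat_lit 484) (nat_lit 373) (nat_lit 343)))) (XT.nd (nat_lit 78) (nat_lit 304) (nat_lit 0) (XT.lf (nat_lit 0) (nat_lit 2333267909) (nat_lit 228) (nat_lit 11952056257) (nat_lit 76) (nat_lit 1230386180) (nat_lit 26) (nat_lit 5) (nat_lit 29) (nat_lit 5) (nat_lit 27) (nat_lit 4) (nat_lit 485) (nat_lit 373) (nat_lit 342)) (XT.nd (nat_lit 78)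 (nat_lit 228) (nat_lit 0) (XT.lf (nat_lit 0) (nat_lit 5329190553) (nat_lit 76) (nat_lit 5719338104) (nat_lit 152) (nat_lit 4743232709) (nat_lit 25) (nat_lit 5) (nat_lit 26) (nat_lit 5) (nat_lit 27) (nat_lit 4) (nat_lit 486) (nat_lit 373) (nat_lit 341)) (XT.lf (nat_lit 0) (nat_lit 3921746960) (nat_lit 228) (nat_lit 9041789352) (nat_lit 76) (nat_lit 3111559270) (nat_lit 22) (nat_lit 5) (nat_lit 25) (nat_lit 5) (nat_lit 23) (nat_lit 4) (nat_lit 487) (nat_lit 373) (nat_lit 340)))))) (XT.nd (nat_lit 59982) (nat_lit 0) (nat_lit 7144) (XT.nd (nat_lit 59748) (nat_lit 0) (nat_lit 10412) (XT.nd (nat_lit 78) (nat_lit 228) (nat_lit 0) (XT.lf (nat_lit 0) (nat_lit 8646557638) (nat_lit 76) (nat_lit 4179828722) (nat_lit 152) (nat_lit 3539035526) (nat_lit 21) (nat_lit 5) (nat_lit 22) (nat_lit 5) (nat_lit 23) (nat_lit 4) (nat_lit 488) (nat_lit 373) (nat_lit 339)) (XT.nd (nat_lit 59592) (nat_lit 0) (nat_lit 12084) (XT.lf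 (nat_lit 0) (nat_lit 5302971481) (nat_lit 228) (nat_lit 6496877954) (nat_lit 76) (nat_lit 4863133661) (nat_lit 18) (nat_lit 5) (nat_lit 21) (nat_lit 5) (nat_lit 19) (nat_lit 4) (nat_lit 489) (nat_lit 373) (nat_lit 338)) (XT.lf (nat_lit 0) (nat_lit 1176272932) (nat_lit 456) (nat_lit 2343780835) (nat_lit 0) (nat_lit 1176272932) (nat_lit 177) (nat_lit 5) (nat_lit 183) (nat_lit 4) (nat_lit 177) (nat_lit 4) (nat_lit 452) (nat_lit 374) (nat_lit 374)))) (XT.nd (nat_lit 78) (nat_lit 1292) (nat_lit 0) (XT.lf (nat_lit 0) (nat_lit 7727325738) (nat_lit 380) (nat_lit 1511493377) (nat_lit 380) (nat_lit 273335110) (nat_lit 172) (nat_lit 4) (nat_lit 177) (nat_lit 5) (nat_lit 177) (nat_lit 4) (nat_lit 453) (nat_lit 374) (nat_lit 373)) (XT.nd (nat_lit 78) (nat_lit 456) (nat_lit 0) (XT.lf (nat_lit 0) (nat_lit 1148184577) (nat_lit 380) (nat_lit 5439509312) (nat_lit 380) (nat_lit 3047103751) (nat_lit 161) (nat_lit 4) (nat_lit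 166) (nat_lit 5) (nat_lit 166) (nat_lit 4) (nat_lit 454) (nat_lit 374) (nat_lit 372)) (XT.lf (nat_lit 0) (nat_lit 3809365096) (nat_lit 456) (nat_lit 5609704041) (nat_lit 0) (nat_lit 342105782) (nat_lit 155) (nat_lit 5) (nat_lit 161) (nat_lit 4) (nat_lit 155) (nat_lit 4) (nat_lit 455) (nat_lit 374) (nat_lit 371))))) (XT.nd (nat_lit 234) (nat_lit 1748) (nat_lit 0) (XT.nd (nat_lit 78) (nat_lit 1064) (nat_lit 0) (XT.lf (nat_lit 0) (nat_lit 912140495) (nat_lit 456) (nat_lit 2713826450) (nat_lit 76) (nat_lit 6265154282) (nat_lit 149) (nat_lit 5) (nat_lit 155) (nat_lit 5) (nat_lit 150) (nat_lit 4) (nat_lit 456) (nat_lit 374) (nat_lit 370)) (XT.nd (nat_lit 78) (nat_lit 380) (nat_lit 0) (XT.lf (nat_lit 0) (nat_lit 210533516) (nat_lit 380) (nat_lit 7658966660) (nat_lit 380) (nat_lit 2155319510) (nat_lit 140) (nat_lit 4) (nat_lit 145) (nat_lit 5) (nat_lit 145) (nat_lit 4) (nat_lit 457) (nat_lit 374) (nat_lit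 369)) (XT.lf (nat_lit 0) (nat_lit 3195697652) (nat_lit 304) (nat_lit 1609148183) (nat_lit 380) (nat_lit 5357143655) (nat_lit 135) (nat_lit 5) (nat_lit 139) (nat_lit 5) (nat_lit 140) (nat_lit 4) (nat_lit 458) (nat_lit 374) (nat_lit 368)))) (XT.nd (nat_lit 156) (nat_lit 1064) (nat_lit 0) (XT.nd (nat_lit 78) (nat_lit 304) (nat_lit 0) (XT.lf (nat_lit 0) (nat_lit 1605520066) (nat_lit 380) (nat_lit 4097262040) (nat_lit 76) (nat_lit 4600291018) (nat_lit 130) (nat_lit 5) (nat_lit 135) (nat_lit 5) (nat_lit 131) (nat_lit 4) (nat_lit 459) (nat_lit 374) (nat_lit 367)) (XT.lf (nat_lit 0) (nat_lit 8676731067) (nat_lit 380) (nat_lit 1203091351) (nat_lit 0) (nat_lit 568416359) (nat_lit 126) (nat_lit 5) (nat_lit 131) (nat_lit 4) (nat_lit 126) (nat_lit 4) (nat_lit 460) (nat_lit 374) (nat_lit 366))) (XT.nd (nat_lit 78) (nat_lit 380) (nat_lit 0) (XT.lf (nat_lit 0) (nat_lit 1715162381) (nat_lit 304) (nat_lit 3586199337)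 (nat_lit 380) (nat_lit 5295520356) (nat_lit 117) (nat_lit 5) (nat_lit 121) (nat_lit 5) (nat_lit 122) (nat_lit 4) (nat_lit 461) (nat_lit 374) (nat_lit 365)) (XT.lf (nat_lit 0) (nat_lit 1777687474) (nat_lit 380) (nat_lit 6068950917) (nat_lit 76) (nat_lit 2903105585) (nat_lit 112) (nat_lit 5) (nat_lit 117) (nat_lit 5) (nat_lit 113) (nat_lit 4) (nat_lit 462) (nat_lit 374) (nat_lit 364))))))))
noncomputable def xc7 : XT := (XT.nd (nat_lit 1950) (nat_lit 304) (nat_lit 0) (XT.nd (nat_lit 936) (nat_lit 2888) (nat_lit 0) (XT.nd (nat_lit 468) (nat_lit 1900) (nat_lit 0) (XT.nd (nat_lit 234) (nat_lit 836) (nat_lit 0) (XT.nd (nat_lit 78) (nat_lit 988) (nat_lit 0) (XT.lf (nat_lit 0) (nat_lit 7660225226) (nat_lit 228) (nat_lit 1319080830) (nat_lit 304) (nat_lit 1927428330) (nat_lit 109) (nat_lit 5) (nat_lit 112) (nat_lit 5) (nat_lit 113) (nat_lit 4) (nat_lit 463) (nat_lit 374) (nat_lit 363)) (XT.nd (nat_lit 78) (nat_lit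 608) (nat_lit 0) (XT.lf (nat_lit 0) (nat_lit 5259969888) (nat_lit 380) (nat_lit 426074978) (nat_lit 76) (nat_lit 5381677023) (nat_lit 104) (nat_lit 5) (nat_lit 109) (nat_lit 5) (nat_lit 105) (nat_lit 4) (nat_lit 464) (nat_lit 374) (nat_lit 362)) (XT.lf (nat_lit 0) (nat_lit 1385079980) (nat_lit 380) (nat_lit 8777849626) (nat_lit 76) (nat_lit 1070178356) (nat_lit 96) (nat_lit 5) (nat_lit 101) (nat_lit 5) (nat_lit 97) (nat_lit 4) (nat_lit 465) (nat_lit 374) (nat_lit 361)))) (XT.nd (nat_lit 78) (nat_lit 608) (nat_lit 0) (XT.lf (nat_lit 0) (nat_lit 5330995407) (nat_lit 228) (nat_lit 3394898709) (nat_lit 304) (nat_lit 2676576884) (nat_lit 93) (nat_lit 5) (nat_lit 96) (nat_lit 5) (nat_lit 97) (nat_lit 4) (nat_lit 466) (nat_lit 374) (nat_lit 360)) (XT.nd (nat_lit 78) (nat_lit 304) (nat_lit 0) (XT.lf (nat_lit 0) (nat_lit 4643453893) (nat_lit 304) (nat_lit 3359390804) (nat_lit 76) (nat_lit 3573559398) (nat_lit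 89) (nat_lit 5) (nat_lit 93) (nat_lit 5) (nat_lit 90) (nat_lit 4) (nat_lit 467) (nat_lit 374) (nat_lit 359)) (XT.lf (nat_lit 0) (nat_lit 383154750) (nat_lit 304) (nat_lit 632046230) (nat_lit 76) (nat_lit 10740018840) (nat_lit 85) (nat_lit 5) (nat_lit 89) (nat_lit 5) (nat_lit 86) (nat_lit 5) (nat_lit 468) (nat_lit 374) (nat_lit 358))))) (XT.nd (nat_lit 234) (nat_lit 912) (nat_lit 0) (XT.nd (nat_lit 78) (nat_lit 532) (nat_lit 0) (XT.lf (nat_lit 0) (nat_lit 2093152229) (nat_lit 228) (nat_lit 5762020414) (nat_lit 304) (nat_lit 4082702986) (nat_lit 79) (nat_lit 5) (nat_lit 82) (nat_lit 5) (nat_lit 83) (nat_lit 4) (nat_lit 469) (nat_lit 374) (nat_lit 357)) (XT.nd (nat_lit 78) (nat_lit 228) (nat_lit 0) (XT.lf (nat_lit 0) (nat_lit 3378453276) (nat_lit 304) (nat_lit 7282215006) (nat_lit 76) (nat_lit 1464941649) (nat_lit 75) (nat_lit 5) (nat_lit 79) (nat_lit 5) (nat_lit 76) (nat_lit 4) (nat_lit 470) (nat_lit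 374) (nat_lit 356)) (XT.lf (nat_lit 0) (nat_lit 7581368312) (nat_lit 228) (nat_lit 3444864056) (nat_lit 304) (nat_lit 1291843269) (nat_lit 72) (nat_lit 5) (nat_lit 75) (nat_lit 5) (nat_lit 76) (nat_lit 4) (nat_lit 471) (nat_lit 374) (nat_lit 355)))) (XT.nd (nat_lit 78) (nat_lit 608) (nat_lit 0) (XT.lf (nat_lit 0) (nat_lit 6310953362) (nat_lit 304) (nat_lit 2212182747) (nat_lit 76) (nat_lit 3992201997) (nat_lit 68) (nat_lit 5) (nat_lit 72) (nat_lit 5) (nat_lit 69) (nat_lit 4) (nat_lit 472) (nat_lit 374) (nat_lit 354)) (XT.nd (nat_lit 78) (nat_lit 152) (nat_lit 0) (XT.lf (nat_lit 0) (nat_lit 320081862) (nat_lit 228) (nat_lit 1076004955) (nat_lit 304) (nat_lit 11321910301) (nat_lit 62) (nat_lit 5) (nat_lit 65) (nat_lit 5) (nat_lit 66) (nat_lit 5) (nat_lit 473) (nat_lit 374) (nat_lit 353)) (XT.lf (nat_lit 0) (nat_lit 2839215135) (nat_lit 152) (nat_lit 6344267893) (nat_lit 228) (nat_lit 3741572296) (nat_lit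 60) (nat_lit 5) (nat_lit 62) (nat_lit 5) (nat_lit 63) (nat_lit 4) (nat_lit 474) (nat_lit 374) (nat_lit 352)))))) (XT.nd (nat_lit 468) (nat_lit 1368) (nat_lit 0) (XT.nd (nat_lit 234) (nat_lit 760) (nat_lit 0) (XT.nd (nat_lit 78) (nat_lit 456) (nat_lit 0) (XT.lf (nat_lit 0) (nat_lit 4015385994) (nat_lit 304) (nat_lit 7782001667) (nat_lit 76) (nat_lit 1340362376) (nat_lit 56) (nat_lit 5) (nat_lit 60) (nat_lit 5) (nat_lit 57) (nat_lit 4) (nat_lit 475) (nat_lit 374) (nat_lit 351)) (XT.nd (nat_lit 78) (nat_lit 304) (nat_lit 0) (XT.lf (nat_lit 0) (nat_lit 7842067895) (nat_lit 152) (nat_lit 4143384191) (nat_lit 228) (nat_lit 1370257658) (nat_lit 54) (nat_lit 5) (nat_lit 56) (nat_lit 5) (nat_lit 57) (nat_lit 4) (nat_lit 476) (nat_lit 374) (nat_lit 350)) (XT.lf (nat_lit 0) (nat_lit 6542697723) (nat_lit 304) (nat_lit 3283908245) (nat_lit 76) (nat_lit 3752445945) (nat_lit 50) (nat_lit 5) (nat_lit 54) (nat_lit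 5) (nat_lit 51) (nat_lit 4) (nat_lit 477) (nat_lit 374) (nat_lit 349)))) (XT.nd (nat_lit 78) (nat_lit 532) (nat_lit 0) (XT.lf (nat_lit 0) (nat_lit 874329113) (nat_lit 228) (nat_lit 1070990669) (nat_lit 76) (nat_lit 11863080775) (nat_lit 47) (nat_lit 5) (nat_lit 50) (nat_lit 5) (nat_lit 48) (nat_lit 5) (nat_lit 478) (nat_lit 374) (nat_lit 348)) (XT.nd (nat_lit 78) (nat_lit 228) (nat_lit 0) (XT.lf (nat_lit 0) (nat_lit 1091801150) (nat_lit 152) (nat_lit 7877215883) (nat_lit 228) (nat_lit 5073839833) (nat_lit 43) (nat_lit 5) (nat_lit 45) (nat_lit 5) (nat_lit 46) (nat_lit 4) (nat_lit 479) (nat_lit 374) (nat_lit 347)) (XT.lf (nat_lit 0) (nat_lit 2999829035) (nat_lit 228) (nat_lit 11030201050) (nat_lit 76) (nat_lit 253581875) (nat_lit 40) (nat_lit 5) (nat_lit 43) (nat_lit 5) (nat_lit 41) (nat_lit 4) (nat_lit 480) (nat_lit 374) (nat_lit 346))))) (XT.nd (nat_lit 234) (nat_lit 836) (nat_lit 0) (XT.nd (nat_lit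 78) (nat_lit 380) (nat_lit 0) (XT.lf (nat_lit 0) (nat_lit 5343483461) (nat_lit 152) (nat_lit 5953458447) (nat_lit 228) (nat_lit 3232976480) (nat_lit 38) (nat_lit 5) (nat_lit 40) (nat_lit 5) (nat_lit 41) (nat_lit 4) (nat_lit 481) (nat_lit 374) (nat_lit 345)) (XT.nd (nat_lit 78) (nat_lit 152) (nat_lit 0) (XT.lf (nat_lit 0) (nat_lit 5007512985) (nat_lit 228) (nat_lit 7386358953) (nat_lit 76) (nat_lit 2388797496) (nat_lit 35) (nat_lit 5) (nat_lit 38) (nat_lit 5) (nat_lit 36) (nat_lit 4) (nat_lit 482) (nat_lit 374) (nat_lit 344)) (XT.lf (nat_lit 0) (nat_lit 9395052466) (nat_lit 152) (nat_lit 4096899175) (nat_lit 228) (nat_lit 1549813391) (nat_lit 33) (nat_lit 5) (nat_lit 35) (nat_lit 5) (nat_lit 36) (nat_lit 4) (nat_lit 483) (nat_lit 374) (nat_lit 343)))) (XT.nd (nat_lit 156) (nat_lit 532) (nat_lit 0) (XT.nd (nat_lit 78) (nat_lit 76) (nat_lit 0) (XT.lf (nat_lit 0) (nat_lit 6863193850) (nat_lit 228) (nat_lit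 3984820926) (nat_lit 76) (nat_lit 4459088480) (nat_lit 30) (nat_lit 5) (nat_lit 33) (nat_lit 5) (nat_lit 31) (nat_lit 4) (nat_lit 484) (nat_lit 374) (nat_lit 342)) (XT.lf (nat_lit 0) (nat_lit 13210370905) (nat_lit 76) (nat_lit 2328685979) (nat_lit 152) (nat_lit 40511813) (nat_lit 29) (nat_lit 5) (nat_lit 30) (nat_lit 5) (nat_lit 31) (nat_lit 4) (nat_lit 485) (nat_lit 374) (nat_lit 341))) (XT.nd (nat_lit 78) (nat_lit 304) (nat_lit 0) (XT.lf (nat_lit 0) (nat_lit 8550208511) (nat_lit 228) (nat_lit 864816403) (nat_lit 76) (nat_lit 6443102617) (nat_lit 26) (nat_lit 5) (nat_lit 29) (nat_lit 5) (nat_lit 27) (nat_lit 4) (nat_lit 486) (nat_lit 374) (nat_lit 340)) (XT.lf (nat_lit 0) (nat_lit 604228485) (nat_lit 152) (nat_lit 659370123) (nat_lit 228) (nat_lit 14880739203) (nat_lit 22) (nat_lit 5) (nat_lit 24) (nat_lit 5) (nat_lit 25) (nat_lit 5) (nat_lit 487) (nat_lit 374) (nat_lit 339))))))) (XT.nd (nat_lit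 60372) (nat_lit 0) (nat_lit 3572) (XT.nd (nat_lit 59826) (nat_lit 0) (nat_lit 8208) (XT.nd (nat_lit 59592) (nat_lit 0) (nat_lit 11628) (XT.nd (nat_lit 78) (nat_lit 228) (nat_lit 0) (XT.lf (nat_lit 0) (nat_lit 1955642260) (nat_lit 76) (nat_lit 8106539470) (nat_lit 152) (nat_lit 6374604545) (nat_lit 21) (nat_lit 5) (nat_lit 22) (nat_lit 5) (nat_lit 23) (nat_lit 4) (nat_lit 488) (nat_lit 374) (nat_lit 338)) (XT.nd (nat_lit 59436) (nat_lit 0) (nat_lit 13452) (XT.lf (nat_lit 0) (nat_lit 2375558013) (nat_lit 228) (nat_lit 13487474969) (nat_lit 76) (nat_lit 874264364) (nat_lit 18) (nat_lit 5) (nat_lit 21) (nat_lit 5) (nat_lit 19) (nat_lit 4) (nat_lit 489) (nat_lit 374) (nat_lit 337)) (XT.lf (nat_lit 0) (nat_lit 4044007040) (nat_lit 456) (nat_lit 268755940) (nat_lit 456) (nat_lit 268755940) (nat_lit 195) (nat_lit 4) (nat_lit 201) (nat_lit 5) (nat_lit 201) (nat_lit 4) (nat_lit 450) (nat_lit 375) (nat_lit 375))))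 (XT.nd (nat_lit 78) (nat_lit 912) (nat_lit 0) (XT.lf (nat_lit 0) (nat_lit 1722497293) (nat_lit 456) (nat_lit 4427552732) (nat_lit 456) (nat_lit 3126743657) (nat_lit 183) (nat_lit 4) (nat_lit 189) (nat_lit 5) (nat_lit 189) (nat_lit 4) (nat_lit 451) (nat_lit 375) (nat_lit 374)) (XT.nd (nat_lit 78) (nat_lit 456) (nat_lit 0) (XT.lf (nat_lit 0) (nat_lit 3549017224) (nat_lit 456) (nat_lit 4809661366) (nat_lit 0) (nat_lit 1035555941) (nat_lit 177) (nat_lit 5) (nat_lit 183) (nat_lit 4) (nat_lit 177) (nat_lit 4) (nat_lit 452) (nat_lit 375) (nat_lit 373)) (XT.lf (nat_lit 0) (nat_lit 830828336) (nat_lit 456) (nat_lit 2037283447) (nat_lit 76) (nat_lit 6647080995) (nat_lit 171) (nat_lit 5) (nat_lit 177) (nat_lit 5) (nat_lit 172) (nat_lit 4) (nat_lit 453) (nat_lit 375) (nat_lit 372))))) (XT.nd (nat_lit 234) (nat_lit 1748) (nat_lit 0) (XT.nd (nat_lit 78) (nat_lit 912) (nat_lit 0) (XT.lf (nat_lit 0) (nat_lit 770955352)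 (nat_lit 380) (nat_lit 6827771001) (nat_lit 380) (nat_lit 2040869427) (nat_lit 161) (nat_lit 4) (nat_lit 166) (nat_lit 5) (nat_lit 166) (nat_lit 4) (nat_lit 454) (nat_lit 375) (nat_lit 371)) (XT.nd (nat_lit 78) (nat_lit 456) (nat_lit 0) (XT.lf (nat_lit 0) (nat_lit 3638954443) (nat_lit 380) (nat_lit 1082198414) (nat_lit 456) (nat_lit 5046318488) (nat_lit 155) (nat_lit 5) (nat_lit 160) (nat_lit 5) (nat_lit 161) (nat_lit 4) (nat_lit 455) (nat_lit 375) (nat_lit 370)) (XT.lf (nat_lit 0) (nat_lit 1719512715) (nat_lit 456) (nat_lit 3366085852) (nat_lit 76) (nat_lit 4813430139) (nat_lit 149) (nat_lit 5) (nat_lit 155) (nat_lit 5) (nat_lit 150) (nat_lit 4) (nat_lit 456) (nat_lit 375) (nat_lit 369)))) (XT.nd (nat_lit 156) (nat_lit 684) (nat_lit 0) (XT.nd (nat_lit 78) (nat_lit 760) (nat_lit 0) (XT.lf (nat_lit 0) (nat_lit 8587067392) (nat_lit 380) (nat_lit 572229589) (nat_lit 0) (nat_lit 875229941) (nat_lit 145)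 (nat_lit 5) (nat_lit 150) (nat_lit 4) (nat_lit 145) (nat_lit 4) (nat_lit 457) (nat_lit 375) (nat_lit 368)) (XT.lf (nat_lit 0) (nat_lit 2259079263) (nat_lit 304) (nat_lit 3160745788) (nat_lit 380) (nat_lit 4753455178) (nat_lit 135) (nat_lit 5) (nat_lit 139) (nat_lit 5) (nat_lit 140) (nat_lit 4) (nat_lit 458) (nat_lit 375) (nat_lit 367))) (XT.nd (nat_lit 78) (nat_lit 304) (nat_lit 0) (XT.lf (nat_lit 0) (nat_lit 2111030939) (nat_lit 380) (nat_lit 5184381362) (nat_lit 76) (nat_lit 3020681685) (nat_lit 130) (nat_lit 5) (nat_lit 135) (nat_lit 5) (nat_lit 131) (nat_lit 4) (nat_lit 459) (nat_lit 375) (nat_lit 366)) (XT.lf (nat_lit 0) (nat_lit 8027971422) (nat_lit 304) (nat_lit 1070847556) (nat_lit 380) (nat_lit 1364112336) (nat_lit 126) (nat_lit 5) (nat_lit 130) (nat_lit 5) (nat_lit 131) (nat_lit 4) (nat_lit 460) (nat_lit 375) (nat_lit 365)))))) (XT.nd (nat_lit 468) (nat_lit 2128) (nat_lit 0) (XT.nd (nat_lit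 234) (nat_lit 1216) (nat_lit 0) (XT.nd (nat_lit 78) (nat_lit 608) (nat_lit 0) (XT.lf (nat_lit 0) (nat_lit 318536145) (nat_lit 304) (nat_lit 5288738402) (nat_lit 380) (nat_lit 5006173014) (nat_lit 117) (nat_lit 5) (nat_lit 121) (nat_lit 5) (nat_lit 122) (nat_lit 4) (nat_lit 461) (nat_lit 375) (nat_lit 364)) (XT.nd (nat_lit 78) (nat_lit 228) (nat_lit 0) (XT.lf (nat_lit 0) (nat_lit 1970634014) (nat_lit 380) (nat_lit 7629724879) (nat_lit 76) (nat_lit 1167768030) (nat_lit 112) (nat_lit 5) (nat_lit 117) (nat_lit 5) (nat_lit 113) (nat_lit 4) (nat_lit 462) (nat_lit 375) (nat_lit 363)) (XT.lf (nat_lit 0) (nat_lit 5959389956) (nat_lit 228) (nat_lit 3131729337) (nat_lit 304) (nat_lit 1835623533) (nat_lit 109) (nat_lit 5) (nat_lit 112) (nat_lit 5) (nat_lit 113) (nat_lit 4) (nat_lit 463) (nat_lit 375) (nat_lit 362)))) (XT.nd (nat_lit 78) (nat_lit 836) (nat_lit 0) (XT.lf (nat_lit 0) (nat_lit 5257064302) (nat_lit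 380) (nat_lit 2298183540) (nat_lit 76) (nat_lit 3534343385) (nat_lit 104) (nat_lit 5) (nat_lit 109) (nat_lit 5) (nat_lit 105) (nat_lit 4) (nat_lit 464) (nat_lit 375) (nat_lit 361)) (XT.nd (nat_lit 78) (nat_lit 228) (nat_lit 0) (XT.lf (nat_lit 0) (nat_lit 398106723) (nat_lit 304) (nat_lit 860166579) (nat_lit 380) (nat_lit 9998756914) (nat_lit 96) (nat_lit 5) (nat_lit 100) (nat_lit 5) (nat_lit 101) (nat_lit 5) (nat_lit 465) (nat_lit 375) (nat_lit 360)) (XT.lf (nat_lit 0) (nat_lit 3108830990) (nat_lit 228) (nat_lit 5401684285) (nat_lit 304) (nat_lit 2917651911) (nat_lit 93) (nat_lit 5) (nat_lit 96) (nat_lit 5) (nat_lit 97) (nat_lit 4) (nat_lit 466) (nat_lit 375) (nat_lit 359))))) (XT.nd (nat_lit 234) (nat_lit 1292) (nat_lit 0) (XT.nd (nat_lit 78) (nat_lit 532) (nat_lit 0) (XT.lf (nat_lit 0) (nat_lit 4308774786) (nat_lit 304) (nat_lit 5767550846) (nat_lit 76) (nat_lit 1527743637) (nat_lit 89) (nat_lit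 5) (nat_lit 93) (nat_lit 5) (nat_lit 90) (nat_lit 4) (nat_lit 467) (nat_lit 375) (nat_lit 358)) (XT.nd (nat_lit 78) (nat_lit 304) (nat_lit 0) (XT.lf (nat_lit 0) (nat_lit 8568387096) (nat_lit 228) (nat_lit 3157002038) (nat_lit 304) (nat_lit 59217548) (nat_lit 86) (nat_lit 5) (nat_lit 89) (nat_lit 5) (nat_lit 90) (nat_lit 4) (nat_lit 468) (nat_lit 375) (nat_lit 357)) (XT.lf (nat_lit 0) (nat_lit 7301819024) (nat_lit 304) (nat_lit 685342670) (nat_lit 76) (nat_lit 3982345835) (nat_lit 82) (nat_lit 5) (nat_lit 86) (nat_lit 5) (nat_lit 83) (nat_lit 4) (nat_lit 469) (nat_lit 375) (nat_lit 356)))) (XT.nd (nat_lit 156) (nat_lit 532) (nat_lit 0) (XT.nd (nat_lit 78) (nat_lit 228) (nat_lit 0) (XT.lf (nat_lit 0) (nat_lit 1882581987) (nat_lit 228) (nat_lit 818714354) (nat_lit 304) (nat_lit 9458020407) (nat_lit 75) (nat_lit 5) (nat_lit 78) (nat_lit 5) (nat_lit 79) (nat_lit 5) (nat_lit 470) (nat_lit 375) (nat_lit 355))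 (XT.lf (nat_lit 0) (nat_lit 4435619089) (nat_lit 228) (nat_lit 5822209068) (nat_lit 304) (nat_lit 2095781266) (nat_lit 72) (nat_lit 5) (nat_lit 75) (nat_lit 5) (nat_lit 76) (nat_lit 4) (nat_lit 471) (nat_lit 375) (nat_lit 354))) (XT.nd (nat_lit 78) (nat_lit 228) (nat_lit 0) (XT.lf (nat_lit 0) (nat_lit 5415213686) (nat_lit 304) (nat_lit 5567686819) (nat_lit 76) (nat_lit 1570124615) (nat_lit 68) (nat_lit 5) (nat_lit 72) (nat_lit 5) (nat_lit 69) (nat_lit 4) (nat_lit 472) (nat_lit 375) (nat_lit 353)) (XT.lf (nat_lit 0) (nat_lit 385501714) (nat_lit 228) (nat_lit 3231891934) (nat_lit 76) (nat_lit 9140201533) (nat_lit 65) (nat_lit 5) (nat_lit 68) (nat_lit 5) (nat_lit 66) (nat_lit 5) (nat_lit 473) (nat_lit 375) (nat_lit 352))))))))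
noncomputable def xc8 : XT := (XT.nd (nat_lit 61152) (nat_lit 0) (nat_lit 1444) (XT.nd (nat_lit 936) (nat_lit 608) (nat_lit 0) (XT.nd (nat_lit 468) (nat_lit 1216) (nat_lit 0) (XT.nd (nat_lit 234) (nat_lit 684) (nat_lit 0) (XT.nd (nat_lit 78) (nat_lit 608) (nat_lit 0) (XT.lf (nat_lit 0) (nat_lit 8052292350) (nat_lit 304) (nat_lit 931163166) (nat_lit 76) (nat_lit 3983611763) (nat_lit 62) (nat_lit 5) (nat_lit 66) (nat_lit 5) (nat_lit 63) (nat_lit 4) (nat_lit 474) (nat_lit 375) (nat_lit 351)) (XT.nd (nat_lit 78) (nat_lit 152) (nat_lit 0) (XT.lf (nat_lit 0) (nat_lit 1381453091) (nat_lit 228) (nat_lit 1371720793) (nat_lit 304) (nat_lit 10428830069) (nat_lit 56) (nat_lit 5) (nat_lit 59) (nat_lit 5) (nat_lit 60) (nat_lit 5) (nat_lit 475) (nat_lit 375) (nat_lit 350)) (XT.lf (nat_lit 0) (nat_lit 3664737912) (nat_lit 152) (nat_lit 6959726947) (nat_lit 228) (nat_lit 2777475949) (nat_lit 54) (nat_lit 5) (nat_lit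 56) (nat_lit 5) (nat_lit 57) (nat_lit 4) (nat_lit 476) (nat_lit 375) (nat_lit 349)))) (XT.nd (nat_lit 78) (nat_lit 380) (nat_lit 0) (XT.lf (nat_lit 0) (nat_lit 5044564195) (nat_lit 304) (nat_lit 7697089613) (nat_lit 76) (nat_lit 886000888) (nat_lit 50) (nat_lit 5) (nat_lit 54) (nat_lit 5) (nat_lit 51) (nat_lit 4) (nat_lit 477) (nat_lit 375) (nat_lit 348)) (XT.nd (nat_lit 78) (nat_lit 228) (nat_lit 0) (XT.lf (nat_lit 0) (nat_lit 8158990628) (nat_lit 152) (nat_lit 4946299013) (nat_lit 228) (nat_lit 753651080) (nat_lit 48) (nat_lit 5) (nat_lit 50) (nat_lit 5) (nat_lit 51) (nat_lit 4) (nat_lit 478) (nat_lit 375) (nat_lit 347)) (XT.lf (nat_lit 0) (nat_lit 7232042714) (nat_lit 228) (nat_lit 3751915675) (nat_lit 76) (nat_lit 3111915519) (nat_lit 45) (nat_lit 5) (nat_lit 48) (nat_lit 5) (nat_lit 46) (nat_lit 4) (nat_lit 479) (nat_lit 375) (nat_lit 346))))) (XT.nd (nat_lit 234) (nat_lit 456) (nat_lit 0) (XT.nd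 (nat_lit 78) (nat_lit 532) (nat_lit 0) (XT.lf (nat_lit 0) (nat_lit 1124689446) (nat_lit 228) (nat_lit 1834222766) (nat_lit 76) (nat_lit 11380123088) (nat_lit 42) (nat_lit 5) (nat_lit 45) (nat_lit 5) (nat_lit 43) (nat_lit 5) (nat_lit 480) (nat_lit 375) (nat_lit 345)) (XT.nd (nat_lit 78) (nat_lit 228) (nat_lit 0) (XT.lf (nat_lit 0) (nat_lit 14802088) (nat_lit 152) (nat_lit 9280812587) (nat_lit 228) (nat_lit 5292252143) (nat_lit 38) (nat_lit 5) (nat_lit 40) (nat_lit 5) (nat_lit 41) (nat_lit 4) (nat_lit 481) (nat_lit 375) (nat_lit 344)) (XT.lf (nat_lit 0) (nat_lit 1856805727) (nat_lit 152) (nat_lit 1007077328) (nat_lit 228) (nat_lit 11979230724) (nat_lit 35) (nat_lit 5) (nat_lit 37) (nat_lit 5) (nat_lit 38) (nat_lit 5) (nat_lit 482) (nat_lit 375) (nat_lit 343)))) (XT.nd (nat_lit 78) (nat_lit 304) (nat_lit 0) (XT.lf (nat_lit 0) (nat_lit 3617375172) (nat_lit 152) (nat_lit 7628036950) (nat_lit 228) (nat_lit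 3858856683) (nat_lit 33) (nat_lit 5) (nat_lit 35) (nat_lit 5) (nat_lit 36) (nat_lit 4) (nat_lit 483) (nat_lit 375) (nat_lit 342)) (XT.nd (nat_lit 78) (nat_lit 76) (nat_lit 0) (XT.lf (nat_lit 0) (nat_lit 4463577620) (nat_lit 228) (nat_lit 10037504426) (nat_lit 76) (nat_lit 871243124) (nat_lit 30) (nat_lit 5) (nat_lit 33) (nat_lit 5) (nat_lit 31) (nat_lit 4) (nat_lit 484) (nat_lit 375) (nat_lit 341)) (XT.lf (nat_lit 0) (nat_lit 6969241575) (nat_lit 76) (nat_lit 6072150078) (nat_lit 152) (nat_lit 2605361079) (nat_lit 29) (nat_lit 5) (nat_lit 30) (nat_lit 5) (nat_lit 31) (nat_lit 4) (nat_lit 485) (nat_lit 375) (nat_lit 340)))))) (XT.nd (nat_lit 59670) (nat_lit 0) (nat_lit 9728) (XT.nd (nat_lit 234) (nat_lit 76) (nat_lit 0) (XT.nd (nat_lit 78) (nat_lit 304) (nat_lit 0) (XT.lf (nat_lit 0) (nat_lit 5894991785) (nat_lit 228) (nat_lit 7391601649) (nat_lit 76) (nat_lit 2641532390) (nat_lit 26) (nat_lit 5) (nat_lit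 29) (nat_lit 5) (nat_lit 27) (nat_lit 4) (nat_lit 486) (nat_lit 375) (nat_lit 339)) (XT.nd (nat_lit 78) (nat_lit 228) (nat_lit 0) (XT.lf (nat_lit 0) (nat_lit 10029544089) (nat_lit 76) (nat_lit 4636372045) (nat_lit 152) (nat_lit 1550662537) (nat_lit 25) (nat_lit 5) (nat_lit 26) (nat_lit 5) (nat_lit 27) (nat_lit 4) (nat_lit 487) (nat_lit 375) (nat_lit 338)) (XT.lf (nat_lit 0) (nat_lit 7132131081) (nat_lit 228) (nat_lit 5086333502) (nat_lit 76) (nat_lit 4293487448) (nat_lit 22) (nat_lit 5) (nat_lit 25) (nat_lit 5) (nat_lit 23) (nat_lit 4) (nat_lit 488) (nat_lit 375) (nat_lit 337)))) (XT.nd (nat_lit 59280) (nat_lit 0) (nat_lit 13680) (XT.lf (nat_lit 0) (nat_lit 12752788983) (nat_lit 76) (nat_lit 3346061084) (nat_lit 152) (nat_lit 716243326) (nat_lit 21) (nat_lit 5) (nat_lit 22) (nat_lit 5) (nat_lit 23) (nat_lit 4) (nat_lit 489) (nat_lit 375) (nat_lit 336)) (XT.nd (nat_lit 78) (nat_lit 532) (nat_lit 0)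 (XT.lf (nat_lit 0) (nat_lit 1254915198) (nat_lit 456) (nat_lit 1608372424) (nat_lit 456) (nat_lit 1608372424) (nat_lit 208) (nat_lit 4) (nat_lit 214) (nat_lit 5) (nat_lit 214) (nat_lit 4) (nat_lit 448) (nat_lit 376) (nat_lit 376)) (XT.lf (nat_lit 0) (nat_lit 3292231027) (nat_lit 532) (nat_lit 3834318445) (nat_lit 0) (nat_lit 1925601013) (nat_lit 201) (nat_lit 5) (nat_lit 208) (nat_lit 4) (nat_lit 201) (nat_lit 4) (nat_lit 449) (nat_lit 376) (nat_lit 375))))) (XT.nd (nat_lit 234) (nat_lit 2128) (nat_lit 0) (XT.nd (nat_lit 78) (nat_lit 1292) (nat_lit 0) (XT.lf (nat_lit 0) (nat_lit 740492733) (nat_lit 532) (nat_lit 1197659950) (nat_lit 76) (nat_lit 7226337247) (nat_lit 194) (nat_lit 5) (nat_lit 201) (nat_lit 5) (nat_lit 195) (nat_lit 4) (nat_lit 450) (nat_lit 376) (nat_lit 374)) (XT.nd (nat_lit 78) (nat_lit 456) (nat_lit 0) (XT.lf (nat_lit 0) (nat_lit 1482600108) (nat_lit 456) (nat_lit 5850451687) (nat_lit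 456) (nat_lit 1946887831) (nat_lit 183) (nat_lit 4) (nat_lit 189) (nat_lit 5) (nat_lit 189) (nat_lit 4) (nat_lit 451) (nat_lit 376) (nat_lit 373)) (XT.lf (nat_lit 0) (nat_lit 4220207128) (nat_lit 380) (nat_lit 408460345) (nat_lit 456) (nat_lit 4770258793) (nat_lit 177) (nat_lit 5) (nat_lit 182) (nat_lit 5) (nat_lit 183) (nat_lit 4) (nat_lit 452) (nat_lit 376) (nat_lit 372)))) (XT.nd (nat_lit 156) (nat_lit 912) (nat_lit 0) (XT.nd (nat_lit 78) (nat_lit 760) (nat_lit 0) (XT.lf (nat_lit 0) (nat_lit 1811027624) (nat_lit 456) (nat_lit 2537925908) (nat_lit 76) (nat_lit 5172408769) (nat_lit 171) (nat_lit 5) (nat_lit 177) (nat_lit 5) (nat_lit 172) (nat_lit 4) (nat_lit 453) (nat_lit 376) (nat_lit 371)) (XT.lf (nat_lit 0) (nat_lit 141873745) (nat_lit 380) (nat_lit 8345651954) (nat_lit 380) (nat_lit 1160071638) (nat_lit 161) (nat_lit 4) (nat_lit 166) (nat_lit 5) (nat_lit 166) (nat_lit 4) (nat_lit 454) (nat_lit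 376) (nat_lit 370))) (XT.nd (nat_lit 78) (nat_lit 456) (nat_lit 0) (XT.lf (nat_lit 0) (nat_lit 2870049012) (nat_lit 380) (nat_lit 2641904733) (nat_lit 456) (nat_lit 4264977526) (nat_lit 155) (nat_lit 5) (nat_lit 160) (nat_lit 5) (nat_lit 161) (nat_lit 4) (nat_lit 455) (nat_lit 376) (nat_lit 369)) (XT.lf (nat_lit 0) (nat_lit 2401750848) (nat_lit 456) (nat_lit 4277092374) (nat_lit 76) (nat_lit 3231324714) (nat_lit 149) (nat_lit 5) (nat_lit 155) (nat_lit 5) (nat_lit 150) (nat_lit 4) (nat_lit 456) (nat_lit 376) (nat_lit 368))))))) (XT.nd (nat_lit 936) (nat_lit 3496) (nat_lit 0) (XT.nd (nat_lit 468) (nat_lit 1976) (nat_lit 0) (XT.nd (nat_lit 234) (nat_lit 1368) (nat_lit 0) (XT.nd (nat_lit 78) (nat_lit 1140) (nat_lit 0) (XT.lf (nat_lit 0) (nat_lit 8429146461) (nat_lit 304) (nat_lit 756223853) (nat_lit 380) (nat_lit 861978091) (nat_lit 145) (nat_lit 5) (nat_lit 149) (nat_lit 5) (nat_lit 150) (nat_lit 4) (nat_lit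 457) (nat_lit 376) (nat_lit 367)) (XT.nd (nat_lit 78) (nat_lit 380) (nat_lit 0) (XT.lf (nat_lit 0) (nat_lit 1055486826) (nat_lit 304) (nat_lit 4850910635) (nat_lit 380) (nat_lit 4281456210) (nat_lit 135) (nat_lit 5) (nat_lit 139) (nat_lit 5) (nat_lit 140) (nat_lit 4) (nat_lit 458) (nat_lit 376) (nat_lit 366)) (XT.lf (nat_lit 0) (nat_lit 2486042660) (nat_lit 380) (nat_lit 6543365084) (nat_lit 76) (nat_lit 1303017548) (nat_lit 130) (nat_lit 5) (nat_lit 135) (nat_lit 5) (nat_lit 131) (nat_lit 4) (nat_lit 459) (nat_lit 376) (nat_lit 365)))) (XT.nd (nat_lit 78) (nat_lit 1064) (nat_lit 0) (XT.lf (nat_lit 0) (nat_lit 6534982073) (nat_lit 304) (nat_lit 2859489226) (nat_lit 380) (nat_lit 1086381631) (nat_lit 126) (nat_lit 5) (nat_lit 130) (nat_lit 5) (nat_lit 131) (nat_lit 4) (nat_lit 460) (nat_lit 376) (nat_lit 364)) (XT.nd (nat_lit 78) (nat_lit 684) (nat_lit 0) (XT.lf (nat_lit 0) (nat_lit 5787810550) (nat_lit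 380) (nat_lit 1340970058) (nat_lit 76) (nat_lit 3504426522) (nat_lit 121) (nat_lit 5) (nat_lit 126) (nat_lit 5) (nat_lit 122) (nat_lit 4) (nat_lit 461) (nat_lit 376) (nat_lit 363)) (XT.lf (nat_lit 0) (nat_lit 1308760773) (nat_lit 304) (nat_lit 723019082) (nat_lit 380) (nat_lit 8758039027) (nat_lit 112) (nat_lit 5) (nat_lit 116) (nat_lit 5) (nat_lit 117) (nat_lit 5) (nat_lit 462) (nat_lit 376) (nat_lit 362))))) (XT.nd (nat_lit 234) (nat_lit 1064) (nat_lit 0) (XT.nd (nat_lit 78) (nat_lit 684) (nat_lit 0) (XT.lf (nat_lit 0) (nat_lit 3972366067) (nat_lit 228) (nat_lit 5094254786) (nat_lit 304) (nat_lit 1883529564) (nat_lit 109) (nat_lit 5) (nat_lit 112) (nat_lit 5) (nat_lit 113) (nat_lit 4) (nat_lit 463) (nat_lit 376) (nat_lit 361)) (XT.nd (nat_lit 78) (nat_lit 304) (nat_lit 0) (XT.lf (nat_lit 0) (nat_lit 5115438092) (nat_lit 380) (nat_lit 4461794858) (nat_lit 76) (nat_lit 1537661673) (nat_lit 104) (nat_lit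 5) (nat_lit 109) (nat_lit 5) (nat_lit 105) (nat_lit 4) (nat_lit 464) (nat_lit 376) (nat_lit 360)) (XT.lf (nat_lit 0) (nat_lit 1009129448) (nat_lit 304) (nat_lit 1938838434) (nat_lit 76) (nat_lit 8336077965) (nat_lit 100) (nat_lit 5) (nat_lit 104) (nat_lit 5) (nat_lit 101) (nat_lit 5) (nat_lit 465) (nat_lit 376) (nat_lit 359)))) (XT.nd (nat_lit 78) (nat_lit 532) (nat_lit 0) (XT.lf (nat_lit 0) (nat_lit 585284045) (nat_lit 228) (nat_lit 7566744710) (nat_lit 304) (nat_lit 3305343331) (nat_lit 93) (nat_lit 5) (nat_lit 96) (nat_lit 5) (nat_lit 97) (nat_lit 4) (nat_lit 466) (nat_lit 376) (nat_lit 358)) (XT.nd (nat_lit 78) (nat_lit 228) (nat_lit 0) (XT.lf (nat_lit 0) (nat_lit 3148007616) (nat_lit 228) (nat_lit 684799305) (nat_lit 304) (nat_lit 7802387111) (nat_lit 89) (nat_lit 5) (nat_lit 92) (nat_lit 5) (nat_lit 93) (nat_lit 5) (nat_lit 467) (nat_lit 376) (nat_lit 357)) (XT.lf (nat_lit 0) (nat_lit 5703333245)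 (nat_lit 228) (nat_lit 5458142346) (nat_lit 304) (nat_lit 656017001) (nat_lit 86) (nat_lit 5) (nat_lit 89) (nat_lit 5) (nat_lit 90) (nat_lit 4) (nat_lit 468) (nat_lit 376) (nat_lit 356)))))) (XT.nd (nat_lit 468) (nat_lit 1672) (nat_lit 0) (XT.nd (nat_lit 234) (nat_lit 760) (nat_lit 0) (XT.nd (nat_lit 78) (nat_lit 760) (nat_lit 0) (XT.lf (nat_lit 0) (nat_lit 6613522177) (nat_lit 304) (nat_lit 3749909795) (nat_lit 76) (nat_lit 1641027578) (nat_lit 82) (nat_lit 5) (nat_lit 86) (nat_lit 5) (nat_lit 83) (nat_lit 4) (nat_lit 469) (nat_lit 376) (nat_lit 355)) (XT.nd (nat_lit 78) (nat_lit 456) (nat_lit 0) (XT.lf (nat_lit 0) (nat_lit 1890568535) (nat_lit 304) (nat_lit 1390729984) (nat_lit 76) (nat_lit 8915005480) (nat_lit 78) (nat_lit 5) (nat_lit 82) (nat_lit 5) (nat_lit 79) (nat_lit 5) (nat_lit 470) (nat_lit 376) (nat_lit 354)) (XT.lf (nat_lit 0) (nat_lit 965259606) (nat_lit 228) (nat_lit 8370510637) (nat_lit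 304) (nat_lit 3057054996) (nat_lit 72) (nat_lit 5) (nat_lit 75) (nat_lit 5) (nat_lit 76) (nat_lit 4) (nat_lit 471) (nat_lit 376) (nat_lit 353)))) (XT.nd (nat_lit 78) (nat_lit 456) (nat_lit 0) (XT.lf (nat_lit 0) (nat_lit 3333556957) (nat_lit 228) (nat_lit 1036004882) (nat_lit 304) (nat_lit 8224745498) (nat_lit 68) (nat_lit 5) (nat_lit 71) (nat_lit 5) (nat_lit 72) (nat_lit 5) (nat_lit 472) (nat_lit 376) (nat_lit 352)) (XT.nd (nat_lit 78) (nat_lit 304) (nat_lit 0) (XT.lf (nat_lit 0) (nat_lit 5681419844) (nat_lit 152) (nat_lit 6327433714) (nat_lit 228) (nat_lit 791951686) (nat_lit 66) (nat_lit 5) (nat_lit 68) (nat_lit 5) (nat_lit 69) (nat_lit 4) (nat_lit 473) (nat_lit 376) (nat_lit 351)) (XT.lf (nat_lit 0) (nat_lit 6779489179) (nat_lit 304) (nat_lit 5002625025) (nat_lit 76) (nat_lit 1230382429) (nat_lit 62) (nat_lit 5) (nat_lit 66) (nat_lit 5) (nat_lit 63) (nat_lit 4) (nat_lit 474) (nat_lit 376) (nat_lit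 350))))) (XT.nd (nat_lit 234) (nat_lit 760) (nat_lit 0) (XT.nd (nat_lit 78) (nat_lit 684) (nat_lit 0) (XT.lf (nat_lit 0) (nat_lit 1354599270) (nat_lit 228) (nat_lit 2909966682) (nat_lit 76) (nat_lit 8964992796) (nat_lit 59) (nat_lit 5) (nat_lit 62) (nat_lit 5) (nat_lit 60) (nat_lit 5) (nat_lit 475) (nat_lit 376) (nat_lit 349)) (XT.nd (nat_lit 78) (nat_lit 456) (nat_lit 0) (XT.lf (nat_lit 0) (nat_lit 9103123346) (nat_lit 304) (nat_lit 852058226) (nat_lit 76) (nat_lit 3496770964) (nat_lit 56) (nat_lit 5) (nat_lit 60) (nat_lit 5) (nat_lit 57) (nat_lit 4) (nat_lit 476) (nat_lit 376) (nat_lit 348)) (XT.lf (nat_lit 0) (nat_lit 1197720635) (nat_lit 228) (nat_lit 2193616758) (nat_lit 304) (nat_lit 10288584239) (nat_lit 50) (nat_lit 5) (nat_lit 53) (nat_lit 5) (nat_lit 54) (nat_lit 5) (nat_lit 477) (nat_lit 376) (nat_lit 347)))) (XT.nd (nat_lit 156) (nat_lit 380) (nat_lit 0) (XT.nd (nat_lit 78) (nat_lit 228)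 (nat_lit 0) (XT.lf (nat_lit 0) (nat_lit 3215538502) (nat_lit 152) (nat_lit 8130693820) (nat_lit 228) (nat_lit 2567093420) (nat_lit 48) (nat_lit 5) (nat_lit 50) (nat_lit 5) (nat_lit 51) (nat_lit 4) (nat_lit 478) (nat_lit 376) (nat_lit 346)) (XT.lf (nat_lit 0) (nat_lit 5204312392) (nat_lit 152) (nat_lit 125257035) (nat_lit 228) (nat_lit 8823182679) (nat_lit 45) (nat_lit 5) (nat_lit 47) (nat_lit 5) (nat_lit 48) (nat_lit 5) (nat_lit 479) (nat_lit 376) (nat_lit 345))) (XT.nd (nat_lit 78) (nat_lit 228) (nat_lit 0) (XT.lf (nat_lit 0) (nat_lit 7140291018) (nat_lit 152) (nat_lit 6342251646) (nat_lit 228) (nat_lit 915396249) (nat_lit 43) (nat_lit 5) (nat_lit 45) (nat_lit 5) (nat_lit 46) (nat_lit 4) (nat_lit 480) (nat_lit 376) (nat_lit 344)) (XT.lf (nat_lit 0) (nat_lit 7151077263) (nat_lit 228) (nat_lit 5619558124) (nat_lit 76) (nat_lit 1878584355) (nat_lit 40) (nat_lit 5) (nat_lit 43) (nat_lit 5) (nat_lit 41)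 (nat_lit 4) (nat_lit 481) (nat_lit 376) (nat_lit 343))))))))
noncomputable def xc9 : XT := (XT.nd (nat_lit 60996) (nat_lit 0) (nat_lit 228) (XT.nd (nat_lit 59982) (nat_lit 0) (nat_lit 7220) (XT.nd (nat_lit 468) (nat_lit 304) (nat_lit 0) (XT.nd (nat_lit 234) (nat_lit 532) (nat_lit 0) (XT.nd (nat_lit 78) (nat_lit 380) (nat_lit 0) (XT.lf (nat_lit 0) (nat_lit 579811314) (nat_lit 228) (nat_lit 4030339779) (nat_lit 76) (nat_lit 10296745527) (nat_lit 37) (nat_lit 5) (nat_lit 40) (nat_lit 5) (nat_lit 38) (nat_lit 5) (nat_lit 482) (nat_lit 376) (nat_lit 342)) (XT.nd (nat_lit 78) (nat_lit 228) (nat_lit 0) (XT.lf (nat_lit 0) (nat_lit 8830625308) (nat_lit 228) (nat_lit 2516849543) (nat_lit 76) (nat_lit 3823192296) (nat_lit 35) (nat_lit 5) (nat_lit 38) (nat_lit 5) (nat_lit 36) (nat_lit 4) (nat_lit 483) (nat_lit 376) (nat_lit 341)) (XT.lf (nat_lit 0) (nat_lit 1901333205) (nat_lit 228) (nat_lit 1051934277) (nat_lit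 76) (nat_lit 12488051369) (nat_lit 32) (nat_lit 5) (nat_lit 35) (nat_lit 5) (nat_lit 33) (nat_lit 5) (nat_lit 484) (nat_lit 376) (nat_lit 340)))) (XT.nd (nat_lit 78) (nat_lit 304) (nat_lit 0) (XT.lf (nat_lit 0) (nat_lit 328006550) (nat_lit 76) (nat_lit 10026028470) (nat_lit 152) (nat_lit 5364214747) (nat_lit 29) (nat_lit 5) (nat_lit 30) (nat_lit 5) (nat_lit 31) (nat_lit 4) (nat_lit 485) (nat_lit 376) (nat_lit 339)) (XT.nd (nat_lit 78) (nat_lit 76) (nat_lit 0) (XT.lf (nat_lit 0) (nat_lit 1666553101) (nat_lit 152) (nat_lit 1388419183) (nat_lit 228) (nat_lit 12947356850) (nat_lit 26) (nat_lit 5) (nat_lit 28) (nat_lit 5) (nat_lit 29) (nat_lit 5) (nat_lit 486) (nat_lit 376) (nat_lit 338)) (XT.lf (nat_lit 0) (nat_lit 2899203694) (nat_lit 76) (nat_lit 8816784616) (nat_lit 152) (nat_lit 4576992860) (nat_lit 25) (nat_lit 5) (nat_lit 26) (nat_lit 5) (nat_lit 27) (nat_lit 4) (nat_lit 487) (nat_lit 376) (nat_lit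 337))))) (XT.nd (nat_lit 59280) (nat_lit 0) (nat_lit 13680) (XT.nd (nat_lit 78) (nat_lit 76) (nat_lit 0) (XT.lf (nat_lit 0) (nat_lit 4015638062) (nat_lit 228) (nat_lit 12521955779) (nat_lit 76) (nat_lit 53751715) (nat_lit 22) (nat_lit 5) (nat_lit 25) (nat_lit 5) (nat_lit 23) (nat_lit 4) (nat_lit 488) (nat_lit 376) (nat_lit 336)) (XT.nd (nat_lit 59124) (nat_lit 0) (nat_lit 15732) (XT.lf (nat_lit 0) (nat_lit 5117160224) (nat_lit 76) (nat_lit 7762237979) (nat_lit 152) (nat_lit 4017148837) (nat_lit 21) (nat_lit 5) (nat_lit 22) (nat_lit 5) (nat_lit 23) (nat_lit 4) (nat_lit 489) (nat_lit 376) (nat_lit 335)) (XT.lf (nat_lit 0) (nat_lit 1524341005) (nat_lit 532) (nat_lit 1318341383) (nat_lit 0) (nat_lit 1524341005) (nat_lit 228) (nat_lit 5) (nat_lit 235) (nat_lit 4) (nat_lit 228) (nat_lit 4) (nat_lit 446) (nat_lit 377) (nat_lit 377)))) (XT.nd (nat_lit 78) (nat_lit 1444) (nat_lit 0) (XT.lf (nat_lit 0) (nat_lit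 652373781) (nat_lit 608) (nat_lit 146702084) (nat_lit 76) (nat_lit 8039013670) (nat_lit 220) (nat_lit 5) (nat_lit 228) (nat_lit 5) (nat_lit 221) (nat_lit 4) (nat_lit 447) (nat_lit 377) (nat_lit 376)) (XT.nd (nat_lit 78) (nat_lit 532) (nat_lit 0) (XT.lf (nat_lit 0) (nat_lit 2395596191) (nat_lit 456) (nat_lit 4689509054) (nat_lit 456) (nat_lit 1859764945) (nat_lit 208) (nat_lit 4) (nat_lit 214) (nat_lit 5) (nat_lit 214) (nat_lit 4) (nat_lit 448) (nat_lit 377) (nat_lit 375)) (XT.lf (nat_lit 0) (nat_lit 4544604376) (nat_lit 532) (nat_lit 4067140815) (nat_lit 0) (nat_lit 443520189) (nat_lit 201) (nat_lit 5) (nat_lit 208) (nat_lit 4) (nat_lit 201) (nat_lit 4) (nat_lit 449) (nat_lit 377) (nat_lit 374)))))) (XT.nd (nat_lit 468) (nat_lit 2964) (nat_lit 0) (XT.nd (nat_lit 234) (nat_lit 1672) (nat_lit 0) (XT.nd (nat_lit 78) (nat_lit 1292) (nat_lit 0) (XT.lf (nat_lit 0) (nat_lit 1896338302) (nat_lit 532) (nat_lit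 1558660676) (nat_lit 76) (nat_lit 5713988788) (nat_lit 194) (nat_lit 5) (nat_lit 201) (nat_lit 5) (nat_lit 195) (nat_lit 4) (nat_lit 450) (nat_lit 377) (nat_lit 373)) (XT.nd (nat_lit 78) (nat_lit 456) (nat_lit 0) (XT.lf (nat_lit 0) (nat_lit 1002596119) (nat_lit 456) (nat_lit 7396683832) (nat_lit 456) (nat_lit 886954314) (nat_lit 183) (nat_lit 4) (nat_lit 189) (nat_lit 5) (nat_lit 189) (nat_lit 4) (nat_lit 451) (nat_lit 377) (nat_lit 372)) (XT.lf (nat_lit 0) (nat_lit 3606608612) (nat_lit 380) (nat_lit 1990798667) (nat_lit 456) (nat_lit 3809226080) (nat_lit 177) (nat_lit 5) (nat_lit 182) (nat_lit 5) (nat_lit 183) (nat_lit 4) (nat_lit 452) (nat_lit 377) (nat_lit 371)))) (XT.nd (nat_lit 78) (nat_lit 1216) (nat_lit 0) (XT.lf (nat_lit 0) (nat_lit 2671704077) (nat_lit 456) (nat_lit 3285418655) (nat_lit 76) (nat_lit 3573580947) (nat_lit 171) (nat_lit 5) (nat_lit 177) (nat_lit 5) (nat_lit 172) (nat_lit 4) (nat_lit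 453) (nat_lit 377) (nat_lit 370)) (XT.nd (nat_lit 78) (nat_lit 836) (nat_lit 0) (XT.lf (nat_lit 0) (nat_lit 8926583165) (nat_lit 380) (nat_lit 335264181) (nat_lit 456) (nat_lit 396822384) (nat_lit 166) (nat_lit 5) (nat_lit 171) (nat_lit 5) (nat_lit 172) (nat_lit 4) (nat_lit 454) (nat_lit 377) (nat_lit 369)) (XT.lf (nat_lit 0) (nat_lit 1846378437) (nat_lit 380) (nat_lit 4333829618) (nat_lit 456) (nat_lit 3609399922) (nat_lit 155) (nat_lit 5) (nat_lit 160) (nat_lit 5) (nat_lit 161) (nat_lit 4) (nat_lit 455) (nat_lit 377) (nat_lit 368))))) (XT.nd (nat_lit 234) (nat_lit 1748) (nat_lit 0) (XT.nd (nat_lit 78) (nat_lit 760) (nat_lit 0) (XT.lf (nat_lit 0) (nat_lit 2959451024) (nat_lit 456) (nat_lit 5447642041) (nat_lit 76) (nat_lit 1517455586) (nat_lit 149) (nat_lit 5) (nat_lit 155) (nat_lit 5) (nat_lit 150) (nat_lit 4) (nat_lit 456) (nat_lit 377) (nat_lit 367)) (XT.nd (nat_lit 78) (nat_lit 456) (nat_lit 0)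 (XT.lf (nat_lit 0) (nat_lit 7130506041) (nat_lit 304) (nat_lit 2534782247) (nat_lit 380) (nat_lit 397999923) (nat_lit 145) (nat_lit 5) (nat_lit 149) (nat_lit 5) (nat_lit 150) (nat_lit 4) (nat_lit 457) (nat_lit 377) (nat_lit 366)) (XT.lf (nat_lit 0) (nat_lit 6267690028) (nat_lit 456) (nat_lit 410673703) (nat_lit 76) (nat_lit 3527304786) (nat_lit 139) (nat_lit 5) (nat_lit 145) (nat_lit 5) (nat_lit 140) (nat_lit 4) (nat_lit 458) (nat_lit 377) (nat_lit 365)))) (XT.nd (nat_lit 156) (nat_lit 760) (nat_lit 0) (XT.nd (nat_lit 78) (nat_lit 304) (nat_lit 0) (XT.lf (nat_lit 0) (nat_lit 2172961656) (nat_lit 304) (nat_lit 561567321) (nat_lit 380) (nat_lit 7617479413) (nat_lit 130) (nat_lit 5) (nat_lit 134) (nat_lit 5) (nat_lit 135) (nat_lit 5) (nat_lit 459) (nat_lit 377) (nat_lit 364)) (XT.lf (nat_lit 0) (nat_lit 4768689200) (nat_lit 304) (nat_lit 4791517587) (nat_lit 380) (nat_lit 941887290) (nat_lit 126) (nat_lit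 5) (nat_lit 130) (nat_lit 5) (nat_lit 131) (nat_lit 4) (nat_lit 460) (nat_lit 377) (nat_lit 363))) (XT.nd (nat_lit 78) (nat_lit 380) (nat_lit 0) (XT.lf (nat_lit 0) (nat_lit 5838197755) (nat_lit 380) (nat_lit 3274764321) (nat_lit 76) (nat_lit 1543314564) (nat_lit 121) (nat_lit 5) (nat_lit 126) (nat_lit 5) (nat_lit 122) (nat_lit 4) (nat_lit 461) (nat_lit 377) (nat_lit 362)) (XT.lf (nat_lit 0) (nat_lit 1970417312) (nat_lit 380) (nat_lit 803091302) (nat_lit 76) (nat_lit 8041145416) (nat_lit 116) (nat_lit 5) (nat_lit 121) (nat_lit 5) (nat_lit 117) (nat_lit 5) (nat_lit 462) (nat_lit 377) (nat_lit 361))))))) (XT.nd (nat_lit 1014) (nat_lit 2736) (nat_lit 0) (XT.nd (nat_lit 468) (nat_lit 1976) (nat_lit 0) (XT.nd (nat_lit 234) (nat_lit 1064) (nat_lit 0) (XT.nd (nat_lit 78) (nat_lit 684) (nat_lit 0) (XT.lf (nat_lit 0) (nat_lit 1697417324) (nat_lit 228) (nat_lit 7208372007) (nat_lit 304) (nat_lit 2071188280) (nat_lit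 109) (nat_lit 5) (nat_lit 112) (nat_lit 5) (nat_lit 113) (nat_lit 4) (nat_lit 463) (nat_lit 377) (nat_lit 360)) (XT.nd (nat_lit 78) (nat_lit 304) (nat_lit 0) (XT.lf (nat_lit 0) (nat_lit 4220760542) (nat_lit 304) (nat_lit 618220866) (nat_lit 380) (nat_lit 6304592499) (nat_lit 104) (nat_lit 5) (nat_lit 108) (nat_lit 5) (nat_lit 109) (nat_lit 5) (nat_lit 464) (nat_lit 377) (nat_lit 359)) (XT.lf (nat_lit 0) (nat_lit 622158856) (nat_lit 304) (nat_lit 4567064720) (nat_lit 76) (nat_lit 6125260323) (nat_lit 100) (nat_lit 5) (nat_lit 104) (nat_lit 5) (nat_lit 101) (nat_lit 5) (nat_lit 465) (nat_lit 377) (nat_lit 358)))) (XT.nd (nat_lit 78) (nat_lit 760) (nat_lit 0) (XT.lf (nat_lit 0) (nat_lit 7664676898) (nat_lit 380) (nat_lit 2212448195) (nat_lit 76) (nat_lit 1612695016) (nat_lit 96) (nat_lit 5) (nat_lit 101) (nat_lit 5) (nat_lit 97) (nat_lit 4) (nat_lit 466) (nat_lit 377) (nat_lit 357)) (XT.nd (nat_lit 78)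 (nat_lit 228) (nat_lit 0) (XT.lf (nat_lit 0) (nat_lit 142347301) (nat_lit 228) (nat_lit 3079438465) (nat_lit 304) (nat_lit 8447886791) (nat_lit 89) (nat_lit 5) (nat_lit 92) (nat_lit 5) (nat_lit 93) (nat_lit 5) (nat_lit 467) (nat_lit 377) (nat_lit 356)) (XT.lf (nat_lit 0) (nat_lit 2528079762) (nat_lit 228) (nat_lit 7923203780) (nat_lit 304) (nat_lit 1402673158) (nat_lit 86) (nat_lit 5) (nat_lit 89) (nat_lit 5) (nat_lit 90) (nat_lit 4) (nat_lit 468) (nat_lit 377) (nat_lit 355))))) (XT.nd (nat_lit 234) (nat_lit 1140) (nat_lit 0) (XT.nd (nat_lit 78) (nat_lit 532) (nat_lit 0) (XT.lf (nat_lit 0) (nat_lit 4906558927) (nat_lit 228) (nat_lit 875214090) (nat_lit 304) (nat_lit 6261147372) (nat_lit 82) (nat_lit 5) (nat_lit 85) (nat_lit 5) (nat_lit 86) (nat_lit 5) (nat_lit 469) (nat_lit 377) (nat_lit 354)) (XT.nd (nat_lit 78) (nat_lit 228) (nat_lit 0) (XT.lf (nat_lit 0) (nat_lit 941092913) (nat_lit 304) (nat_lit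 4959128782) (nat_lit 76) (nat_lit 6336471677) (nat_lit 78) (nat_lit 5) (nat_lit 82) (nat_lit 5) (nat_lit 79) (nat_lit 5) (nat_lit 470) (nat_lit 377) (nat_lit 353)) (XT.lf (nat_lit 0) (nat_lit 8277644989) (nat_lit 304) (nat_lit 2795590562) (nat_lit 76) (nat_lit 1362153961) (nat_lit 75) (nat_lit 5) (nat_lit 79) (nat_lit 5) (nat_lit 76) (nat_lit 4) (nat_lit 471) (nat_lit 377) (nat_lit 352)))) (XT.nd (nat_lit 156) (nat_lit 456) (nat_lit 0) (XT.nd (nat_lit 78) (nat_lit 380) (nat_lit 0) (XT.lf (nat_lit 0) (nat_lit 3182104496) (nat_lit 304) (nat_lit 651549318) (nat_lit 76) (nat_lit 8805386610) (nat_lit 71) (nat_lit 5) (nat_lit 75) (nat_lit 5) (nat_lit 72) (nat_lit 5) (nat_lit 472) (nat_lit 377) (nat_lit 351)) (XT.lf (nat_lit 0) (nat_lit 1499304834) (nat_lit 152) (nat_lit 9212204405) (nat_lit 228) (nat_lit 2136228593) (nat_lit 66) (nat_lit 5) (nat_lit 68) (nat_lit 5) (nat_lit 69) (nat_lit 4) (nat_lit 473)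 (nat_lit 377) (nat_lit 350))) (XT.nd (nat_lit 78) (nat_lit 152) (nat_lit 0) (XT.lf (nat_lit 0) (nat_lit 3634380768) (nat_lit 228) (nat_lit 1722329026) (nat_lit 304) (nat_lit 7704818321) (nat_lit 62) (nat_lit 5) (nat_lit 65) (nat_lit 5) (nat_lit 66) (nat_lit 5) (nat_lit 474) (nat_lit 377) (nat_lit 349)) (XT.lf (nat_lit 0) (nat_lit 5750204076) (nat_lit 152) (nat_lit 7329631482) (nat_lit 228) (nat_lit 200929001) (nat_lit 60) (nat_lit 5) (nat_lit 62) (nat_lit 5) (nat_lit 63) (nat_lit 4) (nat_lit 475) (nat_lit 377) (nat_lit 348)))))) (XT.nd (nat_lit 468) (nat_lit 1216) (nat_lit 0) (XT.nd (nat_lit 234) (nat_lit 760) (nat_lit 0) (XT.nd (nat_lit 78) (nat_lit 456) (nat_lit 0) (XT.lf (nat_lit 0) (nat_lit 7440584832) (nat_lit 304) (nat_lit 5670884278) (nat_lit 76) (nat_lit 393909787) (nat_lit 56) (nat_lit 5) (nat_lit 60) (nat_lit 5) (nat_lit 57) (nat_lit 4) (nat_lit 476) (nat_lit 377) (nat_lit 347)) (XT.nd (nat_lit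 78) (nat_lit 228) (nat_lit 0) (XT.lf (nat_lit 0) (nat_lit 1599700157) (nat_lit 228) (nat_lit 3849034433) (nat_lit 76) (nat_lit 8286801252) (nat_lit 53) (nat_lit 5) (nat_lit 56) (nat_lit 5) (nat_lit 54) (nat_lit 5) (nat_lit 477) (nat_lit 377) (nat_lit 346)) (XT.lf (nat_lit 0) (nat_lit 9429333841) (nat_lit 304) (nat_lit 2063969729) (nat_lit 76) (nat_lit 2478143039) (nat_lit 50) (nat_lit 5) (nat_lit 54) (nat_lit 5) (nat_lit 51) (nat_lit 4) (nat_lit 478) (nat_lit 377) (nat_lit 345)))) (XT.nd (nat_lit 78) (nat_lit 532) (nat_lit 0) (XT.lf (nat_lit 0) (nat_lit 3275872089) (nat_lit 228) (nat_lit 320033666) (nat_lit 76) (nat_lit 10617316659) (nat_lit 47) (nat_lit 5) (nat_lit 50) (nat_lit 5) (nat_lit 48) (nat_lit 5) (nat_lit 479) (nat_lit 377) (nat_lit 344)) (XT.nd (nat_lit 78) (nat_lit 228) (nat_lit 0) (XT.lf (nat_lit 0) (nat_lit 1395566257) (nat_lit 152) (nat_lit 9914908851) (nat_lit 228) (nat_lit 3150302842)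 (nat_lit 43) (nat_lit 5) (nat_lit 45) (nat_lit 5) (nat_lit 46) (nat_lit 4) (nat_lit 480) (nat_lit 377) (nat_lit 343)) (XT.lf (nat_lit 0) (nat_lit 3068981355) (nat_lit 152) (nat_lit 1769558556) (nat_lit 228) (nat_lit 9875949176) (nat_lit 40) (nat_lit 5) (nat_lit 42) (nat_lit 5) (nat_lit 43) (nat_lit 5) (nat_lit 481) (nat_lit 377) (nat_lit 342))))) (XT.nd (nat_lit 234) (nat_lit 684) (nat_lit 0) (XT.nd (nat_lit 78) (nat_lit 380) (nat_lit 0) (XT.lf (nat_lit 0) (nat_lit 4683673083) (nat_lit 152) (nat_lit 8391435723) (nat_lit 228) (nat_lit 1899271543) (nat_lit 38) (nat_lit 5) (nat_lit 40) (nat_lit 5) (nat_lit 41) (nat_lit 4) (nat_lit 482) (nat_lit 377) (nat_lit 341)) (XT.nd (nat_lit 78) (nat_lit 152) (nat_lit 0) (XT.lf (nat_lit 0) (nat_lit 6246944563) (nat_lit 152) (nat_lit 8069827) (nat_lit 228) (nat_lit 8985813022) (nat_lit 35) (nat_lit 5) (nat_lit 37) (nat_lit 5) (nat_lit 38) (nat_lit 5) (nat_lit 483)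 (nat_lit 377) (nat_lit 340)) (XT.lf (nat_lit 0) (nat_lit 7738482376) (nat_lit 152) (nat_lit 6956895524) (nat_lit 228) (nat_lit 818296145) (nat_lit 33) (nat_lit 5) (nat_lit 35) (nat_lit 5) (nat_lit 36) (nat_lit 4) (nat_lit 484) (nat_lit 377) (nat_lit 339)))) (XT.nd (nat_lit 156) (nat_lit 304) (nat_lit 0) (XT.nd (nat_lit 78) (nat_lit 152) (nat_lit 0) (XT.lf (nat_lit 0) (nat_lit 7518263905) (nat_lit 228) (nat_lit 6631014496) (nat_lit 76) (nat_lit 1643971372) (nat_lit 30) (nat_lit 5) (nat_lit 33) (nat_lit 5) (nat_lit 31) (nat_lit 4) (nat_lit 485) (nat_lit 377) (nat_lit 338)) (XT.lf (nat_lit 0) (nat_lit 74000629) (nat_lit 152) (nat_lit 5558690014) (nat_lit 76) (nat_lit 10447185010) (nat_lit 28) (nat_lit 5) (nat_lit 30) (nat_lit 5) (nat_lit 29) (nat_lit 5) (nat_lit 486) (nat_lit 377) (nat_lit 337))) (XT.nd (nat_lit 78) (nat_lit 152) (nat_lit 0) (XT.lf (nat_lit 0) (nat_lit 8598815332) (nat_lit 228) (nat_lit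 4587117917) (nat_lit 76) (nat_lit 3187319461) (nat_lit 26) (nat_lit 5) (nat_lit 29) (nat_lit 5) (nat_lit 27) (nat_lit 4) (nat_lit 487) (nat_lit 377) (nat_lit 336)) (XT.lf (nat_lit 0) (nat_lit 750532097) (nat_lit 152) (nat_lit 3688622594) (nat_lit 76) (nat_lit 12235070478) (nat_lit 24) (nat_lit 5) (nat_lit 26) (nat_lit 5) (nat_lit 25) (nat_lit 5) (nat_lit 488) (nat_lit 377) (nat_lit 335))))))))
noncomputable def xc10 : XT := (XT.nd (nat_lit 60840) (nat_lit 0) (nat_lit 0) (XT.nd (nat_lit 59826) (nat_lit 0) (nat_lit 5320) (XT.nd (nat_lit 59358) (nat_lit 0) (nat_lit 10868) (XT.nd (nat_lit 59124) (nat_lit 0) (nat_lit 14136) (XT.nd (nat_lit 58968) (nat_lit 0) (nat_lit 16188) (XT.lf (nat_lit 0) (nat_lit 9475989914) (nat_lit 228) (nat_lit 2908321971) (nat_lit 76) (nat_lit 4597881734) (nat_lit 22) (nat_lit 5) (nat_lit 25) (nat_lit 5) (nat_lit 23) (nat_lit 4) (nat_lit 489) (nat_lit 377) (nat_lit 334)) (XT.nd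 (nat_lit 78) (nat_lit 532) (nat_lit 0) (XT.lf (nat_lit 0) (nat_lit 292784956) (nat_lit 608) (nat_lit 3681920497) (nat_lit 0) (nat_lit 292784956) (nat_lit 242) (nat_lit 5) (nat_lit 250) (nat_lit 4) (nat_lit 242) (nat_lit 4) (nat_lit 444) (nat_lit 378) (nat_lit 378)) (XT.lf (nat_lit 0) (nat_lit 3555437221) (nat_lit 532) (nat_lit 3308357633) (nat_lit 532) (nat_lit 1769756955) (nat_lit 235) (nat_lit 4) (nat_lit 242) (nat_lit 5) (nat_lit 242) (nat_lit 4) (nat_lit 445) (nat_lit 378) (nat_lit 377)))) (XT.nd (nat_lit 78) (nat_lit 1520) (nat_lit 0) (XT.lf (nat_lit 0) (nat_lit 4480535128) (nat_lit 532) (nat_lit 2747442589) (nat_lit 0) (nat_lit 1507605967) (nat_lit 228) (nat_lit 5) (nat_lit 235) (nat_lit 4) (nat_lit 228) (nat_lit 4) (nat_lit 446) (nat_lit 378) (nat_lit 376)) (XT.nd (nat_lit 78) (nat_lit 912) (nat_lit 0) (XT.lf (nat_lit 0) (nat_lit 1987639557) (nat_lit 608) (nat_lit 379739122) (nat_lit 76) (nat_lit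 6473592919) (nat_lit 220) (nat_lit 5) (nat_lit 228) (nat_lit 5) (nat_lit 221) (nat_lit 4) (nat_lit 447) (nat_lit 378) (nat_lit 375)) (XT.lf (nat_lit 0) (nat_lit 2052793756) (nat_lit 456) (nat_lit 6279344439) (nat_lit 456) (nat_lit 617383630) (nat_lit 208) (nat_lit 4) (nat_lit 214) (nat_lit 5) (nat_lit 214) (nat_lit 4) (nat_lit 448) (nat_lit 378) (nat_lit 374))))) (XT.nd (nat_lit 234) (nat_lit 1292) (nat_lit 0) (XT.nd (nat_lit 78) (nat_lit 1444) (nat_lit 0) (XT.lf (nat_lit 0) (nat_lit 4520756186) (nat_lit 456) (nat_lit 1170659879) (nat_lit 532) (nat_lit 3369929814) (nat_lit 201) (nat_lit 5) (nat_lit 207) (nat_lit 5) (nat_lit 208) (nat_lit 4) (nat_lit 449) (nat_lit 378) (nat_lit 373)) (XT.nd (nat_lit 78) (nat_lit 912) (nat_lit 0) (XT.lf (nat_lit 0) (nat_lit 2938084354) (nat_lit 532) (nat_lit 2154851494) (nat_lit 76) (nat_lit 4083669229) (nat_lit 194) (nat_lit 5) (nat_lit 201) (nat_lit 5) (nat_lit 195)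 (nat_lit 4) (nat_lit 450) (nat_lit 378) (nat_lit 372)) (XT.lf (nat_lit 0) (nat_lit 53275051) (nat_lit 532) (nat_lit 9013967687) (nat_lit 76) (nat_lit 228433349) (nat_lit 182) (nat_lit 5) (nat_lit 189) (nat_lit 5) (nat_lit 183) (nat_lit 4) (nat_lit 451) (nat_lit 378) (nat_lit 371)))) (XT.nd (nat_lit 78) (nat_lit 912) (nat_lit 0) (XT.lf (nat_lit 0) (nat_lit 2750190588) (nat_lit 380) (nat_lit 3699079656) (nat_lit 456) (nat_lit 2968228555) (nat_lit 177) (nat_lit 5) (nat_lit 182) (nat_lit 5) (nat_lit 183) (nat_lit 4) (nat_lit 452) (nat_lit 378) (nat_lit 370)) (XT.nd (nat_lit 78) (nat_lit 456) (nat_lit 0) (XT.lf (nat_lit 0) (nat_lit 3413609741) (nat_lit 456) (nat_lit 4280414834) (nat_lit 76) (nat_lit 1849200497) (nat_lit 171) (nat_lit 5) (nat_lit 177) (nat_lit 5) (nat_lit 172) (nat_lit 4) (nat_lit 453) (nat_lit 378) (nat_lit 369)) (XT.lf (nat_lit 0) (nat_lit 251283731) (nat_lit 456) (nat_lit 1865089584)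 (nat_lit 76) (nat_lit 7556316683) (nat_lit 165) (nat_lit 5) (nat_lit 171) (nat_lit 5) (nat_lit 166) (nat_lit 5) (nat_lit 454) (nat_lit 378) (nat_lit 368)))))) (XT.nd (nat_lit 468) (nat_lit 2584) (nat_lit 0) (XT.nd (nat_lit 234) (nat_lit 1444) (nat_lit 0) (XT.nd (nat_lit 78) (nat_lit 760) (nat_lit 0) (XT.lf (nat_lit 0) (nat_lit 567048248) (nat_lit 380) (nat_lit 6159451450) (nat_lit 456) (nat_lit 3079012842) (nat_lit 155) (nat_lit 5) (nat_lit 160) (nat_lit 5) (nat_lit 161) (nat_lit 4) (nat_lit 455) (nat_lit 378) (nat_lit 367)) (XT.nd (nat_lit 78) (nat_lit 304) (nat_lit 0) (XT.lf (nat_lit 0) (nat_lit 3061213461) (nat_lit 380) (nat_lit 334056005) (nat_lit 456) (nat_lit 6546870572) (nat_lit 149) (nat_lit 5) (nat_lit 154) (nat_lit 5) (nat_lit 155) (nat_lit 5) (nat_lit 456) (nat_lit 378) (nat_lit 366)) (XT.lf (nat_lit 0) (nat_lit 5571114593) (nat_lit 304) (nat_lit 4450367974) (nat_lit 380) (nat_lit 60992861)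 (nat_lit 145) (nat_lit 5) (nat_lit 149) (nat_lit 5) (nat_lit 150) (nat_lit 4) (nat_lit 457) (nat_lit 378) (nat_lit 365)))) (XT.nd (nat_lit 78) (nat_lit 988) (nat_lit 0) (XT.lf (nat_lit 0) (nat_lit 6509915752) (nat_lit 456) (nat_lit 2128770874) (nat_lit 76) (nat_lit 1587935759) (nat_lit 139) (nat_lit 5) (nat_lit 145) (nat_lit 5) (nat_lit 140) (nat_lit 4) (nat_lit 458) (nat_lit 378) (nat_lit 364)) (XT.nd (nat_lit 78) (nat_lit 304) (nat_lit 0) (XT.lf (nat_lit 0) (nat_lit 276035766) (nat_lit 304) (nat_lit 2586523285) (nat_lit 380) (nat_lit 7512184300) (nat_lit 130) (nat_lit 5) (nat_lit 134) (nat_lit 5) (nat_lit 135) (nat_lit 5) (nat_lit 459) (nat_lit 378) (nat_lit 363)) (XT.lf (nat_lit 0) (nat_lit 2727549440) (nat_lit 304) (nat_lit 6868620817) (nat_lit 380) (nat_lit 930503056) (nat_lit 126) (nat_lit 5) (nat_lit 130) (nat_lit 5) (nat_lit 131) (nat_lit 4) (nat_lit 460) (nat_lit 378) (nat_lit 362))))) (XT.nd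 (nat_lit 234) (nat_lit 1520) (nat_lit 0) (XT.nd (nat_lit 78) (nat_lit 684) (nat_lit 0) (XT.lf (nat_lit 0) (nat_lit 5190229532) (nat_lit 304) (nat_lit 569882565) (nat_lit 380) (nat_lit 4922531514) (nat_lit 121) (nat_lit 5) (nat_lit 125) (nat_lit 5) (nat_lit 126) (nat_lit 5) (nat_lit 461) (nat_lit 378) (nat_lit 361)) (XT.nd (nat_lit 78) (nat_lit 304) (nat_lit 0) (XT.lf (nat_lit 0) (nat_lit 1783882067) (nat_lit 380) (nat_lit 3180917739) (nat_lit 76) (nat_lit 5877906477) (nat_lit 116) (nat_lit 5) (nat_lit 121) (nat_lit 5) (nat_lit 117) (nat_lit 5) (nat_lit 462) (nat_lit 378) (nat_lit 360)) (XT.lf (nat_lit 0) (nat_lit 8614116217) (nat_lit 380) (nat_lit 856067406) (nat_lit 76) (nat_lit 1536951586) (nat_lit 112) (nat_lit 5) (nat_lit 117) (nat_lit 5) (nat_lit 113) (nat_lit 4) (nat_lit 463) (nat_lit 378) (nat_lit 359)))) (XT.nd (nat_lit 156) (nat_lit 608) (nat_lit 0) (XT.nd (nat_lit 78) (nat_lit 304) (nat_lit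 0) (XT.lf (nat_lit 0) (nat_lit 1485017402) (nat_lit 304) (nat_lit 2949540448) (nat_lit 380) (nat_lit 6740954184) (nat_lit 104) (nat_lit 5) (nat_lit 108) (nat_lit 5) (nat_lit 109) (nat_lit 5) (nat_lit 464) (nat_lit 378) (nat_lit 358)) (XT.lf (nat_lit 0) (nat_lit 94438624) (nat_lit 304) (nat_lit 7494089885) (nat_lit 76) (nat_lit 3759894155) (nat_lit 100) (nat_lit 5) (nat_lit 104) (nat_lit 5) (nat_lit 101) (nat_lit 5) (nat_lit 465) (nat_lit 378) (nat_lit 357))) (XT.nd (nat_lit 78) (nat_lit 304) (nat_lit 0) (XT.lf (nat_lit 0) (nat_lit 6215677237) (nat_lit 304) (nat_lit 828957650) (nat_lit 380) (nat_lit 4480972700) (nat_lit 96) (nat_lit 5) (nat_lit 100) (nat_lit 5) (nat_lit 101) (nat_lit 5) (nat_lit 466) (nat_lit 378) (nat_lit 356)) (XT.lf (nat_lit 0) (nat_lit 2485726632) (nat_lit 304) (nat_lit 3131224536) (nat_lit 76) (nat_lit 6090372815) (nat_lit 92) (nat_lit 5) (nat_lit 96) (nat_lit 5) (nat_lit 93) (nat_lit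 5) (nat_lit 467) (nat_lit 378) (nat_lit 355))))))) (XT.nd (nat_lit 936) (nat_lit 1900) (nat_lit 0) (XT.nd (nat_lit 468) (nat_lit 1596) (nat_lit 0) (XT.nd (nat_lit 234) (nat_lit 836) (nat_lit 0) (XT.nd (nat_lit 78) (nat_lit 760) (nat_lit 0) (XT.lf (nat_lit 0) (nat_lit 9600426351) (nat_lit 304) (nat_lit 947555332) (nat_lit 76) (nat_lit 1345924510) (nat_lit 89) (nat_lit 5) (nat_lit 93) (nat_lit 5) (nat_lit 90) (nat_lit 4) (nat_lit 468) (nat_lit 378) (nat_lit 354)) (XT.nd (nat_lit 78) (nat_lit 228) (nat_lit 0) (XT.lf (nat_lit 0) (nat_lit 1230944482) (nat_lit 228) (nat_lit 3581098782) (nat_lit 304) (nat_lit 7272756417) (nat_lit 82) (nat_lit 5) (nat_lit 85) (nat_lit 5) (nat_lit 86) (nat_lit 5) (nat_lit 469) (nat_lit 378) (nat_lit 353)) (XT.lf (nat_lit 0) (nat_lit 3429266881) (nat_lit 228) (nat_lit 8689164780) (nat_lit 304) (nat_lit 162311882) (nat_lit 79) (nat_lit 5) (nat_lit 82) (nat_lit 5) (nat_lit 83)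 (nat_lit 4) (nat_lit 470) (nat_lit 378) (nat_lit 352)))) (XT.nd (nat_lit 78) (nat_lit 532) (nat_lit 0) (XT.lf (nat_lit 0) (nat_lit 5601330710) (nat_lit 228) (nat_lit 1480819381) (nat_lit 304) (nat_lit 5399196896) (nat_lit 75) (nat_lit 5) (nat_lit 78) (nat_lit 5) (nat_lit 79) (nat_lit 5) (nat_lit 471) (nat_lit 378) (nat_lit 351)) (XT.nd (nat_lit 78) (nat_lit 228) (nat_lit 0) (XT.lf (nat_lit 0) (nat_lit 1861002346) (nat_lit 304) (nat_lit 4923479650) (nat_lit 76) (nat_lit 5902597505) (nat_lit 71) (nat_lit 5) (nat_lit 75) (nat_lit 5) (nat_lit 72) (nat_lit 5) (nat_lit 472) (nat_lit 378) (nat_lit 350)) (XT.lf (nat_lit 0) (nat_lit 9274723118) (nat_lit 304) (nat_lit 2982078879) (nat_lit 76) (nat_lit 641290302) (nat_lit 68) (nat_lit 5) (nat_lit 72) (nat_lit 5) (nat_lit 69) (nat_lit 4) (nat_lit 473) (nat_lit 378) (nat_lit 349))))) (XT.nd (nat_lit 234) (nat_lit 684) (nat_lit 0) (XT.nd (nat_lit 78) (nat_lit 684)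 (nat_lit 0) (XT.lf (nat_lit 0) (nat_lit 3787886776) (nat_lit 228) (nat_lit 1078108778) (nat_lit 76) (nat_lit 8248105498) (nat_lit 65) (nat_lit 5) (nat_lit 68) (nat_lit 5) (nat_lit 66) (nat_lit 5) (nat_lit 474) (nat_lit 378) (nat_lit 348)) (XT.nd (nat_lit 78) (nat_lit 304) (nat_lit 0) (XT.lf (nat_lit 0) (nat_lit 824498678) (nat_lit 152) (nat_lit 10569881183) (nat_lit 228) (nat_lit 1941291868) (nat_lit 60) (nat_lit 5) (nat_lit 62) (nat_lit 5) (nat_lit 63) (nat_lit 4) (nat_lit 475) (nat_lit 378) (nat_lit 347)) (XT.lf (nat_lit 0) (nat_lit 2699315175) (nat_lit 228) (nat_lit 2931319600) (nat_lit 304) (nat_lit 7931727038) (nat_lit 56) (nat_lit 5) (nat_lit 59) (nat_lit 5) (nat_lit 60) (nat_lit 5) (nat_lit 476) (nat_lit 378) (nat_lit 346)))) (XT.nd (nat_lit 78) (nat_lit 532) (nat_lit 0) (XT.lf (nat_lit 0) (nat_lit 4553714088) (nat_lit 152) (nat_lit 8883565858) (nat_lit 228) (nat_lit 357640272) (nat_lit 54)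 (nat_lit 5) (nat_lit 56) (nat_lit 5) (nat_lit 57) (nat_lit 4) (nat_lit 477) (nat_lit 378) (nat_lit 345)) (XT.nd (nat_lit 78) (nat_lit 228) (nat_lit 0) (XT.lf (nat_lit 0) (nat_lit 6361890158) (nat_lit 228) (nat_lit 1007245675) (nat_lit 304) (nat_lit 6663893944) (nat_lit 50) (nat_lit 5) (nat_lit 53) (nat_lit 5) (nat_lit 54) (nat_lit 5) (nat_lit 478) (nat_lit 378) (nat_lit 344)) (XT.lf (nat_lit 0) (nat_lit 1082786725) (nat_lit 228) (nat_lit 6144135082) (nat_lit 76) (nat_lit 7050143253) (nat_lit 47) (nat_lit 5) (nat_lit 50) (nat_lit 5) (nat_lit 48) (nat_lit 5) (nat_lit 479) (nat_lit 378) (nat_lit 343)))))) (XT.nd (nat_lit 468) (nat_lit 608) (nat_lit 0) (XT.nd (nat_lit 234) (nat_lit 760) (nat_lit 0) (XT.nd (nat_lit 78) (nat_lit 380) (nat_lit 0) (XT.lf (nat_lit 0) (nat_lit 8991408413) (nat_lit 228) (nat_lit 4664840874) (nat_lit 76) (nat_lit 870892220) (nat_lit 45) (nat_lit 5) (nat_lit 48) (nat_lit 5) (nat_lit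 46) (nat_lit 4) (nat_lit 480) (nat_lit 378) (nat_lit 342)) (XT.nd (nat_lit 78) (nat_lit 152) (nat_lit 0) (XT.lf (nat_lit 0) (nat_lit 2379401094) (nat_lit 228) (nat_lit 3243880392) (nat_lit 76) (nat_lit 9159982015) (nat_lit 42) (nat_lit 5) (nat_lit 45) (nat_lit 5) (nat_lit 43) (nat_lit 5) (nat_lit 481) (nat_lit 378) (nat_lit 341)) (XT.lf (nat_lit 0) (nat_lit 10485541619) (nat_lit 228) (nat_lit 1875863670) (nat_lit 76) (nat_lit 2684359229) (nat_lit 40) (nat_lit 5) (nat_lit 43) (nat_lit 5) (nat_lit 41) (nat_lit 4) (nat_lit 482) (nat_lit 378) (nat_lit 340)))) (XT.nd (nat_lit 78) (nat_lit 532) (nat_lit 0) (XT.lf (nat_lit 0) (nat_lit 3523047098) (nat_lit 228) (nat_lit 570936209) (nat_lit 76) (nat_lit 11220693234) (nat_lit 37) (nat_lit 5) (nat_lit 40) (nat_lit 5) (nat_lit 38) (nat_lit 5) (nat_lit 483) (nat_lit 378) (nat_lit 339)) (XT.nd (nat_lit 78) (nat_lit 228) (nat_lit 0) (XT.lf (nat_lit 0) (nat_lit 676632495)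 (nat_lit 152) (nat_lit 11158323423) (nat_lit 228) (nat_lit 3755137447) (nat_lit 33) (nat_lit 5) (nat_lit 35) (nat_lit 5) (nat_lit 36) (nat_lit 4) (nat_lit 484) (nat_lit 378) (nat_lit 338)) (XT.lf (nat_lit 0) (nat_lit 1862668143) (nat_lit 152) (nat_lit 2647261914) (nat_lit 228) (nat_lit 11362321632) (nat_lit 30) (nat_lit 5) (nat_lit 32) (nat_lit 5) (nat_lit 33) (nat_lit 5) (nat_lit 485) (nat_lit 378) (nat_lit 337))))) (XT.nd (nat_lit 234) (nat_lit 228) (nat_lit 0) (XT.nd (nat_lit 78) (nat_lit 304) (nat_lit 0) (XT.lf (nat_lit 0) (nat_lit 2966507603) (nat_lit 76) (nat_lit 10062674620) (nat_lit 152) (nat_lit 3132053165) (nat_lit 29) (nat_lit 5) (nat_lit 30) (nat_lit 5) (nat_lit 31) (nat_lit 4) (nat_lit 486) (nat_lit 378) (nat_lit 336)) (XT.nd (nat_lit 78) (nat_lit 76) (nat_lit 0) (XT.lf (nat_lit 0) (nat_lit 3995522894) (nat_lit 152) (nat_lit 1316063977) (nat_lit 228) (nat_lit 11145878290) (nat_lit 26)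 (nat_lit 5) (nat_lit 28) (nat_lit 5) (nat_lit 29) (nat_lit 5) (nat_lit 487) (nat_lit 378) (nat_lit 335)) (XT.lf (nat_lit 0) (nat_lit 4925546571) (nat_lit 76) (nat_lit 9111180761) (nat_lit 152) (nat_lit 2724027467) (nat_lit 25) (nat_lit 5) (nat_lit 26) (nat_lit 5) (nat_lit 27) (nat_lit 4) (nat_lit 488) (nat_lit 378) (nat_lit 334)))) (XT.nd (nat_lit 58890) (nat_lit 0) (nat_lit 16720) (XT.nd (nat_lit 58812) (nat_lit 0) (nat_lit 18468) (XT.lf (nat_lit 0) (nat_lit 5774386397) (nat_lit 152) (nat_lit 129003990) (nat_lit 228) (nat_lit 11168362799) (nat_lit 22) (nat_lit 5) (nat_lit 24) (nat_lit 5) (nat_lit 25) (nat_lit 5) (nat_lit 489) (nat_lit 378) (nat_lit 333)) (XT.lf (nat_lit 0) (nat_lit 2502100559) (nat_lit 608) (nat_lit 835270899) (nat_lit 608) (nat_lit 835270899) (nat_lit 265) (nat_lit 4) (nat_lit 273) (nat_lit 5) (nat_lit 273) (nat_lit 4) (nat_lit 442) (nat_lit 379) (nat_lit 379))) (XT.nd (nat_lit 78)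 (nat_lit 1140) (nat_lit 0) (XT.lf (nat_lit 0) (nat_lit 4441023176) (nat_lit 608) (nat_lit 1173594018) (nat_lit 0) (nat_lit 2824569304) (nat_lit 257) (nat_lit 5) (nat_lit 265) (nat_lit 4) (nat_lit 257) (nat_lit 4) (nat_lit 443) (nat_lit 379) (nat_lit 378)) (XT.lf (nat_lit 0) (nat_lit 1057008818) (nat_lit 532) (nat_lit 1043404737) (nat_lit 608) (nat_lit 6435971157) (nat_lit 242) (nat_lit 5) (nat_lit 249) (nat_lit 5) (nat_lit 250) (nat_lit 4) (nat_lit 444) (nat_lit 379) (nat_lit 377))))))))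
noncomputable def xc11 : XT := (XT.nd (nat_lit 1950) (nat_lit 4636) (nat_lit 0) (XT.nd (nat_lit 936) (nat_lit 4864) (nat_lit 0) (XT.nd (nat_lit 468) (nat_lit 3420) (nat_lit 0) (XT.nd (nat_lit 234) (nat_lit 1976) (nat_lit 0) (XT.nd (nat_lit 78) (nat_lit 1140) (nat_lit 0) (XT.lf (nat_lit 0) (nat_lit 3338235512) (nat_lit 532) (nat_lit 4957762433) (nat_lit 532) (nat_lit 340615991) (nat_lit 235) (nat_lit 4) (nat_lit 242) (nat_lit 5) (nat_lit 242) (nat_lit 4) (nat_lit 445) (nat_lit 379) (nat_lit 376)) (XT.nd (nat_lit 78) (nat_lit 608) (nat_lit 0) (XT.lf (nat_lit 0) (nat_lit 5659410303) (nat_lit 456) (nat_lit 145953780) (nat_lit 532) (nat_lit 2934812686) (nat_lit 228) (nat_lit 5) (nat_lit 234) (nat_lit 5) (nat_lit 235) (nat_lit 4) (nat_lit 446) (nat_lit 379) (nat_lit 375)) (XT.lf (nat_lit 0) (nat_lit 3214047864) (nat_lit 608) (nat_lit 836508336) (nat_lit 76) (nat_lit 4796372211) (nat_lit 220) (nat_lit 5)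 (nat_lit 228) (nat_lit 5) (nat_lit 221) (nat_lit 4) (nat_lit 447) (nat_lit 379) (nat_lit 374)))) (XT.nd (nat_lit 78) (nat_lit 988) (nat_lit 0) (XT.lf (nat_lit 0) (nat_lit 504776457) (nat_lit 532) (nat_lit 7479476409) (nat_lit 76) (nat_lit 972959783) (nat_lit 207) (nat_lit 5) (nat_lit 214) (nat_lit 5) (nat_lit 208) (nat_lit 4) (nat_lit 448) (nat_lit 379) (nat_lit 373)) (XT.nd (nat_lit 78) (nat_lit 532) (nat_lit 0) (XT.lf (nat_lit 0) (nat_lit 3819308956) (nat_lit 456) (nat_lit 2910447019) (nat_lit 532) (nat_lit 2340719565) (nat_lit 201) (nat_lit 5) (nat_lit 207) (nat_lit 5) (nat_lit 208) (nat_lit 4) (nat_lit 449) (nat_lit 379) (nat_lit 372)) (XT.lf (nat_lit 0) (nat_lit 3866641151) (nat_lit 532) (nat_lit 2986753347) (nat_lit 76) (nat_lit 2333954020) (nat_lit 194) (nat_lit 5) (nat_lit 201) (nat_lit 5) (nat_lit 195) (nat_lit 4) (nat_lit 450) (nat_lit 379) (nat_lit 371))))) (XT.nd (nat_lit 234) (nat_lit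 1672) (nat_lit 0) (XT.nd (nat_lit 78) (nat_lit 1292) (nat_lit 0) (XT.lf (nat_lit 0) (nat_lit 879967359) (nat_lit 456) (nat_lit 686706265) (nat_lit 76) (nat_lit 7741212515) (nat_lit 188) (nat_lit 5) (nat_lit 194) (nat_lit 5) (nat_lit 189) (nat_lit 5) (nat_lit 451) (nat_lit 379) (nat_lit 370)) (XT.nd (nat_lit 78) (nat_lit 456) (nat_lit 0) (XT.lf (nat_lit 0) (nat_lit 1650204732) (nat_lit 380) (nat_lit 5534795985) (nat_lit 456) (nat_lit 2246531368) (nat_lit 177) (nat_lit 5) (nat_lit 182) (nat_lit 5) (nat_lit 183) (nat_lit 4) (nat_lit 452) (nat_lit 379) (nat_lit 369)) (XT.lf (nat_lit 0) (nat_lit 4035138535) (nat_lit 380) (nat_lit 2269081) (nat_lit 456) (nat_lit 5521529512) (nat_lit 171) (nat_lit 5) (nat_lit 176) (nat_lit 5) (nat_lit 177) (nat_lit 5) (nat_lit 453) (nat_lit 379) (nat_lit 368)))) (XT.nd (nat_lit 78) (nat_lit 1216) (nat_lit 0) (XT.lf (nat_lit 0) (nat_lit 774866530) (nat_lit 456) (nat_lit 3251563458)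 (nat_lit 76) (nat_lit 5663427283) (nat_lit 165) (nat_lit 5) (nat_lit 171) (nat_lit 5) (nat_lit 166) (nat_lit 5) (nat_lit 454) (nat_lit 379) (nat_lit 367)) (XT.nd (nat_lit 78) (nat_lit 836) (nat_lit 0) (XT.lf (nat_lit 0) (nat_lit 7157597794) (nat_lit 456) (nat_lit 956350026) (nat_lit 76) (nat_lit 1710585202) (nat_lit 160) (nat_lit 5) (nat_lit 166) (nat_lit 5) (nat_lit 161) (nat_lit 4) (nat_lit 455) (nat_lit 379) (nat_lit 366)) (XT.lf (nat_lit 0) (nat_lit 1375885317) (nat_lit 380) (nat_lit 2342401460) (nat_lit 456) (nat_lit 6244496695) (nat_lit 149) (nat_lit 5) (nat_lit 154) (nat_lit 5) (nat_lit 155) (nat_lit 5) (nat_lit 456) (nat_lit 379) (nat_lit 365)))))) (XT.nd (nat_lit 468) (nat_lit 2356) (nat_lit 0) (XT.nd (nat_lit 234) (nat_lit 1368) (nat_lit 0) (XT.nd (nat_lit 78) (nat_lit 760) (nat_lit 0) (XT.lf (nat_lit 0) (nat_lit 147378977) (nat_lit 380) (nat_lit 6356286878) (nat_lit 76) (nat_lit 3601241573)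 (nat_lit 144) (nat_lit 5) (nat_lit 149) (nat_lit 5) (nat_lit 145) (nat_lit 5) (nat_lit 457) (nat_lit 379) (nat_lit 364)) (XT.nd (nat_lit 78) (nat_lit 380) (nat_lit 0) (XT.lf (nat_lit 0) (nat_lit 6133435587) (nat_lit 380) (nat_lit 496219565) (nat_lit 456) (nat_lit 3621151056) (nat_lit 139) (nat_lit 5) (nat_lit 144) (nat_lit 5) (nat_lit 145) (nat_lit 5) (nat_lit 458) (nat_lit 379) (nat_lit 363)) (XT.lf (nat_lit 0) (nat_lit 2873973472) (nat_lit 380) (nat_lit 1869782609) (nat_lit 76) (nat_lit 5656819387) (nat_lit 134) (nat_lit 5) (nat_lit 139) (nat_lit 5) (nat_lit 135) (nat_lit 5) (nat_lit 459) (nat_lit 379) (nat_lit 362)))) (XT.nd (nat_lit 78) (nat_lit 760) (nat_lit 0) (XT.lf (nat_lit 0) (nat_lit 409779272) (nat_lit 304) (nat_lit 9092613863) (nat_lit 380) (nat_lit 1052218982) (nat_lit 126) (nat_lit 5) (nat_lit 130) (nat_lit 5) (nat_lit 131) (nat_lit 4) (nat_lit 460) (nat_lit 379) (nat_lit 361)) (XT.nd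 (nat_lit 78) (nat_lit 380) (nat_lit 0) (XT.lf (nat_lit 0) (nat_lit 2708912134) (nat_lit 304) (nat_lit 2851986803) (nat_lit 380) (nat_lit 5151283874) (nat_lit 121) (nat_lit 5) (nat_lit 125) (nat_lit 5) (nat_lit 126) (nat_lit 5) (nat_lit 461) (nat_lit 379) (nat_lit 360)) (XT.lf (nat_lit 0) (nat_lit 1463513787) (nat_lit 380) (nat_lit 5843960880) (nat_lit 76) (nat_lit 3566695429) (nat_lit 116) (nat_lit 5) (nat_lit 121) (nat_lit 5) (nat_lit 117) (nat_lit 5) (nat_lit 462) (nat_lit 379) (nat_lit 359))))) (XT.nd (nat_lit 234) (nat_lit 1216) (nat_lit 0) (XT.nd (nat_lit 78) (nat_lit 836) (nat_lit 0) (XT.lf (nat_lit 0) (nat_lit 7359296777) (nat_lit 304) (nat_lit 844815648) (nat_lit 380) (nat_lit 2836281823) (nat_lit 112) (nat_lit 5) (nat_lit 116) (nat_lit 5) (nat_lit 117) (nat_lit 5) (nat_lit 463) (nat_lit 379) (nat_lit 358)) (XT.nd (nat_lit 78) (nat_lit 532) (nat_lit 0) (XT.lf (nat_lit 0) (nat_lit 3901736811)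 (nat_lit 304) (nat_lit 1525922877) (nat_lit 76) (nat_lit 5783078768) (nat_lit 108) (nat_lit 5) (nat_lit 112) (nat_lit 5) (nat_lit 109) (nat_lit 5) (nat_lit 464) (nat_lit 379) (nat_lit 357)) (XT.lf (nat_lit 0) (nat_lit 659565129) (nat_lit 228) (nat_lit 10144124016) (nat_lit 304) (nat_lit 582127062) (nat_lit 101) (nat_lit 5) (nat_lit 104) (nat_lit 5) (nat_lit 105) (nat_lit 4) (nat_lit 465) (nat_lit 379) (nat_lit 356)))) (XT.nd (nat_lit 156) (nat_lit 532) (nat_lit 0) (XT.nd (nat_lit 78) (nat_lit 304) (nat_lit 0) (XT.lf (nat_lit 0) (nat_lit 2840903834) (nat_lit 304) (nat_lit 3452924599) (nat_lit 380) (nat_lit 5270888009) (nat_lit 96) (nat_lit 5) (nat_lit 100) (nat_lit 5) (nat_lit 101) (nat_lit 5) (nat_lit 466) (nat_lit 379) (nat_lit 355)) (XT.lf (nat_lit 0) (nat_lit 1606320855) (nat_lit 304) (nat_lit 6711252624) (nat_lit 76) (nat_lit 3430961042) (nat_lit 92) (nat_lit 5) (nat_lit 96) (nat_lit 5) (nat_lit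 93) (nat_lit 5) (nat_lit 467) (nat_lit 379) (nat_lit 354))) (XT.nd (nat_lit 78) (nat_lit 304) (nat_lit 0) (XT.lf (nat_lit 0) (nat_lit 7225924636) (nat_lit 228) (nat_lit 1403575284) (nat_lit 304) (nat_lit 3307449267) (nat_lit 89) (nat_lit 5) (nat_lit 92) (nat_lit 5) (nat_lit 93) (nat_lit 5) (nat_lit 468) (nat_lit 379) (nat_lit 353)) (XT.lf (nat_lit 0) (nat_lit 3710638272) (nat_lit 304) (nat_lit 2728236296) (nat_lit 76) (nat_lit 5691116399) (nat_lit 85) (nat_lit 5) (nat_lit 89) (nat_lit 5) (nat_lit 86) (nat_lit 5) (nat_lit 469) (nat_lit 379) (nat_lit 352))))))) (XT.nd (nat_lit 1014) (nat_lit 1216) (nat_lit 0) (XT.nd (nat_lit 468) (nat_lit 1672) (nat_lit 0) (XT.nd (nat_lit 234) (nat_lit 684) (nat_lit 0) (XT.nd (nat_lit 78) (nat_lit 836) (nat_lit 0) (XT.lf (nat_lit 0) (nat_lit 10900216676) (nat_lit 304) (nat_lit 739123634) (nat_lit 76) (nat_lit 688932607) (nat_lit 82) (nat_lit 5) (nat_lit 86) (nat_lit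 5) (nat_lit 83) (nat_lit 4) (nat_lit 470) (nat_lit 379) (nat_lit 351)) (XT.nd (nat_lit 78) (nat_lit 304) (nat_lit 0) (XT.lf (nat_lit 0) (nat_lit 1226136652) (nat_lit 228) (nat_lit 4516308268) (nat_lit 304) (nat_lit 6788408823) (nat_lit 75) (nat_lit 5) (nat_lit 78) (nat_lit 5) (nat_lit 79) (nat_lit 5) (nat_lit 471) (nat_lit 379) (nat_lit 350)) (XT.lf (nat_lit 0) (nat_lit 383457365) (nat_lit 304) (nat_lit 9529686994) (nat_lit 76) (nat_lit 2825755060) (nat_lit 71) (nat_lit 5) (nat_lit 75) (nat_lit 5) (nat_lit 72) (nat_lit 5) (nat_lit 472) (nat_lit 379) (nat_lit 349)))) (XT.nd (nat_lit 78) (nat_lit 456) (nat_lit 0) (XT.lf (nat_lit 0) (nat_lit 5153006208) (nat_lit 228) (nat_lit 2553134588) (nat_lit 304) (nat_lit 5245593828) (nat_lit 68) (nat_lit 5) (nat_lit 71) (nat_lit 5) (nat_lit 72) (nat_lit 5) (nat_lit 473) (nat_lit 379) (nat_lit 348)) (XT.nd (nat_lit 78) (nat_lit 228) (nat_lit 0) (XT.lf (nat_lit 0)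 (nat_lit 2082306730) (nat_lit 228) (nat_lit 6085579098) (nat_lit 76) (nat_lit 5002162404) (nat_lit 65) (nat_lit 5) (nat_lit 68) (nat_lit 5) (nat_lit 66) (nat_lit 5) (nat_lit 474) (nat_lit 379) (nat_lit 347)) (XT.lf (nat_lit 0) (nat_lit 8995738033) (nat_lit 228) (nat_lit 581445573) (nat_lit 304) (nat_lit 3816669161) (nat_lit 62) (nat_lit 5) (nat_lit 65) (nat_lit 5) (nat_lit 66) (nat_lit 5) (nat_lit 475) (nat_lit 379) (nat_lit 346))))) (XT.nd (nat_lit 234) (nat_lit 760) (nat_lit 0) (XT.nd (nat_lit 78) (nat_lit 684) (nat_lit 0) (XT.lf (nat_lit 0) (nat_lit 3674607778) (nat_lit 228) (nat_lit 2757946577) (nat_lit 76) (nat_lit 7190338393) (nat_lit 59) (nat_lit 5) (nat_lit 62) (nat_lit 5) (nat_lit 60) (nat_lit 5) (nat_lit 476) (nat_lit 379) (nat_lit 345)) (XT.nd (nat_lit 78) (nat_lit 456) (nat_lit 0) (XT.lf (nat_lit 0) (nat_lit 11356564219) (nat_lit 304) (nat_lit 1135352366) (nat_lit 76) (nat_lit 1366029761)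 (nat_lit 56) (nat_lit 5) (nat_lit 60) (nat_lit 5) (nat_lit 57) (nat_lit 4) (nat_lit 477) (nat_lit 379) (nat_lit 344)) (XT.lf (nat_lit 0) (nat_lit 434264542) (nat_lit 228) (nat_lit 4719714859) (nat_lit 304) (nat_lit 8944346829) (nat_lit 50) (nat_lit 5) (nat_lit 53) (nat_lit 5) (nat_lit 54) (nat_lit 5) (nat_lit 478) (nat_lit 379) (nat_lit 343)))) (XT.nd (nat_lit 156) (nat_lit 380) (nat_lit 0) (XT.nd (nat_lit 78) (nat_lit 228) (nat_lit 0) (XT.lf (nat_lit 0) (nat_lit 1995049595) (nat_lit 152) (nat_lit 11047317907) (nat_lit 228) (nat_lit 1302474993) (nat_lit 48) (nat_lit 5) (nat_lit 50) (nat_lit 5) (nat_lit 51) (nat_lit 4) (nat_lit 479) (nat_lit 379) (nat_lit 342)) (XT.lf (nat_lit 0) (nat_lit 3492448805) (nat_lit 152) (nat_lit 3031380375) (nat_lit 228) (nat_lit 8073248134) (nat_lit 45) (nat_lit 5) (nat_lit 47) (nat_lit 5) (nat_lit 48) (nat_lit 5) (nat_lit 480) (nat_lit 379) (nat_lit 341))) (XT.nd (nat_lit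 78) (nat_lit 228) (nat_lit 0) (XT.lf (nat_lit 0) (nat_lit 4954581110) (nat_lit 152) (nat_lit 9658269122) (nat_lit 228) (nat_lit 242946750) (nat_lit 43) (nat_lit 5) (nat_lit 45) (nat_lit 5) (nat_lit 46) (nat_lit 4) (nat_lit 481) (nat_lit 379) (nat_lit 340)) (XT.lf (nat_lit 0) (nat_lit 6349219396) (nat_lit 152) (nat_lit 1404033874) (nat_lit 228) (nat_lit 7367339966) (nat_lit 40) (nat_lit 5) (nat_lit 42) (nat_lit 5) (nat_lit 43) (nat_lit 5) (nat_lit 482) (nat_lit 379) (nat_lit 339)))))) (XT.nd (nat_lit 468) (nat_lit 152) (nat_lit 0) (XT.nd (nat_lit 234) (nat_lit 456) (nat_lit 0) (XT.nd (nat_lit 78) (nat_lit 380) (nat_lit 0) (XT.lf (nat_lit 0) (nat_lit 646573506) (nat_lit 228) (nat_lit 7700559031) (nat_lit 76) (nat_lit 7044861779) (nat_lit 37) (nat_lit 5) (nat_lit 40) (nat_lit 5) (nat_lit 38) (nat_lit 5) (nat_lit 483) (nat_lit 379) (nat_lit 338)) (XT.nd (nat_lit 78) (nat_lit 228) (nat_lit 0) (XT.lf (nat_lit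 0) (nat_lit 8828487042) (nat_lit 228) (nat_lit 6700530151) (nat_lit 76) (nat_lit 140994918) (nat_lit 35) (nat_lit 5) (nat_lit 38) (nat_lit 5) (nat_lit 36) (nat_lit 4) (nat_lit 484) (nat_lit 379) (nat_lit 337)) (XT.lf (nat_lit 0) (nat_lit 1357330693) (nat_lit 228) (nat_lit 5781175703) (nat_lit 76) (nat_lit 8816199636) (nat_lit 32) (nat_lit 5) (nat_lit 35) (nat_lit 5) (nat_lit 33) (nat_lit 5) (nat_lit 485) (nat_lit 379) (nat_lit 336)))) (XT.nd (nat_lit 78) (nat_lit 304) (nat_lit 0) (XT.lf (nat_lit 0) (nat_lit 9740252572) (nat_lit 228) (nat_lit 4938821762) (nat_lit 76) (nat_lit 1567342988) (nat_lit 30) (nat_lit 5) (nat_lit 33) (nat_lit 5) (nat_lit 31) (nat_lit 4) (nat_lit 486) (nat_lit 379) (nat_lit 335)) (XT.nd (nat_lit 78) (nat_lit 152) (nat_lit 0) (XT.lf (nat_lit 0) (nat_lit 1873988826) (nat_lit 152) (nat_lit 4182661466) (nat_lit 76) (nat_lit 10488590648) (nat_lit 28) (nat_lit 5) (nat_lit 30) (nat_lit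 5) (nat_lit 29) (nat_lit 5) (nat_lit 487) (nat_lit 379) (nat_lit 334)) (XT.lf (nat_lit 0) (nat_lit 10460160194) (nat_lit 228) (nat_lit 3520515357) (nat_lit 76) (nat_lit 2870635320) (nat_lit 26) (nat_lit 5) (nat_lit 29) (nat_lit 5) (nat_lit 27) (nat_lit 4) (nat_lit 488) (nat_lit 379) (nat_lit 333))))) (XT.nd (nat_lit 58812) (nat_lit 0) (nat_lit 15960) (XT.nd (nat_lit 58656) (nat_lit 0) (nat_lit 18924) (XT.lf (nat_lit 0) (nat_lit 2175565311) (nat_lit 152) (nat_lit 2950751043) (nat_lit 76) (nat_lit 12038645895) (nat_lit 24) (nat_lit 5) (nat_lit 26) (nat_lit 5) (nat_lit 25) (nat_lit 5) (nat_lit 489) (nat_lit 379) (nat_lit 332)) (XT.nd (nat_lit 78) (nat_lit 684) (nat_lit 0) (XT.lf (nat_lit 0) (nat_lit 352121233) (nat_lit 608) (nat_lit 1865280695) (nat_lit 608) (nat_lit 1865280695) (nat_lit 282) (nat_lit 4) (nat_lit 290) (nat_lit 5) (nat_lit 290) (nat_lit 4) (nat_lit 440) (nat_lit 380) (nat_lit 380)) (XT.lf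 (nat_lit 0) (nat_lit 2241190098) (nat_lit 684) (nat_lit 5470412798) (nat_lit 0) (nat_lit 542943660) (nat_lit 273) (nat_lit 5) (nat_lit 282) (nat_lit 4) (nat_lit 273) (nat_lit 4) (nat_lit 441) (nat_lit 380) (nat_lit 379)))) (XT.nd (nat_lit 156) (nat_lit 1748) (nat_lit 0) (XT.nd (nat_lit 78) (nat_lit 608) (nat_lit 0) (XT.lf (nat_lit 0) (nat_lit 4901215382) (nat_lit 608) (nat_lit 3396307025) (nat_lit 608) (nat_lit 49277637) (nat_lit 265) (nat_lit 4) (nat_lit 273) (nat_lit 5) (nat_lit 273) (nat_lit 4) (nat_lit 442) (nat_lit 380) (nat_lit 378)) (XT.lf (nat_lit 0) (nat_lit 5954522080) (nat_lit 608) (nat_lit 1383956935) (nat_lit 0) (nat_lit 1103748028) (nat_lit 257) (nat_lit 5) (nat_lit 265) (nat_lit 4) (nat_lit 257) (nat_lit 4) (nat_lit 443) (nat_lit 380) (nat_lit 377))) (XT.nd (nat_lit 78) (nat_lit 608) (nat_lit 0) (XT.lf (nat_lit 0) (nat_lit 723683569) (nat_lit 532) (nat_lit 2790237434) (nat_lit 608) (nat_lit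 5026856361) (nat_lit 242) (nat_lit 5) (nat_lit 249) (nat_lit 5) (nat_lit 250) (nat_lit 4) (nat_lit 444) (nat_lit 380) (nat_lit 376)) (XT.lf (nat_lit 0) (nat_lit 967457027) (nat_lit 608) (nat_lit 5745463409) (nat_lit 76) (nat_lit 1929693135) (nat_lit 234) (nat_lit 5) (nat_lit 242) (nat_lit 5) (nat_lit 235) (nat_lit 4) (nat_lit 445) (nat_lit 380) (nat_lit 375))))))))
noncomputable def xc12 : XT := (XT.nd (nat_lit 1950) (nat_lit 4332) (nat_lit 0) (XT.nd (nat_lit 936) (nat_lit 4712) (nat_lit 0) (XT.nd (nat_lit 468) (nat_lit 3344) (nat_lit 0) (XT.nd (nat_lit 234) (nat_lit 1444) (nat_lit 0) (XT.nd (nat_lit 78) (nat_lit 1596) (nat_lit 0) (XT.lf (nat_lit 0) (nat_lit 5100983334) (nat_lit 456) (nat_lit 1933050089) (nat_lit 532) (nat_lit 1713602494) (nat_lit 228) (nat_lit 5) (nat_lit 234) (nat_lit 5) (nat_lit 235) (nat_lit 4) (nat_lit 446) (nat_lit 380) (nat_lit 374)) (XT.nd (nat_lit 78) (nat_lit 988) (nat_lit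 0) (XT.lf (nat_lit 0) (nat_lit 4332670323) (nat_lit 608) (nat_lit 1517408846) (nat_lit 76) (nat_lit 3005886012) (nat_lit 220) (nat_lit 5) (nat_lit 228) (nat_lit 5) (nat_lit 221) (nat_lit 4) (nat_lit 447) (nat_lit 380) (nat_lit 373)) (XT.lf (nat_lit 0) (nat_lit 664345802) (nat_lit 456) (nat_lit 848954806) (nat_lit 532) (nat_lit 7454539453) (nat_lit 207) (nat_lit 5) (nat_lit 213) (nat_lit 5) (nat_lit 214) (nat_lit 5) (nat_lit 448) (nat_lit 380) (nat_lit 372)))) (XT.nd (nat_lit 78) (nat_lit 988) (nat_lit 0) (XT.lf (nat_lit 0) (nat_lit 2886146213) (nat_lit 456) (nat_lit 4771467281) (nat_lit 532) (nat_lit 1425107200) (nat_lit 201) (nat_lit 5) (nat_lit 207) (nat_lit 5) (nat_lit 208) (nat_lit 4) (nat_lit 449) (nat_lit 380) (nat_lit 371)) (XT.nd (nat_lit 78) (nat_lit 456) (nat_lit 0) (XT.lf (nat_lit 0) (nat_lit 4682820055) (nat_lit 532) (nat_lit 4055093139) (nat_lit 76) (nat_lit 463314284) (nat_lit 194) (nat_lit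 5) (nat_lit 201) (nat_lit 5) (nat_lit 195) (nat_lit 4) (nat_lit 450) (nat_lit 380) (nat_lit 370)) (XT.lf (nat_lit 0) (nat_lit 1596482872) (nat_lit 456) (nat_lit 1891823559) (nat_lit 76) (nat_lit 5834863725) (nat_lit 188) (nat_lit 5) (nat_lit 194) (nat_lit 5) (nat_lit 189) (nat_lit 5) (nat_lit 451) (nat_lit 380) (nat_lit 369))))) (XT.nd (nat_lit 234) (nat_lit 1596) (nat_lit 0) (XT.nd (nat_lit 78) (nat_lit 912) (nat_lit 0) (XT.lf (nat_lit 0) (nat_lit 305689889) (nat_lit 380) (nat_lit 7499551677) (nat_lit 456) (nat_lit 1643503909) (nat_lit 177) (nat_lit 5) (nat_lit 182) (nat_lit 5) (nat_lit 183) (nat_lit 4) (nat_lit 452) (nat_lit 380) (nat_lit 368)) (XT.nd (nat_lit 78) (nat_lit 456) (nat_lit 0) (XT.lf (nat_lit 0) (nat_lit 2547939633) (nat_lit 380) (nat_lit 2008700745) (nat_lit 456) (nat_lit 5020953247) (nat_lit 171) (nat_lit 5) (nat_lit 176) (nat_lit 5) (nat_lit 177) (nat_lit 5) (nat_lit 453) (nat_lit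 380) (nat_lit 367)) (XT.lf (nat_lit 0) (nat_lit 1179587910) (nat_lit 456) (nat_lit 4890143234) (nat_lit 76) (nat_lit 3640506931) (nat_lit 165) (nat_lit 5) (nat_lit 171) (nat_lit 5) (nat_lit 166) (nat_lit 5) (nat_lit 454) (nat_lit 380) (nat_lit 366)))) (XT.nd (nat_lit 78) (nat_lit 1216) (nat_lit 0) (XT.lf (nat_lit 0) (nat_lit 7117288361) (nat_lit 380) (nat_lit 357975143) (nat_lit 456) (nat_lit 2371394848) (nat_lit 160) (nat_lit 5) (nat_lit 165) (nat_lit 5) (nat_lit 166) (nat_lit 5) (nat_lit 455) (nat_lit 380) (nat_lit 365)) (XT.nd (nat_lit 78) (nat_lit 760) (nat_lit 0) (XT.lf (nat_lit 0) (nat_lit 3922505150) (nat_lit 456) (nat_lit 562887040) (nat_lit 76) (nat_lit 5501230404) (nat_lit 154) (nat_lit 5) (nat_lit 160) (nat_lit 5) (nat_lit 155) (nat_lit 5) (nat_lit 456) (nat_lit 380) (nat_lit 364)) (XT.lf (nat_lit 0) (nat_lit 230117010) (nat_lit 380) (nat_lit 8467776655) (nat_lit 76) (nat_lit 1432738063)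 (nat_lit 144) (nat_lit 5) (nat_lit 149) (nat_lit 5) (nat_lit 145) (nat_lit 5) (nat_lit 457) (nat_lit 380) (nat_lit 363)))))) (XT.nd (nat_lit 468) (nat_lit 2280) (nat_lit 0) (XT.nd (nat_lit 234) (nat_lit 1368) (nat_lit 0) (XT.nd (nat_lit 78) (nat_lit 684) (nat_lit 0) (XT.lf (nat_lit 0) (nat_lit 3891723666) (nat_lit 380) (nat_lit 2743433202) (nat_lit 456) (nat_lit 3642921367) (nat_lit 139) (nat_lit 5) (nat_lit 144) (nat_lit 5) (nat_lit 145) (nat_lit 5) (nat_lit 458) (nat_lit 380) (nat_lit 362)) (XT.nd (nat_lit 78) (nat_lit 304) (nat_lit 0) (XT.lf (nat_lit 0) (nat_lit 2760052090) (nat_lit 380) (nat_lit 4284003300) (nat_lit 76) (nat_lit 3385646522) (nat_lit 134) (nat_lit 5) (nat_lit 139) (nat_lit 5) (nat_lit 135) (nat_lit 5) (nat_lit 459) (nat_lit 380) (nat_lit 361)) (XT.lf (nat_lit 0) (nat_lit 8421876011) (nat_lit 304) (nat_lit 876807443) (nat_lit 380) (nat_lit 1286853647) (nat_lit 130) (nat_lit 5) (nat_lit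 134) (nat_lit 5) (nat_lit 135) (nat_lit 5) (nat_lit 460) (nat_lit 380) (nat_lit 360)))) (XT.nd (nat_lit 78) (nat_lit 988) (nat_lit 0) (XT.lf (nat_lit 0) (nat_lit 5230583059) (nat_lit 380) (nat_lit 53540041) (nat_lit 76) (nat_lit 5460992974) (nat_lit 125) (nat_lit 5) (nat_lit 130) (nat_lit 5) (nat_lit 126) (nat_lit 5) (nat_lit 461) (nat_lit 380) (nat_lit 359)) (XT.nd (nat_lit 78) (nat_lit 304) (nat_lit 0) (XT.lf (nat_lit 0) (nat_lit 1009032538) (nat_lit 380) (nat_lit 8794547659) (nat_lit 76) (nat_lit 1105492769) (nat_lit 116) (nat_lit 5) (nat_lit 121) (nat_lit 5) (nat_lit 117) (nat_lit 5) (nat_lit 462) (nat_lit 380) (nat_lit 358)) (XT.lf (nat_lit 0) (nat_lit 4268866022) (nat_lit 304) (nat_lit 3401155371) (nat_lit 380) (nat_lit 3406870359) (nat_lit 112) (nat_lit 5) (nat_lit 116) (nat_lit 5) (nat_lit 117) (nat_lit 5) (nat_lit 463) (nat_lit 380) (nat_lit 357))))) (XT.nd (nat_lit 234) (nat_lit 1368) (nat_lit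 0) (XT.nd (nat_lit 78) (nat_lit 608) (nat_lit 0) (XT.lf (nat_lit 0) (nat_lit 3241582320) (nat_lit 304) (nat_lit 4811601420) (nat_lit 76) (nat_lit 3196069623) (nat_lit 108) (nat_lit 5) (nat_lit 112) (nat_lit 5) (nat_lit 109) (nat_lit 5) (nat_lit 464) (nat_lit 380) (nat_lit 356)) (XT.nd (nat_lit 78) (nat_lit 304) (nat_lit 0) (XT.lf (nat_lit 0) (nat_lit 8616686554) (nat_lit 304) (nat_lit 1434161615) (nat_lit 380) (nat_lit 1375338929) (nat_lit 104) (nat_lit 5) (nat_lit 108) (nat_lit 5) (nat_lit 109) (nat_lit 5) (nat_lit 465) (nat_lit 380) (nat_lit 355)) (XT.lf (nat_lit 0) (nat_lit 5406439487) (nat_lit 304) (nat_lit 828070473) (nat_lit 76) (nat_lit 5372774124) (nat_lit 100) (nat_lit 5) (nat_lit 104) (nat_lit 5) (nat_lit 101) (nat_lit 5) (nat_lit 466) (nat_lit 380) (nat_lit 354)))) (XT.nd (nat_lit 156) (nat_lit 532) (nat_lit 0) (XT.nd (nat_lit 78) (nat_lit 228) (nat_lit 0) (XT.lf (nat_lit 0) (nat_lit 581875809)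 (nat_lit 304) (nat_lit 10602732052) (nat_lit 76) (nat_lit 608750804) (nat_lit 92) (nat_lit 5) (nat_lit 96) (nat_lit 5) (nat_lit 93) (nat_lit 5) (nat_lit 467) (nat_lit 380) (nat_lit 353)) (XT.lf (nat_lit 0) (nat_lit 3183842785) (nat_lit 228) (nat_lit 4338218920) (nat_lit 304) (nat_lit 4461373473) (nat_lit 89) (nat_lit 5) (nat_lit 92) (nat_lit 5) (nat_lit 93) (nat_lit 5) (nat_lit 468) (nat_lit 380) (nat_lit 352))) (XT.nd (nat_lit 78) (nat_lit 228) (nat_lit 0) (XT.lf (nat_lit 0) (nat_lit 2468722319) (nat_lit 304) (nat_lit 6990347010) (nat_lit 76) (nat_lit 2719621870) (nat_lit 85) (nat_lit 5) (nat_lit 89) (nat_lit 5) (nat_lit 86) (nat_lit 5) (nat_lit 469) (nat_lit 380) (nat_lit 351)) (XT.lf (nat_lit 0) (nat_lit 7177717296) (nat_lit 228) (nat_lit 2392043667) (nat_lit 304) (nat_lit 2808984814) (nat_lit 82) (nat_lit 5) (nat_lit 85) (nat_lit 5) (nat_lit 86) (nat_lit 5) (nat_lit 470) (nat_lit 380) (nat_lit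 350))))))) (XT.nd (nat_lit 936) (nat_lit 1292) (nat_lit 0) (XT.nd (nat_lit 468) (nat_lit 1292) (nat_lit 0) (XT.nd (nat_lit 234) (nat_lit 684) (nat_lit 0) (XT.nd (nat_lit 78) (nat_lit 760) (nat_lit 0) (XT.lf (nat_lit 0) (nat_lit 4270994813) (nat_lit 304) (nat_lit 3434818508) (nat_lit 76) (nat_lit 4877866999) (nat_lit 78) (nat_lit 5) (nat_lit 82) (nat_lit 5) (nat_lit 79) (nat_lit 5) (nat_lit 471) (nat_lit 380) (nat_lit 349)) (XT.nd (nat_lit 78) (nat_lit 532) (nat_lit 0) (XT.lf (nat_lit 0) (nat_lit 11125507376) (nat_lit 228) (nat_lit 414064138) (nat_lit 304) (nat_lit 1254536261) (nat_lit 75) (nat_lit 5) (nat_lit 78) (nat_lit 5) (nat_lit 79) (nat_lit 5) (nat_lit 472) (nat_lit 380) (nat_lit 348)) (XT.lf (nat_lit 0) (nat_lit 45807288) (nat_lit 228) (nat_lit 5937656690) (nat_lit 304) (nat_lit 7025666254) (nat_lit 68) (nat_lit 5) (nat_lit 71) (nat_lit 5) (nat_lit 72) (nat_lit 5) (nat_lit 473) (nat_lit 380)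 (nat_lit 347)))) (XT.nd (nat_lit 78) (nat_lit 456) (nat_lit 0) (XT.lf (nat_lit 0) (nat_lit 214882533) (nat_lit 228) (nat_lit 11440071208) (nat_lit 76) (nat_lit 1574936737) (nat_lit 65) (nat_lit 5) (nat_lit 68) (nat_lit 5) (nat_lit 66) (nat_lit 5) (nat_lit 474) (nat_lit 380) (nat_lit 346)) (XT.nd (nat_lit 78) (nat_lit 228) (nat_lit 0) (XT.lf (nat_lit 0) (nat_lit 3474715684) (nat_lit 228) (nat_lit 4146264998) (nat_lit 304) (nat_lit 5834491396) (nat_lit 62) (nat_lit 5) (nat_lit 65) (nat_lit 5) (nat_lit 66) (nat_lit 5) (nat_lit 475) (nat_lit 380) (nat_lit 345)) (XT.lf (nat_lit 0) (nat_lit 1569911829) (nat_lit 228) (nat_lit 8535964304) (nat_lit 76) (nat_lit 3581166119) (nat_lit 59) (nat_lit 5) (nat_lit 62) (nat_lit 5) (nat_lit 60) (nat_lit 5) (nat_lit 476) (nat_lit 380) (nat_lit 344))))) (XT.nd (nat_lit 234) (nat_lit 608) (nat_lit 0) (XT.nd (nat_lit 78) (nat_lit 456) (nat_lit 0) (XT.lf (nat_lit 0) (nat_lit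 6783181418) (nat_lit 228) (nat_lit 2369406325) (nat_lit 304) (nat_lit 4771495095) (nat_lit 56) (nat_lit 5) (nat_lit 59) (nat_lit 5) (nat_lit 60) (nat_lit 5) (nat_lit 477) (nat_lit 380) (nat_lit 343)) (XT.nd (nat_lit 78) (nat_lit 228) (nat_lit 0) (XT.lf (nat_lit 0) (nat_lit 2803698052) (nat_lit 228) (nat_lit 5787043043) (nat_lit 76) (nat_lit 5576216546) (nat_lit 53) (nat_lit 5) (nat_lit 56) (nat_lit 5) (nat_lit 54) (nat_lit 5) (nat_lit 478) (nat_lit 380) (nat_lit 342)) (XT.lf (nat_lit 0) (nat_lit 9945622634) (nat_lit 228) (nat_lit 622777495) (nat_lit 304) (nat_lit 3847548770) (nat_lit 50) (nat_lit 5) (nat_lit 53) (nat_lit 5) (nat_lit 54) (nat_lit 5) (nat_lit 479) (nat_lit 380) (nat_lit 341)))) (XT.nd (nat_lit 78) (nat_lit 380) (nat_lit 0) (XT.lf (nat_lit 0) (nat_lit 3905058579) (nat_lit 228) (nat_lit 3221184377) (nat_lit 76) (nat_lit 7544413977) (nat_lit 47) (nat_lit 5) (nat_lit 50) (nat_lit 5) (nat_lit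 48) (nat_lit 5) (nat_lit 480) (nat_lit 380) (nat_lit 340)) (XT.nd (nat_lit 78) (nat_lit 228) (nat_lit 0) (XT.lf (nat_lit 0) (nat_lit 11863865212) (nat_lit 228) (nat_lit 2005468978) (nat_lit 76) (nat_lit 1062647877) (nat_lit 45) (nat_lit 5) (nat_lit 48) (nat_lit 5) (nat_lit 46) (nat_lit 4) (nat_lit 481) (nat_lit 380) (nat_lit 339)) (XT.lf (nat_lit 0) (nat_lit 4861053327) (nat_lit 228) (nat_lit 869302368) (nat_lit 76) (nat_lit 9468872249) (nat_lit 42) (nat_lit 5) (nat_lit 45) (nat_lit 5) (nat_lit 43) (nat_lit 5) (nat_lit 482) (nat_lit 380) (nat_lit 338)))))) (XT.nd (nat_lit 468) (nat_lit 76) (nat_lit 0) (XT.nd (nat_lit 234) (nat_lit 532) (nat_lit 0) (XT.nd (nat_lit 78) (nat_lit 380) (nat_lit 0) (XT.lf (nat_lit 0) (nat_lit 227353455) (nat_lit 152) (nat_lit 12796381799) (nat_lit 228) (nat_lit 2449606140) (nat_lit 38) (nat_lit 5) (nat_lit 40) (nat_lit 5) (nat_lit 41) (nat_lit 4) (nat_lit 483) (nat_lit 380)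 (nat_lit 337)) (XT.nd (nat_lit 78) (nat_lit 152) (nat_lit 0) (XT.lf (nat_lit 0) (nat_lit 1250694886) (nat_lit 152) (nat_lit 4414249529) (nat_lit 228) (nat_lit 10088723698) (nat_lit 35) (nat_lit 5) (nat_lit 37) (nat_lit 5) (nat_lit 38) (nat_lit 5) (nat_lit 484) (nat_lit 380) (nat_lit 336)) (XT.lf (nat_lit 0) (nat_lit 2216160556) (nat_lit 152) (nat_lit 11822309138) (nat_lit 228) (nat_lit 2002636765) (nat_lit 33) (nat_lit 5) (nat_lit 35) (nat_lit 5) (nat_lit 36) (nat_lit 4) (nat_lit 485) (nat_lit 380) (nat_lit 335)))) (XT.nd (nat_lit 78) (nat_lit 304) (nat_lit 0) (XT.lf (nat_lit 0) (nat_lit 3092046708) (nat_lit 152) (nat_lit 3203443538) (nat_lit 228) (nat_lit 10039809703) (nat_lit 30) (nat_lit 5) (nat_lit 32) (nat_lit 5) (nat_lit 33) (nat_lit 5) (nat_lit 486) (nat_lit 380) (nat_lit 334)) (XT.nd (nat_lit 78) (nat_lit 228) (nat_lit 0) (XT.lf (nat_lit 0) (nat_lit 3893616130) (nat_lit 76) (nat_lit 10983360479)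 (nat_lit 152) (nat_lit 1759847299) (nat_lit 29) (nat_lit 5) (nat_lit 30) (nat_lit 5) (nat_lit 31) (nat_lit 4) (nat_lit 487) (nat_lit 380) (nat_lit 333)) (XT.lf (nat_lit 0) (nat_lit 4600305183) (nat_lit 152) (nat_lit 2127133047) (nat_lit 228) (nat_lit 10218124344) (nat_lit 26) (nat_lit 5) (nat_lit 28) (nat_lit 5) (nat_lit 29) (nat_lit 5) (nat_lit 488) (nat_lit 380) (nat_lit 332))))) (XT.nd (nat_lit 58656) (nat_lit 0) (nat_lit 17632) (XT.nd (nat_lit 58500) (nat_lit 0) (nat_lit 20748) (XT.lf (nat_lit 0) (nat_lit 5214512264) (nat_lit 76) (nat_lit 10304428442) (nat_lit 152) (nat_lit 1742921628) (nat_lit 25) (nat_lit 5) (nat_lit 26) (nat_lit 5) (nat_lit 27) (nat_lit 4) (nat_lit 489) (nat_lit 380) (nat_lit 331)) (XT.nd (nat_lit 78) (nat_lit 760) (nat_lit 0) (XT.lf (nat_lit 0) (nat_lit 1207745473) (nat_lit 684) (nat_lit 1581941946) (nat_lit 0) (nat_lit 1207745473) (nat_lit 308) (nat_lit 5) (nat_lit 317) (nat_lit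 4) (nat_lit 308) (nat_lit 4) (nat_lit 438) (nat_lit 381) (nat_lit 381)) (XT.lf (nat_lit 0) (nat_lit 257568680) (nat_lit 760) (nat_lit 1299572527) (nat_lit 76) (nat_lit 6522322525) (nat_lit 298) (nat_lit 5) (nat_lit 308) (nat_lit 5) (nat_lit 299) (nat_lit 4) (nat_lit 439) (nat_lit 381) (nat_lit 380)))) (XT.nd (nat_lit 156) (nat_lit 1216) (nat_lit 0) (XT.nd (nat_lit 78) (nat_lit 684) (nat_lit 0) (XT.lf (nat_lit 0) (nat_lit 603304042) (nat_lit 608) (nat_lit 5539985210) (nat_lit 608) (nat_lit 2023596135) (nat_lit 282) (nat_lit 4) (nat_lit 290) (nat_lit 5) (nat_lit 290) (nat_lit 4) (nat_lit 440) (nat_lit 381) (nat_lit 379)) (XT.lf (nat_lit 0) (nat_lit 2572423863) (nat_lit 608) (nat_lit 1274393733) (nat_lit 684) (nat_lit 4410612446) (nat_lit 273) (nat_lit 5) (nat_lit 281) (nat_lit 5) (nat_lit 282) (nat_lit 4) (nat_lit 441) (nat_lit 381) (nat_lit 378))) (XT.nd (nat_lit 78) (nat_lit 532) (nat_lit 0) (XT.lf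 (nat_lit 0) (nat_lit 1449637182) (nat_lit 684) (nat_lit 3768716256) (nat_lit 76) (nat_lit 3132803175) (nat_lit 264) (nat_lit 5) (nat_lit 273) (nat_lit 5) (nat_lit 265) (nat_lit 4) (nat_lit 442) (nat_lit 381) (nat_lit 377)) (XT.lf (nat_lit 0) (nat_lit 6638592871) (nat_lit 532) (nat_lit 732551831) (nat_lit 608) (nat_lit 1077070964) (nat_lit 257) (nat_lit 5) (nat_lit 264) (nat_lit 5) (nat_lit 265) (nat_lit 4) (nat_lit 443) (nat_lit 381) (nat_lit 376))))))))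
noncomputable def xc13 : XT := (XT.nd (nat_lit 1950) (nat_lit 5016) (nat_lit 0) (XT.nd (nat_lit 936) (nat_lit 5168) (nat_lit 0) (XT.nd (nat_lit 468) (nat_lit 3116) (nat_lit 0) (XT.nd (nat_lit 234) (nat_lit 2052) (nat_lit 0) (XT.nd (nat_lit 78) (nat_lit 1064) (nat_lit 0) (XT.lf (nat_lit 0) (nat_lit 174802307) (nat_lit 532) (nat_lit 4648672622) (nat_lit 608) (nat_lit 3724764737) (nat_lit 242) (nat_lit 5) (nat_lit 249) (nat_lit 5) (nat_lit 250) (nat_lit 4) (nat_lit 444) (nat_lit 381) (nat_lit 375)) (XT.nd (nat_lit 78) (nat_lit 456) (nat_lit 0) (XT.lf (nat_lit 0) (nat_lit 2165410136) (nat_lit 608) (nat_lit 6414906210) (nat_lit 76) (nat_lit 71336689) (nat_lit 234) (nat_lit 5) (nat_lit 242) (nat_lit 5) (nat_lit 235) (nat_lit 4) (nat_lit 445) (nat_lit 381) (nat_lit 374)) (XT.lf (nat_lit 0) (nat_lit 4322489073) (nat_lit 456) (nat_lit 3835209210) (nat_lit 532) (nat_lit 600467731) (nat_lit 228) (nat_lit 5) (nat_lit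 234) (nat_lit 5) (nat_lit 235) (nat_lit 4) (nat_lit 446) (nat_lit 381) (nat_lit 373)))) (XT.nd (nat_lit 78) (nat_lit 1444) (nat_lit 0) (XT.lf (nat_lit 0) (nat_lit 5344484370) (nat_lit 608) (nat_lit 2423035611) (nat_lit 76) (nat_lit 1100569822) (nat_lit 220) (nat_lit 5) (nat_lit 228) (nat_lit 5) (nat_lit 221) (nat_lit 4) (nat_lit 447) (nat_lit 381) (nat_lit 372)) (XT.nd (nat_lit 78) (nat_lit 912) (nat_lit 0) (XT.lf (nat_lit 0) (nat_lit 2421339546) (nat_lit 532) (nat_lit 380642640) (nat_lit 76) (nat_lit 6179427883) (nat_lit 213) (nat_lit 5) (nat_lit 220) (nat_lit 5) (nat_lit 214) (nat_lit 5) (nat_lit 448) (nat_lit 381) (nat_lit 371)) (XT.lf (nat_lit 0) (nat_lit 1720452574) (nat_lit 456) (nat_lit 6755346801) (nat_lit 532) (nat_lit 622292671) (nat_lit 201) (nat_lit 5) (nat_lit 207) (nat_lit 5) (nat_lit 208) (nat_lit 4) (nat_lit 449) (nat_lit 381) (nat_lit 370))))) (XT.nd (nat_lit 234) (nat_lit 1672) (nat_lit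 0) (XT.nd (nat_lit 78) (nat_lit 912) (nat_lit 0) (XT.lf (nat_lit 0) (nat_lit 3847183382) (nat_lit 456) (nat_lit 1550215878) (nat_lit 532) (nat_lit 3820653522) (nat_lit 194) (nat_lit 5) (nat_lit 200) (nat_lit 5) (nat_lit 201) (nat_lit 5) (nat_lit 450) (nat_lit 381) (nat_lit 369)) (XT.nd (nat_lit 78) (nat_lit 456) (nat_lit 0) (XT.lf (nat_lit 0) (nat_lit 2200105830) (nat_lit 456) (nat_lit 3336878346) (nat_lit 76) (nat_lit 3804624154) (nat_lit 188) (nat_lit 5) (nat_lit 194) (nat_lit 5) (nat_lit 189) (nat_lit 5) (nat_lit 451) (nat_lit 381) (nat_lit 368)) (XT.lf (nat_lit 0) (nat_lit 8200516327) (nat_lit 456) (nat_lit 119131920) (nat_lit 532) (nat_lit 1149323494) (nat_lit 182) (nat_lit 5) (nat_lit 188) (nat_lit 5) (nat_lit 189) (nat_lit 5) (nat_lit 452) (nat_lit 381) (nat_lit 367)))) (XT.nd (nat_lit 78) (nat_lit 836) (nat_lit 0) (XT.lf (nat_lit 0) (nat_lit 812323144) (nat_lit 380) (nat_lit 4147272785) (nat_lit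 456) (nat_lit 4639858248) (nat_lit 171) (nat_lit 5) (nat_lit 176) (nat_lit 5) (nat_lit 177) (nat_lit 5) (nat_lit 453) (nat_lit 381) (nat_lit 366)) (XT.nd (nat_lit 78) (nat_lit 380) (nat_lit 0) (XT.lf (nat_lit 0) (nat_lit 1465801509) (nat_lit 456) (nat_lit 6782260681) (nat_lit 76) (nat_lit 1485788029) (nat_lit 165) (nat_lit 5) (nat_lit 171) (nat_lit 5) (nat_lit 166) (nat_lit 5) (nat_lit 454) (nat_lit 381) (nat_lit 365)) (XT.lf (nat_lit 0) (nat_lit 5100979141) (nat_lit 380) (nat_lit 2584921968) (nat_lit 456) (nat_lit 2185884221) (nat_lit 160) (nat_lit 5) (nat_lit 165) (nat_lit 5) (nat_lit 166) (nat_lit 5) (nat_lit 455) (nat_lit 381) (nat_lit 364)))))) (XT.nd (nat_lit 468) (nat_lit 2508) (nat_lit 0) (XT.nd (nat_lit 234) (nat_lit 1064) (nat_lit 0) (XT.nd (nat_lit 78) (nat_lit 1140) (nat_lit 0) (XT.lf (nat_lit 0) (nat_lit 4015034883) (nat_lit 456) (nat_lit 2742795332) (nat_lit 76) (nat_lit 3255709378) (nat_lit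 154) (nat_lit 5) (nat_lit 160) (nat_lit 5) (nat_lit 155) (nat_lit 5) (nat_lit 456) (nat_lit 381) (nat_lit 363)) (XT.nd (nat_lit 78) (nat_lit 684) (nat_lit 0) (XT.lf (nat_lit 0) (nat_lit 198357120) (nat_lit 456) (nat_lit 684381720) (nat_lit 76) (nat_lit 9276734613) (nat_lit 148) (nat_lit 5) (nat_lit 154) (nat_lit 5) (nat_lit 149) (nat_lit 5) (nat_lit 457) (nat_lit 381) (nat_lit 362)) (XT.lf (nat_lit 0) (nat_lit 1381412857) (nat_lit 380) (nat_lit 5134565906) (nat_lit 456) (nat_lit 3792692475) (nat_lit 139) (nat_lit 5) (nat_lit 144) (nat_lit 5) (nat_lit 145) (nat_lit 5) (nat_lit 458) (nat_lit 381) (nat_lit 361)))) (XT.nd (nat_lit 78) (nat_lit 684) (nat_lit 0) (XT.lf (nat_lit 0) (nat_lit 2518903156) (nat_lit 380) (nat_lit 6972356080) (nat_lit 76) (nat_lit 970924743) (nat_lit 134) (nat_lit 5) (nat_lit 139) (nat_lit 5) (nat_lit 135) (nat_lit 5) (nat_lit 459) (nat_lit 381) (nat_lit 360)) (XT.nd (nat_lit 78)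 (nat_lit 380) (nat_lit 0) (XT.lf (nat_lit 0) (nat_lit 5600046174) (nat_lit 304) (nat_lit 3379953463) (nat_lit 380) (nat_lit 1639572923) (nat_lit 130) (nat_lit 5) (nat_lit 134) (nat_lit 5) (nat_lit 135) (nat_lit 5) (nat_lit 460) (nat_lit 381) (nat_lit 359)) (XT.lf (nat_lit 0) (nat_lit 4787956953) (nat_lit 380) (nat_lit 3060996930) (nat_lit 76) (nat_lit 2932136671) (nat_lit 125) (nat_lit 5) (nat_lit 130) (nat_lit 5) (nat_lit 126) (nat_lit 5) (nat_lit 461) (nat_lit 381) (nat_lit 358))))) (XT.nd (nat_lit 234) (nat_lit 1216) (nat_lit 0) (XT.nd (nat_lit 78) (nat_lit 912) (nat_lit 0) (XT.lf (nat_lit 0) (nat_lit 437089765) (nat_lit 380) (nat_lit 1083529807) (nat_lit 76) (nat_lit 9426484844) (nat_lit 120) (nat_lit 5) (nat_lit 125) (nat_lit 5) (nat_lit 121) (nat_lit 5) (nat_lit 462) (nat_lit 381) (nat_lit 357)) (XT.nd (nat_lit 78) (nat_lit 304) (nat_lit 0) (XT.lf (nat_lit 0) (nat_lit 887388918) (nat_lit 304)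 (nat_lit 6113876000) (nat_lit 380) (nat_lit 4115596928) (nat_lit 112) (nat_lit 5) (nat_lit 116) (nat_lit 5) (nat_lit 117) (nat_lit 5) (nat_lit 463) (nat_lit 381) (nat_lit 356)) (XT.lf (nat_lit 0) (nat_lit 2443875825) (nat_lit 304) (nat_lit 8394365478) (nat_lit 76) (nat_lit 453041939) (nat_lit 108) (nat_lit 5) (nat_lit 112) (nat_lit 5) (nat_lit 109) (nat_lit 5) (nat_lit 464) (nat_lit 381) (nat_lit 355)))) (XT.nd (nat_lit 156) (nat_lit 608) (nat_lit 0) (XT.nd (nat_lit 78) (nat_lit 304) (nat_lit 0) (XT.lf (nat_lit 0) (nat_lit 4890105268) (nat_lit 304) (nat_lit 4282526766) (nat_lit 380) (nat_lit 2297197327) (nat_lit 104) (nat_lit 5) (nat_lit 108) (nat_lit 5) (nat_lit 109) (nat_lit 5) (nat_lit 465) (nat_lit 381) (nat_lit 354)) (XT.lf (nat_lit 0) (nat_lit 4396687574) (nat_lit 304) (nat_lit 4764161860) (nat_lit 76) (nat_lit 2492198378) (nat_lit 100) (nat_lit 5) (nat_lit 104) (nat_lit 5) (nat_lit 101) (nat_lit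 5) (nat_lit 466) (nat_lit 381) (nat_lit 353))) (XT.nd (nat_lit 78) (nat_lit 304) (nat_lit 0) (XT.lf (nat_lit 0) (nat_lit 8893356063) (nat_lit 304) (nat_lit 2386865492) (nat_lit 380) (nat_lit 560840832) (nat_lit 96) (nat_lit 5) (nat_lit 100) (nat_lit 5) (nat_lit 101) (nat_lit 5) (nat_lit 467) (nat_lit 381) (nat_lit 352)) (XT.lf (nat_lit 0) (nat_lit 6275914224) (nat_lit 304) (nat_lit 1158992345) (nat_lit 76) (nat_lit 4598522810) (nat_lit 92) (nat_lit 5) (nat_lit 96) (nat_lit 5) (nat_lit 93) (nat_lit 5) (nat_lit 468) (nat_lit 381) (nat_lit 351))))))) (XT.nd (nat_lit 1014) (nat_lit 1444) (nat_lit 0) (XT.nd (nat_lit 468) (nat_lit 1748) (nat_lit 0) (XT.nd (nat_lit 234) (nat_lit 760) (nat_lit 0) (XT.nd (nat_lit 78) (nat_lit 532) (nat_lit 0) (XT.lf (nat_lit 0) (nat_lit 653019262) (nat_lit 228) (nat_lit 426971045) (nat_lit 304) (nat_lit 11151057024) (nat_lit 85) (nat_lit 5) (nat_lit 88) (nat_lit 5) (nat_lit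 89) (nat_lit 5) (nat_lit 469) (nat_lit 381) (nat_lit 350)) (XT.nd (nat_lit 78) (nat_lit 304) (nat_lit 0) (XT.lf (nat_lit 0) (nat_lit 2437408296) (nat_lit 228) (nat_lit 5656347606) (nat_lit 304) (nat_lit 4339093248) (nat_lit 82) (nat_lit 5) (nat_lit 85) (nat_lit 5) (nat_lit 86) (nat_lit 5) (nat_lit 470) (nat_lit 381) (nat_lit 349)) (XT.lf (nat_lit 0) (nat_lit 2654036113) (nat_lit 304) (nat_lit 8410812852) (nat_lit 76) (nat_lit 1575273470) (nat_lit 78) (nat_lit 5) (nat_lit 82) (nat_lit 5) (nat_lit 79) (nat_lit 5) (nat_lit 471) (nat_lit 381) (nat_lit 348)))) (XT.nd (nat_lit 78) (nat_lit 532) (nat_lit 0) (XT.lf (nat_lit 0) (nat_lit 5990447418) (nat_lit 228) (nat_lit 3846424393) (nat_lit 304) (nat_lit 3015394543) (nat_lit 75) (nat_lit 5) (nat_lit 78) (nat_lit 5) (nat_lit 79) (nat_lit 5) (nat_lit 472) (nat_lit 381) (nat_lit 347)) (XT.nd (nat_lit 78) (nat_lit 228) (nat_lit 0) (XT.lf (nat_lit 0) (nat_lit 4136066064)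 (nat_lit 304) (nat_lit 5334845257) (nat_lit 76) (nat_lit 3598800380) (nat_lit 71) (nat_lit 5) (nat_lit 75) (nat_lit 5) (nat_lit 72) (nat_lit 5) (nat_lit 473) (nat_lit 381) (nat_lit 346)) (XT.lf (nat_lit 0) (nat_lit 9465438414) (nat_lit 228) (nat_lit 2026098680) (nat_lit 304) (nat_lit 1801139085) (nat_lit 68) (nat_lit 5) (nat_lit 71) (nat_lit 5) (nat_lit 72) (nat_lit 5) (nat_lit 474) (nat_lit 381) (nat_lit 345))))) (XT.nd (nat_lit 234) (nat_lit 836) (nat_lit 0) (XT.nd (nat_lit 78) (nat_lit 684) (nat_lit 0) (XT.lf (nat_lit 0) (nat_lit 5516129584) (nat_lit 228) (nat_lit 2368428068) (nat_lit 76) (nat_lit 5636184494) (nat_lit 65) (nat_lit 5) (nat_lit 68) (nat_lit 5) (nat_lit 66) (nat_lit 5) (nat_lit 475) (nat_lit 381) (nat_lit 344)) (XT.nd (nat_lit 78) (nat_lit 456) (nat_lit 0) (XT.lf (nat_lit 0) (nat_lit 12841057751) (nat_lit 228) (nat_lit 209271135) (nat_lit 304) (nat_lit 704648285) (nat_lit 62) (nat_lit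 5) (nat_lit 65) (nat_lit 5) (nat_lit 66) (nat_lit 5) (nat_lit 476) (nat_lit 381) (nat_lit 343)) (XT.lf (nat_lit 0) (nat_lit 471326402) (nat_lit 228) (nat_lit 6317384518) (nat_lit 304) (nat_lit 7205370841) (nat_lit 56) (nat_lit 5) (nat_lit 59) (nat_lit 5) (nat_lit 60) (nat_lit 5) (nat_lit 477) (nat_lit 381) (nat_lit 342)))) (XT.nd (nat_lit 156) (nat_lit 380) (nat_lit 0) (XT.nd (nat_lit 78) (nat_lit 228) (nat_lit 0) (XT.lf (nat_lit 0) (nat_lit 283393593) (nat_lit 228) (nat_lit 12373814678) (nat_lit 76) (nat_lit 1582432600) (nat_lit 53) (nat_lit 5) (nat_lit 56) (nat_lit 5) (nat_lit 54) (nat_lit 5) (nat_lit 478) (nat_lit 381) (nat_lit 341)) (XT.lf (nat_lit 0) (nat_lit 3181811469) (nat_lit 228) (nat_lit 4773385941) (nat_lit 304) (nat_lit 6535293919) (nat_lit 50) (nat_lit 5) (nat_lit 53) (nat_lit 5) (nat_lit 54) (nat_lit 5) (nat_lit 479) (nat_lit 381) (nat_lit 340))) (XT.nd (nat_lit 78) (nat_lit 152) (nat_lit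 0) (XT.lf (nat_lit 0) (nat_lit 1131053965) (nat_lit 228) (nat_lit 10270591237) (nat_lit 76) (nat_lit 3346334543) (nat_lit 47) (nat_lit 5) (nat_lit 50) (nat_lit 5) (nat_lit 48) (nat_lit 5) (nat_lit 480) (nat_lit 381) (nat_lit 339)) (XT.lf (nat_lit 0) (nat_lit 5702575144) (nat_lit 152) (nat_lit 3285506510) (nat_lit 228) (nat_lit 6023259946) (nat_lit 45) (nat_lit 5) (nat_lit 47) (nat_lit 5) (nat_lit 48) (nat_lit 5) (nat_lit 481) (nat_lit 381) (nat_lit 338)))))) (XT.nd (nat_lit 468) (nat_lit 304) (nat_lit 0) (XT.nd (nat_lit 234) (nat_lit 532) (nat_lit 0) (XT.nd (nat_lit 78) (nat_lit 380) (nat_lit 0) (XT.lf (nat_lit 0) (nat_lit 1826835731) (nat_lit 228) (nat_lit 8397034072) (nat_lit 76) (nat_lit 5057459131) (nat_lit 42) (nat_lit 5) (nat_lit 45) (nat_lit 5) (nat_lit 43) (nat_lit 5) (nat_lit 482) (nat_lit 381) (nat_lit 337)) (XT.nd (nat_lit 78) (nat_lit 228) (nat_lit 0) (XT.lf (nat_lit 0) (nat_lit 8001457777)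 (nat_lit 152) (nat_lit 1872164047) (nat_lit 228) (nat_lit 5684139531) (nat_lit 40) (nat_lit 5) (nat_lit 42) (nat_lit 5) (nat_lit 43) (nat_lit 5) (nat_lit 483) (nat_lit 381) (nat_lit 336)) (XT.lf (nat_lit 0) (nat_lit 2355485212) (nat_lit 228) (nat_lit 6788085393) (nat_lit 76) (nat_lit 6697285434) (nat_lit 37) (nat_lit 5) (nat_lit 40) (nat_lit 5) (nat_lit 38) (nat_lit 5) (nat_lit 484) (nat_lit 381) (nat_lit 335)))) (XT.nd (nat_lit 78) (nat_lit 380) (nat_lit 0) (XT.lf (nat_lit 0) (nat_lit 10042742226) (nat_lit 152) (nat_lit 553348677) (nat_lit 228) (nat_lit 5534862849) (nat_lit 35) (nat_lit 5) (nat_lit 37) (nat_lit 5) (nat_lit 38) (nat_lit 5) (nat_lit 485) (nat_lit 381) (nat_lit 334)) (XT.nd (nat_lit 78) (nat_lit 152) (nat_lit 0) (XT.lf (nat_lit 0) (nat_lit 2699641889) (nat_lit 228) (nat_lit 5482510562) (nat_lit 76) (nat_lit 8245653351) (nat_lit 32) (nat_lit 5) (nat_lit 35) (nat_lit 5) (nat_lit 33) (nat_lit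 5) (nat_lit 486) (nat_lit 381) (nat_lit 333)) (XT.lf (nat_lit 0) (nat_lit 11141802516) (nat_lit 228) (nat_lit 4949674526) (nat_lit 76) (nat_lit 640640134) (nat_lit 30) (nat_lit 5) (nat_lit 33) (nat_lit 5) (nat_lit 31) (nat_lit 4) (nat_lit 487) (nat_lit 381) (nat_lit 332))))) (XT.nd (nat_lit 58500) (nat_lit 0) (nat_lit 19456) (XT.nd (nat_lit 78) (nat_lit 152) (nat_lit 0) (XT.lf (nat_lit 0) (nat_lit 2839636734) (nat_lit 152) (nat_lit 4523334488) (nat_lit 76) (nat_lit 9680534305) (nat_lit 28) (nat_lit 5) (nat_lit 30) (nat_lit 5) (nat_lit 29) (nat_lit 5) (nat_lit 488) (nat_lit 381) (nat_lit 331)) (XT.nd (nat_lit 58344) (nat_lit 0) (nat_lit 22800) (XT.lf (nat_lit 0) (nat_lit 11488938854) (nat_lit 228) (nat_lit 4184638753) (nat_lit 76) (nat_lit 1689072519) (nat_lit 26) (nat_lit 5) (nat_lit 29) (nat_lit 5) (nat_lit 27) (nat_lit 4) (nat_lit 489) (nat_lit 381) (nat_lit 330)) (XT.lf (nat_lit 0) (nat_lit 297865843)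 (nat_lit 760) (nat_lit 3321236343) (nat_lit 0) (nat_lit 297865843) (nat_lit 326) (nat_lit 5) (nat_lit 336) (nat_lit 4) (nat_lit 326) (nat_lit 4) (nat_lit 436) (nat_lit 382) (nat_lit 382)))) (XT.nd (nat_lit 156) (nat_lit 1976) (nat_lit 0) (XT.nd (nat_lit 78) (nat_lit 684) (nat_lit 0) (XT.lf (nat_lit 0) (nat_lit 2935666040) (nat_lit 684) (nat_lit 3444900278) (nat_lit 684) (nat_lit 1532954036) (nat_lit 317) (nat_lit 4) (nat_lit 326) (nat_lit 5) (nat_lit 326) (nat_lit 4) (nat_lit 437) (nat_lit 382) (nat_lit 381)) (XT.lf (nat_lit 0) (nat_lit 4214624910) (nat_lit 684) (nat_lit 3261447400) (nat_lit 0) (nat_lit 520306548) (nat_lit 308) (nat_lit 5) (nat_lit 317) (nat_lit 4) (nat_lit 308) (nat_lit 4) (nat_lit 438) (nat_lit 382) (nat_lit 380))) (XT.nd (nat_lit 78) (nat_lit 1216) (nat_lit 0) (XT.lf (nat_lit 0) (nat_lit 1956720143) (nat_lit 760) (nat_lit 1508599266) (nat_lit 76) (nat_lit 4616928128) (nat_lit 298)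 (nat_lit 5) (nat_lit 308) (nat_lit 5) (nat_lit 299) (nat_lit 4) (nat_lit 439) (nat_lit 382) (nat_lit 379)) (XT.lf (nat_lit 0) (nat_lit 300400567) (nat_lit 608) (nat_lit 7453448643) (nat_lit 608) (nat_lit 417597921) (nat_lit 282) (nat_lit 4) (nat_lit 290) (nat_lit 5) (nat_lit 290) (nat_lit 4) (nat_lit 440) (nat_lit 382) (nat_lit 378))))))))
noncomputable def xc14 : XT := (XT.nd (nat_lit 1950) (nat_lit 5700) (nat_lit 0) (XT.nd (nat_lit 936) (nat_lit 5928) (nat_lit 0) (XT.nd (nat_lit 468) (nat_lit 3420) (nat_lit 0) (XT.nd (nat_lit 234) (nat_lit 2204) (nat_lit 0) (XT.nd (nat_lit 78) (nat_lit 1292) (nat_lit 0) (XT.lf (nat_lit 0) (nat_lit 2152925150) (nat_lit 608) (nat_lit 3204278424) (nat_lit 684) (nat_lit 2906076470) (nat_lit 273) (nat_lit 5) (nat_lit 281) (nat_lit 5) (nat_lit 282) (nat_lit 4) (nat_lit 441) (nat_lit 382) (nat_lit 377)) (XT.nd (nat_lit 78) (nat_lit 608) (nat_lit 0) (XT.lf (nat_lit 0) (nat_lit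 2847482427) (nat_lit 684) (nat_lit 4300874569) (nat_lit 76) (nat_lit 1210198953) (nat_lit 264) (nat_lit 5) (nat_lit 273) (nat_lit 5) (nat_lit 265) (nat_lit 4) (nat_lit 442) (nat_lit 382) (nat_lit 376)) (XT.lf (nat_lit 0) (nat_lit 235118977) (nat_lit 608) (nat_lit 2455718526) (nat_lit 76) (nat_lit 5766224995) (nat_lit 256) (nat_lit 5) (nat_lit 264) (nat_lit 5) (nat_lit 257) (nat_lit 5) (nat_lit 443) (nat_lit 382) (nat_lit 375)))) (XT.nd (nat_lit 78) (nat_lit 1672) (nat_lit 0) (XT.lf (nat_lit 0) (nat_lit 6034051018) (nat_lit 608) (nat_lit 582375112) (nat_lit 76) (nat_lit 1942275380) (nat_lit 249) (nat_lit 5) (nat_lit 257) (nat_lit 5) (nat_lit 250) (nat_lit 4) (nat_lit 444) (nat_lit 382) (nat_lit 374)) (XT.nd (nat_lit 78) (nat_lit 532) (nat_lit 0) (XT.lf (nat_lit 0) (nat_lit 1345953827) (nat_lit 532) (nat_lit 1925303851) (nat_lit 608) (nat_lit 5392276770) (nat_lit 234) (nat_lit 5) (nat_lit 241) (nat_lit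 5) (nat_lit 242) (nat_lit 5) (nat_lit 445) (nat_lit 382) (nat_lit 373)) (XT.lf (nat_lit 0) (nat_lit 400245195) (nat_lit 532) (nat_lit 5451162172) (nat_lit 76) (nat_lit 2920316231) (nat_lit 227) (nat_lit 5) (nat_lit 234) (nat_lit 5) (nat_lit 228) (nat_lit 5) (nat_lit 446) (nat_lit 382) (nat_lit 372))))) (XT.nd (nat_lit 234) (nat_lit 1368) (nat_lit 0) (XT.nd (nat_lit 78) (nat_lit 1520) (nat_lit 0) (XT.lf (nat_lit 0) (nat_lit 5322950900) (nat_lit 532) (nat_lit 933484011) (nat_lit 608) (nat_lit 2626756744) (nat_lit 220) (nat_lit 5) (nat_lit 227) (nat_lit 5) (nat_lit 228) (nat_lit 5) (nat_lit 447) (nat_lit 382) (nat_lit 371)) (XT.nd (nat_lit 78) (nat_lit 988) (nat_lit 0) (XT.lf (nat_lit 0) (nat_lit 3226592705) (nat_lit 532) (nat_lit 1644932861) (nat_lit 76) (nat_lit 4126470843) (nat_lit 213) (nat_lit 5) (nat_lit 220) (nat_lit 5) (nat_lit 214) (nat_lit 5) (nat_lit 448) (nat_lit 382) (nat_lit 370)) (XT.lf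 (nat_lit 0) (nat_lit 67528097) (nat_lit 532) (nat_lit 8795837817) (nat_lit 76) (nat_lit 253228224) (nat_lit 200) (nat_lit 5) (nat_lit 207) (nat_lit 5) (nat_lit 201) (nat_lit 5) (nat_lit 449) (nat_lit 382) (nat_lit 369)))) (XT.nd (nat_lit 78) (nat_lit 912) (nat_lit 0) (XT.lf (nat_lit 0) (nat_lit 2308939389) (nat_lit 456) (nat_lit 3695855832) (nat_lit 532) (nat_lit 3233168071) (nat_lit 194) (nat_lit 5) (nat_lit 200) (nat_lit 5) (nat_lit 201) (nat_lit 5) (nat_lit 450) (nat_lit 382) (nat_lit 368)) (XT.nd (nat_lit 78) (nat_lit 456) (nat_lit 0) (XT.lf (nat_lit 0) (nat_lit 2691363671) (nat_lit 456) (nat_lit 5023133298) (nat_lit 76) (nat_lit 1648719804) (nat_lit 188) (nat_lit 5) (nat_lit 194) (nat_lit 5) (nat_lit 189) (nat_lit 5) (nat_lit 451) (nat_lit 382) (nat_lit 367)) (XT.lf (nat_lit 0) (nat_lit 6395970820) (nat_lit 456) (nat_lit 2340818175) (nat_lit 532) (nat_lit 755277188) (nat_lit 182) (nat_lit 5) (nat_lit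 188) (nat_lit 5) (nat_lit 189) (nat_lit 5) (nat_lit 452) (nat_lit 382) (nat_lit 366)))))) (XT.nd (nat_lit 468) (nat_lit 3040) (nat_lit 0) (XT.nd (nat_lit 234) (nat_lit 1216) (nat_lit 0) (XT.nd (nat_lit 78) (nat_lit 1216) (nat_lit 0) (XT.lf (nat_lit 0) (nat_lit 5254243741) (nat_lit 456) (nat_lit 1157840397) (nat_lit 76) (nat_lit 3212301405) (nat_lit 176) (nat_lit 5) (nat_lit 182) (nat_lit 5) (nat_lit 177) (nat_lit 5) (nat_lit 453) (nat_lit 382) (nat_lit 365)) (XT.nd (nat_lit 78) (nat_lit 380) (nat_lit 0) (XT.lf (nat_lit 0) (nat_lit 825759281) (nat_lit 380) (nat_lit 813278481) (nat_lit 456) (nat_lit 8121570969) (nat_lit 165) (nat_lit 5) (nat_lit 170) (nat_lit 5) (nat_lit 171) (nat_lit 5) (nat_lit 454) (nat_lit 382) (nat_lit 364)) (XT.lf (nat_lit 0) (nat_lit 2828972439) (nat_lit 380) (nat_lit 4949468372) (nat_lit 456) (nat_lit 2121720177) (nat_lit 160) (nat_lit 5) (nat_lit 165) (nat_lit 5) (nat_lit 166)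 (nat_lit 5) (nat_lit 455) (nat_lit 382) (nat_lit 363)))) (XT.nd (nat_lit 78) (nat_lit 760) (nat_lit 0) (XT.lf (nat_lit 0) (nat_lit 3987023669) (nat_lit 456) (nat_lit 5183789317) (nat_lit 76) (nat_lit 872923671) (nat_lit 154) (nat_lit 5) (nat_lit 160) (nat_lit 5) (nat_lit 155) (nat_lit 5) (nat_lit 456) (nat_lit 382) (nat_lit 362)) (XT.nd (nat_lit 78) (nat_lit 304) (nat_lit 0) (XT.lf (nat_lit 0) (nat_lit 64755536) (nat_lit 456) (nat_lit 3283483663) (nat_lit 76) (nat_lit 6842964924) (nat_lit 148) (nat_lit 5) (nat_lit 154) (nat_lit 5) (nat_lit 149) (nat_lit 5) (nat_lit 457) (nat_lit 382) (nat_lit 361)) (XT.lf (nat_lit 0) (nat_lit 6281104419) (nat_lit 380) (nat_lit 1381333124) (nat_lit 76) (nat_lit 2679992651) (nat_lit 144) (nat_lit 5) (nat_lit 149) (nat_lit 5) (nat_lit 145) (nat_lit 5) (nat_lit 458) (nat_lit 382) (nat_lit 360))))) (XT.nd (nat_lit 234) (nat_lit 1596) (nat_lit 0) (XT.nd (nat_lit 78) (nat_lit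 684) (nat_lit 0) (XT.lf (nat_lit 0) (nat_lit 550193973) (nat_lit 304) (nat_lit 1610578931) (nat_lit 380) (nat_lit 8337068009) (nat_lit 134) (nat_lit 5) (nat_lit 138) (nat_lit 5) (nat_lit 139) (nat_lit 5) (nat_lit 459) (nat_lit 382) (nat_lit 359)) (XT.nd (nat_lit 78) (nat_lit 380) (nat_lit 0) (XT.lf (nat_lit 0) (nat_lit 2500908009) (nat_lit 304) (nat_lit 6032893748) (nat_lit 380) (nat_lit 2123191705) (nat_lit 130) (nat_lit 5) (nat_lit 134) (nat_lit 5) (nat_lit 135) (nat_lit 5) (nat_lit 460) (nat_lit 382) (nat_lit 358)) (XT.lf (nat_lit 0) (nat_lit 4215045804) (nat_lit 380) (nat_lit 6351614278) (nat_lit 76) (nat_lit 253829364) (nat_lit 125) (nat_lit 5) (nat_lit 130) (nat_lit 5) (nat_lit 126) (nat_lit 5) (nat_lit 461) (nat_lit 382) (nat_lit 357)))) (XT.nd (nat_lit 156) (nat_lit 912) (nat_lit 0) (XT.nd (nat_lit 78) (nat_lit 380) (nat_lit 0) (XT.lf (nat_lit 0) (nat_lit 6438659013) (nat_lit 304) (nat_lit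 4300274599) (nat_lit 380) (nat_lit 249193936) (nat_lit 121) (nat_lit 5) (nat_lit 125) (nat_lit 5) (nat_lit 126) (nat_lit 5) (nat_lit 462) (nat_lit 382) (nat_lit 356)) (XT.lf (nat_lit 0) (nat_lit 6215360772) (nat_lit 380) (nat_lit 2751522932) (nat_lit 76) (nat_lit 2193093706) (nat_lit 116) (nat_lit 5) (nat_lit 121) (nat_lit 5) (nat_lit 117) (nat_lit 5) (nat_lit 463) (nat_lit 382) (nat_lit 355))) (XT.nd (nat_lit 78) (nat_lit 532) (nat_lit 0) (XT.lf (nat_lit 0) (nat_lit 1530241103) (nat_lit 380) (nat_lit 944360804) (nat_lit 76) (nat_lit 8861816495) (nat_lit 111) (nat_lit 5) (nat_lit 116) (nat_lit 5) (nat_lit 112) (nat_lit 5) (nat_lit 464) (nat_lit 382) (nat_lit 354)) (XT.lf (nat_lit 0) (nat_lit 862120245) (nat_lit 304) (nat_lit 7293729929) (nat_lit 380) (nat_lit 3361179414) (nat_lit 104) (nat_lit 5) (nat_lit 108) (nat_lit 5) (nat_lit 109) (nat_lit 5) (nat_lit 465) (nat_lit 382) (nat_lit 353))))))) (XT.nd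 (nat_lit 936) (nat_lit 2280) (nat_lit 0) (XT.nd (nat_lit 468) (nat_lit 1672) (nat_lit 0) (XT.nd (nat_lit 234) (nat_lit 836) (nat_lit 0) (XT.nd (nat_lit 78) (nat_lit 608) (nat_lit 0) (XT.lf (nat_lit 0) (nat_lit 2690651109) (nat_lit 228) (nat_lit 558218571) (nat_lit 304) (nat_lit 8453474348) (nat_lit 100) (nat_lit 5) (nat_lit 103) (nat_lit 5) (nat_lit 104) (nat_lit 5) (nat_lit 466) (nat_lit 382) (nat_lit 352)) (XT.nd (nat_lit 78) (nat_lit 304) (nat_lit 0) (XT.lf (nat_lit 0) (nat_lit 4501102052) (nat_lit 304) (nat_lit 5545882441) (nat_lit 380) (nat_lit 1845084456) (nat_lit 96) (nat_lit 5) (nat_lit 100) (nat_lit 5) (nat_lit 101) (nat_lit 5) (nat_lit 467) (nat_lit 382) (nat_lit 351)) (XT.lf (nat_lit 0) (nat_lit 4905086035) (nat_lit 304) (nat_lit 5775838270) (nat_lit 76) (nat_lit 1405748823) (nat_lit 92) (nat_lit 5) (nat_lit 96) (nat_lit 5) (nat_lit 93) (nat_lit 5) (nat_lit 468) (nat_lit 382) (nat_lit 350))))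 (XT.nd (nat_lit 78) (nat_lit 608) (nat_lit 0) (XT.lf (nat_lit 0) (nat_lit 8114109053) (nat_lit 228) (nat_lit 3753487880) (nat_lit 304) (nat_lit 418580209) (nat_lit 89) (nat_lit 5) (nat_lit 92) (nat_lit 5) (nat_lit 93) (nat_lit 5) (nat_lit 469) (nat_lit 382) (nat_lit 349)) (XT.nd (nat_lit 78) (nat_lit 304) (nat_lit 0) (XT.lf (nat_lit 0) (nat_lit 6483463451) (nat_lit 304) (nat_lit 2596786705) (nat_lit 76) (nat_lit 3410129120) (nat_lit 85) (nat_lit 5) (nat_lit 89) (nat_lit 5) (nat_lit 86) (nat_lit 5) (nat_lit 470) (nat_lit 382) (nat_lit 348)) (XT.lf (nat_lit 0) (nat_lit 901439632) (nat_lit 304) (nat_lit 1021094298) (nat_lit 76) (nat_lit 10777469801) (nat_lit 81) (nat_lit 5) (nat_lit 85) (nat_lit 5) (nat_lit 82) (nat_lit 5) (nat_lit 471) (nat_lit 382) (nat_lit 347))))) (XT.nd (nat_lit 234) (nat_lit 684) (nat_lit 0) (XT.nd (nat_lit 78) (nat_lit 532) (nat_lit 0) (XT.lf (nat_lit 0) (nat_lit 518168033) (nat_lit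 228) (nat_lit 7460458498) (nat_lit 304) (nat_lit 4935635691) (nat_lit 75) (nat_lit 5) (nat_lit 78) (nat_lit 5) (nat_lit 79) (nat_lit 5) (nat_lit 472) (nat_lit 382) (nat_lit 346)) (XT.nd (nat_lit 78) (nat_lit 228) (nat_lit 0) (XT.lf (nat_lit 0) (nat_lit 2074381315) (nat_lit 228) (nat_lit 55749227) (nat_lit 304) (nat_lit 11004045471) (nat_lit 71) (nat_lit 5) (nat_lit 74) (nat_lit 5) (nat_lit 75) (nat_lit 5) (nat_lit 473) (nat_lit 382) (nat_lit 345)) (XT.lf (nat_lit 0) (nat_lit 3576023925) (nat_lit 228) (nat_lit 5821341677) (nat_lit 304) (nat_lit 3961541084) (nat_lit 68) (nat_lit 5) (nat_lit 71) (nat_lit 5) (nat_lit 72) (nat_lit 5) (nat_lit 474) (nat_lit 382) (nat_lit 344)))) (XT.nd (nat_lit 78) (nat_lit 456) (nat_lit 0) (XT.lf (nat_lit 0) (nat_lit 3270085011) (nat_lit 228) (nat_lit 8520025222) (nat_lit 76) (nat_lit 1799423891) (nat_lit 65) (nat_lit 5) (nat_lit 68) (nat_lit 5) (nat_lit 66) (nat_lit 5)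 (nat_lit 475) (nat_lit 382) (nat_lit 343)) (XT.nd (nat_lit 78) (nat_lit 228) (nat_lit 0) (XT.lf (nat_lit 0) (nat_lit 6520430348) (nat_lit 228) (nat_lit 4194375443) (nat_lit 304) (nat_lit 3110754293) (nat_lit 62) (nat_lit 5) (nat_lit 65) (nat_lit 5) (nat_lit 66) (nat_lit 5) (nat_lit 476) (nat_lit 382) (nat_lit 342)) (XT.lf (nat_lit 0) (nat_lit 4294196207) (nat_lit 228) (nat_lit 6127883159) (nat_lit 76) (nat_lit 3645298350) (nat_lit 59) (nat_lit 5) (nat_lit 62) (nat_lit 5) (nat_lit 60) (nat_lit 5) (nat_lit 477) (nat_lit 382) (nat_lit 341)))))) (XT.nd (nat_lit 468) (nat_lit 988) (nat_lit 0) (XT.nd (nat_lit 234) (nat_lit 608) (nat_lit 0) (XT.nd (nat_lit 78) (nat_lit 456) (nat_lit 0) (XT.lf (nat_lit 0) (nat_lit 9327214957) (nat_lit 228) (nat_lit 2594504189) (nat_lit 304) (nat_lit 2393468310) (nat_lit 56) (nat_lit 5) (nat_lit 59) (nat_lit 5) (nat_lit 60) (nat_lit 5) (nat_lit 478) (nat_lit 382) (nat_lit 340))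 (XT.nd (nat_lit 78) (nat_lit 228) (nat_lit 0) (XT.lf (nat_lit 0) (nat_lit 5191633252) (nat_lit 228) (nat_lit 3909363318) (nat_lit 76) (nat_lit 5467715204) (nat_lit 53) (nat_lit 5) (nat_lit 56) (nat_lit 5) (nat_lit 54) (nat_lit 5) (nat_lit 479) (nat_lit 382) (nat_lit 339)) (XT.lf (nat_lit 0) (nat_lit 11969583433) (nat_lit 228) (nat_lit 1037733230) (nat_lit 304) (nat_lit 1821500172) (nat_lit 50) (nat_lit 5) (nat_lit 53) (nat_lit 5) (nat_lit 54) (nat_lit 5) (nat_lit 480) (nat_lit 382) (nat_lit 338)))) (XT.nd (nat_lit 78) (nat_lit 380) (nat_lit 0) (XT.lf (nat_lit 0) (nat_lit 5950273368) (nat_lit 228) (nat_lit 1893655815) (nat_lit 76) (nat_lit 7250670010) (nat_lit 47) (nat_lit 5) (nat_lit 50) (nat_lit 5) (nat_lit 48) (nat_lit 5) (nat_lit 481) (nat_lit 382) (nat_lit 337)) (XT.nd (nat_lit 78) (nat_lit 228) (nat_lit 0) (XT.lf (nat_lit 0) (nat_lit 13962086985) (nat_lit 228) (nat_lit 952720535) (nat_lit 76)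 (nat_lit 452676206) (nat_lit 45) (nat_lit 5) (nat_lit 48) (nat_lit 5) (nat_lit 46) (nat_lit 4) (nat_lit 482) (nat_lit 382) (nat_lit 336)) (XT.lf (nat_lit 0) (nat_lit 6556190441) (nat_lit 228) (nat_lit 113121153) (nat_lit 76) (nat_lit 8976860693) (nat_lit 42) (nat_lit 5) (nat_lit 45) (nat_lit 5) (nat_lit 43) (nat_lit 5) (nat_lit 483) (nat_lit 382) (nat_lit 335))))) (XT.nd (nat_lit 234) (nat_lit 304) (nat_lit 0) (XT.nd (nat_lit 78) (nat_lit 380) (nat_lit 0) (XT.lf (nat_lit 0) (nat_lit 703352232) (nat_lit 152) (nat_lit 14076144523) (nat_lit 228) (nat_lit 1152701665) (nat_lit 38) (nat_lit 5) (nat_lit 40) (nat_lit 5) (nat_lit 41) (nat_lit 4) (nat_lit 484) (nat_lit 382) (nat_lit 334)) (XT.nd (nat_lit 78) (nat_lit 152) (nat_lit 0) (XT.lf (nat_lit 0) (nat_lit 1414895944) (nat_lit 152) (nat_lit 5587778095) (nat_lit 228) (nat_lit 9221779680) (nat_lit 35) (nat_lit 5) (nat_lit 37) (nat_lit 5) (nat_lit 38) (nat_lit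 5) (nat_lit 485) (nat_lit 382) (nat_lit 333)) (XT.lf (nat_lit 0) (nat_lit 2077483435) (nat_lit 152) (nat_lit 13358603012) (nat_lit 228) (nat_lit 1088258984) (nat_lit 33) (nat_lit 5) (nat_lit 35) (nat_lit 5) (nat_lit 36) (nat_lit 4) (nat_lit 486) (nat_lit 382) (nat_lit 332)))) (XT.nd (nat_lit 58344) (nat_lit 0) (nat_lit 24092) (XT.nd (nat_lit 78) (nat_lit 76) (nat_lit 0) (XT.lf (nat_lit 0) (nat_lit 2629360470) (nat_lit 152) (nat_lit 4631821224) (nat_lit 228) (nat_lit 9569757155) (nat_lit 30) (nat_lit 5) (nat_lit 32) (nat_lit 5) (nat_lit 33) (nat_lit 5) (nat_lit 487) (nat_lit 382) (nat_lit 331)) (XT.lf (nat_lit 0) (nat_lit 3114473489) (nat_lit 76) (nat_lit 12792088438) (nat_lit 152) (nat_lit 1238821167) (nat_lit 29) (nat_lit 5) (nat_lit 30) (nat_lit 5) (nat_lit 31) (nat_lit 4) (nat_lit 488) (nat_lit 382) (nat_lit 330))) (XT.nd (nat_lit 78) (nat_lit 760) (nat_lit 0) (XT.lf (nat_lit 0) (nat_lit 2816596929)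 (nat_lit 760) (nat_lit 512182581) (nat_lit 760) (nat_lit 512182581) (nat_lit 356) (nat_lit 4) (nat_lit 366) (nat_lit 5) (nat_lit 366) (nat_lit 4) (nat_lit 434) (nat_lit 383) (nat_lit 383)) (XT.lf (nat_lit 0) (nat_lit 4625695822) (nat_lit 760) (nat_lit 514355591) (nat_lit 0) (nat_lit 2617005101) (nat_lit 346) (nat_lit 5) (nat_lit 356) (nat_lit 4) (nat_lit 346) (nat_lit 4) (nat_lit 435) (nat_lit 383) (nat_lit 382))))))))
noncomputable def xc15 : XT := (XT.nd (nat_lit 1950) (nat_lit 7524) (nat_lit 0) (XT.nd (nat_lit 936) (nat_lit 6536) (nat_lit 0) (XT.nd (nat_lit 468) (nat_lit 4028) (nat_lit 0) (XT.nd (nat_lit 234) (nat_lit 2660) (nat_lit 0) (XT.nd (nat_lit 78) (nat_lit 1368) (nat_lit 0) (XT.lf (nat_lit 0) (nat_lit 1088163773) (nat_lit 684) (nat_lit 1410370712) (nat_lit 760) (nat_lit 5336738557) (nat_lit 326) (nat_lit 5) (nat_lit 335) (nat_lit 5) (nat_lit 336) (nat_lit 4) (nat_lit 436) (nat_lit 383) (nat_lit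 381)) (XT.nd (nat_lit 78) (nat_lit 608) (nat_lit 0) (XT.lf (nat_lit 0) (nat_lit 279266416) (nat_lit 760) (nat_lit 5173391197) (nat_lit 76) (nat_lit 2463846727) (nat_lit 316) (nat_lit 5) (nat_lit 326) (nat_lit 5) (nat_lit 317) (nat_lit 4) (nat_lit 437) (nat_lit 383) (nat_lit 380)) (XT.lf (nat_lit 0) (nat_lit 4436814411) (nat_lit 608) (nat_lit 1492154140) (nat_lit 684) (nat_lit 2071757089) (nat_lit 308) (nat_lit 5) (nat_lit 316) (nat_lit 5) (nat_lit 317) (nat_lit 4) (nat_lit 438) (nat_lit 383) (nat_lit 379)))) (XT.nd (nat_lit 78) (nat_lit 1900) (nat_lit 0) (XT.lf (nat_lit 0) (nat_lit 3560514310) (nat_lit 760) (nat_lit 1915019642) (nat_lit 76) (nat_lit 2612519944) (nat_lit 298) (nat_lit 5) (nat_lit 308) (nat_lit 5) (nat_lit 299) (nat_lit 4) (nat_lit 439) (nat_lit 383) (nat_lit 378)) (XT.nd (nat_lit 78) (nat_lit 1216) (nat_lit 0) (XT.lf (nat_lit 0) (nat_lit 1084452206) (nat_lit 684) (nat_lit 217683656)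 (nat_lit 76) (nat_lit 6876579298) (nat_lit 289) (nat_lit 5) (nat_lit 298) (nat_lit 5) (nat_lit 290) (nat_lit 5) (nat_lit 440) (nat_lit 383) (nat_lit 377)) (XT.lf (nat_lit 0) (nat_lit 1528914506) (nat_lit 608) (nat_lit 5241181281) (nat_lit 684) (nat_lit 1502077326) (nat_lit 273) (nat_lit 5) (nat_lit 281) (nat_lit 5) (nat_lit 282) (nat_lit 4) (nat_lit 441) (nat_lit 383) (nat_lit 376))))) (XT.nd (nat_lit 234) (nat_lit 2204) (nat_lit 0) (XT.nd (nat_lit 78) (nat_lit 1140) (nat_lit 0) (XT.lf (nat_lit 0) (nat_lit 3321308202) (nat_lit 608) (nat_lit 830207859) (nat_lit 684) (nat_lit 4217387053) (nat_lit 264) (nat_lit 5) (nat_lit 272) (nat_lit 5) (nat_lit 273) (nat_lit 5) (nat_lit 442) (nat_lit 383) (nat_lit 375)) (XT.nd (nat_lit 78) (nat_lit 532) (nat_lit 0) (XT.lf (nat_lit 0) (nat_lit 1432938262) (nat_lit 608) (nat_lit 3320332546) (nat_lit 76) (nat_lit 3715553985) (nat_lit 256) (nat_lit 5) (nat_lit 264) (nat_lit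 5) (nat_lit 257) (nat_lit 5) (nat_lit 443) (nat_lit 383) (nat_lit 374)) (XT.lf (nat_lit 0) (nat_lit 7020241671) (nat_lit 532) (nat_lit 125990552) (nat_lit 608) (nat_lit 1425949310) (nat_lit 249) (nat_lit 5) (nat_lit 256) (nat_lit 5) (nat_lit 257) (nat_lit 5) (nat_lit 444) (nat_lit 383) (nat_lit 373)))) (XT.nd (nat_lit 78) (nat_lit 1064) (nat_lit 0) (XT.lf (nat_lit 0) (nat_lit 235505523) (nat_lit 532) (nat_lit 4039173428) (nat_lit 608) (nat_lit 4403814982) (nat_lit 234) (nat_lit 5) (nat_lit 241) (nat_lit 5) (nat_lit 242) (nat_lit 5) (nat_lit 445) (nat_lit 383) (nat_lit 372)) (XT.nd (nat_lit 78) (nat_lit 532) (nat_lit 0) (XT.lf (nat_lit 0) (nat_lit 1288252291) (nat_lit 532) (nat_lit 6694569058) (nat_lit 76) (nat_lit 805487694) (nat_lit 227) (nat_lit 5) (nat_lit 234) (nat_lit 5) (nat_lit 228) (nat_lit 5) (nat_lit 446) (nat_lit 383) (nat_lit 371)) (XT.lf (nat_lit 0) (nat_lit 3969274398) (nat_lit 532) (nat_lit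 3101996934) (nat_lit 608) (nat_lit 1829973551) (nat_lit 220) (nat_lit 5) (nat_lit 227) (nat_lit 5) (nat_lit 228) (nat_lit 5) (nat_lit 447) (nat_lit 383) (nat_lit 370)))))) (XT.nd (nat_lit 468) (nat_lit 3192) (nat_lit 0) (XT.nd (nat_lit 234) (nat_lit 1368) (nat_lit 0) (XT.nd (nat_lit 78) (nat_lit 1444) (nat_lit 0) (XT.lf (nat_lit 0) (nat_lit 3925450330) (nat_lit 532) (nat_lit 3138342594) (nat_lit 76) (nat_lit 1953906918) (nat_lit 213) (nat_lit 5) (nat_lit 220) (nat_lit 5) (nat_lit 214) (nat_lit 5) (nat_lit 448) (nat_lit 383) (nat_lit 369)) (XT.nd (nat_lit 78) (nat_lit 912) (nat_lit 0) (XT.lf (nat_lit 0) (nat_lit 660663590) (nat_lit 532) (nat_lit 1312776188) (nat_lit 76) (nat_lit 7164315790) (nat_lit 206) (nat_lit 5) (nat_lit 213) (nat_lit 5) (nat_lit 207) (nat_lit 5) (nat_lit 449) (nat_lit 383) (nat_lit 368)) (XT.lf (nat_lit 0) (nat_lit 533167346) (nat_lit 456) (nat_lit 5969323205) (nat_lit 532) (nat_lit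 2758546816) (nat_lit 194) (nat_lit 5) (nat_lit 200) (nat_lit 5) (nat_lit 201) (nat_lit 5) (nat_lit 450) (nat_lit 383) (nat_lit 367)))) (XT.nd (nat_lit 78) (nat_lit 912) (nat_lit 0) (XT.lf (nat_lit 0) (nat_lit 2431693132) (nat_lit 380) (nat_lit 643168393) (nat_lit 456) (nat_lit 6313069322) (nat_lit 188) (nat_lit 5) (nat_lit 193) (nat_lit 5) (nat_lit 194) (nat_lit 5) (nat_lit 451) (nat_lit 383) (nat_lit 366)) (XT.nd (nat_lit 78) (nat_lit 456) (nat_lit 0) (XT.lf (nat_lit 0) (nat_lit 4348319373) (nat_lit 456) (nat_lit 4693913600) (nat_lit 532) (nat_lit 476111912) (nat_lit 182) (nat_lit 5) (nat_lit 188) (nat_lit 5) (nat_lit 189) (nat_lit 5) (nat_lit 452) (nat_lit 383) (nat_lit 365)) (XT.lf (nat_lit 0) (nat_lit 5440125386) (nat_lit 456) (nat_lit 3365718580) (nat_lit 76) (nat_lit 846579854) (nat_lit 176) (nat_lit 5) (nat_lit 182) (nat_lit 5) (nat_lit 177) (nat_lit 5) (nat_lit 453) (nat_lit 383) (nat_lit 364)))))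 (XT.nd (nat_lit 234) (nat_lit 1520) (nat_lit 0) (XT.nd (nat_lit 78) (nat_lit 1216) (nat_lit 0) (XT.lf (nat_lit 0) (nat_lit 1714989995) (nat_lit 456) (nat_lit 1544221812) (nat_lit 76) (nat_lit 6531014342) (nat_lit 170) (nat_lit 5) (nat_lit 176) (nat_lit 5) (nat_lit 171) (nat_lit 5) (nat_lit 454) (nat_lit 383) (nat_lit 363)) (XT.nd (nat_lit 78) (nat_lit 456) (nat_lit 0) (XT.lf (nat_lit 0) (nat_lit 299283008) (nat_lit 380) (nat_lit 7453680462) (nat_lit 456) (nat_lit 2178846650) (nat_lit 160) (nat_lit 5) (nat_lit 165) (nat_lit 5) (nat_lit 166) (nat_lit 5) (nat_lit 455) (nat_lit 383) (nat_lit 362)) (XT.lf (nat_lit 0) (nat_lit 2178171209) (nat_lit 380) (nat_lit 1671125879) (nat_lit 456) (nat_lit 6227726079) (nat_lit 154) (nat_lit 5) (nat_lit 159) (nat_lit 5) (nat_lit 160) (nat_lit 5) (nat_lit 456) (nat_lit 383) (nat_lit 361)))) (XT.nd (nat_lit 156) (nat_lit 760) (nat_lit 0) (XT.nd (nat_lit 78) (nat_lit 380)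 (nat_lit 0) (XT.lf (nat_lit 0) (nat_lit 4075932721) (nat_lit 380) (nat_lit 5956670649) (nat_lit 456) (nat_lit 193628645) (nat_lit 149) (nat_lit 5) (nat_lit 154) (nat_lit 5) (nat_lit 155) (nat_lit 5) (nat_lit 457) (nat_lit 383) (nat_lit 360)) (XT.lf (nat_lit 0) (nat_lit 5931975935) (nat_lit 380) (nat_lit 4395600720) (nat_lit 76) (nat_lit 51774997) (nat_lit 144) (nat_lit 5) (nat_lit 149) (nat_lit 5) (nat_lit 145) (nat_lit 5) (nat_lit 458) (nat_lit 383) (nat_lit 359))) (XT.nd (nat_lit 78) (nat_lit 304) (nat_lit 0) (XT.lf (nat_lit 0) (nat_lit 1699595306) (nat_lit 456) (nat_lit 2637552565) (nat_lit 76) (nat_lit 6199271062) (nat_lit 138) (nat_lit 5) (nat_lit 144) (nat_lit 5) (nat_lit 139) (nat_lit 5) (nat_lit 459) (nat_lit 383) (nat_lit 358)) (XT.lf (nat_lit 0) (nat_lit 7965402090) (nat_lit 380) (nat_lit 866728107) (nat_lit 76) (nat_lit 1865588263) (nat_lit 134) (nat_lit 5) (nat_lit 139) (nat_lit 5) (nat_lit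 135) (nat_lit 5) (nat_lit 460) (nat_lit 383) (nat_lit 357))))))) (XT.nd (nat_lit 1014) (nat_lit 2964) (nat_lit 0) (XT.nd (nat_lit 468) (nat_lit 2204) (nat_lit 0) (XT.nd (nat_lit 234) (nat_lit 988) (nat_lit 0) (XT.nd (nat_lit 78) (nat_lit 684) (nat_lit 0) (XT.lf (nat_lit 0) (nat_lit 917791675) (nat_lit 304) (nat_lit 2610506476) (nat_lit 380) (nat_lit 7334710042) (nat_lit 125) (nat_lit 5) (nat_lit 129) (nat_lit 5) (nat_lit 130) (nat_lit 5) (nat_lit 461) (nat_lit 383) (nat_lit 356)) (XT.nd (nat_lit 78) (nat_lit 380) (nat_lit 0) (XT.lf (nat_lit 0) (nat_lit 2723696619) (nat_lit 304) (nat_lit 7233090339) (nat_lit 380) (nat_lit 1075769664) (nat_lit 121) (nat_lit 5) (nat_lit 125) (nat_lit 5) (nat_lit 126) (nat_lit 5) (nat_lit 462) (nat_lit 383) (nat_lit 355)) (XT.lf (nat_lit 0) (nat_lit 4529227734) (nat_lit 304) (nat_lit 777012668) (nat_lit 380) (nat_lit 5900143355) (nat_lit 116) (nat_lit 5) (nat_lit 120)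 (nat_lit 5) (nat_lit 121) (nat_lit 5) (nat_lit 463) (nat_lit 383) (nat_lit 354)))) (XT.nd (nat_lit 78) (nat_lit 608) (nat_lit 0) (XT.lf (nat_lit 0) (nat_lit 502362326) (nat_lit 380) (nat_lit 5047794623) (nat_lit 76) (nat_lit 5834491682) (nat_lit 111) (nat_lit 5) (nat_lit 116) (nat_lit 5) (nat_lit 112) (nat_lit 5) (nat_lit 464) (nat_lit 383) (nat_lit 353)) (XT.nd (nat_lit 78) (nat_lit 380) (nat_lit 0) (XT.lf (nat_lit 0) (nat_lit 7022148802) (nat_lit 304) (nat_lit 3425268100) (nat_lit 76) (nat_lit 1119961432) (nat_lit 108) (nat_lit 5) (nat_lit 112) (nat_lit 5) (nat_lit 109) (nat_lit 5) (nat_lit 465) (nat_lit 383) (nat_lit 352)) (XT.lf (nat_lit 0) (nat_lit 1987741057) (nat_lit 380) (nat_lit 1809247689) (nat_lit 76) (nat_lit 7957711894) (nat_lit 103) (nat_lit 5) (nat_lit 108) (nat_lit 5) (nat_lit 104) (nat_lit 5) (nat_lit 466) (nat_lit 383) (nat_lit 351))))) (XT.nd (nat_lit 234) (nat_lit 1140) (nat_lit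 0) (XT.nd (nat_lit 78) (nat_lit 836) (nat_lit 0) (XT.lf (nat_lit 0) (nat_lit 8671896068) (nat_lit 304) (nat_lit 201460160) (nat_lit 76) (nat_lit 3073350438) (nat_lit 100) (nat_lit 5) (nat_lit 104) (nat_lit 5) (nat_lit 101) (nat_lit 5) (nat_lit 467) (nat_lit 383) (nat_lit 350)) (XT.nd (nat_lit 78) (nat_lit 228) (nat_lit 0) (XT.lf (nat_lit 0) (nat_lit 1418010989) (nat_lit 228) (nat_lit 1982568871) (nat_lit 304) (nat_lit 8742789077) (nat_lit 92) (nat_lit 5) (nat_lit 95) (nat_lit 5) (nat_lit 96) (nat_lit 5) (nat_lit 468) (nat_lit 383) (nat_lit 349)) (XT.lf (nat_lit 0) (nat_lit 3023996519) (nat_lit 228) (nat_lit 7242752688) (nat_lit 304) (nat_lit 2078052336) (nat_lit 89) (nat_lit 5) (nat_lit 92) (nat_lit 5) (nat_lit 93) (nat_lit 5) (nat_lit 469) (nat_lit 383) (nat_lit 348)))) (XT.nd (nat_lit 156) (nat_lit 608) (nat_lit 0) (XT.nd (nat_lit 78) (nat_lit 228) (nat_lit 0) (XT.lf (nat_lit 0) (nat_lit 4623126036)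 (nat_lit 228) (nat_lit 115990751) (nat_lit 304) (nat_lit 7812236832) (nat_lit 85) (nat_lit 5) (nat_lit 88) (nat_lit 5) (nat_lit 89) (nat_lit 5) (nat_lit 470) (nat_lit 383) (nat_lit 347)) (XT.lf (nat_lit 0) (nat_lit 6196976140) (nat_lit 228) (nat_lit 5586669377) (nat_lit 304) (nat_lit 979163786) (nat_lit 82) (nat_lit 5) (nat_lit 85) (nat_lit 5) (nat_lit 86) (nat_lit 5) (nat_lit 471) (nat_lit 383) (nat_lit 346))) (XT.nd (nat_lit 78) (nat_lit 304) (nat_lit 0) (XT.lf (nat_lit 0) (nat_lit 5997597841) (nat_lit 304) (nat_lit 5226652914) (nat_lit 76) (nat_lit 1755211081) (nat_lit 78) (nat_lit 5) (nat_lit 82) (nat_lit 5) (nat_lit 79) (nat_lit 5) (nat_lit 472) (nat_lit 383) (nat_lit 345)) (XT.lf (nat_lit 0) (nat_lit 13827967) (nat_lit 304) (nat_lit 3905180274) (nat_lit 76) (nat_lit 9282572789) (nat_lit 74) (nat_lit 5) (nat_lit 78) (nat_lit 5) (nat_lit 75) (nat_lit 5) (nat_lit 473) (nat_lit 383) (nat_lit 344))))))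 (XT.nd (nat_lit 468) (nat_lit 1368) (nat_lit 0) (XT.nd (nat_lit 234) (nat_lit 912) (nat_lit 0) (XT.nd (nat_lit 78) (nat_lit 456) (nat_lit 0) (XT.lf (nat_lit 0) (nat_lit 7158709831) (nat_lit 304) (nat_lit 2630036745) (nat_lit 76) (nat_lit 3640013623) (nat_lit 71) (nat_lit 5) (nat_lit 75) (nat_lit 5) (nat_lit 72) (nat_lit 5) (nat_lit 474) (nat_lit 383) (nat_lit 343)) (XT.nd (nat_lit 78) (nat_lit 152) (nat_lit 0) (XT.lf (nat_lit 0) (nat_lit 881958774) (nat_lit 304) (nat_lit 1365461148) (nat_lit 76) (nat_lit 11414466716) (nat_lit 67) (nat_lit 5) (nat_lit 71) (nat_lit 5) (nat_lit 68) (nat_lit 5) (nat_lit 475) (nat_lit 383) (nat_lit 342)) (XT.lf (nat_lit 0) (nat_lit 8213680146) (nat_lit 228) (nat_lit 159708850) (nat_lit 76) (nat_lit 5526784913) (nat_lit 65) (nat_lit 5) (nat_lit 68) (nat_lit 5) (nat_lit 66) (nat_lit 5) (nat_lit 476) (nat_lit 383) (nat_lit 341)))) (XT.nd (nat_lit 78) (nat_lit 456) (nat_lit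 0) (XT.lf (nat_lit 0) (nat_lit 1050227673) (nat_lit 152) (nat_lit 585580487) (nat_lit 228) (nat_lit 12508847707) (nat_lit 59) (nat_lit 5) (nat_lit 61) (nat_lit 5) (nat_lit 62) (nat_lit 5) (nat_lit 477) (nat_lit 383) (nat_lit 340)) (XT.nd (nat_lit 78) (nat_lit 228) (nat_lit 0) (XT.lf (nat_lit 0) (nat_lit 2188623013) (nat_lit 228) (nat_lit 6978648297) (nat_lit 304) (nat_lit 5227116716) (nat_lit 56) (nat_lit 5) (nat_lit 59) (nat_lit 5) (nat_lit 60) (nat_lit 5) (nat_lit 478) (nat_lit 383) (nat_lit 339)) (XT.lf (nat_lit 0) (nat_lit 2272712652) (nat_lit 228) (nat_lit 11339309978) (nat_lit 76) (nat_lit 1038707557) (nat_lit 53) (nat_lit 5) (nat_lit 56) (nat_lit 5) (nat_lit 54) (nat_lit 5) (nat_lit 479) (nat_lit 383) (nat_lit 338))))) (XT.nd (nat_lit 234) (nat_lit 760) (nat_lit 0) (XT.nd (nat_lit 78) (nat_lit 380) (nat_lit 0) (XT.lf (nat_lit 0) (nat_lit 4358987119) (nat_lit 228) (nat_lit 5635169419) (nat_lit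 304) (nat_lit 4918564630) (nat_lit 50) (nat_lit 5) (nat_lit 53) (nat_lit 5) (nat_lit 54) (nat_lit 5) (nat_lit 480) (nat_lit 383) (nat_lit 337)) (XT.nd (nat_lit 78) (nat_lit 152) (nat_lit 0) (XT.lf (nat_lit 0) (nat_lit 2767928111) (nat_lit 228) (nat_lit 9806877167) (nat_lit 76) (nat_lit 2606619476) (nat_lit 47) (nat_lit 5) (nat_lit 50) (nat_lit 5) (nat_lit 48) (nat_lit 5) (nat_lit 481) (nat_lit 383) (nat_lit 336)) (XT.lf (nat_lit 0) (nat_lit 6318903645) (nat_lit 152) (nat_lit 4361497126) (nat_lit 228) (nat_lit 4775896380) (nat_lit 45) (nat_lit 5) (nat_lit 47) (nat_lit 5) (nat_lit 48) (nat_lit 5) (nat_lit 482) (nat_lit 383) (nat_lit 335)))) (XT.nd (nat_lit 156) (nat_lit 380) (nat_lit 0) (XT.nd (nat_lit 78) (nat_lit 152) (nat_lit 0) (XT.lf (nat_lit 0) (nat_lit 3103325363) (nat_lit 228) (nat_lit 8526331523) (nat_lit 76) (nat_lit 4108298891) (nat_lit 42) (nat_lit 5) (nat_lit 45) (nat_lit 5) (nat_lit 43)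 (nat_lit 5) (nat_lit 483) (nat_lit 383) (nat_lit 334)) (XT.lf (nat_lit 0) (nat_lit 8034694402) (nat_lit 152) (nat_lit 3176559682) (nat_lit 228) (nat_lit 4815036346) (nat_lit 40) (nat_lit 5) (nat_lit 42) (nat_lit 5) (nat_lit 43) (nat_lit 5) (nat_lit 484) (nat_lit 383) (nat_lit 333))) (XT.nd (nat_lit 78) (nat_lit 152) (nat_lit 0) (XT.lf (nat_lit 0) (nat_lit 3262597281) (nat_lit 228) (nat_lit 7534248302) (nat_lit 76) (nat_lit 5524692115) (nat_lit 37) (nat_lit 5) (nat_lit 40) (nat_lit 5) (nat_lit 38) (nat_lit 5) (nat_lit 485) (nat_lit 383) (nat_lit 332)) (XT.lf (nat_lit 0) (nat_lit 9468974724) (nat_lit 152) (nat_lit 2100950316) (nat_lit 228) (nat_lit 5054026956) (nat_lit 35) (nat_lit 5) (nat_lit 37) (nat_lit 5) (nat_lit 38) (nat_lit 5) (nat_lit 486) (nat_lit 383) (nat_lit 331))))))))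
noncomputable def xc16 : XT := (XT.nd (nat_lit 59982) (nat_lit 0) (nat_lit 1976) (XT.nd (nat_lit 58968) (nat_lit 0) (nat_lit 10640) (XT.nd (nat_lit 58500) (nat_lit 0) (nat_lit 18468) (XT.nd (nat_lit 58266) (nat_lit 0) (nat_lit 24016) (XT.nd (nat_lit 78) (nat_lit 152) (nat_lit 0) (XT.lf (nat_lit 0) (nat_lit 3227268893) (nat_lit 228) (nat_lit 6871182601) (nat_lit 76) (nat_lit 6835012869) (nat_lit 32) (nat_lit 5) (nat_lit 35) (nat_lit 5) (nat_lit 33) (nat_lit 5) (nat_lit 487) (nat_lit 383) (nat_lit 330)) (XT.nd (nat_lit 58110) (nat_lit 0) (nat_lit 26372) (XT.lf (nat_lit 0) (nat_lit 10580229049) (nat_lit 152) (nat_lit 1157155305) (nat_lit 228) (nat_lit 5513230373) (nat_lit 30) (nat_lit 5) (nat_lit 32) (nat_lit 5) (nat_lit 33) (nat_lit 5) (nat_lit 488) (nat_lit 383) (nat_lit 329)) (XT.lf (nat_lit 0) (nat_lit 1318672908) (nat_lit 836) (nat_lit 1225406019) (nat_lit 836) (nat_lit 1225406019) (nat_lit 377)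 (nat_lit 4) (nat_lit 388) (nat_lit 5) (nat_lit 388) (nat_lit 4) (nat_lit 432) (nat_lit 384) (nat_lit 384)))) (XT.nd (nat_lit 78) (nat_lit 1520) (nat_lit 0) (XT.lf (nat_lit 0) (nat_lit 3087068508) (nat_lit 836) (nat_lit 3545839528) (nat_lit 0) (nat_lit 976738036) (nat_lit 366) (nat_lit 5) (nat_lit 377) (nat_lit 4) (nat_lit 366) (nat_lit 4) (nat_lit 433) (nat_lit 384) (nat_lit 383)) (XT.nd (nat_lit 78) (nat_lit 684) (nat_lit 0) (XT.lf (nat_lit 0) (nat_lit 996377073) (nat_lit 836) (nat_lit 2146513319) (nat_lit 76) (nat_lit 4540406984) (nat_lit 355) (nat_lit 5) (nat_lit 366) (nat_lit 5) (nat_lit 356) (nat_lit 4) (nat_lit 434) (nat_lit 384) (nat_lit 382)) (XT.lf (nat_lit 0) (nat_lit 6544769449) (nat_lit 760) (nat_lit 698356887) (nat_lit 0) (nat_lit 516942117) (nat_lit 346) (nat_lit 5) (nat_lit 356) (nat_lit 4) (nat_lit 346) (nat_lit 4) (nat_lit 435) (nat_lit 384) (nat_lit 381))))) (XT.nd (nat_lit 234) (nat_lit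 2660) (nat_lit 0) (XT.nd (nat_lit 78) (nat_lit 1368) (nat_lit 0) (XT.lf (nat_lit 0) (nat_lit 792223433) (nat_lit 684) (nat_lit 3521357963) (nat_lit 760) (nat_lit 3525979226) (nat_lit 326) (nat_lit 5) (nat_lit 335) (nat_lit 5) (nat_lit 336) (nat_lit 4) (nat_lit 436) (nat_lit 384) (nat_lit 380)) (XT.nd (nat_lit 78) (nat_lit 608) (nat_lit 0) (XT.lf (nat_lit 0) (nat_lit 1978192588) (nat_lit 760) (nat_lit 5572136802) (nat_lit 76) (nat_lit 371995508) (nat_lit 316) (nat_lit 5) (nat_lit 326) (nat_lit 5) (nat_lit 317) (nat_lit 4) (nat_lit 437) (nat_lit 384) (nat_lit 379)) (XT.lf (nat_lit 0) (nat_lit 3942101832) (nat_lit 608) (nat_lit 3612298821) (nat_lit 684) (nat_lit 453621660) (nat_lit 308) (nat_lit 5) (nat_lit 316) (nat_lit 5) (nat_lit 317) (nat_lit 4) (nat_lit 438) (nat_lit 384) (nat_lit 378)))) (XT.nd (nat_lit 78) (nat_lit 1900) (nat_lit 0) (XT.lf (nat_lit 0) (nat_lit 5070352555) (nat_lit 760) (nat_lit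 2519188780) (nat_lit 76) (nat_lit 507346546) (nat_lit 298) (nat_lit 5) (nat_lit 308) (nat_lit 5) (nat_lit 299) (nat_lit 4) (nat_lit 439) (nat_lit 384) (nat_lit 377)) (XT.nd (nat_lit 78) (nat_lit 1216) (nat_lit 0) (XT.lf (nat_lit 0) (nat_lit 2492779335) (nat_lit 684) (nat_lit 939361045) (nat_lit 76) (nat_lit 4756679324) (nat_lit 289) (nat_lit 5) (nat_lit 298) (nat_lit 5) (nat_lit 290) (nat_lit 5) (nat_lit 440) (nat_lit 384) (nat_lit 376)) (XT.lf (nat_lit 0) (nat_lit 699846678) (nat_lit 608) (nat_lit 7386882124) (nat_lit 684) (nat_lit 197388219) (nat_lit 273) (nat_lit 5) (nat_lit 281) (nat_lit 5) (nat_lit 282) (nat_lit 4) (nat_lit 441) (nat_lit 384) (nat_lit 375)))))) (XT.nd (nat_lit 468) (nat_lit 3800) (nat_lit 0) (XT.nd (nat_lit 234) (nat_lit 2204) (nat_lit 0) (XT.nd (nat_lit 78) (nat_lit 1140) (nat_lit 0) (XT.lf (nat_lit 0) (nat_lit 2369329836) (nat_lit 608) (nat_lit 2996829611) (nat_lit 684) (nat_lit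 3015982063) (nat_lit 264) (nat_lit 5) (nat_lit 272) (nat_lit 5) (nat_lit 273) (nat_lit 5) (nat_lit 442) (nat_lit 384) (nat_lit 374)) (XT.nd (nat_lit 78) (nat_lit 532) (nat_lit 0) (XT.lf (nat_lit 0) (nat_lit 2531559508) (nat_lit 608) (nat_lit 4397227283) (nat_lit 76) (nat_lit 1554865900) (nat_lit 256) (nat_lit 5) (nat_lit 264) (nat_lit 5) (nat_lit 257) (nat_lit 5) (nat_lit 443) (nat_lit 384) (nat_lit 373)) (XT.lf (nat_lit 0) (nat_lit 5838730587) (nat_lit 532) (nat_lit 2333822804) (nat_lit 608) (nat_lit 415906863) (nat_lit 249) (nat_lit 5) (nat_lit 256) (nat_lit 5) (nat_lit 257) (nat_lit 5) (nat_lit 444) (nat_lit 384) (nat_lit 372)))) (XT.nd (nat_lit 78) (nat_lit 1596) (nat_lit 0) (XT.lf (nat_lit 0) (nat_lit 5183191458) (nat_lit 608) (nat_lit 1080727375) (nat_lit 76) (nat_lit 2432492914) (nat_lit 241) (nat_lit 5) (nat_lit 249) (nat_lit 5) (nat_lit 242) (nat_lit 5) (nat_lit 445) (nat_lit 384) (nat_lit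 371)) (XT.nd (nat_lit 78) (nat_lit 532) (nat_lit 0) (XT.lf (nat_lit 0) (nat_lit 635351611) (nat_lit 456) (nat_lit 1446243087) (nat_lit 532) (nat_lit 6726232320) (nat_lit 227) (nat_lit 5) (nat_lit 233) (nat_lit 5) (nat_lit 234) (nat_lit 5) (nat_lit 446) (nat_lit 384) (nat_lit 370)) (XT.lf (nat_lit 0) (nat_lit 2390227264) (nat_lit 532) (nat_lit 5392237769) (nat_lit 608) (nat_lit 1139945039) (nat_lit 220) (nat_lit 5) (nat_lit 227) (nat_lit 5) (nat_lit 228) (nat_lit 5) (nat_lit 447) (nat_lit 384) (nat_lit 369))))) (XT.nd (nat_lit 234) (nat_lit 2280) (nat_lit 0) (XT.nd (nat_lit 78) (nat_lit 988) (nat_lit 0) (XT.lf (nat_lit 0) (nat_lit 4176078156) (nat_lit 456) (nat_lit 344682826) (nat_lit 532) (nat_lit 4519731843) (nat_lit 213) (nat_lit 5) (nat_lit 219) (nat_lit 5) (nat_lit 220) (nat_lit 5) (nat_lit 448) (nat_lit 384) (nat_lit 368)) (XT.nd (nat_lit 78) (nat_lit 456) (nat_lit 0) (XT.lf (nat_lit 0) (nat_lit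 1150390369) (nat_lit 532) (nat_lit 3176989637) (nat_lit 76) (nat_lit 4834603690) (nat_lit 206) (nat_lit 5) (nat_lit 213) (nat_lit 5) (nat_lit 207) (nat_lit 5) (nat_lit 449) (nat_lit 384) (nat_lit 367)) (XT.lf (nat_lit 0) (nat_lit 6900540207) (nat_lit 532) (nat_lit 1462251835) (nat_lit 76) (nat_lit 924310726) (nat_lit 200) (nat_lit 5) (nat_lit 207) (nat_lit 5) (nat_lit 201) (nat_lit 5) (nat_lit 450) (nat_lit 384) (nat_lit 366)))) (XT.nd (nat_lit 156) (nat_lit 912) (nat_lit 0) (XT.nd (nat_lit 78) (nat_lit 456) (nat_lit 0) (XT.lf (nat_lit 0) (nat_lit 270221460) (nat_lit 380) (nat_lit 3088232606) (nat_lit 456) (nat_lit 6057167690) (nat_lit 188) (nat_lit 5) (nat_lit 193) (nat_lit 5) (nat_lit 194) (nat_lit 5) (nat_lit 451) (nat_lit 384) (nat_lit 365)) (XT.lf (nat_lit 0) (nat_lit 2055772775) (nat_lit 456) (nat_lit 7180474300) (nat_lit 532) (nat_lit 311583735) (nat_lit 182) (nat_lit 5) (nat_lit 188) (nat_lit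 5) (nat_lit 189) (nat_lit 5) (nat_lit 452) (nat_lit 384) (nat_lit 364))) (XT.nd (nat_lit 78) (nat_lit 456) (nat_lit 0) (XT.lf (nat_lit 0) (nat_lit 3848716645) (nat_lit 380) (nat_lit 1674283058) (nat_lit 456) (nat_lit 4160481880) (nat_lit 176) (nat_lit 5) (nat_lit 181) (nat_lit 5) (nat_lit 182) (nat_lit 5) (nat_lit 453) (nat_lit 384) (nat_lit 363)) (XT.lf (nat_lit 0) (nat_lit 1680810056) (nat_lit 456) (nat_lit 4156796162) (nat_lit 76) (nat_lit 3985380425) (nat_lit 170) (nat_lit 5) (nat_lit 176) (nat_lit 5) (nat_lit 171) (nat_lit 5) (nat_lit 454) (nat_lit 384) (nat_lit 362))))))) (XT.nd (nat_lit 936) (nat_lit 3572) (nat_lit 0) (XT.nd (nat_lit 468) (nat_lit 2356) (nat_lit 0) (XT.nd (nat_lit 234) (nat_lit 1140) (nat_lit 0) (XT.nd (nat_lit 78) (nat_lit 1216) (nat_lit 0) (XT.lf (nat_lit 0) (nat_lit 7508014271) (nat_lit 380) (nat_lit 118369766) (nat_lit 456) (nat_lit 2340037601) (nat_lit 165) (nat_lit 5)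 (nat_lit 170) (nat_lit 5) (nat_lit 171) (nat_lit 5) (nat_lit 455) (nat_lit 384) (nat_lit 361)) (XT.nd (nat_lit 78) (nat_lit 760) (nat_lit 0) (XT.lf (nat_lit 0) (nat_lit 3602566044) (nat_lit 456) (nat_lit 762524804) (nat_lit 76) (nat_lit 5748320737) (nat_lit 159) (nat_lit 5) (nat_lit 165) (nat_lit 5) (nat_lit 160) (nat_lit 5) (nat_lit 456) (nat_lit 384) (nat_lit 360)) (XT.lf (nat_lit 0) (nat_lit 977281210) (nat_lit 380) (nat_lit 8710339471) (nat_lit 456) (nat_lit 576967588) (nat_lit 149) (nat_lit 5) (nat_lit 154) (nat_lit 5) (nat_lit 155) (nat_lit 5) (nat_lit 457) (nat_lit 384) (nat_lit 359)))) (XT.nd (nat_lit 78) (nat_lit 760) (nat_lit 0) (XT.lf (nat_lit 0) (nat_lit 2719241223) (nat_lit 304) (nat_lit 2757984642) (nat_lit 380) (nat_lit 4942063258) (nat_lit 144) (nat_lit 5) (nat_lit 148) (nat_lit 5) (nat_lit 149) (nat_lit 5) (nat_lit 458) (nat_lit 384) (nat_lit 358)) (XT.nd (nat_lit 78) (nat_lit 304)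 (nat_lit 0) (XT.lf (nat_lit 0) (nat_lit 1116598939) (nat_lit 456) (nat_lit 6093882897) (nat_lit 76) (nat_lit 3367837278) (nat_lit 138) (nat_lit 5) (nat_lit 144) (nat_lit 5) (nat_lit 139) (nat_lit 5) (nat_lit 459) (nat_lit 384) (nat_lit 357)) (XT.lf (nat_lit 0) (nat_lit 6253828923) (nat_lit 304) (nat_lit 1039592412) (nat_lit 380) (nat_lit 3447979460) (nat_lit 134) (nat_lit 5) (nat_lit 138) (nat_lit 5) (nat_lit 139) (nat_lit 5) (nat_lit 460) (nat_lit 384) (nat_lit 356))))) (XT.nd (nat_lit 234) (nat_lit 988) (nat_lit 0) (XT.nd (nat_lit 78) (nat_lit 988) (nat_lit 0) (XT.lf (nat_lit 0) (nat_lit 2731804383) (nat_lit 380) (nat_lit 2883376482) (nat_lit 76) (nat_lit 5293409274) (nat_lit 129) (nat_lit 5) (nat_lit 134) (nat_lit 5) (nat_lit 130) (nat_lit 5) (nat_lit 461) (nat_lit 384) (nat_lit 355)) (XT.nd (nat_lit 78) (nat_lit 684) (nat_lit 0) (XT.lf (nat_lit 0) (nat_lit 9051258157) (nat_lit 380) (nat_lit 1264816804)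 (nat_lit 76) (nat_lit 764246586) (nat_lit 125) (nat_lit 5) (nat_lit 130) (nat_lit 5) (nat_lit 126) (nat_lit 5) (nat_lit 462) (nat_lit 384) (nat_lit 354)) (XT.lf (nat_lit 0) (nat_lit 341028588) (nat_lit 304) (nat_lit 3936740202) (nat_lit 380) (nat_lit 6978259458) (nat_lit 116) (nat_lit 5) (nat_lit 120) (nat_lit 5) (nat_lit 121) (nat_lit 5) (nat_lit 463) (nat_lit 384) (nat_lit 353)))) (XT.nd (nat_lit 78) (nat_lit 684) (nat_lit 0) (XT.lf (nat_lit 0) (nat_lit 1980044210) (nat_lit 304) (nat_lit 8785049391) (nat_lit 380) (nat_lit 671271486) (nat_lit 112) (nat_lit 5) (nat_lit 116) (nat_lit 5) (nat_lit 117) (nat_lit 5) (nat_lit 464) (nat_lit 384) (nat_lit 352)) (XT.nd (nat_lit 78) (nat_lit 380) (nat_lit 0) (XT.lf (nat_lit 0) (nat_lit 3600845414) (nat_lit 228) (nat_lit 2168820764) (nat_lit 304) (nat_lit 5851270834) (nat_lit 108) (nat_lit 5) (nat_lit 111) (nat_lit 5) (nat_lit 112) (nat_lit 5) (nat_lit 465) (nat_lit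 384) (nat_lit 351)) (XT.lf (nat_lit 0) (nat_lit 603391646) (nat_lit 380) (nat_lit 6582690792) (nat_lit 76) (nat_lit 4624257123) (nat_lit 103) (nat_lit 5) (nat_lit 108) (nat_lit 5) (nat_lit 104) (nat_lit 5) (nat_lit 466) (nat_lit 384) (nat_lit 350)))))) (XT.nd (nat_lit 468) (nat_lit 1672) (nat_lit 0) (XT.nd (nat_lit 234) (nat_lit 1064) (nat_lit 0) (XT.nd (nat_lit 78) (nat_lit 608) (nat_lit 0) (XT.lf (nat_lit 0) (nat_lit 6844233556) (nat_lit 228) (nat_lit 341696093) (nat_lit 304) (nat_lit 4818450129) (nat_lit 100) (nat_lit 5) (nat_lit 103) (nat_lit 5) (nat_lit 104) (nat_lit 5) (nat_lit 467) (nat_lit 384) (nat_lit 349)) (XT.nd (nat_lit 78) (nat_lit 228) (nat_lit 0) (XT.lf (nat_lit 0) (nat_lit 1783290281) (nat_lit 380) (nat_lit 3755846314) (nat_lit 76) (nat_lit 6663985567) (nat_lit 95) (nat_lit 5) (nat_lit 100) (nat_lit 5) (nat_lit 96) (nat_lit 5) (nat_lit 468) (nat_lit 384) (nat_lit 348)) (XT.lf (nat_lit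 0) (nat_lit 8532908648) (nat_lit 304) (nat_lit 2360608254) (nat_lit 76) (nat_lit 1513370597) (nat_lit 92) (nat_lit 5) (nat_lit 96) (nat_lit 5) (nat_lit 93) (nat_lit 5) (nat_lit 469) (nat_lit 384) (nat_lit 347)))) (XT.nd (nat_lit 78) (nat_lit 760) (nat_lit 0) (XT.lf (nat_lit 0) (nat_lit 2872710322) (nat_lit 304) (nat_lit 987577166) (nat_lit 76) (nat_lit 8755267599) (nat_lit 88) (nat_lit 5) (nat_lit 92) (nat_lit 5) (nat_lit 89) (nat_lit 5) (nat_lit 470) (nat_lit 384) (nat_lit 346)) (XT.nd (nat_lit 78) (nat_lit 304) (nat_lit 0) (XT.lf (nat_lit 0) (nat_lit 373967070) (nat_lit 228) (nat_lit 9426881682) (nat_lit 304) (nat_lit 3028491406) (nat_lit 82) (nat_lit 5) (nat_lit 85) (nat_lit 5) (nat_lit 86) (nat_lit 5) (nat_lit 471) (nat_lit 384) (nat_lit 345)) (XT.lf (nat_lit 0) (nat_lit 1727051192) (nat_lit 228) (nat_lit 2150165705) (nat_lit 304) (nat_lit 9171002023) (nat_lit 78) (nat_lit 5) (nat_lit 81) (nat_lit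 5) (nat_lit 82) (nat_lit 5) (nat_lit 472) (nat_lit 384) (nat_lit 344))))) (XT.nd (nat_lit 234) (nat_lit 912) (nat_lit 0) (XT.nd (nat_lit 78) (nat_lit 532) (nat_lit 0) (XT.lf (nat_lit 0) (nat_lit 3052558107) (nat_lit 228) (nat_lit 7941598039) (nat_lit 304) (nat_lit 2278206398) (nat_lit 75) (nat_lit 5) (nat_lit 78) (nat_lit 5) (nat_lit 79) (nat_lit 5) (nat_lit 473) (nat_lit 384) (nat_lit 343)) (XT.nd (nat_lit 78) (nat_lit 228) (nat_lit 0) (XT.lf (nat_lit 0) (nat_lit 4357740764) (nat_lit 228) (nat_lit 426862523) (nat_lit 304) (nat_lit 8717474674) (nat_lit 71) (nat_lit 5) (nat_lit 74) (nat_lit 5) (nat_lit 75) (nat_lit 5) (nat_lit 474) (nat_lit 384) (nat_lit 342)) (XT.lf (nat_lit 0) (nat_lit 5623061070) (nat_lit 228) (nat_lit 6466952811) (nat_lit 304) (nat_lit 1647139153) (nat_lit 68) (nat_lit 5) (nat_lit 71) (nat_lit 5) (nat_lit 72) (nat_lit 5) (nat_lit 475) (nat_lit 384) (nat_lit 341)))) (XT.nd (nat_lit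 156) (nat_lit 456) (nat_lit 0) (XT.nd (nat_lit 78) (nat_lit 228) (nat_lit 0) (XT.lf (nat_lit 0) (nat_lit 5588435703) (nat_lit 228) (nat_lit 7116985068) (nat_lit 76) (nat_lit 1272589686) (nat_lit 65) (nat_lit 5) (nat_lit 68) (nat_lit 5) (nat_lit 66) (nat_lit 5) (nat_lit 476) (nat_lit 384) (nat_lit 340)) (XT.lf (nat_lit 0) (nat_lit 8062570181) (nat_lit 228) (nat_lit 5017209410) (nat_lit 304) (nat_lit 1144877196) (nat_lit 62) (nat_lit 5) (nat_lit 65) (nat_lit 5) (nat_lit 66) (nat_lit 5) (nat_lit 477) (nat_lit 384) (nat_lit 339))) (XT.nd (nat_lit 78) (nat_lit 228) (nat_lit 0) (XT.lf (nat_lit 0) (nat_lit 6273237462) (nat_lit 228) (nat_lit 5258453272) (nat_lit 76) (nat_lit 2945415341) (nat_lit 59) (nat_lit 5) (nat_lit 62) (nat_lit 5) (nat_lit 60) (nat_lit 5) (nat_lit 478) (nat_lit 384) (nat_lit 338)) (XT.lf (nat_lit 0) (nat_lit 10345734339) (nat_lit 228) (nat_lit 3607605812) (nat_lit 304) (nat_lit 782539699)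 (nat_lit 56) (nat_lit 5) (nat_lit 59) (nat_lit 5) (nat_lit 60) (nat_lit 5) (nat_lit 479) (nat_lit 384) (nat_lit 337))))))))
noncomputable def xc17 : XT := (XT.nd (nat_lit 59826) (nat_lit 0) (nat_lit 4180) (XT.nd (nat_lit 58812) (nat_lit 0) (nat_lit 16036) (XT.nd (nat_lit 468) (nat_lit 760) (nat_lit 0) (XT.nd (nat_lit 234) (nat_lit 532) (nat_lit 0) (XT.nd (nat_lit 78) (nat_lit 456) (nat_lit 0) (XT.lf (nat_lit 0) (nat_lit 6824848258) (nat_lit 228) (nat_lit 3593603415) (nat_lit 76) (nat_lit 4582008253) (nat_lit 53) (nat_lit 5) (nat_lit 56) (nat_lit 5) (nat_lit 54) (nat_lit 5) (nat_lit 480) (nat_lit 384) (nat_lit 336)) (XT.nd (nat_lit 78) (nat_lit 228) (nat_lit 0) (XT.lf (nat_lit 0) (nat_lit 12444458703) (nat_lit 228) (nat_lit 2254523351) (nat_lit 304) (nat_lit 572910946) (nat_lit 50) (nat_lit 5) (nat_lit 53) (nat_lit 5) (nat_lit 54) (nat_lit 5) (nat_lit 481) (nat_lit 384) (nat_lit 335)) (XT.lf (nat_lit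 0) (nat_lit 7230182157) (nat_lit 228) (nat_lit 2153029523) (nat_lit 76) (nat_lit 6165966994) (nat_lit 47) (nat_lit 5) (nat_lit 50) (nat_lit 5) (nat_lit 48) (nat_lit 5) (nat_lit 482) (nat_lit 384) (nat_lit 334)))) (XT.nd (nat_lit 78) (nat_lit 380) (nat_lit 0) (XT.lf (nat_lit 0) (nat_lit 14327576982) (nat_lit 152) (nat_lit 975668853) (nat_lit 228) (nat_lit 530590114) (nat_lit 45) (nat_lit 5) (nat_lit 47) (nat_lit 5) (nat_lit 48) (nat_lit 5) (nat_lit 483) (nat_lit 384) (nat_lit 333)) (XT.nd (nat_lit 78) (nat_lit 152) (nat_lit 0) (XT.lf (nat_lit 0) (nat_lit 7474300236) (nat_lit 228) (nat_lit 970633383) (nat_lit 76) (nat_lit 7679506760) (nat_lit 42) (nat_lit 5) (nat_lit 45) (nat_lit 5) (nat_lit 43) (nat_lit 5) (nat_lit 484) (nat_lit 384) (nat_lit 332)) (XT.lf (nat_lit 0) (nat_lit 15752124742) (nat_lit 228) (nat_lit 463792448) (nat_lit 76) (nat_lit 206977535) (nat_lit 40) (nat_lit 5) (nat_lit 43) (nat_lit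 5) (nat_lit 41) (nat_lit 4) (nat_lit 485) (nat_lit 384) (nat_lit 331))))) (XT.nd (nat_lit 58110) (nat_lit 0) (nat_lit 26372) (XT.nd (nat_lit 78) (nat_lit 532) (nat_lit 0) (XT.lf (nat_lit 0) (nat_lit 7540236318) (nat_lit 228) (nat_lit 84005937) (nat_lit 76) (nat_lit 9103257111) (nat_lit 37) (nat_lit 5) (nat_lit 40) (nat_lit 5) (nat_lit 38) (nat_lit 5) (nat_lit 486) (nat_lit 384) (nat_lit 330)) (XT.nd (nat_lit 78) (nat_lit 228) (nat_lit 0) (XT.lf (nat_lit 0) (nat_lit 259419707) (nat_lit 152) (nat_lit 15774653925) (nat_lit 228) (nat_lit 1006169266) (nat_lit 33) (nat_lit 5) (nat_lit 35) (nat_lit 5) (nat_lit 36) (nat_lit 4) (nat_lit 487) (nat_lit 384) (nat_lit 329)) (XT.lf (nat_lit 0) (nat_lit 471334656) (nat_lit 152) (nat_lit 6940528096) (nat_lit 228) (nat_lit 9947767556) (nat_lit 30) (nat_lit 5) (nat_lit 32) (nat_lit 5) (nat_lit 33) (nat_lit 5) (nat_lit 488) (nat_lit 384) (nat_lit 328)))) (XT.nd (nat_lit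 78) (nat_lit 1748) (nat_lit 0) (XT.lf (nat_lit 0) (nat_lit 13424037) (nat_lit 836) (nat_lit 1844591693) (nat_lit 836) (nat_lit 1844591693) (nat_lit 400) (nat_lit 4) (nat_lit 411) (nat_lit 5) (nat_lit 411) (nat_lit 4) (nat_lit 430) (nat_lit 385) (nat_lit 385)) (XT.nd (nat_lit 78) (nat_lit 836) (nat_lit 0) (XT.lf (nat_lit 0) (nat_lit 1267504265) (nat_lit 836) (nat_lit 479505498) (nat_lit 912) (nat_lit 5724420248) (nat_lit 388) (nat_lit 5) (nat_lit 399) (nat_lit 5) (nat_lit 400) (nat_lit 4) (nat_lit 431) (nat_lit 385) (nat_lit 384)) (XT.lf (nat_lit 0) (nat_lit 2549783957) (nat_lit 836) (nat_lit 4680175137) (nat_lit 836) (nat_lit 310524861) (nat_lit 377) (nat_lit 4) (nat_lit 388) (nat_lit 5) (nat_lit 388) (nat_lit 4) (nat_lit 432) (nat_lit 385) (nat_lit 383)))))) (XT.nd (nat_lit 468) (nat_lit 5016) (nat_lit 0) (XT.nd (nat_lit 234) (nat_lit 2888) (nat_lit 0) (XT.nd (nat_lit 78) (nat_lit 1596) (nat_lit 0)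 (XT.lf (nat_lit 0) (nat_lit 3878880387) (nat_lit 760) (nat_lit 1239125795) (nat_lit 836) (nat_lit 2494509053) (nat_lit 366) (nat_lit 5) (nat_lit 376) (nat_lit 5) (nat_lit 377) (nat_lit 4) (nat_lit 433) (nat_lit 385) (nat_lit 382)) (XT.nd (nat_lit 78) (nat_lit 760) (nat_lit 0) (XT.lf (nat_lit 0) (nat_lit 2915407124) (nat_lit 836) (nat_lit 2432901872) (nat_lit 76) (nat_lit 2339250076) (nat_lit 355) (nat_lit 5) (nat_lit 366) (nat_lit 5) (nat_lit 356) (nat_lit 4) (nat_lit 434) (nat_lit 385) (nat_lit 381)) (XT.lf (nat_lit 0) (nat_lit 612911649) (nat_lit 760) (nat_lit 1081581044) (nat_lit 76) (nat_lit 6071301051) (nat_lit 345) (nat_lit 5) (nat_lit 355) (nat_lit 5) (nat_lit 346) (nat_lit 5) (nat_lit 435) (nat_lit 385) (nat_lit 380)))) (XT.nd (nat_lit 78) (nat_lit 1444) (nat_lit 0) (XT.lf (nat_lit 0) (nat_lit 307381437) (nat_lit 684) (nat_lit 5731157658) (nat_lit 760) (nat_lit 1808341837) (nat_lit 326) (nat_lit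 5) (nat_lit 335) (nat_lit 5) (nat_lit 336) (nat_lit 4) (nat_lit 436) (nat_lit 385) (nat_lit 379)) (XT.nd (nat_lit 78) (nat_lit 684) (nat_lit 0) (XT.lf (nat_lit 0) (nat_lit 1754495052) (nat_lit 684) (nat_lit 1842884121) (nat_lit 760) (nat_lit 4333567700) (nat_lit 316) (nat_lit 5) (nat_lit 325) (nat_lit 5) (nat_lit 326) (nat_lit 5) (nat_lit 437) (nat_lit 385) (nat_lit 378)) (XT.lf (nat_lit 0) (nat_lit 1056533932) (nat_lit 684) (nat_lit 4771441615) (nat_lit 76) (nat_lit 2190229149) (nat_lit 307) (nat_lit 5) (nat_lit 316) (nat_lit 5) (nat_lit 308) (nat_lit 5) (nat_lit 438) (nat_lit 385) (nat_lit 377))))) (XT.nd (nat_lit 234) (nat_lit 2964) (nat_lit 0) (XT.nd (nat_lit 78) (nat_lit 1368) (nat_lit 0) (XT.lf (nat_lit 0) (nat_lit 4775711826) (nat_lit 684) (nat_lit 1723029376) (nat_lit 760) (nat_lit 1609792267) (nat_lit 298) (nat_lit 5) (nat_lit 307) (nat_lit 5) (nat_lit 308) (nat_lit 5) (nat_lit 439) (nat_lit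 385) (nat_lit 376)) (XT.nd (nat_lit 78) (nat_lit 684) (nat_lit 0) (XT.lf (nat_lit 0) (nat_lit 3807385556) (nat_lit 684) (nat_lit 1861735719) (nat_lit 76) (nat_lit 2532836650) (nat_lit 289) (nat_lit 5) (nat_lit 298) (nat_lit 5) (nat_lit 290) (nat_lit 5) (nat_lit 440) (nat_lit 385) (nat_lit 375)) (XT.lf (nat_lit 0) (nat_lit 1006972545) (nat_lit 684) (nat_lit 346062634) (nat_lit 76) (nat_lit 6945734453) (nat_lit 280) (nat_lit 5) (nat_lit 289) (nat_lit 5) (nat_lit 281) (nat_lit 5) (nat_lit 441) (nat_lit 385) (nat_lit 374)))) (XT.nd (nat_lit 156) (nat_lit 1140) (nat_lit 0) (XT.nd (nat_lit 78) (nat_lit 608) (nat_lit 0) (XT.lf (nat_lit 0) (nat_lit 1209035529) (nat_lit 608) (nat_lit 5275476560) (nat_lit 684) (nat_lit 1913929853) (nat_lit 264) (nat_lit 5) (nat_lit 272) (nat_lit 5) (nat_lit 273) (nat_lit 5) (nat_lit 442) (nat_lit 385) (nat_lit 373)) (XT.lf (nat_lit 0) (nat_lit 2809399107) (nat_lit 532) (nat_lit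 727265457) (nat_lit 608) (nat_lit 4964800146) (nat_lit 256) (nat_lit 5) (nat_lit 263) (nat_lit 5) (nat_lit 264) (nat_lit 5) (nat_lit 443) (nat_lit 385) (nat_lit 372))) (XT.nd (nat_lit 78) (nat_lit 532) (nat_lit 0) (XT.lf (nat_lit 0) (nat_lit 486855663) (nat_lit 608) (nat_lit 4167216010) (nat_lit 76) (nat_lit 3953671726) (nat_lit 248) (nat_lit 5) (nat_lit 256) (nat_lit 5) (nat_lit 249) (nat_lit 5) (nat_lit 444) (nat_lit 385) (nat_lit 371)) (XT.lf (nat_lit 0) (nat_lit 5993438730) (nat_lit 608) (nat_lit 2612278612) (nat_lit 76) (nat_lit 111669210) (nat_lit 241) (nat_lit 5) (nat_lit 249) (nat_lit 5) (nat_lit 242) (nat_lit 5) (nat_lit 445) (nat_lit 385) (nat_lit 370))))))) (XT.nd (nat_lit 1014) (nat_lit 4788) (nat_lit 0) (XT.nd (nat_lit 468) (nat_lit 3420) (nat_lit 0) (XT.nd (nat_lit 234) (nat_lit 1520) (nat_lit 0) (XT.nd (nat_lit 78) (nat_lit 1520) (nat_lit 0) (XT.lf (nat_lit 0) (nat_lit 2784488973) (nat_lit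 608) (nat_lit 1038697873) (nat_lit 76) (nat_lit 5007037264) (nat_lit 233) (nat_lit 5) (nat_lit 241) (nat_lit 5) (nat_lit 234) (nat_lit 5) (nat_lit 446) (nat_lit 385) (nat_lit 369)) (XT.nd (nat_lit 78) (nat_lit 532) (nat_lit 0) (XT.lf (nat_lit 0) (nat_lit 584429747) (nat_lit 532) (nat_lit 7806207699) (nat_lit 608) (nat_lit 556068272) (nat_lit 220) (nat_lit 5) (nat_lit 227) (nat_lit 5) (nat_lit 228) (nat_lit 5) (nat_lit 447) (nat_lit 385) (nat_lit 368)) (XT.lf (nat_lit 0) (nat_lit 2230082074) (nat_lit 456) (nat_lit 2794390116) (nat_lit 532) (nat_lit 4041694541) (nat_lit 213) (nat_lit 5) (nat_lit 219) (nat_lit 5) (nat_lit 220) (nat_lit 5) (nat_lit 448) (nat_lit 385) (nat_lit 367)))) (XT.nd (nat_lit 78) (nat_lit 988) (nat_lit 0) (XT.lf (nat_lit 0) (nat_lit 1533376780) (nat_lit 532) (nat_lit 5276042717) (nat_lit 76) (nat_lit 2379955385) (nat_lit 206) (nat_lit 5) (nat_lit 213) (nat_lit 5) (nat_lit 207) (nat_lit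 5) (nat_lit 449) (nat_lit 385) (nat_lit 366)) (XT.nd (nat_lit 78) (nat_lit 532) (nat_lit 0) (XT.lf (nat_lit 0) (nat_lit 5617400437) (nat_lit 456) (nat_lit 1587596177) (nat_lit 532) (nat_lit 2111071562) (nat_lit 200) (nat_lit 5) (nat_lit 206) (nat_lit 5) (nat_lit 207) (nat_lit 5) (nat_lit 450) (nat_lit 385) (nat_lit 365)) (XT.lf (nat_lit 0) (nat_lit 3545405103) (nat_lit 532) (nat_lit 2107153467) (nat_lit 76) (nat_lit 3793694805) (nat_lit 193) (nat_lit 5) (nat_lit 200) (nat_lit 5) (nat_lit 194) (nat_lit 5) (nat_lit 451) (nat_lit 385) (nat_lit 364))))) (XT.nd (nat_lit 234) (nat_lit 1672) (nat_lit 0) (XT.nd (nat_lit 78) (nat_lit 1368) (nat_lit 0) (XT.lf (nat_lit 0) (nat_lit 9101688705) (nat_lit 380) (nat_lit 221893120) (nat_lit 456) (nat_lit 256876277) (nat_lit 188) (nat_lit 5) (nat_lit 193) (nat_lit 5) (nat_lit 194) (nat_lit 5) (nat_lit 452) (nat_lit 385) (nat_lit 363)) (XT.nd (nat_lit 78) (nat_lit 456)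 (nat_lit 0) (XT.lf (nat_lit 0) (nat_lit 1154957357) (nat_lit 380) (nat_lit 4343561865) (nat_lit 456) (nat_lit 4219155143) (nat_lit 176) (nat_lit 5) (nat_lit 181) (nat_lit 5) (nat_lit 182) (nat_lit 5) (nat_lit 453) (nat_lit 385) (nat_lit 362)) (XT.lf (nat_lit 0) (nat_lit 1531106704) (nat_lit 456) (nat_lit 7025076584) (nat_lit 76) (nat_lit 1302842782) (nat_lit 170) (nat_lit 5) (nat_lit 176) (nat_lit 5) (nat_lit 171) (nat_lit 5) (nat_lit 454) (nat_lit 385) (nat_lit 361)))) (XT.nd (nat_lit 156) (nat_lit 836) (nat_lit 0) (XT.nd (nat_lit 78) (nat_lit 456) (nat_lit 0) (XT.lf (nat_lit 0) (nat_lit 4515679021) (nat_lit 380) (nat_lit 2886813279) (nat_lit 456) (nat_lit 2601455476) (nat_lit 165) (nat_lit 5) (nat_lit 170) (nat_lit 5) (nat_lit 171) (nat_lit 5) (nat_lit 455) (nat_lit 385) (nat_lit 360)) (XT.lf (nat_lit 0) (nat_lit 3251718745) (nat_lit 456) (nat_lit 3936942090) (nat_lit 76) (nat_lit 2964170794) (nat_lit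 159) (nat_lit 5) (nat_lit 165) (nat_lit 5) (nat_lit 160) (nat_lit 5) (nat_lit 456) (nat_lit 385) (nat_lit 359))) (XT.nd (nat_lit 78) (nat_lit 456) (nat_lit 0) (XT.lf (nat_lit 0) (nat_lit 7938191082) (nat_lit 380) (nat_lit 1307397402) (nat_lit 456) (nat_lit 1060246247) (nat_lit 154) (nat_lit 5) (nat_lit 159) (nat_lit 5) (nat_lit 160) (nat_lit 5) (nat_lit 457) (nat_lit 385) (nat_lit 358)) (XT.lf (nat_lit 0) (nat_lit 4905160724) (nat_lit 456) (nat_lit 807610280) (nat_lit 76) (nat_lit 4749732423) (nat_lit 148) (nat_lit 5) (nat_lit 154) (nat_lit 5) (nat_lit 149) (nat_lit 5) (nat_lit 458) (nat_lit 385) (nat_lit 357)))))) (XT.nd (nat_lit 468) (nat_lit 2356) (nat_lit 0) (XT.nd (nat_lit 234) (nat_lit 988) (nat_lit 0) (XT.nd (nat_lit 78) (nat_lit 684) (nat_lit 0) (XT.lf (nat_lit 0) (nat_lit 407702166) (nat_lit 456) (nat_lit 9829033011) (nat_lit 76) (nat_lit 386914338) (nat_lit 138) (nat_lit 5) (nat_lit 144)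 (nat_lit 5) (nat_lit 139) (nat_lit 5) (nat_lit 459) (nat_lit 385) (nat_lit 356)) (XT.nd (nat_lit 78) (nat_lit 380) (nat_lit 0) (XT.lf (nat_lit 0) (nat_lit 2384169400) (nat_lit 304) (nat_lit 4123382032) (nat_lit 380) (nat_lit 4280721618) (nat_lit 134) (nat_lit 5) (nat_lit 138) (nat_lit 5) (nat_lit 139) (nat_lit 5) (nat_lit 460) (nat_lit 385) (nat_lit 355)) (XT.lf (nat_lit 0) (nat_lit 1812054584) (nat_lit 380) (nat_lit 6958758301) (nat_lit 76) (nat_lit 2186718506) (nat_lit 129) (nat_lit 5) (nat_lit 134) (nat_lit 5) (nat_lit 130) (nat_lit 5) (nat_lit 461) (nat_lit 385) (nat_lit 354)))) (XT.nd (nat_lit 78) (nat_lit 684) (nat_lit 0) (XT.lf (nat_lit 0) (nat_lit 5607457813) (nat_lit 304) (nat_lit 2441211664) (nat_lit 380) (nat_lit 3082252310) (nat_lit 125) (nat_lit 5) (nat_lit 129) (nat_lit 5) (nat_lit 130) (nat_lit 5) (nat_lit 462) (nat_lit 385) (nat_lit 353)) (XT.nd (nat_lit 78) (nat_lit 304) (nat_lit 0)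 (XT.lf (nat_lit 0) (nat_lit 3141531669) (nat_lit 380) (nat_lit 4090722192) (nat_lit 76) (nat_lit 4076450712) (nat_lit 120) (nat_lit 5) (nat_lit 125) (nat_lit 5) (nat_lit 121) (nat_lit 5) (nat_lit 463) (nat_lit 385) (nat_lit 352)) (XT.lf (nat_lit 0) (nat_lit 8839898927) (nat_lit 304) (nat_lit 682175681) (nat_lit 380) (nat_lit 1969104485) (nat_lit 116) (nat_lit 5) (nat_lit 120) (nat_lit 5) (nat_lit 121) (nat_lit 5) (nat_lit 464) (nat_lit 385) (nat_lit 351))))) (XT.nd (nat_lit 234) (nat_lit 1140) (nat_lit 0) (XT.nd (nat_lit 78) (nat_lit 836) (nat_lit 0) (XT.lf (nat_lit 0) (nat_lit 4394215520) (nat_lit 380) (nat_lit 1237610596) (nat_lit 76) (nat_lit 6045988155) (nat_lit 111) (nat_lit 5) (nat_lit 116) (nat_lit 5) (nat_lit 112) (nat_lit 5) (nat_lit 465) (nat_lit 385) (nat_lit 350)) (XT.nd (nat_lit 78) (nat_lit 304) (nat_lit 0) (XT.lf (nat_lit 0) (nat_lit 194328394) (nat_lit 304) (nat_lit 10740087012) (nat_lit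 380) (nat_lit 935121962) (nat_lit 104) (nat_lit 5) (nat_lit 108) (nat_lit 5) (nat_lit 109) (nat_lit 5) (nat_lit 466) (nat_lit 385) (nat_lit 349)) (XT.lf (nat_lit 0) (nat_lit 1607902160) (nat_lit 228) (nat_lit 3969777460) (nat_lit 304) (nat_lit 6487661206) (nat_lit 100) (nat_lit 5) (nat_lit 103) (nat_lit 5) (nat_lit 104) (nat_lit 5) (nat_lit 467) (nat_lit 385) (nat_lit 348)))) (XT.nd (nat_lit 156) (nat_lit 532) (nat_lit 0) (XT.nd (nat_lit 78) (nat_lit 228) (nat_lit 0) (XT.lf (nat_lit 0) (nat_lit 29148460) (nat_lit 380) (nat_lit 9232907379) (nat_lit 76) (nat_lit 3004382289) (nat_lit 95) (nat_lit 5) (nat_lit 100) (nat_lit 5) (nat_lit 96) (nat_lit 5) (nat_lit 468) (nat_lit 385) (nat_lit 347)) (XT.lf (nat_lit 0) (nat_lit 4425585582) (nat_lit 228) (nat_lit 2259883681) (nat_lit 304) (nat_lit 5786601814) (nat_lit 92) (nat_lit 5) (nat_lit 95) (nat_lit 5) (nat_lit 96) (nat_lit 5) (nat_lit 469) (nat_lit 385)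 (nat_lit 346))) (XT.nd (nat_lit 78) (nat_lit 228) (nat_lit 0) (XT.lf (nat_lit 0) (nat_lit 885869242) (nat_lit 304) (nat_lit 6868639833) (nat_lit 76) (nat_lit 4928465582) (nat_lit 88) (nat_lit 5) (nat_lit 92) (nat_lit 5) (nat_lit 89) (nat_lit 5) (nat_lit 470) (nat_lit 385) (nat_lit 345)) (XT.lf (nat_lit 0) (nat_lit 7182333057) (nat_lit 228) (nat_lit 522062359) (nat_lit 304) (nat_lit 5194558092) (nat_lit 85) (nat_lit 5) (nat_lit 88) (nat_lit 5) (nat_lit 89) (nat_lit 5) (nat_lit 471) (nat_lit 385) (nat_lit 344))))))))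
noncomputable def xc18 : XT := (XT.nd (nat_lit 59670) (nat_lit 0) (nat_lit 8056) (XT.nd (nat_lit 936) (nat_lit 988) (nat_lit 0) (XT.nd (nat_lit 468) (nat_lit 1292) (nat_lit 0) (XT.nd (nat_lit 234) (nat_lit 912) (nat_lit 0) (XT.nd (nat_lit 78) (nat_lit 532) (nat_lit 0) (XT.lf (nat_lit 0) (nat_lit 1641288199) (nat_lit 304) (nat_lit 4594547764) (nat_lit 76) (nat_lit 6884244445) (nat_lit 81) (nat_lit 5) (nat_lit 85) (nat_lit 5) (nat_lit 82) (nat_lit 5) (nat_lit 472) (nat_lit 385) (nat_lit 343)) (XT.nd (nat_lit 78) (nat_lit 304) (nat_lit 0) (XT.lf (nat_lit 0) (nat_lit 8636252486) (nat_lit 304) (nat_lit 3494990873) (nat_lit 76) (nat_lit 1215421593) (nat_lit 78) (nat_lit 5) (nat_lit 82) (nat_lit 5) (nat_lit 79) (nat_lit 5) (nat_lit 473) (nat_lit 385) (nat_lit 342)) (XT.lf (nat_lit 0) (nat_lit 2288171546) (nat_lit 304) (nat_lit 2430654560) (nat_lit 76) (nat_lit 8859793932) (nat_lit 74) (nat_lit 5) (nat_lit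 78) (nat_lit 5) (nat_lit 75) (nat_lit 5) (nat_lit 474) (nat_lit 385) (nat_lit 341)))) (XT.nd (nat_lit 78) (nat_lit 684) (nat_lit 0) (XT.lf (nat_lit 0) (nat_lit 9469009208) (nat_lit 304) (nat_lit 1398092830) (nat_lit 76) (nat_lit 2949085842) (nat_lit 71) (nat_lit 5) (nat_lit 75) (nat_lit 5) (nat_lit 72) (nat_lit 5) (nat_lit 475) (nat_lit 385) (nat_lit 340)) (XT.nd (nat_lit 78) (nat_lit 380) (nat_lit 0) (XT.lf (nat_lit 0) (nat_lit 2817973091) (nat_lit 304) (nat_lit 399029149) (nat_lit 76) (nat_lit 10842511613) (nat_lit 67) (nat_lit 5) (nat_lit 71) (nat_lit 5) (nat_lit 68) (nat_lit 5) (nat_lit 476) (nat_lit 385) (nat_lit 339)) (XT.lf (nat_lit 0) (nat_lit 561656300) (nat_lit 228) (nat_lit 9632391243) (nat_lit 304) (nat_lit 4114419239) (nat_lit 62) (nat_lit 5) (nat_lit 65) (nat_lit 5) (nat_lit 66) (nat_lit 5) (nat_lit 477) (nat_lit 385) (nat_lit 338))))) (XT.nd (nat_lit 234) (nat_lit 608) (nat_lit 0) (XT.nd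 (nat_lit 78) (nat_lit 456) (nat_lit 0) (XT.lf (nat_lit 0) (nat_lit 1495571508) (nat_lit 152) (nat_lit 1734865147) (nat_lit 228) (nat_lit 11333110270) (nat_lit 59) (nat_lit 5) (nat_lit 61) (nat_lit 5) (nat_lit 62) (nat_lit 5) (nat_lit 478) (nat_lit 385) (nat_lit 337)) (XT.nd (nat_lit 78) (nat_lit 228) (nat_lit 0) (XT.lf (nat_lit 0) (nat_lit 2367593847) (nat_lit 228) (nat_lit 8437868673) (nat_lit 304) (nat_lit 4018960836) (nat_lit 56) (nat_lit 5) (nat_lit 59) (nat_lit 5) (nat_lit 60) (nat_lit 5) (nat_lit 479) (nat_lit 385) (nat_lit 336)) (XT.lf (nat_lit 0) (nat_lit 3209439466) (nat_lit 152) (nat_lit 296321535) (nat_lit 228) (nat_lit 11586166004) (nat_lit 53) (nat_lit 5) (nat_lit 55) (nat_lit 5) (nat_lit 56) (nat_lit 5) (nat_lit 480) (nat_lit 385) (nat_lit 335)))) (XT.nd (nat_lit 78) (nat_lit 380) (nat_lit 0) (XT.lf (nat_lit 0) (nat_lit 3972410292) (nat_lit 228) (nat_lit 7309531847) (nat_lit 304) (nat_lit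 4083378027) (nat_lit 50) (nat_lit 5) (nat_lit 53) (nat_lit 5) (nat_lit 54) (nat_lit 5) (nat_lit 481) (nat_lit 385) (nat_lit 334)) (XT.nd (nat_lit 78) (nat_lit 152) (nat_lit 0) (XT.lf (nat_lit 0) (nat_lit 3634943717) (nat_lit 228) (nat_lit 10945800243) (nat_lit 76) (nat_lit 1064934946) (nat_lit 47) (nat_lit 5) (nat_lit 50) (nat_lit 5) (nat_lit 48) (nat_lit 5) (nat_lit 482) (nat_lit 385) (nat_lit 333)) (XT.lf (nat_lit 0) (nat_lit 5344273851) (nat_lit 152) (nat_lit 6265343618) (nat_lit 228) (nat_lit 4322687466) (nat_lit 45) (nat_lit 5) (nat_lit 47) (nat_lit 5) (nat_lit 48) (nat_lit 5) (nat_lit 483) (nat_lit 385) (nat_lit 332)))))) (XT.nd (nat_lit 58188) (nat_lit 0) (nat_lit 23788) (XT.nd (nat_lit 234) (nat_lit 380) (nat_lit 0) (XT.nd (nat_lit 78) (nat_lit 380) (nat_lit 0) (XT.lf (nat_lit 0) (nat_lit 3597137325) (nat_lit 228) (nat_lit 10287010182) (nat_lit 76) (nat_lit 2341951177) (nat_lit 42) (nat_lit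 5) (nat_lit 45) (nat_lit 5) (nat_lit 43) (nat_lit 5) (nat_lit 484) (nat_lit 385) (nat_lit 331)) (XT.nd (nat_lit 78) (nat_lit 228) (nat_lit 0) (XT.lf (nat_lit 0) (nat_lit 6447889559) (nat_lit 152) (nat_lit 5324811240) (nat_lit 228) (nat_lit 4753898335) (nat_lit 40) (nat_lit 5) (nat_lit 42) (nat_lit 5) (nat_lit 43) (nat_lit 5) (nat_lit 485) (nat_lit 385) (nat_lit 330)) (XT.lf (nat_lit 0) (nat_lit 3373024989) (nat_lit 228) (nat_lit 9942503421) (nat_lit 76) (nat_lit 3518959092) (nat_lit 37) (nat_lit 5) (nat_lit 40) (nat_lit 5) (nat_lit 38) (nat_lit 5) (nat_lit 486) (nat_lit 385) (nat_lit 329)))) (XT.nd (nat_lit 78) (nat_lit 228) (nat_lit 0) (XT.lf (nat_lit 0) (nat_lit 7244102110) (nat_lit 152) (nat_lit 4509200544) (nat_lit 228) (nat_lit 5396200389) (nat_lit 35) (nat_lit 5) (nat_lit 37) (nat_lit 5) (nat_lit 38) (nat_lit 5) (nat_lit 487) (nat_lit 385) (nat_lit 328)) (XT.nd (nat_lit 57798) (nat_lit 0) (nat_lit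 30628) (XT.lf (nat_lit 0) (nat_lit 2942980906) (nat_lit 228) (nat_lit 9954731715) (nat_lit 76) (nat_lit 4574477205) (nat_lit 32) (nat_lit 5) (nat_lit 35) (nat_lit 5) (nat_lit 33) (nat_lit 5) (nat_lit 488) (nat_lit 385) (nat_lit 327)) (XT.lf (nat_lit 0) (nat_lit 1276951593) (nat_lit 988) (nat_lit 1086208232) (nat_lit 0) (nat_lit 1276951593) (nat_lit 435) (nat_lit 5) (nat_lit 448) (nat_lit 4) (nat_lit 435) (nat_lit 4) (nat_lit 428) (nat_lit 386) (nat_lit 386))))) (XT.nd (nat_lit 234) (nat_lit 3268) (nat_lit 0) (XT.nd (nat_lit 78) (nat_lit 2584) (nat_lit 0) (XT.lf (nat_lit 0) (nat_lit 613585779) (nat_lit 988) (nat_lit 1136441830) (nat_lit 76) (nat_lit 5592030429) (nat_lit 422) (nat_lit 5) (nat_lit 435) (nat_lit 5) (nat_lit 423) (nat_lit 4) (nat_lit 429) (nat_lit 386) (nat_lit 385)) (XT.nd (nat_lit 78) (nat_lit 1748) (nat_lit 0) (XT.lf (nat_lit 0) (nat_lit 5969872252) (nat_lit 912) (nat_lit 57742304) (nat_lit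 0) (nat_lit 1379117673) (nat_lit 411) (nat_lit 5) (nat_lit 423) (nat_lit 4) (nat_lit 411) (nat_lit 4) (nat_lit 430) (nat_lit 386) (nat_lit 384)) (XT.lf (nat_lit 0) (nat_lit 1079672537) (nat_lit 836) (nat_lit 2814394264) (nat_lit 912) (nat_lit 3580110475) (nat_lit 388) (nat_lit 5) (nat_lit 399) (nat_lit 5) (nat_lit 400) (nat_lit 4) (nat_lit 431) (nat_lit 386) (nat_lit 383)))) (XT.nd (nat_lit 156) (nat_lit 1596) (nat_lit 0) (XT.nd (nat_lit 78) (nat_lit 760) (nat_lit 0) (XT.lf (nat_lit 0) (nat_lit 1719702608) (nat_lit 912) (nat_lit 5269319423) (nat_lit 76) (nat_lit 555779146) (nat_lit 376) (nat_lit 5) (nat_lit 388) (nat_lit 5) (nat_lit 377) (nat_lit 4) (nat_lit 432) (nat_lit 386) (nat_lit 382)) (XT.lf (nat_lit 0) (nat_lit 3509913335) (nat_lit 760) (nat_lit 3560386008) (nat_lit 836) (nat_lit 547977253) (nat_lit 366) (nat_lit 5) (nat_lit 376) (nat_lit 5) (nat_lit 377) (nat_lit 4) (nat_lit 433) (nat_lit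 386) (nat_lit 381))) (XT.nd (nat_lit 78) (nat_lit 760) (nat_lit 0) (XT.lf (nat_lit 0) (nat_lit 4747836546) (nat_lit 836) (nat_lit 2901495369) (nat_lit 76) (nat_lit 45514097) (nat_lit 355) (nat_lit 5) (nat_lit 366) (nat_lit 5) (nat_lit 356) (nat_lit 4) (nat_lit 434) (nat_lit 386) (nat_lit 380)) (XT.lf (nat_lit 0) (nat_lit 2341048777) (nat_lit 760) (nat_lit 1660652729) (nat_lit 76) (nat_lit 3772610090) (nat_lit 345) (nat_lit 5) (nat_lit 355) (nat_lit 5) (nat_lit 346) (nat_lit 5) (nat_lit 435) (nat_lit 386) (nat_lit 379))))))) (XT.nd (nat_lit 936) (nat_lit 6764) (nat_lit 0) (XT.nd (nat_lit 468) (nat_lit 4028) (nat_lit 0) (XT.nd (nat_lit 234) (nat_lit 2052) (nat_lit 0) (XT.nd (nat_lit 78) (nat_lit 2128) (nat_lit 0) (XT.lf (nat_lit 0) (nat_lit 7493995494) (nat_lit 760) (nat_lit 184498635) (nat_lit 836) (nat_lit 178674652) (nat_lit 335) (nat_lit 5) (nat_lit 345) (nat_lit 5) (nat_lit 346) (nat_lit 5) (nat_lit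 436) (nat_lit 386) (nat_lit 378)) (XT.nd (nat_lit 78) (nat_lit 684) (nat_lit 0) (XT.lf (nat_lit 0) (nat_lit 964556170) (nat_lit 684) (nat_lit 4164819460) (nat_lit 760) (nat_lit 2813179472) (nat_lit 316) (nat_lit 5) (nat_lit 325) (nat_lit 5) (nat_lit 326) (nat_lit 5) (nat_lit 437) (nat_lit 386) (nat_lit 377)) (XT.lf (nat_lit 0) (nat_lit 2354127820) (nat_lit 608) (nat_lit 115972673) (nat_lit 684) (nat_lit 5561258393) (nat_lit 307) (nat_lit 5) (nat_lit 315) (nat_lit 5) (nat_lit 316) (nat_lit 5) (nat_lit 438) (nat_lit 386) (nat_lit 376)))) (XT.nd (nat_lit 78) (nat_lit 1368) (nat_lit 0) (XT.lf (nat_lit 0) (nat_lit 3773686385) (nat_lit 684) (nat_lit 4066070679) (nat_lit 760) (nat_lit 283387200) (nat_lit 298) (nat_lit 5) (nat_lit 307) (nat_lit 5) (nat_lit 308) (nat_lit 5) (nat_lit 439) (nat_lit 386) (nat_lit 375)) (XT.nd (nat_lit 78) (nat_lit 684) (nat_lit 0) (XT.lf (nat_lit 0) (nat_lit 5029419556) (nat_lit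 684) (nat_lit 2985613636) (nat_lit 76) (nat_lit 203108113) (nat_lit 289) (nat_lit 5) (nat_lit 298) (nat_lit 5) (nat_lit 290) (nat_lit 5) (nat_lit 440) (nat_lit 386) (nat_lit 374)) (XT.lf (nat_lit 0) (nat_lit 2125455835) (nat_lit 684) (nat_lit 1594087076) (nat_lit 76) (nat_lit 4596689630) (nat_lit 280) (nat_lit 5) (nat_lit 289) (nat_lit 5) (nat_lit 281) (nat_lit 5) (nat_lit 441) (nat_lit 386) (nat_lit 373))))) (XT.nd (nat_lit 234) (nat_lit 1596) (nat_lit 0) (XT.nd (nat_lit 78) (nat_lit 1824) (nat_lit 0) (XT.lf (nat_lit 0) (nat_lit 7508593835) (nat_lit 684) (nat_lit 158482421) (nat_lit 76) (nat_lit 750721543) (nat_lit 272) (nat_lit 5) (nat_lit 281) (nat_lit 5) (nat_lit 273) (nat_lit 5) (nat_lit 442) (nat_lit 386) (nat_lit 372)) (XT.nd (nat_lit 78) (nat_lit 608) (nat_lit 0) (XT.lf (nat_lit 0) (nat_lit 1309919795) (nat_lit 532) (nat_lit 3145464531) (nat_lit 608) (nat_lit 4066767035) (nat_lit 256) (nat_lit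 5) (nat_lit 263) (nat_lit 5) (nat_lit 264) (nat_lit 5) (nat_lit 443) (nat_lit 386) (nat_lit 371)) (XT.lf (nat_lit 0) (nat_lit 1285459828) (nat_lit 608) (nat_lit 5804482650) (nat_lit 76) (nat_lit 1540128436) (nat_lit 248) (nat_lit 5) (nat_lit 256) (nat_lit 5) (nat_lit 249) (nat_lit 5) (nat_lit 444) (nat_lit 386) (nat_lit 370)))) (XT.nd (nat_lit 78) (nat_lit 1064) (nat_lit 0) (XT.lf (nat_lit 0) (nat_lit 4362278693) (nat_lit 532) (nat_lit 2357628285) (nat_lit 608) (nat_lit 2021254132) (nat_lit 241) (nat_lit 5) (nat_lit 248) (nat_lit 5) (nat_lit 249) (nat_lit 5) (nat_lit 445) (nat_lit 386) (nat_lit 369)) (XT.nd (nat_lit 78) (nat_lit 456) (nat_lit 0) (XT.lf (nat_lit 0) (nat_lit 3390999967) (nat_lit 608) (nat_lit 2926991116) (nat_lit 76) (nat_lit 2537659790) (nat_lit 233) (nat_lit 5) (nat_lit 241) (nat_lit 5) (nat_lit 234) (nat_lit 5) (nat_lit 446) (nat_lit 386) (nat_lit 368)) (XT.lf (nat_lit 0) (nat_lit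 7534139034) (nat_lit 456) (nat_lit 1380556829) (nat_lit 532) (nat_lit 59089668) (nat_lit 227) (nat_lit 5) (nat_lit 233) (nat_lit 5) (nat_lit 234) (nat_lit 5) (nat_lit 447) (nat_lit 386) (nat_lit 367)))))) (XT.nd (nat_lit 468) (nat_lit 3268) (nat_lit 0) (XT.nd (nat_lit 234) (nat_lit 1444) (nat_lit 0) (XT.nd (nat_lit 78) (nat_lit 988) (nat_lit 0) (XT.lf (nat_lit 0) (nat_lit 52780359) (nat_lit 456) (nat_lit 5371389075) (nat_lit 532) (nat_lit 3670831648) (nat_lit 213) (nat_lit 5) (nat_lit 219) (nat_lit 5) (nat_lit 220) (nat_lit 5) (nat_lit 448) (nat_lit 386) (nat_lit 366)) (XT.nd (nat_lit 78) (nat_lit 456) (nat_lit 0) (XT.lf (nat_lit 0) (nat_lit 1606829501) (nat_lit 456) (nat_lit 204455431) (nat_lit 532) (nat_lit 7408641582) (nat_lit 206) (nat_lit 5) (nat_lit 212) (nat_lit 5) (nat_lit 213) (nat_lit 5) (nat_lit 449) (nat_lit 386) (nat_lit 365)) (XT.lf (nat_lit 0) (nat_lit 3166453684) (nat_lit 456) (nat_lit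 4242825490) (nat_lit 532) (nat_lit 1938816662) (nat_lit 200) (nat_lit 5) (nat_lit 206) (nat_lit 5) (nat_lit 207) (nat_lit 5) (nat_lit 450) (nat_lit 386) (nat_lit 364)))) (XT.nd (nat_lit 78) (nat_lit 912) (nat_lit 0) (XT.lf (nat_lit 0) (nat_lit 3625354732) (nat_lit 532) (nat_lit 4723765956) (nat_lit 76) (nat_lit 1130942249) (nat_lit 193) (nat_lit 5) (nat_lit 200) (nat_lit 5) (nat_lit 194) (nat_lit 5) (nat_lit 451) (nat_lit 386) (nat_lit 363)) (XT.nd (nat_lit 78) (nat_lit 532) (nat_lit 0) (XT.lf (nat_lit 0) (nat_lit 6367158394) (nat_lit 380) (nat_lit 2963897249) (nat_lit 456) (nat_lit 284664787) (nat_lit 188) (nat_lit 5) (nat_lit 193) (nat_lit 5) (nat_lit 194) (nat_lit 5) (nat_lit 452) (nat_lit 386) (nat_lit 362)) (XT.lf (nat_lit 0) (nat_lit 5372722903) (nat_lit 532) (nat_lit 1767752890) (nat_lit 76) (nat_lit 2614435045) (nat_lit 181) (nat_lit 5) (nat_lit 188) (nat_lit 5) (nat_lit 182) (nat_lit 5) (nat_lit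 453) (nat_lit 386) (nat_lit 361))))) (XT.nd (nat_lit 234) (nat_lit 1596) (nat_lit 0) (XT.nd (nat_lit 78) (nat_lit 1216) (nat_lit 0) (XT.lf (nat_lit 0) (nat_lit 1277452250) (nat_lit 456) (nat_lit 259931966) (nat_lit 76) (nat_lit 8360757639) (nat_lit 175) (nat_lit 5) (nat_lit 181) (nat_lit 5) (nat_lit 176) (nat_lit 5) (nat_lit 454) (nat_lit 386) (nat_lit 360)) (XT.nd (nat_lit 78) (nat_lit 456) (nat_lit 0) (XT.lf (nat_lit 0) (nat_lit 1264202946) (nat_lit 380) (nat_lit 5798655836) (nat_lit 456) (nat_lit 2981927217) (nat_lit 165) (nat_lit 5) (nat_lit 170) (nat_lit 5) (nat_lit 171) (nat_lit 5) (nat_lit 455) (nat_lit 386) (nat_lit 359)) (XT.lf (nat_lit 0) (nat_lit 2782306495) (nat_lit 456) (nat_lit 7376421517) (nat_lit 76) (nat_lit 36872577) (nat_lit 159) (nat_lit 5) (nat_lit 165) (nat_lit 5) (nat_lit 160) (nat_lit 5) (nat_lit 456) (nat_lit 386) (nat_lit 358)))) (XT.nd (nat_lit 156) (nat_lit 760) (nat_lit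 0) (XT.nd (nat_lit 78) (nat_lit 456) (nat_lit 0) (XT.lf (nat_lit 0) (nat_lit 4370700152) (nat_lit 380) (nat_lit 4330642258) (nat_lit 456) (nat_lit 1648760598) (nat_lit 154) (nat_lit 5) (nat_lit 159) (nat_lit 5) (nat_lit 160) (nat_lit 5) (nat_lit 457) (nat_lit 386) (nat_lit 357)) (XT.lf (nat_lit 0) (nat_lit 4229068066) (nat_lit 456) (nat_lit 4570999207) (nat_lit 76) (nat_lit 1708689301) (nat_lit 148) (nat_lit 5) (nat_lit 154) (nat_lit 5) (nat_lit 149) (nat_lit 5) (nat_lit 458) (nat_lit 386) (nat_lit 356))) (XT.nd (nat_lit 78) (nat_lit 456) (nat_lit 0) (XT.lf (nat_lit 0) (nat_lit 7518686209) (nat_lit 304) (nat_lit 2758846140) (nat_lit 380) (nat_lit 394090369) (nat_lit 144) (nat_lit 5) (nat_lit 148) (nat_lit 5) (nat_lit 149) (nat_lit 5) (nat_lit 459) (nat_lit 386) (nat_lit 355)) (XT.lf (nat_lit 0) (nat_lit 5606316646) (nat_lit 456) (nat_lit 1745651598) (nat_lit 76) (nat_lit 3486423723) (nat_lit 138) (nat_lit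 5) (nat_lit 144) (nat_lit 5) (nat_lit 139) (nat_lit 5) (nat_lit 460) (nat_lit 386) (nat_lit 354))))))))
noncomputable def xc19 : XT := (XT.nd (nat_lit 1950) (nat_lit 532) (nat_lit 0) (XT.nd (nat_lit 936) (nat_lit 3040) (nat_lit 0) (XT.nd (nat_lit 468) (nat_lit 1976) (nat_lit 0) (XT.nd (nat_lit 234) (nat_lit 912) (nat_lit 0) (XT.nd (nat_lit 78) (nat_lit 988) (nat_lit 0) (XT.lf (nat_lit 0) (nat_lit 771452046) (nat_lit 380) (nat_lit 316967731) (nat_lit 76) (nat_lit 9921390798) (nat_lit 133) (nat_lit 5) (nat_lit 138) (nat_lit 5) (nat_lit 134) (nat_lit 5) (nat_lit 461) (nat_lit 386) (nat_lit 353)) (XT.nd (nat_lit 78) (nat_lit 380) (nat_lit 0) (XT.lf (nat_lit 0) (nat_lit 1103055205) (nat_lit 304) (nat_lit 5817613683) (nat_lit 380) (nat_lit 4264282191) (nat_lit 125) (nat_lit 5) (nat_lit 129) (nat_lit 5) (nat_lit 130) (nat_lit 5) (nat_lit 462) (nat_lit 386) (nat_lit 352)) (XT.lf (nat_lit 0) (nat_lit 1873773945)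 (nat_lit 380) (nat_lit 8815876787) (nat_lit 76) (nat_lit 675263274) (nat_lit 120) (nat_lit 5) (nat_lit 125) (nat_lit 5) (nat_lit 121) (nat_lit 5) (nat_lit 463) (nat_lit 386) (nat_lit 351)))) (XT.nd (nat_lit 78) (nat_lit 608) (nat_lit 0) (XT.lf (nat_lit 0) (nat_lit 3971959244) (nat_lit 304) (nat_lit 4203062188) (nat_lit 380) (nat_lit 3373954987) (nat_lit 116) (nat_lit 5) (nat_lit 120) (nat_lit 5) (nat_lit 121) (nat_lit 5) (nat_lit 464) (nat_lit 386) (nat_lit 350)) (XT.nd (nat_lit 78) (nat_lit 228) (nat_lit 0) (XT.lf (nat_lit 0) (nat_lit 2904471692) (nat_lit 380) (nat_lit 6335135382) (nat_lit 76) (nat_lit 2498255200) (nat_lit 111) (nat_lit 5) (nat_lit 116) (nat_lit 5) (nat_lit 112) (nat_lit 5) (nat_lit 465) (nat_lit 386) (nat_lit 349)) (XT.lf (nat_lit 0) (nat_lit 6824866407) (nat_lit 228) (nat_lit 2530629177) (nat_lit 304) (nat_lit 2575875141) (nat_lit 108) (nat_lit 5) (nat_lit 111) (nat_lit 5) (nat_lit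 112) (nat_lit 5) (nat_lit 466) (nat_lit 386) (nat_lit 348))))) (XT.nd (nat_lit 234) (nat_lit 988) (nat_lit 0) (XT.nd (nat_lit 78) (nat_lit 608) (nat_lit 0) (XT.lf (nat_lit 0) (nat_lit 3851152383) (nat_lit 380) (nat_lit 3895924532) (nat_lit 76) (nat_lit 4382457925) (nat_lit 103) (nat_lit 5) (nat_lit 108) (nat_lit 5) (nat_lit 104) (nat_lit 5) (nat_lit 467) (nat_lit 386) (nat_lit 347)) (XT.nd (nat_lit 78) (nat_lit 380) (nat_lit 0) (XT.lf (nat_lit 0) (nat_lit 9647635678) (nat_lit 228) (nat_lit 811100993) (nat_lit 304) (nat_lit 1874115279) (nat_lit 100) (nat_lit 5) (nat_lit 103) (nat_lit 5) (nat_lit 104) (nat_lit 5) (nat_lit 468) (nat_lit 386) (nat_lit 346)) (XT.lf (nat_lit 0) (nat_lit 4709582561) (nat_lit 380) (nat_lit 1513715052) (nat_lit 76) (nat_lit 6317376306) (nat_lit 95) (nat_lit 5) (nat_lit 100) (nat_lit 5) (nat_lit 96) (nat_lit 5) (nat_lit 469) (nat_lit 386) (nat_lit 345)))) (XT.nd (nat_lit 78)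 (nat_lit 760) (nat_lit 0) (XT.lf (nat_lit 0) (nat_lit 11486501250) (nat_lit 304) (nat_lit 335512883) (nat_lit 76) (nat_lit 932048398) (nat_lit 92) (nat_lit 5) (nat_lit 96) (nat_lit 5) (nat_lit 93) (nat_lit 5) (nat_lit 470) (nat_lit 386) (nat_lit 344)) (XT.nd (nat_lit 78) (nat_lit 228) (nat_lit 0) (XT.lf (nat_lit 0) (nat_lit 805122383) (nat_lit 228) (nat_lit 4674561309) (nat_lit 304) (nat_lit 7492281887) (nat_lit 85) (nat_lit 5) (nat_lit 88) (nat_lit 5) (nat_lit 89) (nat_lit 5) (nat_lit 471) (nat_lit 386) (nat_lit 343)) (XT.lf (nat_lit 0) (nat_lit 1951110796) (nat_lit 228) (nat_lit 10494173875) (nat_lit 304) (nat_lit 750293217) (nat_lit 82) (nat_lit 5) (nat_lit 85) (nat_lit 5) (nat_lit 86) (nat_lit 5) (nat_lit 472) (nat_lit 386) (nat_lit 342)))))) (XT.nd (nat_lit 468) (nat_lit 1444) (nat_lit 0) (XT.nd (nat_lit 234) (nat_lit 760) (nat_lit 0) (XT.nd (nat_lit 78) (nat_lit 532) (nat_lit 0) (XT.lf (nat_lit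 0) (nat_lit 3050324392) (nat_lit 228) (nat_lit 3108799304) (nat_lit 304) (nat_lit 7265045290) (nat_lit 78) (nat_lit 5) (nat_lit 81) (nat_lit 5) (nat_lit 82) (nat_lit 5) (nat_lit 473) (nat_lit 386) (nat_lit 341)) (XT.nd (nat_lit 78) (nat_lit 304) (nat_lit 0) (XT.lf (nat_lit 0) (nat_lit 4137936369) (nat_lit 228) (nat_lit 9174031623) (nat_lit 304) (nat_lit 346626584) (nat_lit 75) (nat_lit 5) (nat_lit 78) (nat_lit 5) (nat_lit 79) (nat_lit 5) (nat_lit 474) (nat_lit 386) (nat_lit 340)) (XT.lf (nat_lit 0) (nat_lit 5181030329) (nat_lit 228) (nat_lit 1549088239) (nat_lit 304) (nat_lit 7168262905) (nat_lit 71) (nat_lit 5) (nat_lit 74) (nat_lit 5) (nat_lit 75) (nat_lit 5) (nat_lit 475) (nat_lit 386) (nat_lit 339)))) (XT.nd (nat_lit 78) (nat_lit 532) (nat_lit 0) (XT.lf (nat_lit 0) (nat_lit 6198731812) (nat_lit 228) (nat_lit 7877488136) (nat_lit 304) (nat_lit 67863450) (nat_lit 68) (nat_lit 5) (nat_lit 71) (nat_lit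 5) (nat_lit 72) (nat_lit 5) (nat_lit 476) (nat_lit 386) (nat_lit 338)) (XT.nd (nat_lit 78) (nat_lit 304) (nat_lit 0) (XT.lf (nat_lit 0) (nat_lit 7174345924) (nat_lit 152) (nat_lit 9147781) (nat_lit 228) (nat_lit 7212064757) (nat_lit 65) (nat_lit 5) (nat_lit 67) (nat_lit 5) (nat_lit 68) (nat_lit 5) (nat_lit 477) (nat_lit 386) (nat_lit 337)) (XT.lf (nat_lit 0) (nat_lit 74509145) (nat_lit 304) (nat_lit 6544078762) (nat_lit 76) (nat_lit 8034432220) (nat_lit 61) (nat_lit 5) (nat_lit 65) (nat_lit 5) (nat_lit 62) (nat_lit 5) (nat_lit 478) (nat_lit 386) (nat_lit 336))))) (XT.nd (nat_lit 234) (nat_lit 836) (nat_lit 0) (XT.nd (nat_lit 78) (nat_lit 456) (nat_lit 0) (XT.lf (nat_lit 0) (nat_lit 7518326531) (nat_lit 228) (nat_lit 5921471800) (nat_lit 76) (nat_lit 1476723484) (nat_lit 59) (nat_lit 5) (nat_lit 62) (nat_lit 5) (nat_lit 60) (nat_lit 5) (nat_lit 479) (nat_lit 386) (nat_lit 335)) (XT.nd (nat_lit 78) (nat_lit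 152) (nat_lit 0) (XT.lf (nat_lit 0) (nat_lit 70458140) (nat_lit 304) (nat_lit 5343498814) (nat_lit 76) (nat_lit 9772516102) (nat_lit 55) (nat_lit 5) (nat_lit 59) (nat_lit 5) (nat_lit 56) (nat_lit 5) (nat_lit 480) (nat_lit 386) (nat_lit 334)) (XT.lf (nat_lit 0) (nat_lit 7712405510) (nat_lit 228) (nat_lit 4837249528) (nat_lit 76) (nat_lit 2912896859) (nat_lit 53) (nat_lit 5) (nat_lit 56) (nat_lit 5) (nat_lit 54) (nat_lit 5) (nat_lit 481) (nat_lit 386) (nat_lit 333)))) (XT.nd (nat_lit 156) (nat_lit 380) (nat_lit 0) (XT.nd (nat_lit 78) (nat_lit 228) (nat_lit 0) (XT.lf (nat_lit 0) (nat_lit 11371261762) (nat_lit 228) (nat_lit 4280338401) (nat_lit 304) (nat_lit 93955142) (nat_lit 50) (nat_lit 5) (nat_lit 53) (nat_lit 5) (nat_lit 54) (nat_lit 5) (nat_lit 482) (nat_lit 386) (nat_lit 332)) (XT.lf (nat_lit 0) (nat_lit 7751595211) (nat_lit 228) (nat_lit 4000578961) (nat_lit 76) (nat_lit 4282627405) (nat_lit 47)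 (nat_lit 5) (nat_lit 50) (nat_lit 5) (nat_lit 48) (nat_lit 5) (nat_lit 483) (nat_lit 386) (nat_lit 331))) (XT.nd (nat_lit 78) (nat_lit 228) (nat_lit 0) (XT.lf (nat_lit 0) (nat_lit 12660191914) (nat_lit 152) (nat_lit 3235049791) (nat_lit 228) (nat_lit 436192818) (nat_lit 45) (nat_lit 5) (nat_lit 47) (nat_lit 5) (nat_lit 48) (nat_lit 5) (nat_lit 484) (nat_lit 386) (nat_lit 330)) (XT.lf (nat_lit 0) (nat_lit 7619913174) (nat_lit 228) (nat_lit 3447002319) (nat_lit 76) (nat_lit 5567580543) (nat_lit 42) (nat_lit 5) (nat_lit 45) (nat_lit 5) (nat_lit 43) (nat_lit 5) (nat_lit 485) (nat_lit 386) (nat_lit 329))))))) (XT.nd (nat_lit 58578) (nat_lit 0) (nat_lit 13984) (XT.nd (nat_lit 58032) (nat_lit 0) (nat_lit 23560) (XT.nd (nat_lit 57798) (nat_lit 0) (nat_lit 30400) (XT.nd (nat_lit 78) (nat_lit 380) (nat_lit 0) (XT.lf (nat_lit 0) (nat_lit 13673966578) (nat_lit 152) (nat_lit 2298412441) (nat_lit 228) (nat_lit 973002345)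 (nat_lit 40) (nat_lit 5) (nat_lit 42) (nat_lit 5) (nat_lit 43) (nat_lit 5) (nat_lit 486) (nat_lit 386) (nat_lit 328)) (XT.nd (nat_lit 78) (nat_lit 152) (nat_lit 0) (XT.lf (nat_lit 0) (nat_lit 7299289265) (nat_lit 228) (nat_lit 3215904228) (nat_lit 76) (nat_lit 6747745496) (nat_lit 37) (nat_lit 5) (nat_lit 40) (nat_lit 5) (nat_lit 38) (nat_lit 5) (nat_lit 487) (nat_lit 386) (nat_lit 327)) (XT.lf (nat_lit 0) (nat_lit 14372329230) (nat_lit 152) (nat_lit 1492106295) (nat_lit 228) (nat_lit 1724302645) (nat_lit 35) (nat_lit 5) (nat_lit 37) (nat_lit 5) (nat_lit 38) (nat_lit 5) (nat_lit 488) (nat_lit 386) (nat_lit 326)))) (XT.nd (nat_lit 78) (nat_lit 2052) (nat_lit 0) (XT.lf (nat_lit 0) (nat_lit 791943354) (nat_lit 1900) (nat_lit 1998209951) (nat_lit 0) (nat_lit 791943354) (nat_lit 462) (nat_lit 5) (nat_lit 487) (nat_lit 4) (nat_lit 462) (nat_lit 4) (nat_lit 426) (nat_lit 387) (nat_lit 387)) (XT.nd (nat_lit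 78) (nat_lit 988) (nat_lit 0) (XT.lf (nat_lit 0) (nat_lit 4071700012) (nat_lit 1064) (nat_lit 2822957132) (nat_lit 1064) (nat_lit 326852242) (nat_lit 448) (nat_lit 4) (nat_lit 462) (nat_lit 5) (nat_lit 462) (nat_lit 4) (nat_lit 427) (nat_lit 387) (nat_lit 386)) (XT.lf (nat_lit 0) (nat_lit 4925180507) (nat_lit 988) (nat_lit 2254434904) (nat_lit 0) (nat_lit 102133746) (nat_lit 435) (nat_lit 5) (nat_lit 448) (nat_lit 4) (nat_lit 435) (nat_lit 4) (nat_lit 428) (nat_lit 387) (nat_lit 385))))) (XT.nd (nat_lit 234) (nat_lit 3268) (nat_lit 0) (XT.nd (nat_lit 78) (nat_lit 2584) (nat_lit 0) (XT.lf (nat_lit 0) (nat_lit 2877016262) (nat_lit 988) (nat_lit 1318158479) (nat_lit 76) (nat_lit 3149614926) (nat_lit 422) (nat_lit 5) (nat_lit 435) (nat_lit 5) (nat_lit 423) (nat_lit 4) (nat_lit 429) (nat_lit 387) (nat_lit 384)) (XT.nd (nat_lit 78) (nat_lit 1672) (nat_lit 0) (XT.lf (nat_lit 0) (nat_lit 729162072) (nat_lit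 912) (nat_lit 322185632) (nat_lit 76) (nat_lit 6359694436) (nat_lit 410) (nat_lit 5) (nat_lit 422) (nat_lit 5) (nat_lit 411) (nat_lit 5) (nat_lit 430) (nat_lit 387) (nat_lit 383)) (XT.lf (nat_lit 0) (nat_lit 718722951) (nat_lit 836) (nat_lit 5239634530) (nat_lit 912) (nat_lit 1521608450) (nat_lit 388) (nat_lit 5) (nat_lit 399) (nat_lit 5) (nat_lit 400) (nat_lit 4) (nat_lit 431) (nat_lit 387) (nat_lit 382)))) (XT.nd (nat_lit 156) (nat_lit 1520) (nat_lit 0) (XT.nd (nat_lit 78) (nat_lit 836) (nat_lit 0) (XT.lf (nat_lit 0) (nat_lit 1811929611) (nat_lit 836) (nat_lit 1861723803) (nat_lit 912) (nat_lit 3878227413) (nat_lit 376) (nat_lit 5) (nat_lit 387) (nat_lit 5) (nat_lit 388) (nat_lit 5) (nat_lit 432) (nat_lit 387) (nat_lit 381)) (XT.lf (nat_lit 0) (nat_lit 1294954993) (nat_lit 836) (nat_lit 4672445731) (nat_lit 76) (nat_lit 1659492592) (nat_lit 365) (nat_lit 5) (nat_lit 376) (nat_lit 5) (nat_lit 366)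 (nat_lit 5) (nat_lit 433) (nat_lit 387) (nat_lit 380))) (XT.nd (nat_lit 78) (nat_lit 760) (nat_lit 0) (XT.lf (nat_lit 0) (nat_lit 4136739846) (nat_lit 760) (nat_lit 2373939834) (nat_lit 836) (nat_lit 1194176619) (nat_lit 355) (nat_lit 5) (nat_lit 365) (nat_lit 5) (nat_lit 366) (nat_lit 5) (nat_lit 434) (nat_lit 387) (nat_lit 379)) (XT.lf (nat_lit 0) (nat_lit 3983137808) (nat_lit 760) (nat_lit 2424763942) (nat_lit 76) (nat_lit 1377953980) (nat_lit 345) (nat_lit 5) (nat_lit 355) (nat_lit 5) (nat_lit 346) (nat_lit 5) (nat_lit 435) (nat_lit 387) (nat_lit 378)))))) (XT.nd (nat_lit 468) (nat_lit 4636) (nat_lit 0) (XT.nd (nat_lit 234) (nat_lit 2052) (nat_lit 0) (XT.nd (nat_lit 78) (nat_lit 2052) (nat_lit 0) (XT.lf (nat_lit 0) (nat_lit 1360845740) (nat_lit 836) (nat_lit 1240627206) (nat_lit 76) (nat_lit 5268497149) (nat_lit 334) (nat_lit 5) (nat_lit 345) (nat_lit 5) (nat_lit 335) (nat_lit 5) (nat_lit 436)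 (nat_lit 387) (nat_lit 377)) (XT.nd (nat_lit 78) (nat_lit 1368) (nat_lit 0) (XT.lf (nat_lit 0) (nat_lit 6573188975) (nat_lit 760) (nat_lit 17588755) (nat_lit 76) (nat_lit 1366428631) (nat_lit 325) (nat_lit 5) (nat_lit 335) (nat_lit 5) (nat_lit 326) (nat_lit 5) (nat_lit 437) (nat_lit 387) (nat_lit 376)) (XT.lf (nat_lit 0) (nat_lit 1251792432) (nat_lit 608) (nat_lit 2556811014) (nat_lit 684) (nat_lit 4238665017) (nat_lit 307) (nat_lit 5) (nat_lit 315) (nat_lit 5) (nat_lit 316) (nat_lit 5) (nat_lit 438) (nat_lit 387) (nat_lit 375)))) (XT.nd (nat_lit 78) (nat_lit 1292) (nat_lit 0) (XT.lf (nat_lit 0) (nat_lit 937969189) (nat_lit 760) (nat_lit 5572818854) (nat_lit 76) (nat_lit 1629888329) (nat_lit 297) (nat_lit 5) (nat_lit 307) (nat_lit 5) (nat_lit 298) (nat_lit 5) (nat_lit 439) (nat_lit 387) (nat_lit 374)) (XT.nd (nat_lit 78) (nat_lit 684) (nat_lit 0) (XT.lf (nat_lit 0) (nat_lit 3910412205) (nat_lit 608)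 (nat_lit 2264237858) (nat_lit 684) (nat_lit 2062439902) (nat_lit 289) (nat_lit 5) (nat_lit 297) (nat_lit 5) (nat_lit 298) (nat_lit 5) (nat_lit 440) (nat_lit 387) (nat_lit 373)) (XT.lf (nat_lit 0) (nat_lit 3151141925) (nat_lit 684) (nat_lit 3047272241) (nat_lit 76) (nat_lit 2138342187) (nat_lit 280) (nat_lit 5) (nat_lit 289) (nat_lit 5) (nat_lit 281) (nat_lit 5) (nat_lit 441) (nat_lit 387) (nat_lit 372))))) (XT.nd (nat_lit 234) (nat_lit 2204) (nat_lit 0) (XT.nd (nat_lit 78) (nat_lit 1748) (nat_lit 0) (XT.lf (nat_lit 0) (nat_lit 18738930) (nat_lit 684) (nat_lit 1729383177) (nat_lit 76) (nat_lit 6691710943) (nat_lit 271) (nat_lit 5) (nat_lit 280) (nat_lit 5) (nat_lit 272) (nat_lit 5) (nat_lit 442) (nat_lit 387) (nat_lit 371)) (XT.nd (nat_lit 78) (nat_lit 1140) (nat_lit 0) (XT.lf (nat_lit 0) (nat_lit 5280907998) (nat_lit 684) (nat_lit 397604824) (nat_lit 76) (nat_lit 2867370169) (nat_lit 263) (nat_lit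 5) (nat_lit 272) (nat_lit 5) (nat_lit 264) (nat_lit 5) (nat_lit 443) (nat_lit 387) (nat_lit 370)) (XT.lf (nat_lit 0) (nat_lit 988607649) (nat_lit 532) (nat_lit 1003968915) (nat_lit 608) (nat_lit 6662809384) (nat_lit 248) (nat_lit 5) (nat_lit 255) (nat_lit 5) (nat_lit 256) (nat_lit 5) (nat_lit 444) (nat_lit 387) (nat_lit 369)))) (XT.nd (nat_lit 156) (nat_lit 1064) (nat_lit 0) (XT.nd (nat_lit 78) (nat_lit 608) (nat_lit 0) (XT.lf (nat_lit 0) (nat_lit 2399748345) (nat_lit 532) (nat_lit 4949684034) (nat_lit 608) (nat_lit 1418599791) (nat_lit 241) (nat_lit 5) (nat_lit 248) (nat_lit 5) (nat_lit 249) (nat_lit 5) (nat_lit 445) (nat_lit 387) (nat_lit 368)) (XT.lf (nat_lit 0) (nat_lit 3844346671) (nat_lit 532) (nat_lit 53533420) (nat_lit 608) (nat_lit 4986324988) (nat_lit 233) (nat_lit 5) (nat_lit 240) (nat_lit 5) (nat_lit 241) (nat_lit 5) (nat_lit 446) (nat_lit 387) (nat_lit 367))) (XT.nd (nat_lit 78) (nat_lit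 532) (nat_lit 0) (XT.lf (nat_lit 0) (nat_lit 341970789) (nat_lit 532) (nat_lit 3693685504) (nat_lit 76) (nat_lit 4968068153) (nat_lit 226) (nat_lit 5) (nat_lit 233) (nat_lit 5) (nat_lit 227) (nat_lit 5) (nat_lit 447) (nat_lit 387) (nat_lit 366)) (XT.lf (nat_lit 0) (nat_lit 5735509912) (nat_lit 608) (nat_lit 2326807437) (nat_lit 76) (nat_lit 1064397569) (nat_lit 219) (nat_lit 5) (nat_lit 227) (nat_lit 5) (nat_lit 220) (nat_lit 5) (nat_lit 448) (nat_lit 387) (nat_lit 365))))))))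
noncomputable def xc20 : XT := (XT.nd (nat_lit 1950) (nat_lit 3496) (nat_lit 0) (XT.nd (nat_lit 936) (nat_lit 4332) (nat_lit 0) (XT.nd (nat_lit 468) (nat_lit 2812) (nat_lit 0) (XT.nd (nat_lit 234) (nat_lit 1368) (nat_lit 0) (XT.nd (nat_lit 78) (nat_lit 1444) (nat_lit 0) (XT.lf (nat_lit 0) (nat_lit 2005718639) (nat_lit 532) (nat_lit 939526985) (nat_lit 76) (nat_lit 6307992443) (nat_lit 212) (nat_lit 5) (nat_lit 219) (nat_lit 5) (nat_lit 213) (nat_lit 5) (nat_lit 449) (nat_lit 387) (nat_lit 364)) (XT.nd (nat_lit 78) (nat_lit 532) (nat_lit 0) (XT.lf (nat_lit 0) (nat_lit 476071682) (nat_lit 456) (nat_lit 7031413714) (nat_lit 532) (nat_lit 1875849956) (nat_lit 200) (nat_lit 5) (nat_lit 206) (nat_lit 5) (nat_lit 207) (nat_lit 5) (nat_lit 450) (nat_lit 387) (nat_lit 363)) (XT.lf (nat_lit 0) (nat_lit 1920496013) (nat_lit 456) (nat_lit 1687075955) (nat_lit 532) (nat_lit 5909324030) (nat_lit 193) (nat_lit 5)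 (nat_lit 199) (nat_lit 5) (nat_lit 200) (nat_lit 5) (nat_lit 451) (nat_lit 387) (nat_lit 362)))) (XT.nd (nat_lit 78) (nat_lit 988) (nat_lit 0) (XT.lf (nat_lit 0) (nat_lit 3386725017) (nat_lit 380) (nat_lit 5843115698) (nat_lit 456) (nat_lit 424384574) (nat_lit 188) (nat_lit 5) (nat_lit 193) (nat_lit 5) (nat_lit 194) (nat_lit 5) (nat_lit 452) (nat_lit 387) (nat_lit 361)) (XT.nd (nat_lit 78) (nat_lit 456) (nat_lit 0) (XT.lf (nat_lit 0) (nat_lit 4866440786) (nat_lit 456) (nat_lit 278381858) (nat_lit 532) (nat_lit 4650414458) (nat_lit 181) (nat_lit 5) (nat_lit 187) (nat_lit 5) (nat_lit 188) (nat_lit 5) (nat_lit 453) (nat_lit 387) (nat_lit 360)) (XT.lf (nat_lit 0) (nat_lit 937550690) (nat_lit 456) (nat_lit 3580433213) (nat_lit 76) (nat_lit 5422025761) (nat_lit 175) (nat_lit 5) (nat_lit 181) (nat_lit 5) (nat_lit 176) (nat_lit 5) (nat_lit 454) (nat_lit 387) (nat_lit 359))))) (XT.nd (nat_lit 234) (nat_lit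 1216) (nat_lit 0) (XT.nd (nat_lit 78) (nat_lit 1216) (nat_lit 0) (XT.lf (nat_lit 0) (nat_lit 6621790373) (nat_lit 456) (nat_lit 2219755663) (nat_lit 76) (nat_lit 1247133886) (nat_lit 170) (nat_lit 5) (nat_lit 176) (nat_lit 5) (nat_lit 171) (nat_lit 5) (nat_lit 455) (nat_lit 387) (nat_lit 358)) (XT.nd (nat_lit 78) (nat_lit 760) (nat_lit 0) (XT.lf (nat_lit 0) (nat_lit 2219494162) (nat_lit 456) (nat_lit 851273685) (nat_lit 76) (nat_lit 7170476487) (nat_lit 164) (nat_lit 5) (nat_lit 170) (nat_lit 5) (nat_lit 165) (nat_lit 5) (nat_lit 456) (nat_lit 387) (nat_lit 357)) (XT.lf (nat_lit 0) (nat_lit 533976399) (nat_lit 380) (nat_lit 7503901772) (nat_lit 456) (nat_lit 2359884185) (nat_lit 154) (nat_lit 5) (nat_lit 159) (nat_lit 5) (nat_lit 160) (nat_lit 5) (nat_lit 457) (nat_lit 387) (nat_lit 356)))) (XT.nd (nat_lit 78) (nat_lit 760) (nat_lit 0) (XT.lf (nat_lit 0) (nat_lit 1938618870) (nat_lit 380) (nat_lit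 1501834047) (nat_lit 456) (nat_lit 7117794149) (nat_lit 148) (nat_lit 5) (nat_lit 153) (nat_lit 5) (nat_lit 154) (nat_lit 5) (nat_lit 458) (nat_lit 387) (nat_lit 355)) (XT.nd (nat_lit 78) (nat_lit 456) (nat_lit 0) (XT.lf (nat_lit 0) (nat_lit 3347340602) (nat_lit 304) (nat_lit 6055964220) (nat_lit 380) (nat_lit 1319523004) (nat_lit 144) (nat_lit 5) (nat_lit 148) (nat_lit 5) (nat_lit 149) (nat_lit 5) (nat_lit 459) (nat_lit 387) (nat_lit 354)) (XT.lf (nat_lit 0) (nat_lit 4594777834) (nat_lit 456) (nat_lit 6127428993) (nat_lit 76) (nat_lit 169477542) (nat_lit 138) (nat_lit 5) (nat_lit 144) (nat_lit 5) (nat_lit 139) (nat_lit 5) (nat_lit 460) (nat_lit 387) (nat_lit 353)))))) (XT.nd (nat_lit 468) (nat_lit 2052) (nat_lit 0) (XT.nd (nat_lit 234) (nat_lit 1216) (nat_lit 0) (XT.nd (nat_lit 78) (nat_lit 760) (nat_lit 0) (XT.lf (nat_lit 0) (nat_lit 6180341586) (nat_lit 304) (nat_lit 4522955226) (nat_lit 380) (nat_lit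 361445477) (nat_lit 134) (nat_lit 5) (nat_lit 138) (nat_lit 5) (nat_lit 139) (nat_lit 5) (nat_lit 461) (nat_lit 387) (nat_lit 352)) (XT.nd (nat_lit 78) (nat_lit 380) (nat_lit 0) (XT.lf (nat_lit 0) (nat_lit 5685243018) (nat_lit 380) (nat_lit 3648030069) (nat_lit 76) (nat_lit 1908804099) (nat_lit 129) (nat_lit 5) (nat_lit 134) (nat_lit 5) (nat_lit 130) (nat_lit 5) (nat_lit 462) (nat_lit 387) (nat_lit 351)) (XT.lf (nat_lit 0) (nat_lit 506010306) (nat_lit 380) (nat_lit 2405705909) (nat_lit 76) (nat_lit 8512336999) (nat_lit 124) (nat_lit 5) (nat_lit 129) (nat_lit 5) (nat_lit 125) (nat_lit 5) (nat_lit 463) (nat_lit 387) (nat_lit 350)))) (XT.nd (nat_lit 78) (nat_lit 912) (nat_lit 0) (XT.lf (nat_lit 0) (nat_lit 6700332037) (nat_lit 380) (nat_lit 1183935476) (nat_lit 76) (nat_lit 3725988556) (nat_lit 120) (nat_lit 5) (nat_lit 125) (nat_lit 5) (nat_lit 121) (nat_lit 5) (nat_lit 464) (nat_lit 387) (nat_lit 349))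 (XT.nd (nat_lit 78) (nat_lit 228) (nat_lit 0) (XT.lf (nat_lit 0) (nat_lit 50021768) (nat_lit 304) (nat_lit 1233742405) (nat_lit 380) (nat_lit 10517676694) (nat_lit 111) (nat_lit 5) (nat_lit 115) (nat_lit 5) (nat_lit 116) (nat_lit 5) (nat_lit 465) (nat_lit 387) (nat_lit 348)) (XT.lf (nat_lit 0) (nat_lit 1268235904) (nat_lit 228) (nat_lit 6377373138) (nat_lit 304) (nat_lit 4351125637) (nat_lit 108) (nat_lit 5) (nat_lit 111) (nat_lit 5) (nat_lit 112) (nat_lit 5) (nat_lit 466) (nat_lit 387) (nat_lit 347))))) (XT.nd (nat_lit 234) (nat_lit 1064) (nat_lit 0) (XT.nd (nat_lit 78) (nat_lit 608) (nat_lit 0) (XT.lf (nat_lit 0) (nat_lit 1991729843) (nat_lit 380) (nat_lit 9698536840) (nat_lit 76) (nat_lit 507013423) (nat_lit 103) (nat_lit 5) (nat_lit 108) (nat_lit 5) (nat_lit 104) (nat_lit 5) (nat_lit 467) (nat_lit 387) (nat_lit 346)) (XT.nd (nat_lit 78) (nat_lit 380) (nat_lit 0) (XT.lf (nat_lit 0) (nat_lit 3692604121)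 (nat_lit 228) (nat_lit 4824116471) (nat_lit 304) (nat_lit 3885530139) (nat_lit 100) (nat_lit 5) (nat_lit 103) (nat_lit 5) (nat_lit 104) (nat_lit 5) (nat_lit 468) (nat_lit 387) (nat_lit 345)) (XT.lf (nat_lit 0) (nat_lit 2614499227) (nat_lit 380) (nat_lit 7724371004) (nat_lit 76) (nat_lit 2273666194) (nat_lit 95) (nat_lit 5) (nat_lit 100) (nat_lit 5) (nat_lit 96) (nat_lit 5) (nat_lit 469) (nat_lit 387) (nat_lit 344)))) (XT.nd (nat_lit 156) (nat_lit 532) (nat_lit 0) (XT.nd (nat_lit 78) (nat_lit 304) (nat_lit 0) (XT.lf (nat_lit 0) (nat_lit 6057484627) (nat_lit 228) (nat_lit 3243648399) (nat_lit 304) (nat_lit 3526599230) (nat_lit 92) (nat_lit 5) (nat_lit 95) (nat_lit 5) (nat_lit 96) (nat_lit 5) (nat_lit 470) (nat_lit 387) (nat_lit 343)) (XT.lf (nat_lit 0) (nat_lit 3138383183) (nat_lit 304) (nat_lit 5838348623) (nat_lit 76) (nat_lit 4071436093) (nat_lit 88) (nat_lit 5) (nat_lit 92) (nat_lit 5) (nat_lit 89)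 (nat_lit 5) (nat_lit 471) (nat_lit 387) (nat_lit 342))) (XT.nd (nat_lit 78) (nat_lit 304) (nat_lit 0) (XT.lf (nat_lit 0) (nat_lit 8345385432) (nat_lit 228) (nat_lit 1647621231) (nat_lit 304) (nat_lit 3280994499) (nat_lit 85) (nat_lit 5) (nat_lit 88) (nat_lit 5) (nat_lit 89) (nat_lit 5) (nat_lit 472) (nat_lit 387) (nat_lit 341)) (XT.lf (nat_lit 0) (nat_lit 3556549076) (nat_lit 304) (nat_lit 4059596147) (nat_lit 76) (nat_lit 5888878274) (nat_lit 81) (nat_lit 5) (nat_lit 85) (nat_lit 5) (nat_lit 82) (nat_lit 5) (nat_lit 473) (nat_lit 387) (nat_lit 340))))))) (XT.nd (nat_lit 936) (nat_lit 532) (nat_lit 0) (XT.nd (nat_lit 468) (nat_lit 1292) (nat_lit 0) (XT.nd (nat_lit 234) (nat_lit 912) (nat_lit 0) (XT.nd (nat_lit 78) (nat_lit 532) (nat_lit 0) (XT.lf (nat_lit 0) (nat_lit 10537064104) (nat_lit 228) (nat_lit 48261297) (nat_lit 304) (nat_lit 3156606344) (nat_lit 78) (nat_lit 5) (nat_lit 81) (nat_lit 5) (nat_lit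 82) (nat_lit 5) (nat_lit 474) (nat_lit 387) (nat_lit 339)) (XT.nd (nat_lit 78) (nat_lit 228) (nat_lit 0) (XT.lf (nat_lit 0) (nat_lit 3860922303) (nat_lit 304) (nat_lit 2409149828) (nat_lit 76) (nat_lit 7713934028) (nat_lit 74) (nat_lit 5) (nat_lit 78) (nat_lit 5) (nat_lit 75) (nat_lit 5) (nat_lit 475) (nat_lit 387) (nat_lit 338)) (XT.lf (nat_lit 0) (nat_lit 11079812380) (nat_lit 304) (nat_lit 1631162778) (nat_lit 76) (nat_lit 1521278352) (nat_lit 71) (nat_lit 5) (nat_lit 75) (nat_lit 5) (nat_lit 72) (nat_lit 5) (nat_lit 476) (nat_lit 387) (nat_lit 337)))) (XT.nd (nat_lit 78) (nat_lit 608) (nat_lit 0) (XT.lf (nat_lit 0) (nat_lit 4042086134) (nat_lit 304) (nat_lit 910197029) (nat_lit 76) (nat_lit 9533792789) (nat_lit 67) (nat_lit 5) (nat_lit 71) (nat_lit 5) (nat_lit 68) (nat_lit 5) (nat_lit 477) (nat_lit 387) (nat_lit 336)) (XT.nd (nat_lit 78) (nat_lit 456) (nat_lit 0) (XT.lf (nat_lit 0) (nat_lit 11456961096)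 (nat_lit 228) (nat_lit 222092788) (nat_lit 76) (nat_lit 3067097858) (nat_lit 65) (nat_lit 5) (nat_lit 68) (nat_lit 5) (nat_lit 66) (nat_lit 5) (nat_lit 478) (nat_lit 387) (nat_lit 335)) (XT.lf (nat_lit 0) (nat_lit 417130212) (nat_lit 152) (nat_lit 3674746637) (nat_lit 228) (nat_lit 10920322512) (nat_lit 59) (nat_lit 5) (nat_lit 61) (nat_lit 5) (nat_lit 62) (nat_lit 5) (nat_lit 479) (nat_lit 387) (nat_lit 334))))) (XT.nd (nat_lit 234) (nat_lit 608) (nat_lit 0) (XT.nd (nat_lit 78) (nat_lit 456) (nat_lit 0) (XT.lf (nat_lit 0) (nat_lit 1008980869) (nat_lit 228) (nat_lit 10702779815) (nat_lit 304) (nat_lit 3572793544) (nat_lit 56) (nat_lit 5) (nat_lit 59) (nat_lit 5) (nat_lit 60) (nat_lit 5) (nat_lit 480) (nat_lit 387) (nat_lit 333)) (XT.nd (nat_lit 78) (nat_lit 228) (nat_lit 0) (XT.lf (nat_lit 0) (nat_lit 1548419382) (nat_lit 152) (nat_lit 2451348979) (nat_lit 228) (nat_lit 11563654488) (nat_lit 53) (nat_lit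 5) (nat_lit 55) (nat_lit 5) (nat_lit 56) (nat_lit 5) (nat_lit 481) (nat_lit 387) (nat_lit 332)) (XT.lf (nat_lit 0) (nat_lit 2019069621) (nat_lit 228) (nat_lit 9805715498) (nat_lit 304) (nat_lit 4023925642) (nat_lit 50) (nat_lit 5) (nat_lit 53) (nat_lit 5) (nat_lit 54) (nat_lit 5) (nat_lit 482) (nat_lit 387) (nat_lit 331)))) (XT.nd (nat_lit 78) (nat_lit 380) (nat_lit 0) (XT.lf (nat_lit 0) (nat_lit 2439826274) (nat_lit 152) (nat_lit 1305560156) (nat_lit 228) (nat_lit 12395637434) (nat_lit 47) (nat_lit 5) (nat_lit 49) (nat_lit 5) (nat_lit 50) (nat_lit 5) (nat_lit 483) (nat_lit 387) (nat_lit 330)) (XT.nd (nat_lit 78) (nat_lit 228) (nat_lit 0) (XT.lf (nat_lit 0) (nat_lit 2771817722) (nat_lit 152) (nat_lit 9007872189) (nat_lit 228) (nat_lit 4660154634) (nat_lit 45) (nat_lit 5) (nat_lit 47) (nat_lit 5) (nat_lit 48) (nat_lit 5) (nat_lit 484) (nat_lit 387) (nat_lit 329)) (XT.lf (nat_lit 0) (nat_lit 3056184274)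 (nat_lit 152) (nat_lit 256253426) (nat_lit 228) (nat_lit 13433795920) (nat_lit 42) (nat_lit 5) (nat_lit 44) (nat_lit 5) (nat_lit 45) (nat_lit 5) (nat_lit 485) (nat_lit 387) (nat_lit 328)))))) (XT.nd (nat_lit 57876) (nat_lit 0) (nat_lit 25080) (XT.nd (nat_lit 57642) (nat_lit 0) (nat_lit 32452) (XT.nd (nat_lit 78) (nat_lit 380) (nat_lit 0) (XT.lf (nat_lit 0) (nat_lit 3230210646) (nat_lit 152) (nat_lit 8329405243) (nat_lit 228) (nat_lit 5499609621) (nat_lit 40) (nat_lit 5) (nat_lit 42) (nat_lit 5) (nat_lit 43) (nat_lit 5) (nat_lit 486) (nat_lit 387) (nat_lit 327)) (XT.nd (nat_lit 78) (nat_lit 152) (nat_lit 0) (XT.lf (nat_lit 0) (nat_lit 2686929683) (nat_lit 228) (nat_lit 14026232526) (nat_lit 76) (nat_lit 667111881) (nat_lit 37) (nat_lit 5) (nat_lit 40) (nat_lit 5) (nat_lit 38) (nat_lit 5) (nat_lit 487) (nat_lit 387) (nat_lit 326)) (XT.lf (nat_lit 0) (nat_lit 3353214427) (nat_lit 152) (nat_lit 7792323465)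 (nat_lit 228) (nat_lit 6562666887) (nat_lit 35) (nat_lit 5) (nat_lit 37) (nat_lit 5) (nat_lit 38) (nat_lit 5) (nat_lit 488) (nat_lit 387) (nat_lit 325)))) (XT.nd (nat_lit 78) (nat_lit 3648) (nat_lit 0) (XT.lf (nat_lit 0) (nat_lit 402398276) (nat_lit 1748) (nat_lit 2723710996) (nat_lit 0) (nat_lit 402398276) (nat_lit 510) (nat_lit 5) (nat_lit 533) (nat_lit 4) (nat_lit 510) (nat_lit 4) (nat_lit 424) (nat_lit 388) (nat_lit 388)) (XT.nd (nat_lit 78) (nat_lit 1900) (nat_lit 0) (XT.lf (nat_lit 0) (nat_lit 2317735942) (nat_lit 1748) (nat_lit 3707241684) (nat_lit 1748) (nat_lit 1084833886) (nat_lit 487) (nat_lit 4) (nat_lit 510) (nat_lit 5) (nat_lit 510) (nat_lit 4) (nat_lit 425) (nat_lit 388) (nat_lit 387)) (XT.lf (nat_lit 0) (nat_lit 3082927199) (nat_lit 1824) (nat_lit 1001905466) (nat_lit 1900) (nat_lit 3080770562) (nat_lit 462) (nat_lit 5) (nat_lit 486) (nat_lit 5) (nat_lit 487) (nat_lit 4) (nat_lit 426)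 (nat_lit 388) (nat_lit 386))))) (XT.nd (nat_lit 234) (nat_lit 4332) (nat_lit 0) (XT.nd (nat_lit 78) (nat_lit 1900) (nat_lit 0) (XT.lf (nat_lit 0) (nat_lit 2061781184) (nat_lit 1140) (nat_lit 3325697740) (nat_lit 76) (nat_lit 1836815022) (nat_lit 447) (nat_lit 5) (nat_lit 462) (nat_lit 5) (nat_lit 448) (nat_lit 4) (nat_lit 427) (nat_lit 388) (nat_lit 385)) (XT.nd (nat_lit 78) (nat_lit 988) (nat_lit 0) (XT.lf (nat_lit 0) (nat_lit 4769445740) (nat_lit 912) (nat_lit 2464593730) (nat_lit 988) (nat_lit 51969936) (nat_lit 435) (nat_lit 5) (nat_lit 447) (nat_lit 5) (nat_lit 448) (nat_lit 4) (nat_lit 428) (nat_lit 388) (nat_lit 384)) (XT.lf (nat_lit 0) (nat_lit 5061130038) (nat_lit 988) (nat_lit 1666324736) (nat_lit 76) (nat_lit 623109053) (nat_lit 422) (nat_lit 5) (nat_lit 435) (nat_lit 5) (nat_lit 423) (nat_lit 4) (nat_lit 429) (nat_lit 388) (nat_lit 383)))) (XT.nd (nat_lit 156) (nat_lit 1672) (nat_lit 0)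 (XT.nd (nat_lit 78) (nat_lit 1748) (nat_lit 0) (XT.lf (nat_lit 0) (nat_lit 2805233083) (nat_lit 912) (nat_lit 773905952) (nat_lit 76) (nat_lit 3838875979) (nat_lit 410) (nat_lit 5) (nat_lit 422) (nat_lit 5) (nat_lit 411) (nat_lit 5) (nat_lit 430) (nat_lit 388) (nat_lit 382)) (XT.lf (nat_lit 0) (nat_lit 179558539) (nat_lit 836) (nat_lit 269133710) (nat_lit 912) (nat_lit 7040015030) (nat_lit 387) (nat_lit 5) (nat_lit 398) (nat_lit 5) (nat_lit 399) (nat_lit 5) (nat_lit 431) (nat_lit 388) (nat_lit 381))) (XT.nd (nat_lit 78) (nat_lit 836) (nat_lit 0) (XT.lf (nat_lit 0) (nat_lit 1168767614) (nat_lit 836) (nat_lit 4380507832) (nat_lit 912) (nat_lit 2012650608) (nat_lit 376) (nat_lit 5) (nat_lit 387) (nat_lit 5) (nat_lit 388) (nat_lit 5) (nat_lit 432) (nat_lit 388) (nat_lit 380)) (XT.lf (nat_lit 0) (nat_lit 2212061731) (nat_lit 760) (nat_lit 840442186) (nat_lit 836) (nat_lit 4585870263) (nat_lit 365) (nat_lit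 5) (nat_lit 375) (nat_lit 5) (nat_lit 376) (nat_lit 5) (nat_lit 433) (nat_lit 388) (nat_lit 379))))))))
noncomputable def xc21 : XT := (XT.nd (nat_lit 1950) (nat_lit 8056) (nat_lit 0) (XT.nd (nat_lit 936) (nat_lit 6688) (nat_lit 0) (XT.nd (nat_lit 468) (nat_lit 4256) (nat_lit 0) (XT.nd (nat_lit 234) (nat_lit 2812) (nat_lit 0) (XT.nd (nat_lit 78) (nat_lit 1520) (nat_lit 0) (XT.lf (nat_lit 0) (nat_lit 466892379) (nat_lit 836) (nat_lit 4421928033) (nat_lit 76) (nat_lit 2829006660) (nat_lit 354) (nat_lit 5) (nat_lit 365) (nat_lit 5) (nat_lit 355) (nat_lit 5) (nat_lit 434) (nat_lit 388) (nat_lit 378)) (XT.nd (nat_lit 78) (nat_lit 836) (nat_lit 0) (XT.lf (nat_lit 0) (nat_lit 4418373257) (nat_lit 684) (nat_lit 1129574265) (nat_lit 760) (nat_lit 2252342033) (nat_lit 345) (nat_lit 5) (nat_lit 354) (nat_lit 5) (nat_lit 355) (nat_lit 5) (nat_lit 435) (nat_lit 388) (nat_lit 377)) (XT.lf (nat_lit 0) (nat_lit 2812242045)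 (nat_lit 836) (nat_lit 2307507259) (nat_lit 76) (nat_lit 2766032091) (nat_lit 334) (nat_lit 5) (nat_lit 345) (nat_lit 5) (nat_lit 335) (nat_lit 5) (nat_lit 436) (nat_lit 388) (nat_lit 376)))) (XT.nd (nat_lit 78) (nat_lit 2128) (nat_lit 0) (XT.lf (nat_lit 0) (nat_lit 6789265247) (nat_lit 684) (nat_lit 1155720994) (nat_lit 760) (nat_lit 29629105) (nat_lit 325) (nat_lit 5) (nat_lit 334) (nat_lit 5) (nat_lit 335) (nat_lit 5) (nat_lit 437) (nat_lit 388) (nat_lit 375)) (XT.nd (nat_lit 78) (nat_lit 1368) (nat_lit 0) (XT.lf (nat_lit 0) (nat_lit 5059104923) (nat_lit 760) (nat_lit 45898725) (nat_lit 76) (nat_lit 2961225830) (nat_lit 315) (nat_lit 5) (nat_lit 325) (nat_lit 5) (nat_lit 316) (nat_lit 5) (nat_lit 438) (nat_lit 388) (nat_lit 374)) (XT.lf (nat_lit 0) (nat_lit 1156140320) (nat_lit 684) (nat_lit 915104699) (nat_lit 760) (nat_lit 6089879871) (nat_lit 297) (nat_lit 5) (nat_lit 306) (nat_lit 5) (nat_lit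 307) (nat_lit 5) (nat_lit 439) (nat_lit 388) (nat_lit 373))))) (XT.nd (nat_lit 234) (nat_lit 2280) (nat_lit 0) (XT.nd (nat_lit 78) (nat_lit 1368) (nat_lit 0) (XT.lf (nat_lit 0) (nat_lit 2385627157) (nat_lit 608) (nat_lit 4845797091) (nat_lit 684) (nat_lit 1027649284) (nat_lit 289) (nat_lit 5) (nat_lit 297) (nat_lit 5) (nat_lit 298) (nat_lit 5) (nat_lit 440) (nat_lit 388) (nat_lit 372)) (XT.nd (nat_lit 78) (nat_lit 684) (nat_lit 0) (XT.lf (nat_lit 0) (nat_lit 3650575805) (nat_lit 608) (nat_lit 437189768) (nat_lit 684) (nat_lit 4272536661) (nat_lit 280) (nat_lit 5) (nat_lit 288) (nat_lit 5) (nat_lit 289) (nat_lit 5) (nat_lit 441) (nat_lit 388) (nat_lit 371)) (XT.lf (nat_lit 0) (nat_lit 846415243) (nat_lit 684) (nat_lit 3520421662) (nat_lit 76) (nat_lit 4097896530) (nat_lit 271) (nat_lit 5) (nat_lit 280) (nat_lit 5) (nat_lit 272) (nat_lit 5) (nat_lit 442) (nat_lit 388) (nat_lit 370)))) (XT.nd (nat_lit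 78) (nat_lit 1672) (nat_lit 0) (XT.lf (nat_lit 0) (nat_lit 6021238464) (nat_lit 684) (nat_lit 2299958025) (nat_lit 76) (nat_lit 251338214) (nat_lit 263) (nat_lit 5) (nat_lit 272) (nat_lit 5) (nat_lit 264) (nat_lit 5) (nat_lit 443) (nat_lit 388) (nat_lit 369)) (XT.nd (nat_lit 78) (nat_lit 1064) (nat_lit 0) (XT.lf (nat_lit 0) (nat_lit 2620208238) (nat_lit 608) (nat_lit 1062384089) (nat_lit 76) (nat_lit 5000890600) (nat_lit 255) (nat_lit 5) (nat_lit 263) (nat_lit 5) (nat_lit 256) (nat_lit 5) (nat_lit 444) (nat_lit 388) (nat_lit 368)) (XT.lf (nat_lit 0) (nat_lit 216551422) (nat_lit 532) (nat_lit 7665278914) (nat_lit 608) (nat_lit 916207566) (nat_lit 241) (nat_lit 5) (nat_lit 248) (nat_lit 5) (nat_lit 249) (nat_lit 5) (nat_lit 445) (nat_lit 388) (nat_lit 367)))))) (XT.nd (nat_lit 468) (nat_lit 3496) (nat_lit 0) (XT.nd (nat_lit 234) (nat_lit 1520) (nat_lit 0) (XT.nd (nat_lit 78) (nat_lit 1064) (nat_lit 0)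 (XT.lf (nat_lit 0) (nat_lit 1519263610) (nat_lit 532) (nat_lit 2803467587) (nat_lit 608) (nat_lit 4592837301) (nat_lit 233) (nat_lit 5) (nat_lit 240) (nat_lit 5) (nat_lit 241) (nat_lit 5) (nat_lit 446) (nat_lit 388) (nat_lit 366)) (XT.nd (nat_lit 78) (nat_lit 532) (nat_lit 0) (XT.lf (nat_lit 0) (nat_lit 641083414) (nat_lit 532) (nat_lit 6177309671) (nat_lit 76) (nat_lit 2218431666) (nat_lit 226) (nat_lit 5) (nat_lit 233) (nat_lit 5) (nat_lit 227) (nat_lit 5) (nat_lit 447) (nat_lit 388) (nat_lit 365)) (XT.lf (nat_lit 0) (nat_lit 4212120628) (nat_lit 532) (nat_lit 1744520806) (nat_lit 608) (nat_lit 3204736998) (nat_lit 219) (nat_lit 5) (nat_lit 226) (nat_lit 5) (nat_lit 227) (nat_lit 5) (nat_lit 448) (nat_lit 388) (nat_lit 364)))) (XT.nd (nat_lit 78) (nat_lit 988) (nat_lit 0) (XT.lf (nat_lit 0) (nat_lit 2106985474) (nat_lit 532) (nat_lit 3700285040) (nat_lit 76) (nat_lit 3482265379) (nat_lit 212) (nat_lit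 5) (nat_lit 219) (nat_lit 5) (nat_lit 213) (nat_lit 5) (nat_lit 449) (nat_lit 388) (nat_lit 363)) (XT.nd (nat_lit 78) (nat_lit 532) (nat_lit 0) (XT.lf (nat_lit 0) (nat_lit 6994138066) (nat_lit 456) (nat_lit 524917745) (nat_lit 532) (nat_lit 1902374610) (nat_lit 206) (nat_lit 5) (nat_lit 212) (nat_lit 5) (nat_lit 213) (nat_lit 5) (nat_lit 450) (nat_lit 388) (nat_lit 362)) (XT.lf (nat_lit 0) (nat_lit 3496994553) (nat_lit 532) (nat_lit 1152777664) (nat_lit 76) (nat_lit 4906913463) (nat_lit 199) (nat_lit 5) (nat_lit 206) (nat_lit 5) (nat_lit 200) (nat_lit 5) (nat_lit 451) (nat_lit 388) (nat_lit 361))))) (XT.nd (nat_lit 234) (nat_lit 1672) (nat_lit 0) (XT.nd (nat_lit 78) (nat_lit 988) (nat_lit 0) (XT.lf (nat_lit 0) (nat_lit 157784312) (nat_lit 380) (nat_lit 8862064290) (nat_lit 456) (nat_lit 676157724) (nat_lit 188) (nat_lit 5) (nat_lit 193) (nat_lit 5) (nat_lit 194) (nat_lit 5) (nat_lit 452) (nat_lit 388)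 (nat_lit 360)) (XT.nd (nat_lit 78) (nat_lit 456) (nat_lit 0) (XT.lf (nat_lit 0) (nat_lit 1476120663) (nat_lit 456) (nat_lit 3347308950) (nat_lit 532) (nat_lit 5015082575) (nat_lit 181) (nat_lit 5) (nat_lit 187) (nat_lit 5) (nat_lit 188) (nat_lit 5) (nat_lit 453) (nat_lit 388) (nat_lit 359)) (XT.lf (nat_lit 0) (nat_lit 484077046) (nat_lit 456) (nat_lit 7158995323) (nat_lit 76) (nat_lit 2342134273) (nat_lit 175) (nat_lit 5) (nat_lit 181) (nat_lit 5) (nat_lit 176) (nat_lit 5) (nat_lit 454) (nat_lit 388) (nat_lit 358)))) (XT.nd (nat_lit 156) (nat_lit 836) (nat_lit 0) (XT.nd (nat_lit 78) (nat_lit 456) (nat_lit 0) (XT.lf (nat_lit 0) (nat_lit 4174388040) (nat_lit 380) (nat_lit 1912241693) (nat_lit 456) (nat_lit 4048883601) (nat_lit 170) (nat_lit 5) (nat_lit 175) (nat_lit 5) (nat_lit 176) (nat_lit 5) (nat_lit 455) (nat_lit 388) (nat_lit 357)) (XT.lf (nat_lit 0) (nat_lit 1558462738) (nat_lit 456) (nat_lit 4750346515)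 (nat_lit 76) (nat_lit 3981080038) (nat_lit 164) (nat_lit 5) (nat_lit 170) (nat_lit 5) (nat_lit 165) (nat_lit 5) (nat_lit 456) (nat_lit 388) (nat_lit 356))) (XT.nd (nat_lit 78) (nat_lit 456) (nat_lit 0) (XT.lf (nat_lit 0) (nat_lit 6917547055) (nat_lit 380) (nat_lit 362636893) (nat_lit 456) (nat_lit 3168159110) (nat_lit 159) (nat_lit 5) (nat_lit 164) (nat_lit 5) (nat_lit 165) (nat_lit 5) (nat_lit 457) (nat_lit 388) (nat_lit 355)) (XT.lf (nat_lit 0) (nat_lit 2556360267) (nat_lit 456) (nat_lit 2317750483) (nat_lit 76) (nat_lit 5736552712) (nat_lit 153) (nat_lit 5) (nat_lit 159) (nat_lit 5) (nat_lit 154) (nat_lit 5) (nat_lit 458) (nat_lit 388) (nat_lit 354))))))) (XT.nd (nat_lit 1014) (nat_lit 3116) (nat_lit 0) (XT.nd (nat_lit 468) (nat_lit 2432) (nat_lit 0) (XT.nd (nat_lit 234) (nat_lit 1064) (nat_lit 0) (XT.nd (nat_lit 78) (nat_lit 1064) (nat_lit 0) (XT.lf (nat_lit 0) (nat_lit 8412877015) (nat_lit 456)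 (nat_lit 1089951465) (nat_lit 76) (nat_lit 1274544747) (nat_lit 148) (nat_lit 5) (nat_lit 154) (nat_lit 5) (nat_lit 149) (nat_lit 5) (nat_lit 459) (nat_lit 388) (nat_lit 353)) (XT.nd (nat_lit 78) (nat_lit 304) (nat_lit 0) (XT.lf (nat_lit 0) (nat_lit 130072321) (nat_lit 380) (nat_lit 3348238180) (nat_lit 456) (nat_lit 7469761134) (nat_lit 138) (nat_lit 5) (nat_lit 143) (nat_lit 5) (nat_lit 144) (nat_lit 5) (nat_lit 460) (nat_lit 388) (nat_lit 352)) (XT.lf (nat_lit 0) (nat_lit 1374056947) (nat_lit 304) (nat_lit 8113761034) (nat_lit 380) (nat_lit 1635293930) (nat_lit 134) (nat_lit 5) (nat_lit 138) (nat_lit 5) (nat_lit 139) (nat_lit 5) (nat_lit 461) (nat_lit 388) (nat_lit 351)))) (XT.nd (nat_lit 78) (nat_lit 684) (nat_lit 0) (XT.lf (nat_lit 0) (nat_lit 2611135442) (nat_lit 304) (nat_lit 1726470538) (nat_lit 380) (nat_lit 6964818174) (nat_lit 129) (nat_lit 5) (nat_lit 133) (nat_lit 5) (nat_lit 134) (nat_lit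 5) (nat_lit 462) (nat_lit 388) (nat_lit 350)) (XT.nd (nat_lit 78) (nat_lit 380) (nat_lit 0) (XT.lf (nat_lit 0) (nat_lit 3848512701) (nat_lit 304) (nat_lit 6651077847) (nat_lit 380) (nat_lit 986670720) (nat_lit 125) (nat_lit 5) (nat_lit 129) (nat_lit 5) (nat_lit 130) (nat_lit 5) (nat_lit 463) (nat_lit 388) (nat_lit 349)) (XT.lf (nat_lit 0) (nat_lit 5082541083) (nat_lit 304) (nat_lit 34393911) (nat_lit 380) (nat_lit 6557732249) (nat_lit 120) (nat_lit 5) (nat_lit 124) (nat_lit 5) (nat_lit 125) (nat_lit 5) (nat_lit 464) (nat_lit 388) (nat_lit 348))))) (XT.nd (nat_lit 234) (nat_lit 1444) (nat_lit 0) (XT.nd (nat_lit 78) (nat_lit 684) (nat_lit 0) (XT.lf (nat_lit 0) (nat_lit 6306386796) (nat_lit 304) (nat_lit 5132408010) (nat_lit 380) (nat_lit 428832820) (nat_lit 116) (nat_lit 5) (nat_lit 120) (nat_lit 5) (nat_lit 121) (nat_lit 5) (nat_lit 465) (nat_lit 388) (nat_lit 347)) (XT.nd (nat_lit 78) (nat_lit 304)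 (nat_lit 0) (XT.lf (nat_lit 0) (nat_lit 5824481828) (nat_lit 380) (nat_lit 4545427395) (nat_lit 76) (nat_lit 1695352718) (nat_lit 111) (nat_lit 5) (nat_lit 116) (nat_lit 5) (nat_lit 112) (nat_lit 5) (nat_lit 466) (nat_lit 388) (nat_lit 346)) (XT.lf (nat_lit 0) (nat_lit 33917855) (nat_lit 304) (nat_lit 3534068518) (nat_lit 76) (nat_lit 8699926831) (nat_lit 107) (nat_lit 5) (nat_lit 111) (nat_lit 5) (nat_lit 108) (nat_lit 5) (nat_lit 467) (nat_lit 388) (nat_lit 345)))) (XT.nd (nat_lit 156) (nat_lit 836) (nat_lit 0) (XT.nd (nat_lit 78) (nat_lit 304) (nat_lit 0) (XT.lf (nat_lit 0) (nat_lit 6445713586) (nat_lit 380) (nat_lit 2555534476) (nat_lit 76) (nat_lit 3473901265) (nat_lit 103) (nat_lit 5) (nat_lit 108) (nat_lit 5) (nat_lit 104) (nat_lit 5) (nat_lit 468) (nat_lit 388) (nat_lit 344)) (XT.lf (nat_lit 0) (nat_lit 392845196) (nat_lit 304) (nat_lit 1573734885) (nat_lit 76) (nat_lit 10721252175) (nat_lit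 99) (nat_lit 5) (nat_lit 103) (nat_lit 5) (nat_lit 100) (nat_lit 5) (nat_lit 469) (nat_lit 388) (nat_lit 343))) (XT.nd (nat_lit 78) (nat_lit 532) (nat_lit 0) (XT.lf (nat_lit 0) (nat_lit 6975394185) (nat_lit 380) (nat_lit 638465114) (nat_lit 76) (nat_lit 5291251960) (nat_lit 95) (nat_lit 5) (nat_lit 100) (nat_lit 5) (nat_lit 96) (nat_lit 5) (nat_lit 470) (nat_lit 388) (nat_lit 342)) (XT.lf (nat_lit 0) (nat_lit 309598240) (nat_lit 228) (nat_lit 340112348) (nat_lit 304) (nat_lit 12478491213) (nat_lit 88) (nat_lit 5) (nat_lit 91) (nat_lit 5) (nat_lit 92) (nat_lit 5) (nat_lit 471) (nat_lit 388) (nat_lit 341)))))) (XT.nd (nat_lit 468) (nat_lit 1520) (nat_lit 0) (XT.nd (nat_lit 234) (nat_lit 836) (nat_lit 0) (XT.nd (nat_lit 78) (nat_lit 532) (nat_lit 0) (XT.lf (nat_lit 0) (nat_lit 1203778250) (nat_lit 228) (nat_lit 6211458458) (nat_lit 304) (nat_lit 5940581667) (nat_lit 85) (nat_lit 5) (nat_lit 88) (nat_lit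 5) (nat_lit 89) (nat_lit 5) (nat_lit 472) (nat_lit 388) (nat_lit 340)) (XT.nd (nat_lit 78) (nat_lit 228) (nat_lit 0) (XT.lf (nat_lit 0) (nat_lit 813673270) (nat_lit 304) (nat_lit 11485405803) (nat_lit 76) (nat_lit 1290471683) (nat_lit 81) (nat_lit 5) (nat_lit 85) (nat_lit 5) (nat_lit 82) (nat_lit 5) (nat_lit 473) (nat_lit 388) (nat_lit 339)) (XT.lf (nat_lit 0) (nat_lit 2942882507) (nat_lit 228) (nat_lit 4810745191) (nat_lit 304) (nat_lit 6074609004) (nat_lit 78) (nat_lit 5) (nat_lit 81) (nat_lit 5) (nat_lit 82) (nat_lit 5) (nat_lit 474) (nat_lit 388) (nat_lit 338)))) (XT.nd (nat_lit 78) (nat_lit 532) (nat_lit 0) (XT.lf (nat_lit 0) (nat_lit 859701916) (nat_lit 304) (nat_lit 10298502991) (nat_lit 76) (nat_lit 2914916079) (nat_lit 74) (nat_lit 5) (nat_lit 78) (nat_lit 5) (nat_lit 75) (nat_lit 5) (nat_lit 475) (nat_lit 388) (nat_lit 337)) (XT.nd (nat_lit 78) (nat_lit 304) (nat_lit 0) (XT.lf (nat_lit 0)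 (nat_lit 4548548437) (nat_lit 228) (nat_lit 3429140301) (nat_lit 304) (nat_lit 6345698829) (nat_lit 71) (nat_lit 5) (nat_lit 74) (nat_lit 5) (nat_lit 75) (nat_lit 5) (nat_lit 476) (nat_lit 388) (nat_lit 336)) (XT.lf (nat_lit 0) (nat_lit 775773217) (nat_lit 304) (nat_lit 9279487949) (nat_lit 76) (nat_lit 4524663314) (nat_lit 67) (nat_lit 5) (nat_lit 71) (nat_lit 5) (nat_lit 68) (nat_lit 5) (nat_lit 477) (nat_lit 388) (nat_lit 335))))) (XT.nd (nat_lit 234) (nat_lit 912) (nat_lit 0) (XT.nd (nat_lit 78) (nat_lit 456) (nat_lit 0) (XT.lf (nat_lit 0) (nat_lit 5996702696) (nat_lit 152) (nat_lit 2080657175) (nat_lit 228) (nat_lit 6764907240) (nat_lit 65) (nat_lit 5) (nat_lit 67) (nat_lit 5) (nat_lit 68) (nat_lit 5) (nat_lit 478) (nat_lit 388) (nat_lit 334)) (XT.nd (nat_lit 78) (nat_lit 152) (nat_lit 0) (XT.lf (nat_lit 0) (nat_lit 550608594) (nat_lit 304) (nat_lit 8454607609) (nat_lit 76) (nat_lit 6105773612)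 (nat_lit 61) (nat_lit 5) (nat_lit 65) (nat_lit 5) (nat_lit 62) (nat_lit 5) (nat_lit 479) (nat_lit 388) (nat_lit 333)) (XT.lf (nat_lit 0) (nat_lit 7260738210) (nat_lit 152) (nat_lit 780341522) (nat_lit 228) (nat_lit 7344854197) (nat_lit 59) (nat_lit 5) (nat_lit 61) (nat_lit 5) (nat_lit 62) (nat_lit 5) (nat_lit 480) (nat_lit 388) (nat_lit 332)))) (XT.nd (nat_lit 156) (nat_lit 456) (nat_lit 0) (XT.nd (nat_lit 78) (nat_lit 152) (nat_lit 0) (XT.lf (nat_lit 0) (nat_lit 171337778) (nat_lit 304) (nat_lit 7852845412) (nat_lit 76) (nat_lit 7643226946) (nat_lit 55) (nat_lit 5) (nat_lit 59) (nat_lit 5) (nat_lit 56) (nat_lit 5) (nat_lit 481) (nat_lit 388) (nat_lit 331)) (XT.lf (nat_lit 0) (nat_lit 7858609227) (nat_lit 228) (nat_lit 7647258203) (nat_lit 76) (nat_lit 449586443) (nat_lit 53) (nat_lit 5) (nat_lit 56) (nat_lit 5) (nat_lit 54) (nat_lit 5) (nat_lit 482) (nat_lit 388) (nat_lit 330))) (XT.nd (nat_lit 78)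 (nat_lit 228) (nat_lit 0) (XT.lf (nat_lit 0) (nat_lit 8741579376) (nat_lit 228) (nat_lit 7127068134) (nat_lit 304) (nat_lit 381650252) (nat_lit 50) (nat_lit 5) (nat_lit 53) (nat_lit 5) (nat_lit 54) (nat_lit 5) (nat_lit 483) (nat_lit 388) (nat_lit 329)) (XT.lf (nat_lit 0) (nat_lit 7516541791) (nat_lit 228) (nat_lit 7447132597) (nat_lit 76) (nat_lit 1588316801) (nat_lit 47) (nat_lit 5) (nat_lit 50) (nat_lit 5) (nat_lit 48) (nat_lit 5) (nat_lit 484) (nat_lit 388) (nat_lit 328))))))))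
noncomputable def xc22 : XT := (XT.nd (nat_lit 59202) (nat_lit 0) (nat_lit 5396) (XT.nd (nat_lit 58188) (nat_lit 0) (nat_lit 17784) (XT.nd (nat_lit 57720) (nat_lit 0) (nat_lit 29260) (XT.nd (nat_lit 234) (nat_lit 228) (nat_lit 0) (XT.nd (nat_lit 78) (nat_lit 380) (nat_lit 0) (XT.lf (nat_lit 0) (nat_lit 9403350620) (nat_lit 152) (nat_lit 6332949925) (nat_lit 228) (nat_lit 1124589970) (nat_lit 45) (nat_lit 5) (nat_lit 47) (nat_lit 5) (nat_lit 48) (nat_lit 5) (nat_lit 485) (nat_lit 388) (nat_lit 327)) (XT.nd (nat_lit 78) (nat_lit 152) (nat_lit 0) (XT.lf (nat_lit 0) (nat_lit 6992750210) (nat_lit 228) (nat_lit 7557038854) (nat_lit 76) (nat_lit 2627131902) (nat_lit 42) (nat_lit 5) (nat_lit 45) (nat_lit 5) (nat_lit 43) (nat_lit 5) (nat_lit 486) (nat_lit 388) (nat_lit 326)) (XT.lf (nat_lit 0) (nat_lit 9762979108) (nat_lit 152) (nat_lit 5663515083) (nat_lit 228) (nat_lit 2074027767) (nat_lit 40) (nat_lit 5)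 (nat_lit 42) (nat_lit 5) (nat_lit 43) (nat_lit 5) (nat_lit 487) (nat_lit 388) (nat_lit 325)))) (XT.nd (nat_lit 57330) (nat_lit 0) (nat_lit 37696) (XT.lf (nat_lit 0) (nat_lit 6268021707) (nat_lit 228) (nat_lit 8018264382) (nat_lit 76) (nat_lit 3545311803) (nat_lit 37) (nat_lit 5) (nat_lit 40) (nat_lit 5) (nat_lit 38) (nat_lit 5) (nat_lit 488) (nat_lit 388) (nat_lit 324)) (XT.nd (nat_lit 78) (nat_lit 1596) (nat_lit 0) (XT.lf (nat_lit 0) (nat_lit 107953509) (nat_lit 1596) (nat_lit 3263388554) (nat_lit 0) (nat_lit 107953509) (nat_lit 554) (nat_lit 5) (nat_lit 575) (nat_lit 4) (nat_lit 554) (nat_lit 4) (nat_lit 422) (nat_lit 389) (nat_lit 389)) (XT.lf (nat_lit 0) (nat_lit 946097149) (nat_lit 1596) (nat_lit 4407971856) (nat_lit 1596) (nat_lit 1652870224) (nat_lit 533) (nat_lit 4) (nat_lit 554) (nat_lit 5) (nat_lit 554) (nat_lit 4) (nat_lit 423) (nat_lit 389) (nat_lit 388))))) (XT.nd (nat_lit 234) (nat_lit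 3040) (nat_lit 0) (XT.nd (nat_lit 78) (nat_lit 3648) (nat_lit 0) (XT.lf (nat_lit 0) (nat_lit 1520999283) (nat_lit 1672) (nat_lit 1920068473) (nat_lit 1748) (nat_lit 3617253043) (nat_lit 510) (nat_lit 5) (nat_lit 532) (nat_lit 5) (nat_lit 533) (nat_lit 4) (nat_lit 424) (nat_lit 389) (nat_lit 387)) (XT.nd (nat_lit 78) (nat_lit 1824) (nat_lit 0) (XT.lf (nat_lit 0) (nat_lit 1440711343) (nat_lit 1824) (nat_lit 4959277903) (nat_lit 76) (nat_lit 712717547) (nat_lit 486) (nat_lit 5) (nat_lit 510) (nat_lit 5) (nat_lit 487) (nat_lit 4) (nat_lit 425) (nat_lit 389) (nat_lit 386)) (XT.lf (nat_lit 0) (nat_lit 2830421840) (nat_lit 1824) (nat_lit 3690274952) (nat_lit 1900) (nat_lit 649178718) (nat_lit 462) (nat_lit 5) (nat_lit 486) (nat_lit 5) (nat_lit 487) (nat_lit 4) (nat_lit 426) (nat_lit 389) (nat_lit 385)))) (XT.nd (nat_lit 78) (nat_lit 1900) (nat_lit 0) (XT.lf (nat_lit 0) (nat_lit 3559036459) (nat_lit 1064)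 (nat_lit 815447941) (nat_lit 1140) (nat_lit 2855514415) (nat_lit 447) (nat_lit 5) (nat_lit 461) (nat_lit 5) (nat_lit 462) (nat_lit 5) (nat_lit 427) (nat_lit 389) (nat_lit 384)) (XT.nd (nat_lit 78) (nat_lit 912) (nat_lit 0) (XT.lf (nat_lit 0) (nat_lit 2145891129) (nat_lit 988) (nat_lit 2958363894) (nat_lit 76) (nat_lit 2188765649) (nat_lit 434) (nat_lit 5) (nat_lit 447) (nat_lit 5) (nat_lit 435) (nat_lit 5) (nat_lit 428) (nat_lit 389) (nat_lit 383)) (XT.lf (nat_lit 0) (nat_lit 5164788843) (nat_lit 912) (nat_lit 2016136812) (nat_lit 988) (nat_lit 178198110) (nat_lit 422) (nat_lit 5) (nat_lit 434) (nat_lit 5) (nat_lit 435) (nat_lit 5) (nat_lit 429) (nat_lit 389) (nat_lit 382)))))) (XT.nd (nat_lit 468) (nat_lit 5624) (nat_lit 0) (XT.nd (nat_lit 234) (nat_lit 2356) (nat_lit 0) (XT.nd (nat_lit 78) (nat_lit 2584) (nat_lit 0) (XT.lf (nat_lit 0) (nat_lit 4802878546) (nat_lit 912) (nat_lit 1394835693) (nat_lit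 76) (nat_lit 1230311952) (nat_lit 410) (nat_lit 5) (nat_lit 422) (nat_lit 5) (nat_lit 411) (nat_lit 5) (nat_lit 430) (nat_lit 389) (nat_lit 381)) (XT.nd (nat_lit 78) (nat_lit 1672) (nat_lit 0) (XT.lf (nat_lit 0) (nat_lit 2336739413) (nat_lit 912) (nat_lit 551297445) (nat_lit 76) (nat_lit 4611900891) (nat_lit 398) (nat_lit 5) (nat_lit 410) (nat_lit 5) (nat_lit 399) (nat_lit 5) (nat_lit 431) (nat_lit 389) (nat_lit 380)) (XT.lf (nat_lit 0) (nat_lit 349163349) (nat_lit 836) (nat_lit 6995387805) (nat_lit 912) (nat_lit 230467611) (nat_lit 376) (nat_lit 5) (nat_lit 387) (nat_lit 5) (nat_lit 388) (nat_lit 5) (nat_lit 432) (nat_lit 389) (nat_lit 379)))) (XT.nd (nat_lit 78) (nat_lit 1520) (nat_lit 0) (XT.lf (nat_lit 0) (nat_lit 1279524842) (nat_lit 760) (nat_lit 3459956661) (nat_lit 836) (nat_lit 2913197084) (nat_lit 365) (nat_lit 5) (nat_lit 375) (nat_lit 5) (nat_lit 376) (nat_lit 5) (nat_lit 433) (nat_lit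 389) (nat_lit 378)) (XT.nd (nat_lit 78) (nat_lit 684) (nat_lit 0) (XT.lf (nat_lit 0) (nat_lit 2028998884) (nat_lit 836) (nat_lit 5467507733) (nat_lit 76) (nat_lit 237186417) (nat_lit 354) (nat_lit 5) (nat_lit 365) (nat_lit 5) (nat_lit 355) (nat_lit 5) (nat_lit 434) (nat_lit 389) (nat_lit 377)) (XT.lf (nat_lit 0) (nat_lit 3282247269) (nat_lit 684) (nat_lit 3756982539) (nat_lit 760) (nat_lit 778348183) (nat_lit 345) (nat_lit 5) (nat_lit 354) (nat_lit 5) (nat_lit 355) (nat_lit 5) (nat_lit 435) (nat_lit 389) (nat_lit 376))))) (XT.nd (nat_lit 234) (nat_lit 3344) (nat_lit 0) (XT.nd (nat_lit 78) (nat_lit 1444) (nat_lit 0) (XT.lf (nat_lit 0) (nat_lit 4179125824) (nat_lit 836) (nat_lit 3563585597) (nat_lit 76) (nat_lit 161928279) (nat_lit 334) (nat_lit 5) (nat_lit 345) (nat_lit 5) (nat_lit 335) (nat_lit 5) (nat_lit 436) (nat_lit 389) (nat_lit 375)) (XT.nd (nat_lit 78) (nat_lit 684) (nat_lit 0) (XT.lf (nat_lit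 0) (nat_lit 1230634355) (nat_lit 760) (nat_lit 2562659359) (nat_lit 76) (nat_lit 4201423586) (nat_lit 324) (nat_lit 5) (nat_lit 334) (nat_lit 5) (nat_lit 325) (nat_lit 5) (nat_lit 437) (nat_lit 389) (nat_lit 374)) (XT.lf (nat_lit 0) (nat_lit 6231802536) (nat_lit 760) (nat_lit 1521687576) (nat_lit 76) (nat_lit 334586289) (nat_lit 315) (nat_lit 5) (nat_lit 325) (nat_lit 5) (nat_lit 316) (nat_lit 5) (nat_lit 438) (nat_lit 389) (nat_lit 373)))) (XT.nd (nat_lit 156) (nat_lit 1368) (nat_lit 0) (XT.nd (nat_lit 78) (nat_lit 1292) (nat_lit 0) (XT.lf (nat_lit 0) (nat_lit 3129674633) (nat_lit 684) (nat_lit 460313717) (nat_lit 76) (nat_lit 4594385584) (nat_lit 306) (nat_lit 5) (nat_lit 315) (nat_lit 5) (nat_lit 307) (nat_lit 5) (nat_lit 439) (nat_lit 389) (nat_lit 372)) (XT.lf (nat_lit 0) (nat_lit 658203150) (nat_lit 608) (nat_lit 7541126116) (nat_lit 684) (nat_lit 84808673) (nat_lit 289) (nat_lit 5) (nat_lit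 297) (nat_lit 5) (nat_lit 298) (nat_lit 5) (nat_lit 440) (nat_lit 389) (nat_lit 371))) (XT.nd (nat_lit 78) (nat_lit 684) (nat_lit 0) (XT.lf (nat_lit 0) (nat_lit 1791773949) (nat_lit 608) (nat_lit 3156346272) (nat_lit 684) (nat_lit 3438531033) (nat_lit 280) (nat_lit 5) (nat_lit 288) (nat_lit 5) (nat_lit 289) (nat_lit 5) (nat_lit 441) (nat_lit 389) (nat_lit 370)) (XT.lf (nat_lit 0) (nat_lit 1581500894) (nat_lit 684) (nat_lit 5522288039) (nat_lit 76) (nat_lit 1388949273) (nat_lit 271) (nat_lit 5) (nat_lit 280) (nat_lit 5) (nat_lit 272) (nat_lit 5) (nat_lit 442) (nat_lit 389) (nat_lit 369))))))) (XT.nd (nat_lit 936) (nat_lit 5548) (nat_lit 0) (XT.nd (nat_lit 468) (nat_lit 2888) (nat_lit 0) (XT.nd (nat_lit 234) (nat_lit 2204) (nat_lit 0) (XT.nd (nat_lit 78) (nat_lit 1140) (nat_lit 0) (XT.lf (nat_lit 0) (nat_lit 4169661128) (nat_lit 608) (nat_lit 2515186881) (nat_lit 684) (nat_lit 1917125272) (nat_lit 263)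 (nat_lit 5) (nat_lit 271) (nat_lit 5) (nat_lit 272) (nat_lit 5) (nat_lit 443) (nat_lit 389) (nat_lit 368)) (XT.nd (nat_lit 78) (nat_lit 532) (nat_lit 0) (XT.lf (nat_lit 0) (nat_lit 3159619845) (nat_lit 608) (nat_lit 3317129023) (nat_lit 76) (nat_lit 2237823208) (nat_lit 255) (nat_lit 5) (nat_lit 263) (nat_lit 5) (nat_lit 256) (nat_lit 5) (nat_lit 444) (nat_lit 389) (nat_lit 367)) (XT.lf (nat_lit 0) (nat_lit 6659263890) (nat_lit 532) (nat_lit 1683446078) (nat_lit 608) (nat_lit 487991681) (nat_lit 248) (nat_lit 5) (nat_lit 255) (nat_lit 5) (nat_lit 256) (nat_lit 5) (nat_lit 445) (nat_lit 389) (nat_lit 366)))) (XT.nd (nat_lit 78) (nat_lit 1596) (nat_lit 0) (XT.lf (nat_lit 0) (nat_lit 4655927162) (nat_lit 608) (nat_lit 1018062503) (nat_lit 76) (nat_lit 3275978818) (nat_lit 240) (nat_lit 5) (nat_lit 248) (nat_lit 5) (nat_lit 241) (nat_lit 5) (nat_lit 446) (nat_lit 389) (nat_lit 365)) (XT.nd (nat_lit 78)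 (nat_lit 532) (nat_lit 0) (XT.lf (nat_lit 0) (nat_lit 176398876) (nat_lit 456) (nat_lit 667217681) (nat_lit 532) (nat_lit 8229419847) (nat_lit 226) (nat_lit 5) (nat_lit 232) (nat_lit 5) (nat_lit 233) (nat_lit 5) (nat_lit 447) (nat_lit 389) (nat_lit 364)) (XT.lf (nat_lit 0) (nat_lit 1385025191) (nat_lit 532) (nat_lit 4698908121) (nat_lit 608) (nat_lit 3115165080) (nat_lit 219) (nat_lit 5) (nat_lit 226) (nat_lit 5) (nat_lit 227) (nat_lit 5) (nat_lit 448) (nat_lit 389) (nat_lit 363))))) (XT.nd (nat_lit 234) (nat_lit 1368) (nat_lit 0) (XT.nd (nat_lit 78) (nat_lit 988) (nat_lit 0) (XT.lf (nat_lit 0) (nat_lit 2104741323) (nat_lit 532) (nat_lit 6698930833) (nat_lit 76) (nat_lit 525388207) (nat_lit 212) (nat_lit 5) (nat_lit 219) (nat_lit 5) (nat_lit 213) (nat_lit 5) (nat_lit 449) (nat_lit 389) (nat_lit 362)) (XT.nd (nat_lit 78) (nat_lit 532) (nat_lit 0) (XT.lf (nat_lit 0) (nat_lit 3880494434) (nat_lit 456)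 (nat_lit 3565142950) (nat_lit 532) (nat_lit 2016744210) (nat_lit 206) (nat_lit 5) (nat_lit 212) (nat_lit 5) (nat_lit 213) (nat_lit 5) (nat_lit 450) (nat_lit 389) (nat_lit 361)) (XT.lf (nat_lit 0) (nat_lit 3292573440) (nat_lit 532) (nat_lit 4445514485) (nat_lit 76) (nat_lit 1861397871) (nat_lit 199) (nat_lit 5) (nat_lit 206) (nat_lit 5) (nat_lit 200) (nat_lit 5) (nat_lit 451) (nat_lit 389) (nat_lit 360)))) (XT.nd (nat_lit 78) (nat_lit 912) (nat_lit 0) (XT.lf (nat_lit 0) (nat_lit 6446587934) (nat_lit 456) (nat_lit 2290752747) (nat_lit 532) (nat_lit 1003030473) (nat_lit 193) (nat_lit 5) (nat_lit 199) (nat_lit 5) (nat_lit 200) (nat_lit 5) (nat_lit 452) (nat_lit 389) (nat_lit 359)) (XT.nd (nat_lit 78) (nat_lit 456) (nat_lit 0) (XT.lf (nat_lit 0) (nat_lit 4405146768) (nat_lit 456) (nat_lit 2140770881) (nat_lit 76) (nat_lit 3338918583) (nat_lit 187) (nat_lit 5) (nat_lit 193) (nat_lit 5) (nat_lit 188) (nat_lit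 5) (nat_lit 453) (nat_lit 389) (nat_lit 358)) (XT.lf (nat_lit 0) (nat_lit 9074896425) (nat_lit 456) (nat_lit 886416167) (nat_lit 532) (nat_lit 72208238) (nat_lit 181) (nat_lit 5) (nat_lit 187) (nat_lit 5) (nat_lit 188) (nat_lit 5) (nat_lit 454) (nat_lit 389) (nat_lit 357)))))) (XT.nd (nat_lit 468) (nat_lit 2660) (nat_lit 0) (XT.nd (nat_lit 234) (nat_lit 1216) (nat_lit 0) (XT.nd (nat_lit 78) (nat_lit 836) (nat_lit 0) (XT.lf (nat_lit 0) (nat_lit 209060568) (nat_lit 380) (nat_lit 5236381223) (nat_lit 456) (nat_lit 4740114717) (nat_lit 170) (nat_lit 5) (nat_lit 175) (nat_lit 5) (nat_lit 176) (nat_lit 5) (nat_lit 455) (nat_lit 389) (nat_lit 356)) (XT.nd (nat_lit 78) (nat_lit 380) (nat_lit 0) (XT.lf (nat_lit 0) (nat_lit 780086452) (nat_lit 456) (nat_lit 8918176225) (nat_lit 76) (nat_lit 643686251) (nat_lit 164) (nat_lit 5) (nat_lit 170) (nat_lit 5) (nat_lit 165) (nat_lit 5) (nat_lit 456) (nat_lit 389) (nat_lit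 355)) (XT.lf (nat_lit 0) (nat_lit 2620771362) (nat_lit 380) (nat_lit 3806501488) (nat_lit 456) (nat_lit 4074622959) (nat_lit 159) (nat_lit 5) (nat_lit 164) (nat_lit 5) (nat_lit 165) (nat_lit 5) (nat_lit 457) (nat_lit 389) (nat_lit 354)))) (XT.nd (nat_lit 78) (nat_lit 760) (nat_lit 0) (XT.lf (nat_lit 0) (nat_lit 1563921323) (nat_lit 456) (nat_lit 6825330561) (nat_lit 76) (nat_lit 2277041608) (nat_lit 153) (nat_lit 5) (nat_lit 159) (nat_lit 5) (nat_lit 154) (nat_lit 5) (nat_lit 458) (nat_lit 389) (nat_lit 353)) (XT.nd (nat_lit 78) (nat_lit 380) (nat_lit 0) (XT.lf (nat_lit 0) (nat_lit 5055939997) (nat_lit 380) (nat_lit 2280653179) (nat_lit 456) (nat_lit 3498089212) (nat_lit 148) (nat_lit 5) (nat_lit 153) (nat_lit 5) (nat_lit 154) (nat_lit 5) (nat_lit 459) (nat_lit 389) (nat_lit 352)) (XT.lf (nat_lit 0) (nat_lit 2267473041) (nat_lit 380) (nat_lit 4731002652) (nat_lit 76) (nat_lit 4008896665) (nat_lit 143)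 (nat_lit 5) (nat_lit 148) (nat_lit 5) (nat_lit 144) (nat_lit 5) (nat_lit 460) (nat_lit 389) (nat_lit 351))))) (XT.nd (nat_lit 234) (nat_lit 1596) (nat_lit 0) (XT.nd (nat_lit 78) (nat_lit 684) (nat_lit 0) (XT.lf (nat_lit 0) (nat_lit 7503980610) (nat_lit 380) (nat_lit 668663953) (nat_lit 456) (nat_lit 3011856854) (nat_lit 138) (nat_lit 5) (nat_lit 143) (nat_lit 5) (nat_lit 144) (nat_lit 5) (nat_lit 461) (nat_lit 389) (nat_lit 350)) (XT.nd (nat_lit 78) (nat_lit 304) (nat_lit 0) (XT.lf (nat_lit 0) (nat_lit 2889251398) (nat_lit 380) (nat_lit 2646701833) (nat_lit 76) (nat_lit 5829838055) (nat_lit 133) (nat_lit 5) (nat_lit 138) (nat_lit 5) (nat_lit 134) (nat_lit 5) (nat_lit 462) (nat_lit 389) (nat_lit 349)) (XT.lf (nat_lit 0) (nat_lit 8940463381) (nat_lit 380) (nat_lit 1605035353) (nat_lit 76) (nat_lit 1006347026) (nat_lit 129) (nat_lit 5) (nat_lit 134) (nat_lit 5) (nat_lit 130) (nat_lit 5) (nat_lit 463)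 (nat_lit 389) (nat_lit 348)))) (XT.nd (nat_lit 156) (nat_lit 608) (nat_lit 0) (XT.nd (nat_lit 78) (nat_lit 608) (nat_lit 0) (XT.lf (nat_lit 0) (nat_lit 3426907393) (nat_lit 380) (nat_lit 584787837) (nat_lit 76) (nat_lit 7730501781) (nat_lit 124) (nat_lit 5) (nat_lit 129) (nat_lit 5) (nat_lit 125) (nat_lit 5) (nat_lit 464) (nat_lit 389) (nat_lit 347)) (XT.lf (nat_lit 0) (nat_lit 442484038) (nat_lit 304) (nat_lit 9196143221) (nat_lit 380) (nat_lit 2298734697) (nat_lit 116) (nat_lit 5) (nat_lit 120) (nat_lit 5) (nat_lit 121) (nat_lit 5) (nat_lit 465) (nat_lit 389) (nat_lit 346))) (XT.nd (nat_lit 78) (nat_lit 228) (nat_lit 0) (XT.lf (nat_lit 0) (nat_lit 1460538527) (nat_lit 304) (nat_lit 2426134536) (nat_lit 380) (nat_lit 8250416318) (nat_lit 111) (nat_lit 5) (nat_lit 115) (nat_lit 5) (nat_lit 116) (nat_lit 5) (nat_lit 466) (nat_lit 389) (nat_lit 345)) (XT.lf (nat_lit 0) (nat_lit 2467437189) (nat_lit 228)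 (nat_lit 7799336057) (nat_lit 304) (nat_lit 2074927576) (nat_lit 108) (nat_lit 5) (nat_lit 111) (nat_lit 5) (nat_lit 112) (nat_lit 5) (nat_lit 467) (nat_lit 389) (nat_lit 344))))))))
noncomputable def xc23 : XT := (XT.nd (nat_lit 59046) (nat_lit 0) (nat_lit 13604) (XT.nd (nat_lit 936) (nat_lit 1976) (nat_lit 0) (XT.nd (nat_lit 468) (nat_lit 1520) (nat_lit 0) (XT.nd (nat_lit 234) (nat_lit 760) (nat_lit 0) (XT.nd (nat_lit 78) (nat_lit 608) (nat_lit 0) (XT.lf (nat_lit 0) (nat_lit 3462715698) (nat_lit 304) (nat_lit 795662910) (nat_lit 380) (nat_lit 8292943375) (nat_lit 103) (nat_lit 5) (nat_lit 107) (nat_lit 5) (nat_lit 108) (nat_lit 5) (nat_lit 468) (nat_lit 389) (nat_lit 343)) (XT.nd (nat_lit 78) (nat_lit 380) (nat_lit 0) (XT.lf (nat_lit 0) (nat_lit 4433160021) (nat_lit 228) (nat_lit 6376692950) (nat_lit 304) (nat_lit 1955980375) (nat_lit 100) (nat_lit 5) (nat_lit 103) (nat_lit 5) (nat_lit 104) (nat_lit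 5) (nat_lit 469) (nat_lit 389) (nat_lit 342)) (XT.lf (nat_lit 0) (nat_lit 4538472548) (nat_lit 380) (nat_lit 7593444995) (nat_lit 76) (nat_lit 853725211) (nat_lit 95) (nat_lit 5) (nat_lit 100) (nat_lit 5) (nat_lit 96) (nat_lit 5) (nat_lit 470) (nat_lit 389) (nat_lit 341)))) (XT.nd (nat_lit 78) (nat_lit 532) (nat_lit 0) (XT.lf (nat_lit 0) (nat_lit 6322881378) (nat_lit 228) (nat_lit 4939456231) (nat_lit 304) (nat_lit 1948230026) (nat_lit 92) (nat_lit 5) (nat_lit 95) (nat_lit 5) (nat_lit 96) (nat_lit 5) (nat_lit 471) (nat_lit 389) (nat_lit 340)) (XT.nd (nat_lit 78) (nat_lit 228) (nat_lit 0) (XT.lf (nat_lit 0) (nat_lit 4720215097) (nat_lit 304) (nat_lit 6209149746) (nat_lit 76) (nat_lit 2511526322) (nat_lit 88) (nat_lit 5) (nat_lit 92) (nat_lit 5) (nat_lit 89) (nat_lit 5) (nat_lit 472) (nat_lit 389) (nat_lit 339)) (XT.lf (nat_lit 0) (nat_lit 8118196405) (nat_lit 228) (nat_lit 3499386672) (nat_lit 304)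 (nat_lit 2059179611) (nat_lit 85) (nat_lit 5) (nat_lit 88) (nat_lit 5) (nat_lit 89) (nat_lit 5) (nat_lit 473) (nat_lit 389) (nat_lit 338))))) (XT.nd (nat_lit 234) (nat_lit 684) (nat_lit 0) (XT.nd (nat_lit 78) (nat_lit 532) (nat_lit 0) (XT.lf (nat_lit 0) (nat_lit 4790777648) (nat_lit 304) (nat_lit 4950676613) (nat_lit 76) (nat_lit 4176603061) (nat_lit 81) (nat_lit 5) (nat_lit 85) (nat_lit 5) (nat_lit 82) (nat_lit 5) (nat_lit 474) (nat_lit 389) (nat_lit 337)) (XT.nd (nat_lit 78) (nat_lit 304) (nat_lit 0) (XT.lf (nat_lit 0) (nat_lit 9798852017) (nat_lit 228) (nat_lit 2068891964) (nat_lit 304) (nat_lit 2297587271) (nat_lit 78) (nat_lit 5) (nat_lit 81) (nat_lit 5) (nat_lit 82) (nat_lit 5) (nat_lit 475) (nat_lit 389) (nat_lit 336)) (XT.lf (nat_lit 0) (nat_lit 4741227511) (nat_lit 304) (nat_lit 3840159314) (nat_lit 76) (nat_lit 5836696594) (nat_lit 74) (nat_lit 5) (nat_lit 78) (nat_lit 5) (nat_lit 75) (nat_lit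 5) (nat_lit 476) (nat_lit 389) (nat_lit 335)))) (XT.nd (nat_lit 78) (nat_lit 456) (nat_lit 0) (XT.lf (nat_lit 0) (nat_lit 11342512275) (nat_lit 228) (nat_lit 661163668) (nat_lit 304) (nat_lit 2673567006) (nat_lit 71) (nat_lit 5) (nat_lit 74) (nat_lit 5) (nat_lit 75) (nat_lit 5) (nat_lit 477) (nat_lit 389) (nat_lit 334)) (XT.nd (nat_lit 78) (nat_lit 152) (nat_lit 0) (XT.lf (nat_lit 0) (nat_lit 4561256688) (nat_lit 304) (nat_lit 2901991226) (nat_lit 76) (nat_lit 7478722429) (nat_lit 67) (nat_lit 5) (nat_lit 71) (nat_lit 5) (nat_lit 68) (nat_lit 5) (nat_lit 478) (nat_lit 389) (nat_lit 333)) (XT.lf (nat_lit 0) (nat_lit 12019432984) (nat_lit 228) (nat_lit 2493634020) (nat_lit 76) (nat_lit 700368545) (nat_lit 65) (nat_lit 5) (nat_lit 68) (nat_lit 5) (nat_lit 66) (nat_lit 5) (nat_lit 479) (nat_lit 389) (nat_lit 332)))))) (XT.nd (nat_lit 468) (nat_lit 608) (nat_lit 0) (XT.nd (nat_lit 234) (nat_lit 608) (nat_lit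 0) (XT.nd (nat_lit 78) (nat_lit 456) (nat_lit 0) (XT.lf (nat_lit 0) (nat_lit 4239063341) (nat_lit 304) (nat_lit 2163097232) (nat_lit 76) (nat_lit 9088620711) (nat_lit 61) (nat_lit 5) (nat_lit 65) (nat_lit 5) (nat_lit 62) (nat_lit 5) (nat_lit 480) (nat_lit 389) (nat_lit 331)) (XT.nd (nat_lit 78) (nat_lit 304) (nat_lit 0) (XT.lf (nat_lit 0) (nat_lit 11902274842) (nat_lit 228) (nat_lit 1870927618) (nat_lit 76) (nat_lit 2001813636) (nat_lit 59) (nat_lit 5) (nat_lit 62) (nat_lit 5) (nat_lit 60) (nat_lit 5) (nat_lit 481) (nat_lit 389) (nat_lit 330)) (XT.lf (nat_lit 0) (nat_lit 3761218757) (nat_lit 304) (nat_lit 1653232081) (nat_lit 76) (nat_lit 10651194839) (nat_lit 55) (nat_lit 5) (nat_lit 59) (nat_lit 5) (nat_lit 56) (nat_lit 5) (nat_lit 482) (nat_lit 389) (nat_lit 329)))) (XT.nd (nat_lit 78) (nat_lit 456) (nat_lit 0) (XT.lf (nat_lit 0) (nat_lit 11634042377) (nat_lit 228) (nat_lit 1493602982) (nat_lit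 76) (nat_lit 3235589366) (nat_lit 53) (nat_lit 5) (nat_lit 56) (nat_lit 5) (nat_lit 54) (nat_lit 5) (nat_lit 483) (nat_lit 389) (nat_lit 328)) (XT.nd (nat_lit 78) (nat_lit 152) (nat_lit 0) (XT.lf (nat_lit 0) (nat_lit 3112518465) (nat_lit 304) (nat_lit 1405308208) (nat_lit 76) (nat_lit 12149936846) (nat_lit 49) (nat_lit 5) (nat_lit 53) (nat_lit 5) (nat_lit 50) (nat_lit 5) (nat_lit 484) (nat_lit 389) (nat_lit 327)) (XT.lf (nat_lit 0) (nat_lit 11199031754) (nat_lit 228) (nat_lit 1396279384) (nat_lit 76) (nat_lit 4384017419) (nat_lit 47) (nat_lit 5) (nat_lit 50) (nat_lit 5) (nat_lit 48) (nat_lit 5) (nat_lit 485) (nat_lit 389) (nat_lit 326))))) (XT.nd (nat_lit 57330) (nat_lit 0) (nat_lit 37468) (XT.nd (nat_lit 78) (nat_lit 380) (nat_lit 0) (XT.lf (nat_lit 0) (nat_lit 2275816002) (nat_lit 228) (nat_lit 1455756210) (nat_lit 76) (nat_lit 13566837872) (nat_lit 44) (nat_lit 5) (nat_lit 47) (nat_lit 5) (nat_lit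 45) (nat_lit 5) (nat_lit 486) (nat_lit 389) (nat_lit 325)) (XT.nd (nat_lit 78) (nat_lit 228) (nat_lit 0) (XT.lf (nat_lit 0) (nat_lit 10579526833) (nat_lit 228) (nat_lit 1617289191) (nat_lit 76) (nat_lit 5427796456) (nat_lit 42) (nat_lit 5) (nat_lit 45) (nat_lit 5) (nat_lit 43) (nat_lit 5) (nat_lit 487) (nat_lit 389) (nat_lit 324)) (XT.lf (nat_lit 0) (nat_lit 1231837652) (nat_lit 228) (nat_lit 1844921546) (nat_lit 76) (nat_lit 14882181877) (nat_lit 39) (nat_lit 5) (nat_lit 42) (nat_lit 5) (nat_lit 40) (nat_lit 5) (nat_lit 488) (nat_lit 389) (nat_lit 323)))) (XT.nd (nat_lit 156) (nat_lit 4712) (nat_lit 0) (XT.nd (nat_lit 78) (nat_lit 1444) (nat_lit 0) (XT.lf (nat_lit 0) (nat_lit 3252366842) (nat_lit 1292) (nat_lit 91003179) (nat_lit 1292) (nat_lit 91003179) (nat_lit 613) (nat_lit 4) (nat_lit 630) (nat_lit 5) (nat_lit 630) (nat_lit 4) (nat_lit 420) (nat_lit 390) (nat_lit 390)) (XT.lf (nat_lit 0) (nat_lit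 4881756443) (nat_lit 1444) (nat_lit 43795322) (nat_lit 0) (nat_lit 1987246668) (nat_lit 594) (nat_lit 5) (nat_lit 613) (nat_lit 4) (nat_lit 594) (nat_lit 4) (nat_lit 421) (nat_lit 390) (nat_lit 389))) (XT.nd (nat_lit 78) (nat_lit 1672) (nat_lit 0) (XT.lf (nat_lit 0) (nat_lit 340760778) (nat_lit 1520) (nat_lit 2652048240) (nat_lit 1596) (nat_lit 3967009189) (nat_lit 554) (nat_lit 5) (nat_lit 574) (nat_lit 5) (nat_lit 575) (nat_lit 4) (nat_lit 422) (nat_lit 390) (nat_lit 388)) (XT.lf (nat_lit 0) (nat_lit 787890062) (nat_lit 1596) (nat_lit 227041198) (nat_lit 1672) (nat_lit 5994961712) (nat_lit 532) (nat_lit 5) (nat_lit 553) (nat_lit 5) (nat_lit 554) (nat_lit 5) (nat_lit 423) (nat_lit 390) (nat_lit 387))))))) (XT.nd (nat_lit 1014) (nat_lit 8816) (nat_lit 0) (XT.nd (nat_lit 468) (nat_lit 6612) (nat_lit 0) (XT.nd (nat_lit 234) (nat_lit 3040) (nat_lit 0) (XT.nd (nat_lit 78) (nat_lit 3724) (nat_lit 0) (XT.lf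 (nat_lit 0) (nat_lit 1274657264) (nat_lit 1672) (nat_lit 4734905636) (nat_lit 1748) (nat_lit 1053058833) (nat_lit 510) (nat_lit 5) (nat_lit 532) (nat_lit 5) (nat_lit 533) (nat_lit 4) (nat_lit 424) (nat_lit 390) (nat_lit 386)) (XT.nd (nat_lit 78) (nat_lit 1900) (nat_lit 0) (XT.lf (nat_lit 0) (nat_lit 1813907561) (nat_lit 1748) (nat_lit 2077104507) (nat_lit 1824) (nat_lit 3227276766) (nat_lit 486) (nat_lit 5) (nat_lit 509) (nat_lit 5) (nat_lit 510) (nat_lit 5) (nat_lit 425) (nat_lit 390) (nat_lit 385)) (XT.lf (nat_lit 0) (nat_lit 1683590864) (nat_lit 1900) (nat_lit 4767633141) (nat_lit 76) (nat_lit 725776772) (nat_lit 461) (nat_lit 5) (nat_lit 486) (nat_lit 5) (nat_lit 462) (nat_lit 5) (nat_lit 426) (nat_lit 390) (nat_lit 384)))) (XT.nd (nat_lit 78) (nat_lit 1976) (nat_lit 0) (XT.lf (nat_lit 0) (nat_lit 3047402253) (nat_lit 1064) (nat_lit 3577502290) (nat_lit 1140) (nat_lit 613620084) (nat_lit 447) (nat_lit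 5) (nat_lit 461) (nat_lit 5) (nat_lit 462) (nat_lit 5) (nat_lit 427) (nat_lit 390) (nat_lit 383)) (XT.nd (nat_lit 78) (nat_lit 988) (nat_lit 0) (XT.lf (nat_lit 0) (nat_lit 3734279155) (nat_lit 912) (nat_lit 536323076) (nat_lit 988) (nat_lit 3032416487) (nat_lit 434) (nat_lit 5) (nat_lit 446) (nat_lit 5) (nat_lit 447) (nat_lit 5) (nat_lit 428) (nat_lit 390) (nat_lit 382)) (XT.lf (nat_lit 0) (nat_lit 1834807032) (nat_lit 988) (nat_lit 2906302141) (nat_lit 76) (nat_lit 2629294750) (nat_lit 421) (nat_lit 5) (nat_lit 434) (nat_lit 5) (nat_lit 422) (nat_lit 5) (nat_lit 429) (nat_lit 390) (nat_lit 381))))) (XT.nd (nat_lit 234) (nat_lit 3952) (nat_lit 0) (XT.nd (nat_lit 78) (nat_lit 1824) (nat_lit 0) (XT.lf (nat_lit 0) (nat_lit 5245714091) (nat_lit 836) (nat_lit 1487789602) (nat_lit 912) (nat_lit 707387529) (nat_lit 410) (nat_lit 5) (nat_lit 421) (nat_lit 5) (nat_lit 422) (nat_lit 5) (nat_lit 430) (nat_lit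 390) (nat_lit 380)) (XT.nd (nat_lit 78) (nat_lit 912) (nat_lit 0) (XT.lf (nat_lit 0) (nat_lit 4148134359) (nat_lit 912) (nat_lit 1452126985) (nat_lit 76) (nat_lit 1913923489) (nat_lit 398) (nat_lit 5) (nat_lit 410) (nat_lit 5) (nat_lit 399) (nat_lit 5) (nat_lit 431) (nat_lit 390) (nat_lit 379)) (XT.lf (nat_lit 0) (nat_lit 1468828778) (nat_lit 912) (nat_lit 662672425) (nat_lit 76) (nat_lit 5459113774) (nat_lit 386) (nat_lit 5) (nat_lit 398) (nat_lit 5) (nat_lit 387) (nat_lit 5) (nat_lit 432) (nat_lit 390) (nat_lit 378)))) (XT.nd (nat_lit 156) (nat_lit 1520) (nat_lit 0) (XT.nd (nat_lit 78) (nat_lit 836) (nat_lit 0) (XT.lf (nat_lit 0) (nat_lit 167158149) (nat_lit 760) (nat_lit 6179285945) (nat_lit 836) (nat_lit 1323593297) (nat_lit 365) (nat_lit 5) (nat_lit 375) (nat_lit 5) (nat_lit 376) (nat_lit 5) (nat_lit 433) (nat_lit 390) (nat_lit 377)) (XT.lf (nat_lit 0) (nat_lit 1038135929) (nat_lit 760) (nat_lit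 2487182189) (nat_lit 836) (nat_lit 4226982028) (nat_lit 354) (nat_lit 5) (nat_lit 364) (nat_lit 5) (nat_lit 365) (nat_lit 5) (nat_lit 434) (nat_lit 390) (nat_lit 376))) (XT.nd (nat_lit 78) (nat_lit 760) (nat_lit 0) (XT.lf (nat_lit 0) (nat_lit 603287412) (nat_lit 760) (nat_lit 5880918564) (nat_lit 76) (nat_lit 1353632100) (nat_lit 344) (nat_lit 5) (nat_lit 354) (nat_lit 5) (nat_lit 345) (nat_lit 5) (nat_lit 435) (nat_lit 390) (nat_lit 375)) (XT.lf (nat_lit 0) (nat_lit 2899516120) (nat_lit 760) (nat_lit 2579925910) (nat_lit 836) (nat_lit 2446784444) (nat_lit 334) (nat_lit 5) (nat_lit 344) (nat_lit 5) (nat_lit 345) (nat_lit 5) (nat_lit 436) (nat_lit 390) (nat_lit 374)))))) (XT.nd (nat_lit 468) (nat_lit 4028) (nat_lit 0) (XT.nd (nat_lit 234) (nat_lit 2660) (nat_lit 0) (XT.nd (nat_lit 78) (nat_lit 1368) (nat_lit 0) (XT.lf (nat_lit 0) (nat_lit 2405810524) (nat_lit 760) (nat_lit 4133262138) (nat_lit 76) (nat_lit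 1478806285) (nat_lit 324) (nat_lit 5) (nat_lit 334) (nat_lit 5) (nat_lit 325) (nat_lit 5) (nat_lit 437) (nat_lit 390) (nat_lit 373)) (XT.nd (nat_lit 78) (nat_lit 684) (nat_lit 0) (XT.lf (nat_lit 0) (nat_lit 4903605260) (nat_lit 684) (nat_lit 2431776953) (nat_lit 760) (nat_lit 777292881) (nat_lit 315) (nat_lit 5) (nat_lit 324) (nat_lit 5) (nat_lit 325) (nat_lit 5) (nat_lit 438) (nat_lit 390) (nat_lit 372)) (XT.lf (nat_lit 0) (nat_lit 4109242525) (nat_lit 684) (nat_lit 2260298765) (nat_lit 76) (nat_lit 1841001339) (nat_lit 306) (nat_lit 5) (nat_lit 315) (nat_lit 5) (nat_lit 307) (nat_lit 5) (nat_lit 439) (nat_lit 390) (nat_lit 371)))) (XT.nd (nat_lit 78) (nat_lit 1900) (nat_lit 0) (XT.lf (nat_lit 0) (nat_lit 778626977) (nat_lit 760) (nat_lit 1275159763) (nat_lit 76) (nat_lit 6257983177) (nat_lit 296) (nat_lit 5) (nat_lit 306) (nat_lit 5) (nat_lit 297) (nat_lit 5) (nat_lit 440) (nat_lit 390) (nat_lit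 370)) (XT.nd (nat_lit 78) (nat_lit 1292) (nat_lit 0) (XT.lf (nat_lit 0) (nat_lit 5720669862) (nat_lit 684) (nat_lit 270600114) (nat_lit 76) (nat_lit 2424802219) (nat_lit 288) (nat_lit 5) (nat_lit 297) (nat_lit 5) (nat_lit 289) (nat_lit 5) (nat_lit 441) (nat_lit 390) (nat_lit 369)) (XT.lf (nat_lit 0) (nat_lit 777493955) (nat_lit 608) (nat_lit 1456601456) (nat_lit 684) (nat_lit 6289587279) (nat_lit 271) (nat_lit 5) (nat_lit 279) (nat_lit 5) (nat_lit 280) (nat_lit 5) (nat_lit 442) (nat_lit 390) (nat_lit 368))))) (XT.nd (nat_lit 234) (nat_lit 2280) (nat_lit 0) (XT.nd (nat_lit 78) (nat_lit 1140) (nat_lit 0) (XT.lf (nat_lit 0) (nat_lit 1851874269) (nat_lit 608) (nat_lit 5406540007) (nat_lit 684) (nat_lit 1376088213) (nat_lit 263) (nat_lit 5) (nat_lit 271) (nat_lit 5) (nat_lit 272) (nat_lit 5) (nat_lit 443) (nat_lit 390) (nat_lit 367)) (XT.nd (nat_lit 78) (nat_lit 532) (nat_lit 0) (XT.lf (nat_lit 0) (nat_lit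 2953906699) (nat_lit 532) (nat_lit 655211385) (nat_lit 608) (nat_lit 5139605764) (nat_lit 255) (nat_lit 5) (nat_lit 262) (nat_lit 5) (nat_lit 263) (nat_lit 5) (nat_lit 444) (nat_lit 390) (nat_lit 366)) (XT.lf (nat_lit 0) (nat_lit 4079759083) (nat_lit 532) (nat_lit 4638670989) (nat_lit 608) (nat_lit 147902755) (nat_lit 248) (nat_lit 5) (nat_lit 255) (nat_lit 5) (nat_lit 256) (nat_lit 5) (nat_lit 445) (nat_lit 390) (nat_lit 365)))) (XT.nd (nat_lit 156) (nat_lit 1064) (nat_lit 0) (XT.nd (nat_lit 78) (nat_lit 608) (nat_lit 0) (XT.lf (nat_lit 0) (nat_lit 4902399898) (nat_lit 608) (nat_lit 3760474392) (nat_lit 76) (nat_lit 324467985) (nat_lit 240) (nat_lit 5) (nat_lit 248) (nat_lit 5) (nat_lit 241) (nat_lit 5) (nat_lit 446) (nat_lit 390) (nat_lit 364)) (XT.lf (nat_lit 0) (nat_lit 978734351) (nat_lit 608) (nat_lit 2716883379) (nat_lit 76) (nat_lit 5416193571) (nat_lit 232) (nat_lit 5) (nat_lit 240) (nat_lit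 5) (nat_lit 233) (nat_lit 5) (nat_lit 447) (nat_lit 390) (nat_lit 363))) (XT.nd (nat_lit 78) (nat_lit 608) (nat_lit 0) (XT.lf (nat_lit 0) (nat_lit 6121380446) (nat_lit 532) (nat_lit 1654716131) (nat_lit 76) (nat_lit 1463733506) (nat_lit 226) (nat_lit 5) (nat_lit 233) (nat_lit 5) (nat_lit 227) (nat_lit 5) (nat_lit 448) (nat_lit 390) (nat_lit 362)) (XT.lf (nat_lit 0) (nat_lit 2019648849) (nat_lit 608) (nat_lit 575800438) (nat_lit 76) (nat_lit 6775983431) (nat_lit 218) (nat_lit 5) (nat_lit 226) (nat_lit 5) (nat_lit 219) (nat_lit 5) (nat_lit 449) (nat_lit 390) (nat_lit 361))))))))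
noncomputable def xc24 : XT := (XT.nd (nat_lit 1950) (nat_lit 3116) (nat_lit 0) (XT.nd (nat_lit 936) (nat_lit 4332) (nat_lit 0) (XT.nd (nat_lit 468) (nat_lit 2812) (nat_lit 0) (XT.nd (nat_lit 234) (nat_lit 1368) (nat_lit 0) (XT.nd (nat_lit 78) (nat_lit 988) (nat_lit 0) (XT.lf (nat_lit 0) (nat_lit 525335424) (nat_lit 456) (nat_lit 6743286733) (nat_lit 532) (nat_lit 2237973372) (nat_lit 206) (nat_lit 5) (nat_lit 212) (nat_lit 5) (nat_lit 213) (nat_lit 5) (nat_lit 450) (nat_lit 390) (nat_lit 360)) (XT.nd (nat_lit 78) (nat_lit 456) (nat_lit 0) (XT.lf (nat_lit 0) (nat_lit 1650933526) (nat_lit 456) (nat_lit 1339423777) (nat_lit 532) (nat_lit 6655051897) (nat_lit 199) (nat_lit 5) (nat_lit 205) (nat_lit 5) (nat_lit 206) (nat_lit 5) (nat_lit 451) (nat_lit 390) (nat_lit 359)) (XT.lf (nat_lit 0) (nat_lit 2787189886) (nat_lit 456) (nat_lit 5567481088) (nat_lit 532) (nat_lit 1433235543) (nat_lit 193) (nat_lit 5)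 (nat_lit 199) (nat_lit 5) (nat_lit 200) (nat_lit 5) (nat_lit 452) (nat_lit 390) (nat_lit 358)))) (XT.nd (nat_lit 78) (nat_lit 912) (nat_lit 0) (XT.lf (nat_lit 0) (nat_lit 3886772695) (nat_lit 456) (nat_lit 5993122805) (nat_lit 76) (nat_lit 54410930) (nat_lit 187) (nat_lit 5) (nat_lit 193) (nat_lit 5) (nat_lit 188) (nat_lit 5) (nat_lit 453) (nat_lit 390) (nat_lit 357)) (XT.nd (nat_lit 78) (nat_lit 456) (nat_lit 0) (XT.lf (nat_lit 0) (nat_lit 5100161172) (nat_lit 456) (nat_lit 4270381120) (nat_lit 532) (nat_lit 713899329) (nat_lit 181) (nat_lit 5) (nat_lit 187) (nat_lit 5) (nat_lit 188) (nat_lit 5) (nat_lit 454) (nat_lit 390) (nat_lit 356)) (XT.lf (nat_lit 0) (nat_lit 4715575949) (nat_lit 456) (nat_lit 3969402807) (nat_lit 76) (nat_lit 1553516220) (nat_lit 175) (nat_lit 5) (nat_lit 181) (nat_lit 5) (nat_lit 176) (nat_lit 5) (nat_lit 455) (nat_lit 390) (nat_lit 355))))) (XT.nd (nat_lit 234) (nat_lit 1520)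 (nat_lit 0) (XT.nd (nat_lit 78) (nat_lit 912) (nat_lit 0) (XT.lf (nat_lit 0) (nat_lit 7455241151) (nat_lit 380) (nat_lit 2862164183) (nat_lit 456) (nat_lit 79291847) (nat_lit 170) (nat_lit 5) (nat_lit 175) (nat_lit 5) (nat_lit 176) (nat_lit 5) (nat_lit 456) (nat_lit 390) (nat_lit 354)) (XT.nd (nat_lit 78) (nat_lit 456) (nat_lit 0) (XT.lf (nat_lit 0) (nat_lit 5468576855) (nat_lit 456) (nat_lit 1924307545) (nat_lit 76) (nat_lit 3165779457) (nat_lit 164) (nat_lit 5) (nat_lit 170) (nat_lit 5) (nat_lit 165) (nat_lit 5) (nat_lit 457) (nat_lit 390) (nat_lit 353)) (XT.lf (nat_lit 0) (nat_lit 464307040) (nat_lit 456) (nat_lit 885260091) (nat_lit 76) (nat_lit 9375577870) (nat_lit 158) (nat_lit 5) (nat_lit 164) (nat_lit 5) (nat_lit 159) (nat_lit 5) (nat_lit 458) (nat_lit 390) (nat_lit 352)))) (XT.nd (nat_lit 78) (nat_lit 760) (nat_lit 0) (XT.lf (nat_lit 0) (nat_lit 133715096) (nat_lit 380) (nat_lit 6012667359)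 (nat_lit 456) (nat_lit 4748965538) (nat_lit 148) (nat_lit 5) (nat_lit 153) (nat_lit 5) (nat_lit 154) (nat_lit 5) (nat_lit 459) (nat_lit 390) (nat_lit 351)) (XT.nd (nat_lit 78) (nat_lit 380) (nat_lit 0) (XT.lf (nat_lit 0) (nat_lit 931686651) (nat_lit 380) (nat_lit 9879459529) (nat_lit 76) (nat_lit 259082589) (nat_lit 143) (nat_lit 5) (nat_lit 148) (nat_lit 5) (nat_lit 144) (nat_lit 5) (nat_lit 460) (nat_lit 390) (nat_lit 350)) (XT.lf (nat_lit 0) (nat_lit 2217654303) (nat_lit 380) (nat_lit 4542080032) (nat_lit 456) (nat_lit 4489167974) (nat_lit 138) (nat_lit 5) (nat_lit 143) (nat_lit 5) (nat_lit 144) (nat_lit 5) (nat_lit 461) (nat_lit 390) (nat_lit 349)))))) (XT.nd (nat_lit 468) (nat_lit 2280) (nat_lit 0) (XT.nd (nat_lit 234) (nat_lit 988) (nat_lit 0) (XT.nd (nat_lit 78) (nat_lit 684) (nat_lit 0) (XT.lf (nat_lit 0) (nat_lit 1327841524) (nat_lit 380) (nat_lit 8168248687) (nat_lit 76) (nat_lit 1936365187)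 (nat_lit 133) (nat_lit 5) (nat_lit 138) (nat_lit 5) (nat_lit 134) (nat_lit 5) (nat_lit 462) (nat_lit 390) (nat_lit 348)) (XT.nd (nat_lit 78) (nat_lit 380) (nat_lit 0) (XT.lf (nat_lit 0) (nat_lit 4290187104) (nat_lit 304) (nat_lit 3003834634) (nat_lit 380) (nat_lit 4326190621) (nat_lit 129) (nat_lit 5) (nat_lit 133) (nat_lit 5) (nat_lit 134) (nat_lit 5) (nat_lit 463) (nat_lit 390) (nat_lit 347)) (XT.lf (nat_lit 0) (nat_lit 1635429020) (nat_lit 380) (nat_lit 6492652286) (nat_lit 76) (nat_lit 3684689944) (nat_lit 124) (nat_lit 5) (nat_lit 129) (nat_lit 5) (nat_lit 125) (nat_lit 5) (nat_lit 464) (nat_lit 390) (nat_lit 346)))) (XT.nd (nat_lit 78) (nat_lit 684) (nat_lit 0) (XT.lf (nat_lit 0) (nat_lit 6338652812) (nat_lit 304) (nat_lit 1407774709) (nat_lit 380) (nat_lit 4263524812) (nat_lit 120) (nat_lit 5) (nat_lit 124) (nat_lit 5) (nat_lit 125) (nat_lit 5) (nat_lit 465) (nat_lit 390) (nat_lit 345)) (XT.nd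 (nat_lit 78) (nat_lit 304) (nat_lit 0) (XT.lf (nat_lit 0) (nat_lit 1850827036) (nat_lit 380) (nat_lit 4866493771) (nat_lit 76) (nat_lit 5494552203) (nat_lit 115) (nat_lit 5) (nat_lit 120) (nat_lit 5) (nat_lit 116) (nat_lit 5) (nat_lit 466) (nat_lit 390) (nat_lit 344)) (XT.lf (nat_lit 0) (nat_lit 8114754176) (nat_lit 380) (nat_lit 4071043594) (nat_lit 76) (nat_lit 233011726) (nat_lit 111) (nat_lit 5) (nat_lit 116) (nat_lit 5) (nat_lit 112) (nat_lit 5) (nat_lit 467) (nat_lit 390) (nat_lit 343))))) (XT.nd (nat_lit 234) (nat_lit 1368) (nat_lit 0) (XT.nd (nat_lit 78) (nat_lit 608) (nat_lit 0) (XT.lf (nat_lit 0) (nat_lit 1969456919) (nat_lit 304) (nat_lit 3304778559) (nat_lit 76) (nat_lit 7356266730) (nat_lit 107) (nat_lit 5) (nat_lit 111) (nat_lit 5) (nat_lit 108) (nat_lit 5) (nat_lit 468) (nat_lit 390) (nat_lit 342)) (XT.nd (nat_lit 78) (nat_lit 304) (nat_lit 0) (XT.lf (nat_lit 0) (nat_lit 8402153640)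 (nat_lit 380) (nat_lit 2552818434) (nat_lit 76) (nat_lit 1892418511) (nat_lit 103) (nat_lit 5) (nat_lit 108) (nat_lit 5) (nat_lit 104) (nat_lit 5) (nat_lit 469) (nat_lit 390) (nat_lit 341)) (XT.lf (nat_lit 0) (nat_lit 1985722510) (nat_lit 304) (nat_lit 1823865388) (nat_lit 76) (nat_lit 9259859535) (nat_lit 99) (nat_lit 5) (nat_lit 103) (nat_lit 5) (nat_lit 100) (nat_lit 5) (nat_lit 470) (nat_lit 390) (nat_lit 340)))) (XT.nd (nat_lit 156) (nat_lit 760) (nat_lit 0) (XT.nd (nat_lit 78) (nat_lit 304) (nat_lit 0) (XT.lf (nat_lit 0) (nat_lit 8593684258) (nat_lit 380) (nat_lit 1124573859) (nat_lit 76) (nat_lit 3578433614) (nat_lit 95) (nat_lit 5) (nat_lit 100) (nat_lit 5) (nat_lit 96) (nat_lit 5) (nat_lit 471) (nat_lit 390) (nat_lit 339)) (XT.lf (nat_lit 0) (nat_lit 1892939763) (nat_lit 304) (nat_lit 441652714) (nat_lit 76) (nat_lit 11194954331) (nat_lit 91) (nat_lit 5) (nat_lit 95) (nat_lit 5) (nat_lit 92)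 (nat_lit 5) (nat_lit 472) (nat_lit 390) (nat_lit 338))) (XT.nd (nat_lit 78) (nat_lit 304) (nat_lit 0) (XT.lf (nat_lit 0) (nat_lit 197549771) (nat_lit 228) (nat_lit 8486166781) (nat_lit 304) (nat_lit 5083834851) (nat_lit 85) (nat_lit 5) (nat_lit 88) (nat_lit 5) (nat_lit 89) (nat_lit 5) (nat_lit 473) (nat_lit 390) (nat_lit 337)) (XT.lf (nat_lit 0) (nat_lit 833144889) (nat_lit 228) (nat_lit 855520591) (nat_lit 304) (nat_lit 12322917024) (nat_lit 81) (nat_lit 5) (nat_lit 84) (nat_lit 5) (nat_lit 85) (nat_lit 5) (nat_lit 474) (nat_lit 390) (nat_lit 336))))))) (XT.nd (nat_lit 936) (nat_lit 380) (nat_lit 0) (XT.nd (nat_lit 468) (nat_lit 1216) (nat_lit 0) (XT.nd (nat_lit 234) (nat_lit 760) (nat_lit 0) (XT.nd (nat_lit 78) (nat_lit 532) (nat_lit 0) (XT.lf (nat_lit 0) (nat_lit 1403603498) (nat_lit 228) (nat_lit 7265803968) (nat_lit 304) (nat_lit 5591374609) (nat_lit 78) (nat_lit 5) (nat_lit 81) (nat_lit 5) (nat_lit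 82) (nat_lit 5) (nat_lit 475) (nat_lit 390) (nat_lit 335)) (XT.nd (nat_lit 78) (nat_lit 228) (nat_lit 0) (XT.lf (nat_lit 0) (nat_lit 1364333776) (nat_lit 304) (nat_lit 12548536123) (nat_lit 76) (nat_lit 603619249) (nat_lit 74) (nat_lit 5) (nat_lit 78) (nat_lit 5) (nat_lit 75) (nat_lit 5) (nat_lit 476) (nat_lit 390) (nat_lit 334)) (XT.lf (nat_lit 0) (nat_lit 2455670602) (nat_lit 228) (nat_lit 6078137177) (nat_lit 304) (nat_lit 6243701454) (nat_lit 71) (nat_lit 5) (nat_lit 74) (nat_lit 5) (nat_lit 75) (nat_lit 5) (nat_lit 477) (nat_lit 390) (nat_lit 333)))) (XT.nd (nat_lit 78) (nat_lit 456) (nat_lit 0) (XT.lf (nat_lit 0) (nat_lit 907805225) (nat_lit 304) (nat_lit 12113959887) (nat_lit 76) (nat_lit 2023538923) (nat_lit 67) (nat_lit 5) (nat_lit 71) (nat_lit 5) (nat_lit 68) (nat_lit 5) (nat_lit 478) (nat_lit 390) (nat_lit 332)) (XT.nd (nat_lit 78) (nat_lit 304) (nat_lit 0) (XT.lf (nat_lit 0) (nat_lit 3328408252)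 (nat_lit 152) (nat_lit 4937540384) (nat_lit 228) (nat_lit 7052822247) (nat_lit 65) (nat_lit 5) (nat_lit 67) (nat_lit 5) (nat_lit 68) (nat_lit 5) (nat_lit 479) (nat_lit 390) (nat_lit 331)) (XT.lf (nat_lit 0) (nat_lit 301301299) (nat_lit 304) (nat_lit 11896768042) (nat_lit 76) (nat_lit 3401140325) (nat_lit 61) (nat_lit 5) (nat_lit 65) (nat_lit 5) (nat_lit 62) (nat_lit 5) (nat_lit 480) (nat_lit 390) (nat_lit 330))))) (XT.nd (nat_lit 234) (nat_lit 608) (nat_lit 0) (XT.nd (nat_lit 78) (nat_lit 456) (nat_lit 0) (XT.lf (nat_lit 0) (nat_lit 3993819816) (nat_lit 152) (nat_lit 3859498266) (nat_lit 228) (nat_lit 8032351201) (nat_lit 59) (nat_lit 5) (nat_lit 61) (nat_lit 5) (nat_lit 62) (nat_lit 5) (nat_lit 481) (nat_lit 390) (nat_lit 329)) (XT.nd (nat_lit 78) (nat_lit 228) (nat_lit 0) (XT.lf (nat_lit 0) (nat_lit 4248759688) (nat_lit 228) (nat_lit 11455250140) (nat_lit 304) (nat_lit 475272363) (nat_lit 56) (nat_lit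 5) (nat_lit 59) (nat_lit 5) (nat_lit 60) (nat_lit 5) (nat_lit 482) (nat_lit 390) (nat_lit 328)) (XT.lf (nat_lit 0) (nat_lit 4420944399) (nat_lit 152) (nat_lit 2860776681) (nat_lit 228) (nat_lit 9197653986) (nat_lit 53) (nat_lit 5) (nat_lit 55) (nat_lit 5) (nat_lit 56) (nat_lit 5) (nat_lit 483) (nat_lit 390) (nat_lit 327)))) (XT.nd (nat_lit 78) (nat_lit 380) (nat_lit 0) (XT.lf (nat_lit 0) (nat_lit 4537760945) (nat_lit 228) (nat_lit 10811247912) (nat_lit 304) (nat_lit 1437719864) (nat_lit 50) (nat_lit 5) (nat_lit 53) (nat_lit 5) (nat_lit 54) (nat_lit 5) (nat_lit 484) (nat_lit 390) (nat_lit 326)) (XT.nd (nat_lit 78) (nat_lit 152) (nat_lit 0) (XT.lf (nat_lit 0) (nat_lit 4575515584) (nat_lit 152) (nat_lit 1959607493) (nat_lit 228) (nat_lit 10566008677) (nat_lit 47) (nat_lit 5) (nat_lit 49) (nat_lit 5) (nat_lit 50) (nat_lit 5) (nat_lit 485) (nat_lit 390) (nat_lit 325)) (XT.lf (nat_lit 0) (nat_lit 4535413585)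 (nat_lit 152) (nat_lit 10287584163) (nat_lit 228) (nat_lit 2599873008) (nat_lit 45) (nat_lit 5) (nat_lit 47) (nat_lit 5) (nat_lit 48) (nat_lit 5) (nat_lit 486) (nat_lit 390) (nat_lit 324)))))) (XT.nd (nat_lit 57408) (nat_lit 0) (nat_lit 29944) (XT.nd (nat_lit 57174) (nat_lit 0) (nat_lit 42028) (XT.nd (nat_lit 78) (nat_lit 152) (nat_lit 0) (XT.lf (nat_lit 0) (nat_lit 4419586000) (nat_lit 152) (nat_lit 1175889531) (nat_lit 228) (nat_lit 12156785142) (nat_lit 42) (nat_lit 5) (nat_lit 44) (nat_lit 5) (nat_lit 45) (nat_lit 5) (nat_lit 487) (nat_lit 390) (nat_lit 323)) (XT.nd (nat_lit 57018) (nat_lit 0) (nat_lit 46132) (XT.lf (nat_lit 0) (nat_lit 4201779983) (nat_lit 152) (nat_lit 9905554236) (nat_lit 228) (nat_lit 3981736346) (nat_lit 40) (nat_lit 5) (nat_lit 42) (nat_lit 5) (nat_lit 43) (nat_lit 5) (nat_lit 488) (nat_lit 390) (nat_lit 322)) (XT.lf (nat_lit 0) (nat_lit 3003650402) (nat_lit 1140) (nat_lit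 195049899) (nat_lit 1140) (nat_lit 195049899) (nat_lit 647) (nat_lit 4) (nat_lit 662) (nat_lit 5) (nat_lit 662) (nat_lit 4) (nat_lit 418) (nat_lit 391) (nat_lit 391)))) (XT.nd (nat_lit 78) (nat_lit 2812) (nat_lit 0) (XT.lf (nat_lit 0) (nat_lit 4611279327) (nat_lit 1292) (nat_lit 645663850) (nat_lit 0) (nat_lit 1570307358) (nat_lit 630) (nat_lit 5) (nat_lit 647) (nat_lit 4) (nat_lit 630) (nat_lit 4) (nat_lit 419) (nat_lit 391) (nat_lit 390)) (XT.nd (nat_lit 78) (nat_lit 1444) (nat_lit 0) (XT.lf (nat_lit 0) (nat_lit 2742939421) (nat_lit 1368) (nat_lit 452634308) (nat_lit 76) (nat_lit 3674382549) (nat_lit 612) (nat_lit 5) (nat_lit 630) (nat_lit 5) (nat_lit 613) (nat_lit 4) (nat_lit 420) (nat_lit 391) (nat_lit 389)) (XT.lf (nat_lit 0) (nat_lit 787689859) (nat_lit 1444) (nat_lit 198564972) (nat_lit 76) (nat_lit 5929443516) (nat_lit 593) (nat_lit 5) (nat_lit 612) (nat_lit 5) (nat_lit 594) (nat_lit 5) (nat_lit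 421) (nat_lit 391) (nat_lit 388))))) (XT.nd (nat_lit 234) (nat_lit 5700) (nat_lit 0) (XT.nd (nat_lit 78) (nat_lit 3420) (nat_lit 0) (XT.lf (nat_lit 0) (nat_lit 100704637) (nat_lit 1520) (nat_lit 5599847946) (nat_lit 1596) (nat_lit 1263598534) (nat_lit 554) (nat_lit 5) (nat_lit 574) (nat_lit 5) (nat_lit 575) (nat_lit 4) (nat_lit 422) (nat_lit 391) (nat_lit 387)) (XT.nd (nat_lit 78) (nat_lit 1748) (nat_lit 0) (XT.lf (nat_lit 0) (nat_lit 451297587) (nat_lit 1596) (nat_lit 3155288057) (nat_lit 1672) (nat_lit 3408824449) (nat_lit 532) (nat_lit 5) (nat_lit 553) (nat_lit 5) (nat_lit 554) (nat_lit 5) (nat_lit 423) (nat_lit 391) (nat_lit 386)) (XT.lf (nat_lit 0) (nat_lit 862529482) (nat_lit 1672) (nat_lit 559457734) (nat_lit 1748) (nat_lit 5647781060) (nat_lit 509) (nat_lit 5) (nat_lit 531) (nat_lit 5) (nat_lit 532) (nat_lit 5) (nat_lit 424) (nat_lit 391) (nat_lit 385)))) (XT.nd (nat_lit 156) (nat_lit 2052)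 (nat_lit 0) (XT.nd (nat_lit 78) (nat_lit 1900) (nat_lit 0) (XT.lf (nat_lit 0) (nat_lit 1314493075) (nat_lit 1748) (nat_lit 4959675945) (nat_lit 1824) (nat_lit 852699721) (nat_lit 486) (nat_lit 5) (nat_lit 509) (nat_lit 5) (nat_lit 510) (nat_lit 5) (nat_lit 425) (nat_lit 391) (nat_lit 384)) (XT.lf (nat_lit 0) (nat_lit 1812755124) (nat_lit 1824) (nat_lit 2135541892) (nat_lit 1900) (nat_lit 3238558016) (nat_lit 461) (nat_lit 5) (nat_lit 485) (nat_lit 5) (nat_lit 486) (nat_lit 5) (nat_lit 426) (nat_lit 391) (nat_lit 383))) (XT.nd (nat_lit 78) (nat_lit 912) (nat_lit 0) (XT.lf (nat_lit 0) (nat_lit 1532437878) (nat_lit 1140) (nat_lit 4884629822) (nat_lit 76) (nat_lit 832851183) (nat_lit 446) (nat_lit 5) (nat_lit 461) (nat_lit 5) (nat_lit 447) (nat_lit 5) (nat_lit 427) (nat_lit 391) (nat_lit 382)) (XT.lf (nat_lit 0) (nat_lit 2956408270) (nat_lit 912) (nat_lit 3379787525) (nat_lit 988) (nat_lit 979593350) (nat_lit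 434) (nat_lit 5) (nat_lit 446) (nat_lit 5) (nat_lit 447) (nat_lit 5) (nat_lit 428) (nat_lit 391) (nat_lit 381))))))))
noncomputable def xc25 : XT := (XT.nd (nat_lit 1950) (nat_lit 9500) (nat_lit 0) (XT.nd (nat_lit 936) (nat_lit 7904) (nat_lit 0) (XT.nd (nat_lit 468) (nat_lit 5168) (nat_lit 0) (XT.nd (nat_lit 234) (nat_lit 2584) (nat_lit 0) (XT.nd (nat_lit 78) (nat_lit 1748) (nat_lit 0) (XT.lf (nat_lit 0) (nat_lit 3596235370) (nat_lit 912) (nat_lit 175128698) (nat_lit 988) (nat_lit 3613337731) (nat_lit 421) (nat_lit 5) (nat_lit 433) (nat_lit 5) (nat_lit 434) (nat_lit 5) (nat_lit 429) (nat_lit 391) (nat_lit 380)) (XT.nd (nat_lit 78) (nat_lit 836) (nat_lit 0) (XT.lf (nat_lit 0) (nat_lit 1126221691) (nat_lit 912) (nat_lit 3182072733) (nat_lit 76) (nat_lit 3148198066) (nat_lit 409) (nat_lit 5) (nat_lit 421) (nat_lit 5) (nat_lit 410) (nat_lit 5) (nat_lit 430) (nat_lit 391) (nat_lit 379)) (XT.lf (nat_lit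 0) (nat_lit 4999521090) (nat_lit 836) (nat_lit 889548495) (nat_lit 912) (nat_lit 1642299199) (nat_lit 398) (nat_lit 5) (nat_lit 409) (nat_lit 5) (nat_lit 410) (nat_lit 5) (nat_lit 431) (nat_lit 391) (nat_lit 378)))) (XT.nd (nat_lit 78) (nat_lit 1672) (nat_lit 0) (XT.lf (nat_lit 0) (nat_lit 3093713918) (nat_lit 912) (nat_lit 1851083508) (nat_lit 76) (nat_lit 2664309139) (nat_lit 386) (nat_lit 5) (nat_lit 398) (nat_lit 5) (nat_lit 387) (nat_lit 5) (nat_lit 432) (nat_lit 391) (nat_lit 377)) (XT.nd (nat_lit 78) (nat_lit 760) (nat_lit 0) (XT.lf (nat_lit 0) (nat_lit 197901107) (nat_lit 912) (nat_lit 1121117034) (nat_lit 76) (nat_lit 6371103909) (nat_lit 374) (nat_lit 5) (nat_lit 386) (nat_lit 5) (nat_lit 375) (nat_lit 5) (nat_lit 433) (nat_lit 391) (nat_lit 376)) (XT.lf (nat_lit 0) (nat_lit 4945663825) (nat_lit 836) (nat_lit 370194642) (nat_lit 76) (nat_lit 2458036074) (nat_lit 364) (nat_lit 5) (nat_lit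 375) (nat_lit 5) (nat_lit 365) (nat_lit 5) (nat_lit 434) (nat_lit 391) (nat_lit 375))))) (XT.nd (nat_lit 234) (nat_lit 2128) (nat_lit 0) (XT.nd (nat_lit 78) (nat_lit 1520) (nat_lit 0) (XT.lf (nat_lit 0) (nat_lit 430936057) (nat_lit 684) (nat_lit 1471294997) (nat_lit 760) (nat_lit 5958654577) (nat_lit 344) (nat_lit 5) (nat_lit 353) (nat_lit 5) (nat_lit 354) (nat_lit 5) (nat_lit 435) (nat_lit 391) (nat_lit 374)) (XT.nd (nat_lit 78) (nat_lit 760) (nat_lit 0) (XT.lf (nat_lit 0) (nat_lit 1267701301) (nat_lit 760) (nat_lit 5431624866) (nat_lit 836) (nat_lit 1251534427) (nat_lit 334) (nat_lit 5) (nat_lit 344) (nat_lit 5) (nat_lit 345) (nat_lit 5) (nat_lit 436) (nat_lit 391) (nat_lit 373)) (XT.lf (nat_lit 0) (nat_lit 2136716467) (nat_lit 684) (nat_lit 1369490016) (nat_lit 760) (nat_lit 4537740056) (nat_lit 324) (nat_lit 5) (nat_lit 333) (nat_lit 5) (nat_lit 334) (nat_lit 5) (nat_lit 437) (nat_lit 391) (nat_lit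 372)))) (XT.nd (nat_lit 78) (nat_lit 1368) (nat_lit 0) (XT.lf (nat_lit 0) (nat_lit 214773300) (nat_lit 760) (nat_lit 5098056746) (nat_lit 76) (nat_lit 2827446270) (nat_lit 314) (nat_lit 5) (nat_lit 324) (nat_lit 5) (nat_lit 315) (nat_lit 5) (nat_lit 438) (nat_lit 391) (nat_lit 371)) (XT.nd (nat_lit 78) (nat_lit 760) (nat_lit 0) (XT.lf (nat_lit 0) (nat_lit 3972381474) (nat_lit 608) (nat_lit 1037653860) (nat_lit 684) (nat_lit 3229633893) (nat_lit 306) (nat_lit 5) (nat_lit 314) (nat_lit 5) (nat_lit 315) (nat_lit 5) (nat_lit 439) (nat_lit 391) (nat_lit 370)) (XT.lf (nat_lit 0) (nat_lit 1563048894) (nat_lit 760) (nat_lit 3408675806) (nat_lit 76) (nat_lit 3370579370) (nat_lit 296) (nat_lit 5) (nat_lit 306) (nat_lit 5) (nat_lit 297) (nat_lit 5) (nat_lit 440) (nat_lit 391) (nat_lit 369)))))) (XT.nd (nat_lit 468) (nat_lit 3648) (nat_lit 0) (XT.nd (nat_lit 234) (nat_lit 2356) (nat_lit 0) (XT.nd (nat_lit 78)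 (nat_lit 1292) (nat_lit 0) (XT.lf (nat_lit 0) (nat_lit 5929406840) (nat_lit 608) (nat_lit 491079470) (nat_lit 684) (nat_lit 2027816517) (nat_lit 288) (nat_lit 5) (nat_lit 296) (nat_lit 5) (nat_lit 297) (nat_lit 5) (nat_lit 441) (nat_lit 391) (nat_lit 368)) (XT.nd (nat_lit 78) (nat_lit 608) (nat_lit 0) (XT.lf (nat_lit 0) (nat_lit 2815858763) (nat_lit 684) (nat_lit 1615475068) (nat_lit 76) (nat_lit 4126038302) (nat_lit 279) (nat_lit 5) (nat_lit 288) (nat_lit 5) (nat_lit 280) (nat_lit 5) (nat_lit 442) (nat_lit 391) (nat_lit 367)) (XT.lf (nat_lit 0) (nat_lit 7745207199) (nat_lit 684) (nat_lit 672189491) (nat_lit 76) (nat_lit 252698688) (nat_lit 271) (nat_lit 5) (nat_lit 280) (nat_lit 5) (nat_lit 272) (nat_lit 5) (nat_lit 443) (nat_lit 391) (nat_lit 366)))) (XT.nd (nat_lit 78) (nat_lit 1140) (nat_lit 0) (XT.lf (nat_lit 0) (nat_lit 276849219) (nat_lit 532) (nat_lit 3703526334) (nat_lit 608) (nat_lit 4805366936)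 (nat_lit 255) (nat_lit 5) (nat_lit 262) (nat_lit 5) (nat_lit 263) (nat_lit 5) (nat_lit 444) (nat_lit 391) (nat_lit 365)) (XT.nd (nat_lit 78) (nat_lit 532) (nat_lit 0) (XT.lf (nat_lit 0) (nat_lit 94080013) (nat_lit 608) (nat_lit 7627157548) (nat_lit 76) (nat_lit 1183889614) (nat_lit 247) (nat_lit 5) (nat_lit 255) (nat_lit 5) (nat_lit 248) (nat_lit 5) (nat_lit 445) (nat_lit 391) (nat_lit 364)) (XT.lf (nat_lit 0) (nat_lit 2279139401) (nat_lit 532) (nat_lit 2791485478) (nat_lit 608) (nat_lit 3956932450) (nat_lit 240) (nat_lit 5) (nat_lit 247) (nat_lit 5) (nat_lit 248) (nat_lit 5) (nat_lit 446) (nat_lit 391) (nat_lit 363))))) (XT.nd (nat_lit 234) (nat_lit 1976) (nat_lit 0) (XT.nd (nat_lit 78) (nat_lit 1064) (nat_lit 0) (XT.lf (nat_lit 0) (nat_lit 1016734288) (nat_lit 608) (nat_lit 5838728719) (nat_lit 76) (nat_lit 2298316729) (nat_lit 232) (nat_lit 5) (nat_lit 240) (nat_lit 5) (nat_lit 233) (nat_lit 5)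 (nat_lit 447) (nat_lit 391) (nat_lit 362)) (XT.nd (nat_lit 78) (nat_lit 608) (nat_lit 0) (XT.lf (nat_lit 0) (nat_lit 4361746750) (nat_lit 456) (nat_lit 1718061081) (nat_lit 532) (nat_lit 3203585420) (nat_lit 226) (nat_lit 5) (nat_lit 232) (nat_lit 5) (nat_lit 233) (nat_lit 5) (nat_lit 448) (nat_lit 391) (nat_lit 361)) (XT.lf (nat_lit 0) (nat_lit 1853968990) (nat_lit 608) (nat_lit 3988510232) (nat_lit 76) (nat_lit 3574164057) (nat_lit 218) (nat_lit 5) (nat_lit 226) (nat_lit 5) (nat_lit 219) (nat_lit 5) (nat_lit 449) (nat_lit 391) (nat_lit 360)))) (XT.nd (nat_lit 156) (nat_lit 988) (nat_lit 0) (XT.nd (nat_lit 78) (nat_lit 532) (nat_lit 0) (XT.lf (nat_lit 0) (nat_lit 6516485506) (nat_lit 456) (nat_lit 494541043) (nat_lit 532) (nat_lit 2542620888) (nat_lit 212) (nat_lit 5) (nat_lit 218) (nat_lit 5) (nat_lit 219) (nat_lit 5) (nat_lit 450) (nat_lit 391) (nat_lit 359)) (XT.lf (nat_lit 0) (nat_lit 2608266405)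 (nat_lit 532) (nat_lit 2085112026) (nat_lit 76) (nat_lit 5000753902) (nat_lit 205) (nat_lit 5) (nat_lit 212) (nat_lit 5) (nat_lit 206) (nat_lit 5) (nat_lit 451) (nat_lit 391) (nat_lit 358))) (XT.nd (nat_lit 78) (nat_lit 532) (nat_lit 0) (XT.lf (nat_lit 0) (nat_lit 7872299096) (nat_lit 532) (nat_lit 1109318343) (nat_lit 76) (nat_lit 857020632) (nat_lit 199) (nat_lit 5) (nat_lit 206) (nat_lit 5) (nat_lit 200) (nat_lit 5) (nat_lit 452) (nat_lit 391) (nat_lit 357)) (XT.lf (nat_lit 0) (nat_lit 3281376402) (nat_lit 532) (nat_lit 137324672) (nat_lit 76) (nat_lit 6567994496) (nat_lit 192) (nat_lit 5) (nat_lit 199) (nat_lit 5) (nat_lit 193) (nat_lit 5) (nat_lit 453) (nat_lit 391) (nat_lit 356))))))) (XT.nd (nat_lit 1014) (nat_lit 3724) (nat_lit 0) (XT.nd (nat_lit 468) (nat_lit 2812) (nat_lit 0) (XT.nd (nat_lit 234) (nat_lit 1292) (nat_lit 0) (XT.nd (nat_lit 78) (nat_lit 836) (nat_lit 0) (XT.lf (nat_lit 0) (nat_lit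 865882088) (nat_lit 456) (nat_lit 7803433622) (nat_lit 532) (nat_lit 1469434248) (nat_lit 181) (nat_lit 5) (nat_lit 187) (nat_lit 5) (nat_lit 188) (nat_lit 5) (nat_lit 454) (nat_lit 391) (nat_lit 355)) (XT.nd (nat_lit 78) (nat_lit 380) (nat_lit 0) (XT.lf (nat_lit 0) (nat_lit 1870310617) (nat_lit 380) (nat_lit 2016144359) (nat_lit 456) (nat_lit 6408118812) (nat_lit 175) (nat_lit 5) (nat_lit 180) (nat_lit 5) (nat_lit 181) (nat_lit 5) (nat_lit 455) (nat_lit 391) (nat_lit 354)) (XT.lf (nat_lit 0) (nat_lit 2886218932) (nat_lit 380) (nat_lit 6515382960) (nat_lit 456) (nat_lit 1052910143) (nat_lit 170) (nat_lit 5) (nat_lit 175) (nat_lit 5) (nat_lit 176) (nat_lit 5) (nat_lit 456) (nat_lit 391) (nat_lit 353)))) (XT.nd (nat_lit 78) (nat_lit 836) (nat_lit 0) (XT.lf (nat_lit 0) (nat_lit 3905977797) (nat_lit 380) (nat_lit 506719351) (nat_lit 456) (nat_lit 6205810881) (nat_lit 164) (nat_lit 5) (nat_lit 169) (nat_lit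 5) (nat_lit 170) (nat_lit 5) (nat_lit 457) (nat_lit 391) (nat_lit 352)) (XT.nd (nat_lit 78) (nat_lit 456) (nat_lit 0) (XT.lf (nat_lit 0) (nat_lit 4927162955) (nat_lit 380) (nat_lit 5134754301) (nat_lit 456) (nat_lit 724692952) (nat_lit 159) (nat_lit 5) (nat_lit 164) (nat_lit 5) (nat_lit 165) (nat_lit 5) (nat_lit 458) (nat_lit 391) (nat_lit 351)) (XT.lf (nat_lit 0) (nat_lit 4865769972) (nat_lit 456) (nat_lit 5008441496) (nat_lit 76) (nat_lit 1084720282) (nat_lit 153) (nat_lit 5) (nat_lit 159) (nat_lit 5) (nat_lit 154) (nat_lit 5) (nat_lit 459) (nat_lit 391) (nat_lit 350))))) (XT.nd (nat_lit 234) (nat_lit 1672) (nat_lit 0) (XT.nd (nat_lit 78) (nat_lit 760) (nat_lit 0) (XT.lf (nat_lit 0) (nat_lit 6978363534) (nat_lit 380) (nat_lit 3671190758) (nat_lit 456) (nat_lit 486067926) (nat_lit 148) (nat_lit 5) (nat_lit 153) (nat_lit 5) (nat_lit 154) (nat_lit 5) (nat_lit 460) (nat_lit 391) (nat_lit 349)) (XT.nd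 (nat_lit 78) (nat_lit 380) (nat_lit 0) (XT.lf (nat_lit 0) (nat_lit 5241033968) (nat_lit 380) (nat_lit 3320016033) (nat_lit 76) (nat_lit 2755457232) (nat_lit 143) (nat_lit 5) (nat_lit 148) (nat_lit 5) (nat_lit 144) (nat_lit 5) (nat_lit 461) (nat_lit 391) (nat_lit 348)) (XT.lf (nat_lit 0) (nat_lit 9028783562) (nat_lit 380) (nat_lit 2134229061) (nat_lit 456) (nat_lit 339152405) (nat_lit 138) (nat_lit 5) (nat_lit 143) (nat_lit 5) (nat_lit 144) (nat_lit 5) (nat_lit 462) (nat_lit 391) (nat_lit 347)))) (XT.nd (nat_lit 156) (nat_lit 988) (nat_lit 0) (XT.nd (nat_lit 78) (nat_lit 304) (nat_lit 0) (XT.lf (nat_lit 0) (nat_lit 5532956439) (nat_lit 380) (nat_lit 1655991858) (nat_lit 76) (nat_lit 4502989918) (nat_lit 133) (nat_lit 5) (nat_lit 138) (nat_lit 5) (nat_lit 134) (nat_lit 5) (nat_lit 463) (nat_lit 391) (nat_lit 346)) (XT.lf (nat_lit 0) (nat_lit 11066567773) (nat_lit 304) (nat_lit 533396577) (nat_lit 380)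 (nat_lit 286932084) (nat_lit 129) (nat_lit 5) (nat_lit 133) (nat_lit 5) (nat_lit 134) (nat_lit 5) (nat_lit 464) (nat_lit 391) (nat_lit 345))) (XT.nd (nat_lit 78) (nat_lit 608) (nat_lit 0) (XT.lf (nat_lit 0) (nat_lit 5738431860) (nat_lit 380) (nat_lit 29323394) (nat_lit 76) (nat_lit 6318149140) (nat_lit 124) (nat_lit 5) (nat_lit 129) (nat_lit 5) (nat_lit 125) (nat_lit 5) (nat_lit 465) (nat_lit 391) (nat_lit 344)) (XT.lf (nat_lit 0) (nat_lit 791481767) (nat_lit 304) (nat_lit 11178151722) (nat_lit 380) (nat_lit 320634944) (nat_lit 116) (nat_lit 5) (nat_lit 120) (nat_lit 5) (nat_lit 121) (nat_lit 5) (nat_lit 466) (nat_lit 391) (nat_lit 343)))))) (XT.nd (nat_lit 468) (nat_lit 1900) (nat_lit 0) (XT.nd (nat_lit 234) (nat_lit 836) (nat_lit 0) (XT.nd (nat_lit 78) (nat_lit 608) (nat_lit 0) (XT.lf (nat_lit 0) (nat_lit 1566504730) (nat_lit 304) (nat_lit 4297110945) (nat_lit 380) (nat_lit 6635310047) (nat_lit 111)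 (nat_lit 5) (nat_lit 115) (nat_lit 5) (nat_lit 116) (nat_lit 5) (nat_lit 467) (nat_lit 391) (nat_lit 342)) (XT.nd (nat_lit 78) (nat_lit 380) (nat_lit 0) (XT.lf (nat_lit 0) (nat_lit 2350594609) (nat_lit 228) (nat_lit 9913622184) (nat_lit 304) (nat_lit 448882993) (nat_lit 108) (nat_lit 5) (nat_lit 111) (nat_lit 5) (nat_lit 112) (nat_lit 5) (nat_lit 468) (nat_lit 391) (nat_lit 341)) (XT.lf (nat_lit 0) (nat_lit 3095185546) (nat_lit 304) (nat_lit 2797925470) (nat_lit 380) (nat_lit 7038868653) (nat_lit 103) (nat_lit 5) (nat_lit 107) (nat_lit 5) (nat_lit 108) (nat_lit 5) (nat_lit 469) (nat_lit 391) (nat_lit 340)))) (XT.nd (nat_lit 78) (nat_lit 608) (nat_lit 0) (XT.lf (nat_lit 0) (nat_lit 3833471559) (nat_lit 228) (nat_lit 8636139122) (nat_lit 304) (nat_lit 686751835) (nat_lit 100) (nat_lit 5) (nat_lit 103) (nat_lit 5) (nat_lit 104) (nat_lit 5) (nat_lit 470) (nat_lit 391) (nat_lit 339)) (XT.nd (nat_lit 78)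 (nat_lit 228) (nat_lit 0) (XT.lf (nat_lit 0) (nat_lit 4539430513) (nat_lit 304) (nat_lit 1281174796) (nat_lit 380) (nat_lit 7565284222) (nat_lit 95) (nat_lit 5) (nat_lit 99) (nat_lit 5) (nat_lit 100) (nat_lit 5) (nat_lit 471) (nat_lit 391) (nat_lit 338)) (XT.lf (nat_lit 0) (nat_lit 5222440140) (nat_lit 228) (nat_lit 7357049788) (nat_lit 304) (nat_lit 1041411483) (nat_lit 92) (nat_lit 5) (nat_lit 95) (nat_lit 5) (nat_lit 96) (nat_lit 5) (nat_lit 472) (nat_lit 391) (nat_lit 337))))) (XT.nd (nat_lit 234) (nat_lit 1064) (nat_lit 0) (XT.nd (nat_lit 78) (nat_lit 532) (nat_lit 0) (XT.lf (nat_lit 0) (nat_lit 5640435310) (nat_lit 304) (nat_lit 7982378300) (nat_lit 76) (nat_lit 238680606) (nat_lit 88) (nat_lit 5) (nat_lit 92) (nat_lit 5) (nat_lit 89) (nat_lit 5) (nat_lit 473) (nat_lit 391) (nat_lit 336)) (XT.nd (nat_lit 78) (nat_lit 304) (nat_lit 0) (XT.lf (nat_lit 0) (nat_lit 6498099539) (nat_lit 228) (nat_lit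 6088290978) (nat_lit 304) (nat_lit 1521222965) (nat_lit 85) (nat_lit 5) (nat_lit 88) (nat_lit 5) (nat_lit 89) (nat_lit 5) (nat_lit 474) (nat_lit 391) (nat_lit 335)) (XT.lf (nat_lit 0) (nat_lit 5350879309) (nat_lit 304) (nat_lit 7272543384) (nat_lit 76) (nat_lit 1736160832) (nat_lit 81) (nat_lit 5) (nat_lit 85) (nat_lit 5) (nat_lit 82) (nat_lit 5) (nat_lit 475) (nat_lit 391) (nat_lit 334)))) (XT.nd (nat_lit 156) (nat_lit 532) (nat_lit 0) (XT.nd (nat_lit 78) (nat_lit 304) (nat_lit 0) (XT.lf (nat_lit 0) (nat_lit 7639100286) (nat_lit 228) (nat_lit 4842518574) (nat_lit 304) (nat_lit 2135832078) (nat_lit 78) (nat_lit 5) (nat_lit 81) (nat_lit 5) (nat_lit 82) (nat_lit 5) (nat_lit 476) (nat_lit 391) (nat_lit 333)) (XT.lf (nat_lit 0) (nat_lit 4933807092) (nat_lit 304) (nat_lit 6731955183) (nat_lit 76) (nat_lit 3215544061) (nat_lit 74) (nat_lit 5) (nat_lit 78) (nat_lit 5) (nat_lit 75) (nat_lit 5) (nat_lit 477)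 (nat_lit 391) (nat_lit 332))) (XT.nd (nat_lit 78) (nat_lit 304) (nat_lit 0) (XT.lf (nat_lit 0) (nat_lit 8621903075) (nat_lit 228) (nat_lit 3633246089) (nat_lit 304) (nat_lit 2896275288) (nat_lit 71) (nat_lit 5) (nat_lit 74) (nat_lit 5) (nat_lit 75) (nat_lit 5) (nat_lit 478) (nat_lit 391) (nat_lit 331)) (XT.lf (nat_lit 0) (nat_lit 4377994735) (nat_lit 304) (nat_lit 6386304370) (nat_lit 76) (nat_lit 4663406415) (nat_lit 67) (nat_lit 5) (nat_lit 71) (nat_lit 5) (nat_lit 68) (nat_lit 5) (nat_lit 479) (nat_lit 391) (nat_lit 330))))))))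
noncomputable def xc26 : XT := (XT.nd (nat_lit 58734) (nat_lit 0) (nat_lit 10108) (XT.nd (nat_lit 57720) (nat_lit 0) (nat_lit 26980) (XT.nd (nat_lit 468) (nat_lit 532) (nat_lit 0) (XT.nd (nat_lit 234) (nat_lit 760) (nat_lit 0) (XT.nd (nat_lit 78) (nat_lit 456) (nat_lit 0) (XT.lf (nat_lit 0) (nat_lit 9420514369) (nat_lit 152) (nat_lit 2474993513) (nat_lit 228) (nat_lit 3815098853) (nat_lit 65) (nat_lit 5) (nat_lit 67) (nat_lit 5) (nat_lit 68) (nat_lit 5) (nat_lit 480) (nat_lit 391) (nat_lit 329)) (XT.nd (nat_lit 78) (nat_lit 152) (nat_lit 0) (XT.lf (nat_lit 0) (nat_lit 3670682389) (nat_lit 304) (nat_lit 6263932928) (nat_lit 76) (nat_lit 6065272745) (nat_lit 61) (nat_lit 5) (nat_lit 65) (nat_lit 5) (nat_lit 62) (nat_lit 5) (nat_lit 481) (nat_lit 391) (nat_lit 328)) (XT.lf (nat_lit 0) (nat_lit 10006196180) (nat_lit 152) (nat_lit 1383447875) (nat_lit 228) (nat_lit 4906492377) (nat_lit 59) (nat_lit 5) (nat_lit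 61) (nat_lit 5) (nat_lit 62) (nat_lit 5) (nat_lit 482) (nat_lit 391) (nat_lit 327)))) (XT.nd (nat_lit 78) (nat_lit 456) (nat_lit 0) (XT.lf (nat_lit 0) (nat_lit 2797435432) (nat_lit 304) (nat_lit 6396141412) (nat_lit 76) (nat_lit 7405452324) (nat_lit 55) (nat_lit 5) (nat_lit 59) (nat_lit 5) (nat_lit 56) (nat_lit 5) (nat_lit 483) (nat_lit 391) (nat_lit 326)) (XT.nd (nat_lit 78) (nat_lit 304) (nat_lit 0) (XT.lf (nat_lit 0) (nat_lit 10347147192) (nat_lit 152) (nat_lit 375637061) (nat_lit 228) (nat_lit 6186438142) (nat_lit 53) (nat_lit 5) (nat_lit 55) (nat_lit 5) (nat_lit 56) (nat_lit 5) (nat_lit 484) (nat_lit 391) (nat_lit 325)) (XT.lf (nat_lit 0) (nat_lit 1741989372) (nat_lit 304) (nat_lit 6817526674) (nat_lit 76) (nat_lit 8666860688) (nat_lit 49) (nat_lit 5) (nat_lit 53) (nat_lit 5) (nat_lit 50) (nat_lit 5) (nat_lit 485) (nat_lit 391) (nat_lit 324))))) (XT.nd (nat_lit 57018) (nat_lit 0) (nat_lit 45904)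 (XT.nd (nat_lit 78) (nat_lit 380) (nat_lit 0) (XT.lf (nat_lit 0) (nat_lit 9881710965) (nat_lit 228) (nat_lit 7146436604) (nat_lit 76) (nat_lit 522931961) (nat_lit 47) (nat_lit 5) (nat_lit 50) (nat_lit 5) (nat_lit 48) (nat_lit 5) (nat_lit 486) (nat_lit 391) (nat_lit 323)) (XT.nd (nat_lit 78) (nat_lit 152) (nat_lit 0) (XT.lf (nat_lit 0) (nat_lit 486076941) (nat_lit 228) (nat_lit 7566353381) (nat_lit 76) (nat_lit 9830825921) (nat_lit 44) (nat_lit 5) (nat_lit 47) (nat_lit 5) (nat_lit 45) (nat_lit 5) (nat_lit 487) (nat_lit 391) (nat_lit 322)) (XT.lf (nat_lit 0) (nat_lit 8845904103) (nat_lit 228) (nat_lit 8081606024) (nat_lit 76) (nat_lit 1295597316) (nat_lit 42) (nat_lit 5) (nat_lit 45) (nat_lit 5) (nat_lit 43) (nat_lit 5) (nat_lit 488) (nat_lit 391) (nat_lit 321)))) (XT.nd (nat_lit 78) (nat_lit 2356) (nat_lit 0) (XT.lf (nat_lit 0) (nat_lit 2947858063) (nat_lit 988) (nat_lit 204801149) (nat_lit 988) (nat_lit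 204801149) (nat_lit 677) (nat_lit 4) (nat_lit 690) (nat_lit 5) (nat_lit 690) (nat_lit 4) (nat_lit 416) (nat_lit 392) (nat_lit 392)) (XT.nd (nat_lit 78) (nat_lit 1216) (nat_lit 0) (XT.lf (nat_lit 0) (nat_lit 4536680064) (nat_lit 1140) (nat_lit 871849795) (nat_lit 0) (nat_lit 1341834913) (nat_lit 662) (nat_lit 5) (nat_lit 677) (nat_lit 4) (nat_lit 662) (nat_lit 4) (nat_lit 417) (nat_lit 392) (nat_lit 391)) (XT.lf (nat_lit 0) (nat_lit 2688448629) (nat_lit 1216) (nat_lit 865970329) (nat_lit 76) (nat_lit 3234318528) (nat_lit 646) (nat_lit 5) (nat_lit 662) (nat_lit 5) (nat_lit 647) (nat_lit 4) (nat_lit 418) (nat_lit 392) (nat_lit 390)))))) (XT.nd (nat_lit 468) (nat_lit 8512) (nat_lit 0) (XT.nd (nat_lit 234) (nat_lit 6384) (nat_lit 0) (XT.nd (nat_lit 78) (nat_lit 2736) (nat_lit 0) (XT.lf (nat_lit 0) (nat_lit 755907887) (nat_lit 1292) (nat_lit 799008679) (nat_lit 76) (nat_lit 5275202448) (nat_lit 629) (nat_lit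 5) (nat_lit 646) (nat_lit 5) (nat_lit 630) (nat_lit 5) (nat_lit 419) (nat_lit 392) (nat_lit 389)) (XT.nd (nat_lit 78) (nat_lit 1444) (nat_lit 0) (XT.lf (nat_lit 0) (nat_lit 5598401529) (nat_lit 1368) (nat_lit 683209718) (nat_lit 76) (nat_lit 592683052) (nat_lit 612) (nat_lit 5) (nat_lit 630) (nat_lit 5) (nat_lit 613) (nat_lit 4) (nat_lit 420) (nat_lit 392) (nat_lit 388)) (XT.lf (nat_lit 0) (nat_lit 3524934244) (nat_lit 1444) (nat_lit 522995404) (nat_lit 76) (nat_lit 2873275942) (nat_lit 593) (nat_lit 5) (nat_lit 612) (nat_lit 5) (nat_lit 594) (nat_lit 5) (nat_lit 421) (nat_lit 392) (nat_lit 387)))) (XT.nd (nat_lit 78) (nat_lit 4864) (nat_lit 0) (XT.lf (nat_lit 0) (nat_lit 1363341801) (nat_lit 1520) (nat_lit 303198767) (nat_lit 76) (nat_lit 5304647235) (nat_lit 573) (nat_lit 5) (nat_lit 593) (nat_lit 5) (nat_lit 574) (nat_lit 5) (nat_lit 422) (nat_lit 392) (nat_lit 386)) (XT.nd (nat_lit 78) (nat_lit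 3344) (nat_lit 0) (XT.lf (nat_lit 0) (nat_lit 6129238833) (nat_lit 1596) (nat_lit 35192114) (nat_lit 76) (nat_lit 859615028) (nat_lit 553) (nat_lit 5) (nat_lit 574) (nat_lit 5) (nat_lit 554) (nat_lit 5) (nat_lit 423) (nat_lit 392) (nat_lit 385)) (XT.lf (nat_lit 0) (nat_lit 274869560) (nat_lit 1672) (nat_lit 3553344279) (nat_lit 1748) (nat_lit 3251368790) (nat_lit 509) (nat_lit 5) (nat_lit 531) (nat_lit 5) (nat_lit 532) (nat_lit 5) (nat_lit 424) (nat_lit 392) (nat_lit 384))))) (XT.nd (nat_lit 234) (nat_lit 3724) (nat_lit 0) (XT.nd (nat_lit 78) (nat_lit 2964) (nat_lit 0) (XT.lf (nat_lit 0) (nat_lit 644700748) (nat_lit 1748) (nat_lit 790454994) (nat_lit 1824) (nat_lit 5703101246) (nat_lit 485) (nat_lit 5) (nat_lit 508) (nat_lit 5) (nat_lit 509) (nat_lit 5) (nat_lit 425) (nat_lit 392) (nat_lit 383)) (XT.nd (nat_lit 78) (nat_lit 1140) (nat_lit 0) (XT.lf (nat_lit 0) (nat_lit 1053068565) (nat_lit 1824) (nat_lit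 5093828471) (nat_lit 1900) (nat_lit 1052804858) (nat_lit 461) (nat_lit 5) (nat_lit 485) (nat_lit 5) (nat_lit 486) (nat_lit 5) (nat_lit 426) (nat_lit 392) (nat_lit 382)) (XT.lf (nat_lit 0) (nat_lit 1504865570) (nat_lit 1064) (nat_lit 2106647190) (nat_lit 1140) (nat_lit 3652536912) (nat_lit 446) (nat_lit 5) (nat_lit 460) (nat_lit 5) (nat_lit 461) (nat_lit 5) (nat_lit 427) (nat_lit 392) (nat_lit 381)))) (XT.nd (nat_lit 156) (nat_lit 1824) (nat_lit 0) (XT.nd (nat_lit 78) (nat_lit 912) (nat_lit 0) (XT.lf (nat_lit 0) (nat_lit 985351028) (nat_lit 988) (nat_lit 5323061480) (nat_lit 76) (nat_lit 1023088948) (nat_lit 433) (nat_lit 5) (nat_lit 446) (nat_lit 5) (nat_lit 434) (nat_lit 5) (nat_lit 428) (nat_lit 392) (nat_lit 380)) (XT.lf (nat_lit 0) (nat_lit 2544510615) (nat_lit 912) (nat_lit 3107757093) (nat_lit 988) (nat_lit 1749450009) (nat_lit 421) (nat_lit 5) (nat_lit 433) (nat_lit 5) (nat_lit 434) (nat_lit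 5) (nat_lit 429) (nat_lit 392) (nat_lit 379))) (XT.nd (nat_lit 78) (nat_lit 912) (nat_lit 0) (XT.lf (nat_lit 0) (nat_lit 2875723072) (nat_lit 912) (nat_lit 4344975370) (nat_lit 76) (nat_lit 254373369) (nat_lit 409) (nat_lit 5) (nat_lit 421) (nat_lit 5) (nat_lit 410) (nat_lit 5) (nat_lit 430) (nat_lit 392) (nat_lit 378)) (XT.lf (nat_lit 0) (nat_lit 16929929) (nat_lit 912) (nat_lit 3798958757) (nat_lit 76) (nat_lit 3735464819) (nat_lit 397) (nat_lit 5) (nat_lit 409) (nat_lit 5) (nat_lit 398) (nat_lit 5) (nat_lit 431) (nat_lit 392) (nat_lit 377))))))) (XT.nd (nat_lit 936) (nat_lit 7296) (nat_lit 0) (XT.nd (nat_lit 468) (nat_lit 4028) (nat_lit 0) (XT.nd (nat_lit 234) (nat_lit 3040) (nat_lit 0) (XT.nd (nat_lit 78) (nat_lit 1672) (nat_lit 0) (XT.lf (nat_lit 0) (nat_lit 4412777586) (nat_lit 836) (nat_lit 231248451) (nat_lit 912) (nat_lit 2986605662) (nat_lit 386) (nat_lit 5) (nat_lit 397) (nat_lit 5) (nat_lit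 398) (nat_lit 5) (nat_lit 432) (nat_lit 392) (nat_lit 376)) (XT.nd (nat_lit 78) (nat_lit 760) (nat_lit 0) (XT.lf (nat_lit 0) (nat_lit 1635539198) (nat_lit 912) (nat_lit 2605362614) (nat_lit 76) (nat_lit 3471974642) (nat_lit 374) (nat_lit 5) (nat_lit 386) (nat_lit 5) (nat_lit 375) (nat_lit 5) (nat_lit 433) (nat_lit 392) (nat_lit 375)) (XT.lf (nat_lit 0) (nat_lit 5848106143) (nat_lit 760) (nat_lit 450035209) (nat_lit 836) (nat_lit 1500216451) (nat_lit 364) (nat_lit 5) (nat_lit 374) (nat_lit 5) (nat_lit 375) (nat_lit 5) (nat_lit 434) (nat_lit 392) (nat_lit 374)))) (XT.nd (nat_lit 78) (nat_lit 2204) (nat_lit 0) (XT.lf (nat_lit 0) (nat_lit 3138256966) (nat_lit 836) (nat_lit 1274981887) (nat_lit 76) (nat_lit 3473434392) (nat_lit 353) (nat_lit 5) (nat_lit 364) (nat_lit 5) (nat_lit 354) (nat_lit 5) (nat_lit 435) (nat_lit 392) (nat_lit 373)) (XT.nd (nat_lit 78) (nat_lit 1520) (nat_lit 0) (XT.lf (nat_lit 0)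 (nat_lit 7428298465) (nat_lit 684) (nat_lit 416788107) (nat_lit 760) (nat_lit 133372165) (nat_lit 344) (nat_lit 5) (nat_lit 353) (nat_lit 5) (nat_lit 354) (nat_lit 5) (nat_lit 436) (nat_lit 392) (nat_lit 372)) (XT.lf (nat_lit 0) (nat_lit 185244011) (nat_lit 684) (nat_lit 4349094255) (nat_lit 760) (nat_lit 3538573499) (nat_lit 324) (nat_lit 5) (nat_lit 333) (nat_lit 5) (nat_lit 334) (nat_lit 5) (nat_lit 437) (nat_lit 392) (nat_lit 371))))) (XT.nd (nat_lit 234) (nat_lit 1900) (nat_lit 0) (XT.nd (nat_lit 78) (nat_lit 1368) (nat_lit 0) (XT.lf (nat_lit 0) (nat_lit 978821288) (nat_lit 684) (nat_lit 134380379) (nat_lit 760) (nat_lit 7057667537) (nat_lit 314) (nat_lit 5) (nat_lit 323) (nat_lit 5) (nat_lit 324) (nat_lit 5) (nat_lit 438) (nat_lit 392) (nat_lit 370)) (XT.nd (nat_lit 78) (nat_lit 760) (nat_lit 0) (XT.lf (nat_lit 0) (nat_lit 1782502504) (nat_lit 608) (nat_lit 4056457573) (nat_lit 684) (nat_lit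 2432696700) (nat_lit 306) (nat_lit 5) (nat_lit 314) (nat_lit 5) (nat_lit 315) (nat_lit 5) (nat_lit 439) (nat_lit 392) (nat_lit 369)) (XT.lf (nat_lit 0) (nat_lit 2261060677) (nat_lit 760) (nat_lit 5747370425) (nat_lit 76) (nat_lit 367530871) (nat_lit 296) (nat_lit 5) (nat_lit 306) (nat_lit 5) (nat_lit 297) (nat_lit 5) (nat_lit 440) (nat_lit 392) (nat_lit 368)))) (XT.nd (nat_lit 78) (nat_lit 1292) (nat_lit 0) (XT.lf (nat_lit 0) (nat_lit 3491217062) (nat_lit 608) (nat_lit 3558869121) (nat_lit 684) (nat_lit 1433247026) (nat_lit 288) (nat_lit 5) (nat_lit 296) (nat_lit 5) (nat_lit 297) (nat_lit 5) (nat_lit 441) (nat_lit 392) (nat_lit 367)) (XT.nd (nat_lit 78) (nat_lit 608) (nat_lit 0) (XT.lf (nat_lit 0) (nat_lit 3313963242) (nat_lit 684) (nat_lit 4209707666) (nat_lit 76) (nat_lit 1070431782) (nat_lit 279) (nat_lit 5) (nat_lit 288) (nat_lit 5) (nat_lit 280) (nat_lit 5) (nat_lit 442) (nat_lit 392) (nat_lit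 366)) (XT.lf (nat_lit 0) (nat_lit 5303057369) (nat_lit 608) (nat_lit 2870239346) (nat_lit 684) (nat_lit 534933440) (nat_lit 271) (nat_lit 5) (nat_lit 279) (nat_lit 5) (nat_lit 280) (nat_lit 5) (nat_lit 443) (nat_lit 392) (nat_lit 365)))))) (XT.nd (nat_lit 468) (nat_lit 3268) (nat_lit 0) (XT.nd (nat_lit 234) (nat_lit 2204) (nat_lit 0) (XT.nd (nat_lit 78) (nat_lit 1140) (nat_lit 0) (XT.lf (nat_lit 0) (nat_lit 4276011738) (nat_lit 684) (nat_lit 2586676027) (nat_lit 76) (nat_lit 1962926680) (nat_lit 262) (nat_lit 5) (nat_lit 271) (nat_lit 5) (nat_lit 263) (nat_lit 5) (nat_lit 444) (nat_lit 392) (nat_lit 364)) (XT.nd (nat_lit 78) (nat_lit 532) (nat_lit 0) (XT.lf (nat_lit 0) (nat_lit 263257010) (nat_lit 608) (nat_lit 1738490473) (nat_lit 76) (nat_lit 6944886644) (nat_lit 254) (nat_lit 5) (nat_lit 262) (nat_lit 5) (nat_lit 255) (nat_lit 5) (nat_lit 445) (nat_lit 392) (nat_lit 363)) (XT.lf (nat_lit 0) (nat_lit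 5151435490) (nat_lit 608) (nat_lit 886622815) (nat_lit 76) (nat_lit 3032776753) (nat_lit 247) (nat_lit 5) (nat_lit 255) (nat_lit 5) (nat_lit 248) (nat_lit 5) (nat_lit 446) (nat_lit 392) (nat_lit 362)))) (XT.nd (nat_lit 78) (nat_lit 1596) (nat_lit 0) (XT.lf (nat_lit 0) (nat_lit 962775487) (nat_lit 608) (nat_lit 1542964) (nat_lit 76) (nat_lit 8234557410) (nat_lit 239) (nat_lit 5) (nat_lit 247) (nat_lit 5) (nat_lit 240) (nat_lit 5) (nat_lit 447) (nat_lit 392) (nat_lit 361)) (XT.nd (nat_lit 78) (nat_lit 608) (nat_lit 0) (XT.lf (nat_lit 0) (nat_lit 893882890) (nat_lit 456) (nat_lit 5055654288) (nat_lit 532) (nat_lit 3380481621) (nat_lit 226) (nat_lit 5) (nat_lit 232) (nat_lit 5) (nat_lit 233) (nat_lit 5) (nat_lit 448) (nat_lit 392) (nat_lit 360)) (XT.lf (nat_lit 0) (nat_lit 1587001040) (nat_lit 608) (nat_lit 7641997058) (nat_lit 76) (nat_lit 236144568) (nat_lit 218) (nat_lit 5) (nat_lit 226) (nat_lit 5)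 (nat_lit 219) (nat_lit 5) (nat_lit 449) (nat_lit 392) (nat_lit 359))))) (XT.nd (nat_lit 234) (nat_lit 1824) (nat_lit 0) (XT.nd (nat_lit 78) (nat_lit 988) (nat_lit 0) (XT.lf (nat_lit 0) (nat_lit 2747376584) (nat_lit 456) (nat_lit 3926145275) (nat_lit 532) (nat_lit 2930038646) (nat_lit 212) (nat_lit 5) (nat_lit 218) (nat_lit 5) (nat_lit 219) (nat_lit 5) (nat_lit 450) (nat_lit 392) (nat_lit 358)) (XT.nd (nat_lit 78) (nat_lit 456) (nat_lit 0) (XT.lf (nat_lit 0) (nat_lit 2132342973) (nat_lit 532) (nat_lit 6047722184) (nat_lit 76) (nat_lit 1565905089) (nat_lit 205) (nat_lit 5) (nat_lit 212) (nat_lit 5) (nat_lit 206) (nat_lit 5) (nat_lit 451) (nat_lit 392) (nat_lit 357)) (XT.lf (nat_lit 0) (nat_lit 4653510994) (nat_lit 456) (nat_lit 2666051481) (nat_lit 532) (nat_lit 2572452494) (nat_lit 199) (nat_lit 5) (nat_lit 205) (nat_lit 5) (nat_lit 206) (nat_lit 5) (nat_lit 452) (nat_lit 392) (nat_lit 356)))) (XT.nd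 (nat_lit 156) (nat_lit 912) (nat_lit 0) (XT.nd (nat_lit 78) (nat_lit 380) (nat_lit 0) (XT.lf (nat_lit 0) (nat_lit 2593907271) (nat_lit 532) (nat_lit 4420444222) (nat_lit 76) (nat_lit 3027588369) (nat_lit 192) (nat_lit 5) (nat_lit 199) (nat_lit 5) (nat_lit 193) (nat_lit 5) (nat_lit 453) (nat_lit 392) (nat_lit 355)) (XT.lf (nat_lit 0) (nat_lit 6603497754) (nat_lit 380) (nat_lit 1285447367) (nat_lit 456) (nat_lit 2306909672) (nat_lit 187) (nat_lit 5) (nat_lit 192) (nat_lit 5) (nat_lit 193) (nat_lit 5) (nat_lit 454) (nat_lit 392) (nat_lit 354))) (XT.nd (nat_lit 78) (nat_lit 380) (nat_lit 0) (XT.lf (nat_lit 0) (nat_lit 2972336837) (nat_lit 532) (nat_lit 2769561266) (nat_lit 76) (nat_lit 4611644190) (nat_lit 180) (nat_lit 5) (nat_lit 187) (nat_lit 5) (nat_lit 181) (nat_lit 5) (nat_lit 455) (nat_lit 392) (nat_lit 353)) (XT.lf (nat_lit 0) (nat_lit 8383565208) (nat_lit 456) (nat_lit 1928701862) (nat_lit 76)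 (nat_lit 203294165) (nat_lit 175) (nat_lit 5) (nat_lit 181) (nat_lit 5) (nat_lit 176) (nat_lit 5) (nat_lit 456) (nat_lit 392) (nat_lit 352))))))))
noncomputable def xc27 : XT := (XT.nd (nat_lit 1950) (nat_lit 1596) (nat_lit 0) (XT.nd (nat_lit 936) (nat_lit 3496) (nat_lit 0) (XT.nd (nat_lit 468) (nat_lit 2052) (nat_lit 0) (XT.nd (nat_lit 234) (nat_lit 1140) (nat_lit 0) (XT.nd (nat_lit 78) (nat_lit 1216) (nat_lit 0) (XT.lf (nat_lit 0) (nat_lit 3267528289) (nat_lit 456) (nat_lit 1104883485) (nat_lit 76) (nat_lit 6308892498) (nat_lit 169) (nat_lit 5) (nat_lit 175) (nat_lit 5) (nat_lit 170) (nat_lit 5) (nat_lit 457) (nat_lit 392) (nat_lit 351)) (XT.nd (nat_lit 78) (nat_lit 836) (nat_lit 0) (XT.lf (nat_lit 0) (nat_lit 8810905606) (nat_lit 456) (nat_lit 265295056) (nat_lit 76) (nat_lit 1775324793) (nat_lit 164) (nat_lit 5) (nat_lit 170) (nat_lit 5) (nat_lit 165) (nat_lit 5) (nat_lit 458) (nat_lit 392) (nat_lit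 350)) (XT.lf (nat_lit 0) (nat_lit 570741806) (nat_lit 380) (nat_lit 2911577575) (nat_lit 456) (nat_lit 7543396182) (nat_lit 153) (nat_lit 5) (nat_lit 158) (nat_lit 5) (nat_lit 159) (nat_lit 5) (nat_lit 459) (nat_lit 392) (nat_lit 349)))) (XT.nd (nat_lit 78) (nat_lit 760) (nat_lit 0) (XT.lf (nat_lit 0) (nat_lit 1414144051) (nat_lit 380) (nat_lit 7756650883) (nat_lit 456) (nat_lit 2033519258) (nat_lit 148) (nat_lit 5) (nat_lit 153) (nat_lit 5) (nat_lit 154) (nat_lit 5) (nat_lit 460) (nat_lit 392) (nat_lit 348)) (XT.nd (nat_lit 78) (nat_lit 380) (nat_lit 0) (XT.lf (nat_lit 0) (nat_lit 2253439968) (nat_lit 304) (nat_lit 1365126995) (nat_lit 380) (nat_lit 7768741291) (nat_lit 143) (nat_lit 5) (nat_lit 147) (nat_lit 5) (nat_lit 148) (nat_lit 5) (nat_lit 461) (nat_lit 392) (nat_lit 347)) (XT.lf (nat_lit 0) (nat_lit 3083093562) (nat_lit 380) (nat_lit 6370815946) (nat_lit 456) (nat_lit 2120791096) (nat_lit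 138) (nat_lit 5) (nat_lit 143) (nat_lit 5) (nat_lit 144) (nat_lit 5) (nat_lit 462) (nat_lit 392) (nat_lit 346))))) (XT.nd (nat_lit 234) (nat_lit 988) (nat_lit 0) (XT.nd (nat_lit 78) (nat_lit 684) (nat_lit 0) (XT.lf (nat_lit 0) (nat_lit 3668071406) (nat_lit 380) (nat_lit 7851862938) (nat_lit 76) (nat_lit 246904801) (nat_lit 133) (nat_lit 5) (nat_lit 138) (nat_lit 5) (nat_lit 134) (nat_lit 5) (nat_lit 463) (nat_lit 392) (nat_lit 345)) (XT.nd (nat_lit 78) (nat_lit 380) (nat_lit 0) (XT.lf (nat_lit 0) (nat_lit 4725714359) (nat_lit 304) (nat_lit 4930088821) (nat_lit 380) (nat_lit 2307581402) (nat_lit 129) (nat_lit 5) (nat_lit 133) (nat_lit 5) (nat_lit 134) (nat_lit 5) (nat_lit 464) (nat_lit 392) (nat_lit 344)) (XT.lf (nat_lit 0) (nat_lit 3635037383) (nat_lit 380) (nat_lit 6630076130) (nat_lit 76) (nat_lit 1899727957) (nat_lit 124) (nat_lit 5) (nat_lit 129) (nat_lit 5) (nat_lit 125) (nat_lit 5) (nat_lit 465)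 (nat_lit 392) (nat_lit 343)))) (XT.nd (nat_lit 78) (nat_lit 684) (nat_lit 0) (XT.lf (nat_lit 0) (nat_lit 6328704802) (nat_lit 304) (nat_lit 3444197394) (nat_lit 380) (nat_lit 2598171616) (nat_lit 120) (nat_lit 5) (nat_lit 124) (nat_lit 5) (nat_lit 125) (nat_lit 5) (nat_lit 466) (nat_lit 392) (nat_lit 342)) (XT.nd (nat_lit 78) (nat_lit 304) (nat_lit 0) (XT.lf (nat_lit 0) (nat_lit 3506206513) (nat_lit 380) (nat_lit 5474180481) (nat_lit 76) (nat_lit 3601836199) (nat_lit 115) (nat_lit 5) (nat_lit 120) (nat_lit 5) (nat_lit 116) (nat_lit 5) (nat_lit 467) (nat_lit 392) (nat_lit 341)) (XT.lf (nat_lit 0) (nat_lit 7877621516) (nat_lit 304) (nat_lit 1923087216) (nat_lit 380) (nat_lit 2997811949) (nat_lit 111) (nat_lit 5) (nat_lit 115) (nat_lit 5) (nat_lit 116) (nat_lit 5) (nat_lit 468) (nat_lit 392) (nat_lit 340)))))) (XT.nd (nat_lit 468) (nat_lit 1748) (nat_lit 0) (XT.nd (nat_lit 234) (nat_lit 836) (nat_lit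 0) (XT.nd (nat_lit 78) (nat_lit 608) (nat_lit 0) (XT.lf (nat_lit 0) (nat_lit 3276213724) (nat_lit 304) (nat_lit 4399976950) (nat_lit 76) (nat_lit 5343570216) (nat_lit 107) (nat_lit 5) (nat_lit 111) (nat_lit 5) (nat_lit 108) (nat_lit 5) (nat_lit 469) (nat_lit 392) (nat_lit 339)) (XT.nd (nat_lit 78) (nat_lit 304) (nat_lit 0) (XT.lf (nat_lit 0) (nat_lit 9356712800) (nat_lit 304) (nat_lit 377028491) (nat_lit 380) (nat_lit 3512783225) (nat_lit 103) (nat_lit 5) (nat_lit 107) (nat_lit 5) (nat_lit 108) (nat_lit 5) (nat_lit 470) (nat_lit 392) (nat_lit 338)) (XT.lf (nat_lit 0) (nat_lit 2938658738) (nat_lit 304) (nat_lit 3424706998) (nat_lit 76) (nat_lit 7114913619) (nat_lit 99) (nat_lit 5) (nat_lit 103) (nat_lit 5) (nat_lit 100) (nat_lit 5) (nat_lit 471) (nat_lit 392) (nat_lit 337)))) (XT.nd (nat_lit 78) (nat_lit 532) (nat_lit 0) (XT.lf (nat_lit 0) (nat_lit 9573148499) (nat_lit 380) (nat_lit 2974879204) (nat_lit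 76) (nat_lit 1167752666) (nat_lit 95) (nat_lit 5) (nat_lit 100) (nat_lit 5) (nat_lit 96) (nat_lit 5) (nat_lit 472) (nat_lit 392) (nat_lit 336)) (XT.nd (nat_lit 78) (nat_lit 228) (nat_lit 0) (XT.lf (nat_lit 0) (nat_lit 2486031275) (nat_lit 304) (nat_lit 2567243724) (nat_lit 76) (nat_lit 8905379188) (nat_lit 91) (nat_lit 5) (nat_lit 95) (nat_lit 5) (nat_lit 92) (nat_lit 5) (nat_lit 473) (nat_lit 392) (nat_lit 335)) (XT.lf (nat_lit 0) (nat_lit 9306049922) (nat_lit 304) (nat_lit 2190715514) (nat_lit 76) (nat_lit 2710527892) (nat_lit 88) (nat_lit 5) (nat_lit 92) (nat_lit 5) (nat_lit 89) (nat_lit 5) (nat_lit 474) (nat_lit 392) (nat_lit 334))))) (XT.nd (nat_lit 234) (nat_lit 912) (nat_lit 0) (XT.nd (nat_lit 78) (nat_lit 532) (nat_lit 0) (XT.lf (nat_lit 0) (nat_lit 1909625870) (nat_lit 304) (nat_lit 1848300537) (nat_lit 76) (nat_lit 10703888209) (nat_lit 84) (nat_lit 5) (nat_lit 88) (nat_lit 5) (nat_lit 85)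 (nat_lit 5) (nat_lit 475) (nat_lit 392) (nat_lit 333)) (XT.nd (nat_lit 78) (nat_lit 304) (nat_lit 0) (XT.lf (nat_lit 0) (nat_lit 8921034410) (nat_lit 304) (nat_lit 1556582524) (nat_lit 76) (nat_lit 4244452770) (nat_lit 81) (nat_lit 5) (nat_lit 85) (nat_lit 5) (nat_lit 82) (nat_lit 5) (nat_lit 476) (nat_lit 392) (nat_lit 332)) (XT.lf (nat_lit 0) (nat_lit 1199445419) (nat_lit 304) (nat_lit 1290659391) (nat_lit 76) (nat_lit 12498641801) (nat_lit 77) (nat_lit 5) (nat_lit 81) (nat_lit 5) (nat_lit 78) (nat_lit 5) (nat_lit 477) (nat_lit 392) (nat_lit 331)))) (XT.nd (nat_lit 156) (nat_lit 380) (nat_lit 0) (XT.nd (nat_lit 78) (nat_lit 304) (nat_lit 0) (XT.lf (nat_lit 0) (nat_lit 8407811786) (nat_lit 304) (nat_lit 1096382475) (nat_lit 76) (nat_lit 5756930955) (nat_lit 74) (nat_lit 5) (nat_lit 78) (nat_lit 5) (nat_lit 75) (nat_lit 5) (nat_lit 478) (nat_lit 392) (nat_lit 330)) (XT.lf (nat_lit 0) (nat_lit 344092479)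 (nat_lit 304) (nat_lit 919420797) (nat_lit 76) (nat_lit 14276982999) (nat_lit 70) (nat_lit 5) (nat_lit 74) (nat_lit 5) (nat_lit 71) (nat_lit 5) (nat_lit 479) (nat_lit 392) (nat_lit 329))) (XT.nd (nat_lit 78) (nat_lit 152) (nat_lit 0) (XT.lf (nat_lit 0) (nat_lit 7754650208) (nat_lit 304) (nat_lit 836471770) (nat_lit 76) (nat_lit 7234415520) (nat_lit 67) (nat_lit 5) (nat_lit 71) (nat_lit 5) (nat_lit 68) (nat_lit 5) (nat_lit 480) (nat_lit 392) (nat_lit 328)) (XT.lf (nat_lit 0) (nat_lit 15351403784) (nat_lit 152) (nat_lit 88433551) (nat_lit 228) (nat_lit 678248150) (nat_lit 65) (nat_lit 5) (nat_lit 67) (nat_lit 5) (nat_lit 68) (nat_lit 5) (nat_lit 481) (nat_lit 392) (nat_lit 327))))))) (XT.nd (nat_lit 57642) (nat_lit 0) (nat_lit 25992) (XT.nd (nat_lit 468) (nat_lit 228) (nat_lit 0) (XT.nd (nat_lit 234) (nat_lit 608) (nat_lit 0) (XT.nd (nat_lit 78) (nat_lit 456) (nat_lit 0) (XT.lf (nat_lit 0) (nat_lit 6948247532)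 (nat_lit 304) (nat_lit 805948234) (nat_lit 76) (nat_lit 8662254220) (nat_lit 61) (nat_lit 5) (nat_lit 65) (nat_lit 5) (nat_lit 62) (nat_lit 5) (nat_lit 482) (nat_lit 392) (nat_lit 326)) (XT.nd (nat_lit 78) (nat_lit 304) (nat_lit 0) (XT.lf (nat_lit 0) (nat_lit 14849194802) (nat_lit 228) (nat_lit 868635685) (nat_lit 76) (nat_lit 1004749484) (nat_lit 59) (nat_lit 5) (nat_lit 62) (nat_lit 5) (nat_lit 60) (nat_lit 5) (nat_lit 483) (nat_lit 392) (nat_lit 325)) (XT.lf (nat_lit 0) (nat_lit 5973587439) (nat_lit 304) (nat_lit 1036966732) (nat_lit 76) (nat_lit 10024521981) (nat_lit 55) (nat_lit 5) (nat_lit 59) (nat_lit 5) (nat_lit 56) (nat_lit 5) (nat_lit 484) (nat_lit 392) (nat_lit 324)))) (XT.nd (nat_lit 78) (nat_lit 456) (nat_lit 0) (XT.lf (nat_lit 0) (nat_lit 14095310369) (nat_lit 228) (nat_lit 1250330596) (nat_lit 76) (nat_lit 2009764248) (nat_lit 53) (nat_lit 5) (nat_lit 56) (nat_lit 5) (nat_lit 54) (nat_lit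 5) (nat_lit 485) (nat_lit 392) (nat_lit 323)) (XT.nd (nat_lit 78) (nat_lit 152) (nat_lit 0) (XT.lf (nat_lit 0) (nat_lit 4813778886) (nat_lit 304) (nat_lit 1565086253) (nat_lit 76) (nat_lit 11303839007) (nat_lit 49) (nat_lit 5) (nat_lit 53) (nat_lit 5) (nat_lit 50) (nat_lit 5) (nat_lit 486) (nat_lit 392) (nat_lit 322)) (XT.lf (nat_lit 0) (nat_lit 13160195435) (nat_lit 228) (nat_lit 1948591708) (nat_lit 76) (nat_lit 2909112951) (nat_lit 47) (nat_lit 5) (nat_lit 50) (nat_lit 5) (nat_lit 48) (nat_lit 5) (nat_lit 487) (nat_lit 392) (nat_lit 321))))) (XT.nd (nat_lit 56862) (nat_lit 0) (nat_lit 44460) (XT.nd (nat_lit 56706) (nat_lit 0) (nat_lit 49096) (XT.lf (nat_lit 0) (nat_lit 3449877275) (nat_lit 228) (nat_lit 2429651833) (nat_lit 76) (nat_lit 12481172731) (nat_lit 44) (nat_lit 5) (nat_lit 47) (nat_lit 5) (nat_lit 45) (nat_lit 5) (nat_lit 488) (nat_lit 392) (nat_lit 320)) (XT.nd (nat_lit 78) (nat_lit 988)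 (nat_lit 0) (XT.lf (nat_lit 0) (nat_lit 3085491871) (nat_lit 836) (nat_lit 119999004) (nat_lit 836) (nat_lit 119999004) (nat_lit 703) (nat_lit 4) (nat_lit 714) (nat_lit 5) (nat_lit 714) (nat_lit 4) (nat_lit 414) (nat_lit 393) (nat_lit 393)) (XT.lf (nat_lit 0) (nat_lit 4658479734) (nat_lit 988) (nat_lit 721649695) (nat_lit 0) (nat_lit 1301975418) (nat_lit 690) (nat_lit 5) (nat_lit 703) (nat_lit 4) (nat_lit 690) (nat_lit 4) (nat_lit 415) (nat_lit 393) (nat_lit 392)))) (XT.nd (nat_lit 156) (nat_lit 2432) (nat_lit 0) (XT.nd (nat_lit 78) (nat_lit 1140) (nat_lit 0) (XT.lf (nat_lit 0) (nat_lit 2827679662) (nat_lit 1064) (nat_lit 903333451) (nat_lit 76) (nat_lit 2985148015) (nat_lit 676) (nat_lit 5) (nat_lit 690) (nat_lit 5) (nat_lit 677) (nat_lit 4) (nat_lit 416) (nat_lit 393) (nat_lit 391)) (XT.lf (nat_lit 0) (nat_lit 915064824) (nat_lit 1140) (nat_lit 1023707603) (nat_lit 76) (nat_lit 4814431235) (nat_lit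 661) (nat_lit 5) (nat_lit 676) (nat_lit 5) (nat_lit 662) (nat_lit 5) (nat_lit 417) (nat_lit 393) (nat_lit 390))) (XT.nd (nat_lit 78) (nat_lit 1292) (nat_lit 0) (XT.lf (nat_lit 0) (nat_lit 5697375712) (nat_lit 1216) (nat_lit 1090076097) (nat_lit 76) (nat_lit 5663629) (nat_lit 646) (nat_lit 5) (nat_lit 662) (nat_lit 5) (nat_lit 647) (nat_lit 4) (nat_lit 418) (nat_lit 393) (nat_lit 389)) (XT.lf (nat_lit 0) (nat_lit 3643691647) (nat_lit 1292) (nat_lit 1115544976) (nat_lit 76) (nat_lit 2076427605) (nat_lit 629) (nat_lit 5) (nat_lit 646) (nat_lit 5) (nat_lit 630) (nat_lit 5) (nat_lit 419) (nat_lit 393) (nat_lit 388)))))) (XT.nd (nat_lit 468) (nat_lit 9272) (nat_lit 0) (XT.nd (nat_lit 234) (nat_lit 4940) (nat_lit 0) (XT.nd (nat_lit 78) (nat_lit 2888) (nat_lit 0) (XT.lf (nat_lit 0) (nat_lit 1504671819) (nat_lit 1368) (nat_lit 1081514666) (nat_lit 76) (nat_lit 4295066284) (nat_lit 611) (nat_lit 5) (nat_lit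 629) (nat_lit 5) (nat_lit 612) (nat_lit 5) (nat_lit 420) (nat_lit 393) (nat_lit 387)) (XT.nd (nat_lit 78) (nat_lit 1520) (nat_lit 0) (XT.lf (nat_lit 0) (nat_lit 5937099761) (nat_lit 1368) (nat_lit 261155671) (nat_lit 1444) (nat_lit 731562580) (nat_lit 593) (nat_lit 5) (nat_lit 611) (nat_lit 5) (nat_lit 612) (nat_lit 5) (nat_lit 421) (nat_lit 393) (nat_lit 386)) (XT.lf (nat_lit 0) (nat_lit 3916738423) (nat_lit 1520) (nat_lit 869256118) (nat_lit 76) (nat_lit 2194995923) (nat_lit 573) (nat_lit 5) (nat_lit 593) (nat_lit 5) (nat_lit 574) (nat_lit 5) (nat_lit 422) (nat_lit 393) (nat_lit 385)))) (XT.nd (nat_lit 78) (nat_lit 3344) (nat_lit 0) (XT.lf (nat_lit 0) (nat_lit 1547355707) (nat_lit 1596) (nat_lit 689345268) (nat_lit 76) (nat_lit 4798538247) (nat_lit 552) (nat_lit 5) (nat_lit 573) (nat_lit 5) (nat_lit 553) (nat_lit 5) (nat_lit 423) (nat_lit 393) (nat_lit 384)) (XT.nd (nat_lit 78) (nat_lit 1748) (nat_lit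 0) (XT.lf (nat_lit 0) (nat_lit 6169293128) (nat_lit 1672) (nat_lit 460172322) (nat_lit 76) (nat_lit 462989491) (nat_lit 531) (nat_lit 5) (nat_lit 553) (nat_lit 5) (nat_lit 532) (nat_lit 5) (nat_lit 424) (nat_lit 393) (nat_lit 383)) (XT.lf (nat_lit 0) (nat_lit 3658012279) (nat_lit 1748) (nat_lit 198827499) (nat_lit 76) (nat_lit 3295491406) (nat_lit 508) (nat_lit 5) (nat_lit 531) (nat_lit 5) (nat_lit 509) (nat_lit 5) (nat_lit 425) (nat_lit 393) (nat_lit 382))))) (XT.nd (nat_lit 234) (nat_lit 3572) (nat_lit 0) (XT.nd (nat_lit 78) (nat_lit 2052) (nat_lit 0) (XT.lf (nat_lit 0) (nat_lit 121318505) (nat_lit 1824) (nat_lit 931706094) (nat_lit 1900) (nat_lit 6162364742) (nat_lit 460) (nat_lit 5) (nat_lit 484) (nat_lit 5) (nat_lit 485) (nat_lit 5) (nat_lit 426) (nat_lit 393) (nat_lit 381)) (XT.nd (nat_lit 78) (nat_lit 988) (nat_lit 0) (XT.lf (nat_lit 0) (nat_lit 477212820) (nat_lit 1064) (nat_lit 5148639323)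 (nat_lit 1140) (nat_lit 1655309212) (nat_lit 446) (nat_lit 5) (nat_lit 460) (nat_lit 5) (nat_lit 461) (nat_lit 5) (nat_lit 427) (nat_lit 393) (nat_lit 380)) (XT.lf (nat_lit 0) (nat_lit 876905828) (nat_lit 912) (nat_lit 2001439268) (nat_lit 988) (nat_lit 4471576437) (nat_lit 433) (nat_lit 5) (nat_lit 445) (nat_lit 5) (nat_lit 446) (nat_lit 5) (nat_lit 428) (nat_lit 393) (nat_lit 379)))) (XT.nd (nat_lit 156) (nat_lit 1748) (nat_lit 0) (XT.nd (nat_lit 78) (nat_lit 836) (nat_lit 0) (XT.lf (nat_lit 0) (nat_lit 39525685) (nat_lit 988) (nat_lit 6096420058) (nat_lit 76) (nat_lit 1285861562) (nat_lit 420) (nat_lit 5) (nat_lit 433) (nat_lit 5) (nat_lit 421) (nat_lit 5) (nat_lit 429) (nat_lit 393) (nat_lit 378)) (XT.lf (nat_lit 0) (nat_lit 1798072333) (nat_lit 836) (nat_lit 2771847156) (nat_lit 912) (nat_lit 2926457857) (nat_lit 409) (nat_lit 5) (nat_lit 420) (nat_lit 5) (nat_lit 421) (nat_lit 5) (nat_lit 430)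 (nat_lit 393) (nat_lit 377))) (XT.nd (nat_lit 78) (nat_lit 836) (nat_lit 0) (XT.lf (nat_lit 0) (nat_lit 1579922124) (nat_lit 912) (nat_lit 5252035736) (nat_lit 76) (nat_lit 742249229) (nat_lit 397) (nat_lit 5) (nat_lit 409) (nat_lit 5) (nat_lit 398) (nat_lit 5) (nat_lit 431) (nat_lit 393) (nat_lit 376)) (XT.lf (nat_lit 0) (nat_lit 2874011835) (nat_lit 836) (nat_lit 3263793083) (nat_lit 912) (nat_lit 1517070564) (nat_lit 386) (nat_lit 5) (nat_lit 397) (nat_lit 5) (nat_lit 398) (nat_lit 5) (nat_lit 432) (nat_lit 393) (nat_lit 375))))))))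
noncomputable def xc28 : XT := (XT.nd (nat_lit 1950) (nat_lit 8208) (nat_lit 0) (XT.nd (nat_lit 936) (nat_lit 7068) (nat_lit 0) (XT.nd (nat_lit 468) (nat_lit 4636) (nat_lit 0) (XT.nd (nat_lit 234) (nat_lit 2280) (nat_lit 0) (XT.nd (nat_lit 78) (nat_lit 1596) (nat_lit 0) (XT.lf (nat_lit 0) (nat_lit 2996978499) (nat_lit 912) (nat_lit 4270601640) (nat_lit 76) (nat_lit 471131373) (nat_lit 374) (nat_lit 5) (nat_lit 386) (nat_lit 5) (nat_lit 375) (nat_lit 5) (nat_lit 433) (nat_lit 393) (nat_lit 374)) (XT.nd (nat_lit 78) (nat_lit 836) (nat_lit 0) (XT.lf (nat_lit 0) (nat_lit 4094602937) (nat_lit 760) (nat_lit 3496522681) (nat_lit 836) (nat_lit 234441826) (nat_lit 364) (nat_lit 5) (nat_lit 374) (nat_lit 5) (nat_lit 375) (nat_lit 5) (nat_lit 434) (nat_lit 393) (nat_lit 373)) (XT.lf (nat_lit 0) (nat_lit 4299171311) (nat_lit 836) (nat_lit 3162065480) (nat_lit 76) (nat_lit 454252139) (nat_lit 353) (nat_lit 5) (nat_lit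 364) (nat_lit 5) (nat_lit 354) (nat_lit 5) (nat_lit 435) (nat_lit 393) (nat_lit 372)))) (XT.nd (nat_lit 78) (nat_lit 1520) (nat_lit 0) (XT.lf (nat_lit 0) (nat_lit 917295422) (nat_lit 760) (nat_lit 2564351186) (nat_lit 76) (nat_lit 4526869745) (nat_lit 343) (nat_lit 5) (nat_lit 353) (nat_lit 5) (nat_lit 344) (nat_lit 5) (nat_lit 436) (nat_lit 393) (nat_lit 371)) (XT.nd (nat_lit 78) (nat_lit 760) (nat_lit 0) (XT.lf (nat_lit 0) (nat_lit 5494111144) (nat_lit 836) (nat_lit 1935855658) (nat_lit 76) (nat_lit 674772992) (nat_lit 333) (nat_lit 5) (nat_lit 344) (nat_lit 5) (nat_lit 334) (nat_lit 5) (nat_lit 437) (nat_lit 393) (nat_lit 370)) (XT.lf (nat_lit 0) (nat_lit 1955905636) (nat_lit 760) (nat_lit 1285017305) (nat_lit 76) (nat_lit 4963119800) (nat_lit 323) (nat_lit 5) (nat_lit 333) (nat_lit 5) (nat_lit 324) (nat_lit 5) (nat_lit 438) (nat_lit 393) (nat_lit 369))))) (XT.nd (nat_lit 234) (nat_lit 1976) (nat_lit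 0) (XT.nd (nat_lit 78) (nat_lit 1976) (nat_lit 0) (XT.lf (nat_lit 0) (nat_lit 6588582929) (nat_lit 760) (nat_lit 600965923) (nat_lit 76) (nat_lit 1117147542) (nat_lit 314) (nat_lit 5) (nat_lit 324) (nat_lit 5) (nat_lit 315) (nat_lit 5) (nat_lit 439) (nat_lit 393) (nat_lit 368)) (XT.nd (nat_lit 78) (nat_lit 608) (nat_lit 0) (XT.lf (nat_lit 0) (nat_lit 101006541) (nat_lit 684) (nat_lit 2790382713) (nat_lit 760) (nat_lit 5521021442) (nat_lit 296) (nat_lit 5) (nat_lit 305) (nat_lit 5) (nat_lit 306) (nat_lit 5) (nat_lit 440) (nat_lit 393) (nat_lit 367)) (XT.lf (nat_lit 0) (nat_lit 845043990) (nat_lit 608) (nat_lit 6749022983) (nat_lit 684) (nat_lit 927446035) (nat_lit 288) (nat_lit 5) (nat_lit 296) (nat_lit 5) (nat_lit 297) (nat_lit 5) (nat_lit 441) (nat_lit 393) (nat_lit 366)))) (XT.nd (nat_lit 78) (nat_lit 1292) (nat_lit 0) (XT.lf (nat_lit 0) (nat_lit 1602197659) (nat_lit 608) (nat_lit 2135463264) (nat_lit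 684) (nat_lit 4896069198) (nat_lit 279) (nat_lit 5) (nat_lit 287) (nat_lit 5) (nat_lit 288) (nat_lit 5) (nat_lit 442) (nat_lit 393) (nat_lit 365)) (XT.nd (nat_lit 78) (nat_lit 684) (nat_lit 0) (XT.lf (nat_lit 0) (nat_lit 2391921229) (nat_lit 608) (nat_lit 6122943493) (nat_lit 684) (nat_lit 234639263) (nat_lit 271) (nat_lit 5) (nat_lit 279) (nat_lit 5) (nat_lit 280) (nat_lit 5) (nat_lit 443) (nat_lit 393) (nat_lit 364)) (XT.lf (nat_lit 0) (nat_lit 3193038748) (nat_lit 608) (nat_lit 1297888279) (nat_lit 684) (nat_lit 4377554687) (nat_lit 262) (nat_lit 5) (nat_lit 270) (nat_lit 5) (nat_lit 271) (nat_lit 5) (nat_lit 444) (nat_lit 393) (nat_lit 363)))))) (XT.nd (nat_lit 468) (nat_lit 3724) (nat_lit 0) (XT.nd (nat_lit 234) (nat_lit 1596) (nat_lit 0) (XT.nd (nat_lit 78) (nat_lit 1140) (nat_lit 0) (XT.lf (nat_lit 0) (nat_lit 355656936) (nat_lit 608) (nat_lit 4970036478) (nat_lit 76) (nat_lit 3665336923) (nat_lit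 254) (nat_lit 5) (nat_lit 262) (nat_lit 5) (nat_lit 255) (nat_lit 5) (nat_lit 445) (nat_lit 393) (nat_lit 362)) (XT.nd (nat_lit 78) (nat_lit 608) (nat_lit 0) (XT.lf (nat_lit 0) (nat_lit 4865239825) (nat_lit 532) (nat_lit 289865410) (nat_lit 608) (nat_lit 3961903982) (nat_lit 247) (nat_lit 5) (nat_lit 254) (nat_lit 5) (nat_lit 255) (nat_lit 5) (nat_lit 446) (nat_lit 393) (nat_lit 361)) (XT.lf (nat_lit 0) (nat_lit 849686412) (nat_lit 608) (nat_lit 3520958578) (nat_lit 76) (nat_lit 4875836579) (nat_lit 239) (nat_lit 5) (nat_lit 247) (nat_lit 5) (nat_lit 240) (nat_lit 5) (nat_lit 447) (nat_lit 393) (nat_lit 360)))) (XT.nd (nat_lit 78) (nat_lit 1064) (nat_lit 0) (XT.lf (nat_lit 0) (nat_lit 5739080161) (nat_lit 608) (nat_lit 2774809617) (nat_lit 76) (nat_lit 865685183) (nat_lit 232) (nat_lit 5) (nat_lit 240) (nat_lit 5) (nat_lit 233) (nat_lit 5) (nat_lit 448) (nat_lit 393) (nat_lit 359)) (XT.nd (nat_lit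 78) (nat_lit 532) (nat_lit 0) (XT.lf (nat_lit 0) (nat_lit 1253106530) (nat_lit 532) (nat_lit 2017418354) (nat_lit 76) (nat_lit 6245756481) (nat_lit 225) (nat_lit 5) (nat_lit 232) (nat_lit 5) (nat_lit 226) (nat_lit 5) (nat_lit 449) (nat_lit 393) (nat_lit 358)) (XT.lf (nat_lit 0) (nat_lit 6242471274) (nat_lit 608) (nat_lit 1250373683) (nat_lit 76) (nat_lit 2163800226) (nat_lit 218) (nat_lit 5) (nat_lit 226) (nat_lit 5) (nat_lit 219) (nat_lit 5) (nat_lit 450) (nat_lit 393) (nat_lit 357))))) (XT.nd (nat_lit 234) (nat_lit 1748) (nat_lit 0) (XT.nd (nat_lit 78) (nat_lit 1444) (nat_lit 0) (XT.lf (nat_lit 0) (nat_lit 1567770569) (nat_lit 532) (nat_lit 468111609) (nat_lit 76) (nat_lit 7764974067) (nat_lit 211) (nat_lit 5) (nat_lit 218) (nat_lit 5) (nat_lit 212) (nat_lit 5) (nat_lit 451) (nat_lit 393) (nat_lit 356)) (XT.nd (nat_lit 78) (nat_lit 532) (nat_lit 0) (XT.lf (nat_lit 0) (nat_lit 318857880) (nat_lit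 456) (nat_lit 6348296879) (nat_lit 532) (nat_lit 3281505558) (nat_lit 199) (nat_lit 5) (nat_lit 205) (nat_lit 5) (nat_lit 206) (nat_lit 5) (nat_lit 452) (nat_lit 393) (nat_lit 355)) (XT.lf (nat_lit 0) (nat_lit 1132928007) (nat_lit 456) (nat_lit 669232578) (nat_lit 532) (nat_lit 8298359073) (nat_lit 192) (nat_lit 5) (nat_lit 198) (nat_lit 5) (nat_lit 199) (nat_lit 5) (nat_lit 453) (nat_lit 393) (nat_lit 354)))) (XT.nd (nat_lit 156) (nat_lit 836) (nat_lit 0) (XT.nd (nat_lit 78) (nat_lit 532) (nat_lit 0) (XT.lf (nat_lit 0) (nat_lit 1936747226) (nat_lit 380) (nat_lit 5083720007) (nat_lit 456) (nat_lit 3235504421) (nat_lit 187) (nat_lit 5) (nat_lit 192) (nat_lit 5) (nat_lit 193) (nat_lit 5) (nat_lit 454) (nat_lit 393) (nat_lit 353)) (XT.lf (nat_lit 0) (nat_lit 1957871998) (nat_lit 532) (nat_lit 7652900007) (nat_lit 76) (nat_lit 804971029) (nat_lit 180) (nat_lit 5) (nat_lit 187) (nat_lit 5) (nat_lit 181)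 (nat_lit 5) (nat_lit 455) (nat_lit 393) (nat_lit 352))) (XT.nd (nat_lit 78) (nat_lit 456) (nat_lit 0) (XT.lf (nat_lit 0) (nat_lit 3577212237) (nat_lit 380) (nat_lit 3717157498) (nat_lit 456) (nat_lit 3284889110) (nat_lit 175) (nat_lit 5) (nat_lit 180) (nat_lit 5) (nat_lit 181) (nat_lit 5) (nat_lit 456) (nat_lit 393) (nat_lit 351)) (XT.lf (nat_lit 0) (nat_lit 2031147002) (nat_lit 456) (nat_lit 6341154102) (nat_lit 76) (nat_lit 2374824804) (nat_lit 169) (nat_lit 5) (nat_lit 175) (nat_lit 5) (nat_lit 170) (nat_lit 5) (nat_lit 457) (nat_lit 393) (nat_lit 350))))))) (XT.nd (nat_lit 936) (nat_lit 3496) (nat_lit 0) (XT.nd (nat_lit 468) (nat_lit 2280) (nat_lit 0) (XT.nd (nat_lit 234) (nat_lit 1216) (nat_lit 0) (XT.nd (nat_lit 78) (nat_lit 836) (nat_lit 0) (XT.lf (nat_lit 0) (nat_lit 5230328356) (nat_lit 380) (nat_lit 2257979299) (nat_lit 456) (nat_lit 3430765854) (nat_lit 164) (nat_lit 5) (nat_lit 169) (nat_lit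 5) (nat_lit 170) (nat_lit 5) (nat_lit 458) (nat_lit 393) (nat_lit 349)) (XT.nd (nat_lit 78) (nat_lit 380) (nat_lit 0) (XT.lf (nat_lit 0) (nat_lit 2016401290) (nat_lit 456) (nat_lit 5038741083) (nat_lit 76) (nat_lit 4040183827) (nat_lit 158) (nat_lit 5) (nat_lit 164) (nat_lit 5) (nat_lit 159) (nat_lit 5) (nat_lit 459) (nat_lit 393) (nat_lit 348)) (XT.lf (nat_lit 0) (nat_lit 6885598785) (nat_lit 380) (nat_lit 715364079) (nat_lit 456) (nat_lit 3675042170) (nat_lit 153) (nat_lit 5) (nat_lit 158) (nat_lit 5) (nat_lit 159) (nat_lit 5) (nat_lit 460) (nat_lit 393) (nat_lit 347)))) (XT.nd (nat_lit 78) (nat_lit 760) (nat_lit 0) (XT.lf (nat_lit 0) (nat_lit 1911605415) (nat_lit 456) (nat_lit 3757061063) (nat_lit 76) (nat_lit 5792286960) (nat_lit 147) (nat_lit 5) (nat_lit 153) (nat_lit 5) (nat_lit 148) (nat_lit 5) (nat_lit 461) (nat_lit 393) (nat_lit 346)) (XT.nd (nat_lit 78) (nat_lit 456) (nat_lit 0) (XT.lf (nat_lit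 0) (nat_lit 7636079260) (nat_lit 380) (nat_lit 3124701970) (nat_lit 76) (nat_lit 889783712) (nat_lit 143) (nat_lit 5) (nat_lit 148) (nat_lit 5) (nat_lit 144) (nat_lit 5) (nat_lit 462) (nat_lit 393) (nat_lit 345)) (XT.lf (nat_lit 0) (nat_lit 1713907120) (nat_lit 456) (nat_lit 2508307952) (nat_lit 76) (nat_lit 7622442126) (nat_lit 137) (nat_lit 5) (nat_lit 143) (nat_lit 5) (nat_lit 138) (nat_lit 5) (nat_lit 463) (nat_lit 393) (nat_lit 344))))) (XT.nd (nat_lit 234) (nat_lit 1292) (nat_lit 0) (XT.nd (nat_lit 78) (nat_lit 684) (nat_lit 0) (XT.lf (nat_lit 0) (nat_lit 7589934496) (nat_lit 380) (nat_lit 1903528166) (nat_lit 76) (nat_lit 2549975707) (nat_lit 133) (nat_lit 5) (nat_lit 138) (nat_lit 5) (nat_lit 134) (nat_lit 5) (nat_lit 464) (nat_lit 393) (nat_lit 343)) (XT.nd (nat_lit 78) (nat_lit 304) (nat_lit 0) (XT.lf (nat_lit 0) (nat_lit 1419591607) (nat_lit 380) (nat_lit 1305604862) (nat_lit 76) (nat_lit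 9521932357) (nat_lit 128) (nat_lit 5) (nat_lit 133) (nat_lit 5) (nat_lit 129) (nat_lit 5) (nat_lit 465) (nat_lit 393) (nat_lit 342)) (XT.lf (nat_lit 0) (nat_lit 7454017855) (nat_lit 380) (nat_lit 735865990) (nat_lit 76) (nat_lit 4265547616) (nat_lit 124) (nat_lit 5) (nat_lit 129) (nat_lit 5) (nat_lit 125) (nat_lit 5) (nat_lit 466) (nat_lit 393) (nat_lit 341)))) (XT.nd (nat_lit 78) (nat_lit 912) (nat_lit 0) (XT.lf (nat_lit 0) (nat_lit 1024034161) (nat_lit 380) (nat_lit 163150293) (nat_lit 76) (nat_lit 11481918890) (nat_lit 119) (nat_lit 5) (nat_lit 124) (nat_lit 5) (nat_lit 120) (nat_lit 5) (nat_lit 467) (nat_lit 393) (nat_lit 340)) (XT.nd (nat_lit 78) (nat_lit 304) (nat_lit 0) (XT.lf (nat_lit 0) (nat_lit 368334155) (nat_lit 304) (nat_lit 6857599297) (nat_lit 380) (nat_lit 5661320844) (nat_lit 111) (nat_lit 5) (nat_lit 115) (nat_lit 5) (nat_lit 116) (nat_lit 5) (nat_lit 468) (nat_lit 393) (nat_lit 339))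 (XT.lf (nat_lit 0) (nat_lit 530108940) (nat_lit 304) (nat_lit 12198129886) (nat_lit 76) (nat_lit 382953447) (nat_lit 107) (nat_lit 5) (nat_lit 111) (nat_lit 5) (nat_lit 108) (nat_lit 5) (nat_lit 469) (nat_lit 393) (nat_lit 338)))))) (XT.nd (nat_lit 468) (nat_lit 1824) (nat_lit 0) (XT.nd (nat_lit 234) (nat_lit 760) (nat_lit 0) (XT.nd (nat_lit 78) (nat_lit 608) (nat_lit 0) (XT.lf (nat_lit 0) (nat_lit 1396797800) (nat_lit 304) (nat_lit 5505009948) (nat_lit 380) (nat_lit 6437866025) (nat_lit 103) (nat_lit 5) (nat_lit 107) (nat_lit 5) (nat_lit 108) (nat_lit 5) (nat_lit 470) (nat_lit 393) (nat_lit 337)) (XT.nd (nat_lit 78) (nat_lit 380) (nat_lit 0) (XT.lf (nat_lit 0) (nat_lit 1889228321) (nat_lit 228) (nat_lit 11615117174) (nat_lit 304) (nat_lit 69873023) (nat_lit 100) (nat_lit 5) (nat_lit 103) (nat_lit 5) (nat_lit 104) (nat_lit 5) (nat_lit 471) (nat_lit 393) (nat_lit 336)) (XT.lf (nat_lit 0) (nat_lit 2321910726)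 (nat_lit 304) (nat_lit 4147955680) (nat_lit 380) (nat_lit 7343776733) (nat_lit 95) (nat_lit 5) (nat_lit 99) (nat_lit 5) (nat_lit 100) (nat_lit 5) (nat_lit 472) (nat_lit 393) (nat_lit 335)))) (XT.nd (nat_lit 78) (nat_lit 532) (nat_lit 0) (XT.lf (nat_lit 0) (nat_lit 2748532149) (nat_lit 228) (nat_lit 10510269552) (nat_lit 304) (nat_lit 800362867) (nat_lit 92) (nat_lit 5) (nat_lit 95) (nat_lit 5) (nat_lit 96) (nat_lit 5) (nat_lit 473) (nat_lit 393) (nat_lit 334)) (XT.nd (nat_lit 78) (nat_lit 228) (nat_lit 0) (XT.lf (nat_lit 0) (nat_lit 3124120230) (nat_lit 228) (nat_lit 2797917381) (nat_lit 304) (nat_lit 8388033439) (nat_lit 88) (nat_lit 5) (nat_lit 91) (nat_lit 5) (nat_lit 92) (nat_lit 5) (nat_lit 474) (nat_lit 393) (nat_lit 333)) (XT.lf (nat_lit 0) (nat_lit 3474048149) (nat_lit 228) (nat_lit 9429432895) (nat_lit 304) (nat_lit 1663555164) (nat_lit 85) (nat_lit 5) (nat_lit 88) (nat_lit 5) (nat_lit 89)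 (nat_lit 5) (nat_lit 475) (nat_lit 393) (nat_lit 332))))) (XT.nd (nat_lit 234) (nat_lit 988) (nat_lit 0) (XT.nd (nat_lit 78) (nat_lit 532) (nat_lit 0) (XT.lf (nat_lit 0) (nat_lit 3781939235) (nat_lit 228) (nat_lit 1467081290) (nat_lit 304) (nat_lit 9580900827) (nat_lit 81) (nat_lit 5) (nat_lit 84) (nat_lit 5) (nat_lit 85) (nat_lit 5) (nat_lit 476) (nat_lit 393) (nat_lit 331)) (XT.nd (nat_lit 78) (nat_lit 304) (nat_lit 0) (XT.lf (nat_lit 0) (nat_lit 4043241248) (nat_lit 228) (nat_lit 8385577682) (nat_lit 304) (nat_lit 2670007285) (nat_lit 78) (nat_lit 5) (nat_lit 81) (nat_lit 5) (nat_lit 82) (nat_lit 5) (nat_lit 477) (nat_lit 393) (nat_lit 330)) (XT.lf (nat_lit 0) (nat_lit 4271709181) (nat_lit 228) (nat_lit 168474148) (nat_lit 304) (nat_lit 10934033016) (nat_lit 74) (nat_lit 5) (nat_lit 77) (nat_lit 5) (nat_lit 78) (nat_lit 5) (nat_lit 478) (nat_lit 393) (nat_lit 329)))) (XT.nd (nat_lit 156) (nat_lit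 456) (nat_lit 0) (XT.nd (nat_lit 78) (nat_lit 304) (nat_lit 0) (XT.lf (nat_lit 0) (nat_lit 4431276217) (nat_lit 228) (nat_lit 7392605729) (nat_lit 304) (nat_lit 3831705581) (nat_lit 71) (nat_lit 5) (nat_lit 74) (nat_lit 5) (nat_lit 75) (nat_lit 5) (nat_lit 479) (nat_lit 393) (nat_lit 328)) (XT.lf (nat_lit 0) (nat_lit 3490485909) (nat_lit 304) (nat_lit 11383737579) (nat_lit 76) (nat_lit 1069676093) (nat_lit 67) (nat_lit 5) (nat_lit 71) (nat_lit 5) (nat_lit 68) (nat_lit 5) (nat_lit 480) (nat_lit 393) (nat_lit 327))) (XT.nd (nat_lit 78) (nat_lit 304) (nat_lit 0) (XT.lf (nat_lit 0) (nat_lit 4610745467) (nat_lit 152) (nat_lit 6465501503) (nat_lit 228) (nat_lit 5162189967) (nat_lit 65) (nat_lit 5) (nat_lit 67) (nat_lit 5) (nat_lit 68) (nat_lit 5) (nat_lit 481) (nat_lit 393) (nat_lit 326)) (XT.lf (nat_lit 0) (nat_lit 2379934536) (nat_lit 304) (nat_lit 11915288107) (nat_lit 76) (nat_lit 2245025437) (nat_lit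 61) (nat_lit 5) (nat_lit 65) (nat_lit 5) (nat_lit 62) (nat_lit 5) (nat_lit 482) (nat_lit 393) (nat_lit 325))))))))
noncomputable def xc29 : XT := (XT.nd (nat_lit 58422) (nat_lit 0) (nat_lit 10260) (XT.nd (nat_lit 57408) (nat_lit 0) (nat_lit 27664) (XT.nd (nat_lit 56940) (nat_lit 0) (nat_lit 46816) (XT.nd (nat_lit 234) (nat_lit 608) (nat_lit 0) (XT.nd (nat_lit 78) (nat_lit 456) (nat_lit 0) (XT.lf (nat_lit 0) (nat_lit 4551370128) (nat_lit 152) (nat_lit 5620495733) (nat_lit 228) (nat_lit 6676693307) (nat_lit 59) (nat_lit 5) (nat_lit 61) (nat_lit 5) (nat_lit 62) (nat_lit 5) (nat_lit 483) (nat_lit 393) (nat_lit 324)) (XT.nd (nat_lit 78) (nat_lit 152) (nat_lit 0) (XT.lf (nat_lit 0) (nat_lit 1091959044) (nat_lit 304) (nat_lit 12729015140) (nat_lit 76) (nat_lit 3343531969) (nat_lit 55) (nat_lit 5) (nat_lit 59) (nat_lit 5) (nat_lit 56) (nat_lit 5) (nat_lit 484) (nat_lit 393) (nat_lit 323)) (XT.lf (nat_lit 0)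 (nat_lit 4219671446) (nat_lit 152) (nat_lit 4875242874) (nat_lit 228) (nat_lit 8392296972) (nat_lit 53) (nat_lit 5) (nat_lit 55) (nat_lit 5) (nat_lit 56) (nat_lit 5) (nat_lit 485) (nat_lit 393) (nat_lit 322)))) (XT.nd (nat_lit 78) (nat_lit 380) (nat_lit 0) (XT.lf (nat_lit 0) (nat_lit 3954039875) (nat_lit 228) (nat_lit 13467881646) (nat_lit 304) (nat_lit 395998229) (nat_lit 50) (nat_lit 5) (nat_lit 53) (nat_lit 5) (nat_lit 54) (nat_lit 5) (nat_lit 486) (nat_lit 393) (nat_lit 321)) (XT.nd (nat_lit 78) (nat_lit 152) (nat_lit 0) (XT.lf (nat_lit 0) (nat_lit 3578609301) (nat_lit 152) (nat_lit 4249014125) (nat_lit 228) (nat_lit 10328104135) (nat_lit 47) (nat_lit 5) (nat_lit 49) (nat_lit 5) (nat_lit 50) (nat_lit 5) (nat_lit 487) (nat_lit 393) (nat_lit 320)) (XT.lf (nat_lit 0) (nat_lit 3135628261) (nat_lit 152) (nat_lit 13250583855) (nat_lit 228) (nat_lit 2115533690) (nat_lit 45) (nat_lit 5) (nat_lit 47) (nat_lit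 5) (nat_lit 48) (nat_lit 5) (nat_lit 488) (nat_lit 393) (nat_lit 319))))) (XT.nd (nat_lit 234) (nat_lit 3116) (nat_lit 0) (XT.nd (nat_lit 78) (nat_lit 912) (nat_lit 0) (XT.lf (nat_lit 0) (nat_lit 60177681) (nat_lit 836) (nat_lit 3177446902) (nat_lit 0) (nat_lit 60177681) (nat_lit 714) (nat_lit 5) (nat_lit 725) (nat_lit 4) (nat_lit 714) (nat_lit 4) (nat_lit 412) (nat_lit 394) (nat_lit 394)) (XT.nd (nat_lit 78) (nat_lit 912) (nat_lit 0) (XT.lf (nat_lit 0) (nat_lit 4977545991) (nat_lit 836) (nat_lit 193703213) (nat_lit 0) (nat_lit 1451202556) (nat_lit 714) (nat_lit 5) (nat_lit 725) (nat_lit 4) (nat_lit 714) (nat_lit 4) (nat_lit 413) (nat_lit 394) (nat_lit 393)) (XT.lf (nat_lit 0) (nat_lit 3161526680) (nat_lit 912) (nat_lit 563693942) (nat_lit 76) (nat_lit 2926978942) (nat_lit 702) (nat_lit 5) (nat_lit 714) (nat_lit 5) (nat_lit 703) (nat_lit 4) (nat_lit 414) (nat_lit 394) (nat_lit 392)))) (XT.nd (nat_lit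 78) (nat_lit 2128) (nat_lit 0) (XT.lf (nat_lit 0) (nat_lit 1266086163) (nat_lit 988) (nat_lit 871958217) (nat_lit 76) (nat_lit 4546871604) (nat_lit 689) (nat_lit 5) (nat_lit 702) (nat_lit 5) (nat_lit 690) (nat_lit 5) (nat_lit 415) (nat_lit 394) (nat_lit 391)) (XT.nd (nat_lit 78) (nat_lit 1140) (nat_lit 0) (XT.lf (nat_lit 0) (nat_lit 5597088609) (nat_lit 988) (nat_lit 403277030) (nat_lit 1064) (nat_lit 720164822) (nat_lit 676) (nat_lit 5) (nat_lit 689) (nat_lit 5) (nat_lit 690) (nat_lit 5) (nat_lit 416) (nat_lit 394) (nat_lit 390)) (XT.lf (nat_lit 0) (nat_lit 3960884951) (nat_lit 1140) (nat_lit 1332193330) (nat_lit 76) (nat_lit 1465712892) (nat_lit 661) (nat_lit 5) (nat_lit 676) (nat_lit 5) (nat_lit 662) (nat_lit 5) (nat_lit 417) (nat_lit 394) (nat_lit 389)))))) (XT.nd (nat_lit 468) (nat_lit 10868) (nat_lit 0) (XT.nd (nat_lit 234) (nat_lit 4484) (nat_lit 0) (XT.nd (nat_lit 78) (nat_lit 2584) (nat_lit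 0) (XT.lf (nat_lit 0) (nat_lit 1841371166) (nat_lit 1216) (nat_lit 1483964733) (nat_lit 76) (nat_lit 3474677147) (nat_lit 645) (nat_lit 5) (nat_lit 661) (nat_lit 5) (nat_lit 646) (nat_lit 5) (nat_lit 418) (nat_lit 394) (nat_lit 388)) (XT.nd (nat_lit 78) (nat_lit 1368) (nat_lit 0) (XT.lf (nat_lit 0) (nat_lit 5265605683) (nat_lit 1216) (nat_lit 1210822633) (nat_lit 1292) (nat_lit 367801214) (nat_lit 629) (nat_lit 5) (nat_lit 645) (nat_lit 5) (nat_lit 646) (nat_lit 5) (nat_lit 419) (nat_lit 394) (nat_lit 387)) (XT.lf (nat_lit 0) (nat_lit 4208462719) (nat_lit 1368) (nat_lit 1633405852) (nat_lit 76) (nat_lit 1049259024) (nat_lit 611) (nat_lit 5) (nat_lit 629) (nat_lit 5) (nat_lit 612) (nat_lit 5) (nat_lit 420) (nat_lit 394) (nat_lit 386)))) (XT.nd (nat_lit 78) (nat_lit 3040) (nat_lit 0) (XT.lf (nat_lit 0) (nat_lit 1861774929) (nat_lit 1444) (nat_lit 1638108886) (nat_lit 76) (nat_lit 3441060025) (nat_lit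 592) (nat_lit 5) (nat_lit 611) (nat_lit 5) (nat_lit 593) (nat_lit 5) (nat_lit 421) (nat_lit 394) (nat_lit 385)) (XT.nd (nat_lit 78) (nat_lit 1596) (nat_lit 0) (XT.lf (nat_lit 0) (nat_lit 5405212897) (nat_lit 1444) (nat_lit 1007031232) (nat_lit 1520) (nat_lit 581550629) (nat_lit 573) (nat_lit 5) (nat_lit 592) (nat_lit 5) (nat_lit 593) (nat_lit 5) (nat_lit 422) (nat_lit 394) (nat_lit 384)) (XT.lf (nat_lit 0) (nat_lit 3917878024) (nat_lit 1596) (nat_lit 1504473780) (nat_lit 76) (nat_lit 1626969983) (nat_lit 552) (nat_lit 5) (nat_lit 573) (nat_lit 5) (nat_lit 553) (nat_lit 5) (nat_lit 423) (nat_lit 394) (nat_lit 383))))) (XT.nd (nat_lit 234) (nat_lit 5700) (nat_lit 0) (XT.nd (nat_lit 78) (nat_lit 3496) (nat_lit 0) (XT.lf (nat_lit 0) (nat_lit 1338832336) (nat_lit 1672) (nat_lit 1370187820) (nat_lit 76) (nat_lit 4398852091) (nat_lit 530) (nat_lit 5) (nat_lit 552) (nat_lit 5) (nat_lit 531) (nat_lit 5) (nat_lit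 424) (nat_lit 394) (nat_lit 382)) (XT.nd (nat_lit 78) (nat_lit 1824) (nat_lit 0) (XT.lf (nat_lit 0) (nat_lit 5818669800) (nat_lit 1748) (nat_lit 1188806496) (nat_lit 76) (nat_lit 161944571) (nat_lit 508) (nat_lit 5) (nat_lit 531) (nat_lit 5) (nat_lit 509) (nat_lit 5) (nat_lit 425) (nat_lit 394) (nat_lit 381)) (XT.lf (nat_lit 0) (nat_lit 3096592055) (nat_lit 1824) (nat_lit 978296882) (nat_lit 76) (nat_lit 3158756779) (nat_lit 484) (nat_lit 5) (nat_lit 508) (nat_lit 5) (nat_lit 485) (nat_lit 5) (nat_lit 426) (nat_lit 394) (nat_lit 380)))) (XT.nd (nat_lit 156) (nat_lit 2736) (nat_lit 0) (XT.nd (nat_lit 78) (nat_lit 1064) (nat_lit 0) (XT.lf (nat_lit 0) (nat_lit 277953865) (nat_lit 1900) (nat_lit 711894938) (nat_lit 76) (nat_lit 6311271735) (nat_lit 459) (nat_lit 5) (nat_lit 484) (nat_lit 5) (nat_lit 460) (nat_lit 5) (nat_lit 427) (nat_lit 394) (nat_lit 379)) (XT.lf (nat_lit 0) (nat_lit 4711007890) (nat_lit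 1140) (nat_lit 421328716) (nat_lit 76) (nat_lit 2238913721) (nat_lit 445) (nat_lit 5) (nat_lit 460) (nat_lit 5) (nat_lit 446) (nat_lit 5) (nat_lit 428) (nat_lit 394) (nat_lit 378))) (XT.nd (nat_lit 78) (nat_lit 1748) (nat_lit 0) (XT.lf (nat_lit 0) (nat_lit 1746128299) (nat_lit 988) (nat_lit 84045178) (nat_lit 76) (nat_lit 5614353343) (nat_lit 432) (nat_lit 5) (nat_lit 445) (nat_lit 5) (nat_lit 433) (nat_lit 5) (nat_lit 429) (nat_lit 394) (nat_lit 377)) (XT.lf (nat_lit 0) (nat_lit 293187163) (nat_lit 836) (nat_lit 5901414304) (nat_lit 912) (nat_lit 1326140039) (nat_lit 409) (nat_lit 5) (nat_lit 420) (nat_lit 5) (nat_lit 421) (nat_lit 5) (nat_lit 430) (nat_lit 394) (nat_lit 376))))))) (XT.nd (nat_lit 1014) (nat_lit 7524) (nat_lit 0) (XT.nd (nat_lit 468) (nat_lit 4864) (nat_lit 0) (XT.nd (nat_lit 234) (nat_lit 2356) (nat_lit 0) (XT.nd (nat_lit 78) (nat_lit 1748) (nat_lit 0) (XT.lf (nat_lit 0) (nat_lit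 702700197) (nat_lit 836) (nat_lit 2382349753) (nat_lit 912) (nat_lit 4514803458) (nat_lit 397) (nat_lit 5) (nat_lit 408) (nat_lit 5) (nat_lit 409) (nat_lit 5) (nat_lit 431) (nat_lit 394) (nat_lit 375)) (XT.nd (nat_lit 78) (nat_lit 912) (nat_lit 0) (XT.lf (nat_lit 0) (nat_lit 1158260169) (nat_lit 836) (nat_lit 6400567288) (nat_lit 912) (nat_lit 123382209) (nat_lit 386) (nat_lit 5) (nat_lit 397) (nat_lit 5) (nat_lit 398) (nat_lit 5) (nat_lit 432) (nat_lit 394) (nat_lit 374)) (XT.lf (nat_lit 0) (nat_lit 1631684774) (nat_lit 836) (nat_lit 2669053106) (nat_lit 912) (nat_lit 3466565334) (nat_lit 374) (nat_lit 5) (nat_lit 385) (nat_lit 5) (nat_lit 386) (nat_lit 5) (nat_lit 433) (nat_lit 394) (nat_lit 373)))) (XT.nd (nat_lit 78) (nat_lit 1520) (nat_lit 0) (XT.lf (nat_lit 0) (nat_lit 941196452) (nat_lit 836) (nat_lit 5703909940) (nat_lit 76) (nat_lit 1210640433) (nat_lit 363) (nat_lit 5) (nat_lit 374) (nat_lit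 5) (nat_lit 364) (nat_lit 5) (nat_lit 434) (nat_lit 394) (nat_lit 372)) (XT.nd (nat_lit 78) (nat_lit 760) (nat_lit 0) (XT.lf (nat_lit 0) (nat_lit 2691858521) (nat_lit 760) (nat_lit 2708920144) (nat_lit 836) (nat_lit 2546283394) (nat_lit 353) (nat_lit 5) (nat_lit 363) (nat_lit 5) (nat_lit 364) (nat_lit 5) (nat_lit 435) (nat_lit 394) (nat_lit 371)) (XT.lf (nat_lit 0) (nat_lit 1887636927) (nat_lit 760) (nat_lit 4771046648) (nat_lit 76) (nat_lit 1382984962) (nat_lit 343) (nat_lit 5) (nat_lit 353) (nat_lit 5) (nat_lit 344) (nat_lit 5) (nat_lit 436) (nat_lit 394) (nat_lit 370))))) (XT.nd (nat_lit 234) (nat_lit 2660) (nat_lit 0) (XT.nd (nat_lit 78) (nat_lit 1444) (nat_lit 0) (XT.lf (nat_lit 0) (nat_lit 3873815295) (nat_lit 760) (nat_lit 2518637373) (nat_lit 836) (nat_lit 1746883992) (nat_lit 333) (nat_lit 5) (nat_lit 343) (nat_lit 5) (nat_lit 344) (nat_lit 5) (nat_lit 437) (nat_lit 394) (nat_lit 369)) (XT.nd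 (nat_lit 78) (nat_lit 684) (nat_lit 0) (XT.lf (nat_lit 0) (nat_lit 2724215658) (nat_lit 760) (nat_lit 3733925298) (nat_lit 76) (nat_lit 1782073076) (nat_lit 323) (nat_lit 5) (nat_lit 333) (nat_lit 5) (nat_lit 324) (nat_lit 5) (nat_lit 438) (nat_lit 394) (nat_lit 368)) (XT.lf (nat_lit 0) (nat_lit 5168591386) (nat_lit 684) (nat_lit 2113628937) (nat_lit 760) (nat_lit 1062145143) (nat_lit 314) (nat_lit 5) (nat_lit 323) (nat_lit 5) (nat_lit 324) (nat_lit 5) (nat_lit 439) (nat_lit 394) (nat_lit 367)))) (XT.nd (nat_lit 156) (nat_lit 1292) (nat_lit 0) (XT.nd (nat_lit 78) (nat_lit 684) (nat_lit 0) (XT.lf (nat_lit 0) (nat_lit 3456781973) (nat_lit 684) (nat_lit 2601544934) (nat_lit 76) (nat_lit 2393311250) (nat_lit 305) (nat_lit 5) (nat_lit 314) (nat_lit 5) (nat_lit 306) (nat_lit 5) (nat_lit 440) (nat_lit 394) (nat_lit 366)) (XT.lf (nat_lit 0) (nat_lit 6567582116) (nat_lit 684) (nat_lit 1508173450) (nat_lit 760)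 (nat_lit 486662984) (nat_lit 296) (nat_lit 5) (nat_lit 305) (nat_lit 5) (nat_lit 306) (nat_lit 5) (nat_lit 441) (nat_lit 394) (nat_lit 365))) (XT.nd (nat_lit 78) (nat_lit 608) (nat_lit 0) (XT.lf (nat_lit 0) (nat_lit 4090406317) (nat_lit 684) (nat_lit 1382619658) (nat_lit 76) (nat_lit 3203201390) (nat_lit 287) (nat_lit 5) (nat_lit 296) (nat_lit 5) (nat_lit 288) (nat_lit 5) (nat_lit 442) (nat_lit 394) (nat_lit 364)) (XT.lf (nat_lit 0) (nat_lit 8062458925) (nat_lit 608) (nat_lit 715514734) (nat_lit 684) (nat_lit 15823995) (nat_lit 279) (nat_lit 5) (nat_lit 287) (nat_lit 5) (nat_lit 288) (nat_lit 5) (nat_lit 443) (nat_lit 394) (nat_lit 363)))))) (XT.nd (nat_lit 468) (nat_lit 3420) (nat_lit 0) (XT.nd (nat_lit 234) (nat_lit 1672) (nat_lit 0) (XT.nd (nat_lit 78) (nat_lit 1748) (nat_lit 0) (XT.lf (nat_lit 0) (nat_lit 4629404734) (nat_lit 684) (nat_lit 85661390) (nat_lit 76) (nat_lit 4199233717) (nat_lit 270)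 (nat_lit 5) (nat_lit 279) (nat_lit 5) (nat_lit 271) (nat_lit 5) (nat_lit 444) (nat_lit 394) (nat_lit 362)) (XT.nd (nat_lit 78) (nat_lit 532) (nat_lit 0) (XT.lf (nat_lit 0) (nat_lit 355222771) (nat_lit 608) (nat_lit 8428412540) (nat_lit 76) (nat_lit 255042037) (nat_lit 254) (nat_lit 5) (nat_lit 262) (nat_lit 5) (nat_lit 255) (nat_lit 5) (nat_lit 445) (nat_lit 394) (nat_lit 361)) (XT.lf (nat_lit 0) (nat_lit 1297959691) (nat_lit 532) (nat_lit 3787825382) (nat_lit 608) (nat_lit 4080252127) (nat_lit 247) (nat_lit 5) (nat_lit 254) (nat_lit 5) (nat_lit 255) (nat_lit 5) (nat_lit 446) (nat_lit 394) (nat_lit 360)))) (XT.nd (nat_lit 78) (nat_lit 1064) (nat_lit 0) (XT.lf (nat_lit 0) (nat_lit 640624096) (nat_lit 608) (nat_lit 7274527890) (nat_lit 76) (nat_lit 1382221354) (nat_lit 239) (nat_lit 5) (nat_lit 247) (nat_lit 5) (nat_lit 240) (nat_lit 5) (nat_lit 447) (nat_lit 394) (nat_lit 359)) (XT.nd (nat_lit 78) (nat_lit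 532) (nat_lit 0) (XT.lf (nat_lit 0) (nat_lit 2744814238) (nat_lit 532) (nat_lit 2710131373) (nat_lit 608) (nat_lit 3977025568) (nat_lit 232) (nat_lit 5) (nat_lit 239) (nat_lit 5) (nat_lit 240) (nat_lit 5) (nat_lit 448) (nat_lit 394) (nat_lit 358)) (XT.lf (nat_lit 0) (nat_lit 833295241) (nat_lit 532) (nat_lit 6077375098) (nat_lit 76) (nat_lit 2659807687) (nat_lit 225) (nat_lit 5) (nat_lit 232) (nat_lit 5) (nat_lit 226) (nat_lit 5) (nat_lit 449) (nat_lit 394) (nat_lit 357))))) (XT.nd (nat_lit 234) (nat_lit 1900) (nat_lit 0) (XT.nd (nat_lit 78) (nat_lit 988) (nat_lit 0) (XT.lf (nat_lit 0) (nat_lit 4245240049) (nat_lit 532) (nat_lit 1493172376) (nat_lit 608) (nat_lit 3974117146) (nat_lit 218) (nat_lit 5) (nat_lit 225) (nat_lit 5) (nat_lit 226) (nat_lit 5) (nat_lit 450) (nat_lit 394) (nat_lit 356)) (XT.nd (nat_lit 78) (nat_lit 456) (nat_lit 0) (XT.lf (nat_lit 0) (nat_lit 934710675) (nat_lit 532) (nat_lit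 4845943122) (nat_lit 76) (nat_lit 4077771398) (nat_lit 211) (nat_lit 5) (nat_lit 218) (nat_lit 5) (nat_lit 212) (nat_lit 5) (nat_lit 451) (nat_lit 394) (nat_lit 355)) (XT.lf (nat_lit 0) (nat_lit 5790568886) (nat_lit 456) (nat_lit 146994132) (nat_lit 532) (nat_lit 4070599450) (nat_lit 205) (nat_lit 5) (nat_lit 211) (nat_lit 5) (nat_lit 212) (nat_lit 5) (nat_lit 452) (nat_lit 394) (nat_lit 354)))) (XT.nd (nat_lit 156) (nat_lit 912) (nat_lit 0) (XT.nd (nat_lit 78) (nat_lit 456) (nat_lit 0) (XT.lf (nat_lit 0) (nat_lit 945621249) (nat_lit 532) (nat_lit 3589445397) (nat_lit 76) (nat_lit 5626615962) (nat_lit 198) (nat_lit 5) (nat_lit 205) (nat_lit 5) (nat_lit 199) (nat_lit 5) (nat_lit 453) (nat_lit 394) (nat_lit 353)) (XT.lf (nat_lit 0) (nat_lit 6061621887) (nat_lit 532) (nat_lit 2956023570) (nat_lit 76) (nat_lit 1301537638) (nat_lit 192) (nat_lit 5) (nat_lit 199) (nat_lit 5) (nat_lit 193) (nat_lit 5) (nat_lit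 454) (nat_lit 394) (nat_lit 352))) (XT.nd (nat_lit 78) (nat_lit 456) (nat_lit 0) (XT.lf (nat_lit 0) (nat_lit 866047031) (nat_lit 456) (nat_lit 2317417111) (nat_lit 76) (nat_lit 7297288759) (nat_lit 186) (nat_lit 5) (nat_lit 192) (nat_lit 5) (nat_lit 187) (nat_lit 5) (nat_lit 455) (nat_lit 394) (nat_lit 351)) (XT.lf (nat_lit 0) (nat_lit 6103634526) (nat_lit 532) (nat_lit 1685453454) (nat_lit 76) (nat_lit 2857161127) (nat_lit 180) (nat_lit 5) (nat_lit 187) (nat_lit 5) (nat_lit 181) (nat_lit 5) (nat_lit 456) (nat_lit 394) (nat_lit 350))))))))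
noncomputable def xc30 : XT := (XT.nd (nat_lit 1950) (nat_lit 1520) (nat_lit 0) (XT.nd (nat_lit 936) (nat_lit 3648) (nat_lit 0) (XT.nd (nat_lit 468) (nat_lit 2128) (nat_lit 0) (XT.nd (nat_lit 234) (nat_lit 1140) (nat_lit 0) (XT.nd (nat_lit 78) (nat_lit 1216) (nat_lit 0) (XT.lf (nat_lit 0) (nat_lit 695264269) (nat_lit 456) (nat_lit 1039817567) (nat_lit 76) (nat_lit 9081092791) (nat_lit 174) (nat_lit 5) (nat_lit 180) (nat_lit 5) (nat_lit 175) (nat_lit 5) (nat_lit 457) (nat_lit 394) (nat_lit 349)) (XT.nd (nat_lit 78) (nat_lit 836) (nat_lit 0) (XT.lf (nat_lit 0) (nat_lit 6061785060) (nat_lit 456) (nat_lit 415115278) (nat_lit 76) (nat_lit 4513036711) (nat_lit 169) (nat_lit 5) (nat_lit 175) (nat_lit 5) (nat_lit 170) (nat_lit 5) (nat_lit 458) (nat_lit 394) (nat_lit 348)) (XT.lf (nat_lit 0) (nat_lit 235956019) (nat_lit 380) (nat_lit 197362219) (nat_lit 456) (nat_lit 10735174577) (nat_lit 158) (nat_lit 5) (nat_lit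 163) (nat_lit 5) (nat_lit 164) (nat_lit 5) (nat_lit 459) (nat_lit 394) (nat_lit 347)))) (XT.nd (nat_lit 78) (nat_lit 760) (nat_lit 0) (XT.lf (nat_lit 0) (nat_lit 855431158) (nat_lit 380) (nat_lit 5084574285) (nat_lit 456) (nat_lit 5410725565) (nat_lit 153) (nat_lit 5) (nat_lit 158) (nat_lit 5) (nat_lit 159) (nat_lit 5) (nat_lit 460) (nat_lit 394) (nat_lit 346)) (XT.nd (nat_lit 78) (nat_lit 304) (nat_lit 0) (XT.lf (nat_lit 0) (nat_lit 92396482) (nat_lit 456) (nat_lit 10038202512) (nat_lit 76) (nat_lit 1407433369) (nat_lit 147) (nat_lit 5) (nat_lit 153) (nat_lit 5) (nat_lit 148) (nat_lit 5) (nat_lit 461) (nat_lit 394) (nat_lit 345)) (XT.lf (nat_lit 0) (nat_lit 2108693764) (nat_lit 304) (nat_lit 3624219662) (nat_lit 380) (nat_lit 5996411308) (nat_lit 143) (nat_lit 5) (nat_lit 147) (nat_lit 5) (nat_lit 148) (nat_lit 5) (nat_lit 462) (nat_lit 394) (nat_lit 344))))) (XT.nd (nat_lit 234) (nat_lit 1064) (nat_lit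 0) (XT.nd (nat_lit 78) (nat_lit 684) (nat_lit 0) (XT.lf (nat_lit 0) (nat_lit 2731274970) (nat_lit 380) (nat_lit 8844790335) (nat_lit 456) (nat_lit 349625590) (nat_lit 138) (nat_lit 5) (nat_lit 143) (nat_lit 5) (nat_lit 144) (nat_lit 5) (nat_lit 463) (nat_lit 394) (nat_lit 343)) (XT.nd (nat_lit 78) (nat_lit 304) (nat_lit 0) (XT.lf (nat_lit 0) (nat_lit 3326661918) (nat_lit 304) (nat_lit 2107799209) (nat_lit 380) (nat_lit 6691988458) (nat_lit 133) (nat_lit 5) (nat_lit 137) (nat_lit 5) (nat_lit 138) (nat_lit 5) (nat_lit 464) (nat_lit 394) (nat_lit 342)) (XT.lf (nat_lit 0) (nat_lit 3919683380) (nat_lit 304) (nat_lit 7516405168) (nat_lit 380) (nat_lit 896124053) (nat_lit 129) (nat_lit 5) (nat_lit 133) (nat_lit 5) (nat_lit 134) (nat_lit 5) (nat_lit 465) (nat_lit 394) (nat_lit 341)))) (XT.nd (nat_lit 78) (nat_lit 684) (nat_lit 0) (XT.lf (nat_lit 0) (nat_lit 4495851413) (nat_lit 304) (nat_lit 544606667) (nat_lit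 380) (nat_lit 7502366933) (nat_lit 124) (nat_lit 5) (nat_lit 128) (nat_lit 5) (nat_lit 129) (nat_lit 5) (nat_lit 466) (nat_lit 394) (nat_lit 340)) (XT.nd (nat_lit 78) (nat_lit 380) (nat_lit 0) (XT.lf (nat_lit 0) (nat_lit 5051654228) (nat_lit 304) (nat_lit 6155747081) (nat_lit 380) (nat_lit 1550950163) (nat_lit 120) (nat_lit 5) (nat_lit 124) (nat_lit 5) (nat_lit 125) (nat_lit 5) (nat_lit 467) (nat_lit 394) (nat_lit 339)) (XT.lf (nat_lit 0) (nat_lit 4552644122) (nat_lit 380) (nat_lit 7384433644) (nat_lit 76) (nat_lit 1042000338) (nat_lit 115) (nat_lit 5) (nat_lit 120) (nat_lit 5) (nat_lit 116) (nat_lit 5) (nat_lit 468) (nat_lit 394) (nat_lit 338)))))) (XT.nd (nat_lit 468) (nat_lit 1824) (nat_lit 0) (XT.nd (nat_lit 234) (nat_lit 912) (nat_lit 0) (XT.nd (nat_lit 78) (nat_lit 608) (nat_lit 0) (XT.lf (nat_lit 0) (nat_lit 6111942855) (nat_lit 304) (nat_lit 4772785304) (nat_lit 380) (nat_lit 2320166965) (nat_lit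 111) (nat_lit 5) (nat_lit 115) (nat_lit 5) (nat_lit 116) (nat_lit 5) (nat_lit 469) (nat_lit 394) (nat_lit 337)) (XT.nd (nat_lit 78) (nat_lit 304) (nat_lit 0) (XT.lf (nat_lit 0) (nat_lit 3961777913) (nat_lit 304) (nat_lit 6825768147) (nat_lit 76) (nat_lit 2648536774) (nat_lit 107) (nat_lit 5) (nat_lit 111) (nat_lit 5) (nat_lit 108) (nat_lit 5) (nat_lit 470) (nat_lit 394) (nat_lit 336)) (XT.lf (nat_lit 0) (nat_lit 7083910178) (nat_lit 304) (nat_lit 3377881623) (nat_lit 380) (nat_lit 3210887478) (nat_lit 103) (nat_lit 5) (nat_lit 107) (nat_lit 5) (nat_lit 108) (nat_lit 5) (nat_lit 471) (nat_lit 394) (nat_lit 335)))) (XT.nd (nat_lit 78) (nat_lit 608) (nat_lit 0) (XT.lf (nat_lit 0) (nat_lit 3257103336) (nat_lit 304) (nat_lit 6385648691) (nat_lit 76) (nat_lit 4272019781) (nat_lit 99) (nat_lit 5) (nat_lit 103) (nat_lit 5) (nat_lit 100) (nat_lit 5) (nat_lit 472) (nat_lit 394) (nat_lit 334)) (XT.nd (nat_lit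 78) (nat_lit 304) (nat_lit 0) (XT.lf (nat_lit 0) (nat_lit 7949336797) (nat_lit 304) (nat_lit 1981903199) (nat_lit 380) (nat_lit 4231350346) (nat_lit 95) (nat_lit 5) (nat_lit 99) (nat_lit 5) (nat_lit 100) (nat_lit 5) (nat_lit 473) (nat_lit 394) (nat_lit 333)) (XT.lf (nat_lit 0) (nat_lit 2430264791) (nat_lit 304) (nat_lit 6084008849) (nat_lit 76) (nat_lit 5901785451) (nat_lit 91) (nat_lit 5) (nat_lit 95) (nat_lit 5) (nat_lit 92) (nat_lit 5) (nat_lit 474) (nat_lit 394) (nat_lit 332))))) (XT.nd (nat_lit 234) (nat_lit 1064) (nat_lit 0) (XT.nd (nat_lit 78) (nat_lit 532) (nat_lit 0) (XT.lf (nat_lit 0) (nat_lit 8688220030) (nat_lit 228) (nat_lit 596342364) (nat_lit 304) (nat_lit 5391005817) (nat_lit 88) (nat_lit 5) (nat_lit 91) (nat_lit 5) (nat_lit 92) (nat_lit 5) (nat_lit 475) (nat_lit 394) (nat_lit 331)) (XT.nd (nat_lit 78) (nat_lit 228) (nat_lit 0) (XT.lf (nat_lit 0) (nat_lit 1471681435) (nat_lit 304) (nat_lit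 5942722697) (nat_lit 76) (nat_lit 7526509732) (nat_lit 84) (nat_lit 5) (nat_lit 88) (nat_lit 5) (nat_lit 85) (nat_lit 5) (nat_lit 476) (nat_lit 394) (nat_lit 330)) (XT.lf (nat_lit 0) (nat_lit 8516973404) (nat_lit 304) (nat_lit 5939034429) (nat_lit 76) (nat_lit 756501989) (nat_lit 81) (nat_lit 5) (nat_lit 85) (nat_lit 5) (nat_lit 82) (nat_lit 5) (nat_lit 477) (nat_lit 394) (nat_lit 329)))) (XT.nd (nat_lit 156) (nat_lit 532) (nat_lit 0) (XT.nd (nat_lit 78) (nat_lit 228) (nat_lit 0) (XT.lf (nat_lit 0) (nat_lit 370445872) (nat_lit 304) (nat_lit 5985839596) (nat_lit 76) (nat_lit 9134078209) (nat_lit 77) (nat_lit 5) (nat_lit 81) (nat_lit 5) (nat_lit 78) (nat_lit 5) (nat_lit 478) (nat_lit 394) (nat_lit 328)) (XT.lf (nat_lit 0) (nat_lit 7616014617) (nat_lit 304) (nat_lit 6092287580) (nat_lit 76) (nat_lit 2066196152) (nat_lit 74) (nat_lit 5) (nat_lit 78) (nat_lit 5) (nat_lit 75) (nat_lit 5) (nat_lit 479) (nat_lit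 394) (nat_lit 327))) (XT.nd (nat_lit 78) (nat_lit 304) (nat_lit 0) (XT.lf (nat_lit 0) (nat_lit 9819712310) (nat_lit 228) (nat_lit 5348107736) (nat_lit 304) (nat_lit 897561380) (nat_lit 71) (nat_lit 5) (nat_lit 74) (nat_lit 5) (nat_lit 75) (nat_lit 5) (nat_lit 480) (nat_lit 394) (nat_lit 326)) (XT.lf (nat_lit 0) (nat_lit 6565124018) (nat_lit 304) (nat_lit 6471035497) (nat_lit 76) (nat_lit 3326573590) (nat_lit 67) (nat_lit 5) (nat_lit 71) (nat_lit 5) (nat_lit 68) (nat_lit 5) (nat_lit 481) (nat_lit 394) (nat_lit 325))))))) (XT.nd (nat_lit 57252) (nat_lit 0) (nat_lit 31312) (XT.nd (nat_lit 468) (nat_lit 152) (nat_lit 0) (XT.nd (nat_lit 234) (nat_lit 760) (nat_lit 0) (XT.nd (nat_lit 78) (nat_lit 456) (nat_lit 0) (XT.lf (nat_lit 0) (nat_lit 9918038657) (nat_lit 152) (nat_lit 4407477014) (nat_lit 228) (nat_lit 2341652232) (nat_lit 65) (nat_lit 5) (nat_lit 67) (nat_lit 5) (nat_lit 68) (nat_lit 5) (nat_lit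 482) (nat_lit 394) (nat_lit 324)) (XT.nd (nat_lit 78) (nat_lit 152) (nat_lit 0) (XT.lf (nat_lit 0) (nat_lit 5349993144) (nat_lit 304) (nat_lit 7105946001) (nat_lit 76) (nat_lit 4522464623) (nat_lit 61) (nat_lit 5) (nat_lit 65) (nat_lit 5) (nat_lit 62) (nat_lit 5) (nat_lit 483) (nat_lit 394) (nat_lit 323)) (XT.lf (nat_lit 0) (nat_lit 9770886777) (nat_lit 152) (nat_lit 3553370674) (nat_lit 228) (nat_lit 3972737525) (nat_lit 59) (nat_lit 5) (nat_lit 61) (nat_lit 5) (nat_lit 62) (nat_lit 5) (nat_lit 484) (nat_lit 394) (nat_lit 322)))) (XT.nd (nat_lit 78) (nat_lit 456) (nat_lit 0) (XT.lf (nat_lit 0) (nat_lit 3954545342) (nat_lit 304) (nat_lit 8030880321) (nat_lit 76) (nat_lit 5637346542) (nat_lit 55) (nat_lit 5) (nat_lit 59) (nat_lit 5) (nat_lit 56) (nat_lit 5) (nat_lit 485) (nat_lit 394) (nat_lit 321)) (XT.nd (nat_lit 78) (nat_lit 304) (nat_lit 0) (XT.lf (nat_lit 0) (nat_lit 9343849812) (nat_lit 152) (nat_lit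 2803764961) (nat_lit 228) (nat_lit 5808545329) (nat_lit 53) (nat_lit 5) (nat_lit 55) (nat_lit 5) (nat_lit 56) (nat_lit 5) (nat_lit 486) (nat_lit 394) (nat_lit 320)) (XT.lf (nat_lit 0) (nat_lit 2360768760) (nat_lit 304) (nat_lit 9283250933) (nat_lit 76) (nat_lit 6653157589) (nat_lit 49) (nat_lit 5) (nat_lit 53) (nat_lit 5) (nat_lit 50) (nat_lit 5) (nat_lit 487) (nat_lit 394) (nat_lit 319))))) (XT.nd (nat_lit 56550) (nat_lit 0) (nat_lit 49780) (XT.nd (nat_lit 56394) (nat_lit 0) (nat_lit 51528) (XT.lf (nat_lit 0) (nat_lit 8598844655) (nat_lit 152) (nat_lit 2178318276) (nat_lit 228) (nat_lit 7868877119) (nat_lit 47) (nat_lit 5) (nat_lit 49) (nat_lit 5) (nat_lit 50) (nat_lit 5) (nat_lit 488) (nat_lit 394) (nat_lit 318)) (XT.nd (nat_lit 78) (nat_lit 684) (nat_lit 0) (XT.lf (nat_lit 0) (nat_lit 337358419) (nat_lit 684) (nat_lit 2599602521) (nat_lit 0) (nat_lit 337358419) (nat_lit 734) (nat_lit 5) (nat_lit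 743) (nat_lit 4) (nat_lit 734) (nat_lit 4) (nat_lit 410) (nat_lit 395) (nat_lit 395)) (XT.lf (nat_lit 0) (nat_lit 723516464) (nat_lit 684) (nat_lit 4776284914) (nat_lit 684) (nat_lit 1071508501) (nat_lit 725) (nat_lit 4) (nat_lit 734) (nat_lit 5) (nat_lit 734) (nat_lit 4) (nat_lit 411) (nat_lit 395) (nat_lit 394)))) (XT.nd (nat_lit 78) (nat_lit 912) (nat_lit 0) (XT.lf (nat_lit 0) (nat_lit 156700243) (nat_lit 760) (nat_lit 3535550726) (nat_lit 836) (nat_lit 2904571135) (nat_lit 714) (nat_lit 5) (nat_lit 724) (nat_lit 5) (nat_lit 725) (nat_lit 4) (nat_lit 412) (nat_lit 395) (nat_lit 393)) (XT.nd (nat_lit 78) (nat_lit 836) (nat_lit 0) (XT.lf (nat_lit 0) (nat_lit 1810239223) (nat_lit 836) (nat_lit 342399971) (nat_lit 76) (nat_lit 4472597788) (nat_lit 713) (nat_lit 5) (nat_lit 724) (nat_lit 5) (nat_lit 714) (nat_lit 5) (nat_lit 413) (nat_lit 395) (nat_lit 392)) (XT.lf (nat_lit 0) (nat_lit 5878105223) (nat_lit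 836) (nat_lit 626763868) (nat_lit 912) (nat_lit 151718524) (nat_lit 702) (nat_lit 5) (nat_lit 713) (nat_lit 5) (nat_lit 714) (nat_lit 5) (nat_lit 414) (nat_lit 395) (nat_lit 391)))))) (XT.nd (nat_lit 468) (nat_lit 11552) (nat_lit 0) (XT.nd (nat_lit 234) (nat_lit 3724) (nat_lit 0) (XT.nd (nat_lit 78) (nat_lit 2204) (nat_lit 0) (XT.lf (nat_lit 0) (nat_lit 4477820196) (nat_lit 988) (nat_lit 1172226598) (nat_lit 76) (nat_lit 1040503522) (nat_lit 689) (nat_lit 5) (nat_lit 702) (nat_lit 5) (nat_lit 690) (nat_lit 5) (nat_lit 415) (nat_lit 395) (nat_lit 390)) (XT.nd (nat_lit 78) (nat_lit 1140) (nat_lit 0) (XT.lf (nat_lit 0) (nat_lit 2374773755) (nat_lit 1064) (nat_lit 1510155925) (nat_lit 76) (nat_lit 2842494183) (nat_lit 675) (nat_lit 5) (nat_lit 689) (nat_lit 5) (nat_lit 676) (nat_lit 5) (nat_lit 416) (nat_lit 395) (nat_lit 389)) (XT.lf (nat_lit 0) (nat_lit 189574595) (nat_lit 1140) (nat_lit 1788415379)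 (nat_lit 76) (nat_lit 4789325437) (nat_lit 660) (nat_lit 5) (nat_lit 675) (nat_lit 5) (nat_lit 661) (nat_lit 5) (nat_lit 417) (nat_lit 395) (nat_lit 388)))) (XT.nd (nat_lit 78) (nat_lit 2584) (nat_lit 0) (XT.lf (nat_lit 0) (nat_lit 4702954452) (nat_lit 1216) (nat_lit 2021400868) (nat_lit 76) (nat_lit 85612607) (nat_lit 645) (nat_lit 5) (nat_lit 661) (nat_lit 5) (nat_lit 646) (nat_lit 5) (nat_lit 418) (nat_lit 395) (nat_lit 387)) (XT.nd (nat_lit 78) (nat_lit 1292) (nat_lit 0) (XT.lf (nat_lit 0) (nat_lit 2375614584) (nat_lit 1292) (nat_lit 2210567750) (nat_lit 76) (nat_lit 2269201715) (nat_lit 628) (nat_lit 5) (nat_lit 645) (nat_lit 5) (nat_lit 629) (nat_lit 5) (nat_lit 419) (nat_lit 395) (nat_lit 386)) (XT.lf (nat_lit 0) (nat_lit 4561757780) (nat_lit 1292) (nat_lit 2303851326) (nat_lit 1368) (nat_lit 38263320) (nat_lit 611) (nat_lit 5) (nat_lit 628) (nat_lit 5) (nat_lit 629) (nat_lit 5) (nat_lit 420)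 (nat_lit 395) (nat_lit 385))))) (XT.nd (nat_lit 234) (nat_lit 7068) (nat_lit 0) (XT.nd (nat_lit 78) (nat_lit 3040) (nat_lit 0) (XT.lf (nat_lit 0) (nat_lit 4382729491) (nat_lit 1444) (nat_lit 2432905595) (nat_lit 76) (nat_lit 139494221) (nat_lit 592) (nat_lit 5) (nat_lit 611) (nat_lit 5) (nat_lit 593) (nat_lit 5) (nat_lit 421) (nat_lit 395) (nat_lit 384)) (XT.nd (nat_lit 78) (nat_lit 1520) (nat_lit 0) (XT.lf (nat_lit 0) (nat_lit 1826755592) (nat_lit 1520) (nat_lit 2482258577) (nat_lit 76) (nat_lit 2700188625) (nat_lit 572) (nat_lit 5) (nat_lit 592) (nat_lit 5) (nat_lit 573) (nat_lit 5) (nat_lit 422) (nat_lit 395) (nat_lit 383)) (XT.lf (nat_lit 0) (nat_lit 4585823047) (nat_lit 1520) (nat_lit 1649762184) (nat_lit 1596) (nat_lit 830736569) (nat_lit 552) (nat_lit 5) (nat_lit 572) (nat_lit 5) (nat_lit 573) (nat_lit 5) (nat_lit 423) (nat_lit 395) (nat_lit 382)))) (XT.nd (nat_lit 156) (nat_lit 3648) (nat_lit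 0) (XT.nd (nat_lit 78) (nat_lit 1748) (nat_lit 0) (XT.lf (nat_lit 0) (nat_lit 3526963507) (nat_lit 1672) (nat_lit 2442302160) (nat_lit 76) (nat_lit 1156963544) (nat_lit 530) (nat_lit 5) (nat_lit 552) (nat_lit 5) (nat_lit 531) (nat_lit 5) (nat_lit 424) (nat_lit 395) (nat_lit 381)) (XT.lf (nat_lit 0) (nat_lit 735957869) (nat_lit 1748) (nat_lit 2359528482) (nat_lit 76) (nat_lit 4093638899) (nat_lit 507) (nat_lit 5) (nat_lit 530) (nat_lit 5) (nat_lit 508) (nat_lit 5) (nat_lit 425) (nat_lit 395) (nat_lit 380))) (XT.nd (nat_lit 78) (nat_lit 1900) (nat_lit 0) (XT.lf (nat_lit 0) (nat_lit 5019629322) (nat_lit 1748) (nat_lit 55804198) (nat_lit 1824) (nat_lit 2179551308) (nat_lit 484) (nat_lit 5) (nat_lit 507) (nat_lit 5) (nat_lit 508) (nat_lit 5) (nat_lit 426) (nat_lit 395) (nat_lit 379)) (XT.lf (nat_lit 0) (nat_lit 2139449869) (nat_lit 1900) (nat_lit 2081213787) (nat_lit 76) (nat_lit 3102955219) (nat_lit 459)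 (nat_lit 5) (nat_lit 484) (nat_lit 5) (nat_lit 460) (nat_lit 5) (nat_lit 427) (nat_lit 395) (nat_lit 378))))))))
noncomputable def xc31 : XT := (XT.nd (nat_lit 1950) (nat_lit 9424) (nat_lit 0) (XT.nd (nat_lit 936) (nat_lit 8284) (nat_lit 0) (XT.nd (nat_lit 468) (nat_lit 5396) (nat_lit 0) (XT.nd (nat_lit 234) (nat_lit 2584) (nat_lit 0) (XT.nd (nat_lit 78) (nat_lit 1976) (nat_lit 0) (XT.lf (nat_lit 0) (nat_lit 5516673724) (nat_lit 1064) (nat_lit 971846703) (nat_lit 1140) (nat_lit 906914454) (nat_lit 445) (nat_lit 5) (nat_lit 459) (nat_lit 5) (nat_lit 460) (nat_lit 5) (nat_lit 428) (nat_lit 395) (nat_lit 377)) (XT.nd (nat_lit 78) (nat_lit 988) (nat_lit 0) (XT.lf (nat_lit 0) (nat_lit 3401213671) (nat_lit 988) (nat_lit 1651985598) (nat_lit 76) (nat_lit 2416795611) (nat_lit 432) (nat_lit 5) (nat_lit 445) (nat_lit 5) (nat_lit 433) (nat_lit 5) (nat_lit 429) (nat_lit 395) (nat_lit 376)) (XT.lf (nat_lit 0) (nat_lit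 218142721) (nat_lit 988) (nat_lit 1377820140) (nat_lit 76) (nat_lit 5951840319) (nat_lit 419) (nat_lit 5) (nat_lit 432) (nat_lit 5) (nat_lit 420) (nat_lit 5) (nat_lit 430) (nat_lit 395) (nat_lit 375)))) (XT.nd (nat_lit 78) (nat_lit 1748) (nat_lit 0) (XT.lf (nat_lit 0) (nat_lit 4530831553) (nat_lit 912) (nat_lit 1082922390) (nat_lit 76) (nat_lit 2014616867) (nat_lit 408) (nat_lit 5) (nat_lit 420) (nat_lit 5) (nat_lit 409) (nat_lit 5) (nat_lit 431) (nat_lit 395) (nat_lit 374)) (XT.nd (nat_lit 78) (nat_lit 836) (nat_lit 0) (XT.lf (nat_lit 0) (nat_lit 1197566523) (nat_lit 912) (nat_lit 746879685) (nat_lit 76) (nat_lit 5767705249) (nat_lit 396) (nat_lit 5) (nat_lit 408) (nat_lit 5) (nat_lit 397) (nat_lit 5) (nat_lit 432) (nat_lit 395) (nat_lit 373)) (XT.lf (nat_lit 0) (nat_lit 5536945214) (nat_lit 912) (nat_lit 384445619) (nat_lit 76) (nat_lit 1877505938) (nat_lit 385) (nat_lit 5) (nat_lit 397) (nat_lit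 5) (nat_lit 386) (nat_lit 5) (nat_lit 433) (nat_lit 395) (nat_lit 372))))) (XT.nd (nat_lit 234) (nat_lit 2204) (nat_lit 0) (XT.nd (nat_lit 78) (nat_lit 1520) (nat_lit 0) (XT.lf (nat_lit 0) (nat_lit 9866208) (nat_lit 760) (nat_lit 2041563300) (nat_lit 836) (nat_lit 5837331156) (nat_lit 363) (nat_lit 5) (nat_lit 373) (nat_lit 5) (nat_lit 374) (nat_lit 5) (nat_lit 434) (nat_lit 395) (nat_lit 371)) (XT.nd (nat_lit 78) (nat_lit 760) (nat_lit 0) (XT.lf (nat_lit 0) (nat_lit 439356299) (nat_lit 760) (nat_lit 5990801870) (nat_lit 836) (nat_lit 1551539720) (nat_lit 353) (nat_lit 5) (nat_lit 363) (nat_lit 5) (nat_lit 364) (nat_lit 5) (nat_lit 435) (nat_lit 395) (nat_lit 370)) (XT.lf (nat_lit 0) (nat_lit 894079859) (nat_lit 684) (nat_lit 1898495855) (nat_lit 760) (nat_lit 5285139337) (nat_lit 343) (nat_lit 5) (nat_lit 352) (nat_lit 5) (nat_lit 353) (nat_lit 5) (nat_lit 436) (nat_lit 395) (nat_lit 369)))) (XT.nd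 (nat_lit 78) (nat_lit 1444) (nat_lit 0) (XT.lf (nat_lit 0) (nat_lit 1379930899) (nat_lit 760) (nat_lit 5837845053) (nat_lit 836) (nat_lit 959204078) (nat_lit 333) (nat_lit 5) (nat_lit 343) (nat_lit 5) (nat_lit 344) (nat_lit 5) (nat_lit 437) (nat_lit 395) (nat_lit 368)) (XT.nd (nat_lit 78) (nat_lit 684) (nat_lit 0) (XT.lf (nat_lit 0) (nat_lit 1886490136) (nat_lit 684) (nat_lit 1535930056) (nat_lit 760) (nat_lit 4856922152) (nat_lit 323) (nat_lit 5) (nat_lit 332) (nat_lit 5) (nat_lit 333) (nat_lit 5) (nat_lit 438) (nat_lit 395) (nat_lit 367)) (XT.lf (nat_lit 0) (nat_lit 2423090782) (nat_lit 684) (nat_lit 5480214333) (nat_lit 760) (nat_lit 481735258) (nat_lit 314) (nat_lit 5) (nat_lit 323) (nat_lit 5) (nat_lit 324) (nat_lit 5) (nat_lit 439) (nat_lit 395) (nat_lit 366)))))) (XT.nd (nat_lit 468) (nat_lit 4256) (nat_lit 0) (XT.nd (nat_lit 234) (nat_lit 1976) (nat_lit 0) (XT.nd (nat_lit 78) (nat_lit 1368)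 (nat_lit 0) (XT.lf (nat_lit 0) (nat_lit 2978126808) (nat_lit 608) (nat_lit 968360735) (nat_lit 684) (nat_lit 4547415992) (nat_lit 305) (nat_lit 5) (nat_lit 313) (nat_lit 5) (nat_lit 314) (nat_lit 5) (nat_lit 440) (nat_lit 395) (nat_lit 365)) (XT.nd (nat_lit 78) (nat_lit 684) (nat_lit 0) (XT.lf (nat_lit 0) (nat_lit 3560085134) (nat_lit 684) (nat_lit 4931921537) (nat_lit 760) (nat_lit 114150228) (nat_lit 296) (nat_lit 5) (nat_lit 305) (nat_lit 5) (nat_lit 306) (nat_lit 5) (nat_lit 441) (nat_lit 395) (nat_lit 364)) (XT.lf (nat_lit 0) (nat_lit 4160312295) (nat_lit 608) (nat_lit 209215043) (nat_lit 684) (nat_lit 4352163825) (nat_lit 287) (nat_lit 5) (nat_lit 295) (nat_lit 5) (nat_lit 296) (nat_lit 5) (nat_lit 442) (nat_lit 395) (nat_lit 363)))) (XT.nd (nat_lit 78) (nat_lit 1292) (nat_lit 0) (XT.lf (nat_lit 0) (nat_lit 145816147) (nat_lit 684) (nat_lit 4059189788) (nat_lit 76) (nat_lit 4635613950) (nat_lit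 278) (nat_lit 5) (nat_lit 287) (nat_lit 5) (nat_lit 279) (nat_lit 5) (nat_lit 443) (nat_lit 395) (nat_lit 362)) (XT.nd (nat_lit 78) (nat_lit 684) (nat_lit 0) (XT.lf (nat_lit 0) (nat_lit 4700271109) (nat_lit 684) (nat_lit 3543183741) (nat_lit 76) (nat_lit 719479907) (nat_lit 270) (nat_lit 5) (nat_lit 279) (nat_lit 5) (nat_lit 271) (nat_lit 5) (nat_lit 444) (nat_lit 395) (nat_lit 361)) (XT.lf (nat_lit 0) (nat_lit 303388895) (nat_lit 684) (nat_lit 3009105093) (nat_lit 76) (nat_lit 5776294115) (nat_lit 261) (nat_lit 5) (nat_lit 270) (nat_lit 5) (nat_lit 262) (nat_lit 5) (nat_lit 445) (nat_lit 395) (nat_lit 360))))) (XT.nd (nat_lit 234) (nat_lit 2584) (nat_lit 0) (XT.nd (nat_lit 78) (nat_lit 1140) (nat_lit 0) (XT.lf (nat_lit 0) (nat_lit 4939696168) (nat_lit 608) (nat_lit 2467600558) (nat_lit 76) (nat_lit 1810739485) (nat_lit 254) (nat_lit 5) (nat_lit 262) (nat_lit 5) (nat_lit 255) (nat_lit 5) (nat_lit 446)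 (nat_lit 395) (nat_lit 359)) (XT.nd (nat_lit 78) (nat_lit 532) (nat_lit 0) (XT.lf (nat_lit 0) (nat_lit 362728698) (nat_lit 608) (nat_lit 1903729769) (nat_lit 76) (nat_lit 7084590719) (nat_lit 246) (nat_lit 5) (nat_lit 254) (nat_lit 5) (nat_lit 247) (nat_lit 5) (nat_lit 447) (nat_lit 395) (nat_lit 358)) (XT.lf (nat_lit 0) (nat_lit 5088918016) (nat_lit 608) (nat_lit 1341887181) (nat_lit 76) (nat_lit 3056607388) (nat_lit 239) (nat_lit 5) (nat_lit 247) (nat_lit 5) (nat_lit 240) (nat_lit 5) (nat_lit 448) (nat_lit 395) (nat_lit 357)))) (XT.nd (nat_lit 156) (nat_lit 1520) (nat_lit 0) (XT.nd (nat_lit 78) (nat_lit 456) (nat_lit 0) (XT.lf (nat_lit 0) (nat_lit 325773884) (nat_lit 608) (nat_lit 751750105) (nat_lit 76) (nat_lit 8550284548) (nat_lit 231) (nat_lit 5) (nat_lit 239) (nat_lit 5) (nat_lit 232) (nat_lit 5) (nat_lit 449) (nat_lit 395) (nat_lit 356)) (XT.lf (nat_lit 0) (nat_lit 5149701657) (nat_lit 532)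 (nat_lit 174741139) (nat_lit 76) (nat_lit 4447043769) (nat_lit 225) (nat_lit 5) (nat_lit 232) (nat_lit 5) (nat_lit 226) (nat_lit 5) (nat_lit 450) (nat_lit 395) (nat_lit 355))) (XT.nd (nat_lit 78) (nat_lit 456) (nat_lit 0) (XT.lf (nat_lit 0) (nat_lit 198228418) (nat_lit 532) (nat_lit 9477204721) (nat_lit 76) (nat_lit 243981892) (nat_lit 211) (nat_lit 5) (nat_lit 218) (nat_lit 5) (nat_lit 212) (nat_lit 5) (nat_lit 451) (nat_lit 395) (nat_lit 354)) (XT.lf (nat_lit 0) (nat_lit 1038590656) (nat_lit 456) (nat_lit 4091257100) (nat_lit 532) (nat_lit 4940731699) (nat_lit 205) (nat_lit 5) (nat_lit 211) (nat_lit 5) (nat_lit 212) (nat_lit 5) (nat_lit 452) (nat_lit 395) (nat_lit 353))))))) (XT.nd (nat_lit 1014) (nat_lit 3952) (nat_lit 0) (XT.nd (nat_lit 468) (nat_lit 2736) (nat_lit 0) (XT.nd (nat_lit 234) (nat_lit 1368) (nat_lit 0) (XT.nd (nat_lit 78) (nat_lit 912) (nat_lit 0) (XT.lf (nat_lit 0) (nat_lit 1667259340)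 (nat_lit 456) (nat_lit 8547831254) (nat_lit 532) (nat_lit 11079627) (nat_lit 199) (nat_lit 5) (nat_lit 205) (nat_lit 5) (nat_lit 206) (nat_lit 5) (nat_lit 453) (nat_lit 395) (nat_lit 352)) (XT.nd (nat_lit 78) (nat_lit 380) (nat_lit 0) (XT.lf (nat_lit 0) (nat_lit 2277988520) (nat_lit 456) (nat_lit 2746274010) (nat_lit 532) (nat_lit 5361027993) (nat_lit 192) (nat_lit 5) (nat_lit 198) (nat_lit 5) (nat_lit 199) (nat_lit 5) (nat_lit 454) (nat_lit 395) (nat_lit 351)) (XT.lf (nat_lit 0) (nat_lit 2909297068) (nat_lit 380) (nat_lit 7321270628) (nat_lit 456) (nat_lit 318218744) (nat_lit 187) (nat_lit 5) (nat_lit 192) (nat_lit 5) (nat_lit 193) (nat_lit 5) (nat_lit 455) (nat_lit 395) (nat_lit 350)))) (XT.nd (nat_lit 78) (nat_lit 836) (nat_lit 0) (XT.lf (nat_lit 0) (nat_lit 3531510619) (nat_lit 456) (nat_lit 1299847276) (nat_lit 532) (nat_lit 5884811889) (nat_lit 180) (nat_lit 5) (nat_lit 186) (nat_lit 5) (nat_lit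 187) (nat_lit 5) (nat_lit 456) (nat_lit 395) (nat_lit 349)) (XT.nd (nat_lit 78) (nat_lit 456) (nat_lit 0) (XT.lf (nat_lit 0) (nat_lit 4159838446) (nat_lit 380) (nat_lit 6006327880) (nat_lit 456) (nat_lit 721669065) (nat_lit 175) (nat_lit 5) (nat_lit 180) (nat_lit 5) (nat_lit 181) (nat_lit 5) (nat_lit 457) (nat_lit 395) (nat_lit 348)) (XT.lf (nat_lit 0) (nat_lit 4551507352) (nat_lit 456) (nat_lit 6276266587) (nat_lit 76) (nat_lit 235975736) (nat_lit 169) (nat_lit 5) (nat_lit 175) (nat_lit 5) (nat_lit 170) (nat_lit 5) (nat_lit 458) (nat_lit 395) (nat_lit 347))))) (XT.nd (nat_lit 234) (nat_lit 1520) (nat_lit 0) (XT.nd (nat_lit 78) (nat_lit 836) (nat_lit 0) (XT.lf (nat_lit 0) (nat_lit 5408539561) (nat_lit 380) (nat_lit 4612041295) (nat_lit 456) (nat_lit 1223318869) (nat_lit 164) (nat_lit 5) (nat_lit 169) (nat_lit 5) (nat_lit 170) (nat_lit 5) (nat_lit 459) (nat_lit 395) (nat_lit 346)) (XT.nd (nat_lit 78)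 (nat_lit 380) (nat_lit 0) (XT.lf (nat_lit 0) (nat_lit 4190199964) (nat_lit 456) (nat_lit 5400828644) (nat_lit 76) (nat_lit 1837454226) (nat_lit 158) (nat_lit 5) (nat_lit 164) (nat_lit 5) (nat_lit 159) (nat_lit 5) (nat_lit 460) (nat_lit 395) (nat_lit 345)) (XT.lf (nat_lit 0) (nat_lit 6644413499) (nat_lit 380) (nat_lit 3147329873) (nat_lit 456) (nat_lit 1825857139) (nat_lit 153) (nat_lit 5) (nat_lit 158) (nat_lit 5) (nat_lit 159) (nat_lit 5) (nat_lit 461) (nat_lit 395) (nat_lit 344)))) (XT.nd (nat_lit 156) (nat_lit 760) (nat_lit 0) (XT.nd (nat_lit 78) (nat_lit 304) (nat_lit 0) (XT.lf (nat_lit 0) (nat_lit 3736206056) (nat_lit 456) (nat_lit 4561862410) (nat_lit 76) (nat_lit 3513111191) (nat_lit 147) (nat_lit 5) (nat_lit 153) (nat_lit 5) (nat_lit 148) (nat_lit 5) (nat_lit 462) (nat_lit 395) (nat_lit 343)) (XT.lf (nat_lit 0) (nat_lit 7855707905) (nat_lit 304) (nat_lit 1621083659) (nat_lit 380) (nat_lit 2532807212)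 (nat_lit 143) (nat_lit 5) (nat_lit 147) (nat_lit 5) (nat_lit 148) (nat_lit 5) (nat_lit 463) (nat_lit 395) (nat_lit 342))) (XT.nd (nat_lit 78) (nat_lit 304) (nat_lit 0) (XT.lf (nat_lit 0) (nat_lit 3185907536) (nat_lit 456) (nat_lit 3772192495) (nat_lit 76) (nat_lit 5254422574) (nat_lit 137) (nat_lit 5) (nat_lit 143) (nat_lit 5) (nat_lit 138) (nat_lit 5) (nat_lit 464) (nat_lit 395) (nat_lit 341)) (XT.lf (nat_lit 0) (nat_lit 9029773327) (nat_lit 304) (nat_lit 42256350) (nat_lit 380) (nat_lit 3348567555) (nat_lit 133) (nat_lit 5) (nat_lit 137) (nat_lit 5) (nat_lit 138) (nat_lit 5) (nat_lit 465) (nat_lit 395) (nat_lit 340)))))) (XT.nd (nat_lit 468) (nat_lit 1976) (nat_lit 0) (XT.nd (nat_lit 234) (nat_lit 912) (nat_lit 0) (XT.nd (nat_lit 78) (nat_lit 684) (nat_lit 0) (XT.lf (nat_lit 0) (nat_lit 2534814799) (nat_lit 380) (nat_lit 3045649675) (nat_lit 76) (nat_lit 7052772343) (nat_lit 128) (nat_lit 5) (nat_lit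 133) (nat_lit 5) (nat_lit 129) (nat_lit 5) (nat_lit 466) (nat_lit 395) (nat_lit 339)) (XT.nd (nat_lit 78) (nat_lit 380) (nat_lit 0) (XT.lf (nat_lit 0) (nat_lit 8583140700) (nat_lit 380) (nat_lit 2708679768) (nat_lit 76) (nat_lit 1559316547) (nat_lit 124) (nat_lit 5) (nat_lit 129) (nat_lit 5) (nat_lit 125) (nat_lit 5) (nat_lit 467) (nat_lit 395) (nat_lit 338)) (XT.lf (nat_lit 0) (nat_lit 1777515394) (nat_lit 380) (nat_lit 2397220291) (nat_lit 76) (nat_lit 8899356446) (nat_lit 119) (nat_lit 5) (nat_lit 124) (nat_lit 5) (nat_lit 120) (nat_lit 5) (nat_lit 468) (nat_lit 395) (nat_lit 337)))) (XT.nd (nat_lit 78) (nat_lit 608) (nat_lit 0) (XT.lf (nat_lit 0) (nat_lit 7994851727) (nat_lit 380) (nat_lit 2113369433) (nat_lit 76) (nat_lit 3193984230) (nat_lit 115) (nat_lit 5) (nat_lit 120) (nat_lit 5) (nat_lit 116) (nat_lit 5) (nat_lit 469) (nat_lit 395) (nat_lit 336)) (XT.nd (nat_lit 78) (nat_lit 228) (nat_lit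 0) (XT.lf (nat_lit 0) (nat_lit 907614421) (nat_lit 380) (nat_lit 1843208379) (nat_lit 76) (nat_lit 10785082504) (nat_lit 110) (nat_lit 5) (nat_lit 115) (nat_lit 5) (nat_lit 111) (nat_lit 5) (nat_lit 470) (nat_lit 395) (nat_lit 335)) (XT.lf (nat_lit 0) (nat_lit 7300318029) (nat_lit 304) (nat_lit 1621637773) (nat_lit 76) (nat_lit 4852693342) (nat_lit 107) (nat_lit 5) (nat_lit 111) (nat_lit 5) (nat_lit 108) (nat_lit 5) (nat_lit 471) (nat_lit 395) (nat_lit 334))))) (XT.nd (nat_lit 234) (nat_lit 1064) (nat_lit 0) (XT.nd (nat_lit 78) (nat_lit 608) (nat_lit 0) (XT.lf (nat_lit 0) (nat_lit 12617577869) (nat_lit 304) (nat_lit 1318525618) (nat_lit 380) (nat_lit 83428140) (nat_lit 103) (nat_lit 5) (nat_lit 107) (nat_lit 5) (nat_lit 108) (nat_lit 5) (nat_lit 472) (nat_lit 395) (nat_lit 333)) (XT.nd (nat_lit 78) (nat_lit 304) (nat_lit 0) (XT.lf (nat_lit 0) (nat_lit 6491896899) (nat_lit 304) (nat_lit 1252094257)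 (nat_lit 76) (nat_lit 6525369052) (nat_lit 99) (nat_lit 5) (nat_lit 103) (nat_lit 5) (nat_lit 100) (nat_lit 5) (nat_lit 473) (nat_lit 395) (nat_lit 332)) (XT.lf (nat_lit 0) (nat_lit 13309663537) (nat_lit 380) (nat_lit 1099980608) (nat_lit 76) (nat_lit 116104328) (nat_lit 95) (nat_lit 5) (nat_lit 100) (nat_lit 5) (nat_lit 96) (nat_lit 5) (nat_lit 474) (nat_lit 395) (nat_lit 331)))) (XT.nd (nat_lit 156) (nat_lit 532) (nat_lit 0) (XT.nd (nat_lit 78) (nat_lit 228) (nat_lit 0) (XT.lf (nat_lit 0) (nat_lit 5560790545) (nat_lit 304) (nat_lit 1025139575) (nat_lit 76) (nat_lit 8201353827) (nat_lit 91) (nat_lit 5) (nat_lit 95) (nat_lit 5) (nat_lit 92) (nat_lit 5) (nat_lit 475) (nat_lit 395) (nat_lit 330)) (XT.lf (nat_lit 0) (nat_lit 12575137953) (nat_lit 304) (nat_lit 960471337) (nat_lit 76) (nat_lit 1519883679) (nat_lit 88) (nat_lit 5) (nat_lit 92) (nat_lit 5) (nat_lit 89) (nat_lit 5) (nat_lit 476) (nat_lit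 395) (nat_lit 329))) (XT.nd (nat_lit 78) (nat_lit 228) (nat_lit 0) (XT.lf (nat_lit 0) (nat_lit 4496952525) (nat_lit 304) (nat_lit 963185476) (nat_lit 76) (nat_lit 9869284241) (nat_lit 84) (nat_lit 5) (nat_lit 88) (nat_lit 5) (nat_lit 85) (nat_lit 5) (nat_lit 477) (nat_lit 395) (nat_lit 328)) (XT.lf (nat_lit 0) (nat_lit 11713658292) (nat_lit 304) (nat_lit 998366619) (nat_lit 76) (nat_lit 2897942881) (nat_lit 81) (nat_lit 5) (nat_lit 85) (nat_lit 5) (nat_lit 82) (nat_lit 5) (nat_lit 478) (nat_lit 395) (nat_lit 327))))))))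
noncomputable def xc32 : XT := (XT.nd (nat_lit 58110) (nat_lit 0) (nat_lit 14972) (XT.nd (nat_lit 57096) (nat_lit 0) (nat_lit 39748) (XT.nd (nat_lit 468) (nat_lit 912) (nat_lit 0) (XT.nd (nat_lit 234) (nat_lit 684) (nat_lit 0) (XT.nd (nat_lit 78) (nat_lit 532) (nat_lit 0) (XT.lf (nat_lit 0) (nat_lit 3288982401) (nat_lit 304) (nat_lit 1090895603) (nat_lit 76) (nat_lit 11516958828) (nat_lit 77) (nat_lit 5) (nat_lit 81) (nat_lit 5) (nat_lit 78) (nat_lit 5) (nat_lit 479) (nat_lit 395) (nat_lit 326)) (XT.nd (nat_lit 78) (nat_lit 304) (nat_lit 0) (XT.lf (nat_lit 0) (nat_lit 10713523661) (nat_lit 304) (nat_lit 1239550374) (nat_lit 76) (nat_lit 4237191999) (nat_lit 74) (nat_lit 5) (nat_lit 78) (nat_lit 5) (nat_lit 75) (nat_lit 5) (nat_lit 480) (nat_lit 395) (nat_lit 325)) (XT.lf (nat_lit 0) (nat_lit 1924007550) (nat_lit 304) (nat_lit 1435449672) (nat_lit 76) (nat_lit 13131195759) (nat_lit 70) (nat_lit 5) (nat_lit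 74) (nat_lit 5) (nat_lit 71) (nat_lit 5) (nat_lit 481) (nat_lit 395) (nat_lit 324)))) (XT.nd (nat_lit 78) (nat_lit 456) (nat_lit 0) (XT.lf (nat_lit 0) (nat_lit 9561515510) (nat_lit 304) (nat_lit 1712565742) (nat_lit 76) (nat_lit 5523464977) (nat_lit 67) (nat_lit 5) (nat_lit 71) (nat_lit 5) (nat_lit 68) (nat_lit 5) (nat_lit 482) (nat_lit 395) (nat_lit 323)) (XT.nd (nat_lit 78) (nat_lit 228) (nat_lit 0) (XT.lf (nat_lit 0) (nat_lit 387550957) (nat_lit 228) (nat_lit 2026833573) (nat_lit 76) (nat_lit 14697678943) (nat_lit 64) (nat_lit 5) (nat_lit 67) (nat_lit 5) (nat_lit 65) (nat_lit 5) (nat_lit 483) (nat_lit 395) (nat_lit 322)) (XT.lf (nat_lit 0) (nat_lit 8242758536) (nat_lit 304) (nat_lit 2448919131) (nat_lit 76) (nat_lit 6741358868) (nat_lit 61) (nat_lit 5) (nat_lit 65) (nat_lit 5) (nat_lit 62) (nat_lit 5) (nat_lit 484) (nat_lit 395) (nat_lit 321))))) (XT.nd (nat_lit 234) (nat_lit 304) (nat_lit 0) (XT.nd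 (nat_lit 78) (nat_lit 456) (nat_lit 0) (XT.lf (nat_lit 0) (nat_lit 14855205336) (nat_lit 152) (nat_lit 1552572481) (nat_lit 228) (nat_lit 1354379278) (nat_lit 59) (nat_lit 5) (nat_lit 61) (nat_lit 5) (nat_lit 62) (nat_lit 5) (nat_lit 485) (nat_lit 395) (nat_lit 320)) (XT.nd (nat_lit 78) (nat_lit 152) (nat_lit 0) (XT.lf (nat_lit 0) (nat_lit 6740565553) (nat_lit 304) (nat_lit 3483414541) (nat_lit 76) (nat_lit 7874059184) (nat_lit 55) (nat_lit 5) (nat_lit 59) (nat_lit 5) (nat_lit 56) (nat_lit 5) (nat_lit 486) (nat_lit 395) (nat_lit 319)) (XT.lf (nat_lit 0) (nat_lit 14334871521) (nat_lit 152) (nat_lit 797449783) (nat_lit 228) (nat_lit 3310051616) (nat_lit 53) (nat_lit 5) (nat_lit 55) (nat_lit 5) (nat_lit 56) (nat_lit 5) (nat_lit 487) (nat_lit 395) (nat_lit 318)))) (XT.nd (nat_lit 56238) (nat_lit 0) (nat_lit 52744) (XT.lf (nat_lit 0) (nat_lit 5036264781) (nat_lit 304) (nat_lit 4854521461) (nat_lit 76) (nat_lit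 8903149675) (nat_lit 49) (nat_lit 5) (nat_lit 53) (nat_lit 5) (nat_lit 50) (nat_lit 5) (nat_lit 488) (nat_lit 395) (nat_lit 317)) (XT.nd (nat_lit 78) (nat_lit 532) (nat_lit 0) (XT.lf (nat_lit 0) (nat_lit 711529274) (nat_lit 532) (nat_lit 1832057477) (nat_lit 0) (nat_lit 711529274) (nat_lit 750) (nat_lit 5) (nat_lit 757) (nat_lit 4) (nat_lit 750) (nat_lit 4) (nat_lit 408) (nat_lit 396) (nat_lit 396)) (XT.lf (nat_lit 0) (nat_lit 2030914191) (nat_lit 532) (nat_lit 4195018479) (nat_lit 532) (nat_lit 302780381) (nat_lit 743) (nat_lit 4) (nat_lit 750) (nat_lit 5) (nat_lit 750) (nat_lit 4) (nat_lit 409) (nat_lit 396) (nat_lit 395)))))) (XT.nd (nat_lit 468) (nat_lit 8816) (nat_lit 0) (XT.nd (nat_lit 234) (nat_lit 2660) (nat_lit 0) (XT.nd (nat_lit 78) (nat_lit 836) (nat_lit 0) (XT.lf (nat_lit 0) (nat_lit 1270734376) (nat_lit 608) (nat_lit 3155921274) (nat_lit 684) (nat_lit 2123276146) (nat_lit 734) (nat_lit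 5) (nat_lit 742) (nat_lit 5) (nat_lit 743) (nat_lit 4) (nat_lit 410) (nat_lit 396) (nat_lit 394)) (XT.nd (nat_lit 78) (nat_lit 76) (nat_lit 0) (XT.lf (nat_lit 0) (nat_lit 574540480) (nat_lit 684) (nat_lit 1978334471) (nat_lit 760) (nat_lit 4021215418) (nat_lit 724) (nat_lit 5) (nat_lit 733) (nat_lit 5) (nat_lit 734) (nat_lit 5) (nat_lit 411) (nat_lit 396) (nat_lit 393)) (XT.lf (nat_lit 0) (nat_lit 603207571) (nat_lit 760) (nat_lit 57422092) (nat_lit 76) (nat_lit 5940568459) (nat_lit 723) (nat_lit 5) (nat_lit 733) (nat_lit 5) (nat_lit 724) (nat_lit 5) (nat_lit 412) (nat_lit 396) (nat_lit 392)))) (XT.nd (nat_lit 78) (nat_lit 1900) (nat_lit 0) (XT.lf (nat_lit 0) (nat_lit 5196164498) (nat_lit 836) (nat_lit 634273382) (nat_lit 76) (nat_lit 800484980) (nat_lit 713) (nat_lit 5) (nat_lit 724) (nat_lit 5) (nat_lit 714) (nat_lit 5) (nat_lit 413) (nat_lit 396) (nat_lit 391)) (XT.nd (nat_lit 78) (nat_lit 988)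 (nat_lit 0) (XT.lf (nat_lit 0) (nat_lit 3106565937) (nat_lit 912) (nat_lit 1159047640) (nat_lit 76) (nat_lit 2397844195) (nat_lit 701) (nat_lit 5) (nat_lit 713) (nat_lit 5) (nat_lit 702) (nat_lit 5) (nat_lit 414) (nat_lit 396) (nat_lit 390)) (XT.lf (nat_lit 0) (nat_lit 937398878) (nat_lit 988) (nat_lit 1623793032) (nat_lit 76) (nat_lit 4137799337) (nat_lit 688) (nat_lit 5) (nat_lit 701) (nat_lit 5) (nat_lit 689) (nat_lit 5) (nat_lit 415) (nat_lit 396) (nat_lit 389))))) (XT.nd (nat_lit 234) (nat_lit 5472) (nat_lit 0) (XT.nd (nat_lit 78) (nat_lit 2356) (nat_lit 0) (XT.lf (nat_lit 0) (nat_lit 4699958660) (nat_lit 988) (nat_lit 706552746) (nat_lit 1064) (nat_lit 1330863891) (nat_lit 675) (nat_lit 5) (nat_lit 688) (nat_lit 5) (nat_lit 689) (nat_lit 5) (nat_lit 416) (nat_lit 396) (nat_lit 388)) (XT.nd (nat_lit 78) (nat_lit 1216) (nat_lit 0) (XT.lf (nat_lit 0) (nat_lit 3090610038) (nat_lit 1140) (nat_lit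 2406625737) (nat_lit 76) (nat_lit 1281270982) (nat_lit 660) (nat_lit 5) (nat_lit 675) (nat_lit 5) (nat_lit 661) (nat_lit 5) (nat_lit 417) (nat_lit 396) (nat_lit 387)) (XT.lf (nat_lit 0) (nat_lit 696131757) (nat_lit 1216) (nat_lit 2722508555) (nat_lit 76) (nat_lit 3403955380) (nat_lit 644) (nat_lit 5) (nat_lit 660) (nat_lit 5) (nat_lit 645) (nat_lit 5) (nat_lit 418) (nat_lit 396) (nat_lit 386)))) (XT.nd (nat_lit 156) (nat_lit 2888) (nat_lit 0) (XT.nd (nat_lit 78) (nat_lit 1368) (nat_lit 0) (XT.lf (nat_lit 0) (nat_lit 3877218072) (nat_lit 1216) (nat_lit 1184782863) (nat_lit 1292) (nat_lit 1807528934) (nat_lit 628) (nat_lit 5) (nat_lit 644) (nat_lit 5) (nat_lit 645) (nat_lit 5) (nat_lit 419) (nat_lit 396) (nat_lit 385)) (XT.lf (nat_lit 0) (nat_lit 2517781607) (nat_lit 1368) (nat_lit 3217282737) (nat_lit 76) (nat_lit 1184253601) (nat_lit 610) (nat_lit 5) (nat_lit 628) (nat_lit 5) (nat_lit 611) (nat_lit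 5) (nat_lit 420) (nat_lit 396) (nat_lit 384))) (XT.nd (nat_lit 78) (nat_lit 1520) (nat_lit 0) (XT.lf (nat_lit 0) (nat_lit 3577662003) (nat_lit 1368) (nat_lit 3286776384) (nat_lit 1444) (nat_lit 107616620) (nat_lit 592) (nat_lit 5) (nat_lit 610) (nat_lit 5) (nat_lit 611) (nat_lit 5) (nat_lit 421) (nat_lit 396) (nat_lit 383)) (XT.lf (nat_lit 0) (nat_lit 3495255781) (nat_lit 1444) (nat_lit 674659256) (nat_lit 1520) (nat_lit 2857687405) (nat_lit 572) (nat_lit 5) (nat_lit 591) (nat_lit 5) (nat_lit 592) (nat_lit 5) (nat_lit 422) (nat_lit 396) (nat_lit 382))))))) (XT.nd (nat_lit 936) (nat_lit 9652) (nat_lit 0) (XT.nd (nat_lit 468) (nat_lit 5396) (nat_lit 0) (XT.nd (nat_lit 234) (nat_lit 4788) (nat_lit 0) (XT.nd (nat_lit 78) (nat_lit 3344) (nat_lit 0) (XT.lf (nat_lit 0) (nat_lit 1398228963) (nat_lit 1596) (nat_lit 3628023172) (nat_lit 76) (nat_lit 2059806976) (nat_lit 551) (nat_lit 5) (nat_lit 572) (nat_lit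 5) (nat_lit 552) (nat_lit 5) (nat_lit 423) (nat_lit 396) (nat_lit 381)) (XT.nd (nat_lit 78) (nat_lit 1748) (nat_lit 0) (XT.lf (nat_lit 0) (nat_lit 3464749870) (nat_lit 1596) (nat_lit 2201730156) (nat_lit 1672) (nat_lit 1480957142) (nat_lit 530) (nat_lit 5) (nat_lit 551) (nat_lit 5) (nat_lit 552) (nat_lit 5) (nat_lit 424) (nat_lit 396) (nat_lit 380)) (XT.lf (nat_lit 0) (nat_lit 2741692290) (nat_lit 1748) (nat_lit 3697040493) (nat_lit 76) (nat_lit 773028286) (nat_lit 507) (nat_lit 5) (nat_lit 530) (nat_lit 5) (nat_lit 508) (nat_lit 5) (nat_lit 425) (nat_lit 396) (nat_lit 379)))) (XT.nd (nat_lit 78) (nat_lit 3040) (nat_lit 0) (XT.lf (nat_lit 0) (nat_lit 3605446447) (nat_lit 1748) (nat_lit 3406071156) (nat_lit 1824) (nat_lit 267502929) (nat_lit 484) (nat_lit 5) (nat_lit 507) (nat_lit 5) (nat_lit 508) (nat_lit 5) (nat_lit 426) (nat_lit 396) (nat_lit 378)) (XT.nd (nat_lit 78) (nat_lit 1140) (nat_lit 0) (XT.lf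 (nat_lit 0) (nat_lit 3734568471) (nat_lit 1824) (nat_lit 202037269) (nat_lit 1900) (nat_lit 3412603415) (nat_lit 459) (nat_lit 5) (nat_lit 483) (nat_lit 5) (nat_lit 484) (nat_lit 5) (nat_lit 427) (nat_lit 396) (nat_lit 377)) (XT.lf (nat_lit 0) (nat_lit 782960166) (nat_lit 1140) (nat_lit 3522368841) (nat_lit 76) (nat_lit 3116997129) (nat_lit 444) (nat_lit 5) (nat_lit 459) (nat_lit 5) (nat_lit 445) (nat_lit 5) (nat_lit 428) (nat_lit 396) (nat_lit 376))))) (XT.nd (nat_lit 234) (nat_lit 2660) (nat_lit 0) (XT.nd (nat_lit 78) (nat_lit 1824) (nat_lit 0) (XT.lf (nat_lit 0) (nat_lit 4104005140) (nat_lit 912) (nat_lit 890886143) (nat_lit 988) (nat_lit 2503569191) (nat_lit 432) (nat_lit 5) (nat_lit 444) (nat_lit 5) (nat_lit 445) (nat_lit 5) (nat_lit 429) (nat_lit 396) (nat_lit 375)) (XT.nd (nat_lit 78) (nat_lit 836) (nat_lit 0) (XT.lf (nat_lit 0) (nat_lit 1688859164) (nat_lit 988) (nat_lit 3236183470) (nat_lit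 76) (nat_lit 2652508002) (nat_lit 419) (nat_lit 5) (nat_lit 432) (nat_lit 5) (nat_lit 420) (nat_lit 5) (nat_lit 430) (nat_lit 396) (nat_lit 374)) (XT.lf (nat_lit 0) (nat_lit 4617136799) (nat_lit 836) (nat_lit 1303555524) (nat_lit 912) (nat_lit 1739048649) (nat_lit 408) (nat_lit 5) (nat_lit 419) (nat_lit 5) (nat_lit 420) (nat_lit 5) (nat_lit 431) (nat_lit 396) (nat_lit 373)))) (XT.nd (nat_lit 78) (nat_lit 1748) (nat_lit 0) (XT.lf (nat_lit 0) (nat_lit 2462268214) (nat_lit 912) (nat_lit 2824124554) (nat_lit 76) (nat_lit 2458477211) (nat_lit 396) (nat_lit 5) (nat_lit 408) (nat_lit 5) (nat_lit 397) (nat_lit 5) (nat_lit 432) (nat_lit 396) (nat_lit 372)) (XT.nd (nat_lit 78) (nat_lit 912) (nat_lit 0) (XT.lf (nat_lit 0) (nat_lit 5263546482) (nat_lit 836) (nat_lit 1458759280) (nat_lit 912) (nat_lit 1110901522) (nat_lit 385) (nat_lit 5) (nat_lit 396) (nat_lit 5) (nat_lit 397) (nat_lit 5) (nat_lit 433) (nat_lit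 396) (nat_lit 371)) (XT.lf (nat_lit 0) (nat_lit 3110841046) (nat_lit 912) (nat_lit 2296448778) (nat_lit 76) (nat_lit 2517167652) (nat_lit 373) (nat_lit 5) (nat_lit 385) (nat_lit 5) (nat_lit 374) (nat_lit 5) (nat_lit 434) (nat_lit 396) (nat_lit 370)))))) (XT.nd (nat_lit 468) (nat_lit 5092) (nat_lit 0) (XT.nd (nat_lit 234) (nat_lit 2280) (nat_lit 0) (XT.nd (nat_lit 78) (nat_lit 1520) (nat_lit 0) (XT.lf (nat_lit 0) (nat_lit 6033395275) (nat_lit 760) (nat_lit 1373749623) (nat_lit 836) (nat_lit 611903073) (nat_lit 363) (nat_lit 5) (nat_lit 373) (nat_lit 5) (nat_lit 374) (nat_lit 5) (nat_lit 435) (nat_lit 396) (nat_lit 369)) (XT.nd (nat_lit 78) (nat_lit 684) (nat_lit 0) (XT.lf (nat_lit 0) (nat_lit 3641364377) (nat_lit 836) (nat_lit 1662910411) (nat_lit 76) (nat_lit 2812243367) (nat_lit 352) (nat_lit 5) (nat_lit 363) (nat_lit 5) (nat_lit 353) (nat_lit 5) (nat_lit 436) (nat_lit 396) (nat_lit 368)) (XT.lf (nat_lit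 0) (nat_lit 6917338432) (nat_lit 684) (nat_lit 1064443614) (nat_lit 760) (nat_lit 235701153) (nat_lit 343) (nat_lit 5) (nat_lit 352) (nat_lit 5) (nat_lit 353) (nat_lit 5) (nat_lit 437) (nat_lit 396) (nat_lit 367)))) (XT.nd (nat_lit 78) (nat_lit 1444) (nat_lit 0) (XT.lf (nat_lit 0) (nat_lit 4059797085) (nat_lit 836) (nat_lit 932843750) (nat_lit 76) (nat_lit 3328647671) (nat_lit 332) (nat_lit 5) (nat_lit 343) (nat_lit 5) (nat_lit 333) (nat_lit 5) (nat_lit 438) (nat_lit 396) (nat_lit 366)) (XT.nd (nat_lit 78) (nat_lit 684) (nat_lit 0) (XT.lf (nat_lit 0) (nat_lit 22916296) (nat_lit 760) (nat_lit 522472157) (nat_lit 76) (nat_lit 7883373079) (nat_lit 322) (nat_lit 5) (nat_lit 332) (nat_lit 5) (nat_lit 323) (nat_lit 5) (nat_lit 439) (nat_lit 396) (nat_lit 365)) (XT.lf (nat_lit 0) (nat_lit 4371303703) (nat_lit 760) (nat_lit 115244358) (nat_lit 76) (nat_lit 4052488308) (nat_lit 313) (nat_lit 5) (nat_lit 323)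 (nat_lit 5) (nat_lit 314) (nat_lit 5) (nat_lit 440) (nat_lit 396) (nat_lit 364))))) (XT.nd (nat_lit 234) (nat_lit 2432) (nat_lit 0) (XT.nd (nat_lit 78) (nat_lit 1292) (nat_lit 0) (XT.lf (nat_lit 0) (nat_lit 170695433) (nat_lit 760) (nat_lit 8311909012) (nat_lit 76) (nat_lit 170481606) (nat_lit 295) (nat_lit 5) (nat_lit 305) (nat_lit 5) (nat_lit 296) (nat_lit 5) (nat_lit 441) (nat_lit 396) (nat_lit 363)) (XT.nd (nat_lit 78) (nat_lit 684) (nat_lit 0) (XT.lf (nat_lit 0) (nat_lit 791531352) (nat_lit 608) (nat_lit 3793890172) (nat_lit 684) (nat_lit 4184536642) (nat_lit 287) (nat_lit 5) (nat_lit 295) (nat_lit 5) (nat_lit 296) (nat_lit 5) (nat_lit 442) (nat_lit 396) (nat_lit 362)) (XT.lf (nat_lit 0) (nat_lit 219952576) (nat_lit 684) (nat_lit 7607300690) (nat_lit 76) (nat_lit 1063441116) (nat_lit 278) (nat_lit 5) (nat_lit 287) (nat_lit 5) (nat_lit 279) (nat_lit 5) (nat_lit 443) (nat_lit 396) (nat_lit 361))))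 (XT.nd (nat_lit 156) (nat_lit 1140) (nat_lit 0) (XT.nd (nat_lit 78) (nat_lit 684) (nat_lit 0) (XT.lf (nat_lit 0) (nat_lit 1771007074) (nat_lit 608) (nat_lit 2930878885) (nat_lit 684) (nat_lit 4312577042) (nat_lit 270) (nat_lit 5) (nat_lit 278) (nat_lit 5) (nat_lit 279) (nat_lit 5) (nat_lit 444) (nat_lit 396) (nat_lit 360)) (XT.lf (nat_lit 0) (nat_lit 166688030) (nat_lit 684) (nat_lit 6849791052) (nat_lit 76) (nat_lit 2125595744) (nat_lit 261) (nat_lit 5) (nat_lit 270) (nat_lit 5) (nat_lit 262) (nat_lit 5) (nat_lit 445) (nat_lit 396) (nat_lit 359))) (XT.nd (nat_lit 78) (nat_lit 608) (nat_lit 0) (XT.lf (nat_lit 0) (nat_lit 2813074497) (nat_lit 532) (nat_lit 1909736290) (nat_lit 608) (nat_lit 4550118901) (nat_lit 254) (nat_lit 5) (nat_lit 261) (nat_lit 5) (nat_lit 262) (nat_lit 5) (nat_lit 446) (nat_lit 396) (nat_lit 358)) (XT.lf (nat_lit 0) (nat_lit 13174983) (nat_lit 608) (nat_lit 6048290835) (nat_lit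 76) (nat_lit 3346141838) (nat_lit 246) (nat_lit 5) (nat_lit 254) (nat_lit 5) (nat_lit 247) (nat_lit 5) (nat_lit 447) (nat_lit 396) (nat_lit 357))))))))
noncomputable def xc33 : XT := (XT.nd (nat_lit 1950) (nat_lit 4028) (nat_lit 0) (XT.nd (nat_lit 936) (nat_lit 5016) (nat_lit 0) (XT.nd (nat_lit 468) (nat_lit 2736) (nat_lit 0) (XT.nd (nat_lit 234) (nat_lit 1520) (nat_lit 0) (XT.nd (nat_lit 78) (nat_lit 1064) (nat_lit 0) (XT.lf (nat_lit 0) (nat_lit 3909170016) (nat_lit 532) (nat_lit 741183284) (nat_lit 608) (nat_lit 4895400807) (nat_lit 239) (nat_lit 5) (nat_lit 246) (nat_lit 5) (nat_lit 247) (nat_lit 5) (nat_lit 448) (nat_lit 396) (nat_lit 356)) (XT.nd (nat_lit 78) (nat_lit 532) (nat_lit 0) (XT.lf (nat_lit 0) (nat_lit 4474328900) (nat_lit 532) (nat_lit 4971135129) (nat_lit 608) (nat_lit 242210161) (nat_lit 232) (nat_lit 5) (nat_lit 239) (nat_lit 5) (nat_lit 240) (nat_lit 5) (nat_lit 449) (nat_lit 396)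 (nat_lit 355)) (XT.lf (nat_lit 0) (nat_lit 4489628494) (nat_lit 532) (nat_lit 4786374236) (nat_lit 76) (nat_lit 557288872) (nat_lit 225) (nat_lit 5) (nat_lit 232) (nat_lit 5) (nat_lit 226) (nat_lit 5) (nat_lit 450) (nat_lit 396) (nat_lit 354)))) (XT.nd (nat_lit 78) (nat_lit 988) (nat_lit 0) (XT.lf (nat_lit 0) (nat_lit 5629502453) (nat_lit 532) (nat_lit 3756303926) (nat_lit 608) (nat_lit 596930797) (nat_lit 218) (nat_lit 5) (nat_lit 225) (nat_lit 5) (nat_lit 226) (nat_lit 5) (nat_lit 451) (nat_lit 396) (nat_lit 353)) (XT.nd (nat_lit 78) (nat_lit 456) (nat_lit 0) (XT.lf (nat_lit 0) (nat_lit 4243352496) (nat_lit 532) (nat_lit 3920461863) (nat_lit 76) (nat_lit 1972150470) (nat_lit 211) (nat_lit 5) (nat_lit 218) (nat_lit 5) (nat_lit 212) (nat_lit 5) (nat_lit 452) (nat_lit 396) (nat_lit 352)) (XT.lf (nat_lit 0) (nat_lit 6816043132) (nat_lit 456) (nat_lit 2426540100) (nat_lit 532) (nat_lit 1050694953) (nat_lit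 205) (nat_lit 5) (nat_lit 211) (nat_lit 5) (nat_lit 212) (nat_lit 5) (nat_lit 453) (nat_lit 396) (nat_lit 351))))) (XT.nd (nat_lit 234) (nat_lit 1292) (nat_lit 0) (XT.nd (nat_lit 78) (nat_lit 912) (nat_lit 0) (XT.lf (nat_lit 0) (nat_lit 3906681763) (nat_lit 532) (nat_lit 3043525423) (nat_lit 76) (nat_lit 3504160537) (nat_lit 198) (nat_lit 5) (nat_lit 205) (nat_lit 5) (nat_lit 199) (nat_lit 5) (nat_lit 454) (nat_lit 396) (nat_lit 350)) (XT.nd (nat_lit 78) (nat_lit 456) (nat_lit 0) (XT.lf (nat_lit 0) (nat_lit 8024761747) (nat_lit 456) (nat_lit 990926049) (nat_lit 532) (nat_lit 1604123997) (nat_lit 192) (nat_lit 5) (nat_lit 198) (nat_lit 5) (nat_lit 199) (nat_lit 5) (nat_lit 455) (nat_lit 396) (nat_lit 349)) (XT.lf (nat_lit 0) (nat_lit 3478864018) (nat_lit 456) (nat_lit 2165445162) (nat_lit 76) (nat_lit 5144724069) (nat_lit 186) (nat_lit 5) (nat_lit 192) (nat_lit 5) (nat_lit 187) (nat_lit 5) (nat_lit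 456) (nat_lit 396) (nat_lit 348)))) (XT.nd (nat_lit 78) (nat_lit 836) (nat_lit 0) (XT.lf (nat_lit 0) (nat_lit 8707814069) (nat_lit 532) (nat_lit 1720342716) (nat_lit 76) (nat_lit 534661244) (nat_lit 180) (nat_lit 5) (nat_lit 187) (nat_lit 5) (nat_lit 181) (nat_lit 5) (nat_lit 457) (nat_lit 396) (nat_lit 347)) (XT.nd (nat_lit 78) (nat_lit 380) (nat_lit 0) (XT.lf (nat_lit 0) (nat_lit 2958409127) (nat_lit 456) (nat_lit 1296594001) (nat_lit 76) (nat_lit 6885527666) (nat_lit 174) (nat_lit 5) (nat_lit 180) (nat_lit 5) (nat_lit 175) (nat_lit 5) (nat_lit 458) (nat_lit 396) (nat_lit 346)) (XT.lf (nat_lit 0) (nat_lit 8320893756) (nat_lit 456) (nat_lit 867297953) (nat_lit 76) (nat_lit 2134622767) (nat_lit 169) (nat_lit 5) (nat_lit 175) (nat_lit 5) (nat_lit 170) (nat_lit 5) (nat_lit 459) (nat_lit 396) (nat_lit 345)))))) (XT.nd (nat_lit 468) (nat_lit 2280) (nat_lit 0) (XT.nd (nat_lit 234) (nat_lit 1064) (nat_lit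 0) (XT.nd (nat_lit 78) (nat_lit 1216) (nat_lit 0) (XT.lf (nat_lit 0) (nat_lit 2343066176) (nat_lit 456) (nat_lit 447947145) (nat_lit 76) (nat_lit 8718454156) (nat_lit 163) (nat_lit 5) (nat_lit 169) (nat_lit 5) (nat_lit 164) (nat_lit 5) (nat_lit 460) (nat_lit 396) (nat_lit 344)) (XT.nd (nat_lit 78) (nat_lit 836) (nat_lit 0) (XT.lf (nat_lit 0) (nat_lit 7846118073) (nat_lit 456) (nat_lit 40783177) (nat_lit 76) (nat_lit 3813655446) (nat_lit 158) (nat_lit 5) (nat_lit 164) (nat_lit 5) (nat_lit 159) (nat_lit 5) (nat_lit 461) (nat_lit 396) (nat_lit 343)) (XT.lf (nat_lit 0) (nat_lit 373701987) (nat_lit 380) (nat_lit 1258518519) (nat_lit 456) (nat_lit 10264220571) (nat_lit 147) (nat_lit 5) (nat_lit 152) (nat_lit 5) (nat_lit 153) (nat_lit 5) (nat_lit 462) (nat_lit 396) (nat_lit 342)))) (XT.nd (nat_lit 78) (nat_lit 760) (nat_lit 0) (XT.lf (nat_lit 0) (nat_lit 757045338) (nat_lit 304) (nat_lit 6528189362) (nat_lit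 380) (nat_lit 4811378502) (nat_lit 143) (nat_lit 5) (nat_lit 147) (nat_lit 5) (nat_lit 148) (nat_lit 5) (nat_lit 463) (nat_lit 396) (nat_lit 341)) (XT.nd (nat_lit 78) (nat_lit 304) (nat_lit 0) (XT.lf (nat_lit 0) (nat_lit 824402249) (nat_lit 456) (nat_lit 11148027980) (nat_lit 76) (nat_lit 329660546) (nat_lit 137) (nat_lit 5) (nat_lit 143) (nat_lit 5) (nat_lit 138) (nat_lit 5) (nat_lit 464) (nat_lit 396) (nat_lit 340)) (XT.lf (nat_lit 0) (nat_lit 1503115665) (nat_lit 304) (nat_lit 5126142206) (nat_lit 380) (nat_lit 5882534324) (nat_lit 133) (nat_lit 5) (nat_lit 137) (nat_lit 5) (nat_lit 138) (nat_lit 5) (nat_lit 465) (nat_lit 396) (nat_lit 339))))) (XT.nd (nat_lit 234) (nat_lit 1292) (nat_lit 0) (XT.nd (nat_lit 78) (nat_lit 684) (nat_lit 0) (XT.lf (nat_lit 0) (nat_lit 1866491744) (nat_lit 304) (nat_lit 10777644973) (nat_lit 380) (nat_lit 82933270) (nat_lit 129) (nat_lit 5) (nat_lit 133) (nat_lit 5)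 (nat_lit 134) (nat_lit 5) (nat_lit 466) (nat_lit 396) (nat_lit 338)) (XT.nd (nat_lit 78) (nat_lit 304) (nat_lit 0) (XT.lf (nat_lit 0) (nat_lit 2182645020) (nat_lit 304) (nat_lit 3690304302) (nat_lit 380) (nat_lit 7073903601) (nat_lit 124) (nat_lit 5) (nat_lit 128) (nat_lit 5) (nat_lit 129) (nat_lit 5) (nat_lit 467) (nat_lit 396) (nat_lit 337)) (XT.lf (nat_lit 0) (nat_lit 2498804409) (nat_lit 304) (nat_lit 9558272055) (nat_lit 380) (nat_lit 1115130689) (nat_lit 120) (nat_lit 5) (nat_lit 124) (nat_lit 5) (nat_lit 125) (nat_lit 5) (nat_lit 468) (nat_lit 396) (nat_lit 336)))) (XT.nd (nat_lit 156) (nat_lit 608) (nat_lit 0) (XT.nd (nat_lit 78) (nat_lit 304) (nat_lit 0) (XT.lf (nat_lit 0) (nat_lit 2780169313) (nat_lit 304) (nat_lit 2230229309) (nat_lit 380) (nat_lit 8392196485) (nat_lit 115) (nat_lit 5) (nat_lit 119) (nat_lit 5) (nat_lit 120) (nat_lit 5) (nat_lit 469) (nat_lit 396) (nat_lit 335)) (XT.lf (nat_lit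 0) (nat_lit 3040404606) (nat_lit 304) (nat_lit 8329904691) (nat_lit 380) (nat_lit 2268125128) (nat_lit 111) (nat_lit 5) (nat_lit 115) (nat_lit 5) (nat_lit 116) (nat_lit 5) (nat_lit 470) (nat_lit 396) (nat_lit 334))) (XT.nd (nat_lit 78) (nat_lit 304) (nat_lit 0) (XT.lf (nat_lit 0) (nat_lit 3278833302) (nat_lit 228) (nat_lit 755857726) (nat_lit 304) (nat_lit 9845175601) (nat_lit 107) (nat_lit 5) (nat_lit 110) (nat_lit 5) (nat_lit 111) (nat_lit 5) (nat_lit 471) (nat_lit 396) (nat_lit 333)) (XT.lf (nat_lit 0) (nat_lit 3473681282) (nat_lit 304) (nat_lit 7103063318) (nat_lit 380) (nat_lit 3549880269) (nat_lit 103) (nat_lit 5) (nat_lit 107) (nat_lit 5) (nat_lit 108) (nat_lit 5) (nat_lit 472) (nat_lit 396) (nat_lit 332))))))) (XT.nd (nat_lit 1014) (nat_lit 684) (nat_lit 0) (XT.nd (nat_lit 468) (nat_lit 1672) (nat_lit 0) (XT.nd (nat_lit 234) (nat_lit 760) (nat_lit 0) (XT.nd (nat_lit 78) (nat_lit 608) (nat_lit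 0) (XT.lf (nat_lit 0) (nat_lit 2942524641) (nat_lit 304) (nat_lit 10724048514) (nat_lit 76) (nat_lit 712899156) (nat_lit 99) (nat_lit 5) (nat_lit 103) (nat_lit 5) (nat_lit 100) (nat_lit 5) (nat_lit 473) (nat_lit 396) (nat_lit 331)) (XT.nd (nat_lit 78) (nat_lit 304) (nat_lit 0) (XT.lf (nat_lit 0) (nat_lit 3779349765) (nat_lit 304) (nat_lit 5888841295) (nat_lit 380) (nat_lit 4969512556) (nat_lit 95) (nat_lit 5) (nat_lit 99) (nat_lit 5) (nat_lit 100) (nat_lit 5) (nat_lit 474) (nat_lit 396) (nat_lit 330)) (XT.lf (nat_lit 0) (nat_lit 1724917963) (nat_lit 304) (nat_lit 11012797170) (nat_lit 76) (nat_lit 2164645773) (nat_lit 91) (nat_lit 5) (nat_lit 95) (nat_lit 5) (nat_lit 92) (nat_lit 5) (nat_lit 475) (nat_lit 396) (nat_lit 329)))) (XT.nd (nat_lit 78) (nat_lit 532) (nat_lit 0) (XT.lf (nat_lit 0) (nat_lit 3936243111) (nat_lit 228) (nat_lit 4699025890) (nat_lit 304) (nat_lit 6537381811) (nat_lit 88) (nat_lit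 5) (nat_lit 91) (nat_lit 5) (nat_lit 92) (nat_lit 5) (nat_lit 476) (nat_lit 396) (nat_lit 328)) (XT.nd (nat_lit 78) (nat_lit 228) (nat_lit 0) (XT.lf (nat_lit 0) (nat_lit 366480875) (nat_lit 304) (nat_lit 11485498985) (nat_lit 76) (nat_lit 3597661024) (nat_lit 84) (nat_lit 5) (nat_lit 88) (nat_lit 5) (nat_lit 85) (nat_lit 5) (nat_lit 477) (nat_lit 396) (nat_lit 327)) (XT.lf (nat_lit 0) (nat_lit 3921083674) (nat_lit 228) (nat_lit 3546227830) (nat_lit 304) (nat_lit 8265193319) (nat_lit 81) (nat_lit 5) (nat_lit 84) (nat_lit 5) (nat_lit 85) (nat_lit 5) (nat_lit 478) (nat_lit 396) (nat_lit 326))))) (XT.nd (nat_lit 234) (nat_lit 912) (nat_lit 0) (XT.nd (nat_lit 78) (nat_lit 532) (nat_lit 0) (XT.lf (nat_lit 0) (nat_lit 3847134799) (nat_lit 228) (nat_lit 11015251563) (nat_lit 304) (nat_lit 1159845672) (nat_lit 78) (nat_lit 5) (nat_lit 81) (nat_lit 5) (nat_lit 82) (nat_lit 5) (nat_lit 479) (nat_lit 396) (nat_lit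 325)) (XT.nd (nat_lit 78) (nat_lit 228) (nat_lit 0) (XT.lf (nat_lit 0) (nat_lit 3708232687) (nat_lit 228) (nat_lit 2444020661) (nat_lit 304) (nat_lit 10166112392) (nat_lit 74) (nat_lit 5) (nat_lit 77) (nat_lit 5) (nat_lit 78) (nat_lit 5) (nat_lit 480) (nat_lit 396) (nat_lit 324)) (XT.lf (nat_lit 0) (nat_lit 3515820936) (nat_lit 228) (nat_lit 10246270103) (nat_lit 304) (nat_lit 2859258027) (nat_lit 71) (nat_lit 5) (nat_lit 74) (nat_lit 5) (nat_lit 75) (nat_lit 5) (nat_lit 481) (nat_lit 396) (nat_lit 323)))) (XT.nd (nat_lit 156) (nat_lit 456) (nat_lit 0) (XT.nd (nat_lit 78) (nat_lit 152) (nat_lit 0) (XT.lf (nat_lit 0) (nat_lit 3269415414) (nat_lit 228) (nat_lit 1407091223) (nat_lit 304) (nat_lit 12254892576) (nat_lit 67) (nat_lit 5) (nat_lit 70) (nat_lit 5) (nat_lit 71) (nat_lit 5) (nat_lit 482) (nat_lit 396) (nat_lit 322)) (XT.lf (nat_lit 0) (nat_lit 2942955953) (nat_lit 152) (nat_lit 9563251235) (nat_lit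 228) (nat_lit 4742032989) (nat_lit 65) (nat_lit 5) (nat_lit 67) (nat_lit 5) (nat_lit 68) (nat_lit 5) (nat_lit 483) (nat_lit 396) (nat_lit 321))) (XT.nd (nat_lit 78) (nat_lit 152) (nat_lit 0) (XT.lf (nat_lit 0) (nat_lit 2573419168) (nat_lit 228) (nat_lit 451402689) (nat_lit 304) (nat_lit 14548018756) (nat_lit 61) (nat_lit 5) (nat_lit 64) (nat_lit 5) (nat_lit 65) (nat_lit 5) (nat_lit 484) (nat_lit 396) (nat_lit 320)) (XT.lf (nat_lit 0) (nat_lit 2095734777) (nat_lit 152) (nat_lit 8983335789) (nat_lit 228) (nat_lit 6825106695) (nat_lit 59) (nat_lit 5) (nat_lit 61) (nat_lit 5) (nat_lit 62) (nat_lit 5) (nat_lit 485) (nat_lit 396) (nat_lit 319)))))) (XT.nd (nat_lit 56472) (nat_lit 0) (nat_lit 48488) (XT.nd (nat_lit 56238) (nat_lit 0) (nat_lit 53200) (XT.nd (nat_lit 78) (nat_lit 380) (nat_lit 0) (XT.lf (nat_lit 0) (nat_lit 1182766600) (nat_lit 304) (nat_lit 16660871922) (nat_lit 76) (nat_lit 400308381) (nat_lit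 55) (nat_lit 5) (nat_lit 59) (nat_lit 5) (nat_lit 56) (nat_lit 5) (nat_lit 486) (nat_lit 396) (nat_lit 318)) (XT.nd (nat_lit 78) (nat_lit 228) (nat_lit 0) (XT.lf (nat_lit 0) (nat_lit 937902672) (nat_lit 152) (nat_lit 8525234438) (nat_lit 228) (nat_lit 9127371766) (nat_lit 53) (nat_lit 5) (nat_lit 55) (nat_lit 5) (nat_lit 56) (nat_lit 5) (nat_lit 487) (nat_lit 396) (nat_lit 317)) (XT.lf (nat_lit 0) (nat_lit 254908582) (nat_lit 228) (nat_lit 17810361235) (nat_lit 304) (nat_lit 880732104) (nat_lit 50) (nat_lit 5) (nat_lit 53) (nat_lit 5) (nat_lit 54) (nat_lit 5) (nat_lit 488) (nat_lit 396) (nat_lit 316)))) (XT.nd (nat_lit 78) (nat_lit 912) (nat_lit 0) (XT.lf (nat_lit 0) (nat_lit 1183655575) (nat_lit 380) (nat_lit 872901739) (nat_lit 0) (nat_lit 1183655575) (nat_lit 762) (nat_lit 5) (nat_lit 767) (nat_lit 4) (nat_lit 762) (nat_lit 4) (nat_lit 406) (nat_lit 397) (nat_lit 397)) (XT.nd (nat_lit 78) (nat_lit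 456) (nat_lit 0) (XT.lf (nat_lit 0) (nat_lit 653260362) (nat_lit 456) (nat_lit 2769599413) (nat_lit 76) (nat_lit 3071773802) (nat_lit 756) (nat_lit 5) (nat_lit 762) (nat_lit 5) (nat_lit 757) (nat_lit 4) (nat_lit 407) (nat_lit 397) (nat_lit 396)) (XT.lf (nat_lit 0) (nat_lit 2774052388) (nat_lit 456) (nat_lit 2588977609) (nat_lit 532) (nat_lit 1148596870) (nat_lit 750) (nat_lit 5) (nat_lit 756) (nat_lit 5) (nat_lit 757) (nat_lit 4) (nat_lit 408) (nat_lit 397) (nat_lit 395))))) (XT.nd (nat_lit 234) (nat_lit 2736) (nat_lit 0) (XT.nd (nat_lit 78) (nat_lit 1368) (nat_lit 0) (XT.lf (nat_lit 0) (nat_lit 1883699317) (nat_lit 532) (nat_lit 1613319111) (nat_lit 608) (nat_lit 3034452651) (nat_lit 742) (nat_lit 5) (nat_lit 749) (nat_lit 5) (nat_lit 750) (nat_lit 5) (nat_lit 409) (nat_lit 397) (nat_lit 394)) (XT.nd (nat_lit 78) (nat_lit 684) (nat_lit 0) (XT.lf (nat_lit 0) (nat_lit 1057716006) (nat_lit 608) (nat_lit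 499238797) (nat_lit 684) (nat_lit 4997311241) (nat_lit 733) (nat_lit 5) (nat_lit 741) (nat_lit 5) (nat_lit 742) (nat_lit 5) (nat_lit 410) (nat_lit 397) (nat_lit 393)) (XT.lf (nat_lit 0) (nat_lit 287486261) (nat_lit 684) (nat_lit 5832338806) (nat_lit 760) (nat_lit 460044944) (nat_lit 724) (nat_lit 5) (nat_lit 733) (nat_lit 5) (nat_lit 734) (nat_lit 5) (nat_lit 411) (nat_lit 397) (nat_lit 392)))) (XT.nd (nat_lit 156) (nat_lit 1824) (nat_lit 0) (XT.nd (nat_lit 78) (nat_lit 836) (nat_lit 0) (XT.lf (nat_lit 0) (nat_lit 4038799220) (nat_lit 760) (nat_lit 428931287) (nat_lit 76) (nat_lit 2140374136) (nat_lit 723) (nat_lit 5) (nat_lit 733) (nat_lit 5) (nat_lit 724) (nat_lit 5) (nat_lit 412) (nat_lit 397) (nat_lit 391)) (XT.lf (nat_lit 0) (nat_lit 1882562696) (nat_lit 836) (nat_lit 1080996745) (nat_lit 76) (nat_lit 3675726557) (nat_lit 712) (nat_lit 5) (nat_lit 723) (nat_lit 5) (nat_lit 713) (nat_lit 5) (nat_lit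 413) (nat_lit 397) (nat_lit 390))) (XT.nd (nat_lit 78) (nat_lit 988) (nat_lit 0) (XT.lf (nat_lit 0) (nat_lit 4998240408) (nat_lit 836) (nat_lit 1317768614) (nat_lit 912) (nat_lit 357417737) (nat_lit 701) (nat_lit 5) (nat_lit 712) (nat_lit 5) (nat_lit 713) (nat_lit 5) (nat_lit 414) (nat_lit 397) (nat_lit 389)) (XT.lf (nat_lit 0) (nat_lit 4008858768) (nat_lit 988) (nat_lit 2225548088) (nat_lit 76) (nat_lit 475869379) (nat_lit 688) (nat_lit 5) (nat_lit 701) (nat_lit 5) (nat_lit 689) (nat_lit 5) (nat_lit 415) (nat_lit 397) (nat_lit 388))))))))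
noncomputable def xc34 : XT := (XT.nd (nat_lit 1950) (nat_lit 13376) (nat_lit 0) (XT.nd (nat_lit 936) (nat_lit 11096) (nat_lit 0) (XT.nd (nat_lit 468) (nat_lit 10032) (nat_lit 0) (XT.nd (nat_lit 234) (nat_lit 4028) (nat_lit 0) (XT.nd (nat_lit 78) (nat_lit 2280) (nat_lit 0) (XT.lf (nat_lit 0) (nat_lit 1629875002) (nat_lit 1064) (nat_lit 2726319862) (nat_lit 76) (nat_lit 2393785891) (nat_lit 674) (nat_lit 5) (nat_lit 688) (nat_lit 5) (nat_lit 675) (nat_lit 5) (nat_lit 416) (nat_lit 397) (nat_lit 387)) (XT.nd (nat_lit 78) (nat_lit 1216) (nat_lit 0) (XT.lf (nat_lit 0) (nat_lit 3617997607) (nat_lit 1064) (nat_lit 2331865740) (nat_lit 1140) (nat_lit 842766295) (nat_lit 660) (nat_lit 5) (nat_lit 674) (nat_lit 5) (nat_lit 675) (nat_lit 5) (nat_lit 417) (nat_lit 397) (nat_lit 386)) (XT.lf (nat_lit 0) (nat_lit 3261692632) (nat_lit 1140) (nat_lit 153344203) (nat_lit 1216) (nat_lit 3423099671) (nat_lit 644) (nat_lit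 5) (nat_lit 659) (nat_lit 5) (nat_lit 660) (nat_lit 5) (nat_lit 418) (nat_lit 397) (nat_lit 385)))) (XT.nd (nat_lit 78) (nat_lit 2736) (nat_lit 0) (XT.lf (nat_lit 0) (nat_lit 808959997) (nat_lit 1292) (nat_lit 3935226911) (nat_lit 76) (nat_lit 2142278692) (nat_lit 627) (nat_lit 5) (nat_lit 644) (nat_lit 5) (nat_lit 628) (nat_lit 5) (nat_lit 419) (nat_lit 397) (nat_lit 384)) (XT.nd (nat_lit 78) (nat_lit 1444) (nat_lit 0) (XT.lf (nat_lit 0) (nat_lit 2686377765) (nat_lit 1292) (nat_lit 2343268600) (nat_lit 1368) (nat_lit 1907999423) (nat_lit 610) (nat_lit 5) (nat_lit 627) (nat_lit 5) (nat_lit 628) (nat_lit 5) (nat_lit 420) (nat_lit 397) (nat_lit 383)) (XT.lf (nat_lit 0) (nat_lit 2266925853) (nat_lit 1444) (nat_lit 4518440659) (nat_lit 76) (nat_lit 206468627) (nat_lit 591) (nat_lit 5) (nat_lit 610) (nat_lit 5) (nat_lit 592) (nat_lit 5) (nat_lit 421) (nat_lit 397) (nat_lit 382))))) (XT.nd (nat_lit 234)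 (nat_lit 5320) (nat_lit 0) (XT.nd (nat_lit 78) (nat_lit 3268) (nat_lit 0) (XT.lf (nat_lit 0) (nat_lit 2298871544) (nat_lit 1444) (nat_lit 4172677682) (nat_lit 1520) (nat_lit 577257135) (nat_lit 572) (nat_lit 5) (nat_lit 591) (nat_lit 5) (nat_lit 592) (nat_lit 5) (nat_lit 422) (nat_lit 397) (nat_lit 381)) (XT.nd (nat_lit 78) (nat_lit 1672) (nat_lit 0) (XT.lf (nat_lit 0) (nat_lit 2166464205) (nat_lit 1520) (nat_lit 1397609995) (nat_lit 1596) (nat_lit 3544593688) (nat_lit 551) (nat_lit 5) (nat_lit 571) (nat_lit 5) (nat_lit 572) (nat_lit 5) (nat_lit 423) (nat_lit 397) (nat_lit 380)) (XT.lf (nat_lit 0) (nat_lit 573889705) (nat_lit 1672) (nat_lit 5090104301) (nat_lit 76) (nat_lit 1507567100) (nat_lit 529) (nat_lit 5) (nat_lit 551) (nat_lit 5) (nat_lit 530) (nat_lit 5) (nat_lit 424) (nat_lit 397) (nat_lit 379)))) (XT.nd (nat_lit 78) (nat_lit 3648) (nat_lit 0) (XT.lf (nat_lit 0) (nat_lit 2027160576) (nat_lit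 1672) (nat_lit 2675055295) (nat_lit 1748) (nat_lit 2534981713) (nat_lit 507) (nat_lit 5) (nat_lit 529) (nat_lit 5) (nat_lit 530) (nat_lit 5) (nat_lit 425) (nat_lit 397) (nat_lit 378)) (XT.nd (nat_lit 78) (nat_lit 1824) (nat_lit 0) (XT.lf (nat_lit 0) (nat_lit 1558848991) (nat_lit 1824) (nat_lit 5283683608) (nat_lit 76) (nat_lit 463451747) (nat_lit 483) (nat_lit 5) (nat_lit 507) (nat_lit 5) (nat_lit 484) (nat_lit 5) (nat_lit 426) (nat_lit 397) (nat_lit 377)) (XT.lf (nat_lit 0) (nat_lit 2044264597) (nat_lit 1824) (nat_lit 3646466064) (nat_lit 1900) (nat_lit 1686788303) (nat_lit 459) (nat_lit 5) (nat_lit 483) (nat_lit 5) (nat_lit 484) (nat_lit 5) (nat_lit 427) (nat_lit 397) (nat_lit 376)))))) (XT.nd (nat_lit 468) (nat_lit 5472) (nat_lit 0) (XT.nd (nat_lit 234) (nat_lit 2584) (nat_lit 0) (XT.nd (nat_lit 78) (nat_lit 1900) (nat_lit 0) (XT.lf (nat_lit 0) (nat_lit 2111184160) (nat_lit 1064) (nat_lit 285898983)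 (nat_lit 1140) (nat_lit 5055115906) (nat_lit 444) (nat_lit 5) (nat_lit 458) (nat_lit 5) (nat_lit 459) (nat_lit 5) (nat_lit 428) (nat_lit 397) (nat_lit 375)) (XT.nd (nat_lit 78) (nat_lit 988) (nat_lit 0) (XT.lf (nat_lit 0) (nat_lit 2205978725) (nat_lit 912) (nat_lit 4333352216) (nat_lit 988) (nat_lit 990401987) (nat_lit 432) (nat_lit 5) (nat_lit 444) (nat_lit 5) (nat_lit 445) (nat_lit 5) (nat_lit 429) (nat_lit 397) (nat_lit 374)) (XT.lf (nat_lit 0) (nat_lit 2337366356) (nat_lit 912) (nat_lit 759624993) (nat_lit 988) (nat_lit 4513344637) (nat_lit 419) (nat_lit 5) (nat_lit 431) (nat_lit 5) (nat_lit 432) (nat_lit 5) (nat_lit 430) (nat_lit 397) (nat_lit 373)))) (XT.nd (nat_lit 78) (nat_lit 1748) (nat_lit 0) (XT.lf (nat_lit 0) (nat_lit 2501221366) (nat_lit 836) (nat_lit 4755541031) (nat_lit 912) (nat_lit 437210595) (nat_lit 408) (nat_lit 5) (nat_lit 419) (nat_lit 5) (nat_lit 420) (nat_lit 5) (nat_lit 431)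 (nat_lit 397) (nat_lit 372)) (XT.nd (nat_lit 78) (nat_lit 836) (nat_lit 0) (XT.lf (nat_lit 0) (nat_lit 2693110473) (nat_lit 836) (nat_lit 970629731) (nat_lit 912) (nat_lit 4116863760) (nat_lit 396) (nat_lit 5) (nat_lit 407) (nat_lit 5) (nat_lit 408) (nat_lit 5) (nat_lit 432) (nat_lit 397) (nat_lit 371)) (XT.lf (nat_lit 0) (nat_lit 2919539272) (nat_lit 836) (nat_lit 4931317437) (nat_lit 912) (nat_lit 19547998) (nat_lit 385) (nat_lit 5) (nat_lit 396) (nat_lit 5) (nat_lit 397) (nat_lit 5) (nat_lit 433) (nat_lit 397) (nat_lit 370))))) (XT.nd (nat_lit 234) (nat_lit 2964) (nat_lit 0) (XT.nd (nat_lit 78) (nat_lit 1596) (nat_lit 0) (XT.lf (nat_lit 0) (nat_lit 3168163304) (nat_lit 836) (nat_lit 936477282) (nat_lit 912) (nat_lit 3858542187) (nat_lit 373) (nat_lit 5) (nat_lit 384) (nat_lit 5) (nat_lit 385) (nat_lit 5) (nat_lit 434) (nat_lit 397) (nat_lit 369)) (XT.nd (nat_lit 78) (nat_lit 760) (nat_lit 0) (XT.lf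 (nat_lit 0) (nat_lit 265820276) (nat_lit 836) (nat_lit 4609951338) (nat_lit 76) (nat_lit 3183418641) (nat_lit 362) (nat_lit 5) (nat_lit 373) (nat_lit 5) (nat_lit 363) (nat_lit 5) (nat_lit 435) (nat_lit 397) (nat_lit 368)) (XT.lf (nat_lit 0) (nat_lit 3752781046) (nat_lit 760) (nat_lit 673361499) (nat_lit 836) (nat_lit 3732141248) (nat_lit 352) (nat_lit 5) (nat_lit 362) (nat_lit 5) (nat_lit 363) (nat_lit 5) (nat_lit 436) (nat_lit 397) (nat_lit 367)))) (XT.nd (nat_lit 156) (nat_lit 1444) (nat_lit 0) (XT.nd (nat_lit 78) (nat_lit 760) (nat_lit 0) (XT.lf (nat_lit 0) (nat_lit 429690735) (nat_lit 760) (nat_lit 4177267166) (nat_lit 76) (nat_lit 3653648605) (nat_lit 342) (nat_lit 5) (nat_lit 352) (nat_lit 5) (nat_lit 343) (nat_lit 5) (nat_lit 437) (nat_lit 397) (nat_lit 366)) (XT.lf (nat_lit 0) (nat_lit 4437646931) (nat_lit 760) (nat_lit 196226483) (nat_lit 836) (nat_lit 3732276358) (nat_lit 332) (nat_lit 5)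 (nat_lit 342) (nat_lit 5) (nat_lit 343) (nat_lit 5) (nat_lit 438) (nat_lit 397) (nat_lit 365))) (XT.nd (nat_lit 78) (nat_lit 684) (nat_lit 0) (XT.lf (nat_lit 0) (nat_lit 477339237) (nat_lit 760) (nat_lit 3662047893) (nat_lit 76) (nat_lit 4335527856) (nat_lit 322) (nat_lit 5) (nat_lit 332) (nat_lit 5) (nat_lit 323) (nat_lit 5) (nat_lit 439) (nat_lit 397) (nat_lit 364)) (XT.lf (nat_lit 0) (nat_lit 4735794039) (nat_lit 760) (nat_lit 3376388369) (nat_lit 76) (nat_lit 474809836) (nat_lit 313) (nat_lit 5) (nat_lit 323) (nat_lit 5) (nat_lit 314) (nat_lit 5) (nat_lit 440) (nat_lit 397) (nat_lit 363))))))) (XT.nd (nat_lit 936) (nat_lit 5624) (nat_lit 0) (XT.nd (nat_lit 468) (nat_lit 3800) (nat_lit 0) (XT.nd (nat_lit 234) (nat_lit 1900) (nat_lit 0) (XT.nd (nat_lit 78) (nat_lit 1368) (nat_lit 0) (XT.lf (nat_lit 0) (nat_lit 413002403) (nat_lit 684) (nat_lit 3073382009) (nat_lit 76) (nat_lit 5216021520) (nat_lit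 304) (nat_lit 5) (nat_lit 313) (nat_lit 5) (nat_lit 305) (nat_lit 5) (nat_lit 441) (nat_lit 397) (nat_lit 362)) (XT.nd (nat_lit 78) (nat_lit 684) (nat_lit 0) (XT.lf (nat_lit 0) (nat_lit 4735345519) (nat_lit 760) (nat_lit 2757537328) (nat_lit 76) (nat_lit 1328246343) (nat_lit 295) (nat_lit 5) (nat_lit 305) (nat_lit 5) (nat_lit 296) (nat_lit 5) (nat_lit 442) (nat_lit 397) (nat_lit 361)) (XT.lf (nat_lit 0) (nat_lit 240157766) (nat_lit 684) (nat_lit 2420164897) (nat_lit 76) (nat_lit 6283078287) (nat_lit 286) (nat_lit 5) (nat_lit 295) (nat_lit 5) (nat_lit 287) (nat_lit 5) (nat_lit 443) (nat_lit 397) (nat_lit 360)))) (XT.nd (nat_lit 78) (nat_lit 1292) (nat_lit 0) (XT.lf (nat_lit 0) (nat_lit 4634509187) (nat_lit 684) (nat_lit 2079456138) (nat_lit 76) (nat_lit 2354959102) (nat_lit 278) (nat_lit 5) (nat_lit 287) (nat_lit 5) (nat_lit 279) (nat_lit 5) (nat_lit 444) (nat_lit 397) (nat_lit 359)) (XT.nd (nat_lit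 78) (nat_lit 684) (nat_lit 0) (XT.lf (nat_lit 0) (nat_lit 7486815566) (nat_lit 608) (nat_lit 1672463741) (nat_lit 684) (nat_lit 38968881) (nat_lit 270) (nat_lit 5) (nat_lit 278) (nat_lit 5) (nat_lit 279) (nat_lit 5) (nat_lit 445) (nat_lit 397) (nat_lit 358)) (XT.lf (nat_lit 0) (nat_lit 4435820594) (nat_lit 684) (nat_lit 1350858797) (nat_lit 76) (nat_lit 3544068581) (nat_lit 261) (nat_lit 5) (nat_lit 270) (nat_lit 5) (nat_lit 262) (nat_lit 5) (nat_lit 446) (nat_lit 397) (nat_lit 357))))) (XT.nd (nat_lit 234) (nat_lit 2128) (nat_lit 0) (XT.nd (nat_lit 78) (nat_lit 1140) (nat_lit 0) (XT.lf (nat_lit 0) (nat_lit 8509345185) (nat_lit 532) (nat_lit 531519870) (nat_lit 608) (nat_lit 426427592) (nat_lit 254) (nat_lit 5) (nat_lit 261) (nat_lit 5) (nat_lit 262) (nat_lit 5) (nat_lit 447) (nat_lit 397) (nat_lit 356)) (XT.nd (nat_lit 78) (nat_lit 532) (nat_lit 0) (XT.lf (nat_lit 0) (nat_lit 4141105978) (nat_lit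 608) (nat_lit 580475277) (nat_lit 76) (nat_lit 4885420712) (nat_lit 246) (nat_lit 5) (nat_lit 254) (nat_lit 5) (nat_lit 247) (nat_lit 5) (nat_lit 448) (nat_lit 397) (nat_lit 355)) (XT.lf (nat_lit 0) (nat_lit 8838138504) (nat_lit 608) (nat_lit 171801624) (nat_lit 76) (nat_lit 740946155) (nat_lit 239) (nat_lit 5) (nat_lit 247) (nat_lit 5) (nat_lit 240) (nat_lit 5) (nat_lit 449) (nat_lit 397) (nat_lit 354)))) (XT.nd (nat_lit 78) (nat_lit 1064) (nat_lit 0) (XT.lf (nat_lit 0) (nat_lit 225825570) (nat_lit 456) (nat_lit 3527128144) (nat_lit 532) (nat_lit 6145138220) (nat_lit 225) (nat_lit 5) (nat_lit 231) (nat_lit 5) (nat_lit 232) (nat_lit 5) (nat_lit 450) (nat_lit 397) (nat_lit 353)) (XT.nd (nat_lit 78) (nat_lit 532) (nat_lit 0) (XT.lf (nat_lit 0) (nat_lit 647117610) (nat_lit 532) (nat_lit 7908647089) (nat_lit 608) (nat_lit 1493642614) (nat_lit 218) (nat_lit 5) (nat_lit 225) (nat_lit 5) (nat_lit 226) (nat_lit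 5) (nat_lit 451) (nat_lit 397) (nat_lit 352)) (XT.lf (nat_lit 0) (nat_lit 1064095510) (nat_lit 456) (nat_lit 2210196518) (nat_lit 532) (nat_lit 6930143910) (nat_lit 211) (nat_lit 5) (nat_lit 217) (nat_lit 5) (nat_lit 218) (nat_lit 5) (nat_lit 452) (nat_lit 397) (nat_lit 351)))))) (XT.nd (nat_lit 468) (nat_lit 2812) (nat_lit 0) (XT.nd (nat_lit 234) (nat_lit 1368) (nat_lit 0) (XT.nd (nat_lit 78) (nat_lit 988) (nat_lit 0) (XT.lf (nat_lit 0) (nat_lit 1487187326) (nat_lit 456) (nat_lit 6700433479) (nat_lit 532) (nat_lit 2175848806) (nat_lit 205) (nat_lit 5) (nat_lit 211) (nat_lit 5) (nat_lit 212) (nat_lit 5) (nat_lit 453) (nat_lit 397) (nat_lit 350)) (XT.nd (nat_lit 78) (nat_lit 456) (nat_lit 0) (XT.lf (nat_lit 0) (nat_lit 1917198412) (nat_lit 456) (nat_lit 783750865) (nat_lit 532) (nat_lit 7825664852) (nat_lit 198) (nat_lit 5) (nat_lit 204) (nat_lit 5) (nat_lit 205) (nat_lit 5) (nat_lit 454) (nat_lit 397)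 (nat_lit 349)) (XT.lf (nat_lit 0) (nat_lit 2336550859) (nat_lit 456) (nat_lit 5395539884) (nat_lit 532) (nat_lit 2961526852) (nat_lit 192) (nat_lit 5) (nat_lit 198) (nat_lit 5) (nat_lit 199) (nat_lit 5) (nat_lit 455) (nat_lit 397) (nat_lit 348)))) (XT.nd (nat_lit 78) (nat_lit 912) (nat_lit 0) (XT.lf (nat_lit 0) (nat_lit 2036676843) (nat_lit 456) (nat_lit 8094660800) (nat_lit 76) (nat_lit 733731415) (nat_lit 186) (nat_lit 5) (nat_lit 192) (nat_lit 5) (nat_lit 187) (nat_lit 5) (nat_lit 456) (nat_lit 397) (nat_lit 347)) (XT.nd (nat_lit 78) (nat_lit 456) (nat_lit 0) (XT.lf (nat_lit 0) (nat_lit 3185200270) (nat_lit 456) (nat_lit 4002771393) (nat_lit 532) (nat_lit 3852437226) (nat_lit 180) (nat_lit 5) (nat_lit 186) (nat_lit 5) (nat_lit 187) (nat_lit 5) (nat_lit 457) (nat_lit 397) (nat_lit 346)) (XT.lf (nat_lit 0) (nat_lit 1280519275) (nat_lit 456) (nat_lit 7607797366) (nat_lit 76) (nat_lit 2332042443) (nat_lit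 174) (nat_lit 5) (nat_lit 180) (nat_lit 5) (nat_lit 175) (nat_lit 5) (nat_lit 458) (nat_lit 397) (nat_lit 345))))) (XT.nd (nat_lit 234) (nat_lit 1596) (nat_lit 0) (XT.nd (nat_lit 78) (nat_lit 836) (nat_lit 0) (XT.lf (nat_lit 0) (nat_lit 4022587726) (nat_lit 380) (nat_lit 2530735756) (nat_lit 456) (nat_lit 4851114688) (nat_lit 169) (nat_lit 5) (nat_lit 174) (nat_lit 5) (nat_lit 175) (nat_lit 5) (nat_lit 459) (nat_lit 397) (nat_lit 344)) (XT.nd (nat_lit 78) (nat_lit 380) (nat_lit 0) (XT.lf (nat_lit 0) (nat_lit 424753856) (nat_lit 456) (nat_lit 7155173535) (nat_lit 76) (nat_lit 4013273035) (nat_lit 163) (nat_lit 5) (nat_lit 169) (nat_lit 5) (nat_lit 164) (nat_lit 5) (nat_lit 460) (nat_lit 397) (nat_lit 343)) (XT.lf (nat_lit 0) (nat_lit 4837513105) (nat_lit 380) (nat_lit 987929470) (nat_lit 456) (nat_lit 5960895995) (nat_lit 158) (nat_lit 5) (nat_lit 163) (nat_lit 5) (nat_lit 164) (nat_lit 5) (nat_lit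 461) (nat_lit 397) (nat_lit 342)))) (XT.nd (nat_lit 156) (nat_lit 760) (nat_lit 0) (XT.nd (nat_lit 78) (nat_lit 456) (nat_lit 0) (XT.lf (nat_lit 0) (nat_lit 5231688764) (nat_lit 380) (nat_lit 6211343936) (nat_lit 456) (nat_lit 541143819) (nat_lit 153) (nat_lit 5) (nat_lit 158) (nat_lit 5) (nat_lit 159) (nat_lit 5) (nat_lit 462) (nat_lit 397) (nat_lit 341)) (XT.lf (nat_lit 0) (nat_lit 5004836115) (nat_lit 456) (nat_lit 6572786704) (nat_lit 76) (nat_lit 609080261) (nat_lit 147) (nat_lit 5) (nat_lit 153) (nat_lit 5) (nat_lit 148) (nat_lit 5) (nat_lit 463) (nat_lit 397) (nat_lit 340))) (XT.nd (nat_lit 78) (nat_lit 456) (nat_lit 0) (XT.lf (nat_lit 0) (nat_lit 5981196150) (nat_lit 304) (nat_lit 4791381606) (nat_lit 380) (nat_lit 1621404483) (nat_lit 143) (nat_lit 5) (nat_lit 147) (nat_lit 5) (nat_lit 148) (nat_lit 5) (nat_lit 464) (nat_lit 397) (nat_lit 339)) (XT.lf (nat_lit 0) (nat_lit 4089924496) (nat_lit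 456) (nat_lit 6270080175) (nat_lit 76) (nat_lit 2246186785) (nat_lit 137) (nat_lit 5) (nat_lit 143) (nat_lit 5) (nat_lit 138) (nat_lit 5) (nat_lit 465) (nat_lit 397) (nat_lit 338))))))))
noncomputable def xc35 : XT := (XT.nd (nat_lit 57798) (nat_lit 0) (nat_lit 26904) (XT.nd (nat_lit 936) (nat_lit 2660) (nat_lit 0) (XT.nd (nat_lit 468) (nat_lit 1672) (nat_lit 0) (XT.nd (nat_lit 234) (nat_lit 1064) (nat_lit 0) (XT.nd (nat_lit 78) (nat_lit 684) (nat_lit 0) (XT.lf (nat_lit 0) (nat_lit 6676032966) (nat_lit 304) (nat_lit 3331794106) (nat_lit 380) (nat_lit 2815583079) (nat_lit 133) (nat_lit 5) (nat_lit 137) (nat_lit 5) (nat_lit 138) (nat_lit 5) (nat_lit 466) (nat_lit 397) (nat_lit 337)) (XT.nd (nat_lit 78) (nat_lit 304) (nat_lit 0) (XT.lf (nat_lit 0) (nat_lit 3069018368) (nat_lit 380) (nat_lit 6048910489) (nat_lit 76) (nat_lit 3927762793) (nat_lit 128) (nat_lit 5) (nat_lit 133) (nat_lit 5) (nat_lit 129)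 (nat_lit 5) (nat_lit 467) (nat_lit 397) (nat_lit 336)) (XT.lf (nat_lit 0) (nat_lit 7301714266) (nat_lit 304) (nat_lit 1841709862) (nat_lit 380) (nat_lit 4129817451) (nat_lit 124) (nat_lit 5) (nat_lit 128) (nat_lit 5) (nat_lit 129) (nat_lit 5) (nat_lit 468) (nat_lit 397) (nat_lit 335)))) (XT.nd (nat_lit 78) (nat_lit 684) (nat_lit 0) (XT.lf (nat_lit 0) (nat_lit 1935903616) (nat_lit 380) (nat_lit 5925134062) (nat_lit 76) (nat_lit 5644971463) (nat_lit 119) (nat_lit 5) (nat_lit 124) (nat_lit 5) (nat_lit 120) (nat_lit 5) (nat_lit 469) (nat_lit 397) (nat_lit 334)) (XT.nd (nat_lit 78) (nat_lit 380) (nat_lit 0) (XT.lf (nat_lit 0) (nat_lit 7842478855) (nat_lit 304) (nat_lit 330581701) (nat_lit 380) (nat_lit 5571244156) (nat_lit 115) (nat_lit 5) (nat_lit 119) (nat_lit 5) (nat_lit 120) (nat_lit 5) (nat_lit 470) (nat_lit 397) (nat_lit 333)) (XT.lf (nat_lit 0) (nat_lit 683363416) (nat_lit 380) (nat_lit 5916011062)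 (nat_lit 76) (nat_lit 7388623070) (nat_lit 110) (nat_lit 5) (nat_lit 115) (nat_lit 5) (nat_lit 111) (nat_lit 5) (nat_lit 471) (nat_lit 397) (nat_lit 332))))) (XT.nd (nat_lit 234) (nat_lit 836) (nat_lit 0) (XT.nd (nat_lit 78) (nat_lit 608) (nat_lit 0) (XT.lf (nat_lit 0) (nat_lit 7097146506) (nat_lit 304) (nat_lit 5964096722) (nat_lit 76) (nat_lit 1176079057) (nat_lit 107) (nat_lit 5) (nat_lit 111) (nat_lit 5) (nat_lit 108) (nat_lit 5) (nat_lit 472) (nat_lit 397) (nat_lit 331)) (XT.nd (nat_lit 78) (nat_lit 304) (nat_lit 0) (XT.lf (nat_lit 0) (nat_lit 8447498114) (nat_lit 304) (nat_lit 5338815540) (nat_lit 380) (nat_lit 706155842) (nat_lit 103) (nat_lit 5) (nat_lit 107) (nat_lit 5) (nat_lit 108) (nat_lit 5) (nat_lit 473) (nat_lit 397) (nat_lit 330)) (XT.lf (nat_lit 0) (nat_lit 5901673400) (nat_lit 304) (nat_lit 6172527252) (nat_lit 76) (nat_lit 2679134823) (nat_lit 99) (nat_lit 5) (nat_lit 103) (nat_lit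 5) (nat_lit 100) (nat_lit 5) (nat_lit 474) (nat_lit 397) (nat_lit 329)))) (XT.nd (nat_lit 78) (nat_lit 532) (nat_lit 0) (XT.lf (nat_lit 0) (nat_lit 8686910403) (nat_lit 304) (nat_lit 4089708746) (nat_lit 380) (nat_lit 2243747400) (nat_lit 95) (nat_lit 5) (nat_lit 99) (nat_lit 5) (nat_lit 100) (nat_lit 5) (nat_lit 475) (nat_lit 397) (nat_lit 328)) (XT.nd (nat_lit 78) (nat_lit 228) (nat_lit 0) (XT.lf (nat_lit 0) (nat_lit 4574818938) (nat_lit 304) (nat_lit 6546567165) (nat_lit 76) (nat_lit 4171986875) (nat_lit 91) (nat_lit 5) (nat_lit 95) (nat_lit 5) (nat_lit 92) (nat_lit 5) (nat_lit 476) (nat_lit 397) (nat_lit 327)) (XT.lf (nat_lit 0) (nat_lit 8773124963) (nat_lit 228) (nat_lit 2868493474) (nat_lit 304) (nat_lit 3931173172) (nat_lit 88) (nat_lit 5) (nat_lit 91) (nat_lit 5) (nat_lit 92) (nat_lit 5) (nat_lit 477) (nat_lit 397) (nat_lit 326)))))) (XT.nd (nat_lit 468) (nat_lit 1064) (nat_lit 0) (XT.nd (nat_lit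 234) (nat_lit 760) (nat_lit 0) (XT.nd (nat_lit 78) (nat_lit 532) (nat_lit 0) (XT.lf (nat_lit 0) (nat_lit 3105622997) (nat_lit 304) (nat_lit 7109929006) (nat_lit 76) (nat_lit 5642926728) (nat_lit 84) (nat_lit 5) (nat_lit 88) (nat_lit 5) (nat_lit 85) (nat_lit 5) (nat_lit 478) (nat_lit 397) (nat_lit 325)) (XT.nd (nat_lit 78) (nat_lit 304) (nat_lit 0) (XT.lf (nat_lit 0) (nat_lit 8682272551) (nat_lit 228) (nat_lit 1687894429) (nat_lit 304) (nat_lit 5780650414) (nat_lit 81) (nat_lit 5) (nat_lit 84) (nat_lit 5) (nat_lit 85) (nat_lit 5) (nat_lit 479) (nat_lit 397) (nat_lit 324)) (XT.lf (nat_lit 0) (nat_lit 1481730937) (nat_lit 304) (nat_lit 7888689847) (nat_lit 76) (nat_lit 7079337543) (nat_lit 77) (nat_lit 5) (nat_lit 81) (nat_lit 5) (nat_lit 78) (nat_lit 5) (nat_lit 480) (nat_lit 397) (nat_lit 323)))) (XT.nd (nat_lit 78) (nat_lit 532) (nat_lit 0) (XT.lf (nat_lit 0) (nat_lit 8388041747) (nat_lit 228) (nat_lit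 561649150) (nat_lit 304) (nat_lit 7805889080) (nat_lit 74) (nat_lit 5) (nat_lit 77) (nat_lit 5) (nat_lit 78) (nat_lit 5) (nat_lit 481) (nat_lit 397) (nat_lit 322)) (XT.nd (nat_lit 78) (nat_lit 304) (nat_lit 0) (XT.lf (nat_lit 0) (nat_lit 8154734139) (nat_lit 228) (nat_lit 8598748479) (nat_lit 304) (nat_lit 314859319) (nat_lit 71) (nat_lit 5) (nat_lit 74) (nat_lit 5) (nat_lit 75) (nat_lit 5) (nat_lit 482) (nat_lit 397) (nat_lit 321)) (XT.lf (nat_lit 0) (nat_lit 7369274122) (nat_lit 304) (nat_lit 9530102139) (nat_lit 76) (nat_lit 488842168) (nat_lit 67) (nat_lit 5) (nat_lit 71) (nat_lit 5) (nat_lit 68) (nat_lit 5) (nat_lit 483) (nat_lit 397) (nat_lit 320))))) (XT.nd (nat_lit 234) (nat_lit 456) (nat_lit 0) (XT.nd (nat_lit 78) (nat_lit 456) (nat_lit 0) (XT.lf (nat_lit 0) (nat_lit 7490044272) (nat_lit 152) (nat_lit 7907562818) (nat_lit 228) (nat_lit 2317684839) (nat_lit 65) (nat_lit 5) (nat_lit 67) (nat_lit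 5) (nat_lit 68) (nat_lit 5) (nat_lit 484) (nat_lit 397) (nat_lit 319)) (XT.nd (nat_lit 78) (nat_lit 152) (nat_lit 0) (XT.lf (nat_lit 0) (nat_lit 5612957856) (nat_lit 304) (nat_lit 10989457645) (nat_lit 76) (nat_lit 1447594752) (nat_lit 61) (nat_lit 5) (nat_lit 65) (nat_lit 5) (nat_lit 62) (nat_lit 5) (nat_lit 485) (nat_lit 397) (nat_lit 318)) (XT.lf (nat_lit 0) (nat_lit 6543226177) (nat_lit 152) (nat_lit 7324266959) (nat_lit 228) (nat_lit 4524622657) (nat_lit 59) (nat_lit 5) (nat_lit 61) (nat_lit 5) (nat_lit 62) (nat_lit 5) (nat_lit 486) (nat_lit 397) (nat_lit 317)))) (XT.nd (nat_lit 56004) (nat_lit 0) (nat_lit 54188) (XT.nd (nat_lit 78) (nat_lit 152) (nat_lit 0) (XT.lf (nat_lit 0) (nat_lit 3659283681) (nat_lit 304) (nat_lit 12778640907) (nat_lit 76) (nat_lit 2304457431) (nat_lit 55) (nat_lit 5) (nat_lit 59) (nat_lit 5) (nat_lit 56) (nat_lit 5) (nat_lit 487) (nat_lit 397) (nat_lit 316)) (XT.lf (nat_lit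 0) (nat_lit 5277003254) (nat_lit 152) (nat_lit 6867953607) (nat_lit 228) (nat_lit 6955247982) (nat_lit 53) (nat_lit 5) (nat_lit 55) (nat_lit 5) (nat_lit 56) (nat_lit 5) (nat_lit 488) (nat_lit 397) (nat_lit 315))) (XT.nd (nat_lit 78) (nat_lit 76) (nat_lit 0) (XT.lf (nat_lit 0) (nat_lit 283869528) (nat_lit 228) (nat_lit 1472866500) (nat_lit 228) (nat_lit 1472866500) (nat_lit 767) (nat_lit 4) (nat_lit 770) (nat_lit 5) (nat_lit 770) (nat_lit 4) (nat_lit 404) (nat_lit 398) (nat_lit 398)) (XT.lf (nat_lit 0) (nat_lit 1801064953) (nat_lit 304) (nat_lit 657946918) (nat_lit 76) (nat_lit 4010130807) (nat_lit 766) (nat_lit 5) (nat_lit 770) (nat_lit 5) (nat_lit 767) (nat_lit 4) (nat_lit 405) (nat_lit 398) (nat_lit 397))))))) (XT.nd (nat_lit 1014) (nat_lit 18012) (nat_lit 0) (XT.nd (nat_lit 468) (nat_lit 6688) (nat_lit 0) (XT.nd (nat_lit 234) (nat_lit 1292) (nat_lit 0) (XT.nd (nat_lit 78) (nat_lit 912) (nat_lit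 0) (XT.lf (nat_lit 0) (nat_lit 21526171) (nat_lit 380) (nat_lit 1811560233) (nat_lit 76) (nat_lit 4648859618) (nat_lit 761) (nat_lit 5) (nat_lit 766) (nat_lit 5) (nat_lit 762) (nat_lit 5) (nat_lit 406) (nat_lit 398) (nat_lit 396)) (XT.nd (nat_lit 78) (nat_lit 532) (nat_lit 0) (XT.lf (nat_lit 0) (nat_lit 3584029064) (nat_lit 380) (nat_lit 1058773660) (nat_lit 456) (nat_lit 1854654217) (nat_lit 756) (nat_lit 5) (nat_lit 761) (nat_lit 5) (nat_lit 762) (nat_lit 5) (nat_lit 407) (nat_lit 398) (nat_lit 395)) (XT.lf (nat_lit 0) (nat_lit 2563008527) (nat_lit 456) (nat_lit 146911012) (nat_lit 532) (nat_lit 3805995213) (nat_lit 749) (nat_lit 5) (nat_lit 755) (nat_lit 5) (nat_lit 756) (nat_lit 5) (nat_lit 408) (nat_lit 398) (nat_lit 394)))) (XT.nd (nat_lit 78) (nat_lit 684) (nat_lit 0) (XT.lf (nat_lit 0) (nat_lit 709315867) (nat_lit 608) (nat_lit 4936431062) (nat_lit 76) (nat_lit 891470965) (nat_lit 741) (nat_lit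 5) (nat_lit 749) (nat_lit 5) (nat_lit 742) (nat_lit 5) (nat_lit 409) (nat_lit 398) (nat_lit 393)) (XT.nd (nat_lit 78) (nat_lit 76) (nat_lit 0) (XT.lf (nat_lit 0) (nat_lit 691661772) (nat_lit 608) (nat_lit 4486732214) (nat_lit 684) (nat_lit 1382887916) (nat_lit 733) (nat_lit 5) (nat_lit 741) (nat_lit 5) (nat_lit 742) (nat_lit 5) (nat_lit 410) (nat_lit 398) (nat_lit 392)) (XT.lf (nat_lit 0) (nat_lit 3027503030) (nat_lit 684) (nat_lit 157975875) (nat_lit 76) (nat_lit 3402719299) (nat_lit 732) (nat_lit 5) (nat_lit 741) (nat_lit 5) (nat_lit 733) (nat_lit 5) (nat_lit 411) (nat_lit 398) (nat_lit 391))))) (XT.nd (nat_lit 234) (nat_lit 4256) (nat_lit 0) (XT.nd (nat_lit 78) (nat_lit 1672) (nat_lit 0) (XT.lf (nat_lit 0) (nat_lit 804540303) (nat_lit 760) (nat_lit 937715351) (nat_lit 76) (nat_lit 4875762228) (nat_lit 722) (nat_lit 5) (nat_lit 732) (nat_lit 5) (nat_lit 723) (nat_lit 5) (nat_lit 412) (nat_lit 398)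 (nat_lit 390)) (XT.nd (nat_lit 78) (nat_lit 912) (nat_lit 0) (XT.lf (nat_lit 0) (nat_lit 4983739208) (nat_lit 760) (nat_lit 150069420) (nat_lit 836) (nat_lit 1516845973) (nat_lit 712) (nat_lit 5) (nat_lit 722) (nat_lit 5) (nat_lit 723) (nat_lit 5) (nat_lit 413) (nat_lit 398) (nat_lit 389)) (XT.lf (nat_lit 0) (nat_lit 2765953630) (nat_lit 912) (nat_lit 2352237768) (nat_lit 76) (nat_lit 1567814120) (nat_lit 700) (nat_lit 5) (nat_lit 712) (nat_lit 5) (nat_lit 701) (nat_lit 5) (nat_lit 414) (nat_lit 398) (nat_lit 388)))) (XT.nd (nat_lit 156) (nat_lit 2280) (nat_lit 0) (XT.nd (nat_lit 78) (nat_lit 988) (nat_lit 0) (XT.lf (nat_lit 0) (nat_lit 319245524) (nat_lit 988) (nat_lit 2980297336) (nat_lit 76) (nat_lit 3424826684) (nat_lit 687) (nat_lit 5) (nat_lit 700) (nat_lit 5) (nat_lit 688) (nat_lit 5) (nat_lit 415) (nat_lit 398) (nat_lit 387)) (XT.lf (nat_lit 0) (nat_lit 3200579550) (nat_lit 988) (nat_lit 1326066293)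 (nat_lit 1064) (nat_lit 2238856307) (nat_lit 674) (nat_lit 5) (nat_lit 687) (nat_lit 5) (nat_lit 688) (nat_lit 5) (nat_lit 416) (nat_lit 398) (nat_lit 386))) (XT.nd (nat_lit 78) (nat_lit 1140) (nat_lit 0) (XT.lf (nat_lit 0) (nat_lit 1928174691) (nat_lit 1140) (nat_lit 4099577597) (nat_lit 76) (nat_lit 781814672) (nat_lit 659) (nat_lit 5) (nat_lit 674) (nat_lit 5) (nat_lit 660) (nat_lit 5) (nat_lit 417) (nat_lit 398) (nat_lit 385)) (XT.lf (nat_lit 0) (nat_lit 2264824910) (nat_lit 1140) (nat_lit 3836239181) (nat_lit 1216) (nat_lit 755386403) (nat_lit 644) (nat_lit 5) (nat_lit 659) (nat_lit 5) (nat_lit 660) (nat_lit 5) (nat_lit 418) (nat_lit 398) (nat_lit 384)))))) (XT.nd (nat_lit 468) (nat_lit 9272) (nat_lit 0) (XT.nd (nat_lit 234) (nat_lit 4712) (nat_lit 0) (XT.nd (nat_lit 78) (nat_lit 2736) (nat_lit 0) (XT.lf (nat_lit 0) (nat_lit 1865282516) (nat_lit 1216) (nat_lit 1488954589) (nat_lit 1292) (nat_lit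 3551953509) (nat_lit 627) (nat_lit 5) (nat_lit 643) (nat_lit 5) (nat_lit 644) (nat_lit 5) (nat_lit 419) (nat_lit 398) (nat_lit 383)) (XT.nd (nat_lit 78) (nat_lit 1368) (nat_lit 0) (XT.lf (nat_lit 0) (nat_lit 527126391) (nat_lit 1368) (nat_lit 5441312066) (nat_lit 76) (nat_lit 990506749) (nat_lit 609) (nat_lit 5) (nat_lit 627) (nat_lit 5) (nat_lit 610) (nat_lit 5) (nat_lit 420) (nat_lit 398) (nat_lit 382)) (XT.lf (nat_lit 0) (nat_lit 1201764428) (nat_lit 1368) (nat_lit 3402205611) (nat_lit 1444) (nat_lit 2410385738) (nat_lit 591) (nat_lit 5) (nat_lit 609) (nat_lit 5) (nat_lit 610) (nat_lit 5) (nat_lit 421) (nat_lit 398) (nat_lit 381)))) (XT.nd (nat_lit 78) (nat_lit 3192) (nat_lit 0) (XT.lf (nat_lit 0) (nat_lit 939442623) (nat_lit 1444) (nat_lit 686184550) (nat_lit 1520) (nat_lit 5447258774) (nat_lit 571) (nat_lit 5) (nat_lit 590) (nat_lit 5) (nat_lit 591) (nat_lit 5) (nat_lit 422) (nat_lit 398) (nat_lit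 380)) (XT.nd (nat_lit 78) (nat_lit 1672) (nat_lit 0) (XT.lf (nat_lit 0) (nat_lit 710313379) (nat_lit 1520) (nat_lit 4974339660) (nat_lit 1596) (nat_lit 1449521399) (nat_lit 551) (nat_lit 5) (nat_lit 571) (nat_lit 5) (nat_lit 572) (nat_lit 5) (nat_lit 423) (nat_lit 398) (nat_lit 379)) (XT.lf (nat_lit 0) (nat_lit 521548956) (nat_lit 1596) (nat_lit 2040023544) (nat_lit 1672) (nat_lit 4636828229) (nat_lit 529) (nat_lit 5) (nat_lit 550) (nat_lit 5) (nat_lit 551) (nat_lit 5) (nat_lit 424) (nat_lit 398) (nat_lit 378))))) (XT.nd (nat_lit 234) (nat_lit 3952) (nat_lit 0) (XT.nd (nat_lit 78) (nat_lit 3648) (nat_lit 0) (XT.lf (nat_lit 0) (nat_lit 377520618) (nat_lit 1672) (nat_lit 6230050822) (nat_lit 1748) (nat_lit 658118990) (nat_lit 507) (nat_lit 5) (nat_lit 529) (nat_lit 5) (nat_lit 530) (nat_lit 5) (nat_lit 425) (nat_lit 398) (nat_lit 377)) (XT.nd (nat_lit 78) (nat_lit 1824) (nat_lit 0) (XT.lf (nat_lit 0)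 (nat_lit 257518548) (nat_lit 1748) (nat_lit 3081646941) (nat_lit 1824) (nat_lit 3996512962) (nat_lit 483) (nat_lit 5) (nat_lit 506) (nat_lit 5) (nat_lit 507) (nat_lit 5) (nat_lit 426) (nat_lit 398) (nat_lit 376)) (XT.lf (nat_lit 0) (nat_lit 190838962) (nat_lit 1824) (nat_lit 7192104220) (nat_lit 1900) (nat_lit 26038137) (nat_lit 459) (nat_lit 5) (nat_lit 483) (nat_lit 5) (nat_lit 484) (nat_lit 5) (nat_lit 427) (nat_lit 398) (nat_lit 375)))) (XT.nd (nat_lit 156) (nat_lit 1824) (nat_lit 0) (XT.nd (nat_lit 78) (nat_lit 988) (nat_lit 0) (XT.lf (nat_lit 0) (nat_lit 135095161) (nat_lit 1064) (nat_lit 3832979948) (nat_lit 1140) (nat_lit 3516736060) (nat_lit 444) (nat_lit 5) (nat_lit 458) (nat_lit 5) (nat_lit 459) (nat_lit 5) (nat_lit 428) (nat_lit 398) (nat_lit 374)) (XT.lf (nat_lit 0) (nat_lit 133361205) (nat_lit 912) (nat_lit 318553447) (nat_lit 988) (nat_lit 7112142361) (nat_lit 431) (nat_lit 5) (nat_lit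 443) (nat_lit 5) (nat_lit 444) (nat_lit 5) (nat_lit 429) (nat_lit 398) (nat_lit 373))) (XT.nd (nat_lit 78) (nat_lit 912) (nat_lit 0) (XT.lf (nat_lit 0) (nat_lit 142754791) (nat_lit 912) (nat_lit 4314225427) (nat_lit 988) (nat_lit 3188943444) (nat_lit 419) (nat_lit 5) (nat_lit 431) (nat_lit 5) (nat_lit 432) (nat_lit 5) (nat_lit 430) (nat_lit 398) (nat_lit 372)) (XT.lf (nat_lit 0) (nat_lit 200204385) (nat_lit 836) (nat_lit 588777290) (nat_lit 912) (nat_lit 6942200423) (nat_lit 407) (nat_lit 5) (nat_lit 418) (nat_lit 5) (nat_lit 419) (nat_lit 5) (nat_lit 431) (nat_lit 398) (nat_lit 371))))))))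
noncomputable def xc36 : XT := (XT.nd (nat_lit 1950) (nat_lit 8664) (nat_lit 0) (XT.nd (nat_lit 936) (nat_lit 7220) (nat_lit 0) (XT.nd (nat_lit 468) (nat_lit 4256) (nat_lit 0) (XT.nd (nat_lit 234) (nat_lit 2356) (nat_lit 0) (XT.nd (nat_lit 78) (nat_lit 1748) (nat_lit 0) (XT.lf (nat_lit 0) (nat_lit 269617331) (nat_lit 836) (nat_lit 4544006272) (nat_lit 912) (nat_lit 3005549206) (nat_lit 396) (nat_lit 5) (nat_lit 407) (nat_lit 5) (nat_lit 408) (nat_lit 5) (nat_lit 432) (nat_lit 398) (nat_lit 370)) (XT.nd (nat_lit 78) (nat_lit 836) (nat_lit 0) (XT.lf (nat_lit 0) (nat_lit 382321885) (nat_lit 836) (nat_lit 608974290) (nat_lit 912) (nat_lit 6919263417) (nat_lit 384) (nat_lit 5) (nat_lit 395) (nat_lit 5) (nat_lit 396) (nat_lit 5) (nat_lit 433) (nat_lit 398) (nat_lit 369)) (XT.lf (nat_lit 0) (nat_lit 505361220) (nat_lit 836) (nat_lit 4539498649) (nat_lit 912) (nat_lit 2959887258) (nat_lit 373) (nat_lit 5)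 (nat_lit 384) (nat_lit 5) (nat_lit 385) (nat_lit 5) (nat_lit 434) (nat_lit 398) (nat_lit 368)))) (XT.nd (nat_lit 78) (nat_lit 1520) (nat_lit 0) (XT.lf (nat_lit 0) (nat_lit 669564845) (nat_lit 760) (nat_lit 395629838) (nat_lit 836) (nat_lit 7037197536) (nat_lit 362) (nat_lit 5) (nat_lit 372) (nat_lit 5) (nat_lit 373) (nat_lit 5) (nat_lit 435) (nat_lit 398) (nat_lit 367)) (XT.nd (nat_lit 78) (nat_lit 760) (nat_lit 0) (XT.lf (nat_lit 0) (nat_lit 840140422) (nat_lit 760) (nat_lit 4316556971) (nat_lit 836) (nat_lit 3046169041) (nat_lit 352) (nat_lit 5) (nat_lit 362) (nat_lit 5) (nat_lit 363) (nat_lit 5) (nat_lit 436) (nat_lit 398) (nat_lit 366)) (XT.lf (nat_lit 0) (nat_lit 1016406256) (nat_lit 760) (nat_lit 7254921900) (nat_lit 76) (nat_lit 35581193) (nat_lit 342) (nat_lit 5) (nat_lit 352) (nat_lit 5) (nat_lit 343) (nat_lit 5) (nat_lit 437) (nat_lit 398) (nat_lit 365))))) (XT.nd (nat_lit 234) (nat_lit 2052)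 (nat_lit 0) (XT.nd (nat_lit 78) (nat_lit 1444) (nat_lit 0) (XT.lf (nat_lit 0) (nat_lit 1264503147) (nat_lit 760) (nat_lit 3889831464) (nat_lit 836) (nat_lit 3259447052) (nat_lit 332) (nat_lit 5) (nat_lit 342) (nat_lit 5) (nat_lit 343) (nat_lit 5) (nat_lit 438) (nat_lit 398) (nat_lit 364)) (XT.nd (nat_lit 78) (nat_lit 684) (nat_lit 0) (XT.lf (nat_lit 0) (nat_lit 853279107) (nat_lit 760) (nat_lit 7007794012) (nat_lit 76) (nat_lit 663229891) (nat_lit 322) (nat_lit 5) (nat_lit 332) (nat_lit 5) (nat_lit 323) (nat_lit 5) (nat_lit 439) (nat_lit 398) (nat_lit 363)) (XT.lf (nat_lit 0) (nat_lit 1769311653) (nat_lit 684) (nat_lit 3272879113) (nat_lit 760) (nat_lit 3595584025) (nat_lit 313) (nat_lit 5) (nat_lit 322) (nat_lit 5) (nat_lit 323) (nat_lit 5) (nat_lit 440) (nat_lit 398) (nat_lit 362)))) (XT.nd (nat_lit 78) (nat_lit 1368) (nat_lit 0) (XT.lf (nat_lit 0) (nat_lit 577067804) (nat_lit 684) (nat_lit 6698153277)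 (nat_lit 76) (nat_lit 1479701617) (nat_lit 304) (nat_lit 5) (nat_lit 313) (nat_lit 5) (nat_lit 305) (nat_lit 5) (nat_lit 441) (nat_lit 398) (nat_lit 361)) (XT.nd (nat_lit 78) (nat_lit 684) (nat_lit 0) (XT.lf (nat_lit 0) (nat_lit 2345662544) (nat_lit 684) (nat_lit 2478268770) (nat_lit 760) (nat_lit 4051227614) (nat_lit 295) (nat_lit 5) (nat_lit 304) (nat_lit 5) (nat_lit 305) (nat_lit 5) (nat_lit 442) (nat_lit 398) (nat_lit 360)) (XT.lf (nat_lit 0) (nat_lit 190845060) (nat_lit 684) (nat_lit 6335115276) (nat_lit 76) (nat_lit 2473137395) (nat_lit 286) (nat_lit 5) (nat_lit 295) (nat_lit 5) (nat_lit 287) (nat_lit 5) (nat_lit 443) (nat_lit 398) (nat_lit 359)))))) (XT.nd (nat_lit 468) (nat_lit 3648) (nat_lit 0) (XT.nd (nat_lit 234) (nat_lit 1672) (nat_lit 0) (XT.nd (nat_lit 78) (nat_lit 1292) (nat_lit 0) (XT.lf (nat_lit 0) (nat_lit 2984806890) (nat_lit 608) (nat_lit 1517681141) (nat_lit 684) (nat_lit 4623790470)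 (nat_lit 278) (nat_lit 5) (nat_lit 286) (nat_lit 5) (nat_lit 287) (nat_lit 5) (nat_lit 444) (nat_lit 398) (nat_lit 358)) (XT.nd (nat_lit 78) (nat_lit 684) (nat_lit 0) (XT.lf (nat_lit 0) (nat_lit 3327442156) (nat_lit 608) (nat_lit 5622629478) (nat_lit 684) (nat_lit 307077394) (nat_lit 270) (nat_lit 5) (nat_lit 278) (nat_lit 5) (nat_lit 279) (nat_lit 5) (nat_lit 445) (nat_lit 398) (nat_lit 357)) (XT.lf (nat_lit 0) (nat_lit 3678069551) (nat_lit 608) (nat_lit 402004384) (nat_lit 684) (nat_lit 5311435667) (nat_lit 261) (nat_lit 5) (nat_lit 269) (nat_lit 5) (nat_lit 270) (nat_lit 5) (nat_lit 446) (nat_lit 398) (nat_lit 356)))) (XT.nd (nat_lit 78) (nat_lit 1140) (nat_lit 0) (XT.lf (nat_lit 0) (nat_lit 4038550352) (nat_lit 532) (nat_lit 4575919114) (nat_lit 608) (nat_lit 915000593) (nat_lit 254) (nat_lit 5) (nat_lit 261) (nat_lit 5) (nat_lit 262) (nat_lit 5) (nat_lit 447) (nat_lit 398) (nat_lit 355)) (XT.nd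 (nat_lit 78) (nat_lit 532) (nat_lit 0) (XT.lf (nat_lit 0) (nat_lit 3563767439) (nat_lit 608) (nat_lit 5260067863) (nat_lit 76) (nat_lit 847313654) (nat_lit 246) (nat_lit 5) (nat_lit 254) (nat_lit 5) (nat_lit 247) (nat_lit 5) (nat_lit 448) (nat_lit 398) (nat_lit 354)) (XT.lf (nat_lit 0) (nat_lit 4789904323) (nat_lit 532) (nat_lit 3397132378) (nat_lit 608) (nat_lit 1629474428) (nat_lit 239) (nat_lit 5) (nat_lit 246) (nat_lit 5) (nat_lit 247) (nat_lit 5) (nat_lit 449) (nat_lit 398) (nat_lit 353))))) (XT.nd (nat_lit 234) (nat_lit 1976) (nat_lit 0) (XT.nd (nat_lit 78) (nat_lit 1064) (nat_lit 0) (XT.lf (nat_lit 0) (nat_lit 2952282281) (nat_lit 608) (nat_lit 4788486469) (nat_lit 76) (nat_lit 2224910460) (nat_lit 231) (nat_lit 5) (nat_lit 239) (nat_lit 5) (nat_lit 232) (nat_lit 5) (nat_lit 450) (nat_lit 398) (nat_lit 352)) (XT.nd (nat_lit 78) (nat_lit 608) (nat_lit 0) (XT.lf (nat_lit 0) (nat_lit 5572680477)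 (nat_lit 456) (nat_lit 2095741355) (nat_lit 532) (nat_lit 2450308580) (nat_lit 225) (nat_lit 5) (nat_lit 231) (nat_lit 5) (nat_lit 232) (nat_lit 5) (nat_lit 451) (nat_lit 398) (nat_lit 351)) (XT.lf (nat_lit 0) (nat_lit 2243043836) (nat_lit 608) (nat_lit 4305457578) (nat_lit 76) (nat_lit 3727126711) (nat_lit 217) (nat_lit 5) (nat_lit 225) (nat_lit 5) (nat_lit 218) (nat_lit 5) (nat_lit 452) (nat_lit 398) (nat_lit 350)))) (XT.nd (nat_lit 156) (nat_lit 988) (nat_lit 0) (XT.nd (nat_lit 78) (nat_lit 532) (nat_lit 0) (XT.lf (nat_lit 0) (nat_lit 6377826320) (nat_lit 456) (nat_lit 680753154) (nat_lit 532) (nat_lit 3378040400) (nat_lit 211) (nat_lit 5) (nat_lit 217) (nat_lit 5) (nat_lit 218) (nat_lit 5) (nat_lit 453) (nat_lit 398) (nat_lit 349)) (XT.lf (nat_lit 0) (nat_lit 1435379060) (nat_lit 532) (nat_lit 3820661002) (nat_lit 76) (nat_lit 5345465454) (nat_lit 204) (nat_lit 5) (nat_lit 211) (nat_lit 5) (nat_lit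 205) (nat_lit 5) (nat_lit 454) (nat_lit 398) (nat_lit 348))) (XT.nd (nat_lit 78) (nat_lit 532) (nat_lit 0) (XT.lf (nat_lit 0) (nat_lit 6362210340) (nat_lit 532) (nat_lit 3580187228) (nat_lit 76) (nat_lit 828199664) (nat_lit 198) (nat_lit 5) (nat_lit 205) (nat_lit 5) (nat_lit 199) (nat_lit 5) (nat_lit 455) (nat_lit 398) (nat_lit 347)) (XT.lf (nat_lit 0) (nat_lit 527894263) (nat_lit 532) (nat_lit 3344180430) (nat_lit 76) (nat_lit 7071781793) (nat_lit 191) (nat_lit 5) (nat_lit 198) (nat_lit 5) (nat_lit 192) (nat_lit 5) (nat_lit 456) (nat_lit 398) (nat_lit 346))))))) (XT.nd (nat_lit 936) (nat_lit 3876) (nat_lit 0) (XT.nd (nat_lit 468) (nat_lit 2280) (nat_lit 0) (XT.nd (nat_lit 234) (nat_lit 1216) (nat_lit 0) (XT.nd (nat_lit 78) (nat_lit 912) (nat_lit 0) (XT.lf (nat_lit 0) (nat_lit 5577448305) (nat_lit 456) (nat_lit 3120185757) (nat_lit 76) (nat_lit 2423598961) (nat_lit 186) (nat_lit 5) (nat_lit 192) (nat_lit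 5) (nat_lit 187) (nat_lit 5) (nat_lit 457) (nat_lit 398) (nat_lit 345)) (XT.nd (nat_lit 78) (nat_lit 456) (nat_lit 0) (XT.lf (nat_lit 0) (nat_lit 8413426409) (nat_lit 456) (nat_lit 2401830614) (nat_lit 532) (nat_lit 487942196) (nat_lit 180) (nat_lit 5) (nat_lit 186) (nat_lit 5) (nat_lit 187) (nat_lit 5) (nat_lit 458) (nat_lit 398) (nat_lit 344)) (XT.lf (nat_lit 0) (nat_lit 4697619100) (nat_lit 456) (nat_lit 2685232659) (nat_lit 76) (nat_lit 4106364504) (nat_lit 174) (nat_lit 5) (nat_lit 180) (nat_lit 5) (nat_lit 175) (nat_lit 5) (nat_lit 459) (nat_lit 398) (nat_lit 343)))) (XT.nd (nat_lit 78) (nat_lit 836) (nat_lit 0) (XT.lf (nat_lit 0) (nat_lit 9210498398) (nat_lit 380) (nat_lit 852600595) (nat_lit 456) (nat_lit 1617034139) (nat_lit 169) (nat_lit 5) (nat_lit 174) (nat_lit 5) (nat_lit 175) (nat_lit 5) (nat_lit 460) (nat_lit 398) (nat_lit 342)) (XT.nd (nat_lit 78) (nat_lit 380) (nat_lit 0) (XT.lf (nat_lit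 0) (nat_lit 3719706249) (nat_lit 456) (nat_lit 2286863876) (nat_lit 76) (nat_lit 5868615863) (nat_lit 163) (nat_lit 5) (nat_lit 169) (nat_lit 5) (nat_lit 164) (nat_lit 5) (nat_lit 461) (nat_lit 398) (nat_lit 341)) (XT.lf (nat_lit 0) (nat_lit 9224243299) (nat_lit 456) (nat_lit 2097206906) (nat_lit 76) (nat_lit 753836360) (nat_lit 158) (nat_lit 5) (nat_lit 164) (nat_lit 5) (nat_lit 159) (nat_lit 5) (nat_lit 462) (nat_lit 398) (nat_lit 340))))) (XT.nd (nat_lit 234) (nat_lit 1064) (nat_lit 0) (XT.nd (nat_lit 78) (nat_lit 760) (nat_lit 0) (XT.lf (nat_lit 0) (nat_lit 2639898185) (nat_lit 456) (nat_lit 1937406962) (nat_lit 76) (nat_lit 7702516083) (nat_lit 152) (nat_lit 5) (nat_lit 158) (nat_lit 5) (nat_lit 153) (nat_lit 5) (nat_lit 463) (nat_lit 398) (nat_lit 339)) (XT.nd (nat_lit 78) (nat_lit 380) (nat_lit 0) (XT.lf (nat_lit 0) (nat_lit 8295772285) (nat_lit 456) (nat_lit 1786259977) (nat_lit 76) (nat_lit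 2407306924) (nat_lit 147) (nat_lit 5) (nat_lit 153) (nat_lit 5) (nat_lit 148) (nat_lit 5) (nat_lit 464) (nat_lit 398) (nat_lit 338)) (XT.lf (nat_lit 0) (nat_lit 1453548519) (nat_lit 380) (nat_lit 1650109236) (nat_lit 76) (nat_lit 9600184989) (nat_lit 142) (nat_lit 5) (nat_lit 147) (nat_lit 5) (nat_lit 143) (nat_lit 5) (nat_lit 465) (nat_lit 398) (nat_lit 337)))) (XT.nd (nat_lit 78) (nat_lit 684) (nat_lit 0) (XT.lf (nat_lit 0) (nat_lit 7267377796) (nat_lit 456) (nat_lit 1545006367) (nat_lit 76) (nat_lit 4110760080) (nat_lit 137) (nat_lit 5) (nat_lit 143) (nat_lit 5) (nat_lit 138) (nat_lit 5) (nat_lit 466) (nat_lit 398) (nat_lit 336)) (XT.nd (nat_lit 78) (nat_lit 304) (nat_lit 0) (XT.lf (nat_lit 0) (nat_lit 155129125) (nat_lit 380) (nat_lit 1439276208) (nat_lit 76) (nat_lit 11553609598) (nat_lit 132) (nat_lit 5) (nat_lit 137) (nat_lit 5) (nat_lit 133) (nat_lit 5) (nat_lit 467) (nat_lit 398) (nat_lit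 335)) (XT.lf (nat_lit 0) (nat_lit 6133394811) (nat_lit 380) (nat_lit 1388328138) (nat_lit 76) (nat_lit 5855765949) (nat_lit 128) (nat_lit 5) (nat_lit 133) (nat_lit 5) (nat_lit 129) (nat_lit 5) (nat_lit 468) (nat_lit 398) (nat_lit 334)))))) (XT.nd (nat_lit 468) (nat_lit 1900) (nat_lit 0) (XT.nd (nat_lit 234) (nat_lit 988) (nat_lit 0) (XT.nd (nat_lit 78) (nat_lit 684) (nat_lit 0) (XT.lf (nat_lit 0) (nat_lit 12284258856) (nat_lit 304) (nat_lit 50129629) (nat_lit 380) (nat_lit 1278593435) (nat_lit 124) (nat_lit 5) (nat_lit 128) (nat_lit 5) (nat_lit 129) (nat_lit 5) (nat_lit 469) (nat_lit 398) (nat_lit 333)) (XT.nd (nat_lit 78) (nat_lit 304) (nat_lit 0) (XT.lf (nat_lit 0) (nat_lit 4887207545) (nat_lit 380) (nat_lit 1332397565) (nat_lit 76) (nat_lit 7633602052) (nat_lit 119) (nat_lit 5) (nat_lit 124) (nat_lit 5) (nat_lit 120) (nat_lit 5) (nat_lit 470) (nat_lit 398) (nat_lit 332)) (XT.lf (nat_lit 0) (nat_lit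 11267505619) (nat_lit 380) (nat_lit 1338707275) (nat_lit 76) (nat_lit 1493321604) (nat_lit 115) (nat_lit 5) (nat_lit 120) (nat_lit 5) (nat_lit 116) (nat_lit 5) (nat_lit 471) (nat_lit 398) (nat_lit 331)))) (XT.nd (nat_lit 78) (nat_lit 608) (nat_lit 0) (XT.lf (nat_lit 0) (nat_lit 3521182655) (nat_lit 380) (nat_lit 1394847135) (nat_lit 76) (nat_lit 9435152533) (nat_lit 110) (nat_lit 5) (nat_lit 115) (nat_lit 5) (nat_lit 111) (nat_lit 5) (nat_lit 472) (nat_lit 398) (nat_lit 330)) (XT.nd (nat_lit 78) (nat_lit 380) (nat_lit 0) (XT.lf (nat_lit 0) (nat_lit 10087391000) (nat_lit 304) (nat_lit 1477252022) (nat_lit 76) (nat_lit 3044146714) (nat_lit 107) (nat_lit 5) (nat_lit 111) (nat_lit 5) (nat_lit 108) (nat_lit 5) (nat_lit 473) (nat_lit 398) (nat_lit 329)) (XT.lf (nat_lit 0) (nat_lit 2026593215) (nat_lit 380) (nat_lit 1594954993) (nat_lit 76) (nat_lit 11250801401) (nat_lit 102) (nat_lit 5) (nat_lit 107) (nat_lit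 5) (nat_lit 103) (nat_lit 5) (nat_lit 474) (nat_lit 398) (nat_lit 328))))) (XT.nd (nat_lit 234) (nat_lit 1064) (nat_lit 0) (XT.nd (nat_lit 78) (nat_lit 608) (nat_lit 0) (XT.lf (nat_lit 0) (nat_lit 8784796766) (nat_lit 304) (nat_lit 1764204420) (nat_lit 76) (nat_lit 4592715289) (nat_lit 99) (nat_lit 5) (nat_lit 103) (nat_lit 5) (nat_lit 100) (nat_lit 5) (nat_lit 475) (nat_lit 398) (nat_lit 327)) (XT.nd (nat_lit 78) (nat_lit 228) (nat_lit 0) (XT.lf (nat_lit 0) (nat_lit 393532686) (nat_lit 380) (nat_lit 1953847599) (nat_lit 76) (nat_lit 13070318809) (nat_lit 94) (nat_lit 5) (nat_lit 99) (nat_lit 5) (nat_lit 95) (nat_lit 5) (nat_lit 476) (nat_lit 398) (nat_lit 326)) (XT.lf (nat_lit 0) (nat_lit 7349591489) (nat_lit 304) (nat_lit 2221695521) (nat_lit 76) (nat_lit 6128046404) (nat_lit 91) (nat_lit 5) (nat_lit 95) (nat_lit 5) (nat_lit 92) (nat_lit 5) (nat_lit 477) (nat_lit 398) (nat_lit 325)))) (XT.nd (nat_lit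 156) (nat_lit 532) (nat_lit 0) (XT.nd (nat_lit 78) (nat_lit 304) (nat_lit 0) (XT.lf (nat_lit 0) (nat_lit 13484235158) (nat_lit 228) (nat_lit 1096217434) (nat_lit 304) (nat_lit 1407643486) (nat_lit 88) (nat_lit 5) (nat_lit 91) (nat_lit 5) (nat_lit 92) (nat_lit 5) (nat_lit 478) (nat_lit 398) (nat_lit 324)) (XT.lf (nat_lit 0) (nat_lit 5770332544) (nat_lit 304) (nat_lit 2874046984) (nat_lit 76) (nat_lit 7638339398) (nat_lit 84) (nat_lit 5) (nat_lit 88) (nat_lit 5) (nat_lit 85) (nat_lit 5) (nat_lit 479) (nat_lit 398) (nat_lit 323))) (XT.nd (nat_lit 78) (nat_lit 304) (nat_lit 0) (XT.lf (nat_lit 0) (nat_lit 13207068275) (nat_lit 304) (nat_lit 3265758139) (nat_lit 76) (nat_lit 111918654) (nat_lit 81) (nat_lit 5) (nat_lit 85) (nat_lit 5) (nat_lit 82) (nat_lit 5) (nat_lit 480) (nat_lit 398) (nat_lit 322)) (XT.lf (nat_lit 0) (nat_lit 4034151616) (nat_lit 304) (nat_lit 3748025721) (nat_lit 76) (nat_lit 9110837340)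 (nat_lit 77) (nat_lit 5) (nat_lit 81) (nat_lit 5) (nat_lit 78) (nat_lit 5) (nat_lit 481) (nat_lit 398) (nat_lit 321))))))))
noncomputable def xc37 : XT := (XT.nd (nat_lit 57642) (nat_lit 0) (nat_lit 16948) (XT.nd (nat_lit 56628) (nat_lit 0) (nat_lit 43472) (XT.nd (nat_lit 468) (nat_lit 304) (nat_lit 0) (XT.nd (nat_lit 234) (nat_lit 608) (nat_lit 0) (XT.nd (nat_lit 78) (nat_lit 532) (nat_lit 0) (XT.lf (nat_lit 0) (nat_lit 11689274906) (nat_lit 304) (nat_lit 4271136815) (nat_lit 76) (nat_lit 1248339008) (nat_lit 74) (nat_lit 5) (nat_lit 78) (nat_lit 5) (nat_lit 75) (nat_lit 5) (nat_lit 482) (nat_lit 398) (nat_lit 320)) (XT.nd (nat_lit 78) (nat_lit 228) (nat_lit 0) (XT.lf (nat_lit 0) (nat_lit 2126626712) (nat_lit 304) (nat_lit 4873123524) (nat_lit 76) (nat_lit 10531679321) (nat_lit 70) (nat_lit 5) (nat_lit 74) (nat_lit 5) (nat_lit 71) (nat_lit 5) (nat_lit 483) (nat_lit 398) (nat_lit 319)) (XT.lf (nat_lit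 0) (nat_lit 10005171959) (nat_lit 304) (nat_lit 5543848231) (nat_lit 76) (nat_lit 2312479293) (nat_lit 67) (nat_lit 5) (nat_lit 71) (nat_lit 5) (nat_lit 68) (nat_lit 5) (nat_lit 484) (nat_lit 398) (nat_lit 318)))) (XT.nd (nat_lit 78) (nat_lit 380) (nat_lit 0) (XT.lf (nat_lit 0) (nat_lit 31639419) (nat_lit 228) (nat_lit 6281864393) (nat_lit 76) (nat_lit 11885740165) (nat_lit 64) (nat_lit 5) (nat_lit 67) (nat_lit 5) (nat_lit 65) (nat_lit 5) (nat_lit 485) (nat_lit 398) (nat_lit 317)) (XT.nd (nat_lit 78) (nat_lit 152) (nat_lit 0) (XT.lf (nat_lit 0) (nat_lit 8138222897) (nat_lit 304) (nat_lit 7118059544) (nat_lit 76) (nat_lit 3288026730) (nat_lit 61) (nat_lit 5) (nat_lit 65) (nat_lit 5) (nat_lit 62) (nat_lit 5) (nat_lit 486) (nat_lit 398) (nat_lit 316)) (XT.lf (nat_lit 0) (nat_lit 10872447231) (nat_lit 152) (nat_lit 5726133808) (nat_lit 228) (nat_lit 2298934963) (nat_lit 59) (nat_lit 5) (nat_lit 61) (nat_lit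 5) (nat_lit 62) (nat_lit 5) (nat_lit 487) (nat_lit 398) (nat_lit 315))))) (XT.nd (nat_lit 55926) (nat_lit 0) (nat_lit 53656) (XT.nd (nat_lit 55770) (nat_lit 0) (nat_lit 54340) (XT.lf (nat_lit 0) (nat_lit 6069970932) (nat_lit 304) (nat_lit 9031490969) (nat_lit 76) (nat_lit 4157114388) (nat_lit 55) (nat_lit 5) (nat_lit 59) (nat_lit 5) (nat_lit 56) (nat_lit 5) (nat_lit 488) (nat_lit 398) (nat_lit 314)) (XT.nd (nat_lit 78) (nat_lit 228) (nat_lit 0) (XT.lf (nat_lit 0) (nat_lit 1651411357) (nat_lit 76) (nat_lit 785904039) (nat_lit 76) (nat_lit 785904039) (nat_lit 773) (nat_lit 4) (nat_lit 774) (nat_lit 5) (nat_lit 774) (nat_lit 4) (nat_lit 402) (nat_lit 399) (nat_lit 399)) (XT.lf (nat_lit 0) (nat_lit 1868575282) (nat_lit 152) (nat_lit 1290858367) (nat_lit 228) (nat_lit 3292671138) (nat_lit 770) (nat_lit 5) (nat_lit 772) (nat_lit 5) (nat_lit 773) (nat_lit 4) (nat_lit 403) (nat_lit 399) (nat_lit 398)))) (XT.nd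 (nat_lit 78) (nat_lit 380) (nat_lit 0) (XT.lf (nat_lit 0) (nat_lit 501397484) (nat_lit 228) (nat_lit 874299810) (nat_lit 304) (nat_lit 5085013981) (nat_lit 766) (nat_lit 5) (nat_lit 769) (nat_lit 5) (nat_lit 770) (nat_lit 5) (nat_lit 404) (nat_lit 399) (nat_lit 397)) (XT.nd (nat_lit 78) (nat_lit 380) (nat_lit 0) (XT.lf (nat_lit 0) (nat_lit 5679784905) (nat_lit 228) (nat_lit 313223252) (nat_lit 304) (nat_lit 479090147) (nat_lit 766) (nat_lit 5) (nat_lit 769) (nat_lit 5) (nat_lit 770) (nat_lit 5) (nat_lit 405) (nat_lit 399) (nat_lit 396)) (XT.lf (nat_lit 0) (nat_lit 4067077538) (nat_lit 380) (nat_lit 2027203146) (nat_lit 76) (nat_lit 391861086) (nat_lit 761) (nat_lit 5) (nat_lit 766) (nat_lit 5) (nat_lit 762) (nat_lit 5) (nat_lit 406) (nat_lit 399) (nat_lit 395)))))) (XT.nd (nat_lit 468) (nat_lit 7220) (nat_lit 0) (XT.nd (nat_lit 234) (nat_lit 1444) (nat_lit 0) (XT.nd (nat_lit 78) (nat_lit 1064) (nat_lit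 0) (XT.lf (nat_lit 0) (nat_lit 2072619386) (nat_lit 456) (nat_lit 3202004300) (nat_lit 76) (nat_lit 1228466573) (nat_lit 755) (nat_lit 5) (nat_lit 761) (nat_lit 5) (nat_lit 756) (nat_lit 5) (nat_lit 407) (nat_lit 399) (nat_lit 394)) (XT.nd (nat_lit 78) (nat_lit 532) (nat_lit 0) (XT.lf (nat_lit 0) (nat_lit 5956074) (nat_lit 532) (nat_lit 4315458256) (nat_lit 76) (nat_lit 2201581923) (nat_lit 748) (nat_lit 5) (nat_lit 755) (nat_lit 5) (nat_lit 749) (nat_lit 5) (nat_lit 408) (nat_lit 399) (nat_lit 393)) (XT.lf (nat_lit 0) (nat_lit 1163276418) (nat_lit 532) (nat_lit 3219316434) (nat_lit 608) (nat_lit 2162999920) (nat_lit 741) (nat_lit 5) (nat_lit 748) (nat_lit 5) (nat_lit 749) (nat_lit 5) (nat_lit 409) (nat_lit 399) (nat_lit 392)))) (XT.nd (nat_lit 78) (nat_lit 760) (nat_lit 0) (XT.lf (nat_lit 0) (nat_lit 181452898) (nat_lit 608) (nat_lit 1980951073) (nat_lit 684) (nat_lit 4408761944) (nat_lit 732) (nat_lit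 5) (nat_lit 740) (nat_lit 5) (nat_lit 741) (nat_lit 5) (nat_lit 410) (nat_lit 399) (nat_lit 391)) (XT.nd (nat_lit 78) (nat_lit 760) (nat_lit 0) (XT.lf (nat_lit 0) (nat_lit 5869999266) (nat_lit 608) (nat_lit 599292045) (nat_lit 684) (nat_lit 130330163) (nat_lit 732) (nat_lit 5) (nat_lit 740) (nat_lit 5) (nat_lit 741) (nat_lit 5) (nat_lit 411) (nat_lit 399) (nat_lit 390)) (XT.lf (nat_lit 0) (nat_lit 4107234087) (nat_lit 760) (nat_lit 1598530263) (nat_lit 76) (nat_lit 924895925) (nat_lit 722) (nat_lit 5) (nat_lit 732) (nat_lit 5) (nat_lit 723) (nat_lit 5) (nat_lit 412) (nat_lit 399) (nat_lit 389))))) (XT.nd (nat_lit 234) (nat_lit 4560) (nat_lit 0) (XT.nd (nat_lit 78) (nat_lit 1824) (nat_lit 0) (XT.lf (nat_lit 0) (nat_lit 1671927963) (nat_lit 836) (nat_lit 2412592554) (nat_lit 76) (nat_lit 2580117064) (nat_lit 711) (nat_lit 5) (nat_lit 722) (nat_lit 5) (nat_lit 712) (nat_lit 5) (nat_lit 413) (nat_lit 399)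 (nat_lit 388)) (XT.nd (nat_lit 78) (nat_lit 988) (nat_lit 0) (XT.lf (nat_lit 0) (nat_lit 3527697032) (nat_lit 836) (nat_lit 2320020126) (nat_lit 912) (nat_lit 853826816) (nat_lit 700) (nat_lit 5) (nat_lit 711) (nat_lit 5) (nat_lit 712) (nat_lit 5) (nat_lit 414) (nat_lit 399) (nat_lit 387)) (XT.lf (nat_lit 0) (nat_lit 2852680380) (nat_lit 912) (nat_lit 404279593) (nat_lit 988) (nat_lit 3484325420) (nat_lit 687) (nat_lit 5) (nat_lit 699) (nat_lit 5) (nat_lit 700) (nat_lit 5) (nat_lit 415) (nat_lit 399) (nat_lit 386)))) (XT.nd (nat_lit 156) (nat_lit 2432) (nat_lit 0) (XT.nd (nat_lit 78) (nat_lit 1064) (nat_lit 0) (XT.lf (nat_lit 0) (nat_lit 595191383) (nat_lit 1064) (nat_lit 4556872414) (nat_lit 76) (nat_lit 1631830952) (nat_lit 673) (nat_lit 5) (nat_lit 687) (nat_lit 5) (nat_lit 674) (nat_lit 5) (nat_lit 416) (nat_lit 399) (nat_lit 385)) (XT.lf (nat_lit 0) (nat_lit 1643457658) (nat_lit 1064) (nat_lit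 3010147102) (nat_lit 1140) (nat_lit 2175658061) (nat_lit 659) (nat_lit 5) (nat_lit 673) (nat_lit 5) (nat_lit 674) (nat_lit 5) (nat_lit 417) (nat_lit 399) (nat_lit 384))) (XT.nd (nat_lit 78) (nat_lit 1216) (nat_lit 0) (XT.lf (nat_lit 0) (nat_lit 1114380465) (nat_lit 1140) (nat_lit 722128688) (nat_lit 1216) (nat_lit 5041157597) (nat_lit 643) (nat_lit 5) (nat_lit 658) (nat_lit 5) (nat_lit 659) (nat_lit 5) (nat_lit 418) (nat_lit 399) (nat_lit 383)) (XT.lf (nat_lit 0) (nat_lit 625299926) (nat_lit 1216) (nat_lit 5233904248) (nat_lit 1292) (nat_lit 1069653253) (nat_lit 627) (nat_lit 5) (nat_lit 643) (nat_lit 5) (nat_lit 644) (nat_lit 5) (nat_lit 419) (nat_lit 399) (nat_lit 382))))))) (XT.nd (nat_lit 1014) (nat_lit 9804) (nat_lit 0) (XT.nd (nat_lit 468) (nat_lit 9196) (nat_lit 0) (XT.nd (nat_lit 234) (nat_lit 4712) (nat_lit 0) (XT.nd (nat_lit 78) (nat_lit 1444) (nat_lit 0) (XT.lf (nat_lit 0) (nat_lit 175981128)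 (nat_lit 1292) (nat_lit 2722454807) (nat_lit 1368) (nat_lit 4084430269) (nat_lit 609) (nat_lit 5) (nat_lit 626) (nat_lit 5) (nat_lit 627) (nat_lit 5) (nat_lit 420) (nat_lit 399) (nat_lit 381)) (XT.nd (nat_lit 78) (nat_lit 1444) (nat_lit 0) (XT.lf (nat_lit 0) (nat_lit 6825394825) (nat_lit 1292) (nat_lit 63229991) (nat_lit 1368) (nat_lit 151392648) (nat_lit 609) (nat_lit 5) (nat_lit 626) (nat_lit 5) (nat_lit 627) (nat_lit 5) (nat_lit 421) (nat_lit 399) (nat_lit 380)) (XT.lf (nat_lit 0) (nat_lit 3786529285) (nat_lit 1444) (nat_lit 584335579) (nat_lit 76) (nat_lit 2728765939) (nat_lit 590) (nat_lit 5) (nat_lit 609) (nat_lit 5) (nat_lit 591) (nat_lit 5) (nat_lit 422) (nat_lit 399) (nat_lit 379)))) (XT.nd (nat_lit 78) (nat_lit 3192) (nat_lit 0) (XT.lf (nat_lit 0) (nat_lit 593369882) (nat_lit 1520) (nat_lit 899714530) (nat_lit 76) (nat_lit 5669398596) (nat_lit 570) (nat_lit 5) (nat_lit 590) (nat_lit 5) (nat_lit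 571) (nat_lit 5) (nat_lit 423) (nat_lit 399) (nat_lit 378)) (XT.nd (nat_lit 78) (nat_lit 1672) (nat_lit 0) (XT.lf (nat_lit 0) (nat_lit 4508355698) (nat_lit 1596) (nat_lit 1187976237) (nat_lit 76) (nat_lit 1531737765) (nat_lit 550) (nat_lit 5) (nat_lit 571) (nat_lit 5) (nat_lit 551) (nat_lit 5) (nat_lit 424) (nat_lit 399) (nat_lit 377)) (XT.lf (nat_lit 0) (nat_lit 1168220763) (nat_lit 1672) (nat_lit 1436339746) (nat_lit 76) (nat_lit 4692127018) (nat_lit 528) (nat_lit 5) (nat_lit 550) (nat_lit 5) (nat_lit 529) (nat_lit 5) (nat_lit 425) (nat_lit 399) (nat_lit 376))))) (XT.nd (nat_lit 234) (nat_lit 3876) (nat_lit 0) (XT.nd (nat_lit 78) (nat_lit 3648) (nat_lit 0) (XT.lf (nat_lit 0) (nat_lit 5073047661) (nat_lit 1748) (nat_lit 1650096570) (nat_lit 76) (nat_lit 645128554) (nat_lit 506) (nat_lit 5) (nat_lit 529) (nat_lit 5) (nat_lit 507) (nat_lit 5) (nat_lit 426) (nat_lit 399) (nat_lit 375)) (XT.nd (nat_lit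 78) (nat_lit 1824) (nat_lit 0) (XT.lf (nat_lit 0) (nat_lit 1584863343) (nat_lit 1824) (nat_lit 1836068939) (nat_lit 76) (nat_lit 4021800014) (nat_lit 482) (nat_lit 5) (nat_lit 506) (nat_lit 5) (nat_lit 483) (nat_lit 5) (nat_lit 427) (nat_lit 399) (nat_lit 374)) (XT.lf (nat_lit 0) (nat_lit 5489846756) (nat_lit 1900) (nat_lit 1982769721) (nat_lit 76) (nat_lit 47723759) (nat_lit 458) (nat_lit 5) (nat_lit 483) (nat_lit 5) (nat_lit 459) (nat_lit 5) (nat_lit 428) (nat_lit 399) (nat_lit 373)))) (XT.nd (nat_lit 156) (nat_lit 1824) (nat_lit 0) (XT.nd (nat_lit 78) (nat_lit 912) (nat_lit 0) (XT.lf (nat_lit 0) (nat_lit 1851996755) (nat_lit 1140) (nat_lit 2110717006) (nat_lit 76) (nat_lit 3638018118) (nat_lit 443) (nat_lit 5) (nat_lit 458) (nat_lit 5) (nat_lit 444) (nat_lit 5) (nat_lit 429) (nat_lit 399) (nat_lit 372)) (XT.lf (nat_lit 0) (nat_lit 5485142356) (nat_lit 912) (nat_lit 283719609) (nat_lit 988) (nat_lit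 1915505840) (nat_lit 431) (nat_lit 5) (nat_lit 443) (nat_lit 5) (nat_lit 444) (nat_lit 5) (nat_lit 430) (nat_lit 399) (nat_lit 371))) (XT.nd (nat_lit 78) (nat_lit 836) (nat_lit 0) (XT.lf (nat_lit 0) (nat_lit 1977357464) (nat_lit 988) (nat_lit 2271448105) (nat_lit 76) (nat_lit 3522027540) (nat_lit 418) (nat_lit 5) (nat_lit 431) (nat_lit 5) (nat_lit 419) (nat_lit 5) (nat_lit 431) (nat_lit 399) (nat_lit 370)) (XT.lf (nat_lit 0) (nat_lit 5553516104) (nat_lit 836) (nat_lit 360737682) (nat_lit 912) (nat_lit 1946329816) (nat_lit 407) (nat_lit 5) (nat_lit 418) (nat_lit 5) (nat_lit 419) (nat_lit 5) (nat_lit 432) (nat_lit 399) (nat_lit 369)))))) (XT.nd (nat_lit 468) (nat_lit 4864) (nat_lit 0) (XT.nd (nat_lit 234) (nat_lit 2280) (nat_lit 0) (XT.nd (nat_lit 78) (nat_lit 1748) (nat_lit 0) (XT.lf (nat_lit 0) (nat_lit 1967769020) (nat_lit 912) (nat_lit 2328860500) (nat_lit 76) (nat_lit 3656585053) (nat_lit 395) (nat_lit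 5) (nat_lit 407) (nat_lit 5) (nat_lit 396) (nat_lit 5) (nat_lit 433) (nat_lit 399) (nat_lit 368)) (XT.nd (nat_lit 78) (nat_lit 912) (nat_lit 0) (XT.lf (nat_lit 0) (nat_lit 5732825783) (nat_lit 836) (nat_lit 199460076) (nat_lit 912) (nat_lit 2116901687) (nat_lit 384) (nat_lit 5) (nat_lit 395) (nat_lit 5) (nat_lit 396) (nat_lit 5) (nat_lit 434) (nat_lit 399) (nat_lit 367)) (XT.lf (nat_lit 0) (nat_lit 1829185829) (nat_lit 912) (nat_lit 2293068888) (nat_lit 76) (nat_lit 4025831513) (nat_lit 372) (nat_lit 5) (nat_lit 384) (nat_lit 5) (nat_lit 373) (nat_lit 5) (nat_lit 435) (nat_lit 399) (nat_lit 366)))) (XT.nd (nat_lit 78) (nat_lit 1520) (nat_lit 0) (XT.lf (nat_lit 0) (nat_lit 5829890947) (nat_lit 836) (nat_lit 2238242455) (nat_lit 76) (nat_lit 182247155) (nat_lit 362) (nat_lit 5) (nat_lit 373) (nat_lit 5) (nat_lit 363) (nat_lit 5) (nat_lit 436) (nat_lit 399) (nat_lit 365)) (XT.nd (nat_lit 78) (nat_lit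 684) (nat_lit 0) (XT.lf (nat_lit 0) (nat_lit 1566731173) (nat_lit 836) (nat_lit 2173784835) (nat_lit 76) (nat_lit 4615173150) (nat_lit 351) (nat_lit 5) (nat_lit 362) (nat_lit 5) (nat_lit 352) (nat_lit 5) (nat_lit 437) (nat_lit 399) (nat_lit 364)) (XT.lf (nat_lit 0) (nat_lit 5613445202) (nat_lit 760) (nat_lit 2083730584) (nat_lit 76) (nat_lit 767213816) (nat_lit 342) (nat_lit 5) (nat_lit 352) (nat_lit 5) (nat_lit 343) (nat_lit 5) (nat_lit 438) (nat_lit 399) (nat_lit 363))))) (XT.nd (nat_lit 234) (nat_lit 2584) (nat_lit 0) (XT.nd (nat_lit 78) (nat_lit 1444) (nat_lit 0) (XT.lf (nat_lit 0) (nat_lit 1184729696) (nat_lit 836) (nat_lit 1980395909) (nat_lit 76) (nat_lit 5411169848) (nat_lit 331) (nat_lit 5) (nat_lit 342) (nat_lit 5) (nat_lit 332) (nat_lit 5) (nat_lit 439) (nat_lit 399) (nat_lit 362)) (XT.nd (nat_lit 78) (nat_lit 760) (nat_lit 0) (XT.lf (nat_lit 0) (nat_lit 5285716128) (nat_lit 760) (nat_lit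 1860730606) (nat_lit 76) (nat_lit 1545082558) (nat_lit 322) (nat_lit 5) (nat_lit 332) (nat_lit 5) (nat_lit 323) (nat_lit 5) (nat_lit 440) (nat_lit 399) (nat_lit 361)) (XT.lf (nat_lit 0) (nat_lit 686734483) (nat_lit 760) (nat_lit 1722044146) (nat_lit 76) (nat_lit 6401429614) (nat_lit 312) (nat_lit 5) (nat_lit 322) (nat_lit 5) (nat_lit 313) (nat_lit 5) (nat_lit 441) (nat_lit 399) (nat_lit 360)))) (XT.nd (nat_lit 156) (nat_lit 1216) (nat_lit 0) (XT.nd (nat_lit 78) (nat_lit 760) (nat_lit 0) (XT.lf (nat_lit 0) (nat_lit 4850019879) (nat_lit 684) (nat_lit 1578241342) (nat_lit 76) (nat_lit 2503858098) (nat_lit 304) (nat_lit 5) (nat_lit 313) (nat_lit 5) (nat_lit 305) (nat_lit 5) (nat_lit 442) (nat_lit 399) (nat_lit 359)) (XT.lf (nat_lit 0) (nat_lit 75548879) (nat_lit 760) (nat_lit 1407704437) (nat_lit 76) (nat_lit 7574508525) (nat_lit 294) (nat_lit 5) (nat_lit 304) (nat_lit 5) (nat_lit 295) (nat_lit 5) (nat_lit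 443) (nat_lit 399) (nat_lit 358))) (XT.nd (nat_lit 78) (nat_lit 608) (nat_lit 0) (XT.lf (nat_lit 0) (nat_lit 4308945350) (nat_lit 684) (nat_lit 1245139166) (nat_lit 76) (nat_lit 3632426059) (nat_lit 286) (nat_lit 5) (nat_lit 295) (nat_lit 5) (nat_lit 287) (nat_lit 5) (nat_lit 444) (nat_lit 399) (nat_lit 357)) (XT.lf (nat_lit 0) (nat_lit 8268718459) (nat_lit 608) (nat_lit 395166519) (nat_lit 684) (nat_lit 655351948) (nat_lit 278) (nat_lit 5) (nat_lit 286) (nat_lit 5) (nat_lit 287) (nat_lit 5) (nat_lit 445) (nat_lit 399) (nat_lit 356))))))))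
noncomputable def xc38 : XT := (XT.nd (nat_lit 1950) (nat_lit 4560) (nat_lit 0) (XT.nd (nat_lit 936) (nat_lit 5092) (nat_lit 0) (XT.nd (nat_lit 468) (nat_lit 2964) (nat_lit 0) (XT.nd (nat_lit 234) (nat_lit 2128) (nat_lit 0) (XT.nd (nat_lit 78) (nat_lit 1216) (nat_lit 0) (XT.lf (nat_lit 0) (nat_lit 3664368190) (nat_lit 684) (nat_lit 870257129) (nat_lit 76) (nat_lit 4920460189) (nat_lit 269) (nat_lit 5) (nat_lit 278) (nat_lit 5) (nat_lit 270) (nat_lit 5) (nat_lit 446) (nat_lit 399) (nat_lit 355)) (XT.nd (nat_lit 78) (nat_lit 608) (nat_lit 0) (XT.lf (nat_lit 0) (nat_lit 8102072536) (nat_lit 684) (nat_lit 661797009) (nat_lit 76) (nat_lit 831112963) (nat_lit 261) (nat_lit 5) (nat_lit 270) (nat_lit 5) (nat_lit 262) (nat_lit 5) (nat_lit 447) (nat_lit 399) (nat_lit 354)) (XT.lf (nat_lit 0) (nat_lit 2917459693) (nat_lit 608) (nat_lit 462465666) (nat_lit 76) (nat_lit 6358333238) (nat_lit 253) (nat_lit 5) (nat_lit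 261) (nat_lit 5) (nat_lit 254) (nat_lit 5) (nat_lit 448) (nat_lit 399) (nat_lit 353)))) (XT.nd (nat_lit 78) (nat_lit 1596) (nat_lit 0) (XT.lf (nat_lit 0) (nat_lit 7447960373) (nat_lit 608) (nat_lit 247992809) (nat_lit 76) (nat_lit 2189525473) (nat_lit 246) (nat_lit 5) (nat_lit 254) (nat_lit 5) (nat_lit 247) (nat_lit 5) (nat_lit 449) (nat_lit 399) (nat_lit 352)) (XT.nd (nat_lit 78) (nat_lit 988) (nat_lit 0) (XT.lf (nat_lit 0) (nat_lit 2068690575) (nat_lit 608) (nat_lit 30755543) (nat_lit 76) (nat_lit 7937030851) (nat_lit 238) (nat_lit 5) (nat_lit 246) (nat_lit 5) (nat_lit 239) (nat_lit 5) (nat_lit 450) (nat_lit 399) (nat_lit 351)) (XT.lf (nat_lit 0) (nat_lit 186857202) (nat_lit 456) (nat_lit 6513661277) (nat_lit 532) (nat_lit 3490698249) (nat_lit 225) (nat_lit 5) (nat_lit 231) (nat_lit 5) (nat_lit 232) (nat_lit 5) (nat_lit 451) (nat_lit 399) (nat_lit 350))))) (XT.nd (nat_lit 234) (nat_lit 1368) (nat_lit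 0) (XT.nd (nat_lit 78) (nat_lit 988) (nat_lit 0) (XT.lf (nat_lit 0) (nat_lit 421200337) (nat_lit 532) (nat_lit 699363937) (nat_lit 608) (nat_lit 9229602172) (nat_lit 217) (nat_lit 5) (nat_lit 224) (nat_lit 5) (nat_lit 225) (nat_lit 5) (nat_lit 452) (nat_lit 399) (nat_lit 349)) (XT.nd (nat_lit 78) (nat_lit 532) (nat_lit 0) (XT.lf (nat_lit 0) (nat_lit 634413789) (nat_lit 456) (nat_lit 5225443974) (nat_lit 532) (nat_lit 4652827424) (nat_lit 211) (nat_lit 5) (nat_lit 217) (nat_lit 5) (nat_lit 218) (nat_lit 5) (nat_lit 453) (nat_lit 399) (nat_lit 348)) (XT.lf (nat_lit 0) (nat_lit 74896857) (nat_lit 532) (nat_lit 9806282599) (nat_lit 76) (nat_lit 798607239) (nat_lit 204) (nat_lit 5) (nat_lit 211) (nat_lit 5) (nat_lit 205) (nat_lit 5) (nat_lit 454) (nat_lit 399) (nat_lit 347)))) (XT.nd (nat_lit 78) (nat_lit 912) (nat_lit 0) (XT.lf (nat_lit 0) (nat_lit 1081599312) (nat_lit 456) (nat_lit 3841615096) (nat_lit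 532) (nat_lit 5927236261) (nat_lit 198) (nat_lit 5) (nat_lit 204) (nat_lit 5) (nat_lit 205) (nat_lit 5) (nat_lit 455) (nat_lit 399) (nat_lit 346)) (XT.nd (nat_lit 78) (nat_lit 456) (nat_lit 0) (XT.lf (nat_lit 0) (nat_lit 1308615666) (nat_lit 456) (nat_lit 8632610390) (nat_lit 532) (nat_lit 1084527529) (nat_lit 192) (nat_lit 5) (nat_lit 198) (nat_lit 5) (nat_lit 199) (nat_lit 5) (nat_lit 456) (nat_lit 399) (nat_lit 345)) (XT.lf (nat_lit 0) (nat_lit 1518183486) (nat_lit 380) (nat_lit 2370554753) (nat_lit 456) (nat_lit 7316344787) (nat_lit 186) (nat_lit 5) (nat_lit 191) (nat_lit 5) (nat_lit 192) (nat_lit 5) (nat_lit 457) (nat_lit 399) (nat_lit 344)))))) (XT.nd (nat_lit 468) (nat_lit 2508) (nat_lit 0) (XT.nd (nat_lit 234) (nat_lit 1292) (nat_lit 0) (XT.nd (nat_lit 78) (nat_lit 836) (nat_lit 0) (XT.lf (nat_lit 0) (nat_lit 1726673959) (nat_lit 456) (nat_lit 7309232306) (nat_lit 532) (nat_lit 2352957553)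 (nat_lit 180) (nat_lit 5) (nat_lit 186) (nat_lit 5) (nat_lit 187) (nat_lit 5) (nat_lit 458) (nat_lit 399) (nat_lit 343)) (XT.nd (nat_lit 78) (nat_lit 380) (nat_lit 0) (XT.lf (nat_lit 0) (nat_lit 1933384004) (nat_lit 380) (nat_lit 820456078) (nat_lit 456) (nat_lit 8823349125) (nat_lit 174) (nat_lit 5) (nat_lit 179) (nat_lit 5) (nat_lit 180) (nat_lit 5) (nat_lit 459) (nat_lit 399) (nat_lit 342)) (XT.lf (nat_lit 0) (nat_lit 2117098200) (nat_lit 380) (nat_lit 5919929028) (nat_lit 456) (nat_lit 3732726350) (nat_lit 169) (nat_lit 5) (nat_lit 174) (nat_lit 5) (nat_lit 175) (nat_lit 5) (nat_lit 460) (nat_lit 399) (nat_lit 341)))) (XT.nd (nat_lit 78) (nat_lit 836) (nat_lit 0) (XT.lf (nat_lit 0) (nat_lit 1520362624) (nat_lit 456) (nat_lit 9656856639) (nat_lit 76) (nat_lit 790091449) (nat_lit 163) (nat_lit 5) (nat_lit 169) (nat_lit 5) (nat_lit 164) (nat_lit 5) (nat_lit 461) (nat_lit 399) (nat_lit 340)) (XT.nd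 (nat_lit 78) (nat_lit 456) (nat_lit 0) (XT.lf (nat_lit 0) (nat_lit 2468081428) (nat_lit 380) (nat_lit 4473037939) (nat_lit 456) (nat_lit 5227969050) (nat_lit 158) (nat_lit 5) (nat_lit 163) (nat_lit 5) (nat_lit 164) (nat_lit 5) (nat_lit 462) (nat_lit 399) (nat_lit 339)) (XT.lf (nat_lit 0) (nat_lit 184688254) (nat_lit 456) (nat_lit 9739502440) (nat_lit 76) (nat_lit 2451931645) (nat_lit 152) (nat_lit 5) (nat_lit 158) (nat_lit 5) (nat_lit 153) (nat_lit 5) (nat_lit 463) (nat_lit 399) (nat_lit 338))))) (XT.nd (nat_lit 234) (nat_lit 1368) (nat_lit 0) (XT.nd (nat_lit 78) (nat_lit 760) (nat_lit 0) (XT.lf (nat_lit 0) (nat_lit 2766970492) (nat_lit 380) (nat_lit 2976938741) (nat_lit 456) (nat_lit 6843665531) (nat_lit 147) (nat_lit 5) (nat_lit 152) (nat_lit 5) (nat_lit 153) (nat_lit 5) (nat_lit 464) (nat_lit 399) (nat_lit 337)) (XT.nd (nat_lit 78) (nat_lit 456) (nat_lit 0) (XT.lf (nat_lit 0) (nat_lit 2895755544)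 (nat_lit 304) (nat_lit 8628187905) (nat_lit 380) (nat_lit 1280349351) (nat_lit 143) (nat_lit 5) (nat_lit 147) (nat_lit 5) (nat_lit 148) (nat_lit 5) (nat_lit 465) (nat_lit 399) (nat_lit 336)) (XT.lf (nat_lit 0) (nat_lit 3000133862) (nat_lit 380) (nat_lit 1440142326) (nat_lit 456) (nat_lit 8585685583) (nat_lit 137) (nat_lit 5) (nat_lit 142) (nat_lit 5) (nat_lit 143) (nat_lit 5) (nat_lit 466) (nat_lit 399) (nat_lit 335)))) (XT.nd (nat_lit 156) (nat_lit 684) (nat_lit 0) (XT.nd (nat_lit 78) (nat_lit 380) (nat_lit 0) (XT.lf (nat_lit 0) (nat_lit 3080180360) (nat_lit 304) (nat_lit 7304617443) (nat_lit 380) (nat_lit 2867922862) (nat_lit 133) (nat_lit 5) (nat_lit 137) (nat_lit 5) (nat_lit 138) (nat_lit 5) (nat_lit 467) (nat_lit 399) (nat_lit 334)) (XT.lf (nat_lit 0) (nat_lit 3025036800) (nat_lit 380) (nat_lit 10333059797) (nat_lit 76) (nat_lit 126930032) (nat_lit 128) (nat_lit 5) (nat_lit 133) (nat_lit 5) (nat_lit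 129) (nat_lit 5) (nat_lit 468) (nat_lit 399) (nat_lit 333))) (XT.nd (nat_lit 78) (nat_lit 380) (nat_lit 0) (XT.lf (nat_lit 0) (nat_lit 3175769004) (nat_lit 304) (nat_lit 5963930223) (nat_lit 380) (nat_lit 4582548213) (nat_lit 124) (nat_lit 5) (nat_lit 128) (nat_lit 5) (nat_lit 129) (nat_lit 5) (nat_lit 469) (nat_lit 399) (nat_lit 332)) (XT.lf (nat_lit 0) (nat_lit 1499880177) (nat_lit 380) (nat_lit 10767834402) (nat_lit 76) (nat_lit 1697722333) (nat_lit 119) (nat_lit 5) (nat_lit 124) (nat_lit 5) (nat_lit 120) (nat_lit 5) (nat_lit 470) (nat_lit 399) (nat_lit 331))))))) (XT.nd (nat_lit 936) (nat_lit 1140) (nat_lit 0) (XT.nd (nat_lit 468) (nat_lit 1596) (nat_lit 0) (XT.nd (nat_lit 234) (nat_lit 912) (nat_lit 0) (XT.nd (nat_lit 78) (nat_lit 608) (nat_lit 0) (XT.lf (nat_lit 0) (nat_lit 3165795330) (nat_lit 304) (nat_lit 4615726648) (nat_lit 380) (nat_lit 6432216474) (nat_lit 115) (nat_lit 5) (nat_lit 119)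 (nat_lit 5) (nat_lit 120) (nat_lit 5) (nat_lit 471) (nat_lit 399) (nat_lit 330)) (XT.nd (nat_lit 78) (nat_lit 304) (nat_lit 0) (XT.lf (nat_lit 0) (nat_lit 3128141823) (nat_lit 304) (nat_lit 11185477231) (nat_lit 380) (nat_lit 154631986) (nat_lit 111) (nat_lit 5) (nat_lit 115) (nat_lit 5) (nat_lit 116) (nat_lit 5) (nat_lit 472) (nat_lit 399) (nat_lit 329)) (XT.lf (nat_lit 0) (nat_lit 3031995473) (nat_lit 228) (nat_lit 3270101125) (nat_lit 304) (nat_lit 8426013085) (nat_lit 107) (nat_lit 5) (nat_lit 110) (nat_lit 5) (nat_lit 111) (nat_lit 5) (nat_lit 473) (nat_lit 399) (nat_lit 328)))) (XT.nd (nat_lit 78) (nat_lit 608) (nat_lit 0) (XT.lf (nat_lit 0) (nat_lit 2914589234) (nat_lit 304) (nat_lit 10112246932) (nat_lit 380) (nat_lit 1967381240) (nat_lit 103) (nat_lit 5) (nat_lit 107) (nat_lit 5) (nat_lit 108) (nat_lit 5) (nat_lit 474) (nat_lit 399) (nat_lit 327)) (XT.nd (nat_lit 78) (nat_lit 304) (nat_lit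 0) (XT.lf (nat_lit 0) (nat_lit 2754375395) (nat_lit 228) (nat_lit 1937753906) (nat_lit 304) (nat_lit 10574201272) (nat_lit 99) (nat_lit 5) (nat_lit 102) (nat_lit 5) (nat_lit 103) (nat_lit 5) (nat_lit 475) (nat_lit 399) (nat_lit 326)) (XT.lf (nat_lit 0) (nat_lit 2546074710) (nat_lit 304) (nat_lit 9069530258) (nat_lit 380) (nat_lit 3928925717) (nat_lit 95) (nat_lit 5) (nat_lit 99) (nat_lit 5) (nat_lit 100) (nat_lit 5) (nat_lit 476) (nat_lit 399) (nat_lit 325))))) (XT.nd (nat_lit 234) (nat_lit 760) (nat_lit 0) (XT.nd (nat_lit 78) (nat_lit 532) (nat_lit 0) (XT.lf (nat_lit 0) (nat_lit 2311000366) (nat_lit 228) (nat_lit 630110633) (nat_lit 304) (nat_lit 12888316053) (nat_lit 91) (nat_lit 5) (nat_lit 94) (nat_lit 5) (nat_lit 95) (nat_lit 5) (nat_lit 477) (nat_lit 399) (nat_lit 324)) (XT.nd (nat_lit 78) (nat_lit 304) (nat_lit 0) (XT.lf (nat_lit 0) (nat_lit 1999608175) (nat_lit 228) (nat_lit 8069576926) (nat_lit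 304) (nat_lit 6051061180) (nat_lit 88) (nat_lit 5) (nat_lit 91) (nat_lit 5) (nat_lit 92) (nat_lit 5) (nat_lit 478) (nat_lit 399) (nat_lit 323)) (XT.lf (nat_lit 0) (nat_lit 1041373953) (nat_lit 304) (nat_lit 14744879372) (nat_lit 76) (nat_lit 632148357) (nat_lit 84) (nat_lit 5) (nat_lit 88) (nat_lit 5) (nat_lit 85) (nat_lit 5) (nat_lit 479) (nat_lit 399) (nat_lit 322)))) (XT.nd (nat_lit 78) (nat_lit 532) (nat_lit 0) (XT.lf (nat_lit 0) (nat_lit 1249903076) (nat_lit 228) (nat_lit 7125578537) (nat_lit 304) (nat_lit 8346999534) (nat_lit 81) (nat_lit 5) (nat_lit 84) (nat_lit 5) (nat_lit 85) (nat_lit 5) (nat_lit 480) (nat_lit 399) (nat_lit 321)) (XT.nd (nat_lit 78) (nat_lit 304) (nat_lit 0) (XT.lf (nat_lit 0) (nat_lit 808963225) (nat_lit 228) (nat_lit 15191014407) (nat_lit 304) (nat_lit 1034299564) (nat_lit 78) (nat_lit 5) (nat_lit 81) (nat_lit 5) (nat_lit 82) (nat_lit 5) (nat_lit 481) (nat_lit 399) (nat_lit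 320)) (XT.lf (nat_lit 0) (nat_lit 269111421) (nat_lit 228) (nat_lit 6251813078) (nat_lit 304) (nat_lit 10831493048) (nat_lit 74) (nat_lit 5) (nat_lit 77) (nat_lit 5) (nat_lit 78) (nat_lit 5) (nat_lit 482) (nat_lit 399) (nat_lit 319)))))) (XT.nd (nat_lit 56004) (nat_lit 0) (nat_lit 53276) (XT.nd (nat_lit 234) (nat_lit 608) (nat_lit 0) (XT.nd (nat_lit 78) (nat_lit 532) (nat_lit 0) (XT.lf (nat_lit 0) (nat_lit 14372735959) (nat_lit 304) (nat_lit 304943872) (nat_lit 76) (nat_lit 3000607276) (nat_lit 74) (nat_lit 5) (nat_lit 78) (nat_lit 5) (nat_lit 75) (nat_lit 5) (nat_lit 483) (nat_lit 399) (nat_lit 318)) (XT.nd (nat_lit 78) (nat_lit 228) (nat_lit 0) (XT.lf (nat_lit 0) (nat_lit 4496654650) (nat_lit 304) (nat_lit 960700109) (nat_lit 76) (nat_lit 12553826009) (nat_lit 70) (nat_lit 5) (nat_lit 74) (nat_lit 5) (nat_lit 71) (nat_lit 5) (nat_lit 484) (nat_lit 399) (nat_lit 317)) (XT.lf (nat_lit 0) (nat_lit 12581526206)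 (nat_lit 304) (nat_lit 1683245993) (nat_lit 76) (nat_lit 4086983148) (nat_lit 67) (nat_lit 5) (nat_lit 71) (nat_lit 5) (nat_lit 68) (nat_lit 5) (nat_lit 485) (nat_lit 399) (nat_lit 316)))) (XT.nd (nat_lit 78) (nat_lit 380) (nat_lit 0) (XT.lf (nat_lit 0) (nat_lit 2283079736) (nat_lit 228) (nat_lit 2478764749) (nat_lit 76) (nat_lit 13938304985) (nat_lit 64) (nat_lit 5) (nat_lit 67) (nat_lit 5) (nat_lit 65) (nat_lit 5) (nat_lit 486) (nat_lit 399) (nat_lit 315)) (XT.nd (nat_lit 78) (nat_lit 152) (nat_lit 0) (XT.lf (nat_lit 0) (nat_lit 10603951548) (nat_lit 304) (nat_lit 3371678784) (nat_lit 76) (nat_lit 5080516279) (nat_lit 61) (nat_lit 5) (nat_lit 65) (nat_lit 5) (nat_lit 62) (nat_lit 5) (nat_lit 487) (nat_lit 399) (nat_lit 314)) (XT.lf (nat_lit 0) (nat_lit 15094298156) (nat_lit 152) (nat_lit 4184409330) (nat_lit 228) (nat_lit 142032173) (nat_lit 59) (nat_lit 5) (nat_lit 61) (nat_lit 5) (nat_lit 62) (nat_lit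 5) (nat_lit 488) (nat_lit 399) (nat_lit 313))))) (XT.nd (nat_lit 234) (nat_lit 912) (nat_lit 0) (XT.nd (nat_lit 78) (nat_lit 228) (nat_lit 0) (XT.lf (nat_lit 0) (nat_lit 1073741823) (nat_lit 0) (nat_lit 0) (nat_lit 0) (nat_lit 0) (nat_lit 775) (nat_lit 0) (nat_lit 1) (nat_lit 0) (nat_lit 1) (nat_lit 0) (nat_lit 400) (nat_lit 400) (nat_lit 400)) (XT.nd (nat_lit 78) (nat_lit 152) (nat_lit 0) (XT.lf (nat_lit 0) (nat_lit 4726777026) (nat_lit 76) (nat_lit 1639030381) (nat_lit 0) (nat_lit 77891916) (nat_lit 774) (nat_lit 5) (nat_lit 775) (nat_lit 0) (nat_lit 774) (nat_lit 4) (nat_lit 401) (nat_lit 400) (nat_lit 399)) (XT.lf (nat_lit 0) (nat_lit 2945221150) (nat_lit 152) (nat_lit 3213019076) (nat_lit 76) (nat_lit 289645141) (nat_lit 772) (nat_lit 5) (nat_lit 774) (nat_lit 5) (nat_lit 773) (nat_lit 4) (nat_lit 402) (nat_lit 400) (nat_lit 398)))) (XT.nd (nat_lit 156) (nat_lit 456) (nat_lit 0) (XT.nd (nat_lit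 78) (nat_lit 228) (nat_lit 0) (XT.lf (nat_lit 0) (nat_lit 1096447010) (nat_lit 228) (nat_lit 4723083174) (nat_lit 76) (nat_lit 635481808) (nat_lit 769) (nat_lit 5) (nat_lit 772) (nat_lit 5) (nat_lit 770) (nat_lit 5) (nat_lit 403) (nat_lit 400) (nat_lit 397)) (XT.lf (nat_lit 0) (nat_lit 289304608) (nat_lit 228) (nat_lit 5343808144) (nat_lit 304) (nat_lit 831863393) (nat_lit 766) (nat_lit 5) (nat_lit 769) (nat_lit 5) (nat_lit 770) (nat_lit 5) (nat_lit 404) (nat_lit 400) (nat_lit 396))) (XT.nd (nat_lit 78) (nat_lit 380) (nat_lit 0) (XT.lf (nat_lit 0) (nat_lit 3639073813) (nat_lit 304) (nat_lit 1081919564) (nat_lit 76) (nat_lit 1756603645) (nat_lit 765) (nat_lit 5) (nat_lit 769) (nat_lit 5) (nat_lit 766) (nat_lit 5) (nat_lit 405) (nat_lit 400) (nat_lit 395)) (XT.lf (nat_lit 0) (nat_lit 1576840158) (nat_lit 380) (nat_lit 2386714697) (nat_lit 76) (nat_lit 2529585958) (nat_lit 760) (nat_lit 5) (nat_lit 765)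 (nat_lit 5) (nat_lit 761) (nat_lit 5) (nat_lit 406) (nat_lit 400) (nat_lit 394))))))))
noncomputable def xc39 : XT := (XT.nd (nat_lit 1950) (nat_lit 17252) (nat_lit 0) (XT.nd (nat_lit 936) (nat_lit 18240) (nat_lit 0) (XT.nd (nat_lit 468) (nat_lit 4788) (nat_lit 0) (XT.nd (nat_lit 234) (nat_lit 1444) (nat_lit 0) (XT.nd (nat_lit 78) (nat_lit 1140) (nat_lit 0) (XT.lf (nat_lit 0) (nat_lit 2878210141) (nat_lit 380) (nat_lit 3068868343) (nat_lit 456) (nat_lit 564504135) (nat_lit 755) (nat_lit 5) (nat_lit 760) (nat_lit 5) (nat_lit 761) (nat_lit 5) (nat_lit 407) (nat_lit 400) (nat_lit 393)) (XT.nd (nat_lit 78) (nat_lit 608) (nat_lit 0) (XT.lf (nat_lit 0) (nat_lit 1702942361) (nat_lit 456) (nat_lit 2028653492) (nat_lit 532) (nat_lit 2801195673) (nat_lit 748) (nat_lit 5) (nat_lit 754) (nat_lit 5) (nat_lit 755) (nat_lit 5) (nat_lit 408) (nat_lit 400) (nat_lit 392)) (XT.lf (nat_lit 0) (nat_lit 590510264) (nat_lit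 532) (nat_lit 852391228) (nat_lit 608) (nat_lit 5114088294) (nat_lit 740) (nat_lit 5) (nat_lit 747) (nat_lit 5) (nat_lit 748) (nat_lit 5) (nat_lit 409) (nat_lit 400) (nat_lit 391)))) (XT.nd (nat_lit 78) (nat_lit 1444) (nat_lit 0) (XT.lf (nat_lit 0) (nat_lit 5656978618) (nat_lit 608) (nat_lit 462774841) (nat_lit 76) (nat_lit 464199262) (nat_lit 740) (nat_lit 5) (nat_lit 748) (nat_lit 5) (nat_lit 741) (nat_lit 5) (nat_lit 410) (nat_lit 400) (nat_lit 390)) (XT.nd (nat_lit 78) (nat_lit 760) (nat_lit 0) (XT.lf (nat_lit 0) (nat_lit 3229595076) (nat_lit 684) (nat_lit 1463970598) (nat_lit 76) (nat_lit 1919976500) (nat_lit 731) (nat_lit 5) (nat_lit 740) (nat_lit 5) (nat_lit 732) (nat_lit 5) (nat_lit 411) (nat_lit 400) (nat_lit 389)) (XT.lf (nat_lit 0) (nat_lit 725653711) (nat_lit 760) (nat_lit 2406237101) (nat_lit 76) (nat_lit 3514266382) (nat_lit 721) (nat_lit 5) (nat_lit 731) (nat_lit 5) (nat_lit 722) (nat_lit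 5) (nat_lit 412) (nat_lit 400) (nat_lit 388))))) (XT.nd (nat_lit 234) (nat_lit 2204) (nat_lit 0) (XT.nd (nat_lit 78) (nat_lit 1824) (nat_lit 0) (XT.lf (nat_lit 0) (nat_lit 3379345473) (nat_lit 760) (nat_lit 1420607081) (nat_lit 836) (nat_lit 1881623584) (nat_lit 711) (nat_lit 5) (nat_lit 721) (nat_lit 5) (nat_lit 722) (nat_lit 5) (nat_lit 413) (nat_lit 400) (nat_lit 387)) (XT.nd (nat_lit 78) (nat_lit 912) (nat_lit 0) (XT.lf (nat_lit 0) (nat_lit 2142328764) (nat_lit 912) (nat_lit 4148238849) (nat_lit 76) (nat_lit 429337950) (nat_lit 699) (nat_lit 5) (nat_lit 711) (nat_lit 5) (nat_lit 700) (nat_lit 5) (nat_lit 414) (nat_lit 400) (nat_lit 386)) (XT.lf (nat_lit 0) (nat_lit 1810059029) (nat_lit 912) (nat_lit 4356923096) (nat_lit 988) (nat_lit 594062033) (nat_lit 687) (nat_lit 5) (nat_lit 699) (nat_lit 5) (nat_lit 700) (nat_lit 5) (nat_lit 415) (nat_lit 400) (nat_lit 385)))) (XT.nd (nat_lit 78) (nat_lit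 1140) (nat_lit 0) (XT.lf (nat_lit 0) (nat_lit 1092691547) (nat_lit 988) (nat_lit 2269742351) (nat_lit 1064) (nat_lit 3442555488) (nat_lit 673) (nat_lit 5) (nat_lit 686) (nat_lit 5) (nat_lit 687) (nat_lit 5) (nat_lit 416) (nat_lit 400) (nat_lit 384)) (XT.nd (nat_lit 78) (nat_lit 0) (nat_lit 0) (XT.lf (nat_lit 0) (nat_lit 433747573) (nat_lit 1064) (nat_lit 41172769) (nat_lit 1140) (nat_lit 6377133249) (nat_lit 658) (nat_lit 5) (nat_lit 672) (nat_lit 5) (nat_lit 673) (nat_lit 5) (nat_lit 417) (nat_lit 400) (nat_lit 383)) (XT.lf (nat_lit 0) (nat_lit 4387005916) (nat_lit 1140) (nat_lit 196389777) (nat_lit 76) (nat_lit 2318218477) (nat_lit 658) (nat_lit 5) (nat_lit 673) (nat_lit 5) (nat_lit 659) (nat_lit 5) (nat_lit 418) (nat_lit 400) (nat_lit 382)))))) (XT.nd (nat_lit 468) (nat_lit 10032) (nat_lit 0) (XT.nd (nat_lit 234) (nat_lit 4408) (nat_lit 0) (XT.nd (nat_lit 78) (nat_lit 2584) (nat_lit 0) (XT.lf (nat_lit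 0) (nat_lit 1358284006) (nat_lit 1216) (nat_lit 768311844) (nat_lit 76) (nat_lit 4827617730) (nat_lit 642) (nat_lit 5) (nat_lit 658) (nat_lit 5) (nat_lit 643) (nat_lit 5) (nat_lit 419) (nat_lit 400) (nat_lit 381)) (XT.nd (nat_lit 78) (nat_lit 1368) (nat_lit 0) (XT.lf (nat_lit 0) (nat_lit 5230981870) (nat_lit 1292) (nat_lit 1299049856) (nat_lit 76) (nat_lit 479686580) (nat_lit 626) (nat_lit 5) (nat_lit 643) (nat_lit 5) (nat_lit 627) (nat_lit 5) (nat_lit 420) (nat_lit 400) (nat_lit 380)) (XT.lf (nat_lit 0) (nat_lit 2057180461) (nat_lit 1368) (nat_lit 1798201631) (nat_lit 76) (nat_lit 3212592292) (nat_lit 608) (nat_lit 5) (nat_lit 626) (nat_lit 5) (nat_lit 609) (nat_lit 5) (nat_lit 421) (nat_lit 400) (nat_lit 379)))) (XT.nd (nat_lit 78) (nat_lit 3040) (nat_lit 0) (XT.lf (nat_lit 0) (nat_lit 4878472574) (nat_lit 1368) (nat_lit 1027437200) (nat_lit 1444) (nat_lit 1223409449) (nat_lit 590) (nat_lit 5) (nat_lit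 608) (nat_lit 5) (nat_lit 609) (nat_lit 5) (nat_lit 422) (nat_lit 400) (nat_lit 378)) (XT.nd (nat_lit 78) (nat_lit 1520) (nat_lit 0) (XT.lf (nat_lit 0) (nat_lit 2580179311) (nat_lit 1520) (nat_lit 2675813789) (nat_lit 76) (nat_lit 1937423174) (nat_lit 570) (nat_lit 5) (nat_lit 590) (nat_lit 5) (nat_lit 571) (nat_lit 5) (nat_lit 423) (nat_lit 400) (nat_lit 377)) (XT.lf (nat_lit 0) (nat_lit 4200783063) (nat_lit 1520) (nat_lit 2216210011) (nat_lit 1596) (nat_lit 843579819) (nat_lit 550) (nat_lit 5) (nat_lit 570) (nat_lit 5) (nat_lit 571) (nat_lit 5) (nat_lit 424) (nat_lit 400) (nat_lit 376))))) (XT.nd (nat_lit 234) (nat_lit 4864) (nat_lit 0) (XT.nd (nat_lit 78) (nat_lit 3496) (nat_lit 0) (XT.lf (nat_lit 0) (nat_lit 2937541095) (nat_lit 1672) (nat_lit 3414466479) (nat_lit 76) (nat_lit 978589854) (nat_lit 528) (nat_lit 5) (nat_lit 550) (nat_lit 5) (nat_lit 529) (nat_lit 5) (nat_lit 425) (nat_lit 400) (nat_lit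 375)) (XT.nd (nat_lit 78) (nat_lit 1824) (nat_lit 0) (XT.lf (nat_lit 0) (nat_lit 3667939634) (nat_lit 1672) (nat_lit 3103035953) (nat_lit 1748) (nat_lit 632640943) (nat_lit 506) (nat_lit 5) (nat_lit 528) (nat_lit 5) (nat_lit 529) (nat_lit 5) (nat_lit 426) (nat_lit 400) (nat_lit 374)) (XT.lf (nat_lit 0) (nat_lit 3138468105) (nat_lit 1824) (nat_lit 4026686926) (nat_lit 76) (nat_lit 314454307) (nat_lit 482) (nat_lit 5) (nat_lit 506) (nat_lit 5) (nat_lit 483) (nat_lit 5) (nat_lit 427) (nat_lit 400) (nat_lit 373)))) (XT.nd (nat_lit 156) (nat_lit 1900) (nat_lit 0) (XT.nd (nat_lit 78) (nat_lit 1140) (nat_lit 0) (XT.lf (nat_lit 0) (nat_lit 3267843942) (nat_lit 1824) (nat_lit 3708889351) (nat_lit 1900) (nat_lit 581823888) (nat_lit 458) (nat_lit 5) (nat_lit 482) (nat_lit 5) (nat_lit 483) (nat_lit 5) (nat_lit 428) (nat_lit 400) (nat_lit 372)) (XT.lf (nat_lit 0) (nat_lit 3115772038) (nat_lit 1064) (nat_lit 75885252)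 (nat_lit 1140) (nat_lit 4448908881) (nat_lit 443) (nat_lit 5) (nat_lit 457) (nat_lit 5) (nat_lit 458) (nat_lit 5) (nat_lit 429) (nat_lit 400) (nat_lit 371))) (XT.nd (nat_lit 78) (nat_lit 988) (nat_lit 0) (XT.lf (nat_lit 0) (nat_lit 2989089378) (nat_lit 912) (nat_lit 4053086601) (nat_lit 988) (nat_lit 683358168) (nat_lit 431) (nat_lit 5) (nat_lit 443) (nat_lit 5) (nat_lit 444) (nat_lit 5) (nat_lit 430) (nat_lit 400) (nat_lit 370)) (XT.lf (nat_lit 0) (nat_lit 2893737394) (nat_lit 912) (nat_lit 210520002) (nat_lit 988) (nat_lit 4709368684) (nat_lit 418) (nat_lit 5) (nat_lit 430) (nat_lit 5) (nat_lit 431) (nat_lit 5) (nat_lit 431) (nat_lit 400) (nat_lit 369))))))) (XT.nd (nat_lit 1014) (nat_lit 7220) (nat_lit 0) (XT.nd (nat_lit 468) (nat_lit 4940) (nat_lit 0) (XT.nd (nat_lit 234) (nat_lit 2508) (nat_lit 0) (XT.nd (nat_lit 78) (nat_lit 1748) (nat_lit 0) (XT.lf (nat_lit 0) (nat_lit 2820875334) (nat_lit 836)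 (nat_lit 4153423096) (nat_lit 912) (nat_lit 930419981) (nat_lit 407) (nat_lit 5) (nat_lit 418) (nat_lit 5) (nat_lit 419) (nat_lit 5) (nat_lit 432) (nat_lit 400) (nat_lit 368)) (XT.nd (nat_lit 78) (nat_lit 836) (nat_lit 0) (XT.lf (nat_lit 0) (nat_lit 2778322002) (nat_lit 836) (nat_lit 102351966) (nat_lit 912) (nat_lit 5118341616) (nat_lit 395) (nat_lit 5) (nat_lit 406) (nat_lit 5) (nat_lit 407) (nat_lit 5) (nat_lit 433) (nat_lit 400) (nat_lit 367)) (XT.lf (nat_lit 0) (nat_lit 2752924264) (nat_lit 836) (nat_lit 4026301392) (nat_lit 912) (nat_lit 1317086575) (nat_lit 384) (nat_lit 5) (nat_lit 395) (nat_lit 5) (nat_lit 396) (nat_lit 5) (nat_lit 434) (nat_lit 400) (nat_lit 366)))) (XT.nd (nat_lit 78) (nat_lit 1596) (nat_lit 0) (XT.lf (nat_lit 0) (nat_lit 2528029864) (nat_lit 912) (nat_lit 5439054076) (nat_lit 76) (nat_lit 229836903) (nat_lit 372) (nat_lit 5) (nat_lit 384) (nat_lit 5) (nat_lit 373) (nat_lit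 5) (nat_lit 435) (nat_lit 400) (nat_lit 365)) (XT.nd (nat_lit 78) (nat_lit 836) (nat_lit 0) (XT.lf (nat_lit 0) (nat_lit 2775400948) (nat_lit 760) (nat_lit 3686851439) (nat_lit 836) (nat_lit 1838296475) (nat_lit 362) (nat_lit 5) (nat_lit 372) (nat_lit 5) (nat_lit 373) (nat_lit 5) (nat_lit 436) (nat_lit 400) (nat_lit 364)) (XT.lf (nat_lit 0) (nat_lit 2051641943) (nat_lit 836) (nat_lit 5585457582) (nat_lit 76) (nat_lit 770479119) (nat_lit 351) (nat_lit 5) (nat_lit 362) (nat_lit 5) (nat_lit 352) (nat_lit 5) (nat_lit 437) (nat_lit 400) (nat_lit 363))))) (XT.nd (nat_lit 234) (nat_lit 2736) (nat_lit 0) (XT.nd (nat_lit 78) (nat_lit 1520) (nat_lit 0) (XT.lf (nat_lit 0) (nat_lit 2878833326) (nat_lit 684) (nat_lit 3149043712) (nat_lit 760) (nat_lit 2489815360) (nat_lit 342) (nat_lit 5) (nat_lit 351) (nat_lit 5) (nat_lit 352) (nat_lit 5) (nat_lit 438) (nat_lit 400) (nat_lit 362)) (XT.nd (nat_lit 78) (nat_lit 684)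 (nat_lit 0) (XT.lf (nat_lit 0) (nat_lit 1454747932) (nat_lit 836) (nat_lit 5668808039) (nat_lit 76) (nat_lit 1507726428) (nat_lit 331) (nat_lit 5) (nat_lit 342) (nat_lit 5) (nat_lit 332) (nat_lit 5) (nat_lit 439) (nat_lit 400) (nat_lit 361)) (XT.lf (nat_lit 0) (nat_lit 3054034333) (nat_lit 684) (nat_lit 2425795996) (nat_lit 760) (nat_lit 3268207438) (nat_lit 322) (nat_lit 5) (nat_lit 331) (nat_lit 5) (nat_lit 332) (nat_lit 5) (nat_lit 440) (nat_lit 400) (nat_lit 360)))) (XT.nd (nat_lit 156) (nat_lit 1368) (nat_lit 0) (XT.nd (nat_lit 78) (nat_lit 608) (nat_lit 0) (XT.lf (nat_lit 0) (nat_lit 740487730) (nat_lit 760) (nat_lit 5698459462) (nat_lit 76) (nat_lit 2429395896) (nat_lit 312) (nat_lit 5) (nat_lit 322) (nat_lit 5) (nat_lit 313) (nat_lit 5) (nat_lit 441) (nat_lit 400) (nat_lit 359)) (XT.lf (nat_lit 0) (nat_lit 3292024096) (nat_lit 608) (nat_lit 1529074583) (nat_lit 684) (nat_lit 4170812162) (nat_lit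 304) (nat_lit 5) (nat_lit 312) (nat_lit 5) (nat_lit 313) (nat_lit 5) (nat_lit 442) (nat_lit 400) (nat_lit 358))) (XT.nd (nat_lit 78) (nat_lit 684) (nat_lit 0) (XT.lf (nat_lit 0) (nat_lit 3434878060) (nat_lit 684) (nat_lit 5594292814) (nat_lit 760) (nat_lit 89920176) (nat_lit 295) (nat_lit 5) (nat_lit 304) (nat_lit 5) (nat_lit 305) (nat_lit 5) (nat_lit 443) (nat_lit 400) (nat_lit 357)) (XT.lf (nat_lit 0) (nat_lit 3583951895) (nat_lit 608) (nat_lit 469990574) (nat_lit 684) (nat_lit 5195726200) (nat_lit 286) (nat_lit 5) (nat_lit 294) (nat_lit 5) (nat_lit 295) (nat_lit 5) (nat_lit 444) (nat_lit 400) (nat_lit 356)))))) (XT.nd (nat_lit 468) (nat_lit 3572) (nat_lit 0) (XT.nd (nat_lit 234) (nat_lit 1748) (nat_lit 0) (XT.nd (nat_lit 78) (nat_lit 1292) (nat_lit 0) (XT.lf (nat_lit 0) (nat_lit 3743538105) (nat_lit 608) (nat_lit 4595288931) (nat_lit 684) (nat_lit 1044971944) (nat_lit 278) (nat_lit 5) (nat_lit 286)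 (nat_lit 5) (nat_lit 287) (nat_lit 5) (nat_lit 445) (nat_lit 400) (nat_lit 355)) (XT.nd (nat_lit 78) (nat_lit 608) (nat_lit 0) (XT.lf (nat_lit 0) (nat_lit 3184721000) (nat_lit 684) (nat_lit 5605494379) (nat_lit 76) (nat_lit 731388241) (nat_lit 269) (nat_lit 5) (nat_lit 278) (nat_lit 5) (nat_lit 270) (nat_lit 5) (nat_lit 446) (nat_lit 400) (nat_lit 354)) (XT.lf (nat_lit 0) (nat_lit 4092063782) (nat_lit 608) (nat_lit 3457045630) (nat_lit 684) (nat_lit 2113860171) (nat_lit 261) (nat_lit 5) (nat_lit 269) (nat_lit 5) (nat_lit 270) (nat_lit 5) (nat_lit 447) (nat_lit 400) (nat_lit 353)))) (XT.nd (nat_lit 78) (nat_lit 1140) (nat_lit 0) (XT.lf (nat_lit 0) (nat_lit 2213440993) (nat_lit 608) (nat_lit 5527634804) (nat_lit 76) (nat_lit 2067077269) (nat_lit 253) (nat_lit 5) (nat_lit 261) (nat_lit 5) (nat_lit 254) (nat_lit 5) (nat_lit 448) (nat_lit 400) (nat_lit 352)) (XT.nd (nat_lit 78) (nat_lit 608) (nat_lit 0)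 (XT.lf (nat_lit 0) (nat_lit 4471610342) (nat_lit 532) (nat_lit 2189090592) (nat_lit 608) (nat_lit 3296339448) (nat_lit 246) (nat_lit 5) (nat_lit 253) (nat_lit 5) (nat_lit 254) (nat_lit 5) (nat_lit 449) (nat_lit 400) (nat_lit 351)) (XT.lf (nat_lit 0) (nat_lit 1137133136) (nat_lit 608) (nat_lit 5438424464) (nat_lit 76) (nat_lit 3534274939) (nat_lit 238) (nat_lit 5) (nat_lit 246) (nat_lit 5) (nat_lit 239) (nat_lit 5) (nat_lit 450) (nat_lit 400) (nat_lit 350))))) (XT.nd (nat_lit 234) (nat_lit 1976) (nat_lit 0) (XT.nd (nat_lit 78) (nat_lit 1064) (nat_lit 0) (XT.lf (nat_lit 0) (nat_lit 4873173587) (nat_lit 532) (nat_lit 800422463) (nat_lit 608) (nat_lit 4592885805) (nat_lit 231) (nat_lit 5) (nat_lit 238) (nat_lit 5) (nat_lit 239) (nat_lit 5) (nat_lit 451) (nat_lit 400) (nat_lit 349)) (XT.nd (nat_lit 78) (nat_lit 608) (nat_lit 0) (XT.lf (nat_lit 0) (nat_lit 5079392719) (nat_lit 456) (nat_lit 5302314778) (nat_lit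 532) (nat_lit 45416509) (nat_lit 225) (nat_lit 5) (nat_lit 231) (nat_lit 5) (nat_lit 232) (nat_lit 5) (nat_lit 452) (nat_lit 400) (nat_lit 348)) (XT.lf (nat_lit 0) (nat_lit 4591643642) (nat_lit 608) (nat_lit 5308842948) (nat_lit 76) (nat_lit 691220719) (nat_lit 217) (nat_lit 5) (nat_lit 225) (nat_lit 5) (nat_lit 218) (nat_lit 5) (nat_lit 453) (nat_lit 400) (nat_lit 347)))) (XT.nd (nat_lit 156) (nat_lit 988) (nat_lit 0) (XT.nd (nat_lit 78) (nat_lit 532) (nat_lit 0) (XT.lf (nat_lit 0) (nat_lit 5487048690) (nat_lit 456) (nat_lit 3921870668) (nat_lit 532) (nat_lit 1351472444) (nat_lit 211) (nat_lit 5) (nat_lit 217) (nat_lit 5) (nat_lit 218) (nat_lit 5) (nat_lit 454) (nat_lit 400) (nat_lit 346)) (XT.lf (nat_lit 0) (nat_lit 3414766594) (nat_lit 532) (nat_lit 5243485858) (nat_lit 76) (nat_lit 2274976811) (nat_lit 204) (nat_lit 5) (nat_lit 211) (nat_lit 5) (nat_lit 205) (nat_lit 5) (nat_lit 455) (nat_lit 400)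 (nat_lit 345))) (XT.nd (nat_lit 78) (nat_lit 532) (nat_lit 0) (XT.lf (nat_lit 0) (nat_lit 5892233696) (nat_lit 456) (nat_lit 2450110817) (nat_lit 532) (nat_lit 2767998211) (nat_lit 198) (nat_lit 5) (nat_lit 204) (nat_lit 5) (nat_lit 205) (nat_lit 5) (nat_lit 456) (nat_lit 400) (nat_lit 344)) (XT.lf (nat_lit 0) (nat_lit 2135596932) (nat_lit 532) (nat_lit 5202585670) (nat_lit 76) (nat_lit 3953544943) (nat_lit 191) (nat_lit 5) (nat_lit 198) (nat_lit 5) (nat_lit 192) (nat_lit 5) (nat_lit 457) (nat_lit 400) (nat_lit 343))))))))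
noncomputable def xc40 : XT := (XT.nd (nat_lit 1950) (nat_lit 1368) (nat_lit 0) (XT.nd (nat_lit 936) (nat_lit 3876) (nat_lit 0) (XT.nd (nat_lit 468) (nat_lit 2280) (nat_lit 0) (XT.nd (nat_lit 234) (nat_lit 1216) (nat_lit 0) (XT.nd (nat_lit 78) (nat_lit 912) (nat_lit 0) (XT.lf (nat_lit 0) (nat_lit 6284687611) (nat_lit 380) (nat_lit 895063206) (nat_lit 456) (nat_lit 4297819530) (nat_lit 186) (nat_lit 5) (nat_lit 191) (nat_lit 5) (nat_lit 192) (nat_lit 5) (nat_lit 458) (nat_lit 400) (nat_lit 342)) (XT.nd (nat_lit 78) (nat_lit 380) (nat_lit 0) (XT.lf (nat_lit 0) (nat_lit 751225664) (nat_lit 532) (nat_lit 5197261804) (nat_lit 76) (nat_lit 5719327654) (nat_lit 179) (nat_lit 5) (nat_lit 186) (nat_lit 5) (nat_lit 180) (nat_lit 5) (nat_lit 459) (nat_lit 400) (nat_lit 341)) (XT.lf (nat_lit 0) (nat_lit 5922943240) (nat_lit 456) (nat_lit 5213922203) (nat_lit 76) (nat_lit 725745040) (nat_lit 174) (nat_lit 5) (nat_lit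 180) (nat_lit 5) (nat_lit 175) (nat_lit 5) (nat_lit 460) (nat_lit 400) (nat_lit 340)))) (XT.nd (nat_lit 78) (nat_lit 836) (nat_lit 0) (XT.lf (nat_lit 0) (nat_lit 6817847198) (nat_lit 380) (nat_lit 4492316051) (nat_lit 456) (nat_lit 751882586) (nat_lit 169) (nat_lit 5) (nat_lit 174) (nat_lit 5) (nat_lit 175) (nat_lit 5) (nat_lit 461) (nat_lit 400) (nat_lit 339)) (XT.nd (nat_lit 78) (nat_lit 380) (nat_lit 0) (XT.lf (nat_lit 0) (nat_lit 4569660405) (nat_lit 456) (nat_lit 5294929437) (nat_lit 76) (nat_lit 2401514306) (nat_lit 163) (nat_lit 5) (nat_lit 169) (nat_lit 5) (nat_lit 164) (nat_lit 5) (nat_lit 462) (nat_lit 400) (nat_lit 338)) (XT.lf (nat_lit 0) (nat_lit 7118289555) (nat_lit 380) (nat_lit 2976975772) (nat_lit 456) (nat_lit 2379829779) (nat_lit 158) (nat_lit 5) (nat_lit 163) (nat_lit 5) (nat_lit 164) (nat_lit 5) (nat_lit 463) (nat_lit 400) (nat_lit 337))))) (XT.nd (nat_lit 234) (nat_lit 1064) (nat_lit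 0) (XT.nd (nat_lit 78) (nat_lit 760) (nat_lit 0) (XT.lf (nat_lit 0) (nat_lit 3109499868) (nat_lit 456) (nat_lit 5443133777) (nat_lit 76) (nat_lit 4136246343) (nat_lit 152) (nat_lit 5) (nat_lit 158) (nat_lit 5) (nat_lit 153) (nat_lit 5) (nat_lit 464) (nat_lit 400) (nat_lit 336)) (XT.nd (nat_lit 78) (nat_lit 380) (nat_lit 0) (XT.lf (nat_lit 0) (nat_lit 7364089509) (nat_lit 380) (nat_lit 1415689253) (nat_lit 456) (nat_lit 4128015694) (nat_lit 147) (nat_lit 5) (nat_lit 152) (nat_lit 5) (nat_lit 153) (nat_lit 5) (nat_lit 465) (nat_lit 400) (nat_lit 335)) (XT.lf (nat_lit 0) (nat_lit 1537023663) (nat_lit 380) (nat_lit 5672571808) (nat_lit 76) (nat_lit 5922097672) (nat_lit 142) (nat_lit 5) (nat_lit 147) (nat_lit 5) (nat_lit 143) (nat_lit 5) (nat_lit 466) (nat_lit 400) (nat_lit 334)))) (XT.nd (nat_lit 78) (nat_lit 684) (nat_lit 0) (XT.lf (nat_lit 0) (nat_lit 7359387681) (nat_lit 456) (nat_lit 5820719645) (nat_lit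 76) (nat_lit 180789087) (nat_lit 137) (nat_lit 5) (nat_lit 143) (nat_lit 5) (nat_lit 138) (nat_lit 5) (nat_lit 467) (nat_lit 400) (nat_lit 333)) (XT.nd (nat_lit 78) (nat_lit 380) (nat_lit 0) (XT.lf (nat_lit 0) (nat_lit 7595891652) (nat_lit 304) (nat_lit 5843279875) (nat_lit 380) (nat_lit 156151689) (nat_lit 133) (nat_lit 5) (nat_lit 137) (nat_lit 5) (nat_lit 138) (nat_lit 5) (nat_lit 468) (nat_lit 400) (nat_lit 332)) (XT.lf (nat_lit 0) (nat_lit 5835868850) (nat_lit 380) (nat_lit 6211890225) (nat_lit 76) (nat_lit 1787300158) (nat_lit 128) (nat_lit 5) (nat_lit 133) (nat_lit 5) (nat_lit 129) (nat_lit 5) (nat_lit 469) (nat_lit 400) (nat_lit 331)))))) (XT.nd (nat_lit 468) (nat_lit 1900) (nat_lit 0) (XT.nd (nat_lit 234) (nat_lit 988) (nat_lit 0) (XT.nd (nat_lit 78) (nat_lit 684) (nat_lit 0) (XT.lf (nat_lit 0) (nat_lit 7630313111) (nat_lit 304) (nat_lit 4452735660) (nat_lit 380) (nat_lit 1997369743) (nat_lit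 124) (nat_lit 5) (nat_lit 128) (nat_lit 5) (nat_lit 129) (nat_lit 5) (nat_lit 470) (nat_lit 400) (nat_lit 330)) (XT.nd (nat_lit 78) (nat_lit 304) (nat_lit 0) (XT.lf (nat_lit 0) (nat_lit 4192588975) (nat_lit 380) (nat_lit 6725194825) (nat_lit 76) (nat_lit 3413554244) (nat_lit 119) (nat_lit 5) (nat_lit 124) (nat_lit 5) (nat_lit 120) (nat_lit 5) (nat_lit 471) (nat_lit 400) (nat_lit 329)) (XT.lf (nat_lit 0) (nat_lit 7555615916) (nat_lit 304) (nat_lit 3057831272) (nat_lit 380) (nat_lit 3974629237) (nat_lit 115) (nat_lit 5) (nat_lit 119) (nat_lit 5) (nat_lit 120) (nat_lit 5) (nat_lit 472) (nat_lit 400) (nat_lit 328)))) (XT.nd (nat_lit 78) (nat_lit 608) (nat_lit 0) (XT.lf (nat_lit 0) (nat_lit 2421063298) (nat_lit 380) (nat_lit 7379353298) (nat_lit 76) (nat_lit 5050238197) (nat_lit 110) (nat_lit 5) (nat_lit 115) (nat_lit 5) (nat_lit 111) (nat_lit 5) (nat_lit 473) (nat_lit 400) (nat_lit 327)) (XT.nd (nat_lit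 78) (nat_lit 380) (nat_lit 0) (XT.lf (nat_lit 0) (nat_lit 7353119265) (nat_lit 228) (nat_lit 1668656113) (nat_lit 304) (nat_lit 6097468624) (nat_lit 107) (nat_lit 5) (nat_lit 110) (nat_lit 5) (nat_lit 111) (nat_lit 5) (nat_lit 474) (nat_lit 400) (nat_lit 326)) (XT.lf (nat_lit 0) (nat_lit 511683722) (nat_lit 380) (nat_lit 8194826374) (nat_lit 76) (nat_lit 6687474773) (nat_lit 102) (nat_lit 5) (nat_lit 107) (nat_lit 5) (nat_lit 103) (nat_lit 5) (nat_lit 475) (nat_lit 400) (nat_lit 325))))) (XT.nd (nat_lit 234) (nat_lit 1064) (nat_lit 0) (XT.nd (nat_lit 78) (nat_lit 608) (nat_lit 0) (XT.lf (nat_lit 0) (nat_lit 7002348380) (nat_lit 228) (nat_lit 295947957) (nat_lit 304) (nat_lit 8376626772) (nat_lit 99) (nat_lit 5) (nat_lit 102) (nat_lit 5) (nat_lit 103) (nat_lit 5) (nat_lit 476) (nat_lit 400) (nat_lit 324)) (XT.nd (nat_lit 78) (nat_lit 304) (nat_lit 0) (XT.lf (nat_lit 0) (nat_lit 6757958858) (nat_lit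 304) (nat_lit 7637275638) (nat_lit 380) (nat_lit 1566922165) (nat_lit 95) (nat_lit 5) (nat_lit 99) (nat_lit 5) (nat_lit 100) (nat_lit 5) (nat_lit 477) (nat_lit 400) (nat_lit 323)) (XT.lf (nat_lit 0) (nat_lit 5438842234) (nat_lit 304) (nat_lit 9782164355) (nat_lit 76) (nat_lit 1035030775) (nat_lit 91) (nat_lit 5) (nat_lit 95) (nat_lit 5) (nat_lit 92) (nat_lit 5) (nat_lit 478) (nat_lit 400) (nat_lit 322)))) (XT.nd (nat_lit 156) (nat_lit 532) (nat_lit 0) (XT.nd (nat_lit 78) (nat_lit 304) (nat_lit 0) (XT.lf (nat_lit 0) (nat_lit 6130070058) (nat_lit 228) (nat_lit 6611028262) (nat_lit 304) (nat_lit 3815278460) (nat_lit 88) (nat_lit 5) (nat_lit 91) (nat_lit 5) (nat_lit 92) (nat_lit 5) (nat_lit 479) (nat_lit 400) (nat_lit 321)) (XT.lf (nat_lit 0) (nat_lit 3425939339) (nat_lit 304) (nat_lit 11115595883) (nat_lit 76) (nat_lit 2322275750) (nat_lit 84) (nat_lit 5) (nat_lit 88) (nat_lit 5) (nat_lit 85) (nat_lit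 5) (nat_lit 480) (nat_lit 400) (nat_lit 320))) (XT.nd (nat_lit 78) (nat_lit 304) (nat_lit 0) (XT.lf (nat_lit 0) (nat_lit 5292972681) (nat_lit 228) (nat_lit 5644560959) (nat_lit 304) (nat_lit 6240332134) (nat_lit 81) (nat_lit 5) (nat_lit 84) (nat_lit 5) (nat_lit 85) (nat_lit 5) (nat_lit 481) (nat_lit 400) (nat_lit 319)) (XT.lf (nat_lit 0) (nat_lit 1243790108) (nat_lit 304) (nat_lit 12699284270) (nat_lit 76) (nat_lit 3556396048) (nat_lit 77) (nat_lit 5) (nat_lit 81) (nat_lit 5) (nat_lit 78) (nat_lit 5) (nat_lit 482) (nat_lit 400) (nat_lit 318))))))) (XT.nd (nat_lit 56550) (nat_lit 0) (nat_lit 44308) (XT.nd (nat_lit 56082) (nat_lit 0) (nat_lit 53200) (XT.nd (nat_lit 234) (nat_lit 608) (nat_lit 0) (XT.nd (nat_lit 78) (nat_lit 532) (nat_lit 0) (XT.lf (nat_lit 0) (nat_lit 4218066546) (nat_lit 228) (nat_lit 4752370258) (nat_lit 304) (nat_lit 8857407142) (nat_lit 74) (nat_lit 5) (nat_lit 77) (nat_lit 5) (nat_lit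 78) (nat_lit 5) (nat_lit 483) (nat_lit 400) (nat_lit 317)) (XT.nd (nat_lit 78) (nat_lit 304) (nat_lit 0) (XT.lf (nat_lit 0) (nat_lit 3592317629) (nat_lit 228) (nat_lit 13433795646) (nat_lit 304) (nat_lit 1138012097) (nat_lit 71) (nat_lit 5) (nat_lit 74) (nat_lit 5) (nat_lit 75) (nat_lit 5) (nat_lit 484) (nat_lit 400) (nat_lit 316)) (XT.lf (nat_lit 0) (nat_lit 2873805255) (nat_lit 228) (nat_lit 3950249834) (nat_lit 304) (nat_lit 11683547843) (nat_lit 67) (nat_lit 5) (nat_lit 70) (nat_lit 5) (nat_lit 71) (nat_lit 5) (nat_lit 485) (nat_lit 400) (nat_lit 315)))) (XT.nd (nat_lit 78) (nat_lit 456) (nat_lit 0) (XT.lf (nat_lit 0) (nat_lit 2089415828) (nat_lit 152) (nat_lit 13028657987) (nat_lit 228) (nat_lit 3740990756) (nat_lit 65) (nat_lit 5) (nat_lit 67) (nat_lit 5) (nat_lit 68) (nat_lit 5) (nat_lit 486) (nat_lit 400) (nat_lit 314)) (XT.nd (nat_lit 78) (nat_lit 152) (nat_lit 0) (XT.lf (nat_lit 0) (nat_lit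 1225367174) (nat_lit 228) (nat_lit 3255464587) (nat_lit 304) (nat_lit 14737678558) (nat_lit 61) (nat_lit 5) (nat_lit 64) (nat_lit 5) (nat_lit 65) (nat_lit 5) (nat_lit 487) (nat_lit 400) (nat_lit 313)) (XT.lf (nat_lit 0) (nat_lit 263229953) (nat_lit 152) (nat_lit 12754603276) (nat_lit 228) (nat_lit 6568025777) (nat_lit 59) (nat_lit 5) (nat_lit 61) (nat_lit 5) (nat_lit 62) (nat_lit 5) (nat_lit 488) (nat_lit 400) (nat_lit 312))))) (XT.nd (nat_lit 234) (nat_lit 684) (nat_lit 0) (XT.nd (nat_lit 78) (nat_lit 228) (nat_lit 0) (XT.lf (nat_lit 0) (nat_lit 1438317417) (nat_lit 228) (nat_lit 892447132) (nat_lit 228) (nat_lit 892447132) (nat_lit 771) (nat_lit 3) (nat_lit 774) (nat_lit 3) (nat_lit 774) (nat_lit 5) (nat_lit 401) (nat_lit 401) (nat_lit 398)) (XT.nd (nat_lit 78) (nat_lit 0) (nat_lit 0) (XT.lf (nat_lit 0) (nat_lit 959732263) (nat_lit 228) (nat_lit 3427264027) (nat_lit 304) (nat_lit 2065110316) (nat_lit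 768) (nat_lit 5) (nat_lit 771) (nat_lit 3) (nat_lit 772) (nat_lit 5) (nat_lit 402) (nat_lit 401) (nat_lit 397)) (XT.lf (nat_lit 76) (nat_lit 1447763800) (nat_lit 0) (nat_lit 3973899010) (nat_lit 304) (nat_lit 1038955296) (nat_lit 769) (nat_lit 5) (nat_lit 768) (nat_lit 5) (nat_lit 772) (nat_lit 5) (nat_lit 403) (nat_lit 401) (nat_lit 396)))) (XT.nd (nat_lit 78) (nat_lit 380) (nat_lit 0) (XT.lf (nat_lit 0) (nat_lit 3351470438) (nat_lit 304) (nat_lit 69838452) (nat_lit 380) (nat_lit 3050645281) (nat_lit 764) (nat_lit 5) (nat_lit 768) (nat_lit 5) (nat_lit 769) (nat_lit 5) (nat_lit 404) (nat_lit 401) (nat_lit 395)) (XT.nd (nat_lit 78) (nat_lit 0) (nat_lit 0) (XT.lf (nat_lit 0) (nat_lit 1221110158) (nat_lit 380) (nat_lit 1505275809) (nat_lit 456) (nat_lit 3759692524) (nat_lit 759) (nat_lit 5) (nat_lit 764) (nat_lit 5) (nat_lit 765) (nat_lit 5) (nat_lit 405) (nat_lit 401) (nat_lit 394)) (XT.lf (nat_lit 76)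 (nat_lit 3618183297) (nat_lit 0) (nat_lit 1891404744) (nat_lit 456) (nat_lit 993471871) (nat_lit 760) (nat_lit 5) (nat_lit 759) (nat_lit 5) (nat_lit 765) (nat_lit 5) (nat_lit 406) (nat_lit 401) (nat_lit 393)))))) (XT.nd (nat_lit 468) (nat_lit 6004) (nat_lit 0) (XT.nd (nat_lit 234) (nat_lit 1976) (nat_lit 0) (XT.nd (nat_lit 78) (nat_lit 456) (nat_lit 0) (XT.lf (nat_lit 76) (nat_lit 2311343310) (nat_lit 0) (nat_lit 913383792) (nat_lit 532) (nat_lit 3298142013) (nat_lit 754) (nat_lit 5) (nat_lit 753) (nat_lit 5) (nat_lit 760) (nat_lit 5) (nat_lit 407) (nat_lit 401) (nat_lit 392)) (XT.nd (nat_lit 78) (nat_lit 0) (nat_lit 0) (XT.lf (nat_lit 0) (nat_lit 868511130) (nat_lit 532) (nat_lit 5479257428) (nat_lit 76) (nat_lit 197885989) (nat_lit 747) (nat_lit 5) (nat_lit 754) (nat_lit 5) (nat_lit 748) (nat_lit 5) (nat_lit 408) (nat_lit 401) (nat_lit 391)) (XT.lf (nat_lit 0) (nat_lit 4995909747) (nat_lit 532) (nat_lit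 131654647) (nat_lit 76) (nat_lit 1443535370) (nat_lit 747) (nat_lit 5) (nat_lit 754) (nat_lit 5) (nat_lit 748) (nat_lit 5) (nat_lit 409) (nat_lit 401) (nat_lit 390)))) (XT.nd (nat_lit 78) (nat_lit 1368) (nat_lit 0) (XT.lf (nat_lit 0) (nat_lit 2499011615) (nat_lit 608) (nat_lit 1261764024) (nat_lit 76) (nat_lit 2838531966) (nat_lit 739) (nat_lit 5) (nat_lit 747) (nat_lit 5) (nat_lit 740) (nat_lit 5) (nat_lit 410) (nat_lit 401) (nat_lit 389)) (XT.nd (nat_lit 78) (nat_lit 760) (nat_lit 0) (XT.lf (nat_lit 0) (nat_lit 4297329495) (nat_lit 608) (nat_lit 2258385029) (nat_lit 684) (nat_lit 74826962) (nat_lit 731) (nat_lit 5) (nat_lit 739) (nat_lit 5) (nat_lit 740) (nat_lit 5) (nat_lit 411) (nat_lit 401) (nat_lit 388)) (XT.lf (nat_lit 0) (nat_lit 3301531987) (nat_lit 684) (nat_lit 601998985) (nat_lit 760) (nat_lit 2760962806) (nat_lit 721) (nat_lit 5) (nat_lit 730) (nat_lit 5) (nat_lit 731) (nat_lit 5) (nat_lit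 412) (nat_lit 401) (nat_lit 387))))) (XT.nd (nat_lit 234) (nat_lit 3344) (nat_lit 0) (XT.nd (nat_lit 78) (nat_lit 1824) (nat_lit 0) (XT.lf (nat_lit 0) (nat_lit 1180880117) (nat_lit 836) (nat_lit 4342763638) (nat_lit 76) (nat_lit 1177718184) (nat_lit 710) (nat_lit 5) (nat_lit 721) (nat_lit 5) (nat_lit 711) (nat_lit 5) (nat_lit 413) (nat_lit 401) (nat_lit 386)) (XT.nd (nat_lit 78) (nat_lit 988) (nat_lit 0) (XT.lf (nat_lit 0) (nat_lit 1460306327) (nat_lit 836) (nat_lit 3641796737) (nat_lit 912) (nat_lit 1638914339) (nat_lit 699) (nat_lit 5) (nat_lit 710) (nat_lit 5) (nat_lit 711) (nat_lit 5) (nat_lit 414) (nat_lit 401) (nat_lit 385)) (XT.lf (nat_lit 0) (nat_lit 612725061) (nat_lit 912) (nat_lit 1613513843) (nat_lit 988) (nat_lit 4557373767) (nat_lit 686) (nat_lit 5) (nat_lit 698) (nat_lit 5) (nat_lit 699) (nat_lit 5) (nat_lit 415) (nat_lit 401) (nat_lit 384)))) (XT.nd (nat_lit 156) (nat_lit 2280) (nat_lit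 0) (XT.nd (nat_lit 78) (nat_lit 1064) (nat_lit 0) (XT.lf (nat_lit 0) (nat_lit 6092380028) (nat_lit 988) (nat_lit 182607327) (nat_lit 76) (nat_lit 554153309) (nat_lit 686) (nat_lit 5) (nat_lit 699) (nat_lit 5) (nat_lit 687) (nat_lit 5) (nat_lit 416) (nat_lit 401) (nat_lit 383)) (XT.lf (nat_lit 0) (nat_lit 3077369868) (nat_lit 1064) (nat_lit 939169300) (nat_lit 76) (nat_lit 2860679727) (nat_lit 672) (nat_lit 5) (nat_lit 686) (nat_lit 5) (nat_lit 673) (nat_lit 5) (nat_lit 417) (nat_lit 401) (nat_lit 382))) (XT.nd (nat_lit 78) (nat_lit 1216) (nat_lit 0) (XT.lf (nat_lit 0) (nat_lit 5288390487) (nat_lit 1064) (nat_lit 1617356033) (nat_lit 1140) (nat_lit 22715112) (nat_lit 658) (nat_lit 5) (nat_lit 672) (nat_lit 5) (nat_lit 673) (nat_lit 5) (nat_lit 418) (nat_lit 401) (nat_lit 381)) (XT.lf (nat_lit 0) (nat_lit 3736347054) (nat_lit 1216) (nat_lit 2312211869) (nat_lit 76) (nat_lit 933809101) (nat_lit 642) (nat_lit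 5) (nat_lit 658) (nat_lit 5) (nat_lit 643) (nat_lit 5) (nat_lit 419) (nat_lit 401) (nat_lit 380))))))))
noncomputable def xc41 : XT := (XT.nd (nat_lit 1950) (nat_lit 12616) (nat_lit 0) (XT.nd (nat_lit 936) (nat_lit 9424) (nat_lit 0) (XT.nd (nat_lit 468) (nat_lit 8360) (nat_lit 0) (XT.nd (nat_lit 234) (nat_lit 4636) (nat_lit 0) (XT.nd (nat_lit 78) (nat_lit 2736) (nat_lit 0) (XT.lf (nat_lit 0) (nat_lit 490261308) (nat_lit 1292) (nat_lit 2940689744) (nat_lit 76) (nat_lit 3608323154) (nat_lit 625) (nat_lit 5) (nat_lit 642) (nat_lit 5) (nat_lit 626) (nat_lit 5) (nat_lit 420) (nat_lit 401) (nat_lit 379)) (XT.nd (nat_lit 78) (nat_lit 1444) (nat_lit 0) (XT.lf (nat_lit 0) (nat_lit 3565338367) (nat_lit 1292) (nat_lit 650075875) (nat_lit 1368) (nat_lit 2883640796) (nat_lit 608) (nat_lit 5) (nat_lit 625) (nat_lit 5) (nat_lit 626) (nat_lit 5) (nat_lit 421) (nat_lit 401) (nat_lit 378)) (XT.lf (nat_lit 0) (nat_lit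 818675309) (nat_lit 1444) (nat_lit 4091149007) (nat_lit 76) (nat_lit 2251929198) (nat_lit 589) (nat_lit 5) (nat_lit 608) (nat_lit 5) (nat_lit 590) (nat_lit 5) (nat_lit 422) (nat_lit 401) (nat_lit 377)))) (XT.nd (nat_lit 78) (nat_lit 3192) (nat_lit 0) (XT.lf (nat_lit 0) (nat_lit 2609745417) (nat_lit 1444) (nat_lit 1915429118) (nat_lit 1520) (nat_lit 2702144537) (nat_lit 570) (nat_lit 5) (nat_lit 589) (nat_lit 5) (nat_lit 590) (nat_lit 5) (nat_lit 423) (nat_lit 401) (nat_lit 376)) (XT.nd (nat_lit 78) (nat_lit 1596) (nat_lit 0) (XT.lf (nat_lit 0) (nat_lit 973080547) (nat_lit 1596) (nat_lit 5105095499) (nat_lit 76) (nat_lit 1217775826) (nat_lit 549) (nat_lit 5) (nat_lit 570) (nat_lit 5) (nat_lit 550) (nat_lit 5) (nat_lit 424) (nat_lit 401) (nat_lit 375)) (XT.lf (nat_lit 0) (nat_lit 1796286616) (nat_lit 1596) (nat_lit 2873077015) (nat_lit 1672) (nat_lit 2697984713) (nat_lit 528) (nat_lit 5) (nat_lit 549)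 (nat_lit 5) (nat_lit 550) (nat_lit 5) (nat_lit 425) (nat_lit 401) (nat_lit 374))))) (XT.nd (nat_lit 234) (nat_lit 2964) (nat_lit 0) (XT.nd (nat_lit 78) (nat_lit 3648) (nat_lit 0) (XT.lf (nat_lit 0) (nat_lit 962649469) (nat_lit 1748) (nat_lit 5995515862) (nat_lit 76) (nat_lit 483786802) (nat_lit 505) (nat_lit 5) (nat_lit 528) (nat_lit 5) (nat_lit 506) (nat_lit 5) (nat_lit 426) (nat_lit 401) (nat_lit 373)) (XT.nd (nat_lit 78) (nat_lit 1900) (nat_lit 0) (XT.lf (nat_lit 0) (nat_lit 1112401955) (nat_lit 1748) (nat_lit 3544410546) (nat_lit 1824) (nat_lit 2862428805) (nat_lit 482) (nat_lit 5) (nat_lit 505) (nat_lit 5) (nat_lit 506) (nat_lit 5) (nat_lit 427) (nat_lit 401) (nat_lit 372)) (XT.lf (nat_lit 0) (nat_lit 795532871) (nat_lit 1900) (nat_lit 6774680367) (nat_lit 76) (nat_lit 29656574) (nat_lit 457) (nat_lit 5) (nat_lit 482) (nat_lit 5) (nat_lit 458) (nat_lit 5) (nat_lit 428) (nat_lit 401) (nat_lit 371))))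 (XT.nd (nat_lit 78) (nat_lit 1900) (nat_lit 0) (XT.lf (nat_lit 0) (nat_lit 546238346) (nat_lit 1064) (nat_lit 3949124435) (nat_lit 1140) (nat_lit 3187765998) (nat_lit 443) (nat_lit 5) (nat_lit 457) (nat_lit 5) (nat_lit 458) (nat_lit 5) (nat_lit 429) (nat_lit 401) (nat_lit 370)) (XT.nd (nat_lit 78) (nat_lit 912) (nat_lit 0) (XT.lf (nat_lit 0) (nat_lit 314526462) (nat_lit 912) (nat_lit 165462885) (nat_lit 988) (nat_lit 7289841605) (nat_lit 430) (nat_lit 5) (nat_lit 442) (nat_lit 5) (nat_lit 443) (nat_lit 5) (nat_lit 430) (nat_lit 401) (nat_lit 369)) (XT.lf (nat_lit 0) (nat_lit 86563102) (nat_lit 912) (nat_lit 4105356178) (nat_lit 988) (nat_lit 3667254064) (nat_lit 418) (nat_lit 5) (nat_lit 430) (nat_lit 5) (nat_lit 431) (nat_lit 5) (nat_lit 431) (nat_lit 401) (nat_lit 368)))))) (XT.nd (nat_lit 468) (nat_lit 5092) (nat_lit 0) (XT.nd (nat_lit 234) (nat_lit 2584) (nat_lit 0) (XT.nd (nat_lit 78) (nat_lit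 1672) (nat_lit 0) (XT.lf (nat_lit 0) (nat_lit 20411114) (nat_lit 988) (nat_lit 92703801) (nat_lit 76) (nat_lit 7838937130) (nat_lit 417) (nat_lit 5) (nat_lit 430) (nat_lit 5) (nat_lit 418) (nat_lit 5) (nat_lit 432) (nat_lit 401) (nat_lit 367)) (XT.nd (nat_lit 78) (nat_lit 836) (nat_lit 0) (XT.lf (nat_lit 0) (nat_lit 3754297008) (nat_lit 912) (nat_lit 273682487) (nat_lit 76) (nat_lit 4019553384) (nat_lit 406) (nat_lit 5) (nat_lit 418) (nat_lit 5) (nat_lit 407) (nat_lit 5) (nat_lit 433) (nat_lit 401) (nat_lit 366)) (XT.lf (nat_lit 0) (nat_lit 7563059963) (nat_lit 912) (nat_lit 410080904) (nat_lit 76) (nat_lit 173488677) (nat_lit 395) (nat_lit 5) (nat_lit 407) (nat_lit 5) (nat_lit 396) (nat_lit 5) (nat_lit 434) (nat_lit 401) (nat_lit 365)))) (XT.nd (nat_lit 78) (nat_lit 1672) (nat_lit 0) (XT.lf (nat_lit 0) (nat_lit 3185866802) (nat_lit 912) (nat_lit 548362339) (nat_lit 76) (nat_lit 4514239002) (nat_lit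 383) (nat_lit 5) (nat_lit 395) (nat_lit 5) (nat_lit 384) (nat_lit 5) (nat_lit 435) (nat_lit 401) (nat_lit 364)) (XT.nd (nat_lit 78) (nat_lit 836) (nat_lit 0) (XT.lf (nat_lit 0) (nat_lit 7031221478) (nat_lit 912) (nat_lit 649932474) (nat_lit 76) (nat_lit 672723487) (nat_lit 372) (nat_lit 5) (nat_lit 384) (nat_lit 5) (nat_lit 373) (nat_lit 5) (nat_lit 436) (nat_lit 401) (nat_lit 363)) (XT.lf (nat_lit 0) (nat_lit 2490480985) (nat_lit 836) (nat_lit 748346083) (nat_lit 76) (nat_lit 5223417703) (nat_lit 361) (nat_lit 5) (nat_lit 372) (nat_lit 5) (nat_lit 362) (nat_lit 5) (nat_lit 437) (nat_lit 401) (nat_lit 362))))) (XT.nd (nat_lit 234) (nat_lit 2812) (nat_lit 0) (XT.nd (nat_lit 78) (nat_lit 1520) (nat_lit 0) (XT.lf (nat_lit 0) (nat_lit 6380620944) (nat_lit 836) (nat_lit 820909377) (nat_lit 76) (nat_lit 1372553731) (nat_lit 351) (nat_lit 5) (nat_lit 362) (nat_lit 5) (nat_lit 352) (nat_lit 5) (nat_lit 438)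 (nat_lit 401) (nat_lit 361)) (XT.nd (nat_lit 78) (nat_lit 760) (nat_lit 0) (XT.lf (nat_lit 0) (nat_lit 1671767214) (nat_lit 760) (nat_lit 883073782) (nat_lit 76) (nat_lit 6134306949) (nat_lit 341) (nat_lit 5) (nat_lit 351) (nat_lit 5) (nat_lit 342) (nat_lit 5) (nat_lit 439) (nat_lit 401) (nat_lit 360)) (XT.lf (nat_lit 0) (nat_lit 5614633017) (nat_lit 836) (nat_lit 932282075) (nat_lit 76) (nat_lit 2260635902) (nat_lit 331) (nat_lit 5) (nat_lit 342) (nat_lit 5) (nat_lit 332) (nat_lit 5) (nat_lit 440) (nat_lit 401) (nat_lit 359)))) (XT.nd (nat_lit 156) (nat_lit 1368) (nat_lit 0) (XT.nd (nat_lit 78) (nat_lit 684) (nat_lit 0) (XT.lf (nat_lit 0) (nat_lit 732591481) (nat_lit 760) (nat_lit 961767795) (nat_lit 76) (nat_lit 7235134415) (nat_lit 321) (nat_lit 5) (nat_lit 331) (nat_lit 5) (nat_lit 322) (nat_lit 5) (nat_lit 441) (nat_lit 401) (nat_lit 358)) (XT.lf (nat_lit 0) (nat_lit 4735894748) (nat_lit 760)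 (nat_lit 993147150) (nat_lit 76) (nat_lit 3325568795) (nat_lit 312) (nat_lit 5) (nat_lit 322) (nat_lit 5) (nat_lit 313) (nat_lit 5) (nat_lit 442) (nat_lit 401) (nat_lit 357))) (XT.nd (nat_lit 78) (nat_lit 760) (nat_lit 0) (XT.lf (nat_lit 0) (nat_lit 8187939291) (nat_lit 608) (nat_lit 666406993) (nat_lit 684) (nat_lit 329240035) (nat_lit 304) (nat_lit 5) (nat_lit 312) (nat_lit 5) (nat_lit 313) (nat_lit 5) (nat_lit 443) (nat_lit 401) (nat_lit 356)) (XT.lf (nat_lit 0) (nat_lit 3746322869) (nat_lit 760) (nat_lit 1012503780) (nat_lit 76) (nat_lit 4556799995) (nat_lit 294) (nat_lit 5) (nat_lit 304) (nat_lit 5) (nat_lit 295) (nat_lit 5) (nat_lit 444) (nat_lit 401) (nat_lit 355))))))) (XT.nd (nat_lit 1014) (nat_lit 5244) (nat_lit 0) (XT.nd (nat_lit 468) (nat_lit 3648) (nat_lit 0) (XT.nd (nat_lit 234) (nat_lit 1824) (nat_lit 0) (XT.nd (nat_lit 78) (nat_lit 1292) (nat_lit 0) (XT.lf (nat_lit 0) (nat_lit 7935823333)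 (nat_lit 684) (nat_lit 1000570222) (nat_lit 76) (nat_lit 515273859) (nat_lit 286) (nat_lit 5) (nat_lit 295) (nat_lit 5) (nat_lit 287) (nat_lit 5) (nat_lit 445) (nat_lit 401) (nat_lit 354)) (XT.nd (nat_lit 78) (nat_lit 608) (nat_lit 0) (XT.lf (nat_lit 0) (nat_lit 2647126097) (nat_lit 684) (nat_lit 999331202) (nat_lit 76) (nat_lit 5944536509) (nat_lit 277) (nat_lit 5) (nat_lit 286) (nat_lit 5) (nat_lit 278) (nat_lit 5) (nat_lit 446) (nat_lit 401) (nat_lit 353)) (XT.lf (nat_lit 0) (nat_lit 6919332324) (nat_lit 684) (nat_lit 982629624) (nat_lit 76) (nat_lit 1832244031) (nat_lit 269) (nat_lit 5) (nat_lit 278) (nat_lit 5) (nat_lit 270) (nat_lit 5) (nat_lit 447) (nat_lit 401) (nat_lit 352)))) (XT.nd (nat_lit 78) (nat_lit 1140) (nat_lit 0) (XT.lf (nat_lit 0) (nat_lit 1438812451) (nat_lit 684) (nat_lit 962667784) (nat_lit 76) (nat_lit 7479658878) (nat_lit 260) (nat_lit 5) (nat_lit 269) (nat_lit 5) (nat_lit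 261) (nat_lit 5) (nat_lit 448) (nat_lit 401) (nat_lit 351)) (XT.nd (nat_lit 78) (nat_lit 608) (nat_lit 0) (XT.lf (nat_lit 0) (nat_lit 5800897418) (nat_lit 608) (nat_lit 946566756) (nat_lit 76) (nat_lit 3284268126) (nat_lit 253) (nat_lit 5) (nat_lit 261) (nat_lit 5) (nat_lit 254) (nat_lit 5) (nat_lit 449) (nat_lit 401) (nat_lit 350)) (XT.lf (nat_lit 0) (nat_lit 121191573) (nat_lit 608) (nat_lit 911692385) (nat_lit 76) (nat_lit 9153638146) (nat_lit 245) (nat_lit 5) (nat_lit 253) (nat_lit 5) (nat_lit 246) (nat_lit 5) (nat_lit 450) (nat_lit 401) (nat_lit 349))))) (XT.nd (nat_lit 234) (nat_lit 2052) (nat_lit 0) (XT.nd (nat_lit 78) (nat_lit 1064) (nat_lit 0) (XT.lf (nat_lit 0) (nat_lit 4580183910) (nat_lit 608) (nat_lit 901636179) (nat_lit 76) (nat_lit 4862902935) (nat_lit 238) (nat_lit 5) (nat_lit 246) (nat_lit 5) (nat_lit 239) (nat_lit 5) (nat_lit 451) (nat_lit 401) (nat_lit 348)) (XT.nd (nat_lit 78) (nat_lit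 532) (nat_lit 0) (XT.lf (nat_lit 0) (nat_lit 9186455301) (nat_lit 608) (nat_lit 867388875) (nat_lit 76) (nat_lit 453559927) (nat_lit 231) (nat_lit 5) (nat_lit 239) (nat_lit 5) (nat_lit 232) (nat_lit 5) (nat_lit 452) (nat_lit 401) (nat_lit 347)) (XT.lf (nat_lit 0) (nat_lit 3256166269) (nat_lit 532) (nat_lit 857364593) (nat_lit 76) (nat_lit 6560157679) (nat_lit 224) (nat_lit 5) (nat_lit 231) (nat_lit 5) (nat_lit 225) (nat_lit 5) (nat_lit 453) (nat_lit 401) (nat_lit 346)))) (XT.nd (nat_lit 156) (nat_lit 988) (nat_lit 0) (XT.nd (nat_lit 78) (nat_lit 532) (nat_lit 0) (XT.lf (nat_lit 0) (nat_lit 7973939465) (nat_lit 608) (nat_lit 836837439) (nat_lit 76) (nat_lit 2033588147) (nat_lit 217) (nat_lit 5) (nat_lit 225) (nat_lit 5) (nat_lit 218) (nat_lit 5) (nat_lit 454) (nat_lit 401) (nat_lit 345)) (XT.lf (nat_lit 0) (nat_lit 1827117731) (nat_lit 532) (nat_lit 823640806) (nat_lit 76) (nat_lit 8368415428) (nat_lit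 210) (nat_lit 5) (nat_lit 217) (nat_lit 5) (nat_lit 211) (nat_lit 5) (nat_lit 455) (nat_lit 401) (nat_lit 344))) (XT.nd (nat_lit 78) (nat_lit 532) (nat_lit 0) (XT.lf (nat_lit 0) (nat_lit 6663239220) (nat_lit 532) (nat_lit 822616035) (nat_lit 76) (nat_lit 3712263117) (nat_lit 204) (nat_lit 5) (nat_lit 211) (nat_lit 5) (nat_lit 205) (nat_lit 5) (nat_lit 456) (nat_lit 401) (nat_lit 343)) (XT.lf (nat_lit 0) (nat_lit 290594514) (nat_lit 532) (nat_lit 810810623) (nat_lit 76) (nat_lit 10280355108) (nat_lit 197) (nat_lit 5) (nat_lit 204) (nat_lit 5) (nat_lit 198) (nat_lit 5) (nat_lit 457) (nat_lit 401) (nat_lit 342)))))) (XT.nd (nat_lit 468) (nat_lit 2660) (nat_lit 0) (XT.nd (nat_lit 234) (nat_lit 1216) (nat_lit 0) (XT.nd (nat_lit 78) (nat_lit 912) (nat_lit 0) (XT.lf (nat_lit 0) (nat_lit 5251799632) (nat_lit 532) (nat_lit 835321105) (nat_lit 76) (nat_lit 5482142966) (nat_lit 191) (nat_lit 5) (nat_lit 198)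 (nat_lit 5) (nat_lit 192) (nat_lit 5) (nat_lit 458) (nat_lit 401) (nat_lit 341)) (XT.nd (nat_lit 78) (nat_lit 532) (nat_lit 0) (XT.lf (nat_lit 0) (nat_lit 10390752565) (nat_lit 456) (nat_lit 842181899) (nat_lit 76) (nat_lit 528882874) (nat_lit 186) (nat_lit 5) (nat_lit 192) (nat_lit 5) (nat_lit 187) (nat_lit 5) (nat_lit 459) (nat_lit 401) (nat_lit 340)) (XT.lf (nat_lit 0) (nat_lit 3736328839) (nat_lit 532) (nat_lit 886162521) (nat_lit 76) (nat_lit 7335947042) (nat_lit 179) (nat_lit 5) (nat_lit 186) (nat_lit 5) (nat_lit 180) (nat_lit 5) (nat_lit 460) (nat_lit 401) (nat_lit 339)))) (XT.nd (nat_lit 78) (nat_lit 836) (nat_lit 0) (XT.lf (nat_lit 0) (nat_lit 9015114248) (nat_lit 456) (nat_lit 927215726) (nat_lit 76) (nat_lit 2217713979) (nat_lit 174) (nat_lit 5) (nat_lit 180) (nat_lit 5) (nat_lit 175) (nat_lit 5) (nat_lit 461) (nat_lit 401) (nat_lit 338)) (XT.nd (nat_lit 78) (nat_lit 380) (nat_lit 0) (XT.lf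 (nat_lit 0) (nat_lit 2112768076) (nat_lit 456) (nat_lit 987074492) (nat_lit 76) (nat_lit 9266476485) (nat_lit 168) (nat_lit 5) (nat_lit 174) (nat_lit 5) (nat_lit 169) (nat_lit 5) (nat_lit 462) (nat_lit 401) (nat_lit 337)) (XT.lf (nat_lit 0) (nat_lit 7538013203) (nat_lit 456) (nat_lit 1069167176) (nat_lit 76) (nat_lit 3970138220) (nat_lit 163) (nat_lit 5) (nat_lit 169) (nat_lit 5) (nat_lit 164) (nat_lit 5) (nat_lit 463) (nat_lit 401) (nat_lit 336))))) (XT.nd (nat_lit 234) (nat_lit 1444) (nat_lit 0) (XT.nd (nat_lit 78) (nat_lit 760) (nat_lit 0) (XT.lf (nat_lit 0) (nat_lit 376255383) (nat_lit 456) (nat_lit 1150834693) (nat_lit 76) (nat_lit 11266533039) (nat_lit 157) (nat_lit 5) (nat_lit 163) (nat_lit 5) (nat_lit 158) (nat_lit 5) (nat_lit 464) (nat_lit 401) (nat_lit 335)) (XT.nd (nat_lit 78) (nat_lit 380) (nat_lit 0) (XT.lf (nat_lit 0) (nat_lit 5954477735) (nat_lit 456) (nat_lit 1281275810) (nat_lit 76)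 (nat_lit 5778626455) (nat_lit 152) (nat_lit 5) (nat_lit 158) (nat_lit 5) (nat_lit 153) (nat_lit 5) (nat_lit 465) (nat_lit 401) (nat_lit 334)) (XT.lf (nat_lit 0) (nat_lit 11742978766) (nat_lit 456) (nat_lit 1401556446) (nat_lit 76) (nat_lit 96368274) (nat_lit 147) (nat_lit 5) (nat_lit 153) (nat_lit 5) (nat_lit 148) (nat_lit 5) (nat_lit 466) (nat_lit 401) (nat_lit 333)))) (XT.nd (nat_lit 156) (nat_lit 684) (nat_lit 0) (XT.nd (nat_lit 78) (nat_lit 380) (nat_lit 0) (XT.lf (nat_lit 0) (nat_lit 4258681290) (nat_lit 380) (nat_lit 1577823614) (nat_lit 76) (nat_lit 7635505622) (nat_lit 142) (nat_lit 5) (nat_lit 147) (nat_lit 5) (nat_lit 143) (nat_lit 5) (nat_lit 467) (nat_lit 401) (nat_lit 332)) (XT.lf (nat_lit 0) (nat_lit 10215228297) (nat_lit 456) (nat_lit 1757192273) (nat_lit 76) (nat_lit 1736482650) (nat_lit 137) (nat_lit 5) (nat_lit 143) (nat_lit 5) (nat_lit 138) (nat_lit 5) (nat_lit 468) (nat_lit 401)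 (nat_lit 331))) (XT.nd (nat_lit 78) (nat_lit 304) (nat_lit 0) (XT.lf (nat_lit 0) (nat_lit 2443888947) (nat_lit 380) (nat_lit 1974279653) (nat_lit 76) (nat_lit 9532869702) (nat_lit 132) (nat_lit 5) (nat_lit 137) (nat_lit 5) (nat_lit 133) (nat_lit 5) (nat_lit 469) (nat_lit 401) (nat_lit 330)) (XT.lf (nat_lit 0) (nat_lit 8574882088) (nat_lit 380) (nat_lit 2221452356) (nat_lit 76) (nat_lit 3402387940) (nat_lit 128) (nat_lit 5) (nat_lit 133) (nat_lit 5) (nat_lit 129) (nat_lit 5) (nat_lit 470) (nat_lit 401) (nat_lit 329))))))))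
noncomputable def xc42 : XT := (XT.nd (nat_lit 57642) (nat_lit 0) (nat_lit 26220) (XT.nd (nat_lit 936) (nat_lit 1520) (nat_lit 0) (XT.nd (nat_lit 468) (nat_lit 1596) (nat_lit 0) (XT.nd (nat_lit 234) (nat_lit 988) (nat_lit 0) (XT.nd (nat_lit 78) (nat_lit 608) (nat_lit 0) (XT.lf (nat_lit 0) (nat_lit 502395973) (nat_lit 380) (nat_lit 2487457315) (nat_lit 76) (nat_lit 11462486236) (nat_lit 123) (nat_lit 5) (nat_lit 128) (nat_lit 5) (nat_lit 124) (nat_lit 5) (nat_lit 471) (nat_lit 401) (nat_lit 328)) (XT.nd (nat_lit 78) (nat_lit 304) (nat_lit 0) (XT.lf (nat_lit 0) (nat_lit 6814089514) (nat_lit 380) (nat_lit 2811883642) (nat_lit 76) (nat_lit 5085289027) (nat_lit 119) (nat_lit 5) (nat_lit 124) (nat_lit 5) (nat_lit 120) (nat_lit 5) (nat_lit 472) (nat_lit 401) (nat_lit 327)) (XT.lf (nat_lit 0) (nat_lit 11830589347) (nat_lit 304) (nat_lit 1550577449) (nat_lit 380) (nat_lit 1595467010) (nat_lit 115) (nat_lit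 5) (nat_lit 119) (nat_lit 5) (nat_lit 120) (nat_lit 5) (nat_lit 473) (nat_lit 401) (nat_lit 326)))) (XT.nd (nat_lit 78) (nat_lit 608) (nat_lit 0) (XT.lf (nat_lit 0) (nat_lit 4923938743) (nat_lit 380) (nat_lit 3547642084) (nat_lit 76) (nat_lit 6775894901) (nat_lit 110) (nat_lit 5) (nat_lit 115) (nat_lit 5) (nat_lit 111) (nat_lit 5) (nat_lit 474) (nat_lit 401) (nat_lit 325)) (XT.nd (nat_lit 78) (nat_lit 380) (nat_lit 0) (XT.lf (nat_lit 0) (nat_lit 11561048056) (nat_lit 228) (nat_lit 116728761) (nat_lit 304) (nat_lit 3847246436) (nat_lit 107) (nat_lit 5) (nat_lit 110) (nat_lit 5) (nat_lit 111) (nat_lit 5) (nat_lit 475) (nat_lit 401) (nat_lit 324)) (XT.lf (nat_lit 0) (nat_lit 2894373065) (nat_lit 380) (nat_lit 4449688139) (nat_lit 76) (nat_lit 8464309718) (nat_lit 102) (nat_lit 5) (nat_lit 107) (nat_lit 5) (nat_lit 103) (nat_lit 5) (nat_lit 476) (nat_lit 401) (nat_lit 323))))) (XT.nd (nat_lit 234) (nat_lit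 760) (nat_lit 0) (XT.nd (nat_lit 78) (nat_lit 608) (nat_lit 0) (XT.lf (nat_lit 0) (nat_lit 9849548575) (nat_lit 304) (nat_lit 4968380549) (nat_lit 76) (nat_lit 1280511419) (nat_lit 99) (nat_lit 5) (nat_lit 103) (nat_lit 5) (nat_lit 100) (nat_lit 5) (nat_lit 477) (nat_lit 401) (nat_lit 322)) (XT.nd (nat_lit 78) (nat_lit 228) (nat_lit 0) (XT.lf (nat_lit 0) (nat_lit 714096763) (nat_lit 380) (nat_lit 5541000768) (nat_lit 76) (nat_lit 10139916074) (nat_lit 94) (nat_lit 5) (nat_lit 99) (nat_lit 5) (nat_lit 95) (nat_lit 5) (nat_lit 478) (nat_lit 401) (nat_lit 321)) (XT.lf (nat_lit 0) (nat_lit 7877162308) (nat_lit 304) (nat_lit 6175543224) (nat_lit 76) (nat_lit 2645432055) (nat_lit 91) (nat_lit 5) (nat_lit 95) (nat_lit 5) (nat_lit 92) (nat_lit 5) (nat_lit 479) (nat_lit 401) (nat_lit 320)))) (XT.nd (nat_lit 78) (nat_lit 532) (nat_lit 0) (XT.lf (nat_lit 0) (nat_lit 10150783959) (nat_lit 228) (nat_lit 5206346600)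 (nat_lit 304) (nat_lit 1651186003) (nat_lit 88) (nat_lit 5) (nat_lit 91) (nat_lit 5) (nat_lit 92) (nat_lit 5) (nat_lit 480) (nat_lit 401) (nat_lit 319)) (XT.nd (nat_lit 78) (nat_lit 228) (nat_lit 0) (XT.lf (nat_lit 0) (nat_lit 5746951252) (nat_lit 304) (nat_lit 7611162100) (nat_lit 76) (nat_lit 3967175375) (nat_lit 84) (nat_lit 5) (nat_lit 88) (nat_lit 5) (nat_lit 85) (nat_lit 5) (nat_lit 481) (nat_lit 401) (nat_lit 318)) (XT.lf (nat_lit 0) (nat_lit 9227398125) (nat_lit 228) (nat_lit 4216400442) (nat_lit 304) (nat_lit 4205770597) (nat_lit 81) (nat_lit 5) (nat_lit 84) (nat_lit 5) (nat_lit 85) (nat_lit 5) (nat_lit 482) (nat_lit 401) (nat_lit 317)))))) (XT.nd (nat_lit 56160) (nat_lit 0) (nat_lit 52060) (XT.nd (nat_lit 234) (nat_lit 684) (nat_lit 0) (XT.nd (nat_lit 78) (nat_lit 532) (nat_lit 0) (XT.lf (nat_lit 0) (nat_lit 3444499687) (nat_lit 304) (nat_lit 9304343955) (nat_lit 76) (nat_lit 5232276537)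 (nat_lit 77) (nat_lit 5) (nat_lit 81) (nat_lit 5) (nat_lit 78) (nat_lit 5) (nat_lit 483) (nat_lit 401) (nat_lit 316)) (XT.nd (nat_lit 78) (nat_lit 304) (nat_lit 0) (XT.lf (nat_lit 0) (nat_lit 8059267589) (nat_lit 228) (nat_lit 3304784696) (nat_lit 304) (nat_lit 6956072426) (nat_lit 74) (nat_lit 5) (nat_lit 77) (nat_lit 5) (nat_lit 78) (nat_lit 5) (nat_lit 484) (nat_lit 401) (nat_lit 315)) (XT.lf (nat_lit 0) (nat_lit 953746888) (nat_lit 304) (nat_lit 11287141978) (nat_lit 76) (nat_lit 6426040548) (nat_lit 70) (nat_lit 5) (nat_lit 74) (nat_lit 5) (nat_lit 71) (nat_lit 5) (nat_lit 485) (nat_lit 401) (nat_lit 314)))) (XT.nd (nat_lit 78) (nat_lit 456) (nat_lit 0) (XT.lf (nat_lit 0) (nat_lit 6613970382) (nat_lit 228) (nat_lit 2487584952) (nat_lit 304) (nat_lit 9919760504) (nat_lit 67) (nat_lit 5) (nat_lit 70) (nat_lit 5) (nat_lit 71) (nat_lit 5) (nat_lit 486) (nat_lit 401) (nat_lit 313)) (XT.nd (nat_lit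 78) (nat_lit 304) (nat_lit 0) (XT.lf (nat_lit 0) (nat_lit 5777510441) (nat_lit 152) (nat_lit 11840017577) (nat_lit 228) (nat_lit 1766332374) (nat_lit 65) (nat_lit 5) (nat_lit 67) (nat_lit 5) (nat_lit 68) (nat_lit 5) (nat_lit 487) (nat_lit 401) (nat_lit 312)) (XT.lf (nat_lit 0) (nat_lit 4855704012) (nat_lit 228) (nat_lit 1782416805) (nat_lit 304) (nat_lit 13116432442) (nat_lit 61) (nat_lit 5) (nat_lit 64) (nat_lit 5) (nat_lit 65) (nat_lit 5) (nat_lit 488) (nat_lit 401) (nat_lit 311))))) (XT.nd (nat_lit 234) (nat_lit 912) (nat_lit 0) (XT.nd (nat_lit 78) (nat_lit 760) (nat_lit 0) (XT.lf (nat_lit 0) (nat_lit 1337801021) (nat_lit 0) (nat_lit 1337801021) (nat_lit 228) (nat_lit 553980840) (nat_lit 768) (nat_lit 5) (nat_lit 768) (nat_lit 3) (nat_lit 771) (nat_lit 3) (nat_lit 402) (nat_lit 402) (nat_lit 396)) (XT.nd (nat_lit 78) (nat_lit 380) (nat_lit 0) (XT.lf (nat_lit 76) (nat_lit 1023397472) (nat_lit 0)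 (nat_lit 2187214470) (nat_lit 380) (nat_lit 3258464428) (nat_lit 764) (nat_lit 5) (nat_lit 763) (nat_lit 3) (nat_lit 768) (nat_lit 5) (nat_lit 403) (nat_lit 402) (nat_lit 395)) (XT.lf (nat_lit 0) (nat_lit 1005057833) (nat_lit 380) (nat_lit 556809668) (nat_lit 456) (nat_lit 4920030835) (nat_lit 758) (nat_lit 5) (nat_lit 763) (nat_lit 3) (nat_lit 764) (nat_lit 5) (nat_lit 404) (nat_lit 402) (nat_lit 394)))) (XT.nd (nat_lit 156) (nat_lit 532) (nat_lit 0) (XT.nd (nat_lit 78) (nat_lit 380) (nat_lit 0) (XT.lf (nat_lit 76) (nat_lit 4428310104) (nat_lit 0) (nat_lit 787796500) (nat_lit 456) (nat_lit 1281316303) (nat_lit 759) (nat_lit 5) (nat_lit 758) (nat_lit 5) (nat_lit 764) (nat_lit 5) (nat_lit 405) (nat_lit 402) (nat_lit 393)) (XT.lf (nat_lit 0) (nat_lit 2862289661) (nat_lit 456) (nat_lit 3527413167) (nat_lit 532) (nat_lit 126099125) (nat_lit 753) (nat_lit 5) (nat_lit 759) (nat_lit 5) (nat_lit 760) (nat_lit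 5) (nat_lit 406) (nat_lit 402) (nat_lit 392))) (XT.nd (nat_lit 78) (nat_lit 0) (nat_lit 0) (XT.lf (nat_lit 0) (nat_lit 442384393) (nat_lit 532) (nat_lit 4931088761) (nat_lit 608) (nat_lit 1163604068) (nat_lit 746) (nat_lit 5) (nat_lit 753) (nat_lit 5) (nat_lit 754) (nat_lit 5) (nat_lit 407) (nat_lit 402) (nat_lit 391)) (XT.lf (nat_lit 76) (nat_lit 271817330) (nat_lit 0) (nat_lit 4211458506) (nat_lit 608) (nat_lit 2077820155) (nat_lit 747) (nat_lit 5) (nat_lit 746) (nat_lit 5) (nat_lit 754) (nat_lit 5) (nat_lit 408) (nat_lit 402) (nat_lit 390))))))) (XT.nd (nat_lit 936) (nat_lit 16644) (nat_lit 0) (XT.nd (nat_lit 468) (nat_lit 5548) (nat_lit 0) (XT.nd (nat_lit 234) (nat_lit 2432) (nat_lit 0) (XT.nd (nat_lit 78) (nat_lit 608) (nat_lit 0) (XT.lf (nat_lit 0) (nat_lit 1914729194) (nat_lit 608) (nat_lit 991341717) (nat_lit 684) (nat_lit 3681875540) (nat_lit 738) (nat_lit 5) (nat_lit 746) (nat_lit 5) (nat_lit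 747) (nat_lit 5) (nat_lit 409) (nat_lit 402) (nat_lit 389)) (XT.nd (nat_lit 78) (nat_lit 608) (nat_lit 0) (XT.lf (nat_lit 76) (nat_lit 4421383030) (nat_lit 0) (nat_lit 1459267385) (nat_lit 684) (nat_lit 737062386) (nat_lit 739) (nat_lit 5) (nat_lit 738) (nat_lit 5) (nat_lit 747) (nat_lit 5) (nat_lit 410) (nat_lit 402) (nat_lit 388)) (XT.lf (nat_lit 0) (nat_lit 3158422568) (nat_lit 684) (nat_lit 3356473851) (nat_lit 76) (nat_lit 135370482) (nat_lit 730) (nat_lit 5) (nat_lit 739) (nat_lit 5) (nat_lit 731) (nat_lit 5) (nat_lit 411) (nat_lit 402) (nat_lit 387)))) (XT.nd (nat_lit 78) (nat_lit 1672) (nat_lit 0) (XT.lf (nat_lit 0) (nat_lit 369005804) (nat_lit 760) (nat_lit 4469158585) (nat_lit 76) (nat_lit 1847529294) (nat_lit 720) (nat_lit 5) (nat_lit 730) (nat_lit 5) (nat_lit 721) (nat_lit 5) (nat_lit 412) (nat_lit 402) (nat_lit 386)) (XT.nd (nat_lit 78) (nat_lit 912) (nat_lit 0) (XT.lf (nat_lit 0) (nat_lit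 1182081412) (nat_lit 760) (nat_lit 3009272600) (nat_lit 836) (nat_lit 2532524338) (nat_lit 710) (nat_lit 5) (nat_lit 720) (nat_lit 5) (nat_lit 721) (nat_lit 5) (nat_lit 413) (nat_lit 402) (nat_lit 385)) (XT.lf (nat_lit 0) (nat_lit 203829303) (nat_lit 836) (nat_lit 1040034936) (nat_lit 912) (nat_lit 5521253008) (nat_lit 698) (nat_lit 5) (nat_lit 709) (nat_lit 5) (nat_lit 710) (nat_lit 5) (nat_lit 414) (nat_lit 402) (nat_lit 384))))) (XT.nd (nat_lit 234) (nat_lit 3572) (nat_lit 0) (XT.nd (nat_lit 78) (nat_lit 1976) (nat_lit 0) (XT.lf (nat_lit 0) (nat_lit 5011976727) (nat_lit 912) (nat_lit 725420617) (nat_lit 76) (nat_lit 1071621908) (nat_lit 698) (nat_lit 5) (nat_lit 710) (nat_lit 5) (nat_lit 699) (nat_lit 5) (nat_lit 415) (nat_lit 402) (nat_lit 383)) (XT.nd (nat_lit 78) (nat_lit 988) (nat_lit 0) (XT.lf (nat_lit 0) (nat_lit 1924911162) (nat_lit 988) (nat_lit 1611090362) (nat_lit 76) (nat_lit 3319733570)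 (nat_lit 685) (nat_lit 5) (nat_lit 698) (nat_lit 5) (nat_lit 686) (nat_lit 5) (nat_lit 416) (nat_lit 402) (nat_lit 382)) (XT.lf (nat_lit 0) (nat_lit 4456198039) (nat_lit 988) (nat_lit 1186492523) (nat_lit 1064) (nat_lit 1262768839) (nat_lit 672) (nat_lit 5) (nat_lit 685) (nat_lit 5) (nat_lit 686) (nat_lit 5) (nat_lit 417) (nat_lit 402) (nat_lit 381)))) (XT.nd (nat_lit 78) (nat_lit 2432) (nat_lit 0) (XT.lf (nat_lit 0) (nat_lit 2402811749) (nat_lit 1140) (nat_lit 3253666659) (nat_lit 76) (nat_lit 1301476364) (nat_lit 657) (nat_lit 5) (nat_lit 672) (nat_lit 5) (nat_lit 658) (nat_lit 5) (nat_lit 418) (nat_lit 402) (nat_lit 380)) (XT.nd (nat_lit 78) (nat_lit 1292) (nat_lit 0) (XT.lf (nat_lit 0) (nat_lit 2995546870) (nat_lit 1140) (nat_lit 3089872420) (nat_lit 1216) (nat_lit 927969431) (nat_lit 642) (nat_lit 5) (nat_lit 657) (nat_lit 5) (nat_lit 658) (nat_lit 5) (nat_lit 419) (nat_lit 402) (nat_lit 379))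 (XT.lf (nat_lit 0) (nat_lit 2327250089) (nat_lit 1216) (nat_lit 363392934) (nat_lit 1292) (nat_lit 4381103255) (nat_lit 625) (nat_lit 5) (nat_lit 641) (nat_lit 5) (nat_lit 642) (nat_lit 5) (nat_lit 420) (nat_lit 402) (nat_lit 378)))))) (XT.nd (nat_lit 468) (nat_lit 9196) (nat_lit 0) (XT.nd (nat_lit 234) (nat_lit 3268) (nat_lit 0) (XT.nd (nat_lit 78) (nat_lit 2888) (nat_lit 0) (XT.lf (nat_lit 0) (nat_lit 1693722880) (nat_lit 1292) (nat_lit 4650988635) (nat_lit 1368) (nat_lit 788244098) (nat_lit 608) (nat_lit 5) (nat_lit 625) (nat_lit 5) (nat_lit 626) (nat_lit 5) (nat_lit 421) (nat_lit 402) (nat_lit 377)) (XT.nd (nat_lit 78) (nat_lit 1444) (nat_lit 0) (XT.lf (nat_lit 0) (nat_lit 1094857977) (nat_lit 1368) (nat_lit 1708402106) (nat_lit 1444) (nat_lit 4393795005) (nat_lit 589) (nat_lit 5) (nat_lit 607) (nat_lit 5) (nat_lit 608) (nat_lit 5) (nat_lit 422) (nat_lit 402) (nat_lit 376)) (XT.lf (nat_lit 0) (nat_lit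 536560113) (nat_lit 1444) (nat_lit 5894446031) (nat_lit 1520) (nat_lit 833195861) (nat_lit 570) (nat_lit 5) (nat_lit 589) (nat_lit 5) (nat_lit 590) (nat_lit 5) (nat_lit 423) (nat_lit 402) (nat_lit 375)))) (XT.nd (nat_lit 78) (nat_lit 1672) (nat_lit 0) (XT.lf (nat_lit 0) (nat_lit 2005138) (nat_lit 1520) (nat_lit 2739963803) (nat_lit 1596) (nat_lit 4592140142) (nat_lit 549) (nat_lit 5) (nat_lit 569) (nat_lit 5) (nat_lit 570) (nat_lit 5) (nat_lit 424) (nat_lit 402) (nat_lit 374)) (XT.nd (nat_lit 78) (nat_lit 1672) (nat_lit 0) (XT.lf (nat_lit 0) (nat_lit 6356828836) (nat_lit 1596) (nat_lit 482840473) (nat_lit 76) (nat_lit 567470527) (nat_lit 549) (nat_lit 5) (nat_lit 570) (nat_lit 5) (nat_lit 550) (nat_lit 5) (nat_lit 425) (nat_lit 402) (nat_lit 373)) (XT.lf (nat_lit 0) (nat_lit 2521826047) (nat_lit 1672) (nat_lit 951687955) (nat_lit 76) (nat_lit 4009358957) (nat_lit 527) (nat_lit 5) (nat_lit 549) (nat_lit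 5) (nat_lit 528) (nat_lit 5) (nat_lit 426) (nat_lit 402) (nat_lit 372))))) (XT.nd (nat_lit 234) (nat_lit 3876) (nat_lit 0) (XT.nd (nat_lit 78) (nat_lit 3648) (nat_lit 0) (XT.lf (nat_lit 0) (nat_lit 6130037794) (nat_lit 1748) (nat_lit 1377974486) (nat_lit 76) (nat_lit 53874256) (nat_lit 505) (nat_lit 5) (nat_lit 528) (nat_lit 5) (nat_lit 506) (nat_lit 5) (nat_lit 427) (nat_lit 402) (nat_lit 371)) (XT.nd (nat_lit 78) (nat_lit 1824) (nat_lit 0) (XT.lf (nat_lit 0) (nat_lit 2143624404) (nat_lit 1824) (nat_lit 1792645129) (nat_lit 76) (nat_lit 3707339386) (nat_lit 481) (nat_lit 5) (nat_lit 505) (nat_lit 5) (nat_lit 482) (nat_lit 5) (nat_lit 428) (nat_lit 402) (nat_lit 370)) (XT.lf (nat_lit 0) (nat_lit 5559739625) (nat_lit 1824) (nat_lit 196112328) (nat_lit 1900) (nat_lit 1972772949) (nat_lit 457) (nat_lit 5) (nat_lit 481) (nat_lit 5) (nat_lit 482) (nat_lit 5) (nat_lit 429) (nat_lit 402) (nat_lit 369))))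 (XT.nd (nat_lit 156) (nat_lit 1824) (nat_lit 0) (XT.nd (nat_lit 78) (nat_lit 912) (nat_lit 0) (XT.lf (nat_lit 0) (nat_lit 1614250470) (nat_lit 1140) (nat_lit 2532409702) (nat_lit 76) (nat_lit 3669809803) (nat_lit 442) (nat_lit 5) (nat_lit 457) (nat_lit 5) (nat_lit 443) (nat_lit 5) (nat_lit 430) (nat_lit 402) (nat_lit 368)) (XT.lf (nat_lit 0) (nat_lit 5043401699) (nat_lit 912) (nat_lit 194820400) (nat_lit 988) (nat_lit 2669354026) (nat_lit 430) (nat_lit 5) (nat_lit 442) (nat_lit 5) (nat_lit 443) (nat_lit 5) (nat_lit 431) (nat_lit 402) (nat_lit 367))) (XT.nd (nat_lit 78) (nat_lit 836) (nat_lit 0) (XT.lf (nat_lit 0) (nat_lit 939688994) (nat_lit 988) (nat_lit 3181955345) (nat_lit 76) (nat_lit 3879995967) (nat_lit 417) (nat_lit 5) (nat_lit 430) (nat_lit 5) (nat_lit 418) (nat_lit 5) (nat_lit 432) (nat_lit 402) (nat_lit 366)) (XT.lf (nat_lit 0) (nat_lit 4582800555) (nat_lit 912) (nat_lit 3474528399) (nat_lit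 76) (nat_lit 41611917) (nat_lit 406) (nat_lit 5) (nat_lit 418) (nat_lit 5) (nat_lit 407) (nat_lit 5) (nat_lit 433) (nat_lit 402) (nat_lit 365))))))))
noncomputable def xc43 : XT := (XT.nd (nat_lit 1950) (nat_lit 8664) (nat_lit 0) (XT.nd (nat_lit 936) (nat_lit 7220) (nat_lit 0) (XT.nd (nat_lit 468) (nat_lit 4180) (nat_lit 0) (XT.nd (nat_lit 234) (nat_lit 2356) (nat_lit 0) (XT.nd (nat_lit 78) (nat_lit 1672) (nat_lit 0) (XT.lf (nat_lit 0) (nat_lit 125052435) (nat_lit 912) (nat_lit 3751792932) (nat_lit 76) (nat_lit 4322489787) (nat_lit 394) (nat_lit 5) (nat_lit 406) (nat_lit 5) (nat_lit 395) (nat_lit 5) (nat_lit 434) (nat_lit 402) (nat_lit 364)) (XT.nd (nat_lit 78) (nat_lit 836) (nat_lit 0) (XT.lf (nat_lit 0) (nat_lit 3796896632) (nat_lit 912) (nat_lit 4012713654) (nat_lit 76) (nat_lit 493290380) (nat_lit 383) (nat_lit 5) (nat_lit 395) (nat_lit 5) (nat_lit 384) (nat_lit 5) (nat_lit 435) (nat_lit 402) (nat_lit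 363)) (XT.lf (nat_lit 0) (nat_lit 4152212688) (nat_lit 836) (nat_lit 3421128177) (nat_lit 912) (nat_lit 836351114) (nat_lit 372) (nat_lit 5) (nat_lit 383) (nat_lit 5) (nat_lit 384) (nat_lit 5) (nat_lit 436) (nat_lit 402) (nat_lit 362)))) (XT.nd (nat_lit 78) (nat_lit 1520) (nat_lit 0) (XT.lf (nat_lit 0) (nat_lit 2883227912) (nat_lit 836) (nat_lit 4487371441) (nat_lit 76) (nat_lit 1149144032) (nat_lit 361) (nat_lit 5) (nat_lit 372) (nat_lit 5) (nat_lit 362) (nat_lit 5) (nat_lit 437) (nat_lit 402) (nat_lit 361)) (XT.nd (nat_lit 78) (nat_lit 760) (nat_lit 0) (XT.lf (nat_lit 0) (nat_lit 3927965014) (nat_lit 760) (nat_lit 2771597033) (nat_lit 836) (nat_lit 1933500252) (nat_lit 351) (nat_lit 5) (nat_lit 361) (nat_lit 5) (nat_lit 362) (nat_lit 5) (nat_lit 438) (nat_lit 402) (nat_lit 360)) (XT.lf (nat_lit 0) (nat_lit 1845000059) (nat_lit 760) (nat_lit 4908145373) (nat_lit 76) (nat_lit 1996616764) (nat_lit 341)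 (nat_lit 5) (nat_lit 351) (nat_lit 5) (nat_lit 342) (nat_lit 5) (nat_lit 439) (nat_lit 402) (nat_lit 359))))) (XT.nd (nat_lit 234) (nat_lit 1976) (nat_lit 0) (XT.nd (nat_lit 78) (nat_lit 1444) (nat_lit 0) (XT.lf (nat_lit 0) (nat_lit 3766374717) (nat_lit 760) (nat_lit 1941393441) (nat_lit 836) (nat_lit 3162002293) (nat_lit 331) (nat_lit 5) (nat_lit 341) (nat_lit 5) (nat_lit 342) (nat_lit 5) (nat_lit 440) (nat_lit 402) (nat_lit 358)) (XT.nd (nat_lit 78) (nat_lit 684) (nat_lit 0) (XT.lf (nat_lit 0) (nat_lit 684665347) (nat_lit 760) (nat_lit 5284492418) (nat_lit 76) (nat_lit 3024123190) (nat_lit 321) (nat_lit 5) (nat_lit 331) (nat_lit 5) (nat_lit 322) (nat_lit 5) (nat_lit 441) (nat_lit 402) (nat_lit 357)) (XT.lf (nat_lit 0) (nat_lit 3658358150) (nat_lit 684) (nat_lit 941903540) (nat_lit 760) (nat_lit 4519893409) (nat_lit 312) (nat_lit 5) (nat_lit 321) (nat_lit 5) (nat_lit 322) (nat_lit 5) (nat_lit 442)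 (nat_lit 402) (nat_lit 356)))) (XT.nd (nat_lit 78) (nat_lit 1368) (nat_lit 0) (XT.lf (nat_lit 0) (nat_lit 3620895606) (nat_lit 608) (nat_lit 5025700129) (nat_lit 684) (nat_lit 603980256) (nat_lit 304) (nat_lit 5) (nat_lit 312) (nat_lit 5) (nat_lit 313) (nat_lit 5) (nat_lit 443) (nat_lit 402) (nat_lit 355)) (XT.nd (nat_lit 78) (nat_lit 608) (nat_lit 0) (XT.lf (nat_lit 0) (nat_lit 3380029815) (nat_lit 760) (nat_lit 5791055055) (nat_lit 76) (nat_lit 213473021) (nat_lit 294) (nat_lit 5) (nat_lit 304) (nat_lit 5) (nat_lit 295) (nat_lit 5) (nat_lit 444) (nat_lit 402) (nat_lit 354)) (XT.lf (nat_lit 0) (nat_lit 3567615678) (nat_lit 608) (nat_lit 3931684987) (nat_lit 684) (nat_lit 2022705285) (nat_lit 286) (nat_lit 5) (nat_lit 294) (nat_lit 5) (nat_lit 295) (nat_lit 5) (nat_lit 445) (nat_lit 402) (nat_lit 353)))))) (XT.nd (nat_lit 468) (nat_lit 3572) (nat_lit 0) (XT.nd (nat_lit 234) (nat_lit 1672) (nat_lit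 0) (XT.nd (nat_lit 78) (nat_lit 1292) (nat_lit 0) (XT.lf (nat_lit 0) (nat_lit 2053624785) (nat_lit 684) (nat_lit 6106202553) (nat_lit 76) (nat_lit 1503439142) (nat_lit 277) (nat_lit 5) (nat_lit 286) (nat_lit 5) (nat_lit 278) (nat_lit 5) (nat_lit 446) (nat_lit 402) (nat_lit 352)) (XT.nd (nat_lit 78) (nat_lit 684) (nat_lit 0) (XT.lf (nat_lit 0) (nat_lit 3544605896) (nat_lit 608) (nat_lit 2701348195) (nat_lit 684) (nat_lit 3562124592) (nat_lit 269) (nat_lit 5) (nat_lit 277) (nat_lit 5) (nat_lit 278) (nat_lit 5) (nat_lit 447) (nat_lit 402) (nat_lit 351)) (XT.lf (nat_lit 0) (nat_lit 615044337) (nat_lit 684) (nat_lit 6410503528) (nat_lit 76) (nat_lit 2931289704) (nat_lit 260) (nat_lit 5) (nat_lit 269) (nat_lit 5) (nat_lit 261) (nat_lit 5) (nat_lit 448) (nat_lit 402) (nat_lit 350)))) (XT.nd (nat_lit 78) (nat_lit 1140) (nat_lit 0) (XT.lf (nat_lit 0) (nat_lit 3542831916) (nat_lit 532) (nat_lit 1343741311) (nat_lit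 608) (nat_lit 5222670952) (nat_lit 253) (nat_lit 5) (nat_lit 260) (nat_lit 5) (nat_lit 261) (nat_lit 5) (nat_lit 449) (nat_lit 402) (nat_lit 349)) (XT.nd (nat_lit 78) (nat_lit 608) (nat_lit 0) (XT.lf (nat_lit 0) (nat_lit 3545947763) (nat_lit 532) (nat_lit 5770929560) (nat_lit 608) (nat_lit 948737616) (nat_lit 246) (nat_lit 5) (nat_lit 253) (nat_lit 5) (nat_lit 254) (nat_lit 5) (nat_lit 450) (nat_lit 402) (nat_lit 348)) (XT.lf (nat_lit 0) (nat_lit 3421348498) (nat_lit 608) (nat_lit 6873766074) (nat_lit 76) (nat_lit 130853592) (nat_lit 238) (nat_lit 5) (nat_lit 246) (nat_lit 5) (nat_lit 239) (nat_lit 5) (nat_lit 451) (nat_lit 402) (nat_lit 347))))) (XT.nd (nat_lit 234) (nat_lit 1976) (nat_lit 0) (XT.nd (nat_lit 78) (nat_lit 1064) (nat_lit 0) (XT.lf (nat_lit 0) (nat_lit 3547992472) (nat_lit 532) (nat_lit 4405882738) (nat_lit 608) (nat_lit 2636250992) (nat_lit 231) (nat_lit 5) (nat_lit 238) (nat_lit 5)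 (nat_lit 239) (nat_lit 5) (nat_lit 452) (nat_lit 402) (nat_lit 346)) (XT.nd (nat_lit 78) (nat_lit 532) (nat_lit 0) (XT.lf (nat_lit 0) (nat_lit 1857497661) (nat_lit 532) (nat_lit 7204110978) (nat_lit 76) (nat_lit 1696987100) (nat_lit 224) (nat_lit 5) (nat_lit 231) (nat_lit 5) (nat_lit 225) (nat_lit 5) (nat_lit 453) (nat_lit 402) (nat_lit 345)) (XT.lf (nat_lit 0) (nat_lit 3546971113) (nat_lit 532) (nat_lit 2942673840) (nat_lit 608) (nat_lit 4441341723) (nat_lit 217) (nat_lit 5) (nat_lit 224) (nat_lit 5) (nat_lit 225) (nat_lit 5) (nat_lit 454) (nat_lit 402) (nat_lit 344)))) (XT.nd (nat_lit 156) (nat_lit 988) (nat_lit 0) (XT.nd (nat_lit 78) (nat_lit 456) (nat_lit 0) (XT.lf (nat_lit 0) (nat_lit 184177298) (nat_lit 532) (nat_lit 7559056192) (nat_lit 76) (nat_lit 3364620449) (nat_lit 210) (nat_lit 5) (nat_lit 217) (nat_lit 5) (nat_lit 211) (nat_lit 5) (nat_lit 455) (nat_lit 402) (nat_lit 343)) (XT.lf (nat_lit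 0) (nat_lit 3532855054) (nat_lit 456) (nat_lit 1389148167) (nat_lit 532) (nat_lit 6366762800) (nat_lit 204) (nat_lit 5) (nat_lit 210) (nat_lit 5) (nat_lit 211) (nat_lit 5) (nat_lit 456) (nat_lit 402) (nat_lit 342))) (XT.nd (nat_lit 78) (nat_lit 532) (nat_lit 0) (XT.lf (nat_lit 0) (nat_lit 3514162819) (nat_lit 456) (nat_lit 6337224509) (nat_lit 532) (nat_lit 1622733144) (nat_lit 198) (nat_lit 5) (nat_lit 204) (nat_lit 5) (nat_lit 205) (nat_lit 5) (nat_lit 457) (nat_lit 402) (nat_lit 341)) (XT.lf (nat_lit 0) (nat_lit 3249653732) (nat_lit 532) (nat_lit 8170560110) (nat_lit 76) (nat_lit 243824448) (nat_lit 191) (nat_lit 5) (nat_lit 198) (nat_lit 5) (nat_lit 192) (nat_lit 5) (nat_lit 458) (nat_lit 402) (nat_lit 340))))))) (XT.nd (nat_lit 1014) (nat_lit 3572) (nat_lit 0) (XT.nd (nat_lit 468) (nat_lit 2584) (nat_lit 0) (XT.nd (nat_lit 234) (nat_lit 1216) (nat_lit 0) (XT.nd (nat_lit 78) (nat_lit 912) (nat_lit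 0) (XT.lf (nat_lit 0) (nat_lit 3448531159) (nat_lit 380) (nat_lit 4860142382) (nat_lit 456) (nat_lit 3549518631) (nat_lit 186) (nat_lit 5) (nat_lit 191) (nat_lit 5) (nat_lit 192) (nat_lit 5) (nat_lit 459) (nat_lit 402) (nat_lit 339)) (XT.nd (nat_lit 78) (nat_lit 380) (nat_lit 0) (XT.lf (nat_lit 0) (nat_lit 1476857875) (nat_lit 532) (nat_lit 8647644719) (nat_lit 76) (nat_lit 1932786785) (nat_lit 179) (nat_lit 5) (nat_lit 186) (nat_lit 5) (nat_lit 180) (nat_lit 5) (nat_lit 460) (nat_lit 402) (nat_lit 338)) (XT.lf (nat_lit 0) (nat_lit 3341671302) (nat_lit 380) (nat_lit 3320946723) (nat_lit 456) (nat_lit 5598138872) (nat_lit 174) (nat_lit 5) (nat_lit 179) (nat_lit 5) (nat_lit 180) (nat_lit 5) (nat_lit 461) (nat_lit 402) (nat_lit 337)))) (XT.nd (nat_lit 78) (nat_lit 836) (nat_lit 0) (XT.lf (nat_lit 0) (nat_lit 3276003822) (nat_lit 380) (nat_lit 8778013323) (nat_lit 456) (nat_lit 415312855) (nat_lit 169)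 (nat_lit 5) (nat_lit 174) (nat_lit 5) (nat_lit 175) (nat_lit 5) (nat_lit 462) (nat_lit 402) (nat_lit 336)) (XT.nd (nat_lit 78) (nat_lit 380) (nat_lit 0) (XT.lf (nat_lit 0) (nat_lit 3181340195) (nat_lit 380) (nat_lit 1727362072) (nat_lit 456) (nat_lit 7773816097) (nat_lit 163) (nat_lit 5) (nat_lit 168) (nat_lit 5) (nat_lit 169) (nat_lit 5) (nat_lit 463) (nat_lit 402) (nat_lit 335)) (XT.lf (nat_lit 0) (nat_lit 3071962736) (nat_lit 380) (nat_lit 7380872990) (nat_lit 456) (nat_lit 2447893606) (nat_lit 158) (nat_lit 5) (nat_lit 163) (nat_lit 5) (nat_lit 164) (nat_lit 5) (nat_lit 464) (nat_lit 402) (nat_lit 334))))) (XT.nd (nat_lit 234) (nat_lit 1368) (nat_lit 0) (XT.nd (nat_lit 78) (nat_lit 760) (nat_lit 0) (XT.lf (nat_lit 0) (nat_lit 2954396328) (nat_lit 380) (nat_lit 87196940) (nat_lit 456) (nat_lit 10082628866) (nat_lit 152) (nat_lit 5) (nat_lit 157) (nat_lit 5) (nat_lit 158) (nat_lit 5) (nat_lit 465)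 (nat_lit 402) (nat_lit 333)) (XT.nd (nat_lit 78) (nat_lit 380) (nat_lit 0) (XT.lf (nat_lit 0) (nat_lit 2793797636) (nat_lit 380) (nat_lit 5951188061) (nat_lit 456) (nat_lit 4607463309) (nat_lit 147) (nat_lit 5) (nat_lit 152) (nat_lit 5) (nat_lit 153) (nat_lit 5) (nat_lit 466) (nat_lit 402) (nat_lit 332)) (XT.lf (nat_lit 0) (nat_lit 1065430535) (nat_lit 380) (nat_lit 10950324001) (nat_lit 76) (nat_lit 1570696333) (nat_lit 142) (nat_lit 5) (nat_lit 147) (nat_lit 5) (nat_lit 143) (nat_lit 5) (nat_lit 467) (nat_lit 402) (nat_lit 331)))) (XT.nd (nat_lit 156) (nat_lit 684) (nat_lit 0) (XT.nd (nat_lit 78) (nat_lit 304) (nat_lit 0) (XT.lf (nat_lit 0) (nat_lit 2426770393) (nat_lit 380) (nat_lit 4497387116) (nat_lit 456) (nat_lit 6901143574) (nat_lit 137) (nat_lit 5) (nat_lit 142) (nat_lit 5) (nat_lit 143) (nat_lit 5) (nat_lit 468) (nat_lit 402) (nat_lit 330)) (XT.lf (nat_lit 0) (nat_lit 2213990716) (nat_lit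 304) (nat_lit 10805864944) (nat_lit 380) (nat_lit 1050239165) (nat_lit 133) (nat_lit 5) (nat_lit 137) (nat_lit 5) (nat_lit 138) (nat_lit 5) (nat_lit 469) (nat_lit 402) (nat_lit 329))) (XT.nd (nat_lit 78) (nat_lit 304) (nat_lit 0) (XT.lf (nat_lit 0) (nat_lit 1954889284) (nat_lit 304) (nat_lit 3028223766) (nat_lit 380) (nat_lit 9337031570) (nat_lit 128) (nat_lit 5) (nat_lit 132) (nat_lit 5) (nat_lit 133) (nat_lit 5) (nat_lit 470) (nat_lit 402) (nat_lit 328)) (XT.lf (nat_lit 0) (nat_lit 1670847011) (nat_lit 304) (nat_lit 9588886476) (nat_lit 380) (nat_lit 3316294895) (nat_lit 124) (nat_lit 5) (nat_lit 128) (nat_lit 5) (nat_lit 129) (nat_lit 5) (nat_lit 471) (nat_lit 402) (nat_lit 327)))))) (XT.nd (nat_lit 468) (nat_lit 1900) (nat_lit 0) (XT.nd (nat_lit 234) (nat_lit 608) (nat_lit 0) (XT.nd (nat_lit 78) (nat_lit 684) (nat_lit 0) (XT.lf (nat_lit 0) (nat_lit 1360746027) (nat_lit 304) (nat_lit 1552874128)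 (nat_lit 380) (nat_lit 11924267922) (nat_lit 119) (nat_lit 5) (nat_lit 123) (nat_lit 5) (nat_lit 124) (nat_lit 5) (nat_lit 472) (nat_lit 402) (nat_lit 326)) (XT.nd (nat_lit 78) (nat_lit 380) (nat_lit 0) (XT.lf (nat_lit 0) (nat_lit 995663499) (nat_lit 304) (nat_lit 8381771375) (nat_lit 380) (nat_lit 5727891006) (nat_lit 115) (nat_lit 5) (nat_lit 119) (nat_lit 5) (nat_lit 120) (nat_lit 5) (nat_lit 473) (nat_lit 402) (nat_lit 325)) (XT.lf (nat_lit 0) (nat_lit 625338036) (nat_lit 304) (nat_lit 81040273) (nat_lit 380) (nat_lit 14673113664) (nat_lit 110) (nat_lit 5) (nat_lit 114) (nat_lit 5) (nat_lit 115) (nat_lit 5) (nat_lit 474) (nat_lit 402) (nat_lit 324)))) (XT.nd (nat_lit 78) (nat_lit 380) (nat_lit 0) (XT.lf (nat_lit 0) (nat_lit 168567204) (nat_lit 228) (nat_lit 7194921775) (nat_lit 304) (nat_lit 8295485927) (nat_lit 107) (nat_lit 5) (nat_lit 110) (nat_lit 5) (nat_lit 111) (nat_lit 5) (nat_lit 475)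 (nat_lit 402) (nat_lit 323)) (XT.nd (nat_lit 78) (nat_lit 380) (nat_lit 0) (XT.lf (nat_lit 0) (nat_lit 14285553033) (nat_lit 304) (nat_lit 288417806) (nat_lit 76) (nat_lit 1371568379) (nat_lit 107) (nat_lit 5) (nat_lit 111) (nat_lit 5) (nat_lit 108) (nat_lit 5) (nat_lit 476) (nat_lit 402) (nat_lit 322)) (XT.lf (nat_lit 0) (nat_lit 5212648154) (nat_lit 380) (nat_lit 821294509) (nat_lit 76) (nat_lit 10203968770) (nat_lit 102) (nat_lit 5) (nat_lit 107) (nat_lit 5) (nat_lit 103) (nat_lit 5) (nat_lit 477) (nat_lit 402) (nat_lit 321))))) (XT.nd (nat_lit 234) (nat_lit 1064) (nat_lit 0) (XT.nd (nat_lit 78) (nat_lit 608) (nat_lit 0) (XT.lf (nat_lit 0) (nat_lit 12345320150) (nat_lit 304) (nat_lit 1382497206) (nat_lit 76) (nat_lit 2809491342) (nat_lit 99) (nat_lit 5) (nat_lit 103) (nat_lit 5) (nat_lit 100) (nat_lit 5) (nat_lit 478) (nat_lit 402) (nat_lit 320)) (XT.nd (nat_lit 78) (nat_lit 228) (nat_lit 0) (XT.lf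 (nat_lit 0) (nat_lit 2909956102) (nat_lit 380) (nat_lit 2003918259) (nat_lit 76) (nat_lit 11929425388) (nat_lit 94) (nat_lit 5) (nat_lit 99) (nat_lit 5) (nat_lit 95) (nat_lit 5) (nat_lit 479) (nat_lit 402) (nat_lit 319)) (XT.lf (nat_lit 0) (nat_lit 10258028790) (nat_lit 304) (nat_lit 2684604353) (nat_lit 76) (nat_lit 4213484202) (nat_lit 91) (nat_lit 5) (nat_lit 95) (nat_lit 5) (nat_lit 92) (nat_lit 5) (nat_lit 480) (nat_lit 402) (nat_lit 318)))) (XT.nd (nat_lit 156) (nat_lit 532) (nat_lit 0) (XT.nd (nat_lit 78) (nat_lit 228) (nat_lit 0) (XT.lf (nat_lit 0) (nat_lit 441168196) (nat_lit 304) (nat_lit 3407415296) (nat_lit 76) (nat_lit 13627741916) (nat_lit 87) (nat_lit 5) (nat_lit 91) (nat_lit 5) (nat_lit 88) (nat_lit 5) (nat_lit 481) (nat_lit 402) (nat_lit 317)) (XT.lf (nat_lit 0) (nat_lit 8010257832) (nat_lit 304) (nat_lit 4221906560) (nat_lit 76) (nat_lit 5570997265) (nat_lit 84) (nat_lit 5) (nat_lit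 88) (nat_lit 5) (nat_lit 85) (nat_lit 5) (nat_lit 482) (nat_lit 402) (nat_lit 316))) (XT.nd (nat_lit 78) (nat_lit 304) (nat_lit 0) (XT.lf (nat_lit 0) (nat_lit 13063119366) (nat_lit 228) (nat_lit 2837097992) (nat_lit 304) (nat_lit 2237710987) (nat_lit 81) (nat_lit 5) (nat_lit 84) (nat_lit 5) (nat_lit 85) (nat_lit 5) (nat_lit 483) (nat_lit 402) (nat_lit 315)) (XT.lf (nat_lit 0) (nat_lit 5587042780) (nat_lit 304) (nat_lit 6024308618) (nat_lit 76) (nat_lit 6868355596) (nat_lit 77) (nat_lit 5) (nat_lit 81) (nat_lit 5) (nat_lit 78) (nat_lit 5) (nat_lit 484) (nat_lit 402) (nat_lit 314))))))))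
noncomputable def xc44 : XT := (XT.nd (nat_lit 57720) (nat_lit 0) (nat_lit 15580) (XT.nd (nat_lit 56706) (nat_lit 0) (nat_lit 39824) (XT.nd (nat_lit 56238) (nat_lit 0) (nat_lit 50540) (XT.nd (nat_lit 234) (nat_lit 228) (nat_lit 0) (XT.nd (nat_lit 78) (nat_lit 532) (nat_lit 0) (XT.lf (nat_lit 0) (nat_lit 11802468037) (nat_lit 228) (nat_lit 1905053064) (nat_lit 304) (nat_lit 5122095601) (nat_lit 74) (nat_lit 5) (nat_lit 77) (nat_lit 5) (nat_lit 78) (nat_lit 5) (nat_lit 485) (nat_lit 402) (nat_lit 313)) (XT.nd (nat_lit 78) (nat_lit 228) (nat_lit 0) (XT.lf (nat_lit 0) (nat_lit 2971732807) (nat_lit 304) (nat_lit 8124757457) (nat_lit 76) (nat_lit 8090601688) (nat_lit 70) (nat_lit 5) (nat_lit 74) (nat_lit 5) (nat_lit 71) (nat_lit 5) (nat_lit 486) (nat_lit 402) (nat_lit 312)) (XT.lf (nat_lit 0) (nat_lit 10256588728) (nat_lit 228) (nat_lit 1071805885) (nat_lit 304) (nat_lit 8224428656) (nat_lit 67) (nat_lit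 5) (nat_lit 70) (nat_lit 5) (nat_lit 71) (nat_lit 5) (nat_lit 487) (nat_lit 402) (nat_lit 311)))) (XT.nd (nat_lit 55848) (nat_lit 0) (nat_lit 52744) (XT.lf (nat_lit 0) (nat_lit 145831816) (nat_lit 228) (nat_lit 10559577300) (nat_lit 76) (nat_lit 9221323981) (nat_lit 64) (nat_lit 5) (nat_lit 67) (nat_lit 5) (nat_lit 65) (nat_lit 5) (nat_lit 488) (nat_lit 402) (nat_lit 310)) (XT.nd (nat_lit 78) (nat_lit 0) (nat_lit 0) (XT.lf (nat_lit 0) (nat_lit 232870376) (nat_lit 0) (nat_lit 232870376) (nat_lit 380) (nat_lit 2774527726) (nat_lit 758) (nat_lit 5) (nat_lit 758) (nat_lit 3) (nat_lit 763) (nat_lit 3) (nat_lit 403) (nat_lit 403) (nat_lit 394)) (XT.lf (nat_lit 0) (nat_lit 5067907930) (nat_lit 380) (nat_lit 1186769938) (nat_lit 456) (nat_lit 239958207) (nat_lit 758) (nat_lit 5) (nat_lit 763) (nat_lit 3) (nat_lit 764) (nat_lit 5) (nat_lit 404) (nat_lit 403) (nat_lit 393))))) (XT.nd (nat_lit 234) (nat_lit 1216)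 (nat_lit 0) (XT.nd (nat_lit 78) (nat_lit 532) (nat_lit 0) (XT.lf (nat_lit 0) (nat_lit 2648533214) (nat_lit 456) (nat_lit 2781305413) (nat_lit 532) (nat_lit 1081653909) (nat_lit 752) (nat_lit 5) (nat_lit 758) (nat_lit 5) (nat_lit 759) (nat_lit 5) (nat_lit 405) (nat_lit 403) (nat_lit 392)) (XT.nd (nat_lit 78) (nat_lit 0) (nat_lit 0) (XT.lf (nat_lit 0) (nat_lit 158545164) (nat_lit 532) (nat_lit 4315669694) (nat_lit 608) (nat_lit 2057147537) (nat_lit 745) (nat_lit 5) (nat_lit 752) (nat_lit 5) (nat_lit 753) (nat_lit 5) (nat_lit 406) (nat_lit 403) (nat_lit 391)) (XT.lf (nat_lit 76) (nat_lit 747443988) (nat_lit 0) (nat_lit 3370659605) (nat_lit 608) (nat_lit 2435839580) (nat_lit 746) (nat_lit 5) (nat_lit 745) (nat_lit 5) (nat_lit 753) (nat_lit 5) (nat_lit 407) (nat_lit 403) (nat_lit 390)))) (XT.nd (nat_lit 78) (nat_lit 608) (nat_lit 0) (XT.lf (nat_lit 0) (nat_lit 1476143773) (nat_lit 608) (nat_lit 652063644)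 (nat_lit 684) (nat_lit 4451243238) (nat_lit 737) (nat_lit 5) (nat_lit 745) (nat_lit 5) (nat_lit 746) (nat_lit 5) (nat_lit 408) (nat_lit 403) (nat_lit 389)) (XT.nd (nat_lit 78) (nat_lit 608) (nat_lit 0) (XT.lf (nat_lit 76) (nat_lit 4617522730) (nat_lit 0) (nat_lit 738141072) (nat_lit 684) (nat_lit 1252093689) (nat_lit 738) (nat_lit 5) (nat_lit 737) (nat_lit 5) (nat_lit 746) (nat_lit 5) (nat_lit 409) (nat_lit 403) (nat_lit 388)) (XT.lf (nat_lit 0) (nat_lit 2566371104) (nat_lit 684) (nat_lit 3284749314) (nat_lit 760) (nat_lit 787714761) (nat_lit 729) (nat_lit 5) (nat_lit 738) (nat_lit 5) (nat_lit 739) (nat_lit 5) (nat_lit 410) (nat_lit 403) (nat_lit 387)))))) (XT.nd (nat_lit 468) (nat_lit 7372) (nat_lit 0) (XT.nd (nat_lit 234) (nat_lit 1748) (nat_lit 0) (XT.nd (nat_lit 78) (nat_lit 1596) (nat_lit 0) (XT.lf (nat_lit 76) (nat_lit 2143959002) (nat_lit 0) (nat_lit 4230858232) (nat_lit 760) (nat_lit 298033592)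 (nat_lit 730) (nat_lit 5) (nat_lit 729) (nat_lit 5) (nat_lit 739) (nat_lit 5) (nat_lit 411) (nat_lit 403) (nat_lit 386)) (XT.nd (nat_lit 78) (nat_lit 836) (nat_lit 0) (XT.lf (nat_lit 76) (nat_lit 975780886) (nat_lit 0) (nat_lit 2458027500) (nat_lit 836) (nat_lit 3275806253) (nat_lit 720) (nat_lit 5) (nat_lit 719) (nat_lit 5) (nat_lit 730) (nat_lit 5) (nat_lit 412) (nat_lit 403) (nat_lit 385)) (XT.lf (nat_lit 0) (nat_lit 415178207) (nat_lit 836) (nat_lit 131898868) (nat_lit 912) (nat_lit 6202395350) (nat_lit 708) (nat_lit 5) (nat_lit 719) (nat_lit 5) (nat_lit 720) (nat_lit 5) (nat_lit 413) (nat_lit 403) (nat_lit 384)))) (XT.nd (nat_lit 78) (nat_lit 1824) (nat_lit 0) (XT.lf (nat_lit 0) (nat_lit 4087940383) (nat_lit 836) (nat_lit 1196696052) (nat_lit 76) (nat_lit 1507162902) (nat_lit 709) (nat_lit 5) (nat_lit 720) (nat_lit 5) (nat_lit 710) (nat_lit 5) (nat_lit 414) (nat_lit 403) (nat_lit 383)) (XT.nd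 (nat_lit 78) (nat_lit 912) (nat_lit 0) (XT.lf (nat_lit 0) (nat_lit 928463336) (nat_lit 912) (nat_lit 2211931402) (nat_lit 76) (nat_lit 3696752447) (nat_lit 697) (nat_lit 5) (nat_lit 709) (nat_lit 5) (nat_lit 698) (nat_lit 5) (nat_lit 415) (nat_lit 403) (nat_lit 382)) (XT.lf (nat_lit 0) (nat_lit 3698585834) (nat_lit 912) (nat_lit 841701386) (nat_lit 988) (nat_lit 2345081658) (nat_lit 685) (nat_lit 5) (nat_lit 697) (nat_lit 5) (nat_lit 698) (nat_lit 5) (nat_lit 416) (nat_lit 403) (nat_lit 381))))) (XT.nd (nat_lit 234) (nat_lit 4028) (nat_lit 0) (XT.nd (nat_lit 78) (nat_lit 2280) (nat_lit 0) (XT.lf (nat_lit 0) (nat_lit 1229039470) (nat_lit 1064) (nat_lit 4123309904) (nat_lit 76) (nat_lit 1584111271) (nat_lit 671) (nat_lit 5) (nat_lit 685) (nat_lit 5) (nat_lit 672) (nat_lit 5) (nat_lit 417) (nat_lit 403) (nat_lit 380)) (XT.nd (nat_lit 78) (nat_lit 1216) (nat_lit 0) (XT.lf (nat_lit 0) (nat_lit 1964621975)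 (nat_lit 1064) (nat_lit 2834606998) (nat_lit 1140) (nat_lit 2191147034) (nat_lit 657) (nat_lit 5) (nat_lit 671) (nat_lit 5) (nat_lit 672) (nat_lit 5) (nat_lit 418) (nat_lit 403) (nat_lit 379)) (XT.lf (nat_lit 0) (nat_lit 1164185078) (nat_lit 1140) (nat_lit 165889501) (nat_lit 1216) (nat_lit 5717298287) (nat_lit 641) (nat_lit 5) (nat_lit 656) (nat_lit 5) (nat_lit 657) (nat_lit 5) (nat_lit 419) (nat_lit 403) (nat_lit 378)))) (XT.nd (nat_lit 156) (nat_lit 2736) (nat_lit 0) (XT.nd (nat_lit 78) (nat_lit 76) (nat_lit 0) (XT.lf (nat_lit 0) (nat_lit 387698554) (nat_lit 1216) (nat_lit 4478783542) (nat_lit 1292) (nat_lit 2240535329) (nat_lit 625) (nat_lit 5) (nat_lit 641) (nat_lit 5) (nat_lit 642) (nat_lit 5) (nat_lit 420) (nat_lit 403) (nat_lit 377)) (XT.lf (nat_lit 0) (nat_lit 1251780692) (nat_lit 1292) (nat_lit 339508141) (nat_lit 76) (nat_lit 5578424950) (nat_lit 624) (nat_lit 5) (nat_lit 641) (nat_lit 5)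 (nat_lit 625) (nat_lit 5) (nat_lit 421) (nat_lit 403) (nat_lit 376))) (XT.nd (nat_lit 78) (nat_lit 1444) (nat_lit 0) (XT.lf (nat_lit 0) (nat_lit 4759288242) (nat_lit 1368) (nat_lit 1033116332) (nat_lit 76) (nat_lit 1442785799) (nat_lit 607) (nat_lit 5) (nat_lit 625) (nat_lit 5) (nat_lit 608) (nat_lit 5) (nat_lit 422) (nat_lit 403) (nat_lit 375)) (XT.lf (nat_lit 0) (nat_lit 998038309) (nat_lit 1444) (nat_lit 1692668523) (nat_lit 76) (nat_lit 4612944255) (nat_lit 588) (nat_lit 5) (nat_lit 607) (nat_lit 5) (nat_lit 589) (nat_lit 5) (nat_lit 423) (nat_lit 403) (nat_lit 374))))))) (XT.nd (nat_lit 936) (nat_lit 8664) (nat_lit 0) (XT.nd (nat_lit 468) (nat_lit 5624) (nat_lit 0) (XT.nd (nat_lit 234) (nat_lit 5320) (nat_lit 0) (XT.nd (nat_lit 78) (nat_lit 3192) (nat_lit 0) (XT.lf (nat_lit 0) (nat_lit 4481862157) (nat_lit 1520) (nat_lit 2321948453) (nat_lit 76) (nat_lit 571253449) (nat_lit 569) (nat_lit 5) (nat_lit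 589) (nat_lit 5) (nat_lit 570) (nat_lit 5) (nat_lit 424) (nat_lit 403) (nat_lit 373)) (XT.nd (nat_lit 78) (nat_lit 1596) (nat_lit 0) (XT.lf (nat_lit 0) (nat_lit 570145432) (nat_lit 1596) (nat_lit 2923886744) (nat_lit 76) (nat_lit 3955383448) (nat_lit 548) (nat_lit 5) (nat_lit 569) (nat_lit 5) (nat_lit 549) (nat_lit 5) (nat_lit 425) (nat_lit 403) (nat_lit 372)) (XT.lf (nat_lit 0) (nat_lit 4029986766) (nat_lit 1596) (nat_lit 10128345) (nat_lit 1672) (nat_lit 3486670472) (nat_lit 527) (nat_lit 5) (nat_lit 548) (nat_lit 5) (nat_lit 549) (nat_lit 5) (nat_lit 426) (nat_lit 403) (nat_lit 371)))) (XT.nd (nat_lit 78) (nat_lit 3648) (nat_lit 0) (XT.lf (nat_lit 0) (nat_lit 3561200918) (nat_lit 1672) (nat_lit 4021513204) (nat_lit 1748) (nat_lit 24402514) (nat_lit 505) (nat_lit 5) (nat_lit 527) (nat_lit 5) (nat_lit 528) (nat_lit 5) (nat_lit 427) (nat_lit 403) (nat_lit 370)) (XT.nd (nat_lit 78) (nat_lit 1824) (nat_lit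 0) (XT.lf (nat_lit 0) (nat_lit 3118693406) (nat_lit 1748) (nat_lit 324629270) (nat_lit 1824) (nat_lit 4247124331) (nat_lit 481) (nat_lit 5) (nat_lit 504) (nat_lit 5) (nat_lit 505) (nat_lit 5) (nat_lit 428) (nat_lit 403) (nat_lit 369)) (XT.lf (nat_lit 0) (nat_lit 2701454511) (nat_lit 1824) (nat_lit 4287199114) (nat_lit 1900) (nat_lit 788152121) (nat_lit 457) (nat_lit 5) (nat_lit 481) (nat_lit 5) (nat_lit 482) (nat_lit 5) (nat_lit 429) (nat_lit 403) (nat_lit 368))))) (XT.nd (nat_lit 234) (nat_lit 2584) (nat_lit 0) (XT.nd (nat_lit 78) (nat_lit 1900) (nat_lit 0) (XT.lf (nat_lit 0) (nat_lit 2311525314) (nat_lit 1064) (nat_lit 382738477) (nat_lit 1140) (nat_lit 5172019211) (nat_lit 442) (nat_lit 5) (nat_lit 456) (nat_lit 5) (nat_lit 457) (nat_lit 5) (nat_lit 430) (nat_lit 403) (nat_lit 367)) (XT.nd (nat_lit 78) (nat_lit 988) (nat_lit 0) (XT.lf (nat_lit 0) (nat_lit 1938934025) (nat_lit 912) (nat_lit 4312246728)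 (nat_lit 988) (nat_lit 1707553952) (nat_lit 430) (nat_lit 5) (nat_lit 442) (nat_lit 5) (nat_lit 443) (nat_lit 5) (nat_lit 431) (nat_lit 403) (nat_lit 366)) (XT.lf (nat_lit 0) (nat_lit 1597487841) (nat_lit 912) (nat_lit 201079226) (nat_lit 988) (nat_lit 6255917325) (nat_lit 417) (nat_lit 5) (nat_lit 429) (nat_lit 5) (nat_lit 430) (nat_lit 5) (nat_lit 432) (nat_lit 403) (nat_lit 365)))) (XT.nd (nat_lit 78) (nat_lit 1748) (nat_lit 0) (XT.lf (nat_lit 0) (nat_lit 1262958625) (nat_lit 836) (nat_lit 4112613022) (nat_lit 912) (nat_lit 2777539569) (nat_lit 406) (nat_lit 5) (nat_lit 417) (nat_lit 5) (nat_lit 418) (nat_lit 5) (nat_lit 433) (nat_lit 403) (nat_lit 364)) (XT.nd (nat_lit 78) (nat_lit 836) (nat_lit 0) (XT.lf (nat_lit 0) (nat_lit 762325215) (nat_lit 912) (nat_lit 7290549614) (nat_lit 76) (nat_lit 202371504) (nat_lit 394) (nat_lit 5) (nat_lit 406) (nat_lit 5) (nat_lit 395) (nat_lit 5) (nat_lit 434)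 (nat_lit 403) (nat_lit 363)) (XT.lf (nat_lit 0) (nat_lit 663269269) (nat_lit 836) (nat_lit 3702998316) (nat_lit 912) (nat_lit 3993906103) (nat_lit 383) (nat_lit 5) (nat_lit 394) (nat_lit 5) (nat_lit 395) (nat_lit 5) (nat_lit 435) (nat_lit 403) (nat_lit 362)))))) (XT.nd (nat_lit 468) (nat_lit 4636) (nat_lit 0) (XT.nd (nat_lit 234) (nat_lit 2356) (nat_lit 0) (XT.nd (nat_lit 78) (nat_lit 836) (nat_lit 0) (XT.lf (nat_lit 0) (nat_lit 398902518) (nat_lit 836) (nat_lit 7655208563) (nat_lit 912) (nat_lit 414629630) (nat_lit 372) (nat_lit 5) (nat_lit 383) (nat_lit 5) (nat_lit 384) (nat_lit 5) (nat_lit 436) (nat_lit 403) (nat_lit 361)) (XT.nd (nat_lit 78) (nat_lit 0) (nat_lit 0) (XT.lf (nat_lit 0) (nat_lit 129951358) (nat_lit 760) (nat_lit 3096956446) (nat_lit 836) (nat_lit 5353283283) (nat_lit 361) (nat_lit 5) (nat_lit 371) (nat_lit 5) (nat_lit 372) (nat_lit 5) (nat_lit 437) (nat_lit 403) (nat_lit 360)) (XT.lf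 (nat_lit 0) (nat_lit 6958912788) (nat_lit 836) (nat_lit 110103736) (nat_lit 76) (nat_lit 1626183477) (nat_lit 361) (nat_lit 5) (nat_lit 372) (nat_lit 5) (nat_lit 362) (nat_lit 5) (nat_lit 438) (nat_lit 403) (nat_lit 359)))) (XT.nd (nat_lit 78) (nat_lit 1520) (nat_lit 0) (XT.lf (nat_lit 0) (nat_lit 1962607737) (nat_lit 836) (nat_lit 342095272) (nat_lit 76) (nat_lit 6508714908) (nat_lit 350) (nat_lit 5) (nat_lit 361) (nat_lit 5) (nat_lit 351) (nat_lit 5) (nat_lit 439) (nat_lit 403) (nat_lit 358)) (XT.nd (nat_lit 78) (nat_lit 836) (nat_lit 0) (XT.lf (nat_lit 0) (nat_lit 5746363775) (nat_lit 760) (nat_lit 563599412) (nat_lit 76) (nat_lit 2625046383) (nat_lit 341) (nat_lit 5) (nat_lit 351) (nat_lit 5) (nat_lit 342) (nat_lit 5) (nat_lit 440) (nat_lit 403) (nat_lit 357)) (XT.lf (nat_lit 0) (nat_lit 573766451) (nat_lit 836) (nat_lit 765786590) (nat_lit 76) (nat_lit 7720665593) (nat_lit 330) (nat_lit 5) (nat_lit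 341) (nat_lit 5) (nat_lit 331) (nat_lit 5) (nat_lit 441) (nat_lit 403) (nat_lit 356))))) (XT.nd (nat_lit 234) (nat_lit 2584) (nat_lit 0) (XT.nd (nat_lit 78) (nat_lit 1368) (nat_lit 0) (XT.lf (nat_lit 0) (nat_lit 4415826645) (nat_lit 760) (nat_lit 976037913) (nat_lit 76) (nat_lit 3796701861) (nat_lit 321) (nat_lit 5) (nat_lit 331) (nat_lit 5) (nat_lit 322) (nat_lit 5) (nat_lit 442) (nat_lit 403) (nat_lit 355)) (XT.nd (nat_lit 78) (nat_lit 684) (nat_lit 0) (XT.lf (nat_lit 0) (nat_lit 8162626578) (nat_lit 684) (nat_lit 206720074) (nat_lit 760) (nat_lit 951499773) (nat_lit 312) (nat_lit 5) (nat_lit 321) (nat_lit 5) (nat_lit 322) (nat_lit 5) (nat_lit 443) (nat_lit 403) (nat_lit 354)) (XT.lf (nat_lit 0) (nat_lit 2968539221) (nat_lit 684) (nat_lit 1356568806) (nat_lit 76) (nat_lit 5131138696) (nat_lit 303) (nat_lit 5) (nat_lit 312) (nat_lit 5) (nat_lit 304) (nat_lit 5) (nat_lit 444) (nat_lit 403) (nat_lit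 353)))) (XT.nd (nat_lit 156) (nat_lit 1216) (nat_lit 0) (XT.nd (nat_lit 78) (nat_lit 684) (nat_lit 0) (XT.lf (nat_lit 0) (nat_lit 6993493605) (nat_lit 760) (nat_lit 1534005492) (nat_lit 76) (nat_lit 1068084630) (nat_lit 294) (nat_lit 5) (nat_lit 304) (nat_lit 5) (nat_lit 295) (nat_lit 5) (nat_lit 445) (nat_lit 403) (nat_lit 352)) (XT.lf (nat_lit 0) (nat_lit 1405035231) (nat_lit 684) (nat_lit 1714345379) (nat_lit 76) (nat_lit 6619077444) (nat_lit 285) (nat_lit 5) (nat_lit 294) (nat_lit 5) (nat_lit 286) (nat_lit 5) (nat_lit 446) (nat_lit 403) (nat_lit 351))) (XT.nd (nat_lit 78) (nat_lit 608) (nat_lit 0) (XT.lf (nat_lit 0) (nat_lit 5509796906) (nat_lit 684) (nat_lit 1893826600) (nat_lit 76) (nat_lit 2481400521) (nat_lit 277) (nat_lit 5) (nat_lit 286) (nat_lit 5) (nat_lit 278) (nat_lit 5) (nat_lit 447) (nat_lit 403) (nat_lit 350)) (XT.lf (nat_lit 0) (nat_lit 7975193331) (nat_lit 608) (nat_lit 1781907876)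 (nat_lit 684) (nat_lit 278502544) (nat_lit 269) (nat_lit 5) (nat_lit 277) (nat_lit 5) (nat_lit 278) (nat_lit 5) (nat_lit 448) (nat_lit 403) (nat_lit 349))))))))
noncomputable def xc45 : XT := (XT.nd (nat_lit 1950) (nat_lit 3952) (nat_lit 0) (XT.nd (nat_lit 936) (nat_lit 5092) (nat_lit 0) (XT.nd (nat_lit 468) (nat_lit 2888) (nat_lit 0) (XT.nd (nat_lit 234) (nat_lit 1596) (nat_lit 0) (XT.nd (nat_lit 78) (nat_lit 1140) (nat_lit 0) (XT.lf (nat_lit 0) (nat_lit 3916596627) (nat_lit 684) (nat_lit 2245619744) (nat_lit 76) (nat_lit 4027434036) (nat_lit 260) (nat_lit 5) (nat_lit 269) (nat_lit 5) (nat_lit 261) (nat_lit 5) (nat_lit 449) (nat_lit 403) (nat_lit 348)) (XT.nd (nat_lit 78) (nat_lit 608) (nat_lit 0) (XT.lf (nat_lit 0) (nat_lit 7935625389) (nat_lit 532) (nat_lit 312852552) (nat_lit 608) (nat_lit 2099513851) (nat_lit 253) (nat_lit 5) (nat_lit 260) (nat_lit 5) (nat_lit 261) (nat_lit 5) (nat_lit 450) (nat_lit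 403) (nat_lit 347)) (XT.lf (nat_lit 0) (nat_lit 2212889556) (nat_lit 608) (nat_lit 2598869787) (nat_lit 76) (nat_lit 5698192678) (nat_lit 245) (nat_lit 5) (nat_lit 253) (nat_lit 5) (nat_lit 246) (nat_lit 5) (nat_lit 451) (nat_lit 403) (nat_lit 346)))) (XT.nd (nat_lit 78) (nat_lit 1064) (nat_lit 0) (XT.lf (nat_lit 0) (nat_lit 6643649014) (nat_lit 608) (nat_lit 2778867234) (nat_lit 76) (nat_lit 1253631161) (nat_lit 238) (nat_lit 5) (nat_lit 246) (nat_lit 5) (nat_lit 239) (nat_lit 5) (nat_lit 452) (nat_lit 403) (nat_lit 345)) (XT.nd (nat_lit 78) (nat_lit 456) (nat_lit 0) (XT.lf (nat_lit 0) (nat_lit 396980558) (nat_lit 608) (nat_lit 2963352107) (nat_lit 76) (nat_lit 7486119133) (nat_lit 230) (nat_lit 5) (nat_lit 238) (nat_lit 5) (nat_lit 231) (nat_lit 5) (nat_lit 453) (nat_lit 403) (nat_lit 344)) (XT.lf (nat_lit 0) (nat_lit 4935323957) (nat_lit 532) (nat_lit 3164372676) (nat_lit 76) (nat_lit 2921024031)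 (nat_lit 224) (nat_lit 5) (nat_lit 231) (nat_lit 5) (nat_lit 225) (nat_lit 5) (nat_lit 454) (nat_lit 403) (nat_lit 343))))) (XT.nd (nat_lit 234) (nat_lit 1368) (nat_lit 0) (XT.nd (nat_lit 78) (nat_lit 988) (nat_lit 0) (XT.lf (nat_lit 0) (nat_lit 7840195579) (nat_lit 532) (nat_lit 1805401301) (nat_lit 608) (nat_lit 1553908785) (nat_lit 217) (nat_lit 5) (nat_lit 224) (nat_lit 5) (nat_lit 225) (nat_lit 5) (nat_lit 455) (nat_lit 403) (nat_lit 342)) (XT.nd (nat_lit 78) (nat_lit 456) (nat_lit 0) (XT.lf (nat_lit 0) (nat_lit 3118959239) (nat_lit 532) (nat_lit 3577215201) (nat_lit 76) (nat_lit 4686153553) (nat_lit 210) (nat_lit 5) (nat_lit 217) (nat_lit 5) (nat_lit 211) (nat_lit 5) (nat_lit 456) (nat_lit 403) (nat_lit 341)) (XT.lf (nat_lit 0) (nat_lit 7779173642) (nat_lit 456) (nat_lit 161309931) (nat_lit 532) (nat_lit 3629357730) (nat_lit 204) (nat_lit 5) (nat_lit 210) (nat_lit 5) (nat_lit 211) (nat_lit 5)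 (nat_lit 457) (nat_lit 403) (nat_lit 340)))) (XT.nd (nat_lit 78) (nat_lit 836) (nat_lit 0) (XT.lf (nat_lit 0) (nat_lit 1191325843) (nat_lit 532) (nat_lit 4028282835) (nat_lit 76) (nat_lit 6541973003) (nat_lit 197) (nat_lit 5) (nat_lit 204) (nat_lit 5) (nat_lit 198) (nat_lit 5) (nat_lit 458) (nat_lit 403) (nat_lit 339)) (XT.nd (nat_lit 78) (nat_lit 380) (nat_lit 0) (XT.lf (nat_lit 0) (nat_lit 6140279043) (nat_lit 532) (nat_lit 4276178086) (nat_lit 76) (nat_lit 1541481302) (nat_lit 191) (nat_lit 5) (nat_lit 198) (nat_lit 5) (nat_lit 192) (nat_lit 5) (nat_lit 459) (nat_lit 403) (nat_lit 338)) (XT.lf (nat_lit 0) (nat_lit 7624327471) (nat_lit 380) (nat_lit 3671828843) (nat_lit 456) (nat_lit 862863488) (nat_lit 186) (nat_lit 5) (nat_lit 191) (nat_lit 5) (nat_lit 192) (nat_lit 5) (nat_lit 460) (nat_lit 403) (nat_lit 337)))))) (XT.nd (nat_lit 468) (nat_lit 2508) (nat_lit 0) (XT.nd (nat_lit 234) (nat_lit 1216)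 (nat_lit 0) (XT.nd (nat_lit 78) (nat_lit 836) (nat_lit 0) (XT.lf (nat_lit 0) (nat_lit 4232331547) (nat_lit 532) (nat_lit 4819120586) (nat_lit 76) (nat_lit 3313186287) (nat_lit 179) (nat_lit 5) (nat_lit 186) (nat_lit 5) (nat_lit 180) (nat_lit 5) (nat_lit 461) (nat_lit 403) (nat_lit 336)) (XT.nd (nat_lit 78) (nat_lit 456) (nat_lit 0) (XT.lf (nat_lit 0) (nat_lit 7463552728) (nat_lit 380) (nat_lit 2057256815) (nat_lit 456) (nat_lit 3054461780) (nat_lit 174) (nat_lit 5) (nat_lit 179) (nat_lit 5) (nat_lit 180) (nat_lit 5) (nat_lit 462) (nat_lit 403) (nat_lit 335)) (XT.lf (nat_lit 0) (nat_lit 2210746593) (nat_lit 456) (nat_lit 5431102879) (nat_lit 76) (nat_lit 5148822624) (nat_lit 168) (nat_lit 5) (nat_lit 174) (nat_lit 5) (nat_lit 169) (nat_lit 5) (nat_lit 463) (nat_lit 403) (nat_lit 334)))) (XT.nd (nat_lit 78) (nat_lit 836) (nat_lit 0) (XT.lf (nat_lit 0) (nat_lit 7246559037) (nat_lit 380) (nat_lit 391400602)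 (nat_lit 456) (nat_lit 5373263106) (nat_lit 163) (nat_lit 5) (nat_lit 168) (nat_lit 5) (nat_lit 169) (nat_lit 5) (nat_lit 464) (nat_lit 403) (nat_lit 333)) (XT.nd (nat_lit 78) (nat_lit 380) (nat_lit 0) (XT.lf (nat_lit 0) (nat_lit 69861872) (nat_lit 456) (nat_lit 6125697675) (nat_lit 76) (nat_lit 7041231654) (nat_lit 157) (nat_lit 5) (nat_lit 163) (nat_lit 5) (nat_lit 158) (nat_lit 5) (nat_lit 465) (nat_lit 403) (nat_lit 332)) (XT.lf (nat_lit 0) (nat_lit 5650446721) (nat_lit 456) (nat_lit 6516210696) (nat_lit 76) (nat_lit 1300817983) (nat_lit 152) (nat_lit 5) (nat_lit 158) (nat_lit 5) (nat_lit 153) (nat_lit 5) (nat_lit 466) (nat_lit 403) (nat_lit 331))))) (XT.nd (nat_lit 234) (nat_lit 1368) (nat_lit 0) (XT.nd (nat_lit 78) (nat_lit 760) (nat_lit 0) (XT.lf (nat_lit 0) (nat_lit 6771522421) (nat_lit 380) (nat_lit 4705938174) (nat_lit 456) (nat_lit 2226041622) (nat_lit 147) (nat_lit 5) (nat_lit 152) (nat_lit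 5) (nat_lit 153) (nat_lit 5) (nat_lit 467) (nat_lit 403) (nat_lit 330)) (XT.nd (nat_lit 78) (nat_lit 380) (nat_lit 0) (XT.lf (nat_lit 0) (nat_lit 3545897896) (nat_lit 380) (nat_lit 7375822860) (nat_lit 76) (nat_lit 3023241470) (nat_lit 142) (nat_lit 5) (nat_lit 147) (nat_lit 5) (nat_lit 143) (nat_lit 5) (nat_lit 468) (nat_lit 403) (nat_lit 329)) (XT.lf (nat_lit 0) (nat_lit 6339262651) (nat_lit 380) (nat_lit 3194738174) (nat_lit 456) (nat_lit 4657908103) (nat_lit 137) (nat_lit 5) (nat_lit 142) (nat_lit 5) (nat_lit 143) (nat_lit 5) (nat_lit 469) (nat_lit 403) (nat_lit 328)))) (XT.nd (nat_lit 156) (nat_lit 684) (nat_lit 0) (XT.nd (nat_lit 78) (nat_lit 304) (nat_lit 0) (XT.lf (nat_lit 0) (nat_lit 1314203091) (nat_lit 380) (nat_lit 8357425368) (nat_lit 76) (nat_lit 4772970862) (nat_lit 132) (nat_lit 5) (nat_lit 137) (nat_lit 5) (nat_lit 133) (nat_lit 5) (nat_lit 470) (nat_lit 403) (nat_lit 327)) (XT.lf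 (nat_lit 0) (nat_lit 5798455917) (nat_lit 304) (nat_lit 1671115157) (nat_lit 380) (nat_lit 7233338034) (nat_lit 128) (nat_lit 5) (nat_lit 132) (nat_lit 5) (nat_lit 133) (nat_lit 5) (nat_lit 471) (nat_lit 403) (nat_lit 326))) (XT.nd (nat_lit 78) (nat_lit 380) (nat_lit 0) (XT.lf (nat_lit 0) (nat_lit 5481317911) (nat_lit 304) (nat_lit 8418647207) (nat_lit 380) (nat_lit 1067197694) (nat_lit 124) (nat_lit 5) (nat_lit 128) (nat_lit 5) (nat_lit 129) (nat_lit 5) (nat_lit 472) (nat_lit 403) (nat_lit 325)) (XT.lf (nat_lit 0) (nat_lit 5131303322) (nat_lit 304) (nat_lit 144217001) (nat_lit 380) (nat_lit 9961921637) (nat_lit 119) (nat_lit 5) (nat_lit 123) (nat_lit 5) (nat_lit 124) (nat_lit 5) (nat_lit 473) (nat_lit 403) (nat_lit 324))))))) (XT.nd (nat_lit 1014) (nat_lit 532) (nat_lit 0) (XT.nd (nat_lit 468) (nat_lit 1596) (nat_lit 0) (XT.nd (nat_lit 234) (nat_lit 912) (nat_lit 0) (XT.nd (nat_lit 78) (nat_lit 608)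 (nat_lit 0) (XT.lf (nat_lit 0) (nat_lit 4730305917) (nat_lit 304) (nat_lit 7169923289) (nat_lit 380) (nat_lit 3613336804) (nat_lit 115) (nat_lit 5) (nat_lit 119) (nat_lit 5) (nat_lit 120) (nat_lit 5) (nat_lit 474) (nat_lit 403) (nat_lit 323)) (XT.nd (nat_lit 78) (nat_lit 228) (nat_lit 0) (XT.lf (nat_lit 0) (nat_lit 2951044817) (nat_lit 380) (nat_lit 11487083436) (nat_lit 76) (nat_lit 1358193100) (nat_lit 110) (nat_lit 5) (nat_lit 115) (nat_lit 5) (nat_lit 111) (nat_lit 5) (nat_lit 475) (nat_lit 403) (nat_lit 322)) (XT.lf (nat_lit 0) (nat_lit 3822600783) (nat_lit 228) (nat_lit 5944724355) (nat_lit 304) (nat_lit 6317677011) (nat_lit 107) (nat_lit 5) (nat_lit 110) (nat_lit 5) (nat_lit 111) (nat_lit 5) (nat_lit 476) (nat_lit 403) (nat_lit 321)))) (XT.nd (nat_lit 78) (nat_lit 532) (nat_lit 0) (XT.lf (nat_lit 0) (nat_lit 477121408) (nat_lit 380) (nat_lit 13061533897) (nat_lit 76) (nat_lit 2842103091) (nat_lit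 102) (nat_lit 5) (nat_lit 107) (nat_lit 5) (nat_lit 103) (nat_lit 5) (nat_lit 477) (nat_lit 403) (nat_lit 320)) (XT.nd (nat_lit 78) (nat_lit 304) (nat_lit 0) (XT.lf (nat_lit 0) (nat_lit 2735885007) (nat_lit 228) (nat_lit 4754255660) (nat_lit 304) (nat_lit 9192408799) (nat_lit 99) (nat_lit 5) (nat_lit 102) (nat_lit 5) (nat_lit 103) (nat_lit 5) (nat_lit 478) (nat_lit 403) (nat_lit 319)) (XT.lf (nat_lit 0) (nat_lit 2124424309) (nat_lit 304) (nat_lit 12679028369) (nat_lit 380) (nat_lit 2188145020) (nat_lit 95) (nat_lit 5) (nat_lit 99) (nat_lit 5) (nat_lit 100) (nat_lit 5) (nat_lit 479) (nat_lit 403) (nat_lit 318))))) (XT.nd (nat_lit 234) (nat_lit 988) (nat_lit 0) (XT.nd (nat_lit 78) (nat_lit 304) (nat_lit 0) (XT.lf (nat_lit 0) (nat_lit 1445651414) (nat_lit 228) (nat_lit 3610604386) (nat_lit 304) (nat_lit 12251091720) (nat_lit 91) (nat_lit 5) (nat_lit 94) (nat_lit 5) (nat_lit 95) (nat_lit 5) (nat_lit 480)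 (nat_lit 403) (nat_lit 317)) (XT.nd (nat_lit 78) (nat_lit 76) (nat_lit 0) (XT.lf (nat_lit 0) (nat_lit 709336543) (nat_lit 228) (nat_lit 11882484171) (nat_lit 304) (nat_lit 5038390004) (nat_lit 88) (nat_lit 5) (nat_lit 91) (nat_lit 5) (nat_lit 92) (nat_lit 5) (nat_lit 481) (nat_lit 403) (nat_lit 316)) (XT.lf (nat_lit 0) (nat_lit 2452314931) (nat_lit 304) (nat_lit 74063174) (nat_lit 76) (nat_lit 15434213035) (nat_lit 87) (nat_lit 5) (nat_lit 91) (nat_lit 5) (nat_lit 88) (nat_lit 5) (nat_lit 482) (nat_lit 403) (nat_lit 315)))) (XT.nd (nat_lit 156) (nat_lit 532) (nat_lit 0) (XT.nd (nat_lit 78) (nat_lit 228) (nat_lit 0) (XT.lf (nat_lit 0) (nat_lit 10221437508) (nat_lit 304) (nat_lit 938637841) (nat_lit 76) (nat_lit 7137699838) (nat_lit 84) (nat_lit 5) (nat_lit 88) (nat_lit 5) (nat_lit 85) (nat_lit 5) (nat_lit 483) (nat_lit 403) (nat_lit 314)) (XT.lf (nat_lit 0) (nat_lit 16809616866) (nat_lit 228) (nat_lit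 1502855231) (nat_lit 304) (nat_lit 330827114) (nat_lit 81) (nat_lit 5) (nat_lit 84) (nat_lit 5) (nat_lit 85) (nat_lit 5) (nat_lit 484) (nat_lit 403) (nat_lit 313))) (XT.nd (nat_lit 78) (nat_lit 228) (nat_lit 0) (XT.lf (nat_lit 0) (nat_lit 7676803279) (nat_lit 304) (nat_lit 2850182891) (nat_lit 76) (nat_lit 8468610018) (nat_lit 77) (nat_lit 5) (nat_lit 81) (nat_lit 5) (nat_lit 78) (nat_lit 5) (nat_lit 485) (nat_lit 403) (nat_lit 312)) (XT.lf (nat_lit 0) (nat_lit 15456968528) (nat_lit 228) (nat_lit 549371051) (nat_lit 304) (nat_lit 3350356454) (nat_lit 74) (nat_lit 5) (nat_lit 77) (nat_lit 5) (nat_lit 78) (nat_lit 5) (nat_lit 486) (nat_lit 403) (nat_lit 311)))))) (XT.nd (nat_lit 56316) (nat_lit 0) (nat_lit 47804) (XT.nd (nat_lit 56082) (nat_lit 0) (nat_lit 50844) (XT.nd (nat_lit 78) (nat_lit 228) (nat_lit 0) (XT.lf (nat_lit 0) (nat_lit 4936060126) (nat_lit 304) (nat_lit 5068473051) (nat_lit 76) (nat_lit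 9720613473) (nat_lit 70) (nat_lit 5) (nat_lit 74) (nat_lit 5) (nat_lit 71) (nat_lit 5) (nat_lit 487) (nat_lit 403) (nat_lit 310)) (XT.nd (nat_lit 55926) (nat_lit 0) (nat_lit 51984) (XT.lf (nat_lit 0) (nat_lit 13511836969) (nat_lit 304) (nat_lit 6293701350) (nat_lit 76) (nat_lit 296944874) (nat_lit 67) (nat_lit 5) (nat_lit 71) (nat_lit 5) (nat_lit 68) (nat_lit 5) (nat_lit 488) (nat_lit 403) (nat_lit 309)) (XT.lf (nat_lit 0) (nat_lit 1288652849) (nat_lit 532) (nat_lit 983187676) (nat_lit 532) (nat_lit 983187676) (nat_lit 751) (nat_lit 3) (nat_lit 758) (nat_lit 3) (nat_lit 758) (nat_lit 5) (nat_lit 404) (nat_lit 404) (nat_lit 392)))) (XT.nd (nat_lit 78) (nat_lit 608) (nat_lit 0) (XT.lf (nat_lit 0) (nat_lit 16699102) (nat_lit 532) (nat_lit 3632159789) (nat_lit 608) (nat_lit 2879647107) (nat_lit 744) (nat_lit 5) (nat_lit 751) (nat_lit 3) (nat_lit 752) (nat_lit 5) (nat_lit 405) (nat_lit 404) (nat_lit 391))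 (XT.nd (nat_lit 78) (nat_lit 608) (nat_lit 0) (XT.lf (nat_lit 76) (nat_lit 1294253046) (nat_lit 0) (nat_lit 2604897597) (nat_lit 608) (nat_lit 2650502880) (nat_lit 745) (nat_lit 5) (nat_lit 744) (nat_lit 5) (nat_lit 752) (nat_lit 5) (nat_lit 406) (nat_lit 404) (nat_lit 390)) (XT.lf (nat_lit 0) (nat_lit 1182801254) (nat_lit 608) (nat_lit 243218088) (nat_lit 684) (nat_lit 5147794870) (nat_lit 736) (nat_lit 5) (nat_lit 744) (nat_lit 5) (nat_lit 745) (nat_lit 5) (nat_lit 407) (nat_lit 404) (nat_lit 389))))) (XT.nd (nat_lit 234) (nat_lit 2432) (nat_lit 0) (XT.nd (nat_lit 78) (nat_lit 608) (nat_lit 0) (XT.lf (nat_lit 76) (nat_lit 4886395217) (nat_lit 0) (nat_lit 93819137) (nat_lit 684) (nat_lit 1620454134) (nat_lit 737) (nat_lit 5) (nat_lit 736) (nat_lit 5) (nat_lit 745) (nat_lit 5) (nat_lit 408) (nat_lit 404) (nat_lit 388)) (XT.nd (nat_lit 78) (nat_lit 0) (nat_lit 0) (XT.lf (nat_lit 0) (nat_lit 2122862039)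 (nat_lit 684) (nat_lit 3143287920) (nat_lit 760) (nat_lit 1364118607) (nat_lit 728) (nat_lit 5) (nat_lit 737) (nat_lit 5) (nat_lit 738) (nat_lit 5) (nat_lit 409) (nat_lit 404) (nat_lit 387)) (XT.lf (nat_lit 76) (nat_lit 2141890148) (nat_lit 0) (nat_lit 3700999503) (nat_lit 760) (nat_lit 819944144) (nat_lit 729) (nat_lit 5) (nat_lit 728) (nat_lit 5) (nat_lit 738) (nat_lit 5) (nat_lit 410) (nat_lit 404) (nat_lit 386)))) (XT.nd (nat_lit 156) (nat_lit 1672) (nat_lit 0) (XT.nd (nat_lit 78) (nat_lit 0) (nat_lit 0) (XT.lf (nat_lit 76) (nat_lit 841875159) (nat_lit 0) (nat_lit 1986820094) (nat_lit 836) (nat_lit 3869520733) (nat_lit 719) (nat_lit 5) (nat_lit 718) (nat_lit 5) (nat_lit 729) (nat_lit 5) (nat_lit 411) (nat_lit 404) (nat_lit 385)) (XT.lf (nat_lit 76) (nat_lit 6340853929) (nat_lit 0) (nat_lit 131640516) (nat_lit 836) (nat_lit 264138403) (nat_lit 719) (nat_lit 5) (nat_lit 718) (nat_lit 5) (nat_lit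 729) (nat_lit 5) (nat_lit 412) (nat_lit 404) (nat_lit 384))) (XT.nd (nat_lit 78) (nat_lit 912) (nat_lit 0) (XT.lf (nat_lit 0) (nat_lit 3319335544) (nat_lit 836) (nat_lit 1596087986) (nat_lit 912) (nat_lit 1862044901) (nat_lit 708) (nat_lit 5) (nat_lit 719) (nat_lit 5) (nat_lit 720) (nat_lit 5) (nat_lit 413) (nat_lit 404) (nat_lit 383)) (XT.lf (nat_lit 0) (nat_lit 87017469) (nat_lit 912) (nat_lit 2741398236) (nat_lit 988) (nat_lit 3993025984) (nat_lit 696) (nat_lit 5) (nat_lit 708) (nat_lit 5) (nat_lit 709) (nat_lit 5) (nat_lit 414) (nat_lit 404) (nat_lit 382))))))))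
noncomputable def xc46 : XT := (XT.nd (nat_lit 1950) (nat_lit 13832) (nat_lit 0) (XT.nd (nat_lit 936) (nat_lit 13452) (nat_lit 0) (XT.nd (nat_lit 468) (nat_lit 8664) (nat_lit 0) (XT.nd (nat_lit 234) (nat_lit 2280) (nat_lit 0) (XT.nd (nat_lit 78) (nat_lit 1900) (nat_lit 0) (XT.lf (nat_lit 76) (nat_lit 3015775700) (nat_lit 0) (nat_lit 581650082) (nat_lit 988) (nat_lit 3270749676) (nat_lit 697) (nat_lit 5) (nat_lit 696) (nat_lit 5) (nat_lit 709) (nat_lit 5) (nat_lit 415) (nat_lit 404) (nat_lit 381)) (XT.nd (nat_lit 78) (nat_lit 988) (nat_lit 0) (XT.lf (nat_lit 0) (nat_lit 213854196) (nat_lit 988) (nat_lit 4920964240) (nat_lit 76) (nat_lit 1783051432) (nat_lit 684) (nat_lit 5) (nat_lit 697) (nat_lit 5) (nat_lit 685) (nat_lit 5) (nat_lit 416) (nat_lit 404) (nat_lit 380)) (XT.lf (nat_lit 0) (nat_lit 1009202317) (nat_lit 988) (nat_lit 2667059221) (nat_lit 1064) (nat_lit 3294022105) (nat_lit 671) (nat_lit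 5) (nat_lit 684) (nat_lit 5) (nat_lit 685) (nat_lit 5) (nat_lit 417) (nat_lit 404) (nat_lit 379)))) (XT.nd (nat_lit 78) (nat_lit 1140) (nat_lit 0) (XT.lf (nat_lit 0) (nat_lit 76195732) (nat_lit 1064) (nat_lit 56155726) (nat_lit 1140) (nat_lit 6893565420) (nat_lit 656) (nat_lit 5) (nat_lit 670) (nat_lit 5) (nat_lit 671) (nat_lit 5) (nat_lit 418) (nat_lit 404) (nat_lit 378)) (XT.nd (nat_lit 78) (nat_lit 1140) (nat_lit 0) (XT.lf (nat_lit 0) (nat_lit 3560734551) (nat_lit 1140) (nat_lit 830947889) (nat_lit 76) (nat_lit 2692235607) (nat_lit 656) (nat_lit 5) (nat_lit 671) (nat_lit 5) (nat_lit 657) (nat_lit 5) (nat_lit 419) (nat_lit 404) (nat_lit 377)) (XT.lf (nat_lit 0) (nat_lit 5459772101) (nat_lit 1140) (nat_lit 1557301339) (nat_lit 1216) (nat_lit 128097153) (nat_lit 641) (nat_lit 5) (nat_lit 656) (nat_lit 5) (nat_lit 657) (nat_lit 5) (nat_lit 420) (nat_lit 404) (nat_lit 376))))) (XT.nd (nat_lit 234) (nat_lit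 4636) (nat_lit 0) (XT.nd (nat_lit 78) (nat_lit 2736) (nat_lit 0) (XT.lf (nat_lit 0) (nat_lit 3261480545) (nat_lit 1292) (nat_lit 2519483379) (nat_lit 76) (nat_lit 1428135684) (nat_lit 624) (nat_lit 5) (nat_lit 641) (nat_lit 5) (nat_lit 625) (nat_lit 5) (nat_lit 421) (nat_lit 404) (nat_lit 375)) (XT.nd (nat_lit 78) (nat_lit 1444) (nat_lit 0) (XT.lf (nat_lit 0) (nat_lit 3960926337) (nat_lit 1292) (nat_lit 2731761008) (nat_lit 1368) (nat_lit 583420980) (nat_lit 607) (nat_lit 5) (nat_lit 624) (nat_lit 5) (nat_lit 625) (nat_lit 5) (nat_lit 422) (nat_lit 404) (nat_lit 374)) (XT.lf (nat_lit 0) (nat_lit 2781358603) (nat_lit 1444) (nat_lit 4083731383) (nat_lit 76) (nat_lit 480925938) (nat_lit 588) (nat_lit 5) (nat_lit 607) (nat_lit 5) (nat_lit 589) (nat_lit 5) (nat_lit 423) (nat_lit 404) (nat_lit 373)))) (XT.nd (nat_lit 78) (nat_lit 3192) (nat_lit 0) (XT.lf (nat_lit 0) (nat_lit 2591807698) (nat_lit 1444) (nat_lit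 3603619713) (nat_lit 1520) (nat_lit 1223402235) (nat_lit 569) (nat_lit 5) (nat_lit 588) (nat_lit 5) (nat_lit 589) (nat_lit 5) (nat_lit 424) (nat_lit 404) (nat_lit 372)) (XT.nd (nat_lit 78) (nat_lit 1596) (nat_lit 0) (XT.lf (nat_lit 0) (nat_lit 1956604814) (nat_lit 1520) (nat_lit 173219285) (nat_lit 1596) (nat_lit 5364910084) (nat_lit 548) (nat_lit 5) (nat_lit 568) (nat_lit 5) (nat_lit 569) (nat_lit 5) (nat_lit 425) (nat_lit 404) (nat_lit 371)) (XT.lf (nat_lit 0) (nat_lit 1339521743) (nat_lit 1596) (nat_lit 4193757787) (nat_lit 1672) (nat_lit 2040160118) (nat_lit 527) (nat_lit 5) (nat_lit 548) (nat_lit 5) (nat_lit 549) (nat_lit 5) (nat_lit 426) (nat_lit 404) (nat_lit 370)))))) (XT.nd (nat_lit 468) (nat_lit 6004) (nat_lit 0) (XT.nd (nat_lit 234) (nat_lit 3876) (nat_lit 0) (XT.nd (nat_lit 78) (nat_lit 1824) (nat_lit 0) (XT.lf (nat_lit 0) (nat_lit 759844233) (nat_lit 1672) (nat_lit 554569322) (nat_lit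 1748) (nat_lit 6340958312) (nat_lit 504) (nat_lit 5) (nat_lit 526) (nat_lit 5) (nat_lit 527) (nat_lit 5) (nat_lit 427) (nat_lit 404) (nat_lit 369)) (XT.nd (nat_lit 78) (nat_lit 76) (nat_lit 0) (XT.lf (nat_lit 0) (nat_lit 191854172) (nat_lit 1748) (nat_lit 4521385964) (nat_lit 1824) (nat_lit 3026835329) (nat_lit 481) (nat_lit 5) (nat_lit 504) (nat_lit 5) (nat_lit 505) (nat_lit 5) (nat_lit 428) (nat_lit 404) (nat_lit 368)) (XT.lf (nat_lit 0) (nat_lit 340611747) (nat_lit 1824) (nat_lit 332341856) (nat_lit 76) (nat_lit 7155146229) (nat_lit 480) (nat_lit 5) (nat_lit 504) (nat_lit 5) (nat_lit 481) (nat_lit 5) (nat_lit 429) (nat_lit 404) (nat_lit 367)))) (XT.nd (nat_lit 78) (nat_lit 2052) (nat_lit 0) (XT.lf (nat_lit 0) (nat_lit 3746969110) (nat_lit 1900) (nat_lit 851498065) (nat_lit 76) (nat_lit 3320326464) (nat_lit 456) (nat_lit 5) (nat_lit 481) (nat_lit 5) (nat_lit 457) (nat_lit 5) (nat_lit 430) (nat_lit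 404) (nat_lit 366)) (XT.nd (nat_lit 78) (nat_lit 988) (nat_lit 0) (XT.lf (nat_lit 0) (nat_lit 6680802323) (nat_lit 1064) (nat_lit 537856840) (nat_lit 1140) (nat_lit 794295044) (nat_lit 442) (nat_lit 5) (nat_lit 456) (nat_lit 5) (nat_lit 457) (nat_lit 5) (nat_lit 431) (nat_lit 404) (nat_lit 365)) (XT.lf (nat_lit 0) (nat_lit 2634742884) (nat_lit 988) (nat_lit 1811514359) (nat_lit 76) (nat_lit 3663634292) (nat_lit 429) (nat_lit 5) (nat_lit 442) (nat_lit 5) (nat_lit 430) (nat_lit 5) (nat_lit 432) (nat_lit 404) (nat_lit 364))))) (XT.nd (nat_lit 234) (nat_lit 3344) (nat_lit 0) (XT.nd (nat_lit 78) (nat_lit 1748) (nat_lit 0) (XT.lf (nat_lit 0) (nat_lit 5951854541) (nat_lit 912) (nat_lit 171791692) (nat_lit 988) (nat_lit 2086638152) (nat_lit 417) (nat_lit 5) (nat_lit 429) (nat_lit 5) (nat_lit 430) (nat_lit 5) (nat_lit 433) (nat_lit 404) (nat_lit 363)) (XT.nd (nat_lit 78) (nat_lit 836) (nat_lit 0) (XT.lf (nat_lit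 0) (nat_lit 1379695465) (nat_lit 912) (nat_lit 2701242554) (nat_lit 76) (nat_lit 4232684969) (nat_lit 405) (nat_lit 5) (nat_lit 417) (nat_lit 5) (nat_lit 406) (nat_lit 5) (nat_lit 434) (nat_lit 404) (nat_lit 362)) (XT.lf (nat_lit 0) (nat_lit 4895056324) (nat_lit 912) (nat_lit 3121967953) (nat_lit 76) (nat_lit 403301395) (nat_lit 394) (nat_lit 5) (nat_lit 406) (nat_lit 5) (nat_lit 395) (nat_lit 5) (nat_lit 435) (nat_lit 404) (nat_lit 361)))) (XT.nd (nat_lit 156) (nat_lit 1596) (nat_lit 0) (XT.nd (nat_lit 78) (nat_lit 912) (nat_lit 0) (XT.lf (nat_lit 0) (nat_lit 4999286796) (nat_lit 836) (nat_lit 3516148580) (nat_lit 912) (nat_lit 14810196) (nat_lit 383) (nat_lit 5) (nat_lit 394) (nat_lit 5) (nat_lit 395) (nat_lit 5) (nat_lit 436) (nat_lit 404) (nat_lit 360)) (XT.lf (nat_lit 0) (nat_lit 3536015823) (nat_lit 912) (nat_lit 3932599709) (nat_lit 76) (nat_lit 1174741268) (nat_lit 371) (nat_lit 5) (nat_lit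 383) (nat_lit 5) (nat_lit 372) (nat_lit 5) (nat_lit 437) (nat_lit 404) (nat_lit 359))) (XT.nd (nat_lit 78) (nat_lit 836) (nat_lit 0) (XT.lf (nat_lit 0) (nat_lit 4439406218) (nat_lit 760) (nat_lit 2754480108) (nat_lit 836) (nat_lit 1565965394) (nat_lit 361) (nat_lit 5) (nat_lit 371) (nat_lit 5) (nat_lit 372) (nat_lit 5) (nat_lit 438) (nat_lit 404) (nat_lit 358)) (XT.lf (nat_lit 0) (nat_lit 2047914455) (nat_lit 836) (nat_lit 4698956240) (nat_lit 76) (nat_lit 2132835608) (nat_lit 350) (nat_lit 5) (nat_lit 361) (nat_lit 5) (nat_lit 351) (nat_lit 5) (nat_lit 439) (nat_lit 404) (nat_lit 357))))))) (XT.nd (nat_lit 936) (nat_lit 5852) (nat_lit 0) (XT.nd (nat_lit 468) (nat_lit 3724) (nat_lit 0) (XT.nd (nat_lit 234) (nat_lit 2052) (nat_lit 0) (XT.nd (nat_lit 78) (nat_lit 1520) (nat_lit 0) (XT.lf (nat_lit 0) (nat_lit 3932629091) (nat_lit 684) (nat_lit 1816901234) (nat_lit 760) (nat_lit 3253413497) (nat_lit 341)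 (nat_lit 5) (nat_lit 350) (nat_lit 5) (nat_lit 351) (nat_lit 5) (nat_lit 440) (nat_lit 404) (nat_lit 356)) (XT.nd (nat_lit 78) (nat_lit 684) (nat_lit 0) (XT.lf (nat_lit 0) (nat_lit 432511534) (nat_lit 836) (nat_lit 5430625302) (nat_lit 76) (nat_lit 3266574112) (nat_lit 330) (nat_lit 5) (nat_lit 341) (nat_lit 5) (nat_lit 331) (nat_lit 5) (nat_lit 441) (nat_lit 404) (nat_lit 355)) (XT.lf (nat_lit 0) (nat_lit 3469740048) (nat_lit 684) (nat_lit 714239941) (nat_lit 760) (nat_lit 5075893410) (nat_lit 321) (nat_lit 5) (nat_lit 330) (nat_lit 5) (nat_lit 331) (nat_lit 5) (nat_lit 442) (nat_lit 404) (nat_lit 354)))) (XT.nd (nat_lit 78) (nat_lit 1368) (nat_lit 0) (XT.lf (nat_lit 0) (nat_lit 3247842809) (nat_lit 684) (nat_lit 4819162276) (nat_lit 760) (nat_lit 1326560966) (nat_lit 312) (nat_lit 5) (nat_lit 321) (nat_lit 5) (nat_lit 322) (nat_lit 5) (nat_lit 443) (nat_lit 404) (nat_lit 353)) (XT.nd (nat_lit 78)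 (nat_lit 684) (nat_lit 0) (XT.lf (nat_lit 0) (nat_lit 2501661688) (nat_lit 684) (nat_lit 6492949769) (nat_lit 76) (nat_lit 536340920) (nat_lit 303) (nat_lit 5) (nat_lit 312) (nat_lit 5) (nat_lit 304) (nat_lit 5) (nat_lit 444) (nat_lit 404) (nat_lit 352)) (XT.lf (nat_lit 0) (nat_lit 2822963485) (nat_lit 684) (nat_lit 3629791397) (nat_lit 760) (nat_lit 3219014265) (nat_lit 294) (nat_lit 5) (nat_lit 303) (nat_lit 5) (nat_lit 304) (nat_lit 5) (nat_lit 445) (nat_lit 404) (nat_lit 351))))) (XT.nd (nat_lit 234) (nat_lit 1824) (nat_lit 0) (XT.nd (nat_lit 78) (nat_lit 1216) (nat_lit 0) (XT.lf (nat_lit 0) (nat_lit 704823129) (nat_lit 684) (nat_lit 7190367797) (nat_lit 76) (nat_lit 1921362655) (nat_lit 285) (nat_lit 5) (nat_lit 294) (nat_lit 5) (nat_lit 286) (nat_lit 5) (nat_lit 446) (nat_lit 404) (nat_lit 350)) (XT.nd (nat_lit 78) (nat_lit 608) (nat_lit 0) (XT.lf (nat_lit 0) (nat_lit 2418215846) (nat_lit 608)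 (nat_lit 2307087625) (nat_lit 684) (nat_lit 5239504059) (nat_lit 277) (nat_lit 5) (nat_lit 285) (nat_lit 5) (nat_lit 286) (nat_lit 5) (nat_lit 447) (nat_lit 404) (nat_lit 349)) (XT.lf (nat_lit 0) (nat_lit 2221735854) (nat_lit 608) (nat_lit 6667481495) (nat_lit 684) (nat_lit 1227839993) (nat_lit 269) (nat_lit 5) (nat_lit 277) (nat_lit 5) (nat_lit 278) (nat_lit 5) (nat_lit 448) (nat_lit 404) (nat_lit 348)))) (XT.nd (nat_lit 78) (nat_lit 1140) (nat_lit 0) (XT.lf (nat_lit 0) (nat_lit 2024346886) (nat_lit 608) (nat_lit 859644863) (nat_lit 684) (nat_lit 7389152056) (nat_lit 260) (nat_lit 5) (nat_lit 268) (nat_lit 5) (nat_lit 269) (nat_lit 5) (nat_lit 449) (nat_lit 404) (nat_lit 347)) (XT.nd (nat_lit 78) (nat_lit 608) (nat_lit 0) (XT.lf (nat_lit 0) (nat_lit 1817932018) (nat_lit 532) (nat_lit 5322603262) (nat_lit 608) (nat_lit 3292458772) (nat_lit 253) (nat_lit 5) (nat_lit 260) (nat_lit 5) (nat_lit 261) (nat_lit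 5) (nat_lit 450) (nat_lit 404) (nat_lit 346)) (XT.lf (nat_lit 0) (nat_lit 932046116) (nat_lit 608) (nat_lit 8969943120) (nat_lit 76) (nat_lit 695192842) (nat_lit 245) (nat_lit 5) (nat_lit 253) (nat_lit 5) (nat_lit 246) (nat_lit 5) (nat_lit 451) (nat_lit 404) (nat_lit 345)))))) (XT.nd (nat_lit 468) (nat_lit 2736) (nat_lit 0) (XT.nd (nat_lit 234) (nat_lit 1520) (nat_lit 0) (XT.nd (nat_lit 78) (nat_lit 1064) (nat_lit 0) (XT.lf (nat_lit 0) (nat_lit 1409939998) (nat_lit 532) (nat_lit 3873375183) (nat_lit 608) (nat_lit 5481654040) (nat_lit 238) (nat_lit 5) (nat_lit 245) (nat_lit 5) (nat_lit 246) (nat_lit 5) (nat_lit 452) (nat_lit 404) (nat_lit 344)) (XT.nd (nat_lit 78) (nat_lit 532) (nat_lit 0) (XT.lf (nat_lit 0) (nat_lit 1207817906) (nat_lit 532) (nat_lit 8583561345) (nat_lit 608) (nat_lit 1145889427) (nat_lit 231) (nat_lit 5) (nat_lit 238) (nat_lit 5) (nat_lit 239) (nat_lit 5) (nat_lit 453) (nat_lit 404)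 (nat_lit 343)) (XT.lf (nat_lit 0) (nat_lit 987865066) (nat_lit 456) (nat_lit 2327530146) (nat_lit 532) (nat_lit 7798134675) (nat_lit 224) (nat_lit 5) (nat_lit 230) (nat_lit 5) (nat_lit 231) (nat_lit 5) (nat_lit 454) (nat_lit 404) (nat_lit 342)))) (XT.nd (nat_lit 78) (nat_lit 988) (nat_lit 0) (XT.lf (nat_lit 0) (nat_lit 762250965) (nat_lit 532) (nat_lit 7174702135) (nat_lit 608) (nat_lit 3357137836) (nat_lit 217) (nat_lit 5) (nat_lit 224) (nat_lit 5) (nat_lit 225) (nat_lit 5) (nat_lit 455) (nat_lit 404) (nat_lit 341)) (XT.nd (nat_lit 78) (nat_lit 456) (nat_lit 0) (XT.lf (nat_lit 0) (nat_lit 541391545) (nat_lit 456) (nat_lit 692520343) (nat_lit 532) (nat_lit 10245346552) (nat_lit 210) (nat_lit 5) (nat_lit 216) (nat_lit 5) (nat_lit 217) (nat_lit 5) (nat_lit 456) (nat_lit 404) (nat_lit 340)) (XT.lf (nat_lit 0) (nat_lit 286243570) (nat_lit 456) (nat_lit 5689248237) (nat_lit 532) (nat_lit 5692880446) (nat_lit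 204) (nat_lit 5) (nat_lit 210) (nat_lit 5) (nat_lit 211) (nat_lit 5) (nat_lit 457) (nat_lit 404) (nat_lit 339))))) (XT.nd (nat_lit 234) (nat_lit 1748) (nat_lit 0) (XT.nd (nat_lit 78) (nat_lit 532) (nat_lit 0) (XT.lf (nat_lit 0) (nat_lit 46474026) (nat_lit 456) (nat_lit 10845239836) (nat_lit 532) (nat_lit 970800904) (nat_lit 198) (nat_lit 5) (nat_lit 204) (nat_lit 5) (nat_lit 205) (nat_lit 5) (nat_lit 458) (nat_lit 404) (nat_lit 338)) (XT.nd (nat_lit 78) (nat_lit 456) (nat_lit 0) (XT.lf (nat_lit 0) (nat_lit 3904810996) (nat_lit 532) (nat_lit 228289005) (nat_lit 76) (nat_lit 7927620539) (nat_lit 197) (nat_lit 5) (nat_lit 204) (nat_lit 5) (nat_lit 198) (nat_lit 5) (nat_lit 459) (nat_lit 404) (nat_lit 337)) (XT.lf (nat_lit 0) (nat_lit 8957285697) (nat_lit 532) (nat_lit 502588768) (nat_lit 76) (nat_lit 2803996946) (nat_lit 191) (nat_lit 5) (nat_lit 198) (nat_lit 5) (nat_lit 192) (nat_lit 5) (nat_lit 460)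 (nat_lit 404) (nat_lit 336)))) (XT.nd (nat_lit 156) (nat_lit 836) (nat_lit 0) (XT.nd (nat_lit 78) (nat_lit 456) (nat_lit 0) (XT.lf (nat_lit 0) (nat_lit 1721180028) (nat_lit 456) (nat_lit 791719665) (nat_lit 76) (nat_lit 9958898622) (nat_lit 185) (nat_lit 5) (nat_lit 191) (nat_lit 5) (nat_lit 186) (nat_lit 5) (nat_lit 461) (nat_lit 404) (nat_lit 335)) (XT.lf (nat_lit 0) (nat_lit 6914837299) (nat_lit 532) (nat_lit 1110405981) (nat_lit 76) (nat_lit 4659085692) (nat_lit 179) (nat_lit 5) (nat_lit 186) (nat_lit 5) (nat_lit 180) (nat_lit 5) (nat_lit 462) (nat_lit 404) (nat_lit 334))) (XT.nd (nat_lit 78) (nat_lit 456) (nat_lit 0) (XT.lf (nat_lit 0) (nat_lit 11478232509) (nat_lit 380) (nat_lit 833916258) (nat_lit 456) (nat_lit 590132528) (nat_lit 174) (nat_lit 5) (nat_lit 179) (nat_lit 5) (nat_lit 180) (nat_lit 5) (nat_lit 463) (nat_lit 404) (nat_lit 333)) (XT.lf (nat_lit 0) (nat_lit 4758837794) (nat_lit 456)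 (nat_lit 1790429873) (nat_lit 76) (nat_lit 6575361794) (nat_lit 168) (nat_lit 5) (nat_lit 174) (nat_lit 5) (nat_lit 169) (nat_lit 5) (nat_lit 464) (nat_lit 404) (nat_lit 332))))))))
noncomputable def xc47 : XT := (XT.nd (nat_lit 57798) (nat_lit 0) (nat_lit 29792) (XT.nd (nat_lit 936) (nat_lit 3496) (nat_lit 0) (XT.nd (nat_lit 468) (nat_lit 2052) (nat_lit 0) (XT.nd (nat_lit 234) (nat_lit 1140) (nat_lit 0) (XT.nd (nat_lit 78) (nat_lit 836) (nat_lit 0) (XT.lf (nat_lit 0) (nat_lit 10306753283) (nat_lit 456) (nat_lit 2152782924) (nat_lit 76) (nat_lit 893106414) (nat_lit 163) (nat_lit 5) (nat_lit 169) (nat_lit 5) (nat_lit 164) (nat_lit 5) (nat_lit 465) (nat_lit 404) (nat_lit 331)) (XT.nd (nat_lit 78) (nat_lit 380) (nat_lit 0) (XT.lf (nat_lit 0) (nat_lit 2483235498) (nat_lit 456) (nat_lit 2556464769) (nat_lit 76) (nat_lit 8545851363) (nat_lit 157) (nat_lit 5) (nat_lit 163) (nat_lit 5) (nat_lit 158) (nat_lit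 5) (nat_lit 466) (nat_lit 404) (nat_lit 330)) (XT.lf (nat_lit 0) (nat_lit 8193594565) (nat_lit 456) (nat_lit 2980782925) (nat_lit 76) (nat_lit 2649535162) (nat_lit 152) (nat_lit 5) (nat_lit 158) (nat_lit 5) (nat_lit 153) (nat_lit 5) (nat_lit 467) (nat_lit 404) (nat_lit 329)))) (XT.nd (nat_lit 78) (nat_lit 684) (nat_lit 0) (XT.lf (nat_lit 0) (nat_lit 81106882) (nat_lit 456) (nat_lit 3423410752) (nat_lit 76) (nat_lit 10563401385) (nat_lit 146) (nat_lit 5) (nat_lit 152) (nat_lit 5) (nat_lit 147) (nat_lit 5) (nat_lit 468) (nat_lit 404) (nat_lit 328)) (XT.nd (nat_lit 78) (nat_lit 380) (nat_lit 0) (XT.lf (nat_lit 0) (nat_lit 5960225106) (nat_lit 380) (nat_lit 3918135476) (nat_lit 76) (nat_lit 4438685859) (nat_lit 142) (nat_lit 5) (nat_lit 147) (nat_lit 5) (nat_lit 143) (nat_lit 5) (nat_lit 469) (nat_lit 404) (nat_lit 327)) (XT.lf (nat_lit 0) (nat_lit 10148715812) (nat_lit 380) (nat_lit 1935532194) (nat_lit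 456) (nat_lit 2488031077) (nat_lit 137) (nat_lit 5) (nat_lit 142) (nat_lit 5) (nat_lit 143) (nat_lit 5) (nat_lit 470) (nat_lit 404) (nat_lit 326))))) (XT.nd (nat_lit 234) (nat_lit 988) (nat_lit 0) (XT.nd (nat_lit 78) (nat_lit 684) (nat_lit 0) (XT.lf (nat_lit 0) (nat_lit 3598668427) (nat_lit 380) (nat_lit 4981662646) (nat_lit 76) (nat_lit 6252607813) (nat_lit 132) (nat_lit 5) (nat_lit 137) (nat_lit 5) (nat_lit 133) (nat_lit 5) (nat_lit 471) (nat_lit 404) (nat_lit 325)) (XT.nd (nat_lit 78) (nat_lit 380) (nat_lit 0) (XT.lf (nat_lit 0) (nat_lit 9540059660) (nat_lit 304) (nat_lit 356411848) (nat_lit 380) (nat_lit 5203373821) (nat_lit 128) (nat_lit 5) (nat_lit 132) (nat_lit 5) (nat_lit 133) (nat_lit 5) (nat_lit 472) (nat_lit 404) (nat_lit 324)) (XT.lf (nat_lit 0) (nat_lit 1099936400) (nat_lit 380) (nat_lit 6189672968) (nat_lit 76) (nat_lit 8082926172) (nat_lit 123) (nat_lit 5) (nat_lit 128) (nat_lit 5) (nat_lit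 124) (nat_lit 5) (nat_lit 473) (nat_lit 404) (nat_lit 323)))) (XT.nd (nat_lit 78) (nat_lit 684) (nat_lit 0) (XT.lf (nat_lit 0) (nat_lit 7585653961) (nat_lit 380) (nat_lit 6858665389) (nat_lit 76) (nat_lit 1207120916) (nat_lit 119) (nat_lit 5) (nat_lit 124) (nat_lit 5) (nat_lit 120) (nat_lit 5) (nat_lit 474) (nat_lit 404) (nat_lit 322)) (XT.nd (nat_lit 78) (nat_lit 380) (nat_lit 0) (XT.lf (nat_lit 0) (nat_lit 8364318510) (nat_lit 304) (nat_lit 6005719237) (nat_lit 380) (nat_lit 1566594169) (nat_lit 115) (nat_lit 5) (nat_lit 119) (nat_lit 5) (nat_lit 120) (nat_lit 5) (nat_lit 475) (nat_lit 404) (nat_lit 321)) (XT.lf (nat_lit 0) (nat_lit 5135925592) (nat_lit 380) (nat_lit 8335463338) (nat_lit 76) (nat_lit 2756814130) (nat_lit 110) (nat_lit 5) (nat_lit 115) (nat_lit 5) (nat_lit 111) (nat_lit 5) (nat_lit 476) (nat_lit 404) (nat_lit 320)))))) (XT.nd (nat_lit 468) (nat_lit 1824) (nat_lit 0) (XT.nd (nat_lit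 234) (nat_lit 836) (nat_lit 0) (XT.nd (nat_lit 78) (nat_lit 608) (nat_lit 0) (XT.lf (nat_lit 0) (nat_lit 7376789188) (nat_lit 228) (nat_lit 4741177997) (nat_lit 304) (nat_lit 4408353995) (nat_lit 107) (nat_lit 5) (nat_lit 110) (nat_lit 5) (nat_lit 111) (nat_lit 5) (nat_lit 477) (nat_lit 404) (nat_lit 319)) (XT.nd (nat_lit 78) (nat_lit 228) (nat_lit 0) (XT.lf (nat_lit 0) (nat_lit 2533522322) (nat_lit 380) (nat_lit 10010722897) (nat_lit 76) (nat_lit 4287019382) (nat_lit 102) (nat_lit 5) (nat_lit 107) (nat_lit 5) (nat_lit 103) (nat_lit 5) (nat_lit 478) (nat_lit 404) (nat_lit 318)) (XT.lf (nat_lit 0) (nat_lit 6204765554) (nat_lit 228) (nat_lit 3514677712) (nat_lit 304) (nat_lit 7423418092) (nat_lit 99) (nat_lit 5) (nat_lit 102) (nat_lit 5) (nat_lit 103) (nat_lit 5) (nat_lit 479) (nat_lit 404) (nat_lit 317)))) (XT.nd (nat_lit 78) (nat_lit 532) (nat_lit 0) (XT.lf (nat_lit 0) (nat_lit 5550698533) (nat_lit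 304) (nat_lit 11673614405) (nat_lit 380) (nat_lit 237427049) (nat_lit 95) (nat_lit 5) (nat_lit 99) (nat_lit 5) (nat_lit 100) (nat_lit 5) (nat_lit 480) (nat_lit 404) (nat_lit 316)) (XT.nd (nat_lit 78) (nat_lit 228) (nat_lit 0) (XT.lf (nat_lit 0) (nat_lit 4823093133) (nat_lit 228) (nat_lit 2338455959) (nat_lit 304) (nat_lit 10625879628) (nat_lit 91) (nat_lit 5) (nat_lit 94) (nat_lit 5) (nat_lit 95) (nat_lit 5) (nat_lit 481) (nat_lit 404) (nat_lit 315)) (XT.lf (nat_lit 0) (nat_lit 4040284201) (nat_lit 228) (nat_lit 10856186023) (nat_lit 304) (nat_lit 3224043759) (nat_lit 88) (nat_lit 5) (nat_lit 91) (nat_lit 5) (nat_lit 92) (nat_lit 5) (nat_lit 482) (nat_lit 404) (nat_lit 314))))) (XT.nd (nat_lit 234) (nat_lit 988) (nat_lit 0) (XT.nd (nat_lit 78) (nat_lit 532) (nat_lit 0) (XT.lf (nat_lit 0) (nat_lit 3204095767) (nat_lit 228) (nat_lit 1225815110) (nat_lit 304) (nat_lit 14031355446) (nat_lit 84) (nat_lit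 5) (nat_lit 87) (nat_lit 5) (nat_lit 88) (nat_lit 5) (nat_lit 483) (nat_lit 404) (nat_lit 313)) (XT.nd (nat_lit 78) (nat_lit 304) (nat_lit 0) (XT.lf (nat_lit 0) (nat_lit 2277251808) (nat_lit 228) (nat_lit 10123350083) (nat_lit 304) (nat_lit 6408595913) (nat_lit 81) (nat_lit 5) (nat_lit 84) (nat_lit 5) (nat_lit 85) (nat_lit 5) (nat_lit 484) (nat_lit 404) (nat_lit 312)) (XT.lf (nat_lit 0) (nat_lit 1317292743) (nat_lit 228) (nat_lit 191272346) (nat_lit 304) (nat_lit 17657123074) (nat_lit 77) (nat_lit 5) (nat_lit 80) (nat_lit 5) (nat_lit 81) (nat_lit 5) (nat_lit 485) (nat_lit 404) (nat_lit 311)))) (XT.nd (nat_lit 156) (nat_lit 760) (nat_lit 0) (XT.nd (nat_lit 78) (nat_lit 0) (nat_lit 0) (XT.lf (nat_lit 0) (nat_lit 229595392) (nat_lit 228) (nat_lit 9490812657) (nat_lit 304) (nat_lit 9808734366) (nat_lit 74) (nat_lit 5) (nat_lit 77) (nat_lit 5) (nat_lit 78) (nat_lit 5) (nat_lit 486) (nat_lit 404) (nat_lit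 310)) (XT.lf (nat_lit 0) (nat_lit 18270739654) (nat_lit 304) (nat_lit 875084685) (nat_lit 76) (nat_lit 755834353) (nat_lit 74) (nat_lit 5) (nat_lit 78) (nat_lit 5) (nat_lit 75) (nat_lit 5) (nat_lit 487) (nat_lit 404) (nat_lit 309))) (XT.nd (nat_lit 156) (nat_lit 456) (nat_lit 0) (XT.lf (nat_lit 0) (nat_lit 6851674529) (nat_lit 304) (nat_lit 2109935171) (nat_lit 76) (nat_lit 11319889276) (nat_lit 70) (nat_lit 5) (nat_lit 74) (nat_lit 5) (nat_lit 71) (nat_lit 5) (nat_lit 488) (nat_lit 404) (nat_lit 308)) (XT.lf (nat_lit 0) (nat_lit 3764277930) (nat_lit 228) (nat_lit 4800595623) (nat_lit 76) (nat_lit 12503106844) (nat_lit 64) (nat_lit 5) (nat_lit 67) (nat_lit 5) (nat_lit 65) (nat_lit 5) (nat_lit 490) (nat_lit 404) (nat_lit 306))))))) (XT.nd (nat_lit 1014) (nat_lit 17252) (nat_lit 0) (XT.nd (nat_lit 468) (nat_lit 2584) (nat_lit 0) (XT.nd (nat_lit 234) (nat_lit 1368) (nat_lit 0) (XT.nd (nat_lit 78) (nat_lit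 684) (nat_lit 0) (XT.lf (nat_lit 0) (nat_lit 956547846) (nat_lit 0) (nat_lit 956547846) (nat_lit 532) (nat_lit 1361016297) (nat_lit 744) (nat_lit 5) (nat_lit 744) (nat_lit 3) (nat_lit 751) (nat_lit 3) (nat_lit 405) (nat_lit 405) (nat_lit 390)) (XT.nd (nat_lit 78) (nat_lit 0) (nat_lit 76) (XT.lf (nat_lit 76) (nat_lit 239114921) (nat_lit 0) (nat_lit 796834657) (nat_lit 684) (nat_lit 5535052532) (nat_lit 736) (nat_lit 5) (nat_lit 735) (nat_lit 3) (nat_lit 744) (nat_lit 5) (nat_lit 406) (nat_lit 405) (nat_lit 389)) (XT.lf (nat_lit 0) (nat_lit 4756997524) (nat_lit 608) (nat_lit 1370801826) (nat_lit 684) (nat_lit 468579779) (nat_lit 736) (nat_lit 5) (nat_lit 744) (nat_lit 5) (nat_lit 745) (nat_lit 5) (nat_lit 407) (nat_lit 405) (nat_lit 388)))) (XT.nd (nat_lit 78) (nat_lit 760) (nat_lit 0) (XT.lf (nat_lit 0) (nat_lit 1827441356) (nat_lit 684) (nat_lit 2931425571) (nat_lit 760) (nat_lit 1865693981) (nat_lit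 727) (nat_lit 5) (nat_lit 736) (nat_lit 5) (nat_lit 737) (nat_lit 5) (nat_lit 408) (nat_lit 405) (nat_lit 387)) (XT.nd (nat_lit 78) (nat_lit 760) (nat_lit 0) (XT.lf (nat_lit 76) (nat_lit 2213404088) (nat_lit 0) (nat_lit 3249923643) (nat_lit 760) (nat_lit 1192356194) (nat_lit 728) (nat_lit 5) (nat_lit 727) (nat_lit 5) (nat_lit 737) (nat_lit 5) (nat_lit 409) (nat_lit 405) (nat_lit 386)) (XT.lf (nat_lit 76) (nat_lit 780908855) (nat_lit 0) (nat_lit 1594489806) (nat_lit 836) (nat_lit 4314275513) (nat_lit 718) (nat_lit 5) (nat_lit 717) (nat_lit 5) (nat_lit 728) (nat_lit 5) (nat_lit 410) (nat_lit 405) (nat_lit 385))))) (XT.nd (nat_lit 234) (nat_lit 1824) (nat_lit 0) (XT.nd (nat_lit 78) (nat_lit 836) (nat_lit 0) (XT.lf (nat_lit 0) (nat_lit 5931802751) (nat_lit 760) (nat_lit 591362334) (nat_lit 836) (nat_lit 203423509) (nat_lit 718) (nat_lit 5) (nat_lit 728) (nat_lit 5) (nat_lit 729) (nat_lit 5) (nat_lit 411)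 (nat_lit 405) (nat_lit 384)) (XT.nd (nat_lit 78) (nat_lit 0) (nat_lit 0) (XT.lf (nat_lit 0) (nat_lit 2705383891) (nat_lit 836) (nat_lit 1923177225) (nat_lit 912) (nat_lit 2137455030) (nat_lit 707) (nat_lit 5) (nat_lit 718) (nat_lit 5) (nat_lit 719) (nat_lit 5) (nat_lit 412) (nat_lit 405) (nat_lit 383)) (XT.lf (nat_lit 76) (nat_lit 3605455294) (nat_lit 0) (nat_lit 2594816881) (nat_lit 912) (nat_lit 608256066) (nat_lit 708) (nat_lit 5) (nat_lit 707) (nat_lit 5) (nat_lit 719) (nat_lit 5) (nat_lit 413) (nat_lit 405) (nat_lit 382)))) (XT.nd (nat_lit 156) (nat_lit 912) (nat_lit 0) (XT.nd (nat_lit 78) (nat_lit 0) (nat_lit 76) (XT.lf (nat_lit 76) (nat_lit 2408064936) (nat_lit 0) (nat_lit 405091035) (nat_lit 988) (nat_lit 4040710675) (nat_lit 696) (nat_lit 5) (nat_lit 695) (nat_lit 5) (nat_lit 708) (nat_lit 5) (nat_lit 414) (nat_lit 405) (nat_lit 381)) (XT.lf (nat_lit 76) (nat_lit 1251469808) (nat_lit 0) (nat_lit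 4998298404) (nat_lit 988) (nat_lit 652315870) (nat_lit 697) (nat_lit 5) (nat_lit 696) (nat_lit 5) (nat_lit 709) (nat_lit 5) (nat_lit 415) (nat_lit 405) (nat_lit 380))) (XT.nd (nat_lit 78) (nat_lit 0) (nat_lit 0) (XT.lf (nat_lit 76) (nat_lit 129466397) (nat_lit 0) (nat_lit 2585931052) (nat_lit 1064) (nat_lit 4237699389) (nat_lit 684) (nat_lit 5) (nat_lit 683) (nat_lit 5) (nat_lit 697) (nat_lit 5) (nat_lit 416) (nat_lit 405) (nat_lit 379)) (XT.lf (nat_lit 76) (nat_lit 6076910533) (nat_lit 0) (nat_lit 20643205) (nat_lit 1064) (nat_lit 909569055) (nat_lit 684) (nat_lit 5) (nat_lit 683) (nat_lit 5) (nat_lit 697) (nat_lit 5) (nat_lit 417) (nat_lit 405) (nat_lit 378)))))) (XT.nd (nat_lit 468) (nat_lit 10032) (nat_lit 0) (XT.nd (nat_lit 234) (nat_lit 3952) (nat_lit 0) (XT.nd (nat_lit 78) (nat_lit 2280) (nat_lit 0) (XT.lf (nat_lit 0) (nat_lit 2422729355) (nat_lit 1064) (nat_lit 1969116219) (nat_lit 76) (nat_lit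 2671863689) (nat_lit 670) (nat_lit 5) (nat_lit 684) (nat_lit 5) (nat_lit 671) (nat_lit 5) (nat_lit 418) (nat_lit 405) (nat_lit 377)) (XT.nd (nat_lit 78) (nat_lit 1216) (nat_lit 0) (XT.lf (nat_lit 0) (nat_lit 4159941718) (nat_lit 1064) (nat_lit 1605864667) (nat_lit 1140) (nat_lit 1357616784) (nat_lit 656) (nat_lit 5) (nat_lit 670) (nat_lit 5) (nat_lit 671) (nat_lit 5) (nat_lit 419) (nat_lit 405) (nat_lit 376)) (XT.lf (nat_lit 0) (nat_lit 1932626151) (nat_lit 1216) (nat_lit 3929634750) (nat_lit 76) (nat_lit 1323718971) (nat_lit 640) (nat_lit 5) (nat_lit 656) (nat_lit 5) (nat_lit 641) (nat_lit 5) (nat_lit 420) (nat_lit 405) (nat_lit 375)))) (XT.nd (nat_lit 78) (nat_lit 2736) (nat_lit 0) (XT.lf (nat_lit 0) (nat_lit 2384091701) (nat_lit 1216) (nat_lit 2859993100) (nat_lit 1292) (nat_lit 2007342345) (nat_lit 624) (nat_lit 5) (nat_lit 640) (nat_lit 5) (nat_lit 641) (nat_lit 5) (nat_lit 421) (nat_lit 405)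 (nat_lit 374)) (XT.nd (nat_lit 78) (nat_lit 1368) (nat_lit 0) (XT.lf (nat_lit 0) (nat_lit 1253660835) (nat_lit 1368) (nat_lit 5768361595) (nat_lit 76) (nat_lit 297951050) (nat_lit 606) (nat_lit 5) (nat_lit 624) (nat_lit 5) (nat_lit 607) (nat_lit 5) (nat_lit 422) (nat_lit 405) (nat_lit 373)) (XT.lf (nat_lit 0) (nat_lit 735212298) (nat_lit 1368) (nat_lit 3806195891) (nat_lit 1444) (nat_lit 2849790392) (nat_lit 588) (nat_lit 5) (nat_lit 606) (nat_lit 5) (nat_lit 607) (nat_lit 5) (nat_lit 423) (nat_lit 405) (nat_lit 372))))) (XT.nd (nat_lit 234) (nat_lit 6992) (nat_lit 0) (XT.nd (nat_lit 78) (nat_lit 2964) (nat_lit 0) (XT.lf (nat_lit 0) (nat_lit 397188253) (nat_lit 1444) (nat_lit 35699593) (nat_lit 76) (nat_lit 7032822630) (nat_lit 587) (nat_lit 5) (nat_lit 606) (nat_lit 5) (nat_lit 588) (nat_lit 5) (nat_lit 424) (nat_lit 405) (nat_lit 371)) (XT.nd (nat_lit 78) (nat_lit 1520) (nat_lit 0) (XT.lf (nat_lit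 0) (nat_lit 3670919187) (nat_lit 1520) (nat_lit 789567926) (nat_lit 76) (nat_lit 3082243264) (nat_lit 568) (nat_lit 5) (nat_lit 588) (nat_lit 5) (nat_lit 569) (nat_lit 5) (nat_lit 425) (nat_lit 405) (nat_lit 370)) (XT.lf (nat_lit 0) (nat_lit 6121666665) (nat_lit 1520) (nat_lit 870069700) (nat_lit 1596) (nat_lit 631357311) (nat_lit 548) (nat_lit 5) (nat_lit 568) (nat_lit 5) (nat_lit 569) (nat_lit 5) (nat_lit 426) (nat_lit 405) (nat_lit 369)))) (XT.nd (nat_lit 156) (nat_lit 3648) (nat_lit 0) (XT.nd (nat_lit 78) (nat_lit 1672) (nat_lit 0) (XT.lf (nat_lit 0) (nat_lit 2638476963) (nat_lit 1672) (nat_lit 2205093336) (nat_lit 76) (nat_lit 2862602735) (nat_lit 526) (nat_lit 5) (nat_lit 548) (nat_lit 5) (nat_lit 527) (nat_lit 5) (nat_lit 427) (nat_lit 405) (nat_lit 368)) (XT.lf (nat_lit 0) (nat_lit 4916662532) (nat_lit 1672) (nat_lit 1039055420) (nat_lit 1748) (nat_lit 1836795075) (nat_lit 504) (nat_lit 5)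 (nat_lit 526) (nat_lit 5) (nat_lit 527) (nat_lit 5) (nat_lit 428) (nat_lit 405) (nat_lit 367))) (XT.nd (nat_lit 78) (nat_lit 1824) (nat_lit 0) (XT.lf (nat_lit 0) (nat_lit 1445361573) (nat_lit 1824) (nat_lit 3532909686) (nat_lit 76) (nat_lit 2903509720) (nat_lit 480) (nat_lit 5) (nat_lit 504) (nat_lit 5) (nat_lit 481) (nat_lit 5) (nat_lit 429) (nat_lit 405) (nat_lit 366)) (XT.lf (nat_lit 0) (nat_lit 3806166107) (nat_lit 1824) (nat_lit 959777651) (nat_lit 1900) (nat_lit 3208250860) (nat_lit 456) (nat_lit 5) (nat_lit 480) (nat_lit 5) (nat_lit 481) (nat_lit 5) (nat_lit 430) (nat_lit 405) (nat_lit 365))))))))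
noncomputable def xc48 : XT := (XT.nd (nat_lit 1950) (nat_lit 9500) (nat_lit 0) (XT.nd (nat_lit 936) (nat_lit 8056) (nat_lit 0) (XT.nd (nat_lit 468) (nat_lit 3952) (nat_lit 0) (XT.nd (nat_lit 234) (nat_lit 2660) (nat_lit 0) (XT.nd (nat_lit 78) (nat_lit 1824) (nat_lit 0) (XT.lf (nat_lit 0) (nat_lit 96709075) (nat_lit 1140) (nat_lit 4784401197) (nat_lit 76) (nat_lit 3188634041) (nat_lit 441) (nat_lit 5) (nat_lit 456) (nat_lit 5) (nat_lit 442) (nat_lit 5) (nat_lit 431) (nat_lit 405) (nat_lit 364)) (XT.nd (nat_lit 78) (nat_lit 912) (nat_lit 0) (XT.lf (nat_lit 0) (nat_lit 2779191608) (nat_lit 912) (nat_lit 648100359) (nat_lit 988) (nat_lit 4741051286) (nat_lit 429) (nat_lit 5) (nat_lit 441) (nat_lit 5) (nat_lit 442) (nat_lit 5) (nat_lit 432) (nat_lit 405) (nat_lit 363)) (XT.lf (nat_lit 0) (nat_lit 2290355628) (nat_lit 912) (nat_lit 4557874687) (nat_lit 988) (nat_lit 1421868971) (nat_lit 417) (nat_lit 5)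 (nat_lit 429) (nat_lit 5) (nat_lit 430) (nat_lit 5) (nat_lit 433) (nat_lit 405) (nat_lit 362)))) (XT.nd (nat_lit 78) (nat_lit 1748) (nat_lit 0) (XT.lf (nat_lit 0) (nat_lit 1825186752) (nat_lit 836) (nat_lit 118601391) (nat_lit 912) (nat_lit 6431406279) (nat_lit 405) (nat_lit 5) (nat_lit 416) (nat_lit 5) (nat_lit 417) (nat_lit 5) (nat_lit 434) (nat_lit 405) (nat_lit 361)) (XT.nd (nat_lit 78) (nat_lit 912) (nat_lit 0) (XT.lf (nat_lit 0) (nat_lit 1361354555) (nat_lit 836) (nat_lit 4030339328) (nat_lit 912) (nat_lit 3091555913) (nat_lit 394) (nat_lit 5) (nat_lit 405) (nat_lit 5) (nat_lit 406) (nat_lit 5) (nat_lit 435) (nat_lit 405) (nat_lit 360)) (XT.lf (nat_lit 0) (nat_lit 322633662) (nat_lit 912) (nat_lit 7665053021) (nat_lit 76) (nat_lit 607247546) (nat_lit 382) (nat_lit 5) (nat_lit 394) (nat_lit 5) (nat_lit 383) (nat_lit 5) (nat_lit 436) (nat_lit 405) (nat_lit 359))))) (XT.nd (nat_lit 234) (nat_lit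 2280) (nat_lit 0) (XT.nd (nat_lit 78) (nat_lit 836) (nat_lit 0) (XT.lf (nat_lit 0) (nat_lit 488995023) (nat_lit 836) (nat_lit 3312072076) (nat_lit 912) (nat_lit 4908423717) (nat_lit 371) (nat_lit 5) (nat_lit 382) (nat_lit 5) (nat_lit 383) (nat_lit 5) (nat_lit 437) (nat_lit 405) (nat_lit 358)) (XT.nd (nat_lit 78) (nat_lit 76) (nat_lit 0) (XT.lf (nat_lit 0) (nat_lit 75744019) (nat_lit 760) (nat_lit 7297151593) (nat_lit 836) (nat_lit 1454814184) (nat_lit 361) (nat_lit 5) (nat_lit 371) (nat_lit 5) (nat_lit 372) (nat_lit 5) (nat_lit 438) (nat_lit 405) (nat_lit 357)) (XT.lf (nat_lit 0) (nat_lit 2080694148) (nat_lit 836) (nat_lit 332065660) (nat_lit 76) (nat_lit 6536331475) (nat_lit 360) (nat_lit 5) (nat_lit 371) (nat_lit 5) (nat_lit 361) (nat_lit 5) (nat_lit 439) (nat_lit 405) (nat_lit 356)))) (XT.nd (nat_lit 78) (nat_lit 1520) (nat_lit 0) (XT.lf (nat_lit 0) (nat_lit 5704022879) (nat_lit 836) (nat_lit 729818048)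 (nat_lit 76) (nat_lit 2640056595) (nat_lit 350) (nat_lit 5) (nat_lit 361) (nat_lit 5) (nat_lit 351) (nat_lit 5) (nat_lit 440) (nat_lit 405) (nat_lit 355)) (XT.nd (nat_lit 78) (nat_lit 760) (nat_lit 0) (XT.lf (nat_lit 0) (nat_lit 232737679) (nat_lit 760) (nat_lit 1109907956) (nat_lit 76) (nat_lit 7859733770) (nat_lit 340) (nat_lit 5) (nat_lit 350) (nat_lit 5) (nat_lit 341) (nat_lit 5) (nat_lit 441) (nat_lit 405) (nat_lit 354)) (XT.lf (nat_lit 0) (nat_lit 3911965220) (nat_lit 836) (nat_lit 1503258651) (nat_lit 76) (nat_lit 3918765552) (nat_lit 330) (nat_lit 5) (nat_lit 341) (nat_lit 5) (nat_lit 331) (nat_lit 5) (nat_lit 442) (nat_lit 405) (nat_lit 353)))))) (XT.nd (nat_lit 468) (nat_lit 4028) (nat_lit 0) (XT.nd (nat_lit 234) (nat_lit 1976) (nat_lit 0) (XT.nd (nat_lit 78) (nat_lit 1368) (nat_lit 0) (XT.lf (nat_lit 0) (nat_lit 7597757637) (nat_lit 684) (nat_lit 103380695) (nat_lit 760) (nat_lit 1768423454)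 (nat_lit 321) (nat_lit 5) (nat_lit 330) (nat_lit 5) (nat_lit 331) (nat_lit 5) (nat_lit 443) (nat_lit 405) (nat_lit 352)) (XT.nd (nat_lit 78) (nat_lit 608) (nat_lit 0) (XT.lf (nat_lit 0) (nat_lit 1996781977) (nat_lit 760) (nat_lit 2254899437) (nat_lit 76) (nat_lit 5356702862) (nat_lit 311) (nat_lit 5) (nat_lit 321) (nat_lit 5) (nat_lit 312) (nat_lit 5) (nat_lit 444) (nat_lit 405) (nat_lit 351)) (XT.lf (nat_lit 0) (nat_lit 5855188173) (nat_lit 684) (nat_lit 2626373522) (nat_lit 76) (nat_lit 1269495557) (nat_lit 303) (nat_lit 5) (nat_lit 312) (nat_lit 5) (nat_lit 304) (nat_lit 5) (nat_lit 445) (nat_lit 405) (nat_lit 350)))) (XT.nd (nat_lit 78) (nat_lit 1292) (nat_lit 0) (XT.lf (nat_lit 0) (nat_lit 6903126312) (nat_lit 684) (nat_lit 2952139507) (nat_lit 760) (nat_lit 42231076) (nat_lit 294) (nat_lit 5) (nat_lit 303) (nat_lit 5) (nat_lit 304) (nat_lit 5) (nat_lit 446) (nat_lit 405) (nat_lit 349)) (XT.nd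 (nat_lit 78) (nat_lit 608) (nat_lit 0) (XT.lf (nat_lit 0) (nat_lit 3893362505) (nat_lit 684) (nat_lit 3374742665) (nat_lit 76) (nat_lit 2779362250) (nat_lit 285) (nat_lit 5) (nat_lit 294) (nat_lit 5) (nat_lit 286) (nat_lit 5) (nat_lit 447) (nat_lit 405) (nat_lit 348)) (XT.lf (nat_lit 0) (nat_lit 6456694848) (nat_lit 608) (nat_lit 1511257659) (nat_lit 684) (nat_lit 2233553415) (nat_lit 277) (nat_lit 5) (nat_lit 285) (nat_lit 5) (nat_lit 286) (nat_lit 5) (nat_lit 448) (nat_lit 405) (nat_lit 347))))) (XT.nd (nat_lit 234) (nat_lit 2204) (nat_lit 0) (XT.nd (nat_lit 78) (nat_lit 1140) (nat_lit 0) (XT.lf (nat_lit 0) (nat_lit 1813992588) (nat_lit 684) (nat_lit 4125758879) (nat_lit 76) (nat_lit 4419523137) (nat_lit 268) (nat_lit 5) (nat_lit 277) (nat_lit 5) (nat_lit 269) (nat_lit 5) (nat_lit 449) (nat_lit 405) (nat_lit 346)) (XT.nd (nat_lit 78) (nat_lit 532) (nat_lit 0) (XT.lf (nat_lit 0) (nat_lit 5969265136)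 (nat_lit 684) (nat_lit 4503057778) (nat_lit 76) (nat_lit 48829402) (nat_lit 260) (nat_lit 5) (nat_lit 269) (nat_lit 5) (nat_lit 261) (nat_lit 5) (nat_lit 450) (nat_lit 405) (nat_lit 345)) (XT.lf (nat_lit 0) (nat_lit 5795232493) (nat_lit 532) (nat_lit 4501980701) (nat_lit 608) (nat_lit 389716850) (nat_lit 253) (nat_lit 5) (nat_lit 260) (nat_lit 5) (nat_lit 261) (nat_lit 5) (nat_lit 451) (nat_lit 405) (nat_lit 344)))) (XT.nd (nat_lit 156) (nat_lit 1064) (nat_lit 0) (XT.nd (nat_lit 78) (nat_lit 532) (nat_lit 0) (XT.lf (nat_lit 0) (nat_lit 3867662523) (nat_lit 608) (nat_lit 5289250867) (nat_lit 76) (nat_lit 1699836312) (nat_lit 245) (nat_lit 5) (nat_lit 253) (nat_lit 5) (nat_lit 246) (nat_lit 5) (nat_lit 452) (nat_lit 405) (nat_lit 343)) (XT.lf (nat_lit 0) (nat_lit 5337948087) (nat_lit 532) (nat_lit 2952061199) (nat_lit 608) (nat_lit 2740756054) (nat_lit 238) (nat_lit 5) (nat_lit 245) (nat_lit 5) (nat_lit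 246) (nat_lit 5) (nat_lit 453) (nat_lit 405) (nat_lit 342))) (XT.nd (nat_lit 78) (nat_lit 456) (nat_lit 0) (XT.lf (nat_lit 0) (nat_lit 1650835974) (nat_lit 608) (nat_lit 6103805488) (nat_lit 76) (nat_lit 3454406123) (nat_lit 230) (nat_lit 5) (nat_lit 238) (nat_lit 5) (nat_lit 231) (nat_lit 5) (nat_lit 454) (nat_lit 405) (nat_lit 341)) (XT.lf (nat_lit 0) (nat_lit 4863933829) (nat_lit 456) (nat_lit 1309511088) (nat_lit 532) (nat_lit 5218144391) (nat_lit 224) (nat_lit 5) (nat_lit 230) (nat_lit 5) (nat_lit 231) (nat_lit 5) (nat_lit 455) (nat_lit 405) (nat_lit 340))))))) (XT.nd (nat_lit 936) (nat_lit 4028) (nat_lit 0) (XT.nd (nat_lit 468) (nat_lit 2584) (nat_lit 0) (XT.nd (nat_lit 234) (nat_lit 1368) (nat_lit 0) (XT.nd (nat_lit 78) (nat_lit 988) (nat_lit 0) (XT.lf (nat_lit 0) (nat_lit 4616647624) (nat_lit 532) (nat_lit 6268388818) (nat_lit 608) (nat_lit 693508096) (nat_lit 217) (nat_lit 5) (nat_lit 224)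 (nat_lit 5) (nat_lit 225) (nat_lit 5) (nat_lit 456) (nat_lit 405) (nat_lit 339)) (XT.nd (nat_lit 78) (nat_lit 456) (nat_lit 0) (XT.lf (nat_lit 0) (nat_lit 3946982820) (nat_lit 532) (nat_lit 7409894924) (nat_lit 76) (nat_lit 413075918) (nat_lit 210) (nat_lit 5) (nat_lit 217) (nat_lit 5) (nat_lit 211) (nat_lit 5) (nat_lit 457) (nat_lit 405) (nat_lit 338)) (XT.lf (nat_lit 0) (nat_lit 4083822030) (nat_lit 456) (nat_lit 4698141744) (nat_lit 532) (nat_lit 3183758745) (nat_lit 204) (nat_lit 5) (nat_lit 210) (nat_lit 5) (nat_lit 211) (nat_lit 5) (nat_lit 458) (nat_lit 405) (nat_lit 337)))) (XT.nd (nat_lit 78) (nat_lit 836) (nat_lit 0) (XT.lf (nat_lit 0) (nat_lit 1612942058) (nat_lit 532) (nat_lit 8357386762) (nat_lit 76) (nat_lit 2196046969) (nat_lit 197) (nat_lit 5) (nat_lit 204) (nat_lit 5) (nat_lit 198) (nat_lit 5) (nat_lit 459) (nat_lit 405) (nat_lit 336)) (XT.nd (nat_lit 78) (nat_lit 380) (nat_lit 0)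 (XT.lf (nat_lit 0) (nat_lit 3506622232) (nat_lit 456) (nat_lit 3062132250) (nat_lit 532) (nat_lit 5802706829) (nat_lit 191) (nat_lit 5) (nat_lit 197) (nat_lit 5) (nat_lit 198) (nat_lit 5) (nat_lit 460) (nat_lit 405) (nat_lit 335)) (XT.lf (nat_lit 0) (nat_lit 3202222383) (nat_lit 380) (nat_lit 8526237727) (nat_lit 456) (nat_lit 853137684) (nat_lit 186) (nat_lit 5) (nat_lit 191) (nat_lit 5) (nat_lit 192) (nat_lit 5) (nat_lit 461) (nat_lit 405) (nat_lit 334))))) (XT.nd (nat_lit 234) (nat_lit 1216) (nat_lit 0) (XT.nd (nat_lit 78) (nat_lit 836) (nat_lit 0) (XT.lf (nat_lit 0) (nat_lit 2873113229) (nat_lit 456) (nat_lit 1367478153) (nat_lit 532) (nat_lit 8555871495) (nat_lit 179) (nat_lit 5) (nat_lit 185) (nat_lit 5) (nat_lit 186) (nat_lit 5) (nat_lit 462) (nat_lit 405) (nat_lit 333)) (XT.nd (nat_lit 78) (nat_lit 456) (nat_lit 0) (XT.lf (nat_lit 0) (nat_lit 2521444756) (nat_lit 380) (nat_lit 7026046150) (nat_lit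 456) (nat_lit 3468733796) (nat_lit 174) (nat_lit 5) (nat_lit 179) (nat_lit 5) (nat_lit 180) (nat_lit 5) (nat_lit 463) (nat_lit 405) (nat_lit 332)) (XT.lf (nat_lit 0) (nat_lit 1794329178) (nat_lit 456) (nat_lit 11073396986) (nat_lit 76) (nat_lit 373694914) (nat_lit 168) (nat_lit 5) (nat_lit 174) (nat_lit 5) (nat_lit 169) (nat_lit 5) (nat_lit 464) (nat_lit 405) (nat_lit 331)))) (XT.nd (nat_lit 78) (nat_lit 836) (nat_lit 0) (XT.lf (nat_lit 0) (nat_lit 1764259352) (nat_lit 380) (nat_lit 5488103439) (nat_lit 456) (nat_lit 6218870250) (nat_lit 163) (nat_lit 5) (nat_lit 168) (nat_lit 5) (nat_lit 169) (nat_lit 5) (nat_lit 465) (nat_lit 405) (nat_lit 330)) (XT.nd (nat_lit 78) (nat_lit 456) (nat_lit 0) (XT.lf (nat_lit 0) (nat_lit 1365633403) (nat_lit 380) (nat_lit 11561264976) (nat_lit 456) (nat_lit 779988062) (nat_lit 158) (nat_lit 5) (nat_lit 163) (nat_lit 5) (nat_lit 164) (nat_lit 5) (nat_lit 466) (nat_lit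 405) (nat_lit 329)) (XT.lf (nat_lit 0) (nat_lit 916426448) (nat_lit 380) (nat_lit 3920116724) (nat_lit 456) (nat_lit 9110887802) (nat_lit 152) (nat_lit 5) (nat_lit 157) (nat_lit 5) (nat_lit 158) (nat_lit 5) (nat_lit 467) (nat_lit 405) (nat_lit 328)))))) (XT.nd (nat_lit 468) (nat_lit 2204) (nat_lit 0) (XT.nd (nat_lit 234) (nat_lit 1064) (nat_lit 0) (XT.nd (nat_lit 78) (nat_lit 380) (nat_lit 0) (XT.lf (nat_lit 0) (nat_lit 452472201) (nat_lit 380) (nat_lit 10227246065) (nat_lit 456) (nat_lit 3513997689) (nat_lit 147) (nat_lit 5) (nat_lit 152) (nat_lit 5) (nat_lit 153) (nat_lit 5) (nat_lit 468) (nat_lit 405) (nat_lit 327)) (XT.nd (nat_lit 78) (nat_lit 304) (nat_lit 0) (XT.lf (nat_lit 0) (nat_lit 2292851964) (nat_lit 456) (nat_lit 36960552) (nat_lit 76) (nat_lit 12115855266) (nat_lit 146) (nat_lit 5) (nat_lit 152) (nat_lit 5) (nat_lit 147) (nat_lit 5) (nat_lit 469) (nat_lit 405) (nat_lit 326)) (XT.lf (nat_lit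 0) (nat_lit 8314496345) (nat_lit 380) (nat_lit 567904942) (nat_lit 76) (nat_lit 5820547674) (nat_lit 142) (nat_lit 5) (nat_lit 147) (nat_lit 5) (nat_lit 143) (nat_lit 5) (nat_lit 470) (nat_lit 405) (nat_lit 325)))) (XT.nd (nat_lit 78) (nat_lit 684) (nat_lit 0) (XT.lf (nat_lit 0) (nat_lit 13864691361) (nat_lit 380) (nat_lit 716335340) (nat_lit 456) (nat_lit 385639048) (nat_lit 137) (nat_lit 5) (nat_lit 142) (nat_lit 5) (nat_lit 143) (nat_lit 5) (nat_lit 471) (nat_lit 405) (nat_lit 324)) (XT.nd (nat_lit 78) (nat_lit 304) (nat_lit 0) (XT.lf (nat_lit 0) (nat_lit 5822793287) (nat_lit 380) (nat_lit 1712802144) (nat_lit 76) (nat_lit 7699916301) (nat_lit 132) (nat_lit 5) (nat_lit 137) (nat_lit 5) (nat_lit 133) (nat_lit 5) (nat_lit 472) (nat_lit 405) (nat_lit 323)) (XT.lf (nat_lit 0) (nat_lit 12275697720) (nat_lit 380) (nat_lit 2328079542) (nat_lit 76) (nat_lit 907327441) (nat_lit 128) (nat_lit 5) (nat_lit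 133) (nat_lit 5) (nat_lit 129) (nat_lit 5) (nat_lit 473) (nat_lit 405) (nat_lit 322))))) (XT.nd (nat_lit 234) (nat_lit 1140) (nat_lit 0) (XT.nd (nat_lit 78) (nat_lit 684) (nat_lit 0) (XT.lf (nat_lit 0) (nat_lit 3192255485) (nat_lit 380) (nat_lit 3006892560) (nat_lit 76) (nat_lit 9593292100) (nat_lit 123) (nat_lit 5) (nat_lit 128) (nat_lit 5) (nat_lit 124) (nat_lit 5) (nat_lit 474) (nat_lit 405) (nat_lit 321)) (XT.nd (nat_lit 78) (nat_lit 380) (nat_lit 0) (XT.lf (nat_lit 0) (nat_lit 9842474660) (nat_lit 380) (nat_lit 3718499282) (nat_lit 76) (nat_lit 2519341945) (nat_lit 119) (nat_lit 5) (nat_lit 124) (nat_lit 5) (nat_lit 120) (nat_lit 5) (nat_lit 475) (nat_lit 405) (nat_lit 320)) (XT.lf (nat_lit 0) (nat_lit 412356731) (nat_lit 380) (nat_lit 4470642764) (nat_lit 76) (nat_lit 11491766597) (nat_lit 114) (nat_lit 5) (nat_lit 119) (nat_lit 5) (nat_lit 115) (nat_lit 5) (nat_lit 476) (nat_lit 405) (nat_lit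 319)))) (XT.nd (nat_lit 156) (nat_lit 608) (nat_lit 0) (XT.nd (nat_lit 78) (nat_lit 228) (nat_lit 0) (XT.lf (nat_lit 0) (nat_lit 7266013757) (nat_lit 380) (nat_lit 5289992690) (nat_lit 76) (nat_lit 4119446196) (nat_lit 110) (nat_lit 5) (nat_lit 115) (nat_lit 5) (nat_lit 111) (nat_lit 5) (nat_lit 477) (nat_lit 405) (nat_lit 318)) (XT.lf (nat_lit 0) (nat_lit 10840161278) (nat_lit 228) (nat_lit 3580851277) (nat_lit 304) (nat_lit 2562234056) (nat_lit 107) (nat_lit 5) (nat_lit 110) (nat_lit 5) (nat_lit 111) (nat_lit 5) (nat_lit 478) (nat_lit 405) (nat_lit 317))) (XT.nd (nat_lit 78) (nat_lit 228) (nat_lit 0) (XT.lf (nat_lit 0) (nat_lit 4534391099) (nat_lit 380) (nat_lit 7066010163) (nat_lit 76) (nat_lit 5697233505) (nat_lit 102) (nat_lit 5) (nat_lit 107) (nat_lit 5) (nat_lit 103) (nat_lit 5) (nat_lit 479) (nat_lit 405) (nat_lit 316)) (XT.lf (nat_lit 0) (nat_lit 9583296114) (nat_lit 228) (nat_lit 2317256682)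 (nat_lit 304) (nat_lit 5718735424) (nat_lit 99) (nat_lit 5) (nat_lit 102) (nat_lit 5) (nat_lit 103) (nat_lit 5) (nat_lit 480) (nat_lit 405) (nat_lit 315))))))))
noncomputable def xc49 : XT := (XT.nd (nat_lit 57798) (nat_lit 0) (nat_lit 17252) (XT.nd (nat_lit 56784) (nat_lit 0) (nat_lit 43548) (XT.nd (nat_lit 468) (nat_lit 760) (nat_lit 0) (XT.nd (nat_lit 234) (nat_lit 836) (nat_lit 0) (XT.nd (nat_lit 78) (nat_lit 456) (nat_lit 0) (XT.lf (nat_lit 0) (nat_lit 1634345424) (nat_lit 380) (nat_lit 9072274996) (nat_lit 76) (nat_lit 7241424604) (nat_lit 94) (nat_lit 5) (nat_lit 99) (nat_lit 5) (nat_lit 95) (nat_lit 5) (nat_lit 481) (nat_lit 405) (nat_lit 314)) (XT.nd (nat_lit 78) (nat_lit 228) (nat_lit 0) (XT.lf (nat_lit 0) (nat_lit 8110468720) (nat_lit 228) (nat_lit 1107387507) (nat_lit 304) (nat_lit 9066302880) (nat_lit 91) (nat_lit 5) (nat_lit 94) (nat_lit 5) (nat_lit 95) (nat_lit 5) (nat_lit 482) (nat_lit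 405) (nat_lit 313)) (XT.lf (nat_lit 0) (nat_lit 7281171831) (nat_lit 228) (nat_lit 9878475740) (nat_lit 304) (nat_lit 1468094750) (nat_lit 88) (nat_lit 5) (nat_lit 91) (nat_lit 5) (nat_lit 92) (nat_lit 5) (nat_lit 483) (nat_lit 405) (nat_lit 312)))) (XT.nd (nat_lit 78) (nat_lit 532) (nat_lit 0) (XT.lf (nat_lit 0) (nat_lit 6358237654) (nat_lit 304) (nat_lit 12586122844) (nat_lit 76) (nat_lit 34776766) (nat_lit 84) (nat_lit 5) (nat_lit 88) (nat_lit 5) (nat_lit 85) (nat_lit 5) (nat_lit 484) (nat_lit 405) (nat_lit 311)) (XT.nd (nat_lit 78) (nat_lit 304) (nat_lit 0) (XT.lf (nat_lit 0) (nat_lit 5415507158) (nat_lit 228) (nat_lit 9128139055) (nat_lit 304) (nat_lit 4794350242) (nat_lit 81) (nat_lit 5) (nat_lit 84) (nat_lit 5) (nat_lit 85) (nat_lit 5) (nat_lit 485) (nat_lit 405) (nat_lit 310)) (XT.lf (nat_lit 0) (nat_lit 3311581741) (nat_lit 304) (nat_lit 15312400601) (nat_lit 76) (nat_lit 1081467248) (nat_lit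 77) (nat_lit 5) (nat_lit 81) (nat_lit 5) (nat_lit 78) (nat_lit 5) (nat_lit 486) (nat_lit 405) (nat_lit 309))))) (XT.nd (nat_lit 234) (nat_lit 0) (nat_lit 0) (XT.nd (nat_lit 78) (nat_lit 532) (nat_lit 0) (XT.lf (nat_lit 0) (nat_lit 3256840992) (nat_lit 228) (nat_lit 8482594146) (nat_lit 304) (nat_lit 8340980802) (nat_lit 74) (nat_lit 5) (nat_lit 77) (nat_lit 5) (nat_lit 78) (nat_lit 5) (nat_lit 487) (nat_lit 405) (nat_lit 308)) (XT.nd (nat_lit 78) (nat_lit 228) (nat_lit 0) (XT.lf (nat_lit 0) (nat_lit 52266826) (nat_lit 304) (nat_lit 18381204323) (nat_lit 76) (nat_lit 2031203875) (nat_lit 70) (nat_lit 5) (nat_lit 74) (nat_lit 5) (nat_lit 71) (nat_lit 5) (nat_lit 488) (nat_lit 405) (nat_lit 307)) (XT.lf (nat_lit 0) (nat_lit 768882163) (nat_lit 228) (nat_lit 7959403692) (nat_lit 304) (nat_lit 12128188399) (nat_lit 67) (nat_lit 5) (nat_lit 70) (nat_lit 5) (nat_lit 71) (nat_lit 5) (nat_lit 489) (nat_lit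 405) (nat_lit 306)))) (XT.nd (nat_lit 55926) (nat_lit 0) (nat_lit 50084) (XT.lf (nat_lit 0) (nat_lit 17775935071) (nat_lit 304) (nat_lit 588970741) (nat_lit 76) (nat_lit 2892895583) (nat_lit 67) (nat_lit 5) (nat_lit 71) (nat_lit 5) (nat_lit 68) (nat_lit 5) (nat_lit 490) (nat_lit 405) (nat_lit 305)) (XT.nd (nat_lit 78) (nat_lit 684) (nat_lit 0) (XT.lf (nat_lit 0) (nat_lit 2341410138) (nat_lit 684) (nat_lit 478031337) (nat_lit 684) (nat_lit 478031337) (nat_lit 735) (nat_lit 3) (nat_lit 744) (nat_lit 3) (nat_lit 744) (nat_lit 5) (nat_lit 406) (nat_lit 406) (nat_lit 388)) (XT.lf (nat_lit 0) (nat_lit 1679806596) (nat_lit 684) (nat_lit 2648425222) (nat_lit 760) (nat_lit 2293476286) (nat_lit 726) (nat_lit 5) (nat_lit 735) (nat_lit 3) (nat_lit 736) (nat_lit 5) (nat_lit 407) (nat_lit 406) (nat_lit 387)))))) (XT.nd (nat_lit 468) (nat_lit 4104) (nat_lit 0) (XT.nd (nat_lit 234) (nat_lit 1672) (nat_lit 0) (XT.nd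 (nat_lit 78) (nat_lit 760) (nat_lit 0) (XT.lf (nat_lit 76) (nat_lit 2359175495) (nat_lit 0) (nat_lit 2876569558) (nat_lit 760) (nat_lit 1415651009) (nat_lit 727) (nat_lit 5) (nat_lit 726) (nat_lit 5) (nat_lit 736) (nat_lit 5) (nat_lit 408) (nat_lit 406) (nat_lit 386)) (XT.nd (nat_lit 78) (nat_lit 0) (nat_lit 76) (XT.lf (nat_lit 76) (nat_lit 793501281) (nat_lit 0) (nat_lit 1279955834) (nat_lit 836) (nat_lit 4610525936) (nat_lit 717) (nat_lit 5) (nat_lit 716) (nat_lit 5) (nat_lit 727) (nat_lit 5) (nat_lit 409) (nat_lit 406) (nat_lit 385)) (XT.lf (nat_lit 0) (nat_lit 5546594993) (nat_lit 760) (nat_lit 714364989) (nat_lit 836) (nat_lit 458447137) (nat_lit 717) (nat_lit 5) (nat_lit 727) (nat_lit 5) (nat_lit 728) (nat_lit 5) (nat_lit 410) (nat_lit 406) (nat_lit 384)))) (XT.nd (nat_lit 78) (nat_lit 912) (nat_lit 0) (XT.lf (nat_lit 0) (nat_lit 2245463572) (nat_lit 836) (nat_lit 2177470623) (nat_lit 912) (nat_lit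 2334499990) (nat_lit 706) (nat_lit 5) (nat_lit 717) (nat_lit 5) (nat_lit 718) (nat_lit 5) (nat_lit 411) (nat_lit 406) (nat_lit 383)) (XT.nd (nat_lit 78) (nat_lit 912) (nat_lit 0) (XT.lf (nat_lit 76) (nat_lit 3206356446) (nat_lit 0) (nat_lit 2442935543) (nat_lit 912) (nat_lit 1149193277) (nat_lit 707) (nat_lit 5) (nat_lit 706) (nat_lit 5) (nat_lit 718) (nat_lit 5) (nat_lit 412) (nat_lit 406) (nat_lit 382)) (XT.lf (nat_lit 76) (nat_lit 1875826642) (nat_lit 0) (nat_lit 310860486) (nat_lit 988) (nat_lit 4655744918) (nat_lit 695) (nat_lit 5) (nat_lit 694) (nat_lit 5) (nat_lit 707) (nat_lit 5) (nat_lit 413) (nat_lit 406) (nat_lit 381))))) (XT.nd (nat_lit 234) (nat_lit 3192) (nat_lit 0) (XT.nd (nat_lit 78) (nat_lit 988) (nat_lit 0) (XT.lf (nat_lit 76) (nat_lit 581092533) (nat_lit 0) (nat_lit 4945543557) (nat_lit 988) (nat_lit 1362532835) (nat_lit 696) (nat_lit 5) (nat_lit 695) (nat_lit 5) (nat_lit 708) (nat_lit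 5) (nat_lit 414) (nat_lit 406) (nat_lit 380)) (XT.nd (nat_lit 78) (nat_lit 0) (nat_lit 0) (XT.lf (nat_lit 0) (nat_lit 1920057743) (nat_lit 988) (nat_lit 665487152) (nat_lit 1064) (nat_lit 4353170468) (nat_lit 682) (nat_lit 5) (nat_lit 695) (nat_lit 5) (nat_lit 696) (nat_lit 5) (nat_lit 415) (nat_lit 406) (nat_lit 379)) (XT.lf (nat_lit 76) (nat_lit 5130202905) (nat_lit 0) (nat_lit 70526864) (nat_lit 1064) (nat_lit 1790490525) (nat_lit 683) (nat_lit 5) (nat_lit 682) (nat_lit 5) (nat_lit 696) (nat_lit 5) (nat_lit 416) (nat_lit 406) (nat_lit 378)))) (XT.nd (nat_lit 156) (nat_lit 2204) (nat_lit 0) (XT.nd (nat_lit 78) (nat_lit 0) (nat_lit 0) (XT.lf (nat_lit 0) (nat_lit 1448819710) (nat_lit 1064) (nat_lit 3031756125) (nat_lit 1140) (nat_lit 2565850633) (nat_lit 669) (nat_lit 5) (nat_lit 683) (nat_lit 5) (nat_lit 684) (nat_lit 5) (nat_lit 417) (nat_lit 406) (nat_lit 377)) (XT.lf (nat_lit 76) (nat_lit 2939175820)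 (nat_lit 0) (nat_lit 1744080446) (nat_lit 1140) (nat_lit 2421363832) (nat_lit 670) (nat_lit 5) (nat_lit 669) (nat_lit 5) (nat_lit 684) (nat_lit 5) (nat_lit 418) (nat_lit 406) (nat_lit 376))) (XT.nd (nat_lit 78) (nat_lit 1140) (nat_lit 0) (XT.lf (nat_lit 0) (nat_lit 771419583) (nat_lit 1140) (nat_lit 5263551131) (nat_lit 76) (nat_lit 1130843139) (nat_lit 655) (nat_lit 5) (nat_lit 670) (nat_lit 5) (nat_lit 656) (nat_lit 5) (nat_lit 419) (nat_lit 406) (nat_lit 375)) (XT.lf (nat_lit 0) (nat_lit 887118982) (nat_lit 1140) (nat_lit 3080739224) (nat_lit 1216) (nat_lit 3261862151) (nat_lit 640) (nat_lit 5) (nat_lit 655) (nat_lit 5) (nat_lit 656) (nat_lit 5) (nat_lit 420) (nat_lit 406) (nat_lit 374))))))) (XT.nd (nat_lit 1014) (nat_lit 10260) (nat_lit 0) (XT.nd (nat_lit 468) (nat_lit 8968) (nat_lit 0) (XT.nd (nat_lit 234) (nat_lit 4484) (nat_lit 0) (XT.nd (nat_lit 78) (nat_lit 2584) (nat_lit 0) (XT.lf (nat_lit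 0) (nat_lit 7193338283) (nat_lit 1216) (nat_lit 78661932) (nat_lit 76) (nat_lit 24892922) (nat_lit 640) (nat_lit 5) (nat_lit 656) (nat_lit 5) (nat_lit 641) (nat_lit 5) (nat_lit 421) (nat_lit 406) (nat_lit 373)) (XT.nd (nat_lit 78) (nat_lit 1292) (nat_lit 0) (XT.lf (nat_lit 0) (nat_lit 3070307075) (nat_lit 1292) (nat_lit 1026958494) (nat_lit 76) (nat_lit 3269175792) (nat_lit 623) (nat_lit 5) (nat_lit 640) (nat_lit 5) (nat_lit 624) (nat_lit 5) (nat_lit 422) (nat_lit 406) (nat_lit 372)) (XT.lf (nat_lit 0) (nat_lit 5508735892) (nat_lit 1292) (nat_lit 767788782) (nat_lit 1368) (nat_lit 1162777867) (nat_lit 606) (nat_lit 5) (nat_lit 623) (nat_lit 5) (nat_lit 624) (nat_lit 5) (nat_lit 423) (nat_lit 406) (nat_lit 371)))) (XT.nd (nat_lit 78) (nat_lit 3040) (nat_lit 0) (XT.lf (nat_lit 0) (nat_lit 1996808299) (nat_lit 1444) (nat_lit 2820358199) (nat_lit 76) (nat_lit 2697739436) (nat_lit 587) (nat_lit 5) (nat_lit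 606) (nat_lit 5) (nat_lit 588) (nat_lit 5) (nat_lit 424) (nat_lit 406) (nat_lit 370)) (XT.nd (nat_lit 78) (nat_lit 1596) (nat_lit 0) (XT.lf (nat_lit 0) (nat_lit 3913831735) (nat_lit 1444) (nat_lit 1271747070) (nat_lit 1520) (nat_lit 2408051306) (nat_lit 568) (nat_lit 5) (nat_lit 587) (nat_lit 5) (nat_lit 588) (nat_lit 5) (nat_lit 425) (nat_lit 406) (nat_lit 369)) (XT.lf (nat_lit 0) (nat_lit 748570813) (nat_lit 1596) (nat_lit 4517673558) (nat_lit 76) (nat_lit 2409104067) (nat_lit 547) (nat_lit 5) (nat_lit 568) (nat_lit 5) (nat_lit 548) (nat_lit 5) (nat_lit 426) (nat_lit 406) (nat_lit 368))))) (XT.nd (nat_lit 234) (nat_lit 3876) (nat_lit 0) (XT.nd (nat_lit 78) (nat_lit 3496) (nat_lit 0) (XT.lf (nat_lit 0) (nat_lit 2421137535) (nat_lit 1596) (nat_lit 1505841238) (nat_lit 1672) (nat_lit 3833034641) (nat_lit 526) (nat_lit 5) (nat_lit 547) (nat_lit 5) (nat_lit 548) (nat_lit 5) (nat_lit 427) (nat_lit 406)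 (nat_lit 367)) (XT.nd (nat_lit 78) (nat_lit 1824) (nat_lit 0) (XT.lf (nat_lit 0) (nat_lit 1712184733) (nat_lit 1672) (nat_lit 5458341014) (nat_lit 1748) (nat_lit 677306088) (nat_lit 504) (nat_lit 5) (nat_lit 526) (nat_lit 5) (nat_lit 527) (nat_lit 5) (nat_lit 428) (nat_lit 406) (nat_lit 366)) (XT.lf (nat_lit 0) (nat_lit 1018710654) (nat_lit 1748) (nat_lit 1487698287) (nat_lit 1824) (nat_lit 5432209304) (nat_lit 480) (nat_lit 5) (nat_lit 503) (nat_lit 5) (nat_lit 504) (nat_lit 5) (nat_lit 429) (nat_lit 406) (nat_lit 365)))) (XT.nd (nat_lit 156) (nat_lit 1976) (nat_lit 0) (XT.nd (nat_lit 78) (nat_lit 76) (nat_lit 0) (XT.lf (nat_lit 0) (nat_lit 344809403) (nat_lit 1824) (nat_lit 5408677481) (nat_lit 1900) (nat_lit 2279019288) (nat_lit 456) (nat_lit 5) (nat_lit 480) (nat_lit 5) (nat_lit 481) (nat_lit 5) (nat_lit 430) (nat_lit 406) (nat_lit 364)) (XT.lf (nat_lit 0) (nat_lit 930621152) (nat_lit 1900) (nat_lit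 300869112) (nat_lit 76) (nat_lit 6898111588) (nat_lit 455) (nat_lit 5) (nat_lit 480) (nat_lit 5) (nat_lit 456) (nat_lit 5) (nat_lit 431) (nat_lit 406) (nat_lit 363))) (XT.nd (nat_lit 78) (nat_lit 912) (nat_lit 0) (XT.lf (nat_lit 0) (nat_lit 4193437209) (nat_lit 1140) (nat_lit 938082116) (nat_lit 76) (nat_lit 3098040687) (nat_lit 441) (nat_lit 5) (nat_lit 456) (nat_lit 5) (nat_lit 442) (nat_lit 5) (nat_lit 432) (nat_lit 406) (nat_lit 362)) (XT.lf (nat_lit 0) (nat_lit 6787687878) (nat_lit 912) (nat_lit 742496520) (nat_lit 988) (nat_lit 802819239) (nat_lit 429) (nat_lit 5) (nat_lit 441) (nat_lit 5) (nat_lit 442) (nat_lit 5) (nat_lit 433) (nat_lit 406) (nat_lit 361)))))) (XT.nd (nat_lit 468) (nat_lit 5016) (nat_lit 0) (XT.nd (nat_lit 234) (nat_lit 2508) (nat_lit 0) (XT.nd (nat_lit 78) (nat_lit 1748) (nat_lit 0) (XT.lf (nat_lit 0) (nat_lit 2489621774) (nat_lit 988) (nat_lit 2155959759) (nat_lit 76) (nat_lit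 3793742387) (nat_lit 416) (nat_lit 5) (nat_lit 429) (nat_lit 5) (nat_lit 417) (nat_lit 5) (nat_lit 434) (nat_lit 406) (nat_lit 360)) (XT.nd (nat_lit 78) (nat_lit 912) (nat_lit 0) (XT.lf (nat_lit 0) (nat_lit 5808817385) (nat_lit 836) (nat_lit 39122689) (nat_lit 912) (nat_lit 2701234454) (nat_lit 405) (nat_lit 5) (nat_lit 416) (nat_lit 5) (nat_lit 417) (nat_lit 5) (nat_lit 435) (nat_lit 406) (nat_lit 359)) (XT.lf (nat_lit 0) (nat_lit 642636417) (nat_lit 912) (nat_lit 3323607482) (nat_lit 76) (nat_lit 4695871683) (nat_lit 393) (nat_lit 5) (nat_lit 405) (nat_lit 5) (nat_lit 394) (nat_lit 5) (nat_lit 436) (nat_lit 406) (nat_lit 358)))) (XT.nd (nat_lit 78) (nat_lit 1672) (nat_lit 0) (XT.lf (nat_lit 0) (nat_lit 4034202630) (nat_lit 912) (nat_lit 3895616006) (nat_lit 76) (nat_lit 848594099) (nat_lit 382) (nat_lit 5) (nat_lit 394) (nat_lit 5) (nat_lit 383) (nat_lit 5) (nat_lit 437) (nat_lit 406) (nat_lit 357))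 (XT.nd (nat_lit 78) (nat_lit 836) (nat_lit 0) (XT.lf (nat_lit 0) (nat_lit 4438168151) (nat_lit 836) (nat_lit 3096544286) (nat_lit 912) (nat_lit 1363348776) (nat_lit 371) (nat_lit 5) (nat_lit 382) (nat_lit 5) (nat_lit 383) (nat_lit 5) (nat_lit 438) (nat_lit 406) (nat_lit 356)) (XT.lf (nat_lit 0) (nat_lit 2086712827) (nat_lit 836) (nat_lit 5016911392) (nat_lit 76) (nat_lit 1917494524) (nat_lit 360) (nat_lit 5) (nat_lit 371) (nat_lit 5) (nat_lit 361) (nat_lit 5) (nat_lit 439) (nat_lit 406) (nat_lit 355))))) (XT.nd (nat_lit 234) (nat_lit 2736) (nat_lit 0) (XT.nd (nat_lit 78) (nat_lit 1520) (nat_lit 0) (XT.lf (nat_lit 0) (nat_lit 3576612688) (nat_lit 760) (nat_lit 2051392845) (nat_lit 836) (nat_lit 3519563057) (nat_lit 350) (nat_lit 5) (nat_lit 360) (nat_lit 5) (nat_lit 361) (nat_lit 5) (nat_lit 440) (nat_lit 406) (nat_lit 354)) (XT.nd (nat_lit 78) (nat_lit 760) (nat_lit 0) (XT.lf (nat_lit 0) (nat_lit 6276601)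 (nat_lit 760) (nat_lit 6113736343) (nat_lit 76) (nat_lit 3157634433) (nat_lit 340) (nat_lit 5) (nat_lit 350) (nat_lit 5) (nat_lit 341) (nat_lit 5) (nat_lit 441) (nat_lit 406) (nat_lit 353)) (XT.lf (nat_lit 0) (nat_lit 2748778415) (nat_lit 760) (nat_lit 845393439) (nat_lit 836) (nat_lit 5816914857) (nat_lit 330) (nat_lit 5) (nat_lit 340) (nat_lit 5) (nat_lit 341) (nat_lit 5) (nat_lit 442) (nat_lit 406) (nat_lit 352)))) (XT.nd (nat_lit 156) (nat_lit 1292) (nat_lit 0) (XT.nd (nat_lit 78) (nat_lit 760) (nat_lit 0) (XT.lf (nat_lit 0) (nat_lit 2337790425) (nat_lit 684) (nat_lit 4974200541) (nat_lit 760) (nat_lit 2236097781) (nat_lit 321) (nat_lit 5) (nat_lit 330) (nat_lit 5) (nat_lit 331) (nat_lit 5) (nat_lit 443) (nat_lit 406) (nat_lit 351)) (XT.lf (nat_lit 0) (nat_lit 1436739701) (nat_lit 760) (nat_lit 7746992986) (nat_lit 76) (nat_lit 505211776) (nat_lit 311) (nat_lit 5) (nat_lit 321) (nat_lit 5) (nat_lit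 312) (nat_lit 5) (nat_lit 444) (nat_lit 406) (nat_lit 350))) (XT.nd (nat_lit 78) (nat_lit 684) (nat_lit 0) (XT.lf (nat_lit 0) (nat_lit 1530425949) (nat_lit 608) (nat_lit 3689386475) (nat_lit 684) (nat_lit 4613314081) (nat_lit 303) (nat_lit 5) (nat_lit 311) (nat_lit 5) (nat_lit 312) (nat_lit 5) (nat_lit 445) (nat_lit 406) (nat_lit 349)) (XT.lf (nat_lit 0) (nat_lit 1137985951) (nat_lit 684) (nat_lit 7990525091) (nat_lit 760) (nat_lit 852885011) (nat_lit 294) (nat_lit 5) (nat_lit 303) (nat_lit 5) (nat_lit 304) (nat_lit 5) (nat_lit 446) (nat_lit 406) (nat_lit 348))))))))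
noncomputable def xc50 : XT := (XT.nd (nat_lit 1950) (nat_lit 5472) (nat_lit 0) (XT.nd (nat_lit 936) (nat_lit 5548) (nat_lit 0) (XT.nd (nat_lit 468) (nat_lit 3192) (nat_lit 0) (XT.nd (nat_lit 234) (nat_lit 1824) (nat_lit 0) (XT.nd (nat_lit 78) (nat_lit 684) (nat_lit 0) (XT.lf (nat_lit 0) (nat_lit 732499211) (nat_lit 608) (nat_lit 2274312634) (nat_lit 684) (nat_lit 7126392782) (nat_lit 285) (nat_lit 5) (nat_lit 293) (nat_lit 5) (nat_lit 294) (nat_lit 5) (nat_lit 447) (nat_lit 406) (nat_lit 347)) (XT.nd (nat_lit 78) (nat_lit 76) (nat_lit 0) (XT.lf (nat_lit 0) (nat_lit 328240972) (nat_lit 608) (nat_lit 6669626834) (nat_lit 684) (nat_lit 3291048154) (nat_lit 277) (nat_lit 5) (nat_lit 285) (nat_lit 5) (nat_lit 286) (nat_lit 5) (nat_lit 448) (nat_lit 406) (nat_lit 346)) (XT.lf (nat_lit 0) (nat_lit 672067392) (nat_lit 684) (nat_lit 64632459) (nat_lit 76) (nat_lit 9712090150) (nat_lit 276) (nat_lit 5) (nat_lit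 285) (nat_lit 5) (nat_lit 277) (nat_lit 5) (nat_lit 449) (nat_lit 406) (nat_lit 345)))) (XT.nd (nat_lit 78) (nat_lit 1216) (nat_lit 0) (XT.lf (nat_lit 0) (nat_lit 4754717709) (nat_lit 684) (nat_lit 480834179) (nat_lit 76) (nat_lit 5376570256) (nat_lit 268) (nat_lit 5) (nat_lit 277) (nat_lit 5) (nat_lit 269) (nat_lit 5) (nat_lit 450) (nat_lit 406) (nat_lit 344)) (XT.nd (nat_lit 78) (nat_lit 608) (nat_lit 0) (XT.lf (nat_lit 0) (nat_lit 8980374818) (nat_lit 684) (nat_lit 879591473) (nat_lit 76) (nat_lit 919981327) (nat_lit 260) (nat_lit 5) (nat_lit 269) (nat_lit 5) (nat_lit 261) (nat_lit 5) (nat_lit 451) (nat_lit 406) (nat_lit 343)) (XT.lf (nat_lit 0) (nat_lit 2395966910) (nat_lit 608) (nat_lit 1300967620) (nat_lit 76) (nat_lit 7254624258) (nat_lit 252) (nat_lit 5) (nat_lit 260) (nat_lit 5) (nat_lit 253) (nat_lit 5) (nat_lit 452) (nat_lit 406) (nat_lit 342))))) (XT.nd (nat_lit 234) (nat_lit 1520) (nat_lit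 0) (XT.nd (nat_lit 78) (nat_lit 1140) (nat_lit 0) (XT.lf (nat_lit 0) (nat_lit 6724436129) (nat_lit 608) (nat_lit 1724871981) (nat_lit 76) (nat_lit 2678145649) (nat_lit 245) (nat_lit 5) (nat_lit 253) (nat_lit 5) (nat_lit 246) (nat_lit 5) (nat_lit 453) (nat_lit 406) (nat_lit 341)) (XT.nd (nat_lit 78) (nat_lit 608) (nat_lit 0) (XT.lf (nat_lit 0) (nat_lit 9160740774) (nat_lit 532) (nat_lit 2062665414) (nat_lit 608) (nat_lit 84409966) (nat_lit 238) (nat_lit 5) (nat_lit 245) (nat_lit 5) (nat_lit 246) (nat_lit 5) (nat_lit 454) (nat_lit 406) (nat_lit 340)) (XT.lf (nat_lit 0) (nat_lit 4354355476) (nat_lit 608) (nat_lit 2601496203) (nat_lit 76) (nat_lit 4536217815) (nat_lit 230) (nat_lit 5) (nat_lit 238) (nat_lit 5) (nat_lit 231) (nat_lit 5) (nat_lit 455) (nat_lit 406) (nat_lit 339)))) (XT.nd (nat_lit 78) (nat_lit 1064) (nat_lit 0) (XT.lf (nat_lit 0) (nat_lit 8635483675) (nat_lit 456) (nat_lit 323398209) (nat_lit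 532) (nat_lit 2722285741) (nat_lit 224) (nat_lit 5) (nat_lit 230) (nat_lit 5) (nat_lit 231) (nat_lit 5) (nat_lit 456) (nat_lit 406) (nat_lit 338)) (XT.nd (nat_lit 78) (nat_lit 456) (nat_lit 0) (XT.lf (nat_lit 0) (nat_lit 1866540546) (nat_lit 608) (nat_lit 3520201894) (nat_lit 76) (nat_lit 6487664721) (nat_lit 216) (nat_lit 5) (nat_lit 224) (nat_lit 5) (nat_lit 217) (nat_lit 5) (nat_lit 457) (nat_lit 406) (nat_lit 337)) (XT.lf (nat_lit 0) (nat_lit 6592194799) (nat_lit 532) (nat_lit 4001805507) (nat_lit 76) (nat_lit 1478363725) (nat_lit 210) (nat_lit 5) (nat_lit 217) (nat_lit 5) (nat_lit 211) (nat_lit 5) (nat_lit 458) (nat_lit 406) (nat_lit 336)))))) (XT.nd (nat_lit 468) (nat_lit 2812) (nat_lit 0) (XT.nd (nat_lit 234) (nat_lit 1292) (nat_lit 0) (XT.nd (nat_lit 78) (nat_lit 988) (nat_lit 0) (XT.lf (nat_lit 0) (nat_lit 7777824252) (nat_lit 456) (nat_lit 3743993206) (nat_lit 532) (nat_lit 753201082) (nat_lit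 204) (nat_lit 5) (nat_lit 210) (nat_lit 5) (nat_lit 211) (nat_lit 5) (nat_lit 459) (nat_lit 406) (nat_lit 335)) (XT.nd (nat_lit 78) (nat_lit 456) (nat_lit 0) (XT.lf (nat_lit 0) (nat_lit 4111846668) (nat_lit 532) (nat_lit 5019982222) (nat_lit 76) (nat_lit 3350387203) (nat_lit 197) (nat_lit 5) (nat_lit 204) (nat_lit 5) (nat_lit 198) (nat_lit 5) (nat_lit 460) (nat_lit 406) (nat_lit 334)) (XT.lf (nat_lit 0) (nat_lit 7141733958) (nat_lit 456) (nat_lit 2026143782) (nat_lit 532) (nat_lit 3526549652) (nat_lit 191) (nat_lit 5) (nat_lit 197) (nat_lit 5) (nat_lit 198) (nat_lit 5) (nat_lit 461) (nat_lit 406) (nat_lit 333)))) (XT.nd (nat_lit 78) (nat_lit 836) (nat_lit 0) (XT.lf (nat_lit 0) (nat_lit 1510581063) (nat_lit 456) (nat_lit 6110485259) (nat_lit 76) (nat_lit 5290407780) (nat_lit 185) (nat_lit 5) (nat_lit 191) (nat_lit 5) (nat_lit 186) (nat_lit 5) (nat_lit 462) (nat_lit 406) (nat_lit 332)) (XT.nd (nat_lit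 78) (nat_lit 380) (nat_lit 0) (XT.lf (nat_lit 0) (nat_lit 6446366356) (nat_lit 456) (nat_lit 252615258) (nat_lit 532) (nat_lit 6434625515) (nat_lit 179) (nat_lit 5) (nat_lit 185) (nat_lit 5) (nat_lit 186) (nat_lit 5) (nat_lit 463) (nat_lit 406) (nat_lit 331)) (XT.lf (nat_lit 0) (nat_lit 6066182574) (nat_lit 380) (nat_lit 6060817185) (nat_lit 456) (nat_lit 1233727492) (nat_lit 174) (nat_lit 5) (nat_lit 179) (nat_lit 5) (nat_lit 180) (nat_lit 5) (nat_lit 464) (nat_lit 406) (nat_lit 330))))) (XT.nd (nat_lit 234) (nat_lit 1520) (nat_lit 0) (XT.nd (nat_lit 78) (nat_lit 836) (nat_lit 0) (XT.lf (nat_lit 0) (nat_lit 4119329074) (nat_lit 456) (nat_lit 7924760505) (nat_lit 76) (nat_lit 1549034122) (nat_lit 168) (nat_lit 5) (nat_lit 174) (nat_lit 5) (nat_lit 169) (nat_lit 5) (nat_lit 465) (nat_lit 406) (nat_lit 329)) (XT.nd (nat_lit 78) (nat_lit 456) (nat_lit 0) (XT.lf (nat_lit 0) (nat_lit 5241553056) (nat_lit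 380) (nat_lit 4455633312) (nat_lit 456) (nat_lit 4133525399) (nat_lit 163) (nat_lit 5) (nat_lit 168) (nat_lit 5) (nat_lit 169) (nat_lit 5) (nat_lit 466) (nat_lit 406) (nat_lit 328)) (XT.lf (nat_lit 0) (nat_lit 1413809608) (nat_lit 456) (nat_lit 9271744346) (nat_lit 76) (nat_lit 3388402429) (nat_lit 157) (nat_lit 5) (nat_lit 163) (nat_lit 5) (nat_lit 158) (nat_lit 5) (nat_lit 467) (nat_lit 406) (nat_lit 327)))) (XT.nd (nat_lit 156) (nat_lit 760) (nat_lit 0) (XT.nd (nat_lit 78) (nat_lit 380) (nat_lit 0) (XT.lf (nat_lit 0) (nat_lit 4322728228) (nat_lit 380) (nat_lit 2823237775) (nat_lit 456) (nat_lit 7176496749) (nat_lit 152) (nat_lit 5) (nat_lit 157) (nat_lit 5) (nat_lit 158) (nat_lit 5) (nat_lit 468) (nat_lit 406) (nat_lit 326)) (XT.lf (nat_lit 0) (nat_lit 3824968077) (nat_lit 380) (nat_lit 9305893543) (nat_lit 456) (nat_lit 1445949204) (nat_lit 147) (nat_lit 5) (nat_lit 152) (nat_lit 5) (nat_lit 153)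 (nat_lit 5) (nat_lit 469) (nat_lit 406) (nat_lit 325))) (XT.nd (nat_lit 78) (nat_lit 380) (nat_lit 0) (XT.lf (nat_lit 0) (nat_lit 3293992833) (nat_lit 304) (nat_lit 1171519812) (nat_lit 380) (nat_lit 10371350987) (nat_lit 142) (nat_lit 5) (nat_lit 146) (nat_lit 5) (nat_lit 147) (nat_lit 5) (nat_lit 470) (nat_lit 406) (nat_lit 324)) (XT.lf (nat_lit 0) (nat_lit 2719433923) (nat_lit 380) (nat_lit 7912737607) (nat_lit 456) (nat_lit 4470407230) (nat_lit 137) (nat_lit 5) (nat_lit 142) (nat_lit 5) (nat_lit 143) (nat_lit 5) (nat_lit 471) (nat_lit 406) (nat_lit 323))))))) (XT.nd (nat_lit 936) (nat_lit 1976) (nat_lit 0) (XT.nd (nat_lit 468) (nat_lit 1748) (nat_lit 0) (XT.nd (nat_lit 234) (nat_lit 760) (nat_lit 0) (XT.nd (nat_lit 78) (nat_lit 608) (nat_lit 0) (XT.lf (nat_lit 0) (nat_lit 1650222945) (nat_lit 380) (nat_lit 13239765903) (nat_lit 76) (nat_lit 484794674) (nat_lit 132) (nat_lit 5) (nat_lit 137) (nat_lit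 5) (nat_lit 133) (nat_lit 5) (nat_lit 472) (nat_lit 406) (nat_lit 322)) (XT.nd (nat_lit 78) (nat_lit 304) (nat_lit 0) (XT.lf (nat_lit 0) (nat_lit 1477273886) (nat_lit 304) (nat_lit 6524482932) (nat_lit 380) (nat_lit 7650647929) (nat_lit 128) (nat_lit 5) (nat_lit 132) (nat_lit 5) (nat_lit 133) (nat_lit 5) (nat_lit 473) (nat_lit 406) (nat_lit 321)) (XT.lf (nat_lit 0) (nat_lit 813918002) (nat_lit 304) (nat_lit 13800379495) (nat_lit 380) (nat_lit 1322649555) (nat_lit 124) (nat_lit 5) (nat_lit 128) (nat_lit 5) (nat_lit 129) (nat_lit 5) (nat_lit 474) (nat_lit 406) (nat_lit 320)))) (XT.nd (nat_lit 78) (nat_lit 380) (nat_lit 0) (XT.lf (nat_lit 0) (nat_lit 79043943) (nat_lit 304) (nat_lit 5150599955) (nat_lit 380) (nat_lit 10997656876) (nat_lit 119) (nat_lit 5) (nat_lit 123) (nat_lit 5) (nat_lit 124) (nat_lit 5) (nat_lit 475) (nat_lit 406) (nat_lit 319)) (XT.nd (nat_lit 78) (nat_lit 380) (nat_lit 0) (XT.lf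 (nat_lit 0) (nat_lit 12050512667) (nat_lit 380) (nat_lit 676198036) (nat_lit 76) (nat_lit 3797681561) (nat_lit 119) (nat_lit 5) (nat_lit 124) (nat_lit 5) (nat_lit 120) (nat_lit 5) (nat_lit 476) (nat_lit 406) (nat_lit 318)) (XT.lf (nat_lit 0) (nat_lit 2314430681) (nat_lit 380) (nat_lit 1476886155) (nat_lit 76) (nat_lit 13036824097) (nat_lit 114) (nat_lit 5) (nat_lit 119) (nat_lit 5) (nat_lit 115) (nat_lit 5) (nat_lit 477) (nat_lit 406) (nat_lit 317))))) (XT.nd (nat_lit 234) (nat_lit 836) (nat_lit 0) (XT.nd (nat_lit 78) (nat_lit 608) (nat_lit 0) (XT.lf (nat_lit 0) (nat_lit 9346573487) (nat_lit 380) (nat_lit 2342335088) (nat_lit 76) (nat_lit 5449484143) (nat_lit 110) (nat_lit 5) (nat_lit 115) (nat_lit 5) (nat_lit 111) (nat_lit 5) (nat_lit 478) (nat_lit 406) (nat_lit 316)) (XT.nd (nat_lit 78) (nat_lit 380) (nat_lit 0) (XT.lf (nat_lit 0) (nat_lit 14221326541) (nat_lit 228) (nat_lit 2460487147) (nat_lit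 304) (nat_lit 774297082) (nat_lit 107) (nat_lit 5) (nat_lit 110) (nat_lit 5) (nat_lit 111) (nat_lit 5) (nat_lit 479) (nat_lit 406) (nat_lit 315)) (XT.lf (nat_lit 0) (nat_lit 6484790923) (nat_lit 380) (nat_lit 4219234297) (nat_lit 76) (nat_lit 7076184767) (nat_lit 102) (nat_lit 5) (nat_lit 107) (nat_lit 5) (nat_lit 103) (nat_lit 5) (nat_lit 480) (nat_lit 406) (nat_lit 314)))) (XT.nd (nat_lit 78) (nat_lit 608) (nat_lit 0) (XT.lf (nat_lit 0) (nat_lit 12879926482) (nat_lit 228) (nat_lit 1158702593) (nat_lit 304) (nat_lit 4073552071) (nat_lit 99) (nat_lit 5) (nat_lit 102) (nat_lit 5) (nat_lit 103) (nat_lit 5) (nat_lit 481) (nat_lit 406) (nat_lit 313)) (XT.nd (nat_lit 78) (nat_lit 228) (nat_lit 0) (XT.lf (nat_lit 0) (nat_lit 3451391595) (nat_lit 380) (nat_lit 6333311262) (nat_lit 76) (nat_lit 8666361784) (nat_lit 94) (nat_lit 5) (nat_lit 99) (nat_lit 5) (nat_lit 95) (nat_lit 5) (nat_lit 482) (nat_lit 406)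 (nat_lit 312)) (XT.lf (nat_lit 0) (nat_lit 11230703036) (nat_lit 304) (nat_lit 7482404294) (nat_lit 76) (nat_lit 84790700) (nat_lit 91) (nat_lit 5) (nat_lit 95) (nat_lit 5) (nat_lit 92) (nat_lit 5) (nat_lit 483) (nat_lit 406) (nat_lit 311)))))) (XT.nd (nat_lit 468) (nat_lit 380) (nat_lit 0) (XT.nd (nat_lit 234) (nat_lit 836) (nat_lit 0) (XT.nd (nat_lit 78) (nat_lit 456) (nat_lit 0) (XT.lf (nat_lit 0) (nat_lit 231110536) (nat_lit 304) (nat_lit 8713592991) (nat_lit 76) (nat_lit 10207542338) (nat_lit 87) (nat_lit 5) (nat_lit 91) (nat_lit 5) (nat_lit 88) (nat_lit 5) (nat_lit 484) (nat_lit 406) (nat_lit 310)) (XT.nd (nat_lit 78) (nat_lit 228) (nat_lit 0) (XT.lf (nat_lit 0) (nat_lit 8249076233) (nat_lit 304) (nat_lit 10022274481) (nat_lit 76) (nat_lit 1243103735) (nat_lit 84) (nat_lit 5) (nat_lit 88) (nat_lit 5) (nat_lit 85) (nat_lit 5) (nat_lit 485) (nat_lit 406) (nat_lit 309)) (XT.lf (nat_lit 0) (nat_lit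 8471683181) (nat_lit 228) (nat_lit 8177634531) (nat_lit 304) (nat_lit 3235377896) (nat_lit 81) (nat_lit 5) (nat_lit 84) (nat_lit 5) (nat_lit 85) (nat_lit 5) (nat_lit 486) (nat_lit 406) (nat_lit 308)))) (XT.nd (nat_lit 78) (nat_lit 532) (nat_lit 0) (XT.lf (nat_lit 0) (nat_lit 5068991991) (nat_lit 304) (nat_lit 12877845237) (nat_lit 76) (nat_lit 2316563671) (nat_lit 77) (nat_lit 5) (nat_lit 81) (nat_lit 5) (nat_lit 78) (nat_lit 5) (nat_lit 487) (nat_lit 406) (nat_lit 307)) (XT.nd (nat_lit 78) (nat_lit 304) (nat_lit 0) (XT.lf (nat_lit 0) (nat_lit 6201523070) (nat_lit 228) (nat_lit 7518349291) (nat_lit 304) (nat_lit 6930341535) (nat_lit 74) (nat_lit 5) (nat_lit 77) (nat_lit 5) (nat_lit 78) (nat_lit 5) (nat_lit 488) (nat_lit 406) (nat_lit 306)) (XT.lf (nat_lit 0) (nat_lit 1671377546) (nat_lit 304) (nat_lit 16086008063) (nat_lit 76) (nat_lit 3288831753) (nat_lit 70) (nat_lit 5) (nat_lit 74) (nat_lit 5) (nat_lit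 71) (nat_lit 5) (nat_lit 489) (nat_lit 406) (nat_lit 305))))) (XT.nd (nat_lit 56082) (nat_lit 0) (nat_lit 48640) (XT.nd (nat_lit 78) (nat_lit 152) (nat_lit 0) (XT.lf (nat_lit 0) (nat_lit 3592397789) (nat_lit 228) (nat_lit 6986348836) (nat_lit 304) (nat_lit 10871603925) (nat_lit 67) (nat_lit 5) (nat_lit 70) (nat_lit 5) (nat_lit 71) (nat_lit 5) (nat_lit 490) (nat_lit 406) (nat_lit 304)) (XT.nd (nat_lit 55926) (nat_lit 0) (nat_lit 50236) (XT.lf (nat_lit 0) (nat_lit 2163874736) (nat_lit 152) (nat_lit 17709368516) (nat_lit 228) (nat_lit 1990967225) (nat_lit 65) (nat_lit 5) (nat_lit 67) (nat_lit 5) (nat_lit 68) (nat_lit 5) (nat_lit 491) (nat_lit 406) (nat_lit 303)) (XT.lf (nat_lit 0) (nat_lit 1289977475) (nat_lit 0) (nat_lit 1289977475) (nat_lit 684) (nat_lit 745028609) (nat_lit 726) (nat_lit 5) (nat_lit 726) (nat_lit 3) (nat_lit 735) (nat_lit 3) (nat_lit 407) (nat_lit 407) (nat_lit 386)))) (XT.nd (nat_lit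 156) (nat_lit 760) (nat_lit 0) (XT.nd (nat_lit 78) (nat_lit 0) (nat_lit 76) (XT.lf (nat_lit 76) (nat_lit 880346958) (nat_lit 0) (nat_lit 1042216212) (nat_lit 836) (nat_lit 4758575344) (nat_lit 716) (nat_lit 5) (nat_lit 715) (nat_lit 3) (nat_lit 726) (nat_lit 5) (nat_lit 408) (nat_lit 407) (nat_lit 385)) (XT.lf (nat_lit 0) (nat_lit 5315626311) (nat_lit 760) (nat_lit 763310403) (nat_lit 836) (nat_lit 636163602) (nat_lit 716) (nat_lit 5) (nat_lit 726) (nat_lit 5) (nat_lit 727) (nat_lit 5) (nat_lit 409) (nat_lit 407) (nat_lit 384))) (XT.nd (nat_lit 78) (nat_lit 0) (nat_lit 0) (XT.lf (nat_lit 0) (nat_lit 1939108664) (nat_lit 836) (nat_lit 2358400622) (nat_lit 912) (nat_lit 2454207043) (nat_lit 705) (nat_lit 5) (nat_lit 716) (nat_lit 5) (nat_lit 717) (nat_lit 5) (nat_lit 410) (nat_lit 407) (nat_lit 383)) (XT.lf (nat_lit 76) (nat_lit 2883834171) (nat_lit 0) (nat_lit 2372296868) (nat_lit 912) (nat_lit 1535185879)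 (nat_lit 706) (nat_lit 5) (nat_lit 705) (nat_lit 5) (nat_lit 717) (nat_lit 5) (nat_lit 411) (nat_lit 407) (nat_lit 382))))))))
noncomputable def xc51 : XT := (XT.nd (nat_lit 1950) (nat_lit 15352) (nat_lit 0) (XT.nd (nat_lit 936) (nat_lit 16112) (nat_lit 0) (XT.nd (nat_lit 468) (nat_lit 4788) (nat_lit 0) (XT.nd (nat_lit 234) (nat_lit 988) (nat_lit 0) (XT.nd (nat_lit 78) (nat_lit 912) (nat_lit 0) (XT.lf (nat_lit 76) (nat_lit 1419510120) (nat_lit 0) (nat_lit 297877416) (nat_lit 988) (nat_lit 5116475816) (nat_lit 694) (nat_lit 5) (nat_lit 693) (nat_lit 5) (nat_lit 706) (nat_lit 5) (nat_lit 412) (nat_lit 407) (nat_lit 381)) (XT.nd (nat_lit 78) (nat_lit 988) (nat_lit 0) (XT.lf (nat_lit 0) (nat_lit 4964559454) (nat_lit 912) (nat_lit 12244276) (nat_lit 988) (nat_lit 1902337653) (nat_lit 694) (nat_lit 5) (nat_lit 706) (nat_lit 5) (nat_lit 707) (nat_lit 5) (nat_lit 413) (nat_lit 407) (nat_lit 380)) (XT.lf (nat_lit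 0) (nat_lit 1285413978) (nat_lit 988) (nat_lit 1383473472) (nat_lit 1064) (nat_lit 4258321871) (nat_lit 681) (nat_lit 5) (nat_lit 694) (nat_lit 5) (nat_lit 695) (nat_lit 5) (nat_lit 414) (nat_lit 407) (nat_lit 379)))) (XT.nd (nat_lit 78) (nat_lit 988) (nat_lit 0) (XT.lf (nat_lit 76) (nat_lit 4262143111) (nat_lit 0) (nat_lit 206041545) (nat_lit 1064) (nat_lit 2510040332) (nat_lit 682) (nat_lit 5) (nat_lit 681) (nat_lit 5) (nat_lit 695) (nat_lit 5) (nat_lit 415) (nat_lit 407) (nat_lit 378)) (XT.nd (nat_lit 78) (nat_lit 0) (nat_lit 0) (XT.lf (nat_lit 0) (nat_lit 638039780) (nat_lit 1064) (nat_lit 4018656742) (nat_lit 1140) (nat_lit 2375360331) (nat_lit 668) (nat_lit 5) (nat_lit 682) (nat_lit 5) (nat_lit 683) (nat_lit 5) (nat_lit 416) (nat_lit 407) (nat_lit 377)) (XT.lf (nat_lit 76) (nat_lit 1797614042) (nat_lit 0) (nat_lit 1970739424) (nat_lit 1140) (nat_lit 3320393954) (nat_lit 669) (nat_lit 5) (nat_lit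 668) (nat_lit 5) (nat_lit 683) (nat_lit 5) (nat_lit 417) (nat_lit 407) (nat_lit 376))))) (XT.nd (nat_lit 234) (nat_lit 3724) (nat_lit 0) (XT.nd (nat_lit 78) (nat_lit 1140) (nat_lit 0) (XT.lf (nat_lit 76) (nat_lit 625951077) (nat_lit 0) (nat_lit 6296360691) (nat_lit 1140) (nat_lit 226245268) (nat_lit 670) (nat_lit 5) (nat_lit 669) (nat_lit 5) (nat_lit 684) (nat_lit 5) (nat_lit 418) (nat_lit 407) (nat_lit 375)) (XT.nd (nat_lit 78) (nat_lit 0) (nat_lit 0) (XT.lf (nat_lit 0) (nat_lit 2866200790) (nat_lit 1140) (nat_lit 523019383) (nat_lit 1216) (nat_lit 3821682650) (nat_lit 654) (nat_lit 5) (nat_lit 669) (nat_lit 5) (nat_lit 670) (nat_lit 5) (nat_lit 419) (nat_lit 407) (nat_lit 374)) (XT.lf (nat_lit 76) (nat_lit 5657483614) (nat_lit 0) (nat_lit 325702144) (nat_lit 1216) (nat_lit 1293218575) (nat_lit 655) (nat_lit 5) (nat_lit 654) (nat_lit 5) (nat_lit 670) (nat_lit 5) (nat_lit 420) (nat_lit 407) (nat_lit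 373)))) (XT.nd (nat_lit 78) (nat_lit 2584) (nat_lit 0) (XT.lf (nat_lit 0) (nat_lit 1778186520) (nat_lit 1216) (nat_lit 2699863749) (nat_lit 76) (nat_lit 2866539130) (nat_lit 639) (nat_lit 5) (nat_lit 655) (nat_lit 5) (nat_lit 640) (nat_lit 5) (nat_lit 421) (nat_lit 407) (nat_lit 372)) (XT.nd (nat_lit 78) (nat_lit 1368) (nat_lit 0) (XT.lf (nat_lit 0) (nat_lit 3668145172) (nat_lit 1216) (nat_lit 1195715366) (nat_lit 1292) (nat_lit 2552005718) (nat_lit 623) (nat_lit 5) (nat_lit 639) (nat_lit 5) (nat_lit 640) (nat_lit 5) (nat_lit 422) (nat_lit 407) (nat_lit 371)) (XT.lf (nat_lit 0) (nat_lit 500631878) (nat_lit 1368) (nat_lit 4770626996) (nat_lit 76) (nat_lit 2218860178) (nat_lit 605) (nat_lit 5) (nat_lit 623) (nat_lit 5) (nat_lit 606) (nat_lit 5) (nat_lit 423) (nat_lit 407) (nat_lit 370)))))) (XT.nd (nat_lit 468) (nat_lit 8360) (nat_lit 0) (XT.nd (nat_lit 234) (nat_lit 3344) (nat_lit 0) (XT.nd (nat_lit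 78) (nat_lit 3040) (nat_lit 0) (XT.lf (nat_lit 0) (nat_lit 1790340933) (nat_lit 1368) (nat_lit 1771970617) (nat_lit 1444) (nat_lit 4004918102) (nat_lit 587) (nat_lit 5) (nat_lit 605) (nat_lit 5) (nat_lit 606) (nat_lit 5) (nat_lit 424) (nat_lit 407) (nat_lit 369)) (XT.nd (nat_lit 78) (nat_lit 1596) (nat_lit 0) (XT.lf (nat_lit 0) (nat_lit 892436204) (nat_lit 1444) (nat_lit 5782753847) (nat_lit 1520) (nat_lit 972286538) (nat_lit 568) (nat_lit 5) (nat_lit 587) (nat_lit 5) (nat_lit 588) (nat_lit 5) (nat_lit 425) (nat_lit 407) (nat_lit 368)) (XT.lf (nat_lit 0) (nat_lit 11059937) (nat_lit 1520) (nat_lit 2074065964) (nat_lit 1596) (nat_lit 5645494846) (nat_lit 547) (nat_lit 5) (nat_lit 567) (nat_lit 5) (nat_lit 568) (nat_lit 5) (nat_lit 426) (nat_lit 407) (nat_lit 367)))) (XT.nd (nat_lit 78) (nat_lit 3344) (nat_lit 0) (XT.lf (nat_lit 0) (nat_lit 5191443857) (nat_lit 1596) (nat_lit 836085767) (nat_lit 76) (nat_lit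 1789202448) (nat_lit 547) (nat_lit 5) (nat_lit 568) (nat_lit 5) (nat_lit 548) (nat_lit 5) (nat_lit 427) (nat_lit 407) (nat_lit 366)) (XT.nd (nat_lit 78) (nat_lit 1672) (nat_lit 0) (XT.lf (nat_lit 0) (nat_lit 448832492) (nat_lit 1672) (nat_lit 1660029411) (nat_lit 76) (nat_lit 5797117058) (nat_lit 525) (nat_lit 5) (nat_lit 547) (nat_lit 5) (nat_lit 526) (nat_lit 5) (nat_lit 428) (nat_lit 407) (nat_lit 365)) (XT.lf (nat_lit 0) (nat_lit 3551214627) (nat_lit 1748) (nat_lit 2475194225) (nat_lit 76) (nat_lit 1971721770) (nat_lit 503) (nat_lit 5) (nat_lit 526) (nat_lit 5) (nat_lit 504) (nat_lit 5) (nat_lit 429) (nat_lit 407) (nat_lit 364))))) (XT.nd (nat_lit 234) (nat_lit 3648) (nat_lit 0) (XT.nd (nat_lit 78) (nat_lit 2964) (nat_lit 0) (XT.lf (nat_lit 0) (nat_lit 4826965496) (nat_lit 1748) (nat_lit 1895367295) (nat_lit 1824) (nat_lit 1371209033) (nat_lit 480) (nat_lit 5) (nat_lit 503) (nat_lit 5) (nat_lit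 504) (nat_lit 5) (nat_lit 430) (nat_lit 407) (nat_lit 363)) (XT.nd (nat_lit 78) (nat_lit 1064) (nat_lit 0) (XT.lf (nat_lit 0) (nat_lit 1753086328) (nat_lit 1900) (nat_lit 4047994376) (nat_lit 76) (nat_lit 2390911580) (nat_lit 455) (nat_lit 5) (nat_lit 480) (nat_lit 5) (nat_lit 456) (nat_lit 5) (nat_lit 431) (nat_lit 407) (nat_lit 362)) (XT.lf (nat_lit 0) (nat_lit 3478534658) (nat_lit 1064) (nat_lit 1453745184) (nat_lit 1140) (nat_lit 3361346824) (nat_lit 441) (nat_lit 5) (nat_lit 455) (nat_lit 5) (nat_lit 456) (nat_lit 5) (nat_lit 432) (nat_lit 407) (nat_lit 361)))) (XT.nd (nat_lit 156) (nat_lit 1748) (nat_lit 0) (XT.nd (nat_lit 78) (nat_lit 988) (nat_lit 0) (XT.lf (nat_lit 0) (nat_lit 2831731426) (nat_lit 912) (nat_lit 5364718830) (nat_lit 988) (nat_lit 202075233) (nat_lit 429) (nat_lit 5) (nat_lit 441) (nat_lit 5) (nat_lit 442) (nat_lit 5) (nat_lit 433) (nat_lit 407) (nat_lit 360)) (XT.lf (nat_lit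 0) (nat_lit 2193061454) (nat_lit 912) (nat_lit 800902836) (nat_lit 988) (nat_lit 5512577408) (nat_lit 416) (nat_lit 5) (nat_lit 428) (nat_lit 5) (nat_lit 429) (nat_lit 5) (nat_lit 434) (nat_lit 407) (nat_lit 359))) (XT.nd (nat_lit 78) (nat_lit 912) (nat_lit 0) (XT.lf (nat_lit 0) (nat_lit 1564292105) (nat_lit 836) (nat_lit 4719232436) (nat_lit 912) (nat_lit 2334246308) (nat_lit 405) (nat_lit 5) (nat_lit 416) (nat_lit 5) (nat_lit 417) (nat_lit 5) (nat_lit 435) (nat_lit 407) (nat_lit 358)) (XT.lf (nat_lit 0) (nat_lit 910192824) (nat_lit 912) (nat_lit 7772631064) (nat_lit 76) (nat_lit 49735954) (nat_lit 393) (nat_lit 5) (nat_lit 405) (nat_lit 5) (nat_lit 394) (nat_lit 5) (nat_lit 436) (nat_lit 407) (nat_lit 357))))))) (XT.nd (nat_lit 1014) (nat_lit 6536) (nat_lit 0) (XT.nd (nat_lit 468) (nat_lit 4788) (nat_lit 0) (XT.nd (nat_lit 234) (nat_lit 2280) (nat_lit 0) (XT.nd (nat_lit 78) (nat_lit 912) (nat_lit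 0) (XT.lf (nat_lit 0) (nat_lit 343342072) (nat_lit 836) (nat_lit 3888694345) (nat_lit 912) (nat_lit 4618218154) (nat_lit 382) (nat_lit 5) (nat_lit 393) (nat_lit 5) (nat_lit 394) (nat_lit 5) (nat_lit 437) (nat_lit 407) (nat_lit 356)) (XT.nd (nat_lit 78) (nat_lit 912) (nat_lit 0) (XT.lf (nat_lit 0) (nat_lit 7644615039) (nat_lit 912) (nat_lit 242677147) (nat_lit 76) (nat_lit 1084372524) (nat_lit 382) (nat_lit 5) (nat_lit 394) (nat_lit 5) (nat_lit 383) (nat_lit 5) (nat_lit 438) (nat_lit 407) (nat_lit 355)) (XT.lf (nat_lit 0) (nat_lit 2048894964) (nat_lit 912) (nat_lit 829982506) (nat_lit 76) (nat_lit 6217315762) (nat_lit 370) (nat_lit 5) (nat_lit 382) (nat_lit 5) (nat_lit 371) (nat_lit 5) (nat_lit 439) (nat_lit 407) (nat_lit 354)))) (XT.nd (nat_lit 78) (nat_lit 1520) (nat_lit 0) (XT.lf (nat_lit 0) (nat_lit 5510157726) (nat_lit 836) (nat_lit 1408455238) (nat_lit 76) (nat_lit 2305633519) (nat_lit 360) (nat_lit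 5) (nat_lit 371) (nat_lit 5) (nat_lit 361) (nat_lit 5) (nat_lit 440) (nat_lit 407) (nat_lit 353)) (XT.nd (nat_lit 78) (nat_lit 760) (nat_lit 0) (XT.lf (nat_lit 0) (nat_lit 7381889847) (nat_lit 760) (nat_lit 1701920451) (nat_lit 836) (nat_lit 272165523) (nat_lit 350) (nat_lit 5) (nat_lit 360) (nat_lit 5) (nat_lit 361) (nat_lit 5) (nat_lit 441) (nat_lit 407) (nat_lit 352)) (XT.lf (nat_lit 0) (nat_lit 3245887377) (nat_lit 760) (nat_lit 2553524271) (nat_lit 76) (nat_lit 3691509677) (nat_lit 340) (nat_lit 5) (nat_lit 350) (nat_lit 5) (nat_lit 341) (nat_lit 5) (nat_lit 442) (nat_lit 407) (nat_lit 351))))) (XT.nd (nat_lit 234) (nat_lit 2584) (nat_lit 0) (XT.nd (nat_lit 78) (nat_lit 1444) (nat_lit 0) (XT.lf (nat_lit 0) (nat_lit 6514130075) (nat_lit 760) (nat_lit 356849056) (nat_lit 836) (nat_lit 2758801293) (nat_lit 330) (nat_lit 5) (nat_lit 340) (nat_lit 5) (nat_lit 341) (nat_lit 5) (nat_lit 443) (nat_lit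 407) (nat_lit 350)) (XT.nd (nat_lit 78) (nat_lit 684) (nat_lit 0) (XT.lf (nat_lit 0) (nat_lit 851659567) (nat_lit 760) (nat_lit 3687420240) (nat_lit 76) (nat_lit 5233011243) (nat_lit 320) (nat_lit 5) (nat_lit 330) (nat_lit 5) (nat_lit 321) (nat_lit 5) (nat_lit 444) (nat_lit 407) (nat_lit 349)) (XT.lf (nat_lit 0) (nat_lit 4541191841) (nat_lit 760) (nat_lit 4258140098) (nat_lit 76) (nat_lit 1118814286) (nat_lit 311) (nat_lit 5) (nat_lit 321) (nat_lit 5) (nat_lit 312) (nat_lit 5) (nat_lit 445) (nat_lit 407) (nat_lit 348)))) (XT.nd (nat_lit 156) (nat_lit 1216) (nat_lit 0) (XT.nd (nat_lit 78) (nat_lit 760) (nat_lit 0) (XT.lf (nat_lit 0) (nat_lit 5237228340) (nat_lit 608) (nat_lit 3135131797) (nat_lit 684) (nat_lit 1695608501) (nat_lit 303) (nat_lit 5) (nat_lit 311) (nat_lit 5) (nat_lit 312) (nat_lit 5) (nat_lit 446) (nat_lit 407) (nat_lit 347)) (XT.lf (nat_lit 0) (nat_lit 2089344411) (nat_lit 760) (nat_lit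 5407075157) (nat_lit 76) (nat_lit 2725185153) (nat_lit 293) (nat_lit 5) (nat_lit 303) (nat_lit 5) (nat_lit 294) (nat_lit 5) (nat_lit 447) (nat_lit 407) (nat_lit 346))) (XT.nd (nat_lit 78) (nat_lit 608) (nat_lit 0) (XT.lf (nat_lit 0) (nat_lit 4390445684) (nat_lit 608) (nat_lit 1600366647) (nat_lit 684) (nat_lit 4388297569) (nat_lit 285) (nat_lit 5) (nat_lit 293) (nat_lit 5) (nat_lit 294) (nat_lit 5) (nat_lit 448) (nat_lit 407) (nat_lit 345)) (XT.lf (nat_lit 0) (nat_lit 3967478275) (nat_lit 608) (nat_lit 6078079123) (nat_lit 684) (nat_lit 495062285) (nat_lit 277) (nat_lit 5) (nat_lit 285) (nat_lit 5) (nat_lit 286) (nat_lit 5) (nat_lit 449) (nat_lit 407) (nat_lit 344)))))) (XT.nd (nat_lit 468) (nat_lit 2964) (nat_lit 0) (XT.nd (nat_lit 234) (nat_lit 1672) (nat_lit 0) (XT.nd (nat_lit 78) (nat_lit 1216) (nat_lit 0) (XT.lf (nat_lit 0) (nat_lit 3489100102) (nat_lit 684) (nat_lit 7165859476) (nat_lit 76) (nat_lit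 51158076) (nat_lit 268) (nat_lit 5) (nat_lit 277) (nat_lit 5) (nat_lit 269) (nat_lit 5) (nat_lit 450) (nat_lit 407) (nat_lit 343)) (XT.nd (nat_lit 78) (nat_lit 608) (nat_lit 0) (XT.lf (nat_lit 0) (nat_lit 3097726855) (nat_lit 608) (nat_lit 4540364491) (nat_lit 684) (nat_lit 3237386971) (nat_lit 260) (nat_lit 5) (nat_lit 268) (nat_lit 5) (nat_lit 269) (nat_lit 5) (nat_lit 451) (nat_lit 407) (nat_lit 342)) (XT.lf (nat_lit 0) (nat_lit 875537036) (nat_lit 608) (nat_lit 8383318555) (nat_lit 76) (nat_lit 1790451842) (nat_lit 252) (nat_lit 5) (nat_lit 260) (nat_lit 5) (nat_lit 253) (nat_lit 5) (nat_lit 452) (nat_lit 407) (nat_lit 341)))) (XT.nd (nat_lit 78) (nat_lit 1140) (nat_lit 0) (XT.lf (nat_lit 0) (nat_lit 2209458358) (nat_lit 532) (nat_lit 2904564975) (nat_lit 608) (nat_lit 6112980457) (nat_lit 245) (nat_lit 5) (nat_lit 252) (nat_lit 5) (nat_lit 253) (nat_lit 5) (nat_lit 453) (nat_lit 407) (nat_lit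 340)) (XT.nd (nat_lit 78) (nat_lit 608) (nat_lit 0) (XT.lf (nat_lit 0) (nat_lit 1755746534) (nat_lit 532) (nat_lit 7765235978) (nat_lit 608) (nat_lit 1888225571) (nat_lit 238) (nat_lit 5) (nat_lit 245) (nat_lit 5) (nat_lit 246) (nat_lit 5) (nat_lit 454) (nat_lit 407) (nat_lit 339)) (XT.lf (nat_lit 0) (nat_lit 1292450208) (nat_lit 532) (nat_lit 1177647903) (nat_lit 608) (nat_lit 9125681124) (nat_lit 230) (nat_lit 5) (nat_lit 237) (nat_lit 5) (nat_lit 238) (nat_lit 5) (nat_lit 455) (nat_lit 407) (nat_lit 338))))) (XT.nd (nat_lit 234) (nat_lit 1900) (nat_lit 0) (XT.nd (nat_lit 78) (nat_lit 608) (nat_lit 0) (XT.lf (nat_lit 0) (nat_lit 804880123) (nat_lit 456) (nat_lit 6186976117) (nat_lit 532) (nat_lit 4794678044) (nat_lit 224) (nat_lit 5) (nat_lit 230) (nat_lit 5) (nat_lit 231) (nat_lit 5) (nat_lit 456) (nat_lit 407) (nat_lit 337)) (XT.nd (nat_lit 78) (nat_lit 76) (nat_lit 0) (XT.lf (nat_lit 0) (nat_lit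 329839102) (nat_lit 532) (nat_lit 11355033033) (nat_lit 608) (nat_lit 297430807) (nat_lit 217) (nat_lit 5) (nat_lit 224) (nat_lit 5) (nat_lit 225) (nat_lit 5) (nat_lit 457) (nat_lit 407) (nat_lit 336)) (XT.lf (nat_lit 0) (nat_lit 4346408512) (nat_lit 608) (nat_lit 189184206) (nat_lit 76) (nat_lit 7646421465) (nat_lit 216) (nat_lit 5) (nat_lit 224) (nat_lit 5) (nat_lit 217) (nat_lit 5) (nat_lit 458) (nat_lit 407) (nat_lit 335)))) (XT.nd (nat_lit 156) (nat_lit 912) (nat_lit 0) (XT.nd (nat_lit 78) (nat_lit 532) (nat_lit 0) (XT.lf (nat_lit 0) (nat_lit 9171714336) (nat_lit 532) (nat_lit 699872430) (nat_lit 76) (nat_lit 2515169655) (nat_lit 210) (nat_lit 5) (nat_lit 217) (nat_lit 5) (nat_lit 211) (nat_lit 5) (nat_lit 459) (nat_lit 407) (nat_lit 334)) (XT.lf (nat_lit 0) (nat_lit 1584213174) (nat_lit 532) (nat_lit 1229238940) (nat_lit 76) (nat_lit 9782784465) (nat_lit 203) (nat_lit 5) (nat_lit 210) (nat_lit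 5) (nat_lit 204) (nat_lit 5) (nat_lit 460) (nat_lit 407) (nat_lit 333))) (XT.nd (nat_lit 78) (nat_lit 456) (nat_lit 0) (XT.lf (nat_lit 0) (nat_lit 6545048754) (nat_lit 532) (nat_lit 1788428666) (nat_lit 76) (nat_lit 4476875654) (nat_lit 197) (nat_lit 5) (nat_lit 204) (nat_lit 5) (nat_lit 198) (nat_lit 5) (nat_lit 461) (nat_lit 407) (nat_lit 332)) (XT.lf (nat_lit 0) (nat_lit 10683267586) (nat_lit 456) (nat_lit 1023819004) (nat_lit 532) (nat_lit 1322761466) (nat_lit 191) (nat_lit 5) (nat_lit 197) (nat_lit 5) (nat_lit 198) (nat_lit 5) (nat_lit 462) (nat_lit 407) (nat_lit 331))))))))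
noncomputable def xc52 : XT := (XT.nd (nat_lit 1950) (nat_lit 1064) (nat_lit 0) (XT.nd (nat_lit 936) (nat_lit 3572) (nat_lit 0) (XT.nd (nat_lit 468) (nat_lit 2204) (nat_lit 0) (XT.nd (nat_lit 234) (nat_lit 1216) (nat_lit 0) (XT.nd (nat_lit 78) (nat_lit 912) (nat_lit 0) (XT.lf (nat_lit 0) (nat_lit 3797191879) (nat_lit 456) (nat_lit 2952706306) (nat_lit 76) (nat_lit 6503971762) (nat_lit 185) (nat_lit 5) (nat_lit 191) (nat_lit 5) (nat_lit 186) (nat_lit 5) (nat_lit 463) (nat_lit 407) (nat_lit 330)) (XT.nd (nat_lit 78) (nat_lit 456) (nat_lit 0) (XT.lf (nat_lit 0) (nat_lit 9102689348) (nat_lit 532) (nat_lit 3562288377) (nat_lit 76) (nat_lit 818463912) (nat_lit 179) (nat_lit 5) (nat_lit 186) (nat_lit 5) (nat_lit 180) (nat_lit 5) (nat_lit 464) (nat_lit 407) (nat_lit 329)) (XT.lf (nat_lit 0) (nat_lit 921806585) (nat_lit 456) (nat_lit 4206146763) (nat_lit 76) (nat_lit 8590129920) (nat_lit 173) (nat_lit 5) (nat_lit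 179) (nat_lit 5) (nat_lit 174) (nat_lit 5) (nat_lit 465) (nat_lit 407) (nat_lit 328)))) (XT.nd (nat_lit 78) (nat_lit 836) (nat_lit 0) (XT.lf (nat_lit 0) (nat_lit 6383704518) (nat_lit 456) (nat_lit 4881479292) (nat_lit 76) (nat_lit 2692807777) (nat_lit 168) (nat_lit 5) (nat_lit 174) (nat_lit 5) (nat_lit 169) (nat_lit 5) (nat_lit 466) (nat_lit 407) (nat_lit 327)) (XT.nd (nat_lit 78) (nat_lit 456) (nat_lit 0) (XT.lf (nat_lit 0) (nat_lit 8626592958) (nat_lit 380) (nat_lit 3460908277) (nat_lit 456) (nat_lit 2116037185) (nat_lit 163) (nat_lit 5) (nat_lit 168) (nat_lit 5) (nat_lit 169) (nat_lit 5) (nat_lit 467) (nat_lit 407) (nat_lit 326)) (XT.lf (nat_lit 0) (nat_lit 3536213282) (nat_lit 456) (nat_lit 6312522599) (nat_lit 76) (nat_lit 4605737832) (nat_lit 157) (nat_lit 5) (nat_lit 163) (nat_lit 5) (nat_lit 158) (nat_lit 5) (nat_lit 468) (nat_lit 407) (nat_lit 325))))) (XT.nd (nat_lit 234) (nat_lit 1064) (nat_lit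 0) (XT.nd (nat_lit 78) (nat_lit 760) (nat_lit 0) (XT.lf (nat_lit 0) (nat_lit 7637261604) (nat_lit 380) (nat_lit 1763168719) (nat_lit 456) (nat_lit 5310805990) (nat_lit 152) (nat_lit 5) (nat_lit 157) (nat_lit 5) (nat_lit 158) (nat_lit 5) (nat_lit 469) (nat_lit 407) (nat_lit 324)) (XT.nd (nat_lit 78) (nat_lit 304) (nat_lit 0) (XT.lf (nat_lit 0) (nat_lit 552038455) (nat_lit 456) (nat_lit 7871659498) (nat_lit 76) (nat_lit 6550080057) (nat_lit 146) (nat_lit 5) (nat_lit 152) (nat_lit 5) (nat_lit 147) (nat_lit 5) (nat_lit 470) (nat_lit 407) (nat_lit 323)) (XT.lf (nat_lit 0) (nat_lit 6534077699) (nat_lit 304) (nat_lit 48740489) (nat_lit 380) (nat_lit 8659393418) (nat_lit 142) (nat_lit 5) (nat_lit 146) (nat_lit 5) (nat_lit 147) (nat_lit 5) (nat_lit 471) (nat_lit 407) (nat_lit 322)))) (XT.nd (nat_lit 78) (nat_lit 684) (nat_lit 0) (XT.lf (nat_lit 0) (nat_lit 5923035591) (nat_lit 380) (nat_lit 6981243319) (nat_lit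 456) (nat_lit 2612225890) (nat_lit 137) (nat_lit 5) (nat_lit 142) (nat_lit 5) (nat_lit 143) (nat_lit 5) (nat_lit 472) (nat_lit 407) (nat_lit 321)) (XT.nd (nat_lit 78) (nat_lit 304) (nat_lit 0) (XT.lf (nat_lit 0) (nat_lit 3636320206) (nat_lit 380) (nat_lit 10508720646) (nat_lit 76) (nat_lit 1652170148) (nat_lit 132) (nat_lit 5) (nat_lit 137) (nat_lit 5) (nat_lit 133) (nat_lit 5) (nat_lit 473) (nat_lit 407) (nat_lit 320)) (XT.lf (nat_lit 0) (nat_lit 4599078388) (nat_lit 304) (nat_lit 5542897239) (nat_lit 380) (nat_lit 5941916177) (nat_lit 128) (nat_lit 5) (nat_lit 132) (nat_lit 5) (nat_lit 133) (nat_lit 5) (nat_lit 474) (nat_lit 407) (nat_lit 319)))))) (XT.nd (nat_lit 468) (nat_lit 1900) (nat_lit 0) (XT.nd (nat_lit 234) (nat_lit 684) (nat_lit 0) (XT.nd (nat_lit 78) (nat_lit 608) (nat_lit 0) (XT.lf (nat_lit 0) (nat_lit 540108578) (nat_lit 380) (nat_lit 12485247006) (nat_lit 76) (nat_lit 3352107548) (nat_lit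 123) (nat_lit 5) (nat_lit 128) (nat_lit 5) (nat_lit 124) (nat_lit 5) (nat_lit 475) (nat_lit 407) (nat_lit 318)) (XT.nd (nat_lit 78) (nat_lit 304) (nat_lit 0) (XT.lf (nat_lit 0) (nat_lit 3114031060) (nat_lit 304) (nat_lit 4121871938) (nat_lit 380) (nat_lit 9441153845) (nat_lit 119) (nat_lit 5) (nat_lit 123) (nat_lit 5) (nat_lit 124) (nat_lit 5) (nat_lit 476) (nat_lit 407) (nat_lit 317)) (XT.lf (nat_lit 0) (nat_lit 2306579198) (nat_lit 304) (nat_lit 11923387992) (nat_lit 380) (nat_lit 2753724701) (nat_lit 115) (nat_lit 5) (nat_lit 119) (nat_lit 5) (nat_lit 120) (nat_lit 5) (nat_lit 477) (nat_lit 407) (nat_lit 316)))) (XT.nd (nat_lit 78) (nat_lit 304) (nat_lit 0) (XT.lf (nat_lit 0) (nat_lit 1446096091) (nat_lit 304) (nat_lit 2728383077) (nat_lit 380) (nat_lit 13122623857) (nat_lit 110) (nat_lit 5) (nat_lit 114) (nat_lit 5) (nat_lit 115) (nat_lit 5) (nat_lit 478) (nat_lit 407) (nat_lit 315)) (XT.nd (nat_lit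 78) (nat_lit 76) (nat_lit 0) (XT.lf (nat_lit 0) (nat_lit 522284474) (nat_lit 228) (nat_lit 10863736879) (nat_lit 304) (nat_lit 6231274342) (nat_lit 107) (nat_lit 5) (nat_lit 110) (nat_lit 5) (nat_lit 111) (nat_lit 5) (nat_lit 479) (nat_lit 407) (nat_lit 314)) (XT.lf (nat_lit 0) (nat_lit 947637025) (nat_lit 304) (nat_lit 422996073) (nat_lit 76) (nat_lit 16574505964) (nat_lit 106) (nat_lit 5) (nat_lit 110) (nat_lit 5) (nat_lit 107) (nat_lit 5) (nat_lit 480) (nat_lit 407) (nat_lit 313))))) (XT.nd (nat_lit 234) (nat_lit 988) (nat_lit 0) (XT.nd (nat_lit 78) (nat_lit 608) (nat_lit 0) (XT.lf (nat_lit 0) (nat_lit 8389550591) (nat_lit 380) (nat_lit 1462640273) (nat_lit 76) (nat_lit 8427158457) (nat_lit 102) (nat_lit 5) (nat_lit 107) (nat_lit 5) (nat_lit 103) (nat_lit 5) (nat_lit 481) (nat_lit 407) (nat_lit 312)) (XT.nd (nat_lit 78) (nat_lit 380) (nat_lit 0) (XT.lf (nat_lit 0) (nat_lit 16102719305) (nat_lit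 228) (nat_lit 35888226) (nat_lit 304) (nat_lit 2483301836) (nat_lit 99) (nat_lit 5) (nat_lit 102) (nat_lit 5) (nat_lit 103) (nat_lit 5) (nat_lit 482) (nat_lit 407) (nat_lit 311)) (XT.lf (nat_lit 0) (nat_lit 5221457810) (nat_lit 380) (nat_lit 3685029909) (nat_lit 76) (nat_lit 10064720479) (nat_lit 94) (nat_lit 5) (nat_lit 99) (nat_lit 5) (nat_lit 95) (nat_lit 5) (nat_lit 483) (nat_lit 407) (nat_lit 310)))) (XT.nd (nat_lit 156) (nat_lit 456) (nat_lit 0) (XT.nd (nat_lit 78) (nat_lit 304) (nat_lit 0) (XT.lf (nat_lit 0) (nat_lit 13211244367) (nat_lit 304) (nat_lit 4889371271) (nat_lit 76) (nat_lit 1228290722) (nat_lit 91) (nat_lit 5) (nat_lit 95) (nat_lit 5) (nat_lit 92) (nat_lit 5) (nat_lit 484) (nat_lit 407) (nat_lit 309)) (XT.lf (nat_lit 0) (nat_lit 1862528887) (nat_lit 304) (nat_lit 6181564253) (nat_lit 76) (nat_lit 11650176902) (nat_lit 87) (nat_lit 5) (nat_lit 91) (nat_lit 5) (nat_lit 88) (nat_lit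 5) (nat_lit 485) (nat_lit 407) (nat_lit 308))) (XT.nd (nat_lit 78) (nat_lit 228) (nat_lit 0) (XT.lf (nat_lit 0) (nat_lit 10099047765) (nat_lit 304) (nat_lit 7550360899) (nat_lit 76) (nat_lit 2418377492) (nat_lit 84) (nat_lit 5) (nat_lit 88) (nat_lit 5) (nat_lit 85) (nat_lit 5) (nat_lit 486) (nat_lit 407) (nat_lit 307)) (XT.lf (nat_lit 0) (nat_lit 11453433647) (nat_lit 228) (nat_lit 7268897495) (nat_lit 304) (nat_lit 1727384228) (nat_lit 81) (nat_lit 5) (nat_lit 84) (nat_lit 5) (nat_lit 85) (nat_lit 5) (nat_lit 487) (nat_lit 407) (nat_lit 306))))))) (XT.nd (nat_lit 56862) (nat_lit 0) (nat_lit 34808) (XT.nd (nat_lit 56394) (nat_lit 0) (nat_lit 46588) (XT.nd (nat_lit 234) (nat_lit 228) (nat_lit 0) (XT.nd (nat_lit 78) (nat_lit 532) (nat_lit 0) (XT.lf (nat_lit 0) (nat_lit 6783944961) (nat_lit 304) (nat_lit 10536376483) (nat_lit 76) (nat_lit 3519675818) (nat_lit 77) (nat_lit 5) (nat_lit 81) (nat_lit 5) (nat_lit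 78) (nat_lit 5) (nat_lit 488) (nat_lit 407) (nat_lit 305)) (XT.nd (nat_lit 78) (nat_lit 304) (nat_lit 0) (XT.lf (nat_lit 0) (nat_lit 9071117492) (nat_lit 228) (nat_lit 6595136758) (nat_lit 304) (nat_lit 5572723747) (nat_lit 74) (nat_lit 5) (nat_lit 77) (nat_lit 5) (nat_lit 78) (nat_lit 5) (nat_lit 489) (nat_lit 407) (nat_lit 304)) (XT.lf (nat_lit 0) (nat_lit 3246208019) (nat_lit 304) (nat_lit 13885364259) (nat_lit 76) (nat_lit 4515493465) (nat_lit 70) (nat_lit 5) (nat_lit 74) (nat_lit 5) (nat_lit 71) (nat_lit 5) (nat_lit 490) (nat_lit 407) (nat_lit 303)))) (XT.nd (nat_lit 56004) (nat_lit 0) (nat_lit 48412) (XT.lf (nat_lit 0) (nat_lit 6339861646) (nat_lit 228) (nat_lit 6053666733) (nat_lit 304) (nat_lit 9670341235) (nat_lit 67) (nat_lit 5) (nat_lit 70) (nat_lit 5) (nat_lit 71) (nat_lit 5) (nat_lit 491) (nat_lit 407) (nat_lit 302)) (XT.nd (nat_lit 78) (nat_lit 836) (nat_lit 0) (XT.lf (nat_lit 0) (nat_lit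 2619331369) (nat_lit 836) (nat_lit 368750580) (nat_lit 836) (nat_lit 368750580) (nat_lit 715) (nat_lit 3) (nat_lit 726) (nat_lit 3) (nat_lit 726) (nat_lit 5) (nat_lit 408) (nat_lit 408) (nat_lit 384)) (XT.lf (nat_lit 0) (nat_lit 1786008775) (nat_lit 836) (nat_lit 2465324730) (nat_lit 912) (nat_lit 2497524932) (nat_lit 704) (nat_lit 5) (nat_lit 715) (nat_lit 3) (nat_lit 716) (nat_lit 5) (nat_lit 409) (nat_lit 408) (nat_lit 383))))) (XT.nd (nat_lit 234) (nat_lit 912) (nat_lit 0) (XT.nd (nat_lit 78) (nat_lit 912) (nat_lit 0) (XT.lf (nat_lit 76) (nat_lit 2638469152) (nat_lit 0) (nat_lit 2381923779) (nat_lit 912) (nat_lit 1766625060) (nat_lit 705) (nat_lit 5) (nat_lit 704) (nat_lit 5) (nat_lit 716) (nat_lit 5) (nat_lit 410) (nat_lit 408) (nat_lit 382)) (XT.nd (nat_lit 78) (nat_lit 0) (nat_lit 76) (XT.lf (nat_lit 76) (nat_lit 1039641339) (nat_lit 0) (nat_lit 365142546) (nat_lit 988) (nat_lit 5423370460)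 (nat_lit 693) (nat_lit 5) (nat_lit 692) (nat_lit 5) (nat_lit 705) (nat_lit 5) (nat_lit 411) (nat_lit 408) (nat_lit 381)) (XT.lf (nat_lit 0) (nat_lit 4566170962) (nat_lit 912) (nat_lit 521634827) (nat_lit 988) (nat_lit 1784124429) (nat_lit 693) (nat_lit 5) (nat_lit 705) (nat_lit 5) (nat_lit 706) (nat_lit 5) (nat_lit 412) (nat_lit 408) (nat_lit 380)))) (XT.nd (nat_lit 78) (nat_lit 0) (nat_lit 0) (XT.lf (nat_lit 0) (nat_lit 809988170) (nat_lit 988) (nat_lit 2025787841) (nat_lit 1064) (nat_lit 4082811115) (nat_lit 680) (nat_lit 5) (nat_lit 693) (nat_lit 5) (nat_lit 694) (nat_lit 5) (nat_lit 413) (nat_lit 408) (nat_lit 379)) (XT.nd (nat_lit 78) (nat_lit 0) (nat_lit 76) (XT.lf (nat_lit 76) (nat_lit 3473067535) (nat_lit 0) (nat_lit 426118310) (nat_lit 1064) (nat_lit 3068941524) (nat_lit 681) (nat_lit 5) (nat_lit 680) (nat_lit 5) (nat_lit 694) (nat_lit 5) (nat_lit 414) (nat_lit 408) (nat_lit 378)) (XT.lf (nat_lit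 76) (nat_lit 2090988826) (nat_lit 0) (nat_lit 4919047855) (nat_lit 1064) (nat_lit 10551702) (nat_lit 682) (nat_lit 5) (nat_lit 681) (nat_lit 5) (nat_lit 695) (nat_lit 5) (nat_lit 415) (nat_lit 408) (nat_lit 377)))))) (XT.nd (nat_lit 468) (nat_lit 8588) (nat_lit 0) (XT.nd (nat_lit 234) (nat_lit 1140) (nat_lit 0) (XT.nd (nat_lit 78) (nat_lit 1064) (nat_lit 0) (XT.lf (nat_lit 76) (nat_lit 735474737) (nat_lit 0) (nat_lit 2284720374) (nat_lit 1140) (nat_lit 4055598227) (nat_lit 668) (nat_lit 5) (nat_lit 667) (nat_lit 5) (nat_lit 682) (nat_lit 5) (nat_lit 416) (nat_lit 408) (nat_lit 376)) (XT.nd (nat_lit 78) (nat_lit 1140) (nat_lit 0) (XT.lf (nat_lit 0) (nat_lit 6071453131) (nat_lit 1064) (nat_lit 567457105) (nat_lit 1140) (nat_lit 495161203) (nat_lit 668) (nat_lit 5) (nat_lit 682) (nat_lit 5) (nat_lit 683) (nat_lit 5) (nat_lit 417) (nat_lit 408) (nat_lit 375)) (XT.lf (nat_lit 0) (nat_lit 1939833943) (nat_lit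 1140) (nat_lit 1842587475) (nat_lit 1216) (nat_lit 3412503000) (nat_lit 653) (nat_lit 5) (nat_lit 668) (nat_lit 5) (nat_lit 669) (nat_lit 5) (nat_lit 418) (nat_lit 408) (nat_lit 374)))) (XT.nd (nat_lit 78) (nat_lit 1140) (nat_lit 0) (XT.lf (nat_lit 76) (nat_lit 4179064341) (nat_lit 0) (nat_lit 768273862) (nat_lit 1216) (nat_lit 2311548048) (nat_lit 654) (nat_lit 5) (nat_lit 653) (nat_lit 5) (nat_lit 669) (nat_lit 5) (nat_lit 419) (nat_lit 408) (nat_lit 373)) (XT.nd (nat_lit 78) (nat_lit 0) (nat_lit 0) (XT.lf (nat_lit 0) (nat_lit 659014727) (nat_lit 1216) (nat_lit 4293161866) (nat_lit 1292) (nat_lit 2373545061) (nat_lit 638) (nat_lit 5) (nat_lit 654) (nat_lit 5) (nat_lit 655) (nat_lit 5) (nat_lit 420) (nat_lit 408) (nat_lit 372)) (XT.lf (nat_lit 76) (nat_lit 1910812519) (nat_lit 0) (nat_lit 1718052541) (nat_lit 1292) (nat_lit 3766571096) (nat_lit 639) (nat_lit 5) (nat_lit 638) (nat_lit 5) (nat_lit 655)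 (nat_lit 5) (nat_lit 421) (nat_lit 408) (nat_lit 371))))) (XT.nd (nat_lit 234) (nat_lit 6080) (nat_lit 0) (XT.nd (nat_lit 78) (nat_lit 1368) (nat_lit 0) (XT.lf (nat_lit 0) (nat_lit 822349150) (nat_lit 1216) (nat_lit 5815956107) (nat_lit 1292) (nat_lit 829937757) (nat_lit 623) (nat_lit 5) (nat_lit 639) (nat_lit 5) (nat_lit 640) (nat_lit 5) (nat_lit 422) (nat_lit 408) (nat_lit 370)) (XT.nd (nat_lit 78) (nat_lit 1292) (nat_lit 0) (XT.lf (nat_lit 0) (nat_lit 2121989559) (nat_lit 1292) (nat_lit 245749152) (nat_lit 76) (nat_lit 5176101053) (nat_lit 622) (nat_lit 5) (nat_lit 639) (nat_lit 5) (nat_lit 623) (nat_lit 5) (nat_lit 423) (nat_lit 408) (nat_lit 369)) (XT.lf (nat_lit 0) (nat_lit 5110448049) (nat_lit 1368) (nat_lit 1275330341) (nat_lit 76) (nat_lit 1236641316) (nat_lit 605) (nat_lit 5) (nat_lit 623) (nat_lit 5) (nat_lit 606) (nat_lit 5) (nat_lit 424) (nat_lit 408) (nat_lit 368)))) (XT.nd (nat_lit 156)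 (nat_lit 3192) (nat_lit 0) (XT.nd (nat_lit 78) (nat_lit 1444) (nat_lit 0) (XT.lf (nat_lit 0) (nat_lit 443425744) (nat_lit 1444) (nat_lit 2283549794) (nat_lit 76) (nat_lit 4977036292) (nat_lit 586) (nat_lit 5) (nat_lit 605) (nat_lit 5) (nat_lit 587) (nat_lit 5) (nat_lit 425) (nat_lit 408) (nat_lit 367)) (XT.lf (nat_lit 0) (nat_lit 3412472773) (nat_lit 1520) (nat_lit 3276428800) (nat_lit 76) (nat_lit 1099644983) (nat_lit 567) (nat_lit 5) (nat_lit 587) (nat_lit 5) (nat_lit 568) (nat_lit 5) (nat_lit 426) (nat_lit 408) (nat_lit 366))) (XT.nd (nat_lit 78) (nat_lit 1672) (nat_lit 0) (XT.lf (nat_lit 0) (nat_lit 3626533795) (nat_lit 1520) (nat_lit 2817232972) (nat_lit 1596) (nat_lit 1432396007) (nat_lit 547) (nat_lit 5) (nat_lit 567) (nat_lit 5) (nat_lit 568) (nat_lit 5) (nat_lit 427) (nat_lit 408) (nat_lit 365)) (XT.lf (nat_lit 0) (nat_lit 1544237501) (nat_lit 1672) (nat_lit 5204055939) (nat_lit 76) (nat_lit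 1218602369) (nat_lit 525) (nat_lit 5) (nat_lit 547) (nat_lit 5) (nat_lit 526) (nat_lit 5) (nat_lit 428) (nat_lit 408) (nat_lit 364))))))))
noncomputable def xc53 : XT := (XT.nd (nat_lit 1950) (nat_lit 10792) (nat_lit 0) (XT.nd (nat_lit 936) (nat_lit 8208) (nat_lit 0) (XT.nd (nat_lit 468) (nat_lit 5168) (nat_lit 0) (XT.nd (nat_lit 234) (nat_lit 2052) (nat_lit 0) (XT.nd (nat_lit 78) (nat_lit 3648) (nat_lit 0) (XT.lf (nat_lit 0) (nat_lit 1909691612) (nat_lit 1672) (nat_lit 2660658631) (nat_lit 1748) (nat_lit 3490226695) (nat_lit 503) (nat_lit 5) (nat_lit 525) (nat_lit 5) (nat_lit 526) (nat_lit 5) (nat_lit 429) (nat_lit 408) (nat_lit 363)) (XT.nd (nat_lit 78) (nat_lit 1900) (nat_lit 0) (XT.lf (nat_lit 0) (nat_lit 1084332711) (nat_lit 1748) (nat_lit 6576773405) (nat_lit 1824) (nat_lit 496493230) (nat_lit 480) (nat_lit 5) (nat_lit 503) (nat_lit 5) (nat_lit 504) (nat_lit 5) (nat_lit 430) (nat_lit 408) (nat_lit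 362)) (XT.lf (nat_lit 0) (nat_lit 261470399) (nat_lit 1824) (nat_lit 2275680684) (nat_lit 1900) (nat_lit 5720372490) (nat_lit 455) (nat_lit 5) (nat_lit 479) (nat_lit 5) (nat_lit 480) (nat_lit 5) (nat_lit 431) (nat_lit 408) (nat_lit 361)))) (XT.nd (nat_lit 78) (nat_lit 2052) (nat_lit 0) (XT.lf (nat_lit 0) (nat_lit 5641751833) (nat_lit 1900) (nat_lit 535639802) (nat_lit 76) (nat_lit 2183261834) (nat_lit 455) (nat_lit 5) (nat_lit 480) (nat_lit 5) (nat_lit 456) (nat_lit 5) (nat_lit 432) (nat_lit 408) (nat_lit 360)) (XT.nd (nat_lit 78) (nat_lit 912) (nat_lit 0) (XT.lf (nat_lit 0) (nat_lit 355952420) (nat_lit 1140) (nat_lit 1311728954) (nat_lit 76) (nat_lit 6799390057) (nat_lit 440) (nat_lit 5) (nat_lit 455) (nat_lit 5) (nat_lit 441) (nat_lit 5) (nat_lit 433) (nat_lit 408) (nat_lit 359)) (XT.lf (nat_lit 0) (nat_lit 3479819752) (nat_lit 988) (nat_lit 2091081970) (nat_lit 76) (nat_lit 3005553501) (nat_lit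 428) (nat_lit 5) (nat_lit 441) (nat_lit 5) (nat_lit 429) (nat_lit 5) (nat_lit 434) (nat_lit 408) (nat_lit 358))))) (XT.nd (nat_lit 234) (nat_lit 2508) (nat_lit 0) (XT.nd (nat_lit 78) (nat_lit 1748) (nat_lit 0) (XT.lf (nat_lit 0) (nat_lit 5841141032) (nat_lit 912) (nat_lit 843791535) (nat_lit 988) (nat_lit 2004444039) (nat_lit 416) (nat_lit 5) (nat_lit 428) (nat_lit 5) (nat_lit 429) (nat_lit 5) (nat_lit 435) (nat_lit 408) (nat_lit 357)) (XT.nd (nat_lit 78) (nat_lit 836) (nat_lit 0) (XT.lf (nat_lit 0) (nat_lit 1170377667) (nat_lit 912) (nat_lit 3606587507) (nat_lit 76) (nat_lit 4028466565) (nat_lit 404) (nat_lit 5) (nat_lit 416) (nat_lit 5) (nat_lit 405) (nat_lit 5) (nat_lit 436) (nat_lit 408) (nat_lit 356)) (XT.lf (nat_lit 0) (nat_lit 4401471136) (nat_lit 912) (nat_lit 4353232534) (nat_lit 76) (nat_lit 170240837) (nat_lit 393) (nat_lit 5) (nat_lit 405) (nat_lit 5) (nat_lit 394) (nat_lit 5) (nat_lit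 437) (nat_lit 408) (nat_lit 355)))) (XT.nd (nat_lit 78) (nat_lit 1672) (nat_lit 0) (XT.lf (nat_lit 0) (nat_lit 3946961067) (nat_lit 836) (nat_lit 3798446775) (nat_lit 912) (nat_lit 1302322588) (nat_lit 382) (nat_lit 5) (nat_lit 393) (nat_lit 5) (nat_lit 394) (nat_lit 5) (nat_lit 438) (nat_lit 408) (nat_lit 354)) (XT.nd (nat_lit 78) (nat_lit 760) (nat_lit 0) (XT.lf (nat_lit 0) (nat_lit 1984096744) (nat_lit 912) (nat_lit 5840008307) (nat_lit 76) (nat_lit 1349937514) (nat_lit 370) (nat_lit 5) (nat_lit 382) (nat_lit 5) (nat_lit 371) (nat_lit 5) (nat_lit 439) (nat_lit 408) (nat_lit 353)) (XT.lf (nat_lit 0) (nat_lit 2719850550) (nat_lit 760) (nat_lit 2645730165) (nat_lit 836) (nat_lit 3938113400) (nat_lit 360) (nat_lit 5) (nat_lit 370) (nat_lit 5) (nat_lit 371) (nat_lit 5) (nat_lit 440) (nat_lit 408) (nat_lit 352)))))) (XT.nd (nat_lit 468) (nat_lit 4484) (nat_lit 0) (XT.nd (nat_lit 234) (nat_lit 1444) (nat_lit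 0) (XT.nd (nat_lit 78) (nat_lit 1520) (nat_lit 0) (XT.lf (nat_lit 0) (nat_lit 2120282605) (nat_lit 760) (nat_lit 6736863481) (nat_lit 836) (nat_lit 579921755) (nat_lit 350) (nat_lit 5) (nat_lit 360) (nat_lit 5) (nat_lit 361) (nat_lit 5) (nat_lit 441) (nat_lit 408) (nat_lit 351)) (XT.nd (nat_lit 78) (nat_lit 760) (nat_lit 0) (XT.lf (nat_lit 0) (nat_lit 1515801105) (nat_lit 684) (nat_lit 1336445330) (nat_lit 760) (nat_lit 6721607808) (nat_lit 340) (nat_lit 5) (nat_lit 349) (nat_lit 5) (nat_lit 350) (nat_lit 5) (nat_lit 442) (nat_lit 408) (nat_lit 350)) (XT.lf (nat_lit 0) (nat_lit 910536673) (nat_lit 760) (nat_lit 5492105509) (nat_lit 836) (nat_lit 3311567523) (nat_lit 330) (nat_lit 5) (nat_lit 340) (nat_lit 5) (nat_lit 341) (nat_lit 5) (nat_lit 443) (nat_lit 408) (nat_lit 349)))) (XT.nd (nat_lit 78) (nat_lit 684) (nat_lit 0) (XT.lf (nat_lit 0) (nat_lit 205688356) (nat_lit 760) (nat_lit 9534127468) (nat_lit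 76) (nat_lit 118787703) (nat_lit 320) (nat_lit 5) (nat_lit 330) (nat_lit 5) (nat_lit 321) (nat_lit 5) (nat_lit 444) (nat_lit 408) (nat_lit 348)) (XT.nd (nat_lit 78) (nat_lit 684) (nat_lit 0) (XT.lf (nat_lit 0) (nat_lit 3822476252) (nat_lit 760) (nat_lit 287595817) (nat_lit 76) (nat_lit 5896043778) (nat_lit 320) (nat_lit 5) (nat_lit 330) (nat_lit 5) (nat_lit 321) (nat_lit 5) (nat_lit 445) (nat_lit 408) (nat_lit 347)) (XT.lf (nat_lit 0) (nat_lit 7563043535) (nat_lit 760) (nat_lit 878237323) (nat_lit 76) (nat_lit 1716471614) (nat_lit 311) (nat_lit 5) (nat_lit 321) (nat_lit 5) (nat_lit 312) (nat_lit 5) (nat_lit 446) (nat_lit 408) (nat_lit 346))))) (XT.nd (nat_lit 234) (nat_lit 2508) (nat_lit 0) (XT.nd (nat_lit 78) (nat_lit 1292) (nat_lit 0) (XT.lf (nat_lit 0) (nat_lit 1119320141) (nat_lit 684) (nat_lit 1475588172) (nat_lit 76) (nat_lit 7718253393) (nat_lit 302) (nat_lit 5) (nat_lit 311) (nat_lit 5) (nat_lit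 303) (nat_lit 5) (nat_lit 447) (nat_lit 408) (nat_lit 345)) (XT.nd (nat_lit 78) (nat_lit 608) (nat_lit 0) (XT.lf (nat_lit 0) (nat_lit 4938615996) (nat_lit 760) (nat_lit 2085515493) (nat_lit 76) (nat_lit 3448180863) (nat_lit 293) (nat_lit 5) (nat_lit 303) (nat_lit 5) (nat_lit 294) (nat_lit 5) (nat_lit 448) (nat_lit 408) (nat_lit 344)) (XT.lf (nat_lit 0) (nat_lit 7949410912) (nat_lit 608) (nat_lit 948806182) (nat_lit 684) (nat_lit 1737509888) (nat_lit 285) (nat_lit 5) (nat_lit 293) (nat_lit 5) (nat_lit 294) (nat_lit 5) (nat_lit 449) (nat_lit 408) (nat_lit 343)))) (XT.nd (nat_lit 156) (nat_lit 1216) (nat_lit 0) (XT.nd (nat_lit 78) (nat_lit 608) (nat_lit 0) (XT.lf (nat_lit 0) (nat_lit 2189536751) (nat_lit 684) (nat_lit 3309998460) (nat_lit 76) (nat_lit 5303321163) (nat_lit 276) (nat_lit 5) (nat_lit 285) (nat_lit 5) (nat_lit 277) (nat_lit 5) (nat_lit 450) (nat_lit 408) (nat_lit 342)) (XT.lf (nat_lit 0)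 (nat_lit 6235151367) (nat_lit 684) (nat_lit 3931943207) (nat_lit 76) (nat_lit 807191814) (nat_lit 268) (nat_lit 5) (nat_lit 277) (nat_lit 5) (nat_lit 269) (nat_lit 5) (nat_lit 451) (nat_lit 408) (nat_lit 341))) (XT.nd (nat_lit 78) (nat_lit 608) (nat_lit 0) (XT.lf (nat_lit 0) (nat_lit 6583596538) (nat_lit 608) (nat_lit 3870111666) (nat_lit 684) (nat_lit 696123203) (nat_lit 260) (nat_lit 5) (nat_lit 268) (nat_lit 5) (nat_lit 269) (nat_lit 5) (nat_lit 452) (nat_lit 408) (nat_lit 340)) (XT.lf (nat_lit 0) (nat_lit 3456979988) (nat_lit 608) (nat_lit 5216878729) (nat_lit 76) (nat_lit 2655651379) (nat_lit 252) (nat_lit 5) (nat_lit 260) (nat_lit 5) (nat_lit 253) (nat_lit 5) (nat_lit 453) (nat_lit 408) (nat_lit 339))))))) (XT.nd (nat_lit 1014) (nat_lit 4788) (nat_lit 0) (XT.nd (nat_lit 468) (nat_lit 2812) (nat_lit 0) (XT.nd (nat_lit 234) (nat_lit 1520) (nat_lit 0) (XT.nd (nat_lit 78) (nat_lit 1140) (nat_lit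 0) (XT.lf (nat_lit 0) (nat_lit 5638229486) (nat_lit 532) (nat_lit 2131800260) (nat_lit 608) (nat_lit 3743564460) (nat_lit 245) (nat_lit 5) (nat_lit 252) (nat_lit 5) (nat_lit 253) (nat_lit 5) (nat_lit 454) (nat_lit 408) (nat_lit 338)) (XT.nd (nat_lit 78) (nat_lit 532) (nat_lit 0) (XT.lf (nat_lit 0) (nat_lit 553944399) (nat_lit 608) (nat_lit 6545561639) (nat_lit 76) (nat_lit 4602604754) (nat_lit 237) (nat_lit 5) (nat_lit 245) (nat_lit 5) (nat_lit 238) (nat_lit 5) (nat_lit 455) (nat_lit 408) (nat_lit 337)) (XT.lf (nat_lit 0) (nat_lit 4661184473) (nat_lit 532) (nat_lit 305908146) (nat_lit 608) (nat_lit 6927946927) (nat_lit 230) (nat_lit 5) (nat_lit 237) (nat_lit 5) (nat_lit 238) (nat_lit 5) (nat_lit 456) (nat_lit 408) (nat_lit 336)))) (XT.nd (nat_lit 78) (nat_lit 1064) (nat_lit 0) (XT.lf (nat_lit 0) (nat_lit 4146993258) (nat_lit 456) (nat_lit 5434200780) (nat_lit 532) (nat_lit 2511193919) (nat_lit 224)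 (nat_lit 5) (nat_lit 230) (nat_lit 5) (nat_lit 231) (nat_lit 5) (nat_lit 457) (nat_lit 408) (nat_lit 335)) (XT.nd (nat_lit 78) (nat_lit 456) (nat_lit 0) (XT.lf (nat_lit 0) (nat_lit 2050937695) (nat_lit 608) (nat_lit 8663520796) (nat_lit 76) (nat_lit 1580144395) (nat_lit 216) (nat_lit 5) (nat_lit 224) (nat_lit 5) (nat_lit 217) (nat_lit 5) (nat_lit 458) (nat_lit 408) (nat_lit 334)) (XT.lf (nat_lit 0) (nat_lit 3084947391) (nat_lit 456) (nat_lit 3696614496) (nat_lit 532) (nat_lit 5719678222) (nat_lit 210) (nat_lit 5) (nat_lit 216) (nat_lit 5) (nat_lit 217) (nat_lit 5) (nat_lit 459) (nat_lit 408) (nat_lit 333))))) (XT.nd (nat_lit 234) (nat_lit 1368) (nat_lit 0) (XT.nd (nat_lit 78) (nat_lit 988) (nat_lit 0) (XT.lf (nat_lit 0) (nat_lit 2537968484) (nat_lit 456) (nat_lit 9170406745) (nat_lit 532) (nat_lit 1004618476) (nat_lit 204) (nat_lit 5) (nat_lit 210) (nat_lit 5) (nat_lit 211) (nat_lit 5) (nat_lit 460)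 (nat_lit 408) (nat_lit 332)) (XT.nd (nat_lit 78) (nat_lit 456) (nat_lit 0) (XT.lf (nat_lit 0) (nat_lit 1962405802) (nat_lit 456) (nat_lit 1897020403) (nat_lit 532) (nat_lit 9070015030) (nat_lit 197) (nat_lit 5) (nat_lit 203) (nat_lit 5) (nat_lit 204) (nat_lit 5) (nat_lit 461) (nat_lit 408) (nat_lit 331)) (XT.lf (nat_lit 0) (nat_lit 1363808674) (nat_lit 456) (nat_lit 7563698330) (nat_lit 532) (nat_lit 4223309568) (nat_lit 191) (nat_lit 5) (nat_lit 197) (nat_lit 5) (nat_lit 198) (nat_lit 5) (nat_lit 462) (nat_lit 408) (nat_lit 330)))) (XT.nd (nat_lit 156) (nat_lit 456) (nat_lit 0) (XT.nd (nat_lit 78) (nat_lit 456) (nat_lit 0) (XT.lf (nat_lit 0) (nat_lit 766878543) (nat_lit 380) (nat_lit 41978185) (nat_lit 456) (nat_lit 12568876100) (nat_lit 185) (nat_lit 5) (nat_lit 190) (nat_lit 5) (nat_lit 191) (nat_lit 5) (nat_lit 463) (nat_lit 408) (nat_lit 329)) (XT.lf (nat_lit 0) (nat_lit 109449021) (nat_lit 456)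 (nat_lit 5915003205) (nat_lit 532) (nat_lit 7584651451) (nat_lit 179) (nat_lit 5) (nat_lit 185) (nat_lit 5) (nat_lit 186) (nat_lit 5) (nat_lit 464) (nat_lit 408) (nat_lit 328))) (XT.nd (nat_lit 78) (nat_lit 456) (nat_lit 0) (XT.lf (nat_lit 0) (nat_lit 11453654499) (nat_lit 532) (nat_lit 536081084) (nat_lit 76) (nat_lit 1856539501) (nat_lit 179) (nat_lit 5) (nat_lit 186) (nat_lit 5) (nat_lit 180) (nat_lit 5) (nat_lit 465) (nat_lit 408) (nat_lit 327)) (XT.lf (nat_lit 0) (nat_lit 3000436302) (nat_lit 456) (nat_lit 1222722558) (nat_lit 76) (nat_lit 9865340683) (nat_lit 173) (nat_lit 5) (nat_lit 179) (nat_lit 5) (nat_lit 174) (nat_lit 5) (nat_lit 466) (nat_lit 408) (nat_lit 326)))))) (XT.nd (nat_lit 468) (nat_lit 2432) (nat_lit 0) (XT.nd (nat_lit 234) (nat_lit 1140) (nat_lit 0) (XT.nd (nat_lit 78) (nat_lit 836) (nat_lit 0) (XT.lf (nat_lit 0) (nat_lit 8593120800) (nat_lit 456) (nat_lit 1935243845) (nat_lit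 76) (nat_lit 3807904981) (nat_lit 168) (nat_lit 5) (nat_lit 174) (nat_lit 5) (nat_lit 169) (nat_lit 5) (nat_lit 467) (nat_lit 408) (nat_lit 325)) (XT.nd (nat_lit 78) (nat_lit 456) (nat_lit 0) (XT.lf (nat_lit 0) (nat_lit 11927895518) (nat_lit 380) (nat_lit 2501115925) (nat_lit 456) (nat_lit 160954840) (nat_lit 163) (nat_lit 5) (nat_lit 168) (nat_lit 5) (nat_lit 169) (nat_lit 5) (nat_lit 468) (nat_lit 408) (nat_lit 324)) (XT.lf (nat_lit 0) (nat_lit 5602889166) (nat_lit 456) (nat_lit 3450362715) (nat_lit 76) (nat_lit 5795548510) (nat_lit 157) (nat_lit 5) (nat_lit 163) (nat_lit 5) (nat_lit 158) (nat_lit 5) (nat_lit 469) (nat_lit 408) (nat_lit 323)))) (XT.nd (nat_lit 78) (nat_lit 760) (nat_lit 0) (XT.lf (nat_lit 0) (nat_lit 10868407475) (nat_lit 380) (nat_lit 737011853) (nat_lit 456) (nat_lit 3508601599) (nat_lit 152) (nat_lit 5) (nat_lit 157) (nat_lit 5) (nat_lit 158) (nat_lit 5) (nat_lit 470) (nat_lit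 408) (nat_lit 322)) (XT.nd (nat_lit 78) (nat_lit 304) (nat_lit 0) (XT.lf (nat_lit 0) (nat_lit 2474371441) (nat_lit 456) (nat_lit 5098035666) (nat_lit 76) (nat_lit 7812380330) (nat_lit 146) (nat_lit 5) (nat_lit 152) (nat_lit 5) (nat_lit 147) (nat_lit 5) (nat_lit 471) (nat_lit 408) (nat_lit 321)) (XT.lf (nat_lit 0) (nat_lit 8656551560) (nat_lit 380) (nat_lit 5977719145) (nat_lit 76) (nat_lit 1027596371) (nat_lit 142) (nat_lit 5) (nat_lit 147) (nat_lit 5) (nat_lit 143) (nat_lit 5) (nat_lit 472) (nat_lit 408) (nat_lit 320))))) (XT.nd (nat_lit 234) (nat_lit 1368) (nat_lit 0) (XT.nd (nat_lit 78) (nat_lit 684) (nat_lit 0) (XT.lf (nat_lit 0) (nat_lit 9043528668) (nat_lit 380) (nat_lit 6088902490) (nat_lit 456) (nat_lit 812664910) (nat_lit 137) (nat_lit 5) (nat_lit 142) (nat_lit 5) (nat_lit 143) (nat_lit 5) (nat_lit 473) (nat_lit 408) (nat_lit 319)) (XT.nd (nat_lit 78) (nat_lit 304) (nat_lit 0) (XT.lf (nat_lit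 0) (nat_lit 5570832164) (nat_lit 380) (nat_lit 7875317702) (nat_lit 76) (nat_lit 2788389635) (nat_lit 132) (nat_lit 5) (nat_lit 137) (nat_lit 5) (nat_lit 133) (nat_lit 5) (nat_lit 474) (nat_lit 408) (nat_lit 318)) (XT.lf (nat_lit 0) (nat_lit 7637876723) (nat_lit 304) (nat_lit 4599446969) (nat_lit 380) (nat_lit 4293186020) (nat_lit 128) (nat_lit 5) (nat_lit 132) (nat_lit 5) (nat_lit 133) (nat_lit 5) (nat_lit 475) (nat_lit 408) (nat_lit 317)))) (XT.nd (nat_lit 156) (nat_lit 684) (nat_lit 0) (XT.nd (nat_lit 78) (nat_lit 304) (nat_lit 0) (XT.lf (nat_lit 0) (nat_lit 2332700214) (nat_lit 380) (nat_lit 9954132090) (nat_lit 76) (nat_lit 4546353598) (nat_lit 123) (nat_lit 5) (nat_lit 128) (nat_lit 5) (nat_lit 124) (nat_lit 5) (nat_lit 476) (nat_lit 408) (nat_lit 316)) (XT.lf (nat_lit 0) (nat_lit 6065983237) (nat_lit 304) (nat_lit 3130205242) (nat_lit 380) (nat_lit 7946244680) (nat_lit 119) (nat_lit 5) (nat_lit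 123) (nat_lit 5) (nat_lit 124) (nat_lit 5) (nat_lit 477) (nat_lit 408) (nat_lit 315))) (XT.nd (nat_lit 78) (nat_lit 380) (nat_lit 0) (XT.lf (nat_lit 0) (nat_lit 5215176218) (nat_lit 304) (nat_lit 11159591086) (nat_lit 380) (nat_lit 1084008175) (nat_lit 115) (nat_lit 5) (nat_lit 119) (nat_lit 5) (nat_lit 120) (nat_lit 5) (nat_lit 478) (nat_lit 408) (nat_lit 314)) (XT.lf (nat_lit 0) (nat_lit 4305488665) (nat_lit 304) (nat_lit 1691485141) (nat_lit 380) (nat_lit 11785031288) (nat_lit 110) (nat_lit 5) (nat_lit 114) (nat_lit 5) (nat_lit 115) (nat_lit 5) (nat_lit 479) (nat_lit 408) (nat_lit 313))))))))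
noncomputable def xc54 : XT := (XT.nd (nat_lit 57954) (nat_lit 0) (nat_lit 18316) (XT.nd (nat_lit 56940) (nat_lit 0) (nat_lit 43092) (XT.nd (nat_lit 468) (nat_lit 1596) (nat_lit 0) (XT.nd (nat_lit 234) (nat_lit 608) (nat_lit 0) (XT.nd (nat_lit 78) (nat_lit 608) (nat_lit 0) (XT.lf (nat_lit 0) (nat_lit 3334589703) (nat_lit 228) (nat_lit 10066047510) (nat_lit 304) (nat_lit 4711652749) (nat_lit 107) (nat_lit 5) (nat_lit 110) (nat_lit 5) (nat_lit 111) (nat_lit 5) (nat_lit 480) (nat_lit 408) (nat_lit 312)) (XT.nd (nat_lit 78) (nat_lit 228) (nat_lit 0) (XT.lf (nat_lit 0) (nat_lit 2331868943) (nat_lit 304) (nat_lit 294461488) (nat_lit 380) (nat_lit 15824096695) (nat_lit 102) (nat_lit 5) (nat_lit 106) (nat_lit 5) (nat_lit 107) (nat_lit 5) (nat_lit 481) (nat_lit 408) (nat_lit 311)) (XT.lf (nat_lit 0) (nat_lit 1227241247) (nat_lit 228) (nat_lit 9034006474) (nat_lit 304) (nat_lit 8534022817) (nat_lit 99) (nat_lit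 5) (nat_lit 102) (nat_lit 5) (nat_lit 103) (nat_lit 5) (nat_lit 482) (nat_lit 408) (nat_lit 310)))) (XT.nd (nat_lit 78) (nat_lit 304) (nat_lit 0) (XT.lf (nat_lit 0) (nat_lit 105048300) (nat_lit 304) (nat_lit 18107692284) (nat_lit 380) (nat_lit 935969238) (nat_lit 95) (nat_lit 5) (nat_lit 99) (nat_lit 5) (nat_lit 100) (nat_lit 5) (nat_lit 483) (nat_lit 408) (nat_lit 309)) (XT.nd (nat_lit 78) (nat_lit 228) (nat_lit 0) (XT.lf (nat_lit 0) (nat_lit 6948960690) (nat_lit 380) (nat_lit 1120229039) (nat_lit 76) (nat_lit 11439682963) (nat_lit 94) (nat_lit 5) (nat_lit 99) (nat_lit 5) (nat_lit 95) (nat_lit 5) (nat_lit 484) (nat_lit 408) (nat_lit 308)) (XT.lf (nat_lit 0) (nat_lit 15156851412) (nat_lit 304) (nat_lit 2380283579) (nat_lit 76) (nat_lit 2340600185) (nat_lit 91) (nat_lit 5) (nat_lit 95) (nat_lit 5) (nat_lit 92) (nat_lit 5) (nat_lit 485) (nat_lit 408) (nat_lit 307))))) (XT.nd (nat_lit 234) (nat_lit 836)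 (nat_lit 0) (XT.nd (nat_lit 78) (nat_lit 456) (nat_lit 0) (XT.lf (nat_lit 0) (nat_lit 3449637702) (nat_lit 304) (nat_lit 3733929337) (nat_lit 76) (nat_lit 13070856018) (nat_lit 87) (nat_lit 5) (nat_lit 91) (nat_lit 5) (nat_lit 88) (nat_lit 5) (nat_lit 486) (nat_lit 408) (nat_lit 306)) (XT.nd (nat_lit 78) (nat_lit 228) (nat_lit 0) (XT.lf (nat_lit 0) (nat_lit 11912528431) (nat_lit 304) (nat_lit 5163447449) (nat_lit 76) (nat_lit 3563584717) (nat_lit 84) (nat_lit 5) (nat_lit 88) (nat_lit 5) (nat_lit 85) (nat_lit 5) (nat_lit 487) (nat_lit 408) (nat_lit 305)) (XT.lf (nat_lit 0) (nat_lit 14368061229) (nat_lit 228) (nat_lit 6399146462) (nat_lit 304) (nat_lit 266287474) (nat_lit 81) (nat_lit 5) (nat_lit 84) (nat_lit 5) (nat_lit 85) (nat_lit 5) (nat_lit 488) (nat_lit 408) (nat_lit 304)))) (XT.nd (nat_lit 78) (nat_lit 532) (nat_lit 0) (XT.lf (nat_lit 0) (nat_lit 8460630630) (nat_lit 304) (nat_lit 8281250781)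 (nat_lit 76) (nat_lit 4693807178) (nat_lit 77) (nat_lit 5) (nat_lit 81) (nat_lit 5) (nat_lit 78) (nat_lit 5) (nat_lit 489) (nat_lit 408) (nat_lit 303)) (XT.nd (nat_lit 78) (nat_lit 304) (nat_lit 0) (XT.lf (nat_lit 0) (nat_lit 11872753072) (nat_lit 228) (nat_lit 5710171545) (nat_lit 304) (nat_lit 4264245139) (nat_lit 74) (nat_lit 5) (nat_lit 77) (nat_lit 5) (nat_lit 78) (nat_lit 5) (nat_lit 490) (nat_lit 408) (nat_lit 302)) (XT.lf (nat_lit 0) (nat_lit 4780760013) (nat_lit 304) (nat_lit 11772729178) (nat_lit 76) (nat_lit 5714203400) (nat_lit 70) (nat_lit 5) (nat_lit 74) (nat_lit 5) (nat_lit 71) (nat_lit 5) (nat_lit 491) (nat_lit 408) (nat_lit 301)))))) (XT.nd (nat_lit 468) (nat_lit 3192) (nat_lit 0) (XT.nd (nat_lit 234) (nat_lit 912) (nat_lit 0) (XT.nd (nat_lit 78) (nat_lit 988) (nat_lit 0) (XT.lf (nat_lit 0) (nat_lit 1235459991) (nat_lit 0) (nat_lit 1235459991) (nat_lit 836) (nat_lit 921872698) (nat_lit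 704) (nat_lit 5) (nat_lit 704) (nat_lit 3) (nat_lit 715) (nat_lit 3) (nat_lit 409) (nat_lit 409) (nat_lit 382)) (XT.nd (nat_lit 78) (nat_lit 0) (nat_lit 76) (XT.lf (nat_lit 76) (nat_lit 736823454) (nat_lit 0) (nat_lit 511737400) (nat_lit 988) (nat_lit 5576740022) (nat_lit 692) (nat_lit 5) (nat_lit 691) (nat_lit 3) (nat_lit 704) (nat_lit 5) (nat_lit 410) (nat_lit 409) (nat_lit 381)) (XT.lf (nat_lit 0) (nat_lit 4327297772) (nat_lit 912) (nat_lit 954167565) (nat_lit 988) (nat_lit 1586140286) (nat_lit 692) (nat_lit 5) (nat_lit 704) (nat_lit 5) (nat_lit 705) (nat_lit 5) (nat_lit 411) (nat_lit 409) (nat_lit 380)))) (XT.nd (nat_lit 78) (nat_lit 0) (nat_lit 0) (XT.lf (nat_lit 0) (nat_lit 493302741) (nat_lit 988) (nat_lit 2591951224) (nat_lit 1064) (nat_lit 3827588523) (nat_lit 679) (nat_lit 5) (nat_lit 692) (nat_lit 5) (nat_lit 693) (nat_lit 5) (nat_lit 412) (nat_lit 409) (nat_lit 379)) (XT.nd (nat_lit 78)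 (nat_lit 0) (nat_lit 76) (XT.lf (nat_lit 76) (nat_lit 2763391380) (nat_lit 0) (nat_lit 729772841) (nat_lit 1064) (nat_lit 3467755833) (nat_lit 680) (nat_lit 5) (nat_lit 679) (nat_lit 5) (nat_lit 693) (nat_lit 5) (nat_lit 413) (nat_lit 409) (nat_lit 378)) (XT.lf (nat_lit 76) (nat_lit 1244664823) (nat_lit 0) (nat_lit 5263498937) (nat_lit 1064) (nat_lit 503787449) (nat_lit 681) (nat_lit 5) (nat_lit 680) (nat_lit 5) (nat_lit 694) (nat_lit 5) (nat_lit 414) (nat_lit 409) (nat_lit 377))))) (XT.nd (nat_lit 234) (nat_lit 1140) (nat_lit 0) (XT.nd (nat_lit 78) (nat_lit 1064) (nat_lit 0) (XT.lf (nat_lit 0) (nat_lit 2439647627) (nat_lit 1064) (nat_lit 243705940) (nat_lit 1140) (nat_lit 4382362559) (nat_lit 666) (nat_lit 5) (nat_lit 680) (nat_lit 5) (nat_lit 681) (nat_lit 5) (nat_lit 415) (nat_lit 409) (nat_lit 376)) (XT.nd (nat_lit 78) (nat_lit 1140) (nat_lit 0) (XT.lf (nat_lit 0) (nat_lit 5393987144) (nat_lit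 1064) (nat_lit 1672943741) (nat_lit 1140) (nat_lit 55520626) (nat_lit 667) (nat_lit 5) (nat_lit 681) (nat_lit 5) (nat_lit 682) (nat_lit 5) (nat_lit 416) (nat_lit 409) (nat_lit 375)) (XT.lf (nat_lit 0) (nat_lit 1182087227) (nat_lit 1140) (nat_lit 3083042149) (nat_lit 1216) (nat_lit 2916759029) (nat_lit 652) (nat_lit 5) (nat_lit 667) (nat_lit 5) (nat_lit 668) (nat_lit 5) (nat_lit 417) (nat_lit 409) (nat_lit 374)))) (XT.nd (nat_lit 156) (nat_lit 1140) (nat_lit 0) (XT.nd (nat_lit 78) (nat_lit 0) (nat_lit 76) (XT.lf (nat_lit 76) (nat_lit 2783247930) (nat_lit 0) (nat_lit 1301368665) (nat_lit 1216) (nat_lit 3159712468) (nat_lit 653) (nat_lit 5) (nat_lit 652) (nat_lit 5) (nat_lit 668) (nat_lit 5) (nat_lit 418) (nat_lit 409) (nat_lit 373)) (XT.lf (nat_lit 76) (nat_lit 1501099073) (nat_lit 0) (nat_lit 5516559821) (nat_lit 1216) (nat_lit 292127003) (nat_lit 654) (nat_lit 5) (nat_lit 653) (nat_lit 5) (nat_lit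 669) (nat_lit 5) (nat_lit 419) (nat_lit 409) (nat_lit 372))) (XT.nd (nat_lit 78) (nat_lit 0) (nat_lit 76) (XT.lf (nat_lit 76) (nat_lit 236727717) (nat_lit 0) (nat_lit 2333613487) (nat_lit 1292) (nat_lit 4807655542) (nat_lit 638) (nat_lit 5) (nat_lit 637) (nat_lit 5) (nat_lit 654) (nat_lit 5) (nat_lit 420) (nat_lit 409) (nat_lit 371)) (XT.lf (nat_lit 0) (nat_lit 5466167998) (nat_lit 1216) (nat_lit 980605377) (nat_lit 1292) (nat_lit 1002423668) (nat_lit 638) (nat_lit 5) (nat_lit 654) (nat_lit 5) (nat_lit 655) (nat_lit 5) (nat_lit 421) (nat_lit 409) (nat_lit 370))))))) (XT.nd (nat_lit 936) (nat_lit 9804) (nat_lit 0) (XT.nd (nat_lit 468) (nat_lit 8132) (nat_lit 0) (XT.nd (nat_lit 234) (nat_lit 4408) (nat_lit 0) (XT.nd (nat_lit 78) (nat_lit 1216) (nat_lit 0) (XT.lf (nat_lit 0) (nat_lit 872690837) (nat_lit 1292) (nat_lit 2175453089) (nat_lit 1368) (nat_lit 4475109350) (nat_lit 621) (nat_lit 5) (nat_lit 638)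 (nat_lit 5) (nat_lit 639) (nat_lit 5) (nat_lit 422) (nat_lit 409) (nat_lit 369)) (XT.nd (nat_lit 78) (nat_lit 1292) (nat_lit 0) (XT.lf (nat_lit 0) (nat_lit 3735095178) (nat_lit 1292) (nat_lit 3347160157) (nat_lit 76) (nat_lit 518064605) (nat_lit 622) (nat_lit 5) (nat_lit 639) (nat_lit 5) (nat_lit 623) (nat_lit 5) (nat_lit 423) (nat_lit 409) (nat_lit 368)) (XT.lf (nat_lit 0) (nat_lit 3179412238) (nat_lit 1292) (nat_lit 3472238833) (nat_lit 1368) (nat_lit 1028691641) (nat_lit 605) (nat_lit 5) (nat_lit 622) (nat_lit 5) (nat_lit 623) (nat_lit 5) (nat_lit 424) (nat_lit 409) (nat_lit 367)))) (XT.nd (nat_lit 78) (nat_lit 2964) (nat_lit 0) (XT.lf (nat_lit 0) (nat_lit 1820806540) (nat_lit 1444) (nat_lit 5631608916) (nat_lit 76) (nat_lit 311060234) (nat_lit 586) (nat_lit 5) (nat_lit 605) (nat_lit 5) (nat_lit 587) (nat_lit 5) (nat_lit 425) (nat_lit 409) (nat_lit 366)) (XT.nd (nat_lit 78) (nat_lit 1520) (nat_lit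 0) (XT.lf (nat_lit 0) (nat_lit 1093201143) (nat_lit 1444) (nat_lit 3625871096) (nat_lit 1520) (nat_lit 3130358218) (nat_lit 567) (nat_lit 5) (nat_lit 586) (nat_lit 5) (nat_lit 587) (nat_lit 5) (nat_lit 426) (nat_lit 409) (nat_lit 365)) (XT.lf (nat_lit 0) (nat_lit 90276720) (nat_lit 1520) (nat_lit 7573326457) (nat_lit 1596) (nat_lit 275183044) (nat_lit 547) (nat_lit 5) (nat_lit 567) (nat_lit 5) (nat_lit 568) (nat_lit 5) (nat_lit 427) (nat_lit 409) (nat_lit 364))))) (XT.nd (nat_lit 234) (nat_lit 4712) (nat_lit 0) (XT.nd (nat_lit 78) (nat_lit 3344) (nat_lit 0) (XT.lf (nat_lit 0) (nat_lit 2620696772) (nat_lit 1596) (nat_lit 905322931) (nat_lit 76) (nat_lit 4504664898) (nat_lit 546) (nat_lit 5) (nat_lit 567) (nat_lit 5) (nat_lit 547) (nat_lit 5) (nat_lit 428) (nat_lit 409) (nat_lit 363)) (XT.nd (nat_lit 78) (nat_lit 1748) (nat_lit 0) (XT.lf (nat_lit 0) (nat_lit 5566927531) (nat_lit 1672) (nat_lit 1870395134)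 (nat_lit 76) (nat_lit 688644666) (nat_lit 525) (nat_lit 5) (nat_lit 547) (nat_lit 5) (nat_lit 526) (nat_lit 5) (nat_lit 429) (nat_lit 409) (nat_lit 362)) (XT.lf (nat_lit 0) (nat_lit 361156759) (nat_lit 1748) (nat_lit 2826570063) (nat_lit 76) (nat_lit 5036566957) (nat_lit 502) (nat_lit 5) (nat_lit 525) (nat_lit 5) (nat_lit 503) (nat_lit 5) (nat_lit 430) (nat_lit 409) (nat_lit 361)))) (XT.nd (nat_lit 78) (nat_lit 2964) (nat_lit 0) (XT.lf (nat_lit 0) (nat_lit 3310149584) (nat_lit 1824) (nat_lit 3773945427) (nat_lit 76) (nat_lit 1241624980) (nat_lit 479) (nat_lit 5) (nat_lit 503) (nat_lit 5) (nat_lit 480) (nat_lit 5) (nat_lit 431) (nat_lit 409) (nat_lit 360)) (XT.nd (nat_lit 78) (nat_lit 1140) (nat_lit 0) (XT.lf (nat_lit 0) (nat_lit 3720597087) (nat_lit 1824) (nat_lit 2618795637) (nat_lit 1900) (nat_lit 2090967872) (nat_lit 455) (nat_lit 5) (nat_lit 479) (nat_lit 5) (nat_lit 480) (nat_lit 5) (nat_lit 432)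 (nat_lit 409) (nat_lit 359)) (XT.lf (nat_lit 0) (nat_lit 895453292) (nat_lit 1140) (nat_lit 5632635390) (nat_lit 76) (nat_lit 2010215667) (nat_lit 440) (nat_lit 5) (nat_lit 455) (nat_lit 5) (nat_lit 441) (nat_lit 5) (nat_lit 433) (nat_lit 409) (nat_lit 358)))))) (XT.nd (nat_lit 468) (nat_lit 5320) (nat_lit 0) (XT.nd (nat_lit 234) (nat_lit 1748) (nat_lit 0) (XT.nd (nat_lit 78) (nat_lit 1824) (nat_lit 0) (XT.lf (nat_lit 0) (nat_lit 2093605007) (nat_lit 912) (nat_lit 1842781224) (nat_lit 988) (nat_lit 4712963883) (nat_lit 428) (nat_lit 5) (nat_lit 440) (nat_lit 5) (nat_lit 441) (nat_lit 5) (nat_lit 434) (nat_lit 409) (nat_lit 357)) (XT.nd (nat_lit 78) (nat_lit 912) (nat_lit 0) (XT.lf (nat_lit 0) (nat_lit 1295511767) (nat_lit 912) (nat_lit 5770794248) (nat_lit 988) (nat_lit 1697472530) (nat_lit 416) (nat_lit 5) (nat_lit 428) (nat_lit 5) (nat_lit 429) (nat_lit 5) (nat_lit 435) (nat_lit 409) (nat_lit 356))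 (XT.lf (nat_lit 0) (nat_lit 508770114) (nat_lit 836) (nat_lit 874256154) (nat_lit 912) (nat_lit 7498576522) (nat_lit 404) (nat_lit 5) (nat_lit 415) (nat_lit 5) (nat_lit 416) (nat_lit 5) (nat_lit 436) (nat_lit 409) (nat_lit 355)))) (XT.nd (nat_lit 78) (nat_lit 1748) (nat_lit 0) (XT.lf (nat_lit 0) (nat_lit 4545218362) (nat_lit 912) (nat_lit 281016201) (nat_lit 76) (nat_lit 4176261968) (nat_lit 404) (nat_lit 5) (nat_lit 416) (nat_lit 5) (nat_lit 405) (nat_lit 5) (nat_lit 437) (nat_lit 409) (nat_lit 354)) (XT.nd (nat_lit 78) (nat_lit 912) (nat_lit 0) (XT.lf (nat_lit 0) (nat_lit 7798641604) (nat_lit 912) (nat_lit 1040924936) (nat_lit 76) (nat_lit 287529045) (nat_lit 393) (nat_lit 5) (nat_lit 405) (nat_lit 5) (nat_lit 394) (nat_lit 5) (nat_lit 438) (nat_lit 409) (nat_lit 353)) (XT.lf (nat_lit 0) (nat_lit 1889638436) (nat_lit 912) (nat_lit 1815050262) (nat_lit 76) (nat_lit 5550098531) (nat_lit 381) (nat_lit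 5) (nat_lit 393) (nat_lit 5) (nat_lit 382) (nat_lit 5) (nat_lit 439) (nat_lit 409) (nat_lit 352))))) (XT.nd (nat_lit 234) (nat_lit 2888) (nat_lit 0) (XT.nd (nat_lit 78) (nat_lit 1596) (nat_lit 0) (XT.lf (nat_lit 0) (nat_lit 5186881617) (nat_lit 912) (nat_lit 2579226805) (nat_lit 76) (nat_lit 1620017817) (nat_lit 370) (nat_lit 5) (nat_lit 382) (nat_lit 5) (nat_lit 371) (nat_lit 5) (nat_lit 440) (nat_lit 409) (nat_lit 351)) (XT.nd (nat_lit 78) (nat_lit 836) (nat_lit 0) (XT.lf (nat_lit 0) (nat_lit 6181683096) (nat_lit 760) (nat_lit 2418522432) (nat_lit 836) (nat_lit 920861831) (nat_lit 360) (nat_lit 5) (nat_lit 370) (nat_lit 5) (nat_lit 371) (nat_lit 5) (nat_lit 441) (nat_lit 409) (nat_lit 350)) (XT.lf (nat_lit 0) (nat_lit 2438726926) (nat_lit 836) (nat_lit 4107741120) (nat_lit 76) (nat_lit 3112973451) (nat_lit 349) (nat_lit 5) (nat_lit 360) (nat_lit 5) (nat_lit 350) (nat_lit 5) (nat_lit 442) (nat_lit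 409) (nat_lit 349)))) (XT.nd (nat_lit 156) (nat_lit 1444) (nat_lit 0) (XT.nd (nat_lit 78) (nat_lit 760) (nat_lit 0) (XT.lf (nat_lit 0) (nat_lit 4930383425) (nat_lit 684) (nat_lit 969316912) (nat_lit 760) (nat_lit 3901887439) (nat_lit 340) (nat_lit 5) (nat_lit 349) (nat_lit 5) (nat_lit 350) (nat_lit 5) (nat_lit 443) (nat_lit 409) (nat_lit 348)) (XT.lf (nat_lit 0) (nat_lit 4308217290) (nat_lit 760) (nat_lit 5186571714) (nat_lit 836) (nat_lit 452608394) (nat_lit 330) (nat_lit 5) (nat_lit 340) (nat_lit 5) (nat_lit 341) (nat_lit 5) (nat_lit 444) (nat_lit 409) (nat_lit 347))) (XT.nd (nat_lit 78) (nat_lit 684) (nat_lit 0) (XT.lf (nat_lit 0) (nat_lit 3071341433) (nat_lit 760) (nat_lit 6411950292) (nat_lit 76) (nat_lit 613654439) (nat_lit 320) (nat_lit 5) (nat_lit 330) (nat_lit 5) (nat_lit 321) (nat_lit 5) (nat_lit 445) (nat_lit 409) (nat_lit 346)) (XT.lf (nat_lit 0) (nat_lit 3052746638) (nat_lit 684) (nat_lit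 3680420887) (nat_lit 760) (nat_lit 3516992215) (nat_lit 311) (nat_lit 5) (nat_lit 320) (nat_lit 5) (nat_lit 321) (nat_lit 5) (nat_lit 446) (nat_lit 409) (nat_lit 345))))))))
noncomputable def xc55 : XT := (XT.nd (nat_lit 1950) (nat_lit 6232) (nat_lit 0) (XT.nd (nat_lit 936) (nat_lit 5472) (nat_lit 0) (XT.nd (nat_lit 468) (nat_lit 3344) (nat_lit 0) (XT.nd (nat_lit 234) (nat_lit 1292) (nat_lit 0) (XT.nd (nat_lit 78) (nat_lit 1292) (nat_lit 0) (XT.lf (nat_lit 0) (nat_lit 116599019) (nat_lit 684) (nat_lit 7974697179) (nat_lit 76) (nat_lit 2316245239) (nat_lit 302) (nat_lit 5) (nat_lit 311) (nat_lit 5) (nat_lit 303) (nat_lit 5) (nat_lit 447) (nat_lit 409) (nat_lit 344)) (XT.nd (nat_lit 78) (nat_lit 608) (nat_lit 0) (XT.lf (nat_lit 0) (nat_lit 1792115484) (nat_lit 684) (nat_lit 2052117799) (nat_lit 760) (nat_lit 6724293997) (nat_lit 293) (nat_lit 5) (nat_lit 302) (nat_lit 5) (nat_lit 303) (nat_lit 5) (nat_lit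 448) (nat_lit 409) (nat_lit 343)) (XT.lf (nat_lit 0) (nat_lit 1150801164) (nat_lit 608) (nat_lit 6570074592) (nat_lit 684) (nat_lit 3012727237) (nat_lit 285) (nat_lit 5) (nat_lit 293) (nat_lit 5) (nat_lit 294) (nat_lit 5) (nat_lit 449) (nat_lit 409) (nat_lit 342)))) (XT.nd (nat_lit 78) (nat_lit 608) (nat_lit 0) (XT.lf (nat_lit 0) (nat_lit 516587249) (nat_lit 608) (nat_lit 308918985) (nat_lit 684) (nat_lit 10077504316) (nat_lit 276) (nat_lit 5) (nat_lit 284) (nat_lit 5) (nat_lit 285) (nat_lit 5) (nat_lit 450) (nat_lit 409) (nat_lit 341)) (XT.nd (nat_lit 78) (nat_lit 608) (nat_lit 0) (XT.lf (nat_lit 0) (nat_lit 4793410515) (nat_lit 684) (nat_lit 150719386) (nat_lit 76) (nat_lit 6131866633) (nat_lit 276) (nat_lit 5) (nat_lit 285) (nat_lit 5) (nat_lit 277) (nat_lit 5) (nat_lit 451) (nat_lit 409) (nat_lit 340)) (XT.lf (nat_lit 0) (nat_lit 8911958251) (nat_lit 684) (nat_lit 798989962) (nat_lit 76) (nat_lit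 1542595236) (nat_lit 268) (nat_lit 5) (nat_lit 277) (nat_lit 5) (nat_lit 269) (nat_lit 5) (nat_lit 452) (nat_lit 409) (nat_lit 339))))) (XT.nd (nat_lit 234) (nat_lit 1596) (nat_lit 0) (XT.nd (nat_lit 78) (nat_lit 1064) (nat_lit 0) (XT.lf (nat_lit 0) (nat_lit 1746711486) (nat_lit 684) (nat_lit 1467612734) (nat_lit 76) (nat_lit 8220840957) (nat_lit 259) (nat_lit 5) (nat_lit 268) (nat_lit 5) (nat_lit 260) (nat_lit 5) (nat_lit 453) (nat_lit 409) (nat_lit 338)) (XT.nd (nat_lit 78) (nat_lit 532) (nat_lit 0) (XT.lf (nat_lit 0) (nat_lit 5969188626) (nat_lit 608) (nat_lit 2151649411) (nat_lit 76) (nat_lit 3500224287) (nat_lit 252) (nat_lit 5) (nat_lit 260) (nat_lit 5) (nat_lit 253) (nat_lit 5) (nat_lit 454) (nat_lit 409) (nat_lit 337)) (XT.lf (nat_lit 0) (nat_lit 8976843217) (nat_lit 532) (nat_lit 1385214478) (nat_lit 608) (nat_lit 1449607457) (nat_lit 245) (nat_lit 5) (nat_lit 252) (nat_lit 5) (nat_lit 253)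 (nat_lit 5) (nat_lit 455) (nat_lit 409) (nat_lit 336)))) (XT.nd (nat_lit 78) (nat_lit 988) (nat_lit 0) (XT.lf (nat_lit 0) (nat_lit 2901894043) (nat_lit 608) (nat_lit 3551357882) (nat_lit 76) (nat_lit 5553144851) (nat_lit 237) (nat_lit 5) (nat_lit 245) (nat_lit 5) (nat_lit 238) (nat_lit 5) (nat_lit 456) (nat_lit 409) (nat_lit 335)) (XT.nd (nat_lit 78) (nat_lit 456) (nat_lit 0) (XT.lf (nat_lit 0) (nat_lit 7403418557) (nat_lit 608) (nat_lit 4269746341) (nat_lit 76) (nat_lit 532833246) (nat_lit 230) (nat_lit 5) (nat_lit 238) (nat_lit 5) (nat_lit 231) (nat_lit 5) (nat_lit 457) (nat_lit 409) (nat_lit 334)) (XT.lf (nat_lit 0) (nat_lit 7398904923) (nat_lit 456) (nat_lit 4712709298) (nat_lit 532) (nat_lit 298543624) (nat_lit 224) (nat_lit 5) (nat_lit 230) (nat_lit 5) (nat_lit 231) (nat_lit 5) (nat_lit 458) (nat_lit 409) (nat_lit 333)))))) (XT.nd (nat_lit 468) (nat_lit 2508) (nat_lit 0) (XT.nd (nat_lit 234)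 (nat_lit 1368) (nat_lit 0) (XT.nd (nat_lit 78) (nat_lit 988) (nat_lit 0) (XT.lf (nat_lit 0) (nat_lit 4330651840) (nat_lit 608) (nat_lit 5778428863) (nat_lit 76) (nat_lit 2509861328) (nat_lit 216) (nat_lit 5) (nat_lit 224) (nat_lit 5) (nat_lit 217) (nat_lit 5) (nat_lit 459) (nat_lit 409) (nat_lit 332)) (XT.nd (nat_lit 78) (nat_lit 532) (nat_lit 0) (XT.lf (nat_lit 0) (nat_lit 6271469520) (nat_lit 456) (nat_lit 2887206007) (nat_lit 532) (nat_lit 3673997167) (nat_lit 210) (nat_lit 5) (nat_lit 216) (nat_lit 5) (nat_lit 217) (nat_lit 5) (nat_lit 460) (nat_lit 409) (nat_lit 331)) (XT.lf (nat_lit 0) (nat_lit 1129246417) (nat_lit 532) (nat_lit 7364058032) (nat_lit 76) (nat_lit 4558079826) (nat_lit 203) (nat_lit 5) (nat_lit 210) (nat_lit 5) (nat_lit 204) (nat_lit 5) (nat_lit 461) (nat_lit 409) (nat_lit 330)))) (XT.nd (nat_lit 78) (nat_lit 912) (nat_lit 0) (XT.lf (nat_lit 0) (nat_lit 5080329656) (nat_lit 456)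 (nat_lit 1002539197) (nat_lit 532) (nat_lit 7192181102) (nat_lit 197) (nat_lit 5) (nat_lit 203) (nat_lit 5) (nat_lit 204) (nat_lit 5) (nat_lit 462) (nat_lit 409) (nat_lit 329)) (XT.nd (nat_lit 78) (nat_lit 456) (nat_lit 0) (XT.lf (nat_lit 0) (nat_lit 4449656946) (nat_lit 456) (nat_lit 6817713861) (nat_lit 532) (nat_lit 2236411703) (nat_lit 191) (nat_lit 5) (nat_lit 197) (nat_lit 5) (nat_lit 198) (nat_lit 5) (nat_lit 463) (nat_lit 409) (nat_lit 328)) (XT.lf (nat_lit 0) (nat_lit 2883942651) (nat_lit 456) (nat_lit 9931325328) (nat_lit 76) (nat_lit 922668316) (nat_lit 185) (nat_lit 5) (nat_lit 191) (nat_lit 5) (nat_lit 186) (nat_lit 5) (nat_lit 464) (nat_lit 409) (nat_lit 327))))) (XT.nd (nat_lit 234) (nat_lit 1216) (nat_lit 0) (XT.nd (nat_lit 78) (nat_lit 836) (nat_lit 0) (XT.lf (nat_lit 0) (nat_lit 3120700847) (nat_lit 456) (nat_lit 5095374814) (nat_lit 532) (nat_lit 5760974481) (nat_lit 179) (nat_lit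 5) (nat_lit 185) (nat_lit 5) (nat_lit 186) (nat_lit 5) (nat_lit 465) (nat_lit 409) (nat_lit 326)) (XT.nd (nat_lit 78) (nat_lit 456) (nat_lit 0) (XT.lf (nat_lit 0) (nat_lit 2432969889) (nat_lit 380) (nat_lit 11338696100) (nat_lit 456) (nat_lit 450403633) (nat_lit 174) (nat_lit 5) (nat_lit 179) (nat_lit 5) (nat_lit 180) (nat_lit 5) (nat_lit 466) (nat_lit 409) (nat_lit 325)) (XT.lf (nat_lit 0) (nat_lit 1693916132) (nat_lit 380) (nat_lit 3340772419) (nat_lit 456) (nat_lit 9437480606) (nat_lit 168) (nat_lit 5) (nat_lit 173) (nat_lit 5) (nat_lit 174) (nat_lit 5) (nat_lit 467) (nat_lit 409) (nat_lit 324)))) (XT.nd (nat_lit 156) (nat_lit 380) (nat_lit 0) (XT.nd (nat_lit 78) (nat_lit 456) (nat_lit 0) (XT.lf (nat_lit 0) (nat_lit 934097042) (nat_lit 380) (nat_lit 9824951296) (nat_lit 456) (nat_lit 3969049040) (nat_lit 163) (nat_lit 5) (nat_lit 168) (nat_lit 5) (nat_lit 169) (nat_lit 5) (nat_lit 468) (nat_lit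 409) (nat_lit 323)) (XT.lf (nat_lit 0) (nat_lit 154063682) (nat_lit 380) (nat_lit 1561062940) (nat_lit 456) (nat_lit 13274892506) (nat_lit 157) (nat_lit 5) (nat_lit 162) (nat_lit 5) (nat_lit 163) (nat_lit 5) (nat_lit 469) (nat_lit 409) (nat_lit 322))) (XT.nd (nat_lit 78) (nat_lit 380) (nat_lit 0) (XT.lf (nat_lit 0) (nat_lit 7619019470) (nat_lit 456) (nat_lit 677508660) (nat_lit 76) (nat_lit 6960685154) (nat_lit 157) (nat_lit 5) (nat_lit 163) (nat_lit 5) (nat_lit 158) (nat_lit 5) (nat_lit 470) (nat_lit 409) (nat_lit 321)) (XT.lf (nat_lit 0) (nat_lit 13767846336) (nat_lit 456) (nat_lit 1508618144) (nat_lit 76) (nat_lit 254604168) (nat_lit 152) (nat_lit 5) (nat_lit 158) (nat_lit 5) (nat_lit 153) (nat_lit 5) (nat_lit 471) (nat_lit 409) (nat_lit 320))))))) (XT.nd (nat_lit 1014) (nat_lit 1824) (nat_lit 0) (XT.nd (nat_lit 468) (nat_lit 2204) (nat_lit 0) (XT.nd (nat_lit 234) (nat_lit 988) (nat_lit 0) (XT.nd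 (nat_lit 78) (nat_lit 760) (nat_lit 0) (XT.lf (nat_lit 0) (nat_lit 4344975316) (nat_lit 456) (nat_lit 2413976438) (nat_lit 76) (nat_lit 9051368452) (nat_lit 146) (nat_lit 5) (nat_lit 152) (nat_lit 5) (nat_lit 147) (nat_lit 5) (nat_lit 472) (nat_lit 409) (nat_lit 319)) (XT.nd (nat_lit 78) (nat_lit 456) (nat_lit 0) (XT.lf (nat_lit 0) (nat_lit 10685099814) (nat_lit 380) (nat_lit 3337432631) (nat_lit 76) (nat_lit 2073732641) (nat_lit 142) (nat_lit 5) (nat_lit 147) (nat_lit 5) (nat_lit 143) (nat_lit 5) (nat_lit 473) (nat_lit 409) (nat_lit 318)) (XT.lf (nat_lit 0) (nat_lit 920844622) (nat_lit 456) (nat_lit 4306014034) (nat_lit 76) (nat_lit 11161683688) (nat_lit 136) (nat_lit 5) (nat_lit 142) (nat_lit 5) (nat_lit 137) (nat_lit 5) (nat_lit 474) (nat_lit 409) (nat_lit 317)))) (XT.nd (nat_lit 78) (nat_lit 684) (nat_lit 0) (XT.lf (nat_lit 0) (nat_lit 7458592770) (nat_lit 380) (nat_lit 5332178079) (nat_lit 76)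 (nat_lit 3896317300) (nat_lit 132) (nat_lit 5) (nat_lit 137) (nat_lit 5) (nat_lit 133) (nat_lit 5) (nat_lit 475) (nat_lit 409) (nat_lit 316)) (XT.nd (nat_lit 78) (nat_lit 380) (nat_lit 0) (XT.lf (nat_lit 0) (nat_lit 10601319730) (nat_lit 304) (nat_lit 3691396646) (nat_lit 380) (nat_lit 2699870523) (nat_lit 128) (nat_lit 5) (nat_lit 132) (nat_lit 5) (nat_lit 133) (nat_lit 5) (nat_lit 476) (nat_lit 409) (nat_lit 315)) (XT.lf (nat_lit 0) (nat_lit 4077097638) (nat_lit 380) (nat_lit 7513881204) (nat_lit 76) (nat_lit 5713645161) (nat_lit 123) (nat_lit 5) (nat_lit 128) (nat_lit 5) (nat_lit 124) (nat_lit 5) (nat_lit 477) (nat_lit 409) (nat_lit 314))))) (XT.nd (nat_lit 234) (nat_lit 1216) (nat_lit 0) (XT.nd (nat_lit 78) (nat_lit 684) (nat_lit 0) (XT.lf (nat_lit 0) (nat_lit 8942402592) (nat_lit 304) (nat_lit 2172812640) (nat_lit 380) (nat_lit 6508560967) (nat_lit 119) (nat_lit 5) (nat_lit 123) (nat_lit 5) (nat_lit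 124) (nat_lit 5) (nat_lit 478) (nat_lit 409) (nat_lit 313)) (XT.nd (nat_lit 78) (nat_lit 304) (nat_lit 0) (XT.lf (nat_lit 0) (nat_lit 528189672) (nat_lit 380) (nat_lit 9905524775) (nat_lit 76) (nat_lit 7516303890) (nat_lit 114) (nat_lit 5) (nat_lit 119) (nat_lit 5) (nat_lit 115) (nat_lit 5) (nat_lit 479) (nat_lit 409) (nat_lit 312)) (XT.lf (nat_lit 0) (nat_lit 7089012540) (nat_lit 304) (nat_lit 687701061) (nat_lit 380) (nat_lit 10506692995) (nat_lit 110) (nat_lit 5) (nat_lit 114) (nat_lit 5) (nat_lit 115) (nat_lit 5) (nat_lit 480) (nat_lit 409) (nat_lit 311)))) (XT.nd (nat_lit 156) (nat_lit 608) (nat_lit 0) (XT.nd (nat_lit 78) (nat_lit 380) (nat_lit 0) (XT.lf (nat_lit 0) (nat_lit 6070725701) (nat_lit 228) (nat_lit 9308926782) (nat_lit 304) (nat_lit 3244406024) (nat_lit 107) (nat_lit 5) (nat_lit 110) (nat_lit 5) (nat_lit 111) (nat_lit 5) (nat_lit 481) (nat_lit 409) (nat_lit 310)) (XT.lf (nat_lit 0)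 (nat_lit 4268241004) (nat_lit 380) (nat_lit 13961635793) (nat_lit 76) (nat_lit 742743400) (nat_lit 102) (nat_lit 5) (nat_lit 107) (nat_lit 5) (nat_lit 103) (nat_lit 5) (nat_lit 482) (nat_lit 409) (nat_lit 309))) (XT.nd (nat_lit 78) (nat_lit 380) (nat_lit 0) (XT.lf (nat_lit 0) (nat_lit 3859761737) (nat_lit 228) (nat_lit 8245681155) (nat_lit 304) (nat_lit 7222902947) (nat_lit 99) (nat_lit 5) (nat_lit 102) (nat_lit 5) (nat_lit 103) (nat_lit 5) (nat_lit 483) (nat_lit 409) (nat_lit 308)) (XT.lf (nat_lit 0) (nat_lit 573701318) (nat_lit 380) (nat_lit 17011283226) (nat_lit 76) (nat_lit 2107756658) (nat_lit 94) (nat_lit 5) (nat_lit 99) (nat_lit 5) (nat_lit 95) (nat_lit 5) (nat_lit 484) (nat_lit 409) (nat_lit 307)))))) (XT.nd (nat_lit 468) (nat_lit 532) (nat_lit 0) (XT.nd (nat_lit 234) (nat_lit 760) (nat_lit 0) (XT.nd (nat_lit 78) (nat_lit 304) (nat_lit 0) (XT.lf (nat_lit 0) (nat_lit 1386118919) (nat_lit 228)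 (nat_lit 7260995598) (nat_lit 304) (nat_lit 11417179218) (nat_lit 91) (nat_lit 5) (nat_lit 94) (nat_lit 5) (nat_lit 95) (nat_lit 5) (nat_lit 485) (nat_lit 409) (nat_lit 306)) (XT.nd (nat_lit 78) (nat_lit 76) (nat_lit 0) (XT.lf (nat_lit 0) (nat_lit 52310813) (nat_lit 228) (nat_lit 17019921072) (nat_lit 304) (nat_lit 3372571909) (nat_lit 88) (nat_lit 5) (nat_lit 91) (nat_lit 5) (nat_lit 92) (nat_lit 5) (nat_lit 486) (nat_lit 409) (nat_lit 305)) (XT.lf (nat_lit 0) (nat_lit 4996460745) (nat_lit 304) (nat_lit 1364015042) (nat_lit 76) (nat_lit 14472665748) (nat_lit 87) (nat_lit 5) (nat_lit 91) (nat_lit 5) (nat_lit 88) (nat_lit 5) (nat_lit 487) (nat_lit 409) (nat_lit 304)))) (XT.nd (nat_lit 78) (nat_lit 532) (nat_lit 0) (XT.lf (nat_lit 0) (nat_lit 13693704108) (nat_lit 304) (nat_lit 2854947839) (nat_lit 76) (nat_lit 4681573323) (nat_lit 84) (nat_lit 5) (nat_lit 88) (nat_lit 5) (nat_lit 85) (nat_lit 5) (nat_lit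 488) (nat_lit 409) (nat_lit 303)) (XT.nd (nat_lit 78) (nat_lit 228) (nat_lit 0) (XT.lf (nat_lit 0) (nat_lit 1136688491) (nat_lit 304) (nat_lit 4421431828) (nat_lit 76) (nat_lit 16078224042) (nat_lit 80) (nat_lit 5) (nat_lit 84) (nat_lit 5) (nat_lit 81) (nat_lit 5) (nat_lit 489) (nat_lit 409) (nat_lit 302)) (XT.lf (nat_lit 0) (nat_lit 10103051039) (nat_lit 304) (nat_lit 6106069683) (nat_lit 76) (nat_lit 5841823849) (nat_lit 77) (nat_lit 5) (nat_lit 81) (nat_lit 5) (nat_lit 78) (nat_lit 5) (nat_lit 490) (nat_lit 409) (nat_lit 301))))) (XT.nd (nat_lit 56238) (nat_lit 0) (nat_lit 45220) (XT.nd (nat_lit 78) (nat_lit 304) (nat_lit 0) (XT.lf (nat_lit 0) (nat_lit 14613233953) (nat_lit 228) (nat_lit 4860815635) (nat_lit 304) (nat_lit 3001221111) (nat_lit 74) (nat_lit 5) (nat_lit 77) (nat_lit 5) (nat_lit 78) (nat_lit 5) (nat_lit 491) (nat_lit 409) (nat_lit 300)) (XT.nd (nat_lit 56082) (nat_lit 0) (nat_lit 47196)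 (XT.lf (nat_lit 0) (nat_lit 6278849372) (nat_lit 304) (nat_lit 9741901242) (nat_lit 76) (nat_lit 6887840013) (nat_lit 70) (nat_lit 5) (nat_lit 74) (nat_lit 5) (nat_lit 71) (nat_lit 5) (nat_lit 492) (nat_lit 409) (nat_lit 299)) (XT.lf (nat_lit 0) (nat_lit 2123850009) (nat_lit 988) (nat_lit 654616105) (nat_lit 988) (nat_lit 654616105) (nat_lit 691) (nat_lit 3) (nat_lit 704) (nat_lit 3) (nat_lit 704) (nat_lit 5) (nat_lit 410) (nat_lit 410) (nat_lit 380)))) (XT.nd (nat_lit 156) (nat_lit 988) (nat_lit 0) (XT.nd (nat_lit 78) (nat_lit 0) (nat_lit 0) (XT.lf (nat_lit 0) (nat_lit 335039532) (nat_lit 988) (nat_lit 3081407717) (nat_lit 1064) (nat_lit 3493523967) (nat_lit 678) (nat_lit 5) (nat_lit 691) (nat_lit 3) (nat_lit 692) (nat_lit 5) (nat_lit 411) (nat_lit 410) (nat_lit 379)) (XT.lf (nat_lit 76) (nat_lit 2133609157) (nat_lit 0) (nat_lit 1116104459) (nat_lit 1064) (nat_lit 3706884155) (nat_lit 679) (nat_lit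 5) (nat_lit 678) (nat_lit 5) (nat_lit 692) (nat_lit 5) (nat_lit 412) (nat_lit 410) (nat_lit 378))) (XT.nd (nat_lit 78) (nat_lit 1064) (nat_lit 0) (XT.lf (nat_lit 76) (nat_lit 479140652) (nat_lit 0) (nat_lit 5693408654) (nat_lit 1064) (nat_lit 833673495) (nat_lit 680) (nat_lit 5) (nat_lit 679) (nat_lit 5) (nat_lit 693) (nat_lit 5) (nat_lit 413) (nat_lit 410) (nat_lit 377)) (XT.lf (nat_lit 0) (nat_lit 2028791285) (nat_lit 1064) (nat_lit 1134194379) (nat_lit 1140) (nat_lit 3895469570) (nat_lit 665) (nat_lit 5) (nat_lit 679) (nat_lit 5) (nat_lit 680) (nat_lit 5) (nat_lit 414) (nat_lit 410) (nat_lit 376))))))))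
noncomputable def xc56 : XT := (XT.nd (nat_lit 1950) (nat_lit 14440) (nat_lit 0) (XT.nd (nat_lit 936) (nat_lit 15580) (nat_lit 0) (XT.nd (nat_lit 468) (nat_lit 3800) (nat_lit 0) (XT.nd (nat_lit 234) (nat_lit 1140) (nat_lit 0) (XT.nd (nat_lit 78) (nat_lit 1064) (nat_lit 0) (XT.lf (nat_lit 76) (nat_lit 4412207631) (nat_lit 0) (nat_lit 476069468) (nat_lit 1140) (nat_lit 2225430896) (nat_lit 666) (nat_lit 5) (nat_lit 665) (nat_lit 5) (nat_lit 680) (nat_lit 5) (nat_lit 415) (nat_lit 410) (nat_lit 375)) (XT.nd (nat_lit 78) (nat_lit 0) (nat_lit 0) (XT.lf (nat_lit 0) (nat_lit 592217316) (nat_lit 1140) (nat_lit 4244126833) (nat_lit 1216) (nat_lit 2335440865) (nat_lit 651) (nat_lit 5) (nat_lit 666) (nat_lit 5) (nat_lit 667) (nat_lit 5) (nat_lit 416) (nat_lit 410) (nat_lit 374)) (XT.lf (nat_lit 76) (nat_lit 1470223158) (nat_lit 0) (nat_lit 1923953678) (nat_lit 1216) (nat_lit 3838545018) (nat_lit 652) (nat_lit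 5) (nat_lit 651) (nat_lit 5) (nat_lit 667) (nat_lit 5) (nat_lit 417) (nat_lit 410) (nat_lit 373)))) (XT.nd (nat_lit 78) (nat_lit 1216) (nat_lit 0) (XT.lf (nat_lit 76) (nat_lit 49132484) (nat_lit 0) (nat_lit 6168800272) (nat_lit 1216) (nat_lit 1078810988) (nat_lit 653) (nat_lit 5) (nat_lit 652) (nat_lit 5) (nat_lit 668) (nat_lit 5) (nat_lit 418) (nat_lit 410) (nat_lit 372)) (XT.nd (nat_lit 78) (nat_lit 0) (nat_lit 76) (XT.lf (nat_lit 0) (nat_lit 1696057155) (nat_lit 1216) (nat_lit 1336279400) (nat_lit 1292) (nat_lit 4331022374) (nat_lit 636) (nat_lit 5) (nat_lit 652) (nat_lit 5) (nat_lit 653) (nat_lit 5) (nat_lit 419) (nat_lit 410) (nat_lit 371)) (XT.lf (nat_lit 0) (nat_lit 4478271775) (nat_lit 1216) (nat_lit 2689361601) (nat_lit 1292) (nat_lit 265432239) (nat_lit 637) (nat_lit 5) (nat_lit 653) (nat_lit 5) (nat_lit 654) (nat_lit 5) (nat_lit 420) (nat_lit 410) (nat_lit 370))))) (XT.nd (nat_lit 234) (nat_lit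 2584) (nat_lit 0) (XT.nd (nat_lit 78) (nat_lit 1292) (nat_lit 0) (XT.lf (nat_lit 76) (nat_lit 3482058972) (nat_lit 0) (nat_lit 3822549582) (nat_lit 1292) (nat_lit 201052327) (nat_lit 638) (nat_lit 5) (nat_lit 637) (nat_lit 5) (nat_lit 654) (nat_lit 5) (nat_lit 421) (nat_lit 410) (nat_lit 369)) (XT.nd (nat_lit 78) (nat_lit 0) (nat_lit 76) (XT.lf (nat_lit 76) (nat_lit 2244423867) (nat_lit 0) (nat_lit 299544672) (nat_lit 1368) (nat_lit 5037268662) (nat_lit 621) (nat_lit 5) (nat_lit 620) (nat_lit 5) (nat_lit 638) (nat_lit 5) (nat_lit 422) (nat_lit 410) (nat_lit 368)) (XT.lf (nat_lit 76) (nat_lit 1023264962) (nat_lit 0) (nat_lit 4313749825) (nat_lit 1368) (nat_lit 2322681016) (nat_lit 622) (nat_lit 5) (nat_lit 621) (nat_lit 5) (nat_lit 639) (nat_lit 5) (nat_lit 423) (nat_lit 410) (nat_lit 367)))) (XT.nd (nat_lit 78) (nat_lit 1292) (nat_lit 0) (XT.lf (nat_lit 0) (nat_lit 419789692) (nat_lit 1368) (nat_lit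 162059669) (nat_lit 1444) (nat_lit 7159553501) (nat_lit 603) (nat_lit 5) (nat_lit 621) (nat_lit 5) (nat_lit 622) (nat_lit 5) (nat_lit 424) (nat_lit 410) (nat_lit 366)) (XT.nd (nat_lit 78) (nat_lit 1368) (nat_lit 0) (XT.lf (nat_lit 0) (nat_lit 3193895201) (nat_lit 1368) (nat_lit 1333619677) (nat_lit 76) (nat_lit 3298129820) (nat_lit 604) (nat_lit 5) (nat_lit 622) (nat_lit 5) (nat_lit 605) (nat_lit 5) (nat_lit 425) (nat_lit 410) (nat_lit 365)) (XT.lf (nat_lit 0) (nat_lit 5439967259) (nat_lit 1368) (nat_lit 570474107) (nat_lit 1444) (nat_lit 1902796776) (nat_lit 586) (nat_lit 5) (nat_lit 604) (nat_lit 5) (nat_lit 605) (nat_lit 5) (nat_lit 426) (nat_lit 410) (nat_lit 364)))))) (XT.nd (nat_lit 468) (nat_lit 7448) (nat_lit 0) (XT.nd (nat_lit 234) (nat_lit 3496) (nat_lit 0) (XT.nd (nat_lit 78) (nat_lit 3116) (nat_lit 0) (XT.lf (nat_lit 0) (nat_lit 877398226) (nat_lit 1520) (nat_lit 3606665898) (nat_lit 76)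 (nat_lit 3519659985) (nat_lit 566) (nat_lit 5) (nat_lit 586) (nat_lit 5) (nat_lit 567) (nat_lit 5) (nat_lit 427) (nat_lit 410) (nat_lit 363)) (XT.nd (nat_lit 78) (nat_lit 1596) (nat_lit 0) (XT.lf (nat_lit 0) (nat_lit 3374645305) (nat_lit 1520) (nat_lit 305593295) (nat_lit 1596) (nat_lit 4417140724) (nat_lit 546) (nat_lit 5) (nat_lit 566) (nat_lit 5) (nat_lit 567) (nat_lit 5) (nat_lit 428) (nat_lit 410) (nat_lit 362)) (XT.lf (nat_lit 0) (nat_lit 2361965479) (nat_lit 1596) (nat_lit 4195382473) (nat_lit 1672) (nat_lit 1636700374) (nat_lit 525) (nat_lit 5) (nat_lit 546) (nat_lit 5) (nat_lit 547) (nat_lit 5) (nat_lit 429) (nat_lit 410) (nat_lit 361)))) (XT.nd (nat_lit 78) (nat_lit 1748) (nat_lit 0) (XT.lf (nat_lit 0) (nat_lit 1181089190) (nat_lit 1748) (nat_lit 6920930042) (nat_lit 76) (nat_lit 192045640) (nat_lit 502) (nat_lit 5) (nat_lit 525) (nat_lit 5) (nat_lit 503) (nat_lit 5) (nat_lit 430) (nat_lit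 410) (nat_lit 360)) (XT.nd (nat_lit 78) (nat_lit 0) (nat_lit 0) (XT.lf (nat_lit 0) (nat_lit 379022894) (nat_lit 1748) (nat_lit 3679982226) (nat_lit 1824) (nat_lit 4337911057) (nat_lit 479) (nat_lit 5) (nat_lit 502) (nat_lit 5) (nat_lit 503) (nat_lit 5) (nat_lit 431) (nat_lit 410) (nat_lit 359)) (XT.lf (nat_lit 0) (nat_lit 7005297852) (nat_lit 1824) (nat_lit 580349824) (nat_lit 76) (nat_lit 917571563) (nat_lit 479) (nat_lit 5) (nat_lit 503) (nat_lit 5) (nat_lit 480) (nat_lit 5) (nat_lit 432) (nat_lit 410) (nat_lit 358))))) (XT.nd (nat_lit 234) (nat_lit 3572) (nat_lit 0) (XT.nd (nat_lit 78) (nat_lit 1976) (nat_lit 0) (XT.lf (nat_lit 0) (nat_lit 1410381796) (nat_lit 1900) (nat_lit 1536580637) (nat_lit 76) (nat_lit 5665533637) (nat_lit 454) (nat_lit 5) (nat_lit 479) (nat_lit 5) (nat_lit 455) (nat_lit 5) (nat_lit 433) (nat_lit 410) (nat_lit 357)) (XT.nd (nat_lit 78) (nat_lit 912) (nat_lit 0) (XT.lf (nat_lit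 0) (nat_lit 4374901518) (nat_lit 1140) (nat_lit 2483917535) (nat_lit 76) (nat_lit 1866254233) (nat_lit 440) (nat_lit 5) (nat_lit 455) (nat_lit 5) (nat_lit 441) (nat_lit 5) (nat_lit 434) (nat_lit 410) (nat_lit 356)) (XT.lf (nat_lit 0) (nat_lit 5420284383) (nat_lit 912) (nat_lit 2007408561) (nat_lit 988) (nat_lit 1413354437) (nat_lit 428) (nat_lit 5) (nat_lit 440) (nat_lit 5) (nat_lit 441) (nat_lit 5) (nat_lit 435) (nat_lit 410) (nat_lit 355)))) (XT.nd (nat_lit 156) (nat_lit 1748) (nat_lit 0) (XT.nd (nat_lit 78) (nat_lit 836) (nat_lit 0) (XT.lf (nat_lit 0) (nat_lit 1592226116) (nat_lit 988) (nat_lit 4358268332) (nat_lit 76) (nat_lit 3009767070) (nat_lit 415) (nat_lit 5) (nat_lit 428) (nat_lit 5) (nat_lit 416) (nat_lit 5) (nat_lit 436) (nat_lit 410) (nat_lit 354)) (XT.lf (nat_lit 0) (nat_lit 3792821142) (nat_lit 836) (nat_lit 873979524) (nat_lit 912) (nat_lit 4416109804) (nat_lit 404) (nat_lit 5) (nat_lit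 415) (nat_lit 5) (nat_lit 416) (nat_lit 5) (nat_lit 437) (nat_lit 410) (nat_lit 353))) (XT.nd (nat_lit 78) (nat_lit 912) (nat_lit 0) (XT.lf (nat_lit 0) (nat_lit 2986376727) (nat_lit 836) (nat_lit 4862602960) (nat_lit 912) (nat_lit 1359957498) (nat_lit 393) (nat_lit 5) (nat_lit 404) (nat_lit 5) (nat_lit 405) (nat_lit 5) (nat_lit 438) (nat_lit 410) (nat_lit 352)) (XT.lf (nat_lit 0) (nat_lit 1762380467) (nat_lit 912) (nat_lit 7148390781) (nat_lit 76) (nat_lit 427787670) (nat_lit 381) (nat_lit 5) (nat_lit 393) (nat_lit 5) (nat_lit 382) (nat_lit 5) (nat_lit 439) (nat_lit 410) (nat_lit 351))))))) (XT.nd (nat_lit 936) (nat_lit 6460) (nat_lit 0) (XT.nd (nat_lit 468) (nat_lit 4028) (nat_lit 0) (XT.nd (nat_lit 234) (nat_lit 2280) (nat_lit 0) (XT.nd (nat_lit 78) (nat_lit 836) (nat_lit 0) (XT.lf (nat_lit 0) (nat_lit 1381755248) (nat_lit 836) (nat_lit 3602517222) (nat_lit 912) (nat_lit 4487135047) (nat_lit 370)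 (nat_lit 5) (nat_lit 381) (nat_lit 5) (nat_lit 382) (nat_lit 5) (nat_lit 440) (nat_lit 410) (nat_lit 350)) (XT.nd (nat_lit 78) (nat_lit 76) (nat_lit 0) (XT.lf (nat_lit 0) (nat_lit 589875050) (nat_lit 760) (nat_lit 7719268750) (nat_lit 836) (nat_lit 1298976382) (nat_lit 360) (nat_lit 5) (nat_lit 370) (nat_lit 5) (nat_lit 371) (nat_lit 5) (nat_lit 441) (nat_lit 410) (nat_lit 349)) (XT.lf (nat_lit 0) (nat_lit 1980601633) (nat_lit 836) (nat_lit 208204880) (nat_lit 76) (nat_lit 7559438671) (nat_lit 359) (nat_lit 5) (nat_lit 370) (nat_lit 5) (nat_lit 360) (nat_lit 5) (nat_lit 442) (nat_lit 410) (nat_lit 348)))) (XT.nd (nat_lit 78) (nat_lit 1520) (nat_lit 0) (XT.lf (nat_lit 0) (nat_lit 5366269337) (nat_lit 836) (nat_lit 1002893911) (nat_lit 76) (nat_lit 3522736633) (nat_lit 349) (nat_lit 5) (nat_lit 360) (nat_lit 5) (nat_lit 350) (nat_lit 5) (nat_lit 443) (nat_lit 410) (nat_lit 347)) (XT.nd (nat_lit 78) (nat_lit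 836) (nat_lit 0) (XT.lf (nat_lit 0) (nat_lit 8254002616) (nat_lit 684) (nat_lit 614550836) (nat_lit 760) (nat_lit 1171014377) (nat_lit 340) (nat_lit 5) (nat_lit 349) (nat_lit 5) (nat_lit 350) (nat_lit 5) (nat_lit 444) (nat_lit 410) (nat_lit 346)) (XT.lf (nat_lit 0) (nat_lit 2291843243) (nat_lit 836) (nat_lit 2591646156) (nat_lit 76) (nat_lit 5307132897) (nat_lit 329) (nat_lit 5) (nat_lit 340) (nat_lit 5) (nat_lit 330) (nat_lit 5) (nat_lit 445) (nat_lit 410) (nat_lit 345))))) (XT.nd (nat_lit 234) (nat_lit 1976) (nat_lit 0) (XT.nd (nat_lit 78) (nat_lit 1368) (nat_lit 0) (XT.lf (nat_lit 0) (nat_lit 5858818113) (nat_lit 760) (nat_lit 3391752481) (nat_lit 76) (nat_lit 1095164369) (nat_lit 320) (nat_lit 5) (nat_lit 330) (nat_lit 5) (nat_lit 321) (nat_lit 5) (nat_lit 446) (nat_lit 410) (nat_lit 344)) (XT.nd (nat_lit 78) (nat_lit 684) (nat_lit 0) (XT.lf (nat_lit 0) (nat_lit 6304765448) (nat_lit 684) (nat_lit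 3267748245) (nat_lit 760) (nat_lit 932197159) (nat_lit 311) (nat_lit 5) (nat_lit 320) (nat_lit 5) (nat_lit 321) (nat_lit 5) (nat_lit 447) (nat_lit 410) (nat_lit 343)) (XT.lf (nat_lit 0) (nat_lit 2721745471) (nat_lit 684) (nat_lit 5021251312) (nat_lit 76) (nat_lit 2924541222) (nat_lit 302) (nat_lit 5) (nat_lit 311) (nat_lit 5) (nat_lit 303) (nat_lit 5) (nat_lit 448) (nat_lit 410) (nat_lit 342)))) (XT.nd (nat_lit 78) (nat_lit 1292) (nat_lit 0) (XT.lf (nat_lit 0) (nat_lit 4986768181) (nat_lit 684) (nat_lit 1519057150) (nat_lit 760) (nat_lit 4328641492) (nat_lit 293) (nat_lit 5) (nat_lit 302) (nat_lit 5) (nat_lit 303) (nat_lit 5) (nat_lit 449) (nat_lit 410) (nat_lit 341)) (XT.nd (nat_lit 78) (nat_lit 684) (nat_lit 0) (XT.lf (nat_lit 0) (nat_lit 4321746151) (nat_lit 608) (nat_lit 6126969839) (nat_lit 684) (nat_lit 556785400) (nat_lit 285) (nat_lit 5) (nat_lit 293) (nat_lit 5) (nat_lit 294) (nat_lit 5) (nat_lit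 450) (nat_lit 410) (nat_lit 340)) (XT.lf (nat_lit 0) (nat_lit 3312465409) (nat_lit 684) (nat_lit 7532281164) (nat_lit 76) (nat_lit 335933931) (nat_lit 276) (nat_lit 5) (nat_lit 285) (nat_lit 5) (nat_lit 277) (nat_lit 5) (nat_lit 451) (nat_lit 410) (nat_lit 339)))))) (XT.nd (nat_lit 468) (nat_lit 3496) (nat_lit 0) (XT.nd (nat_lit 234) (nat_lit 1140) (nat_lit 0) (XT.nd (nat_lit 78) (nat_lit 1216) (nat_lit 0) (XT.lf (nat_lit 0) (nat_lit 2955038149) (nat_lit 608) (nat_lit 4393846056) (nat_lit 684) (nat_lit 4010987456) (nat_lit 268) (nat_lit 5) (nat_lit 276) (nat_lit 5) (nat_lit 277) (nat_lit 5) (nat_lit 452) (nat_lit 410) (nat_lit 338)) (XT.nd (nat_lit 78) (nat_lit 608) (nat_lit 0) (XT.lf (nat_lit 0) (nat_lit 2271122436) (nat_lit 608) (nat_lit 9269770569) (nat_lit 684) (nat_lit 2858875) (nat_lit 260) (nat_lit 5) (nat_lit 268) (nat_lit 5) (nat_lit 269) (nat_lit 5) (nat_lit 453) (nat_lit 410) (nat_lit 337))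 (XT.lf (nat_lit 0) (nat_lit 1554226773) (nat_lit 532) (nat_lit 2568404137) (nat_lit 608) (nat_lit 7608960522) (nat_lit 252) (nat_lit 5) (nat_lit 259) (nat_lit 5) (nat_lit 260) (nat_lit 5) (nat_lit 454) (nat_lit 410) (nat_lit 336)))) (XT.nd (nat_lit 78) (nat_lit 608) (nat_lit 0) (XT.lf (nat_lit 0) (nat_lit 831501267) (nat_lit 532) (nat_lit 7592403204) (nat_lit 608) (nat_lit 3500123191) (nat_lit 245) (nat_lit 5) (nat_lit 252) (nat_lit 5) (nat_lit 253) (nat_lit 5) (nat_lit 455) (nat_lit 410) (nat_lit 335)) (XT.nd (nat_lit 78) (nat_lit 0) (nat_lit 0) (XT.lf (nat_lit 0) (nat_lit 108672634) (nat_lit 532) (nat_lit 656907027) (nat_lit 608) (nat_lit 11355701141) (nat_lit 237) (nat_lit 5) (nat_lit 244) (nat_lit 5) (nat_lit 245) (nat_lit 5) (nat_lit 456) (nat_lit 410) (nat_lit 334)) (XT.lf (nat_lit 0) (nat_lit 5186454221) (nat_lit 608) (nat_lit 650479817) (nat_lit 76) (nat_lit 6485562511) (nat_lit 237) (nat_lit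 5) (nat_lit 245) (nat_lit 5) (nat_lit 238) (nat_lit 5) (nat_lit 457) (nat_lit 410) (nat_lit 333))))) (XT.nd (nat_lit 234) (nat_lit 1900) (nat_lit 0) (XT.nd (nat_lit 78) (nat_lit 1064) (nat_lit 0) (XT.lf (nat_lit 0) (nat_lit 9783461450) (nat_lit 608) (nat_lit 1401252209) (nat_lit 76) (nat_lit 1344167698) (nat_lit 230) (nat_lit 5) (nat_lit 238) (nat_lit 5) (nat_lit 231) (nat_lit 5) (nat_lit 458) (nat_lit 410) (nat_lit 332)) (XT.nd (nat_lit 78) (nat_lit 532) (nat_lit 0) (XT.lf (nat_lit 0) (nat_lit 1824894528) (nat_lit 532) (nat_lit 2183207465) (nat_lit 76) (nat_lit 8731702005) (nat_lit 223) (nat_lit 5) (nat_lit 230) (nat_lit 5) (nat_lit 224) (nat_lit 5) (nat_lit 459) (nat_lit 410) (nat_lit 331)) (XT.lf (nat_lit 0) (nat_lit 6551424458) (nat_lit 608) (nat_lit 2987319898) (nat_lit 76) (nat_lit 3416821417) (nat_lit 216) (nat_lit 5) (nat_lit 224) (nat_lit 5) (nat_lit 217) (nat_lit 5) (nat_lit 460) (nat_lit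 410) (nat_lit 330)))) (XT.nd (nat_lit 156) (nat_lit 912) (nat_lit 0) (XT.nd (nat_lit 78) (nat_lit 532) (nat_lit 0) (XT.lf (nat_lit 0) (nat_lit 9375980566) (nat_lit 456) (nat_lit 2106344646) (nat_lit 532) (nat_lit 1694226129) (nat_lit 210) (nat_lit 5) (nat_lit 216) (nat_lit 5) (nat_lit 217) (nat_lit 5) (nat_lit 461) (nat_lit 410) (nat_lit 329)) (XT.lf (nat_lit 0) (nat_lit 3190112615) (nat_lit 532) (nat_lit 4653978154) (nat_lit 76) (nat_lit 5558177472) (nat_lit 203) (nat_lit 5) (nat_lit 210) (nat_lit 5) (nat_lit 204) (nat_lit 5) (nat_lit 462) (nat_lit 410) (nat_lit 328))) (XT.nd (nat_lit 78) (nat_lit 456) (nat_lit 0) (XT.lf (nat_lit 0) (nat_lit 8116189145) (nat_lit 456) (nat_lit 135837337) (nat_lit 532) (nat_lit 5381427185) (nat_lit 197) (nat_lit 5) (nat_lit 203) (nat_lit 5) (nat_lit 204) (nat_lit 5) (nat_lit 463) (nat_lit 410) (nat_lit 327)) (XT.lf (nat_lit 0) (nat_lit 7453288999) (nat_lit 456) (nat_lit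 6105198035) (nat_lit 532) (nat_lit 311236025) (nat_lit 191) (nat_lit 5) (nat_lit 197) (nat_lit 5) (nat_lit 198) (nat_lit 5) (nat_lit 464) (nat_lit 410) (nat_lit 326))))))))
noncomputable def xc57 : XT := (XT.nd (nat_lit 1950) (nat_lit 760) (nat_lit 0) (XT.nd (nat_lit 936) (nat_lit 3648) (nat_lit 0) (XT.nd (nat_lit 468) (nat_lit 1900) (nat_lit 0) (XT.nd (nat_lit 234) (nat_lit 1216) (nat_lit 0) (XT.nd (nat_lit 78) (nat_lit 912) (nat_lit 0) (XT.lf (nat_lit 0) (nat_lit 4903820292) (nat_lit 456) (nat_lit 7347208477) (nat_lit 76) (nat_lit 1860272750) (nat_lit 185) (nat_lit 5) (nat_lit 191) (nat_lit 5) (nat_lit 186) (nat_lit 5) (nat_lit 465) (nat_lit 410) (nat_lit 325)) (XT.nd (nat_lit 78) (nat_lit 456) (nat_lit 0) (XT.lf (nat_lit 0) (nat_lit 6049620540) (nat_lit 456) (nat_lit 4308393956) (nat_lit 532) (nat_lit 4000335421) (nat_lit 179) (nat_lit 5) (nat_lit 185) (nat_lit 5) (nat_lit 186) (nat_lit 5) (nat_lit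 466) (nat_lit 410) (nat_lit 324)) (XT.lf (nat_lit 0) (nat_lit 1419101735) (nat_lit 456) (nat_lit 9294028296) (nat_lit 76) (nat_lit 3898025600) (nat_lit 173) (nat_lit 5) (nat_lit 179) (nat_lit 5) (nat_lit 174) (nat_lit 5) (nat_lit 467) (nat_lit 410) (nat_lit 323)))) (XT.nd (nat_lit 78) (nat_lit 836) (nat_lit 0) (XT.lf (nat_lit 0) (nat_lit 4544297371) (nat_lit 380) (nat_lit 2481873646) (nat_lit 456) (nat_lit 7843259566) (nat_lit 168) (nat_lit 5) (nat_lit 173) (nat_lit 5) (nat_lit 174) (nat_lit 5) (nat_lit 468) (nat_lit 410) (nat_lit 322)) (XT.nd (nat_lit 78) (nat_lit 456) (nat_lit 0) (XT.lf (nat_lit 0) (nat_lit 3746442818) (nat_lit 380) (nat_lit 9146337229) (nat_lit 456) (nat_lit 2240848996) (nat_lit 163) (nat_lit 5) (nat_lit 168) (nat_lit 5) (nat_lit 169) (nat_lit 5) (nat_lit 469) (nat_lit 410) (nat_lit 321)) (XT.lf (nat_lit 0) (nat_lit 2921759147) (nat_lit 380) (nat_lit 632706820) (nat_lit 456) (nat_lit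 11849408404) (nat_lit 157) (nat_lit 5) (nat_lit 162) (nat_lit 5) (nat_lit 163) (nat_lit 5) (nat_lit 470) (nat_lit 410) (nat_lit 320))))) (XT.nd (nat_lit 234) (nat_lit 760) (nat_lit 0) (XT.nd (nat_lit 78) (nat_lit 760) (nat_lit 0) (XT.lf (nat_lit 0) (nat_lit 2040173139) (nat_lit 380) (nat_lit 7562621436) (nat_lit 456) (nat_lit 6076945950) (nat_lit 152) (nat_lit 5) (nat_lit 157) (nat_lit 5) (nat_lit 158) (nat_lit 5) (nat_lit 471) (nat_lit 410) (nat_lit 319)) (XT.nd (nat_lit 78) (nat_lit 380) (nat_lit 0) (XT.lf (nat_lit 0) (nat_lit 1156583837) (nat_lit 380) (nat_lit 14746571221) (nat_lit 456) (nat_lit 59317593) (nat_lit 147) (nat_lit 5) (nat_lit 152) (nat_lit 5) (nat_lit 153) (nat_lit 5) (nat_lit 472) (nat_lit 410) (nat_lit 318)) (XT.lf (nat_lit 0) (nat_lit 190244230) (nat_lit 304) (nat_lit 5979569126) (nat_lit 380) (nat_lit 10080848071) (nat_lit 142) (nat_lit 5) (nat_lit 146) (nat_lit 5) (nat_lit 147)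 (nat_lit 5) (nat_lit 473) (nat_lit 410) (nat_lit 317)))) (XT.nd (nat_lit 78) (nat_lit 760) (nat_lit 0) (XT.lf (nat_lit 0) (nat_lit 12672965191) (nat_lit 380) (nat_lit 779795135) (nat_lit 76) (nat_lit 3092970144) (nat_lit 142) (nat_lit 5) (nat_lit 147) (nat_lit 5) (nat_lit 143) (nat_lit 5) (nat_lit 474) (nat_lit 410) (nat_lit 316)) (XT.nd (nat_lit 78) (nat_lit 304) (nat_lit 0) (XT.lf (nat_lit 0) (nat_lit 2595101582) (nat_lit 456) (nat_lit 1798597473) (nat_lit 76) (nat_lit 12453494282) (nat_lit 136) (nat_lit 5) (nat_lit 142) (nat_lit 5) (nat_lit 137) (nat_lit 5) (nat_lit 475) (nat_lit 410) (nat_lit 315)) (XT.lf (nat_lit 0) (nat_lit 9304214670) (nat_lit 380) (nat_lit 2872293149) (nat_lit 76) (nat_lit 4978685163) (nat_lit 132) (nat_lit 5) (nat_lit 137) (nat_lit 5) (nat_lit 133) (nat_lit 5) (nat_lit 476) (nat_lit 410) (nat_lit 314)))))) (XT.nd (nat_lit 468) (nat_lit 1748) (nat_lit 0) (XT.nd (nat_lit 234)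 (nat_lit 912) (nat_lit 0) (XT.nd (nat_lit 78) (nat_lit 684) (nat_lit 0) (XT.lf (nat_lit 0) (nat_lit 13496705637) (nat_lit 304) (nat_lit 2816151428) (nat_lit 380) (nat_lit 1157611782) (nat_lit 128) (nat_lit 5) (nat_lit 132) (nat_lit 5) (nat_lit 133) (nat_lit 5) (nat_lit 477) (nat_lit 410) (nat_lit 313)) (XT.nd (nat_lit 78) (nat_lit 304) (nat_lit 0) (XT.lf (nat_lit 0) (nat_lit 5777708634) (nat_lit 380) (nat_lit 5157645412) (nat_lit 76) (nat_lit 6856777539) (nat_lit 123) (nat_lit 5) (nat_lit 128) (nat_lit 5) (nat_lit 124) (nat_lit 5) (nat_lit 478) (nat_lit 410) (nat_lit 312)) (XT.lf (nat_lit 0) (nat_lit 11750442658) (nat_lit 304) (nat_lit 1247047110) (nat_lit 380) (nat_lit 5123960077) (nat_lit 119) (nat_lit 5) (nat_lit 123) (nat_lit 5) (nat_lit 124) (nat_lit 5) (nat_lit 479) (nat_lit 410) (nat_lit 311)))) (XT.nd (nat_lit 78) (nat_lit 532) (nat_lit 0) (XT.lf (nat_lit 0) (nat_lit 2080537032) (nat_lit 380)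 (nat_lit 7659441182) (nat_lit 76) (nat_lit 8717750408) (nat_lit 114) (nat_lit 5) (nat_lit 119) (nat_lit 5) (nat_lit 115) (nat_lit 5) (nat_lit 480) (nat_lit 410) (nat_lit 310)) (XT.nd (nat_lit 78) (nat_lit 228) (nat_lit 0) (XT.lf (nat_lit 0) (nat_lit 9519863480) (nat_lit 380) (nat_lit 8999874098) (nat_lit 76) (nat_lit 281915771) (nat_lit 110) (nat_lit 5) (nat_lit 115) (nat_lit 5) (nat_lit 111) (nat_lit 5) (nat_lit 481) (nat_lit 410) (nat_lit 309)) (XT.lf (nat_lit 0) (nat_lit 8737622953) (nat_lit 228) (nat_lit 8589889228) (nat_lit 304) (nat_lit 1825481906) (nat_lit 107) (nat_lit 5) (nat_lit 110) (nat_lit 5) (nat_lit 111) (nat_lit 5) (nat_lit 482) (nat_lit 410) (nat_lit 308))))) (XT.nd (nat_lit 234) (nat_lit 760) (nat_lit 0) (XT.nd (nat_lit 78) (nat_lit 608) (nat_lit 0) (XT.lf (nat_lit 0) (nat_lit 5871535527) (nat_lit 380) (nat_lit 11893436189) (nat_lit 76) (nat_lit 1747268101) (nat_lit 102) (nat_lit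 5) (nat_lit 107) (nat_lit 5) (nat_lit 103) (nat_lit 5) (nat_lit 483) (nat_lit 410) (nat_lit 307)) (XT.nd (nat_lit 78) (nat_lit 380) (nat_lit 0) (XT.lf (nat_lit 0) (nat_lit 6422253857) (nat_lit 228) (nat_lit 7494516842) (nat_lit 304) (nat_lit 5962409760) (nat_lit 99) (nat_lit 5) (nat_lit 102) (nat_lit 5) (nat_lit 103) (nat_lit 5) (nat_lit 484) (nat_lit 410) (nat_lit 306)) (XT.lf (nat_lit 0) (nat_lit 2028471002) (nat_lit 380) (nat_lit 15073295867) (nat_lit 76) (nat_lit 3152955457) (nat_lit 94) (nat_lit 5) (nat_lit 99) (nat_lit 5) (nat_lit 95) (nat_lit 5) (nat_lit 485) (nat_lit 410) (nat_lit 305)))) (XT.nd (nat_lit 156) (nat_lit 304) (nat_lit 0) (XT.nd (nat_lit 78) (nat_lit 228) (nat_lit 0) (XT.lf (nat_lit 0) (nat_lit 3836307164) (nat_lit 228) (nat_lit 6481547053) (nat_lit 304) (nat_lit 10320093322) (nat_lit 91) (nat_lit 5) (nat_lit 94) (nat_lit 5) (nat_lit 95) (nat_lit 5) (nat_lit 486) (nat_lit 410)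 (nat_lit 304)) (XT.lf (nat_lit 0) (nat_lit 2444854403) (nat_lit 228) (nat_lit 16531574305) (nat_lit 304) (nat_lit 2053831532) (nat_lit 88) (nat_lit 5) (nat_lit 91) (nat_lit 5) (nat_lit 92) (nat_lit 5) (nat_lit 487) (nat_lit 410) (nat_lit 303))) (XT.nd (nat_lit 78) (nat_lit 0) (nat_lit 0) (XT.lf (nat_lit 0) (nat_lit 946942947) (nat_lit 228) (nat_lit 5566040444) (nat_lit 304) (nat_lit 14917775010) (nat_lit 84) (nat_lit 5) (nat_lit 87) (nat_lit 5) (nat_lit 88) (nat_lit 5) (nat_lit 488) (nat_lit 410) (nat_lit 302)) (XT.lf (nat_lit 0) (nat_lit 15446583120) (nat_lit 304) (nat_lit 618602653) (nat_lit 76) (nat_lit 5775061397) (nat_lit 84) (nat_lit 5) (nat_lit 88) (nat_lit 5) (nat_lit 85) (nat_lit 5) (nat_lit 489) (nat_lit 410) (nat_lit 301))))))) (XT.nd (nat_lit 57096) (nat_lit 0) (nat_lit 28880) (XT.nd (nat_lit 56550) (nat_lit 0) (nat_lit 42636) (XT.nd (nat_lit 56316) (nat_lit 0) (nat_lit 44840) (XT.nd (nat_lit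 78) (nat_lit 456) (nat_lit 0) (XT.lf (nat_lit 0) (nat_lit 2497367909) (nat_lit 304) (nat_lit 2252081812) (nat_lit 76) (nat_lit 17509411991) (nat_lit 80) (nat_lit 5) (nat_lit 84) (nat_lit 5) (nat_lit 81) (nat_lit 5) (nat_lit 490) (nat_lit 410) (nat_lit 300)) (XT.nd (nat_lit 78) (nat_lit 228) (nat_lit 0) (XT.lf (nat_lit 0) (nat_lit 11715032654) (nat_lit 304) (nat_lit 4004758775) (nat_lit 76) (nat_lit 6966463479) (nat_lit 77) (nat_lit 5) (nat_lit 81) (nat_lit 5) (nat_lit 78) (nat_lit 5) (nat_lit 491) (nat_lit 410) (nat_lit 299)) (XT.lf (nat_lit 0) (nat_lit 17299060785) (nat_lit 228) (nat_lit 4044569167) (nat_lit 304) (nat_lit 1780152663) (nat_lit 74) (nat_lit 5) (nat_lit 77) (nat_lit 5) (nat_lit 78) (nat_lit 5) (nat_lit 492) (nat_lit 410) (nat_lit 298)))) (XT.nd (nat_lit 78) (nat_lit 1064) (nat_lit 0) (XT.lf (nat_lit 0) (nat_lit 792147617) (nat_lit 0) (nat_lit 792147617) (nat_lit 988) (nat_lit 1893283446)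 (nat_lit 678) (nat_lit 5) (nat_lit 678) (nat_lit 3) (nat_lit 691) (nat_lit 3) (nat_lit 411) (nat_lit 411) (nat_lit 378)) (XT.nd (nat_lit 78) (nat_lit 1064) (nat_lit 0) (XT.lf (nat_lit 0) (nat_lit 6004198654) (nat_lit 988) (nat_lit 202382424) (nat_lit 1064) (nat_lit 796791105) (nat_lit 678) (nat_lit 5) (nat_lit 691) (nat_lit 3) (nat_lit 692) (nat_lit 5) (nat_lit 412) (nat_lit 411) (nat_lit 377)) (XT.lf (nat_lit 0) (nat_lit 1782441242) (nat_lit 1064) (nat_lit 1945185522) (nat_lit 1140) (nat_lit 3326474064) (nat_lit 664) (nat_lit 5) (nat_lit 678) (nat_lit 5) (nat_lit 679) (nat_lit 5) (nat_lit 413) (nat_lit 411) (nat_lit 376))))) (XT.nd (nat_lit 234) (nat_lit 1140) (nat_lit 0) (XT.nd (nat_lit 78) (nat_lit 1064) (nat_lit 0) (XT.lf (nat_lit 76) (nat_lit 3457307070) (nat_lit 0) (nat_lit 1094352148) (nat_lit 1140) (nat_lit 2556218471) (nat_lit 665) (nat_lit 5) (nat_lit 664) (nat_lit 5) (nat_lit 679) (nat_lit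 5) (nat_lit 414) (nat_lit 411) (nat_lit 375)) (XT.nd (nat_lit 78) (nat_lit 0) (nat_lit 0) (XT.lf (nat_lit 0) (nat_lit 169647611) (nat_lit 1140) (nat_lit 5325505831) (nat_lit 1216) (nat_lit 1669453201) (nat_lit 650) (nat_lit 5) (nat_lit 665) (nat_lit 5) (nat_lit 666) (nat_lit 5) (nat_lit 415) (nat_lit 411) (nat_lit 374)) (XT.lf (nat_lit 76) (nat_lit 240260481) (nat_lit 0) (nat_lit 2635084802) (nat_lit 1216) (nat_lit 4348710605) (nat_lit 651) (nat_lit 5) (nat_lit 650) (nat_lit 5) (nat_lit 666) (nat_lit 5) (nat_lit 416) (nat_lit 411) (nat_lit 373)))) (XT.nd (nat_lit 156) (nat_lit 0) (nat_lit 0) (XT.nd (nat_lit 78) (nat_lit 1216) (nat_lit 0) (XT.lf (nat_lit 0) (nat_lit 5602196452) (nat_lit 1140) (nat_lit 1301416417) (nat_lit 1216) (nat_lit 382887789) (nat_lit 651) (nat_lit 5) (nat_lit 666) (nat_lit 5) (nat_lit 667) (nat_lit 5) (nat_lit 417) (nat_lit 411) (nat_lit 372)) (XT.lf (nat_lit 0) (nat_lit 997366551)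 (nat_lit 1216) (nat_lit 2823803999) (nat_lit 1292) (nat_lit 3530497010) (nat_lit 635) (nat_lit 5) (nat_lit 651) (nat_lit 5) (nat_lit 652) (nat_lit 5) (nat_lit 418) (nat_lit 411) (nat_lit 371))) (XT.nd (nat_lit 78) (nat_lit 0) (nat_lit 76) (XT.lf (nat_lit 76) (nat_lit 3101547541) (nat_lit 0) (nat_lit 570484068) (nat_lit 1292) (nat_lit 3747837459) (nat_lit 636) (nat_lit 5) (nat_lit 635) (nat_lit 5) (nat_lit 652) (nat_lit 5) (nat_lit 419) (nat_lit 411) (nat_lit 370)) (XT.lf (nat_lit 76) (nat_lit 1697553750) (nat_lit 0) (nat_lit 4686552107) (nat_lit 1292) (nat_lit 1106877874) (nat_lit 637) (nat_lit 5) (nat_lit 636) (nat_lit 5) (nat_lit 653) (nat_lit 5) (nat_lit 420) (nat_lit 411) (nat_lit 369)))))) (XT.nd (nat_lit 468) (nat_lit 10032) (nat_lit 0) (XT.nd (nat_lit 234) (nat_lit 2508) (nat_lit 0) (XT.nd (nat_lit 78) (nat_lit 0) (nat_lit 76) (XT.lf (nat_lit 76) (nat_lit 318714598) (nat_lit 0) (nat_lit 1219300712)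 (nat_lit 1368) (nat_lit 6027099747) (nat_lit 620) (nat_lit 5) (nat_lit 619) (nat_lit 5) (nat_lit 637) (nat_lit 5) (nat_lit 421) (nat_lit 411) (nat_lit 368)) (XT.nd (nat_lit 78) (nat_lit 0) (nat_lit 0) (XT.lf (nat_lit 0) (nat_lit 4215016392) (nat_lit 1292) (nat_lit 1031400136) (nat_lit 1368) (nat_lit 2395561177) (nat_lit 620) (nat_lit 5) (nat_lit 637) (nat_lit 5) (nat_lit 638) (nat_lit 5) (nat_lit 422) (nat_lit 411) (nat_lit 367)) (XT.lf (nat_lit 76) (nat_lit 5372840438) (nat_lit 0) (nat_lit 1557986158) (nat_lit 1368) (nat_lit 791159070) (nat_lit 621) (nat_lit 5) (nat_lit 620) (nat_lit 5) (nat_lit 638) (nat_lit 5) (nat_lit 423) (nat_lit 411) (nat_lit 366)))) (XT.nd (nat_lit 78) (nat_lit 1292) (nat_lit 0) (XT.lf (nat_lit 0) (nat_lit 1864540147) (nat_lit 1368) (nat_lit 3658696792) (nat_lit 1444) (nat_lit 2281595034) (nat_lit 603) (nat_lit 5) (nat_lit 621) (nat_lit 5) (nat_lit 622) (nat_lit 5) (nat_lit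 424) (nat_lit 411) (nat_lit 365)) (XT.nd (nat_lit 78) (nat_lit 1292) (nat_lit 0) (XT.lf (nat_lit 76) (nat_lit 2940866178) (nat_lit 0) (nat_lit 1613063048) (nat_lit 1444) (nat_lit 3336843198) (nat_lit 604) (nat_lit 5) (nat_lit 603) (nat_lit 5) (nat_lit 622) (nat_lit 5) (nat_lit 425) (nat_lit 411) (nat_lit 364)) (XT.lf (nat_lit 0) (nat_lit 1755684393) (nat_lit 1368) (nat_lit 5541610512) (nat_lit 1444) (nat_lit 682538734) (nat_lit 586) (nat_lit 5) (nat_lit 604) (nat_lit 5) (nat_lit 605) (nat_lit 5) (nat_lit 426) (nat_lit 411) (nat_lit 363))))) (XT.nd (nat_lit 234) (nat_lit 6992) (nat_lit 0) (XT.nd (nat_lit 78) (nat_lit 1520) (nat_lit 0) (XT.lf (nat_lit 0) (nat_lit 581351908) (nat_lit 1444) (nat_lit 1414113236) (nat_lit 1520) (nat_lit 6076423711) (nat_lit 566) (nat_lit 5) (nat_lit 585) (nat_lit 5) (nat_lit 586) (nat_lit 5) (nat_lit 427) (nat_lit 411) (nat_lit 362)) (XT.nd (nat_lit 78) (nat_lit 1520) (nat_lit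 0) (XT.lf (nat_lit 0) (nat_lit 4730075459) (nat_lit 1520) (nat_lit 574780849) (nat_lit 76) (nat_lit 2862056209) (nat_lit 566) (nat_lit 5) (nat_lit 586) (nat_lit 5) (nat_lit 567) (nat_lit 5) (nat_lit 428) (nat_lit 411) (nat_lit 361)) (XT.lf (nat_lit 0) (nat_lit 6565025540) (nat_lit 1520) (nat_lit 960585014) (nat_lit 1596) (nat_lit 739606184) (nat_lit 546) (nat_lit 5) (nat_lit 566) (nat_lit 5) (nat_lit 567) (nat_lit 5) (nat_lit 429) (nat_lit 411) (nat_lit 360)))) (XT.nd (nat_lit 156) (nat_lit 3648) (nat_lit 0) (XT.nd (nat_lit 78) (nat_lit 1672) (nat_lit 0) (XT.lf (nat_lit 0) (nat_lit 2003144416) (nat_lit 1672) (nat_lit 2829989387) (nat_lit 76) (nat_lit 3533252014) (nat_lit 524) (nat_lit 5) (nat_lit 546) (nat_lit 5) (nat_lit 525) (nat_lit 5) (nat_lit 430) (nat_lit 411) (nat_lit 359)) (XT.lf (nat_lit 0) (nat_lit 4530400488) (nat_lit 1672) (nat_lit 265078161) (nat_lit 1748) (nat_lit 3675473557) (nat_lit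 502) (nat_lit 5) (nat_lit 524) (nat_lit 5) (nat_lit 525) (nat_lit 5) (nat_lit 431) (nat_lit 411) (nat_lit 358))) (XT.nd (nat_lit 78) (nat_lit 1900) (nat_lit 0) (XT.lf (nat_lit 0) (nat_lit 3528371334) (nat_lit 1748) (nat_lit 4145822162) (nat_lit 1824) (nat_lit 904416679) (nat_lit 479) (nat_lit 5) (nat_lit 502) (nat_lit 5) (nat_lit 503) (nat_lit 5) (nat_lit 432) (nat_lit 411) (nat_lit 357)) (XT.lf (nat_lit 0) (nat_lit 1906264333) (nat_lit 1900) (nat_lit 6149693704) (nat_lit 76) (nat_lit 633651853) (nat_lit 454) (nat_lit 5) (nat_lit 479) (nat_lit 5) (nat_lit 455) (nat_lit 5) (nat_lit 433) (nat_lit 411) (nat_lit 356))))))))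
noncomputable def xc58 : XT := (XT.nd (nat_lit 1950) (nat_lit 9348) (nat_lit 0) (XT.nd (nat_lit 936) (nat_lit 7524) (nat_lit 0) (XT.nd (nat_lit 468) (nat_lit 4788) (nat_lit 0) (XT.nd (nat_lit 234) (nat_lit 2660) (nat_lit 0) (XT.nd (nat_lit 78) (nat_lit 988) (nat_lit 0) (XT.lf (nat_lit 0) (nat_lit 1548663720) (nat_lit 1064) (nat_lit 3246945809) (nat_lit 1140) (nat_lit 4008084164) (nat_lit 440) (nat_lit 5) (nat_lit 454) (nat_lit 5) (nat_lit 455) (nat_lit 5) (nat_lit 434) (nat_lit 411) (nat_lit 355)) (XT.nd (nat_lit 78) (nat_lit 76) (nat_lit 0) (XT.lf (nat_lit 0) (nat_lit 576371698) (nat_lit 912) (nat_lit 7187911197) (nat_lit 988) (nat_lit 1157070258) (nat_lit 428) (nat_lit 5) (nat_lit 440) (nat_lit 5) (nat_lit 441) (nat_lit 5) (nat_lit 435) (nat_lit 411) (nat_lit 354)) (XT.lf (nat_lit 0) (nat_lit 1764269693) (nat_lit 988) (nat_lit 394589059) (nat_lit 76) (nat_lit 6883295708) (nat_lit 427) (nat_lit 5)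 (nat_lit 440) (nat_lit 5) (nat_lit 428) (nat_lit 5) (nat_lit 436) (nat_lit 411) (nat_lit 353)))) (XT.nd (nat_lit 78) (nat_lit 1748) (nat_lit 0) (XT.lf (nat_lit 0) (nat_lit 4767236075) (nat_lit 988) (nat_lit 1357057952) (nat_lit 76) (nat_lit 3041944327) (nat_lit 415) (nat_lit 5) (nat_lit 428) (nat_lit 5) (nat_lit 416) (nat_lit 5) (nat_lit 437) (nat_lit 411) (nat_lit 352)) (XT.nd (nat_lit 78) (nat_lit 912) (nat_lit 0) (XT.lf (nat_lit 0) (nat_lit 6987751902) (nat_lit 836) (nat_lit 875216052) (nat_lit 912) (nat_lit 1431028754) (nat_lit 404) (nat_lit 5) (nat_lit 415) (nat_lit 5) (nat_lit 416) (nat_lit 5) (nat_lit 438) (nat_lit 411) (nat_lit 351)) (XT.lf (nat_lit 0) (nat_lit 1625042814) (nat_lit 912) (nat_lit 3268507535) (nat_lit 76) (nat_lit 4531423857) (nat_lit 392) (nat_lit 5) (nat_lit 404) (nat_lit 5) (nat_lit 393) (nat_lit 5) (nat_lit 439) (nat_lit 411) (nat_lit 350))))) (XT.nd (nat_lit 234) (nat_lit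 2280) (nat_lit 0) (XT.nd (nat_lit 78) (nat_lit 1672) (nat_lit 0) (XT.lf (nat_lit 0) (nat_lit 4756002957) (nat_lit 912) (nat_lit 4223876436) (nat_lit 76) (nat_lit 579764540) (nat_lit 381) (nat_lit 5) (nat_lit 393) (nat_lit 5) (nat_lit 382) (nat_lit 5) (nat_lit 440) (nat_lit 411) (nat_lit 349)) (XT.nd (nat_lit 78) (nat_lit 836) (nat_lit 0) (XT.lf (nat_lit 0) (nat_lit 4511247977) (nat_lit 836) (nat_lit 3497700403) (nat_lit 912) (nat_lit 1688849155) (nat_lit 370) (nat_lit 5) (nat_lit 381) (nat_lit 5) (nat_lit 382) (nat_lit 5) (nat_lit 441) (nat_lit 411) (nat_lit 348)) (XT.lf (nat_lit 0) (nat_lit 1511300494) (nat_lit 836) (nat_lit 6148840897) (nat_lit 76) (nat_lit 2179524909) (nat_lit 359) (nat_lit 5) (nat_lit 370) (nat_lit 5) (nat_lit 360) (nat_lit 5) (nat_lit 442) (nat_lit 411) (nat_lit 347)))) (XT.nd (nat_lit 78) (nat_lit 1520) (nat_lit 0) (XT.lf (nat_lit 0) (nat_lit 2863162738) (nat_lit 760) (nat_lit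 1944668602) (nat_lit 836) (nat_lit 5177274629) (nat_lit 349) (nat_lit 5) (nat_lit 359) (nat_lit 5) (nat_lit 360) (nat_lit 5) (nat_lit 443) (nat_lit 411) (nat_lit 346)) (XT.nd (nat_lit 78) (nat_lit 836) (nat_lit 0) (XT.lf (nat_lit 0) (nat_lit 2036502848) (nat_lit 684) (nat_lit 6194504377) (nat_lit 760) (nat_lit 1903351028) (nat_lit 340) (nat_lit 5) (nat_lit 349) (nat_lit 5) (nat_lit 350) (nat_lit 5) (nat_lit 444) (nat_lit 411) (nat_lit 345)) (XT.lf (nat_lit 0) (nat_lit 1213442372) (nat_lit 760) (nat_lit 253349964) (nat_lit 836) (nat_lit 8820763926) (nat_lit 329) (nat_lit 5) (nat_lit 339) (nat_lit 5) (nat_lit 340) (nat_lit 5) (nat_lit 445) (nat_lit 411) (nat_lit 344)))))) (XT.nd (nat_lit 468) (nat_lit 4104) (nat_lit 0) (XT.nd (nat_lit 234) (nat_lit 1976) (nat_lit 0) (XT.nd (nat_lit 78) (nat_lit 760) (nat_lit 0) (XT.lf (nat_lit 0) (nat_lit 364590160) (nat_lit 684) (nat_lit 4592320086) (nat_lit 760) (nat_lit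 5487297828) (nat_lit 320) (nat_lit 5) (nat_lit 329) (nat_lit 5) (nat_lit 330) (nat_lit 5) (nat_lit 446) (nat_lit 411) (nat_lit 343)) (XT.nd (nat_lit 78) (nat_lit 760) (nat_lit 0) (XT.lf (nat_lit 0) (nat_lit 8575195755) (nat_lit 760) (nat_lit 465362610) (nat_lit 76) (nat_lit 1564535746) (nat_lit 320) (nat_lit 5) (nat_lit 330) (nat_lit 5) (nat_lit 321) (nat_lit 5) (nat_lit 447) (nat_lit 411) (nat_lit 342)) (XT.lf (nat_lit 0) (nat_lit 1555041562) (nat_lit 760) (nat_lit 1307245948) (nat_lit 76) (nat_lit 7907446134) (nat_lit 310) (nat_lit 5) (nat_lit 320) (nat_lit 5) (nat_lit 311) (nat_lit 5) (nat_lit 448) (nat_lit 411) (nat_lit 341)))) (XT.nd (nat_lit 78) (nat_lit 1368) (nat_lit 0) (XT.lf (nat_lit 0) (nat_lit 5255701052) (nat_lit 684) (nat_lit 2162475351) (nat_lit 76) (nat_lit 3520156265) (nat_lit 302) (nat_lit 5) (nat_lit 311) (nat_lit 5) (nat_lit 303) (nat_lit 5) (nat_lit 449) (nat_lit 411) (nat_lit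 340)) (XT.nd (nat_lit 78) (nat_lit 684) (nat_lit 0) (XT.lf (nat_lit 0) (nat_lit 8096960568) (nat_lit 684) (nat_lit 1004138542) (nat_lit 760) (nat_lit 2010219725) (nat_lit 293) (nat_lit 5) (nat_lit 302) (nat_lit 5) (nat_lit 303) (nat_lit 5) (nat_lit 450) (nat_lit 411) (nat_lit 339)) (XT.lf (nat_lit 0) (nat_lit 1802708253) (nat_lit 684) (nat_lit 3892517069) (nat_lit 76) (nat_lit 5592970720) (nat_lit 284) (nat_lit 5) (nat_lit 293) (nat_lit 5) (nat_lit 285) (nat_lit 5) (nat_lit 451) (nat_lit 411) (nat_lit 338))))) (XT.nd (nat_lit 234) (nat_lit 2204) (nat_lit 0) (XT.nd (nat_lit 78) (nat_lit 1292) (nat_lit 0) (XT.lf (nat_lit 0) (nat_lit 5734640640) (nat_lit 684) (nat_lit 4776188180) (nat_lit 76) (nat_lit 958649721) (nat_lit 276) (nat_lit 5) (nat_lit 285) (nat_lit 5) (nat_lit 277) (nat_lit 5) (nat_lit 452) (nat_lit 411) (nat_lit 337)) (XT.nd (nat_lit 78) (nat_lit 684) (nat_lit 0) (XT.lf (nat_lit 0) (nat_lit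 5977370308) (nat_lit 608) (nat_lit 3866174689) (nat_lit 684) (nat_lit 1811477421) (nat_lit 268) (nat_lit 5) (nat_lit 276) (nat_lit 5) (nat_lit 277) (nat_lit 5) (nat_lit 453) (nat_lit 411) (nat_lit 336)) (XT.lf (nat_lit 0) (nat_lit 2243139616) (nat_lit 684) (nat_lit 6594008698) (nat_lit 76) (nat_lit 3007841864) (nat_lit 259) (nat_lit 5) (nat_lit 268) (nat_lit 5) (nat_lit 260) (nat_lit 5) (nat_lit 454) (nat_lit 411) (nat_lit 335)))) (XT.nd (nat_lit 156) (nat_lit 1140) (nat_lit 0) (XT.nd (nat_lit 78) (nat_lit 532) (nat_lit 0) (XT.lf (nat_lit 0) (nat_lit 4509663836) (nat_lit 532) (nat_lit 1936158760) (nat_lit 608) (nat_lit 5593577072) (nat_lit 252) (nat_lit 5) (nat_lit 259) (nat_lit 5) (nat_lit 260) (nat_lit 5) (nat_lit 455) (nat_lit 411) (nat_lit 334)) (XT.lf (nat_lit 0) (nat_lit 3756957453) (nat_lit 532) (nat_lit 7078416571) (nat_lit 608) (nat_lit 1403054515) (nat_lit 245) (nat_lit 5) (nat_lit 252) (nat_lit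 5) (nat_lit 253) (nat_lit 5) (nat_lit 456) (nat_lit 411) (nat_lit 333))) (XT.nd (nat_lit 78) (nat_lit 532) (nat_lit 0) (XT.lf (nat_lit 0) (nat_lit 2917652428) (nat_lit 608) (nat_lit 9448769307) (nat_lit 76) (nat_lit 75777459) (nat_lit 237) (nat_lit 5) (nat_lit 245) (nat_lit 5) (nat_lit 238) (nat_lit 5) (nat_lit 457) (nat_lit 411) (nat_lit 332)) (XT.lf (nat_lit 0) (nat_lit 2193555319) (nat_lit 532) (nat_lit 5234092219) (nat_lit 608) (nat_lit 5222678007) (nat_lit 230) (nat_lit 5) (nat_lit 237) (nat_lit 5) (nat_lit 238) (nat_lit 5) (nat_lit 458) (nat_lit 411) (nat_lit 331))))))) (XT.nd (nat_lit 936) (nat_lit 4256) (nat_lit 0) (XT.nd (nat_lit 468) (nat_lit 2584) (nat_lit 0) (XT.nd (nat_lit 234) (nat_lit 1444) (nat_lit 0) (XT.nd (nat_lit 78) (nat_lit 608) (nat_lit 0) (XT.lf (nat_lit 0) (nat_lit 1399636910) (nat_lit 456) (nat_lit 10720481486) (nat_lit 532) (nat_lit 743636332) (nat_lit 224) (nat_lit 5) (nat_lit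 230) (nat_lit 5) (nat_lit 231) (nat_lit 5) (nat_lit 459) (nat_lit 411) (nat_lit 330)) (XT.nd (nat_lit 78) (nat_lit 0) (nat_lit 0) (XT.lf (nat_lit 0) (nat_lit 564226024) (nat_lit 532) (nat_lit 3325263554) (nat_lit 608) (nat_lit 9192187829) (nat_lit 216) (nat_lit 5) (nat_lit 223) (nat_lit 5) (nat_lit 224) (nat_lit 5) (nat_lit 460) (nat_lit 411) (nat_lit 329)) (XT.lf (nat_lit 0) (nat_lit 8718796736) (nat_lit 608) (nat_lit 282649900) (nat_lit 76) (nat_lit 4303249378) (nat_lit 216) (nat_lit 5) (nat_lit 224) (nat_lit 5) (nat_lit 217) (nat_lit 5) (nat_lit 461) (nat_lit 411) (nat_lit 328)))) (XT.nd (nat_lit 78) (nat_lit 912) (nat_lit 0) (XT.lf (nat_lit 0) (nat_lit 222013565) (nat_lit 532) (nat_lit 1128350811) (nat_lit 76) (nat_lit 12182712156) (nat_lit 209) (nat_lit 5) (nat_lit 216) (nat_lit 5) (nat_lit 210) (nat_lit 5) (nat_lit 462) (nat_lit 411) (nat_lit 327)) (XT.nd (nat_lit 78) (nat_lit 456) (nat_lit 0)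 (XT.lf (nat_lit 0) (nat_lit 5196447349) (nat_lit 532) (nat_lit 2030847363) (nat_lit 76) (nat_lit 6538717925) (nat_lit 203) (nat_lit 5) (nat_lit 210) (nat_lit 5) (nat_lit 204) (nat_lit 5) (nat_lit 463) (nat_lit 411) (nat_lit 326)) (XT.lf (nat_lit 0) (nat_lit 10376795606) (nat_lit 532) (nat_lit 2931874141) (nat_lit 76) (nat_lit 696135574) (nat_lit 197) (nat_lit 5) (nat_lit 204) (nat_lit 5) (nat_lit 198) (nat_lit 5) (nat_lit 464) (nat_lit 411) (nat_lit 325))))) (XT.nd (nat_lit 234) (nat_lit 1216) (nat_lit 0) (XT.nd (nat_lit 78) (nat_lit 836) (nat_lit 0) (XT.lf (nat_lit 0) (nat_lit 1536905916) (nat_lit 532) (nat_lit 3876729634) (nat_lit 76) (nat_lit 8835052736) (nat_lit 190) (nat_lit 5) (nat_lit 197) (nat_lit 5) (nat_lit 191) (nat_lit 5) (nat_lit 465) (nat_lit 411) (nat_lit 324)) (XT.nd (nat_lit 78) (nat_lit 456) (nat_lit 0) (XT.lf (nat_lit 0) (nat_lit 6873311527) (nat_lit 456) (nat_lit 4851009960) (nat_lit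 76) (nat_lit 2773771935) (nat_lit 185) (nat_lit 5) (nat_lit 191) (nat_lit 5) (nat_lit 186) (nat_lit 5) (nat_lit 466) (nat_lit 411) (nat_lit 323)) (XT.lf (nat_lit 0) (nat_lit 8903650080) (nat_lit 456) (nat_lit 3551754454) (nat_lit 532) (nat_lit 2297866179) (nat_lit 179) (nat_lit 5) (nat_lit 185) (nat_lit 5) (nat_lit 186) (nat_lit 5) (nat_lit 467) (nat_lit 411) (nat_lit 322)))) (XT.nd (nat_lit 78) (nat_lit 760) (nat_lit 0) (XT.lf (nat_lit 0) (nat_lit 3230864287) (nat_lit 456) (nat_lit 6890473443) (nat_lit 76) (nat_lit 4892676728) (nat_lit 173) (nat_lit 5) (nat_lit 179) (nat_lit 5) (nat_lit 174) (nat_lit 5) (nat_lit 468) (nat_lit 411) (nat_lit 321)) (XT.nd (nat_lit 78) (nat_lit 380) (nat_lit 0) (XT.lf (nat_lit 0) (nat_lit 7319483634) (nat_lit 380) (nat_lit 1652265434) (nat_lit 456) (nat_lit 6308979203) (nat_lit 168) (nat_lit 5) (nat_lit 173) (nat_lit 5) (nat_lit 174) (nat_lit 5) (nat_lit 469) (nat_lit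 411) (nat_lit 320)) (XT.lf (nat_lit 0) (nat_lit 6483327444) (nat_lit 380) (nat_lit 8503239735) (nat_lit 456) (nat_lit 566843893) (nat_lit 163) (nat_lit 5) (nat_lit 168) (nat_lit 5) (nat_lit 169) (nat_lit 5) (nat_lit 470) (nat_lit 411) (nat_lit 319)))))) (XT.nd (nat_lit 468) (nat_lit 1900) (nat_lit 0) (XT.nd (nat_lit 234) (nat_lit 1064) (nat_lit 0) (XT.nd (nat_lit 78) (nat_lit 836) (nat_lit 0) (XT.lf (nat_lit 0) (nat_lit 5348090470) (nat_lit 456) (nat_lit 10220066110) (nat_lit 76) (nat_lit 264011625) (nat_lit 157) (nat_lit 5) (nat_lit 163) (nat_lit 5) (nat_lit 158) (nat_lit 5) (nat_lit 471) (nat_lit 411) (nat_lit 318)) (XT.nd (nat_lit 78) (nat_lit 456) (nat_lit 0) (XT.lf (nat_lit 0) (nat_lit 4690954077) (nat_lit 380) (nat_lit 6858700408) (nat_lit 456) (nat_lit 4567222553) (nat_lit 152) (nat_lit 5) (nat_lit 157) (nat_lit 5) (nat_lit 158) (nat_lit 5) (nat_lit 472) (nat_lit 411) (nat_lit 317)) (XT.lf (nat_lit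 0) (nat_lit 1583639701) (nat_lit 456) (nat_lit 12653411636) (nat_lit 76) (nat_lit 2171348396) (nat_lit 146) (nat_lit 5) (nat_lit 152) (nat_lit 5) (nat_lit 147) (nat_lit 5) (nat_lit 473) (nat_lit 411) (nat_lit 316)))) (XT.nd (nat_lit 78) (nat_lit 760) (nat_lit 0) (XT.lf (nat_lit 0) (nat_lit 2750087529) (nat_lit 304) (nat_lit 5217457278) (nat_lit 380) (nat_lit 8738309623) (nat_lit 142) (nat_lit 5) (nat_lit 146) (nat_lit 5) (nat_lit 147) (nat_lit 5) (nat_lit 474) (nat_lit 411) (nat_lit 315)) (XT.nd (nat_lit 78) (nat_lit 380) (nat_lit 0) (XT.lf (nat_lit 0) (nat_lit 1724623915) (nat_lit 380) (nat_lit 12911329465) (nat_lit 456) (nat_lit 2374421079) (nat_lit 137) (nat_lit 5) (nat_lit 142) (nat_lit 5) (nat_lit 143) (nat_lit 5) (nat_lit 475) (nat_lit 411) (nat_lit 314)) (XT.lf (nat_lit 0) (nat_lit 641098250) (nat_lit 304) (nat_lit 3588127043) (nat_lit 380) (nat_lit 13092189954) (nat_lit 132) (nat_lit 5) (nat_lit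 136) (nat_lit 5) (nat_lit 137) (nat_lit 5) (nat_lit 476) (nat_lit 411) (nat_lit 313))))) (XT.nd (nat_lit 234) (nat_lit 1216) (nat_lit 0) (XT.nd (nat_lit 78) (nat_lit 684) (nat_lit 0) (XT.lf (nat_lit 0) (nat_lit 11112103592) (nat_lit 380) (nat_lit 489001793) (nat_lit 76) (nat_lit 6038101656) (nat_lit 132) (nat_lit 5) (nat_lit 137) (nat_lit 5) (nat_lit 133) (nat_lit 5) (nat_lit 477) (nat_lit 411) (nat_lit 312)) (XT.nd (nat_lit 78) (nat_lit 304) (nat_lit 0) (XT.lf (nat_lit 0) (nat_lit 333303819) (nat_lit 380) (nat_lit 1635708085) (nat_lit 76) (nat_lit 15995462435) (nat_lit 127) (nat_lit 5) (nat_lit 132) (nat_lit 5) (nat_lit 128) (nat_lit 5) (nat_lit 478) (nat_lit 411) (nat_lit 311)) (XT.lf (nat_lit 0) (nat_lit 7438737193) (nat_lit 380) (nat_lit 2878919945) (nat_lit 76) (nat_lit 7978423012) (nat_lit 123) (nat_lit 5) (nat_lit 128) (nat_lit 5) (nat_lit 124) (nat_lit 5) (nat_lit 479) (nat_lit 411) (nat_lit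 310)))) (XT.nd (nat_lit 156) (nat_lit 532) (nat_lit 0) (XT.nd (nat_lit 78) (nat_lit 380) (nat_lit 0) (XT.lf (nat_lit 0) (nat_lit 14496930853) (nat_lit 304) (nat_lit 350393192) (nat_lit 380) (nat_lit 3788511457) (nat_lit 119) (nat_lit 5) (nat_lit 123) (nat_lit 5) (nat_lit 124) (nat_lit 5) (nat_lit 480) (nat_lit 411) (nat_lit 309)) (XT.lf (nat_lit 0) (nat_lit 3591253332) (nat_lit 380) (nat_lit 5491967996) (nat_lit 76) (nat_lit 9899216375) (nat_lit 114) (nat_lit 5) (nat_lit 119) (nat_lit 5) (nat_lit 115) (nat_lit 5) (nat_lit 481) (nat_lit 411) (nat_lit 308))) (XT.nd (nat_lit 78) (nat_lit 228) (nat_lit 0) (XT.lf (nat_lit 0) (nat_lit 11232971339) (nat_lit 380) (nat_lit 6889106046) (nat_lit 76) (nat_lit 1215020205) (nat_lit 110) (nat_lit 5) (nat_lit 115) (nat_lit 5) (nat_lit 111) (nat_lit 5) (nat_lit 482) (nat_lit 411) (nat_lit 307)) (XT.lf (nat_lit 0) (nat_lit 11341890844) (nat_lit 228) (nat_lit 7906587359)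 (nat_lit 304) (nat_lit 451029378) (nat_lit 107) (nat_lit 5) (nat_lit 110) (nat_lit 5) (nat_lit 111) (nat_lit 5) (nat_lit 483) (nat_lit 411) (nat_lit 306))))))))
noncomputable def xc59 : XT := (XT.nd (nat_lit 58032) (nat_lit 0) (nat_lit 15960) (XT.nd (nat_lit 57018) (nat_lit 0) (nat_lit 38760) (XT.nd (nat_lit 468) (nat_lit 760) (nat_lit 0) (XT.nd (nat_lit 234) (nat_lit 760) (nat_lit 0) (XT.nd (nat_lit 78) (nat_lit 608) (nat_lit 0) (XT.lf (nat_lit 0) (nat_lit 7438243656) (nat_lit 380) (nat_lit 9905957366) (nat_lit 76) (nat_lit 2725543811) (nat_lit 102) (nat_lit 5) (nat_lit 107) (nat_lit 5) (nat_lit 103) (nat_lit 5) (nat_lit 484) (nat_lit 411) (nat_lit 305)) (XT.nd (nat_lit 78) (nat_lit 380) (nat_lit 0) (XT.lf (nat_lit 0) (nat_lit 8921170193) (nat_lit 228) (nat_lit 6778137579) (nat_lit 304) (nat_lit 4748897968) (nat_lit 99) (nat_lit 5) (nat_lit 102) (nat_lit 5) (nat_lit 103) (nat_lit 5) (nat_lit 485)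 (nat_lit 411) (nat_lit 304)) (XT.lf (nat_lit 0) (nat_lit 3444362030) (nat_lit 380) (nat_lit 13217712807) (nat_lit 76) (nat_lit 4173141349) (nat_lit 94) (nat_lit 5) (nat_lit 99) (nat_lit 5) (nat_lit 95) (nat_lit 5) (nat_lit 486) (nat_lit 411) (nat_lit 303)))) (XT.nd (nat_lit 78) (nat_lit 532) (nat_lit 0) (XT.lf (nat_lit 0) (nat_lit 6221737295) (nat_lit 228) (nat_lit 5735962912) (nat_lit 304) (nat_lit 9272733850) (nat_lit 91) (nat_lit 5) (nat_lit 94) (nat_lit 5) (nat_lit 95) (nat_lit 5) (nat_lit 487) (nat_lit 411) (nat_lit 302)) (XT.nd (nat_lit 78) (nat_lit 304) (nat_lit 0) (XT.lf (nat_lit 0) (nat_lit 4771922596) (nat_lit 228) (nat_lit 16085920630) (nat_lit 304) (nat_lit 777038018) (nat_lit 88) (nat_lit 5) (nat_lit 91) (nat_lit 5) (nat_lit 92) (nat_lit 5) (nat_lit 488) (nat_lit 411) (nat_lit 301)) (XT.lf (nat_lit 0) (nat_lit 3209821303) (nat_lit 228) (nat_lit 4795442739) (nat_lit 304) (nat_lit 14042437056)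 (nat_lit 84) (nat_lit 5) (nat_lit 87) (nat_lit 5) (nat_lit 88) (nat_lit 5) (nat_lit 489) (nat_lit 411) (nat_lit 300))))) (XT.nd (nat_lit 234) (nat_lit 228) (nat_lit 0) (XT.nd (nat_lit 78) (nat_lit 304) (nat_lit 0) (XT.lf (nat_lit 0) (nat_lit 1572160117) (nat_lit 228) (nat_lit 15613055705) (nat_lit 304) (nat_lit 5284693057) (nat_lit 81) (nat_lit 5) (nat_lit 84) (nat_lit 5) (nat_lit 85) (nat_lit 5) (nat_lit 490) (nat_lit 411) (nat_lit 299)) (XT.nd (nat_lit 78) (nat_lit 228) (nat_lit 0) (XT.lf (nat_lit 0) (nat_lit 3822716662) (nat_lit 304) (nat_lit 149795108) (nat_lit 76) (nat_lit 18929068211) (nat_lit 80) (nat_lit 5) (nat_lit 84) (nat_lit 5) (nat_lit 81) (nat_lit 5) (nat_lit 491) (nat_lit 411) (nat_lit 298)) (XT.lf (nat_lit 0) (nat_lit 13300238072) (nat_lit 304) (nat_lit 1971547783) (nat_lit 76) (nat_lit 8070343720) (nat_lit 77) (nat_lit 5) (nat_lit 81) (nat_lit 5) (nat_lit 78) (nat_lit 5) (nat_lit 492)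 (nat_lit 411) (nat_lit 297)))) (XT.nd (nat_lit 56160) (nat_lit 0) (nat_lit 44764) (XT.lf (nat_lit 0) (nat_lit 19936450757) (nat_lit 228) (nat_lit 3259062112) (nat_lit 304) (nat_lit 597714956) (nat_lit 74) (nat_lit 5) (nat_lit 77) (nat_lit 5) (nat_lit 78) (nat_lit 5) (nat_lit 493) (nat_lit 411) (nat_lit 296)) (XT.nd (nat_lit 78) (nat_lit 0) (nat_lit 0) (XT.lf (nat_lit 0) (nat_lit 850175924) (nat_lit 1140) (nat_lit 1338074467) (nat_lit 1140) (nat_lit 1338074467) (nat_lit 663) (nat_lit 3) (nat_lit 678) (nat_lit 3) (nat_lit 678) (nat_lit 5) (nat_lit 412) (nat_lit 412) (nat_lit 376)) (XT.lf (nat_lit 76) (nat_lit 2585648706) (nat_lit 0) (nat_lit 1797785134) (nat_lit 1140) (nat_lit 2721529767) (nat_lit 664) (nat_lit 5) (nat_lit 663) (nat_lit 3) (nat_lit 678) (nat_lit 5) (nat_lit 413) (nat_lit 412) (nat_lit 375)))))) (XT.nd (nat_lit 468) (nat_lit 3800) (nat_lit 0) (XT.nd (nat_lit 234) (nat_lit 1140) (nat_lit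 0) (XT.nd (nat_lit 78) (nat_lit 1140) (nat_lit 0) (XT.lf (nat_lit 76) (nat_lit 833006691) (nat_lit 0) (nat_lit 6240154260) (nat_lit 1140) (nat_lit 87175569) (nat_lit 665) (nat_lit 5) (nat_lit 664) (nat_lit 5) (nat_lit 679) (nat_lit 5) (nat_lit 414) (nat_lit 412) (nat_lit 374)) (XT.nd (nat_lit 78) (nat_lit 0) (nat_lit 0) (XT.lf (nat_lit 0) (nat_lit 2533502392) (nat_lit 1140) (nat_lit 894401396) (nat_lit 1216) (nat_lit 3790303131) (nat_lit 649) (nat_lit 5) (nat_lit 664) (nat_lit 5) (nat_lit 665) (nat_lit 5) (nat_lit 415) (nat_lit 412) (nat_lit 373)) (XT.lf (nat_lit 76) (nat_lit 4708189592) (nat_lit 0) (nat_lit 455833860) (nat_lit 1216) (nat_lit 2115142007) (nat_lit 650) (nat_lit 5) (nat_lit 649) (nat_lit 5) (nat_lit 665) (nat_lit 5) (nat_lit 416) (nat_lit 412) (nat_lit 372)))) (XT.nd (nat_lit 78) (nat_lit 0) (nat_lit 0) (XT.lf (nat_lit 0) (nat_lit 472053129) (nat_lit 1216) (nat_lit 4228718247) (nat_lit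 1292) (nat_lit 2642173163) (nat_lit 634) (nat_lit 5) (nat_lit 650) (nat_lit 5) (nat_lit 651) (nat_lit 5) (nat_lit 417) (nat_lit 412) (nat_lit 371)) (XT.nd (nat_lit 78) (nat_lit 0) (nat_lit 76) (XT.lf (nat_lit 76) (nat_lit 1543671051) (nat_lit 0) (nat_lit 1501639546) (nat_lit 1292) (nat_lit 4364313925) (nat_lit 635) (nat_lit 5) (nat_lit 634) (nat_lit 5) (nat_lit 651) (nat_lit 5) (nat_lit 418) (nat_lit 412) (nat_lit 370)) (XT.lf (nat_lit 76) (nat_lit 241391) (nat_lit 0) (nat_lit 5645027190) (nat_lit 1292) (nat_lit 1834056759) (nat_lit 636) (nat_lit 5) (nat_lit 635) (nat_lit 5) (nat_lit 652) (nat_lit 5) (nat_lit 419) (nat_lit 412) (nat_lit 369))))) (XT.nd (nat_lit 234) (nat_lit 2584) (nat_lit 0) (XT.nd (nat_lit 78) (nat_lit 0) (nat_lit 76) (XT.lf (nat_lit 0) (nat_lit 722735235) (nat_lit 1292) (nat_lit 1500502581) (nat_lit 1368) (nat_lit 5328574027) (nat_lit 618) (nat_lit 5) (nat_lit 635) (nat_lit 5) (nat_lit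 636) (nat_lit 5) (nat_lit 420) (nat_lit 412) (nat_lit 368)) (XT.nd (nat_lit 78) (nat_lit 0) (nat_lit 0) (XT.lf (nat_lit 0) (nat_lit 3283876928) (nat_lit 1292) (nat_lit 2986038011) (nat_lit 1368) (nat_lit 1357273967) (nat_lit 619) (nat_lit 5) (nat_lit 636) (nat_lit 5) (nat_lit 637) (nat_lit 5) (nat_lit 421) (nat_lit 412) (nat_lit 367)) (XT.lf (nat_lit 76) (nat_lit 3253822470) (nat_lit 0) (nat_lit 2629918887) (nat_lit 1368) (nat_lit 1821857569) (nat_lit 620) (nat_lit 5) (nat_lit 619) (nat_lit 5) (nat_lit 637) (nat_lit 5) (nat_lit 422) (nat_lit 412) (nat_lit 366)))) (XT.nd (nat_lit 156) (nat_lit 1368) (nat_lit 0) (XT.nd (nat_lit 78) (nat_lit 0) (nat_lit 0) (XT.lf (nat_lit 0) (nat_lit 722650388) (nat_lit 1368) (nat_lit 5896501394) (nat_lit 1444) (nat_lit 1167966212) (nat_lit 602) (nat_lit 5) (nat_lit 620) (nat_lit 5) (nat_lit 621) (nat_lit 5) (nat_lit 423) (nat_lit 412) (nat_lit 365)) (XT.lf (nat_lit 76)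 (nat_lit 532825992) (nat_lit 0) (nat_lit 2756875987) (nat_lit 1444) (nat_lit 4581729301) (nat_lit 603) (nat_lit 5) (nat_lit 602) (nat_lit 5) (nat_lit 621) (nat_lit 5) (nat_lit 424) (nat_lit 412) (nat_lit 364))) (XT.nd (nat_lit 78) (nat_lit 1444) (nat_lit 0) (XT.lf (nat_lit 0) (nat_lit 5903439255) (nat_lit 1368) (nat_lit 788634735) (nat_lit 1444) (nat_lit 1266814939) (nat_lit 603) (nat_lit 5) (nat_lit 621) (nat_lit 5) (nat_lit 622) (nat_lit 5) (nat_lit 425) (nat_lit 412) (nat_lit 363)) (XT.lf (nat_lit 0) (nat_lit 520260896) (nat_lit 1444) (nat_lit 2092211326) (nat_lit 1520) (nat_lit 5436818915) (nat_lit 584) (nat_lit 5) (nat_lit 603) (nat_lit 5) (nat_lit 604) (nat_lit 5) (nat_lit 426) (nat_lit 412) (nat_lit 362))))))) (XT.nd (nat_lit 1014) (nat_lit 8208) (nat_lit 0) (XT.nd (nat_lit 468) (nat_lit 8360) (nat_lit 0) (XT.nd (nat_lit 234) (nat_lit 3268) (nat_lit 0) (XT.nd (nat_lit 78) (nat_lit 3040) (nat_lit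 0) (XT.lf (nat_lit 0) (nat_lit 3117726741) (nat_lit 1444) (nat_lit 3388375752) (nat_lit 76) (nat_lit 1636590805) (nat_lit 585) (nat_lit 5) (nat_lit 604) (nat_lit 5) (nat_lit 586) (nat_lit 5) (nat_lit 427) (nat_lit 412) (nat_lit 361)) (XT.nd (nat_lit 78) (nat_lit 1596) (nat_lit 0) (XT.lf (nat_lit 0) (nat_lit 3567763611) (nat_lit 1444) (nat_lit 2207348300) (nat_lit 1520) (nat_lit 2464153285) (nat_lit 566) (nat_lit 5) (nat_lit 585) (nat_lit 5) (nat_lit 586) (nat_lit 5) (nat_lit 428) (nat_lit 412) (nat_lit 360)) (XT.lf (nat_lit 0) (nat_lit 153126530) (nat_lit 1596) (nat_lit 5940834217) (nat_lit 76) (nat_lit 2245119842) (nat_lit 545) (nat_lit 5) (nat_lit 566) (nat_lit 5) (nat_lit 546) (nat_lit 5) (nat_lit 429) (nat_lit 412) (nat_lit 359)))) (XT.nd (nat_lit 78) (nat_lit 1672) (nat_lit 0) (XT.lf (nat_lit 0) (nat_lit 1229137551) (nat_lit 1596) (nat_lit 1571274878) (nat_lit 1672) (nat_lit 5641459942) (nat_lit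 524) (nat_lit 5) (nat_lit 545) (nat_lit 5) (nat_lit 546) (nat_lit 5) (nat_lit 430) (nat_lit 412) (nat_lit 358)) (XT.nd (nat_lit 78) (nat_lit 0) (nat_lit 0) (XT.lf (nat_lit 0) (nat_lit 70397107) (nat_lit 1672) (nat_lit 5449643521) (nat_lit 1748) (nat_lit 3027855602) (nat_lit 502) (nat_lit 5) (nat_lit 524) (nat_lit 5) (nat_lit 525) (nat_lit 5) (nat_lit 431) (nat_lit 412) (nat_lit 357)) (XT.lf (nat_lit 0) (nat_lit 7602257665) (nat_lit 1672) (nat_lit 711822024) (nat_lit 1748) (nat_lit 343171278) (nat_lit 502) (nat_lit 5) (nat_lit 524) (nat_lit 5) (nat_lit 525) (nat_lit 5) (nat_lit 432) (nat_lit 412) (nat_lit 356))))) (XT.nd (nat_lit 234) (nat_lit 3648) (nat_lit 0) (XT.nd (nat_lit 78) (nat_lit 2888) (nat_lit 0) (XT.lf (nat_lit 0) (nat_lit 2395678188) (nat_lit 1824) (nat_lit 2193479109) (nat_lit 76) (nat_lit 4180313016) (nat_lit 478) (nat_lit 5) (nat_lit 502) (nat_lit 5) (nat_lit 479) (nat_lit 5) (nat_lit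 433) (nat_lit 412) (nat_lit 355)) (XT.nd (nat_lit 78) (nat_lit 1064) (nat_lit 0) (XT.lf (nat_lit 0) (nat_lit 5199239960) (nat_lit 1900) (nat_lit 3313766288) (nat_lit 76) (nat_lit 372266541) (nat_lit 454) (nat_lit 5) (nat_lit 479) (nat_lit 5) (nat_lit 455) (nat_lit 5) (nat_lit 434) (nat_lit 412) (nat_lit 354)) (XT.lf (nat_lit 0) (nat_lit 4566539161) (nat_lit 1064) (nat_lit 3533772508) (nat_lit 1140) (nat_lit 903975532) (nat_lit 440) (nat_lit 5) (nat_lit 454) (nat_lit 5) (nat_lit 455) (nat_lit 5) (nat_lit 435) (nat_lit 412) (nat_lit 353)))) (XT.nd (nat_lit 156) (nat_lit 1748) (nat_lit 0) (XT.nd (nat_lit 78) (nat_lit 912) (nat_lit 0) (XT.lf (nat_lit 0) (nat_lit 1931549310) (nat_lit 988) (nat_lit 5559102669) (nat_lit 76) (nat_lit 1636056356) (nat_lit 427) (nat_lit 5) (nat_lit 440) (nat_lit 5) (nat_lit 428) (nat_lit 5) (nat_lit 436) (nat_lit 412) (nat_lit 352)) (XT.lf (nat_lit 0) (nat_lit 2567528802) (nat_lit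 912) (nat_lit 2283524749) (nat_lit 988) (nat_lit 4401410616) (nat_lit 415) (nat_lit 5) (nat_lit 427) (nat_lit 5) (nat_lit 428) (nat_lit 5) (nat_lit 437) (nat_lit 412) (nat_lit 351))) (XT.nd (nat_lit 78) (nat_lit 912) (nat_lit 0) (XT.lf (nat_lit 0) (nat_lit 1575058690) (nat_lit 836) (nat_lit 6293147416) (nat_lit 912) (nat_lit 1513590619) (nat_lit 404) (nat_lit 5) (nat_lit 415) (nat_lit 5) (nat_lit 416) (nat_lit 5) (nat_lit 438) (nat_lit 412) (nat_lit 350)) (XT.lf (nat_lit 0) (nat_lit 584881372) (nat_lit 836) (nat_lit 864350779) (nat_lit 912) (nat_lit 8065441916) (nat_lit 392) (nat_lit 5) (nat_lit 403) (nat_lit 5) (nat_lit 404) (nat_lit 5) (nat_lit 439) (nat_lit 412) (nat_lit 349)))))) (XT.nd (nat_lit 468) (nat_lit 4180) (nat_lit 0) (XT.nd (nat_lit 234) (nat_lit 2280) (nat_lit 0) (XT.nd (nat_lit 78) (nat_lit 1748) (nat_lit 0) (XT.lf (nat_lit 0) (nat_lit 4508583303) (nat_lit 912) (nat_lit 414696327) (nat_lit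 76) (nat_lit 4727498765) (nat_lit 392) (nat_lit 5) (nat_lit 404) (nat_lit 5) (nat_lit 393) (nat_lit 5) (nat_lit 440) (nat_lit 412) (nat_lit 348)) (XT.nd (nat_lit 78) (nat_lit 912) (nat_lit 0) (XT.lf (nat_lit 0) (nat_lit 7670622980) (nat_lit 912) (nat_lit 1391816155) (nat_lit 76) (nat_lit 728313325) (nat_lit 381) (nat_lit 5) (nat_lit 393) (nat_lit 5) (nat_lit 382) (nat_lit 5) (nat_lit 441) (nat_lit 412) (nat_lit 347)) (XT.lf (nat_lit 0) (nat_lit 1011581473) (nat_lit 912) (nat_lit 2383590253) (nat_lit 76) (nat_lit 6538989638) (nat_lit 369) (nat_lit 5) (nat_lit 381) (nat_lit 5) (nat_lit 370) (nat_lit 5) (nat_lit 442) (nat_lit 412) (nat_lit 346)))) (XT.nd (nat_lit 78) (nat_lit 1520) (nat_lit 0) (XT.lf (nat_lit 0) (nat_lit 4225787186) (nat_lit 836) (nat_lit 3381788773) (nat_lit 76) (nat_lit 2473673748) (nat_lit 359) (nat_lit 5) (nat_lit 370) (nat_lit 5) (nat_lit 360) (nat_lit 5) (nat_lit 443) (nat_lit 412)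 (nat_lit 345)) (XT.nd (nat_lit 78) (nat_lit 760) (nat_lit 0) (XT.lf (nat_lit 0) (nat_lit 5852690109) (nat_lit 760) (nat_lit 1709633991) (nat_lit 836) (nat_lit 2669912777) (nat_lit 349) (nat_lit 5) (nat_lit 359) (nat_lit 5) (nat_lit 360) (nat_lit 5) (nat_lit 444) (nat_lit 412) (nat_lit 344)) (XT.lf (nat_lit 0) (nat_lit 637337656) (nat_lit 760) (nat_lit 5387451897) (nat_lit 76) (nat_lit 4362205810) (nat_lit 339) (nat_lit 5) (nat_lit 349) (nat_lit 5) (nat_lit 340) (nat_lit 5) (nat_lit 445) (nat_lit 412) (nat_lit 343))))) (XT.nd (nat_lit 234) (nat_lit 1976) (nat_lit 0) (XT.nd (nat_lit 78) (nat_lit 1444) (nat_lit 0) (XT.lf (nat_lit 0) (nat_lit 4027494605) (nat_lit 836) (nat_lit 6403668251) (nat_lit 76) (nat_lit 114485485) (nat_lit 329) (nat_lit 5) (nat_lit 340) (nat_lit 5) (nat_lit 330) (nat_lit 5) (nat_lit 446) (nat_lit 412) (nat_lit 342)) (XT.nd (nat_lit 78) (nat_lit 760) (nat_lit 0) (XT.lf (nat_lit 0)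 (nat_lit 3268788835) (nat_lit 684) (nat_lit 4300655204) (nat_lit 760) (nat_lit 3138618952) (nat_lit 320) (nat_lit 5) (nat_lit 329) (nat_lit 5) (nat_lit 330) (nat_lit 5) (nat_lit 447) (nat_lit 412) (nat_lit 341)) (XT.lf (nat_lit 0) (nat_lit 363171836) (nat_lit 760) (nat_lit 8470685597) (nat_lit 76) (nat_lit 2040944665) (nat_lit 310) (nat_lit 5) (nat_lit 320) (nat_lit 5) (nat_lit 311) (nat_lit 5) (nat_lit 448) (nat_lit 412) (nat_lit 340)))) (XT.nd (nat_lit 156) (nat_lit 684) (nat_lit 0) (XT.nd (nat_lit 78) (nat_lit 684) (nat_lit 0) (XT.lf (nat_lit 0) (nat_lit 1512914881) (nat_lit 608) (nat_lit 2457552537) (nat_lit 684) (nat_lit 7074802730) (nat_lit 302) (nat_lit 5) (nat_lit 310) (nat_lit 5) (nat_lit 311) (nat_lit 5) (nat_lit 449) (nat_lit 412) (nat_lit 339)) (XT.lf (nat_lit 0) (nat_lit 617408667) (nat_lit 684) (nat_lit 7111503022) (nat_lit 760) (nat_lit 3491085397) (nat_lit 293) (nat_lit 5) (nat_lit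 302) (nat_lit 5) (nat_lit 303) (nat_lit 5) (nat_lit 450) (nat_lit 412) (nat_lit 338))) (XT.nd (nat_lit 78) (nat_lit 608) (nat_lit 0) (XT.lf (nat_lit 0) (nat_lit 234102253) (nat_lit 760) (nat_lit 270273610) (nat_lit 76) (nat_lit 10894835583) (nat_lit 292) (nat_lit 5) (nat_lit 302) (nat_lit 5) (nat_lit 293) (nat_lit 5) (nat_lit 451) (nat_lit 412) (nat_lit 337)) (XT.lf (nat_lit 0) (nat_lit 4089493625) (nat_lit 684) (nat_lit 1192790219) (nat_lit 76) (nat_lit 6299742491) (nat_lit 284) (nat_lit 5) (nat_lit 293) (nat_lit 5) (nat_lit 285) (nat_lit 5) (nat_lit 452) (nat_lit 412) (nat_lit 336))))))))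
noncomputable def xc60 : XT := (XT.nd (nat_lit 1950) (nat_lit 4180) (nat_lit 0) (XT.nd (nat_lit 936) (nat_lit 4940) (nat_lit 0) (XT.nd (nat_lit 468) (nat_lit 3040) (nat_lit 0) (XT.nd (nat_lit 234) (nat_lit 1672) (nat_lit 0) (XT.nd (nat_lit 78) (nat_lit 1292) (nat_lit 0) (XT.lf (nat_lit 0) (nat_lit 8096142833) (nat_lit 684) (nat_lit 2108594932) (nat_lit 76) (nat_lit 1564879070) (nat_lit 276) (nat_lit 5) (nat_lit 285) (nat_lit 5) (nat_lit 277) (nat_lit 5) (nat_lit 453) (nat_lit 412) (nat_lit 335)) (XT.nd (nat_lit 78) (nat_lit 608) (nat_lit 0) (XT.lf (nat_lit 0) (nat_lit 316641626) (nat_lit 684) (nat_lit 3041763959) (nat_lit 76) (nat_lit 8603200682) (nat_lit 267) (nat_lit 5) (nat_lit 276) (nat_lit 5) (nat_lit 268) (nat_lit 5) (nat_lit 454) (nat_lit 412) (nat_lit 334)) (XT.lf (nat_lit 0) (nat_lit 4427547235) (nat_lit 684) (nat_lit 4004779746) (nat_lit 76) (nat_lit 3725525730) (nat_lit 259) (nat_lit 5)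 (nat_lit 268) (nat_lit 5) (nat_lit 260) (nat_lit 5) (nat_lit 455) (nat_lit 412) (nat_lit 333)))) (XT.nd (nat_lit 78) (nat_lit 1140) (nat_lit 0) (XT.lf (nat_lit 0) (nat_lit 7386786402) (nat_lit 532) (nat_lit 1325662600) (nat_lit 608) (nat_lit 3646526938) (nat_lit 252) (nat_lit 5) (nat_lit 259) (nat_lit 5) (nat_lit 260) (nat_lit 5) (nat_lit 456) (nat_lit 412) (nat_lit 332)) (XT.nd (nat_lit 78) (nat_lit 532) (nat_lit 0) (XT.lf (nat_lit 0) (nat_lit 622248898) (nat_lit 608) (nat_lit 5965165808) (nat_lit 76) (nat_lit 5977251604) (nat_lit 244) (nat_lit 5) (nat_lit 252) (nat_lit 5) (nat_lit 245) (nat_lit 5) (nat_lit 457) (nat_lit 412) (nat_lit 331)) (XT.lf (nat_lit 0) (nat_lit 5016208869) (nat_lit 608) (nat_lit 6980018154) (nat_lit 76) (nat_lit 778887602) (nat_lit 237) (nat_lit 5) (nat_lit 245) (nat_lit 5) (nat_lit 238) (nat_lit 5) (nat_lit 458) (nat_lit 412) (nat_lit 330))))) (XT.nd (nat_lit 234) (nat_lit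 1444) (nat_lit 0) (XT.nd (nat_lit 78) (nat_lit 1064) (nat_lit 0) (XT.lf (nat_lit 0) (nat_lit 4966924804) (nat_lit 532) (nat_lit 4653584724) (nat_lit 608) (nat_lit 3369798911) (nat_lit 230) (nat_lit 5) (nat_lit 237) (nat_lit 5) (nat_lit 238) (nat_lit 5) (nat_lit 459) (nat_lit 412) (nat_lit 329)) (XT.nd (nat_lit 78) (nat_lit 532) (nat_lit 0) (XT.lf (nat_lit 0) (nat_lit 1191852405) (nat_lit 532) (nat_lit 9079252999) (nat_lit 76) (nat_lit 2939586239) (nat_lit 223) (nat_lit 5) (nat_lit 230) (nat_lit 5) (nat_lit 224) (nat_lit 5) (nat_lit 460) (nat_lit 412) (nat_lit 328)) (XT.lf (nat_lit 0) (nat_lit 3260777466) (nat_lit 532) (nat_lit 2653816366) (nat_lit 608) (nat_lit 7521248864) (nat_lit 216) (nat_lit 5) (nat_lit 223) (nat_lit 5) (nat_lit 224) (nat_lit 5) (nat_lit 461) (nat_lit 412) (nat_lit 327)))) (XT.nd (nat_lit 78) (nat_lit 988) (nat_lit 0) (XT.lf (nat_lit 0) (nat_lit 2373890545) (nat_lit 456) (nat_lit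 8479578830) (nat_lit 532) (nat_lit 2812792100) (nat_lit 210) (nat_lit 5) (nat_lit 216) (nat_lit 5) (nat_lit 217) (nat_lit 5) (nat_lit 462) (nat_lit 412) (nat_lit 326)) (XT.nd (nat_lit 78) (nat_lit 456) (nat_lit 0) (XT.lf (nat_lit 0) (nat_lit 1472729812) (nat_lit 456) (nat_lit 598082021) (nat_lit 532) (nat_lit 11831306446) (nat_lit 203) (nat_lit 5) (nat_lit 209) (nat_lit 5) (nat_lit 210) (nat_lit 5) (nat_lit 463) (nat_lit 412) (nat_lit 325)) (XT.lf (nat_lit 0) (nat_lit 519193507) (nat_lit 456) (nat_lit 6637471511) (nat_lit 532) (nat_lit 6986136862) (nat_lit 197) (nat_lit 5) (nat_lit 203) (nat_lit 5) (nat_lit 204) (nat_lit 5) (nat_lit 464) (nat_lit 412) (nat_lit 324)))))) (XT.nd (nat_lit 468) (nat_lit 2736) (nat_lit 0) (XT.nd (nat_lit 234) (nat_lit 1292) (nat_lit 0) (XT.nd (nat_lit 78) (nat_lit 912) (nat_lit 0) (XT.lf (nat_lit 0) (nat_lit 12458404623) (nat_lit 532) (nat_lit 427691696) (nat_lit 76) (nat_lit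 1503345455) (nat_lit 197) (nat_lit 5) (nat_lit 204) (nat_lit 5) (nat_lit 198) (nat_lit 5) (nat_lit 465) (nat_lit 412) (nat_lit 323)) (XT.nd (nat_lit 78) (nat_lit 380) (nat_lit 0) (XT.lf (nat_lit 0) (nat_lit 3329902197) (nat_lit 532) (nat_lit 1419635278) (nat_lit 76) (nat_lit 9891576968) (nat_lit 190) (nat_lit 5) (nat_lit 197) (nat_lit 5) (nat_lit 191) (nat_lit 5) (nat_lit 466) (nat_lit 412) (nat_lit 322)) (XT.lf (nat_lit 0) (nat_lit 8797275625) (nat_lit 456) (nat_lit 2435870288) (nat_lit 76) (nat_lit 3665441124) (nat_lit 185) (nat_lit 5) (nat_lit 191) (nat_lit 5) (nat_lit 186) (nat_lit 5) (nat_lit 467) (nat_lit 412) (nat_lit 321)))) (XT.nd (nat_lit 78) (nat_lit 836) (nat_lit 0) (XT.lf (nat_lit 0) (nat_lit 11689885725) (nat_lit 456) (nat_lit 2823269552) (nat_lit 532) (nat_lit 648940627) (nat_lit 179) (nat_lit 5) (nat_lit 185) (nat_lit 5) (nat_lit 186) (nat_lit 5) (nat_lit 468) (nat_lit 412) (nat_lit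 320)) (XT.nd (nat_lit 78) (nat_lit 380) (nat_lit 0) (XT.lf (nat_lit 0) (nat_lit 4995421000) (nat_lit 456) (nat_lit 4568791284) (nat_lit 76) (nat_lit 5866783225) (nat_lit 173) (nat_lit 5) (nat_lit 179) (nat_lit 5) (nat_lit 174) (nat_lit 5) (nat_lit 469) (nat_lit 412) (nat_lit 319)) (XT.lf (nat_lit 0) (nat_lit 10026444279) (nat_lit 380) (nat_lit 849665971) (nat_lit 456) (nat_lit 4830251455) (nat_lit 168) (nat_lit 5) (nat_lit 173) (nat_lit 5) (nat_lit 174) (nat_lit 5) (nat_lit 470) (nat_lit 412) (nat_lit 318))))) (XT.nd (nat_lit 234) (nat_lit 1520) (nat_lit 0) (XT.nd (nat_lit 78) (nat_lit 760) (nat_lit 0) (XT.lf (nat_lit 0) (nat_lit 1043559251) (nat_lit 456) (nat_lit 6842954775) (nat_lit 76) (nat_lit 8101099986) (nat_lit 162) (nat_lit 5) (nat_lit 168) (nat_lit 5) (nat_lit 163) (nat_lit 5) (nat_lit 471) (nat_lit 412) (nat_lit 317)) (XT.nd (nat_lit 78) (nat_lit 380) (nat_lit 0) (XT.lf (nat_lit 0) (nat_lit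 7102671852) (nat_lit 456) (nat_lit 8045490432) (nat_lit 76) (nat_lit 1127010346) (nat_lit 157) (nat_lit 5) (nat_lit 163) (nat_lit 5) (nat_lit 158) (nat_lit 5) (nat_lit 472) (nat_lit 412) (nat_lit 316)) (XT.lf (nat_lit 0) (nat_lit 7272606201) (nat_lit 380) (nat_lit 6187093457) (nat_lit 456) (nat_lit 3109336999) (nat_lit 152) (nat_lit 5) (nat_lit 157) (nat_lit 5) (nat_lit 158) (nat_lit 5) (nat_lit 473) (nat_lit 412) (nat_lit 315)))) (XT.nd (nat_lit 156) (nat_lit 760) (nat_lit 0) (XT.nd (nat_lit 78) (nat_lit 304) (nat_lit 0) (XT.lf (nat_lit 0) (nat_lit 3180715791) (nat_lit 456) (nat_lit 10585792607) (nat_lit 76) (nat_lit 3103080049) (nat_lit 146) (nat_lit 5) (nat_lit 152) (nat_lit 5) (nat_lit 147) (nat_lit 5) (nat_lit 474) (nat_lit 412) (nat_lit 314)) (XT.lf (nat_lit 0) (nat_lit 5240108274) (nat_lit 304) (nat_lit 4486527964) (nat_lit 380) (nat_lit 7449922678) (nat_lit 142) (nat_lit 5) (nat_lit 146) (nat_lit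 5) (nat_lit 147) (nat_lit 5) (nat_lit 475) (nat_lit 412) (nat_lit 313))) (XT.nd (nat_lit 78) (nat_lit 380) (nat_lit 0) (XT.lf (nat_lit 0) (nat_lit 4169129965) (nat_lit 380) (nat_lit 12402822906) (nat_lit 456) (nat_lit 918726593) (nat_lit 137) (nat_lit 5) (nat_lit 142) (nat_lit 5) (nat_lit 143) (nat_lit 5) (nat_lit 476) (nat_lit 412) (nat_lit 312)) (XT.lf (nat_lit 0) (nat_lit 3034045153) (nat_lit 304) (nat_lit 2800479493) (nat_lit 380) (nat_lit 11976900063) (nat_lit 132) (nat_lit 5) (nat_lit 136) (nat_lit 5) (nat_lit 137) (nat_lit 5) (nat_lit 477) (nat_lit 412) (nat_lit 311))))))) (XT.nd (nat_lit 936) (nat_lit 760) (nat_lit 0) (XT.nd (nat_lit 468) (nat_lit 1748) (nat_lit 0) (XT.nd (nat_lit 234) (nat_lit 988) (nat_lit 0) (XT.nd (nat_lit 78) (nat_lit 380) (nat_lit 0) (XT.lf (nat_lit 0) (nat_lit 1848271601) (nat_lit 304) (nat_lit 11050200564) (nat_lit 380) (nat_lit 5240788313) (nat_lit 128) (nat_lit 5)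 (nat_lit 132) (nat_lit 5) (nat_lit 133) (nat_lit 5) (nat_lit 478) (nat_lit 412) (nat_lit 310)) (XT.nd (nat_lit 78) (nat_lit 0) (nat_lit 0) (XT.lf (nat_lit 0) (nat_lit 632428803) (nat_lit 304) (nat_lit 1138305944) (nat_lit 380) (nat_lit 16704065539) (nat_lit 123) (nat_lit 5) (nat_lit 127) (nat_lit 5) (nat_lit 128) (nat_lit 5) (nat_lit 479) (nat_lit 412) (nat_lit 309)) (XT.lf (nat_lit 0) (nat_lit 9064196698) (nat_lit 380) (nat_lit 671522977) (nat_lit 76) (nat_lit 9081139023) (nat_lit 123) (nat_lit 5) (nat_lit 128) (nat_lit 5) (nat_lit 124) (nat_lit 5) (nat_lit 480) (nat_lit 412) (nat_lit 308)))) (XT.nd (nat_lit 78) (nat_lit 684) (nat_lit 0) (XT.lf (nat_lit 0) (nat_lit 16672221774) (nat_lit 380) (nat_lit 1982315715) (nat_lit 76) (nat_lit 512727296) (nat_lit 119) (nat_lit 5) (nat_lit 124) (nat_lit 5) (nat_lit 120) (nat_lit 5) (nat_lit 481) (nat_lit 412) (nat_lit 307)) (XT.nd (nat_lit 78) (nat_lit 304)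 (nat_lit 0) (XT.lf (nat_lit 0) (nat_lit 5064152766) (nat_lit 380) (nat_lit 3397082941) (nat_lit 76) (nat_lit 11063318377) (nat_lit 114) (nat_lit 5) (nat_lit 119) (nat_lit 5) (nat_lit 115) (nat_lit 5) (nat_lit 482) (nat_lit 412) (nat_lit 306)) (XT.lf (nat_lit 0) (nat_lit 12915527407) (nat_lit 380) (nat_lit 4851680561) (nat_lit 76) (nat_lit 2123039255) (nat_lit 110) (nat_lit 5) (nat_lit 115) (nat_lit 5) (nat_lit 111) (nat_lit 5) (nat_lit 483) (nat_lit 412) (nat_lit 305))))) (XT.nd (nat_lit 234) (nat_lit 912) (nat_lit 0) (XT.nd (nat_lit 78) (nat_lit 532) (nat_lit 0) (XT.lf (nat_lit 0) (nat_lit 871038184) (nat_lit 304) (nat_lit 6379920291) (nat_lit 76) (nat_lit 13012955092) (nat_lit 106) (nat_lit 5) (nat_lit 110) (nat_lit 5) (nat_lit 107) (nat_lit 5) (nat_lit 484) (nat_lit 412) (nat_lit 304)) (XT.nd (nat_lit 78) (nat_lit 228) (nat_lit 0) (XT.lf (nat_lit 0) (nat_lit 8972129079) (nat_lit 380) (nat_lit 7993425550)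 (nat_lit 76) (nat_lit 3680019775) (nat_lit 102) (nat_lit 5) (nat_lit 107) (nat_lit 5) (nat_lit 103) (nat_lit 5) (nat_lit 485) (nat_lit 412) (nat_lit 303)) (XT.lf (nat_lit 0) (nat_lit 11362665907) (nat_lit 228) (nat_lit 6094296517) (nat_lit 304) (nat_lit 3578909365) (nat_lit 99) (nat_lit 5) (nat_lit 102) (nat_lit 5) (nat_lit 103) (nat_lit 5) (nat_lit 486) (nat_lit 412) (nat_lit 302)))) (XT.nd (nat_lit 78) (nat_lit 532) (nat_lit 0) (XT.lf (nat_lit 0) (nat_lit 4824945128) (nat_lit 380) (nat_lit 11438938380) (nat_lit 76) (nat_lit 5170799750) (nat_lit 94) (nat_lit 5) (nat_lit 99) (nat_lit 5) (nat_lit 95) (nat_lit 5) (nat_lit 487) (nat_lit 412) (nat_lit 301)) (XT.nd (nat_lit 78) (nat_lit 304) (nat_lit 0) (XT.lf (nat_lit 0) (nat_lit 8548403473) (nat_lit 228) (nat_lit 5021972845) (nat_lit 304) (nat_lit 8271848780) (nat_lit 91) (nat_lit 5) (nat_lit 94) (nat_lit 5) (nat_lit 95) (nat_lit 5) (nat_lit 488) (nat_lit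 412) (nat_lit 300)) (XT.lf (nat_lit 0) (nat_lit 455180075) (nat_lit 304) (nat_lit 15222714514) (nat_lit 76) (nat_lit 6581195367) (nat_lit 87) (nat_lit 5) (nat_lit 91) (nat_lit 5) (nat_lit 88) (nat_lit 5) (nat_lit 489) (nat_lit 412) (nat_lit 299)))))) (XT.nd (nat_lit 56628) (nat_lit 0) (nat_lit 41040) (XT.nd (nat_lit 234) (nat_lit 0) (nat_lit 0) (XT.nd (nat_lit 78) (nat_lit 532) (nat_lit 0) (XT.lf (nat_lit 0) (nat_lit 5412318287) (nat_lit 228) (nat_lit 4055547968) (nat_lit 304) (nat_lit 13216777182) (nat_lit 84) (nat_lit 5) (nat_lit 87) (nat_lit 5) (nat_lit 88) (nat_lit 5) (nat_lit 490) (nat_lit 412) (nat_lit 298)) (XT.nd (nat_lit 78) (nat_lit 304) (nat_lit 0) (XT.lf (nat_lit 0) (nat_lit 3709803177) (nat_lit 228) (nat_lit 15196951828) (nat_lit 304) (nat_lit 4213092837) (nat_lit 81) (nat_lit 5) (nat_lit 84) (nat_lit 5) (nat_lit 85) (nat_lit 5) (nat_lit 491) (nat_lit 412) (nat_lit 297)) (XT.lf (nat_lit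 0) (nat_lit 1916132398) (nat_lit 228) (nat_lit 3212354616) (nat_lit 304) (nat_lit 18436281803) (nat_lit 77) (nat_lit 5) (nat_lit 80) (nat_lit 5) (nat_lit 81) (nat_lit 5) (nat_lit 492) (nat_lit 412) (nat_lit 296)))) (XT.nd (nat_lit 56238) (nat_lit 0) (nat_lit 43396) (XT.lf (nat_lit 0) (nat_lit 14862177100) (nat_lit 304) (nat_lit 951777) (nat_lit 76) (nat_lit 9155970231) (nat_lit 77) (nat_lit 5) (nat_lit 81) (nat_lit 5) (nat_lit 78) (nat_lit 5) (nat_lit 493) (nat_lit 412) (nat_lit 295)) (XT.nd (nat_lit 78) (nat_lit 1140) (nat_lit 0) (XT.lf (nat_lit 0) (nat_lit 3491085291) (nat_lit 1140) (nat_lit 44200014) (nat_lit 1140) (nat_lit 44200014) (nat_lit 663) (nat_lit 3) (nat_lit 678) (nat_lit 3) (nat_lit 678) (nat_lit 5) (nat_lit 413) (nat_lit 413) (nat_lit 374)) (XT.lf (nat_lit 0) (nat_lit 2363445158) (nat_lit 1140) (nat_lit 1943162012) (nat_lit 1216) (nat_lit 2908660749) (nat_lit 648) (nat_lit 5) (nat_lit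 663) (nat_lit 3) (nat_lit 664) (nat_lit 5) (nat_lit 414) (nat_lit 413) (nat_lit 373))))) (XT.nd (nat_lit 234) (nat_lit 1216) (nat_lit 0) (XT.nd (nat_lit 78) (nat_lit 1140) (nat_lit 0) (XT.lf (nat_lit 76) (nat_lit 3514780675) (nat_lit 0) (nat_lit 1388022338) (nat_lit 1216) (nat_lit 2371933282) (nat_lit 649) (nat_lit 5) (nat_lit 648) (nat_lit 5) (nat_lit 664) (nat_lit 5) (nat_lit 415) (nat_lit 413) (nat_lit 372)) (XT.nd (nat_lit 78) (nat_lit 0) (nat_lit 0) (XT.lf (nat_lit 0) (nat_lit 119608849) (nat_lit 1216) (nat_lit 5550707877) (nat_lit 1292) (nat_lit 1666866501) (nat_lit 633) (nat_lit 5) (nat_lit 649) (nat_lit 5) (nat_lit 650) (nat_lit 5) (nat_lit 416) (nat_lit 413) (nat_lit 371)) (XT.lf (nat_lit 76) (nat_lit 72105598) (nat_lit 0) (nat_lit 2523651042) (nat_lit 1292) (nat_lit 4806602471) (nat_lit 634) (nat_lit 5) (nat_lit 633) (nat_lit 5) (nat_lit 650) (nat_lit 5) (nat_lit 417) (nat_lit 413) (nat_lit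 370)))) (XT.nd (nat_lit 156) (nat_lit 0) (nat_lit 76) (XT.nd (nat_lit 78) (nat_lit 1292) (nat_lit 0) (XT.lf (nat_lit 0) (nat_lit 5097846271) (nat_lit 1216) (nat_lit 1588580768) (nat_lit 1292) (nat_lit 784040581) (nat_lit 634) (nat_lit 5) (nat_lit 650) (nat_lit 5) (nat_lit 651) (nat_lit 5) (nat_lit 418) (nat_lit 413) (nat_lit 369)) (XT.lf (nat_lit 0) (nat_lit 88976941) (nat_lit 1292) (nat_lit 3229992864) (nat_lit 1368) (nat_lit 4222514914) (nat_lit 617) (nat_lit 5) (nat_lit 634) (nat_lit 5) (nat_lit 635) (nat_lit 5) (nat_lit 419) (nat_lit 413) (nat_lit 368))) (XT.nd (nat_lit 78) (nat_lit 0) (nat_lit 0) (XT.lf (nat_lit 0) (nat_lit 2536065733) (nat_lit 1292) (nat_lit 4854001859) (nat_lit 1368) (nat_lit 225383233) (nat_lit 618) (nat_lit 5) (nat_lit 635) (nat_lit 5) (nat_lit 636) (nat_lit 5) (nat_lit 420) (nat_lit 413) (nat_lit 367)) (XT.lf (nat_lit 76) (nat_lit 1225102654) (nat_lit 0) (nat_lit 3799471333)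 (nat_lit 1368) (nat_lit 2667711207) (nat_lit 619) (nat_lit 5) (nat_lit 618) (nat_lit 5) (nat_lit 636) (nat_lit 5) (nat_lit 421) (nat_lit 413) (nat_lit 366))))))))
noncomputable def xc61 : XT := (XT.nd (nat_lit 1950) (nat_lit 13452) (nat_lit 0) (XT.nd (nat_lit 936) (nat_lit 10564) (nat_lit 0) (XT.nd (nat_lit 468) (nat_lit 8056) (nat_lit 0) (XT.nd (nat_lit 234) (nat_lit 1292) (nat_lit 0) (XT.nd (nat_lit 78) (nat_lit 1292) (nat_lit 0) (XT.lf (nat_lit 76) (nat_lit 7499630210) (nat_lit 0) (nat_lit 38929373) (nat_lit 1368) (nat_lit 233857711) (nat_lit 619) (nat_lit 5) (nat_lit 618) (nat_lit 5) (nat_lit 636) (nat_lit 5) (nat_lit 422) (nat_lit 413) (nat_lit 365)) (XT.nd (nat_lit 78) (nat_lit 0) (nat_lit 76) (XT.lf (nat_lit 0) (nat_lit 2228153379) (nat_lit 1368) (nat_lit 1760874678) (nat_lit 1444) (nat_lit 3865939784) (nat_lit 601) (nat_lit 5) (nat_lit 619) (nat_lit 5) (nat_lit 620) (nat_lit 5) (nat_lit 423)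 (nat_lit 413) (nat_lit 364)) (XT.lf (nat_lit 0) (nat_lit 4715639495) (nat_lit 1368) (nat_lit 3218865719) (nat_lit 1444) (nat_lit 6371383) (nat_lit 602) (nat_lit 5) (nat_lit 620) (nat_lit 5) (nat_lit 621) (nat_lit 5) (nat_lit 424) (nat_lit 413) (nat_lit 363)))) (XT.nd (nat_lit 78) (nat_lit 1368) (nat_lit 0) (XT.lf (nat_lit 76) (nat_lit 3357030120) (nat_lit 0) (nat_lit 3905236125) (nat_lit 1444) (nat_lit 767414253) (nat_lit 603) (nat_lit 5) (nat_lit 602) (nat_lit 5) (nat_lit 621) (nat_lit 5) (nat_lit 425) (nat_lit 413) (nat_lit 362)) (XT.nd (nat_lit 78) (nat_lit 0) (nat_lit 0) (XT.lf (nat_lit 0) (nat_lit 1703461291) (nat_lit 1444) (nat_lit 6110102004) (nat_lit 1520) (nat_lit 308114845) (nat_lit 584) (nat_lit 5) (nat_lit 603) (nat_lit 5) (nat_lit 604) (nat_lit 5) (nat_lit 426) (nat_lit 413) (nat_lit 361)) (XT.lf (nat_lit 76) (nat_lit 666352064) (nat_lit 0) (nat_lit 3561403803) (nat_lit 1520) (nat_lit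 3988791594) (nat_lit 585) (nat_lit 5) (nat_lit 584) (nat_lit 5) (nat_lit 604) (nat_lit 5) (nat_lit 427) (nat_lit 413) (nat_lit 360))))) (XT.nd (nat_lit 234) (nat_lit 5092) (nat_lit 0) (XT.nd (nat_lit 78) (nat_lit 3040) (nat_lit 0) (XT.lf (nat_lit 0) (nat_lit 6803983090) (nat_lit 1444) (nat_lit 645335223) (nat_lit 76) (nat_lit 865427829) (nat_lit 585) (nat_lit 5) (nat_lit 604) (nat_lit 5) (nat_lit 586) (nat_lit 5) (nat_lit 428) (nat_lit 413) (nat_lit 359)) (XT.nd (nat_lit 78) (nat_lit 1520) (nat_lit 0) (XT.lf (nat_lit 0) (nat_lit 1025039569) (nat_lit 1520) (nat_lit 1949362630) (nat_lit 76) (nat_lit 5441418452) (nat_lit 565) (nat_lit 5) (nat_lit 585) (nat_lit 5) (nat_lit 566) (nat_lit 5) (nat_lit 429) (nat_lit 413) (nat_lit 358)) (XT.lf (nat_lit 0) (nat_lit 3598725524) (nat_lit 1596) (nat_lit 3245983464) (nat_lit 76) (nat_lit 1675378792) (nat_lit 545) (nat_lit 5) (nat_lit 566) (nat_lit 5) (nat_lit 546)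 (nat_lit 5) (nat_lit 430) (nat_lit 413) (nat_lit 357)))) (XT.nd (nat_lit 78) (nat_lit 3496) (nat_lit 0) (XT.lf (nat_lit 0) (nat_lit 4092475216) (nat_lit 1596) (nat_lit 2151082607) (nat_lit 1672) (nat_lit 2384052987) (nat_lit 524) (nat_lit 5) (nat_lit 545) (nat_lit 5) (nat_lit 546) (nat_lit 5) (nat_lit 431) (nat_lit 413) (nat_lit 356)) (XT.nd (nat_lit 78) (nat_lit 1748) (nat_lit 0) (XT.lf (nat_lit 0) (nat_lit 220673652) (nat_lit 1748) (nat_lit 5816989522) (nat_lit 76) (nat_lit 2700786728) (nat_lit 501) (nat_lit 5) (nat_lit 524) (nat_lit 5) (nat_lit 502) (nat_lit 5) (nat_lit 432) (nat_lit 413) (nat_lit 355)) (XT.lf (nat_lit 0) (nat_lit 1748866165) (nat_lit 1748) (nat_lit 1116048988) (nat_lit 1824) (nat_lit 5987514682) (nat_lit 478) (nat_lit 5) (nat_lit 501) (nat_lit 5) (nat_lit 502) (nat_lit 5) (nat_lit 433) (nat_lit 413) (nat_lit 354)))))) (XT.nd (nat_lit 468) (nat_lit 4864) (nat_lit 0) (XT.nd (nat_lit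 234) (nat_lit 2736) (nat_lit 0) (XT.nd (nat_lit 78) (nat_lit 1140) (nat_lit 0) (XT.lf (nat_lit 0) (nat_lit 578178462) (nat_lit 1824) (nat_lit 5017838791) (nat_lit 1900) (nat_lit 3373667170) (nat_lit 454) (nat_lit 5) (nat_lit 478) (nat_lit 5) (nat_lit 479) (nat_lit 5) (nat_lit 434) (nat_lit 413) (nat_lit 353)) (XT.nd (nat_lit 78) (nat_lit 1140) (nat_lit 0) (XT.lf (nat_lit 0) (nat_lit 8405257405) (nat_lit 1900) (nat_lit 566145412) (nat_lit 76) (nat_lit 119135482) (nat_lit 454) (nat_lit 5) (nat_lit 479) (nat_lit 5) (nat_lit 455) (nat_lit 5) (nat_lit 435) (nat_lit 413) (nat_lit 352)) (XT.lf (nat_lit 0) (nat_lit 2080516442) (nat_lit 1140) (nat_lit 1723852817) (nat_lit 76) (nat_lit 5409901656) (nat_lit 439) (nat_lit 5) (nat_lit 454) (nat_lit 5) (nat_lit 440) (nat_lit 5) (nat_lit 436) (nat_lit 413) (nat_lit 351)))) (XT.nd (nat_lit 78) (nat_lit 1824) (nat_lit 0) (XT.lf (nat_lit 0) (nat_lit 4918802263) (nat_lit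 988) (nat_lit 2871233096) (nat_lit 76) (nat_lit 1551618376) (nat_lit 427) (nat_lit 5) (nat_lit 440) (nat_lit 5) (nat_lit 428) (nat_lit 5) (nat_lit 437) (nat_lit 413) (nat_lit 350)) (XT.nd (nat_lit 78) (nat_lit 912) (nat_lit 0) (XT.lf (nat_lit 0) (nat_lit 5452884133) (nat_lit 912) (nat_lit 2405921429) (nat_lit 988) (nat_lit 1613726258) (nat_lit 415) (nat_lit 5) (nat_lit 427) (nat_lit 5) (nat_lit 428) (nat_lit 5) (nat_lit 438) (nat_lit 413) (nat_lit 349)) (XT.lf (nat_lit 0) (nat_lit 1277043434) (nat_lit 912) (nat_lit 5173465916) (nat_lit 76) (nat_lit 3156382561) (nat_lit 403) (nat_lit 5) (nat_lit 415) (nat_lit 5) (nat_lit 404) (nat_lit 5) (nat_lit 439) (nat_lit 413) (nat_lit 348))))) (XT.nd (nat_lit 234) (nat_lit 2280) (nat_lit 0) (XT.nd (nat_lit 78) (nat_lit 1748) (nat_lit 0) (XT.lf (nat_lit 0) (nat_lit 3413422877) (nat_lit 836) (nat_lit 831124684) (nat_lit 912) (nat_lit 5500287967) (nat_lit 392) (nat_lit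 5) (nat_lit 403) (nat_lit 5) (nat_lit 404) (nat_lit 5) (nat_lit 440) (nat_lit 413) (nat_lit 347)) (XT.nd (nat_lit 78) (nat_lit 912) (nat_lit 0) (XT.lf (nat_lit 0) (nat_lit 2386580439) (nat_lit 836) (nat_lit 4944816334) (nat_lit 912) (nat_lit 2554918910) (nat_lit 381) (nat_lit 5) (nat_lit 392) (nat_lit 5) (nat_lit 393) (nat_lit 5) (nat_lit 441) (nat_lit 413) (nat_lit 346)) (XT.lf (nat_lit 0) (nat_lit 484230375) (nat_lit 912) (nat_lit 8661625862) (nat_lit 76) (nat_lit 885892259) (nat_lit 369) (nat_lit 5) (nat_lit 381) (nat_lit 5) (nat_lit 370) (nat_lit 5) (nat_lit 442) (nat_lit 413) (nat_lit 345)))) (XT.nd (nat_lit 156) (nat_lit 1520) (nat_lit 0) (XT.nd (nat_lit 78) (nat_lit 0) (nat_lit 0) (XT.lf (nat_lit 0) (nat_lit 327271089) (nat_lit 760) (nat_lit 3288450195) (nat_lit 836) (nat_lit 6564771959) (nat_lit 359) (nat_lit 5) (nat_lit 369) (nat_lit 5) (nat_lit 370) (nat_lit 5) (nat_lit 443) (nat_lit 413)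 (nat_lit 344)) (XT.lf (nat_lit 0) (nat_lit 6868488483) (nat_lit 836) (nat_lit 701154255) (nat_lit 76) (nat_lit 2763515115) (nat_lit 359) (nat_lit 5) (nat_lit 370) (nat_lit 5) (nat_lit 360) (nat_lit 5) (nat_lit 444) (nat_lit 413) (nat_lit 343))) (XT.nd (nat_lit 78) (nat_lit 760) (nat_lit 0) (XT.lf (nat_lit 0) (nat_lit 8765222918) (nat_lit 760) (nat_lit 1484389248) (nat_lit 836) (nat_lit 240178799) (nat_lit 349) (nat_lit 5) (nat_lit 359) (nat_lit 5) (nat_lit 360) (nat_lit 5) (nat_lit 445) (nat_lit 413) (nat_lit 342)) (XT.lf (nat_lit 0) (nat_lit 3080887554) (nat_lit 760) (nat_lit 2777267915) (nat_lit 76) (nat_lit 4791766364) (nat_lit 339) (nat_lit 5) (nat_lit 349) (nat_lit 5) (nat_lit 340) (nat_lit 5) (nat_lit 446) (nat_lit 413) (nat_lit 341))))))) (XT.nd (nat_lit 1014) (nat_lit 5700) (nat_lit 0) (XT.nd (nat_lit 468) (nat_lit 3572) (nat_lit 0) (XT.nd (nat_lit 234) (nat_lit 1976) (nat_lit 0) (XT.nd (nat_lit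 78) (nat_lit 1444) (nat_lit 0) (XT.lf (nat_lit 0) (nat_lit 6522146158) (nat_lit 836) (nat_lit 3823627490) (nat_lit 76) (nat_lit 468578487) (nat_lit 329) (nat_lit 5) (nat_lit 340) (nat_lit 5) (nat_lit 330) (nat_lit 5) (nat_lit 447) (nat_lit 413) (nat_lit 340)) (XT.nd (nat_lit 78) (nat_lit 760) (nat_lit 0) (XT.lf (nat_lit 0) (nat_lit 6094028454) (nat_lit 684) (nat_lit 4024891671) (nat_lit 760) (nat_lit 863753286) (nat_lit 320) (nat_lit 5) (nat_lit 329) (nat_lit 5) (nat_lit 330) (nat_lit 5) (nat_lit 448) (nat_lit 413) (nat_lit 339)) (XT.lf (nat_lit 0) (nat_lit 2664311421) (nat_lit 760) (nat_lit 5967975042) (nat_lit 76) (nat_lit 2522780040) (nat_lit 310) (nat_lit 5) (nat_lit 320) (nat_lit 5) (nat_lit 311) (nat_lit 5) (nat_lit 449) (nat_lit 413) (nat_lit 338)))) (XT.nd (nat_lit 78) (nat_lit 1368) (nat_lit 0) (XT.lf (nat_lit 0) (nat_lit 4270407141) (nat_lit 608) (nat_lit 2060321364) (nat_lit 684) (nat_lit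 5000907127) (nat_lit 302) (nat_lit 5) (nat_lit 310) (nat_lit 5) (nat_lit 311) (nat_lit 5) (nat_lit 450) (nat_lit 413) (nat_lit 337)) (XT.nd (nat_lit 78) (nat_lit 684) (nat_lit 0) (XT.lf (nat_lit 0) (nat_lit 3345289569) (nat_lit 684) (nat_lit 6811920069) (nat_lit 760) (nat_lit 1355294011) (nat_lit 293) (nat_lit 5) (nat_lit 302) (nat_lit 5) (nat_lit 303) (nat_lit 5) (nat_lit 451) (nat_lit 413) (nat_lit 336)) (XT.lf (nat_lit 0) (nat_lit 2403582654) (nat_lit 684) (nat_lit 9285452360) (nat_lit 76) (nat_lit 8746826) (nat_lit 284) (nat_lit 5) (nat_lit 293) (nat_lit 5) (nat_lit 285) (nat_lit 5) (nat_lit 452) (nat_lit 413) (nat_lit 335))))) (XT.nd (nat_lit 234) (nat_lit 2280) (nat_lit 0) (XT.nd (nat_lit 78) (nat_lit 684) (nat_lit 0) (XT.lf (nat_lit 0) (nat_lit 1445203787) (nat_lit 608) (nat_lit 4880895641) (nat_lit 684) (nat_lit 5560957040) (nat_lit 276) (nat_lit 5) (nat_lit 284) (nat_lit 5) (nat_lit 285) (nat_lit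 5) (nat_lit 453) (nat_lit 413) (nat_lit 334)) (XT.nd (nat_lit 78) (nat_lit 76) (nat_lit 0) (XT.lf (nat_lit 0) (nat_lit 484018151) (nat_lit 608) (nat_lit 9921930376) (nat_lit 684) (nat_lit 1675270584) (nat_lit 268) (nat_lit 5) (nat_lit 276) (nat_lit 5) (nat_lit 277) (nat_lit 5) (nat_lit 454) (nat_lit 413) (nat_lit 333)) (XT.lf (nat_lit 0) (nat_lit 2360256045) (nat_lit 684) (nat_lit 499306290) (nat_lit 76) (nat_lit 9420069134) (nat_lit 267) (nat_lit 5) (nat_lit 276) (nat_lit 5) (nat_lit 268) (nat_lit 5) (nat_lit 455) (nat_lit 413) (nat_lit 332)))) (XT.nd (nat_lit 156) (nat_lit 1140) (nat_lit 0) (XT.nd (nat_lit 78) (nat_lit 532) (nat_lit 0) (XT.lf (nat_lit 0) (nat_lit 6555956111) (nat_lit 684) (nat_lit 1497861951) (nat_lit 76) (nat_lit 4428721996) (nat_lit 259) (nat_lit 5) (nat_lit 268) (nat_lit 5) (nat_lit 260) (nat_lit 5) (nat_lit 456) (nat_lit 413) (nat_lit 331)) (XT.lf (nat_lit 0) (nat_lit 10192830235)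 (nat_lit 532) (nat_lit 735230836) (nat_lit 608) (nat_lit 1762466768) (nat_lit 252) (nat_lit 5) (nat_lit 259) (nat_lit 5) (nat_lit 260) (nat_lit 5) (nat_lit 457) (nat_lit 413) (nat_lit 330))) (XT.nd (nat_lit 78) (nat_lit 532) (nat_lit 0) (XT.lf (nat_lit 0) (nat_lit 2571769129) (nat_lit 608) (nat_lit 3541267957) (nat_lit 76) (nat_lit 6789825938) (nat_lit 244) (nat_lit 5) (nat_lit 252) (nat_lit 5) (nat_lit 245) (nat_lit 5) (nat_lit 458) (nat_lit 413) (nat_lit 329)) (XT.lf (nat_lit 0) (nat_lit 7062280835) (nat_lit 608) (nat_lit 4595192823) (nat_lit 76) (nat_lit 1462860148) (nat_lit 237) (nat_lit 5) (nat_lit 245) (nat_lit 5) (nat_lit 238) (nat_lit 5) (nat_lit 459) (nat_lit 413) (nat_lit 328)))))) (XT.nd (nat_lit 468) (nat_lit 2660) (nat_lit 0) (XT.nd (nat_lit 234) (nat_lit 1444) (nat_lit 0) (XT.nd (nat_lit 78) (nat_lit 1064) (nat_lit 0) (XT.lf (nat_lit 0) (nat_lit 7668070191) (nat_lit 532) (nat_lit 4097999258)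 (nat_lit 608) (nat_lit 1576690375) (nat_lit 230) (nat_lit 5) (nat_lit 237) (nat_lit 5) (nat_lit 238) (nat_lit 5) (nat_lit 460) (nat_lit 413) (nat_lit 327)) (XT.nd (nat_lit 78) (nat_lit 532) (nat_lit 0) (XT.lf (nat_lit 0) (nat_lit 3063551342) (nat_lit 532) (nat_lit 6784173404) (nat_lit 76) (nat_lit 3722455535) (nat_lit 223) (nat_lit 5) (nat_lit 230) (nat_lit 5) (nat_lit 224) (nat_lit 5) (nat_lit 461) (nat_lit 413) (nat_lit 326)) (XT.lf (nat_lit 0) (nat_lit 5884404033) (nat_lit 532) (nat_lit 2006496090) (nat_lit 608) (nat_lit 5911930538) (nat_lit 216) (nat_lit 5) (nat_lit 223) (nat_lit 5) (nat_lit 224) (nat_lit 5) (nat_lit 462) (nat_lit 413) (nat_lit 325)))) (XT.nd (nat_lit 78) (nat_lit 988) (nat_lit 0) (XT.lf (nat_lit 0) (nat_lit 4960791020) (nat_lit 456) (nat_lit 7985672448) (nat_lit 532) (nat_lit 1094331307) (nat_lit 210) (nat_lit 5) (nat_lit 216) (nat_lit 5) (nat_lit 217) (nat_lit 5) (nat_lit 463)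 (nat_lit 413) (nat_lit 324)) (XT.nd (nat_lit 78) (nat_lit 456) (nat_lit 0) (XT.lf (nat_lit 0) (nat_lit 3877434898) (nat_lit 532) (nat_lit 10269962739) (nat_lit 76) (nat_lit 136792613) (nat_lit 203) (nat_lit 5) (nat_lit 210) (nat_lit 5) (nat_lit 204) (nat_lit 5) (nat_lit 464) (nat_lit 413) (nat_lit 323)) (XT.lf (nat_lit 0) (nat_lit 3022058266) (nat_lit 456) (nat_lit 6063027045) (nat_lit 532) (nat_lit 5447627575) (nat_lit 197) (nat_lit 5) (nat_lit 203) (nat_lit 5) (nat_lit 204) (nat_lit 5) (nat_lit 465) (nat_lit 413) (nat_lit 322))))) (XT.nd (nat_lit 234) (nat_lit 1748) (nat_lit 0) (XT.nd (nat_lit 78) (nat_lit 456) (nat_lit 0) (XT.lf (nat_lit 0) (nat_lit 2029433239) (nat_lit 456) (nat_lit 12484582341) (nat_lit 532) (nat_lit 273376501) (nat_lit 191) (nat_lit 5) (nat_lit 197) (nat_lit 5) (nat_lit 198) (nat_lit 5) (nat_lit 466) (nat_lit 413) (nat_lit 321)) (XT.nd (nat_lit 78) (nat_lit 0) (nat_lit 0) (XT.lf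 (nat_lit 0) (nat_lit 976252158) (nat_lit 380) (nat_lit 4106496103) (nat_lit 456) (nat_lit 9964449477) (nat_lit 185) (nat_lit 5) (nat_lit 190) (nat_lit 5) (nat_lit 191) (nat_lit 5) (nat_lit 467) (nat_lit 413) (nat_lit 320)) (XT.lf (nat_lit 0) (nat_lit 10680351922) (nat_lit 456) (nat_lit 95269358) (nat_lit 76) (nat_lit 4537451704) (nat_lit 185) (nat_lit 5) (nat_lit 191) (nat_lit 5) (nat_lit 186) (nat_lit 5) (nat_lit 468) (nat_lit 413) (nat_lit 319)))) (XT.nd (nat_lit 156) (nat_lit 836) (nat_lit 0) (XT.nd (nat_lit 78) (nat_lit 380) (nat_lit 0) (XT.lf (nat_lit 0) (nat_lit 938369967) (nat_lit 532) (nat_lit 1176197750) (nat_lit 76) (nat_lit 13470433368) (nat_lit 178) (nat_lit 5) (nat_lit 185) (nat_lit 5) (nat_lit 179) (nat_lit 5) (nat_lit 469) (nat_lit 413) (nat_lit 318)) (XT.lf (nat_lit 0) (nat_lit 6717185585) (nat_lit 456) (nat_lit 2322598954) (nat_lit 76) (nat_lit 6822621009) (nat_lit 173) (nat_lit 5)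 (nat_lit 179) (nat_lit 5) (nat_lit 174) (nat_lit 5) (nat_lit 470) (nat_lit 413) (nat_lit 317))) (XT.nd (nat_lit 78) (nat_lit 456) (nat_lit 0) (XT.lf (nat_lit 0) (nat_lit 12671828177) (nat_lit 380) (nat_lit 71906420) (nat_lit 456) (nat_lit 3402911732) (nat_lit 168) (nat_lit 5) (nat_lit 173) (nat_lit 5) (nat_lit 174) (nat_lit 5) (nat_lit 471) (nat_lit 413) (nat_lit 316)) (XT.lf (nat_lit 0) (nat_lit 2601636860) (nat_lit 456) (nat_lit 4696051293) (nat_lit 76) (nat_lit 9138943283) (nat_lit 162) (nat_lit 5) (nat_lit 168) (nat_lit 5) (nat_lit 163) (nat_lit 5) (nat_lit 472) (nat_lit 413) (nat_lit 315))))))))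
noncomputable def xc62 : XT := (XT.nd (nat_lit 58188) (nat_lit 0) (nat_lit 23104) (XT.nd (nat_lit 936) (nat_lit 2508) (nat_lit 0) (XT.nd (nat_lit 468) (nat_lit 1672) (nat_lit 0) (XT.nd (nat_lit 234) (nat_lit 1064) (nat_lit 0) (XT.nd (nat_lit 78) (nat_lit 836) (nat_lit 0) (XT.lf (nat_lit 0) (nat_lit 8818380595) (nat_lit 456) (nat_lit 5948107231) (nat_lit 76) (nat_lit 1966814032) (nat_lit 157) (nat_lit 5) (nat_lit 163) (nat_lit 5) (nat_lit 158) (nat_lit 5) (nat_lit 473) (nat_lit 413) (nat_lit 314)) (XT.nd (nat_lit 78) (nat_lit 456) (nat_lit 0) (XT.lf (nat_lit 0) (nat_lit 9791588894) (nat_lit 380) (nat_lit 5545702809) (nat_lit 456) (nat_lit 1699268791) (nat_lit 152) (nat_lit 5) (nat_lit 157) (nat_lit 5) (nat_lit 158) (nat_lit 5) (nat_lit 474) (nat_lit 413) (nat_lit 313)) (XT.lf (nat_lit 0) (nat_lit 4736752684) (nat_lit 456) (nat_lit 8596625525) (nat_lit 76) (nat_lit 4013017772) (nat_lit 146) (nat_lit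 5) (nat_lit 152) (nat_lit 5) (nat_lit 147) (nat_lit 5) (nat_lit 475) (nat_lit 413) (nat_lit 312)))) (XT.nd (nat_lit 78) (nat_lit 760) (nat_lit 0) (XT.lf (nat_lit 0) (nat_lit 7666628252) (nat_lit 304) (nat_lit 3784614206) (nat_lit 380) (nat_lit 6211891248) (nat_lit 142) (nat_lit 5) (nat_lit 146) (nat_lit 5) (nat_lit 147) (nat_lit 5) (nat_lit 476) (nat_lit 413) (nat_lit 311)) (XT.nd (nat_lit 78) (nat_lit 304) (nat_lit 0) (XT.lf (nat_lit 0) (nat_lit 486521251) (nat_lit 456) (nat_lit 11440700335) (nat_lit 76) (nat_lit 6059830498) (nat_lit 136) (nat_lit 5) (nat_lit 142) (nat_lit 5) (nat_lit 137) (nat_lit 5) (nat_lit 477) (nat_lit 413) (nat_lit 310)) (XT.lf (nat_lit 0) (nat_lit 5362519571) (nat_lit 304) (nat_lit 2040595904) (nat_lit 380) (nat_lit 10914720035) (nat_lit 132) (nat_lit 5) (nat_lit 136) (nat_lit 5) (nat_lit 137) (nat_lit 5) (nat_lit 478) (nat_lit 413) (nat_lit 309))))) (XT.nd (nat_lit 234) (nat_lit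 684) (nat_lit 0) (XT.nd (nat_lit 78) (nat_lit 684) (nat_lit 0) (XT.lf (nat_lit 0) (nat_lit 4126961321) (nat_lit 304) (nat_lit 10531185432) (nat_lit 380) (nat_lit 3997778064) (nat_lit 128) (nat_lit 5) (nat_lit 132) (nat_lit 5) (nat_lit 133) (nat_lit 5) (nat_lit 479) (nat_lit 413) (nat_lit 308)) (XT.nd (nat_lit 78) (nat_lit 304) (nat_lit 0) (XT.lf (nat_lit 0) (nat_lit 2856697135) (nat_lit 304) (nat_lit 323098846) (nat_lit 380) (nat_lit 15822073307) (nat_lit 123) (nat_lit 5) (nat_lit 127) (nat_lit 5) (nat_lit 128) (nat_lit 5) (nat_lit 480) (nat_lit 413) (nat_lit 307)) (XT.lf (nat_lit 0) (nat_lit 1489965597) (nat_lit 304) (nat_lit 9177630630) (nat_lit 380) (nat_lit 8687084175) (nat_lit 119) (nat_lit 5) (nat_lit 123) (nat_lit 5) (nat_lit 124) (nat_lit 5) (nat_lit 481) (nat_lit 413) (nat_lit 306)))) (XT.nd (nat_lit 78) (nat_lit 380) (nat_lit 0) (XT.lf (nat_lit 0) (nat_lit 107243959) (nat_lit 304) (nat_lit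 18368339817) (nat_lit 380) (nat_lit 1240582050) (nat_lit 115) (nat_lit 5) (nat_lit 119) (nat_lit 5) (nat_lit 120) (nat_lit 5) (nat_lit 482) (nat_lit 413) (nat_lit 305)) (XT.nd (nat_lit 78) (nat_lit 304) (nat_lit 0) (XT.lf (nat_lit 0) (nat_lit 6502873308) (nat_lit 380) (nat_lit 1369064149) (nat_lit 76) (nat_lit 12212566887) (nat_lit 114) (nat_lit 5) (nat_lit 119) (nat_lit 5) (nat_lit 115) (nat_lit 5) (nat_lit 483) (nat_lit 413) (nat_lit 304)) (XT.lf (nat_lit 0) (nat_lit 14571319111) (nat_lit 380) (nat_lit 2881952755) (nat_lit 76) (nat_lit 3008267282) (nat_lit 110) (nat_lit 5) (nat_lit 115) (nat_lit 5) (nat_lit 111) (nat_lit 5) (nat_lit 484) (nat_lit 413) (nat_lit 303)))))) (XT.nd (nat_lit 468) (nat_lit 760) (nat_lit 0) (XT.nd (nat_lit 234) (nat_lit 912) (nat_lit 0) (XT.nd (nat_lit 78) (nat_lit 532) (nat_lit 0) (XT.lf (nat_lit 0) (nat_lit 2150355919) (nat_lit 304) (nat_lit 4473656748) (nat_lit 76) (nat_lit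 14222707960) (nat_lit 106) (nat_lit 5) (nat_lit 110) (nat_lit 5) (nat_lit 107) (nat_lit 5) (nat_lit 485) (nat_lit 413) (nat_lit 302)) (XT.nd (nat_lit 78) (nat_lit 228) (nat_lit 0) (XT.lf (nat_lit 0) (nat_lit 10476789334) (nat_lit 380) (nat_lit 6150364203) (nat_lit 76) (nat_lit 4613032913) (nat_lit 102) (nat_lit 5) (nat_lit 107) (nat_lit 5) (nat_lit 103) (nat_lit 5) (nat_lit 486) (nat_lit 413) (nat_lit 301)) (XT.lf (nat_lit 0) (nat_lit 13752618002) (nat_lit 228) (nat_lit 5440868282) (nat_lit 304) (nat_lit 2449161420) (nat_lit 99) (nat_lit 5) (nat_lit 102) (nat_lit 5) (nat_lit 103) (nat_lit 5) (nat_lit 487) (nat_lit 413) (nat_lit 300)))) (XT.nd (nat_lit 78) (nat_lit 532) (nat_lit 0) (XT.lf (nat_lit 0) (nat_lit 6173626215) (nat_lit 380) (nat_lit 9731672171) (nat_lit 76) (nat_lit 6148304891) (nat_lit 94) (nat_lit 5) (nat_lit 99) (nat_lit 5) (nat_lit 95) (nat_lit 5) (nat_lit 488) (nat_lit 413) (nat_lit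 299)) (XT.nd (nat_lit 78) (nat_lit 304) (nat_lit 0) (XT.lf (nat_lit 0) (nat_lit 10822024076) (nat_lit 228) (nat_lit 4337427060) (nat_lit 304) (nat_lit 7314360841) (nat_lit 91) (nat_lit 5) (nat_lit 94) (nat_lit 5) (nat_lit 95) (nat_lit 5) (nat_lit 489) (nat_lit 413) (nat_lit 298)) (XT.lf (nat_lit 0) (nat_lit 1642398030) (nat_lit 304) (nat_lit 13661357967) (nat_lit 76) (nat_lit 7599596758) (nat_lit 87) (nat_lit 5) (nat_lit 91) (nat_lit 5) (nat_lit 88) (nat_lit 5) (nat_lit 490) (nat_lit 413) (nat_lit 297))))) (XT.nd (nat_lit 56472) (nat_lit 0) (nat_lit 42180) (XT.nd (nat_lit 78) (nat_lit 532) (nat_lit 0) (XT.lf (nat_lit 0) (nat_lit 7559985549) (nat_lit 228) (nat_lit 3344187681) (nat_lit 304) (nat_lit 12437926566) (nat_lit 84) (nat_lit 5) (nat_lit 87) (nat_lit 5) (nat_lit 88) (nat_lit 5) (nat_lit 491) (nat_lit 413) (nat_lit 296)) (XT.nd (nat_lit 78) (nat_lit 304) (nat_lit 0) (XT.lf (nat_lit 0) (nat_lit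 5791573525) (nat_lit 228) (nat_lit 14819138498) (nat_lit 304) (nat_lit 3179959737) (nat_lit 81) (nat_lit 5) (nat_lit 84) (nat_lit 5) (nat_lit 85) (nat_lit 5) (nat_lit 492) (nat_lit 413) (nat_lit 295)) (XT.lf (nat_lit 0) (nat_lit 3927119792) (nat_lit 228) (nat_lit 2478894102) (nat_lit 304) (nat_lit 17843189866) (nat_lit 77) (nat_lit 5) (nat_lit 80) (nat_lit 5) (nat_lit 81) (nat_lit 5) (nat_lit 493) (nat_lit 413) (nat_lit 294)))) (XT.nd (nat_lit 156) (nat_lit 1216) (nat_lit 0) (XT.nd (nat_lit 78) (nat_lit 0) (nat_lit 0) (XT.lf (nat_lit 0) (nat_lit 1203939547) (nat_lit 0) (nat_lit 1203939547) (nat_lit 1140) (nat_lit 1228751042) (nat_lit 648) (nat_lit 5) (nat_lit 648) (nat_lit 3) (nat_lit 663) (nat_lit 3) (nat_lit 414) (nat_lit 414) (nat_lit 372)) (XT.lf (nat_lit 76) (nat_lit 544598120) (nat_lit 0) (nat_lit 6728668194) (nat_lit 1216) (nat_lit 61104924) (nat_lit 649) (nat_lit 5) (nat_lit 648) (nat_lit 5)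 (nat_lit 664) (nat_lit 5) (nat_lit 415) (nat_lit 414) (nat_lit 371))) (XT.nd (nat_lit 78) (nat_lit 0) (nat_lit 0) (XT.lf (nat_lit 0) (nat_lit 2331462048) (nat_lit 1216) (nat_lit 1295596379) (nat_lit 1292) (nat_lit 3770838362) (nat_lit 632) (nat_lit 5) (nat_lit 648) (nat_lit 5) (nat_lit 649) (nat_lit 5) (nat_lit 416) (nat_lit 414) (nat_lit 370)) (XT.lf (nat_lit 76) (nat_lit 4371332489) (nat_lit 0) (nat_lit 361309583) (nat_lit 1292) (nat_lit 2731935126) (nat_lit 633) (nat_lit 5) (nat_lit 632) (nat_lit 5) (nat_lit 649) (nat_lit 5) (nat_lit 417) (nat_lit 414) (nat_lit 369))))))) (XT.nd (nat_lit 936) (nat_lit 13984) (nat_lit 0) (XT.nd (nat_lit 468) (nat_lit 2660) (nat_lit 0) (XT.nd (nat_lit 234) (nat_lit 1216) (nat_lit 0) (XT.nd (nat_lit 78) (nat_lit 1292) (nat_lit 0) (XT.lf (nat_lit 76) (nat_lit 2657989943) (nat_lit 0) (nat_lit 4505326373) (nat_lit 1292) (nat_lit 370802717) (nat_lit 634) (nat_lit 5) (nat_lit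 633) (nat_lit 5) (nat_lit 650) (nat_lit 5) (nat_lit 418) (nat_lit 414) (nat_lit 368)) (XT.nd (nat_lit 78) (nat_lit 0) (nat_lit 76) (XT.lf (nat_lit 76) (nat_lit 964908949) (nat_lit 0) (nat_lit 1012540550) (nat_lit 1368) (nat_lit 5629173305) (nat_lit 617) (nat_lit 5) (nat_lit 616) (nat_lit 5) (nat_lit 634) (nat_lit 5) (nat_lit 419) (nat_lit 414) (nat_lit 367)) (XT.lf (nat_lit 0) (nat_lit 4357141923) (nat_lit 1292) (nat_lit 703880953) (nat_lit 1368) (nat_lit 2620918601) (nat_lit 617) (nat_lit 5) (nat_lit 634) (nat_lit 5) (nat_lit 635) (nat_lit 5) (nat_lit 420) (nat_lit 414) (nat_lit 366)))) (XT.nd (nat_lit 78) (nat_lit 1292) (nat_lit 0) (XT.lf (nat_lit 76) (nat_lit 5426306697) (nat_lit 0) (nat_lit 1342325709) (nat_lit 1368) (nat_lit 991688298) (nat_lit 618) (nat_lit 5) (nat_lit 617) (nat_lit 5) (nat_lit 635) (nat_lit 5) (nat_lit 421) (nat_lit 414) (nat_lit 365)) (XT.nd (nat_lit 78) (nat_lit 0) (nat_lit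 0) (XT.lf (nat_lit 0) (nat_lit 1359563255) (nat_lit 1368) (nat_lit 3957875765) (nat_lit 1444) (nat_lit 2524104554) (nat_lit 600) (nat_lit 5) (nat_lit 618) (nat_lit 5) (nat_lit 619) (nat_lit 5) (nat_lit 422) (nat_lit 414) (nat_lit 364)) (XT.lf (nat_lit 76) (nat_lit 2358793371) (nat_lit 0) (nat_lit 1371495156) (nat_lit 1444) (nat_lit 4195543762) (nat_lit 601) (nat_lit 5) (nat_lit 600) (nat_lit 5) (nat_lit 619) (nat_lit 5) (nat_lit 423) (nat_lit 414) (nat_lit 363))))) (XT.nd (nat_lit 234) (nat_lit 1292) (nat_lit 0) (XT.nd (nat_lit 78) (nat_lit 1444) (nat_lit 0) (XT.lf (nat_lit 76) (nat_lit 848259773) (nat_lit 0) (nat_lit 5298089639) (nat_lit 1444) (nat_lit 1866824178) (nat_lit 602) (nat_lit 5) (nat_lit 601) (nat_lit 5) (nat_lit 620) (nat_lit 5) (nat_lit 424) (nat_lit 414) (nat_lit 362)) (XT.nd (nat_lit 78) (nat_lit 0) (nat_lit 76) (XT.lf (nat_lit 0) (nat_lit 497530033) (nat_lit 1444) (nat_lit 635413435)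 (nat_lit 1520) (nat_lit 6970675477) (nat_lit 582) (nat_lit 5) (nat_lit 601) (nat_lit 5) (nat_lit 602) (nat_lit 5) (nat_lit 425) (nat_lit 414) (nat_lit 361)) (XT.lf (nat_lit 0) (nat_lit 2895996391) (nat_lit 1444) (nat_lit 2111444126) (nat_lit 1520) (nat_lit 3189327041) (nat_lit 583) (nat_lit 5) (nat_lit 602) (nat_lit 5) (nat_lit 603) (nat_lit 5) (nat_lit 426) (nat_lit 414) (nat_lit 360)))) (XT.nd (nat_lit 78) (nat_lit 1368) (nat_lit 0) (XT.lf (nat_lit 76) (nat_lit 4726563273) (nat_lit 0) (nat_lit 612132288) (nat_lit 1520) (nat_lit 2954576850) (nat_lit 584) (nat_lit 5) (nat_lit 583) (nat_lit 5) (nat_lit 603) (nat_lit 5) (nat_lit 427) (nat_lit 414) (nat_lit 359)) (XT.nd (nat_lit 78) (nat_lit 1444) (nat_lit 0) (XT.lf (nat_lit 76) (nat_lit 3372711039) (nat_lit 0) (nat_lit 4475198861) (nat_lit 1520) (nat_lit 544904970) (nat_lit 585) (nat_lit 5) (nat_lit 584) (nat_lit 5) (nat_lit 604) (nat_lit 5) (nat_lit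 428) (nat_lit 414) (nat_lit 358)) (XT.lf (nat_lit 0) (nat_lit 1886939967) (nat_lit 1520) (nat_lit 6464755025) (nat_lit 76) (nat_lit 143898123) (nat_lit 565) (nat_lit 5) (nat_lit 585) (nat_lit 5) (nat_lit 566) (nat_lit 5) (nat_lit 429) (nat_lit 414) (nat_lit 357)))))) (XT.nd (nat_lit 468) (nat_lit 5548) (nat_lit 0) (XT.nd (nat_lit 234) (nat_lit 5244) (nat_lit 0) (XT.nd (nat_lit 78) (nat_lit 1672) (nat_lit 0) (XT.lf (nat_lit 0) (nat_lit 683565842) (nat_lit 1520) (nat_lit 3703866494) (nat_lit 1596) (nat_lit 4213895031) (nat_lit 545) (nat_lit 5) (nat_lit 565) (nat_lit 5) (nat_lit 566) (nat_lit 5) (nat_lit 430) (nat_lit 414) (nat_lit 356)) (XT.nd (nat_lit 78) (nat_lit 1672) (nat_lit 0) (XT.lf (nat_lit 0) (nat_lit 6950164712) (nat_lit 1596) (nat_lit 635213492) (nat_lit 76) (nat_lit 1125117349) (nat_lit 545) (nat_lit 5) (nat_lit 566) (nat_lit 5) (nat_lit 546) (nat_lit 5) (nat_lit 431) (nat_lit 414) (nat_lit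 355)) (XT.lf (nat_lit 0) (nat_lit 764216371) (nat_lit 1672) (nat_lit 1948362495) (nat_lit 76) (nat_lit 6110117775) (nat_lit 523) (nat_lit 5) (nat_lit 545) (nat_lit 5) (nat_lit 524) (nat_lit 5) (nat_lit 432) (nat_lit 414) (nat_lit 354)))) (XT.nd (nat_lit 78) (nat_lit 3572) (nat_lit 0) (XT.lf (nat_lit 0) (nat_lit 3336411333) (nat_lit 1748) (nat_lit 3263074320) (nat_lit 76) (nat_lit 2338634771) (nat_lit 501) (nat_lit 5) (nat_lit 524) (nat_lit 5) (nat_lit 502) (nat_lit 5) (nat_lit 433) (nat_lit 414) (nat_lit 353)) (XT.nd (nat_lit 78) (nat_lit 1824) (nat_lit 0) (XT.lf (nat_lit 0) (nat_lit 4485491585) (nat_lit 1748) (nat_lit 1501359018) (nat_lit 1824) (nat_lit 3070140497) (nat_lit 478) (nat_lit 5) (nat_lit 501) (nat_lit 5) (nat_lit 502) (nat_lit 5) (nat_lit 434) (nat_lit 414) (nat_lit 352)) (XT.lf (nat_lit 0) (nat_lit 3298404986) (nat_lit 1824) (nat_lit 5428385072) (nat_lit 1900) (nat_lit 452443684) (nat_lit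 454) (nat_lit 5) (nat_lit 478) (nat_lit 5) (nat_lit 479) (nat_lit 5) (nat_lit 435) (nat_lit 414) (nat_lit 351))))) (XT.nd (nat_lit 234) (nat_lit 3496) (nat_lit 0) (XT.nd (nat_lit 78) (nat_lit 912) (nat_lit 0) (XT.lf (nat_lit 0) (nat_lit 2112887952) (nat_lit 1064) (nat_lit 99351814) (nat_lit 1140) (nat_lit 7092660180) (nat_lit 439) (nat_lit 5) (nat_lit 453) (nat_lit 5) (nat_lit 454) (nat_lit 5) (nat_lit 436) (nat_lit 414) (nat_lit 350)) (XT.nd (nat_lit 78) (nat_lit 0) (nat_lit 0) (XT.lf (nat_lit 0) (nat_lit 914321456) (nat_lit 912) (nat_lit 4061768809) (nat_lit 988) (nat_lit 4457683748) (nat_lit 427) (nat_lit 5) (nat_lit 439) (nat_lit 5) (nat_lit 440) (nat_lit 5) (nat_lit 437) (nat_lit 414) (nat_lit 349)) (XT.lf (nat_lit 0) (nat_lit 7827518629) (nat_lit 988) (nat_lit 266595603) (nat_lit 76) (nat_lit 1472311831) (nat_lit 427) (nat_lit 5) (nat_lit 440) (nat_lit 5) (nat_lit 428) (nat_lit 5) (nat_lit 438)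 (nat_lit 414) (nat_lit 348)))) (XT.nd (nat_lit 156) (nat_lit 1672) (nat_lit 0) (XT.nd (nat_lit 78) (nat_lit 836) (nat_lit 0) (XT.lf (nat_lit 0) (nat_lit 1075689034) (nat_lit 988) (nat_lit 1445988976) (nat_lit 76) (nat_lit 7180683049) (nat_lit 414) (nat_lit 5) (nat_lit 427) (nat_lit 5) (nat_lit 415) (nat_lit 5) (nat_lit 439) (nat_lit 414) (nat_lit 347)) (XT.lf (nat_lit 0) (nat_lit 3969323282) (nat_lit 912) (nat_lit 2635341391) (nat_lit 76) (nat_lit 3237119681) (nat_lit 403) (nat_lit 5) (nat_lit 415) (nat_lit 5) (nat_lit 404) (nat_lit 5) (nat_lit 440) (nat_lit 414) (nat_lit 346))) (XT.nd (nat_lit 78) (nat_lit 836) (nat_lit 0) (XT.lf (nat_lit 0) (nat_lit 6165458012) (nat_lit 836) (nat_lit 800297637) (nat_lit 912) (nat_lit 3019319411) (nat_lit 392) (nat_lit 5) (nat_lit 403) (nat_lit 5) (nat_lit 404) (nat_lit 5) (nat_lit 441) (nat_lit 414) (nat_lit 345)) (XT.lf (nat_lit 0) (nat_lit 5115727183) (nat_lit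 836) (nat_lit 4971539559) (nat_lit 912) (nat_lit 44698393) (nat_lit 381) (nat_lit 5) (nat_lit 392) (nat_lit 5) (nat_lit 393) (nat_lit 5) (nat_lit 442) (nat_lit 414) (nat_lit 344))))))))
noncomputable def xc63 : XT := (XT.nd (nat_lit 1950) (nat_lit 8284) (nat_lit 0) (XT.nd (nat_lit 936) (nat_lit 6536) (nat_lit 0) (XT.nd (nat_lit 468) (nat_lit 4028) (nat_lit 0) (XT.nd (nat_lit 234) (nat_lit 1520) (nat_lit 0) (XT.nd (nat_lit 78) (nat_lit 1520) (nat_lit 0) (XT.lf (nat_lit 0) (nat_lit 2995521855) (nat_lit 912) (nat_lit 6224312666) (nat_lit 76) (nat_lit 1062720347) (nat_lit 369) (nat_lit 5) (nat_lit 381) (nat_lit 5) (nat_lit 370) (nat_lit 5) (nat_lit 443) (nat_lit 414) (nat_lit 343)) (XT.nd (nat_lit 78) (nat_lit 760) (nat_lit 0) (XT.lf (nat_lit 0) (nat_lit 2990492944) (nat_lit 760) (nat_lit 3174970905) (nat_lit 836) (nat_lit 4271414120) (nat_lit 359) (nat_lit 5) (nat_lit 369) (nat_lit 5) (nat_lit 370) (nat_lit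 5) (nat_lit 444) (nat_lit 414) (nat_lit 342)) (XT.lf (nat_lit 0) (nat_lit 1925448660) (nat_lit 760) (nat_lit 7533098907) (nat_lit 836) (nat_lit 1136726243) (nat_lit 349) (nat_lit 5) (nat_lit 359) (nat_lit 5) (nat_lit 360) (nat_lit 5) (nat_lit 445) (nat_lit 414) (nat_lit 341)))) (XT.nd (nat_lit 78) (nat_lit 760) (nat_lit 0) (XT.lf (nat_lit 0) (nat_lit 847472147) (nat_lit 684) (nat_lit 1248619976) (nat_lit 760) (nat_lit 8661430937) (nat_lit 339) (nat_lit 5) (nat_lit 348) (nat_lit 5) (nat_lit 349) (nat_lit 5) (nat_lit 446) (nat_lit 414) (nat_lit 340)) (XT.nd (nat_lit 78) (nat_lit 760) (nat_lit 0) (XT.lf (nat_lit 0) (nat_lit 5458571762) (nat_lit 760) (nat_lit 247891505) (nat_lit 76) (nat_lit 5217067457) (nat_lit 339) (nat_lit 5) (nat_lit 349) (nat_lit 5) (nat_lit 340) (nat_lit 5) (nat_lit 447) (nat_lit 414) (nat_lit 339)) (XT.lf (nat_lit 0) (nat_lit 8955369893) (nat_lit 836) (nat_lit 1325318303) (nat_lit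 76) (nat_lit 813165050) (nat_lit 329) (nat_lit 5) (nat_lit 340) (nat_lit 5) (nat_lit 330) (nat_lit 5) (nat_lit 448) (nat_lit 414) (nat_lit 338))))) (XT.nd (nat_lit 234) (nat_lit 1976) (nat_lit 0) (XT.nd (nat_lit 78) (nat_lit 1292) (nat_lit 0) (XT.lf (nat_lit 0) (nat_lit 1325748172) (nat_lit 760) (nat_lit 2429446804) (nat_lit 76) (nat_lit 7512829567) (nat_lit 319) (nat_lit 5) (nat_lit 329) (nat_lit 5) (nat_lit 320) (nat_lit 5) (nat_lit 449) (nat_lit 414) (nat_lit 337)) (XT.nd (nat_lit 78) (nat_lit 608) (nat_lit 0) (XT.lf (nat_lit 0) (nat_lit 4903015793) (nat_lit 760) (nat_lit 3548436554) (nat_lit 76) (nat_lit 2994925912) (nat_lit 310) (nat_lit 5) (nat_lit 320) (nat_lit 5) (nat_lit 311) (nat_lit 5) (nat_lit 450) (nat_lit 414) (nat_lit 336)) (XT.lf (nat_lit 0) (nat_lit 6954938257) (nat_lit 608) (nat_lit 1678208157) (nat_lit 684) (nat_lit 2996028426) (nat_lit 302) (nat_lit 5) (nat_lit 310) (nat_lit 5)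 (nat_lit 311) (nat_lit 5) (nat_lit 451) (nat_lit 414) (nat_lit 335)))) (XT.nd (nat_lit 78) (nat_lit 1216) (nat_lit 0) (XT.lf (nat_lit 0) (nat_lit 706565985) (nat_lit 760) (nat_lit 5821486380) (nat_lit 76) (nat_lit 5288171214) (nat_lit 292) (nat_lit 5) (nat_lit 302) (nat_lit 5) (nat_lit 293) (nat_lit 5) (nat_lit 452) (nat_lit 414) (nat_lit 334)) (XT.nd (nat_lit 78) (nat_lit 608) (nat_lit 0) (XT.lf (nat_lit 0) (nat_lit 4518930691) (nat_lit 684) (nat_lit 6986517285) (nat_lit 76) (nat_lit 502254707) (nat_lit 284) (nat_lit 5) (nat_lit 293) (nat_lit 5) (nat_lit 285) (nat_lit 5) (nat_lit 453) (nat_lit 414) (nat_lit 333)) (XT.lf (nat_lit 0) (nat_lit 4024241693) (nat_lit 608) (nat_lit 4491832742) (nat_lit 684) (nat_lit 3687446390) (nat_lit 276) (nat_lit 5) (nat_lit 284) (nat_lit 5) (nat_lit 285) (nat_lit 5) (nat_lit 454) (nat_lit 414) (nat_lit 332)))))) (XT.nd (nat_lit 468) (nat_lit 3572) (nat_lit 0) (XT.nd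 (nat_lit 234) (nat_lit 1140) (nat_lit 0) (XT.nd (nat_lit 78) (nat_lit 1140) (nat_lit 0) (XT.lf (nat_lit 0) (nat_lit 271971013) (nat_lit 684) (nat_lit 9376913141) (nat_lit 76) (nat_lit 2755361626) (nat_lit 267) (nat_lit 5) (nat_lit 276) (nat_lit 5) (nat_lit 268) (nat_lit 5) (nat_lit 455) (nat_lit 414) (nat_lit 331)) (XT.nd (nat_lit 78) (nat_lit 532) (nat_lit 0) (XT.lf (nat_lit 0) (nat_lit 1994396212) (nat_lit 608) (nat_lit 2366965095) (nat_lit 684) (nat_lit 8247920547) (nat_lit 259) (nat_lit 5) (nat_lit 267) (nat_lit 5) (nat_lit 268) (nat_lit 5) (nat_lit 456) (nat_lit 414) (nat_lit 330)) (XT.lf (nat_lit 0) (nat_lit 945864501) (nat_lit 532) (nat_lit 7693939334) (nat_lit 608) (nat_lit 4179340298) (nat_lit 252) (nat_lit 5) (nat_lit 259) (nat_lit 5) (nat_lit 260) (nat_lit 5) (nat_lit 457) (nat_lit 414) (nat_lit 329)))) (XT.nd (nat_lit 78) (nat_lit 1064) (nat_lit 0) (XT.lf (nat_lit 0) (nat_lit 62847467)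 (nat_lit 608) (nat_lit 99993063) (nat_lit 76) (nat_lit 12871428733) (nat_lit 251) (nat_lit 5) (nat_lit 259) (nat_lit 5) (nat_lit 252) (nat_lit 5) (nat_lit 458) (nat_lit 414) (nat_lit 328)) (XT.nd (nat_lit 78) (nat_lit 532) (nat_lit 0) (XT.lf (nat_lit 0) (nat_lit 4468936120) (nat_lit 608) (nat_lit 1194067570) (nat_lit 76) (nat_lit 7590425971) (nat_lit 244) (nat_lit 5) (nat_lit 252) (nat_lit 5) (nat_lit 245) (nat_lit 5) (nat_lit 459) (nat_lit 414) (nat_lit 327)) (XT.lf (nat_lit 0) (nat_lit 9060920585) (nat_lit 608) (nat_lit 2287741909) (nat_lit 76) (nat_lit 2129430389) (nat_lit 237) (nat_lit 5) (nat_lit 245) (nat_lit 5) (nat_lit 238) (nat_lit 5) (nat_lit 460) (nat_lit 414) (nat_lit 326))))) (XT.nd (nat_lit 234) (nat_lit 1976) (nat_lit 0) (XT.nd (nat_lit 78) (nat_lit 988) (nat_lit 0) (XT.lf (nat_lit 0) (nat_lit 159358651) (nat_lit 608) (nat_lit 3405225119) (nat_lit 76) (nat_lit 10143318767) (nat_lit 229)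 (nat_lit 5) (nat_lit 237) (nat_lit 5) (nat_lit 230) (nat_lit 5) (nat_lit 461) (nat_lit 414) (nat_lit 325)) (XT.nd (nat_lit 78) (nat_lit 532) (nat_lit 0) (XT.lf (nat_lit 0) (nat_lit 4886010587) (nat_lit 532) (nat_lit 4567623965) (nat_lit 76) (nat_lit 4488933338) (nat_lit 223) (nat_lit 5) (nat_lit 230) (nat_lit 5) (nat_lit 224) (nat_lit 5) (nat_lit 462) (nat_lit 414) (nat_lit 324)) (XT.lf (nat_lit 0) (nat_lit 8441747959) (nat_lit 532) (nat_lit 1381485235) (nat_lit 608) (nat_lit 4359666630) (nat_lit 216) (nat_lit 5) (nat_lit 223) (nat_lit 5) (nat_lit 224) (nat_lit 5) (nat_lit 463) (nat_lit 414) (nat_lit 323)))) (XT.nd (nat_lit 156) (nat_lit 988) (nat_lit 0) (XT.nd (nat_lit 78) (nat_lit 456) (nat_lit 0) (XT.lf (nat_lit 0) (nat_lit 564688246) (nat_lit 532) (nat_lit 6951426394) (nat_lit 76) (nat_lit 6912410368) (nat_lit 209) (nat_lit 5) (nat_lit 216) (nat_lit 5) (nat_lit 210) (nat_lit 5) (nat_lit 464) (nat_lit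 414) (nat_lit 322)) (XT.lf (nat_lit 0) (nat_lit 5641885336) (nat_lit 532) (nat_lit 8194889086) (nat_lit 76) (nat_lit 842883217) (nat_lit 203) (nat_lit 5) (nat_lit 210) (nat_lit 5) (nat_lit 204) (nat_lit 5) (nat_lit 465) (nat_lit 414) (nat_lit 321))) (XT.nd (nat_lit 78) (nat_lit 532) (nat_lit 0) (XT.lf (nat_lit 0) (nat_lit 5457228407) (nat_lit 456) (nat_lit 5515755248) (nat_lit 532) (nat_lit 3963310721) (nat_lit 197) (nat_lit 5) (nat_lit 203) (nat_lit 5) (nat_lit 204) (nat_lit 5) (nat_lit 466) (nat_lit 414) (nat_lit 320)) (XT.lf (nat_lit 0) (nat_lit 1320766139) (nat_lit 532) (nat_lit 10783847308) (nat_lit 76) (nat_lit 3094375437) (nat_lit 190) (nat_lit 5) (nat_lit 197) (nat_lit 5) (nat_lit 191) (nat_lit 5) (nat_lit 467) (nat_lit 414) (nat_lit 319))))))) (XT.nd (nat_lit 1014) (nat_lit 3572) (nat_lit 0) (XT.nd (nat_lit 468) (nat_lit 2584) (nat_lit 0) (XT.nd (nat_lit 234) (nat_lit 836) (nat_lit 0) (XT.nd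 (nat_lit 78) (nat_lit 912) (nat_lit 0) (XT.lf (nat_lit 0) (nat_lit 3322354397) (nat_lit 380) (nat_lit 3480006952) (nat_lit 456) (nat_lit 8664823784) (nat_lit 185) (nat_lit 5) (nat_lit 190) (nat_lit 5) (nat_lit 191) (nat_lit 5) (nat_lit 468) (nat_lit 414) (nat_lit 318)) (XT.nd (nat_lit 78) (nat_lit 456) (nat_lit 0) (XT.lf (nat_lit 0) (nat_lit 2205925776) (nat_lit 456) (nat_lit 10335370770) (nat_lit 532) (nat_lit 3200274524) (nat_lit 179) (nat_lit 5) (nat_lit 185) (nat_lit 5) (nat_lit 186) (nat_lit 5) (nat_lit 469) (nat_lit 414) (nat_lit 317)) (XT.lf (nat_lit 0) (nat_lit 1060736085) (nat_lit 380) (nat_lit 1418952040) (nat_lit 456) (nat_lit 13542520247) (nat_lit 173) (nat_lit 5) (nat_lit 178) (nat_lit 5) (nat_lit 179) (nat_lit 5) (nat_lit 470) (nat_lit 414) (nat_lit 316)))) (XT.nd (nat_lit 78) (nat_lit 836) (nat_lit 0) (XT.lf (nat_lit 0) (nat_lit 8400369506) (nat_lit 456) (nat_lit 145829502) (nat_lit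 76) (nat_lit 7762368248) (nat_lit 173) (nat_lit 5) (nat_lit 179) (nat_lit 5) (nat_lit 174) (nat_lit 5) (nat_lit 471) (nat_lit 414) (nat_lit 315)) (XT.nd (nat_lit 78) (nat_lit 456) (nat_lit 0) (XT.lf (nat_lit 0) (nat_lit 14583343379) (nat_lit 456) (nat_lit 1344364120) (nat_lit 76) (nat_lit 674117440) (nat_lit 168) (nat_lit 5) (nat_lit 174) (nat_lit 5) (nat_lit 169) (nat_lit 5) (nat_lit 472) (nat_lit 414) (nat_lit 314)) (XT.lf (nat_lit 0) (nat_lit 4118813905) (nat_lit 456) (nat_lit 2619766157) (nat_lit 76) (nat_lit 10162296516) (nat_lit 162) (nat_lit 5) (nat_lit 168) (nat_lit 5) (nat_lit 163) (nat_lit 5) (nat_lit 473) (nat_lit 414) (nat_lit 313))))) (XT.nd (nat_lit 234) (nat_lit 1368) (nat_lit 0) (XT.nd (nat_lit 78) (nat_lit 836) (nat_lit 0) (XT.lf (nat_lit 0) (nat_lit 10499303572) (nat_lit 456) (nat_lit 3922056232) (nat_lit 76) (nat_lit 2785544512) (nat_lit 157) (nat_lit 5) (nat_lit 163) (nat_lit 5)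 (nat_lit 158) (nat_lit 5) (nat_lit 474) (nat_lit 414) (nat_lit 312)) (XT.nd (nat_lit 78) (nat_lit 456) (nat_lit 0) (XT.lf (nat_lit 0) (nat_lit 12254065477) (nat_lit 380) (nat_lit 4932543822) (nat_lit 456) (nat_lit 333196881) (nat_lit 152) (nat_lit 5) (nat_lit 157) (nat_lit 5) (nat_lit 158) (nat_lit 5) (nat_lit 475) (nat_lit 414) (nat_lit 311)) (XT.lf (nat_lit 0) (nat_lit 6255625384) (nat_lit 456) (nat_lit 6680199793) (nat_lit 76) (nat_lit 4903363363) (nat_lit 146) (nat_lit 5) (nat_lit 152) (nat_lit 5) (nat_lit 147) (nat_lit 5) (nat_lit 476) (nat_lit 414) (nat_lit 310)))) (XT.nd (nat_lit 156) (nat_lit 608) (nat_lit 0) (XT.nd (nat_lit 78) (nat_lit 456) (nat_lit 0) (XT.lf (nat_lit 0) (nat_lit 10035675766) (nat_lit 304) (nat_lit 3109662107) (nat_lit 380) (nat_lit 5020616625) (nat_lit 142) (nat_lit 5) (nat_lit 146) (nat_lit 5) (nat_lit 147) (nat_lit 5) (nat_lit 477) (nat_lit 414) (nat_lit 309)) (XT.lf (nat_lit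 0) (nat_lit 1839979082) (nat_lit 456) (nat_lit 9640126720) (nat_lit 76) (nat_lit 7019721533) (nat_lit 136) (nat_lit 5) (nat_lit 142) (nat_lit 5) (nat_lit 137) (nat_lit 5) (nat_lit 478) (nat_lit 414) (nat_lit 308))) (XT.nd (nat_lit 78) (nat_lit 304) (nat_lit 0) (XT.lf (nat_lit 0) (nat_lit 7632409262) (nat_lit 304) (nat_lit 1306359002) (nat_lit 380) (nat_lit 9902273777) (nat_lit 132) (nat_lit 5) (nat_lit 136) (nat_lit 5) (nat_lit 137) (nat_lit 5) (nat_lit 479) (nat_lit 414) (nat_lit 307)) (XT.lf (nat_lit 0) (nat_lit 6346388570) (nat_lit 304) (nat_lit 10045423240) (nat_lit 380) (nat_lit 2797856661) (nat_lit 128) (nat_lit 5) (nat_lit 132) (nat_lit 5) (nat_lit 133) (nat_lit 5) (nat_lit 480) (nat_lit 414) (nat_lit 306)))))) (XT.nd (nat_lit 468) (nat_lit 1900) (nat_lit 0) (XT.nd (nat_lit 234) (nat_lit 684) (nat_lit 0) (XT.nd (nat_lit 78) (nat_lit 608) (nat_lit 0) (XT.lf (nat_lit 0) (nat_lit 4556329916) (nat_lit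 380) (nat_lit 14528247101) (nat_lit 76) (nat_lit 461672553) (nat_lit 123) (nat_lit 5) (nat_lit 128) (nat_lit 5) (nat_lit 124) (nat_lit 5) (nat_lit 481) (nat_lit 414) (nat_lit 305)) (XT.nd (nat_lit 78) (nat_lit 304) (nat_lit 0) (XT.lf (nat_lit 0) (nat_lit 3599728356) (nat_lit 304) (nat_lit 8647226589) (nat_lit 380) (nat_lit 7663127800) (nat_lit 119) (nat_lit 5) (nat_lit 123) (nat_lit 5) (nat_lit 124) (nat_lit 5) (nat_lit 482) (nat_lit 414) (nat_lit 304)) (XT.lf (nat_lit 0) (nat_lit 2161703993) (nat_lit 304) (nat_lit 18109195601) (nat_lit 380) (nat_lit 11880288) (nat_lit 115) (nat_lit 5) (nat_lit 119) (nat_lit 5) (nat_lit 120) (nat_lit 5) (nat_lit 483) (nat_lit 414) (nat_lit 303)))) (XT.nd (nat_lit 78) (nat_lit 304) (nat_lit 0) (XT.lf (nat_lit 0) (nat_lit 605469276) (nat_lit 304) (nat_lit 7309349946) (nat_lit 380) (nat_lit 12747835511) (nat_lit 110) (nat_lit 5) (nat_lit 114) (nat_lit 5) (nat_lit 115)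 (nat_lit 5) (nat_lit 484) (nat_lit 414) (nat_lit 302)) (XT.nd (nat_lit 78) (nat_lit 304) (nat_lit 0) (XT.lf (nat_lit 0) (nat_lit 16203977472) (nat_lit 380) (nat_lit 974558739) (nat_lit 76) (nat_lit 3872892574) (nat_lit 110) (nat_lit 5) (nat_lit 115) (nat_lit 5) (nat_lit 111) (nat_lit 5) (nat_lit 485) (nat_lit 414) (nat_lit 301)) (XT.lf (nat_lit 0) (nat_lit 3396115149) (nat_lit 304) (nat_lit 2630619630) (nat_lit 76) (nat_lit 15421718556) (nat_lit 106) (nat_lit 5) (nat_lit 110) (nat_lit 5) (nat_lit 107) (nat_lit 5) (nat_lit 486) (nat_lit 414) (nat_lit 300))))) (XT.nd (nat_lit 234) (nat_lit 988) (nat_lit 0) (XT.nd (nat_lit 78) (nat_lit 608) (nat_lit 0) (XT.lf (nat_lit 0) (nat_lit 11955666850) (nat_lit 380) (nat_lit 4371575938) (nat_lit 76) (nat_lit 5526815121) (nat_lit 102) (nat_lit 5) (nat_lit 107) (nat_lit 5) (nat_lit 103) (nat_lit 5) (nat_lit 487) (nat_lit 414) (nat_lit 299)) (XT.nd (nat_lit 78) (nat_lit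 380) (nat_lit 0) (XT.lf (nat_lit 0) (nat_lit 16096643537) (nat_lit 228) (nat_lit 4815841780) (nat_lit 304) (nat_lit 1356536513) (nat_lit 99) (nat_lit 5) (nat_lit 102) (nat_lit 5) (nat_lit 103) (nat_lit 5) (nat_lit 488) (nat_lit 414) (nat_lit 298)) (XT.lf (nat_lit 0) (nat_lit 7493657071) (nat_lit 380) (nat_lit 8090891297) (nat_lit 76) (nat_lit 7107927145) (nat_lit 94) (nat_lit 5) (nat_lit 99) (nat_lit 5) (nat_lit 95) (nat_lit 5) (nat_lit 489) (nat_lit 414) (nat_lit 297)))) (XT.nd (nat_lit 156) (nat_lit 456) (nat_lit 0) (XT.nd (nat_lit 78) (nat_lit 304) (nat_lit 0) (XT.lf (nat_lit 0) (nat_lit 13048059572) (nat_lit 228) (nat_lit 3680289083) (nat_lit 304) (nat_lit 6397357128) (nat_lit 91) (nat_lit 5) (nat_lit 94) (nat_lit 5) (nat_lit 95) (nat_lit 5) (nat_lit 490) (nat_lit 414) (nat_lit 296)) (XT.lf (nat_lit 0) (nat_lit 2797865232) (nat_lit 304) (nat_lit 12169004359) (nat_lit 76) (nat_lit 8601423411) (nat_lit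 87) (nat_lit 5) (nat_lit 91) (nat_lit 5) (nat_lit 88) (nat_lit 5) (nat_lit 491) (nat_lit 414) (nat_lit 295))) (XT.nd (nat_lit 78) (nat_lit 228) (nat_lit 0) (XT.lf (nat_lit 0) (nat_lit 9658118619) (nat_lit 228) (nat_lit 2659305728) (nat_lit 304) (nat_lit 11703180555) (nat_lit 84) (nat_lit 5) (nat_lit 87) (nat_lit 5) (nat_lit 88) (nat_lit 5) (nat_lit 492) (nat_lit 414) (nat_lit 294)) (XT.lf (nat_lit 0) (nat_lit 7822683585) (nat_lit 228) (nat_lit 14477849815) (nat_lit 304) (nat_lit 2182394173) (nat_lit 81) (nat_lit 5) (nat_lit 84) (nat_lit 5) (nat_lit 85) (nat_lit 5) (nat_lit 493) (nat_lit 414) (nat_lit 293))))))))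
noncomputable def xc64 : XT := (XT.nd (nat_lit 58188) (nat_lit 0) (nat_lit 11096) (XT.nd (nat_lit 57174) (nat_lit 0) (nat_lit 26600) (XT.nd (nat_lit 56706) (nat_lit 0) (nat_lit 38380) (XT.nd (nat_lit 56472) (nat_lit 0) (nat_lit 40888) (XT.nd (nat_lit 56316) (nat_lit 0) (nat_lit 42104) (XT.lf (nat_lit 0) (nat_lit 5886297719) (nat_lit 228) (nat_lit 1771065477) (nat_lit 304) (nat_lit 17298100615) (nat_lit 77) (nat_lit 5) (nat_lit 80) (nat_lit 5) (nat_lit 81) (nat_lit 5) (nat_lit 494) (nat_lit 414) (nat_lit 292)) (XT.nd (nat_lit 78) (nat_lit 0) (nat_lit 0) (XT.lf (nat_lit 0) (nat_lit 1121774390) (nat_lit 1292) (nat_lit 1288214454) (nat_lit 1292) (nat_lit 1288214454) (nat_lit 631) (nat_lit 3) (nat_lit 648) (nat_lit 3) (nat_lit 648) (nat_lit 5) (nat_lit 415) (nat_lit 415) (nat_lit 370)) (XT.lf (nat_lit 76) (nat_lit 2944779001) (nat_lit 0) (nat_lit 1607928446) (nat_lit 1292) (nat_lit 2908874073) (nat_lit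 632) (nat_lit 5) (nat_lit 631) (nat_lit 3) (nat_lit 648) (nat_lit 5) (nat_lit 416) (nat_lit 415) (nat_lit 369)))) (XT.nd (nat_lit 78) (nat_lit 1292) (nat_lit 0) (XT.lf (nat_lit 76) (nat_lit 1094152624) (nat_lit 0) (nat_lit 5784629421) (nat_lit 1292) (nat_lit 650987012) (nat_lit 633) (nat_lit 5) (nat_lit 632) (nat_lit 5) (nat_lit 649) (nat_lit 5) (nat_lit 417) (nat_lit 415) (nat_lit 368)) (XT.nd (nat_lit 78) (nat_lit 0) (nat_lit 76) (XT.lf (nat_lit 0) (nat_lit 1607842094) (nat_lit 1292) (nat_lit 733909818) (nat_lit 1368) (nat_lit 5258939179) (nat_lit 615) (nat_lit 5) (nat_lit 632) (nat_lit 5) (nat_lit 633) (nat_lit 5) (nat_lit 418) (nat_lit 415) (nat_lit 367)) (XT.lf (nat_lit 0) (nat_lit 3883550080) (nat_lit 1292) (nat_lit 2527430984) (nat_lit 1368) (nat_lit 1263523907) (nat_lit 616) (nat_lit 5) (nat_lit 633) (nat_lit 5) (nat_lit 634) (nat_lit 5) (nat_lit 419) (nat_lit 415) (nat_lit 366))))) (XT.nd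 (nat_lit 234) (nat_lit 1292) (nat_lit 0) (XT.nd (nat_lit 78) (nat_lit 1292) (nat_lit 0) (XT.lf (nat_lit 76) (nat_lit 3445920587) (nat_lit 0) (nat_lit 2743149371) (nat_lit 1368) (nat_lit 1562241640) (nat_lit 617) (nat_lit 5) (nat_lit 616) (nat_lit 5) (nat_lit 634) (nat_lit 5) (nat_lit 420) (nat_lit 415) (nat_lit 365)) (XT.nd (nat_lit 78) (nat_lit 0) (nat_lit 0) (XT.lf (nat_lit 0) (nat_lit 679652481) (nat_lit 1368) (nat_lit 6065112671) (nat_lit 1444) (nat_lit 1086451999) (nat_lit 599) (nat_lit 5) (nat_lit 617) (nat_lit 5) (nat_lit 618) (nat_lit 5) (nat_lit 421) (nat_lit 415) (nat_lit 364)) (XT.lf (nat_lit 76) (nat_lit 88956996) (nat_lit 0) (nat_lit 2849290431) (nat_lit 1444) (nat_lit 4975660991) (nat_lit 600) (nat_lit 5) (nat_lit 599) (nat_lit 5) (nat_lit 618) (nat_lit 5) (nat_lit 422) (nat_lit 415) (nat_lit 363)))) (XT.nd (nat_lit 78) (nat_lit 1368) (nat_lit 0) (XT.lf (nat_lit 0) (nat_lit 5237911339)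 (nat_lit 1368) (nat_lit 1545287610) (nat_lit 1444) (nat_lit 1216423452) (nat_lit 600) (nat_lit 5) (nat_lit 618) (nat_lit 5) (nat_lit 619) (nat_lit 5) (nat_lit 423) (nat_lit 415) (nat_lit 362)) (XT.nd (nat_lit 78) (nat_lit 1368) (nat_lit 0) (XT.lf (nat_lit 76) (nat_lit 4919813868) (nat_lit 0) (nat_lit 2664339272) (nat_lit 1444) (nat_lit 504210866) (nat_lit 601) (nat_lit 5) (nat_lit 600) (nat_lit 5) (nat_lit 619) (nat_lit 5) (nat_lit 424) (nat_lit 415) (nat_lit 361)) (XT.lf (nat_lit 0) (nat_lit 1768407943) (nat_lit 1444) (nat_lit 4786400054) (nat_lit 1520) (nat_lit 1625305447) (nat_lit 582) (nat_lit 5) (nat_lit 601) (nat_lit 5) (nat_lit 602) (nat_lit 5) (nat_lit 425) (nat_lit 415) (nat_lit 360)))))) (XT.nd (nat_lit 468) (nat_lit 8968) (nat_lit 0) (XT.nd (nat_lit 234) (nat_lit 1368) (nat_lit 0) (XT.nd (nat_lit 78) (nat_lit 1444) (nat_lit 0) (XT.lf (nat_lit 76) (nat_lit 1875930136) (nat_lit 0) (nat_lit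 2207946941) (nat_lit 1520) (nat_lit 4191048550) (nat_lit 583) (nat_lit 5) (nat_lit 582) (nat_lit 5) (nat_lit 602) (nat_lit 5) (nat_lit 426) (nat_lit 415) (nat_lit 359)) (XT.nd (nat_lit 78) (nat_lit 1520) (nat_lit 0) (XT.lf (nat_lit 76) (nat_lit 371563401) (nat_lit 0) (nat_lit 6078770423) (nat_lit 1520) (nat_lit 1922625023) (nat_lit 584) (nat_lit 5) (nat_lit 583) (nat_lit 5) (nat_lit 603) (nat_lit 5) (nat_lit 427) (nat_lit 415) (nat_lit 358)) (XT.lf (nat_lit 0) (nat_lit 399786721) (nat_lit 1520) (nat_lit 1108136194) (nat_lit 1596) (nat_lit 6966135944) (nat_lit 563) (nat_lit 5) (nat_lit 583) (nat_lit 5) (nat_lit 584) (nat_lit 5) (nat_lit 428) (nat_lit 415) (nat_lit 357)))) (XT.nd (nat_lit 78) (nat_lit 1444) (nat_lit 0) (XT.lf (nat_lit 0) (nat_lit 2761043073) (nat_lit 1520) (nat_lit 2590514246) (nat_lit 1596) (nat_lit 3226481121) (nat_lit 564) (nat_lit 5) (nat_lit 584) (nat_lit 5) (nat_lit 585) (nat_lit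 5) (nat_lit 429) (nat_lit 415) (nat_lit 356)) (XT.nd (nat_lit 78) (nat_lit 1444) (nat_lit 0) (XT.lf (nat_lit 76) (nat_lit 4627505072) (nat_lit 0) (nat_lit 549908041) (nat_lit 1596) (nat_lit 3508045183) (nat_lit 565) (nat_lit 5) (nat_lit 564) (nat_lit 5) (nat_lit 585) (nat_lit 5) (nat_lit 430) (nat_lit 415) (nat_lit 355)) (XT.lf (nat_lit 0) (nat_lit 3266135722) (nat_lit 1520) (nat_lit 4405762527) (nat_lit 1596) (nat_lit 1124096244) (nat_lit 545) (nat_lit 5) (nat_lit 565) (nat_lit 5) (nat_lit 566) (nat_lit 5) (nat_lit 431) (nat_lit 415) (nat_lit 354))))) (XT.nd (nat_lit 234) (nat_lit 5624) (nat_lit 0) (XT.nd (nat_lit 78) (nat_lit 1672) (nat_lit 0) (XT.lf (nat_lit 0) (nat_lit 1301049332) (nat_lit 1672) (nat_lit 6995018022) (nat_lit 76) (nat_lit 613869673) (nat_lit 523) (nat_lit 5) (nat_lit 545) (nat_lit 5) (nat_lit 524) (nat_lit 5) (nat_lit 432) (nat_lit 415) (nat_lit 353)) (XT.nd (nat_lit 78) (nat_lit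 0) (nat_lit 0) (XT.lf (nat_lit 0) (nat_lit 551922933) (nat_lit 1672) (nat_lit 3243408569) (nat_lit 1748) (nat_lit 5231590397) (nat_lit 501) (nat_lit 5) (nat_lit 523) (nat_lit 5) (nat_lit 524) (nat_lit 5) (nat_lit 433) (nat_lit 415) (nat_lit 352)) (XT.lf (nat_lit 0) (nat_lit 6367145083) (nat_lit 1748) (nat_lit 789164412) (nat_lit 76) (nat_lit 1991058346) (nat_lit 501) (nat_lit 5) (nat_lit 524) (nat_lit 5) (nat_lit 502) (nat_lit 5) (nat_lit 434) (nat_lit 415) (nat_lit 351)))) (XT.nd (nat_lit 156) (nat_lit 1976) (nat_lit 0) (XT.nd (nat_lit 78) (nat_lit 1900) (nat_lit 0) (XT.lf (nat_lit 0) (nat_lit 7150134036) (nat_lit 1748) (nat_lit 1878031950) (nat_lit 1824) (nat_lit 243025535) (nat_lit 478) (nat_lit 5) (nat_lit 501) (nat_lit 5) (nat_lit 502) (nat_lit 5) (nat_lit 435) (nat_lit 415) (nat_lit 350)) (XT.lf (nat_lit 0) (nat_lit 2351664080) (nat_lit 1900) (nat_lit 3468877055) (nat_lit 76) (nat_lit 3577636884)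 (nat_lit 453) (nat_lit 5) (nat_lit 478) (nat_lit 5) (nat_lit 454) (nat_lit 5) (nat_lit 436) (nat_lit 415) (nat_lit 349))) (XT.nd (nat_lit 78) (nat_lit 912) (nat_lit 0) (XT.lf (nat_lit 0) (nat_lit 4719681217) (nat_lit 1064) (nat_lit 305118039) (nat_lit 1140) (nat_lit 4504069605) (nat_lit 439) (nat_lit 5) (nat_lit 453) (nat_lit 5) (nat_lit 454) (nat_lit 5) (nat_lit 437) (nat_lit 415) (nat_lit 348)) (XT.lf (nat_lit 0) (nat_lit 3499472118) (nat_lit 912) (nat_lit 4307435119) (nat_lit 988) (nat_lit 1856002478) (nat_lit 427) (nat_lit 5) (nat_lit 439) (nat_lit 5) (nat_lit 440) (nat_lit 5) (nat_lit 438) (nat_lit 415) (nat_lit 347))))))) (XT.nd (nat_lit 936) (nat_lit 7296) (nat_lit 0) (XT.nd (nat_lit 468) (nat_lit 3800) (nat_lit 0) (XT.nd (nat_lit 234) (nat_lit 2584) (nat_lit 0) (XT.nd (nat_lit 78) (nat_lit 836) (nat_lit 0) (XT.lf (nat_lit 0) (nat_lit 867517341) (nat_lit 988) (nat_lit 7514759329) (nat_lit 76)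 (nat_lit 1418437773) (nat_lit 414) (nat_lit 5) (nat_lit 427) (nat_lit 5) (nat_lit 415) (nat_lit 5) (nat_lit 439) (nat_lit 415) (nat_lit 346)) (XT.nd (nat_lit 78) (nat_lit 0) (nat_lit 0) (XT.lf (nat_lit 0) (nat_lit 1053868086) (nat_lit 836) (nat_lit 2621050762) (nat_lit 912) (nat_lit 6266945759) (nat_lit 403) (nat_lit 5) (nat_lit 414) (nat_lit 5) (nat_lit 415) (nat_lit 5) (nat_lit 440) (nat_lit 415) (nat_lit 345)) (XT.lf (nat_lit 0) (nat_lit 6590022873) (nat_lit 912) (nat_lit 175681203) (nat_lit 76) (nat_lit 3321079953) (nat_lit 403) (nat_lit 5) (nat_lit 415) (nat_lit 5) (nat_lit 404) (nat_lit 5) (nat_lit 441) (nat_lit 415) (nat_lit 344)))) (XT.nd (nat_lit 78) (nat_lit 1748) (nat_lit 0) (XT.lf (nat_lit 0) (nat_lit 8847954458) (nat_lit 836) (nat_lit 771746677) (nat_lit 912) (nat_lit 615811713) (nat_lit 392) (nat_lit 5) (nat_lit 403) (nat_lit 5) (nat_lit 404) (nat_lit 5) (nat_lit 442) (nat_lit 415) (nat_lit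 343)) (XT.nd (nat_lit 78) (nat_lit 836) (nat_lit 0) (XT.lf (nat_lit 0) (nat_lit 2360956064) (nat_lit 912) (nat_lit 2629246716) (nat_lit 76) (nat_lit 5397394804) (nat_lit 380) (nat_lit 5) (nat_lit 392) (nat_lit 5) (nat_lit 381) (nat_lit 5) (nat_lit 443) (nat_lit 415) (nat_lit 342)) (XT.lf (nat_lit 0) (nat_lit 5438827579) (nat_lit 912) (nat_lit 3868708206) (nat_lit 76) (nat_lit 1236228238) (nat_lit 369) (nat_lit 5) (nat_lit 381) (nat_lit 5) (nat_lit 370) (nat_lit 5) (nat_lit 444) (nat_lit 415) (nat_lit 341))))) (XT.nd (nat_lit 234) (nat_lit 1520) (nat_lit 0) (XT.nd (nat_lit 78) (nat_lit 1520) (nat_lit 0) (XT.lf (nat_lit 0) (nat_lit 5581295227) (nat_lit 760) (nat_lit 3070264527) (nat_lit 836) (nat_lit 2052209011) (nat_lit 359) (nat_lit 5) (nat_lit 369) (nat_lit 5) (nat_lit 370) (nat_lit 5) (nat_lit 445) (nat_lit 415) (nat_lit 340)) (XT.nd (nat_lit 78) (nat_lit 684) (nat_lit 0) (XT.lf (nat_lit 0) (nat_lit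 1111255209) (nat_lit 836) (nat_lit 6387311991) (nat_lit 76) (nat_lit 3369198694) (nat_lit 348) (nat_lit 5) (nat_lit 359) (nat_lit 5) (nat_lit 349) (nat_lit 5) (nat_lit 446) (nat_lit 415) (nat_lit 339)) (XT.lf (nat_lit 0) (nat_lit 3366774970) (nat_lit 684) (nat_lit 1009098257) (nat_lit 760) (nat_lit 6659859292) (nat_lit 339) (nat_lit 5) (nat_lit 348) (nat_lit 5) (nat_lit 349) (nat_lit 5) (nat_lit 447) (nat_lit 415) (nat_lit 338)))) (XT.nd (nat_lit 78) (nat_lit 760) (nat_lit 0) (XT.lf (nat_lit 0) (nat_lit 2236721856) (nat_lit 760) (nat_lit 5554203787) (nat_lit 836) (nat_lit 3416765994) (nat_lit 329) (nat_lit 5) (nat_lit 339) (nat_lit 5) (nat_lit 340) (nat_lit 5) (nat_lit 448) (nat_lit 415) (nat_lit 337)) (XT.nd (nat_lit 78) (nat_lit 76) (nat_lit 0) (XT.lf (nat_lit 0) (nat_lit 1112533309) (nat_lit 684) (nat_lit 10227835275) (nat_lit 760) (nat_lit 43805476) (nat_lit 320) (nat_lit 5) (nat_lit 329) (nat_lit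 5) (nat_lit 330) (nat_lit 5) (nat_lit 449) (nat_lit 415) (nat_lit 336)) (XT.lf (nat_lit 0) (nat_lit 3442762514) (nat_lit 760) (nat_lit 51504304) (nat_lit 76) (nat_lit 8070093683) (nat_lit 319) (nat_lit 5) (nat_lit 329) (nat_lit 5) (nat_lit 320) (nat_lit 5) (nat_lit 450) (nat_lit 415) (nat_lit 335)))))) (XT.nd (nat_lit 468) (nat_lit 3344) (nat_lit 0) (XT.nd (nat_lit 234) (nat_lit 1900) (nat_lit 0) (XT.nd (nat_lit 78) (nat_lit 1368) (nat_lit 0) (XT.lf (nat_lit 0) (nat_lit 7084958779) (nat_lit 760) (nat_lit 1205480904) (nat_lit 76) (nat_lit 3458477592) (nat_lit 310) (nat_lit 5) (nat_lit 320) (nat_lit 5) (nat_lit 311) (nat_lit 5) (nat_lit 451) (nat_lit 415) (nat_lit 334)) (XT.nd (nat_lit 78) (nat_lit 760) (nat_lit 0) (XT.lf (nat_lit 0) (nat_lit 9573256404) (nat_lit 608) (nat_lit 1310114541) (nat_lit 684) (nat_lit 1054703779) (nat_lit 302) (nat_lit 5) (nat_lit 310) (nat_lit 5) (nat_lit 311) (nat_lit 5)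 (nat_lit 452) (nat_lit 415) (nat_lit 333)) (XT.lf (nat_lit 0) (nat_lit 2692331392) (nat_lit 760) (nat_lit 3562649332) (nat_lit 76) (nat_lit 5876294697) (nat_lit 292) (nat_lit 5) (nat_lit 302) (nat_lit 5) (nat_lit 293) (nat_lit 5) (nat_lit 453) (nat_lit 415) (nat_lit 332)))) (XT.nd (nat_lit 78) (nat_lit 1292) (nat_lit 0) (XT.lf (nat_lit 0) (nat_lit 6580448801) (nat_lit 684) (nat_lit 4766573124) (nat_lit 76) (nat_lit 982253517) (nat_lit 284) (nat_lit 5) (nat_lit 293) (nat_lit 5) (nat_lit 285) (nat_lit 5) (nat_lit 454) (nat_lit 415) (nat_lit 331)) (XT.nd (nat_lit 78) (nat_lit 684) (nat_lit 0) (XT.lf (nat_lit 0) (nat_lit 6535092228) (nat_lit 608) (nat_lit 4121837259) (nat_lit 684) (nat_lit 1874854247) (nat_lit 276) (nat_lit 5) (nat_lit 284) (nat_lit 5) (nat_lit 285) (nat_lit 5) (nat_lit 455) (nat_lit 415) (nat_lit 330)) (XT.lf (nat_lit 0) (nat_lit 2141633675) (nat_lit 684) (nat_lit 7248002258) (nat_lit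 76) (nat_lit 3349378405) (nat_lit 267) (nat_lit 5) (nat_lit 276) (nat_lit 5) (nat_lit 268) (nat_lit 5) (nat_lit 456) (nat_lit 415) (nat_lit 329))))) (XT.nd (nat_lit 234) (nat_lit 1596) (nat_lit 0) (XT.nd (nat_lit 78) (nat_lit 1140) (nat_lit 0) (XT.lf (nat_lit 0) (nat_lit 4425343447) (nat_lit 608) (nat_lit 1889538534) (nat_lit 684) (nat_lit 6636099736) (nat_lit 259) (nat_lit 5) (nat_lit 267) (nat_lit 5) (nat_lit 268) (nat_lit 5) (nat_lit 457) (nat_lit 415) (nat_lit 328)) (XT.nd (nat_lit 78) (nat_lit 608) (nat_lit 0) (XT.lf (nat_lit 0) (nat_lit 3339369367) (nat_lit 532) (nat_lit 7348033737) (nat_lit 608) (nat_lit 2480425895) (nat_lit 252) (nat_lit 5) (nat_lit 259) (nat_lit 5) (nat_lit 260) (nat_lit 5) (nat_lit 458) (nat_lit 415) (nat_lit 327)) (XT.lf (nat_lit 0) (nat_lit 1829965635) (nat_lit 608) (nat_lit 11146599942) (nat_lit 76) (nat_lit 413311599) (nat_lit 244) (nat_lit 5) (nat_lit 252) (nat_lit 5)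 (nat_lit 245) (nat_lit 5) (nat_lit 459) (nat_lit 415) (nat_lit 326)))) (XT.nd (nat_lit 156) (nat_lit 1064) (nat_lit 0) (XT.nd (nat_lit 78) (nat_lit 0) (nat_lit 0) (XT.lf (nat_lit 0) (nat_lit 1097100091) (nat_lit 532) (nat_lit 5228564887) (nat_lit 608) (nat_lit 7290802213) (nat_lit 237) (nat_lit 5) (nat_lit 244) (nat_lit 5) (nat_lit 245) (nat_lit 5) (nat_lit 460) (nat_lit 415) (nat_lit 325)) (XT.lf (nat_lit 0) (nat_lit 11016951545) (nat_lit 608) (nat_lit 51438076) (nat_lit 76) (nat_lit 2780253103) (nat_lit 237) (nat_lit 5) (nat_lit 245) (nat_lit 5) (nat_lit 238) (nat_lit 5) (nat_lit 461) (nat_lit 415) (nat_lit 324))) (XT.nd (nat_lit 78) (nat_lit 456) (nat_lit 0) (XT.lf (nat_lit 0) (nat_lit 1825041290) (nat_lit 608) (nat_lit 1217664485) (nat_lit 76) (nat_lit 11043112166) (nat_lit 229) (nat_lit 5) (nat_lit 237) (nat_lit 5) (nat_lit 230) (nat_lit 5) (nat_lit 462) (nat_lit 415) (nat_lit 323)) (XT.lf (nat_lit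 0) (nat_lit 6663802805) (nat_lit 532) (nat_lit 2423500229) (nat_lit 76) (nat_lit 5240817039) (nat_lit 223) (nat_lit 5) (nat_lit 230) (nat_lit 5) (nat_lit 224) (nat_lit 5) (nat_lit 463) (nat_lit 415) (nat_lit 322))))))))
noncomputable def xc65 : XT := (XT.nd (nat_lit 1950) (nat_lit 1596) (nat_lit 0) (XT.nd (nat_lit 936) (nat_lit 4180) (nat_lit 0) (XT.nd (nat_lit 468) (nat_lit 2128) (nat_lit 0) (XT.nd (nat_lit 234) (nat_lit 1368) (nat_lit 0) (XT.nd (nat_lit 78) (nat_lit 988) (nat_lit 0) (XT.lf (nat_lit 0) (nat_lit 10939143865) (nat_lit 532) (nat_lit 777057667) (nat_lit 608) (nat_lit 2860122174) (nat_lit 216) (nat_lit 5) (nat_lit 223) (nat_lit 5) (nat_lit 224) (nat_lit 5) (nat_lit 464) (nat_lit 415) (nat_lit 321)) (XT.nd (nat_lit 78) (nat_lit 456) (nat_lit 0) (XT.lf (nat_lit 0) (nat_lit 2162424982) (nat_lit 532) (nat_lit 4903715821) (nat_lit 76) (nat_lit 7763531052) (nat_lit 209) (nat_lit 5) (nat_lit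 216) (nat_lit 5) (nat_lit 210) (nat_lit 5) (nat_lit 465) (nat_lit 415) (nat_lit 320)) (XT.lf (nat_lit 0) (nat_lit 7364660033) (nat_lit 532) (nat_lit 6194367075) (nat_lit 76) (nat_lit 1529859625) (nat_lit 203) (nat_lit 5) (nat_lit 210) (nat_lit 5) (nat_lit 204) (nat_lit 5) (nat_lit 466) (nat_lit 415) (nat_lit 319)))) (XT.nd (nat_lit 78) (nat_lit 912) (nat_lit 0) (XT.lf (nat_lit 0) (nat_lit 7830869279) (nat_lit 456) (nat_lit 4993922213) (nat_lit 532) (nat_lit 2529051704) (nat_lit 197) (nat_lit 5) (nat_lit 203) (nat_lit 5) (nat_lit 204) (nat_lit 5) (nat_lit 467) (nat_lit 415) (nat_lit 318)) (XT.nd (nat_lit 78) (nat_lit 380) (nat_lit 0) (XT.lf (nat_lit 0) (nat_lit 2867271009) (nat_lit 532) (nat_lit 8887528521) (nat_lit 76) (nat_lit 3869937960) (nat_lit 190) (nat_lit 5) (nat_lit 197) (nat_lit 5) (nat_lit 191) (nat_lit 5) (nat_lit 468) (nat_lit 415) (nat_lit 317)) (XT.lf (nat_lit 0) (nat_lit 5605845062)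 (nat_lit 380) (nat_lit 2877758057) (nat_lit 456) (nat_lit 7417973156) (nat_lit 185) (nat_lit 5) (nat_lit 190) (nat_lit 5) (nat_lit 191) (nat_lit 5) (nat_lit 469) (nat_lit 415) (nat_lit 316))))) (XT.nd (nat_lit 234) (nat_lit 836) (nat_lit 0) (XT.nd (nat_lit 78) (nat_lit 836) (nat_lit 0) (XT.lf (nat_lit 0) (nat_lit 4445123888) (nat_lit 456) (nat_lit 9925121180) (nat_lit 532) (nat_lit 1814440307) (nat_lit 179) (nat_lit 5) (nat_lit 185) (nat_lit 5) (nat_lit 186) (nat_lit 5) (nat_lit 470) (nat_lit 415) (nat_lit 315)) (XT.nd (nat_lit 78) (nat_lit 380) (nat_lit 0) (XT.lf (nat_lit 0) (nat_lit 3249519001) (nat_lit 380) (nat_lit 738377608) (nat_lit 456) (nat_lit 12486226811) (nat_lit 173) (nat_lit 5) (nat_lit 178) (nat_lit 5) (nat_lit 179) (nat_lit 5) (nat_lit 471) (nat_lit 415) (nat_lit 314)) (XT.lf (nat_lit 0) (nat_lit 1993431979) (nat_lit 380) (nat_lit 8068505822) (nat_lit 456) (nat_lit 6707622661) (nat_lit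 168) (nat_lit 5) (nat_lit 173) (nat_lit 5) (nat_lit 174) (nat_lit 5) (nat_lit 472) (nat_lit 415) (nat_lit 313)))) (XT.nd (nat_lit 78) (nat_lit 456) (nat_lit 0) (XT.lf (nat_lit 0) (nat_lit 730854719) (nat_lit 380) (nat_lit 15668829369) (nat_lit 456) (nat_lit 672548241) (nat_lit 163) (nat_lit 5) (nat_lit 168) (nat_lit 5) (nat_lit 169) (nat_lit 5) (nat_lit 473) (nat_lit 415) (nat_lit 312)) (XT.nd (nat_lit 78) (nat_lit 380) (nat_lit 0) (XT.lf (nat_lit 0) (nat_lit 5598894431) (nat_lit 456) (nat_lit 608466904) (nat_lit 76) (nat_lit 11173344067) (nat_lit 162) (nat_lit 5) (nat_lit 168) (nat_lit 5) (nat_lit 163) (nat_lit 5) (nat_lit 474) (nat_lit 415) (nat_lit 311)) (XT.lf (nat_lit 0) (nat_lit 12149348717) (nat_lit 456) (nat_lit 1961770689) (nat_lit 76) (nat_lit 3585225522) (nat_lit 157) (nat_lit 5) (nat_lit 163) (nat_lit 5) (nat_lit 158) (nat_lit 5) (nat_lit 475) (nat_lit 415) (nat_lit 310)))))) (XT.nd (nat_lit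 468) (nat_lit 1976) (nat_lit 0) (XT.nd (nat_lit 234) (nat_lit 1064) (nat_lit 0) (XT.nd (nat_lit 78) (nat_lit 684) (nat_lit 0) (XT.lf (nat_lit 0) (nat_lit 979495738) (nat_lit 456) (nat_lit 3359669610) (nat_lit 76) (nat_lit 13679853776) (nat_lit 151) (nat_lit 5) (nat_lit 157) (nat_lit 5) (nat_lit 152) (nat_lit 5) (nat_lit 476) (nat_lit 415) (nat_lit 309)) (XT.nd (nat_lit 78) (nat_lit 304) (nat_lit 0) (XT.lf (nat_lit 0) (nat_lit 7741032028) (nat_lit 456) (nat_lit 4831096410) (nat_lit 76) (nat_lit 5776220752) (nat_lit 146) (nat_lit 5) (nat_lit 152) (nat_lit 5) (nat_lit 147) (nat_lit 5) (nat_lit 477) (nat_lit 415) (nat_lit 308)) (XT.lf (nat_lit 0) (nat_lit 12353004561) (nat_lit 304) (nat_lit 2459724028) (nat_lit 380) (nat_lit 3872685438) (nat_lit 142) (nat_lit 5) (nat_lit 146) (nat_lit 5) (nat_lit 147) (nat_lit 5) (nat_lit 478) (nat_lit 415) (nat_lit 307)))) (XT.nd (nat_lit 78) (nat_lit 608) (nat_lit 0)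 (XT.lf (nat_lit 0) (nat_lit 3157184481) (nat_lit 456) (nat_lit 7908598478) (nat_lit 76) (nat_lit 7963743400) (nat_lit 136) (nat_lit 5) (nat_lit 142) (nat_lit 5) (nat_lit 137) (nat_lit 5) (nat_lit 479) (nat_lit 415) (nat_lit 306)) (XT.nd (nat_lit 78) (nat_lit 304) (nat_lit 0) (XT.lf (nat_lit 0) (nat_lit 9849329607) (nat_lit 304) (nat_lit 595757352) (nat_lit 380) (nat_lit 8936369176) (nat_lit 132) (nat_lit 5) (nat_lit 136) (nat_lit 5) (nat_lit 137) (nat_lit 5) (nat_lit 480) (nat_lit 415) (nat_lit 305)) (XT.lf (nat_lit 0) (nat_lit 8512101568) (nat_lit 304) (nat_lit 9591108913) (nat_lit 380) (nat_lit 1637702677) (nat_lit 128) (nat_lit 5) (nat_lit 132) (nat_lit 5) (nat_lit 133) (nat_lit 5) (nat_lit 481) (nat_lit 415) (nat_lit 304))))) (XT.nd (nat_lit 234) (nat_lit 912) (nat_lit 0) (XT.nd (nat_lit 78) (nat_lit 684) (nat_lit 0) (XT.lf (nat_lit 0) (nat_lit 5902653860) (nat_lit 380) (nat_lit 12985473049) (nat_lit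 76) (nat_lit 1220267514) (nat_lit 123) (nat_lit 5) (nat_lit 128) (nat_lit 5) (nat_lit 124) (nat_lit 5) (nat_lit 482) (nat_lit 415) (nat_lit 303)) (XT.nd (nat_lit 78) (nat_lit 380) (nat_lit 0) (XT.lf (nat_lit 0) (nat_lit 5654240889) (nat_lit 304) (nat_lit 8147162794) (nat_lit 380) (nat_lit 6682192244) (nat_lit 119) (nat_lit 5) (nat_lit 123) (nat_lit 5) (nat_lit 124) (nat_lit 5) (nat_lit 483) (nat_lit 415) (nat_lit 302)) (XT.lf (nat_lit 0) (nat_lit 1165524379) (nat_lit 380) (nat_lit 16715439871) (nat_lit 76) (nat_lit 2986702444) (nat_lit 114) (nat_lit 5) (nat_lit 119) (nat_lit 5) (nat_lit 115) (nat_lit 5) (nat_lit 484) (nat_lit 415) (nat_lit 301)))) (XT.nd (nat_lit 156) (nat_lit 380) (nat_lit 0) (XT.nd (nat_lit 78) (nat_lit 228) (nat_lit 0) (XT.lf (nat_lit 0) (nat_lit 2541198927) (nat_lit 304) (nat_lit 6766816522) (nat_lit 380) (nat_lit 11951359075) (nat_lit 110) (nat_lit 5) (nat_lit 114) (nat_lit 5)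 (nat_lit 115) (nat_lit 5) (nat_lit 485) (nat_lit 415) (nat_lit 300)) (XT.lf (nat_lit 0) (nat_lit 887238088) (nat_lit 228) (nat_lit 16935510364) (nat_lit 304) (nat_lit 3837526651) (nat_lit 107) (nat_lit 5) (nat_lit 110) (nat_lit 5) (nat_lit 111) (nat_lit 5) (nat_lit 486) (nat_lit 415) (nat_lit 299))) (XT.nd (nat_lit 78) (nat_lit 304) (nat_lit 0) (XT.lf (nat_lit 0) (nat_lit 4611438657) (nat_lit 304) (nat_lit 845793456) (nat_lit 76) (nat_lit 16612364605) (nat_lit 106) (nat_lit 5) (nat_lit 110) (nat_lit 5) (nat_lit 107) (nat_lit 5) (nat_lit 487) (nat_lit 415) (nat_lit 298)) (XT.lf (nat_lit 0) (nat_lit 13412059389) (nat_lit 380) (nat_lit 2652125429) (nat_lit 76) (nat_lit 6423500166) (nat_lit 102) (nat_lit 5) (nat_lit 107) (nat_lit 5) (nat_lit 103) (nat_lit 5) (nat_lit 488) (nat_lit 415) (nat_lit 297))))))) (XT.nd (nat_lit 57330) (nat_lit 0) (nat_lit 30172) (XT.nd (nat_lit 56784) (nat_lit 0) (nat_lit 39216)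 (XT.nd (nat_lit 234) (nat_lit 760) (nat_lit 0) (XT.nd (nat_lit 78) (nat_lit 608) (nat_lit 0) (XT.lf (nat_lit 0) (nat_lit 18400116879) (nat_lit 228) (nat_lit 4217313404) (nat_lit 304) (nat_lit 298071754) (nat_lit 99) (nat_lit 5) (nat_lit 102) (nat_lit 5) (nat_lit 103) (nat_lit 5) (nat_lit 489) (nat_lit 415) (nat_lit 296)) (XT.nd (nat_lit 78) (nat_lit 228) (nat_lit 0) (XT.lf (nat_lit 0) (nat_lit 8788145423) (nat_lit 380) (nat_lit 6511833665) (nat_lit 76) (nat_lit 8051839958) (nat_lit 94) (nat_lit 5) (nat_lit 99) (nat_lit 5) (nat_lit 95) (nat_lit 5) (nat_lit 490) (nat_lit 415) (nat_lit 295)) (XT.lf (nat_lit 0) (nat_lit 15231729443) (nat_lit 228) (nat_lit 3048628957) (nat_lit 304) (nat_lit 5518079294) (nat_lit 91) (nat_lit 5) (nat_lit 94) (nat_lit 5) (nat_lit 95) (nat_lit 5) (nat_lit 491) (nat_lit 415) (nat_lit 294)))) (XT.nd (nat_lit 78) (nat_lit 456) (nat_lit 0) (XT.lf (nat_lit 0) (nat_lit 3924496316)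 (nat_lit 304) (nat_lit 10741073880) (nat_lit 76) (nat_lit 9588883354) (nat_lit 87) (nat_lit 5) (nat_lit 91) (nat_lit 5) (nat_lit 88) (nat_lit 5) (nat_lit 492) (nat_lit 415) (nat_lit 293)) (XT.nd (nat_lit 78) (nat_lit 228) (nat_lit 0) (XT.lf (nat_lit 0) (nat_lit 11711773483) (nat_lit 228) (nat_lit 1998951444) (nat_lit 304) (nat_lit 11009989227) (nat_lit 84) (nat_lit 5) (nat_lit 87) (nat_lit 5) (nat_lit 88) (nat_lit 5) (nat_lit 493) (nat_lit 415) (nat_lit 292)) (XT.lf (nat_lit 0) (nat_lit 9808106721) (nat_lit 228) (nat_lit 14171434213) (nat_lit 304) (nat_lit 1217642268) (nat_lit 81) (nat_lit 5) (nat_lit 84) (nat_lit 5) (nat_lit 85) (nat_lit 5) (nat_lit 494) (nat_lit 415) (nat_lit 291))))) (XT.nd (nat_lit 234) (nat_lit 1292) (nat_lit 0) (XT.nd (nat_lit 78) (nat_lit 1292) (nat_lit 0) (XT.lf (nat_lit 0) (nat_lit 3390123836) (nat_lit 1292) (nat_lit 187036540) (nat_lit 1292) (nat_lit 187036540) (nat_lit 631)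 (nat_lit 3) (nat_lit 648) (nat_lit 3) (nat_lit 648) (nat_lit 5) (nat_lit 416) (nat_lit 416) (nat_lit 368)) (XT.nd (nat_lit 78) (nat_lit 0) (nat_lit 0) (XT.lf (nat_lit 0) (nat_lit 1426259862) (nat_lit 1292) (nat_lit 2331448193) (nat_lit 1368) (nat_lit 3839955658) (nat_lit 614) (nat_lit 5) (nat_lit 631) (nat_lit 3) (nat_lit 632) (nat_lit 5) (nat_lit 417) (nat_lit 416) (nat_lit 367)) (XT.lf (nat_lit 76) (nat_lit 3407518529) (nat_lit 0) (nat_lit 189103628) (nat_lit 1368) (nat_lit 4073482274) (nat_lit 615) (nat_lit 5) (nat_lit 614) (nat_lit 5) (nat_lit 632) (nat_lit 5) (nat_lit 418) (nat_lit 416) (nat_lit 366)))) (XT.nd (nat_lit 156) (nat_lit 0) (nat_lit 76) (XT.nd (nat_lit 78) (nat_lit 1368) (nat_lit 0) (XT.lf (nat_lit 76) (nat_lit 1558663949) (nat_lit 0) (nat_lit 4240656635) (nat_lit 1368) (nat_lit 1946062422) (nat_lit 616) (nat_lit 5) (nat_lit 615) (nat_lit 5) (nat_lit 633) (nat_lit 5) (nat_lit 419)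 (nat_lit 416) (nat_lit 365)) (XT.lf (nat_lit 0) (nat_lit 192418962) (nat_lit 1368) (nat_lit 258030397) (nat_lit 1444) (nat_lit 7373438354) (nat_lit 597) (nat_lit 5) (nat_lit 615) (nat_lit 5) (nat_lit 616) (nat_lit 5) (nat_lit 420) (nat_lit 416) (nat_lit 364))) (XT.nd (nat_lit 78) (nat_lit 0) (nat_lit 0) (XT.lf (nat_lit 0) (nat_lit 2352284707) (nat_lit 1368) (nat_lit 2060006373) (nat_lit 1444) (nat_lit 3492534272) (nat_lit 598) (nat_lit 5) (nat_lit 616) (nat_lit 5) (nat_lit 617) (nat_lit 5) (nat_lit 421) (nat_lit 416) (nat_lit 363)) (XT.lf (nat_lit 76) (nat_lit 4152341269) (nat_lit 0) (nat_lit 380963039) (nat_lit 1444) (nat_lit 3455767857) (nat_lit 599) (nat_lit 5) (nat_lit 598) (nat_lit 5) (nat_lit 617) (nat_lit 5) (nat_lit 422) (nat_lit 416) (nat_lit 362)))))) (XT.nd (nat_lit 468) (nat_lit 6460) (nat_lit 0) (XT.nd (nat_lit 234) (nat_lit 1292) (nat_lit 0) (XT.nd (nat_lit 78) (nat_lit 1444) (nat_lit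 0) (XT.lf (nat_lit 76) (nat_lit 2465289372) (nat_lit 0) (nat_lit 4295729293) (nat_lit 1444) (nat_lit 1315210397) (nat_lit 600) (nat_lit 5) (nat_lit 599) (nat_lit 5) (nat_lit 618) (nat_lit 5) (nat_lit 423) (nat_lit 416) (nat_lit 361)) (XT.nd (nat_lit 78) (nat_lit 0) (nat_lit 76) (XT.lf (nat_lit 76) (nat_lit 799021689) (nat_lit 0) (nat_lit 40861003) (nat_lit 1520) (nat_lit 7326770325) (nat_lit 581) (nat_lit 5) (nat_lit 580) (nat_lit 5) (nat_lit 600) (nat_lit 5) (nat_lit 424) (nat_lit 416) (nat_lit 360)) (XT.lf (nat_lit 0) (nat_lit 3038360948) (nat_lit 1444) (nat_lit 865366104) (nat_lit 1520) (nat_lit 4355964109) (nat_lit 581) (nat_lit 5) (nat_lit 600) (nat_lit 5) (nat_lit 601) (nat_lit 5) (nat_lit 425) (nat_lit 416) (nat_lit 359)))) (XT.nd (nat_lit 78) (nat_lit 1444) (nat_lit 0) (XT.lf (nat_lit 0) (nat_lit 5277034317) (nat_lit 1444) (nat_lit 2497173790) (nat_lit 1520) (nat_lit 581834670) (nat_lit 582)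 (nat_lit 5) (nat_lit 601) (nat_lit 5) (nat_lit 602) (nat_lit 5) (nat_lit 426) (nat_lit 416) (nat_lit 358)) (XT.nd (nat_lit 78) (nat_lit 1444) (nat_lit 0) (XT.lf (nat_lit 76) (nat_lit 4325556719) (nat_lit 0) (nat_lit 3251302222) (nat_lit 1520) (nat_lit 878553116) (nat_lit 583) (nat_lit 5) (nat_lit 582) (nat_lit 5) (nat_lit 602) (nat_lit 5) (nat_lit 427) (nat_lit 416) (nat_lit 357)) (XT.lf (nat_lit 0) (nat_lit 1349637757) (nat_lit 1520) (nat_lit 5756914181) (nat_lit 1596) (nat_lit 1451438362) (nat_lit 563) (nat_lit 5) (nat_lit 583) (nat_lit 5) (nat_lit 584) (nat_lit 5) (nat_lit 428) (nat_lit 416) (nat_lit 356))))) (XT.nd (nat_lit 234) (nat_lit 6460) (nat_lit 0) (XT.nd (nat_lit 78) (nat_lit 0) (nat_lit 76) (XT.lf (nat_lit 76) (nat_lit 1275017220) (nat_lit 0) (nat_lit 2352778731) (nat_lit 1596) (nat_lit 5035839050) (nat_lit 564) (nat_lit 5) (nat_lit 563) (nat_lit 5) (nat_lit 584) (nat_lit 5) (nat_lit 429)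 (nat_lit 416) (nat_lit 355)) (XT.nd (nat_lit 78) (nat_lit 0) (nat_lit 0) (XT.lf (nat_lit 0) (nat_lit 5968517848) (nat_lit 1520) (nat_lit 239585428) (nat_lit 1596) (nat_lit 2564467610) (nat_lit 564) (nat_lit 5) (nat_lit 584) (nat_lit 5) (nat_lit 585) (nat_lit 5) (nat_lit 430) (nat_lit 416) (nat_lit 354)) (XT.lf (nat_lit 76) (nat_lit 7155572602) (nat_lit 0) (nat_lit 1226309900) (nat_lit 1596) (nat_lit 502849966) (nat_lit 565) (nat_lit 5) (nat_lit 564) (nat_lit 5) (nat_lit 585) (nat_lit 5) (nat_lit 431) (nat_lit 416) (nat_lit 353)))) (XT.nd (nat_lit 156) (nat_lit 3420) (nat_lit 0) (XT.nd (nat_lit 78) (nat_lit 1596) (nat_lit 0) (XT.lf (nat_lit 0) (nat_lit 1849197707) (nat_lit 1596) (nat_lit 3233195452) (nat_lit 76) (nat_lit 3917503009) (nat_lit 544) (nat_lit 5) (nat_lit 565) (nat_lit 5) (nat_lit 545) (nat_lit 5) (nat_lit 432) (nat_lit 416) (nat_lit 352)) (XT.lf (nat_lit 0) (nat_lit 4257173230) (nat_lit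 1672) (nat_lit 4727686295) (nat_lit 76) (nat_lit 133750397) (nat_lit 523) (nat_lit 5) (nat_lit 545) (nat_lit 5) (nat_lit 524) (nat_lit 5) (nat_lit 433) (nat_lit 416) (nat_lit 351))) (XT.nd (nat_lit 78) (nat_lit 1748) (nat_lit 0) (XT.lf (nat_lit 0) (nat_lit 3005473550) (nat_lit 1672) (nat_lit 3751669033) (nat_lit 1748) (nat_lit 2483352836) (nat_lit 501) (nat_lit 5) (nat_lit 523) (nat_lit 5) (nat_lit 524) (nat_lit 5) (nat_lit 434) (nat_lit 416) (nat_lit 350)) (XT.lf (nat_lit 0) (nat_lit 1632744568) (nat_lit 1748) (nat_lit 7698426332) (nat_lit 1824) (nat_lit 34890645) (nat_lit 478) (nat_lit 5) (nat_lit 501) (nat_lit 5) (nat_lit 502) (nat_lit 5) (nat_lit 435) (nat_lit 416) (nat_lit 349))))))))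
noncomputable def xc66 : XT := (XT.nd (nat_lit 1950) (nat_lit 9880) (nat_lit 0) (XT.nd (nat_lit 936) (nat_lit 7904) (nat_lit 0) (XT.nd (nat_lit 468) (nat_lit 4180) (nat_lit 0) (XT.nd (nat_lit 234) (nat_lit 2736) (nat_lit 0) (XT.nd (nat_lit 78) (nat_lit 1064) (nat_lit 0) (XT.lf (nat_lit 0) (nat_lit 241283927) (nat_lit 1824) (nat_lit 2228805036) (nat_lit 1900) (nat_lit 7024674125) (nat_lit 453) (nat_lit 5) (nat_lit 477) (nat_lit 5) (nat_lit 478) (nat_lit 5) (nat_lit 436) (nat_lit 416) (nat_lit 348)) (XT.nd (nat_lit 78) (nat_lit 1064) (nat_lit 0) (XT.lf (nat_lit 0) (nat_lit 5072387609) (nat_lit 1900) (nat_lit 1136002210) (nat_lit 76) (nat_lit 3418483236) (nat_lit 453) (nat_lit 5) (nat_lit 478) (nat_lit 5) (nat_lit 454) (nat_lit 5) (nat_lit 437) (nat_lit 416) (nat_lit 347)) (XT.lf (nat_lit 0) (nat_lit 7258676334) (nat_lit 1064) (nat_lit 505416524) (nat_lit 1140) (nat_lit 1998631432) (nat_lit 439) (nat_lit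 5) (nat_lit 453) (nat_lit 5) (nat_lit 454) (nat_lit 5) (nat_lit 438) (nat_lit 416) (nat_lit 346)))) (XT.nd (nat_lit 78) (nat_lit 1748) (nat_lit 0) (XT.lf (nat_lit 0) (nat_lit 657961441) (nat_lit 988) (nat_lit 3890987323) (nat_lit 76) (nat_lit 5352976941) (nat_lit 426) (nat_lit 5) (nat_lit 439) (nat_lit 5) (nat_lit 427) (nat_lit 5) (nat_lit 439) (nat_lit 416) (nat_lit 345)) (XT.nd (nat_lit 78) (nat_lit 836) (nat_lit 0) (XT.lf (nat_lit 0) (nat_lit 3379093087) (nat_lit 988) (nat_lit 5284459330) (nat_lit 76) (nat_lit 1381250998) (nat_lit 414) (nat_lit 5) (nat_lit 427) (nat_lit 5) (nat_lit 415) (nat_lit 5) (nat_lit 440) (nat_lit 416) (nat_lit 344)) (XT.lf (nat_lit 0) (nat_lit 3501385398) (nat_lit 836) (nat_lit 2712622207) (nat_lit 912) (nat_lit 3977321109) (nat_lit 403) (nat_lit 5) (nat_lit 414) (nat_lit 5) (nat_lit 415) (nat_lit 5) (nat_lit 441) (nat_lit 416) (nat_lit 343))))) (XT.nd (nat_lit 234) (nat_lit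 2432) (nat_lit 0) (XT.nd (nat_lit 78) (nat_lit 912) (nat_lit 0) (XT.lf (nat_lit 0) (nat_lit 2241432643) (nat_lit 836) (nat_lit 6918860461) (nat_lit 912) (nat_lit 1181434310) (nat_lit 392) (nat_lit 5) (nat_lit 403) (nat_lit 5) (nat_lit 404) (nat_lit 5) (nat_lit 442) (nat_lit 416) (nat_lit 342)) (XT.nd (nat_lit 78) (nat_lit 0) (nat_lit 0) (XT.lf (nat_lit 0) (nat_lit 972888161) (nat_lit 836) (nat_lit 727544959) (nat_lit 912) (nat_lit 8795500778) (nat_lit 380) (nat_lit 5) (nat_lit 391) (nat_lit 5) (nat_lit 392) (nat_lit 5) (nat_lit 443) (nat_lit 416) (nat_lit 341)) (XT.lf (nat_lit 0) (nat_lit 4700039620) (nat_lit 912) (nat_lit 316589140) (nat_lit 76) (nat_lit 5637038750) (nat_lit 380) (nat_lit 5) (nat_lit 392) (nat_lit 5) (nat_lit 381) (nat_lit 5) (nat_lit 444) (nat_lit 416) (nat_lit 340)))) (XT.nd (nat_lit 78) (nat_lit 1596) (nat_lit 0) (XT.lf (nat_lit 0) (nat_lit 7820335387) (nat_lit 912) (nat_lit 1588375974)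 (nat_lit 76) (nat_lit 1406811437) (nat_lit 369) (nat_lit 5) (nat_lit 381) (nat_lit 5) (nat_lit 370) (nat_lit 5) (nat_lit 445) (nat_lit 416) (nat_lit 339)) (XT.nd (nat_lit 78) (nat_lit 760) (nat_lit 0) (XT.lf (nat_lit 0) (nat_lit 97528793) (nat_lit 836) (nat_lit 2875711959) (nat_lit 76) (nat_lit 8008065661) (nat_lit 358) (nat_lit 5) (nat_lit 369) (nat_lit 5) (nat_lit 359) (nat_lit 5) (nat_lit 446) (nat_lit 416) (nat_lit 338)) (XT.lf (nat_lit 0) (nat_lit 3281201046) (nat_lit 836) (nat_lit 4189444951) (nat_lit 76) (nat_lit 3680247637) (nat_lit 348) (nat_lit 5) (nat_lit 359) (nat_lit 5) (nat_lit 349) (nat_lit 5) (nat_lit 447) (nat_lit 416) (nat_lit 337)))))) (XT.nd (nat_lit 468) (nat_lit 4332) (nat_lit 0) (XT.nd (nat_lit 234) (nat_lit 1368) (nat_lit 0) (XT.nd (nat_lit 78) (nat_lit 1520) (nat_lit 0) (XT.lf (nat_lit 0) (nat_lit 5818498041) (nat_lit 684) (nat_lit 778290691) (nat_lit 760) (nat_lit 4728054946)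 (nat_lit 339) (nat_lit 5) (nat_lit 348) (nat_lit 5) (nat_lit 349) (nat_lit 5) (nat_lit 448) (nat_lit 416) (nat_lit 336)) (XT.nd (nat_lit 78) (nat_lit 760) (nat_lit 0) (XT.lf (nat_lit 0) (nat_lit 4656018144) (nat_lit 760) (nat_lit 5414329039) (nat_lit 836) (nat_lit 1432498190) (nat_lit 329) (nat_lit 5) (nat_lit 339) (nat_lit 5) (nat_lit 340) (nat_lit 5) (nat_lit 449) (nat_lit 416) (nat_lit 335)) (XT.lf (nat_lit 0) (nat_lit 1972211817) (nat_lit 760) (nat_lit 8200054403) (nat_lit 76) (nat_lit 1512948847) (nat_lit 319) (nat_lit 5) (nat_lit 329) (nat_lit 5) (nat_lit 320) (nat_lit 5) (nat_lit 450) (nat_lit 416) (nat_lit 334)))) (XT.nd (nat_lit 78) (nat_lit 684) (nat_lit 0) (XT.lf (nat_lit 0) (nat_lit 2287084562) (nat_lit 684) (nat_lit 3231809812) (nat_lit 760) (nat_lit 6352789205) (nat_lit 310) (nat_lit 5) (nat_lit 319) (nat_lit 5) (nat_lit 320) (nat_lit 5) (nat_lit 451) (nat_lit 416) (nat_lit 333)) (XT.nd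 (nat_lit 78) (nat_lit 76) (nat_lit 0) (XT.lf (nat_lit 0) (nat_lit 1081339291) (nat_lit 608) (nat_lit 8141232677) (nat_lit 684) (nat_lit 2840165171) (nat_lit 302) (nat_lit 5) (nat_lit 310) (nat_lit 5) (nat_lit 311) (nat_lit 5) (nat_lit 452) (nat_lit 416) (nat_lit 332)) (XT.lf (nat_lit 0) (nat_lit 817398308) (nat_lit 684) (nat_lit 132114796) (nat_lit 76) (nat_lit 11308915698) (nat_lit 301) (nat_lit 5) (nat_lit 310) (nat_lit 5) (nat_lit 302) (nat_lit 5) (nat_lit 453) (nat_lit 416) (nat_lit 331))))) (XT.nd (nat_lit 234) (nat_lit 2432) (nat_lit 0) (XT.nd (nat_lit 78) (nat_lit 1216) (nat_lit 0) (XT.lf (nat_lit 0) (nat_lit 4624895497) (nat_lit 760) (nat_lit 1375738974) (nat_lit 76) (nat_lit 6457408070) (nat_lit 292) (nat_lit 5) (nat_lit 302) (nat_lit 5) (nat_lit 293) (nat_lit 5) (nat_lit 454) (nat_lit 416) (nat_lit 330)) (XT.nd (nat_lit 78) (nat_lit 608) (nat_lit 0) (XT.lf (nat_lit 0) (nat_lit 8593255036)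 (nat_lit 684) (nat_lit 2619496155) (nat_lit 76) (nat_lit 1449963339) (nat_lit 284) (nat_lit 5) (nat_lit 293) (nat_lit 5) (nat_lit 285) (nat_lit 5) (nat_lit 455) (nat_lit 416) (nat_lit 329)) (XT.lf (nat_lit 0) (nat_lit 8984065425) (nat_lit 608) (nat_lit 3769716653) (nat_lit 684) (nat_lit 118284778) (nat_lit 276) (nat_lit 5) (nat_lit 284) (nat_lit 5) (nat_lit 285) (nat_lit 5) (nat_lit 456) (nat_lit 416) (nat_lit 328)))) (XT.nd (nat_lit 156) (nat_lit 1140) (nat_lit 0) (XT.nd (nat_lit 78) (nat_lit 608) (nat_lit 0) (XT.lf (nat_lit 0) (nat_lit 3960528299) (nat_lit 684) (nat_lit 5193580437) (nat_lit 76) (nat_lit 3931861765) (nat_lit 267) (nat_lit 5) (nat_lit 276) (nat_lit 5) (nat_lit 268) (nat_lit 5) (nat_lit 457) (nat_lit 416) (nat_lit 327)) (XT.lf (nat_lit 0) (nat_lit 6793107379) (nat_lit 608) (nat_lit 1429271618) (nat_lit 684) (nat_lit 5082653340) (nat_lit 259) (nat_lit 5) (nat_lit 267) (nat_lit 5) (nat_lit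 268) (nat_lit 5) (nat_lit 458) (nat_lit 416) (nat_lit 326))) (XT.nd (nat_lit 78) (nat_lit 608) (nat_lit 0) (XT.lf (nat_lit 0) (nat_lit 5668911302) (nat_lit 532) (nat_lit 7024857277) (nat_lit 608) (nat_lit 835266035) (nat_lit 252) (nat_lit 5) (nat_lit 259) (nat_lit 5) (nat_lit 260) (nat_lit 5) (nat_lit 459) (nat_lit 416) (nat_lit 325)) (XT.lf (nat_lit 0) (nat_lit 3550435160) (nat_lit 608) (nat_lit 9235754228) (nat_lit 76) (nat_lit 971963813) (nat_lit 244) (nat_lit 5) (nat_lit 252) (nat_lit 5) (nat_lit 245) (nat_lit 5) (nat_lit 460) (nat_lit 416) (nat_lit 324))))))) (XT.nd (nat_lit 936) (nat_lit 4484) (nat_lit 0) (XT.nd (nat_lit 468) (nat_lit 2736) (nat_lit 0) (XT.nd (nat_lit 234) (nat_lit 1064) (nat_lit 0) (XT.nd (nat_lit 78) (nat_lit 1064) (nat_lit 0) (XT.lf (nat_lit 0) (nat_lit 3338830393) (nat_lit 532) (nat_lit 4808004432) (nat_lit 608) (nat_lit 5845392674) (nat_lit 237) (nat_lit 5) (nat_lit 244)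 (nat_lit 5) (nat_lit 245) (nat_lit 5) (nat_lit 461) (nat_lit 416) (nat_lit 323)) (XT.nd (nat_lit 78) (nat_lit 532) (nat_lit 0) (XT.lf (nat_lit 0) (nat_lit 2147811038) (nat_lit 532) (nat_lit 10801117247) (nat_lit 608) (nat_lit 1283041728) (nat_lit 230) (nat_lit 5) (nat_lit 237) (nat_lit 5) (nat_lit 238) (nat_lit 5) (nat_lit 462) (nat_lit 416) (nat_lit 322)) (XT.lf (nat_lit 0) (nat_lit 916098621) (nat_lit 456) (nat_lit 2535201143) (nat_lit 532) (nat_lit 11025564883) (nat_lit 223) (nat_lit 5) (nat_lit 229) (nat_lit 5) (nat_lit 230) (nat_lit 5) (nat_lit 463) (nat_lit 416) (nat_lit 321)))) (XT.nd (nat_lit 78) (nat_lit 1064) (nat_lit 0) (XT.lf (nat_lit 0) (nat_lit 8401290554) (nat_lit 532) (nat_lit 346000263) (nat_lit 76) (nat_lit 5979826544) (nat_lit 223) (nat_lit 5) (nat_lit 230) (nat_lit 5) (nat_lit 224) (nat_lit 5) (nat_lit 464) (nat_lit 416) (nat_lit 320)) (XT.nd (nat_lit 78) (nat_lit 532) (nat_lit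 0) (XT.lf (nat_lit 0) (nat_lit 13382638632) (nat_lit 532) (nat_lit 191572974) (nat_lit 608) (nat_lit 1409179251) (nat_lit 216) (nat_lit 5) (nat_lit 223) (nat_lit 5) (nat_lit 224) (nat_lit 5) (nat_lit 465) (nat_lit 416) (nat_lit 319)) (XT.lf (nat_lit 0) (nat_lit 3717349658) (nat_lit 532) (nat_lit 2924092104) (nat_lit 76) (nat_lit 8603231567) (nat_lit 209) (nat_lit 5) (nat_lit 216) (nat_lit 5) (nat_lit 210) (nat_lit 5) (nat_lit 466) (nat_lit 416) (nat_lit 318))))) (XT.nd (nat_lit 234) (nat_lit 1292) (nat_lit 0) (XT.nd (nat_lit 78) (nat_lit 988) (nat_lit 0) (XT.lf (nat_lit 0) (nat_lit 9049939675) (nat_lit 532) (nat_lit 4262780156) (nat_lit 76) (nat_lit 2199461616) (nat_lit 203) (nat_lit 5) (nat_lit 210) (nat_lit 5) (nat_lit 204) (nat_lit 5) (nat_lit 467) (nat_lit 416) (nat_lit 317)) (XT.nd (nat_lit 78) (nat_lit 532) (nat_lit 0) (XT.lf (nat_lit 0) (nat_lit 10148860698) (nat_lit 456) (nat_lit 4495888346)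 (nat_lit 532) (nat_lit 1140922559) (nat_lit 197) (nat_lit 5) (nat_lit 203) (nat_lit 5) (nat_lit 204) (nat_lit 5) (nat_lit 468) (nat_lit 416) (nat_lit 316)) (XT.lf (nat_lit 0) (nat_lit 4373669840) (nat_lit 532) (nat_lit 7061747735) (nat_lit 76) (nat_lit 4629575792) (nat_lit 190) (nat_lit 5) (nat_lit 197) (nat_lit 5) (nat_lit 191) (nat_lit 5) (nat_lit 469) (nat_lit 416) (nat_lit 315)))) (XT.nd (nat_lit 78) (nat_lit 912) (nat_lit 0) (XT.lf (nat_lit 0) (nat_lit 7832480244) (nat_lit 380) (nat_lit 2298006245) (nat_lit 456) (nat_lit 6220213226) (nat_lit 185) (nat_lit 5) (nat_lit 190) (nat_lit 5) (nat_lit 191) (nat_lit 5) (nat_lit 470) (nat_lit 416) (nat_lit 314)) (XT.nd (nat_lit 78) (nat_lit 456) (nat_lit 0) (XT.lf (nat_lit 0) (nat_lit 6626757687) (nat_lit 456) (nat_lit 9543912884) (nat_lit 532) (nat_lit 472094883) (nat_lit 179) (nat_lit 5) (nat_lit 185) (nat_lit 5) (nat_lit 186) (nat_lit 5) (nat_lit 471)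 (nat_lit 416) (nat_lit 313)) (XT.lf (nat_lit 0) (nat_lit 5380147029) (nat_lit 380) (nat_lit 78897309) (nat_lit 456) (nat_lit 11482202019) (nat_lit 173) (nat_lit 5) (nat_lit 178) (nat_lit 5) (nat_lit 179) (nat_lit 5) (nat_lit 472) (nat_lit 416) (nat_lit 312)))))) (XT.nd (nat_lit 468) (nat_lit 2432) (nat_lit 0) (XT.nd (nat_lit 234) (nat_lit 836) (nat_lit 0) (XT.nd (nat_lit 78) (nat_lit 836) (nat_lit 0) (XT.lf (nat_lit 0) (nat_lit 4075699360) (nat_lit 380) (nat_lit 7617670896) (nat_lit 456) (nat_lit 5552617038) (nat_lit 168) (nat_lit 5) (nat_lit 173) (nat_lit 5) (nat_lit 174) (nat_lit 5) (nat_lit 473) (nat_lit 416) (nat_lit 311)) (XT.nd (nat_lit 78) (nat_lit 380) (nat_lit 0) (XT.lf (nat_lit 0) (nat_lit 633366450) (nat_lit 456) (nat_lit 14798099721) (nat_lit 76) (nat_lit 2126617766) (nat_lit 162) (nat_lit 5) (nat_lit 168) (nat_lit 5) (nat_lit 163) (nat_lit 5) (nat_lit 474) (nat_lit 416) (nat_lit 310))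 (XT.lf (nat_lit 0) (nat_lit 1361053422) (nat_lit 380) (nat_lit 5693291238) (nat_lit 456) (nat_lit 10821968939) (nat_lit 157) (nat_lit 5) (nat_lit 162) (nat_lit 5) (nat_lit 163) (nat_lit 5) (nat_lit 475) (nat_lit 416) (nat_lit 309)))) (XT.nd (nat_lit 78) (nat_lit 836) (nat_lit 0) (XT.lf (nat_lit 0) (nat_lit 13772256964) (nat_lit 456) (nat_lit 61959252) (nat_lit 76) (nat_lit 4367789051) (nat_lit 157) (nat_lit 5) (nat_lit 163) (nat_lit 5) (nat_lit 158) (nat_lit 5) (nat_lit 476) (nat_lit 416) (nat_lit 308)) (XT.nd (nat_lit 78) (nat_lit 380) (nat_lit 0) (XT.lf (nat_lit 0) (nat_lit 2251398747) (nat_lit 456) (nat_lit 1517001240) (nat_lit 76) (nat_lit 14766280854) (nat_lit 151) (nat_lit 5) (nat_lit 157) (nat_lit 5) (nat_lit 152) (nat_lit 5) (nat_lit 477) (nat_lit 416) (nat_lit 307)) (XT.lf (nat_lit 0) (nat_lit 9196505408) (nat_lit 456) (nat_lit 3044170147) (nat_lit 76) (nat_lit 6633602472) (nat_lit 146) (nat_lit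 5) (nat_lit 152) (nat_lit 5) (nat_lit 147) (nat_lit 5) (nat_lit 478) (nat_lit 416) (nat_lit 306))))) (XT.nd (nat_lit 234) (nat_lit 1368) (nat_lit 0) (XT.nd (nat_lit 78) (nat_lit 760) (nat_lit 0) (XT.lf (nat_lit 0) (nat_lit 14624111733) (nat_lit 304) (nat_lit 1832952130) (nat_lit 380) (nat_lit 2764858381) (nat_lit 142) (nat_lit 5) (nat_lit 146) (nat_lit 5) (nat_lit 147) (nat_lit 5) (nat_lit 479) (nat_lit 416) (nat_lit 305)) (XT.nd (nat_lit 78) (nat_lit 304) (nat_lit 0) (XT.lf (nat_lit 0) (nat_lit 4441461733) (nat_lit 456) (nat_lit 6241122674) (nat_lit 76) (nat_lit 8893984027) (nat_lit 136) (nat_lit 5) (nat_lit 142) (nat_lit 5) (nat_lit 137) (nat_lit 5) (nat_lit 480) (nat_lit 416) (nat_lit 304)) (XT.lf (nat_lit 0) (nat_lit 11926124620) (nat_lit 380) (nat_lit 7921470652) (nat_lit 76) (nat_lit 91899893) (nat_lit 132) (nat_lit 5) (nat_lit 137) (nat_lit 5) (nat_lit 133) (nat_lit 5) (nat_lit 481) (nat_lit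 416) (nat_lit 303)))) (XT.nd (nat_lit 156) (nat_lit 684) (nat_lit 0) (XT.nd (nat_lit 78) (nat_lit 380) (nat_lit 0) (XT.lf (nat_lit 0) (nat_lit 10629394430) (nat_lit 304) (nat_lit 9166544109) (nat_lit 380) (nat_lit 514159911) (nat_lit 128) (nat_lit 5) (nat_lit 132) (nat_lit 5) (nat_lit 133) (nat_lit 5) (nat_lit 482) (nat_lit 416) (nat_lit 302)) (XT.lf (nat_lit 0) (nat_lit 7219929580) (nat_lit 380) (nat_lit 11509996742) (nat_lit 76) (nat_lit 1958868927) (nat_lit 123) (nat_lit 5) (nat_lit 128) (nat_lit 5) (nat_lit 124) (nat_lit 5) (nat_lit 483) (nat_lit 416) (nat_lit 301))) (XT.nd (nat_lit 78) (nat_lit 380) (nat_lit 0) (XT.lf (nat_lit 0) (nat_lit 7658650548) (nat_lit 304) (nat_lit 7675694379) (nat_lit 380) (nat_lit 5741335181) (nat_lit 119) (nat_lit 5) (nat_lit 123) (nat_lit 5) (nat_lit 124) (nat_lit 5) (nat_lit 484) (nat_lit 416) (nat_lit 300)) (XT.lf (nat_lit 0) (nat_lit 2310491608) (nat_lit 380) (nat_lit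 15379605634) (nat_lit 76) (nat_lit 3781355909) (nat_lit 114) (nat_lit 5) (nat_lit 119) (nat_lit 5) (nat_lit 115) (nat_lit 5) (nat_lit 485) (nat_lit 416) (nat_lit 299))))))))
noncomputable def xc67 : XT := (XT.nd (nat_lit 58344) (nat_lit 0) (nat_lit 13908) (XT.nd (nat_lit 57330) (nat_lit 0) (nat_lit 34884) (XT.nd (nat_lit 468) (nat_lit 760) (nat_lit 0) (XT.nd (nat_lit 234) (nat_lit 608) (nat_lit 0) (XT.nd (nat_lit 78) (nat_lit 608) (nat_lit 0) (XT.lf (nat_lit 0) (nat_lit 4424924360) (nat_lit 304) (nat_lit 6251738331) (nat_lit 380) (nat_lit 11198662688) (nat_lit 110) (nat_lit 5) (nat_lit 114) (nat_lit 5) (nat_lit 115) (nat_lit 5) (nat_lit 486) (nat_lit 416) (nat_lit 298)) (XT.nd (nat_lit 78) (nat_lit 380) (nat_lit 0) (XT.lf (nat_lit 0) (nat_lit 2708909906) (nat_lit 228) (nat_lit 16722378644) (nat_lit 304) (nat_lit 2857276639) (nat_lit 107) (nat_lit 5) (nat_lit 110) (nat_lit 5) (nat_lit 111) (nat_lit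 5) (nat_lit 487) (nat_lit 416) (nat_lit 297)) (XT.lf (nat_lit 0) (nat_lit 897359967) (nat_lit 304) (nat_lit 4907772145) (nat_lit 380) (nat_lit 16905406462) (nat_lit 102) (nat_lit 5) (nat_lit 106) (nat_lit 5) (nat_lit 107) (nat_lit 5) (nat_lit 488) (nat_lit 416) (nat_lit 296)))) (XT.nd (nat_lit 78) (nat_lit 608) (nat_lit 0) (XT.lf (nat_lit 0) (nat_lit 14849129941) (nat_lit 380) (nat_lit 987323288) (nat_lit 76) (nat_lit 7305130227) (nat_lit 102) (nat_lit 5) (nat_lit 107) (nat_lit 5) (nat_lit 103) (nat_lit 5) (nat_lit 489) (nat_lit 416) (nat_lit 295)) (XT.nd (nat_lit 78) (nat_lit 304) (nat_lit 0) (XT.lf (nat_lit 0) (nat_lit 719488987) (nat_lit 304) (nat_lit 2919163487) (nat_lit 76) (nat_lit 19943868887) (nat_lit 98) (nat_lit 5) (nat_lit 102) (nat_lit 5) (nat_lit 99) (nat_lit 5) (nat_lit 490) (nat_lit 416) (nat_lit 294)) (XT.lf (nat_lit 0) (nat_lit 10060064496) (nat_lit 380) (nat_lit 4989982180) (nat_lit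 76) (nat_lit 8982126422) (nat_lit 94) (nat_lit 5) (nat_lit 99) (nat_lit 5) (nat_lit 95) (nat_lit 5) (nat_lit 491) (nat_lit 416) (nat_lit 293))))) (XT.nd (nat_lit 56628) (nat_lit 0) (nat_lit 40280) (XT.nd (nat_lit 78) (nat_lit 532) (nat_lit 0) (XT.lf (nat_lit 0) (nat_lit 17378028187) (nat_lit 228) (nat_lit 2440616811) (nat_lit 304) (nat_lit 4673914305) (nat_lit 91) (nat_lit 5) (nat_lit 94) (nat_lit 5) (nat_lit 95) (nat_lit 5) (nat_lit 492) (nat_lit 416) (nat_lit 292)) (XT.nd (nat_lit 78) (nat_lit 228) (nat_lit 0) (XT.lf (nat_lit 0) (nat_lit 5025071368) (nat_lit 304) (nat_lit 9373231056) (nat_lit 76) (nat_lit 10564095562) (nat_lit 87) (nat_lit 5) (nat_lit 91) (nat_lit 5) (nat_lit 88) (nat_lit 5) (nat_lit 493) (nat_lit 416) (nat_lit 291)) (XT.lf (nat_lit 0) (nat_lit 13725782268) (nat_lit 228) (nat_lit 1361273219) (nat_lit 304) (nat_lit 10355948490) (nat_lit 84) (nat_lit 5) (nat_lit 87) (nat_lit 5) (nat_lit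 88) (nat_lit 5) (nat_lit 494) (nat_lit 416) (nat_lit 290)))) (XT.nd (nat_lit 78) (nat_lit 0) (nat_lit 0) (XT.lf (nat_lit 0) (nat_lit 875945169) (nat_lit 0) (nat_lit 875945169) (nat_lit 1292) (nat_lit 2082400933) (nat_lit 614) (nat_lit 5) (nat_lit 614) (nat_lit 3) (nat_lit 631) (nat_lit 3) (nat_lit 417) (nat_lit 417) (nat_lit 366)) (XT.nd (nat_lit 78) (nat_lit 0) (nat_lit 0) (XT.lf (nat_lit 0) (nat_lit 5600544726) (nat_lit 1292) (nat_lit 232096256) (nat_lit 1368) (nat_lit 1909858749) (nat_lit 614) (nat_lit 5) (nat_lit 631) (nat_lit 3) (nat_lit 632) (nat_lit 5) (nat_lit 418) (nat_lit 417) (nat_lit 365)) (XT.lf (nat_lit 76) (nat_lit 5643845227) (nat_lit 0) (nat_lit 2085693796) (nat_lit 1368) (nat_lit 89717738) (nat_lit 615) (nat_lit 5) (nat_lit 614) (nat_lit 5) (nat_lit 632) (nat_lit 5) (nat_lit 419) (nat_lit 417) (nat_lit 364)))))) (XT.nd (nat_lit 468) (nat_lit 2736) (nat_lit 0) (XT.nd (nat_lit 234)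 (nat_lit 1368) (nat_lit 0) (XT.nd (nat_lit 78) (nat_lit 0) (nat_lit 0) (XT.lf (nat_lit 0) (nat_lit 1958262422) (nat_lit 1368) (nat_lit 4115371513) (nat_lit 1444) (nat_lit 1825213739) (nat_lit 597) (nat_lit 5) (nat_lit 615) (nat_lit 5) (nat_lit 616) (nat_lit 5) (nat_lit 420) (nat_lit 417) (nat_lit 363)) (XT.nd (nat_lit 78) (nat_lit 0) (nat_lit 76) (XT.lf (nat_lit 76) (nat_lit 1938226486) (nat_lit 0) (nat_lit 2094314414) (nat_lit 1444) (nat_lit 3948960200) (nat_lit 598) (nat_lit 5) (nat_lit 597) (nat_lit 5) (nat_lit 616) (nat_lit 5) (nat_lit 421) (nat_lit 417) (nat_lit 362)) (XT.lf (nat_lit 76) (nat_lit 107999886) (nat_lit 0) (nat_lit 6029655656) (nat_lit 1444) (nat_lit 1929614392) (nat_lit 599) (nat_lit 5) (nat_lit 598) (nat_lit 5) (nat_lit 617) (nat_lit 5) (nat_lit 422) (nat_lit 417) (nat_lit 361)))) (XT.nd (nat_lit 78) (nat_lit 0) (nat_lit 76) (XT.lf (nat_lit 0) (nat_lit 131760422) (nat_lit 1444)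 (nat_lit 1687667136) (nat_lit 1520) (nat_lit 6336503936) (nat_lit 579) (nat_lit 5) (nat_lit 598) (nat_lit 5) (nat_lit 599) (nat_lit 5) (nat_lit 423) (nat_lit 417) (nat_lit 360)) (XT.nd (nat_lit 78) (nat_lit 0) (nat_lit 0) (XT.lf (nat_lit 0) (nat_lit 2207029911) (nat_lit 1444) (nat_lit 3485596396) (nat_lit 1520) (nat_lit 2554813471) (nat_lit 580) (nat_lit 5) (nat_lit 599) (nat_lit 5) (nat_lit 600) (nat_lit 5) (nat_lit 424) (nat_lit 417) (nat_lit 359)) (XT.lf (nat_lit 76) (nat_lit 3070799030) (nat_lit 0) (nat_lit 1249583059) (nat_lit 1520) (nat_lit 4021801874) (nat_lit 581) (nat_lit 5) (nat_lit 580) (nat_lit 5) (nat_lit 600) (nat_lit 5) (nat_lit 425) (nat_lit 417) (nat_lit 358))))) (XT.nd (nat_lit 234) (nat_lit 1368) (nat_lit 0) (XT.nd (nat_lit 78) (nat_lit 1520) (nat_lit 0) (XT.lf (nat_lit 76) (nat_lit 1384220613) (nat_lit 0) (nat_lit 5101329945) (nat_lit 1520) (nat_lit 1954458537) (nat_lit 582) (nat_lit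 5) (nat_lit 581) (nat_lit 5) (nat_lit 601) (nat_lit 5) (nat_lit 426) (nat_lit 417) (nat_lit 357)) (XT.nd (nat_lit 78) (nat_lit 0) (nat_lit 76) (XT.lf (nat_lit 0) (nat_lit 152182032) (nat_lit 1520) (nat_lit 282756194) (nat_lit 1596) (nat_lit 8106223226) (nat_lit 561) (nat_lit 5) (nat_lit 581) (nat_lit 5) (nat_lit 582) (nat_lit 5) (nat_lit 427) (nat_lit 417) (nat_lit 356)) (XT.lf (nat_lit 0) (nat_lit 2305312500) (nat_lit 1520) (nat_lit 1949085295) (nat_lit 1596) (nat_lit 4390501735) (nat_lit 562) (nat_lit 5) (nat_lit 582) (nat_lit 5) (nat_lit 583) (nat_lit 5) (nat_lit 428) (nat_lit 417) (nat_lit 355)))) (XT.nd (nat_lit 156) (nat_lit 1520) (nat_lit 0) (XT.nd (nat_lit 78) (nat_lit 0) (nat_lit 0) (XT.lf (nat_lit 0) (nat_lit 4504435017) (nat_lit 1520) (nat_lit 3599839645) (nat_lit 1596) (nat_lit 647853348) (nat_lit 563) (nat_lit 5) (nat_lit 583) (nat_lit 5) (nat_lit 584) (nat_lit 5) (nat_lit 429) (nat_lit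 417) (nat_lit 354)) (XT.lf (nat_lit 76) (nat_lit 3605251754) (nat_lit 0) (nat_lit 3169859279) (nat_lit 1596) (nat_lit 2087356756) (nat_lit 564) (nat_lit 5) (nat_lit 563) (nat_lit 5) (nat_lit 584) (nat_lit 5) (nat_lit 430) (nat_lit 417) (nat_lit 353))) (XT.nd (nat_lit 78) (nat_lit 0) (nat_lit 0) (XT.lf (nat_lit 0) (nat_lit 128305611) (nat_lit 1596) (nat_lit 6907519836) (nat_lit 1672) (nat_lit 1940433709) (nat_lit 543) (nat_lit 5) (nat_lit 564) (nat_lit 5) (nat_lit 565) (nat_lit 5) (nat_lit 431) (nat_lit 417) (nat_lit 352)) (XT.lf (nat_lit 76) (nat_lit 519973316) (nat_lit 0) (nat_lit 1865692639) (nat_lit 1672) (nat_lit 6707456202) (nat_lit 544) (nat_lit 5) (nat_lit 543) (nat_lit 5) (nat_lit 565) (nat_lit 5) (nat_lit 432) (nat_lit 417) (nat_lit 351))))))) (XT.nd (nat_lit 1014) (nat_lit 7752) (nat_lit 0) (XT.nd (nat_lit 468) (nat_lit 5320) (nat_lit 0) (XT.nd (nat_lit 234) (nat_lit 4636) (nat_lit 0) (XT.nd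 (nat_lit 78) (nat_lit 3344) (nat_lit 0) (XT.lf (nat_lit 0) (nat_lit 4724762085) (nat_lit 1596) (nat_lit 1016079003) (nat_lit 76) (nat_lit 3472375081) (nat_lit 544) (nat_lit 5) (nat_lit 565) (nat_lit 5) (nat_lit 545) (nat_lit 5) (nat_lit 433) (nat_lit 417) (nat_lit 350)) (XT.nd (nat_lit 78) (nat_lit 1748) (nat_lit 0) (XT.lf (nat_lit 0) (nat_lit 6800144387) (nat_lit 1596) (nat_lit 336568646) (nat_lit 1672) (nat_lit 2200151593) (nat_lit 523) (nat_lit 5) (nat_lit 544) (nat_lit 5) (nat_lit 545) (nat_lit 5) (nat_lit 434) (nat_lit 417) (nat_lit 349)) (XT.lf (nat_lit 0) (nat_lit 178194224) (nat_lit 1748) (nat_lit 4072196626) (nat_lit 76) (nat_lit 5213347319) (nat_lit 500) (nat_lit 5) (nat_lit 523) (nat_lit 5) (nat_lit 501) (nat_lit 5) (nat_lit 435) (nat_lit 417) (nat_lit 348)))) (XT.nd (nat_lit 78) (nat_lit 2888) (nat_lit 0) (XT.lf (nat_lit 0) (nat_lit 2600995851) (nat_lit 1824) (nat_lit 5614419626) (nat_lit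 76) (nat_lit 1378656510) (nat_lit 477) (nat_lit 5) (nat_lit 501) (nat_lit 5) (nat_lit 478) (nat_lit 5) (nat_lit 436) (nat_lit 417) (nat_lit 347)) (XT.nd (nat_lit 78) (nat_lit 1064) (nat_lit 0) (XT.lf (nat_lit 0) (nat_lit 2561049253) (nat_lit 1824) (nat_lit 2557828576) (nat_lit 1900) (nat_lit 4608994785) (nat_lit 453) (nat_lit 5) (nat_lit 477) (nat_lit 5) (nat_lit 478) (nat_lit 5) (nat_lit 437) (nat_lit 417) (nat_lit 346)) (XT.lf (nat_lit 0) (nat_lit 1141945305) (nat_lit 1064) (nat_lit 6588070998) (nat_lit 1140) (nat_lit 2135321140) (nat_lit 439) (nat_lit 5) (nat_lit 453) (nat_lit 5) (nat_lit 454) (nat_lit 5) (nat_lit 438) (nat_lit 417) (nat_lit 345))))) (XT.nd (nat_lit 234) (nat_lit 3420) (nat_lit 0) (XT.nd (nat_lit 78) (nat_lit 1824) (nat_lit 0) (XT.lf (nat_lit 0) (nat_lit 424746269) (nat_lit 1140) (nat_lit 273154922) (nat_lit 76) (nat_lit 9308623929) (nat_lit 438) (nat_lit 5) (nat_lit 453) (nat_lit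 5) (nat_lit 439) (nat_lit 5) (nat_lit 439) (nat_lit 417) (nat_lit 344)) (XT.nd (nat_lit 78) (nat_lit 912) (nat_lit 0) (XT.lf (nat_lit 0) (nat_lit 3076203379) (nat_lit 988) (nat_lit 1703125095) (nat_lit 76) (nat_lit 5371469933) (nat_lit 426) (nat_lit 5) (nat_lit 439) (nat_lit 5) (nat_lit 427) (nat_lit 5) (nat_lit 440) (nat_lit 417) (nat_lit 343)) (XT.lf (nat_lit 0) (nat_lit 5823335354) (nat_lit 988) (nat_lit 3128220012) (nat_lit 76) (nat_lit 1347526016) (nat_lit 414) (nat_lit 5) (nat_lit 427) (nat_lit 5) (nat_lit 415) (nat_lit 5) (nat_lit 441) (nat_lit 417) (nat_lit 342)))) (XT.nd (nat_lit 156) (nat_lit 1672) (nat_lit 0) (XT.nd (nat_lit 78) (nat_lit 912) (nat_lit 0) (XT.lf (nat_lit 0) (nat_lit 5883645614) (nat_lit 836) (nat_lit 2806197991) (nat_lit 912) (nat_lit 1761233990) (nat_lit 403) (nat_lit 5) (nat_lit 414) (nat_lit 5) (nat_lit 415) (nat_lit 5) (nat_lit 442) (nat_lit 417) (nat_lit 341)) (XT.lf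 (nat_lit 0) (nat_lit 1051590744) (nat_lit 912) (nat_lit 6019679058) (nat_lit 76) (nat_lit 3535624376) (nat_lit 391) (nat_lit 5) (nat_lit 403) (nat_lit 5) (nat_lit 392) (nat_lit 5) (nat_lit 443) (nat_lit 417) (nat_lit 340))) (XT.nd (nat_lit 78) (nat_lit 836) (nat_lit 0) (XT.lf (nat_lit 0) (nat_lit 3280228721) (nat_lit 836) (nat_lit 672910155) (nat_lit 912) (nat_lit 6813451899) (nat_lit 380) (nat_lit 5) (nat_lit 391) (nat_lit 5) (nat_lit 392) (nat_lit 5) (nat_lit 444) (nat_lit 417) (nat_lit 339)) (XT.lf (nat_lit 0) (nat_lit 1953788559) (nat_lit 836) (nat_lit 5037985305) (nat_lit 912) (nat_lit 3938307179) (nat_lit 369) (nat_lit 5) (nat_lit 380) (nat_lit 5) (nat_lit 381) (nat_lit 5) (nat_lit 445) (nat_lit 417) (nat_lit 338)))))) (XT.nd (nat_lit 468) (nat_lit 3952) (nat_lit 0) (XT.nd (nat_lit 234) (nat_lit 2204) (nat_lit 0) (XT.nd (nat_lit 78) (nat_lit 836) (nat_lit 0) (XT.lf (nat_lit 0) (nat_lit 631080164)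 (nat_lit 760) (nat_lit 9518963694) (nat_lit 836) (nat_lit 947866122) (nat_lit 359) (nat_lit 5) (nat_lit 369) (nat_lit 5) (nat_lit 370) (nat_lit 5) (nat_lit 446) (nat_lit 417) (nat_lit 337)) (XT.nd (nat_lit 78) (nat_lit 760) (nat_lit 0) (XT.lf (nat_lit 0) (nat_lit 2158689676) (nat_lit 836) (nat_lit 712278581) (nat_lit 76) (nat_lit 8398444615) (nat_lit 358) (nat_lit 5) (nat_lit 369) (nat_lit 5) (nat_lit 359) (nat_lit 5) (nat_lit 447) (nat_lit 417) (nat_lit 336)) (XT.lf (nat_lit 0) (nat_lit 5393595209) (nat_lit 836) (nat_lit 2062808194) (nat_lit 76) (nat_lit 3988574740) (nat_lit 348) (nat_lit 5) (nat_lit 359) (nat_lit 5) (nat_lit 349) (nat_lit 5) (nat_lit 448) (nat_lit 417) (nat_lit 335)))) (XT.nd (nat_lit 78) (nat_lit 1520) (nat_lit 0) (XT.lf (nat_lit 0) (nat_lit 8208831870) (nat_lit 684) (nat_lit 555545987) (nat_lit 760) (nat_lit 2860659036) (nat_lit 339) (nat_lit 5) (nat_lit 348) (nat_lit 5) (nat_lit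 349) (nat_lit 5) (nat_lit 449) (nat_lit 417) (nat_lit 334)) (XT.nd (nat_lit 78) (nat_lit 684) (nat_lit 0) (XT.lf (nat_lit 0) (nat_lit 485062245) (nat_lit 836) (nat_lit 4799535183) (nat_lit 76) (nat_lit 6524550458) (nat_lit 328) (nat_lit 5) (nat_lit 339) (nat_lit 5) (nat_lit 329) (nat_lit 5) (nat_lit 450) (nat_lit 417) (nat_lit 333)) (XT.lf (nat_lit 0) (nat_lit 3932348768) (nat_lit 760) (nat_lit 6203203151) (nat_lit 76) (nat_lit 1862053821) (nat_lit 319) (nat_lit 5) (nat_lit 329) (nat_lit 5) (nat_lit 320) (nat_lit 5) (nat_lit 451) (nat_lit 417) (nat_lit 332))))) (XT.nd (nat_lit 234) (nat_lit 1900) (nat_lit 0) (XT.nd (nat_lit 78) (nat_lit 1368) (nat_lit 0) (XT.lf (nat_lit 0) (nat_lit 4562162360) (nat_lit 684) (nat_lit 2982227202) (nat_lit 760) (nat_lit 4646103853) (nat_lit 310) (nat_lit 5) (nat_lit 319) (nat_lit 5) (nat_lit 320) (nat_lit 5) (nat_lit 452) (nat_lit 417) (nat_lit 331)) (XT.nd (nat_lit 78)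 (nat_lit 760) (nat_lit 0) (XT.lf (nat_lit 0) (nat_lit 3318968871) (nat_lit 608) (nat_lit 8002537909) (nat_lit 684) (nat_lit 1066529355) (nat_lit 302) (nat_lit 5) (nat_lit 310) (nat_lit 5) (nat_lit 311) (nat_lit 5) (nat_lit 453) (nat_lit 417) (nat_lit 330)) (XT.lf (nat_lit 0) (nat_lit 2055642750) (nat_lit 684) (nat_lit 580654919) (nat_lit 760) (nat_lit 9953865129) (nat_lit 292) (nat_lit 5) (nat_lit 301) (nat_lit 5) (nat_lit 302) (nat_lit 5) (nat_lit 454) (nat_lit 417) (nat_lit 329)))) (XT.nd (nat_lit 156) (nat_lit 1292) (nat_lit 0) (XT.nd (nat_lit 78) (nat_lit 0) (nat_lit 0) (XT.lf (nat_lit 0) (nat_lit 755007838) (nat_lit 608) (nat_lit 5759030138) (nat_lit 684) (nat_lit 6282610433) (nat_lit 284) (nat_lit 5) (nat_lit 292) (nat_lit 5) (nat_lit 293) (nat_lit 5) (nat_lit 455) (nat_lit 417) (nat_lit 328)) (XT.lf (nat_lit 0) (nat_lit 10562234486) (nat_lit 684) (nat_lit 539466502) (nat_lit 76) (nat_lit 1906547560)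 (nat_lit 284) (nat_lit 5) (nat_lit 293) (nat_lit 5) (nat_lit 285) (nat_lit 5) (nat_lit 456) (nat_lit 417) (nat_lit 327))) (XT.nd (nat_lit 78) (nat_lit 608) (nat_lit 0) (XT.lf (nat_lit 0) (nat_lit 1566106046) (nat_lit 684) (nat_lit 1857728459) (nat_lit 76) (nat_lit 9800565527) (nat_lit 275) (nat_lit 5) (nat_lit 284) (nat_lit 5) (nat_lit 276) (nat_lit 5) (nat_lit 457) (nat_lit 417) (nat_lit 326)) (XT.lf (nat_lit 0) (nat_lit 5733265926) (nat_lit 684) (nat_lit 3207940128) (nat_lit 76) (nat_lit 4504150739) (nat_lit 267) (nat_lit 5) (nat_lit 276) (nat_lit 5) (nat_lit 268) (nat_lit 5) (nat_lit 458) (nat_lit 417) (nat_lit 325))))))))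
noncomputable def xc68 : XT := (XT.nd (nat_lit 1950) (nat_lit 3268) (nat_lit 0) (XT.nd (nat_lit 936) (nat_lit 4788) (nat_lit 0) (XT.nd (nat_lit 468) (nat_lit 2508) (nat_lit 0) (XT.nd (nat_lit 234) (nat_lit 1596) (nat_lit 0) (XT.nd (nat_lit 78) (nat_lit 1140) (nat_lit 0) (XT.lf (nat_lit 0) (nat_lit 9103605878) (nat_lit 608) (nat_lit 984871916) (nat_lit 684) (nat_lit 3583205908) (nat_lit 259) (nat_lit 5) (nat_lit 267) (nat_lit 5) (nat_lit 268) (nat_lit 5) (nat_lit 459) (nat_lit 417) (nat_lit 324)) (XT.nd (nat_lit 78) (nat_lit 532) (nat_lit 0) (XT.lf (nat_lit 0) (nat_lit 750563523) (nat_lit 608) (nat_lit 5967591189) (nat_lit 76) (nat_lit 7184764863) (nat_lit 251) (nat_lit 5) (nat_lit 259) (nat_lit 5) (nat_lit 252) (nat_lit 5) (nat_lit 460) (nat_lit 417) (nat_lit 323)) (XT.lf (nat_lit 0) (nat_lit 5226908207) (nat_lit 608) (nat_lit 7396469317) (nat_lit 76) (nat_lit 1516018444) (nat_lit 244) (nat_lit 5)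 (nat_lit 252) (nat_lit 5) (nat_lit 245) (nat_lit 5) (nat_lit 461) (nat_lit 417) (nat_lit 322)))) (XT.nd (nat_lit 78) (nat_lit 1064) (nat_lit 0) (XT.lf (nat_lit 0) (nat_lit 5521017457) (nat_lit 532) (nat_lit 4407973285) (nat_lit 608) (nat_lit 4452148926) (nat_lit 237) (nat_lit 5) (nat_lit 244) (nat_lit 5) (nat_lit 245) (nat_lit 5) (nat_lit 462) (nat_lit 417) (nat_lit 321)) (XT.nd (nat_lit 78) (nat_lit 456) (nat_lit 0) (XT.lf (nat_lit 0) (nat_lit 215759663) (nat_lit 608) (nat_lit 10342687707) (nat_lit 76) (nat_lit 4070159298) (nat_lit 229) (nat_lit 5) (nat_lit 237) (nat_lit 5) (nat_lit 230) (nat_lit 5) (nat_lit 463) (nat_lit 417) (nat_lit 320)) (XT.lf (nat_lit 0) (nat_lit 3005001717) (nat_lit 456) (nat_lit 2038910954) (nat_lit 532) (nat_lit 9837384359) (nat_lit 223) (nat_lit 5) (nat_lit 229) (nat_lit 5) (nat_lit 230) (nat_lit 5) (nat_lit 464) (nat_lit 417) (nat_lit 319))))) (XT.nd (nat_lit 234) (nat_lit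 1444) (nat_lit 0) (XT.nd (nat_lit 78) (nat_lit 532) (nat_lit 0) (XT.lf (nat_lit 0) (nat_lit 1692592799) (nat_lit 532) (nat_lit 8421036552) (nat_lit 608) (nat_lit 5026006132) (nat_lit 216) (nat_lit 5) (nat_lit 223) (nat_lit 5) (nat_lit 224) (nat_lit 5) (nat_lit 465) (nat_lit 417) (nat_lit 318)) (XT.nd (nat_lit 78) (nat_lit 0) (nat_lit 0) (XT.lf (nat_lit 0) (nat_lit 2033643) (nat_lit 532) (nat_lit 15028227448) (nat_lit 76) (nat_lit 374045835) (nat_lit 209) (nat_lit 5) (nat_lit 216) (nat_lit 5) (nat_lit 210) (nat_lit 5) (nat_lit 466) (nat_lit 417) (nat_lit 317)) (XT.lf (nat_lit 0) (nat_lit 5233386998) (nat_lit 532) (nat_lit 1007162975) (nat_lit 76) (nat_lit 9433290606) (nat_lit 209) (nat_lit 5) (nat_lit 216) (nat_lit 5) (nat_lit 210) (nat_lit 5) (nat_lit 467) (nat_lit 417) (nat_lit 316)))) (XT.nd (nat_lit 78) (nat_lit 988) (nat_lit 0) (XT.lf (nat_lit 0) (nat_lit 10701718608) (nat_lit 532) (nat_lit 2394794081)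 (nat_lit 76) (nat_lit 2853348380) (nat_lit 203) (nat_lit 5) (nat_lit 210) (nat_lit 5) (nat_lit 204) (nat_lit 5) (nat_lit 468) (nat_lit 417) (nat_lit 315)) (XT.nd (nat_lit 78) (nat_lit 456) (nat_lit 0) (XT.lf (nat_lit 0) (nat_lit 202124699) (nat_lit 532) (nat_lit 3816621729) (nat_lit 76) (nat_lit 12213334325) (nat_lit 196) (nat_lit 5) (nat_lit 203) (nat_lit 5) (nat_lit 197) (nat_lit 5) (nat_lit 469) (nat_lit 417) (nat_lit 314)) (XT.lf (nat_lit 0) (nat_lit 5843724973) (nat_lit 532) (nat_lit 5301306226) (nat_lit 76) (nat_lit 5375060948) (nat_lit 190) (nat_lit 5) (nat_lit 197) (nat_lit 5) (nat_lit 191) (nat_lit 5) (nat_lit 470) (nat_lit 417) (nat_lit 313)))))) (XT.nd (nat_lit 468) (nat_lit 2280) (nat_lit 0) (XT.nd (nat_lit 234) (nat_lit 1216) (nat_lit 0) (XT.nd (nat_lit 78) (nat_lit 912) (nat_lit 0) (XT.lf (nat_lit 0) (nat_lit 10007750466) (nat_lit 380) (nat_lit 1739097856) (nat_lit 456) (nat_lit 5068051478)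 (nat_lit 185) (nat_lit 5) (nat_lit 190) (nat_lit 5) (nat_lit 191) (nat_lit 5) (nat_lit 471) (nat_lit 417) (nat_lit 312)) (XT.nd (nat_lit 78) (nat_lit 380) (nat_lit 0) (XT.lf (nat_lit 0) (nat_lit 819450036) (nat_lit 532) (nat_lit 8365294554) (nat_lit 76) (nat_lit 7931311867) (nat_lit 178) (nat_lit 5) (nat_lit 185) (nat_lit 5) (nat_lit 179) (nat_lit 5) (nat_lit 472) (nat_lit 417) (nat_lit 311)) (XT.lf (nat_lit 0) (nat_lit 6900388183) (nat_lit 456) (nat_lit 9969599408) (nat_lit 76) (nat_lit 553878205) (nat_lit 173) (nat_lit 5) (nat_lit 179) (nat_lit 5) (nat_lit 174) (nat_lit 5) (nat_lit 473) (nat_lit 417) (nat_lit 310)))) (XT.nd (nat_lit 78) (nat_lit 836) (nat_lit 0) (XT.lf (nat_lit 0) (nat_lit 6104337031) (nat_lit 380) (nat_lit 7193085649) (nat_lit 456) (nat_lit 4440814644) (nat_lit 168) (nat_lit 5) (nat_lit 173) (nat_lit 5) (nat_lit 174) (nat_lit 5) (nat_lit 474) (nat_lit 417) (nat_lit 309)) (XT.nd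 (nat_lit 78) (nat_lit 380) (nat_lit 0) (XT.lf (nat_lit 0) (nat_lit 1893771846) (nat_lit 456) (nat_lit 13329495262) (nat_lit 76) (nat_lit 2836669805) (nat_lit 162) (nat_lit 5) (nat_lit 168) (nat_lit 5) (nat_lit 163) (nat_lit 5) (nat_lit 475) (nat_lit 417) (nat_lit 308)) (XT.lf (nat_lit 0) (nat_lit 3283403664) (nat_lit 380) (nat_lit 5200034394) (nat_lit 456) (nat_lit 9904756023) (nat_lit 157) (nat_lit 5) (nat_lit 162) (nat_lit 5) (nat_lit 163) (nat_lit 5) (nat_lit 476) (nat_lit 417) (nat_lit 307))))) (XT.nd (nat_lit 234) (nat_lit 1444) (nat_lit 0) (XT.nd (nat_lit 78) (nat_lit 456) (nat_lit 0) (XT.lf (nat_lit 0) (nat_lit 1806098476) (nat_lit 380) (nat_lit 13577241468) (nat_lit 456) (nat_lit 3340709249) (nat_lit 152) (nat_lit 5) (nat_lit 157) (nat_lit 5) (nat_lit 158) (nat_lit 5) (nat_lit 477) (nat_lit 417) (nat_lit 306)) (XT.nd (nat_lit 78) (nat_lit 0) (nat_lit 0) (XT.lf (nat_lit 0) (nat_lit 272964695)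 (nat_lit 380) (nat_lit 3218940794) (nat_lit 456) (nat_lit 15575301346) (nat_lit 146) (nat_lit 5) (nat_lit 151) (nat_lit 5) (nat_lit 152) (nat_lit 5) (nat_lit 478) (nat_lit 417) (nat_lit 305)) (XT.lf (nat_lit 0) (nat_lit 10625423871) (nat_lit 456) (nat_lit 1314532716) (nat_lit 76) (nat_lit 7477435785) (nat_lit 146) (nat_lit 5) (nat_lit 152) (nat_lit 5) (nat_lit 147) (nat_lit 5) (nat_lit 479) (nat_lit 417) (nat_lit 304)))) (XT.nd (nat_lit 156) (nat_lit 684) (nat_lit 0) (XT.nd (nat_lit 78) (nat_lit 456) (nat_lit 0) (XT.lf (nat_lit 0) (nat_lit 16854254667) (nat_lit 304) (nat_lit 1227592293) (nat_lit 380) (nat_lit 1694059556) (nat_lit 142) (nat_lit 5) (nat_lit 146) (nat_lit 5) (nat_lit 147) (nat_lit 5) (nat_lit 480) (nat_lit 417) (nat_lit 303)) (XT.lf (nat_lit 0) (nat_lit 5695981594) (nat_lit 456) (nat_lit 4632962107) (nat_lit 76) (nat_lit 9812446799) (nat_lit 136) (nat_lit 5) (nat_lit 142) (nat_lit 5)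 (nat_lit 137) (nat_lit 5) (nat_lit 481) (nat_lit 417) (nat_lit 302))) (XT.nd (nat_lit 78) (nat_lit 380) (nat_lit 0) (XT.lf (nat_lit 0) (nat_lit 13388318902) (nat_lit 380) (nat_lit 6375124218) (nat_lit 76) (nat_lit 752100663) (nat_lit 132) (nat_lit 5) (nat_lit 137) (nat_lit 5) (nat_lit 133) (nat_lit 5) (nat_lit 482) (nat_lit 417) (nat_lit 301)) (XT.lf (nat_lit 0) (nat_lit 568221496) (nat_lit 380) (nat_lit 8198096622) (nat_lit 76) (nat_lit 12131289128) (nat_lit 127) (nat_lit 5) (nat_lit 132) (nat_lit 5) (nat_lit 128) (nat_lit 5) (nat_lit 483) (nat_lit 417) (nat_lit 300))))))) (XT.nd (nat_lit 57330) (nat_lit 0) (nat_lit 36252) (XT.nd (nat_lit 468) (nat_lit 1368) (nat_lit 0) (XT.nd (nat_lit 234) (nat_lit 912) (nat_lit 0) (XT.nd (nat_lit 78) (nat_lit 684) (nat_lit 0) (XT.lf (nat_lit 0) (nat_lit 8511271650) (nat_lit 380) (nat_lit 10097317101) (nat_lit 76) (nat_lit 2679331089) (nat_lit 123) (nat_lit 5) (nat_lit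 128) (nat_lit 5) (nat_lit 124) (nat_lit 5) (nat_lit 484) (nat_lit 417) (nat_lit 299)) (XT.nd (nat_lit 78) (nat_lit 380) (nat_lit 0) (XT.lf (nat_lit 0) (nat_lit 9617868479) (nat_lit 304) (nat_lit 7231176542) (nat_lit 380) (nat_lit 4837769007) (nat_lit 119) (nat_lit 5) (nat_lit 123) (nat_lit 5) (nat_lit 124) (nat_lit 5) (nat_lit 485) (nat_lit 417) (nat_lit 298)) (XT.lf (nat_lit 0) (nat_lit 3426089228) (nat_lit 380) (nat_lit 14109164759) (nat_lit 76) (nat_lit 4559376087) (nat_lit 114) (nat_lit 5) (nat_lit 119) (nat_lit 5) (nat_lit 115) (nat_lit 5) (nat_lit 486) (nat_lit 417) (nat_lit 297)))) (XT.nd (nat_lit 78) (nat_lit 608) (nat_lit 0) (XT.lf (nat_lit 0) (nat_lit 6261404266) (nat_lit 304) (nat_lit 5762428678) (nat_lit 380) (nat_lit 10487174969) (nat_lit 110) (nat_lit 5) (nat_lit 114) (nat_lit 5) (nat_lit 115) (nat_lit 5) (nat_lit 487) (nat_lit 417) (nat_lit 296)) (XT.nd (nat_lit 78) (nat_lit 380) (nat_lit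 0) (XT.lf (nat_lit 0) (nat_lit 4482188396) (nat_lit 228) (nat_lit 16544252632) (nat_lit 304) (nat_lit 1910498180) (nat_lit 107) (nat_lit 5) (nat_lit 110) (nat_lit 5) (nat_lit 111) (nat_lit 5) (nat_lit 488) (nat_lit 417) (nat_lit 295)) (XT.lf (nat_lit 0) (nat_lit 2602200063) (nat_lit 304) (nat_lit 4377257244) (nat_lit 380) (nat_lit 16392357202) (nat_lit 102) (nat_lit 5) (nat_lit 106) (nat_lit 5) (nat_lit 107) (nat_lit 5) (nat_lit 489) (nat_lit 417) (nat_lit 294))))) (XT.nd (nat_lit 234) (nat_lit 760) (nat_lit 0) (XT.nd (nat_lit 78) (nat_lit 380) (nat_lit 0) (XT.lf (nat_lit 0) (nat_lit 635625519) (nat_lit 228) (nat_lit 15638417475) (nat_lit 304) (nat_lit 7542163456) (nat_lit 99) (nat_lit 5) (nat_lit 102) (nat_lit 5) (nat_lit 103) (nat_lit 5) (nat_lit 490) (nat_lit 417) (nat_lit 293)) (XT.nd (nat_lit 78) (nat_lit 304) (nat_lit 0) (XT.lf (nat_lit 0) (nat_lit 1704855684) (nat_lit 304) (nat_lit 1376339779)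 (nat_lit 76) (nat_lit 21189491893) (nat_lit 98) (nat_lit 5) (nat_lit 102) (nat_lit 5) (nat_lit 99) (nat_lit 5) (nat_lit 491) (nat_lit 417) (nat_lit 292)) (XT.lf (nat_lit 0) (nat_lit 11312262048) (nat_lit 380) (nat_lit 3521049828) (nat_lit 76) (nat_lit 9900785488) (nat_lit 94) (nat_lit 5) (nat_lit 99) (nat_lit 5) (nat_lit 95) (nat_lit 5) (nat_lit 492) (nat_lit 417) (nat_lit 291)))) (XT.nd (nat_lit 78) (nat_lit 532) (nat_lit 0) (XT.lf (nat_lit 0) (nat_lit 19491740472) (nat_lit 228) (nat_lit 1854516799) (nat_lit 304) (nat_lit 3862385699) (nat_lit 91) (nat_lit 5) (nat_lit 94) (nat_lit 5) (nat_lit 95) (nat_lit 5) (nat_lit 493) (nat_lit 417) (nat_lit 290)) (XT.nd (nat_lit 78) (nat_lit 228) (nat_lit 0) (XT.lf (nat_lit 0) (nat_lit 6102244625) (nat_lit 304) (nat_lit 8061370169) (nat_lit 76) (nat_lit 11529096199) (nat_lit 87) (nat_lit 5) (nat_lit 91) (nat_lit 5) (nat_lit 88) (nat_lit 5) (nat_lit 494) (nat_lit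 417) (nat_lit 289)) (XT.lf (nat_lit 0) (nat_lit 15704768084) (nat_lit 228) (nat_lit 744512426) (nat_lit 304) (nat_lit 9738791698) (nat_lit 84) (nat_lit 5) (nat_lit 87) (nat_lit 5) (nat_lit 88) (nat_lit 5) (nat_lit 495) (nat_lit 417) (nat_lit 288)))))) (XT.nd (nat_lit 468) (nat_lit 1368) (nat_lit 0) (XT.nd (nat_lit 234) (nat_lit 1292) (nat_lit 0) (XT.nd (nat_lit 78) (nat_lit 1368) (nat_lit 0) (XT.lf (nat_lit 0) (nat_lit 1908280068) (nat_lit 0) (nat_lit 1908280068) (nat_lit 1292) (nat_lit 92292393) (nat_lit 614) (nat_lit 5) (nat_lit 614) (nat_lit 3) (nat_lit 631) (nat_lit 3) (nat_lit 418) (nat_lit 418) (nat_lit 364)) (XT.nd (nat_lit 78) (nat_lit 0) (nat_lit 0) (XT.lf (nat_lit 0) (nat_lit 1755233673) (nat_lit 1368) (nat_lit 6078054014) (nat_lit 1444) (nat_lit 62694526) (nat_lit 596) (nat_lit 5) (nat_lit 614) (nat_lit 5) (nat_lit 615) (nat_lit 5) (nat_lit 419) (nat_lit 418) (nat_lit 363)) (XT.lf (nat_lit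 0) (nat_lit 3728312999) (nat_lit 1368) (nat_lit 177303353) (nat_lit 1444) (nat_lit 4071423649) (nat_lit 596) (nat_lit 5) (nat_lit 614) (nat_lit 5) (nat_lit 615) (nat_lit 5) (nat_lit 420) (nat_lit 418) (nat_lit 362)))) (XT.nd (nat_lit 78) (nat_lit 1368) (nat_lit 0) (XT.lf (nat_lit 0) (nat_lit 5727461866) (nat_lit 1368) (nat_lit 2123708769) (nat_lit 1444) (nat_lit 210029306) (nat_lit 597) (nat_lit 5) (nat_lit 615) (nat_lit 5) (nat_lit 616) (nat_lit 5) (nat_lit 421) (nat_lit 418) (nat_lit 361)) (XT.nd (nat_lit 78) (nat_lit 1368) (nat_lit 0) (XT.lf (nat_lit 76) (nat_lit 4077181798) (nat_lit 0) (nat_lit 3692225484) (nat_lit 1444) (nat_lit 378828687) (nat_lit 598) (nat_lit 5) (nat_lit 597) (nat_lit 5) (nat_lit 616) (nat_lit 5) (nat_lit 422) (nat_lit 418) (nat_lit 360)) (XT.lf (nat_lit 0) (nat_lit 1576931213) (nat_lit 1444) (nat_lit 6009361987) (nat_lit 1520) (nat_lit 652112101) (nat_lit 579) (nat_lit 5)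 (nat_lit 598) (nat_lit 5) (nat_lit 599) (nat_lit 5) (nat_lit 423) (nat_lit 418) (nat_lit 359))))) (XT.nd (nat_lit 234) (nat_lit 1368) (nat_lit 0) (XT.nd (nat_lit 78) (nat_lit 0) (nat_lit 76) (XT.lf (nat_lit 76) (nat_lit 379084293) (nat_lit 0) (nat_lit 3194398538) (nat_lit 1520) (nat_lit 4758008629) (nat_lit 580) (nat_lit 5) (nat_lit 579) (nat_lit 5) (nat_lit 599) (nat_lit 5) (nat_lit 424) (nat_lit 418) (nat_lit 358)) (XT.nd (nat_lit 78) (nat_lit 0) (nat_lit 0) (XT.lf (nat_lit 0) (nat_lit 5613734656) (nat_lit 1444) (nat_lit 1436449433) (nat_lit 1520) (nat_lit 1377516980) (nat_lit 580) (nat_lit 5) (nat_lit 599) (nat_lit 5) (nat_lit 600) (nat_lit 5) (nat_lit 425) (nat_lit 418) (nat_lit 357)) (XT.lf (nat_lit 76) (nat_lit 5281696391) (nat_lit 0) (nat_lit 2425251554) (nat_lit 1520) (nat_lit 820020677) (nat_lit 581) (nat_lit 5) (nat_lit 580) (nat_lit 5) (nat_lit 600) (nat_lit 5) (nat_lit 426) (nat_lit 418)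 (nat_lit 356)))) (XT.nd (nat_lit 156) (nat_lit 0) (nat_lit 76) (XT.nd (nat_lit 78) (nat_lit 0) (nat_lit 0) (XT.lf (nat_lit 0) (nat_lit 1203539241) (nat_lit 1520) (nat_lit 5055582768) (nat_lit 1596) (nat_lit 2370218864) (nat_lit 561) (nat_lit 5) (nat_lit 581) (nat_lit 5) (nat_lit 582) (nat_lit 5) (nat_lit 427) (nat_lit 418) (nat_lit 355)) (XT.lf (nat_lit 76) (nat_lit 1868026681) (nat_lit 0) (nat_lit 1398159442) (nat_lit 1596) (nat_lit 5468705563) (nat_lit 562) (nat_lit 5) (nat_lit 561) (nat_lit 5) (nat_lit 582) (nat_lit 5) (nat_lit 428) (nat_lit 418) (nat_lit 354))) (XT.nd (nat_lit 78) (nat_lit 0) (nat_lit 0) (XT.lf (nat_lit 76) (nat_lit 161389250) (nat_lit 0) (nat_lit 5228886016) (nat_lit 1596) (nat_lit 3453348544) (nat_lit 563) (nat_lit 5) (nat_lit 562) (nat_lit 5) (nat_lit 583) (nat_lit 5) (nat_lit 429) (nat_lit 418) (nat_lit 353)) (XT.lf (nat_lit 76) (nat_lit 7443011082) (nat_lit 0) (nat_lit 132954313)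 (nat_lit 1596) (nat_lit 1379700802) (nat_lit 563) (nat_lit 5) (nat_lit 562) (nat_lit 5) (nat_lit 583) (nat_lit 5) (nat_lit 430) (nat_lit 418) (nat_lit 352))))))))
noncomputable def xc69 : XT := (XT.nd (nat_lit 1950) (nat_lit 11400) (nat_lit 0) (XT.nd (nat_lit 936) (nat_lit 9272) (nat_lit 0) (XT.nd (nat_lit 468) (nat_lit 6536) (nat_lit 0) (XT.nd (nat_lit 234) (nat_lit 3192) (nat_lit 0) (XT.nd (nat_lit 78) (nat_lit 0) (nat_lit 76) (XT.lf (nat_lit 0) (nat_lit 761532363) (nat_lit 1596) (nat_lit 3201957605) (nat_lit 1672) (nat_lit 5107181418) (nat_lit 542) (nat_lit 5) (nat_lit 563) (nat_lit 5) (nat_lit 564) (nat_lit 5) (nat_lit 431) (nat_lit 418) (nat_lit 351)) (XT.nd (nat_lit 78) (nat_lit 0) (nat_lit 0) (XT.lf (nat_lit 0) (nat_lit 2941312637) (nat_lit 1596) (nat_lit 4890642853) (nat_lit 1672) (nat_lit 1357133169) (nat_lit 543) (nat_lit 5) (nat_lit 564) (nat_lit 5) (nat_lit 565) (nat_lit 5) (nat_lit 432)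 (nat_lit 418) (nat_lit 350)) (XT.lf (nat_lit 76) (nat_lit 2723591672) (nat_lit 0) (nat_lit 2475188059) (nat_lit 1672) (nat_lit 4112038113) (nat_lit 544) (nat_lit 5) (nat_lit 543) (nat_lit 5) (nat_lit 565) (nat_lit 5) (nat_lit 433) (nat_lit 418) (nat_lit 349)))) (XT.nd (nat_lit 78) (nat_lit 1748) (nat_lit 0) (XT.lf (nat_lit 0) (nat_lit 1149791142) (nat_lit 1596) (nat_lit 6382382844) (nat_lit 1672) (nat_lit 1903865965) (nat_lit 523) (nat_lit 5) (nat_lit 544) (nat_lit 5) (nat_lit 545) (nat_lit 5) (nat_lit 434) (nat_lit 418) (nat_lit 348)) (XT.nd (nat_lit 78) (nat_lit 1672) (nat_lit 0) (XT.lf (nat_lit 0) (nat_lit 375709824) (nat_lit 1672) (nat_lit 417263355) (nat_lit 76) (nat_lit 8771801923) (nat_lit 522) (nat_lit 5) (nat_lit 544) (nat_lit 5) (nat_lit 523) (nat_lit 5) (nat_lit 435) (nat_lit 418) (nat_lit 347)) (XT.lf (nat_lit 0) (nat_lit 2730906380) (nat_lit 1748) (nat_lit 1995033071) (nat_lit 76) (nat_lit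 4970523894) (nat_lit 500) (nat_lit 5) (nat_lit 523) (nat_lit 5) (nat_lit 501) (nat_lit 5) (nat_lit 436) (nat_lit 418) (nat_lit 346))))) (XT.nd (nat_lit 234) (nat_lit 1824) (nat_lit 0) (XT.nd (nat_lit 78) (nat_lit 2964) (nat_lit 0) (XT.lf (nat_lit 0) (nat_lit 5164143919) (nat_lit 1824) (nat_lit 3567126387) (nat_lit 76) (nat_lit 1100688814) (nat_lit 477) (nat_lit 5) (nat_lit 501) (nat_lit 5) (nat_lit 478) (nat_lit 5) (nat_lit 437) (nat_lit 418) (nat_lit 345)) (XT.nd (nat_lit 78) (nat_lit 1140) (nat_lit 0) (XT.lf (nat_lit 0) (nat_lit 4817659039) (nat_lit 1824) (nat_lit 2881673800) (nat_lit 1900) (nat_lit 2271612293) (nat_lit 453) (nat_lit 5) (nat_lit 477) (nat_lit 5) (nat_lit 478) (nat_lit 5) (nat_lit 438) (nat_lit 418) (nat_lit 344)) (XT.lf (nat_lit 0) (nat_lit 214258541) (nat_lit 1140) (nat_lit 6744941501) (nat_lit 76) (nat_lit 3154472234) (nat_lit 438) (nat_lit 5) (nat_lit 453) (nat_lit 5) (nat_lit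 439) (nat_lit 5) (nat_lit 439) (nat_lit 418) (nat_lit 343)))) (XT.nd (nat_lit 78) (nat_lit 912) (nat_lit 0) (XT.lf (nat_lit 0) (nat_lit 1904671867) (nat_lit 912) (nat_lit 860517203) (nat_lit 988) (nat_lit 7494769050) (nat_lit 426) (nat_lit 5) (nat_lit 438) (nat_lit 5) (nat_lit 439) (nat_lit 5) (nat_lit 440) (nat_lit 418) (nat_lit 342)) (XT.nd (nat_lit 78) (nat_lit 0) (nat_lit 0) (XT.lf (nat_lit 0) (nat_lit 423636062) (nat_lit 912) (nat_lit 5008423150) (nat_lit 988) (nat_lit 4977789088) (nat_lit 414) (nat_lit 5) (nat_lit 426) (nat_lit 5) (nat_lit 427) (nat_lit 5) (nat_lit 441) (nat_lit 418) (nat_lit 341)) (XT.lf (nat_lit 0) (nat_lit 8206414597) (nat_lit 988) (nat_lit 1040170960) (nat_lit 76) (nat_lit 1317103921) (nat_lit 414) (nat_lit 5) (nat_lit 427) (nat_lit 5) (nat_lit 415) (nat_lit 5) (nat_lit 442) (nat_lit 418) (nat_lit 340)))))) (XT.nd (nat_lit 468) (nat_lit 4256) (nat_lit 0) (XT.nd (nat_lit 234)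 (nat_lit 2432) (nat_lit 0) (XT.nd (nat_lit 78) (nat_lit 1672) (nat_lit 0) (XT.lf (nat_lit 0) (nat_lit 382194674) (nat_lit 912) (nat_lit 2517121482) (nat_lit 76) (nat_lit 7821892568) (nat_lit 402) (nat_lit 5) (nat_lit 414) (nat_lit 5) (nat_lit 403) (nat_lit 5) (nat_lit 443) (nat_lit 418) (nat_lit 339)) (XT.nd (nat_lit 78) (nat_lit 836) (nat_lit 0) (XT.lf (nat_lit 0) (nat_lit 3206343782) (nat_lit 912) (nat_lit 4017477667) (nat_lit 76) (nat_lit 3658633618) (nat_lit 391) (nat_lit 5) (nat_lit 403) (nat_lit 5) (nat_lit 392) (nat_lit 5) (nat_lit 444) (nat_lit 418) (nat_lit 338)) (XT.lf (nat_lit 0) (nat_lit 5526014143) (nat_lit 836) (nat_lit 621025489) (nat_lit 912) (nat_lit 4900866200) (nat_lit 380) (nat_lit 5) (nat_lit 391) (nat_lit 5) (nat_lit 392) (nat_lit 5) (nat_lit 445) (nat_lit 418) (nat_lit 337)))) (XT.nd (nat_lit 78) (nat_lit 1596) (nat_lit 0) (XT.lf (nat_lit 0) (nat_lit 4165488178) (nat_lit 836)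 (nat_lit 5065333242) (nat_lit 912) (nat_lit 1986404776) (nat_lit 369) (nat_lit 5) (nat_lit 380) (nat_lit 5) (nat_lit 381) (nat_lit 5) (nat_lit 446) (nat_lit 418) (nat_lit 336)) (XT.nd (nat_lit 78) (nat_lit 760) (nat_lit 0) (XT.lf (nat_lit 0) (nat_lit 1034788698) (nat_lit 836) (nat_lit 8590316554) (nat_lit 76) (nat_lit 1765739936) (nat_lit 358) (nat_lit 5) (nat_lit 369) (nat_lit 5) (nat_lit 359) (nat_lit 5) (nat_lit 447) (nat_lit 418) (nat_lit 335)) (XT.lf (nat_lit 0) (nat_lit 1405346919) (nat_lit 760) (nat_lit 2767311801) (nat_lit 836) (nat_lit 7395693986) (nat_lit 348) (nat_lit 5) (nat_lit 358) (nat_lit 5) (nat_lit 359) (nat_lit 5) (nat_lit 448) (nat_lit 418) (nat_lit 334))))) (XT.nd (nat_lit 234) (nat_lit 2736) (nat_lit 0) (XT.nd (nat_lit 78) (nat_lit 1520) (nat_lit 0) (XT.lf (nat_lit 0) (nat_lit 7453751760) (nat_lit 836) (nat_lit 1664723) (nat_lit 76) (nat_lit 4294790257) (nat_lit 348) (nat_lit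 5) (nat_lit 359) (nat_lit 5) (nat_lit 349) (nat_lit 5) (nat_lit 449) (nat_lit 418) (nat_lit 333)) (XT.nd (nat_lit 78) (nat_lit 836) (nat_lit 0) (XT.lf (nat_lit 0) (nat_lit 10543680941) (nat_lit 684) (nat_lit 340245711) (nat_lit 760) (nat_lit 1052579704) (nat_lit 339) (nat_lit 5) (nat_lit 348) (nat_lit 5) (nat_lit 349) (nat_lit 5) (nat_lit 450) (nat_lit 418) (nat_lit 332)) (XT.lf (nat_lit 0) (nat_lit 2329366479) (nat_lit 836) (nat_lit 2829168223) (nat_lit 76) (nat_lit 6968150469) (nat_lit 328) (nat_lit 5) (nat_lit 339) (nat_lit 5) (nat_lit 329) (nat_lit 5) (nat_lit 451) (nat_lit 418) (nat_lit 331)))) (XT.nd (nat_lit 156) (nat_lit 1368) (nat_lit 0) (XT.nd (nat_lit 78) (nat_lit 684) (nat_lit 0) (XT.lf (nat_lit 0) (nat_lit 5842166339) (nat_lit 760) (nat_lit 4275195292) (nat_lit 76) (nat_lit 2204197374) (nat_lit 319) (nat_lit 5) (nat_lit 329) (nat_lit 5) (nat_lit 320) (nat_lit 5) (nat_lit 452) (nat_lit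 418) (nat_lit 330)) (XT.lf (nat_lit 0) (nat_lit 6778832359) (nat_lit 684) (nat_lit 2745049750) (nat_lit 760) (nat_lit 2997128945) (nat_lit 310) (nat_lit 5) (nat_lit 319) (nat_lit 5) (nat_lit 320) (nat_lit 5) (nat_lit 453) (nat_lit 418) (nat_lit 329))) (XT.nd (nat_lit 78) (nat_lit 684) (nat_lit 0) (XT.lf (nat_lit 0) (nat_lit 645038252) (nat_lit 684) (nat_lit 7232297349) (nat_lit 76) (nat_lit 4847773648) (nat_lit 301) (nat_lit 5) (nat_lit 310) (nat_lit 5) (nat_lit 302) (nat_lit 5) (nat_lit 454) (nat_lit 418) (nat_lit 328)) (XT.lf (nat_lit 0) (nat_lit 4184923871) (nat_lit 684) (nat_lit 222679398) (nat_lit 760) (nat_lit 8526296299) (nat_lit 292) (nat_lit 5) (nat_lit 301) (nat_lit 5) (nat_lit 302) (nat_lit 5) (nat_lit 455) (nat_lit 418) (nat_lit 327))))))) (XT.nd (nat_lit 1014) (nat_lit 4636) (nat_lit 0) (XT.nd (nat_lit 468) (nat_lit 3648) (nat_lit 0) (XT.nd (nat_lit 234) (nat_lit 1216) (nat_lit 0) (XT.nd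 (nat_lit 78) (nat_lit 1292) (nat_lit 0) (XT.lf (nat_lit 0) (nat_lit 2842744616) (nat_lit 608) (nat_lit 5525417540) (nat_lit 684) (nat_lit 4779091468) (nat_lit 284) (nat_lit 5) (nat_lit 292) (nat_lit 5) (nat_lit 293) (nat_lit 5) (nat_lit 456) (nat_lit 418) (nat_lit 326)) (XT.nd (nat_lit 78) (nat_lit 684) (nat_lit 0) (XT.lf (nat_lit 0) (nat_lit 1498706540) (nat_lit 608) (nat_lit 11003078540) (nat_lit 684) (nat_lit 864140577) (nat_lit 276) (nat_lit 5) (nat_lit 284) (nat_lit 5) (nat_lit 285) (nat_lit 5) (nat_lit 457) (nat_lit 418) (nat_lit 325)) (XT.lf (nat_lit 0) (nat_lit 110920235) (nat_lit 608) (nat_lit 3092427761) (nat_lit 684) (nat_lit 10385867805) (nat_lit 267) (nat_lit 5) (nat_lit 275) (nat_lit 5) (nat_lit 276) (nat_lit 5) (nat_lit 458) (nat_lit 418) (nat_lit 324)))) (XT.nd (nat_lit 78) (nat_lit 1216) (nat_lit 0) (XT.lf (nat_lit 0) (nat_lit 7464243805) (nat_lit 684) (nat_lit 1285658470) (nat_lit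 76) (nat_lit 5067527802) (nat_lit 267) (nat_lit 5) (nat_lit 276) (nat_lit 5) (nat_lit 268) (nat_lit 5) (nat_lit 459) (nat_lit 418) (nat_lit 323)) (XT.nd (nat_lit 78) (nat_lit 608) (nat_lit 0) (XT.lf (nat_lit 0) (nat_lit 11362485830) (nat_lit 608) (nat_lit 555111965) (nat_lit 684) (nat_lit 2133602423) (nat_lit 259) (nat_lit 5) (nat_lit 267) (nat_lit 5) (nat_lit 268) (nat_lit 5) (nat_lit 460) (nat_lit 418) (nat_lit 322)) (XT.lf (nat_lit 0) (nat_lit 2280860837) (nat_lit 608) (nat_lit 4145723433) (nat_lit 76) (nat_lit 7863167644) (nat_lit 251) (nat_lit 5) (nat_lit 259) (nat_lit 5) (nat_lit 252) (nat_lit 5) (nat_lit 461) (nat_lit 418) (nat_lit 321))))) (XT.nd (nat_lit 234) (nat_lit 1976) (nat_lit 0) (XT.nd (nat_lit 78) (nat_lit 1140) (nat_lit 0) (XT.lf (nat_lit 0) (nat_lit 6863553320) (nat_lit 608) (nat_lit 5623493439) (nat_lit 76) (nat_lit 2046837594) (nat_lit 244) (nat_lit 5) (nat_lit 252) (nat_lit 5)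 (nat_lit 245) (nat_lit 5) (nat_lit 462) (nat_lit 418) (nat_lit 320)) (XT.nd (nat_lit 78) (nat_lit 608) (nat_lit 0) (XT.lf (nat_lit 0) (nat_lit 7649153543) (nat_lit 532) (nat_lit 4027184601) (nat_lit 608) (nat_lit 3107152240) (nat_lit 237) (nat_lit 5) (nat_lit 244) (nat_lit 5) (nat_lit 245) (nat_lit 5) (nat_lit 463) (nat_lit 418) (nat_lit 319)) (XT.lf (nat_lit 0) (nat_lit 1654941004) (nat_lit 608) (nat_lit 8677838005) (nat_lit 76) (nat_lit 4705942291) (nat_lit 229) (nat_lit 5) (nat_lit 237) (nat_lit 5) (nat_lit 230) (nat_lit 5) (nat_lit 464) (nat_lit 418) (nat_lit 318)))) (XT.nd (nat_lit 156) (nat_lit 988) (nat_lit 0) (XT.nd (nat_lit 78) (nat_lit 532) (nat_lit 0) (XT.lf (nat_lit 0) (nat_lit 5038237958) (nat_lit 456) (nat_lit 1560587073) (nat_lit 532) (nat_lit 8700752218) (nat_lit 223) (nat_lit 5) (nat_lit 229) (nat_lit 5) (nat_lit 230) (nat_lit 5) (nat_lit 465) (nat_lit 418) (nat_lit 317)) (XT.lf (nat_lit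 0) (nat_lit 3679188451) (nat_lit 532) (nat_lit 8116532680) (nat_lit 608) (nat_lit 3770445494) (nat_lit 216) (nat_lit 5) (nat_lit 223) (nat_lit 5) (nat_lit 224) (nat_lit 5) (nat_lit 466) (nat_lit 418) (nat_lit 316))) (XT.nd (nat_lit 78) (nat_lit 456) (nat_lit 0) (XT.lf (nat_lit 0) (nat_lit 1365703244) (nat_lit 532) (nat_lit 13532810299) (nat_lit 76) (nat_lit 940570212) (nat_lit 209) (nat_lit 5) (nat_lit 216) (nat_lit 5) (nat_lit 210) (nat_lit 5) (nat_lit 467) (nat_lit 418) (nat_lit 315)) (XT.lf (nat_lit 0) (nat_lit 863524081) (nat_lit 456) (nat_lit 5856362935) (nat_lit 532) (nat_lit 9397500942) (nat_lit 203) (nat_lit 5) (nat_lit 209) (nat_lit 5) (nat_lit 210) (nat_lit 5) (nat_lit 468) (nat_lit 418) (nat_lit 314)))))) (XT.nd (nat_lit 468) (nat_lit 2356) (nat_lit 0) (XT.nd (nat_lit 234) (nat_lit 1292) (nat_lit 0) (XT.nd (nat_lit 78) (nat_lit 988) (nat_lit 0) (XT.lf (nat_lit 0) (nat_lit 12323817148) (nat_lit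 532) (nat_lit 585339497) (nat_lit 76) (nat_lit 3493103714) (nat_lit 203) (nat_lit 5) (nat_lit 210) (nat_lit 5) (nat_lit 204) (nat_lit 5) (nat_lit 469) (nat_lit 418) (nat_lit 313)) (XT.nd (nat_lit 78) (nat_lit 456) (nat_lit 0) (XT.lf (nat_lit 0) (nat_lit 1491874584) (nat_lit 532) (nat_lit 2063212331) (nat_lit 76) (nat_lit 13138210577) (nat_lit 196) (nat_lit 5) (nat_lit 203) (nat_lit 5) (nat_lit 197) (nat_lit 5) (nat_lit 470) (nat_lit 418) (nat_lit 312)) (XT.lf (nat_lit 0) (nat_lit 7281026578) (nat_lit 532) (nat_lit 3601269213) (nat_lit 76) (nat_lit 6108089459) (nat_lit 190) (nat_lit 5) (nat_lit 197) (nat_lit 5) (nat_lit 191) (nat_lit 5) (nat_lit 471) (nat_lit 418) (nat_lit 311)))) (XT.nd (nat_lit 78) (nat_lit 912) (nat_lit 0) (XT.lf (nat_lit 0) (nat_lit 12136897878) (nat_lit 380) (nat_lit 1199463292) (nat_lit 456) (nat_lit 3958175646) (nat_lit 185) (nat_lit 5) (nat_lit 190) (nat_lit 5) (nat_lit 191)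 (nat_lit 5) (nat_lit 472) (nat_lit 418) (nat_lit 310)) (XT.nd (nat_lit 78) (nat_lit 380) (nat_lit 0) (XT.lf (nat_lit 0) (nat_lit 2068777065) (nat_lit 532) (nat_lit 6780042307) (nat_lit 76) (nat_lit 8756159345) (nat_lit 178) (nat_lit 5) (nat_lit 185) (nat_lit 5) (nat_lit 179) (nat_lit 5) (nat_lit 473) (nat_lit 418) (nat_lit 309)) (XT.lf (nat_lit 0) (nat_lit 8312131789) (nat_lit 456) (nat_lit 8442120062) (nat_lit 76) (nat_lit 1168172597) (nat_lit 173) (nat_lit 5) (nat_lit 179) (nat_lit 5) (nat_lit 174) (nat_lit 5) (nat_lit 474) (nat_lit 418) (nat_lit 308))))) (XT.nd (nat_lit 234) (nat_lit 1140) (nat_lit 0) (XT.nd (nat_lit 78) (nat_lit 836) (nat_lit 0) (XT.lf (nat_lit 0) (nat_lit 8084400585) (nat_lit 380) (nat_lit 6793254339) (nat_lit 456) (nat_lit 3369042471) (nat_lit 168) (nat_lit 5) (nat_lit 173) (nat_lit 5) (nat_lit 174) (nat_lit 5) (nat_lit 475) (nat_lit 418) (nat_lit 307)) (XT.nd (nat_lit 78) (nat_lit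 380) (nat_lit 0) (XT.lf (nat_lit 0) (nat_lit 3120727712) (nat_lit 456) (nat_lit 11926620718) (nat_lit 76) (nat_lit 3530925810) (nat_lit 162) (nat_lit 5) (nat_lit 168) (nat_lit 5) (nat_lit 163) (nat_lit 5) (nat_lit 476) (nat_lit 418) (nat_lit 306)) (XT.lf (nat_lit 0) (nat_lit 5155417547) (nat_lit 380) (nat_lit 4730099353) (nat_lit 456) (nat_lit 9031315251) (nat_lit 157) (nat_lit 5) (nat_lit 162) (nat_lit 5) (nat_lit 163) (nat_lit 5) (nat_lit 477) (nat_lit 418) (nat_lit 305)))) (XT.nd (nat_lit 156) (nat_lit 304) (nat_lit 0) (XT.nd (nat_lit 78) (nat_lit 456) (nat_lit 0) (XT.lf (nat_lit 0) (nat_lit 3623656502) (nat_lit 380) (nat_lit 13350729429) (nat_lit 456) (nat_lit 2288739221) (nat_lit 152) (nat_lit 5) (nat_lit 157) (nat_lit 5) (nat_lit 158) (nat_lit 5) (nat_lit 478) (nat_lit 418) (nat_lit 304)) (XT.lf (nat_lit 0) (nat_lit 2030838740) (nat_lit 380) (nat_lit 2681145301) (nat_lit 456) (nat_lit 14904880600)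 (nat_lit 146) (nat_lit 5) (nat_lit 151) (nat_lit 5) (nat_lit 152) (nat_lit 5) (nat_lit 479) (nat_lit 418) (nat_lit 303))) (XT.nd (nat_lit 78) (nat_lit 0) (nat_lit 0) (XT.lf (nat_lit 0) (nat_lit 367280083) (nat_lit 304) (nat_lit 11666126175) (nat_lit 380) (nat_lit 7944673034) (nat_lit 142) (nat_lit 5) (nat_lit 146) (nat_lit 5) (nat_lit 147) (nat_lit 5) (nat_lit 480) (nat_lit 418) (nat_lit 302)) (XT.lf (nat_lit 0) (nat_lit 19048467077) (nat_lit 304) (nat_lit 641978361) (nat_lit 380) (nat_lit 657366425) (nat_lit 142) (nat_lit 5) (nat_lit 146) (nat_lit 5) (nat_lit 147) (nat_lit 5) (nat_lit 481) (nat_lit 418) (nat_lit 301))))))))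
noncomputable def xc70 : XT := (XT.nd (nat_lit 58422) (nat_lit 0) (nat_lit 16948) (XT.nd (nat_lit 936) (nat_lit 532) (nat_lit 0) (XT.nd (nat_lit 468) (nat_lit 1520) (nat_lit 0) (XT.nd (nat_lit 234) (nat_lit 988) (nat_lit 0) (XT.nd (nat_lit 78) (nat_lit 684) (nat_lit 0) (XT.lf (nat_lit 0) (nat_lit 6923771221) (nat_lit 456) (nat_lit 3079619696) (nat_lit 76) (nat_lit 10721056465) (nat_lit 136) (nat_lit 5) (nat_lit 142) (nat_lit 5) (nat_lit 137) (nat_lit 5) (nat_lit 482) (nat_lit 418) (nat_lit 300)) (XT.nd (nat_lit 78) (nat_lit 380) (nat_lit 0) (XT.lf (nat_lit 0) (nat_lit 14830981330) (nat_lit 380) (nat_lit 4884795746) (nat_lit 76) (nat_lit 1394367493) (nat_lit 132) (nat_lit 5) (nat_lit 137) (nat_lit 5) (nat_lit 133) (nat_lit 5) (nat_lit 483) (nat_lit 418) (nat_lit 299)) (XT.lf (nat_lit 0) (nat_lit 1613508886) (nat_lit 380) (nat_lit 6776031128) (nat_lit 76) (nat_lit 13114387545) (nat_lit 127) (nat_lit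 5) (nat_lit 132) (nat_lit 5) (nat_lit 128) (nat_lit 5) (nat_lit 484) (nat_lit 418) (nat_lit 298)))) (XT.nd (nat_lit 78) (nat_lit 684) (nat_lit 0) (XT.lf (nat_lit 0) (nat_lit 9779659270) (nat_lit 380) (nat_lit 8743172287) (nat_lit 76) (nat_lit 3383423054) (nat_lit 123) (nat_lit 5) (nat_lit 128) (nat_lit 5) (nat_lit 124) (nat_lit 5) (nat_lit 485) (nat_lit 418) (nat_lit 297)) (XT.nd (nat_lit 78) (nat_lit 380) (nat_lit 0) (XT.lf (nat_lit 0) (nat_lit 11536584960) (nat_lit 304) (nat_lit 6812058799) (nat_lit 380) (nat_lit 3968851525) (nat_lit 119) (nat_lit 5) (nat_lit 123) (nat_lit 5) (nat_lit 124) (nat_lit 5) (nat_lit 486) (nat_lit 418) (nat_lit 296)) (XT.lf (nat_lit 0) (nat_lit 4515093859) (nat_lit 380) (nat_lit 12900024730) (nat_lit 76) (nat_lit 5322587288) (nat_lit 114) (nat_lit 5) (nat_lit 119) (nat_lit 5) (nat_lit 115) (nat_lit 5) (nat_lit 487) (nat_lit 418) (nat_lit 295))))) (XT.nd (nat_lit 234) (nat_lit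 608) (nat_lit 0) (XT.nd (nat_lit 78) (nat_lit 608) (nat_lit 0) (XT.lf (nat_lit 0) (nat_lit 8055177372) (nat_lit 304) (nat_lit 5297294372) (nat_lit 380) (nat_lit 9814470396) (nat_lit 110) (nat_lit 5) (nat_lit 114) (nat_lit 5) (nat_lit 115) (nat_lit 5) (nat_lit 488) (nat_lit 418) (nat_lit 294)) (XT.nd (nat_lit 78) (nat_lit 380) (nat_lit 0) (XT.lf (nat_lit 0) (nat_lit 6211536876) (nat_lit 228) (nat_lit 16399805991) (nat_lit 304) (nat_lit 994585904) (nat_lit 107) (nat_lit 5) (nat_lit 110) (nat_lit 5) (nat_lit 111) (nat_lit 5) (nat_lit 489) (nat_lit 418) (nat_lit 293)) (XT.lf (nat_lit 0) (nat_lit 4261865930) (nat_lit 304) (nat_lit 3869732407) (nat_lit 380) (nat_lit 15922480775) (nat_lit 102) (nat_lit 5) (nat_lit 106) (nat_lit 5) (nat_lit 107) (nat_lit 5) (nat_lit 490) (nat_lit 418) (nat_lit 292)))) (XT.nd (nat_lit 78) (nat_lit 380) (nat_lit 0) (XT.lf (nat_lit 0) (nat_lit 2225137441) (nat_lit 228) (nat_lit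 15466648542) (nat_lit 304) (nat_lit 6820282552) (nat_lit 99) (nat_lit 5) (nat_lit 102) (nat_lit 5) (nat_lit 103) (nat_lit 5) (nat_lit 491) (nat_lit 418) (nat_lit 291)) (XT.nd (nat_lit 78) (nat_lit 0) (nat_lit 0) (XT.lf (nat_lit 0) (nat_lit 120760890) (nat_lit 304) (nat_lit 2544481519) (nat_lit 380) (nat_lit 22315348692) (nat_lit 94) (nat_lit 5) (nat_lit 98) (nat_lit 5) (nat_lit 99) (nat_lit 5) (nat_lit 492) (nat_lit 418) (nat_lit 290)) (XT.lf (nat_lit 0) (nat_lit 12547468930) (nat_lit 380) (nat_lit 2100965593) (nat_lit 76) (nat_lit 10809737861) (nat_lit 94) (nat_lit 5) (nat_lit 99) (nat_lit 5) (nat_lit 95) (nat_lit 5) (nat_lit 493) (nat_lit 418) (nat_lit 289)))))) (XT.nd (nat_lit 56940) (nat_lit 0) (nat_lit 35948) (XT.nd (nat_lit 56706) (nat_lit 0) (nat_lit 37240) (XT.nd (nat_lit 78) (nat_lit 304) (nat_lit 0) (XT.lf (nat_lit 0) (nat_lit 21577455491) (nat_lit 228) (nat_lit 1288681366) (nat_lit 304)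 (nat_lit 3081145350) (nat_lit 91) (nat_lit 5) (nat_lit 94) (nat_lit 5) (nat_lit 95) (nat_lit 5) (nat_lit 494) (nat_lit 418) (nat_lit 288)) (XT.nd (nat_lit 56550) (nat_lit 0) (nat_lit 38608) (XT.lf (nat_lit 0) (nat_lit 7158552718) (nat_lit 304) (nat_lit 6801601491) (nat_lit 76) (nat_lit 12485844541) (nat_lit 87) (nat_lit 5) (nat_lit 91) (nat_lit 5) (nat_lit 88) (nat_lit 5) (nat_lit 495) (nat_lit 418) (nat_lit 287)) (XT.lf (nat_lit 0) (nat_lit 1815564978) (nat_lit 1444) (nat_lit 1086084877) (nat_lit 1444) (nat_lit 1086084877) (nat_lit 595) (nat_lit 3) (nat_lit 614) (nat_lit 3) (nat_lit 614) (nat_lit 5) (nat_lit 419) (nat_lit 419) (nat_lit 362)))) (XT.nd (nat_lit 78) (nat_lit 1368) (nat_lit 0) (XT.lf (nat_lit 76) (nat_lit 3789074160) (nat_lit 0) (nat_lit 1738365578) (nat_lit 1444) (nat_lit 2530626829) (nat_lit 596) (nat_lit 5) (nat_lit 595) (nat_lit 3) (nat_lit 614) (nat_lit 5) (nat_lit 420) (nat_lit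 419) (nat_lit 361)) (XT.nd (nat_lit 78) (nat_lit 1444) (nat_lit 0) (XT.lf (nat_lit 76) (nat_lit 1785149175) (nat_lit 0) (nat_lit 5666858374) (nat_lit 1444) (nat_lit 691714387) (nat_lit 597) (nat_lit 5) (nat_lit 596) (nat_lit 5) (nat_lit 615) (nat_lit 5) (nat_lit 421) (nat_lit 419) (nat_lit 360)) (XT.lf (nat_lit 0) (nat_lit 1157761487) (nat_lit 1444) (nat_lit 210262319) (nat_lit 1520) (nat_lit 6864351082) (nat_lit 577) (nat_lit 5) (nat_lit 596) (nat_lit 5) (nat_lit 597) (nat_lit 5) (nat_lit 422) (nat_lit 419) (nat_lit 359))))) (XT.nd (nat_lit 234) (nat_lit 1368) (nat_lit 0) (XT.nd (nat_lit 78) (nat_lit 0) (nat_lit 0) (XT.lf (nat_lit 0) (nat_lit 3046183843) (nat_lit 1444) (nat_lit 2183328579) (nat_lit 1520) (nat_lit 3094233507) (nat_lit 578) (nat_lit 5) (nat_lit 597) (nat_lit 5) (nat_lit 598) (nat_lit 5) (nat_lit 423) (nat_lit 419) (nat_lit 358)) (XT.nd (nat_lit 78) (nat_lit 0) (nat_lit 76) (XT.lf (nat_lit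 76) (nat_lit 4275179286) (nat_lit 0) (nat_lit 688782703) (nat_lit 1520) (nat_lit 3454448987) (nat_lit 579) (nat_lit 5) (nat_lit 578) (nat_lit 5) (nat_lit 598) (nat_lit 5) (nat_lit 424) (nat_lit 419) (nat_lit 357)) (XT.lf (nat_lit 76) (nat_lit 2408066869) (nat_lit 0) (nat_lit 4523827689) (nat_lit 1520) (nat_lit 1584175729) (nat_lit 580) (nat_lit 5) (nat_lit 579) (nat_lit 5) (nat_lit 599) (nat_lit 5) (nat_lit 425) (nat_lit 419) (nat_lit 356)))) (XT.nd (nat_lit 156) (nat_lit 0) (nat_lit 76) (XT.nd (nat_lit 78) (nat_lit 0) (nat_lit 0) (XT.lf (nat_lit 0) (nat_lit 313189256) (nat_lit 1520) (nat_lit 8061357303) (nat_lit 1596) (nat_lit 242565359) (nat_lit 560) (nat_lit 5) (nat_lit 580) (nat_lit 5) (nat_lit 581) (nat_lit 5) (nat_lit 426) (nat_lit 419) (nat_lit 355)) (XT.lf (nat_lit 0) (nat_lit 2257096949) (nat_lit 1520) (nat_lit 1298610599) (nat_lit 1596) (nat_lit 5165051154) (nat_lit 560) (nat_lit 5) (nat_lit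 580) (nat_lit 5) (nat_lit 581) (nat_lit 5) (nat_lit 427) (nat_lit 419) (nat_lit 354))) (XT.nd (nat_lit 78) (nat_lit 0) (nat_lit 0) (XT.lf (nat_lit 0) (nat_lit 4246742664) (nat_lit 1520) (nat_lit 3134661846) (nat_lit 1596) (nat_lit 1446368006) (nat_lit 561) (nat_lit 5) (nat_lit 581) (nat_lit 5) (nat_lit 582) (nat_lit 5) (nat_lit 428) (nat_lit 419) (nat_lit 353)) (XT.lf (nat_lit 76) (nat_lit 3963030601) (nat_lit 0) (nat_lit 2333891295) (nat_lit 1596) (nat_lit 2641063830) (nat_lit 562) (nat_lit 5) (nat_lit 561) (nat_lit 5) (nat_lit 582) (nat_lit 5) (nat_lit 429) (nat_lit 419) (nat_lit 352))))))) (XT.nd (nat_lit 936) (nat_lit 8816) (nat_lit 0) (XT.nd (nat_lit 468) (nat_lit 7296) (nat_lit 0) (XT.nd (nat_lit 234) (nat_lit 1444) (nat_lit 0) (XT.nd (nat_lit 78) (nat_lit 1596) (nat_lit 0) (XT.lf (nat_lit 76) (nat_lit 2235819476) (nat_lit 0) (nat_lit 6171297433) (nat_lit 1596) (nat_lit 644423912) (nat_lit 563)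 (nat_lit 5) (nat_lit 562) (nat_lit 5) (nat_lit 583) (nat_lit 5) (nat_lit 430) (nat_lit 419) (nat_lit 351)) (XT.nd (nat_lit 78) (nat_lit 0) (nat_lit 76) (XT.lf (nat_lit 76) (nat_lit 504478329) (nat_lit 0) (nat_lit 886951668) (nat_lit 1672) (nat_lit 7776937924) (nat_lit 542) (nat_lit 5) (nat_lit 541) (nat_lit 5) (nat_lit 563) (nat_lit 5) (nat_lit 431) (nat_lit 419) (nat_lit 350)) (XT.lf (nat_lit 0) (nat_lit 3502176885) (nat_lit 1596) (nat_lit 1225233006) (nat_lit 1672) (nat_lit 4560758565) (nat_lit 542) (nat_lit 5) (nat_lit 563) (nat_lit 5) (nat_lit 564) (nat_lit 5) (nat_lit 432) (nat_lit 419) (nat_lit 349)))) (XT.nd (nat_lit 78) (nat_lit 1596) (nat_lit 0) (XT.lf (nat_lit 0) (nat_lit 5677452721) (nat_lit 1596) (nat_lit 2940932147) (nat_lit 1672) (nat_lit 793159115) (nat_lit 543) (nat_lit 5) (nat_lit 564) (nat_lit 5) (nat_lit 565) (nat_lit 5) (nat_lit 433) (nat_lit 419) (nat_lit 348)) (XT.nd (nat_lit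 78) (nat_lit 1596) (nat_lit 0) (XT.lf (nat_lit 76) (nat_lit 4867717328) (nat_lit 0) (nat_lit 3071193763) (nat_lit 1672) (nat_lit 1599296161) (nat_lit 544) (nat_lit 5) (nat_lit 543) (nat_lit 5) (nat_lit 565) (nat_lit 5) (nat_lit 434) (nat_lit 419) (nat_lit 347)) (XT.lf (nat_lit 0) (nat_lit 600799715) (nat_lit 1672) (nat_lit 6404778936) (nat_lit 76) (nat_lit 2662836235) (nat_lit 522) (nat_lit 5) (nat_lit 544) (nat_lit 5) (nat_lit 523) (nat_lit 5) (nat_lit 435) (nat_lit 419) (nat_lit 346))))) (XT.nd (nat_lit 234) (nat_lit 3876) (nat_lit 0) (XT.nd (nat_lit 78) (nat_lit 1748) (nat_lit 0) (XT.lf (nat_lit 0) (nat_lit 1647481431) (nat_lit 1672) (nat_lit 1212393346) (nat_lit 1748) (nat_lit 6942153042) (nat_lit 500) (nat_lit 5) (nat_lit 522) (nat_lit 5) (nat_lit 523) (nat_lit 5) (nat_lit 436) (nat_lit 419) (nat_lit 345)) (XT.nd (nat_lit 78) (nat_lit 0) (nat_lit 0) (XT.lf (nat_lit 0) (nat_lit 18436682) (nat_lit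 1748) (nat_lit 5195653673) (nat_lit 1824) (nat_lit 4725015869) (nat_lit 477) (nat_lit 5) (nat_lit 500) (nat_lit 5) (nat_lit 501) (nat_lit 5) (nat_lit 437) (nat_lit 419) (nat_lit 344)) (XT.lf (nat_lit 0) (nat_lit 7661530479) (nat_lit 1824) (nat_lit 1585606077) (nat_lit 76) (nat_lit 832712785) (nat_lit 477) (nat_lit 5) (nat_lit 501) (nat_lit 5) (nat_lit 478) (nat_lit 5) (nat_lit 438) (nat_lit 419) (nat_lit 343)))) (XT.nd (nat_lit 78) (nat_lit 2052) (nat_lit 0) (XT.lf (nat_lit 0) (nat_lit 7016838927) (nat_lit 1824) (nat_lit 3201049235) (nat_lit 1900) (nat_lit 6220897) (nat_lit 453) (nat_lit 5) (nat_lit 477) (nat_lit 5) (nat_lit 478) (nat_lit 5) (nat_lit 439) (nat_lit 419) (nat_lit 342)) (XT.nd (nat_lit 78) (nat_lit 912) (nat_lit 0) (XT.lf (nat_lit 0) (nat_lit 2468583404) (nat_lit 1140) (nat_lit 4849191374) (nat_lit 76) (nat_lit 3054147059) (nat_lit 438) (nat_lit 5) (nat_lit 453) (nat_lit 5) (nat_lit 439)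 (nat_lit 5) (nat_lit 440) (nat_lit 419) (nat_lit 341)) (XT.lf (nat_lit 0) (nat_lit 4025871242) (nat_lit 912) (nat_lit 1018099118) (nat_lit 988) (nat_lit 5479673229) (nat_lit 426) (nat_lit 5) (nat_lit 438) (nat_lit 5) (nat_lit 439) (nat_lit 5) (nat_lit 441) (nat_lit 419) (nat_lit 340)))))) (XT.nd (nat_lit 468) (nat_lit 4484) (nat_lit 0) (XT.nd (nat_lit 234) (nat_lit 2508) (nat_lit 0) (XT.nd (nat_lit 78) (nat_lit 912) (nat_lit 0) (XT.lf (nat_lit 0) (nat_lit 2511156678) (nat_lit 912) (nat_lit 5228374297) (nat_lit 988) (nat_lit 2939531542) (nat_lit 414) (nat_lit 5) (nat_lit 426) (nat_lit 5) (nat_lit 427) (nat_lit 5) (nat_lit 442) (nat_lit 419) (nat_lit 339)) (XT.nd (nat_lit 78) (nat_lit 76) (nat_lit 0) (XT.lf (nat_lit 0) (nat_lit 998363543) (nat_lit 836) (nat_lit 9542334713) (nat_lit 912) (nat_lit 297954616) (nat_lit 403) (nat_lit 5) (nat_lit 414) (nat_lit 5) (nat_lit 415) (nat_lit 5) (nat_lit 443) (nat_lit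 419) (nat_lit 338)) (XT.lf (nat_lit 0) (nat_lit 2441425447) (nat_lit 912) (nat_lit 541965594) (nat_lit 76) (nat_lit 8018322112) (nat_lit 402) (nat_lit 5) (nat_lit 414) (nat_lit 5) (nat_lit 403) (nat_lit 5) (nat_lit 444) (nat_lit 419) (nat_lit 337)))) (XT.nd (nat_lit 78) (nat_lit 1672) (nat_lit 0) (XT.lf (nat_lit 0) (nat_lit 5303858740) (nat_lit 912) (nat_lit 2080511410) (nat_lit 76) (nat_lit 3784360682) (nat_lit 391) (nat_lit 5) (nat_lit 403) (nat_lit 5) (nat_lit 392) (nat_lit 5) (nat_lit 445) (nat_lit 419) (nat_lit 336)) (XT.nd (nat_lit 78) (nat_lit 836) (nat_lit 0) (XT.lf (nat_lit 0) (nat_lit 7715904813) (nat_lit 836) (nat_lit 571721510) (nat_lit 912) (nat_lit 3052426773) (nat_lit 380) (nat_lit 5) (nat_lit 391) (nat_lit 5) (nat_lit 392) (nat_lit 5) (nat_lit 446) (nat_lit 419) (nat_lit 335)) (XT.lf (nat_lit 0) (nat_lit 6319942842) (nat_lit 836) (nat_lit 5100607762) (nat_lit 912) (nat_lit 94774732)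 (nat_lit 369) (nat_lit 5) (nat_lit 380) (nat_lit 5) (nat_lit 381) (nat_lit 5) (nat_lit 447) (nat_lit 419) (nat_lit 334))))) (XT.nd (nat_lit 234) (nat_lit 2204) (nat_lit 0) (XT.nd (nat_lit 78) (nat_lit 1444) (nat_lit 0) (XT.lf (nat_lit 0) (nat_lit 2949408971) (nat_lit 836) (nat_lit 6789227525) (nat_lit 76) (nat_lit 1956108744) (nat_lit 358) (nat_lit 5) (nat_lit 369) (nat_lit 5) (nat_lit 359) (nat_lit 5) (nat_lit 448) (nat_lit 419) (nat_lit 333)) (XT.nd (nat_lit 78) (nat_lit 684) (nat_lit 0) (XT.lf (nat_lit 0) (nat_lit 3472904293) (nat_lit 760) (nat_lit 2666799566) (nat_lit 836) (nat_lit 5738712826) (nat_lit 348) (nat_lit 5) (nat_lit 358) (nat_lit 5) (nat_lit 359) (nat_lit 5) (nat_lit 449) (nat_lit 419) (nat_lit 332)) (XT.lf (nat_lit 0) (nat_lit 2026014116) (nat_lit 684) (nat_lit 7453880139) (nat_lit 760) (nat_lit 2586623143) (nat_lit 339) (nat_lit 5) (nat_lit 348) (nat_lit 5) (nat_lit 349) (nat_lit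 5) (nat_lit 450) (nat_lit 419) (nat_lit 331)))) (XT.nd (nat_lit 156) (nat_lit 1368) (nat_lit 0) (XT.nd (nat_lit 78) (nat_lit 0) (nat_lit 0) (XT.lf (nat_lit 0) (nat_lit 572174849) (nat_lit 760) (nat_lit 123370478) (nat_lit 836) (nat_lit 11563749366) (nat_lit 328) (nat_lit 5) (nat_lit 338) (nat_lit 5) (nat_lit 339) (nat_lit 5) (nat_lit 451) (nat_lit 419) (nat_lit 330)) (XT.lf (nat_lit 0) (nat_lit 4123964569) (nat_lit 836) (nat_lit 921062768) (nat_lit 76) (nat_lit 7410830101) (nat_lit 328) (nat_lit 5) (nat_lit 339) (nat_lit 5) (nat_lit 329) (nat_lit 5) (nat_lit 452) (nat_lit 419) (nat_lit 329))) (XT.nd (nat_lit 78) (nat_lit 684) (nat_lit 0) (XT.lf (nat_lit 0) (nat_lit 7706419083) (nat_lit 760) (nat_lit 2410705412) (nat_lit 76) (nat_lit 2540171480) (nat_lit 319) (nat_lit 5) (nat_lit 329) (nat_lit 5) (nat_lit 320) (nat_lit 5) (nat_lit 453) (nat_lit 419) (nat_lit 328)) (XT.lf (nat_lit 0) (nat_lit 8942613136)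 (nat_lit 684) (nat_lit 2519507692) (nat_lit 760) (nat_lit 1401343855) (nat_lit 310) (nat_lit 5) (nat_lit 319) (nat_lit 5) (nat_lit 320) (nat_lit 5) (nat_lit 454) (nat_lit 419) (nat_lit 327))))))))
noncomputable def xc71 : XT := (XT.nd (nat_lit 1950) (nat_lit 4636) (nat_lit 0) (XT.nd (nat_lit 936) (nat_lit 5396) (nat_lit 0) (XT.nd (nat_lit 468) (nat_lit 2736) (nat_lit 0) (XT.nd (nat_lit 234) (nat_lit 1900) (nat_lit 0) (XT.nd (nat_lit 78) (nat_lit 1292) (nat_lit 0) (XT.lf (nat_lit 0) (nat_lit 2294284896) (nat_lit 684) (nat_lit 5468203418) (nat_lit 76) (nat_lit 5311656126) (nat_lit 301) (nat_lit 5) (nat_lit 310) (nat_lit 5) (nat_lit 302) (nat_lit 5) (nat_lit 455) (nat_lit 419) (nat_lit 326)) (XT.nd (nat_lit 78) (nat_lit 608) (nat_lit 0) (XT.lf (nat_lit 0) (nat_lit 6135716123) (nat_lit 760) (nat_lit 7031312548) (nat_lit 76) (nat_lit 122853512) (nat_lit 292) (nat_lit 5) (nat_lit 302) (nat_lit 5) (nat_lit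 293) (nat_lit 5) (nat_lit 456) (nat_lit 419) (nat_lit 325)) (XT.lf (nat_lit 0) (nat_lit 4874569082) (nat_lit 608) (nat_lit 5308124639) (nat_lit 684) (nat_lit 3327594499) (nat_lit 284) (nat_lit 5) (nat_lit 292) (nat_lit 5) (nat_lit 293) (nat_lit 5) (nat_lit 457) (nat_lit 419) (nat_lit 324)))) (XT.nd (nat_lit 78) (nat_lit 1216) (nat_lit 0) (XT.lf (nat_lit 0) (nat_lit 664849926) (nat_lit 684) (nat_lit 10253451158) (nat_lit 76) (nat_lit 2817745271) (nat_lit 275) (nat_lit 5) (nat_lit 284) (nat_lit 5) (nat_lit 276) (nat_lit 5) (nat_lit 458) (nat_lit 419) (nat_lit 323)) (XT.nd (nat_lit 78) (nat_lit 608) (nat_lit 0) (XT.lf (nat_lit 0) (nat_lit 2046389825) (nat_lit 608) (nat_lit 2763895942) (nat_lit 684) (nat_lit 9156285080) (nat_lit 267) (nat_lit 5) (nat_lit 275) (nat_lit 5) (nat_lit 276) (nat_lit 5) (nat_lit 459) (nat_lit 419) (nat_lit 322)) (XT.lf (nat_lit 0) (nat_lit 586107242) (nat_lit 608) (nat_lit 8575357351)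 (nat_lit 684) (nat_lit 5040920884) (nat_lit 259) (nat_lit 5) (nat_lit 267) (nat_lit 5) (nat_lit 268) (nat_lit 5) (nat_lit 460) (nat_lit 419) (nat_lit 321))))) (XT.nd (nat_lit 234) (nat_lit 1596) (nat_lit 0) (XT.nd (nat_lit 78) (nat_lit 1140) (nat_lit 0) (XT.lf (nat_lit 0) (nat_lit 13575140757) (nat_lit 608) (nat_lit 138825265) (nat_lit 684) (nat_lit 729894724) (nat_lit 259) (nat_lit 5) (nat_lit 267) (nat_lit 5) (nat_lit 268) (nat_lit 5) (nat_lit 461) (nat_lit 419) (nat_lit 320)) (XT.nd (nat_lit 78) (nat_lit 532) (nat_lit 0) (XT.lf (nat_lit 0) (nat_lit 3770514307) (nat_lit 608) (nat_lit 2384059230) (nat_lit 76) (nat_lit 8535352461) (nat_lit 251) (nat_lit 5) (nat_lit 259) (nat_lit 5) (nat_lit 252) (nat_lit 5) (nat_lit 462) (nat_lit 419) (nat_lit 319)) (XT.lf (nat_lit 0) (nat_lit 8464349038) (nat_lit 608) (nat_lit 3911841981) (nat_lit 76) (nat_lit 2565720897) (nat_lit 244) (nat_lit 5) (nat_lit 252) (nat_lit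 5) (nat_lit 245) (nat_lit 5) (nat_lit 463) (nat_lit 419) (nat_lit 318)))) (XT.nd (nat_lit 78) (nat_lit 1064) (nat_lit 0) (XT.lf (nat_lit 0) (nat_lit 9728477864) (nat_lit 532) (nat_lit 3664422156) (nat_lit 608) (nat_lit 1806681112) (nat_lit 237) (nat_lit 5) (nat_lit 244) (nat_lit 5) (nat_lit 245) (nat_lit 5) (nat_lit 464) (nat_lit 419) (nat_lit 317)) (XT.nd (nat_lit 78) (nat_lit 456) (nat_lit 0) (XT.lf (nat_lit 0) (nat_lit 3055054453) (nat_lit 608) (nat_lit 7076423374) (nat_lit 76) (nat_lit 5331311543) (nat_lit 229) (nat_lit 5) (nat_lit 237) (nat_lit 5) (nat_lit 230) (nat_lit 5) (nat_lit 465) (nat_lit 419) (nat_lit 316)) (XT.lf (nat_lit 0) (nat_lit 7020930190) (nat_lit 456) (nat_lit 1098882478) (nat_lit 532) (nat_lit 7612209630) (nat_lit 223) (nat_lit 5) (nat_lit 229) (nat_lit 5) (nat_lit 230) (nat_lit 5) (nat_lit 466) (nat_lit 419) (nat_lit 315)))))) (XT.nd (nat_lit 468) (nat_lit 2888) (nat_lit 0)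 (XT.nd (nat_lit 234) (nat_lit 988) (nat_lit 0) (XT.nd (nat_lit 78) (nat_lit 988) (nat_lit 0) (XT.lf (nat_lit 0) (nat_lit 5614258108) (nat_lit 532) (nat_lit 7834875518) (nat_lit 608) (nat_lit 2557947752) (nat_lit 216) (nat_lit 5) (nat_lit 223) (nat_lit 5) (nat_lit 224) (nat_lit 5) (nat_lit 467) (nat_lit 419) (nat_lit 314)) (XT.nd (nat_lit 78) (nat_lit 456) (nat_lit 0) (XT.lf (nat_lit 0) (nat_lit 2692006223) (nat_lit 532) (nat_lit 12104254149) (nat_lit 76) (nat_lit 1492213656) (nat_lit 209) (nat_lit 5) (nat_lit 216) (nat_lit 5) (nat_lit 210) (nat_lit 5) (nat_lit 468) (nat_lit 419) (nat_lit 313)) (XT.lf (nat_lit 0) (nat_lit 2694207022) (nat_lit 456) (nat_lit 5486889445) (nat_lit 532) (nat_lit 8394547472) (nat_lit 203) (nat_lit 5) (nat_lit 209) (nat_lit 5) (nat_lit 210) (nat_lit 5) (nat_lit 469) (nat_lit 419) (nat_lit 312)))) (XT.nd (nat_lit 78) (nat_lit 532) (nat_lit 0) (XT.lf (nat_lit 0) (nat_lit 1185958559)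 (nat_lit 456) (nat_lit 12741634695) (nat_lit 532) (nat_lit 2941982421) (nat_lit 197) (nat_lit 5) (nat_lit 203) (nat_lit 5) (nat_lit 204) (nat_lit 5) (nat_lit 470) (nat_lit 419) (nat_lit 311)) (XT.nd (nat_lit 78) (nat_lit 456) (nat_lit 0) (XT.lf (nat_lit 0) (nat_lit 2746628129) (nat_lit 532) (nat_lit 364426215) (nat_lit 76) (nat_lit 14058774296) (nat_lit 196) (nat_lit 5) (nat_lit 203) (nat_lit 5) (nat_lit 197) (nat_lit 5) (nat_lit 471) (nat_lit 419) (nat_lit 310)) (XT.lf (nat_lit 0) (nat_lit 8689003851) (nat_lit 532) (nat_lit 1956949668) (nat_lit 76) (nat_lit 6830286504) (nat_lit 190) (nat_lit 5) (nat_lit 197) (nat_lit 5) (nat_lit 191) (nat_lit 5) (nat_lit 472) (nat_lit 419) (nat_lit 309))))) (XT.nd (nat_lit 234) (nat_lit 1596) (nat_lit 0) (XT.nd (nat_lit 78) (nat_lit 912) (nat_lit 0) (XT.lf (nat_lit 0) (nat_lit 14224932515) (nat_lit 380) (nat_lit 677611863) (nat_lit 456) (nat_lit 2887442759) (nat_lit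 185) (nat_lit 5) (nat_lit 190) (nat_lit 5) (nat_lit 191) (nat_lit 5) (nat_lit 473) (nat_lit 419) (nat_lit 308)) (XT.nd (nat_lit 78) (nat_lit 380) (nat_lit 0) (XT.lf (nat_lit 0) (nat_lit 3285278616) (nat_lit 532) (nat_lit 5252638520) (nat_lit 76) (nat_lit 9572061320) (nat_lit 178) (nat_lit 5) (nat_lit 185) (nat_lit 5) (nat_lit 179) (nat_lit 5) (nat_lit 474) (nat_lit 419) (nat_lit 307)) (XT.lf (nat_lit 0) (nat_lit 9697071160) (nat_lit 456) (nat_lit 6973668773) (nat_lit 76) (nat_lit 1766586656) (nat_lit 173) (nat_lit 5) (nat_lit 179) (nat_lit 5) (nat_lit 174) (nat_lit 5) (nat_lit 475) (nat_lit 419) (nat_lit 306)))) (XT.nd (nat_lit 156) (nat_lit 760) (nat_lit 0) (XT.nd (nat_lit 78) (nat_lit 456) (nat_lit 0) (XT.lf (nat_lit 0) (nat_lit 10020714715) (nat_lit 380) (nat_lit 6416767419) (nat_lit 456) (nat_lit 2334288868) (nat_lit 168) (nat_lit 5) (nat_lit 173) (nat_lit 5) (nat_lit 174) (nat_lit 5) (nat_lit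 476) (nat_lit 419) (nat_lit 305)) (XT.lf (nat_lit 0) (nat_lit 4317321277) (nat_lit 456) (nat_lit 10585145701) (nat_lit 76) (nat_lit 4211041454) (nat_lit 162) (nat_lit 5) (nat_lit 168) (nat_lit 5) (nat_lit 163) (nat_lit 5) (nat_lit 477) (nat_lit 419) (nat_lit 304))) (XT.nd (nat_lit 78) (nat_lit 380) (nat_lit 0) (XT.lf (nat_lit 0) (nat_lit 6981785016) (nat_lit 380) (nat_lit 4281997551) (nat_lit 456) (nat_lit 8198867535) (nat_lit 157) (nat_lit 5) (nat_lit 162) (nat_lit 5) (nat_lit 163) (nat_lit 5) (nat_lit 478) (nat_lit 419) (nat_lit 303)) (XT.lf (nat_lit 0) (nat_lit 5394516326) (nat_lit 380) (nat_lit 13153806422) (nat_lit 456) (nat_lit 1271350587) (nat_lit 152) (nat_lit 5) (nat_lit 157) (nat_lit 5) (nat_lit 158) (nat_lit 5) (nat_lit 479) (nat_lit 419) (nat_lit 302))))))) (XT.nd (nat_lit 1014) (nat_lit 608) (nat_lit 0) (XT.nd (nat_lit 468) (nat_lit 2128) (nat_lit 0) (XT.nd (nat_lit 234) (nat_lit 684)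 (nat_lit 0) (XT.nd (nat_lit 78) (nat_lit 760) (nat_lit 0) (XT.lf (nat_lit 0) (nat_lit 3741009922) (nat_lit 380) (nat_lit 2163631017) (nat_lit 456) (nat_lit 14279654706) (nat_lit 146) (nat_lit 5) (nat_lit 151) (nat_lit 5) (nat_lit 152) (nat_lit 5) (nat_lit 480) (nat_lit 419) (nat_lit 301)) (XT.nd (nat_lit 78) (nat_lit 456) (nat_lit 0) (XT.lf (nat_lit 0) (nat_lit 2017701175) (nat_lit 304) (nat_lit 11411797629) (nat_lit 380) (nat_lit 7127173499) (nat_lit 142) (nat_lit 5) (nat_lit 146) (nat_lit 5) (nat_lit 147) (nat_lit 5) (nat_lit 481) (nat_lit 419) (nat_lit 300)) (XT.lf (nat_lit 0) (nat_lit 274817823) (nat_lit 380) (nat_lit 70402091) (nat_lit 456) (nat_lit 20592800412) (nat_lit 136) (nat_lit 5) (nat_lit 141) (nat_lit 5) (nat_lit 142) (nat_lit 5) (nat_lit 482) (nat_lit 419) (nat_lit 299)))) (XT.nd (nat_lit 78) (nat_lit 684) (nat_lit 0) (XT.lf (nat_lit 0) (nat_lit 8127723569) (nat_lit 456) (nat_lit 1576823752)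 (nat_lit 76) (nat_lit 11621664748) (nat_lit 136) (nat_lit 5) (nat_lit 142) (nat_lit 5) (nat_lit 137) (nat_lit 5) (nat_lit 483) (nat_lit 419) (nat_lit 298)) (XT.nd (nat_lit 78) (nat_lit 380) (nat_lit 0) (XT.lf (nat_lit 0) (nat_lit 16257165233) (nat_lit 380) (nat_lit 3446287118) (nat_lit 76) (nat_lit 2020328794) (nat_lit 132) (nat_lit 5) (nat_lit 137) (nat_lit 5) (nat_lit 133) (nat_lit 5) (nat_lit 484) (nat_lit 419) (nat_lit 297)) (XT.lf (nat_lit 0) (nat_lit 2631129672) (nat_lit 380) (nat_lit 5407054175) (nat_lit 76) (nat_lit 14091436612) (nat_lit 127) (nat_lit 5) (nat_lit 132) (nat_lit 5) (nat_lit 128) (nat_lit 5) (nat_lit 485) (nat_lit 419) (nat_lit 296))))) (XT.nd (nat_lit 234) (nat_lit 1140) (nat_lit 0) (XT.nd (nat_lit 78) (nat_lit 684) (nat_lit 0) (XT.lf (nat_lit 0) (nat_lit 11027945335) (nat_lit 380) (nat_lit 7443525400) (nat_lit 76) (nat_lit 4072834155) (nat_lit 123) (nat_lit 5) (nat_lit 128)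 (nat_lit 5) (nat_lit 124) (nat_lit 5) (nat_lit 486) (nat_lit 419) (nat_lit 295)) (XT.nd (nat_lit 78) (nat_lit 380) (nat_lit 0) (XT.lf (nat_lit 0) (nat_lit 13419283910) (nat_lit 304) (nat_lit 6416879571) (nat_lit 380) (nat_lit 3132077169) (nat_lit 119) (nat_lit 5) (nat_lit 123) (nat_lit 5) (nat_lit 124) (nat_lit 5) (nat_lit 487) (nat_lit 419) (nat_lit 294)) (XT.lf (nat_lit 0) (nat_lit 5580155454) (nat_lit 380) (nat_lit 11748317797) (nat_lit 76) (nat_lit 6072735185) (nat_lit 114) (nat_lit 5) (nat_lit 119) (nat_lit 5) (nat_lit 115) (nat_lit 5) (nat_lit 488) (nat_lit 419) (nat_lit 293)))) (XT.nd (nat_lit 156) (nat_lit 608) (nat_lit 0) (XT.nd (nat_lit 78) (nat_lit 228) (nat_lit 0) (XT.lf (nat_lit 0) (nat_lit 9810576664) (nat_lit 304) (nat_lit 4854830258) (nat_lit 380) (nat_lit 9178260882) (nat_lit 110) (nat_lit 5) (nat_lit 114) (nat_lit 5) (nat_lit 115) (nat_lit 5) (nat_lit 489) (nat_lit 419) (nat_lit 292))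 (XT.lf (nat_lit 0) (nat_lit 7901213013) (nat_lit 228) (nat_lit 16287809011) (nat_lit 304) (nat_lit 107063484) (nat_lit 107) (nat_lit 5) (nat_lit 110) (nat_lit 5) (nat_lit 111) (nat_lit 5) (nat_lit 490) (nat_lit 419) (nat_lit 291))) (XT.nd (nat_lit 78) (nat_lit 228) (nat_lit 0) (XT.lf (nat_lit 0) (nat_lit 5880531470) (nat_lit 304) (nat_lit 3383654001) (nat_lit 380) (nat_lit 15493710536) (nat_lit 102) (nat_lit 5) (nat_lit 106) (nat_lit 5) (nat_lit 107) (nat_lit 5) (nat_lit 491) (nat_lit 419) (nat_lit 290)) (XT.lf (nat_lit 0) (nat_lit 3772184859) (nat_lit 228) (nat_lit 15326518054) (nat_lit 304) (nat_lit 6131172668) (nat_lit 99) (nat_lit 5) (nat_lit 102) (nat_lit 5) (nat_lit 103) (nat_lit 5) (nat_lit 492) (nat_lit 419) (nat_lit 289)))))) (XT.nd (nat_lit 57018) (nat_lit 0) (nat_lit 35568) (XT.nd (nat_lit 56784) (nat_lit 0) (nat_lit 36860) (XT.nd (nat_lit 78) (nat_lit 228) (nat_lit 0) (XT.lf (nat_lit 0)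 (nat_lit 1592222740) (nat_lit 304) (nat_lit 2018814974) (nat_lit 380) (nat_lit 22101624147) (nat_lit 94) (nat_lit 5) (nat_lit 98) (nat_lit 5) (nat_lit 99) (nat_lit 5) (nat_lit 493) (nat_lit 419) (nat_lit 288)) (XT.nd (nat_lit 78) (nat_lit 228) (nat_lit 0) (XT.lf (nat_lit 0) (nat_lit 13768307194) (nat_lit 380) (nat_lit 725861155) (nat_lit 76) (nat_lit 11710831589) (nat_lit 94) (nat_lit 5) (nat_lit 99) (nat_lit 5) (nat_lit 95) (nat_lit 5) (nat_lit 494) (nat_lit 419) (nat_lit 287)) (XT.lf (nat_lit 0) (nat_lit 23639580555) (nat_lit 228) (nat_lit 741545845) (nat_lit 304) (nat_lit 2327965686) (nat_lit 91) (nat_lit 5) (nat_lit 94) (nat_lit 5) (nat_lit 95) (nat_lit 5) (nat_lit 495) (nat_lit 419) (nat_lit 286)))) (XT.nd (nat_lit 78) (nat_lit 1444) (nat_lit 0) (XT.lf (nat_lit 0) (nat_lit 3669805139) (nat_lit 1444) (nat_lit 200684995) (nat_lit 1444) (nat_lit 200684995) (nat_lit 595) (nat_lit 3) (nat_lit 614)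 (nat_lit 3) (nat_lit 614) (nat_lit 5) (nat_lit 420) (nat_lit 420) (nat_lit 360)) (XT.nd (nat_lit 78) (nat_lit 0) (nat_lit 76) (XT.lf (nat_lit 0) (nat_lit 957669196) (nat_lit 1444) (nat_lit 2526674550) (nat_lit 1520) (nat_lit 4744829231) (nat_lit 576) (nat_lit 5) (nat_lit 595) (nat_lit 3) (nat_lit 596) (nat_lit 5) (nat_lit 421) (nat_lit 420) (nat_lit 359)) (XT.lf (nat_lit 0) (nat_lit 2725440181) (nat_lit 1444) (nat_lit 4641676646) (nat_lit 1520) (nat_lit 952075458) (nat_lit 577) (nat_lit 5) (nat_lit 596) (nat_lit 5) (nat_lit 597) (nat_lit 5) (nat_lit 422) (nat_lit 420) (nat_lit 358))))) (XT.nd (nat_lit 234) (nat_lit 1368) (nat_lit 0) (XT.nd (nat_lit 78) (nat_lit 0) (nat_lit 76) (XT.lf (nat_lit 76) (nat_lit 1652704843) (nat_lit 0) (nat_lit 2879220801) (nat_lit 1520) (nat_lit 3880279838) (nat_lit 578) (nat_lit 5) (nat_lit 577) (nat_lit 5) (nat_lit 597) (nat_lit 5) (nat_lit 423) (nat_lit 420) (nat_lit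 357)) (XT.nd (nat_lit 78) (nat_lit 0) (nat_lit 0) (XT.lf (nat_lit 0) (nat_lit 6371860934) (nat_lit 1444) (nat_lit 356733214) (nat_lit 1520) (nat_lit 1779836555) (nat_lit 578) (nat_lit 5) (nat_lit 597) (nat_lit 5) (nat_lit 598) (nat_lit 5) (nat_lit 424) (nat_lit 420) (nat_lit 356)) (XT.lf (nat_lit 76) (nat_lit 6264832890) (nat_lit 0) (nat_lit 2000222299) (nat_lit 1520) (nat_lit 342532811) (nat_lit 579) (nat_lit 5) (nat_lit 578) (nat_lit 5) (nat_lit 598) (nat_lit 5) (nat_lit 425) (nat_lit 420) (nat_lit 355)))) (XT.nd (nat_lit 156) (nat_lit 0) (nat_lit 76) (XT.nd (nat_lit 78) (nat_lit 0) (nat_lit 0) (XT.lf (nat_lit 0) (nat_lit 1474886821) (nat_lit 1520) (nat_lit 4337542100) (nat_lit 1596) (nat_lit 2897315764) (nat_lit 559) (nat_lit 5) (nat_lit 579) (nat_lit 5) (nat_lit 580) (nat_lit 5) (nat_lit 426) (nat_lit 420) (nat_lit 354)) (XT.lf (nat_lit 76) (nat_lit 2485686554) (nat_lit 0) (nat_lit 842993875) (nat_lit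 1596) (nat_lit 5486516298) (nat_lit 560) (nat_lit 5) (nat_lit 559) (nat_lit 5) (nat_lit 580) (nat_lit 5) (nat_lit 427) (nat_lit 420) (nat_lit 353))) (XT.nd (nat_lit 78) (nat_lit 0) (nat_lit 76) (XT.lf (nat_lit 76) (nat_lit 591707081) (nat_lit 0) (nat_lit 4650169988) (nat_lit 1596) (nat_lit 3681865343) (nat_lit 561) (nat_lit 5) (nat_lit 560) (nat_lit 5) (nat_lit 581) (nat_lit 5) (nat_lit 428) (nat_lit 420) (nat_lit 352)) (XT.lf (nat_lit 0) (nat_lit 7208622505) (nat_lit 1520) (nat_lit 1275088351) (nat_lit 1596) (nat_lit 551916249) (nat_lit 561) (nat_lit 5) (nat_lit 581) (nat_lit 5) (nat_lit 582) (nat_lit 5) (nat_lit 429) (nat_lit 420) (nat_lit 351))))))))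
noncomputable def xc72 : XT := (XT.nd (nat_lit 1950) (nat_lit 12312) (nat_lit 0) (XT.nd (nat_lit 936) (nat_lit 9044) (nat_lit 0) (XT.nd (nat_lit 468) (nat_lit 6308) (nat_lit 0) (XT.nd (nat_lit 234) (nat_lit 1444) (nat_lit 0) (XT.nd (nat_lit 78) (nat_lit 0) (nat_lit 76) (XT.lf (nat_lit 0) (nat_lit 98363963) (nat_lit 1596) (nat_lit 3147364032) (nat_lit 1672) (nat_lit 5904815777) (nat_lit 540) (nat_lit 5) (nat_lit 561) (nat_lit 5) (nat_lit 562) (nat_lit 5) (nat_lit 430) (nat_lit 420) (nat_lit 350)) (XT.nd (nat_lit 78) (nat_lit 0) (nat_lit 0) (XT.lf (nat_lit 0) (nat_lit 2054277339) (nat_lit 1596) (nat_lit 5028825084) (nat_lit 1672) (nat_lit 2185617139) (nat_lit 541) (nat_lit 5) (nat_lit 562) (nat_lit 5) (nat_lit 563) (nat_lit 5) (nat_lit 431) (nat_lit 420) (nat_lit 349)) (XT.lf (nat_lit 76) (nat_lit 2474433372) (nat_lit 0) (nat_lit 1601847714) (nat_lit 1672) (nat_lit 5314016388) (nat_lit 542) (nat_lit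 5) (nat_lit 541) (nat_lit 5) (nat_lit 563) (nat_lit 5) (nat_lit 432) (nat_lit 420) (nat_lit 348)))) (XT.nd (nat_lit 78) (nat_lit 1596) (nat_lit 0) (XT.lf (nat_lit 76) (nat_lit 701000840) (nat_lit 0) (nat_lit 5472578508) (nat_lit 1672) (nat_lit 3341655648) (nat_lit 543) (nat_lit 5) (nat_lit 542) (nat_lit 5) (nat_lit 564) (nat_lit 5) (nat_lit 433) (nat_lit 420) (nat_lit 347)) (XT.nd (nat_lit 78) (nat_lit 1672) (nat_lit 0) (XT.lf (nat_lit 0) (nat_lit 8343676674) (nat_lit 1596) (nat_lit 1053073777) (nat_lit 1672) (nat_lit 246977407) (nat_lit 543) (nat_lit 5) (nat_lit 564) (nat_lit 5) (nat_lit 565) (nat_lit 5) (nat_lit 434) (nat_lit 420) (nat_lit 346)) (XT.lf (nat_lit 0) (nat_lit 826520920) (nat_lit 1672) (nat_lit 2823061739) (nat_lit 1748) (nat_lit 6125708218) (nat_lit 521) (nat_lit 5) (nat_lit 543) (nat_lit 5) (nat_lit 544) (nat_lit 5) (nat_lit 435) (nat_lit 420) (nat_lit 345))))) (XT.nd (nat_lit 234)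 (nat_lit 2964) (nat_lit 0) (XT.nd (nat_lit 78) (nat_lit 3420) (nat_lit 0) (XT.lf (nat_lit 0) (nat_lit 3009306344) (nat_lit 1672) (nat_lit 4601140098) (nat_lit 76) (nat_lit 2299985352) (nat_lit 522) (nat_lit 5) (nat_lit 544) (nat_lit 5) (nat_lit 523) (nat_lit 5) (nat_lit 436) (nat_lit 420) (nat_lit 344)) (XT.nd (nat_lit 78) (nat_lit 1748) (nat_lit 0) (XT.lf (nat_lit 0) (nat_lit 3660308885) (nat_lit 1672) (nat_lit 1618966779) (nat_lit 1748) (nat_lit 4769921589) (nat_lit 500) (nat_lit 5) (nat_lit 522) (nat_lit 5) (nat_lit 523) (nat_lit 5) (nat_lit 437) (nat_lit 420) (nat_lit 343)) (XT.lf (nat_lit 0) (nat_lit 1999034154) (nat_lit 1748) (nat_lit 5647636663) (nat_lit 1824) (nat_lit 2544872519) (nat_lit 477) (nat_lit 5) (nat_lit 500) (nat_lit 5) (nat_lit 501) (nat_lit 5) (nat_lit 438) (nat_lit 420) (nat_lit 342)))) (XT.nd (nat_lit 78) (nat_lit 1140) (nat_lit 0) (XT.lf (nat_lit 0) (nat_lit 339927652) (nat_lit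 1824) (nat_lit 9761651103) (nat_lit 1900) (nat_lit 236255301) (nat_lit 453) (nat_lit 5) (nat_lit 477) (nat_lit 5) (nat_lit 478) (nat_lit 5) (nat_lit 439) (nat_lit 420) (nat_lit 341)) (XT.nd (nat_lit 78) (nat_lit 1064) (nat_lit 0) (XT.lf (nat_lit 0) (nat_lit 2164413593) (nat_lit 1900) (nat_lit 1337697125) (nat_lit 76) (nat_lit 6985110942) (nat_lit 452) (nat_lit 5) (nat_lit 477) (nat_lit 5) (nat_lit 453) (nat_lit 5) (nat_lit 440) (nat_lit 420) (nat_lit 340)) (XT.lf (nat_lit 0) (nat_lit 4661499523) (nat_lit 1140) (nat_lit 3017008172) (nat_lit 76) (nat_lit 2962003592) (nat_lit 438) (nat_lit 5) (nat_lit 453) (nat_lit 5) (nat_lit 439) (nat_lit 5) (nat_lit 441) (nat_lit 420) (nat_lit 339)))))) (XT.nd (nat_lit 468) (nat_lit 4636) (nat_lit 0) (XT.nd (nat_lit 234) (nat_lit 1672) (nat_lit 0) (XT.nd (nat_lit 78) (nat_lit 1824) (nat_lit 0) (XT.lf (nat_lit 0) (nat_lit 6092221154) (nat_lit 912) (nat_lit 1172844560)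 (nat_lit 988) (nat_lit 3532706190) (nat_lit 426) (nat_lit 5) (nat_lit 438) (nat_lit 5) (nat_lit 439) (nat_lit 5) (nat_lit 442) (nat_lit 420) (nat_lit 338)) (XT.nd (nat_lit 78) (nat_lit 912) (nat_lit 0) (XT.lf (nat_lit 0) (nat_lit 4542200243) (nat_lit 912) (nat_lit 5450923003) (nat_lit 988) (nat_lit 965702956) (nat_lit 414) (nat_lit 5) (nat_lit 426) (nat_lit 5) (nat_lit 427) (nat_lit 5) (nat_lit 443) (nat_lit 420) (nat_lit 337)) (XT.lf (nat_lit 0) (nat_lit 1685252999) (nat_lit 912) (nat_lit 8142564161) (nat_lit 76) (nat_lit 1296101330) (nat_lit 402) (nat_lit 5) (nat_lit 414) (nat_lit 5) (nat_lit 403) (nat_lit 5) (nat_lit 444) (nat_lit 420) (nat_lit 336)))) (XT.nd (nat_lit 78) (nat_lit 836) (nat_lit 0) (XT.lf (nat_lit 0) (nat_lit 1392997562) (nat_lit 836) (nat_lit 3060929760) (nat_lit 912) (nat_lit 6838885642) (nat_lit 391) (nat_lit 5) (nat_lit 402) (nat_lit 5) (nat_lit 403) (nat_lit 5) (nat_lit 445)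 (nat_lit 420) (nat_lit 335)) (XT.nd (nat_lit 78) (nat_lit 836) (nat_lit 0) (XT.lf (nat_lit 0) (nat_lit 7349414926) (nat_lit 912) (nat_lit 203544543) (nat_lit 76) (nat_lit 3912942927) (nat_lit 391) (nat_lit 5) (nat_lit 403) (nat_lit 5) (nat_lit 392) (nat_lit 5) (nat_lit 446) (nat_lit 420) (nat_lit 334)) (XT.lf (nat_lit 0) (nat_lit 9855299996) (nat_lit 836) (nat_lit 524838143) (nat_lit 912) (nat_lit 1263082041) (nat_lit 380) (nat_lit 5) (nat_lit 391) (nat_lit 5) (nat_lit 392) (nat_lit 5) (nat_lit 447) (nat_lit 420) (nat_lit 333))))) (XT.nd (nat_lit 234) (nat_lit 2204) (nat_lit 0) (XT.nd (nat_lit 78) (nat_lit 1520) (nat_lit 0) (XT.lf (nat_lit 0) (nat_lit 1718754731) (nat_lit 912) (nat_lit 3413350262) (nat_lit 76) (nat_lit 6692241637) (nat_lit 368) (nat_lit 5) (nat_lit 380) (nat_lit 5) (nat_lit 369) (nat_lit 5) (nat_lit 448) (nat_lit 420) (nat_lit 332)) (XT.nd (nat_lit 78) (nat_lit 760) (nat_lit 0) (XT.lf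 (nat_lit 0) (nat_lit 4813342848) (nat_lit 836) (nat_lit 5052289283) (nat_lit 76) (nat_lit 2144301488) (nat_lit 358) (nat_lit 5) (nat_lit 369) (nat_lit 5) (nat_lit 359) (nat_lit 5) (nat_lit 449) (nat_lit 420) (nat_lit 331)) (XT.lf (nat_lit 0) (nat_lit 5486222316) (nat_lit 760) (nat_lit 2573807429) (nat_lit 836) (nat_lit 4139876022) (nat_lit 348) (nat_lit 5) (nat_lit 358) (nat_lit 5) (nat_lit 359) (nat_lit 5) (nat_lit 450) (nat_lit 420) (nat_lit 330)))) (XT.nd (nat_lit 156) (nat_lit 684) (nat_lit 0) (XT.nd (nat_lit 78) (nat_lit 836) (nat_lit 0) (XT.lf (nat_lit 0) (nat_lit 3998144872) (nat_lit 684) (nat_lit 7465214193) (nat_lit 760) (nat_lit 931035869) (nat_lit 339) (nat_lit 5) (nat_lit 348) (nat_lit 5) (nat_lit 349) (nat_lit 5) (nat_lit 451) (nat_lit 420) (nat_lit 329)) (XT.lf (nat_lit 0) (nat_lit 2390069271) (nat_lit 836) (nat_lit 10101975880) (nat_lit 76) (nat_lit 101425185) (nat_lit 328) (nat_lit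 5) (nat_lit 339) (nat_lit 5) (nat_lit 329) (nat_lit 5) (nat_lit 452) (nat_lit 420) (nat_lit 328))) (XT.nd (nat_lit 78) (nat_lit 0) (nat_lit 0) (XT.lf (nat_lit 0) (nat_lit 942238240) (nat_lit 684) (nat_lit 4937274180) (nat_lit 760) (nat_lit 6917257905) (nat_lit 319) (nat_lit 5) (nat_lit 328) (nat_lit 5) (nat_lit 329) (nat_lit 5) (nat_lit 453) (nat_lit 420) (nat_lit 327)) (XT.lf (nat_lit 0) (nat_lit 9529644602) (nat_lit 760) (nat_lit 604672594) (nat_lit 76) (nat_lit 2870734419) (nat_lit 319) (nat_lit 5) (nat_lit 329) (nat_lit 5) (nat_lit 320) (nat_lit 5) (nat_lit 454) (nat_lit 420) (nat_lit 326))))))) (XT.nd (nat_lit 936) (nat_lit 5472) (nat_lit 0) (XT.nd (nat_lit 468) (nat_lit 2888) (nat_lit 0) (XT.nd (nat_lit 234) (nat_lit 1900) (nat_lit 0) (XT.nd (nat_lit 78) (nat_lit 1292) (nat_lit 0) (XT.lf (nat_lit 0) (nat_lit 143639871) (nat_lit 760) (nat_lit 2160269950) (nat_lit 76) (nat_lit 10914167678) (nat_lit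 309) (nat_lit 5) (nat_lit 319) (nat_lit 5) (nat_lit 310) (nat_lit 5) (nat_lit 455) (nat_lit 420) (nat_lit 325)) (XT.nd (nat_lit 78) (nat_lit 684) (nat_lit 0) (XT.lf (nat_lit 0) (nat_lit 3899446270) (nat_lit 684) (nat_lit 3764907781) (nat_lit 76) (nat_lit 5771174787) (nat_lit 301) (nat_lit 5) (nat_lit 310) (nat_lit 5) (nat_lit 302) (nat_lit 5) (nat_lit 456) (nat_lit 420) (nat_lit 324)) (XT.lf (nat_lit 0) (nat_lit 7825465722) (nat_lit 760) (nat_lit 5377190878) (nat_lit 76) (nat_lit 455698508) (nat_lit 292) (nat_lit 5) (nat_lit 302) (nat_lit 5) (nat_lit 293) (nat_lit 5) (nat_lit 457) (nat_lit 420) (nat_lit 323)))) (XT.nd (nat_lit 78) (nat_lit 1292) (nat_lit 0) (XT.lf (nat_lit 0) (nat_lit 6855608802) (nat_lit 608) (nat_lit 5106301900) (nat_lit 684) (nat_lit 1924104667) (nat_lit 284) (nat_lit 5) (nat_lit 292) (nat_lit 5) (nat_lit 293) (nat_lit 5) (nat_lit 458) (nat_lit 420) (nat_lit 322)) (XT.nd (nat_lit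 78) (nat_lit 608) (nat_lit 0) (XT.lf (nat_lit 0) (nat_lit 2139448417) (nat_lit 684) (nat_lit 8709791010) (nat_lit 76) (nat_lit 3269693626) (nat_lit 275) (nat_lit 5) (nat_lit 284) (nat_lit 5) (nat_lit 276) (nat_lit 5) (nat_lit 459) (nat_lit 420) (nat_lit 321)) (XT.lf (nat_lit 0) (nat_lit 3929010649) (nat_lit 608) (nat_lit 2449692778) (nat_lit 684) (nat_lit 7978283691) (nat_lit 267) (nat_lit 5) (nat_lit 275) (nat_lit 5) (nat_lit 276) (nat_lit 5) (nat_lit 460) (nat_lit 420) (nat_lit 320))))) (XT.nd (nat_lit 234) (nat_lit 1672) (nat_lit 0) (XT.nd (nat_lit 78) (nat_lit 608) (nat_lit 0) (XT.lf (nat_lit 0) (nat_lit 2420952938) (nat_lit 608) (nat_lit 8412287917) (nat_lit 684) (nat_lit 3767181742) (nat_lit 259) (nat_lit 5) (nat_lit 267) (nat_lit 5) (nat_lit 268) (nat_lit 5) (nat_lit 461) (nat_lit 420) (nat_lit 319)) (XT.nd (nat_lit 78) (nat_lit 0) (nat_lit 0) (XT.lf (nat_lit 0) (nat_lit 631046888) (nat_lit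 608) (nat_lit 13947015749) (nat_lit 76) (nat_lit 271660799) (nat_lit 251) (nat_lit 5) (nat_lit 259) (nat_lit 5) (nat_lit 252) (nat_lit 5) (nat_lit 462) (nat_lit 420) (nat_lit 318)) (XT.lf (nat_lit 0) (nat_lit 5223273100) (nat_lit 608) (nat_lit 677811278) (nat_lit 76) (nat_lit 9202658004) (nat_lit 251) (nat_lit 5) (nat_lit 259) (nat_lit 5) (nat_lit 252) (nat_lit 5) (nat_lit 463) (nat_lit 420) (nat_lit 317)))) (XT.nd (nat_lit 78) (nat_lit 1140) (nat_lit 0) (XT.lf (nat_lit 0) (nat_lit 10033096286) (nat_lit 608) (nat_lit 2256781121) (nat_lit 76) (nat_lit 3073909581) (nat_lit 244) (nat_lit 5) (nat_lit 252) (nat_lit 5) (nat_lit 245) (nat_lit 5) (nat_lit 464) (nat_lit 420) (nat_lit 316)) (XT.nd (nat_lit 78) (nat_lit 608) (nat_lit 0) (XT.lf (nat_lit 0) (nat_lit 11763992974) (nat_lit 532) (nat_lit 3318536192) (nat_lit 608) (nat_lit 547199111) (nat_lit 237) (nat_lit 5) (nat_lit 244) (nat_lit 5) (nat_lit 245)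 (nat_lit 5) (nat_lit 465) (nat_lit 420) (nat_lit 315)) (XT.lf (nat_lit 0) (nat_lit 4419649077) (nat_lit 608) (nat_lit 5533838358) (nat_lit 76) (nat_lit 5947647329) (nat_lit 229) (nat_lit 5) (nat_lit 237) (nat_lit 5) (nat_lit 230) (nat_lit 5) (nat_lit 466) (nat_lit 420) (nat_lit 314)))))) (XT.nd (nat_lit 468) (nat_lit 2508) (nat_lit 0) (XT.nd (nat_lit 234) (nat_lit 1444) (nat_lit 0) (XT.nd (nat_lit 78) (nat_lit 1064) (nat_lit 0) (XT.lf (nat_lit 0) (nat_lit 8957965008) (nat_lit 456) (nat_lit 652518001) (nat_lit 532) (nat_lit 6568481325) (nat_lit 223) (nat_lit 5) (nat_lit 229) (nat_lit 5) (nat_lit 230) (nat_lit 5) (nat_lit 467) (nat_lit 420) (nat_lit 313)) (XT.nd (nat_lit 78) (nat_lit 532) (nat_lit 0) (XT.lf (nat_lit 0) (nat_lit 7502634954) (nat_lit 532) (nat_lit 7574914580) (nat_lit 608) (nat_lit 1385170579) (nat_lit 216) (nat_lit 5) (nat_lit 223) (nat_lit 5) (nat_lit 224) (nat_lit 5) (nat_lit 468) (nat_lit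 420) (nat_lit 312)) (XT.lf (nat_lit 0) (nat_lit 3984314982) (nat_lit 532) (nat_lit 10738151443) (nat_lit 76) (nat_lit 2030359590) (nat_lit 209) (nat_lit 5) (nat_lit 216) (nat_lit 5) (nat_lit 210) (nat_lit 5) (nat_lit 469) (nat_lit 420) (nat_lit 311)))) (XT.nd (nat_lit 78) (nat_lit 988) (nat_lit 0) (XT.lf (nat_lit 0) (nat_lit 4476208857) (nat_lit 456) (nat_lit 5137626416) (nat_lit 532) (nat_lit 7435262680) (nat_lit 203) (nat_lit 5) (nat_lit 209) (nat_lit 5) (nat_lit 210) (nat_lit 5) (nat_lit 470) (nat_lit 420) (nat_lit 310)) (XT.nd (nat_lit 78) (nat_lit 532) (nat_lit 0) (XT.lf (nat_lit 0) (nat_lit 2915260062) (nat_lit 456) (nat_lit 12597121154) (nat_lit 532) (nat_lit 1839875356) (nat_lit 197) (nat_lit 5) (nat_lit 203) (nat_lit 5) (nat_lit 204) (nat_lit 5) (nat_lit 471) (nat_lit 420) (nat_lit 309)) (XT.lf (nat_lit 0) (nat_lit 1301320154) (nat_lit 456) (nat_lit 2676694364) (nat_lit 532) (nat_lit 13683865294)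 (nat_lit 190) (nat_lit 5) (nat_lit 196) (nat_lit 5) (nat_lit 197) (nat_lit 5) (nat_lit 472) (nat_lit 420) (nat_lit 308))))) (XT.nd (nat_lit 234) (nat_lit 1596) (nat_lit 0) (XT.nd (nat_lit 78) (nat_lit 912) (nat_lit 0) (XT.lf (nat_lit 0) (nat_lit 10070935608) (nat_lit 532) (nat_lit 363893033) (nat_lit 76) (nat_lit 7543211276) (nat_lit 190) (nat_lit 5) (nat_lit 197) (nat_lit 5) (nat_lit 191) (nat_lit 5) (nat_lit 473) (nat_lit 420) (nat_lit 307)) (XT.nd (nat_lit 78) (nat_lit 532) (nat_lit 0) (XT.lf (nat_lit 0) (nat_lit 16276647688) (nat_lit 380) (nat_lit 172126921) (nat_lit 456) (nat_lit 1852868797) (nat_lit 185) (nat_lit 5) (nat_lit 190) (nat_lit 5) (nat_lit 191) (nat_lit 5) (nat_lit 474) (nat_lit 420) (nat_lit 306)) (XT.lf (nat_lit 0) (nat_lit 4472005736) (nat_lit 532) (nat_lit 3778767911) (nat_lit 76) (nat_lit 10380683425) (nat_lit 178) (nat_lit 5) (nat_lit 185) (nat_lit 5) (nat_lit 179) (nat_lit 5)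 (nat_lit 475) (nat_lit 420) (nat_lit 305)))) (XT.nd (nat_lit 156) (nat_lit 836) (nat_lit 0) (XT.nd (nat_lit 78) (nat_lit 380) (nat_lit 0) (XT.lf (nat_lit 0) (nat_lit 11058372038) (nat_lit 456) (nat_lit 5559997423) (nat_lit 76) (nat_lit 2350613458) (nat_lit 173) (nat_lit 5) (nat_lit 179) (nat_lit 5) (nat_lit 174) (nat_lit 5) (nat_lit 476) (nat_lit 420) (nat_lit 304)) (XT.lf (nat_lit 0) (nat_lit 11917888247) (nat_lit 380) (nat_lit 6062296598) (nat_lit 456) (nat_lit 1333693651) (nat_lit 168) (nat_lit 5) (nat_lit 173) (nat_lit 5) (nat_lit 174) (nat_lit 5) (nat_lit 477) (nat_lit 420) (nat_lit 303))) (XT.nd (nat_lit 78) (nat_lit 380) (nat_lit 0) (XT.lf (nat_lit 0) (nat_lit 5486497558) (nat_lit 456) (nat_lit 9300971692) (nat_lit 76) (nat_lit 4878599835) (nat_lit 162) (nat_lit 5) (nat_lit 168) (nat_lit 5) (nat_lit 163) (nat_lit 5) (nat_lit 478) (nat_lit 420) (nat_lit 302)) (XT.lf (nat_lit 0) (nat_lit 8766980806)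 (nat_lit 380) (nat_lit 3854321384) (nat_lit 456) (nat_lit 7404785325) (nat_lit 157) (nat_lit 5) (nat_lit 162) (nat_lit 5) (nat_lit 163) (nat_lit 5) (nat_lit 479) (nat_lit 420) (nat_lit 301))))))))
noncomputable def xc73 : XT := (XT.nd (nat_lit 58578) (nat_lit 0) (nat_lit 16644) (XT.nd (nat_lit 936) (nat_lit 1140) (nat_lit 0) (XT.nd (nat_lit 468) (nat_lit 1976) (nat_lit 0) (XT.nd (nat_lit 234) (nat_lit 760) (nat_lit 0) (XT.nd (nat_lit 78) (nat_lit 760) (nat_lit 0) (XT.lf (nat_lit 0) (nat_lit 7123087729) (nat_lit 380) (nat_lit 12985271506) (nat_lit 456) (nat_lit 285784053) (nat_lit 152) (nat_lit 5) (nat_lit 157) (nat_lit 5) (nat_lit 158) (nat_lit 5) (nat_lit 480) (nat_lit 420) (nat_lit 300)) (XT.nd (nat_lit 78) (nat_lit 304) (nat_lit 0) (XT.lf (nat_lit 0) (nat_lit 5407812772) (nat_lit 380) (nat_lit 1664916002) (nat_lit 456) (nat_lit 13697230593) (nat_lit 146) (nat_lit 5) (nat_lit 151) (nat_lit 5) (nat_lit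 152) (nat_lit 5) (nat_lit 481) (nat_lit 420) (nat_lit 299)) (XT.lf (nat_lit 0) (nat_lit 3623526478) (nat_lit 304) (nat_lit 11184529227) (nat_lit 380) (nat_lit 6345758498) (nat_lit 142) (nat_lit 5) (nat_lit 146) (nat_lit 5) (nat_lit 147) (nat_lit 5) (nat_lit 482) (nat_lit 420) (nat_lit 298)))) (XT.nd (nat_lit 78) (nat_lit 304) (nat_lit 0) (XT.lf (nat_lit 0) (nat_lit 1322328237) (nat_lit 456) (nat_lit 19733904919) (nat_lit 76) (nat_lit 490550074) (nat_lit 136) (nat_lit 5) (nat_lit 142) (nat_lit 5) (nat_lit 137) (nat_lit 5) (nat_lit 483) (nat_lit 420) (nat_lit 297)) (XT.nd (nat_lit 78) (nat_lit 304) (nat_lit 0) (XT.lf (nat_lit 0) (nat_lit 9310606281) (nat_lit 456) (nat_lit 120514047) (nat_lit 76) (nat_lit 12516055654) (nat_lit 136) (nat_lit 5) (nat_lit 142) (nat_lit 5) (nat_lit 137) (nat_lit 5) (nat_lit 484) (nat_lit 420) (nat_lit 296)) (XT.lf (nat_lit 0) (nat_lit 17669806633) (nat_lit 380) (nat_lit 2055611729)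 (nat_lit 76) (nat_lit 2631537467) (nat_lit 132) (nat_lit 5) (nat_lit 137) (nat_lit 5) (nat_lit 133) (nat_lit 5) (nat_lit 485) (nat_lit 420) (nat_lit 295))))) (XT.nd (nat_lit 234) (nat_lit 988) (nat_lit 0) (XT.nd (nat_lit 78) (nat_lit 608) (nat_lit 0) (XT.lf (nat_lit 0) (nat_lit 3623642147) (nat_lit 380) (nat_lit 4087261947) (nat_lit 76) (nat_lit 15064295122) (nat_lit 127) (nat_lit 5) (nat_lit 132) (nat_lit 5) (nat_lit 128) (nat_lit 5) (nat_lit 486) (nat_lit 420) (nat_lit 294)) (XT.nd (nat_lit 78) (nat_lit 304) (nat_lit 0) (XT.lf (nat_lit 0) (nat_lit 12258865028) (nat_lit 380) (nat_lit 6194550971) (nat_lit 76) (nat_lit 4749179242) (nat_lit 123) (nat_lit 5) (nat_lit 128) (nat_lit 5) (nat_lit 124) (nat_lit 5) (nat_lit 487) (nat_lit 420) (nat_lit 293)) (XT.lf (nat_lit 0) (nat_lit 15270256622) (nat_lit 304) (nat_lit 6044261071) (nat_lit 380) (nat_lit 2325068703) (nat_lit 119) (nat_lit 5) (nat_lit 123) (nat_lit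 5) (nat_lit 124) (nat_lit 5) (nat_lit 488) (nat_lit 420) (nat_lit 292)))) (XT.nd (nat_lit 78) (nat_lit 608) (nat_lit 0) (XT.lf (nat_lit 0) (nat_lit 6623805551) (nat_lit 380) (nat_lit 10650387772) (nat_lit 76) (nat_lit 6811492110) (nat_lit 114) (nat_lit 5) (nat_lit 119) (nat_lit 5) (nat_lit 115) (nat_lit 5) (nat_lit 489) (nat_lit 420) (nat_lit 291)) (XT.nd (nat_lit 78) (nat_lit 304) (nat_lit 0) (XT.lf (nat_lit 0) (nat_lit 11531742838) (nat_lit 304) (nat_lit 4433614062) (nat_lit 380) (nat_lit 8576387834) (nat_lit 110) (nat_lit 5) (nat_lit 114) (nat_lit 5) (nat_lit 115) (nat_lit 5) (nat_lit 490) (nat_lit 420) (nat_lit 290)) (XT.lf (nat_lit 0) (nat_lit 744529979) (nat_lit 304) (nat_lit 15457597518) (nat_lit 76) (nat_lit 8805755971) (nat_lit 106) (nat_lit 5) (nat_lit 110) (nat_lit 5) (nat_lit 107) (nat_lit 5) (nat_lit 491) (nat_lit 420) (nat_lit 289)))))) (XT.nd (nat_lit 57096) (nat_lit 0) (nat_lit 35492)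 (XT.nd (nat_lit 234) (nat_lit 228) (nat_lit 0) (XT.nd (nat_lit 78) (nat_lit 608) (nat_lit 0) (XT.lf (nat_lit 0) (nat_lit 7462178409) (nat_lit 304) (nat_lit 2917560286) (nat_lit 380) (nat_lit 15104110821) (nat_lit 102) (nat_lit 5) (nat_lit 106) (nat_lit 5) (nat_lit 107) (nat_lit 5) (nat_lit 492) (nat_lit 420) (nat_lit 288)) (XT.nd (nat_lit 78) (nat_lit 380) (nat_lit 0) (XT.lf (nat_lit 0) (nat_lit 5280668809) (nat_lit 228) (nat_lit 15216863182) (nat_lit 304) (nat_lit 5472692578) (nat_lit 99) (nat_lit 5) (nat_lit 102) (nat_lit 5) (nat_lit 103) (nat_lit 5) (nat_lit 493) (nat_lit 420) (nat_lit 287)) (XT.lf (nat_lit 0) (nat_lit 3023568481) (nat_lit 304) (nat_lit 1511935752) (nat_lit 380) (nat_lit 21932186297) (nat_lit 94) (nat_lit 5) (nat_lit 98) (nat_lit 5) (nat_lit 99) (nat_lit 5) (nat_lit 494) (nat_lit 420) (nat_lit 286)))) (XT.nd (nat_lit 56706) (nat_lit 0) (nat_lit 36860) (XT.lf (nat_lit 0) (nat_lit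 616020899) (nat_lit 228) (nat_lit 14365276494) (nat_lit 304) (nat_lit 11993826074) (nat_lit 91) (nat_lit 5) (nat_lit 94) (nat_lit 5) (nat_lit 95) (nat_lit 5) (nat_lit 495) (nat_lit 420) (nat_lit 285)) (XT.nd (nat_lit 78) (nat_lit 0) (nat_lit 0) (XT.lf (nat_lit 0) (nat_lit 654248166) (nat_lit 0) (nat_lit 654248166) (nat_lit 1444) (nat_lit 2850356731) (nat_lit 576) (nat_lit 5) (nat_lit 576) (nat_lit 3) (nat_lit 595) (nat_lit 3) (nat_lit 421) (nat_lit 421) (nat_lit 358)) (XT.lf (nat_lit 0) (nat_lit 4313790653) (nat_lit 1444) (nat_lit 855407007) (nat_lit 1520) (nat_lit 3239950652) (nat_lit 576) (nat_lit 5) (nat_lit 595) (nat_lit 3) (nat_lit 596) (nat_lit 5) (nat_lit 422) (nat_lit 421) (nat_lit 357))))) (XT.nd (nat_lit 234) (nat_lit 0) (nat_lit 0) (XT.nd (nat_lit 78) (nat_lit 1368) (nat_lit 0) (XT.lf (nat_lit 76) (nat_lit 5513145384) (nat_lit 0) (nat_lit 529242602) (nat_lit 1520) (nat_lit 2461334604) (nat_lit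 577) (nat_lit 5) (nat_lit 576) (nat_lit 5) (nat_lit 596) (nat_lit 5) (nat_lit 423) (nat_lit 421) (nat_lit 356)) (XT.nd (nat_lit 78) (nat_lit 1444) (nat_lit 0) (XT.lf (nat_lit 76) (nat_lit 3466969877) (nat_lit 0) (nat_lit 4349990846) (nat_lit 1520) (nat_lit 784297559) (nat_lit 578) (nat_lit 5) (nat_lit 577) (nat_lit 5) (nat_lit 597) (nat_lit 5) (nat_lit 424) (nat_lit 421) (nat_lit 355)) (XT.lf (nat_lit 0) (nat_lit 906710606) (nat_lit 1520) (nat_lit 7273303239) (nat_lit 1596) (nat_lit 522069399) (nat_lit 558) (nat_lit 5) (nat_lit 578) (nat_lit 5) (nat_lit 579) (nat_lit 5) (nat_lit 425) (nat_lit 421) (nat_lit 354)))) (XT.nd (nat_lit 156) (nat_lit 0) (nat_lit 76) (XT.nd (nat_lit 78) (nat_lit 0) (nat_lit 76) (XT.lf (nat_lit 0) (nat_lit 2643030659) (nat_lit 1520) (nat_lit 616142467) (nat_lit 1596) (nat_lit 5546557444) (nat_lit 558) (nat_lit 5) (nat_lit 578) (nat_lit 5) (nat_lit 579) (nat_lit 5) (nat_lit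 426) (nat_lit 421) (nat_lit 353)) (XT.lf (nat_lit 0) (nat_lit 4427218797) (nat_lit 1520) (nat_lit 2636103338) (nat_lit 1596) (nat_lit 1849255476) (nat_lit 559) (nat_lit 5) (nat_lit 579) (nat_lit 5) (nat_lit 580) (nat_lit 5) (nat_lit 427) (nat_lit 421) (nat_lit 352))) (XT.nd (nat_lit 78) (nat_lit 0) (nat_lit 76) (XT.lf (nat_lit 76) (nat_lit 4362107210) (nat_lit 0) (nat_lit 1901516294) (nat_lit 1596) (nat_lit 2759038436) (nat_lit 560) (nat_lit 5) (nat_lit 559) (nat_lit 5) (nat_lit 580) (nat_lit 5) (nat_lit 428) (nat_lit 421) (nat_lit 351)) (XT.lf (nat_lit 76) (nat_lit 2444741154) (nat_lit 0) (nat_lit 5712302500) (nat_lit 1596) (nat_lit 978972209) (nat_lit 561) (nat_lit 5) (nat_lit 560) (nat_lit 5) (nat_lit 581) (nat_lit 5) (nat_lit 429) (nat_lit 421) (nat_lit 350))))))) (XT.nd (nat_lit 1014) (nat_lit 9728) (nat_lit 0) (XT.nd (nat_lit 468) (nat_lit 6232) (nat_lit 0) (XT.nd (nat_lit 234) (nat_lit 1444)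 (nat_lit 0) (XT.nd (nat_lit 78) (nat_lit 0) (nat_lit 76) (XT.lf (nat_lit 76) (nat_lit 527477692) (nat_lit 0) (nat_lit 310631911) (nat_lit 1672) (nat_lit 8414658693) (nat_lit 540) (nat_lit 5) (nat_lit 539) (nat_lit 5) (nat_lit 561) (nat_lit 5) (nat_lit 430) (nat_lit 421) (nat_lit 349)) (XT.nd (nat_lit 78) (nat_lit 0) (nat_lit 76) (XT.lf (nat_lit 0) (nat_lit 2724542841) (nat_lit 1596) (nat_lit 1395071989) (nat_lit 1672) (nat_lit 5252721375) (nat_lit 540) (nat_lit 5) (nat_lit 561) (nat_lit 5) (nat_lit 562) (nat_lit 5) (nat_lit 431) (nat_lit 421) (nat_lit 348)) (XT.lf (nat_lit 0) (nat_lit 4669707791) (nat_lit 1596) (nat_lit 3306696761) (nat_lit 1672) (nat_lit 1519048785) (nat_lit 541) (nat_lit 5) (nat_lit 562) (nat_lit 5) (nat_lit 563) (nat_lit 5) (nat_lit 432) (nat_lit 421) (nat_lit 347)))) (XT.nd (nat_lit 78) (nat_lit 1596) (nat_lit 0) (XT.lf (nat_lit 76) (nat_lit 4391272361) (nat_lit 0) (nat_lit 2298680123)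 (nat_lit 1672) (nat_lit 2931981819) (nat_lit 542) (nat_lit 5) (nat_lit 541) (nat_lit 5) (nat_lit 563) (nat_lit 5) (nat_lit 433) (nat_lit 421) (nat_lit 346)) (XT.nd (nat_lit 78) (nat_lit 1672) (nat_lit 0) (XT.lf (nat_lit 76) (nat_lit 2588146446) (nat_lit 0) (nat_lit 6197485153) (nat_lit 1672) (nat_lit 966286233) (nat_lit 543) (nat_lit 5) (nat_lit 542) (nat_lit 5) (nat_lit 564) (nat_lit 5) (nat_lit 434) (nat_lit 421) (nat_lit 345)) (XT.lf (nat_lit 76) (nat_lit 779446387) (nat_lit 0) (nat_lit 274429971) (nat_lit 1748) (nat_lit 8831603987) (nat_lit 521) (nat_lit 5) (nat_lit 520) (nat_lit 5) (nat_lit 543) (nat_lit 5) (nat_lit 435) (nat_lit 421) (nat_lit 344))))) (XT.nd (nat_lit 234) (nat_lit 4712) (nat_lit 0) (XT.nd (nat_lit 78) (nat_lit 1596) (nat_lit 0) (XT.lf (nat_lit 0) (nat_lit 3162742373) (nat_lit 1672) (nat_lit 1044385054) (nat_lit 1748) (nat_lit 5814974352) (nat_lit 521) (nat_lit 5) (nat_lit 543)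 (nat_lit 5) (nat_lit 544) (nat_lit 5) (nat_lit 436) (nat_lit 421) (nat_lit 343)) (XT.nd (nat_lit 78) (nat_lit 1672) (nat_lit 0) (XT.lf (nat_lit 0) (nat_lit 5352844689) (nat_lit 1672) (nat_lit 2857958158) (nat_lit 76) (nat_lit 1951663798) (nat_lit 522) (nat_lit 5) (nat_lit 544) (nat_lit 5) (nat_lit 523) (nat_lit 5) (nat_lit 437) (nat_lit 421) (nat_lit 342)) (XT.lf (nat_lit 0) (nat_lit 5620813798) (nat_lit 1672) (nat_lit 2016486327) (nat_lit 1748) (nat_lit 2669173404) (nat_lit 500) (nat_lit 5) (nat_lit 522) (nat_lit 5) (nat_lit 523) (nat_lit 5) (nat_lit 438) (nat_lit 421) (nat_lit 341)))) (XT.nd (nat_lit 156) (nat_lit 1064) (nat_lit 0) (XT.nd (nat_lit 78) (nat_lit 1900) (nat_lit 0) (XT.lf (nat_lit 0) (nat_lit 3925386903) (nat_lit 1748) (nat_lit 6096181023) (nat_lit 1824) (nat_lit 432611073) (nat_lit 477) (nat_lit 5) (nat_lit 500) (nat_lit 5) (nat_lit 501) (nat_lit 5) (nat_lit 439) (nat_lit 421) (nat_lit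 340)) (XT.lf (nat_lit 0) (nat_lit 1867360257) (nat_lit 1900) (nat_lit 8387768982) (nat_lit 76) (nat_lit 350530172) (nat_lit 452) (nat_lit 5) (nat_lit 477) (nat_lit 5) (nat_lit 453) (nat_lit 5) (nat_lit 440) (nat_lit 421) (nat_lit 339))) (XT.nd (nat_lit 78) (nat_lit 0) (nat_lit 0) (XT.lf (nat_lit 0) (nat_lit 481392962) (nat_lit 1064) (nat_lit 3797206454) (nat_lit 1140) (nat_lit 6482068357) (nat_lit 438) (nat_lit 5) (nat_lit 452) (nat_lit 5) (nat_lit 453) (nat_lit 5) (nat_lit 441) (nat_lit 421) (nat_lit 338)) (XT.lf (nat_lit 0) (nat_lit 6798571974) (nat_lit 1140) (nat_lit 1243385189) (nat_lit 76) (nat_lit 2877644849) (nat_lit 438) (nat_lit 5) (nat_lit 453) (nat_lit 5) (nat_lit 439) (nat_lit 5) (nat_lit 442) (nat_lit 421) (nat_lit 337)))))) (XT.nd (nat_lit 468) (nat_lit 5244) (nat_lit 0) (XT.nd (nat_lit 234) (nat_lit 1748) (nat_lit 0) (XT.nd (nat_lit 78) (nat_lit 1824) (nat_lit 0) (XT.lf (nat_lit 0) (nat_lit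 8108877671) (nat_lit 912) (nat_lit 1325102636) (nat_lit 988) (nat_lit 1648530682) (nat_lit 426) (nat_lit 5) (nat_lit 438) (nat_lit 5) (nat_lit 439) (nat_lit 5) (nat_lit 443) (nat_lit 421) (nat_lit 336)) (XT.nd (nat_lit 78) (nat_lit 836) (nat_lit 0) (XT.lf (nat_lit 0) (nat_lit 936526474) (nat_lit 988) (nat_lit 4733565806) (nat_lit 76) (nat_lit 5579098365) (nat_lit 413) (nat_lit 5) (nat_lit 426) (nat_lit 5) (nat_lit 414) (nat_lit 5) (nat_lit 444) (nat_lit 421) (nat_lit 335)) (XT.lf (nat_lit 0) (nat_lit 3609805587) (nat_lit 912) (nat_lit 6510187968) (nat_lit 76) (nat_lit 1300001036) (nat_lit 402) (nat_lit 5) (nat_lit 414) (nat_lit 5) (nat_lit 403) (nat_lit 5) (nat_lit 445) (nat_lit 421) (nat_lit 334)))) (XT.nd (nat_lit 78) (nat_lit 912) (nat_lit 0) (XT.lf (nat_lit 0) (nat_lit 3280994140) (nat_lit 836) (nat_lit 3137950420) (nat_lit 912) (nat_lit 5175867957) (nat_lit 391) (nat_lit 5) (nat_lit 402) (nat_lit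 5) (nat_lit 403) (nat_lit 5) (nat_lit 446) (nat_lit 421) (nat_lit 333)) (XT.nd (nat_lit 78) (nat_lit 76) (nat_lit 0) (XT.lf (nat_lit 0) (nat_lit 1639910580) (nat_lit 836) (nat_lit 7718785206) (nat_lit 912) (nat_lit 2415255433) (nat_lit 380) (nat_lit 5) (nat_lit 391) (nat_lit 5) (nat_lit 392) (nat_lit 5) (nat_lit 447) (nat_lit 421) (nat_lit 332)) (XT.lf (nat_lit 0) (nat_lit 465780690) (nat_lit 912) (nat_lit 11317823) (nat_lit 76) (nat_lit 11480448408) (nat_lit 379) (nat_lit 5) (nat_lit 391) (nat_lit 5) (nat_lit 380) (nat_lit 5) (nat_lit 448) (nat_lit 421) (nat_lit 331))))) (XT.nd (nat_lit 234) (nat_lit 2888) (nat_lit 0) (XT.nd (nat_lit 78) (nat_lit 1520) (nat_lit 0) (XT.lf (nat_lit 0) (nat_lit 3481216071) (nat_lit 912) (nat_lit 1689697506) (nat_lit 76) (nat_lit 6973804754) (nat_lit 368) (nat_lit 5) (nat_lit 380) (nat_lit 5) (nat_lit 369) (nat_lit 5) (nat_lit 449) (nat_lit 421) (nat_lit 330)) (XT.nd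 (nat_lit 78) (nat_lit 760) (nat_lit 0) (XT.lf (nat_lit 0) (nat_lit 6631276556) (nat_lit 836) (nat_lit 3374642137) (nat_lit 76) (nat_lit 2330705640) (nat_lit 358) (nat_lit 5) (nat_lit 369) (nat_lit 5) (nat_lit 359) (nat_lit 5) (nat_lit 450) (nat_lit 421) (nat_lit 329)) (XT.lf (nat_lit 0) (nat_lit 7450347956) (nat_lit 760) (nat_lit 2487956213) (nat_lit 836) (nat_lit 2594736654) (nat_lit 348) (nat_lit 5) (nat_lit 358) (nat_lit 5) (nat_lit 359) (nat_lit 5) (nat_lit 451) (nat_lit 421) (nat_lit 328)))) (XT.nd (nat_lit 156) (nat_lit 1368) (nat_lit 0) (XT.nd (nat_lit 78) (nat_lit 760) (nat_lit 0) (XT.lf (nat_lit 0) (nat_lit 665877890) (nat_lit 760) (nat_lit 6818727863) (nat_lit 76) (nat_lit 5249373941) (nat_lit 338) (nat_lit 5) (nat_lit 348) (nat_lit 5) (nat_lit 339) (nat_lit 5) (nat_lit 452) (nat_lit 421) (nat_lit 327)) (XT.lf (nat_lit 0) (nat_lit 4040131815) (nat_lit 836) (nat_lit 8581175673) (nat_lit 76)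 (nat_lit 318277170) (nat_lit 328) (nat_lit 5) (nat_lit 339) (nat_lit 5) (nat_lit 329) (nat_lit 5) (nat_lit 453) (nat_lit 421) (nat_lit 326))) (XT.nd (nat_lit 78) (nat_lit 684) (nat_lit 0) (XT.lf (nat_lit 0) (nat_lit 2764774918) (nat_lit 684) (nat_lit 4835161264) (nat_lit 760) (nat_lit 5549737476) (nat_lit 319) (nat_lit 5) (nat_lit 328) (nat_lit 5) (nat_lit 329) (nat_lit 5) (nat_lit 454) (nat_lit 421) (nat_lit 325)) (XT.lf (nat_lit 0) (nat_lit 1162968547) (nat_lit 684) (nat_lit 10160759899) (nat_lit 760) (nat_lit 2041195284) (nat_lit 310) (nat_lit 5) (nat_lit 319) (nat_lit 5) (nat_lit 320) (nat_lit 5) (nat_lit 455) (nat_lit 421) (nat_lit 324))))))))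
noncomputable def xc74 : XT := (XT.nd (nat_lit 1950) (nat_lit 5016) (nat_lit 0) (XT.nd (nat_lit 936) (nat_lit 5472) (nat_lit 0) (XT.nd (nat_lit 468) (nat_lit 2888) (nat_lit 0) (XT.nd (nat_lit 234) (nat_lit 1900) (nat_lit 0) (XT.nd (nat_lit 78) (nat_lit 1292) (nat_lit 0) (XT.lf (nat_lit 0) (nat_lit 1626027869) (nat_lit 760) (nat_lit 463521129) (nat_lit 76) (nat_lit 11495399272) (nat_lit 309) (nat_lit 5) (nat_lit 319) (nat_lit 5) (nat_lit 310) (nat_lit 5) (nat_lit 456) (nat_lit 421) (nat_lit 323)) (XT.nd (nat_lit 78) (nat_lit 684) (nat_lit 0) (XT.lf (nat_lit 0) (nat_lit 5464570696) (nat_lit 684) (nat_lit 2117706330) (nat_lit 76) (nat_lit 6227248081) (nat_lit 301) (nat_lit 5) (nat_lit 310) (nat_lit 5) (nat_lit 302) (nat_lit 5) (nat_lit 457) (nat_lit 421) (nat_lit 322)) (XT.lf (nat_lit 0) (nat_lit 9479475725) (nat_lit 760) (nat_lit 3780507692) (nat_lit 76) (nat_lit 779633758) (nat_lit 292) (nat_lit 5)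 (nat_lit 302) (nat_lit 5) (nat_lit 293) (nat_lit 5) (nat_lit 458) (nat_lit 421) (nat_lit 321)))) (XT.nd (nat_lit 78) (nat_lit 1292) (nat_lit 0) (XT.lf (nat_lit 0) (nat_lit 8790754534) (nat_lit 608) (nat_lit 4919151172) (nat_lit 684) (nat_lit 564806724) (nat_lit 284) (nat_lit 5) (nat_lit 292) (nat_lit 5) (nat_lit 293) (nat_lit 5) (nat_lit 459) (nat_lit 421) (nat_lit 320)) (XT.nd (nat_lit 78) (nat_lit 608) (nat_lit 0) (XT.lf (nat_lit 0) (nat_lit 3574781830) (nat_lit 684) (nat_lit 7226091166) (nat_lit 76) (nat_lit 3714109251) (nat_lit 275) (nat_lit 5) (nat_lit 284) (nat_lit 5) (nat_lit 276) (nat_lit 5) (nat_lit 460) (nat_lit 421) (nat_lit 319)) (XT.lf (nat_lit 0) (nat_lit 5763564095) (nat_lit 608) (nat_lit 2148859835) (nat_lit 684) (nat_lit 6848332606) (nat_lit 267) (nat_lit 5) (nat_lit 275) (nat_lit 5) (nat_lit 276) (nat_lit 5) (nat_lit 461) (nat_lit 421) (nat_lit 318))))) (XT.nd (nat_lit 234) (nat_lit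 1140) (nat_lit 0) (XT.nd (nat_lit 78) (nat_lit 1140) (nat_lit 0) (XT.lf (nat_lit 0) (nat_lit 4206525703) (nat_lit 608) (nat_lit 8268455071) (nat_lit 684) (nat_lit 2537029347) (nat_lit 259) (nat_lit 5) (nat_lit 267) (nat_lit 5) (nat_lit 268) (nat_lit 5) (nat_lit 462) (nat_lit 421) (nat_lit 317)) (XT.nd (nat_lit 78) (nat_lit 532) (nat_lit 0) (XT.lf (nat_lit 0) (nat_lit 1950602920) (nat_lit 608) (nat_lit 12639436193) (nat_lit 76) (nat_lit 679077583) (nat_lit 251) (nat_lit 5) (nat_lit 259) (nat_lit 5) (nat_lit 252) (nat_lit 5) (nat_lit 463) (nat_lit 421) (nat_lit 316)) (XT.lf (nat_lit 0) (nat_lit 990564285) (nat_lit 532) (nat_lit 5658580763) (nat_lit 608) (nat_lit 8882242685) (nat_lit 244) (nat_lit 5) (nat_lit 251) (nat_lit 5) (nat_lit 252) (nat_lit 5) (nat_lit 464) (nat_lit 421) (nat_lit 315)))) (XT.nd (nat_lit 78) (nat_lit 1140) (nat_lit 0) (XT.lf (nat_lit 0) (nat_lit 11573430090) (nat_lit 608) (nat_lit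 653812371) (nat_lit 76) (nat_lit 3572590302) (nat_lit 244) (nat_lit 5) (nat_lit 252) (nat_lit 5) (nat_lit 245) (nat_lit 5) (nat_lit 465) (nat_lit 421) (nat_lit 314)) (XT.nd (nat_lit 78) (nat_lit 532) (nat_lit 0) (XT.lf (nat_lit 0) (nat_lit 665808361) (nat_lit 608) (nat_lit 2318163217) (nat_lit 76) (nat_lit 13090203989) (nat_lit 236) (nat_lit 5) (nat_lit 244) (nat_lit 5) (nat_lit 237) (nat_lit 5) (nat_lit 466) (nat_lit 421) (nat_lit 313)) (XT.lf (nat_lit 0) (nat_lit 5752109405) (nat_lit 608) (nat_lit 4045712950) (nat_lit 76) (nat_lit 6556274166) (nat_lit 229) (nat_lit 5) (nat_lit 237) (nat_lit 5) (nat_lit 230) (nat_lit 5) (nat_lit 467) (nat_lit 421) (nat_lit 312)))))) (XT.nd (nat_lit 468) (nat_lit 2508) (nat_lit 0) (XT.nd (nat_lit 234) (nat_lit 1444) (nat_lit 0) (XT.nd (nat_lit 78) (nat_lit 1064) (nat_lit 0) (XT.lf (nat_lit 0) (nat_lit 10854008051) (nat_lit 456) (nat_lit 220278146) (nat_lit 532) (nat_lit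 5566464605) (nat_lit 223) (nat_lit 5) (nat_lit 229) (nat_lit 5) (nat_lit 230) (nat_lit 5) (nat_lit 468) (nat_lit 421) (nat_lit 311)) (XT.nd (nat_lit 78) (nat_lit 532) (nat_lit 0) (XT.lf (nat_lit 0) (nat_lit 9348930991) (nat_lit 532) (nat_lit 7335570252) (nat_lit 608) (nat_lit 248937398) (nat_lit 216) (nat_lit 5) (nat_lit 223) (nat_lit 5) (nat_lit 224) (nat_lit 5) (nat_lit 469) (nat_lit 421) (nat_lit 310)) (XT.lf (nat_lit 0) (nat_lit 5245845160) (nat_lit 532) (nat_lit 9430330549) (nat_lit 76) (nat_lit 2556327899) (nat_lit 209) (nat_lit 5) (nat_lit 216) (nat_lit 5) (nat_lit 210) (nat_lit 5) (nat_lit 470) (nat_lit 421) (nat_lit 309)))) (XT.nd (nat_lit 78) (nat_lit 988) (nat_lit 0) (XT.lf (nat_lit 0) (nat_lit 6214016306) (nat_lit 456) (nat_lit 4807383719) (nat_lit 532) (nat_lit 6516722657) (nat_lit 203) (nat_lit 5) (nat_lit 209) (nat_lit 5) (nat_lit 210) (nat_lit 5) (nat_lit 471) (nat_lit 421) (nat_lit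 308)) (XT.nd (nat_lit 78) (nat_lit 532) (nat_lit 0) (XT.lf (nat_lit 0) (nat_lit 4599213996) (nat_lit 456) (nat_lit 12478510533) (nat_lit 532) (nat_lit 773036987) (nat_lit 197) (nat_lit 5) (nat_lit 203) (nat_lit 5) (nat_lit 204) (nat_lit 5) (nat_lit 472) (nat_lit 421) (nat_lit 307)) (XT.lf (nat_lit 0) (nat_lit 2925492646) (nat_lit 456) (nat_lit 2257220977) (nat_lit 532) (nat_lit 12987255144) (nat_lit 190) (nat_lit 5) (nat_lit 196) (nat_lit 5) (nat_lit 197) (nat_lit 5) (nat_lit 473) (nat_lit 421) (nat_lit 306))))) (XT.nd (nat_lit 234) (nat_lit 1596) (nat_lit 0) (XT.nd (nat_lit 78) (nat_lit 532) (nat_lit 0) (XT.lf (nat_lit 0) (nat_lit 1197847206) (nat_lit 380) (nat_lit 10239890324) (nat_lit 456) (nat_lit 7058291596) (nat_lit 185) (nat_lit 5) (nat_lit 190) (nat_lit 5) (nat_lit 191) (nat_lit 5) (nat_lit 474) (nat_lit 421) (nat_lit 305)) (XT.nd (nat_lit 78) (nat_lit 532) (nat_lit 0) (XT.lf (nat_lit 0) (nat_lit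 17980362685) (nat_lit 456) (nat_lit 535347057) (nat_lit 76) (nat_lit 314163664) (nat_lit 185) (nat_lit 5) (nat_lit 191) (nat_lit 5) (nat_lit 186) (nat_lit 5) (nat_lit 475) (nat_lit 421) (nat_lit 304)) (XT.lf (nat_lit 0) (nat_lit 5631869331) (nat_lit 532) (nat_lit 2354333074) (nat_lit 76) (nat_lit 11183630240) (nat_lit 178) (nat_lit 5) (nat_lit 185) (nat_lit 5) (nat_lit 179) (nat_lit 5) (nat_lit 476) (nat_lit 421) (nat_lit 303)))) (XT.nd (nat_lit 156) (nat_lit 836) (nat_lit 0) (XT.nd (nat_lit 78) (nat_lit 380) (nat_lit 0) (XT.lf (nat_lit 0) (nat_lit 12399067249) (nat_lit 456) (nat_lit 4197075964) (nat_lit 76) (nat_lit 2921677816) (nat_lit 173) (nat_lit 5) (nat_lit 179) (nat_lit 5) (nat_lit 174) (nat_lit 5) (nat_lit 477) (nat_lit 421) (nat_lit 302)) (XT.lf (nat_lit 0) (nat_lit 13780328364) (nat_lit 380) (nat_lit 5728590189) (nat_lit 456) (nat_lit 364538769) (nat_lit 168) (nat_lit 5) (nat_lit 173) (nat_lit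 5) (nat_lit 174) (nat_lit 5) (nat_lit 478) (nat_lit 421) (nat_lit 301))) (XT.nd (nat_lit 78) (nat_lit 380) (nat_lit 0) (XT.lf (nat_lit 0) (nat_lit 6631068584) (nat_lit 456) (nat_lit 8070218225) (nat_lit 76) (nat_lit 5535116315) (nat_lit 162) (nat_lit 5) (nat_lit 168) (nat_lit 5) (nat_lit 163) (nat_lit 5) (nat_lit 479) (nat_lit 421) (nat_lit 300)) (XT.lf (nat_lit 0) (nat_lit 10515278419) (nat_lit 380) (nat_lit 3445739418) (nat_lit 456) (nat_lit 6646583672) (nat_lit 157) (nat_lit 5) (nat_lit 162) (nat_lit 5) (nat_lit 163) (nat_lit 5) (nat_lit 480) (nat_lit 421) (nat_lit 299))))))) (XT.nd (nat_lit 936) (nat_lit 1140) (nat_lit 0) (XT.nd (nat_lit 468) (nat_lit 1976) (nat_lit 0) (XT.nd (nat_lit 234) (nat_lit 760) (nat_lit 0) (XT.nd (nat_lit 78) (nat_lit 684) (nat_lit 0) (XT.lf (nat_lit 0) (nat_lit 661789667) (nat_lit 456) (nat_lit 12177776980) (nat_lit 76) (nat_lit 8147348598) (nat_lit 151) (nat_lit 5) (nat_lit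 157) (nat_lit 5) (nat_lit 152) (nat_lit 5) (nat_lit 481) (nat_lit 421) (nat_lit 298)) (XT.nd (nat_lit 78) (nat_lit 304) (nat_lit 0) (XT.lf (nat_lit 0) (nat_lit 7035380884) (nat_lit 380) (nat_lit 1183593856) (nat_lit 456) (nat_lit 13155358600) (nat_lit 146) (nat_lit 5) (nat_lit 151) (nat_lit 5) (nat_lit 152) (nat_lit 5) (nat_lit 482) (nat_lit 421) (nat_lit 297)) (XT.lf (nat_lit 0) (nat_lit 5188820328) (nat_lit 304) (nat_lit 10983141424) (nat_lit 380) (nat_lit 5598031332) (nat_lit 142) (nat_lit 5) (nat_lit 146) (nat_lit 5) (nat_lit 147) (nat_lit 5) (nat_lit 483) (nat_lit 421) (nat_lit 296)))) (XT.nd (nat_lit 78) (nat_lit 304) (nat_lit 0) (XT.lf (nat_lit 0) (nat_lit 2273698089) (nat_lit 456) (nat_lit 18866102244) (nat_lit 76) (nat_lit 1035112172) (nat_lit 136) (nat_lit 5) (nat_lit 142) (nat_lit 5) (nat_lit 137) (nat_lit 5) (nat_lit 484) (nat_lit 421) (nat_lit 295)) (XT.nd (nat_lit 78) (nat_lit 0) (nat_lit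 0) (XT.lf (nat_lit 0) (nat_lit 1310356896) (nat_lit 304) (nat_lit 9173220914) (nat_lit 380) (nat_lit 12104101333) (nat_lit 132) (nat_lit 5) (nat_lit 136) (nat_lit 5) (nat_lit 137) (nat_lit 5) (nat_lit 485) (nat_lit 421) (nat_lit 294)) (XT.lf (nat_lit 0) (nat_lit 19071732713) (nat_lit 380) (nat_lit 708981463) (nat_lit 76) (nat_lit 3229475776) (nat_lit 132) (nat_lit 5) (nat_lit 137) (nat_lit 5) (nat_lit 133) (nat_lit 5) (nat_lit 486) (nat_lit 421) (nat_lit 293))))) (XT.nd (nat_lit 234) (nat_lit 988) (nat_lit 0) (XT.nd (nat_lit 78) (nat_lit 608) (nat_lit 0) (XT.lf (nat_lit 0) (nat_lit 4593486848) (nat_lit 380) (nat_lit 2812949036) (nat_lit 76) (nat_lit 16034760513) (nat_lit 127) (nat_lit 5) (nat_lit 132) (nat_lit 5) (nat_lit 128) (nat_lit 5) (nat_lit 487) (nat_lit 421) (nat_lit 292)) (XT.nd (nat_lit 78) (nat_lit 304) (nat_lit 0) (XT.lf (nat_lit 0) (nat_lit 13475043962) (nat_lit 380) (nat_lit 4992622214)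 (nat_lit 76) (nat_lit 5414003627) (nat_lit 123) (nat_lit 5) (nat_lit 128) (nat_lit 5) (nat_lit 124) (nat_lit 5) (nat_lit 488) (nat_lit 421) (nat_lit 291)) (XT.lf (nat_lit 0) (nat_lit 17093614763) (nat_lit 304) (nat_lit 5692904497) (nat_lit 380) (nat_lit 1545569391) (nat_lit 119) (nat_lit 5) (nat_lit 123) (nat_lit 5) (nat_lit 124) (nat_lit 5) (nat_lit 489) (nat_lit 421) (nat_lit 290)))) (XT.nd (nat_lit 78) (nat_lit 608) (nat_lit 0) (XT.lf (nat_lit 0) (nat_lit 7648465078) (nat_lit 380) (nat_lit 9602777566) (nat_lit 76) (nat_lit 7540462068) (nat_lit 114) (nat_lit 5) (nat_lit 119) (nat_lit 5) (nat_lit 115) (nat_lit 5) (nat_lit 490) (nat_lit 421) (nat_lit 289)) (XT.nd (nat_lit 78) (nat_lit 304) (nat_lit 0) (XT.lf (nat_lit 0) (nat_lit 13222637035) (nat_lit 304) (nat_lit 4032301527) (nat_lit 380) (nat_lit 8006814661) (nat_lit 110) (nat_lit 5) (nat_lit 114) (nat_lit 5) (nat_lit 115) (nat_lit 5) (nat_lit 491)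 (nat_lit 421) (nat_lit 288)) (XT.lf (nat_lit 0) (nat_lit 1571238664) (nat_lit 304) (nat_lit 14574916572) (nat_lit 76) (nat_lit 9595847361) (nat_lit 106) (nat_lit 5) (nat_lit 110) (nat_lit 5) (nat_lit 107) (nat_lit 5) (nat_lit 492) (nat_lit 421) (nat_lit 287)))))) (XT.nd (nat_lit 57096) (nat_lit 0) (nat_lit 34048) (XT.nd (nat_lit 234) (nat_lit 228) (nat_lit 0) (XT.nd (nat_lit 78) (nat_lit 608) (nat_lit 0) (XT.lf (nat_lit 0) (nat_lit 9010608749) (nat_lit 304) (nat_lit 2470066514) (nat_lit 380) (nat_lit 14751869803) (nat_lit 102) (nat_lit 5) (nat_lit 106) (nat_lit 5) (nat_lit 107) (nat_lit 5) (nat_lit 493) (nat_lit 421) (nat_lit 286)) (XT.nd (nat_lit 78) (nat_lit 380) (nat_lit 0) (XT.lf (nat_lit 0) (nat_lit 6754310293) (nat_lit 228) (nat_lit 15136607447) (nat_lit 304) (nat_lit 4842816167) (nat_lit 99) (nat_lit 5) (nat_lit 102) (nat_lit 5) (nat_lit 103) (nat_lit 5) (nat_lit 494) (nat_lit 421) (nat_lit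 285)) (XT.lf (nat_lit 0) (nat_lit 4418431495) (nat_lit 304) (nat_lit 1022423742) (nat_lit 380) (nat_lit 21805453446) (nat_lit 94) (nat_lit 5) (nat_lit 98) (nat_lit 5) (nat_lit 99) (nat_lit 5) (nat_lit 495) (nat_lit 421) (nat_lit 284)))) (XT.nd (nat_lit 56706) (nat_lit 0) (nat_lit 36860) (XT.lf (nat_lit 0) (nat_lit 1929245226) (nat_lit 228) (nat_lit 14260148500) (nat_lit 304) (nat_lit 11579784234) (nat_lit 91) (nat_lit 5) (nat_lit 94) (nat_lit 5) (nat_lit 95) (nat_lit 5) (nat_lit 496) (nat_lit 421) (nat_lit 283)) (XT.nd (nat_lit 78) (nat_lit 0) (nat_lit 0) (XT.lf (nat_lit 0) (nat_lit 1484125217) (nat_lit 0) (nat_lit 1484125217) (nat_lit 1444) (nat_lit 1282787350) (nat_lit 576) (nat_lit 5) (nat_lit 576) (nat_lit 3) (nat_lit 595) (nat_lit 3) (nat_lit 422) (nat_lit 422) (nat_lit 356)) (XT.lf (nat_lit 76) (nat_lit 775885602) (nat_lit 0) (nat_lit 6808741838) (nat_lit 1520) (nat_lit 1013635042) (nat_lit 577)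 (nat_lit 5) (nat_lit 576) (nat_lit 5) (nat_lit 596) (nat_lit 5) (nat_lit 423) (nat_lit 422) (nat_lit 355))))) (XT.nd (nat_lit 234) (nat_lit 1292) (nat_lit 0) (XT.nd (nat_lit 78) (nat_lit 0) (nat_lit 76) (XT.lf (nat_lit 0) (nat_lit 574180993) (nat_lit 1520) (nat_lit 1402576906) (nat_lit 1596) (nat_lit 6720567604) (nat_lit 556) (nat_lit 5) (nat_lit 576) (nat_lit 5) (nat_lit 577) (nat_lit 5) (nat_lit 424) (nat_lit 422) (nat_lit 354)) (XT.nd (nat_lit 78) (nat_lit 0) (nat_lit 0) (XT.lf (nat_lit 0) (nat_lit 2191042025) (nat_lit 1520) (nat_lit 3579669076) (nat_lit 1596) (nat_lit 3028617716) (nat_lit 557) (nat_lit 5) (nat_lit 577) (nat_lit 5) (nat_lit 578) (nat_lit 5) (nat_lit 425) (nat_lit 422) (nat_lit 353)) (XT.lf (nat_lit 76) (nat_lit 3151019213) (nat_lit 0) (nat_lit 691471821) (nat_lit 1596) (nat_lit 5062185419) (nat_lit 558) (nat_lit 5) (nat_lit 557) (nat_lit 5) (nat_lit 578) (nat_lit 5) (nat_lit 426)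 (nat_lit 422) (nat_lit 352)))) (XT.nd (nat_lit 156) (nat_lit 1444) (nat_lit 0) (XT.nd (nat_lit 78) (nat_lit 0) (nat_lit 76) (XT.lf (nat_lit 76) (nat_lit 1071006683) (nat_lit 0) (nat_lit 4477773062) (nat_lit 1596) (nat_lit 3464304543) (nat_lit 559) (nat_lit 5) (nat_lit 558) (nat_lit 5) (nat_lit 579) (nat_lit 5) (nat_lit 427) (nat_lit 422) (nat_lit 351)) (XT.lf (nat_lit 0) (nat_lit 7301184736) (nat_lit 1520) (nat_lit 988760738) (nat_lit 1596) (nat_lit 834905861) (nat_lit 559) (nat_lit 5) (nat_lit 579) (nat_lit 5) (nat_lit 580) (nat_lit 5) (nat_lit 428) (nat_lit 422) (nat_lit 350))) (XT.nd (nat_lit 78) (nat_lit 1520) (nat_lit 0) (XT.lf (nat_lit 76) (nat_lit 6191386920) (nat_lit 0) (nat_lit 2932482607) (nat_lit 1596) (nat_lit 115753081) (nat_lit 560) (nat_lit 5) (nat_lit 559) (nat_lit 5) (nat_lit 580) (nat_lit 5) (nat_lit 429) (nat_lit 422) (nat_lit 349)) (XT.lf (nat_lit 0) (nat_lit 1621955043) (nat_lit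 1596) (nat_lit 5120497184) (nat_lit 1672) (nat_lit 2615174289) (nat_lit 539) (nat_lit 5) (nat_lit 560) (nat_lit 5) (nat_lit 561) (nat_lit 5) (nat_lit 430) (nat_lit 422) (nat_lit 348))))))))
noncomputable def xc75 : XT := (XT.nd (nat_lit 1950) (nat_lit 12312) (nat_lit 0) (XT.nd (nat_lit 936) (nat_lit 9044) (nat_lit 0) (XT.nd (nat_lit 468) (nat_lit 6232) (nat_lit 0) (XT.nd (nat_lit 234) (nat_lit 1444) (nat_lit 0) (XT.nd (nat_lit 78) (nat_lit 0) (nat_lit 76) (XT.lf (nat_lit 76) (nat_lit 2279636444) (nat_lit 0) (nat_lit 1135736328) (nat_lit 1672) (nat_lit 6063684405) (nat_lit 540) (nat_lit 5) (nat_lit 539) (nat_lit 5) (nat_lit 561) (nat_lit 5) (nat_lit 431) (nat_lit 422) (nat_lit 347)) (XT.nd (nat_lit 78) (nat_lit 0) (nat_lit 76) (XT.lf (nat_lit 76) (nat_lit 307817011) (nat_lit 0) (nat_lit 4973104609) (nat_lit 1672) (nat_lit 4322847384) (nat_lit 541) (nat_lit 5) (nat_lit 540) (nat_lit 5) (nat_lit 562)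 (nat_lit 5) (nat_lit 432) (nat_lit 422) (nat_lit 346)) (XT.lf (nat_lit 0) (nat_lit 7217002466) (nat_lit 1596) (nat_lit 1640422053) (nat_lit 1672) (nat_lit 874511032) (nat_lit 541) (nat_lit 5) (nat_lit 562) (nat_lit 5) (nat_lit 563) (nat_lit 5) (nat_lit 433) (nat_lit 422) (nat_lit 345)))) (XT.nd (nat_lit 78) (nat_lit 1596) (nat_lit 0) (XT.lf (nat_lit 76) (nat_lit 6259843399) (nat_lit 0) (nat_lit 2979175051) (nat_lit 1672) (nat_lit 624376130) (nat_lit 542) (nat_lit 5) (nat_lit 541) (nat_lit 5) (nat_lit 563) (nat_lit 5) (nat_lit 434) (nat_lit 422) (nat_lit 344)) (XT.nd (nat_lit 78) (nat_lit 0) (nat_lit 0) (XT.lf (nat_lit 0) (nat_lit 1320682427) (nat_lit 1672) (nat_lit 5582405942) (nat_lit 1748) (nat_lit 3095238851) (nat_lit 520) (nat_lit 5) (nat_lit 542) (nat_lit 5) (nat_lit 543) (nat_lit 5) (nat_lit 435) (nat_lit 422) (nat_lit 343)) (XT.lf (nat_lit 76) (nat_lit 2563608733) (nat_lit 0) (nat_lit 769145224)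 (nat_lit 1748) (nat_lit 6804132652) (nat_lit 521) (nat_lit 5) (nat_lit 520) (nat_lit 5) (nat_lit 543) (nat_lit 5) (nat_lit 436) (nat_lit 422) (nat_lit 342))))) (XT.nd (nat_lit 234) (nat_lit 4712) (nat_lit 0) (XT.nd (nat_lit 78) (nat_lit 1596) (nat_lit 0) (XT.lf (nat_lit 76) (nat_lit 689732924) (nat_lit 0) (nat_lit 4751110451) (nat_lit 1748) (nat_lit 4838050365) (nat_lit 522) (nat_lit 5) (nat_lit 521) (nat_lit 5) (nat_lit 544) (nat_lit 5) (nat_lit 437) (nat_lit 422) (nat_lit 341)) (XT.nd (nat_lit 78) (nat_lit 1672) (nat_lit 0) (XT.lf (nat_lit 0) (nat_lit 7637342891) (nat_lit 1672) (nat_lit 1170470262) (nat_lit 76) (nat_lit 1616848537) (nat_lit 522) (nat_lit 5) (nat_lit 544) (nat_lit 5) (nat_lit 523) (nat_lit 5) (nat_lit 438) (nat_lit 422) (nat_lit 340)) (XT.lf (nat_lit 0) (nat_lit 7533896357) (nat_lit 1672) (nat_lit 2405900273) (nat_lit 1748) (nat_lit 634208703) (nat_lit 500) (nat_lit 5) (nat_lit 522)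 (nat_lit 5) (nat_lit 523) (nat_lit 5) (nat_lit 439) (nat_lit 422) (nat_lit 339)))) (XT.nd (nat_lit 78) (nat_lit 2888) (nat_lit 0) (XT.lf (nat_lit 0) (nat_lit 1596170913) (nat_lit 1824) (nat_lit 4935277295) (nat_lit 76) (nat_lit 4195510228) (nat_lit 476) (nat_lit 5) (nat_lit 500) (nat_lit 5) (nat_lit 477) (nat_lit 5) (nat_lit 440) (nat_lit 422) (nat_lit 338)) (XT.nd (nat_lit 78) (nat_lit 1064) (nat_lit 0) (XT.lf (nat_lit 0) (nat_lit 3909913000) (nat_lit 1900) (nat_lit 6840462783) (nat_lit 76) (nat_lit 133542706) (nat_lit 452) (nat_lit 5) (nat_lit 477) (nat_lit 5) (nat_lit 453) (nat_lit 5) (nat_lit 441) (nat_lit 422) (nat_lit 337)) (XT.lf (nat_lit 0) (nat_lit 2265588367) (nat_lit 1064) (nat_lit 4081531228) (nat_lit 1140) (nat_lit 4697390147) (nat_lit 438) (nat_lit 5) (nat_lit 452) (nat_lit 5) (nat_lit 453) (nat_lit 5) (nat_lit 442) (nat_lit 422) (nat_lit 336)))))) (XT.nd (nat_lit 468) (nat_lit 4636)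 (nat_lit 0) (XT.nd (nat_lit 234) (nat_lit 2508) (nat_lit 0) (XT.nd (nat_lit 78) (nat_lit 988) (nat_lit 0) (XT.lf (nat_lit 0) (nat_lit 482769215) (nat_lit 912) (nat_lit 8405472813) (nat_lit 988) (nat_lit 2321064057) (nat_lit 426) (nat_lit 5) (nat_lit 438) (nat_lit 5) (nat_lit 439) (nat_lit 5) (nat_lit 443) (nat_lit 422) (nat_lit 335)) (XT.nd (nat_lit 78) (nat_lit 912) (nat_lit 0) (XT.lf (nat_lit 0) (nat_lit 175593410) (nat_lit 988) (nat_lit 1298436265) (nat_lit 76) (nat_lit 9903989367) (nat_lit 425) (nat_lit 5) (nat_lit 438) (nat_lit 5) (nat_lit 426) (nat_lit 5) (nat_lit 444) (nat_lit 422) (nat_lit 334)) (XT.lf (nat_lit 0) (nat_lit 2772667504) (nat_lit 988) (nat_lit 3113765967) (nat_lit 76) (nat_lit 5663915140) (nat_lit 413) (nat_lit 5) (nat_lit 426) (nat_lit 5) (nat_lit 414) (nat_lit 5) (nat_lit 445) (nat_lit 422) (nat_lit 333)))) (XT.nd (nat_lit 78) (nat_lit 1672) (nat_lit 0) (XT.lf (nat_lit 0) (nat_lit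 5484519774) (nat_lit 912) (nat_lit 4936568055) (nat_lit 76) (nat_lit 1306025920) (nat_lit 402) (nat_lit 5) (nat_lit 414) (nat_lit 5) (nat_lit 403) (nat_lit 5) (nat_lit 446) (nat_lit 422) (nat_lit 332)) (XT.nd (nat_lit 78) (nat_lit 836) (nat_lit 0) (XT.lf (nat_lit 0) (nat_lit 5119650801) (nat_lit 836) (nat_lit 3218131696) (nat_lit 912) (nat_lit 3570201159) (nat_lit 391) (nat_lit 5) (nat_lit 402) (nat_lit 5) (nat_lit 403) (nat_lit 5) (nat_lit 447) (nat_lit 422) (nat_lit 331)) (XT.lf (nat_lit 0) (nat_lit 3435123176) (nat_lit 836) (nat_lit 7891747655) (nat_lit 912) (nat_lit 766407102) (nat_lit 380) (nat_lit 5) (nat_lit 391) (nat_lit 5) (nat_lit 392) (nat_lit 5) (nat_lit 448) (nat_lit 422) (nat_lit 330))))) (XT.nd (nat_lit 234) (nat_lit 2964) (nat_lit 0) (XT.nd (nat_lit 78) (nat_lit 760) (nat_lit 0) (XT.lf (nat_lit 0) (nat_lit 1728223399) (nat_lit 836) (nat_lit 412004645) (nat_lit 912) (nat_lit 10142699180)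 (nat_lit 368) (nat_lit 5) (nat_lit 379) (nat_lit 5) (nat_lit 380) (nat_lit 5) (nat_lit 449) (nat_lit 422) (nat_lit 329)) (XT.nd (nat_lit 78) (nat_lit 760) (nat_lit 0) (XT.lf (nat_lit 0) (nat_lit 5198338666) (nat_lit 912) (nat_lit 19158095) (nat_lit 76) (nat_lit 7259176751) (nat_lit 368) (nat_lit 5) (nat_lit 380) (nat_lit 5) (nat_lit 369) (nat_lit 5) (nat_lit 450) (nat_lit 422) (nat_lit 328)) (XT.lf (nat_lit 0) (nat_lit 8407680611) (nat_lit 836) (nat_lit 1751670048) (nat_lit 76) (nat_lit 2515694306) (nat_lit 358) (nat_lit 5) (nat_lit 369) (nat_lit 5) (nat_lit 359) (nat_lit 5) (nat_lit 451) (nat_lit 422) (nat_lit 327)))) (XT.nd (nat_lit 156) (nat_lit 1444) (nat_lit 0) (XT.nd (nat_lit 78) (nat_lit 760) (nat_lit 0) (XT.lf (nat_lit 0) (nat_lit 9370096467) (nat_lit 760) (nat_lit 2408890083) (nat_lit 836) (nat_lit 1099069801) (nat_lit 348) (nat_lit 5) (nat_lit 358) (nat_lit 5) (nat_lit 359) (nat_lit 5) (nat_lit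 452) (nat_lit 422) (nat_lit 326)) (XT.lf (nat_lit 0) (nat_lit 2205571271) (nat_lit 760) (nat_lit 5304764435) (nat_lit 76) (nat_lit 5575150028) (nat_lit 338) (nat_lit 5) (nat_lit 348) (nat_lit 5) (nat_lit 339) (nat_lit 5) (nat_lit 453) (nat_lit 422) (nat_lit 325))) (XT.nd (nat_lit 78) (nat_lit 684) (nat_lit 0) (XT.lf (nat_lit 0) (nat_lit 5649091887) (nat_lit 836) (nat_lit 7119448454) (nat_lit 76) (nat_lit 529361190) (nat_lit 328) (nat_lit 5) (nat_lit 339) (nat_lit 5) (nat_lit 329) (nat_lit 5) (nat_lit 454) (nat_lit 422) (nat_lit 324)) (XT.lf (nat_lit 0) (nat_lit 4538989285) (nat_lit 684) (nat_lit 4744349252) (nat_lit 760) (nat_lit 4231605068) (nat_lit 319) (nat_lit 5) (nat_lit 328) (nat_lit 5) (nat_lit 329) (nat_lit 5) (nat_lit 455) (nat_lit 422) (nat_lit 323))))))) (XT.nd (nat_lit 1014) (nat_lit 5472) (nat_lit 0) (XT.nd (nat_lit 468) (nat_lit 3496) (nat_lit 0) (XT.nd (nat_lit 234) (nat_lit 1976) (nat_lit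 0) (XT.nd (nat_lit 78) (nat_lit 684) (nat_lit 0) (XT.lf (nat_lit 0) (nat_lit 2888929499) (nat_lit 684) (nat_lit 10199991015) (nat_lit 760) (nat_lit 648332414) (nat_lit 310) (nat_lit 5) (nat_lit 319) (nat_lit 5) (nat_lit 320) (nat_lit 5) (nat_lit 456) (nat_lit 422) (nat_lit 322)) (XT.nd (nat_lit 78) (nat_lit 0) (nat_lit 0) (XT.lf (nat_lit 0) (nat_lit 1198731158) (nat_lit 608) (nat_lit 1877091536) (nat_lit 684) (nat_lit 10888550079) (nat_lit 301) (nat_lit 5) (nat_lit 309) (nat_lit 5) (nat_lit 310) (nat_lit 5) (nat_lit 457) (nat_lit 422) (nat_lit 321)) (XT.lf (nat_lit 0) (nat_lit 6993519636) (nat_lit 684) (nat_lit 522128570) (nat_lit 76) (nat_lit 6680761773) (nat_lit 301) (nat_lit 5) (nat_lit 310) (nat_lit 5) (nat_lit 302) (nat_lit 5) (nat_lit 458) (nat_lit 422) (nat_lit 320)))) (XT.nd (nat_lit 78) (nat_lit 1292) (nat_lit 0) (XT.lf (nat_lit 0) (nat_lit 11101635500) (nat_lit 760) (nat_lit 2236840339) (nat_lit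 76) (nat_lit 1095476626) (nat_lit 292) (nat_lit 5) (nat_lit 302) (nat_lit 5) (nat_lit 293) (nat_lit 5) (nat_lit 459) (nat_lit 422) (nat_lit 319)) (XT.nd (nat_lit 78) (nat_lit 608) (nat_lit 0) (XT.lf (nat_lit 0) (nat_lit 744039456) (nat_lit 684) (nat_lit 3996890465) (nat_lit 76) (nat_lit 9935643205) (nat_lit 283) (nat_lit 5) (nat_lit 292) (nat_lit 5) (nat_lit 284) (nat_lit 5) (nat_lit 460) (nat_lit 422) (nat_lit 318)) (XT.lf (nat_lit 0) (nat_lit 4974465629) (nat_lit 684) (nat_lit 5798050097) (nat_lit 76) (nat_lit 4151976883) (nat_lit 275) (nat_lit 5) (nat_lit 284) (nat_lit 5) (nat_lit 276) (nat_lit 5) (nat_lit 461) (nat_lit 422) (nat_lit 317))))) (XT.nd (nat_lit 234) (nat_lit 1672) (nat_lit 0) (XT.nd (nat_lit 78) (nat_lit 1216) (nat_lit 0) (XT.lf (nat_lit 0) (nat_lit 7554609510) (nat_lit 608) (nat_lit 1860489616) (nat_lit 684) (nat_lit 5763086386) (nat_lit 267) (nat_lit 5) (nat_lit 275) (nat_lit 5)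 (nat_lit 276) (nat_lit 5) (nat_lit 462) (nat_lit 422) (nat_lit 316)) (XT.nd (nat_lit 78) (nat_lit 608) (nat_lit 0) (XT.lf (nat_lit 0) (nat_lit 5947335649) (nat_lit 608) (nat_lit 8143050825) (nat_lit 684) (nat_lit 1347075710) (nat_lit 259) (nat_lit 5) (nat_lit 267) (nat_lit 5) (nat_lit 268) (nat_lit 5) (nat_lit 463) (nat_lit 422) (nat_lit 315)) (XT.lf (nat_lit 0) (nat_lit 3235084458) (nat_lit 608) (nat_lit 11391708139) (nat_lit 76) (nat_lit 1075797314) (nat_lit 251) (nat_lit 5) (nat_lit 259) (nat_lit 5) (nat_lit 252) (nat_lit 5) (nat_lit 464) (nat_lit 422) (nat_lit 314)))) (XT.nd (nat_lit 156) (nat_lit 608) (nat_lit 0) (XT.nd (nat_lit 78) (nat_lit 532) (nat_lit 0) (XT.lf (nat_lit 0) (nat_lit 2620797653) (nat_lit 532) (nat_lit 5428469138) (nat_lit 608) (nat_lit 7923970969) (nat_lit 244) (nat_lit 5) (nat_lit 251) (nat_lit 5) (nat_lit 252) (nat_lit 5) (nat_lit 465) (nat_lit 422) (nat_lit 313)) (XT.lf (nat_lit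 0) (nat_lit 913320383) (nat_lit 532) (nat_lit 12181440168) (nat_lit 608) (nat_lit 3155508278) (nat_lit 237) (nat_lit 5) (nat_lit 244) (nat_lit 5) (nat_lit 245) (nat_lit 5) (nat_lit 466) (nat_lit 422) (nat_lit 312))) (XT.nd (nat_lit 78) (nat_lit 532) (nat_lit 0) (XT.lf (nat_lit 0) (nat_lit 1837664536) (nat_lit 608) (nat_lit 823107508) (nat_lit 76) (nat_lit 13872518464) (nat_lit 236) (nat_lit 5) (nat_lit 244) (nat_lit 5) (nat_lit 237) (nat_lit 5) (nat_lit 467) (nat_lit 422) (nat_lit 311)) (XT.lf (nat_lit 0) (nat_lit 7055666047) (nat_lit 608) (nat_lit 2607898215) (nat_lit 76) (nat_lit 7158464717) (nat_lit 229) (nat_lit 5) (nat_lit 237) (nat_lit 5) (nat_lit 230) (nat_lit 5) (nat_lit 468) (nat_lit 422) (nat_lit 310)))))) (XT.nd (nat_lit 468) (nat_lit 2508) (nat_lit 0) (XT.nd (nat_lit 234) (nat_lit 1444) (nat_lit 0) (XT.nd (nat_lit 78) (nat_lit 1064) (nat_lit 0) (XT.lf (nat_lit 0) (nat_lit 12515817615) (nat_lit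 532) (nat_lit 4405518115) (nat_lit 76) (nat_lit 196383024) (nat_lit 223) (nat_lit 5) (nat_lit 230) (nat_lit 5) (nat_lit 224) (nat_lit 5) (nat_lit 469) (nat_lit 422) (nat_lit 309)) (XT.nd (nat_lit 78) (nat_lit 456) (nat_lit 0) (XT.lf (nat_lit 0) (nat_lit 842575525) (nat_lit 608) (nat_lit 6267600220) (nat_lit 76) (nat_lit 10309321771) (nat_lit 215) (nat_lit 5) (nat_lit 223) (nat_lit 5) (nat_lit 216) (nat_lit 5) (nat_lit 470) (nat_lit 422) (nat_lit 308)) (XT.lf (nat_lit 0) (nat_lit 6479665730) (nat_lit 532) (nat_lit 8176841714) (nat_lit 76) (nat_lit 3071379054) (nat_lit 209) (nat_lit 5) (nat_lit 216) (nat_lit 5) (nat_lit 210) (nat_lit 5) (nat_lit 471) (nat_lit 422) (nat_lit 307)))) (XT.nd (nat_lit 78) (nat_lit 988) (nat_lit 0) (XT.lf (nat_lit 0) (nat_lit 7911909303) (nat_lit 456) (nat_lit 4495038646) (nat_lit 532) (nat_lit 5636158823) (nat_lit 203) (nat_lit 5) (nat_lit 209) (nat_lit 5) (nat_lit 210) (nat_lit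 5) (nat_lit 472) (nat_lit 422) (nat_lit 306)) (XT.nd (nat_lit 78) (nat_lit 456) (nat_lit 0) (XT.lf (nat_lit 0) (nat_lit 257968884) (nat_lit 532) (nat_lit 12125144126) (nat_lit 76) (nat_lit 5982341147) (nat_lit 196) (nat_lit 5) (nat_lit 203) (nat_lit 5) (nat_lit 197) (nat_lit 5) (nat_lit 473) (nat_lit 422) (nat_lit 305)) (XT.lf (nat_lit 0) (nat_lit 4507397200) (nat_lit 456) (nat_lit 1853852473) (nat_lit 532) (nat_lit 12333300256) (nat_lit 190) (nat_lit 5) (nat_lit 196) (nat_lit 5) (nat_lit 197) (nat_lit 5) (nat_lit 474) (nat_lit 422) (nat_lit 304))))) (XT.nd (nat_lit 234) (nat_lit 1596) (nat_lit 0) (XT.nd (nat_lit 78) (nat_lit 532) (nat_lit 0) (XT.lf (nat_lit 0) (nat_lit 2720857801) (nat_lit 380) (nat_lit 10065893380) (nat_lit 456) (nat_lit 6243986037) (nat_lit 185) (nat_lit 5) (nat_lit 190) (nat_lit 5) (nat_lit 191) (nat_lit 5) (nat_lit 475) (nat_lit 422) (nat_lit 303)) (XT.nd (nat_lit 78) (nat_lit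 0) (nat_lit 0) (XT.lf (nat_lit 0) (nat_lit 128656548) (nat_lit 532) (nat_lit 18454864822) (nat_lit 76) (nat_lit 791465826) (nat_lit 178) (nat_lit 5) (nat_lit 185) (nat_lit 5) (nat_lit 179) (nat_lit 5) (nat_lit 476) (nat_lit 422) (nat_lit 302)) (XT.lf (nat_lit 0) (nat_lit 6767649261) (nat_lit 532) (nat_lit 975441080) (nat_lit 76) (nat_lit 11982449838) (nat_lit 178) (nat_lit 5) (nat_lit 185) (nat_lit 5) (nat_lit 179) (nat_lit 5) (nat_lit 477) (nat_lit 422) (nat_lit 301)))) (XT.nd (nat_lit 156) (nat_lit 760) (nat_lit 0) (XT.nd (nat_lit 78) (nat_lit 456) (nat_lit 0) (XT.lf (nat_lit 0) (nat_lit 13722065801) (nat_lit 456) (nat_lit 2881079127) (nat_lit 76) (nat_lit 3481140719) (nat_lit 173) (nat_lit 5) (nat_lit 179) (nat_lit 5) (nat_lit 174) (nat_lit 5) (nat_lit 478) (nat_lit 422) (nat_lit 300)) (XT.lf (nat_lit 0) (nat_lit 568209317) (nat_lit 456) (nat_lit 4842446418) (nat_lit 76) (nat_lit 15040231767) (nat_lit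 167) (nat_lit 5) (nat_lit 173) (nat_lit 5) (nat_lit 168) (nat_lit 5) (nat_lit 479) (nat_lit 422) (nat_lit 299))) (XT.nd (nat_lit 78) (nat_lit 380) (nat_lit 0) (XT.lf (nat_lit 0) (nat_lit 7753722103) (nat_lit 456) (nat_lit 6889209852) (nat_lit 76) (nat_lit 6182043106) (nat_lit 162) (nat_lit 5) (nat_lit 168) (nat_lit 5) (nat_lit 163) (nat_lit 5) (nat_lit 480) (nat_lit 422) (nat_lit 298)) (XT.lf (nat_lit 0) (nat_lit 12230763343) (nat_lit 380) (nat_lit 3054991884) (nat_lit 456) (nat_lit 5921911795) (nat_lit 157) (nat_lit 5) (nat_lit 162) (nat_lit 5) (nat_lit 163) (nat_lit 5) (nat_lit 481) (nat_lit 422) (nat_lit 297))))))))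
noncomputable def xc76 : XT := (XT.nd (nat_lit 58656) (nat_lit 0) (nat_lit 16340) (XT.nd (nat_lit 936) (nat_lit 912) (nat_lit 0) (XT.nd (nat_lit 468) (nat_lit 1672) (nat_lit 0) (XT.nd (nat_lit 234) (nat_lit 1064) (nat_lit 0) (XT.nd (nat_lit 78) (nat_lit 684) (nat_lit 0) (XT.lf (nat_lit 0) (nat_lit 1579264895) (nat_lit 456) (nat_lit 11139114549) (nat_lit 76) (nat_lit 8880148570) (nat_lit 151) (nat_lit 5) (nat_lit 157) (nat_lit 5) (nat_lit 152) (nat_lit 5) (nat_lit 482) (nat_lit 422) (nat_lit 296)) (XT.nd (nat_lit 78) (nat_lit 304) (nat_lit 0) (XT.lf (nat_lit 0) (nat_lit 8627659888) (nat_lit 380) (nat_lit 718329097) (nat_lit 456) (nat_lit 12651924430) (nat_lit 146) (nat_lit 5) (nat_lit 151) (nat_lit 5) (nat_lit 152) (nat_lit 5) (nat_lit 483) (nat_lit 422) (nat_lit 295)) (XT.lf (nat_lit 0) (nat_lit 6717458881) (nat_lit 304) (nat_lit 10806533603) (nat_lit 380) (nat_lit 4881723124) (nat_lit 142) (nat_lit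 5) (nat_lit 146) (nat_lit 5) (nat_lit 147) (nat_lit 5) (nat_lit 484) (nat_lit 422) (nat_lit 294)))) (XT.nd (nat_lit 78) (nat_lit 608) (nat_lit 0) (XT.lf (nat_lit 0) (nat_lit 3201273727) (nat_lit 456) (nat_lit 18056065118) (nat_lit 76) (nat_lit 1565595828) (nat_lit 136) (nat_lit 5) (nat_lit 142) (nat_lit 5) (nat_lit 137) (nat_lit 5) (nat_lit 485) (nat_lit 422) (nat_lit 293)) (XT.nd (nat_lit 78) (nat_lit 304) (nat_lit 0) (XT.lf (nat_lit 0) (nat_lit 2703363503) (nat_lit 304) (nat_lit 8937845389) (nat_lit 380) (nat_lit 11607201343) (nat_lit 132) (nat_lit 5) (nat_lit 136) (nat_lit 5) (nat_lit 137) (nat_lit 5) (nat_lit 486) (nat_lit 422) (nat_lit 292)) (XT.lf (nat_lit 0) (nat_lit 605142155) (nat_lit 304) (nat_lit 19864456688) (nat_lit 380) (nat_lit 3214346788) (nat_lit 128) (nat_lit 5) (nat_lit 132) (nat_lit 5) (nat_lit 133) (nat_lit 5) (nat_lit 487) (nat_lit 422) (nat_lit 291))))) (XT.nd (nat_lit 234) (nat_lit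 988) (nat_lit 0) (XT.nd (nat_lit 78) (nat_lit 608) (nat_lit 0) (XT.lf (nat_lit 0) (nat_lit 5542994192) (nat_lit 380) (nat_lit 1580596279) (nat_lit 76) (nat_lit 17004573747) (nat_lit 127) (nat_lit 5) (nat_lit 132) (nat_lit 5) (nat_lit 128) (nat_lit 5) (nat_lit 488) (nat_lit 422) (nat_lit 290)) (XT.nd (nat_lit 78) (nat_lit 304) (nat_lit 0) (XT.lf (nat_lit 0) (nat_lit 14679005887) (nat_lit 380) (nat_lit 3834298999) (nat_lit 76) (nat_lit 6068787774) (nat_lit 123) (nat_lit 5) (nat_lit 128) (nat_lit 5) (nat_lit 124) (nat_lit 5) (nat_lit 489) (nat_lit 422) (nat_lit 289)) (XT.lf (nat_lit 0) (nat_lit 18893302689) (nat_lit 304) (nat_lit 5361585489) (nat_lit 380) (nat_lit 791435604) (nat_lit 119) (nat_lit 5) (nat_lit 123) (nat_lit 5) (nat_lit 124) (nat_lit 5) (nat_lit 490) (nat_lit 422) (nat_lit 288)))) (XT.nd (nat_lit 78) (nat_lit 608) (nat_lit 0) (XT.lf (nat_lit 0) (nat_lit 8656451748) (nat_lit 380) (nat_lit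 8602217439) (nat_lit 76) (nat_lit 8261185492) (nat_lit 114) (nat_lit 5) (nat_lit 119) (nat_lit 5) (nat_lit 115) (nat_lit 5) (nat_lit 491) (nat_lit 422) (nat_lit 287)) (XT.nd (nat_lit 78) (nat_lit 304) (nat_lit 0) (XT.lf (nat_lit 0) (nat_lit 14887052890) (nat_lit 304) (nat_lit 3649621824) (nat_lit 380) (nat_lit 7467619716) (nat_lit 110) (nat_lit 5) (nat_lit 114) (nat_lit 5) (nat_lit 115) (nat_lit 5) (nat_lit 492) (nat_lit 422) (nat_lit 286)) (XT.lf (nat_lit 0) (nat_lit 2376574320) (nat_lit 304) (nat_lit 13743044575) (nat_lit 76) (nat_lit 10379451607) (nat_lit 106) (nat_lit 5) (nat_lit 110) (nat_lit 5) (nat_lit 107) (nat_lit 5) (nat_lit 493) (nat_lit 422) (nat_lit 285)))))) (XT.nd (nat_lit 57174) (nat_lit 0) (nat_lit 33668) (XT.nd (nat_lit 56940) (nat_lit 0) (nat_lit 35036) (XT.nd (nat_lit 78) (nat_lit 608) (nat_lit 0) (XT.lf (nat_lit 0) (nat_lit 10529456549) (nat_lit 304) (nat_lit 2039860298) (nat_lit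 380) (nat_lit 14435292762) (nat_lit 102) (nat_lit 5) (nat_lit 106) (nat_lit 5) (nat_lit 107) (nat_lit 5) (nat_lit 494) (nat_lit 422) (nat_lit 284)) (XT.nd (nat_lit 78) (nat_lit 380) (nat_lit 0) (XT.lf (nat_lit 0) (nat_lit 8196661931) (nat_lit 228) (nat_lit 15084756353) (nat_lit 304) (nat_lit 4239625596) (nat_lit 99) (nat_lit 5) (nat_lit 102) (nat_lit 5) (nat_lit 103) (nat_lit 5) (nat_lit 495) (nat_lit 422) (nat_lit 283)) (XT.lf (nat_lit 0) (nat_lit 5780276513) (nat_lit 304) (nat_lit 548930102) (nat_lit 380) (nat_lit 21719963511) (nat_lit 94) (nat_lit 5) (nat_lit 98) (nat_lit 5) (nat_lit 99) (nat_lit 5) (nat_lit 496) (nat_lit 422) (nat_lit 282)))) (XT.nd (nat_lit 78) (nat_lit 0) (nat_lit 76) (XT.lf (nat_lit 0) (nat_lit 233808362) (nat_lit 1596) (nat_lit 2057009598) (nat_lit 1596) (nat_lit 2057009598) (nat_lit 555) (nat_lit 3) (nat_lit 576) (nat_lit 3) (nat_lit 576) (nat_lit 5) (nat_lit 423) (nat_lit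 423) (nat_lit 354)) (XT.nd (nat_lit 78) (nat_lit 0) (nat_lit 0) (XT.lf (nat_lit 0) (nat_lit 1956159765) (nat_lit 1520) (nat_lit 6437398123) (nat_lit 1596) (nat_lit 402751182) (nat_lit 556) (nat_lit 5) (nat_lit 576) (nat_lit 5) (nat_lit 577) (nat_lit 5) (nat_lit 424) (nat_lit 423) (nat_lit 353)) (XT.lf (nat_lit 76) (nat_lit 122851607) (nat_lit 0) (nat_lit 3368877726) (nat_lit 1596) (nat_lit 5408211771) (nat_lit 557) (nat_lit 5) (nat_lit 556) (nat_lit 5) (nat_lit 577) (nat_lit 5) (nat_lit 425) (nat_lit 423) (nat_lit 352))))) (XT.nd (nat_lit 234) (nat_lit 1520) (nat_lit 0) (XT.nd (nat_lit 78) (nat_lit 0) (nat_lit 0) (XT.lf (nat_lit 0) (nat_lit 5073507872) (nat_lit 1520) (nat_lit 2081438414) (nat_lit 1596) (nat_lit 1851738668) (nat_lit 557) (nat_lit 5) (nat_lit 577) (nat_lit 5) (nat_lit 578) (nat_lit 5) (nat_lit 426) (nat_lit 423) (nat_lit 351)) (XT.nd (nat_lit 78) (nat_lit 0) (nat_lit 76) (XT.lf (nat_lit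 76) (nat_lit 4825121235) (nat_lit 0) (nat_lit 1877593929) (nat_lit 1596) (nat_lit 2413921978) (nat_lit 558) (nat_lit 5) (nat_lit 557) (nat_lit 5) (nat_lit 578) (nat_lit 5) (nat_lit 427) (nat_lit 423) (nat_lit 350)) (XT.lf (nat_lit 76) (nat_lit 2718809691) (nat_lit 0) (nat_lit 5664576857) (nat_lit 1596) (nat_lit 846454957) (nat_lit 559) (nat_lit 5) (nat_lit 558) (nat_lit 5) (nat_lit 579) (nat_lit 5) (nat_lit 428) (nat_lit 423) (nat_lit 349)))) (XT.nd (nat_lit 156) (nat_lit 0) (nat_lit 152) (XT.nd (nat_lit 78) (nat_lit 0) (nat_lit 76) (XT.lf (nat_lit 76) (nat_lit 611011290) (nat_lit 0) (nat_lit 141366098) (nat_lit 1672) (nat_lit 8594081704) (nat_lit 538) (nat_lit 5) (nat_lit 537) (nat_lit 5) (nat_lit 559) (nat_lit 5) (nat_lit 429) (nat_lit 423) (nat_lit 348)) (XT.lf (nat_lit 0) (nat_lit 2418207337) (nat_lit 1596) (nat_lit 1504036090) (nat_lit 1672) (nat_lit 5543614186) (nat_lit 538) (nat_lit 5) (nat_lit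 559) (nat_lit 5) (nat_lit 560) (nat_lit 5) (nat_lit 430) (nat_lit 423) (nat_lit 347))) (XT.nd (nat_lit 78) (nat_lit 0) (nat_lit 0) (XT.lf (nat_lit 0) (nat_lit 4137454904) (nat_lit 1596) (nat_lit 3610459592) (nat_lit 1672) (nat_lit 1840859555) (nat_lit 539) (nat_lit 5) (nat_lit 560) (nat_lit 5) (nat_lit 561) (nat_lit 5) (nat_lit 431) (nat_lit 423) (nat_lit 346)) (XT.lf (nat_lit 76) (nat_lit 3984687259) (nat_lit 0) (nat_lit 1938764456) (nat_lit 1672) (nat_lit 3791627506) (nat_lit 540) (nat_lit 5) (nat_lit 539) (nat_lit 5) (nat_lit 561) (nat_lit 5) (nat_lit 432) (nat_lit 423) (nat_lit 345))))))) (XT.nd (nat_lit 936) (nat_lit 8892) (nat_lit 0) (XT.nd (nat_lit 468) (nat_lit 7068) (nat_lit 0) (XT.nd (nat_lit 234) (nat_lit 0) (nat_lit 76) (XT.nd (nat_lit 78) (nat_lit 1596) (nat_lit 0) (XT.lf (nat_lit 76) (nat_lit 1979637181) (nat_lit 0) (nat_lit 5801210762) (nat_lit 1672) (nat_lit 2063973754) (nat_lit 541)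 (nat_lit 5) (nat_lit 540) (nat_lit 5) (nat_lit 562) (nat_lit 5) (nat_lit 433) (nat_lit 423) (nat_lit 344)) (XT.nd (nat_lit 78) (nat_lit 1672) (nat_lit 0) (XT.lf (nat_lit 0) (nat_lit 9702532657) (nat_lit 1596) (nat_lit 25504626) (nat_lit 1672) (nat_lit 250252239) (nat_lit 541) (nat_lit 5) (nat_lit 562) (nat_lit 5) (nat_lit 563) (nat_lit 5) (nat_lit 434) (nat_lit 423) (nat_lit 343)) (XT.lf (nat_lit 0) (nat_lit 1593762228) (nat_lit 1672) (nat_lit 2040523032) (nat_lit 1748) (nat_lit 6480313043) (nat_lit 519) (nat_lit 5) (nat_lit 541) (nat_lit 5) (nat_lit 542) (nat_lit 5) (nat_lit 435) (nat_lit 423) (nat_lit 342)))) (XT.nd (nat_lit 78) (nat_lit 0) (nat_lit 0) (XT.lf (nat_lit 0) (nat_lit 3531010826) (nat_lit 1672) (nat_lit 4062804312) (nat_lit 1748) (nat_lit 2660841021) (nat_lit 520) (nat_lit 5) (nat_lit 542) (nat_lit 5) (nat_lit 543) (nat_lit 5) (nat_lit 436) (nat_lit 423) (nat_lit 341)) (XT.nd (nat_lit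 78) (nat_lit 0) (nat_lit 76) (XT.lf (nat_lit 76) (nat_lit 4300220035) (nat_lit 0) (nat_lit 1250775858) (nat_lit 1748) (nat_lit 4847431431) (nat_lit 521) (nat_lit 5) (nat_lit 520) (nat_lit 5) (nat_lit 543) (nat_lit 5) (nat_lit 437) (nat_lit 423) (nat_lit 340)) (XT.lf (nat_lit 76) (nat_lit 2388005493) (nat_lit 0) (nat_lit 5280627057) (nat_lit 1748) (nat_lit 2877141873) (nat_lit 522) (nat_lit 5) (nat_lit 521) (nat_lit 5) (nat_lit 544) (nat_lit 5) (nat_lit 438) (nat_lit 423) (nat_lit 339))))) (XT.nd (nat_lit 234) (nat_lit 3800) (nat_lit 0) (XT.nd (nat_lit 78) (nat_lit 1824) (nat_lit 0) (XT.lf (nat_lit 0) (nat_lit 472042732) (nat_lit 1672) (nat_lit 9399476835) (nat_lit 1748) (nat_lit 825591670) (nat_lit 500) (nat_lit 5) (nat_lit 522) (nat_lit 5) (nat_lit 523) (nat_lit 5) (nat_lit 439) (nat_lit 423) (nat_lit 338)) (XT.nd (nat_lit 78) (nat_lit 1748) (nat_lit 0) (XT.lf (nat_lit 0) (nat_lit 1322813500) (nat_lit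 1748) (nat_lit 1456425045) (nat_lit 76) (nat_lit 8072542084) (nat_lit 499) (nat_lit 5) (nat_lit 522) (nat_lit 5) (nat_lit 500) (nat_lit 5) (nat_lit 440) (nat_lit 423) (nat_lit 337)) (XT.lf (nat_lit 0) (nat_lit 3563102449) (nat_lit 1824) (nat_lit 3399401688) (nat_lit 76) (nat_lit 4047707305) (nat_lit 476) (nat_lit 5) (nat_lit 500) (nat_lit 5) (nat_lit 477) (nat_lit 5) (nat_lit 441) (nat_lit 423) (nat_lit 336)))) (XT.nd (nat_lit 78) (nat_lit 1976) (nat_lit 0) (XT.lf (nat_lit 0) (nat_lit 5822296503) (nat_lit 1824) (nat_lit 77916649) (nat_lit 1900) (nat_lit 5272593108) (nat_lit 452) (nat_lit 5) (nat_lit 476) (nat_lit 5) (nat_lit 477) (nat_lit 5) (nat_lit 442) (nat_lit 423) (nat_lit 335)) (XT.nd (nat_lit 78) (nat_lit 912) (nat_lit 0) (XT.lf (nat_lit 0) (nat_lit 4001718537) (nat_lit 1064) (nat_lit 4364603596) (nat_lit 1140) (nat_lit 2972782338) (nat_lit 438) (nat_lit 5) (nat_lit 452) (nat_lit 5) (nat_lit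 453) (nat_lit 5) (nat_lit 443) (nat_lit 423) (nat_lit 334)) (XT.lf (nat_lit 0) (nat_lit 2175521321) (nat_lit 912) (nat_lit 8764775138) (nat_lit 988) (nat_lit 569420680) (nat_lit 426) (nat_lit 5) (nat_lit 438) (nat_lit 5) (nat_lit 439) (nat_lit 5) (nat_lit 444) (nat_lit 423) (nat_lit 333)))))) (XT.nd (nat_lit 468) (nat_lit 4484) (nat_lit 0) (XT.nd (nat_lit 234) (nat_lit 2584) (nat_lit 0) (XT.nd (nat_lit 78) (nat_lit 836) (nat_lit 0) (XT.lf (nat_lit 0) (nat_lit 319531683) (nat_lit 912) (nat_lit 1608441952) (nat_lit 988) (nat_lit 9756291450) (nat_lit 413) (nat_lit 5) (nat_lit 425) (nat_lit 5) (nat_lit 426) (nat_lit 5) (nat_lit 445) (nat_lit 423) (nat_lit 332)) (XT.nd (nat_lit 78) (nat_lit 836) (nat_lit 0) (XT.lf (nat_lit 0) (nat_lit 4560103571) (nat_lit 988) (nat_lit 1546507051) (nat_lit 76) (nat_lit 5756015481) (nat_lit 413) (nat_lit 5) (nat_lit 426) (nat_lit 5) (nat_lit 414) (nat_lit 5) (nat_lit 446)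 (nat_lit 423) (nat_lit 331)) (XT.lf (nat_lit 0) (nat_lit 7314075652) (nat_lit 912) (nat_lit 3417283107) (nat_lit 76) (nat_lit 1314124458) (nat_lit 402) (nat_lit 5) (nat_lit 414) (nat_lit 5) (nat_lit 403) (nat_lit 5) (nat_lit 447) (nat_lit 423) (nat_lit 330)))) (XT.nd (nat_lit 78) (nat_lit 1748) (nat_lit 0) (XT.lf (nat_lit 0) (nat_lit 6913571022) (nat_lit 836) (nat_lit 3301519612) (nat_lit 912) (nat_lit 2017449680) (nat_lit 391) (nat_lit 5) (nat_lit 402) (nat_lit 5) (nat_lit 403) (nat_lit 5) (nat_lit 448) (nat_lit 423) (nat_lit 329)) (XT.nd (nat_lit 78) (nat_lit 836) (nat_lit 0) (XT.lf (nat_lit 0) (nat_lit 822170459) (nat_lit 912) (nat_lit 7245575265) (nat_lit 76) (nat_lit 4356276075) (nat_lit 379) (nat_lit 5) (nat_lit 391) (nat_lit 5) (nat_lit 380) (nat_lit 5) (nat_lit 449) (nat_lit 423) (nat_lit 328)) (XT.lf (nat_lit 0) (nat_lit 3420220613) (nat_lit 836) (nat_lit 349442501) (nat_lit 912) (nat_lit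 8850318581) (nat_lit 368) (nat_lit 5) (nat_lit 379) (nat_lit 5) (nat_lit 380) (nat_lit 5) (nat_lit 450) (nat_lit 423) (nat_lit 327))))) (XT.nd (nat_lit 234) (nat_lit 2888) (nat_lit 0) (XT.nd (nat_lit 78) (nat_lit 836) (nat_lit 0) (XT.lf (nat_lit 0) (nat_lit 1623990765) (nat_lit 760) (nat_lit 5260953419) (nat_lit 836) (nat_lit 5935291395) (nat_lit 358) (nat_lit 5) (nat_lit 368) (nat_lit 5) (nat_lit 369) (nat_lit 5) (nat_lit 451) (nat_lit 423) (nat_lit 326)) (XT.nd (nat_lit 78) (nat_lit 836) (nat_lit 0) (XT.lf (nat_lit 0) (nat_lit 10146823800) (nat_lit 836) (nat_lit 178985582) (nat_lit 76) (nat_lit 2699627287) (nat_lit 358) (nat_lit 5) (nat_lit 369) (nat_lit 5) (nat_lit 359) (nat_lit 5) (nat_lit 452) (nat_lit 423) (nat_lit 325)) (XT.lf (nat_lit 0) (nat_lit 346535926) (nat_lit 836) (nat_lit 1987413890) (nat_lit 76) (nat_lit 10901205063) (nat_lit 347) (nat_lit 5) (nat_lit 358) (nat_lit 5) (nat_lit 348)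 (nat_lit 5) (nat_lit 453) (nat_lit 423) (nat_lit 324)))) (XT.nd (nat_lit 156) (nat_lit 1444) (nat_lit 0) (XT.nd (nat_lit 78) (nat_lit 760) (nat_lit 0) (XT.lf (nat_lit 0) (nat_lit 3704217478) (nat_lit 760) (nat_lit 3844032485) (nat_lit 76) (nat_lit 5901038584) (nat_lit 338) (nat_lit 5) (nat_lit 348) (nat_lit 5) (nat_lit 339) (nat_lit 5) (nat_lit 454) (nat_lit 423) (nat_lit 323)) (XT.lf (nat_lit 0) (nat_lit 7220917473) (nat_lit 836) (nat_lit 5712556380) (nat_lit 76) (nat_lit 735208757) (nat_lit 328) (nat_lit 5) (nat_lit 339) (nat_lit 5) (nat_lit 329) (nat_lit 5) (nat_lit 455) (nat_lit 423) (nat_lit 322))) (XT.nd (nat_lit 78) (nat_lit 760) (nat_lit 0) (XT.lf (nat_lit 0) (nat_lit 6269344202) (nat_lit 684) (nat_lit 4664352601) (nat_lit 760) (nat_lit 2959152209) (nat_lit 319) (nat_lit 5) (nat_lit 328) (nat_lit 5) (nat_lit 329) (nat_lit 5) (nat_lit 456) (nat_lit 423) (nat_lit 321)) (XT.lf (nat_lit 0) (nat_lit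 693627186) (nat_lit 760) (nat_lit 9557363322) (nat_lit 76) (nat_lit 3871313044) (nat_lit 309) (nat_lit 5) (nat_lit 319) (nat_lit 5) (nat_lit 310) (nat_lit 5) (nat_lit 457) (nat_lit 423) (nat_lit 320))))))))
noncomputable def xc77 : XT := (XT.nd (nat_lit 1950) (nat_lit 4408) (nat_lit 0) (XT.nd (nat_lit 936) (nat_lit 5472) (nat_lit 0) (XT.nd (nat_lit 468) (nat_lit 2888) (nat_lit 0) (XT.nd (nat_lit 234) (nat_lit 1900) (nat_lit 0) (XT.nd (nat_lit 78) (nat_lit 684) (nat_lit 0) (XT.lf (nat_lit 0) (nat_lit 2820613228) (nat_lit 608) (nat_lit 1671034863) (nat_lit 684) (nat_lit 9865087137) (nat_lit 301) (nat_lit 5) (nat_lit 309) (nat_lit 5) (nat_lit 310) (nat_lit 5) (nat_lit 458) (nat_lit 423) (nat_lit 319)) (XT.nd (nat_lit 78) (nat_lit 0) (nat_lit 0) (XT.lf (nat_lit 0) (nat_lit 1039712902) (nat_lit 684) (nat_lit 7457017384) (nat_lit 760) (nat_lit 6099609023) (nat_lit 292) (nat_lit 5) (nat_lit 301) (nat_lit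 5) (nat_lit 302) (nat_lit 5) (nat_lit 459) (nat_lit 423) (nat_lit 318)) (XT.lf (nat_lit 0) (nat_lit 12695666282) (nat_lit 760) (nat_lit 741986285) (nat_lit 76) (nat_lit 1404006733) (nat_lit 292) (nat_lit 5) (nat_lit 302) (nat_lit 5) (nat_lit 293) (nat_lit 5) (nat_lit 460) (nat_lit 423) (nat_lit 317)))) (XT.nd (nat_lit 78) (nat_lit 1216) (nat_lit 0) (XT.lf (nat_lit 0) (nat_lit 2008853443) (nat_lit 684) (nat_lit 2563579104) (nat_lit 76) (nat_lit 10519500247) (nat_lit 283) (nat_lit 5) (nat_lit 292) (nat_lit 5) (nat_lit 284) (nat_lit 5) (nat_lit 461) (nat_lit 423) (nat_lit 316)) (XT.nd (nat_lit 78) (nat_lit 608) (nat_lit 0) (XT.lf (nat_lit 0) (nat_lit 6341948579) (nat_lit 684) (nat_lit 4421587411) (nat_lit 76) (nat_lit 4584241302) (nat_lit 275) (nat_lit 5) (nat_lit 284) (nat_lit 5) (nat_lit 276) (nat_lit 5) (nat_lit 462) (nat_lit 423) (nat_lit 315)) (XT.lf (nat_lit 0) (nat_lit 9306498519) (nat_lit 608)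 (nat_lit 1583722521) (nat_lit 684) (nat_lit 4719374022) (nat_lit 267) (nat_lit 5) (nat_lit 275) (nat_lit 5) (nat_lit 276) (nat_lit 5) (nat_lit 463) (nat_lit 423) (nat_lit 314))))) (XT.nd (nat_lit 234) (nat_lit 1140) (nat_lit 0) (XT.nd (nat_lit 78) (nat_lit 1140) (nat_lit 0) (XT.lf (nat_lit 0) (nat_lit 7647684434) (nat_lit 608) (nat_lit 8035322463) (nat_lit 684) (nat_lit 194100746) (nat_lit 259) (nat_lit 5) (nat_lit 267) (nat_lit 5) (nat_lit 268) (nat_lit 5) (nat_lit 464) (nat_lit 423) (nat_lit 313)) (XT.nd (nat_lit 78) (nat_lit 532) (nat_lit 0) (XT.lf (nat_lit 0) (nat_lit 4487725126) (nat_lit 608) (nat_lit 10199939599) (nat_lit 76) (nat_lit 1462814756) (nat_lit 251) (nat_lit 5) (nat_lit 259) (nat_lit 5) (nat_lit 252) (nat_lit 5) (nat_lit 465) (nat_lit 423) (nat_lit 312)) (XT.lf (nat_lit 0) (nat_lit 4208061831) (nat_lit 532) (nat_lit 5214408284) (nat_lit 608) (nat_lit 7007256130) (nat_lit 244) (nat_lit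 5) (nat_lit 251) (nat_lit 5) (nat_lit 252) (nat_lit 5) (nat_lit 466) (nat_lit 423) (nat_lit 311)))) (XT.nd (nat_lit 78) (nat_lit 608) (nat_lit 0) (XT.lf (nat_lit 0) (nat_lit 2444817095) (nat_lit 532) (nat_lit 12153690220) (nat_lit 608) (nat_lit 2116979519) (nat_lit 237) (nat_lit 5) (nat_lit 244) (nat_lit 5) (nat_lit 245) (nat_lit 5) (nat_lit 467) (nat_lit 423) (nat_lit 310)) (XT.nd (nat_lit 78) (nat_lit 0) (nat_lit 0) (XT.lf (nat_lit 0) (nat_lit 635317702) (nat_lit 532) (nat_lit 2347360863) (nat_lit 608) (nat_lit 14024744462) (nat_lit 229) (nat_lit 5) (nat_lit 236) (nat_lit 5) (nat_lit 237) (nat_lit 5) (nat_lit 468) (nat_lit 423) (nat_lit 309)) (XT.lf (nat_lit 0) (nat_lit 8333405743) (nat_lit 608) (nat_lit 1216452700) (nat_lit 76) (nat_lit 7755443491) (nat_lit 229) (nat_lit 5) (nat_lit 237) (nat_lit 5) (nat_lit 230) (nat_lit 5) (nat_lit 469) (nat_lit 423) (nat_lit 308)))))) (XT.nd (nat_lit 468) (nat_lit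 2508) (nat_lit 0) (XT.nd (nat_lit 234) (nat_lit 1444) (nat_lit 0) (XT.nd (nat_lit 78) (nat_lit 1064) (nat_lit 0) (XT.lf (nat_lit 0) (nat_lit 13938304990) (nat_lit 532) (nat_lit 3073498701) (nat_lit 76) (nat_lit 598441786) (nat_lit 223) (nat_lit 5) (nat_lit 230) (nat_lit 5) (nat_lit 224) (nat_lit 5) (nat_lit 470) (nat_lit 423) (nat_lit 307)) (XT.nd (nat_lit 78) (nat_lit 456) (nat_lit 0) (XT.lf (nat_lit 0) (nat_lit 1900578064) (nat_lit 608) (nat_lit 5001412084) (nat_lit 76) (nat_lit 11019376318) (nat_lit 215) (nat_lit 5) (nat_lit 223) (nat_lit 5) (nat_lit 216) (nat_lit 5) (nat_lit 471) (nat_lit 423) (nat_lit 306)) (XT.lf (nat_lit 0) (nat_lit 7688708558) (nat_lit 532) (nat_lit 6973943786) (nat_lit 76) (nat_lit 3576718010) (nat_lit 209) (nat_lit 5) (nat_lit 216) (nat_lit 5) (nat_lit 210) (nat_lit 5) (nat_lit 472) (nat_lit 423) (nat_lit 305)))) (XT.nd (nat_lit 78) (nat_lit 988) (nat_lit 0) (XT.lf (nat_lit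 0) (nat_lit 9573974385) (nat_lit 456) (nat_lit 4199532011) (nat_lit 532) (nat_lit 4790948636) (nat_lit 203) (nat_lit 5) (nat_lit 209) (nat_lit 5) (nat_lit 210) (nat_lit 5) (nat_lit 473) (nat_lit 423) (nat_lit 304)) (XT.nd (nat_lit 78) (nat_lit 456) (nat_lit 0) (XT.lf (nat_lit 0) (nat_lit 1249546490) (nat_lit 532) (nat_lit 11057302466) (nat_lit 76) (nat_lit 6589836902) (nat_lit 196) (nat_lit 5) (nat_lit 203) (nat_lit 5) (nat_lit 197) (nat_lit 5) (nat_lit 474) (nat_lit 423) (nat_lit 303)) (XT.lf (nat_lit 0) (nat_lit 6050989156) (nat_lit 456) (nat_lit 1465425128) (nat_lit 532) (nat_lit 11719632056) (nat_lit 190) (nat_lit 5) (nat_lit 196) (nat_lit 5) (nat_lit 197) (nat_lit 5) (nat_lit 475) (nat_lit 423) (nat_lit 302))))) (XT.nd (nat_lit 234) (nat_lit 1216) (nat_lit 0) (XT.nd (nat_lit 78) (nat_lit 912) (nat_lit 0) (XT.lf (nat_lit 0) (nat_lit 4204194514) (nat_lit 380) (nat_lit 9914299012) (nat_lit 456) (nat_lit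 5464151026) (nat_lit 185) (nat_lit 5) (nat_lit 190) (nat_lit 5) (nat_lit 191) (nat_lit 5) (nat_lit 476) (nat_lit 423) (nat_lit 301)) (XT.nd (nat_lit 78) (nat_lit 380) (nat_lit 0) (XT.lf (nat_lit 0) (nat_lit 1071180177) (nat_lit 532) (nat_lit 17601207868) (nat_lit 76) (nat_lit 1265026006) (nat_lit 178) (nat_lit 5) (nat_lit 185) (nat_lit 5) (nat_lit 179) (nat_lit 5) (nat_lit 477) (nat_lit 423) (nat_lit 300)) (XT.lf (nat_lit 0) (nat_lit 366414776) (nat_lit 380) (nat_lit 7517967177) (nat_lit 456) (nat_lit 12414602327) (nat_lit 173) (nat_lit 5) (nat_lit 178) (nat_lit 5) (nat_lit 179) (nat_lit 5) (nat_lit 478) (nat_lit 423) (nat_lit 299)))) (XT.nd (nat_lit 156) (nat_lit 760) (nat_lit 0) (XT.nd (nat_lit 78) (nat_lit 456) (nat_lit 0) (XT.lf (nat_lit 0) (nat_lit 15030161496) (nat_lit 456) (nat_lit 1608373867) (nat_lit 76) (nat_lit 4030303538) (nat_lit 173) (nat_lit 5) (nat_lit 179) (nat_lit 5) (nat_lit 174)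 (nat_lit 5) (nat_lit 479) (nat_lit 423) (nat_lit 298)) (XT.lf (nat_lit 0) (nat_lit 1470126771) (nat_lit 456) (nat_lit 3638828702) (nat_lit 76) (nat_lit 15937716835) (nat_lit 167) (nat_lit 5) (nat_lit 173) (nat_lit 5) (nat_lit 168) (nat_lit 5) (nat_lit 480) (nat_lit 423) (nat_lit 297))) (XT.nd (nat_lit 78) (nat_lit 380) (nat_lit 0) (XT.lf (nat_lit 0) (nat_lit 8857029837) (nat_lit 456) (nat_lit 5754463846) (nat_lit 76) (nat_lit 6820773606) (nat_lit 162) (nat_lit 5) (nat_lit 168) (nat_lit 5) (nat_lit 163) (nat_lit 5) (nat_lit 481) (nat_lit 423) (nat_lit 296)) (XT.lf (nat_lit 0) (nat_lit 13917345561) (nat_lit 380) (nat_lit 2680886417) (nat_lit 456) (nat_lit 5228545126) (nat_lit 157) (nat_lit 5) (nat_lit 162) (nat_lit 5) (nat_lit 163) (nat_lit 5) (nat_lit 482) (nat_lit 423) (nat_lit 295))))))) (XT.nd (nat_lit 1014) (nat_lit 228) (nat_lit 0) (XT.nd (nat_lit 468) (nat_lit 1976) (nat_lit 0) (XT.nd (nat_lit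 234) (nat_lit 1064) (nat_lit 0) (XT.nd (nat_lit 78) (nat_lit 684) (nat_lit 0) (XT.lf (nat_lit 0) (nat_lit 2472737232) (nat_lit 456) (nat_lit 10149887344) (nat_lit 76) (nat_lit 9606897560) (nat_lit 151) (nat_lit 5) (nat_lit 157) (nat_lit 5) (nat_lit 152) (nat_lit 5) (nat_lit 483) (nat_lit 423) (nat_lit 294)) (XT.nd (nat_lit 78) (nat_lit 304) (nat_lit 0) (XT.lf (nat_lit 0) (nat_lit 10188419723) (nat_lit 380) (nat_lit 267852789) (nat_lit 456) (nat_lit 12184941556) (nat_lit 146) (nat_lit 5) (nat_lit 151) (nat_lit 5) (nat_lit 152) (nat_lit 5) (nat_lit 484) (nat_lit 423) (nat_lit 293)) (XT.lf (nat_lit 0) (nat_lit 8213142268) (nat_lit 304) (nat_lit 10653679877) (nat_lit 380) (nat_lit 4194685188) (nat_lit 142) (nat_lit 5) (nat_lit 146) (nat_lit 5) (nat_lit 147) (nat_lit 5) (nat_lit 485) (nat_lit 423) (nat_lit 292)))) (XT.nd (nat_lit 78) (nat_lit 608) (nat_lit 0) (XT.lf (nat_lit 0) (nat_lit 4107345584) (nat_lit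 456) (nat_lit 17300716067) (nat_lit 76) (nat_lit 2083324653) (nat_lit 136) (nat_lit 5) (nat_lit 142) (nat_lit 5) (nat_lit 137) (nat_lit 5) (nat_lit 486) (nat_lit 423) (nat_lit 291)) (XT.nd (nat_lit 78) (nat_lit 304) (nat_lit 0) (XT.lf (nat_lit 0) (nat_lit 4060452626) (nat_lit 304) (nat_lit 8724717527) (nat_lit 380) (nat_lit 11144763192) (nat_lit 132) (nat_lit 5) (nat_lit 136) (nat_lit 5) (nat_lit 137) (nat_lit 5) (nat_lit 487) (nat_lit 423) (nat_lit 290)) (XT.lf (nat_lit 0) (nat_lit 1891180022) (nat_lit 304) (nat_lit 19975350063) (nat_lit 380) (nat_lit 2512243365) (nat_lit 128) (nat_lit 5) (nat_lit 132) (nat_lit 5) (nat_lit 133) (nat_lit 5) (nat_lit 488) (nat_lit 423) (nat_lit 289))))) (XT.nd (nat_lit 234) (nat_lit 1292) (nat_lit 0) (XT.nd (nat_lit 78) (nat_lit 608) (nat_lit 0) (XT.lf (nat_lit 0) (nat_lit 6474391700) (nat_lit 380) (nat_lit 386859273) (nat_lit 76) (nat_lit 17975423956) (nat_lit 127)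 (nat_lit 5) (nat_lit 132) (nat_lit 5) (nat_lit 128) (nat_lit 5) (nat_lit 489) (nat_lit 423) (nat_lit 288)) (XT.nd (nat_lit 78) (nat_lit 304) (nat_lit 0) (XT.lf (nat_lit 0) (nat_lit 15873180010) (nat_lit 380) (nat_lit 2716316487) (nat_lit 76) (nat_lit 6714951734) (nat_lit 123) (nat_lit 5) (nat_lit 128) (nat_lit 5) (nat_lit 124) (nat_lit 5) (nat_lit 490) (nat_lit 423) (nat_lit 287)) (XT.lf (nat_lit 0) (nat_lit 20673109105) (nat_lit 304) (nat_lit 5049149858) (nat_lit 380) (nat_lit 60629827) (nat_lit 119) (nat_lit 5) (nat_lit 123) (nat_lit 5) (nat_lit 124) (nat_lit 5) (nat_lit 491) (nat_lit 423) (nat_lit 286)))) (XT.nd (nat_lit 156) (nat_lit 608) (nat_lit 0) (XT.nd (nat_lit 78) (nat_lit 304) (nat_lit 0) (XT.lf (nat_lit 0) (nat_lit 9649987055) (nat_lit 380) (nat_lit 7645613915) (nat_lit 76) (nat_lit 8975143747) (nat_lit 114) (nat_lit 5) (nat_lit 119) (nat_lit 5) (nat_lit 115) (nat_lit 5) (nat_lit 492) (nat_lit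 423) (nat_lit 285)) (XT.lf (nat_lit 0) (nat_lit 16528627946) (nat_lit 304) (nat_lit 3284373228) (nat_lit 380) (nat_lit 6956989636) (nat_lit 110) (nat_lit 5) (nat_lit 114) (nat_lit 5) (nat_lit 115) (nat_lit 5) (nat_lit 493) (nat_lit 423) (nat_lit 284))) (XT.nd (nat_lit 78) (nat_lit 304) (nat_lit 0) (XT.lf (nat_lit 0) (nat_lit 3162546351) (nat_lit 304) (nat_lit 12959069068) (nat_lit 76) (nat_lit 11158107118) (nat_lit 106) (nat_lit 5) (nat_lit 110) (nat_lit 5) (nat_lit 107) (nat_lit 5) (nat_lit 494) (nat_lit 423) (nat_lit 283)) (XT.lf (nat_lit 0) (nat_lit 12022199081) (nat_lit 304) (nat_lit 1625697250) (nat_lit 380) (nat_lit 14152795758) (nat_lit 102) (nat_lit 5) (nat_lit 106) (nat_lit 5) (nat_lit 107) (nat_lit 5) (nat_lit 495) (nat_lit 423) (nat_lit 282)))))) (XT.nd (nat_lit 57252) (nat_lit 0) (nat_lit 31844) (XT.nd (nat_lit 57018) (nat_lit 0) (nat_lit 33212) (XT.nd (nat_lit 56862) (nat_lit 0) (nat_lit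 34656) (XT.lf (nat_lit 0) (nat_lit 9611118986) (nat_lit 228) (nat_lit 15060393288) (nat_lit 304) (nat_lit 3661304837) (nat_lit 99) (nat_lit 5) (nat_lit 102) (nat_lit 5) (nat_lit 103) (nat_lit 5) (nat_lit 496) (nat_lit 423) (nat_lit 281)) (XT.nd (nat_lit 78) (nat_lit 0) (nat_lit 0) (XT.lf (nat_lit 0) (nat_lit 1690300063) (nat_lit 1596) (nat_lit 1379411960) (nat_lit 1596) (nat_lit 1379411960) (nat_lit 555) (nat_lit 3) (nat_lit 576) (nat_lit 3) (nat_lit 576) (nat_lit 5) (nat_lit 424) (nat_lit 424) (nat_lit 352)) (XT.lf (nat_lit 76) (nat_lit 3887089097) (nat_lit 0) (nat_lit 948990017) (nat_lit 1596) (nat_lit 4167405503) (nat_lit 556) (nat_lit 5) (nat_lit 555) (nat_lit 3) (nat_lit 576) (nat_lit 5) (nat_lit 425) (nat_lit 424) (nat_lit 351)))) (XT.nd (nat_lit 78) (nat_lit 1520) (nat_lit 0) (XT.lf (nat_lit 76) (nat_lit 1622158340) (nat_lit 0) (nat_lit 4717114101) (nat_lit 1596) (nat_lit 2772530454) (nat_lit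 557) (nat_lit 5) (nat_lit 556) (nat_lit 5) (nat_lit 577) (nat_lit 5) (nat_lit 426) (nat_lit 424) (nat_lit 350)) (XT.nd (nat_lit 78) (nat_lit 1596) (nat_lit 0) (XT.lf (nat_lit 0) (nat_lit 7880755606) (nat_lit 1520) (nat_lit 630430031) (nat_lit 1596) (nat_lit 712326572) (nat_lit 557) (nat_lit 5) (nat_lit 577) (nat_lit 5) (nat_lit 578) (nat_lit 5) (nat_lit 427) (nat_lit 424) (nat_lit 349)) (XT.lf (nat_lit 0) (nat_lit 151043220) (nat_lit 1596) (nat_lit 2880345438) (nat_lit 1672) (nat_lit 6306715654) (nat_lit 536) (nat_lit 5) (nat_lit 557) (nat_lit 5) (nat_lit 558) (nat_lit 5) (nat_lit 428) (nat_lit 424) (nat_lit 348))))) (XT.nd (nat_lit 234) (nat_lit 1444) (nat_lit 0) (XT.nd (nat_lit 78) (nat_lit 0) (nat_lit 0) (XT.lf (nat_lit 0) (nat_lit 1671475847) (nat_lit 1596) (nat_lit 5143876316) (nat_lit 1672) (nat_lit 2640608230) (nat_lit 537) (nat_lit 5) (nat_lit 558) (nat_lit 5) (nat_lit 559) (nat_lit 5) (nat_lit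 429) (nat_lit 424) (nat_lit 347)) (XT.nd (nat_lit 78) (nat_lit 0) (nat_lit 76) (XT.lf (nat_lit 76) (nat_lit 2160909812) (nat_lit 0) (nat_lit 1082128488) (nat_lit 1672) (nat_lit 6334208337) (nat_lit 538) (nat_lit 5) (nat_lit 537) (nat_lit 5) (nat_lit 559) (nat_lit 5) (nat_lit 430) (nat_lit 424) (nat_lit 346)) (XT.lf (nat_lit 0) (nat_lit 4881053627) (nat_lit 1596) (nat_lit 8132969) (nat_lit 1672) (nat_lit 4812603427) (nat_lit 538) (nat_lit 5) (nat_lit 559) (nat_lit 5) (nat_lit 560) (nat_lit 5) (nat_lit 431) (nat_lit 424) (nat_lit 345)))) (XT.nd (nat_lit 156) (nat_lit 1596) (nat_lit 0) (XT.nd (nat_lit 78) (nat_lit 0) (nat_lit 0) (XT.lf (nat_lit 0) (nat_lit 6586812985) (nat_lit 1596) (nat_lit 2150621332) (nat_lit 1672) (nat_lit 1092267863) (nat_lit 539) (nat_lit 5) (nat_lit 560) (nat_lit 5) (nat_lit 561) (nat_lit 5) (nat_lit 432) (nat_lit 424) (nat_lit 344)) (XT.lf (nat_lit 76) (nat_lit 5646938521) (nat_lit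 0) (nat_lit 2721742205) (nat_lit 1672) (nat_lit 1592276669) (nat_lit 540) (nat_lit 5) (nat_lit 539) (nat_lit 5) (nat_lit 561) (nat_lit 5) (nat_lit 433) (nat_lit 424) (nat_lit 343))) (XT.nd (nat_lit 78) (nat_lit 0) (nat_lit 0) (XT.lf (nat_lit 0) (nat_lit 123906373) (nat_lit 1672) (nat_lit 6490449864) (nat_lit 1748) (nat_lit 3481434888) (nat_lit 518) (nat_lit 5) (nat_lit 540) (nat_lit 5) (nat_lit 541) (nat_lit 5) (nat_lit 434) (nat_lit 424) (nat_lit 342)) (XT.lf (nat_lit 76) (nat_lit 1547959320) (nat_lit 0) (nat_lit 337281383) (nat_lit 1748) (nat_lit 8348916765) (nat_lit 519) (nat_lit 5) (nat_lit 518) (nat_lit 5) (nat_lit 541) (nat_lit 5) (nat_lit 435) (nat_lit 424) (nat_lit 341))))))))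
noncomputable def xc78 : XT := (XT.nd (nat_lit 1950) (nat_lit 11096) (nat_lit 0) (XT.nd (nat_lit 936) (nat_lit 9196) (nat_lit 0) (XT.nd (nat_lit 468) (nat_lit 4788) (nat_lit 0) (XT.nd (nat_lit 234) (nat_lit 3268) (nat_lit 0) (XT.nd (nat_lit 78) (nat_lit 0) (nat_lit 76) (XT.lf (nat_lit 0) (nat_lit 3742088974) (nat_lit 1672) (nat_lit 530469796) (nat_lit 1748) (nat_lit 6103266509) (nat_lit 519) (nat_lit 5) (nat_lit 541) (nat_lit 5) (nat_lit 542) (nat_lit 5) (nat_lit 436) (nat_lit 424) (nat_lit 340)) (XT.nd (nat_lit 78) (nat_lit 0) (nat_lit 0) (XT.lf (nat_lit 0) (nat_lit 5683041562) (nat_lit 1672) (nat_lit 2594459572) (nat_lit 1748) (nat_lit 2243677850) (nat_lit 520) (nat_lit 5) (nat_lit 542) (nat_lit 5) (nat_lit 543) (nat_lit 5) (nat_lit 437) (nat_lit 424) (nat_lit 339)) (XT.lf (nat_lit 76) (nat_lit 5993655931) (nat_lit 0) (nat_lit 1720532405) (nat_lit 1748) (nat_lit 2956069380) (nat_lit 521) (nat_lit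 5) (nat_lit 520) (nat_lit 5) (nat_lit 543) (nat_lit 5) (nat_lit 438) (nat_lit 424) (nat_lit 338)))) (XT.nd (nat_lit 78) (nat_lit 3420) (nat_lit 0) (XT.lf (nat_lit 76) (nat_lit 4040926251) (nat_lit 0) (nat_lit 5803814737) (nat_lit 1748) (nat_lit 978302012) (nat_lit 522) (nat_lit 5) (nat_lit 521) (nat_lit 5) (nat_lit 544) (nat_lit 5) (nat_lit 439) (nat_lit 424) (nat_lit 337)) (XT.nd (nat_lit 78) (nat_lit 1748) (nat_lit 0) (XT.lf (nat_lit 0) (nat_lit 1070969089) (nat_lit 1748) (nat_lit 8904313089) (nat_lit 76) (nat_lit 1004474479) (nat_lit 499) (nat_lit 5) (nat_lit 522) (nat_lit 5) (nat_lit 500) (nat_lit 5) (nat_lit 440) (nat_lit 424) (nat_lit 336)) (XT.lf (nat_lit 0) (nat_lit 75617999) (nat_lit 1748) (nat_lit 3141910571) (nat_lit 1824) (nat_lit 7922535137) (nat_lit 476) (nat_lit 5) (nat_lit 499) (nat_lit 5) (nat_lit 500) (nat_lit 5) (nat_lit 441) (nat_lit 424) (nat_lit 335))))) (XT.nd (nat_lit 234) (nat_lit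 1900) (nat_lit 0) (XT.nd (nat_lit 78) (nat_lit 2888) (nat_lit 0) (XT.lf (nat_lit 0) (nat_lit 5478880816) (nat_lit 1824) (nat_lit 1914114508) (nat_lit 76) (nat_lit 3911179969) (nat_lit 476) (nat_lit 5) (nat_lit 500) (nat_lit 5) (nat_lit 477) (nat_lit 5) (nat_lit 442) (nat_lit 424) (nat_lit 334)) (XT.nd (nat_lit 78) (nat_lit 1064) (nat_lit 0) (XT.lf (nat_lit 0) (nat_lit 7558483070) (nat_lit 1824) (nat_lit 285074199) (nat_lit 1900) (nat_lit 3628946439) (nat_lit 452) (nat_lit 5) (nat_lit 476) (nat_lit 5) (nat_lit 477) (nat_lit 5) (nat_lit 443) (nat_lit 424) (nat_lit 333)) (XT.lf (nat_lit 0) (nat_lit 5694173259) (nat_lit 1064) (nat_lit 4646947520) (nat_lit 1140) (nat_lit 1303525320) (nat_lit 438) (nat_lit 5) (nat_lit 452) (nat_lit 5) (nat_lit 453) (nat_lit 5) (nat_lit 444) (nat_lit 424) (nat_lit 332)))) (XT.nd (nat_lit 78) (nat_lit 912) (nat_lit 0) (XT.lf (nat_lit 0) (nat_lit 1115400262) (nat_lit 988) (nat_lit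 8005821180) (nat_lit 76) (nat_lit 2699831297) (nat_lit 425) (nat_lit 5) (nat_lit 438) (nat_lit 5) (nat_lit 426) (nat_lit 5) (nat_lit 445) (nat_lit 424) (nat_lit 331)) (XT.nd (nat_lit 78) (nat_lit 0) (nat_lit 0) (XT.lf (nat_lit 0) (nat_lit 1907677571) (nat_lit 912) (nat_lit 1733249833) (nat_lit 988) (nat_lit 8360619803) (nat_lit 413) (nat_lit 5) (nat_lit 425) (nat_lit 5) (nat_lit 426) (nat_lit 5) (nat_lit 446) (nat_lit 424) (nat_lit 330)) (XT.lf (nat_lit 0) (nat_lit 6303331452) (nat_lit 988) (nat_lit 27559728) (nat_lit 76) (nat_lit 5855345853) (nat_lit 413) (nat_lit 5) (nat_lit 426) (nat_lit 5) (nat_lit 414) (nat_lit 5) (nat_lit 447) (nat_lit 424) (nat_lit 329)))))) (XT.nd (nat_lit 468) (nat_lit 4256) (nat_lit 0) (XT.nd (nat_lit 234) (nat_lit 2356) (nat_lit 0) (XT.nd (nat_lit 78) (nat_lit 1748) (nat_lit 0) (XT.lf (nat_lit 0) (nat_lit 9102939229) (nat_lit 912) (nat_lit 1948134159) (nat_lit 76) (nat_lit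 1324250200) (nat_lit 402) (nat_lit 5) (nat_lit 414) (nat_lit 5) (nat_lit 403) (nat_lit 5) (nat_lit 448) (nat_lit 424) (nat_lit 328)) (XT.nd (nat_lit 78) (nat_lit 912) (nat_lit 0) (XT.lf (nat_lit 0) (nat_lit 8667147158) (nat_lit 836) (nat_lit 3388164376) (nat_lit 912) (nat_lit 513398269) (nat_lit 391) (nat_lit 5) (nat_lit 402) (nat_lit 5) (nat_lit 403) (nat_lit 5) (nat_lit 449) (nat_lit 424) (nat_lit 327)) (XT.lf (nat_lit 0) (nat_lit 2356135848) (nat_lit 912) (nat_lit 5891447724) (nat_lit 76) (nat_lit 4518847844) (nat_lit 379) (nat_lit 5) (nat_lit 391) (nat_lit 5) (nat_lit 380) (nat_lit 5) (nat_lit 450) (nat_lit 424) (nat_lit 326)))) (XT.nd (nat_lit 78) (nat_lit 1520) (nat_lit 0) (XT.lf (nat_lit 0) (nat_lit 5068826394) (nat_lit 836) (nat_lit 289304338) (nat_lit 912) (nat_lit 7610821469) (nat_lit 368) (nat_lit 5) (nat_lit 379) (nat_lit 5) (nat_lit 380) (nat_lit 5) (nat_lit 451) (nat_lit 424) (nat_lit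 325)) (XT.nd (nat_lit 78) (nat_lit 760) (nat_lit 0) (XT.lf (nat_lit 0) (nat_lit 3222324819) (nat_lit 760) (nat_lit 5312079539) (nat_lit 836) (nat_lit 4641462197) (nat_lit 358) (nat_lit 5) (nat_lit 368) (nat_lit 5) (nat_lit 369) (nat_lit 5) (nat_lit 452) (nat_lit 424) (nat_lit 324)) (XT.lf (nat_lit 0) (nat_lit 1365492991) (nat_lit 760) (nat_lit 10496159104) (nat_lit 836) (nat_lit 1526224781) (nat_lit 348) (nat_lit 5) (nat_lit 358) (nat_lit 5) (nat_lit 359) (nat_lit 5) (nat_lit 453) (nat_lit 424) (nat_lit 323))))) (XT.nd (nat_lit 234) (nat_lit 2736) (nat_lit 0) (XT.nd (nat_lit 78) (nat_lit 1444) (nat_lit 0) (XT.lf (nat_lit 0) (nat_lit 1736638752) (nat_lit 836) (nat_lit 521506262) (nat_lit 76) (nat_lit 11346361466) (nat_lit 347) (nat_lit 5) (nat_lit 358) (nat_lit 5) (nat_lit 348) (nat_lit 5) (nat_lit 454) (nat_lit 424) (nat_lit 322)) (XT.nd (nat_lit 78) (nat_lit 760) (nat_lit 0) (XT.lf (nat_lit 0) (nat_lit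 5165592912) (nat_lit 760) (nat_lit 2432466021) (nat_lit 76) (nat_lit 6227597553) (nat_lit 338) (nat_lit 5) (nat_lit 348) (nat_lit 5) (nat_lit 339) (nat_lit 5) (nat_lit 455) (nat_lit 424) (nat_lit 321)) (XT.lf (nat_lit 0) (nat_lit 8759397038) (nat_lit 836) (nat_lit 4356479467) (nat_lit 76) (nat_lit 936326883) (nat_lit 328) (nat_lit 5) (nat_lit 339) (nat_lit 5) (nat_lit 329) (nat_lit 5) (nat_lit 456) (nat_lit 424) (nat_lit 320)))) (XT.nd (nat_lit 156) (nat_lit 1292) (nat_lit 0) (XT.nd (nat_lit 78) (nat_lit 760) (nat_lit 0) (XT.lf (nat_lit 0) (nat_lit 7960097012) (nat_lit 684) (nat_lit 4594718537) (nat_lit 760) (nat_lit 1728857107) (nat_lit 319) (nat_lit 5) (nat_lit 328) (nat_lit 5) (nat_lit 329) (nat_lit 5) (nat_lit 457) (nat_lit 424) (nat_lit 319)) (XT.lf (nat_lit 0) (nat_lit 1989439760) (nat_lit 760) (nat_lit 8324549749) (nat_lit 76) (nat_lit 4206388207) (nat_lit 309) (nat_lit 5) (nat_lit 319) (nat_lit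 5) (nat_lit 310) (nat_lit 5) (nat_lit 458) (nat_lit 424) (nat_lit 318))) (XT.nd (nat_lit 78) (nat_lit 684) (nat_lit 0) (XT.lf (nat_lit 0) (nat_lit 4400113456) (nat_lit 608) (nat_lit 1473857568) (nat_lit 684) (nat_lit 8888422685) (nat_lit 301) (nat_lit 5) (nat_lit 309) (nat_lit 5) (nat_lit 310) (nat_lit 5) (nat_lit 459) (nat_lit 424) (nat_lit 317)) (XT.lf (nat_lit 0) (nat_lit 2564591073) (nat_lit 684) (nat_lit 7409534448) (nat_lit 760) (nat_lit 5035564678) (nat_lit 292) (nat_lit 5) (nat_lit 301) (nat_lit 5) (nat_lit 302) (nat_lit 5) (nat_lit 460) (nat_lit 424) (nat_lit 316))))))) (XT.nd (nat_lit 936) (nat_lit 5244) (nat_lit 0) (XT.nd (nat_lit 468) (nat_lit 2736) (nat_lit 0) (XT.nd (nat_lit 234) (nat_lit 1824) (nat_lit 0) (XT.nd (nat_lit 78) (nat_lit 684) (nat_lit 0) (XT.lf (nat_lit 0) (nat_lit 717460156) (nat_lit 608) (nat_lit 13552330548) (nat_lit 684) (nat_lit 993166467) (nat_lit 284) (nat_lit 5)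 (nat_lit 292) (nat_lit 5) (nat_lit 293) (nat_lit 5) (nat_lit 461) (nat_lit 424) (nat_lit 315)) (XT.nd (nat_lit 78) (nat_lit 608) (nat_lit 0) (XT.lf (nat_lit 0) (nat_lit 3240287680) (nat_lit 684) (nat_lit 1176429473) (nat_lit 76) (nat_lit 11104467616) (nat_lit 283) (nat_lit 5) (nat_lit 292) (nat_lit 5) (nat_lit 284) (nat_lit 5) (nat_lit 462) (nat_lit 424) (nat_lit 314)) (XT.lf (nat_lit 0) (nat_lit 7680523542) (nat_lit 684) (nat_lit 3092830386) (nat_lit 76) (nat_lit 5011810122) (nat_lit 275) (nat_lit 5) (nat_lit 284) (nat_lit 5) (nat_lit 276) (nat_lit 5) (nat_lit 463) (nat_lit 424) (nat_lit 313)))) (XT.nd (nat_lit 78) (nat_lit 1216) (nat_lit 0) (XT.lf (nat_lit 0) (nat_lit 11023388567) (nat_lit 608) (nat_lit 1317743969) (nat_lit 684) (nat_lit 3714188389) (nat_lit 267) (nat_lit 5) (nat_lit 275) (nat_lit 5) (nat_lit 276) (nat_lit 5) (nat_lit 464) (nat_lit 424) (nat_lit 312)) (XT.nd (nat_lit 78) (nat_lit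 532) (nat_lit 0) (XT.lf (nat_lit 0) (nat_lit 912827164) (nat_lit 684) (nat_lit 7025616917) (nat_lit 76) (nat_lit 8392726034) (nat_lit 258) (nat_lit 5) (nat_lit 267) (nat_lit 5) (nat_lit 259) (nat_lit 5) (nat_lit 465) (nat_lit 424) (nat_lit 311)) (XT.lf (nat_lit 0) (nat_lit 5711609527) (nat_lit 608) (nat_lit 9060448311) (nat_lit 76) (nat_lit 1841078992) (nat_lit 251) (nat_lit 5) (nat_lit 259) (nat_lit 5) (nat_lit 252) (nat_lit 5) (nat_lit 466) (nat_lit 424) (nat_lit 310))))) (XT.nd (nat_lit 234) (nat_lit 1064) (nat_lit 0) (XT.nd (nat_lit 78) (nat_lit 1140) (nat_lit 0) (XT.lf (nat_lit 0) (nat_lit 5756341812) (nat_lit 532) (nat_lit 5015562063) (nat_lit 608) (nat_lit 6129309078) (nat_lit 244) (nat_lit 5) (nat_lit 251) (nat_lit 5) (nat_lit 252) (nat_lit 5) (nat_lit 467) (nat_lit 424) (nat_lit 309)) (XT.nd (nat_lit 78) (nat_lit 608) (nat_lit 0) (XT.lf (nat_lit 0) (nat_lit 3935917382) (nat_lit 532) (nat_lit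 12147678669) (nat_lit 608) (nat_lit 1112344868) (nat_lit 237) (nat_lit 5) (nat_lit 244) (nat_lit 5) (nat_lit 245) (nat_lit 5) (nat_lit 468) (nat_lit 424) (nat_lit 308)) (XT.lf (nat_lit 0) (nat_lit 2062978667) (nat_lit 532) (nat_lit 2041757999) (nat_lit 608) (nat_lit 13392192914) (nat_lit 229) (nat_lit 5) (nat_lit 236) (nat_lit 5) (nat_lit 237) (nat_lit 5) (nat_lit 469) (nat_lit 424) (nat_lit 307)))) (XT.nd (nat_lit 78) (nat_lit 608) (nat_lit 0) (XT.lf (nat_lit 0) (nat_lit 134129526) (nat_lit 456) (nat_lit 9455022198) (nat_lit 532) (nat_lit 8215131691) (nat_lit 223) (nat_lit 5) (nat_lit 229) (nat_lit 5) (nat_lit 230) (nat_lit 5) (nat_lit 470) (nat_lit 424) (nat_lit 306)) (XT.nd (nat_lit 78) (nat_lit 608) (nat_lit 0) (XT.lf (nat_lit 0) (nat_lit 15343364167) (nat_lit 532) (nat_lit 1785568911) (nat_lit 76) (nat_lit 989820689) (nat_lit 223) (nat_lit 5) (nat_lit 230) (nat_lit 5) (nat_lit 224) (nat_lit 5)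 (nat_lit 471) (nat_lit 424) (nat_lit 305)) (XT.lf (nat_lit 0) (nat_lit 2931038023) (nat_lit 608) (nat_lit 3780716259) (nat_lit 76) (nat_lit 11727726382) (nat_lit 215) (nat_lit 5) (nat_lit 223) (nat_lit 5) (nat_lit 216) (nat_lit 5) (nat_lit 472) (nat_lit 424) (nat_lit 304)))))) (XT.nd (nat_lit 468) (nat_lit 2432) (nat_lit 0) (XT.nd (nat_lit 234) (nat_lit 1368) (nat_lit 0) (XT.nd (nat_lit 78) (nat_lit 988) (nat_lit 0) (XT.lf (nat_lit 0) (nat_lit 8875777446) (nat_lit 532) (nat_lit 5818091708) (nat_lit 76) (nat_lit 4073497903) (nat_lit 209) (nat_lit 5) (nat_lit 216) (nat_lit 5) (nat_lit 210) (nat_lit 5) (nat_lit 473) (nat_lit 424) (nat_lit 303)) (XT.nd (nat_lit 78) (nat_lit 532) (nat_lit 0) (XT.lf (nat_lit 0) (nat_lit 11204117363) (nat_lit 456) (nat_lit 3919864475) (nat_lit 532) (nat_lit 3978606824) (nat_lit 203) (nat_lit 5) (nat_lit 209) (nat_lit 5) (nat_lit 210) (nat_lit 5) (nat_lit 474) (nat_lit 424)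 (nat_lit 302)) (XT.lf (nat_lit 0) (nat_lit 2214395067) (nat_lit 532) (nat_lit 10039605022) (nat_lit 76) (nat_lit 7190987115) (nat_lit 196) (nat_lit 5) (nat_lit 203) (nat_lit 5) (nat_lit 197) (nat_lit 5) (nat_lit 475) (nat_lit 424) (nat_lit 301)))) (XT.nd (nat_lit 78) (nat_lit 912) (nat_lit 0) (XT.lf (nat_lit 0) (nat_lit 7560042668) (nat_lit 456) (nat_lit 1090834843) (nat_lit 532) (nat_lit 11144020330) (nat_lit 190) (nat_lit 5) (nat_lit 196) (nat_lit 5) (nat_lit 197) (nat_lit 5) (nat_lit 476) (nat_lit 424) (nat_lit 300)) (XT.nd (nat_lit 78) (nat_lit 532) (nat_lit 0) (XT.lf (nat_lit 0) (nat_lit 5651567385) (nat_lit 380) (nat_lit 9784193653) (nat_lit 456) (nat_lit 4716439594) (nat_lit 185) (nat_lit 5) (nat_lit 190) (nat_lit 5) (nat_lit 191) (nat_lit 5) (nat_lit 477) (nat_lit 424) (nat_lit 299)) (XT.lf (nat_lit 0) (nat_lit 1988096365) (nat_lit 532) (nat_lit 16802726149) (nat_lit 76) (nat_lit 1726971701)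 (nat_lit 178) (nat_lit 5) (nat_lit 185) (nat_lit 5) (nat_lit 179) (nat_lit 5) (nat_lit 478) (nat_lit 424) (nat_lit 298))))) (XT.nd (nat_lit 234) (nat_lit 1596) (nat_lit 0) (XT.nd (nat_lit 78) (nat_lit 456) (nat_lit 0) (XT.lf (nat_lit 0) (nat_lit 1682403997) (nat_lit 380) (nat_lit 7305992788) (nat_lit 456) (nat_lit 11902162072) (nat_lit 173) (nat_lit 5) (nat_lit 178) (nat_lit 5) (nat_lit 179) (nat_lit 5) (nat_lit 479) (nat_lit 424) (nat_lit 297)) (XT.nd (nat_lit 78) (nat_lit 456) (nat_lit 0) (XT.lf (nat_lit 0) (nat_lit 16326041099) (nat_lit 456) (nat_lit 375507509) (nat_lit 76) (nat_lit 4570412000) (nat_lit 173) (nat_lit 5) (nat_lit 179) (nat_lit 5) (nat_lit 174) (nat_lit 5) (nat_lit 480) (nat_lit 424) (nat_lit 296)) (XT.lf (nat_lit 0) (nat_lit 2348306523) (nat_lit 456) (nat_lit 2476534323) (nat_lit 76) (nat_lit 16836508266) (nat_lit 167) (nat_lit 5) (nat_lit 173) (nat_lit 5) (nat_lit 168) (nat_lit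 5) (nat_lit 481) (nat_lit 424) (nat_lit 295)))) (XT.nd (nat_lit 156) (nat_lit 836) (nat_lit 0) (XT.nd (nat_lit 78) (nat_lit 380) (nat_lit 0) (XT.lf (nat_lit 0) (nat_lit 9943455287) (nat_lit 456) (nat_lit 4662678587) (nat_lit 76) (nat_lit 7452646514) (nat_lit 162) (nat_lit 5) (nat_lit 168) (nat_lit 5) (nat_lit 163) (nat_lit 5) (nat_lit 482) (nat_lit 424) (nat_lit 294)) (XT.lf (nat_lit 0) (nat_lit 15578771403) (nat_lit 380) (nat_lit 2322294041) (nat_lit 456) (nat_lit 4564377798) (nat_lit 157) (nat_lit 5) (nat_lit 162) (nat_lit 5) (nat_lit 163) (nat_lit 5) (nat_lit 483) (nat_lit 424) (nat_lit 293))) (XT.nd (nat_lit 78) (nat_lit 380) (nat_lit 0) (XT.lf (nat_lit 0) (nat_lit 3344444460) (nat_lit 456) (nat_lit 9206951933) (nat_lit 76) (nat_lit 10329023359) (nat_lit 151) (nat_lit 5) (nat_lit 157) (nat_lit 5) (nat_lit 152) (nat_lit 5) (nat_lit 484) (nat_lit 424) (nat_lit 292)) (XT.lf (nat_lit 0) (nat_lit 11553322199)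 (nat_lit 456) (nat_lit 11584600047) (nat_lit 76) (nat_lit 166824563) (nat_lit 146) (nat_lit 5) (nat_lit 152) (nat_lit 5) (nat_lit 147) (nat_lit 5) (nat_lit 485) (nat_lit 424) (nat_lit 291))))))))
noncomputable def xc79 : XT := (XT.nd (nat_lit 58812) (nat_lit 0) (nat_lit 13148) (XT.nd (nat_lit 57798) (nat_lit 0) (nat_lit 31540) (XT.nd (nat_lit 468) (nat_lit 1596) (nat_lit 0) (XT.nd (nat_lit 234) (nat_lit 684) (nat_lit 0) (XT.nd (nat_lit 78) (nat_lit 760) (nat_lit 0) (XT.lf (nat_lit 0) (nat_lit 9679406102) (nat_lit 304) (nat_lit 10523625145) (nat_lit 380) (nat_lit 3534881828) (nat_lit 142) (nat_lit 5) (nat_lit 146) (nat_lit 5) (nat_lit 147) (nat_lit 5) (nat_lit 486) (nat_lit 424) (nat_lit 290)) (XT.nd (nat_lit 78) (nat_lit 304) (nat_lit 0) (XT.lf (nat_lit 0) (nat_lit 4994100352) (nat_lit 456) (nat_lit 16597161430) (nat_lit 76) (nat_lit 2589561737) (nat_lit 136) (nat_lit 5) (nat_lit 142) (nat_lit 5) (nat_lit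 137) (nat_lit 5) (nat_lit 487) (nat_lit 424) (nat_lit 289)) (XT.lf (nat_lit 0) (nat_lit 5385007478) (nat_lit 304) (nat_lit 8532822308) (nat_lit 380) (nat_lit 10714986765) (nat_lit 132) (nat_lit 5) (nat_lit 136) (nat_lit 5) (nat_lit 137) (nat_lit 5) (nat_lit 488) (nat_lit 424) (nat_lit 288)))) (XT.nd (nat_lit 78) (nat_lit 380) (nat_lit 0) (XT.lf (nat_lit 0) (nat_lit 3143017320) (nat_lit 304) (nat_lit 20117413537) (nat_lit 380) (nat_lit 1834915947) (nat_lit 128) (nat_lit 5) (nat_lit 132) (nat_lit 5) (nat_lit 133) (nat_lit 5) (nat_lit 489) (nat_lit 424) (nat_lit 287)) (XT.nd (nat_lit 78) (nat_lit 0) (nat_lit 0) (XT.lf (nat_lit 0) (nat_lit 781694539) (nat_lit 304) (nat_lit 6613191561) (nat_lit 380) (nat_lit 18172333600) (nat_lit 123) (nat_lit 5) (nat_lit 127) (nat_lit 5) (nat_lit 128) (nat_lit 5) (nat_lit 490) (nat_lit 424) (nat_lit 286)) (XT.lf (nat_lit 0) (nat_lit 17059907926) (nat_lit 380) (nat_lit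 1635574403) (nat_lit 76) (nat_lit 7353859357) (nat_lit 123) (nat_lit 5) (nat_lit 128) (nat_lit 5) (nat_lit 124) (nat_lit 5) (nat_lit 491) (nat_lit 424) (nat_lit 285))))) (XT.nd (nat_lit 234) (nat_lit 608) (nat_lit 0) (XT.nd (nat_lit 78) (nat_lit 608) (nat_lit 0) (XT.lf (nat_lit 0) (nat_lit 640276988) (nat_lit 380) (nat_lit 4109935966) (nat_lit 76) (nat_lit 21792104546) (nat_lit 118) (nat_lit 5) (nat_lit 123) (nat_lit 5) (nat_lit 119) (nat_lit 5) (nat_lit 492) (nat_lit 424) (nat_lit 284)) (XT.nd (nat_lit 78) (nat_lit 304) (nat_lit 0) (XT.lf (nat_lit 0) (nat_lit 10631202903) (nat_lit 380) (nat_lit 6730039315) (nat_lit 76) (nat_lit 9683763401) (nat_lit 114) (nat_lit 5) (nat_lit 119) (nat_lit 5) (nat_lit 115) (nat_lit 5) (nat_lit 493) (nat_lit 424) (nat_lit 283)) (XT.lf (nat_lit 0) (nat_lit 18150854462) (nat_lit 304) (nat_lit 2935419035) (nat_lit 380) (nat_lit 6473213066) (nat_lit 110) (nat_lit 5) (nat_lit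 114) (nat_lit 5) (nat_lit 115) (nat_lit 5) (nat_lit 494) (nat_lit 424) (nat_lit 282)))) (XT.nd (nat_lit 78) (nat_lit 304) (nat_lit 0) (XT.lf (nat_lit 0) (nat_lit 3931072285) (nat_lit 304) (nat_lit 12220244907) (nat_lit 76) (nat_lit 11933298972) (nat_lit 106) (nat_lit 5) (nat_lit 110) (nat_lit 5) (nat_lit 107) (nat_lit 5) (nat_lit 495) (nat_lit 424) (nat_lit 281)) (XT.nd (nat_lit 56940) (nat_lit 0) (nat_lit 34428) (XT.lf (nat_lit 0) (nat_lit 13492167377) (nat_lit 304) (nat_lit 1226396853) (nat_lit 380) (nat_lit 13902899672) (nat_lit 102) (nat_lit 5) (nat_lit 106) (nat_lit 5) (nat_lit 107) (nat_lit 5) (nat_lit 496) (nat_lit 424) (nat_lit 280)) (XT.lf (nat_lit 0) (nat_lit 3107280580) (nat_lit 1596) (nat_lit 723925692) (nat_lit 1596) (nat_lit 723925692) (nat_lit 555) (nat_lit 3) (nat_lit 576) (nat_lit 3) (nat_lit 576) (nat_lit 5) (nat_lit 425) (nat_lit 425) (nat_lit 350)))))) (XT.nd (nat_lit 468) (nat_lit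 1368) (nat_lit 0) (XT.nd (nat_lit 234) (nat_lit 0) (nat_lit 76) (XT.nd (nat_lit 78) (nat_lit 1520) (nat_lit 0) (XT.lf (nat_lit 76) (nat_lit 5374827293) (nat_lit 0) (nat_lit 2268190850) (nat_lit 1596) (nat_lit 1577061436) (nat_lit 556) (nat_lit 5) (nat_lit 555) (nat_lit 3) (nat_lit 576) (nat_lit 5) (nat_lit 426) (nat_lit 425) (nat_lit 349)) (XT.nd (nat_lit 78) (nat_lit 1596) (nat_lit 0) (XT.lf (nat_lit 76) (nat_lit 3080589500) (nat_lit 0) (nat_lit 6034204905) (nat_lit 1596) (nat_lit 218391192) (nat_lit 557) (nat_lit 5) (nat_lit 556) (nat_lit 5) (nat_lit 577) (nat_lit 5) (nat_lit 427) (nat_lit 425) (nat_lit 348)) (XT.lf (nat_lit 76) (nat_lit 777227512) (nat_lit 0) (nat_lit 384978104) (nat_lit 1672) (nat_lit 8287397660) (nat_lit 536) (nat_lit 5) (nat_lit 535) (nat_lit 5) (nat_lit 557) (nat_lit 5) (nat_lit 428) (nat_lit 425) (nat_lit 347)))) (XT.nd (nat_lit 78) (nat_lit 0) (nat_lit 76) (XT.lf (nat_lit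 0) (nat_lit 2610823897) (nat_lit 1596) (nat_lit 1530453623) (nat_lit 1672) (nat_lit 5427620498) (nat_lit 536) (nat_lit 5) (nat_lit 557) (nat_lit 5) (nat_lit 558) (nat_lit 5) (nat_lit 429) (nat_lit 425) (nat_lit 346)) (XT.nd (nat_lit 78) (nat_lit 0) (nat_lit 0) (XT.lf (nat_lit 0) (nat_lit 4108169282) (nat_lit 1596) (nat_lit 3830734944) (nat_lit 1672) (nat_lit 1752766679) (nat_lit 537) (nat_lit 5) (nat_lit 558) (nat_lit 5) (nat_lit 559) (nat_lit 5) (nat_lit 430) (nat_lit 425) (nat_lit 345)) (XT.lf (nat_lit 76) (nat_lit 3669387011) (nat_lit 0) (nat_lit 1997353590) (nat_lit 1672) (nat_lit 4151064808) (nat_lit 538) (nat_lit 5) (nat_lit 537) (nat_lit 5) (nat_lit 559) (nat_lit 5) (nat_lit 431) (nat_lit 425) (nat_lit 344))))) (XT.nd (nat_lit 234) (nat_lit 0) (nat_lit 76) (XT.nd (nat_lit 78) (nat_lit 1596) (nat_lit 0) (XT.lf (nat_lit 76) (nat_lit 1463378625) (nat_lit 0) (nat_lit 5826694903) (nat_lit 1672) (nat_lit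 2657294737) (nat_lit 539) (nat_lit 5) (nat_lit 538) (nat_lit 5) (nat_lit 560) (nat_lit 5) (nat_lit 432) (nat_lit 425) (nat_lit 343)) (XT.nd (nat_lit 78) (nat_lit 1672) (nat_lit 0) (XT.lf (nat_lit 0) (nat_lit 8976173839) (nat_lit 1596) (nat_lit 737006267) (nat_lit 1672) (nat_lit 367360832) (nat_lit 539) (nat_lit 5) (nat_lit 560) (nat_lit 5) (nat_lit 561) (nat_lit 5) (nat_lit 433) (nat_lit 425) (nat_lit 342)) (XT.lf (nat_lit 0) (nat_lit 533187527) (nat_lit 1672) (nat_lit 2949836455) (nat_lit 1748) (nat_lit 6733733922) (nat_lit 517) (nat_lit 5) (nat_lit 539) (nat_lit 5) (nat_lit 540) (nat_lit 5) (nat_lit 434) (nat_lit 425) (nat_lit 341)))) (XT.nd (nat_lit 156) (nat_lit 0) (nat_lit 76) (XT.nd (nat_lit 78) (nat_lit 0) (nat_lit 0) (XT.lf (nat_lit 0) (nat_lit 2221994261) (nat_lit 1672) (nat_lit 5179943754) (nat_lit 1748) (nat_lit 2954638733) (nat_lit 518) (nat_lit 5) (nat_lit 540) (nat_lit 5) (nat_lit 541)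 (nat_lit 5) (nat_lit 435) (nat_lit 425) (nat_lit 340)) (XT.lf (nat_lit 76) (nat_lit 3075197307) (nat_lit 0) (nat_lit 909584557) (nat_lit 1748) (nat_lit 6515345799) (nat_lit 519) (nat_lit 5) (nat_lit 518) (nat_lit 5) (nat_lit 541) (nat_lit 5) (nat_lit 436) (nat_lit 425) (nat_lit 339))) (XT.nd (nat_lit 78) (nat_lit 0) (nat_lit 76) (XT.lf (nat_lit 76) (nat_lit 947109281) (nat_lit 0) (nat_lit 4893327412) (nat_lit 1748) (nat_lit 4806752466) (nat_lit 520) (nat_lit 5) (nat_lit 519) (nat_lit 5) (nat_lit 542) (nat_lit 5) (nat_lit 437) (nat_lit 425) (nat_lit 338)) (XT.lf (nat_lit 0) (nat_lit 7782178687) (nat_lit 1672) (nat_lit 1173350132) (nat_lit 1748) (nat_lit 1842528951) (nat_lit 520) (nat_lit 5) (nat_lit 542) (nat_lit 5) (nat_lit 543) (nat_lit 5) (nat_lit 438) (nat_lit 425) (nat_lit 337))))))) (XT.nd (nat_lit 1014) (nat_lit 7904) (nat_lit 0) (XT.nd (nat_lit 468) (nat_lit 5548) (nat_lit 0) (XT.nd (nat_lit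 234) (nat_lit 3496) (nat_lit 0) (XT.nd (nat_lit 78) (nat_lit 1672) (nat_lit 0) (XT.lf (nat_lit 76) (nat_lit 7648090263) (nat_lit 0) (nat_lit 2179569691) (nat_lit 1748) (nat_lit 1124886258) (nat_lit 521) (nat_lit 5) (nat_lit 520) (nat_lit 5) (nat_lit 543) (nat_lit 5) (nat_lit 439) (nat_lit 425) (nat_lit 336)) (XT.nd (nat_lit 78) (nat_lit 0) (nat_lit 76) (XT.lf (nat_lit 0) (nat_lit 852221502) (nat_lit 1748) (nat_lit 5463818465) (nat_lit 1824) (nat_lit 4794722300) (nat_lit 498) (nat_lit 5) (nat_lit 521) (nat_lit 5) (nat_lit 522) (nat_lit 5) (nat_lit 440) (nat_lit 425) (nat_lit 335)) (XT.lf (nat_lit 0) (nat_lit 2903622146) (nat_lit 1748) (nat_lit 7642564760) (nat_lit 76) (nat_lit 726787186) (nat_lit 499) (nat_lit 5) (nat_lit 522) (nat_lit 5) (nat_lit 500) (nat_lit 5) (nat_lit 441) (nat_lit 425) (nat_lit 334)))) (XT.nd (nat_lit 78) (nat_lit 1824) (nat_lit 0) (XT.lf (nat_lit 0) (nat_lit 1581960035) (nat_lit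 1748) (nat_lit 3489941371) (nat_lit 1824) (nat_lit 6367047286) (nat_lit 476) (nat_lit 5) (nat_lit 499) (nat_lit 5) (nat_lit 500) (nat_lit 5) (nat_lit 442) (nat_lit 425) (nat_lit 333)) (XT.nd (nat_lit 78) (nat_lit 1824) (nat_lit 0) (XT.lf (nat_lit 0) (nat_lit 7348295118) (nat_lit 1824) (nat_lit 475384461) (nat_lit 76) (nat_lit 3785364690) (nat_lit 476) (nat_lit 5) (nat_lit 500) (nat_lit 5) (nat_lit 477) (nat_lit 5) (nat_lit 443) (nat_lit 425) (nat_lit 332)) (XT.lf (nat_lit 0) (nat_lit 9257117733) (nat_lit 1824) (nat_lit 486688967) (nat_lit 1900) (nat_lit 2039422464) (nat_lit 452) (nat_lit 5) (nat_lit 476) (nat_lit 5) (nat_lit 477) (nat_lit 5) (nat_lit 444) (nat_lit 425) (nat_lit 331))))) (XT.nd (nat_lit 234) (nat_lit 2584) (nat_lit 0) (XT.nd (nat_lit 78) (nat_lit 1824) (nat_lit 0) (XT.lf (nat_lit 0) (nat_lit 310738183) (nat_lit 1140) (nat_lit 4616247049) (nat_lit 76) (nat_lit 7034315849) (nat_lit 437)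 (nat_lit 5) (nat_lit 452) (nat_lit 5) (nat_lit 438) (nat_lit 5) (nat_lit 445) (nat_lit 425) (nat_lit 330)) (XT.nd (nat_lit 78) (nat_lit 912) (nat_lit 0) (XT.lf (nat_lit 0) (nat_lit 2745819068) (nat_lit 988) (nat_lit 6733513446) (nat_lit 76) (nat_lit 2664273313) (nat_lit 425) (nat_lit 5) (nat_lit 438) (nat_lit 5) (nat_lit 426) (nat_lit 5) (nat_lit 446) (nat_lit 425) (nat_lit 329)) (XT.lf (nat_lit 0) (nat_lit 3452852038) (nat_lit 912) (nat_lit 1857407403) (nat_lit 988) (nat_lit 7019996800) (nat_lit 413) (nat_lit 5) (nat_lit 425) (nat_lit 5) (nat_lit 426) (nat_lit 5) (nat_lit 447) (nat_lit 425) (nat_lit 328)))) (XT.nd (nat_lit 156) (nat_lit 1748) (nat_lit 0) (XT.nd (nat_lit 78) (nat_lit 0) (nat_lit 0) (XT.lf (nat_lit 0) (nat_lit 1466330133) (nat_lit 836) (nat_lit 6549831071) (nat_lit 912) (nat_lit 4505056987) (nat_lit 402) (nat_lit 5) (nat_lit 413) (nat_lit 5) (nat_lit 414) (nat_lit 5) (nat_lit 448) (nat_lit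 425) (nat_lit 327)) (XT.lf (nat_lit 0) (nat_lit 10855376363) (nat_lit 912) (nat_lit 525130882) (nat_lit 76) (nat_lit 1336361539) (nat_lit 402) (nat_lit 5) (nat_lit 414) (nat_lit 5) (nat_lit 403) (nat_lit 5) (nat_lit 449) (nat_lit 425) (nat_lit 326))) (XT.nd (nat_lit 78) (nat_lit 836) (nat_lit 0) (XT.lf (nat_lit 0) (nat_lit 933555227) (nat_lit 912) (nat_lit 2538300466) (nat_lit 76) (nat_lit 9444754277) (nat_lit 390) (nat_lit 5) (nat_lit 402) (nat_lit 5) (nat_lit 391) (nat_lit 5) (nat_lit 450) (nat_lit 425) (nat_lit 325)) (XT.lf (nat_lit 0) (nat_lit 3849480188) (nat_lit 912) (nat_lit 4586906587) (nat_lit 76) (nat_lit 4684466523) (nat_lit 379) (nat_lit 5) (nat_lit 391) (nat_lit 5) (nat_lit 380) (nat_lit 5) (nat_lit 451) (nat_lit 425) (nat_lit 324)))))) (XT.nd (nat_lit 468) (nat_lit 4028) (nat_lit 0) (XT.nd (nat_lit 234) (nat_lit 1520) (nat_lit 0) (XT.nd (nat_lit 78) (nat_lit 1520) (nat_lit 0) (XT.lf (nat_lit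 0) (nat_lit 6678143672) (nat_lit 836) (nat_lit 231415990) (nat_lit 912) (nat_lit 6420532984) (nat_lit 368) (nat_lit 5) (nat_lit 379) (nat_lit 5) (nat_lit 380) (nat_lit 5) (nat_lit 452) (nat_lit 425) (nat_lit 323)) (XT.nd (nat_lit 78) (nat_lit 760) (nat_lit 0) (XT.lf (nat_lit 0) (nat_lit 4779654692) (nat_lit 760) (nat_lit 5370864602) (nat_lit 836) (nat_lit 3393310512) (nat_lit 358) (nat_lit 5) (nat_lit 368) (nat_lit 5) (nat_lit 369) (nat_lit 5) (nat_lit 453) (nat_lit 425) (nat_lit 322)) (XT.lf (nat_lit 0) (nat_lit 2869647642) (nat_lit 760) (nat_lit 10678456752) (nat_lit 836) (nat_lit 214688879) (nat_lit 348) (nat_lit 5) (nat_lit 358) (nat_lit 5) (nat_lit 359) (nat_lit 5) (nat_lit 454) (nat_lit 425) (nat_lit 321)))) (XT.nd (nat_lit 78) (nat_lit 760) (nat_lit 0) (XT.lf (nat_lit 0) (nat_lit 912778179) (nat_lit 684) (nat_lit 2182392033) (nat_lit 760) (nat_lit 10891240158) (nat_lit 338) (nat_lit 5) (nat_lit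 347) (nat_lit 5) (nat_lit 348) (nat_lit 5) (nat_lit 455) (nat_lit 425) (nat_lit 320)) (XT.nd (nat_lit 78) (nat_lit 760) (nat_lit 0) (XT.lf (nat_lit 0) (nat_lit 6593299799) (nat_lit 760) (nat_lit 1066202148) (nat_lit 76) (nat_lit 6555369783) (nat_lit 338) (nat_lit 5) (nat_lit 348) (nat_lit 5) (nat_lit 339) (nat_lit 5) (nat_lit 456) (nat_lit 425) (nat_lit 319)) (XT.lf (nat_lit 0) (nat_lit 10268151276) (nat_lit 836) (nat_lit 3047402332) (nat_lit 76) (nat_lit 1133199670) (nat_lit 328) (nat_lit 5) (nat_lit 339) (nat_lit 5) (nat_lit 329) (nat_lit 5) (nat_lit 457) (nat_lit 425) (nat_lit 318))))) (XT.nd (nat_lit 234) (nat_lit 1976) (nat_lit 0) (XT.nd (nat_lit 78) (nat_lit 1368) (nat_lit 0) (XT.lf (nat_lit 0) (nat_lit 9615312859) (nat_lit 684) (nat_lit 4535025320) (nat_lit 760) (nat_lit 537373147) (nat_lit 319) (nat_lit 5) (nat_lit 328) (nat_lit 5) (nat_lit 329) (nat_lit 5) (nat_lit 458) (nat_lit 425) (nat_lit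 317)) (XT.nd (nat_lit 78) (nat_lit 608) (nat_lit 0) (XT.lf (nat_lit 0) (nat_lit 3250936279) (nat_lit 760) (nat_lit 7141979263) (nat_lit 76) (nat_lit 4538947817) (nat_lit 309) (nat_lit 5) (nat_lit 319) (nat_lit 5) (nat_lit 310) (nat_lit 5) (nat_lit 459) (nat_lit 425) (nat_lit 316)) (XT.lf (nat_lit 0) (nat_lit 5941186359) (nat_lit 608) (nat_lit 1284961464) (nat_lit 684) (nat_lit 7955511725) (nat_lit 301) (nat_lit 5) (nat_lit 309) (nat_lit 5) (nat_lit 310) (nat_lit 5) (nat_lit 460) (nat_lit 425) (nat_lit 315)))) (XT.nd (nat_lit 156) (nat_lit 608) (nat_lit 0) (XT.nd (nat_lit 78) (nat_lit 684) (nat_lit 0) (XT.lf (nat_lit 0) (nat_lit 4049471856) (nat_lit 684) (nat_lit 7376194638) (nat_lit 760) (nat_lit 4011183777) (nat_lit 292) (nat_lit 5) (nat_lit 301) (nat_lit 5) (nat_lit 302) (nat_lit 5) (nat_lit 461) (nat_lit 425) (nat_lit 314)) (XT.lf (nat_lit 0) (nat_lit 127511787) (nat_lit 684) (nat_lit 13553805616)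 (nat_lit 76) (nat_lit 2016839951) (nat_lit 283) (nat_lit 5) (nat_lit 292) (nat_lit 5) (nat_lit 284) (nat_lit 5) (nat_lit 462) (nat_lit 425) (nat_lit 313))) (XT.nd (nat_lit 78) (nat_lit 0) (nat_lit 0) (XT.lf (nat_lit 0) (nat_lit 170528293) (nat_lit 608) (nat_lit 4272013962) (nat_lit 684) (nat_lit 11522099244) (nat_lit 275) (nat_lit 5) (nat_lit 283) (nat_lit 5) (nat_lit 284) (nat_lit 5) (nat_lit 463) (nat_lit 425) (nat_lit 312)) (XT.lf (nat_lit 0) (nat_lit 8993337689) (nat_lit 684) (nat_lit 1808101257) (nat_lit 76) (nat_lit 5435556433) (nat_lit 275) (nat_lit 5) (nat_lit 284) (nat_lit 5) (nat_lit 276) (nat_lit 5) (nat_lit 464) (nat_lit 425) (nat_lit 311))))))))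
noncomputable def xc80 : XT := (XT.nd (nat_lit 1950) (nat_lit 1976) (nat_lit 0) (XT.nd (nat_lit 936) (nat_lit 4864) (nat_lit 0) (XT.nd (nat_lit 468) (nat_lit 2508) (nat_lit 0) (XT.nd (nat_lit 234) (nat_lit 1672) (nat_lit 0) (XT.nd (nat_lit 78) (nat_lit 1216) (nat_lit 0) (XT.lf (nat_lit 0) (nat_lit 12709255736) (nat_lit 608) (nat_lit 1061781681) (nat_lit 684) (nat_lit 2744676295) (nat_lit 267) (nat_lit 5) (nat_lit 275) (nat_lit 5) (nat_lit 276) (nat_lit 5) (nat_lit 465) (nat_lit 425) (nat_lit 310)) (XT.nd (nat_lit 78) (nat_lit 532) (nat_lit 0) (XT.lf (nat_lit 0) (nat_lit 1986614936) (nat_lit 684) (nat_lit 5870195442) (nat_lit 76) (nat_lit 8943296895) (nat_lit 258) (nat_lit 5) (nat_lit 267) (nat_lit 5) (nat_lit 259) (nat_lit 5) (nat_lit 466) (nat_lit 425) (nat_lit 309)) (XT.lf (nat_lit 0) (nat_lit 6909682902) (nat_lit 608) (nat_lit 7969749293) (nat_lit 76) (nat_lit 2211496387) (nat_lit 251) (nat_lit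 5) (nat_lit 259) (nat_lit 5) (nat_lit 252) (nat_lit 5) (nat_lit 467) (nat_lit 425) (nat_lit 308)))) (XT.nd (nat_lit 78) (nat_lit 1140) (nat_lit 0) (XT.lf (nat_lit 0) (nat_lit 7269439387) (nat_lit 532) (nat_lit 4831144894) (nat_lit 608) (nat_lit 5287488722) (nat_lit 244) (nat_lit 5) (nat_lit 251) (nat_lit 5) (nat_lit 252) (nat_lit 5) (nat_lit 468) (nat_lit 425) (nat_lit 307)) (XT.nd (nat_lit 78) (nat_lit 608) (nat_lit 0) (XT.lf (nat_lit 0) (nat_lit 5390365696) (nat_lit 532) (nat_lit 12162762005) (nat_lit 608) (nat_lit 138887015) (nat_lit 237) (nat_lit 5) (nat_lit 244) (nat_lit 5) (nat_lit 245) (nat_lit 5) (nat_lit 469) (nat_lit 425) (nat_lit 306)) (XT.lf (nat_lit 0) (nat_lit 3452609977) (nat_lit 532) (nat_lit 1748572348) (nat_lit 608) (nat_lit 12801128197) (nat_lit 229) (nat_lit 5) (nat_lit 236) (nat_lit 5) (nat_lit 237) (nat_lit 5) (nat_lit 470) (nat_lit 425) (nat_lit 305))))) (XT.nd (nat_lit 234)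 (nat_lit 1444) (nat_lit 0) (XT.nd (nat_lit 78) (nat_lit 608) (nat_lit 0) (XT.lf (nat_lit 0) (nat_lit 1461300556) (nat_lit 456) (nat_lit 9371305602) (nat_lit 532) (nat_lit 7486631061) (nat_lit 223) (nat_lit 5) (nat_lit 229) (nat_lit 5) (nat_lit 230) (nat_lit 5) (nat_lit 471) (nat_lit 425) (nat_lit 304)) (XT.nd (nat_lit 78) (nat_lit 608) (nat_lit 0) (XT.lf (nat_lit 0) (nat_lit 16733922445) (nat_lit 532) (nat_lit 538226608) (nat_lit 76) (nat_lit 1371504800) (nat_lit 223) (nat_lit 5) (nat_lit 230) (nat_lit 5) (nat_lit 224) (nat_lit 5) (nat_lit 472) (nat_lit 425) (nat_lit 303)) (XT.lf (nat_lit 0) (nat_lit 3936532193) (nat_lit 608) (nat_lit 2602085539) (nat_lit 76) (nat_lit 12435641475) (nat_lit 215) (nat_lit 5) (nat_lit 223) (nat_lit 5) (nat_lit 216) (nat_lit 5) (nat_lit 473) (nat_lit 425) (nat_lit 302)))) (XT.nd (nat_lit 78) (nat_lit 988) (nat_lit 0) (XT.lf (nat_lit 0) (nat_lit 10043556690) (nat_lit 532)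 (nat_lit 4705924692) (nat_lit 76) (nat_lit 4562823542) (nat_lit 209) (nat_lit 5) (nat_lit 216) (nat_lit 5) (nat_lit 210) (nat_lit 5) (nat_lit 474) (nat_lit 425) (nat_lit 301)) (XT.nd (nat_lit 78) (nat_lit 532) (nat_lit 0) (XT.lf (nat_lit 0) (nat_lit 12806075314) (nat_lit 456) (nat_lit 3655093083) (nat_lit 532) (nat_lit 3196777102) (nat_lit 203) (nat_lit 5) (nat_lit 209) (nat_lit 5) (nat_lit 210) (nat_lit 5) (nat_lit 475) (nat_lit 425) (nat_lit 300)) (XT.lf (nat_lit 0) (nat_lit 3154954719) (nat_lit 532) (nat_lit 9068838684) (nat_lit 76) (nat_lit 7787011860) (nat_lit 196) (nat_lit 5) (nat_lit 203) (nat_lit 5) (nat_lit 197) (nat_lit 5) (nat_lit 476) (nat_lit 425) (nat_lit 299)))))) (XT.nd (nat_lit 468) (nat_lit 2660) (nat_lit 0) (XT.nd (nat_lit 234) (nat_lit 836) (nat_lit 0) (XT.nd (nat_lit 78) (nat_lit 912) (nat_lit 0) (XT.lf (nat_lit 0) (nat_lit 9038162487) (nat_lit 456) (nat_lit 729033506) (nat_lit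 532) (nat_lit 10604365366) (nat_lit 190) (nat_lit 5) (nat_lit 196) (nat_lit 5) (nat_lit 197) (nat_lit 5) (nat_lit 477) (nat_lit 425) (nat_lit 298)) (XT.nd (nat_lit 78) (nat_lit 532) (nat_lit 0) (XT.lf (nat_lit 0) (nat_lit 7066516457) (nat_lit 380) (nat_lit 9674727353) (nat_lit 456) (nat_lit 3998628454) (nat_lit 185) (nat_lit 5) (nat_lit 190) (nat_lit 5) (nat_lit 191) (nat_lit 5) (nat_lit 478) (nat_lit 425) (nat_lit 297)) (XT.lf (nat_lit 0) (nat_lit 2881730002) (nat_lit 532) (nat_lit 16056437535) (nat_lit 76) (nat_lit 2178436724) (nat_lit 178) (nat_lit 5) (nat_lit 185) (nat_lit 5) (nat_lit 179) (nat_lit 5) (nat_lit 479) (nat_lit 425) (nat_lit 296)))) (XT.nd (nat_lit 78) (nat_lit 456) (nat_lit 0) (XT.lf (nat_lit 0) (nat_lit 2962960740) (nat_lit 380) (nat_lit 7112774227) (nat_lit 456) (nat_lit 11425144246) (nat_lit 173) (nat_lit 5) (nat_lit 178) (nat_lit 5) (nat_lit 179) (nat_lit 5) (nat_lit 480) (nat_lit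 425) (nat_lit 295)) (XT.nd (nat_lit 78) (nat_lit 76) (nat_lit 0) (XT.lf (nat_lit 0) (nat_lit 831711495) (nat_lit 380) (nat_lit 16785980610) (nat_lit 456) (nat_lit 4276348486) (nat_lit 168) (nat_lit 5) (nat_lit 173) (nat_lit 5) (nat_lit 174) (nat_lit 5) (nat_lit 481) (nat_lit 425) (nat_lit 294)) (XT.lf (nat_lit 0) (nat_lit 3204952296) (nat_lit 456) (nat_lit 1352358074) (nat_lit 76) (nat_lit 17738115839) (nat_lit 167) (nat_lit 5) (nat_lit 173) (nat_lit 5) (nat_lit 168) (nat_lit 5) (nat_lit 482) (nat_lit 425) (nat_lit 293))))) (XT.nd (nat_lit 234) (nat_lit 1444) (nat_lit 0) (XT.nd (nat_lit 78) (nat_lit 836) (nat_lit 0) (XT.lf (nat_lit 0) (nat_lit 11015361128) (nat_lit 456) (nat_lit 3610722604) (nat_lit 76) (nat_lit 8078949729) (nat_lit 162) (nat_lit 5) (nat_lit 168) (nat_lit 5) (nat_lit 163) (nat_lit 5) (nat_lit 483) (nat_lit 425) (nat_lit 292)) (XT.nd (nat_lit 78) (nat_lit 456) (nat_lit 0) (XT.lf (nat_lit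 0) (nat_lit 17218634757) (nat_lit 380) (nat_lit 1978145379) (nat_lit 456) (nat_lit 3927415568) (nat_lit 157) (nat_lit 5) (nat_lit 162) (nat_lit 5) (nat_lit 163) (nat_lit 5) (nat_lit 484) (nat_lit 425) (nat_lit 291)) (XT.lf (nat_lit 0) (nat_lit 4196521700) (nat_lit 456) (nat_lit 8307336162) (nat_lit 76) (nat_lit 11047904215) (nat_lit 151) (nat_lit 5) (nat_lit 157) (nat_lit 5) (nat_lit 152) (nat_lit 5) (nat_lit 485) (nat_lit 425) (nat_lit 290)))) (XT.nd (nat_lit 156) (nat_lit 760) (nat_lit 0) (XT.nd (nat_lit 78) (nat_lit 304) (nat_lit 0) (XT.lf (nat_lit 0) (nat_lit 12640003646) (nat_lit 456) (nat_lit 10763331488) (nat_lit 76) (nat_lit 585718084) (nat_lit 146) (nat_lit 5) (nat_lit 152) (nat_lit 5) (nat_lit 147) (nat_lit 5) (nat_lit 486) (nat_lit 425) (nat_lit 289)) (XT.lf (nat_lit 0) (nat_lit 11119632346) (nat_lit 304) (nat_lit 10415481389) (nat_lit 380) (nat_lit 2900383543) (nat_lit 142) (nat_lit 5)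 (nat_lit 146) (nat_lit 5) (nat_lit 147) (nat_lit 5) (nat_lit 487) (nat_lit 425) (nat_lit 288))) (XT.nd (nat_lit 78) (nat_lit 304) (nat_lit 0) (XT.lf (nat_lit 0) (nat_lit 5863627766) (nat_lit 456) (nat_lit 15942681024) (nat_lit 76) (nat_lit 3085513595) (nat_lit 136) (nat_lit 5) (nat_lit 142) (nat_lit 5) (nat_lit 137) (nat_lit 5) (nat_lit 488) (nat_lit 425) (nat_lit 287)) (XT.lf (nat_lit 0) (nat_lit 6680256707) (nat_lit 304) (nat_lit 8361210837) (nat_lit 380) (nat_lit 10316180619) (nat_lit 132) (nat_lit 5) (nat_lit 136) (nat_lit 5) (nat_lit 137) (nat_lit 5) (nat_lit 489) (nat_lit 425) (nat_lit 286))))))) (XT.nd (nat_lit 57876) (nat_lit 0) (nat_lit 28120) (XT.nd (nat_lit 468) (nat_lit 304) (nat_lit 0) (XT.nd (nat_lit 234) (nat_lit 988) (nat_lit 0) (XT.nd (nat_lit 78) (nat_lit 380) (nat_lit 0) (XT.lf (nat_lit 0) (nat_lit 4363805998) (nat_lit 304) (nat_lit 20289983895) (nat_lit 380) (nat_lit 1180476463)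 (nat_lit 128) (nat_lit 5) (nat_lit 132) (nat_lit 5) (nat_lit 133) (nat_lit 5) (nat_lit 490) (nat_lit 425) (nat_lit 285)) (XT.nd (nat_lit 78) (nat_lit 0) (nat_lit 0) (XT.lf (nat_lit 0) (nat_lit 1922550392) (nat_lit 304) (nat_lit 6381225491) (nat_lit 380) (nat_lit 18016691057) (nat_lit 123) (nat_lit 5) (nat_lit 127) (nat_lit 5) (nat_lit 128) (nat_lit 5) (nat_lit 491) (nat_lit 425) (nat_lit 284)) (XT.lf (nat_lit 0) (nat_lit 18241450207) (nat_lit 380) (nat_lit 589126903) (nat_lit 76) (nat_lit 7986822268) (nat_lit 123) (nat_lit 5) (nat_lit 128) (nat_lit 5) (nat_lit 124) (nat_lit 5) (nat_lit 492) (nat_lit 425) (nat_lit 283)))) (XT.nd (nat_lit 78) (nat_lit 608) (nat_lit 0) (XT.lf (nat_lit 0) (nat_lit 1321099666) (nat_lit 380) (nat_lit 3146673906) (nat_lit 76) (nat_lit 22857554840) (nat_lit 118) (nat_lit 5) (nat_lit 123) (nat_lit 5) (nat_lit 119) (nat_lit 5) (nat_lit 493) (nat_lit 425) (nat_lit 282)) (XT.nd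 (nat_lit 78) (nat_lit 304) (nat_lit 0) (XT.lf (nat_lit 0) (nat_lit 11602147885) (nat_lit 380) (nat_lit 5852721890) (nat_lit 76) (nat_lit 10388420276) (nat_lit 114) (nat_lit 5) (nat_lit 119) (nat_lit 5) (nat_lit 115) (nat_lit 5) (nat_lit 494) (nat_lit 425) (nat_lit 281)) (XT.lf (nat_lit 0) (nat_lit 19757089660) (nat_lit 304) (nat_lit 2601683708) (nat_lit 380) (nat_lit 6014674743) (nat_lit 110) (nat_lit 5) (nat_lit 114) (nat_lit 5) (nat_lit 115) (nat_lit 5) (nat_lit 495) (nat_lit 425) (nat_lit 280))))) (XT.nd (nat_lit 57174) (nat_lit 0) (nat_lit 32604) (XT.nd (nat_lit 57018) (nat_lit 0) (nat_lit 32528) (XT.lf (nat_lit 0) (nat_lit 4683983758) (nat_lit 304) (nat_lit 11523984658) (nat_lit 76) (nat_lit 12706463028) (nat_lit 106) (nat_lit 5) (nat_lit 110) (nat_lit 5) (nat_lit 107) (nat_lit 5) (nat_lit 496) (nat_lit 425) (nat_lit 279)) (XT.nd (nat_lit 78) (nat_lit 1596) (nat_lit 0) (XT.lf (nat_lit 0) (nat_lit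 4488340939) (nat_lit 1596) (nat_lit 88777945) (nat_lit 1596) (nat_lit 88777945) (nat_lit 555) (nat_lit 3) (nat_lit 576) (nat_lit 3) (nat_lit 576) (nat_lit 5) (nat_lit 426) (nat_lit 426) (nat_lit 348)) (XT.lf (nat_lit 0) (nat_lit 922855557) (nat_lit 1596) (nat_lit 2623826056) (nat_lit 1672) (nat_lit 5899441016) (nat_lit 534) (nat_lit 5) (nat_lit 555) (nat_lit 3) (nat_lit 556) (nat_lit 5) (nat_lit 427) (nat_lit 426) (nat_lit 347)))) (XT.nd (nat_lit 78) (nat_lit 0) (nat_lit 0) (XT.lf (nat_lit 0) (nat_lit 2231326413) (nat_lit 1596) (nat_lit 5077025695) (nat_lit 1672) (nat_lit 2255547448) (nat_lit 535) (nat_lit 5) (nat_lit 556) (nat_lit 5) (nat_lit 557) (nat_lit 5) (nat_lit 428) (nat_lit 426) (nat_lit 346)) (XT.nd (nat_lit 78) (nat_lit 0) (nat_lit 76) (XT.lf (nat_lit 76) (nat_lit 2140140378) (nat_lit 0) (nat_lit 1447492229) (nat_lit 1672) (nat_lit 6097410234) (nat_lit 536) (nat_lit 5) (nat_lit 535) (nat_lit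 5) (nat_lit 557) (nat_lit 5) (nat_lit 429) (nat_lit 426) (nat_lit 345)) (XT.lf (nat_lit 0) (nat_lit 5003456636) (nat_lit 1596) (nat_lit 222514674) (nat_lit 1672) (nat_lit 4583477084) (nat_lit 536) (nat_lit 5) (nat_lit 557) (nat_lit 5) (nat_lit 558) (nat_lit 5) (nat_lit 430) (nat_lit 426) (nat_lit 344)))))) (XT.nd (nat_lit 468) (nat_lit 3040) (nat_lit 0) (XT.nd (nat_lit 234) (nat_lit 1596) (nat_lit 0) (XT.nd (nat_lit 78) (nat_lit 0) (nat_lit 0) (XT.lf (nat_lit 0) (nat_lit 6480965835) (nat_lit 1596) (nat_lit 2562437404) (nat_lit 1672) (nat_lit 893803071) (nat_lit 537) (nat_lit 5) (nat_lit 558) (nat_lit 5) (nat_lit 559) (nat_lit 5) (nat_lit 431) (nat_lit 426) (nat_lit 343)) (XT.nd (nat_lit 78) (nat_lit 0) (nat_lit 76) (XT.lf (nat_lit 76) (nat_lit 5140247115) (nat_lit 0) (nat_lit 2889361338) (nat_lit 1672) (nat_lit 2038656627) (nat_lit 538) (nat_lit 5) (nat_lit 537) (nat_lit 5) (nat_lit 559) (nat_lit 5)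 (nat_lit 432) (nat_lit 426) (nat_lit 342)) (XT.lf (nat_lit 76) (nat_lit 2894655711) (nat_lit 0) (nat_lit 6746878439) (nat_lit 1672) (nat_lit 561389141) (nat_lit 539) (nat_lit 5) (nat_lit 538) (nat_lit 5) (nat_lit 560) (nat_lit 5) (nat_lit 433) (nat_lit 426) (nat_lit 341)))) (XT.nd (nat_lit 78) (nat_lit 0) (nat_lit 76) (XT.lf (nat_lit 76) (nat_lit 633959316) (nat_lit 0) (nat_lit 329625417) (nat_lit 1748) (nat_lit 9377596156) (nat_lit 517) (nat_lit 5) (nat_lit 516) (nat_lit 5) (nat_lit 539) (nat_lit 5) (nat_lit 434) (nat_lit 426) (nat_lit 340)) (XT.nd (nat_lit 78) (nat_lit 0) (nat_lit 76) (XT.lf (nat_lit 0) (nat_lit 2577388462) (nat_lit 1672) (nat_lit 1640504490) (nat_lit 1748) (nat_lit 6264608732) (nat_lit 517) (nat_lit 5) (nat_lit 539) (nat_lit 5) (nat_lit 540) (nat_lit 5) (nat_lit 435) (nat_lit 426) (nat_lit 339)) (XT.lf (nat_lit 0) (nat_lit 4262799339) (nat_lit 1672) (nat_lit 3916528223) (nat_lit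 1748) (nat_lit 2448274406) (nat_lit 518) (nat_lit 5) (nat_lit 540) (nat_lit 5) (nat_lit 541) (nat_lit 5) (nat_lit 436) (nat_lit 426) (nat_lit 338))))) (XT.nd (nat_lit 234) (nat_lit 3192) (nat_lit 0) (XT.nd (nat_lit 78) (nat_lit 0) (nat_lit 76) (XT.lf (nat_lit 76) (nat_lit 4563248500) (nat_lit 0) (nat_lit 1466785123) (nat_lit 1748) (nat_lit 4746400037) (nat_lit 519) (nat_lit 5) (nat_lit 518) (nat_lit 5) (nat_lit 541) (nat_lit 5) (nat_lit 437) (nat_lit 426) (nat_lit 337)) (XT.nd (nat_lit 78) (nat_lit 0) (nat_lit 76) (XT.lf (nat_lit 76) (nat_lit 2390127448) (nat_lit 0) (nat_lit 5500986274) (nat_lit 1748) (nat_lit 3037803516) (nat_lit 520) (nat_lit 5) (nat_lit 519) (nat_lit 5) (nat_lit 542) (nat_lit 5) (nat_lit 438) (nat_lit 426) (nat_lit 336)) (XT.lf (nat_lit 76) (nat_lit 207062782) (nat_lit 0) (nat_lit 9627859367) (nat_lit 1748) (nat_lit 1250518668) (nat_lit 521) (nat_lit 5) (nat_lit 520) (nat_lit 5)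 (nat_lit 543) (nat_lit 5) (nat_lit 439) (nat_lit 426) (nat_lit 335)))) (XT.nd (nat_lit 156) (nat_lit 1596) (nat_lit 0) (XT.nd (nat_lit 78) (nat_lit 0) (nat_lit 76) (XT.lf (nat_lit 0) (nat_lit 642485940) (nat_lit 1748) (nat_lit 1982193085) (nat_lit 1824) (nat_lit 8620710778) (nat_lit 497) (nat_lit 5) (nat_lit 520) (nat_lit 5) (nat_lit 521) (nat_lit 5) (nat_lit 440) (nat_lit 426) (nat_lit 334)) (XT.lf (nat_lit 0) (nat_lit 2618439528) (nat_lit 1748) (nat_lit 4199493367) (nat_lit 1824) (nat_lit 4591179228) (nat_lit 498) (nat_lit 5) (nat_lit 521) (nat_lit 5) (nat_lit 522) (nat_lit 5) (nat_lit 441) (nat_lit 426) (nat_lit 333))) (XT.nd (nat_lit 78) (nat_lit 1748) (nat_lit 0) (XT.lf (nat_lit 0) (nat_lit 4687897351) (nat_lit 1748) (nat_lit 6430727817) (nat_lit 76) (nat_lit 458439490) (nat_lit 499) (nat_lit 5) (nat_lit 522) (nat_lit 5) (nat_lit 500) (nat_lit 5) (nat_lit 442) (nat_lit 426) (nat_lit 332)) (XT.lf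 (nat_lit 0) (nat_lit 3047152361) (nat_lit 1748) (nat_lit 3833845460) (nat_lit 1824) (nat_lit 4867829743) (nat_lit 476) (nat_lit 5) (nat_lit 499) (nat_lit 5) (nat_lit 500) (nat_lit 5) (nat_lit 443) (nat_lit 426) (nat_lit 331))))))))
noncomputable def xc81 : XT := (XT.nd (nat_lit 1950) (nat_lit 10108) (nat_lit 0) (XT.nd (nat_lit 936) (nat_lit 7296) (nat_lit 0) (XT.nd (nat_lit 468) (nat_lit 4180) (nat_lit 0) (XT.nd (nat_lit 234) (nat_lit 2660) (nat_lit 0) (XT.nd (nat_lit 78) (nat_lit 1140) (nat_lit 0) (XT.lf (nat_lit 0) (nat_lit 932856741) (nat_lit 1824) (nat_lit 8249115110) (nat_lit 1900) (nat_lit 2742932779) (nat_lit 452) (nat_lit 5) (nat_lit 476) (nat_lit 5) (nat_lit 477) (nat_lit 5) (nat_lit 444) (nat_lit 426) (nat_lit 330)) (XT.nd (nat_lit 78) (nat_lit 1140) (nat_lit 0) (XT.lf (nat_lit 0) (nat_lit 10922219492) (nat_lit 1824) (nat_lit 683269597) (nat_lit 1900) (nat_lit 499707440) (nat_lit 452) (nat_lit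 5) (nat_lit 476) (nat_lit 5) (nat_lit 477) (nat_lit 5) (nat_lit 445) (nat_lit 426) (nat_lit 329)) (XT.lf (nat_lit 0) (nat_lit 1861921404) (nat_lit 1140) (nat_lit 3337048793) (nat_lit 76) (nat_lit 7090197396) (nat_lit 437) (nat_lit 5) (nat_lit 452) (nat_lit 5) (nat_lit 438) (nat_lit 5) (nat_lit 446) (nat_lit 426) (nat_lit 328)))) (XT.nd (nat_lit 78) (nat_lit 1748) (nat_lit 0) (XT.lf (nat_lit 0) (nat_lit 4333478585) (nat_lit 988) (nat_lit 5509859156) (nat_lit 76) (nat_lit 2634339204) (nat_lit 425) (nat_lit 5) (nat_lit 438) (nat_lit 5) (nat_lit 426) (nat_lit 5) (nat_lit 447) (nat_lit 426) (nat_lit 327)) (XT.nd (nat_lit 78) (nat_lit 836) (nat_lit 0) (XT.lf (nat_lit 0) (nat_lit 4958967658) (nat_lit 912) (nat_lit 1981147416) (nat_lit 988) (nat_lit 5730510365) (nat_lit 413) (nat_lit 5) (nat_lit 425) (nat_lit 5) (nat_lit 426) (nat_lit 5) (nat_lit 448) (nat_lit 426) (nat_lit 326)) (XT.lf (nat_lit 0) (nat_lit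 2919589426) (nat_lit 836) (nat_lit 6773494131) (nat_lit 912) (nat_lit 3174918611) (nat_lit 402) (nat_lit 5) (nat_lit 413) (nat_lit 5) (nat_lit 414) (nat_lit 5) (nat_lit 449) (nat_lit 426) (nat_lit 325))))) (XT.nd (nat_lit 234) (nat_lit 2432) (nat_lit 0) (XT.nd (nat_lit 78) (nat_lit 912) (nat_lit 0) (XT.lf (nat_lit 0) (nat_lit 866890784) (nat_lit 836) (nat_lit 11714203574) (nat_lit 912) (nat_lit 489159144) (nat_lit 391) (nat_lit 5) (nat_lit 402) (nat_lit 5) (nat_lit 403) (nat_lit 5) (nat_lit 450) (nat_lit 426) (nat_lit 324)) (XT.nd (nat_lit 78) (nat_lit 836) (nat_lit 0) (XT.lf (nat_lit 0) (nat_lit 2333434949) (nat_lit 912) (nat_lit 1222352453) (nat_lit 76) (nat_lit 9720768984) (nat_lit 390) (nat_lit 5) (nat_lit 402) (nat_lit 5) (nat_lit 391) (nat_lit 5) (nat_lit 451) (nat_lit 426) (nat_lit 323)) (XT.lf (nat_lit 0) (nat_lit 5305958339) (nat_lit 912) (nat_lit 3328261010) (nat_lit 76) (nat_lit 4853328584)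 (nat_lit 379) (nat_lit 5) (nat_lit 391) (nat_lit 5) (nat_lit 380) (nat_lit 5) (nat_lit 452) (nat_lit 426) (nat_lit 322)))) (XT.nd (nat_lit 78) (nat_lit 1596) (nat_lit 0) (XT.lf (nat_lit 0) (nat_lit 8252088214) (nat_lit 836) (nat_lit 175612237) (nat_lit 912) (nat_lit 5275970041) (nat_lit 368) (nat_lit 5) (nat_lit 379) (nat_lit 5) (nat_lit 380) (nat_lit 5) (nat_lit 453) (nat_lit 426) (nat_lit 321)) (XT.nd (nat_lit 78) (nat_lit 836) (nat_lit 0) (XT.lf (nat_lit 0) (nat_lit 6299856595) (nat_lit 760) (nat_lit 5437186766) (nat_lit 836) (nat_lit 2187356457) (nat_lit 358) (nat_lit 5) (nat_lit 368) (nat_lit 5) (nat_lit 369) (nat_lit 5) (nat_lit 454) (nat_lit 426) (nat_lit 320)) (XT.lf (nat_lit 0) (nat_lit 1044397730) (nat_lit 836) (nat_lit 9822428185) (nat_lit 76) (nat_lit 3283527661) (nat_lit 347) (nat_lit 5) (nat_lit 358) (nat_lit 5) (nat_lit 348) (nat_lit 5) (nat_lit 455) (nat_lit 426) (nat_lit 319))))))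 (XT.nd (nat_lit 468) (nat_lit 3800) (nat_lit 0) (XT.nd (nat_lit 234) (nat_lit 2052) (nat_lit 0) (XT.nd (nat_lit 78) (nat_lit 760) (nat_lit 0) (XT.lf (nat_lit 0) (nat_lit 2313587944) (nat_lit 684) (nat_lit 2109206145) (nat_lit 760) (nat_lit 9958416450) (nat_lit 338) (nat_lit 5) (nat_lit 347) (nat_lit 5) (nat_lit 348) (nat_lit 5) (nat_lit 456) (nat_lit 426) (nat_lit 318)) (XT.nd (nat_lit 78) (nat_lit 0) (nat_lit 0) (XT.lf (nat_lit 0) (nat_lit 261865918) (nat_lit 760) (nat_lit 7730611750) (nat_lit 836) (nat_lit 6624718690) (nat_lit 328) (nat_lit 5) (nat_lit 338) (nat_lit 5) (nat_lit 339) (nat_lit 5) (nat_lit 457) (nat_lit 426) (nat_lit 317)) (XT.lf (nat_lit 0) (nat_lit 11750644232) (nat_lit 836) (nat_lit 1781701659) (nat_lit 76) (nat_lit 1326289807) (nat_lit 328) (nat_lit 5) (nat_lit 339) (nat_lit 5) (nat_lit 329) (nat_lit 5) (nat_lit 458) (nat_lit 426) (nat_lit 316)))) (XT.nd (nat_lit 78) (nat_lit 1292)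 (nat_lit 0) (XT.lf (nat_lit 0) (nat_lit 610370470) (nat_lit 760) (nat_lit 3870414231) (nat_lit 76) (nat_lit 10624410906) (nat_lit 318) (nat_lit 5) (nat_lit 328) (nat_lit 5) (nat_lit 319) (nat_lit 5) (nat_lit 459) (nat_lit 426) (nat_lit 315)) (XT.nd (nat_lit 78) (nat_lit 608) (nat_lit 0) (XT.lf (nat_lit 0) (nat_lit 4481288693) (nat_lit 760) (nat_lit 6006151942) (nat_lit 76) (nat_lit 4869637849) (nat_lit 309) (nat_lit 5) (nat_lit 319) (nat_lit 5) (nat_lit 310) (nat_lit 5) (nat_lit 460) (nat_lit 426) (nat_lit 314)) (XT.lf (nat_lit 0) (nat_lit 7447605096) (nat_lit 608) (nat_lit 1103780050) (nat_lit 684) (nat_lit 7063473297) (nat_lit 301) (nat_lit 5) (nat_lit 309) (nat_lit 5) (nat_lit 310) (nat_lit 5) (nat_lit 461) (nat_lit 426) (nat_lit 313))))) (XT.nd (nat_lit 234) (nat_lit 1824) (nat_lit 0) (XT.nd (nat_lit 78) (nat_lit 1292) (nat_lit 0) (XT.lf (nat_lit 0) (nat_lit 5498077373) (nat_lit 684) (nat_lit 7356528603)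 (nat_lit 760) (nat_lit 3023546963) (nat_lit 292) (nat_lit 5) (nat_lit 301) (nat_lit 5) (nat_lit 302) (nat_lit 5) (nat_lit 462) (nat_lit 426) (nat_lit 312)) (XT.nd (nat_lit 78) (nat_lit 608) (nat_lit 0) (XT.lf (nat_lit 0) (nat_lit 1203122347) (nat_lit 684) (nat_lit 12620600228) (nat_lit 76) (nat_lit 2323868171) (nat_lit 283) (nat_lit 5) (nat_lit 292) (nat_lit 5) (nat_lit 284) (nat_lit 5) (nat_lit 463) (nat_lit 426) (nat_lit 311)) (XT.lf (nat_lit 0) (nat_lit 1493726718) (nat_lit 608) (nat_lit 4131217834) (nat_lit 684) (nat_lit 10797580251) (nat_lit 275) (nat_lit 5) (nat_lit 283) (nat_lit 5) (nat_lit 284) (nat_lit 5) (nat_lit 464) (nat_lit 426) (nat_lit 310)))) (XT.nd (nat_lit 156) (nat_lit 1216) (nat_lit 0) (XT.nd (nat_lit 78) (nat_lit 608) (nat_lit 0) (XT.lf (nat_lit 0) (nat_lit 10283402162) (nat_lit 684) (nat_lit 563905194) (nat_lit 76) (nat_lit 5856321314) (nat_lit 275) (nat_lit 5) (nat_lit 284) (nat_lit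 5) (nat_lit 276) (nat_lit 5) (nat_lit 465) (nat_lit 426) (nat_lit 309)) (XT.lf (nat_lit 0) (nat_lit 14367906876) (nat_lit 608) (nat_lit 815103125) (nat_lit 684) (nat_lit 1808129087) (nat_lit 267) (nat_lit 5) (nat_lit 275) (nat_lit 5) (nat_lit 276) (nat_lit 5) (nat_lit 466) (nat_lit 426) (nat_lit 308))) (XT.nd (nat_lit 78) (nat_lit 532) (nat_lit 0) (XT.lf (nat_lit 0) (nat_lit 3032548530) (nat_lit 684) (nat_lit 4758536218) (nat_lit 76) (nat_lit 9493233166) (nat_lit 258) (nat_lit 5) (nat_lit 267) (nat_lit 5) (nat_lit 259) (nat_lit 5) (nat_lit 467) (nat_lit 426) (nat_lit 307)) (XT.lf (nat_lit 0) (nat_lit 8084760259) (nat_lit 608) (nat_lit 6924543095) (nat_lit 76) (nat_lit 2574933394) (nat_lit 251) (nat_lit 5) (nat_lit 259) (nat_lit 5) (nat_lit 252) (nat_lit 5) (nat_lit 468) (nat_lit 426) (nat_lit 306))))))) (XT.nd (nat_lit 1014) (nat_lit 4180) (nat_lit 0) (XT.nd (nat_lit 468) (nat_lit 3192) (nat_lit 0)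 (XT.nd (nat_lit 234) (nat_lit 1064) (nat_lit 0) (XT.nd (nat_lit 78) (nat_lit 1140) (nat_lit 0) (XT.lf (nat_lit 0) (nat_lit 8750985026) (nat_lit 532) (nat_lit 4660418922) (nat_lit 608) (nat_lit 4479293111) (nat_lit 244) (nat_lit 5) (nat_lit 251) (nat_lit 5) (nat_lit 252) (nat_lit 5) (nat_lit 469) (nat_lit 426) (nat_lit 305)) (XT.nd (nat_lit 78) (nat_lit 532) (nat_lit 0) (XT.lf (nat_lit 0) (nat_lit 795407962) (nat_lit 608) (nat_lit 11397606221) (nat_lit 76) (nat_lit 6010988740) (nat_lit 236) (nat_lit 5) (nat_lit 244) (nat_lit 5) (nat_lit 237) (nat_lit 5) (nat_lit 470) (nat_lit 426) (nat_lit 304)) (XT.lf (nat_lit 0) (nat_lit 4807712406) (nat_lit 532) (nat_lit 1466937341) (nat_lit 608) (nat_lit 12249324071) (nat_lit 229) (nat_lit 5) (nat_lit 236) (nat_lit 5) (nat_lit 237) (nat_lit 5) (nat_lit 471) (nat_lit 426) (nat_lit 303)))) (XT.nd (nat_lit 78) (nat_lit 608) (nat_lit 0) (XT.lf (nat_lit 0) (nat_lit 2752332658)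 (nat_lit 456) (nat_lit 9306165892) (nat_lit 532) (nat_lit 6792241792) (nat_lit 223) (nat_lit 5) (nat_lit 229) (nat_lit 5) (nat_lit 230) (nat_lit 5) (nat_lit 472) (nat_lit 426) (nat_lit 302)) (XT.nd (nat_lit 78) (nat_lit 76) (nat_lit 0) (XT.lf (nat_lit 0) (nat_lit 680787089) (nat_lit 532) (nat_lit 17436429926) (nat_lit 608) (nat_lit 1068066829) (nat_lit 216) (nat_lit 5) (nat_lit 223) (nat_lit 5) (nat_lit 224) (nat_lit 5) (nat_lit 473) (nat_lit 426) (nat_lit 301)) (XT.lf (nat_lit 0) (nat_lit 4919519316) (nat_lit 608) (nat_lit 1462264979) (nat_lit 76) (nat_lit 13144353383) (nat_lit 215) (nat_lit 5) (nat_lit 223) (nat_lit 5) (nat_lit 216) (nat_lit 5) (nat_lit 474) (nat_lit 426) (nat_lit 300))))) (XT.nd (nat_lit 234) (nat_lit 1748) (nat_lit 0) (XT.nd (nat_lit 78) (nat_lit 988) (nat_lit 0) (XT.lf (nat_lit 0) (nat_lit 11194619184) (nat_lit 532) (nat_lit 3634255070) (nat_lit 76) (nat_lit 5045754720) (nat_lit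 209) (nat_lit 5) (nat_lit 216) (nat_lit 5) (nat_lit 210) (nat_lit 5) (nat_lit 475) (nat_lit 426) (nat_lit 299)) (XT.nd (nat_lit 78) (nat_lit 532) (nat_lit 0) (XT.lf (nat_lit 0) (nat_lit 14383427929) (nat_lit 456) (nat_lit 3404327998) (nat_lit 532) (nat_lit 2443224361) (nat_lit 203) (nat_lit 5) (nat_lit 209) (nat_lit 5) (nat_lit 210) (nat_lit 5) (nat_lit 476) (nat_lit 426) (nat_lit 298)) (XT.lf (nat_lit 0) (nat_lit 4073552648) (nat_lit 532) (nat_lit 8141964746) (nat_lit 76) (nat_lit 8379086852) (nat_lit 196) (nat_lit 5) (nat_lit 203) (nat_lit 5) (nat_lit 197) (nat_lit 5) (nat_lit 477) (nat_lit 426) (nat_lit 297)))) (XT.nd (nat_lit 156) (nat_lit 912) (nat_lit 0) (XT.nd (nat_lit 78) (nat_lit 380) (nat_lit 0) (XT.lf (nat_lit 0) (nat_lit 10488795098) (nat_lit 456) (nat_lit 379025557) (nat_lit 532) (nat_lit 10098690526) (nat_lit 190) (nat_lit 5) (nat_lit 196) (nat_lit 5) (nat_lit 197) (nat_lit 5) (nat_lit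 478) (nat_lit 426) (nat_lit 296)) (XT.lf (nat_lit 0) (nat_lit 8452422828) (nat_lit 380) (nat_lit 9585110460) (nat_lit 456) (nat_lit 3308610563) (nat_lit 185) (nat_lit 5) (nat_lit 190) (nat_lit 5) (nat_lit 191) (nat_lit 5) (nat_lit 479) (nat_lit 426) (nat_lit 295))) (XT.nd (nat_lit 78) (nat_lit 380) (nat_lit 0) (XT.lf (nat_lit 0) (nat_lit 3754298168) (nat_lit 532) (nat_lit 15359536639) (nat_lit 76) (nat_lit 2620503816) (nat_lit 178) (nat_lit 5) (nat_lit 185) (nat_lit 5) (nat_lit 179) (nat_lit 5) (nat_lit 480) (nat_lit 426) (nat_lit 294)) (XT.lf (nat_lit 0) (nat_lit 4211322297) (nat_lit 380) (nat_lit 6937432461) (nat_lit 456) (nat_lit 10981695643) (nat_lit 173) (nat_lit 5) (nat_lit 178) (nat_lit 5) (nat_lit 179) (nat_lit 5) (nat_lit 481) (nat_lit 426) (nat_lit 293)))))) (XT.nd (nat_lit 468) (nat_lit 2128) (nat_lit 0) (XT.nd (nat_lit 234) (nat_lit 1216) (nat_lit 0) (XT.nd (nat_lit 78) (nat_lit 456) (nat_lit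 0) (XT.lf (nat_lit 0) (nat_lit 2010046039) (nat_lit 380) (nat_lit 16894414486) (nat_lit 456) (nat_lit 3631197469) (nat_lit 168) (nat_lit 5) (nat_lit 173) (nat_lit 5) (nat_lit 174) (nat_lit 5) (nat_lit 482) (nat_lit 426) (nat_lit 292)) (XT.nd (nat_lit 78) (nat_lit 380) (nat_lit 0) (XT.lf (nat_lit 0) (nat_lit 4042166543) (nat_lit 456) (nat_lit 263253749) (nat_lit 76) (nat_lit 18644010210) (nat_lit 167) (nat_lit 5) (nat_lit 173) (nat_lit 5) (nat_lit 168) (nat_lit 5) (nat_lit 483) (nat_lit 426) (nat_lit 291)) (XT.lf (nat_lit 0) (nat_lit 12075016213) (nat_lit 456) (nat_lit 2595624224) (nat_lit 76) (nat_lit 8700924045) (nat_lit 162) (nat_lit 5) (nat_lit 168) (nat_lit 5) (nat_lit 163) (nat_lit 5) (nat_lit 484) (nat_lit 426) (nat_lit 290)))) (XT.nd (nat_lit 78) (nat_lit 836) (nat_lit 0) (XT.lf (nat_lit 0) (nat_lit 18840387703) (nat_lit 380) (nat_lit 1647427073) (nat_lit 456) (nat_lit 3315769128) (nat_lit 157)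 (nat_lit 5) (nat_lit 162) (nat_lit 5) (nat_lit 163) (nat_lit 5) (nat_lit 485) (nat_lit 426) (nat_lit 289)) (XT.nd (nat_lit 78) (nat_lit 380) (nat_lit 0) (XT.lf (nat_lit 0) (nat_lit 5031008082) (nat_lit 456) (nat_lit 7448229044) (nat_lit 76) (nat_lit 11764872640) (nat_lit 151) (nat_lit 5) (nat_lit 157) (nat_lit 5) (nat_lit 152) (nat_lit 5) (nat_lit 486) (nat_lit 426) (nat_lit 288)) (XT.lf (nat_lit 0) (nat_lit 13716801814) (nat_lit 456) (nat_lit 9984519152) (nat_lit 76) (nat_lit 993419502) (nat_lit 146) (nat_lit 5) (nat_lit 152) (nat_lit 5) (nat_lit 147) (nat_lit 5) (nat_lit 487) (nat_lit 426) (nat_lit 287))))) (XT.nd (nat_lit 234) (nat_lit 1064) (nat_lit 0) (XT.nd (nat_lit 78) (nat_lit 760) (nat_lit 0) (XT.lf (nat_lit 0) (nat_lit 12537059625) (nat_lit 304) (nat_lit 10328424188) (nat_lit 380) (nat_lit 2289360606) (nat_lit 142) (nat_lit 5) (nat_lit 146) (nat_lit 5) (nat_lit 147) (nat_lit 5) (nat_lit 488)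 (nat_lit 426) (nat_lit 286)) (XT.nd (nat_lit 78) (nat_lit 304) (nat_lit 0) (XT.lf (nat_lit 0) (nat_lit 6717927024) (nat_lit 456) (nat_lit 15334718408) (nat_lit 76) (nat_lit 3572333887) (nat_lit 136) (nat_lit 5) (nat_lit 142) (nat_lit 5) (nat_lit 137) (nat_lit 5) (nat_lit 489) (nat_lit 426) (nat_lit 285)) (XT.lf (nat_lit 0) (nat_lit 7949284453) (nat_lit 304) (nat_lit 8208996789) (nat_lit 380) (nat_lit 9946755916) (nat_lit 132) (nat_lit 5) (nat_lit 136) (nat_lit 5) (nat_lit 137) (nat_lit 5) (nat_lit 490) (nat_lit 426) (nat_lit 284)))) (XT.nd (nat_lit 156) (nat_lit 380) (nat_lit 0) (XT.nd (nat_lit 78) (nat_lit 380) (nat_lit 0) (XT.lf (nat_lit 0) (nat_lit 5556552735) (nat_lit 304) (nat_lit 20492469775) (nat_lit 380) (nat_lit 547131249) (nat_lit 128) (nat_lit 5) (nat_lit 132) (nat_lit 5) (nat_lit 133) (nat_lit 5) (nat_lit 491) (nat_lit 426) (nat_lit 283)) (XT.lf (nat_lit 0) (nat_lit 3033488301) (nat_lit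 304) (nat_lit 6167004968) (nat_lit 380) (nat_lit 17896608745) (nat_lit 123) (nat_lit 5) (nat_lit 127) (nat_lit 5) (nat_lit 128) (nat_lit 5) (nat_lit 492) (nat_lit 426) (nat_lit 282))) (XT.nd (nat_lit 78) (nat_lit 76) (nat_lit 0) (XT.lf (nat_lit 0) (nat_lit 431486010) (nat_lit 304) (nat_lit 18991308134) (nat_lit 380) (nat_lit 8186419137) (nat_lit 119) (nat_lit 5) (nat_lit 123) (nat_lit 5) (nat_lit 124) (nat_lit 5) (nat_lit 493) (nat_lit 426) (nat_lit 281)) (XT.lf (nat_lit 0) (nat_lit 1984367654) (nat_lit 380) (nat_lit 2216886981) (nat_lit 76) (nat_lit 23931336115) (nat_lit 118) (nat_lit 5) (nat_lit 123) (nat_lit 5) (nat_lit 119) (nat_lit 5) (nat_lit 494) (nat_lit 426) (nat_lit 280))))))))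
noncomputable def xc82 : XT := (XT.nd (nat_lit 58968) (nat_lit 0) (nat_lit 8056) (XT.nd (nat_lit 57954) (nat_lit 0) (nat_lit 23028) (XT.nd (nat_lit 57486) (nat_lit 0) (nat_lit 30780) (XT.nd (nat_lit 57252) (nat_lit 0) (nat_lit 32224) (XT.nd (nat_lit 78) (nat_lit 304) (nat_lit 0) (XT.lf (nat_lit 0) (nat_lit 12564793238) (nat_lit 380) (nat_lit 5011036505) (nat_lit 76) (nat_lit 11090443300) (nat_lit 114) (nat_lit 5) (nat_lit 119) (nat_lit 5) (nat_lit 115) (nat_lit 5) (nat_lit 495) (nat_lit 426) (nat_lit 279)) (XT.nd (nat_lit 57096) (nat_lit 0) (nat_lit 32224) (XT.lf (nat_lit 0) (nat_lit 21350565443) (nat_lit 304) (nat_lit 2282149247) (nat_lit 380) (nat_lit 5579849914) (nat_lit 110) (nat_lit 5) (nat_lit 114) (nat_lit 5) (nat_lit 115) (nat_lit 5) (nat_lit 496) (nat_lit 426) (nat_lit 278)) (XT.lf (nat_lit 0) (nat_lit 524245639) (nat_lit 0) (nat_lit 524245639) (nat_lit 1596) (nat_lit 3732704480) (nat_lit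 534) (nat_lit 5) (nat_lit 534) (nat_lit 3) (nat_lit 555) (nat_lit 3) (nat_lit 427) (nat_lit 427) (nat_lit 346)))) (XT.nd (nat_lit 78) (nat_lit 0) (nat_lit 76) (XT.lf (nat_lit 0) (nat_lit 3331467691) (nat_lit 1596) (nat_lit 1452434993) (nat_lit 1672) (nat_lit 4897747778) (nat_lit 534) (nat_lit 5) (nat_lit 555) (nat_lit 3) (nat_lit 556) (nat_lit 5) (nat_lit 428) (nat_lit 427) (nat_lit 345)) (XT.nd (nat_lit 78) (nat_lit 0) (nat_lit 0) (XT.lf (nat_lit 0) (nat_lit 4610754823) (nat_lit 1596) (nat_lit 3945815108) (nat_lit 1672) (nat_lit 1247766434) (nat_lit 535) (nat_lit 5) (nat_lit 556) (nat_lit 5) (nat_lit 557) (nat_lit 5) (nat_lit 429) (nat_lit 427) (nat_lit 344)) (XT.lf (nat_lit 76) (nat_lit 3467042338) (nat_lit 0) (nat_lit 2481552100) (nat_lit 1672) (nat_lit 3981709339) (nat_lit 536) (nat_lit 5) (nat_lit 535) (nat_lit 5) (nat_lit 557) (nat_lit 5) (nat_lit 430) (nat_lit 427) (nat_lit 343))))) (XT.nd (nat_lit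 234) (nat_lit 0) (nat_lit 76) (XT.nd (nat_lit 78) (nat_lit 1596) (nat_lit 0) (XT.lf (nat_lit 76) (nat_lit 1060859125) (nat_lit 0) (nat_lit 6281046284) (nat_lit 1672) (nat_lit 2717842357) (nat_lit 537) (nat_lit 5) (nat_lit 536) (nat_lit 5) (nat_lit 558) (nat_lit 5) (nat_lit 431) (nat_lit 427) (nat_lit 342)) (XT.nd (nat_lit 78) (nat_lit 1672) (nat_lit 0) (XT.lf (nat_lit 0) (nat_lit 8795812827) (nat_lit 1596) (nat_lit 1335493400) (nat_lit 1672) (nat_lit 61397059) (nat_lit 537) (nat_lit 5) (nat_lit 558) (nat_lit 5) (nat_lit 559) (nat_lit 5) (nat_lit 432) (nat_lit 427) (nat_lit 341)) (XT.lf (nat_lit 0) (nat_lit 8599994) (nat_lit 1672) (nat_lit 3751706407) (nat_lit 1748) (nat_lit 6568461065) (nat_lit 515) (nat_lit 5) (nat_lit 537) (nat_lit 5) (nat_lit 538) (nat_lit 5) (nat_lit 433) (nat_lit 427) (nat_lit 340)))) (XT.nd (nat_lit 78) (nat_lit 0) (nat_lit 0) (XT.lf (nat_lit 0) (nat_lit 1453191725) (nat_lit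 1672) (nat_lit 6188936060) (nat_lit 1748) (nat_lit 2826286661) (nat_lit 516) (nat_lit 5) (nat_lit 538) (nat_lit 5) (nat_lit 539) (nat_lit 5) (nat_lit 434) (nat_lit 427) (nat_lit 339)) (XT.nd (nat_lit 78) (nat_lit 0) (nat_lit 76) (XT.lf (nat_lit 76) (nat_lit 1966147432) (nat_lit 0) (nat_lit 999762984) (nat_lit 1748) (nat_lit 7645848360) (nat_lit 517) (nat_lit 5) (nat_lit 516) (nat_lit 5) (nat_lit 539) (nat_lit 5) (nat_lit 435) (nat_lit 427) (nat_lit 338)) (XT.lf (nat_lit 0) (nat_lit 4566488143) (nat_lit 1672) (nat_lit 372133558) (nat_lit 1748) (nat_lit 5819935806) (nat_lit 517) (nat_lit 5) (nat_lit 539) (nat_lit 5) (nat_lit 540) (nat_lit 5) (nat_lit 436) (nat_lit 427) (nat_lit 337)))))) (XT.nd (nat_lit 468) (nat_lit 6384) (nat_lit 0) (XT.nd (nat_lit 234) (nat_lit 1596) (nat_lit 0) (XT.nd (nat_lit 78) (nat_lit 0) (nat_lit 0) (XT.lf (nat_lit 0) (nat_lit 6251504557) (nat_lit 1672) (nat_lit 2696655946)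 (nat_lit 1748) (nat_lit 1960874783) (nat_lit 518) (nat_lit 5) (nat_lit 540) (nat_lit 5) (nat_lit 541) (nat_lit 5) (nat_lit 437) (nat_lit 427) (nat_lit 336)) (XT.nd (nat_lit 78) (nat_lit 0) (nat_lit 76) (XT.lf (nat_lit 76) (nat_lit 6015816870) (nat_lit 0) (nat_lit 2010282530) (nat_lit 1748) (nat_lit 3037150851) (nat_lit 519) (nat_lit 5) (nat_lit 518) (nat_lit 5) (nat_lit 541) (nat_lit 5) (nat_lit 438) (nat_lit 427) (nat_lit 335)) (XT.lf (nat_lit 76) (nat_lit 3795232052) (nat_lit 0) (nat_lit 6100419708) (nat_lit 1748) (nat_lit 1325608822) (nat_lit 520) (nat_lit 5) (nat_lit 519) (nat_lit 5) (nat_lit 542) (nat_lit 5) (nat_lit 439) (nat_lit 427) (nat_lit 334)))) (XT.nd (nat_lit 78) (nat_lit 0) (nat_lit 0) (XT.lf (nat_lit 0) (nat_lit 462764503) (nat_lit 1748) (nat_lit 9823673469) (nat_lit 1824) (nat_lit 1096895222) (nat_lit 497) (nat_lit 5) (nat_lit 520) (nat_lit 5) (nat_lit 521) (nat_lit 5) (nat_lit 440)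 (nat_lit 427) (nat_lit 333)) (XT.nd (nat_lit 78) (nat_lit 0) (nat_lit 76) (XT.lf (nat_lit 0) (nat_lit 2345164335) (nat_lit 1748) (nat_lit 708947095) (nat_lit 1824) (nat_lit 8494816665) (nat_lit 497) (nat_lit 5) (nat_lit 520) (nat_lit 5) (nat_lit 521) (nat_lit 5) (nat_lit 441) (nat_lit 427) (nat_lit 332)) (XT.lf (nat_lit 0) (nat_lit 4337723584) (nat_lit 1748) (nat_lit 2979225314) (nat_lit 1824) (nat_lit 4401471168) (nat_lit 498) (nat_lit 5) (nat_lit 521) (nat_lit 5) (nat_lit 522) (nat_lit 5) (nat_lit 442) (nat_lit 427) (nat_lit 331))))) (XT.nd (nat_lit 234) (nat_lit 2964) (nat_lit 0) (XT.nd (nat_lit 78) (nat_lit 3572) (nat_lit 0) (XT.lf (nat_lit 0) (nat_lit 6428276510) (nat_lit 1748) (nat_lit 5265261599) (nat_lit 76) (nat_lit 198697235) (nat_lit 499) (nat_lit 5) (nat_lit 522) (nat_lit 5) (nat_lit 500) (nat_lit 5) (nat_lit 443) (nat_lit 427) (nat_lit 330)) (XT.nd (nat_lit 78) (nat_lit 1824) (nat_lit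 0) (XT.lf (nat_lit 0) (nat_lit 4474916753) (nat_lit 1748) (nat_lit 4174335277) (nat_lit 1824) (nat_lit 3420661730) (nat_lit 476) (nat_lit 5) (nat_lit 499) (nat_lit 5) (nat_lit 500) (nat_lit 5) (nat_lit 444) (nat_lit 427) (nat_lit 329)) (XT.lf (nat_lit 0) (nat_lit 2307821304) (nat_lit 1824) (nat_lit 8673268138) (nat_lit 1900) (nat_lit 1270951153) (nat_lit 452) (nat_lit 5) (nat_lit 476) (nat_lit 5) (nat_lit 477) (nat_lit 5) (nat_lit 445) (nat_lit 427) (nat_lit 328)))) (XT.nd (nat_lit 156) (nat_lit 1824) (nat_lit 0) (XT.nd (nat_lit 78) (nat_lit 0) (nat_lit 0) (XT.lf (nat_lit 0) (nat_lit 114039693) (nat_lit 1064) (nat_lit 867961248) (nat_lit 1140) (nat_lit 11456487976) (nat_lit 437) (nat_lit 5) (nat_lit 451) (nat_lit 5) (nat_lit 452) (nat_lit 5) (nat_lit 446) (nat_lit 427) (nat_lit 327)) (XT.lf (nat_lit 0) (nat_lit 3371130989) (nat_lit 1140) (nat_lit 2100855545) (nat_lit 76) (nat_lit 7156661516) (nat_lit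 437) (nat_lit 5) (nat_lit 452) (nat_lit 5) (nat_lit 438) (nat_lit 5) (nat_lit 447) (nat_lit 427) (nat_lit 326))) (XT.nd (nat_lit 78) (nat_lit 912) (nat_lit 0) (XT.lf (nat_lit 0) (nat_lit 5882358374) (nat_lit 988) (nat_lit 4331333936) (nat_lit 76) (nat_lit 2609813617) (nat_lit 425) (nat_lit 5) (nat_lit 438) (nat_lit 5) (nat_lit 426) (nat_lit 5) (nat_lit 448) (nat_lit 427) (nat_lit 325)) (XT.lf (nat_lit 0) (nat_lit 6429755783) (nat_lit 912) (nat_lit 2104695130) (nat_lit 988) (nat_lit 4488450429) (nat_lit 413) (nat_lit 5) (nat_lit 425) (nat_lit 5) (nat_lit 426) (nat_lit 5) (nat_lit 449) (nat_lit 427) (nat_lit 324))))))) (XT.nd (nat_lit 936) (nat_lit 7068) (nat_lit 0) (XT.nd (nat_lit 468) (nat_lit 3724) (nat_lit 0) (XT.nd (nat_lit 234) (nat_lit 1596) (nat_lit 0) (XT.nd (nat_lit 78) (nat_lit 1748) (nat_lit 0) (XT.lf (nat_lit 0) (nat_lit 4335548669) (nat_lit 836) (nat_lit 7002307520) (nat_lit 912) (nat_lit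 1888989730) (nat_lit 402) (nat_lit 5) (nat_lit 413) (nat_lit 5) (nat_lit 414) (nat_lit 5) (nat_lit 450) (nat_lit 427) (nat_lit 323)) (XT.nd (nat_lit 78) (nat_lit 836) (nat_lit 0) (XT.lf (nat_lit 0) (nat_lit 834689550) (nat_lit 912) (nat_lit 11214641864) (nat_lit 76) (nat_lit 1386345717) (nat_lit 390) (nat_lit 5) (nat_lit 402) (nat_lit 5) (nat_lit 391) (nat_lit 5) (nat_lit 451) (nat_lit 427) (nat_lit 322)) (XT.lf (nat_lit 0) (nat_lit 53868430) (nat_lit 836) (nat_lit 3643041256) (nat_lit 912) (nat_lit 9951966105) (nat_lit 379) (nat_lit 5) (nat_lit 390) (nat_lit 5) (nat_lit 391) (nat_lit 5) (nat_lit 452) (nat_lit 427) (nat_lit 321)))) (XT.nd (nat_lit 78) (nat_lit 1596) (nat_lit 0) (XT.lf (nat_lit 0) (nat_lit 6729152308) (nat_lit 912) (nat_lit 2112006687) (nat_lit 76) (nat_lit 5025630359) (nat_lit 379) (nat_lit 5) (nat_lit 391) (nat_lit 5) (nat_lit 380) (nat_lit 5) (nat_lit 453) (nat_lit 427) (nat_lit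 320)) (XT.nd (nat_lit 78) (nat_lit 760) (nat_lit 0) (XT.lf (nat_lit 0) (nat_lit 9794400820) (nat_lit 836) (nat_lit 121736262) (nat_lit 912) (nat_lit 4173829750) (nat_lit 368) (nat_lit 5) (nat_lit 379) (nat_lit 5) (nat_lit 380) (nat_lit 5) (nat_lit 454) (nat_lit 427) (nat_lit 319)) (XT.lf (nat_lit 0) (nat_lit 7786629899) (nat_lit 760) (nat_lit 5510940720) (nat_lit 836) (nat_lit 1020294174) (nat_lit 358) (nat_lit 5) (nat_lit 368) (nat_lit 5) (nat_lit 369) (nat_lit 5) (nat_lit 455) (nat_lit 427) (nat_lit 318))))) (XT.nd (nat_lit 234) (nat_lit 1444) (nat_lit 0) (XT.nd (nat_lit 78) (nat_lit 1444) (nat_lit 0) (XT.lf (nat_lit 0) (nat_lit 2265876823) (nat_lit 836) (nat_lit 8801165413) (nat_lit 76) (nat_lit 3483925056) (nat_lit 347) (nat_lit 5) (nat_lit 358) (nat_lit 5) (nat_lit 348) (nat_lit 5) (nat_lit 456) (nat_lit 427) (nat_lit 317)) (XT.nd (nat_lit 78) (nat_lit 760) (nat_lit 0) (XT.lf (nat_lit 0) (nat_lit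 3677581708) (nat_lit 684) (nat_lit 2041784196) (nat_lit 760) (nat_lit 9069911981) (nat_lit 338) (nat_lit 5) (nat_lit 347) (nat_lit 5) (nat_lit 348) (nat_lit 5) (nat_lit 457) (nat_lit 427) (nat_lit 316)) (XT.lf (nat_lit 0) (nat_lit 1565459924) (nat_lit 760) (nat_lit 7806017069) (nat_lit 836) (nat_lit 5661362200) (nat_lit 328) (nat_lit 5) (nat_lit 338) (nat_lit 5) (nat_lit 339) (nat_lit 5) (nat_lit 458) (nat_lit 427) (nat_lit 315)))) (XT.nd (nat_lit 78) (nat_lit 1444) (nat_lit 0) (XT.lf (nat_lit 0) (nat_lit 13210193832) (nat_lit 836) (nat_lit 555934362) (nat_lit 76) (nat_lit 1516039993) (nat_lit 328) (nat_lit 5) (nat_lit 339) (nat_lit 5) (nat_lit 329) (nat_lit 5) (nat_lit 459) (nat_lit 427) (nat_lit 314)) (XT.nd (nat_lit 78) (nat_lit 684) (nat_lit 0) (XT.lf (nat_lit 0) (nat_lit 1718893325) (nat_lit 760) (nat_lit 2713491935) (nat_lit 76) (nat_lit 11104080147) (nat_lit 318) (nat_lit 5) (nat_lit 328) (nat_lit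 5) (nat_lit 319) (nat_lit 5) (nat_lit 460) (nat_lit 427) (nat_lit 313)) (XT.lf (nat_lit 0) (nat_lit 5683522928) (nat_lit 760) (nat_lit 4913750301) (nat_lit 76) (nat_lit 5199082246) (nat_lit 309) (nat_lit 5) (nat_lit 319) (nat_lit 5) (nat_lit 310) (nat_lit 5) (nat_lit 461) (nat_lit 427) (nat_lit 312)))))) (XT.nd (nat_lit 468) (nat_lit 3876) (nat_lit 0) (XT.nd (nat_lit 234) (nat_lit 1216) (nat_lit 0) (XT.nd (nat_lit 78) (nat_lit 1368) (nat_lit 0) (XT.lf (nat_lit 0) (nat_lit 8922973249) (nat_lit 608) (nat_lit 929776610) (nat_lit 684) (nat_lit 6209580739) (nat_lit 301) (nat_lit 5) (nat_lit 309) (nat_lit 5) (nat_lit 310) (nat_lit 5) (nat_lit 462) (nat_lit 427) (nat_lit 311)) (XT.nd (nat_lit 78) (nat_lit 684) (nat_lit 0) (XT.lf (nat_lit 0) (nat_lit 6913958860) (nat_lit 684) (nat_lit 7350104210) (nat_lit 760) (nat_lit 2069883189) (nat_lit 292) (nat_lit 5) (nat_lit 301) (nat_lit 5) (nat_lit 302) (nat_lit 5)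 (nat_lit 463) (nat_lit 427) (nat_lit 310)) (XT.lf (nat_lit 0) (nat_lit 2249476369) (nat_lit 684) (nat_lit 11736309803) (nat_lit 76) (nat_lit 2625955807) (nat_lit 283) (nat_lit 5) (nat_lit 292) (nat_lit 5) (nat_lit 284) (nat_lit 5) (nat_lit 464) (nat_lit 427) (nat_lit 309)))) (XT.nd (nat_lit 78) (nat_lit 608) (nat_lit 0) (XT.lf (nat_lit 0) (nat_lit 2780957762) (nat_lit 608) (nat_lit 4001637028) (nat_lit 684) (nat_lit 10112758511) (nat_lit 275) (nat_lit 5) (nat_lit 283) (nat_lit 5) (nat_lit 284) (nat_lit 5) (nat_lit 465) (nat_lit 427) (nat_lit 308)) (XT.nd (nat_lit 78) (nat_lit 0) (nat_lit 0) (XT.lf (nat_lit 0) (nat_lit 651627241) (nat_lit 608) (nat_lit 10906204776) (nat_lit 684) (nat_lit 5627519766) (nat_lit 267) (nat_lit 5) (nat_lit 275) (nat_lit 5) (nat_lit 276) (nat_lit 5) (nat_lit 466) (nat_lit 427) (nat_lit 307)) (XT.lf (nat_lit 0) (nat_lit 16002991088) (nat_lit 608) (nat_lit 577013088) (nat_lit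 684) (nat_lit 901973773) (nat_lit 267) (nat_lit 5) (nat_lit 275) (nat_lit 5) (nat_lit 276) (nat_lit 5) (nat_lit 467) (nat_lit 427) (nat_lit 306))))) (XT.nd (nat_lit 234) (nat_lit 2128) (nat_lit 0) (XT.nd (nat_lit 78) (nat_lit 1064) (nat_lit 0) (XT.lf (nat_lit 0) (nat_lit 4053240460) (nat_lit 684) (nat_lit 3687450201) (nat_lit 76) (nat_lit 10043500389) (nat_lit 258) (nat_lit 5) (nat_lit 267) (nat_lit 5) (nat_lit 259) (nat_lit 5) (nat_lit 468) (nat_lit 427) (nat_lit 305)) (XT.nd (nat_lit 78) (nat_lit 532) (nat_lit 0) (XT.lf (nat_lit 0) (nat_lit 9239535010) (nat_lit 608) (nat_lit 5921704709) (nat_lit 76) (nat_lit 2932219209) (nat_lit 251) (nat_lit 5) (nat_lit 259) (nat_lit 5) (nat_lit 252) (nat_lit 5) (nat_lit 469) (nat_lit 427) (nat_lit 304)) (XT.lf (nat_lit 0) (nat_lit 10204449120) (nat_lit 532) (nat_lit 4502691365) (nat_lit 608) (nat_lit 3702351069) (nat_lit 244) (nat_lit 5) (nat_lit 251) (nat_lit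 5) (nat_lit 252) (nat_lit 5) (nat_lit 470) (nat_lit 427) (nat_lit 303)))) (XT.nd (nat_lit 156) (nat_lit 988) (nat_lit 0) (XT.nd (nat_lit 78) (nat_lit 532) (nat_lit 0) (XT.lf (nat_lit 0) (nat_lit 1702091781) (nat_lit 608) (nat_lit 10540398324) (nat_lit 76) (nat_lit 6489920765) (nat_lit 236) (nat_lit 5) (nat_lit 244) (nat_lit 5) (nat_lit 237) (nat_lit 5) (nat_lit 471) (nat_lit 427) (nat_lit 302)) (XT.lf (nat_lit 0) (nat_lit 6131625304) (nat_lit 532) (nat_lit 1196031541) (nat_lit 608) (nat_lit 11734686750) (nat_lit 229) (nat_lit 5) (nat_lit 236) (nat_lit 5) (nat_lit 237) (nat_lit 5) (nat_lit 472) (nat_lit 427) (nat_lit 301))) (XT.nd (nat_lit 78) (nat_lit 532) (nat_lit 0) (XT.lf (nat_lit 0) (nat_lit 4010501738) (nat_lit 456) (nat_lit 9258949815) (nat_lit 532) (nat_lit 6129774528) (nat_lit 223) (nat_lit 5) (nat_lit 229) (nat_lit 5) (nat_lit 230) (nat_lit 5) (nat_lit 473) (nat_lit 427) (nat_lit 300)) (XT.lf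 (nat_lit 0) (nat_lit 1872412348) (nat_lit 532) (nat_lit 17622447006) (nat_lit 608) (nat_lit 249249507) (nat_lit 216) (nat_lit 5) (nat_lit 223) (nat_lit 5) (nat_lit 224) (nat_lit 5) (nat_lit 474) (nat_lit 427) (nat_lit 299))))))))
noncomputable def xc83 : XT := (XT.nd (nat_lit 58968) (nat_lit 0) (nat_lit 19608) (XT.nd (nat_lit 936) (nat_lit 3572) (nat_lit 0) (XT.nd (nat_lit 468) (nat_lit 2128) (nat_lit 0) (XT.nd (nat_lit 234) (nat_lit 1368) (nat_lit 0) (XT.nd (nat_lit 78) (nat_lit 912) (nat_lit 0) (XT.lf (nat_lit 0) (nat_lit 5882347763) (nat_lit 608) (nat_lit 358161276) (nat_lit 76) (nat_lit 13855059386) (nat_lit 215) (nat_lit 5) (nat_lit 223) (nat_lit 5) (nat_lit 216) (nat_lit 5) (nat_lit 475) (nat_lit 427) (nat_lit 298)) (XT.nd (nat_lit 78) (nat_lit 456) (nat_lit 0) (XT.lf (nat_lit 0) (nat_lit 12331434094) (nat_lit 532) (nat_lit 2600057760) (nat_lit 76) (nat_lit 5523309351) (nat_lit 209) (nat_lit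 5) (nat_lit 216) (nat_lit 5) (nat_lit 210) (nat_lit 5) (nat_lit 476) (nat_lit 427) (nat_lit 297)) (XT.lf (nat_lit 0) (nat_lit 15939608262) (nat_lit 456) (nat_lit 3166729421) (nat_lit 532) (nat_lit 1715827291) (nat_lit 203) (nat_lit 5) (nat_lit 209) (nat_lit 5) (nat_lit 210) (nat_lit 5) (nat_lit 477) (nat_lit 427) (nat_lit 296)))) (XT.nd (nat_lit 78) (nat_lit 836) (nat_lit 0) (XT.lf (nat_lit 0) (nat_lit 4972410455) (nat_lit 532) (nat_lit 7256108599) (nat_lit 76) (nat_lit 8968346756) (nat_lit 196) (nat_lit 5) (nat_lit 203) (nat_lit 5) (nat_lit 197) (nat_lit 5) (nat_lit 478) (nat_lit 427) (nat_lit 295)) (XT.nd (nat_lit 78) (nat_lit 380) (nat_lit 0) (XT.lf (nat_lit 0) (nat_lit 11915239265) (nat_lit 456) (nat_lit 39864743) (nat_lit 532) (nat_lit 9625135264) (nat_lit 190) (nat_lit 5) (nat_lit 196) (nat_lit 5) (nat_lit 197) (nat_lit 5) (nat_lit 479) (nat_lit 427) (nat_lit 294)) (XT.lf (nat_lit 0) (nat_lit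 9812519104) (nat_lit 380) (nat_lit 9514610504) (nat_lit 456) (nat_lit 2644388113) (nat_lit 185) (nat_lit 5) (nat_lit 190) (nat_lit 5) (nat_lit 191) (nat_lit 5) (nat_lit 480) (nat_lit 427) (nat_lit 293))))) (XT.nd (nat_lit 234) (nat_lit 836) (nat_lit 0) (XT.nd (nat_lit 78) (nat_lit 760) (nat_lit 0) (XT.lf (nat_lit 0) (nat_lit 4607917090) (nat_lit 532) (nat_lit 14709384835) (nat_lit 76) (nat_lit 3054207996) (nat_lit 178) (nat_lit 5) (nat_lit 185) (nat_lit 5) (nat_lit 179) (nat_lit 5) (nat_lit 481) (nat_lit 427) (nat_lit 292)) (XT.nd (nat_lit 78) (nat_lit 380) (nat_lit 0) (XT.lf (nat_lit 0) (nat_lit 5430576222) (nat_lit 380) (nat_lit 6779144847) (nat_lit 456) (nat_lit 10570074847) (nat_lit 173) (nat_lit 5) (nat_lit 178) (nat_lit 5) (nat_lit 179) (nat_lit 5) (nat_lit 482) (nat_lit 427) (nat_lit 291)) (XT.lf (nat_lit 0) (nat_lit 3157521705) (nat_lit 380) (nat_lit 17028784349) (nat_lit 456) (nat_lit 3011090625)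 (nat_lit 168) (nat_lit 5) (nat_lit 173) (nat_lit 5) (nat_lit 174) (nat_lit 5) (nat_lit 483) (nat_lit 427) (nat_lit 290)))) (XT.nd (nat_lit 78) (nat_lit 380) (nat_lit 0) (XT.lf (nat_lit 0) (nat_lit 804223268) (nat_lit 380) (nat_lit 4062955298) (nat_lit 456) (nat_lit 18756624864) (nat_lit 162) (nat_lit 5) (nat_lit 167) (nat_lit 5) (nat_lit 168) (nat_lit 5) (nat_lit 484) (nat_lit 427) (nat_lit 289)) (XT.nd (nat_lit 78) (nat_lit 380) (nat_lit 0) (XT.lf (nat_lit 0) (nat_lit 13124602219) (nat_lit 456) (nat_lit 1614561798) (nat_lit 76) (nat_lit 9319766664) (nat_lit 162) (nat_lit 5) (nat_lit 168) (nat_lit 5) (nat_lit 163) (nat_lit 5) (nat_lit 485) (nat_lit 427) (nat_lit 288)) (XT.lf (nat_lit 0) (nat_lit 20447350587) (nat_lit 380) (nat_lit 1329178411) (nat_lit 456) (nat_lit 2727647794) (nat_lit 157) (nat_lit 5) (nat_lit 162) (nat_lit 5) (nat_lit 163) (nat_lit 5) (nat_lit 486) (nat_lit 427) (nat_lit 287))))))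 (XT.nd (nat_lit 468) (nat_lit 1292) (nat_lit 0) (XT.nd (nat_lit 234) (nat_lit 1140) (nat_lit 0) (XT.nd (nat_lit 78) (nat_lit 684) (nat_lit 0) (XT.lf (nat_lit 0) (nat_lit 5849853049) (nat_lit 456) (nat_lit 6626971228) (nat_lit 76) (nat_lit 12481219044) (nat_lit 151) (nat_lit 5) (nat_lit 157) (nat_lit 5) (nat_lit 152) (nat_lit 5) (nat_lit 487) (nat_lit 427) (nat_lit 286)) (XT.nd (nat_lit 78) (nat_lit 304) (nat_lit 0) (XT.lf (nat_lit 0) (nat_lit 14785858945) (nat_lit 456) (nat_lit 9245585237) (nat_lit 76) (nat_lit 1390956910) (nat_lit 146) (nat_lit 5) (nat_lit 152) (nat_lit 5) (nat_lit 147) (nat_lit 5) (nat_lit 488) (nat_lit 427) (nat_lit 285)) (XT.lf (nat_lit 0) (nat_lit 13934792970) (nat_lit 304) (nat_lit 10261689448) (nat_lit 380) (nat_lit 1700077014) (nat_lit 142) (nat_lit 5) (nat_lit 146) (nat_lit 5) (nat_lit 147) (nat_lit 5) (nat_lit 489) (nat_lit 427) (nat_lit 284)))) (XT.nd (nat_lit 78) (nat_lit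 684) (nat_lit 0) (XT.lf (nat_lit 0) (nat_lit 7558912875) (nat_lit 456) (nat_lit 14770871708) (nat_lit 76) (nat_lit 4051126944) (nat_lit 136) (nat_lit 5) (nat_lit 142) (nat_lit 5) (nat_lit 137) (nat_lit 5) (nat_lit 490) (nat_lit 427) (nat_lit 283)) (XT.nd (nat_lit 78) (nat_lit 380) (nat_lit 0) (XT.lf (nat_lit 0) (nat_lit 9195039868) (nat_lit 304) (nat_lit 8075353061) (nat_lit 380) (nat_lit 9605220689) (nat_lit 132) (nat_lit 5) (nat_lit 136) (nat_lit 5) (nat_lit 137) (nat_lit 5) (nat_lit 491) (nat_lit 427) (nat_lit 282)) (XT.lf (nat_lit 0) (nat_lit 65948371) (nat_lit 380) (nat_lit 20657957636) (nat_lit 76) (nat_lit 6657737421) (nat_lit 127) (nat_lit 5) (nat_lit 132) (nat_lit 5) (nat_lit 128) (nat_lit 5) (nat_lit 492) (nat_lit 427) (nat_lit 281))))) (XT.nd (nat_lit 234) (nat_lit 608) (nat_lit 0) (XT.nd (nat_lit 78) (nat_lit 380) (nat_lit 0) (XT.lf (nat_lit 0) (nat_lit 4117292835) (nat_lit 304) (nat_lit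 5969644217) (nat_lit 380) (nat_lit 17810844132) (nat_lit 123) (nat_lit 5) (nat_lit 127) (nat_lit 5) (nat_lit 128) (nat_lit 5) (nat_lit 493) (nat_lit 427) (nat_lit 280)) (XT.nd (nat_lit 78) (nat_lit 76) (nat_lit 0) (XT.lf (nat_lit 0) (nat_lit 1430716558) (nat_lit 304) (nat_lit 19176224829) (nat_lit 380) (nat_lit 7818494450) (nat_lit 119) (nat_lit 5) (nat_lit 123) (nat_lit 5) (nat_lit 124) (nat_lit 5) (nat_lit 494) (nat_lit 427) (nat_lit 279)) (XT.lf (nat_lit 0) (nat_lit 2631734481) (nat_lit 380) (nat_lit 1317998980) (nat_lit 76) (nat_lit 25015054905) (nat_lit 118) (nat_lit 5) (nat_lit 123) (nat_lit 5) (nat_lit 119) (nat_lit 5) (nat_lit 495) (nat_lit 427) (nat_lit 278)))) (XT.nd (nat_lit 57174) (nat_lit 0) (nat_lit 32224) (XT.nd (nat_lit 78) (nat_lit 304) (nat_lit 0) (XT.lf (nat_lit 0) (nat_lit 13521038493) (nat_lit 380) (nat_lit 4202495848) (nat_lit 76) (nat_lit 11791118155) (nat_lit 114) (nat_lit 5)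 (nat_lit 119) (nat_lit 5) (nat_lit 115) (nat_lit 5) (nat_lit 496) (nat_lit 427) (nat_lit 277)) (XT.lf (nat_lit 0) (nat_lit 22934397603) (nat_lit 304) (nat_lit 1975851755) (nat_lit 380) (nat_lit 5167299071) (nat_lit 110) (nat_lit 5) (nat_lit 114) (nat_lit 5) (nat_lit 115) (nat_lit 5) (nat_lit 497) (nat_lit 427) (nat_lit 276))) (XT.nd (nat_lit 78) (nat_lit 0) (nat_lit 0) (XT.lf (nat_lit 0) (nat_lit 1119749930) (nat_lit 0) (nat_lit 1119749930) (nat_lit 1596) (nat_lit 2661825491) (nat_lit 534) (nat_lit 5) (nat_lit 534) (nat_lit 3) (nat_lit 555) (nat_lit 3) (nat_lit 428) (nat_lit 428) (nat_lit 344)) (XT.lf (nat_lit 0) (nat_lit 5675663270) (nat_lit 1596) (nat_lit 317663388) (nat_lit 1672) (nat_lit 3933664593) (nat_lit 534) (nat_lit 5) (nat_lit 555) (nat_lit 3) (nat_lit 556) (nat_lit 5) (nat_lit 429) (nat_lit 428) (nat_lit 343))))))) (XT.nd (nat_lit 1014) (nat_lit 9728) (nat_lit 0) (XT.nd (nat_lit 468) (nat_lit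 1368) (nat_lit 0) (XT.nd (nat_lit 234) (nat_lit 1596) (nat_lit 0) (XT.nd (nat_lit 78) (nat_lit 0) (nat_lit 0) (XT.lf (nat_lit 0) (nat_lit 6928819779) (nat_lit 1596) (nat_lit 2854347581) (nat_lit 1672) (nat_lit 271487072) (nat_lit 535) (nat_lit 5) (nat_lit 556) (nat_lit 5) (nat_lit 557) (nat_lit 5) (nat_lit 430) (nat_lit 428) (nat_lit 342)) (XT.nd (nat_lit 78) (nat_lit 0) (nat_lit 76) (XT.lf (nat_lit 76) (nat_lit 4761267340) (nat_lit 0) (nat_lit 3489767260) (nat_lit 1672) (nat_lit 1934487792) (nat_lit 536) (nat_lit 5) (nat_lit 535) (nat_lit 5) (nat_lit 557) (nat_lit 5) (nat_lit 431) (nat_lit 428) (nat_lit 341)) (XT.lf (nat_lit 76) (nat_lit 2311551009) (nat_lit 0) (nat_lit 7314757951) (nat_lit 1672) (nat_lit 693743599) (nat_lit 537) (nat_lit 5) (nat_lit 536) (nat_lit 5) (nat_lit 558) (nat_lit 5) (nat_lit 432) (nat_lit 428) (nat_lit 340)))) (XT.nd (nat_lit 78) (nat_lit 0) (nat_lit 76) (XT.lf (nat_lit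 0) (nat_lit 597147564) (nat_lit 1672) (nat_lit 155426342) (nat_lit 1748) (nat_lit 9705560967) (nat_lit 514) (nat_lit 5) (nat_lit 536) (nat_lit 5) (nat_lit 537) (nat_lit 5) (nat_lit 433) (nat_lit 428) (nat_lit 339)) (XT.nd (nat_lit 78) (nat_lit 0) (nat_lit 76) (XT.lf (nat_lit 0) (nat_lit 1970284003) (nat_lit 1672) (nat_lit 2628968036) (nat_lit 1748) (nat_lit 5999960754) (nat_lit 515) (nat_lit 5) (nat_lit 537) (nat_lit 5) (nat_lit 538) (nat_lit 5) (nat_lit 434) (nat_lit 428) (nat_lit 338)) (XT.lf (nat_lit 0) (nat_lit 3404449782) (nat_lit 1672) (nat_lit 5116403283) (nat_lit 1748) (nat_lit 2223276901) (nat_lit 516) (nat_lit 5) (nat_lit 538) (nat_lit 5) (nat_lit 539) (nat_lit 5) (nat_lit 435) (nat_lit 428) (nat_lit 337))))) (XT.nd (nat_lit 234) (nat_lit 1520) (nat_lit 0) (XT.nd (nat_lit 78) (nat_lit 0) (nat_lit 76) (XT.lf (nat_lit 76) (nat_lit 3262919899) (nat_lit 0) (nat_lit 1652103696) (nat_lit 1748)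 (nat_lit 5977706910) (nat_lit 517) (nat_lit 5) (nat_lit 516) (nat_lit 5) (nat_lit 539) (nat_lit 5) (nat_lit 436) (nat_lit 428) (nat_lit 336)) (XT.nd (nat_lit 78) (nat_lit 0) (nat_lit 76) (XT.lf (nat_lit 76) (nat_lit 870064726) (nat_lit 0) (nat_lit 5641101245) (nat_lit 1748) (nat_lit 4533821474) (nat_lit 518) (nat_lit 5) (nat_lit 517) (nat_lit 5) (nat_lit 540) (nat_lit 5) (nat_lit 437) (nat_lit 428) (nat_lit 335)) (XT.lf (nat_lit 0) (nat_lit 8193052180) (nat_lit 1672) (nat_lit 1516957901) (nat_lit 1748) (nat_lit 1491048134) (nat_lit 518) (nat_lit 5) (nat_lit 540) (nat_lit 5) (nat_lit 541) (nat_lit 5) (nat_lit 438) (nat_lit 428) (nat_lit 334)))) (XT.nd (nat_lit 156) (nat_lit 0) (nat_lit 76) (XT.nd (nat_lit 78) (nat_lit 1672) (nat_lit 0) (XT.lf (nat_lit 76) (nat_lit 7436437399) (nat_lit 0) (nat_lit 2541411868) (nat_lit 1748) (nat_lit 1382915968) (nat_lit 519) (nat_lit 5) (nat_lit 518) (nat_lit 5) (nat_lit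 541) (nat_lit 5) (nat_lit 439) (nat_lit 428) (nat_lit 333)) (XT.lf (nat_lit 0) (nat_lit 330047110) (nat_lit 1748) (nat_lit 6360637688) (nat_lit 1824) (nat_lit 4833685235) (nat_lit 496) (nat_lit 5) (nat_lit 519) (nat_lit 5) (nat_lit 520) (nat_lit 5) (nat_lit 440) (nat_lit 428) (nat_lit 332))) (XT.nd (nat_lit 78) (nat_lit 0) (nat_lit 0) (XT.lf (nat_lit 0) (nat_lit 2111020075) (nat_lit 1748) (nat_lit 8824488739) (nat_lit 1824) (nat_lit 756486121) (nat_lit 497) (nat_lit 5) (nat_lit 520) (nat_lit 5) (nat_lit 521) (nat_lit 5) (nat_lit 441) (nat_lit 428) (nat_lit 331)) (XT.lf (nat_lit 76) (nat_lit 532983337) (nat_lit 0) (nat_lit 3472765959) (nat_lit 1824) (nat_lit 7857695631) (nat_lit 498) (nat_lit 5) (nat_lit 497) (nat_lit 5) (nat_lit 521) (nat_lit 5) (nat_lit 442) (nat_lit 428) (nat_lit 330)))))) (XT.nd (nat_lit 468) (nat_lit 5244) (nat_lit 0) (XT.nd (nat_lit 234) (nat_lit 2964) (nat_lit 0) (XT.nd (nat_lit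 78) (nat_lit 1672) (nat_lit 0) (XT.lf (nat_lit 0) (nat_lit 6014401498) (nat_lit 1748) (nat_lit 1799629641) (nat_lit 1824) (nat_lit 4224868460) (nat_lit 498) (nat_lit 5) (nat_lit 521) (nat_lit 5) (nat_lit 522) (nat_lit 5) (nat_lit 443) (nat_lit 428) (nat_lit 329)) (XT.nd (nat_lit 78) (nat_lit 1672) (nat_lit 0) (XT.lf (nat_lit 76) (nat_lit 8075541184) (nat_lit 0) (nat_lit 53843700) (nat_lit 1824) (nat_lit 4089314314) (nat_lit 499) (nat_lit 5) (nat_lit 498) (nat_lit 5) (nat_lit 522) (nat_lit 5) (nat_lit 444) (nat_lit 428) (nat_lit 328)) (XT.lf (nat_lit 0) (nat_lit 5868802130) (nat_lit 1748) (nat_lit 4512096632) (nat_lit 1824) (nat_lit 2021535042) (nat_lit 476) (nat_lit 5) (nat_lit 499) (nat_lit 5) (nat_lit 500) (nat_lit 5) (nat_lit 445) (nat_lit 428) (nat_lit 327)))) (XT.nd (nat_lit 78) (nat_lit 1064) (nat_lit 0) (XT.lf (nat_lit 0) (nat_lit 153922932) (nat_lit 1900) (nat_lit 8945047790) (nat_lit 76) (nat_lit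 3491756872) (nat_lit 451) (nat_lit 5) (nat_lit 476) (nat_lit 5) (nat_lit 452) (nat_lit 5) (nat_lit 446) (nat_lit 428) (nat_lit 326)) (XT.nd (nat_lit 78) (nat_lit 0) (nat_lit 0) (XT.lf (nat_lit 0) (nat_lit 1385547079) (nat_lit 1064) (nat_lit 1037869289) (nat_lit 1140) (nat_lit 10359864292) (nat_lit 437) (nat_lit 5) (nat_lit 451) (nat_lit 5) (nat_lit 452) (nat_lit 5) (nat_lit 447) (nat_lit 428) (nat_lit 325)) (XT.lf (nat_lit 0) (nat_lit 4842188514) (nat_lit 1140) (nat_lit 904285857) (nat_lit 76) (nat_lit 7233514437) (nat_lit 437) (nat_lit 5) (nat_lit 452) (nat_lit 5) (nat_lit 438) (nat_lit 5) (nat_lit 448) (nat_lit 428) (nat_lit 324))))) (XT.nd (nat_lit 234) (nat_lit 2584) (nat_lit 0) (XT.nd (nat_lit 78) (nat_lit 1748) (nat_lit 0) (XT.lf (nat_lit 0) (nat_lit 7396255303) (nat_lit 988) (nat_lit 3194593781) (nat_lit 76) (nat_lit 2590496787) (nat_lit 425) (nat_lit 5) (nat_lit 438) (nat_lit 5) (nat_lit 426)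 (nat_lit 5) (nat_lit 449) (nat_lit 428) (nat_lit 323)) (XT.nd (nat_lit 78) (nat_lit 836) (nat_lit 0) (XT.lf (nat_lit 0) (nat_lit 7868778248) (nat_lit 912) (nat_lit 2228268910) (nat_lit 988) (nat_lit 3290296659) (nat_lit 413) (nat_lit 5) (nat_lit 425) (nat_lit 5) (nat_lit 426) (nat_lit 5) (nat_lit 450) (nat_lit 428) (nat_lit 322)) (XT.lf (nat_lit 0) (nat_lit 5717732729) (nat_lit 836) (nat_lit 7236515276) (nat_lit 912) (nat_lit 643768161) (nat_lit 402) (nat_lit 5) (nat_lit 413) (nat_lit 5) (nat_lit 414) (nat_lit 5) (nat_lit 451) (nat_lit 428) (nat_lit 321)))) (XT.nd (nat_lit 156) (nat_lit 836) (nat_lit 0) (XT.nd (nat_lit 78) (nat_lit 836) (nat_lit 0) (XT.lf (nat_lit 0) (nat_lit 2115188430) (nat_lit 912) (nat_lit 10277115137) (nat_lit 76) (nat_lit 1421230003) (nat_lit 390) (nat_lit 5) (nat_lit 402) (nat_lit 5) (nat_lit 391) (nat_lit 5) (nat_lit 452) (nat_lit 428) (nat_lit 320)) (XT.lf (nat_lit 0) (nat_lit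 1308781882) (nat_lit 836) (nat_lit 3726063782) (nat_lit 912) (nat_lit 8998854165) (nat_lit 379) (nat_lit 5) (nat_lit 390) (nat_lit 5) (nat_lit 391) (nat_lit 5) (nat_lit 453) (nat_lit 428) (nat_lit 319))) (XT.nd (nat_lit 78) (nat_lit 836) (nat_lit 0) (XT.lf (nat_lit 0) (nat_lit 8122482452) (nat_lit 912) (nat_lit 934814382) (nat_lit 76) (nat_lit 5201568389) (nat_lit 379) (nat_lit 5) (nat_lit 391) (nat_lit 5) (nat_lit 380) (nat_lit 5) (nat_lit 454) (nat_lit 428) (nat_lit 318)) (XT.lf (nat_lit 0) (nat_lit 11308658860) (nat_lit 836) (nat_lit 69639134) (nat_lit 912) (nat_lit 3110978480) (nat_lit 368) (nat_lit 5) (nat_lit 379) (nat_lit 5) (nat_lit 380) (nat_lit 5) (nat_lit 455) (nat_lit 428) (nat_lit 317))))))))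
noncomputable def xc84 : XT := (XT.nd (nat_lit 1950) (nat_lit 5776) (nat_lit 0) (XT.nd (nat_lit 936) (nat_lit 5852) (nat_lit 0) (XT.nd (nat_lit 468) (nat_lit 3876) (nat_lit 0) (XT.nd (nat_lit 234) (nat_lit 1520) (nat_lit 0) (XT.nd (nat_lit 78) (nat_lit 1444) (nat_lit 0) (XT.lf (nat_lit 0) (nat_lit 109562898) (nat_lit 836) (nat_lit 5481738894) (nat_lit 76) (nat_lit 9133210535) (nat_lit 357) (nat_lit 5) (nat_lit 368) (nat_lit 5) (nat_lit 358) (nat_lit 5) (nat_lit 456) (nat_lit 428) (nat_lit 316)) (XT.nd (nat_lit 78) (nat_lit 684) (nat_lit 0) (XT.lf (nat_lit 0) (nat_lit 3455680972) (nat_lit 836) (nat_lit 7824804846) (nat_lit 76) (nat_lit 3684485381) (nat_lit 347) (nat_lit 5) (nat_lit 358) (nat_lit 5) (nat_lit 348) (nat_lit 5) (nat_lit 457) (nat_lit 428) (nat_lit 315)) (XT.lf (nat_lit 0) (nat_lit 5008180745) (nat_lit 684) (nat_lit 1979842196) (nat_lit 760) (nat_lit 8222905784) (nat_lit 338) (nat_lit 5)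 (nat_lit 347) (nat_lit 5) (nat_lit 348) (nat_lit 5) (nat_lit 458) (nat_lit 428) (nat_lit 314)))) (XT.nd (nat_lit 78) (nat_lit 760) (nat_lit 0) (XT.lf (nat_lit 0) (nat_lit 2833781087) (nat_lit 760) (nat_lit 7892669037) (nat_lit 836) (nat_lit 4735814198) (nat_lit 328) (nat_lit 5) (nat_lit 338) (nat_lit 5) (nat_lit 339) (nat_lit 5) (nat_lit 459) (nat_lit 428) (nat_lit 313)) (XT.nd (nat_lit 78) (nat_lit 76) (nat_lit 0) (XT.lf (nat_lit 0) (nat_lit 641588130) (nat_lit 684) (nat_lit 14012559340) (nat_lit 760) (nat_lit 1065451767) (nat_lit 319) (nat_lit 5) (nat_lit 328) (nat_lit 5) (nat_lit 329) (nat_lit 5) (nat_lit 460) (nat_lit 428) (nat_lit 312)) (XT.lf (nat_lit 0) (nat_lit 2798089251) (nat_lit 760) (nat_lit 1594939371) (nat_lit 76) (nat_lit 11588901027) (nat_lit 318) (nat_lit 5) (nat_lit 328) (nat_lit 5) (nat_lit 319) (nat_lit 5) (nat_lit 461) (nat_lit 428) (nat_lit 311))))) (XT.nd (nat_lit 234) (nat_lit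 1900) (nat_lit 0) (XT.nd (nat_lit 78) (nat_lit 1292) (nat_lit 0) (XT.lf (nat_lit 0) (nat_lit 6860528356) (nat_lit 760) (nat_lit 3861628265) (nat_lit 76) (nat_lit 5527884633) (nat_lit 309) (nat_lit 5) (nat_lit 319) (nat_lit 5) (nat_lit 310) (nat_lit 5) (nat_lit 462) (nat_lit 428) (nat_lit 310)) (XT.nd (nat_lit 78) (nat_lit 684) (nat_lit 0) (XT.lf (nat_lit 0) (nat_lit 10370735968) (nat_lit 608) (nat_lit 762442420) (nat_lit 684) (nat_lit 5391252498) (nat_lit 301) (nat_lit 5) (nat_lit 309) (nat_lit 5) (nat_lit 310) (nat_lit 5) (nat_lit 463) (nat_lit 428) (nat_lit 309)) (XT.lf (nat_lit 0) (nat_lit 8300507766) (nat_lit 684) (nat_lit 7356524717) (nat_lit 760) (nat_lit 1147560623) (nat_lit 292) (nat_lit 5) (nat_lit 301) (nat_lit 5) (nat_lit 302) (nat_lit 5) (nat_lit 464) (nat_lit 428) (nat_lit 308)))) (XT.nd (nat_lit 78) (nat_lit 1216) (nat_lit 0) (XT.lf (nat_lit 0) (nat_lit 3269227935) (nat_lit 684) (nat_lit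 10897986775) (nat_lit 76) (nat_lit 2923766992) (nat_lit 283) (nat_lit 5) (nat_lit 292) (nat_lit 5) (nat_lit 284) (nat_lit 5) (nat_lit 465) (nat_lit 428) (nat_lit 307)) (XT.nd (nat_lit 78) (nat_lit 608) (nat_lit 0) (XT.lf (nat_lit 0) (nat_lit 4035485791) (nat_lit 608) (nat_lit 3882721730) (nat_lit 684) (nat_lit 9465298447) (nat_lit 275) (nat_lit 5) (nat_lit 283) (nat_lit 5) (nat_lit 284) (nat_lit 5) (nat_lit 466) (nat_lit 428) (nat_lit 306)) (XT.lf (nat_lit 0) (nat_lit 1840153734) (nat_lit 608) (nat_lit 10978494676) (nat_lit 684) (nat_lit 4863918964) (nat_lit 267) (nat_lit 5) (nat_lit 275) (nat_lit 5) (nat_lit 276) (nat_lit 5) (nat_lit 467) (nat_lit 428) (nat_lit 305)))))) (XT.nd (nat_lit 468) (nat_lit 2964) (nat_lit 0) (XT.nd (nat_lit 234) (nat_lit 1672) (nat_lit 0) (XT.nd (nat_lit 78) (nat_lit 1216) (nat_lit 0) (XT.lf (nat_lit 0) (nat_lit 17618010603) (nat_lit 608) (nat_lit 346851399) (nat_lit 684)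 (nat_lit 23764641) (nat_lit 267) (nat_lit 5) (nat_lit 275) (nat_lit 5) (nat_lit 276) (nat_lit 5) (nat_lit 468) (nat_lit 428) (nat_lit 304)) (XT.nd (nat_lit 78) (nat_lit 532) (nat_lit 0) (XT.lf (nat_lit 0) (nat_lit 5051183677) (nat_lit 684) (nat_lit 2653911105) (nat_lit 76) (nat_lit 10595036552) (nat_lit 258) (nat_lit 5) (nat_lit 267) (nat_lit 5) (nat_lit 259) (nat_lit 5) (nat_lit 469) (nat_lit 428) (nat_lit 303)) (XT.lf (nat_lit 0) (nat_lit 10376587159) (nat_lit 608) (nat_lit 4958273110) (nat_lit 76) (nat_lit 3284148282) (nat_lit 251) (nat_lit 5) (nat_lit 259) (nat_lit 5) (nat_lit 252) (nat_lit 5) (nat_lit 470) (nat_lit 428) (nat_lit 302)))) (XT.nd (nat_lit 78) (nat_lit 1140) (nat_lit 0) (XT.lf (nat_lit 0) (nat_lit 11633152622) (nat_lit 532) (nat_lit 4357312001) (nat_lit 608) (nat_lit 2954414311) (nat_lit 244) (nat_lit 5) (nat_lit 251) (nat_lit 5) (nat_lit 252) (nat_lit 5) (nat_lit 471) (nat_lit 428)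 (nat_lit 301)) (XT.nd (nat_lit 78) (nat_lit 532) (nat_lit 0) (XT.lf (nat_lit 0) (nat_lit 2585298545) (nat_lit 608) (nat_lit 9726309507) (nat_lit 76) (nat_lit 6966079754) (nat_lit 236) (nat_lit 5) (nat_lit 244) (nat_lit 5) (nat_lit 237) (nat_lit 5) (nat_lit 472) (nat_lit 428) (nat_lit 300)) (XT.lf (nat_lit 0) (nat_lit 7427537043) (nat_lit 532) (nat_lit 935075914) (nat_lit 608) (nat_lit 11255247436) (nat_lit 229) (nat_lit 5) (nat_lit 236) (nat_lit 5) (nat_lit 237) (nat_lit 5) (nat_lit 473) (nat_lit 428) (nat_lit 299))))) (XT.nd (nat_lit 234) (nat_lit 1444) (nat_lit 0) (XT.nd (nat_lit 78) (nat_lit 1064) (nat_lit 0) (XT.lf (nat_lit 0) (nat_lit 5238931693) (nat_lit 456) (nat_lit 9229054011) (nat_lit 532) (nat_lit 5497158651) (nat_lit 223) (nat_lit 5) (nat_lit 229) (nat_lit 5) (nat_lit 230) (nat_lit 5) (nat_lit 474) (nat_lit 428) (nat_lit 298)) (XT.nd (nat_lit 78) (nat_lit 456) (nat_lit 0) (XT.lf (nat_lit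 0) (nat_lit 538137956) (nat_lit 608) (nat_lit 17291644983) (nat_lit 76) (nat_lit 2490805454) (nat_lit 215) (nat_lit 5) (nat_lit 223) (nat_lit 5) (nat_lit 216) (nat_lit 5) (nat_lit 475) (nat_lit 428) (nat_lit 297)) (XT.lf (nat_lit 0) (nat_lit 722644885) (nat_lit 456) (nat_lit 6109309792) (nat_lit 532) (nat_lit 13850972331) (nat_lit 209) (nat_lit 5) (nat_lit 215) (nat_lit 5) (nat_lit 216) (nat_lit 5) (nat_lit 476) (nat_lit 428) (nat_lit 296)))) (XT.nd (nat_lit 156) (nat_lit 988) (nat_lit 0) (XT.nd (nat_lit 78) (nat_lit 456) (nat_lit 0) (XT.lf (nat_lit 0) (nat_lit 13456374132) (nat_lit 532) (nat_lit 1600460320) (nat_lit 76) (nat_lit 5996466440) (nat_lit 209) (nat_lit 5) (nat_lit 216) (nat_lit 5) (nat_lit 210) (nat_lit 5) (nat_lit 477) (nat_lit 428) (nat_lit 295)) (XT.lf (nat_lit 0) (nat_lit 17477912916) (nat_lit 456) (nat_lit 2941504688) (nat_lit 532) (nat_lit 1012571409) (nat_lit 203) (nat_lit 5) (nat_lit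 209) (nat_lit 5) (nat_lit 210) (nat_lit 5) (nat_lit 478) (nat_lit 428) (nat_lit 294))) (XT.nd (nat_lit 78) (nat_lit 456) (nat_lit 0) (XT.lf (nat_lit 0) (nat_lit 5853651040) (nat_lit 532) (nat_lit 6408549997) (nat_lit 76) (nat_lit 9555888345) (nat_lit 196) (nat_lit 5) (nat_lit 203) (nat_lit 5) (nat_lit 197) (nat_lit 5) (nat_lit 479) (nat_lit 428) (nat_lit 293)) (XT.lf (nat_lit 0) (nat_lit 13033185717) (nat_lit 532) (nat_lit 8894478235) (nat_lit 76) (nat_lit 285554084) (nat_lit 190) (nat_lit 5) (nat_lit 197) (nat_lit 5) (nat_lit 191) (nat_lit 5) (nat_lit 480) (nat_lit 428) (nat_lit 292))))))) (XT.nd (nat_lit 936) (nat_lit 1368) (nat_lit 0) (XT.nd (nat_lit 468) (nat_lit 2280) (nat_lit 0) (XT.nd (nat_lit 234) (nat_lit 836) (nat_lit 0) (XT.nd (nat_lit 78) (nat_lit 912) (nat_lit 0) (XT.lf (nat_lit 0) (nat_lit 11149899288) (nat_lit 380) (nat_lit 9462549271) (nat_lit 456) (nat_lit 2004065910) (nat_lit 185)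 (nat_lit 5) (nat_lit 190) (nat_lit 5) (nat_lit 191) (nat_lit 5) (nat_lit 481) (nat_lit 428) (nat_lit 291)) (XT.nd (nat_lit 78) (nat_lit 380) (nat_lit 0) (XT.lf (nat_lit 0) (nat_lit 5444608723) (nat_lit 532) (nat_lit 14103500857) (nat_lit 76) (nat_lit 3480539737) (nat_lit 178) (nat_lit 5) (nat_lit 185) (nat_lit 5) (nat_lit 179) (nat_lit 5) (nat_lit 482) (nat_lit 428) (nat_lit 290)) (XT.lf (nat_lit 0) (nat_lit 6623670015) (nat_lit 380) (nat_lit 6637142072) (nat_lit 456) (nat_lit 10188645972) (nat_lit 173) (nat_lit 5) (nat_lit 178) (nat_lit 5) (nat_lit 179) (nat_lit 5) (nat_lit 483) (nat_lit 428) (nat_lit 289)))) (XT.nd (nat_lit 78) (nat_lit 456) (nat_lit 0) (XT.lf (nat_lit 0) (nat_lit 4277013390) (nat_lit 380) (nat_lit 17188566183) (nat_lit 456) (nat_lit 2414230614) (nat_lit 168) (nat_lit 5) (nat_lit 173) (nat_lit 5) (nat_lit 174) (nat_lit 5) (nat_lit 484) (nat_lit 428) (nat_lit 288)) (XT.nd (nat_lit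 78) (nat_lit 0) (nat_lit 0) (XT.lf (nat_lit 0) (nat_lit 1845390298) (nat_lit 380) (nat_lit 3832834181) (nat_lit 456) (nat_lit 18640959407) (nat_lit 162) (nat_lit 5) (nat_lit 167) (nat_lit 5) (nat_lit 168) (nat_lit 5) (nat_lit 485) (nat_lit 428) (nat_lit 287)) (XT.lf (nat_lit 0) (nat_lit 14166219933) (nat_lit 456) (nat_lit 664854480) (nat_lit 76) (nat_lit 9936634522) (nat_lit 162) (nat_lit 5) (nat_lit 168) (nat_lit 5) (nat_lit 163) (nat_lit 5) (nat_lit 486) (nat_lit 428) (nat_lit 286))))) (XT.nd (nat_lit 234) (nat_lit 1064) (nat_lit 0) (XT.nd (nat_lit 78) (nat_lit 836) (nat_lit 0) (XT.lf (nat_lit 0) (nat_lit 22042721573) (nat_lit 380) (nat_lit 1022488136) (nat_lit 456) (nat_lit 2161353552) (nat_lit 157) (nat_lit 5) (nat_lit 162) (nat_lit 5) (nat_lit 163) (nat_lit 5) (nat_lit 487) (nat_lit 428) (nat_lit 285)) (XT.nd (nat_lit 78) (nat_lit 380) (nat_lit 0) (XT.lf (nat_lit 0) (nat_lit 6654922328) (nat_lit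 456) (nat_lit 5841046001) (nat_lit 76) (nat_lit 13198195180) (nat_lit 151) (nat_lit 5) (nat_lit 157) (nat_lit 5) (nat_lit 152) (nat_lit 5) (nat_lit 488) (nat_lit 428) (nat_lit 284)) (XT.lf (nat_lit 0) (nat_lit 15849241554) (nat_lit 456) (nat_lit 8544095701) (nat_lit 76) (nat_lit 1779310958) (nat_lit 146) (nat_lit 5) (nat_lit 152) (nat_lit 5) (nat_lit 147) (nat_lit 5) (nat_lit 489) (nat_lit 428) (nat_lit 283)))) (XT.nd (nat_lit 78) (nat_lit 760) (nat_lit 0) (XT.lf (nat_lit 0) (nat_lit 15315813059) (nat_lit 304) (nat_lit 10214570326) (nat_lit 380) (nat_lit 1130884763) (nat_lit 142) (nat_lit 5) (nat_lit 146) (nat_lit 5) (nat_lit 147) (nat_lit 5) (nat_lit 490) (nat_lit 428) (nat_lit 282)) (XT.nd (nat_lit 78) (nat_lit 304) (nat_lit 0) (XT.lf (nat_lit 0) (nat_lit 8388421368) (nat_lit 456) (nat_lit 14248884981) (nat_lit 76) (nat_lit 4522951110) (nat_lit 136) (nat_lit 5) (nat_lit 142) (nat_lit 5) (nat_lit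 137) (nat_lit 5) (nat_lit 491) (nat_lit 428) (nat_lit 281)) (XT.lf (nat_lit 0) (nat_lit 10420346132) (nat_lit 304) (nat_lit 7959508617) (nat_lit 380) (nat_lit 9290174460) (nat_lit 132) (nat_lit 5) (nat_lit 136) (nat_lit 5) (nat_lit 137) (nat_lit 5) (nat_lit 492) (nat_lit 428) (nat_lit 280)))))) (XT.nd (nat_lit 57564) (nat_lit 0) (nat_lit 30324) (XT.nd (nat_lit 234) (nat_lit 380) (nat_lit 0) (XT.nd (nat_lit 78) (nat_lit 608) (nat_lit 0) (XT.lf (nat_lit 0) (nat_lit 654318151) (nat_lit 380) (nat_lit 20326454486) (nat_lit 76) (nat_lit 7210567694) (nat_lit 127) (nat_lit 5) (nat_lit 132) (nat_lit 5) (nat_lit 128) (nat_lit 5) (nat_lit 493) (nat_lit 428) (nat_lit 279)) (XT.nd (nat_lit 78) (nat_lit 304) (nat_lit 0) (XT.lf (nat_lit 0) (nat_lit 5176620729) (nat_lit 304) (nat_lit 5788312298) (nat_lit 380) (nat_lit 17758249977) (nat_lit 123) (nat_lit 5) (nat_lit 127) (nat_lit 5) (nat_lit 128) (nat_lit 5) (nat_lit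 494) (nat_lit 428) (nat_lit 278)) (XT.lf (nat_lit 0) (nat_lit 2403307173) (nat_lit 304) (nat_lit 19388779414) (nat_lit 380) (nat_lit 7474750424) (nat_lit 119) (nat_lit 5) (nat_lit 123) (nat_lit 5) (nat_lit 124) (nat_lit 5) (nat_lit 495) (nat_lit 428) (nat_lit 277)))) (XT.nd (nat_lit 78) (nat_lit 304) (nat_lit 0) (XT.lf (nat_lit 0) (nat_lit 3264778134) (nat_lit 380) (nat_lit 447561939) (nat_lit 76) (nat_lit 26110288065) (nat_lit 118) (nat_lit 5) (nat_lit 123) (nat_lit 5) (nat_lit 119) (nat_lit 5) (nat_lit 496) (nat_lit 428) (nat_lit 276)) (XT.nd (nat_lit 57174) (nat_lit 0) (nat_lit 31920) (XT.lf (nat_lit 0) (nat_lit 14472716832) (nat_lit 380) (nat_lit 3424742133) (nat_lit 76) (nat_lit 12491690757) (nat_lit 114) (nat_lit 5) (nat_lit 119) (nat_lit 5) (nat_lit 115) (nat_lit 5) (nat_lit 497) (nat_lit 428) (nat_lit 275)) (XT.lf (nat_lit 0) (nat_lit 1699837783) (nat_lit 0) (nat_lit 1699837783) (nat_lit 1596)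 (nat_lit 1626721143) (nat_lit 534) (nat_lit 5) (nat_lit 534) (nat_lit 3) (nat_lit 555) (nat_lit 3) (nat_lit 429) (nat_lit 429) (nat_lit 342))))) (XT.nd (nat_lit 234) (nat_lit 0) (nat_lit 76) (XT.nd (nat_lit 78) (nat_lit 1596) (nat_lit 0) (XT.lf (nat_lit 76) (nat_lit 793921990) (nat_lit 0) (nat_lit 7172588175) (nat_lit 1672) (nat_lit 2215668432) (nat_lit 535) (nat_lit 5) (nat_lit 534) (nat_lit 5) (nat_lit 556) (nat_lit 5) (nat_lit 430) (nat_lit 429) (nat_lit 341)) (XT.nd (nat_lit 78) (nat_lit 1596) (nat_lit 0) (XT.lf (nat_lit 76) (nat_lit 8510875550) (nat_lit 0) (nat_lit 684871649) (nat_lit 1672) (nat_lit 1119160899) (nat_lit 535) (nat_lit 5) (nat_lit 534) (nat_lit 5) (nat_lit 556) (nat_lit 5) (nat_lit 431) (nat_lit 429) (nat_lit 340)) (XT.lf (nat_lit 0) (nat_lit 49121715) (nat_lit 1672) (nat_lit 4425175388) (nat_lit 1748) (nat_lit 5976544606) (nat_lit 513) (nat_lit 5) (nat_lit 535) (nat_lit 5) (nat_lit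 536) (nat_lit 5) (nat_lit 432) (nat_lit 429) (nat_lit 339)))) (XT.nd (nat_lit 156) (nat_lit 0) (nat_lit 76) (XT.nd (nat_lit 78) (nat_lit 0) (nat_lit 0) (XT.lf (nat_lit 0) (nat_lit 1253547132) (nat_lit 1672) (nat_lit 7068999330) (nat_lit 1748) (nat_lit 2267836656) (nat_lit 514) (nat_lit 5) (nat_lit 536) (nat_lit 5) (nat_lit 537) (nat_lit 5) (nat_lit 433) (nat_lit 429) (nat_lit 338)) (XT.lf (nat_lit 76) (nat_lit 993836371) (nat_lit 0) (nat_lit 1529359342) (nat_lit 1748) (nat_lit 8210336865) (nat_lit 515) (nat_lit 5) (nat_lit 514) (nat_lit 5) (nat_lit 537) (nat_lit 5) (nat_lit 434) (nat_lit 429) (nat_lit 337))) (XT.nd (nat_lit 78) (nat_lit 0) (nat_lit 76) (XT.lf (nat_lit 0) (nat_lit 3878224655) (nat_lit 1672) (nat_lit 1543458189) (nat_lit 1748) (nat_lit 5458351374) (nat_lit 515) (nat_lit 5) (nat_lit 537) (nat_lit 5) (nat_lit 538) (nat_lit 5) (nat_lit 435) (nat_lit 429) (nat_lit 336)) (XT.lf (nat_lit 0)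 (nat_lit 5304737961) (nat_lit 1672) (nat_lit 4083920399) (nat_lit 1748) (nat_lit 1641659288) (nat_lit 516) (nat_lit 5) (nat_lit 538) (nat_lit 5) (nat_lit 539) (nat_lit 5) (nat_lit 436) (nat_lit 429) (nat_lit 335))))))))
noncomputable def xc85 : XT := (XT.nd (nat_lit 1950) (nat_lit 12312) (nat_lit 0) (XT.nd (nat_lit 936) (nat_lit 8968) (nat_lit 0) (XT.nd (nat_lit 468) (nat_lit 4408) (nat_lit 0) (XT.nd (nat_lit 234) (nat_lit 1596) (nat_lit 0) (XT.nd (nat_lit 78) (nat_lit 0) (nat_lit 76) (XT.lf (nat_lit 76) (nat_lit 4527541444) (nat_lit 0) (nat_lit 2288289318) (nat_lit 1748) (nat_lit 4368446449) (nat_lit 517) (nat_lit 5) (nat_lit 516) (nat_lit 5) (nat_lit 539) (nat_lit 5) (nat_lit 437) (nat_lit 429) (nat_lit 334)) (XT.nd (nat_lit 78) (nat_lit 0) (nat_lit 76) (XT.lf (nat_lit 76) (nat_lit 2082382254) (nat_lit 0) (nat_lit 6330410411) (nat_lit 1748) (nat_lit 2929255385) (nat_lit 518) (nat_lit 5) (nat_lit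 517) (nat_lit 5) (nat_lit 540) (nat_lit 5) (nat_lit 438) (nat_lit 429) (nat_lit 333)) (XT.lf (nat_lit 0) (nat_lit 10092159313) (nat_lit 1672) (nat_lit 374232381) (nat_lit 1748) (nat_lit 1037473523) (nat_lit 518) (nat_lit 5) (nat_lit 540) (nat_lit 5) (nat_lit 541) (nat_lit 5) (nat_lit 439) (nat_lit 429) (nat_lit 332)))) (XT.nd (nat_lit 78) (nat_lit 0) (nat_lit 76) (XT.lf (nat_lit 0) (nat_lit 217860513) (nat_lit 1748) (nat_lit 2842125571) (nat_lit 1824) (nat_lit 8609164616) (nat_lit 495) (nat_lit 5) (nat_lit 518) (nat_lit 5) (nat_lit 519) (nat_lit 5) (nat_lit 440) (nat_lit 429) (nat_lit 331)) (XT.nd (nat_lit 78) (nat_lit 0) (nat_lit 76) (XT.lf (nat_lit 0) (nat_lit 1921169214) (nat_lit 1748) (nat_lit 5345587495) (nat_lit 1824) (nat_lit 4571573601) (nat_lit 496) (nat_lit 5) (nat_lit 519) (nat_lit 5) (nat_lit 520) (nat_lit 5) (nat_lit 441) (nat_lit 429) (nat_lit 330)) (XT.lf (nat_lit 0) (nat_lit 3714903639)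 (nat_lit 1748) (nat_lit 7869603329) (nat_lit 1824) (nat_lit 427294611) (nat_lit 497) (nat_lit 5) (nat_lit 520) (nat_lit 5) (nat_lit 521) (nat_lit 5) (nat_lit 442) (nat_lit 429) (nat_lit 329))))) (XT.nd (nat_lit 234) (nat_lit 4560) (nat_lit 0) (XT.nd (nat_lit 78) (nat_lit 0) (nat_lit 76) (XT.lf (nat_lit 76) (nat_lit 1748806022) (nat_lit 0) (nat_lit 3880588353) (nat_lit 1824) (nat_lit 6559746443) (nat_lit 498) (nat_lit 5) (nat_lit 497) (nat_lit 5) (nat_lit 521) (nat_lit 5) (nat_lit 443) (nat_lit 429) (nat_lit 328)) (XT.nd (nat_lit 78) (nat_lit 0) (nat_lit 0) (XT.lf (nat_lit 0) (nat_lit 7652601671) (nat_lit 1748) (nat_lit 657490306) (nat_lit 1824) (nat_lit 4060685262) (nat_lit 498) (nat_lit 5) (nat_lit 521) (nat_lit 5) (nat_lit 522) (nat_lit 5) (nat_lit 444) (nat_lit 429) (nat_lit 327)) (XT.lf (nat_lit 76) (nat_lit 9494529884) (nat_lit 0) (nat_lit 301685471) (nat_lit 1824) (nat_lit 2760455757) (nat_lit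 499) (nat_lit 5) (nat_lit 498) (nat_lit 5) (nat_lit 522) (nat_lit 5) (nat_lit 445) (nat_lit 429) (nat_lit 326)))) (XT.nd (nat_lit 78) (nat_lit 2964) (nat_lit 0) (XT.lf (nat_lit 0) (nat_lit 7232195701) (nat_lit 1748) (nat_lit 4847790663) (nat_lit 1824) (nat_lit 666640948) (nat_lit 476) (nat_lit 5) (nat_lit 499) (nat_lit 5) (nat_lit 500) (nat_lit 5) (nat_lit 446) (nat_lit 429) (nat_lit 325)) (XT.nd (nat_lit 78) (nat_lit 1064) (nat_lit 0) (XT.lf (nat_lit 0) (nat_lit 1521377650) (nat_lit 1900) (nat_lit 7998394353) (nat_lit 76) (nat_lit 3421300466) (nat_lit 451) (nat_lit 5) (nat_lit 476) (nat_lit 5) (nat_lit 452) (nat_lit 5) (nat_lit 447) (nat_lit 429) (nat_lit 324)) (XT.lf (nat_lit 0) (nat_lit 2622406351) (nat_lit 1064) (nat_lit 1204615889) (nat_lit 1140) (nat_lit 9313022062) (nat_lit 437) (nat_lit 5) (nat_lit 451) (nat_lit 5) (nat_lit 452) (nat_lit 5) (nat_lit 448) (nat_lit 429) (nat_lit 323)))))) (XT.nd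 (nat_lit 468) (nat_lit 4560) (nat_lit 0) (XT.nd (nat_lit 234) (nat_lit 2584) (nat_lit 0) (XT.nd (nat_lit 78) (nat_lit 912) (nat_lit 0) (XT.lf (nat_lit 0) (nat_lit 259275438) (nat_lit 912) (nat_lit 6021146496) (nat_lit 988) (nat_lit 7062993872) (nat_lit 425) (nat_lit 5) (nat_lit 437) (nat_lit 5) (nat_lit 438) (nat_lit 5) (nat_lit 449) (nat_lit 429) (nat_lit 322)) (XT.nd (nat_lit 78) (nat_lit 912) (nat_lit 0) (XT.lf (nat_lit 0) (nat_lit 8878795405) (nat_lit 988) (nat_lit 2096464046) (nat_lit 76) (nat_lit 2576203737) (nat_lit 425) (nat_lit 5) (nat_lit 438) (nat_lit 5) (nat_lit 426) (nat_lit 5) (nat_lit 450) (nat_lit 429) (nat_lit 321)) (XT.lf (nat_lit 0) (nat_lit 9279438439) (nat_lit 912) (nat_lit 2352080806) (nat_lit 988) (nat_lit 2132706866) (nat_lit 413) (nat_lit 5) (nat_lit 425) (nat_lit 5) (nat_lit 426) (nat_lit 5) (nat_lit 451) (nat_lit 429) (nat_lit 320)))) (XT.nd (nat_lit 78) (nat_lit 1672) (nat_lit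 0) (XT.lf (nat_lit 0) (nat_lit 556678211) (nat_lit 912) (nat_lit 6915949798) (nat_lit 76) (nat_lit 6509091823) (nat_lit 401) (nat_lit 5) (nat_lit 413) (nat_lit 5) (nat_lit 402) (nat_lit 5) (nat_lit 452) (nat_lit 429) (nat_lit 319)) (XT.nd (nat_lit 78) (nat_lit 836) (nat_lit 0) (XT.lf (nat_lit 0) (nat_lit 3362033840) (nat_lit 912) (nat_lit 9384593466) (nat_lit 76) (nat_lit 1457545774) (nat_lit 390) (nat_lit 5) (nat_lit 402) (nat_lit 5) (nat_lit 391) (nat_lit 5) (nat_lit 453) (nat_lit 429) (nat_lit 318)) (XT.lf (nat_lit 0) (nat_lit 2529398339) (nat_lit 836) (nat_lit 3813084916) (nat_lit 912) (nat_lit 8088999898) (nat_lit 379) (nat_lit 5) (nat_lit 390) (nat_lit 5) (nat_lit 391) (nat_lit 5) (nat_lit 454) (nat_lit 429) (nat_lit 317))))) (XT.nd (nat_lit 234) (nat_lit 2888) (nat_lit 0) (XT.nd (nat_lit 78) (nat_lit 836) (nat_lit 0) (XT.lf (nat_lit 0) (nat_lit 209224925) (nat_lit 836) (nat_lit 9281351577) (nat_lit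 912) (nat_lit 5173473251) (nat_lit 368) (nat_lit 5) (nat_lit 379) (nat_lit 5) (nat_lit 380) (nat_lit 5) (nat_lit 455) (nat_lit 429) (nat_lit 316)) (XT.nd (nat_lit 78) (nat_lit 836) (nat_lit 0) (XT.lf (nat_lit 0) (nat_lit 12798287195) (nat_lit 836) (nat_lit 19179326) (nat_lit 912) (nat_lit 2084441530) (nat_lit 368) (nat_lit 5) (nat_lit 379) (nat_lit 5) (nat_lit 380) (nat_lit 5) (nat_lit 456) (nat_lit 429) (nat_lit 315)) (XT.lf (nat_lit 0) (nat_lit 1193708599) (nat_lit 836) (nat_lit 4478682447) (nat_lit 76) (nat_lit 9472153499) (nat_lit 357) (nat_lit 5) (nat_lit 368) (nat_lit 5) (nat_lit 358) (nat_lit 5) (nat_lit 457) (nat_lit 429) (nat_lit 314)))) (XT.nd (nat_lit 156) (nat_lit 1444) (nat_lit 0) (XT.nd (nat_lit 78) (nat_lit 684) (nat_lit 0) (XT.lf (nat_lit 0) (nat_lit 4616781739) (nat_lit 836) (nat_lit 6890357239) (nat_lit 76) (nat_lit 3885549280) (nat_lit 347) (nat_lit 5) (nat_lit 358) (nat_lit 5) (nat_lit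 348) (nat_lit 5) (nat_lit 458) (nat_lit 429) (nat_lit 313)) (XT.lf (nat_lit 0) (nat_lit 6308649172) (nat_lit 684) (nat_lit 1923113864) (nat_lit 760) (nat_lit 7414730523) (nat_lit 338) (nat_lit 5) (nat_lit 347) (nat_lit 5) (nat_lit 348) (nat_lit 5) (nat_lit 459) (nat_lit 429) (nat_lit 312))) (XT.nd (nat_lit 78) (nat_lit 684) (nat_lit 0) (XT.lf (nat_lit 0) (nat_lit 4070040976) (nat_lit 760) (nat_lit 7990389305) (nat_lit 836) (nat_lit 3845379559) (nat_lit 328) (nat_lit 5) (nat_lit 338) (nat_lit 5) (nat_lit 339) (nat_lit 5) (nat_lit 460) (nat_lit 429) (nat_lit 311)) (XT.lf (nat_lit 0) (nat_lit 1812509109) (nat_lit 684) (nat_lit 14272322273) (nat_lit 760) (nat_lit 86458255) (nat_lit 319) (nat_lit 5) (nat_lit 328) (nat_lit 5) (nat_lit 329) (nat_lit 5) (nat_lit 461) (nat_lit 429) (nat_lit 310))))))) (XT.nd (nat_lit 1014) (nat_lit 5472) (nat_lit 0) (XT.nd (nat_lit 468) (nat_lit 3496) (nat_lit 0) (XT.nd (nat_lit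 234) (nat_lit 1976) (nat_lit 0) (XT.nd (nat_lit 78) (nat_lit 1292) (nat_lit 0) (XT.lf (nat_lit 0) (nat_lit 3850670939) (nat_lit 760) (nat_lit 511712690) (nat_lit 76) (nat_lit 12079558421) (nat_lit 318) (nat_lit 5) (nat_lit 328) (nat_lit 5) (nat_lit 319) (nat_lit 5) (nat_lit 462) (nat_lit 429) (nat_lit 309)) (XT.nd (nat_lit 78) (nat_lit 608) (nat_lit 0) (XT.lf (nat_lit 0) (nat_lit 8015066745) (nat_lit 760) (nat_lit 2846800758) (nat_lit 76) (nat_lit 5856629948) (nat_lit 309) (nat_lit 5) (nat_lit 319) (nat_lit 5) (nat_lit 310) (nat_lit 5) (nat_lit 463) (nat_lit 429) (nat_lit 308)) (XT.lf (nat_lit 0) (nat_lit 11794190522) (nat_lit 608) (nat_lit 601295061) (nat_lit 684) (nat_lit 4606043458) (nat_lit 301) (nat_lit 5) (nat_lit 309) (nat_lit 5) (nat_lit 310) (nat_lit 5) (nat_lit 464) (nat_lit 429) (nat_lit 307)))) (XT.nd (nat_lit 78) (nat_lit 1292) (nat_lit 0) (XT.lf (nat_lit 0) (nat_lit 9660966245) (nat_lit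 684) (nat_lit 7375427057) (nat_lit 760) (nat_lit 254078061) (nat_lit 292) (nat_lit 5) (nat_lit 301) (nat_lit 5) (nat_lit 302) (nat_lit 5) (nat_lit 465) (nat_lit 429) (nat_lit 306)) (XT.nd (nat_lit 78) (nat_lit 608) (nat_lit 0) (XT.lf (nat_lit 0) (nat_lit 4264908010) (nat_lit 684) (nat_lit 10102848594) (nat_lit 76) (nat_lit 3217939150) (nat_lit 283) (nat_lit 5) (nat_lit 292) (nat_lit 5) (nat_lit 284) (nat_lit 5) (nat_lit 466) (nat_lit 429) (nat_lit 305)) (XT.lf (nat_lit 0) (nat_lit 5260423771) (nat_lit 608) (nat_lit 3773956508) (nat_lit 684) (nat_lit 8852996849) (nat_lit 275) (nat_lit 5) (nat_lit 283) (nat_lit 5) (nat_lit 284) (nat_lit 5) (nat_lit 467) (nat_lit 429) (nat_lit 304))))) (XT.nd (nat_lit 234) (nat_lit 2204) (nat_lit 0) (XT.nd (nat_lit 78) (nat_lit 684) (nat_lit 0) (XT.lf (nat_lit 0) (nat_lit 2997231921) (nat_lit 608) (nat_lit 11067585360) (nat_lit 684) (nat_lit 4130935228) (nat_lit 267)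 (nat_lit 5) (nat_lit 275) (nat_lit 5) (nat_lit 276) (nat_lit 5) (nat_lit 468) (nat_lit 429) (nat_lit 303)) (XT.nd (nat_lit 78) (nat_lit 0) (nat_lit 0) (XT.lf (nat_lit 0) (nat_lit 708747963) (nat_lit 608) (nat_lit 113808170) (nat_lit 684) (nat_lit 17688741411) (nat_lit 258) (nat_lit 5) (nat_lit 266) (nat_lit 5) (nat_lit 267) (nat_lit 5) (nat_lit 469) (nat_lit 429) (nat_lit 302)) (XT.lf (nat_lit 0) (nat_lit 6028759344) (nat_lit 684) (nat_lit 1655045451) (nat_lit 76) (nat_lit 11148754507) (nat_lit 258) (nat_lit 5) (nat_lit 267) (nat_lit 5) (nat_lit 259) (nat_lit 5) (nat_lit 470) (nat_lit 429) (nat_lit 301)))) (XT.nd (nat_lit 156) (nat_lit 1140) (nat_lit 0) (XT.nd (nat_lit 78) (nat_lit 532) (nat_lit 0) (XT.lf (nat_lit 0) (nat_lit 11498391041) (nat_lit 608) (nat_lit 4031441380) (nat_lit 76) (nat_lit 3631482700) (nat_lit 251) (nat_lit 5) (nat_lit 259) (nat_lit 5) (nat_lit 252) (nat_lit 5) (nat_lit 471) (nat_lit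 429) (nat_lit 300)) (XT.lf (nat_lit 0) (nat_lit 13040277117) (nat_lit 532) (nat_lit 4223670814) (nat_lit 608) (nat_lit 2233349982) (nat_lit 244) (nat_lit 5) (nat_lit 251) (nat_lit 5) (nat_lit 252) (nat_lit 5) (nat_lit 472) (nat_lit 429) (nat_lit 299))) (XT.nd (nat_lit 78) (nat_lit 532) (nat_lit 0) (XT.lf (nat_lit 0) (nat_lit 3447233041) (nat_lit 608) (nat_lit 8952681913) (nat_lit 76) (nat_lit 7440366478) (nat_lit 236) (nat_lit 5) (nat_lit 244) (nat_lit 5) (nat_lit 237) (nat_lit 5) (nat_lit 473) (nat_lit 429) (nat_lit 298)) (XT.lf (nat_lit 0) (nat_lit 8698494910) (nat_lit 532) (nat_lit 683331253) (nat_lit 608) (nat_lit 10809155291) (nat_lit 229) (nat_lit 5) (nat_lit 236) (nat_lit 5) (nat_lit 237) (nat_lit 5) (nat_lit 474) (nat_lit 429) (nat_lit 297)))))) (XT.nd (nat_lit 468) (nat_lit 2964) (nat_lit 0) (XT.nd (nat_lit 234) (nat_lit 988) (nat_lit 0) (XT.nd (nat_lit 78) (nat_lit 1064) (nat_lit 0) (XT.lf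 (nat_lit 0) (nat_lit 6440604218) (nat_lit 456) (nat_lit 9215922522) (nat_lit 532) (nat_lit 4892435260) (nat_lit 223) (nat_lit 5) (nat_lit 229) (nat_lit 5) (nat_lit 230) (nat_lit 5) (nat_lit 475) (nat_lit 429) (nat_lit 296)) (XT.nd (nat_lit 78) (nat_lit 456) (nat_lit 0) (XT.lf (nat_lit 0) (nat_lit 1300344805) (nat_lit 608) (nat_lit 16759837650) (nat_lit 76) (nat_lit 2855057927) (nat_lit 215) (nat_lit 5) (nat_lit 223) (nat_lit 5) (nat_lit 216) (nat_lit 5) (nat_lit 476) (nat_lit 429) (nat_lit 295)) (XT.lf (nat_lit 0) (nat_lit 1777836880) (nat_lit 456) (nat_lit 5990119415) (nat_lit 532) (nat_lit 13520794549) (nat_lit 209) (nat_lit 5) (nat_lit 215) (nat_lit 5) (nat_lit 216) (nat_lit 5) (nat_lit 477) (nat_lit 429) (nat_lit 294)))) (XT.nd (nat_lit 78) (nat_lit 988) (nat_lit 0) (XT.lf (nat_lit 0) (nat_lit 14571722455) (nat_lit 532) (nat_lit 632733557) (nat_lit 76) (nat_lit 6466168905) (nat_lit 209) (nat_lit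 5) (nat_lit 216) (nat_lit 5) (nat_lit 210) (nat_lit 5) (nat_lit 478) (nat_lit 429) (nat_lit 293)) (XT.nd (nat_lit 78) (nat_lit 532) (nat_lit 0) (XT.lf (nat_lit 0) (nat_lit 19001511692) (nat_lit 456) (nat_lit 2727905530) (nat_lit 532) (nat_lit 331542480) (nat_lit 203) (nat_lit 5) (nat_lit 209) (nat_lit 5) (nat_lit 210) (nat_lit 5) (nat_lit 479) (nat_lit 429) (nat_lit 292)) (XT.lf (nat_lit 0) (nat_lit 6719305128) (nat_lit 532) (nat_lit 5596713878) (nat_lit 76) (nat_lit 10142773484) (nat_lit 196) (nat_lit 5) (nat_lit 203) (nat_lit 5) (nat_lit 197) (nat_lit 5) (nat_lit 480) (nat_lit 429) (nat_lit 291))))) (XT.nd (nat_lit 234) (nat_lit 1596) (nat_lit 0) (XT.nd (nat_lit 78) (nat_lit 912) (nat_lit 0) (XT.lf (nat_lit 0) (nat_lit 14102563021) (nat_lit 532) (nat_lit 8161967516) (nat_lit 76) (nat_lit 601478848) (nat_lit 190) (nat_lit 5) (nat_lit 197) (nat_lit 5) (nat_lit 191) (nat_lit 5) (nat_lit 481) (nat_lit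 429) (nat_lit 290)) (XT.nd (nat_lit 78) (nat_lit 532) (nat_lit 0) (XT.lf (nat_lit 0) (nat_lit 12467528145) (nat_lit 380) (nat_lit 9428300057) (nat_lit 456) (nat_lit 1385845115) (nat_lit 185) (nat_lit 5) (nat_lit 190) (nat_lit 5) (nat_lit 191) (nat_lit 5) (nat_lit 482) (nat_lit 429) (nat_lit 289)) (XT.lf (nat_lit 0) (nat_lit 6266306981) (nat_lit 532) (nat_lit 13539551944) (nat_lit 76) (nat_lit 3900447966) (nat_lit 178) (nat_lit 5) (nat_lit 185) (nat_lit 5) (nat_lit 179) (nat_lit 5) (nat_lit 483) (nat_lit 429) (nat_lit 288)))) (XT.nd (nat_lit 156) (nat_lit 836) (nat_lit 0) (XT.nd (nat_lit 78) (nat_lit 380) (nat_lit 0) (XT.lf (nat_lit 0) (nat_lit 7793420277) (nat_lit 380) (nat_lit 6510705272) (nat_lit 456) (nat_lit 9835872774) (nat_lit 173) (nat_lit 5) (nat_lit 178) (nat_lit 5) (nat_lit 179) (nat_lit 5) (nat_lit 484) (nat_lit 429) (nat_lit 287)) (XT.lf (nat_lit 0) (nat_lit 5371264063) (nat_lit 380) (nat_lit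 17373294997) (nat_lit 456) (nat_lit 1838912476) (nat_lit 168) (nat_lit 5) (nat_lit 173) (nat_lit 5) (nat_lit 174) (nat_lit 5) (nat_lit 485) (nat_lit 429) (nat_lit 286))) (XT.nd (nat_lit 78) (nat_lit 380) (nat_lit 0) (XT.lf (nat_lit 0) (nat_lit 2859410064) (nat_lit 380) (nat_lit 3616016232) (nat_lit 456) (nat_lit 18560764868) (nat_lit 162) (nat_lit 5) (nat_lit 167) (nat_lit 5) (nat_lit 168) (nat_lit 5) (nat_lit 486) (nat_lit 429) (nat_lit 285)) (XT.lf (nat_lit 0) (nat_lit 259449220) (nat_lit 380) (nat_lit 14944130533) (nat_lit 456) (nat_lit 10294882755) (nat_lit 157) (nat_lit 5) (nat_lit 162) (nat_lit 5) (nat_lit 163) (nat_lit 5) (nat_lit 487) (nat_lit 429) (nat_lit 284))))))))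
noncomputable def xc86 : XT := (XT.nd (nat_lit 59124) (nat_lit 0) (nat_lit 11628) (XT.nd (nat_lit 58110) (nat_lit 0) (nat_lit 28956) (XT.nd (nat_lit 468) (nat_lit 1368) (nat_lit 0) (XT.nd (nat_lit 234) (nat_lit 1064) (nat_lit 0) (XT.nd (nat_lit 78) (nat_lit 836) (nat_lit 0) (XT.lf (nat_lit 0) (nat_lit 23629585714) (nat_lit 380) (nat_lit 726491438) (nat_lit 456) (nat_lit 1615275433) (nat_lit 157) (nat_lit 5) (nat_lit 162) (nat_lit 5) (nat_lit 163) (nat_lit 5) (nat_lit 488) (nat_lit 429) (nat_lit 283)) (XT.nd (nat_lit 78) (nat_lit 380) (nat_lit 0) (XT.lf (nat_lit 0) (nat_lit 7448003580) (nat_lit 456) (nat_lit 5088070798) (nat_lit 76) (nat_lit 13917017428) (nat_lit 151) (nat_lit 5) (nat_lit 157) (nat_lit 5) (nat_lit 152) (nat_lit 5) (nat_lit 489) (nat_lit 429) (nat_lit 282)) (XT.lf (nat_lit 0) (nat_lit 16908946192) (nat_lit 456) (nat_lit 7877751881) (nat_lit 76) (nat_lit 2159417915) (nat_lit 146) (nat_lit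 5) (nat_lit 152) (nat_lit 5) (nat_lit 147) (nat_lit 5) (nat_lit 490) (nat_lit 429) (nat_lit 281)))) (XT.nd (nat_lit 78) (nat_lit 760) (nat_lit 0) (XT.lf (nat_lit 0) (nat_lit 16682984971) (nat_lit 304) (nat_lit 10186414350) (nat_lit 380) (nat_lit 580218449) (nat_lit 142) (nat_lit 5) (nat_lit 146) (nat_lit 5) (nat_lit 147) (nat_lit 5) (nat_lit 491) (nat_lit 429) (nat_lit 280)) (XT.nd (nat_lit 78) (nat_lit 304) (nat_lit 0) (XT.lf (nat_lit 0) (nat_lit 9208215311) (nat_lit 456) (nat_lit 13766640080) (nat_lit 76) (nat_lit 4988821902) (nat_lit 136) (nat_lit 5) (nat_lit 142) (nat_lit 5) (nat_lit 137) (nat_lit 5) (nat_lit 492) (nat_lit 429) (nat_lit 279)) (XT.lf (nat_lit 0) (nat_lit 11627908980) (nat_lit 304) (nat_lit 7860745534) (nat_lit 380) (nat_lit 9000303155) (nat_lit 132) (nat_lit 5) (nat_lit 136) (nat_lit 5) (nat_lit 137) (nat_lit 5) (nat_lit 493) (nat_lit 429) (nat_lit 278))))) (XT.nd (nat_lit 234)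 (nat_lit 380) (nat_lit 0) (XT.nd (nat_lit 78) (nat_lit 608) (nat_lit 0) (XT.lf (nat_lit 0) (nat_lit 1226677764) (nat_lit 380) (nat_lit 20039611417) (nat_lit 76) (nat_lit 7759713596) (nat_lit 127) (nat_lit 5) (nat_lit 132) (nat_lit 5) (nat_lit 128) (nat_lit 5) (nat_lit 494) (nat_lit 429) (nat_lit 277)) (XT.nd (nat_lit 78) (nat_lit 304) (nat_lit 0) (XT.lf (nat_lit 0) (nat_lit 6214009190) (nat_lit 304) (nat_lit 5622230075) (nat_lit 380) (nat_lit 17737769577) (nat_lit 123) (nat_lit 5) (nat_lit 127) (nat_lit 5) (nat_lit 128) (nat_lit 5) (nat_lit 495) (nat_lit 429) (nat_lit 276)) (XT.lf (nat_lit 0) (nat_lit 3351708696) (nat_lit 304) (nat_lit 19628532946) (nat_lit 380) (nat_lit 7153890797) (nat_lit 119) (nat_lit 5) (nat_lit 123) (nat_lit 5) (nat_lit 124) (nat_lit 5) (nat_lit 496) (nat_lit 429) (nat_lit 275)))) (XT.nd (nat_lit 57252) (nat_lit 0) (nat_lit 31920) (XT.lf (nat_lit 0) (nat_lit 402024432) (nat_lit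 304) (nat_lit 3485591747) (nat_lit 380) (nat_lit 26819172127) (nat_lit 114) (nat_lit 5) (nat_lit 118) (nat_lit 5) (nat_lit 119) (nat_lit 5) (nat_lit 497) (nat_lit 429) (nat_lit 274)) (XT.nd (nat_lit 78) (nat_lit 0) (nat_lit 0) (XT.lf (nat_lit 0) (nat_lit 2265957202) (nat_lit 0) (nat_lit 2265957202) (nat_lit 1596) (nat_lit 624566879) (nat_lit 534) (nat_lit 5) (nat_lit 534) (nat_lit 3) (nat_lit 555) (nat_lit 3) (nat_lit 430) (nat_lit 430) (nat_lit 340)) (XT.lf (nat_lit 76) (nat_lit 1878596948) (nat_lit 0) (nat_lit 8327784744) (nat_lit 1672) (nat_lit 241045990) (nat_lit 535) (nat_lit 5) (nat_lit 534) (nat_lit 5) (nat_lit 556) (nat_lit 5) (nat_lit 431) (nat_lit 430) (nat_lit 339)))))) (XT.nd (nat_lit 468) (nat_lit 1292) (nat_lit 0) (XT.nd (nat_lit 234) (nat_lit 0) (nat_lit 152) (XT.nd (nat_lit 78) (nat_lit 0) (nat_lit 76) (XT.lf (nat_lit 0) (nat_lit 818036202) (nat_lit 1672) (nat_lit 794531875) (nat_lit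 1748) (nat_lit 8972634703) (nat_lit 512) (nat_lit 5) (nat_lit 534) (nat_lit 5) (nat_lit 535) (nat_lit 5) (nat_lit 432) (nat_lit 430) (nat_lit 338)) (XT.nd (nat_lit 78) (nat_lit 0) (nat_lit 76) (XT.lf (nat_lit 0) (nat_lit 1950408593) (nat_lit 1672) (nat_lit 3475009981) (nat_lit 1748) (nat_lit 5300768456) (nat_lit 513) (nat_lit 5) (nat_lit 535) (nat_lit 5) (nat_lit 536) (nat_lit 5) (nat_lit 433) (nat_lit 430) (nat_lit 337)) (XT.lf (nat_lit 0) (nat_lit 3137445854) (nat_lit 1672) (nat_lit 6173407988) (nat_lit 1748) (nat_lit 1560136606) (nat_lit 514) (nat_lit 5) (nat_lit 536) (nat_lit 5) (nat_lit 537) (nat_lit 5) (nat_lit 434) (nat_lit 430) (nat_lit 336)))) (XT.nd (nat_lit 78) (nat_lit 0) (nat_lit 76) (XT.lf (nat_lit 76) (nat_lit 2113342295) (nat_lit 0) (nat_lit 2285141090) (nat_lit 1748) (nat_lit 6620890211) (nat_lit 515) (nat_lit 5) (nat_lit 514) (nat_lit 5) (nat_lit 537) (nat_lit 5) (nat_lit 435) (nat_lit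 430) (nat_lit 335)) (XT.nd (nat_lit 78) (nat_lit 0) (nat_lit 76) (XT.lf (nat_lit 0) (nat_lit 5737272999) (nat_lit 1672) (nat_lit 492223157) (nat_lit 1748) (nat_lit 4941916975) (nat_lit 515) (nat_lit 5) (nat_lit 537) (nat_lit 5) (nat_lit 538) (nat_lit 5) (nat_lit 436) (nat_lit 430) (nat_lit 334)) (XT.lf (nat_lit 0) (nat_lit 7158813350) (nat_lit 1672) (nat_lit 3088542844) (nat_lit 1748) (nat_lit 1079809133) (nat_lit 516) (nat_lit 5) (nat_lit 538) (nat_lit 5) (nat_lit 539) (nat_lit 5) (nat_lit 437) (nat_lit 430) (nat_lit 333))))) (XT.nd (nat_lit 234) (nat_lit 0) (nat_lit 0) (XT.nd (nat_lit 78) (nat_lit 1596) (nat_lit 0) (XT.lf (nat_lit 76) (nat_lit 5763126333) (nat_lit 0) (nat_lit 2909885977) (nat_lit 1748) (nat_lit 2813580652) (nat_lit 517) (nat_lit 5) (nat_lit 516) (nat_lit 5) (nat_lit 539) (nat_lit 5) (nat_lit 438) (nat_lit 430) (nat_lit 332)) (XT.nd (nat_lit 78) (nat_lit 1672) (nat_lit 0) (XT.lf (nat_lit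 76) (nat_lit 3262975680) (nat_lit 0) (nat_lit 7010544354) (nat_lit 1748) (nat_lit 1376468767) (nat_lit 518) (nat_lit 5) (nat_lit 517) (nat_lit 5) (nat_lit 540) (nat_lit 5) (nat_lit 439) (nat_lit 430) (nat_lit 331)) (XT.lf (nat_lit 0) (nat_lit 138754265) (nat_lit 1748) (nat_lit 11074152487) (nat_lit 1824) (nat_lit 604642004) (nat_lit 495) (nat_lit 5) (nat_lit 518) (nat_lit 5) (nat_lit 519) (nat_lit 5) (nat_lit 440) (nat_lit 430) (nat_lit 330)))) (XT.nd (nat_lit 156) (nat_lit 0) (nat_lit 152) (XT.nd (nat_lit 78) (nat_lit 0) (nat_lit 76) (XT.lf (nat_lit 0) (nat_lit 1754778696) (nat_lit 1748) (nat_lit 1805055539) (nat_lit 1824) (nat_lit 8428641195) (nat_lit 495) (nat_lit 5) (nat_lit 518) (nat_lit 5) (nat_lit 519) (nat_lit 5) (nat_lit 441) (nat_lit 430) (nat_lit 329)) (XT.lf (nat_lit 0) (nat_lit 3469256445) (nat_lit 1748) (nat_lit 4369307628) (nat_lit 1824) (nat_lit 4324969098) (nat_lit 496) (nat_lit 5)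 (nat_lit 519) (nat_lit 5) (nat_lit 520) (nat_lit 5) (nat_lit 442) (nat_lit 430) (nat_lit 328))) (XT.nd (nat_lit 78) (nat_lit 0) (nat_lit 0) (XT.lf (nat_lit 0) (nat_lit 5278469668) (nat_lit 1748) (nat_lit 6956082539) (nat_lit 1824) (nat_lit 108427056) (nat_lit 497) (nat_lit 5) (nat_lit 520) (nat_lit 5) (nat_lit 521) (nat_lit 5) (nat_lit 443) (nat_lit 430) (nat_lit 327)) (XT.lf (nat_lit 76) (nat_lit 2932228055) (nat_lit 0) (nat_lit 4283215274) (nat_lit 1824) (nat_lit 5310898289) (nat_lit 498) (nat_lit 5) (nat_lit 497) (nat_lit 5) (nat_lit 521) (nat_lit 5) (nat_lit 444) (nat_lit 430) (nat_lit 326))))))) (XT.nd (nat_lit 936) (nat_lit 7676) (nat_lit 0) (XT.nd (nat_lit 468) (nat_lit 4332) (nat_lit 0) (XT.nd (nat_lit 234) (nat_lit 3800) (nat_lit 0) (XT.nd (nat_lit 78) (nat_lit 1748) (nat_lit 0) (XT.lf (nat_lit 76) (nat_lit 456234147) (nat_lit 0) (nat_lit 8802994022) (nat_lit 1824) (nat_lit 3455005125) (nat_lit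 499) (nat_lit 5) (nat_lit 498) (nat_lit 5) (nat_lit 522) (nat_lit 5) (nat_lit 445) (nat_lit 430) (nat_lit 325)) (XT.nd (nat_lit 78) (nat_lit 1748) (nat_lit 0) (XT.lf (nat_lit 76) (nat_lit 10888539562) (nat_lit 0) (nat_lit 542828089) (nat_lit 1824) (nat_lit 1475055662) (nat_lit 499) (nat_lit 5) (nat_lit 498) (nat_lit 5) (nat_lit 522) (nat_lit 5) (nat_lit 446) (nat_lit 430) (nat_lit 324)) (XT.lf (nat_lit 0) (nat_lit 639148229) (nat_lit 1824) (nat_lit 4538618437) (nat_lit 76) (nat_lit 7924896257) (nat_lit 475) (nat_lit 5) (nat_lit 499) (nat_lit 5) (nat_lit 476) (nat_lit 5) (nat_lit 447) (nat_lit 430) (nat_lit 323)))) (XT.nd (nat_lit 78) (nat_lit 1976) (nat_lit 0) (XT.lf (nat_lit 0) (nat_lit 2851623589) (nat_lit 1900) (nat_lit 7093087563) (nat_lit 76) (nat_lit 3358788088) (nat_lit 451) (nat_lit 5) (nat_lit 476) (nat_lit 5) (nat_lit 452) (nat_lit 5) (nat_lit 448) (nat_lit 430) (nat_lit 322)) (XT.nd (nat_lit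 78) (nat_lit 912) (nat_lit 0) (XT.lf (nat_lit 0) (nat_lit 3827756701) (nat_lit 1064) (nat_lit 1368580289) (nat_lit 1140) (nat_lit 8312708548) (nat_lit 437) (nat_lit 5) (nat_lit 451) (nat_lit 5) (nat_lit 452) (nat_lit 5) (nat_lit 449) (nat_lit 430) (nat_lit 321)) (XT.lf (nat_lit 0) (nat_lit 1401060563) (nat_lit 912) (nat_lit 6292296125) (nat_lit 988) (nat_lit 6025764344) (nat_lit 425) (nat_lit 5) (nat_lit 437) (nat_lit 5) (nat_lit 438) (nat_lit 5) (nat_lit 450) (nat_lit 430) (nat_lit 320))))) (XT.nd (nat_lit 234) (nat_lit 2508) (nat_lit 0) (XT.nd (nat_lit 78) (nat_lit 1824) (nat_lit 0) (XT.lf (nat_lit 0) (nat_lit 10333445104) (nat_lit 988) (nat_lit 1033929040) (nat_lit 76) (nat_lit 2566763528) (nat_lit 425) (nat_lit 5) (nat_lit 438) (nat_lit 5) (nat_lit 426) (nat_lit 5) (nat_lit 451) (nat_lit 430) (nat_lit 319)) (XT.nd (nat_lit 78) (nat_lit 912) (nat_lit 0) (XT.lf (nat_lit 0) (nat_lit 10664991772) (nat_lit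 912) (nat_lit 2476337103) (nat_lit 988) (nat_lit 1012506064) (nat_lit 413) (nat_lit 5) (nat_lit 425) (nat_lit 5) (nat_lit 426) (nat_lit 5) (nat_lit 452) (nat_lit 430) (nat_lit 318)) (XT.lf (nat_lit 0) (nat_lit 1714921575) (nat_lit 912) (nat_lit 5995671690) (nat_lit 76) (nat_lit 6667651474) (nat_lit 401) (nat_lit 5) (nat_lit 413) (nat_lit 5) (nat_lit 402) (nat_lit 5) (nat_lit 453) (nat_lit 430) (nat_lit 317)))) (XT.nd (nat_lit 78) (nat_lit 1672) (nat_lit 0) (XT.lf (nat_lit 0) (nat_lit 4578353199) (nat_lit 912) (nat_lit 8534228994) (nat_lit 76) (nat_lit 1495313877) (nat_lit 390) (nat_lit 5) (nat_lit 402) (nat_lit 5) (nat_lit 391) (nat_lit 5) (nat_lit 454) (nat_lit 430) (nat_lit 316)) (XT.nd (nat_lit 78) (nat_lit 836) (nat_lit 0) (XT.lf (nat_lit 0) (nat_lit 3718818796) (nat_lit 836) (nat_lit 3904138053) (nat_lit 912) (nat_lit 7219576491) (nat_lit 379) (nat_lit 5) (nat_lit 390) (nat_lit 5) (nat_lit 391)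 (nat_lit 5) (nat_lit 455) (nat_lit 430) (nat_lit 315)) (XT.lf (nat_lit 0) (nat_lit 1332364362) (nat_lit 836) (nat_lit 9508773695) (nat_lit 912) (nat_lit 4241428609) (nat_lit 368) (nat_lit 5) (nat_lit 379) (nat_lit 5) (nat_lit 380) (nat_lit 5) (nat_lit 456) (nat_lit 430) (nat_lit 314)))))) (XT.nd (nat_lit 468) (nat_lit 3876) (nat_lit 0) (XT.nd (nat_lit 234) (nat_lit 2204) (nat_lit 0) (XT.nd (nat_lit 78) (nat_lit 1596) (nat_lit 0) (XT.lf (nat_lit 0) (nat_lit 14236984106) (nat_lit 912) (nat_lit 1061808967) (nat_lit 76) (nat_lit 29387208) (nat_lit 368) (nat_lit 5) (nat_lit 380) (nat_lit 5) (nat_lit 369) (nat_lit 5) (nat_lit 457) (nat_lit 430) (nat_lit 313)) (XT.nd (nat_lit 78) (nat_lit 760) (nat_lit 0) (XT.lf (nat_lit 0) (nat_lit 2248332954) (nat_lit 836) (nat_lit 3512554077) (nat_lit 76) (nat_lit 9817536549) (nat_lit 357) (nat_lit 5) (nat_lit 368) (nat_lit 5) (nat_lit 358) (nat_lit 5) (nat_lit 458) (nat_lit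 430) (nat_lit 312)) (XT.lf (nat_lit 0) (nat_lit 5752014701) (nat_lit 836) (nat_lit 5994992594) (nat_lit 76) (nat_lit 4087448340) (nat_lit 347) (nat_lit 5) (nat_lit 358) (nat_lit 5) (nat_lit 348) (nat_lit 5) (nat_lit 459) (nat_lit 430) (nat_lit 311)))) (XT.nd (nat_lit 78) (nat_lit 1520) (nat_lit 0) (XT.lf (nat_lit 0) (nat_lit 7582104146) (nat_lit 684) (nat_lit 1871349651) (nat_lit 760) (nat_lit 6642863424) (nat_lit 338) (nat_lit 5) (nat_lit 347) (nat_lit 5) (nat_lit 348) (nat_lit 5) (nat_lit 460) (nat_lit 430) (nat_lit 310)) (XT.nd (nat_lit 78) (nat_lit 760) (nat_lit 0) (XT.lf (nat_lit 0) (nat_lit 5277302405) (nat_lit 760) (nat_lit 8099023783) (nat_lit 836) (nat_lit 2987502124) (nat_lit 328) (nat_lit 5) (nat_lit 338) (nat_lit 5) (nat_lit 339) (nat_lit 5) (nat_lit 461) (nat_lit 430) (nat_lit 309)) (XT.lf (nat_lit 0) (nat_lit 852542154) (nat_lit 760) (nat_lit 13690834824) (nat_lit 76) (nat_lit 2094183796)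 (nat_lit 318) (nat_lit 5) (nat_lit 328) (nat_lit 5) (nat_lit 319) (nat_lit 5) (nat_lit 462) (nat_lit 430) (nat_lit 308))))) (XT.nd (nat_lit 234) (nat_lit 2584) (nat_lit 0) (XT.nd (nat_lit 78) (nat_lit 608) (nat_lit 0) (XT.lf (nat_lit 0) (nat_lit 546246590) (nat_lit 684) (nat_lit 4336526242) (nat_lit 760) (nat_lit 12034027311) (nat_lit 309) (nat_lit 5) (nat_lit 318) (nat_lit 5) (nat_lit 319) (nat_lit 5) (nat_lit 463) (nat_lit 430) (nat_lit 307)) (XT.nd (nat_lit 78) (nat_lit 608) (nat_lit 0) (XT.lf (nat_lit 0) (nat_lit 9149780730) (nat_lit 760) (nat_lit 1866433874) (nat_lit 76) (nat_lit 6185885992) (nat_lit 309) (nat_lit 5) (nat_lit 319) (nat_lit 5) (nat_lit 310) (nat_lit 5) (nat_lit 464) (nat_lit 430) (nat_lit 306)) (XT.lf (nat_lit 0) (nat_lit 13196496278) (nat_lit 608) (nat_lit 445876818) (nat_lit 684) (nat_lit 3851636757) (nat_lit 301) (nat_lit 5) (nat_lit 309) (nat_lit 5) (nat_lit 310) (nat_lit 5)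 (nat_lit 465) (nat_lit 430) (nat_lit 305)))) (XT.nd (nat_lit 156) (nat_lit 1216) (nat_lit 0) (XT.nd (nat_lit 78) (nat_lit 608) (nat_lit 0) (XT.lf (nat_lit 0) (nat_lit 604904323) (nat_lit 760) (nat_lit 6797516684) (nat_lit 76) (nat_lit 10389473540) (nat_lit 291) (nat_lit 5) (nat_lit 301) (nat_lit 5) (nat_lit 292) (nat_lit 5) (nat_lit 466) (nat_lit 430) (nat_lit 304)) (XT.lf (nat_lit 0) (nat_lit 5238932389) (nat_lit 684) (nat_lit 9348268122) (nat_lit 76) (nat_lit 3509084874) (nat_lit 283) (nat_lit 5) (nat_lit 292) (nat_lit 5) (nat_lit 284) (nat_lit 5) (nat_lit 467) (nat_lit 430) (nat_lit 303))) (XT.nd (nat_lit 78) (nat_lit 608) (nat_lit 0) (XT.lf (nat_lit 0) (nat_lit 6458743041) (nat_lit 608) (nat_lit 3674858422) (nat_lit 684) (nat_lit 8273775224) (nat_lit 275) (nat_lit 5) (nat_lit 283) (nat_lit 5) (nat_lit 284) (nat_lit 5) (nat_lit 468) (nat_lit 430) (nat_lit 302)) (XT.lf (nat_lit 0) (nat_lit 4125770402)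 (nat_lit 608) (nat_lit 11173140910) (nat_lit 684) (nat_lit 3426414510) (nat_lit 267) (nat_lit 5) (nat_lit 275) (nat_lit 5) (nat_lit 276) (nat_lit 5) (nat_lit 469) (nat_lit 430) (nat_lit 301))))))))
noncomputable def xc87 : XT := (XT.nd (nat_lit 1950) (nat_lit 988) (nat_lit 0) (XT.nd (nat_lit 936) (nat_lit 4864) (nat_lit 0) (XT.nd (nat_lit 468) (nat_lit 2508) (nat_lit 0) (XT.nd (nat_lit 234) (nat_lit 1672) (nat_lit 0) (XT.nd (nat_lit 78) (nat_lit 532) (nat_lit 0) (XT.lf (nat_lit 0) (nat_lit 1648452467) (nat_lit 684) (nat_lit 17288794122) (nat_lit 76) (nat_lit 113311927) (nat_lit 258) (nat_lit 5) (nat_lit 267) (nat_lit 5) (nat_lit 259) (nat_lit 5) (nat_lit 470) (nat_lit 430) (nat_lit 300)) (XT.nd (nat_lit 78) (nat_lit 532) (nat_lit 0) (XT.lf (nat_lit 0) (nat_lit 6988244197) (nat_lit 684) (nat_lit 688123163) (nat_lit 76) (nat_lit 11705544279) (nat_lit 258) (nat_lit 5) (nat_lit 267) (nat_lit 5) (nat_lit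 259) (nat_lit 5) (nat_lit 471) (nat_lit 430) (nat_lit 299)) (XT.lf (nat_lit 0) (nat_lit 12607322663) (nat_lit 608) (nat_lit 3138547386) (nat_lit 76) (nat_lit 3974954440) (nat_lit 251) (nat_lit 5) (nat_lit 259) (nat_lit 5) (nat_lit 252) (nat_lit 5) (nat_lit 472) (nat_lit 430) (nat_lit 298)))) (XT.nd (nat_lit 78) (nat_lit 1140) (nat_lit 0) (XT.lf (nat_lit 0) (nat_lit 14428874361) (nat_lit 532) (nat_lit 4101195768) (nat_lit 608) (nat_lit 1537133630) (nat_lit 244) (nat_lit 5) (nat_lit 251) (nat_lit 5) (nat_lit 252) (nat_lit 5) (nat_lit 473) (nat_lit 430) (nat_lit 297)) (XT.nd (nat_lit 78) (nat_lit 532) (nat_lit 0) (XT.lf (nat_lit 0) (nat_lit 4289999207) (nat_lit 608) (nat_lit 8217004779) (nat_lit 76) (nat_lit 7913652250) (nat_lit 236) (nat_lit 5) (nat_lit 244) (nat_lit 5) (nat_lit 237) (nat_lit 5) (nat_lit 474) (nat_lit 430) (nat_lit 296)) (XT.lf (nat_lit 0) (nat_lit 9947414462) (nat_lit 532) (nat_lit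 440095740) (nat_lit 608) (nat_lit 10394670813) (nat_lit 229) (nat_lit 5) (nat_lit 236) (nat_lit 5) (nat_lit 237) (nat_lit 5) (nat_lit 475) (nat_lit 430) (nat_lit 295))))) (XT.nd (nat_lit 234) (nat_lit 988) (nat_lit 0) (XT.nd (nat_lit 78) (nat_lit 1064) (nat_lit 0) (XT.lf (nat_lit 0) (nat_lit 7618368083) (nat_lit 456) (nat_lit 9219044454) (nat_lit 532) (nat_lit 4313750547) (nat_lit 223) (nat_lit 5) (nat_lit 229) (nat_lit 5) (nat_lit 230) (nat_lit 5) (nat_lit 476) (nat_lit 430) (nat_lit 294)) (XT.nd (nat_lit 78) (nat_lit 456) (nat_lit 0) (XT.lf (nat_lit 0) (nat_lit 2042590807) (nat_lit 608) (nat_lit 16272382348) (nat_lit 76) (nat_lit 3213617865) (nat_lit 215) (nat_lit 5) (nat_lit 223) (nat_lit 5) (nat_lit 216) (nat_lit 5) (nat_lit 477) (nat_lit 430) (nat_lit 293)) (XT.lf (nat_lit 0) (nat_lit 2805356781) (nat_lit 456) (nat_lit 5884716323) (nat_lit 532) (nat_lit 13223518062) (nat_lit 209) (nat_lit 5) (nat_lit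 215) (nat_lit 5) (nat_lit 216) (nat_lit 5) (nat_lit 478) (nat_lit 430) (nat_lit 292)))) (XT.nd (nat_lit 78) (nat_lit 532) (nat_lit 0) (XT.lf (nat_lit 0) (nat_lit 309780166) (nat_lit 456) (nat_lit 15371910331) (nat_lit 532) (nat_lit 6625557385) (nat_lit 203) (nat_lit 5) (nat_lit 209) (nat_lit 5) (nat_lit 210) (nat_lit 5) (nat_lit 479) (nat_lit 430) (nat_lit 291)) (XT.nd (nat_lit 78) (nat_lit 456) (nat_lit 0) (XT.lf (nat_lit 0) (nat_lit 324763758) (nat_lit 532) (nat_lit 2198282401) (nat_lit 76) (nat_lit 20186513645) (nat_lit 202) (nat_lit 5) (nat_lit 209) (nat_lit 5) (nat_lit 203) (nat_lit 5) (nat_lit 480) (nat_lit 430) (nat_lit 290)) (XT.lf (nat_lit 0) (nat_lit 7571317458) (nat_lit 532) (nat_lit 4818161699) (nat_lit 76) (nat_lit 10730031982) (nat_lit 196) (nat_lit 5) (nat_lit 203) (nat_lit 5) (nat_lit 197) (nat_lit 5) (nat_lit 481) (nat_lit 430) (nat_lit 289)))))) (XT.nd (nat_lit 468) (nat_lit 2280)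 (nat_lit 0) (XT.nd (nat_lit 234) (nat_lit 1216) (nat_lit 0) (XT.nd (nat_lit 78) (nat_lit 912) (nat_lit 0) (XT.lf (nat_lit 0) (nat_lit 15165079758) (nat_lit 532) (nat_lit 7464847972) (nat_lit 76) (nat_lit 909237741) (nat_lit 190) (nat_lit 5) (nat_lit 197) (nat_lit 5) (nat_lit 191) (nat_lit 5) (nat_lit 482) (nat_lit 430) (nat_lit 288)) (XT.nd (nat_lit 78) (nat_lit 532) (nat_lit 0) (XT.lf (nat_lit 0) (nat_lit 13768250077) (nat_lit 380) (nat_lit 9411285082) (nat_lit 456) (nat_lit 788017347) (nat_lit 185) (nat_lit 5) (nat_lit 190) (nat_lit 5) (nat_lit 191) (nat_lit 5) (nat_lit 483) (nat_lit 430) (nat_lit 287)) (XT.lf (nat_lit 0) (nat_lit 7074863630) (nat_lit 532) (nat_lit 13015345498) (nat_lit 76) (nat_lit 4314842907) (nat_lit 178) (nat_lit 5) (nat_lit 185) (nat_lit 5) (nat_lit 179) (nat_lit 5) (nat_lit 484) (nat_lit 430) (nat_lit 286)))) (XT.nd (nat_lit 78) (nat_lit 836) (nat_lit 0) (XT.lf (nat_lit 0)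 (nat_lit 8942521369) (nat_lit 380) (nat_lit 6399163332) (nat_lit 456) (nat_lit 9510313105) (nat_lit 173) (nat_lit 5) (nat_lit 178) (nat_lit 5) (nat_lit 179) (nat_lit 5) (nat_lit 485) (nat_lit 430) (nat_lit 285)) (XT.nd (nat_lit 78) (nat_lit 456) (nat_lit 0) (XT.lf (nat_lit 0) (nat_lit 6442893333) (nat_lit 380) (nat_lit 17582562307) (nat_lit 456) (nat_lit 1283518010) (nat_lit 168) (nat_lit 5) (nat_lit 173) (nat_lit 5) (nat_lit 174) (nat_lit 5) (nat_lit 486) (nat_lit 430) (nat_lit 284)) (XT.lf (nat_lit 0) (nat_lit 3848819528) (nat_lit 380) (nat_lit 3411740593) (nat_lit 456) (nat_lit 18514870006) (nat_lit 162) (nat_lit 5) (nat_lit 167) (nat_lit 5) (nat_lit 168) (nat_lit 5) (nat_lit 487) (nat_lit 430) (nat_lit 283))))) (XT.nd (nat_lit 234) (nat_lit 1444) (nat_lit 0) (XT.nd (nat_lit 78) (nat_lit 456) (nat_lit 0) (XT.lf (nat_lit 0) (nat_lit 1165856478) (nat_lit 380) (nat_lit 15075297805) (nat_lit 456) (nat_lit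 10010604262) (nat_lit 157) (nat_lit 5) (nat_lit 162) (nat_lit 5) (nat_lit 163) (nat_lit 5) (nat_lit 488) (nat_lit 430) (nat_lit 282)) (XT.nd (nat_lit 78) (nat_lit 456) (nat_lit 0) (XT.lf (nat_lit 0) (nat_lit 25210923559) (nat_lit 380) (nat_lit 440367109) (nat_lit 456) (nat_lit 1087884205) (nat_lit 157) (nat_lit 5) (nat_lit 162) (nat_lit 5) (nat_lit 163) (nat_lit 5) (nat_lit 489) (nat_lit 430) (nat_lit 281)) (XT.lf (nat_lit 0) (nat_lit 8230811754) (nat_lit 456) (nat_lit 4365789193) (nat_lit 76) (nat_lit 14638869918) (nat_lit 151) (nat_lit 5) (nat_lit 157) (nat_lit 5) (nat_lit 152) (nat_lit 5) (nat_lit 490) (nat_lit 430) (nat_lit 280)))) (XT.nd (nat_lit 156) (nat_lit 760) (nat_lit 0) (XT.nd (nat_lit 78) (nat_lit 304) (nat_lit 0) (XT.lf (nat_lit 0) (nat_lit 17966904928) (nat_lit 456) (nat_lit 7244382589) (nat_lit 76) (nat_lit 2532172578) (nat_lit 146) (nat_lit 5) (nat_lit 152) (nat_lit 5) (nat_lit 147)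 (nat_lit 5) (nat_lit 491) (nat_lit 430) (nat_lit 279)) (XT.lf (nat_lit 0) (nat_lit 18039066489) (nat_lit 304) (nat_lit 10176620707) (nat_lit 380) (nat_lit 46590168) (nat_lit 142) (nat_lit 5) (nat_lit 146) (nat_lit 5) (nat_lit 147) (nat_lit 5) (nat_lit 492) (nat_lit 430) (nat_lit 278))) (XT.nd (nat_lit 78) (nat_lit 304) (nat_lit 0) (XT.lf (nat_lit 0) (nat_lit 10019989436) (nat_lit 456) (nat_lit 13322148990) (nat_lit 76) (nat_lit 5449715005) (nat_lit 136) (nat_lit 5) (nat_lit 142) (nat_lit 5) (nat_lit 137) (nat_lit 5) (nat_lit 493) (nat_lit 430) (nat_lit 277)) (XT.lf (nat_lit 0) (nat_lit 12820324780) (nat_lit 304) (nat_lit 7778396214) (nat_lit 380) (nat_lit 8734374330) (nat_lit 132) (nat_lit 5) (nat_lit 136) (nat_lit 5) (nat_lit 137) (nat_lit 5) (nat_lit 494) (nat_lit 430) (nat_lit 276))))))) (XT.nd (nat_lit 58266) (nat_lit 0) (nat_lit 22268) (XT.nd (nat_lit 57720) (nat_lit 0) (nat_lit 28500) (XT.nd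 (nat_lit 57486) (nat_lit 0) (nat_lit 29792) (XT.nd (nat_lit 78) (nat_lit 608) (nat_lit 0) (XT.lf (nat_lit 0) (nat_lit 1784479197) (nat_lit 380) (nat_lit 19795633671) (nat_lit 76) (nat_lit 8306228136) (nat_lit 127) (nat_lit 5) (nat_lit 132) (nat_lit 5) (nat_lit 128) (nat_lit 5) (nat_lit 495) (nat_lit 430) (nat_lit 275)) (XT.nd (nat_lit 78) (nat_lit 304) (nat_lit 0) (XT.lf (nat_lit 0) (nat_lit 7231883739) (nat_lit 304) (nat_lit 5470667368) (nat_lit 380) (nat_lit 17748432309) (nat_lit 123) (nat_lit 5) (nat_lit 127) (nat_lit 5) (nat_lit 128) (nat_lit 5) (nat_lit 496) (nat_lit 430) (nat_lit 274)) (XT.lf (nat_lit 0) (nat_lit 4278258927) (nat_lit 304) (nat_lit 19895106108) (nat_lit 380) (nat_lit 6854696473) (nat_lit 119) (nat_lit 5) (nat_lit 123) (nat_lit 5) (nat_lit 124) (nat_lit 5) (nat_lit 497) (nat_lit 430) (nat_lit 273)))) (XT.nd (nat_lit 78) (nat_lit 0) (nat_lit 76) (XT.lf (nat_lit 0) (nat_lit 342767642)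 (nat_lit 1748) (nat_lit 2474422168) (nat_lit 1748) (nat_lit 2474422168) (nat_lit 511) (nat_lit 3) (nat_lit 534) (nat_lit 3) (nat_lit 534) (nat_lit 5) (nat_lit 431) (nat_lit 431) (nat_lit 338)) (XT.nd (nat_lit 78) (nat_lit 0) (nat_lit 0) (XT.lf (nat_lit 0) (nat_lit 1653671640) (nat_lit 1672) (nat_lit 7798907631) (nat_lit 1748) (nat_lit 1270145958) (nat_lit 512) (nat_lit 5) (nat_lit 534) (nat_lit 5) (nat_lit 535) (nat_lit 5) (nat_lit 432) (nat_lit 431) (nat_lit 337)) (XT.lf (nat_lit 76) (nat_lit 179497026) (nat_lit 0) (nat_lit 2507636751) (nat_lit 1748) (nat_lit 8178555639) (nat_lit 513) (nat_lit 5) (nat_lit 512) (nat_lit 5) (nat_lit 535) (nat_lit 5) (nat_lit 433) (nat_lit 431) (nat_lit 336))))) (XT.nd (nat_lit 234) (nat_lit 1444) (nat_lit 0) (XT.nd (nat_lit 78) (nat_lit 0) (nat_lit 76) (XT.lf (nat_lit 0) (nat_lit 3799677026) (nat_lit 1672) (nat_lit 2558503687) (nat_lit 1748) (nat_lit 4653803680) (nat_lit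 513) (nat_lit 5) (nat_lit 535) (nat_lit 5) (nat_lit 536) (nat_lit 5) (nat_lit 434) (nat_lit 431) (nat_lit 335)) (XT.nd (nat_lit 78) (nat_lit 0) (nat_lit 0) (XT.lf (nat_lit 0) (nat_lit 4971876807) (nat_lit 1672) (nat_lit 5314533196) (nat_lit 1748) (nat_lit 875735925) (nat_lit 514) (nat_lit 5) (nat_lit 536) (nat_lit 5) (nat_lit 537) (nat_lit 5) (nat_lit 435) (nat_lit 431) (nat_lit 334)) (XT.lf (nat_lit 76) (nat_lit 3203880686) (nat_lit 0) (nat_lit 3022845070) (nat_lit 1748) (nat_lit 5089140106) (nat_lit 515) (nat_lit 5) (nat_lit 514) (nat_lit 5) (nat_lit 537) (nat_lit 5) (nat_lit 436) (nat_lit 431) (nat_lit 333)))) (XT.nd (nat_lit 156) (nat_lit 1596) (nat_lit 0) (XT.nd (nat_lit 78) (nat_lit 0) (nat_lit 76) (XT.lf (nat_lit 76) (nat_lit 534556513) (nat_lit 0) (nat_lit 7020968774) (nat_lit 1748) (nat_lit 3917949124) (nat_lit 516) (nat_lit 5) (nat_lit 515) (nat_lit 5) (nat_lit 538) (nat_lit 5) (nat_lit 437)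 (nat_lit 431) (nat_lit 332)) (XT.lf (nat_lit 0) (nat_lit 8971214899) (nat_lit 1672) (nat_lit 2127475718) (nat_lit 1748) (nat_lit 536183109) (nat_lit 516) (nat_lit 5) (nat_lit 538) (nat_lit 5) (nat_lit 539) (nat_lit 5) (nat_lit 438) (nat_lit 431) (nat_lit 331))) (XT.nd (nat_lit 78) (nat_lit 1672) (nat_lit 0) (XT.lf (nat_lit 76) (nat_lit 6972648123) (nat_lit 0) (nat_lit 3518389060) (nat_lit 1748) (nat_lit 1308847540) (nat_lit 517) (nat_lit 5) (nat_lit 516) (nat_lit 5) (nat_lit 539) (nat_lit 5) (nat_lit 439) (nat_lit 431) (nat_lit 330)) (XT.lf (nat_lit 0) (nat_lit 127032413) (nat_lit 1748) (nat_lit 7555056721) (nat_lit 1824) (nat_lit 4286917267) (nat_lit 494) (nat_lit 5) (nat_lit 517) (nat_lit 5) (nat_lit 518) (nat_lit 5) (nat_lit 440) (nat_lit 431) (nat_lit 329)))))) (XT.nd (nat_lit 468) (nat_lit 6308) (nat_lit 0) (XT.nd (nat_lit 234) (nat_lit 0) (nat_lit 76) (XT.nd (nat_lit 78) (nat_lit 0) (nat_lit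 0) (XT.lf (nat_lit 0) (nat_lit 1628725016) (nat_lit 1748) (nat_lit 10316732596) (nat_lit 1824) (nat_lit 196763439) (nat_lit 495) (nat_lit 5) (nat_lit 518) (nat_lit 5) (nat_lit 519) (nat_lit 5) (nat_lit 441) (nat_lit 431) (nat_lit 328)) (XT.nd (nat_lit 78) (nat_lit 0) (nat_lit 76) (XT.lf (nat_lit 0) (nat_lit 3249954216) (nat_lit 1748) (nat_lit 801299956) (nat_lit 1824) (nat_lit 8267890892) (nat_lit 495) (nat_lit 5) (nat_lit 518) (nat_lit 5) (nat_lit 519) (nat_lit 5) (nat_lit 442) (nat_lit 431) (nat_lit 327)) (XT.lf (nat_lit 0) (nat_lit 4978228243) (nat_lit 1748) (nat_lit 3428987581) (nat_lit 1824) (nat_lit 4092995377) (nat_lit 496) (nat_lit 5) (nat_lit 519) (nat_lit 5) (nat_lit 520) (nat_lit 5) (nat_lit 443) (nat_lit 431) (nat_lit 326)))) (XT.nd (nat_lit 78) (nat_lit 0) (nat_lit 76) (XT.lf (nat_lit 76) (nat_lit 6603270152) (nat_lit 0) (nat_lit 203637106) (nat_lit 1824) (nat_lit 5878833419) (nat_lit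 497) (nat_lit 5) (nat_lit 496) (nat_lit 5) (nat_lit 520) (nat_lit 5) (nat_lit 444) (nat_lit 431) (nat_lit 325)) (XT.nd (nat_lit 78) (nat_lit 0) (nat_lit 76) (XT.lf (nat_lit 76) (nat_lit 4086231141) (nat_lit 0) (nat_lit 4681491420) (nat_lit 1824) (nat_lit 4107570372) (nat_lit 498) (nat_lit 5) (nat_lit 497) (nat_lit 5) (nat_lit 521) (nat_lit 5) (nat_lit 445) (nat_lit 431) (nat_lit 324)) (XT.lf (nat_lit 76) (nat_lit 1546788920) (nat_lit 0) (nat_lit 9292415934) (nat_lit 1824) (nat_lit 2230292397) (nat_lit 499) (nat_lit 5) (nat_lit 498) (nat_lit 5) (nat_lit 522) (nat_lit 5) (nat_lit 446) (nat_lit 431) (nat_lit 323))))) (XT.nd (nat_lit 234) (nat_lit 2964) (nat_lit 0) (XT.nd (nat_lit 78) (nat_lit 3572) (nat_lit 0) (XT.lf (nat_lit 76) (nat_lit 12260698417) (nat_lit 0) (nat_lit 777881953) (nat_lit 1824) (nat_lit 229634632) (nat_lit 499) (nat_lit 5) (nat_lit 498) (nat_lit 5) (nat_lit 522) (nat_lit 5) (nat_lit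 447) (nat_lit 431) (nat_lit 322)) (XT.nd (nat_lit 78) (nat_lit 1824) (nat_lit 0) (XT.lf (nat_lit 0) (nat_lit 1899516943) (nat_lit 1824) (nat_lit 3603245272) (nat_lit 76) (nat_lit 7968046701) (nat_lit 475) (nat_lit 5) (nat_lit 499) (nat_lit 5) (nat_lit 476) (nat_lit 5) (nat_lit 448) (nat_lit 431) (nat_lit 321)) (XT.lf (nat_lit 0) (nat_lit 4148035346) (nat_lit 1900) (nat_lit 6226364100) (nat_lit 76) (nat_lit 3303880704) (nat_lit 451) (nat_lit 5) (nat_lit 476) (nat_lit 5) (nat_lit 452) (nat_lit 5) (nat_lit 449) (nat_lit 431) (nat_lit 320)))) (XT.nd (nat_lit 156) (nat_lit 988) (nat_lit 0) (XT.nd (nat_lit 78) (nat_lit 912) (nat_lit 0) (XT.lf (nat_lit 0) (nat_lit 5004591626) (nat_lit 1064) (nat_lit 1530125890) (nat_lit 1140) (nat_lit 7355845884) (nat_lit 437) (nat_lit 5) (nat_lit 451) (nat_lit 5) (nat_lit 452) (nat_lit 5) (nat_lit 450) (nat_lit 431) (nat_lit 319)) (XT.lf (nat_lit 0) (nat_lit 2512002609)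 (nat_lit 912) (nat_lit 6566384298) (nat_lit 988) (nat_lit 5029122491) (nat_lit 425) (nat_lit 5) (nat_lit 437) (nat_lit 5) (nat_lit 438) (nat_lit 5) (nat_lit 451) (nat_lit 431) (nat_lit 318))) (XT.nd (nat_lit 78) (nat_lit 988) (nat_lit 0) (XT.lf (nat_lit 0) (nat_lit 11763521825) (nat_lit 988) (nat_lit 4122209) (nat_lit 76) (nat_lit 2562018558) (nat_lit 425) (nat_lit 5) (nat_lit 438) (nat_lit 5) (nat_lit 426) (nat_lit 5) (nat_lit 452) (nat_lit 431) (nat_lit 317)) (XT.lf (nat_lit 0) (nat_lit 72362214) (nat_lit 988) (nat_lit 2528391037) (nat_lit 76) (nat_lit 11955707805) (nat_lit 412) (nat_lit 5) (nat_lit 425) (nat_lit 5) (nat_lit 413) (nat_lit 5) (nat_lit 453) (nat_lit 431) (nat_lit 316))))))))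
noncomputable def xc88 : XT := (XT.nd (nat_lit 1950) (nat_lit 6992) (nat_lit 0) (XT.nd (nat_lit 936) (nat_lit 7144) (nat_lit 0) (XT.nd (nat_lit 468) (nat_lit 3648) (nat_lit 0) (XT.nd (nat_lit 234) (nat_lit 1672) (nat_lit 0) (XT.nd (nat_lit 78) (nat_lit 1672) (nat_lit 0) (XT.lf (nat_lit 0) (nat_lit 2842383001) (nat_lit 912) (nat_lit 5112523082) (nat_lit 76) (nat_lit 6833075398) (nat_lit 401) (nat_lit 5) (nat_lit 413) (nat_lit 5) (nat_lit 402) (nat_lit 5) (nat_lit 454) (nat_lit 431) (nat_lit 315)) (XT.nd (nat_lit 78) (nat_lit 836) (nat_lit 0) (XT.lf (nat_lit 0) (nat_lit 5767130266) (nat_lit 912) (nat_lit 7723329410) (nat_lit 76) (nat_lit 1534557053) (nat_lit 390) (nat_lit 5) (nat_lit 402) (nat_lit 5) (nat_lit 391) (nat_lit 5) (nat_lit 455) (nat_lit 431) (nat_lit 314)) (XT.lf (nat_lit 0) (nat_lit 4880000200) (nat_lit 836) (nat_lit 3999262563) (nat_lit 912) (nat_lit 6387909092) (nat_lit 379) (nat_lit 5)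 (nat_lit 390) (nat_lit 5) (nat_lit 391) (nat_lit 5) (nat_lit 456) (nat_lit 431) (nat_lit 313)))) (XT.nd (nat_lit 78) (nat_lit 836) (nat_lit 0) (XT.lf (nat_lit 0) (nat_lit 2425085494) (nat_lit 836) (nat_lit 9745947143) (nat_lit 912) (nat_lit 3343835159) (nat_lit 368) (nat_lit 5) (nat_lit 379) (nat_lit 5) (nat_lit 380) (nat_lit 5) (nat_lit 457) (nat_lit 431) (nat_lit 312)) (XT.nd (nat_lit 78) (nat_lit 836) (nat_lit 0) (XT.lf (nat_lit 0) (nat_lit 15639795250) (nat_lit 912) (nat_lit 52290575) (nat_lit 76) (nat_lit 76345579) (nat_lit 368) (nat_lit 5) (nat_lit 380) (nat_lit 5) (nat_lit 369) (nat_lit 5) (nat_lit 458) (nat_lit 431) (nat_lit 311)) (XT.lf (nat_lit 0) (nat_lit 3276112000) (nat_lit 836) (nat_lit 2580614418) (nat_lit 76) (nat_lit 10169766901) (nat_lit 357) (nat_lit 5) (nat_lit 368) (nat_lit 5) (nat_lit 358) (nat_lit 5) (nat_lit 459) (nat_lit 431) (nat_lit 310))))) (XT.nd (nat_lit 234) (nat_lit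 1444) (nat_lit 0) (XT.nd (nat_lit 78) (nat_lit 1444) (nat_lit 0) (XT.lf (nat_lit 0) (nat_lit 6864088301) (nat_lit 836) (nat_lit 5136030644) (nat_lit 76) (nat_lit 4290505934) (nat_lit 347) (nat_lit 5) (nat_lit 358) (nat_lit 5) (nat_lit 348) (nat_lit 5) (nat_lit 460) (nat_lit 431) (nat_lit 309)) (XT.nd (nat_lit 78) (nat_lit 760) (nat_lit 0) (XT.lf (nat_lit 0) (nat_lit 8831525512) (nat_lit 684) (nat_lit 1824315827) (nat_lit 760) (nat_lit 5904917717) (nat_lit 338) (nat_lit 5) (nat_lit 347) (nat_lit 5) (nat_lit 348) (nat_lit 5) (nat_lit 461) (nat_lit 431) (nat_lit 308)) (XT.lf (nat_lit 0) (nat_lit 6458489042) (nat_lit 760) (nat_lit 8218441663) (nat_lit 836) (nat_lit 2159756256) (nat_lit 328) (nat_lit 5) (nat_lit 338) (nat_lit 5) (nat_lit 339) (nat_lit 5) (nat_lit 462) (nat_lit 431) (nat_lit 307)))) (XT.nd (nat_lit 78) (nat_lit 684) (nat_lit 0) (XT.lf (nat_lit 0) (nat_lit 1764560330) (nat_lit 760) (nat_lit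 13066466142) (nat_lit 76) (nat_lit 2287865748) (nat_lit 318) (nat_lit 5) (nat_lit 328) (nat_lit 5) (nat_lit 319) (nat_lit 5) (nat_lit 463) (nat_lit 431) (nat_lit 306)) (XT.nd (nat_lit 78) (nat_lit 0) (nat_lit 0) (XT.lf (nat_lit 0) (nat_lit 1580934548) (nat_lit 684) (nat_lit 4315556166) (nat_lit 760) (nat_lit 11510404138) (nat_lit 309) (nat_lit 5) (nat_lit 318) (nat_lit 5) (nat_lit 319) (nat_lit 5) (nat_lit 464) (nat_lit 431) (nat_lit 305)) (XT.lf (nat_lit 0) (nat_lit 10267201839) (nat_lit 760) (nat_lit 917835593) (nat_lit 76) (nat_lit 6516204909) (nat_lit 309) (nat_lit 5) (nat_lit 319) (nat_lit 5) (nat_lit 310) (nat_lit 5) (nat_lit 465) (nat_lit 431) (nat_lit 304)))))) (XT.nd (nat_lit 468) (nat_lit 3268) (nat_lit 0) (XT.nd (nat_lit 234) (nat_lit 1900) (nat_lit 0) (XT.nd (nat_lit 78) (nat_lit 1368) (nat_lit 0) (XT.lf (nat_lit 0) (nat_lit 14580684163) (nat_lit 608) (nat_lit 295753174) (nat_lit 684) (nat_lit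 3125836057) (nat_lit 301) (nat_lit 5) (nat_lit 309) (nat_lit 5) (nat_lit 310) (nat_lit 5) (nat_lit 466) (nat_lit 431) (nat_lit 303)) (XT.nd (nat_lit 78) (nat_lit 608) (nat_lit 0) (XT.lf (nat_lit 0) (nat_lit 1436674299) (nat_lit 760) (nat_lit 6003068677) (nat_lit 76) (nat_lit 10869577991) (nat_lit 291) (nat_lit 5) (nat_lit 301) (nat_lit 5) (nat_lit 292) (nat_lit 5) (nat_lit 467) (nat_lit 431) (nat_lit 302)) (XT.lf (nat_lit 0) (nat_lit 6193609212) (nat_lit 684) (nat_lit 8631764587) (nat_lit 76) (nat_lit 3797793699) (nat_lit 283) (nat_lit 5) (nat_lit 292) (nat_lit 5) (nat_lit 284) (nat_lit 5) (nat_lit 468) (nat_lit 431) (nat_lit 301)))) (XT.nd (nat_lit 78) (nat_lit 1292) (nat_lit 0) (XT.lf (nat_lit 0) (nat_lit 7633282555) (nat_lit 608) (nat_lit 3584975245) (nat_lit 684) (nat_lit 7725672589) (nat_lit 275) (nat_lit 5) (nat_lit 283) (nat_lit 5) (nat_lit 284) (nat_lit 5) (nat_lit 469) (nat_lit 431) (nat_lit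 300)) (XT.nd (nat_lit 78) (nat_lit 684) (nat_lit 0) (XT.lf (nat_lit 0) (nat_lit 5228543914) (nat_lit 608) (nat_lit 11294863547) (nat_lit 684) (nat_lit 2748314519) (nat_lit 267) (nat_lit 5) (nat_lit 275) (nat_lit 5) (nat_lit 276) (nat_lit 5) (nat_lit 470) (nat_lit 431) (nat_lit 299)) (XT.lf (nat_lit 0) (nat_lit 2453849801) (nat_lit 684) (nat_lit 16820493235) (nat_lit 76) (nat_lit 332562874) (nat_lit 258) (nat_lit 5) (nat_lit 267) (nat_lit 5) (nat_lit 259) (nat_lit 5) (nat_lit 471) (nat_lit 431) (nat_lit 298))))) (XT.nd (nat_lit 234) (nat_lit 2204) (nat_lit 0) (XT.nd (nat_lit 78) (nat_lit 532) (nat_lit 0) (XT.lf (nat_lit 0) (nat_lit 252766383) (nat_lit 532) (nat_lit 7680692247) (nat_lit 608) (nat_lit 12015149999) (nat_lit 251) (nat_lit 5) (nat_lit 258) (nat_lit 5) (nat_lit 259) (nat_lit 5) (nat_lit 472) (nat_lit 431) (nat_lit 297)) (XT.nd (nat_lit 78) (nat_lit 532) (nat_lit 0) (XT.lf (nat_lit 0) (nat_lit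 13705666664) (nat_lit 608) (nat_lit 2277064977) (nat_lit 76) (nat_lit 4315267509) (nat_lit 251) (nat_lit 5) (nat_lit 259) (nat_lit 5) (nat_lit 252) (nat_lit 5) (nat_lit 473) (nat_lit 431) (nat_lit 296)) (XT.lf (nat_lit 0) (nat_lit 15801875318) (nat_lit 532) (nat_lit 3989350719) (nat_lit 608) (nat_lit 863842556) (nat_lit 244) (nat_lit 5) (nat_lit 251) (nat_lit 5) (nat_lit 252) (nat_lit 5) (nat_lit 474) (nat_lit 431) (nat_lit 295)))) (XT.nd (nat_lit 156) (nat_lit 1064) (nat_lit 0) (XT.nd (nat_lit 78) (nat_lit 532) (nat_lit 0) (XT.lf (nat_lit 0) (nat_lit 5115606691) (nat_lit 608) (nat_lit 7516905825) (nat_lit 76) (nat_lit 8386781280) (nat_lit 236) (nat_lit 5) (nat_lit 244) (nat_lit 5) (nat_lit 237) (nat_lit 5) (nat_lit 475) (nat_lit 431) (nat_lit 294)) (XT.lf (nat_lit 0) (nat_lit 11177088386) (nat_lit 532) (nat_lit 204702656) (nat_lit 608) (nat_lit 10010159597) (nat_lit 229) (nat_lit 5) (nat_lit 236)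 (nat_lit 5) (nat_lit 237) (nat_lit 5) (nat_lit 476) (nat_lit 431) (nat_lit 293))) (XT.nd (nat_lit 78) (nat_lit 608) (nat_lit 0) (XT.lf (nat_lit 0) (nat_lit 8774947911) (nat_lit 456) (nat_lit 9237951781) (nat_lit 532) (nat_lit 3759349536) (nat_lit 223) (nat_lit 5) (nat_lit 229) (nat_lit 5) (nat_lit 230) (nat_lit 5) (nat_lit 477) (nat_lit 431) (nat_lit 292)) (XT.lf (nat_lit 0) (nat_lit 2766735587) (nat_lit 608) (nat_lit 15827147813) (nat_lit 76) (nat_lit 3567268555) (nat_lit 215) (nat_lit 5) (nat_lit 223) (nat_lit 5) (nat_lit 216) (nat_lit 5) (nat_lit 478) (nat_lit 431) (nat_lit 291))))))) (XT.nd (nat_lit 936) (nat_lit 2584) (nat_lit 0) (XT.nd (nat_lit 468) (nat_lit 2128) (nat_lit 0) (XT.nd (nat_lit 234) (nat_lit 1292) (nat_lit 0) (XT.nd (nat_lit 78) (nat_lit 532) (nat_lit 0) (XT.lf (nat_lit 0) (nat_lit 3807780086) (nat_lit 456) (nat_lit 5792517428) (nat_lit 532) (nat_lit 12957672636) (nat_lit 209) (nat_lit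 5) (nat_lit 215) (nat_lit 5) (nat_lit 216) (nat_lit 5) (nat_lit 479) (nat_lit 431) (nat_lit 290)) (XT.nd (nat_lit 78) (nat_lit 76) (nat_lit 0) (XT.lf (nat_lit 0) (nat_lit 1233539295) (nat_lit 456) (nat_lit 15556837349) (nat_lit 532) (nat_lit 6173286774) (nat_lit 203) (nat_lit 5) (nat_lit 209) (nat_lit 5) (nat_lit 210) (nat_lit 5) (nat_lit 480) (nat_lit 431) (nat_lit 289)) (XT.lf (nat_lit 0) (nat_lit 958291973) (nat_lit 532) (nat_lit 1368074894) (nat_lit 76) (nat_lit 21051968625) (nat_lit 202) (nat_lit 5) (nat_lit 209) (nat_lit 5) (nat_lit 203) (nat_lit 5) (nat_lit 481) (nat_lit 431) (nat_lit 288)))) (XT.nd (nat_lit 78) (nat_lit 836) (nat_lit 0) (XT.lf (nat_lit 0) (nat_lit 8411552633) (nat_lit 532) (nat_lit 4070583262) (nat_lit 76) (nat_lit 11318664295) (nat_lit 196) (nat_lit 5) (nat_lit 203) (nat_lit 5) (nat_lit 197) (nat_lit 5) (nat_lit 482) (nat_lit 431) (nat_lit 287)) (XT.nd (nat_lit 78) (nat_lit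 380) (nat_lit 0) (XT.lf (nat_lit 0) (nat_lit 16222765535) (nat_lit 532) (nat_lit 6800888264) (nat_lit 76) (nat_lit 1209598601) (nat_lit 190) (nat_lit 5) (nat_lit 197) (nat_lit 5) (nat_lit 191) (nat_lit 5) (nat_lit 483) (nat_lit 431) (nat_lit 286)) (XT.lf (nat_lit 0) (nat_lit 15054797520) (nat_lit 380) (nat_lit 9410973077) (nat_lit 456) (nat_lit 208959100) (nat_lit 185) (nat_lit 5) (nat_lit 190) (nat_lit 5) (nat_lit 191) (nat_lit 5) (nat_lit 484) (nat_lit 431) (nat_lit 285))))) (XT.nd (nat_lit 234) (nat_lit 836) (nat_lit 0) (XT.nd (nat_lit 78) (nat_lit 760) (nat_lit 0) (XT.lf (nat_lit 0) (nat_lit 7872053869) (nat_lit 532) (nat_lit 12528821223) (nat_lit 76) (nat_lit 4724598782) (nat_lit 178) (nat_lit 5) (nat_lit 185) (nat_lit 5) (nat_lit 179) (nat_lit 5) (nat_lit 485) (nat_lit 431) (nat_lit 284)) (XT.nd (nat_lit 78) (nat_lit 380) (nat_lit 0) (XT.lf (nat_lit 0) (nat_lit 10073553616) (nat_lit 380) (nat_lit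 6301890330) (nat_lit 456) (nat_lit 9210613681) (nat_lit 173) (nat_lit 5) (nat_lit 178) (nat_lit 5) (nat_lit 179) (nat_lit 5) (nat_lit 486) (nat_lit 431) (nat_lit 283)) (XT.lf (nat_lit 0) (nat_lit 7494405553) (nat_lit 380) (nat_lit 17816013783) (nat_lit 456) (nat_lit 746510457) (nat_lit 168) (nat_lit 5) (nat_lit 173) (nat_lit 5) (nat_lit 174) (nat_lit 5) (nat_lit 487) (nat_lit 431) (nat_lit 282)))) (XT.nd (nat_lit 78) (nat_lit 380) (nat_lit 0) (XT.lf (nat_lit 0) (nat_lit 4816039381) (nat_lit 380) (nat_lit 3219290165) (nat_lit 456) (nat_lit 18502196767) (nat_lit 162) (nat_lit 5) (nat_lit 167) (nat_lit 5) (nat_lit 168) (nat_lit 5) (nat_lit 488) (nat_lit 431) (nat_lit 281)) (XT.nd (nat_lit 78) (nat_lit 0) (nat_lit 0) (XT.lf (nat_lit 0) (nat_lit 2047871273) (nat_lit 380) (nat_lit 15228606185) (nat_lit 456) (nat_lit 9751845213) (nat_lit 157) (nat_lit 5) (nat_lit 162) (nat_lit 5) (nat_lit 163) (nat_lit 5)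 (nat_lit 489) (nat_lit 431) (nat_lit 280)) (XT.lf (nat_lit 0) (nat_lit 26789619324) (nat_lit 380) (nat_lit 163334866) (nat_lit 456) (nat_lit 577727356) (nat_lit 157) (nat_lit 5) (nat_lit 162) (nat_lit 5) (nat_lit 163) (nat_lit 5) (nat_lit 490) (nat_lit 431) (nat_lit 279)))))) (XT.nd (nat_lit 468) (nat_lit 304) (nat_lit 0) (XT.nd (nat_lit 234) (nat_lit 1064) (nat_lit 0) (XT.nd (nat_lit 78) (nat_lit 760) (nat_lit 0) (XT.lf (nat_lit 0) (nat_lit 9004994158) (nat_lit 456) (nat_lit 3672063342) (nat_lit 76) (nat_lit 15364907509) (nat_lit 151) (nat_lit 5) (nat_lit 157) (nat_lit 5) (nat_lit 152) (nat_lit 5) (nat_lit 491) (nat_lit 431) (nat_lit 278)) (XT.nd (nat_lit 78) (nat_lit 380) (nat_lit 0) (XT.lf (nat_lit 0) (nat_lit 19024990546) (nat_lit 456) (nat_lit 6641936662) (nat_lit 76) (nat_lit 2898431022) (nat_lit 146) (nat_lit 5) (nat_lit 152) (nat_lit 5) (nat_lit 147) (nat_lit 5) (nat_lit 492) (nat_lit 431)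 (nat_lit 277)) (XT.lf (nat_lit 0) (nat_lit 465232611) (nat_lit 380) (nat_lit 9716283138) (nat_lit 76) (nat_lit 18918361407) (nat_lit 141) (nat_lit 5) (nat_lit 146) (nat_lit 5) (nat_lit 142) (nat_lit 5) (nat_lit 493) (nat_lit 431) (nat_lit 276)))) (XT.nd (nat_lit 78) (nat_lit 684) (nat_lit 0) (XT.lf (nat_lit 0) (nat_lit 10825375307) (nat_lit 456) (nat_lit 12913546619) (nat_lit 76) (nat_lit 5906569115) (nat_lit 136) (nat_lit 5) (nat_lit 142) (nat_lit 5) (nat_lit 137) (nat_lit 5) (nat_lit 494) (nat_lit 431) (nat_lit 275)) (XT.nd (nat_lit 78) (nat_lit 380) (nat_lit 0) (XT.lf (nat_lit 0) (nat_lit 14000088195) (nat_lit 304) (nat_lit 7711840771) (nat_lit 380) (nat_lit 8491232669) (nat_lit 132) (nat_lit 5) (nat_lit 136) (nat_lit 5) (nat_lit 137) (nat_lit 5) (nat_lit 495) (nat_lit 431) (nat_lit 274)) (XT.lf (nat_lit 0) (nat_lit 2329107080) (nat_lit 380) (nat_lit 19592852583) (nat_lit 76) (nat_lit 8851129122)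 (nat_lit 127) (nat_lit 5) (nat_lit 132) (nat_lit 5) (nat_lit 128) (nat_lit 5) (nat_lit 496) (nat_lit 431) (nat_lit 273))))) (XT.nd (nat_lit 57564) (nat_lit 0) (nat_lit 29564) (XT.nd (nat_lit 57408) (nat_lit 0) (nat_lit 29488) (XT.lf (nat_lit 0) (nat_lit 8232565648) (nat_lit 304) (nat_lit 5332940270) (nat_lit 380) (nat_lit 17789349455) (nat_lit 123) (nat_lit 5) (nat_lit 127) (nat_lit 5) (nat_lit 128) (nat_lit 5) (nat_lit 497) (nat_lit 431) (nat_lit 272)) (XT.nd (nat_lit 78) (nat_lit 0) (nat_lit 76) (XT.lf (nat_lit 0) (nat_lit 1274564936) (nat_lit 1748) (nat_lit 2078637979) (nat_lit 1748) (nat_lit 2078637979) (nat_lit 511) (nat_lit 3) (nat_lit 534) (nat_lit 3) (nat_lit 534) (nat_lit 5) (nat_lit 432) (nat_lit 432) (nat_lit 336)) (XT.lf (nat_lit 0) (nat_lit 3492981863) (nat_lit 1672) (nat_lit 7066359596) (nat_lit 1748) (nat_lit 449098402) (nat_lit 512) (nat_lit 5) (nat_lit 534) (nat_lit 5) (nat_lit 535)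 (nat_lit 5) (nat_lit 433) (nat_lit 432) (nat_lit 335)))) (XT.nd (nat_lit 156) (nat_lit 0) (nat_lit 152) (XT.nd (nat_lit 78) (nat_lit 0) (nat_lit 76) (XT.lf (nat_lit 76) (nat_lit 1135716639) (nat_lit 0) (nat_lit 3375777488) (nat_lit 1748) (nat_lit 6645122964) (nat_lit 513) (nat_lit 5) (nat_lit 512) (nat_lit 5) (nat_lit 535) (nat_lit 5) (nat_lit 434) (nat_lit 432) (nat_lit 334)) (XT.lf (nat_lit 0) (nat_lit 5601626782) (nat_lit 1672) (nat_lit 1673097810) (nat_lit 1748) (nat_lit 4033696960) (nat_lit 513) (nat_lit 5) (nat_lit 535) (nat_lit 5) (nat_lit 536) (nat_lit 5) (nat_lit 435) (nat_lit 432) (nat_lit 333))) (XT.nd (nat_lit 78) (nat_lit 0) (nat_lit 0) (XT.lf (nat_lit 0) (nat_lit 6761439915) (nat_lit 1672) (nat_lit 4489826454) (nat_lit 1748) (nat_lit 212777370) (nat_lit 514) (nat_lit 5) (nat_lit 536) (nat_lit 5) (nat_lit 537) (nat_lit 5) (nat_lit 436) (nat_lit 432) (nat_lit 332)) (XT.lf (nat_lit 76) (nat_lit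 4268173298) (nat_lit 0) (nat_lit 3744268237) (nat_lit 1748) (nat_lit 3610768205) (nat_lit 515) (nat_lit 5) (nat_lit 514) (nat_lit 5) (nat_lit 537) (nat_lit 5) (nat_lit 437) (nat_lit 432) (nat_lit 331))))))))
noncomputable def xc89 : XT := (XT.nd (nat_lit 1950) (nat_lit 12920) (nat_lit 0) (XT.nd (nat_lit 936) (nat_lit 10336) (nat_lit 0) (XT.nd (nat_lit 468) (nat_lit 1444) (nat_lit 0) (XT.nd (nat_lit 234) (nat_lit 0) (nat_lit 76) (XT.nd (nat_lit 78) (nat_lit 1672) (nat_lit 0) (XT.lf (nat_lit 76) (nat_lit 1538701413) (nat_lit 0) (nat_lit 7798272890) (nat_lit 1748) (nat_lit 2449459338) (nat_lit 516) (nat_lit 5) (nat_lit 515) (nat_lit 5) (nat_lit 538) (nat_lit 5) (nat_lit 438) (nat_lit 432) (nat_lit 330)) (XT.nd (nat_lit 78) (nat_lit 1748) (nat_lit 0) (XT.lf (nat_lit 0) (nat_lit 10746277586) (nat_lit 1672) (nat_lit 1198064613) (nat_lit 1748) (nat_lit 9314226) (nat_lit 516) (nat_lit 5) (nat_lit 538) (nat_lit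 5) (nat_lit 539) (nat_lit 5) (nat_lit 439) (nat_lit 432) (nat_lit 329)) (XT.lf (nat_lit 0) (nat_lit 147839685) (nat_lit 1748) (nat_lit 3966396082) (nat_lit 1824) (nat_lit 8010117112) (nat_lit 493) (nat_lit 5) (nat_lit 516) (nat_lit 5) (nat_lit 517) (nat_lit 5) (nat_lit 440) (nat_lit 432) (nat_lit 328)))) (XT.nd (nat_lit 78) (nat_lit 0) (nat_lit 0) (XT.lf (nat_lit 0) (nat_lit 1569434232) (nat_lit 1748) (nat_lit 6769019444) (nat_lit 1824) (nat_lit 3960717115) (nat_lit 494) (nat_lit 5) (nat_lit 517) (nat_lit 5) (nat_lit 518) (nat_lit 5) (nat_lit 441) (nat_lit 432) (nat_lit 327)) (XT.nd (nat_lit 78) (nat_lit 0) (nat_lit 76) (XT.lf (nat_lit 76) (nat_lit 2877872411) (nat_lit 0) (nat_lit 201539543) (nat_lit 1824) (nat_lit 9398909142) (nat_lit 495) (nat_lit 5) (nat_lit 494) (nat_lit 5) (nat_lit 518) (nat_lit 5) (nat_lit 442) (nat_lit 432) (nat_lit 326)) (XT.lf (nat_lit 76) (nat_lit 174123753) (nat_lit 0) (nat_lit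 4534184527) (nat_lit 1824) (nat_lit 7953067733) (nat_lit 496) (nat_lit 5) (nat_lit 495) (nat_lit 5) (nat_lit 519) (nat_lit 5) (nat_lit 443) (nat_lit 432) (nat_lit 325))))) (XT.nd (nat_lit 234) (nat_lit 1672) (nat_lit 0) (XT.nd (nat_lit 78) (nat_lit 0) (nat_lit 0) (XT.lf (nat_lit 0) (nat_lit 6451822525) (nat_lit 1748) (nat_lit 2521960635) (nat_lit 1824) (nat_lit 3874826813) (nat_lit 496) (nat_lit 5) (nat_lit 519) (nat_lit 5) (nat_lit 520) (nat_lit 5) (nat_lit 444) (nat_lit 432) (nat_lit 324)) (XT.nd (nat_lit 78) (nat_lit 0) (nat_lit 76) (XT.lf (nat_lit 76) (nat_lit 7794880458) (nat_lit 0) (nat_lit 508361679) (nat_lit 1824) (nat_lit 4737109162) (nat_lit 497) (nat_lit 5) (nat_lit 496) (nat_lit 5) (nat_lit 520) (nat_lit 5) (nat_lit 445) (nat_lit 432) (nat_lit 323)) (XT.lf (nat_lit 76) (nat_lit 5213659479) (nat_lit 0) (nat_lit 5076229392) (nat_lit 1824) (nat_lit 2946364580) (nat_lit 498) (nat_lit 5) (nat_lit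 497) (nat_lit 5) (nat_lit 521) (nat_lit 5) (nat_lit 446) (nat_lit 432) (nat_lit 322)))) (XT.nd (nat_lit 78) (nat_lit 1824) (nat_lit 0) (XT.lf (nat_lit 76) (nat_lit 2608243722) (nat_lit 0) (nat_lit 9783585520) (nat_lit 1824) (nat_lit 1045091752) (nat_lit 499) (nat_lit 5) (nat_lit 498) (nat_lit 5) (nat_lit 522) (nat_lit 5) (nat_lit 447) (nat_lit 432) (nat_lit 321)) (XT.nd (nat_lit 78) (nat_lit 0) (nat_lit 76) (XT.lf (nat_lit 0) (nat_lit 966275250) (nat_lit 1824) (nat_lit 34669730) (nat_lit 1900) (nat_lit 12641246442) (nat_lit 474) (nat_lit 5) (nat_lit 498) (nat_lit 5) (nat_lit 499) (nat_lit 5) (nat_lit 448) (nat_lit 432) (nat_lit 320)) (XT.lf (nat_lit 0) (nat_lit 3126447089) (nat_lit 1824) (nat_lit 2701321217) (nat_lit 76) (nat_lit 8023662289) (nat_lit 475) (nat_lit 5) (nat_lit 499) (nat_lit 5) (nat_lit 476) (nat_lit 5) (nat_lit 449) (nat_lit 432) (nat_lit 319)))))) (XT.nd (nat_lit 468) (nat_lit 4788)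 (nat_lit 0) (XT.nd (nat_lit 234) (nat_lit 1824) (nat_lit 0) (XT.nd (nat_lit 78) (nat_lit 1976) (nat_lit 0) (XT.lf (nat_lit 0) (nat_lit 5413830964) (nat_lit 1900) (nat_lit 5395607572) (nat_lit 76) (nat_lit 3256262252) (nat_lit 451) (nat_lit 5) (nat_lit 476) (nat_lit 5) (nat_lit 452) (nat_lit 5) (nat_lit 450) (nat_lit 432) (nat_lit 318)) (XT.nd (nat_lit 78) (nat_lit 912) (nat_lit 0) (XT.lf (nat_lit 0) (nat_lit 6155768327) (nat_lit 1064) (nat_lit 1689601344) (nat_lit 1140) (nat_lit 6439520676) (nat_lit 437) (nat_lit 5) (nat_lit 451) (nat_lit 5) (nat_lit 452) (nat_lit 5) (nat_lit 451) (nat_lit 432) (nat_lit 317)) (XT.lf (nat_lit 0) (nat_lit 3594913096) (nat_lit 912) (nat_lit 6843797440) (nat_lit 988) (nat_lit 4070169807) (nat_lit 425) (nat_lit 5) (nat_lit 437) (nat_lit 5) (nat_lit 438) (nat_lit 5) (nat_lit 452) (nat_lit 432) (nat_lit 316)))) (XT.nd (nat_lit 78) (nat_lit 912) (nat_lit 0) (XT.lf (nat_lit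 0) (nat_lit 1008915254) (nat_lit 912) (nat_lit 12169839346) (nat_lit 988) (nat_lit 1559459194) (nat_lit 413) (nat_lit 5) (nat_lit 425) (nat_lit 5) (nat_lit 426) (nat_lit 5) (nat_lit 453) (nat_lit 432) (nat_lit 315)) (XT.nd (nat_lit 78) (nat_lit 836) (nat_lit 0) (XT.lf (nat_lit 0) (nat_lit 1112864578) (nat_lit 988) (nat_lit 1606649830) (nat_lit 76) (nat_lit 12252786155) (nat_lit 412) (nat_lit 5) (nat_lit 425) (nat_lit 5) (nat_lit 413) (nat_lit 5) (nat_lit 454) (nat_lit 432) (nat_lit 314)) (XT.lf (nat_lit 0) (nat_lit 3941900677) (nat_lit 912) (nat_lit 4263901641) (nat_lit 76) (nat_lit 7005448543) (nat_lit 401) (nat_lit 5) (nat_lit 413) (nat_lit 5) (nat_lit 402) (nat_lit 5) (nat_lit 455) (nat_lit 432) (nat_lit 313))))) (XT.nd (nat_lit 234) (nat_lit 2280) (nat_lit 0) (XT.nd (nat_lit 78) (nat_lit 1672) (nat_lit 0) (XT.lf (nat_lit 0) (nat_lit 6931214465) (nat_lit 912) (nat_lit 6949348780) (nat_lit 76) (nat_lit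 1575299919) (nat_lit 390) (nat_lit 5) (nat_lit 402) (nat_lit 5) (nat_lit 391) (nat_lit 5) (nat_lit 456) (nat_lit 432) (nat_lit 312)) (XT.nd (nat_lit 78) (nat_lit 836) (nat_lit 0) (XT.lf (nat_lit 0) (nat_lit 6015764746) (nat_lit 836) (nat_lit 4098503676) (nat_lit 912) (nat_lit 5591465780) (nat_lit 379) (nat_lit 5) (nat_lit 390) (nat_lit 5) (nat_lit 391) (nat_lit 5) (nat_lit 457) (nat_lit 432) (nat_lit 311)) (XT.lf (nat_lit 0) (nat_lit 3490156092) (nat_lit 836) (nat_lit 9992996344) (nat_lit 912) (nat_lit 2478143702) (nat_lit 368) (nat_lit 5) (nat_lit 379) (nat_lit 5) (nat_lit 380) (nat_lit 5) (nat_lit 458) (nat_lit 432) (nat_lit 310)))) (XT.nd (nat_lit 156) (nat_lit 1444) (nat_lit 0) (XT.nd (nat_lit 78) (nat_lit 0) (nat_lit 0) (XT.lf (nat_lit 0) (nat_lit 801244083) (nat_lit 836) (nat_lit 15288100709) (nat_lit 76) (nat_lit 133442564) (nat_lit 357) (nat_lit 5) (nat_lit 368) (nat_lit 5) (nat_lit 358) (nat_lit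 5) (nat_lit 459) (nat_lit 432) (nat_lit 309)) (XT.lf (nat_lit 0) (nat_lit 4279597601) (nat_lit 836) (nat_lit 1680262767) (nat_lit 76) (nat_lit 10529251703) (nat_lit 357) (nat_lit 5) (nat_lit 368) (nat_lit 5) (nat_lit 358) (nat_lit 5) (nat_lit 460) (nat_lit 432) (nat_lit 308))) (XT.nd (nat_lit 78) (nat_lit 684) (nat_lit 0) (XT.lf (nat_lit 0) (nat_lit 7955592210) (nat_lit 836) (nat_lit 4310931878) (nat_lit 76) (nat_lit 4495038006) (nat_lit 347) (nat_lit 5) (nat_lit 358) (nat_lit 5) (nat_lit 348) (nat_lit 5) (nat_lit 461) (nat_lit 432) (nat_lit 307)) (XT.lf (nat_lit 0) (nat_lit 10059764936) (nat_lit 684) (nat_lit 1781793616) (nat_lit 760) (nat_lit 5198634566) (nat_lit 338) (nat_lit 5) (nat_lit 347) (nat_lit 5) (nat_lit 348) (nat_lit 5) (nat_lit 462) (nat_lit 432) (nat_lit 306))))))) (XT.nd (nat_lit 1014) (nat_lit 5776) (nat_lit 0) (XT.nd (nat_lit 468) (nat_lit 3572) (nat_lit 0) (XT.nd (nat_lit 234) (nat_lit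 1368) (nat_lit 0) (XT.nd (nat_lit 78) (nat_lit 1444) (nat_lit 0) (XT.lf (nat_lit 0) (nat_lit 7616394496) (nat_lit 760) (nat_lit 8348534517) (nat_lit 836) (nat_lit 1359838856) (nat_lit 328) (nat_lit 5) (nat_lit 338) (nat_lit 5) (nat_lit 339) (nat_lit 5) (nat_lit 463) (nat_lit 432) (nat_lit 305)) (XT.nd (nat_lit 78) (nat_lit 684) (nat_lit 0) (XT.lf (nat_lit 0) (nat_lit 2653053659) (nat_lit 760) (nat_lit 12482785014) (nat_lit 76) (nat_lit 2479846464) (nat_lit 318) (nat_lit 5) (nat_lit 328) (nat_lit 5) (nat_lit 319) (nat_lit 5) (nat_lit 464) (nat_lit 432) (nat_lit 304)) (XT.lf (nat_lit 0) (nat_lit 2588208528) (nat_lit 684) (nat_lit 4302628786) (nat_lit 760) (nat_lit 11021854453) (nat_lit 309) (nat_lit 5) (nat_lit 318) (nat_lit 5) (nat_lit 319) (nat_lit 5) (nat_lit 465) (nat_lit 432) (nat_lit 303)))) (XT.nd (nat_lit 78) (nat_lit 760) (nat_lit 0) (XT.lf (nat_lit 0) (nat_lit 1573623) (nat_lit 608) (nat_lit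 11368194677) (nat_lit 684) (nat_lit 6846561184) (nat_lit 301) (nat_lit 5) (nat_lit 309) (nat_lit 5) (nat_lit 310) (nat_lit 5) (nat_lit 466) (nat_lit 432) (nat_lit 302)) (XT.nd (nat_lit 78) (nat_lit 760) (nat_lit 0) (XT.lf (nat_lit 0) (nat_lit 15949665623) (nat_lit 608) (nat_lit 150511388) (nat_lit 684) (nat_lit 2426558257) (nat_lit 301) (nat_lit 5) (nat_lit 309) (nat_lit 5) (nat_lit 310) (nat_lit 5) (nat_lit 467) (nat_lit 432) (nat_lit 301)) (XT.lf (nat_lit 0) (nat_lit 2246692096) (nat_lit 760) (nat_lit 5242097953) (nat_lit 76) (nat_lit 11354417564) (nat_lit 291) (nat_lit 5) (nat_lit 301) (nat_lit 5) (nat_lit 292) (nat_lit 5) (nat_lit 468) (nat_lit 432) (nat_lit 300))))) (XT.nd (nat_lit 234) (nat_lit 1748) (nat_lit 0) (XT.nd (nat_lit 78) (nat_lit 1216) (nat_lit 0) (XT.lf (nat_lit 0) (nat_lit 7131146068) (nat_lit 684) (nat_lit 7950995045) (nat_lit 76) (nat_lit 4084633797) (nat_lit 283) (nat_lit 5) (nat_lit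 292) (nat_lit 5) (nat_lit 284) (nat_lit 5) (nat_lit 469) (nat_lit 432) (nat_lit 299)) (XT.nd (nat_lit 78) (nat_lit 608) (nat_lit 0) (XT.lf (nat_lit 0) (nat_lit 8786757631) (nat_lit 608) (nat_lit 3503883791) (nat_lit 684) (nat_lit 7206838665) (nat_lit 275) (nat_lit 5) (nat_lit 283) (nat_lit 5) (nat_lit 284) (nat_lit 5) (nat_lit 470) (nat_lit 432) (nat_lit 298)) (XT.lf (nat_lit 0) (nat_lit 6308202003) (nat_lit 608) (nat_lit 11432492005) (nat_lit 684) (nat_lit 2094697948) (nat_lit 267) (nat_lit 5) (nat_lit 275) (nat_lit 5) (nat_lit 276) (nat_lit 5) (nat_lit 471) (nat_lit 432) (nat_lit 297)))) (XT.nd (nat_lit 156) (nat_lit 532) (nat_lit 0) (XT.nd (nat_lit 78) (nat_lit 532) (nat_lit 0) (XT.lf (nat_lit 0) (nat_lit 3240014791) (nat_lit 684) (nat_lit 16394799133) (nat_lit 76) (nat_lit 546000585) (nat_lit 258) (nat_lit 5) (nat_lit 267) (nat_lit 5) (nat_lit 259) (nat_lit 5) (nat_lit 472) (nat_lit 432) (nat_lit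 296)) (XT.lf (nat_lit 0) (nat_lit 1175565117) (nat_lit 532) (nat_lit 7693635087) (nat_lit 608) (nat_lit 11663865726) (nat_lit 251) (nat_lit 5) (nat_lit 258) (nat_lit 5) (nat_lit 259) (nat_lit 5) (nat_lit 473) (nat_lit 432) (nat_lit 295))) (XT.nd (nat_lit 78) (nat_lit 532) (nat_lit 0) (XT.lf (nat_lit 0) (nat_lit 14795622902) (nat_lit 608) (nat_lit 1444595674) (nat_lit 76) (nat_lit 4653099966) (nat_lit 251) (nat_lit 5) (nat_lit 259) (nat_lit 5) (nat_lit 252) (nat_lit 5) (nat_lit 474) (nat_lit 432) (nat_lit 294)) (XT.lf (nat_lit 0) (nat_lit 17162098724) (nat_lit 532) (nat_lit 3887633445) (nat_lit 608) (nat_lit 211649545) (nat_lit 244) (nat_lit 5) (nat_lit 251) (nat_lit 5) (nat_lit 252) (nat_lit 5) (nat_lit 475) (nat_lit 432) (nat_lit 293)))))) (XT.nd (nat_lit 468) (nat_lit 2660) (nat_lit 0) (XT.nd (nat_lit 234) (nat_lit 1520) (nat_lit 0) (XT.nd (nat_lit 78) (nat_lit 988) (nat_lit 0) (XT.lf (nat_lit 0)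 (nat_lit 5925977057) (nat_lit 608) (nat_lit 6850143137) (nat_lit 76) (nat_lit 8860572920) (nat_lit 236) (nat_lit 5) (nat_lit 244) (nat_lit 5) (nat_lit 237) (nat_lit 5) (nat_lit 476) (nat_lit 432) (nat_lit 292)) (XT.nd (nat_lit 78) (nat_lit 456) (nat_lit 0) (XT.lf (nat_lit 0) (nat_lit 12366865545) (nat_lit 608) (nat_lit 9630757124) (nat_lit 76) (nat_lit 23173827) (nat_lit 229) (nat_lit 5) (nat_lit 237) (nat_lit 5) (nat_lit 230) (nat_lit 5) (nat_lit 477) (nat_lit 432) (nat_lit 291)) (XT.lf (nat_lit 0) (nat_lit 9912952485) (nat_lit 456) (nat_lit 9272217296) (nat_lit 532) (nat_lit 3227570188) (nat_lit 223) (nat_lit 5) (nat_lit 229) (nat_lit 5) (nat_lit 230) (nat_lit 5) (nat_lit 478) (nat_lit 432) (nat_lit 290)))) (XT.nd (nat_lit 78) (nat_lit 912) (nat_lit 0) (XT.lf (nat_lit 0) (nat_lit 3474553428) (nat_lit 608) (nat_lit 15422137565) (nat_lit 76) (nat_lit 3916762013) (nat_lit 215) (nat_lit 5) (nat_lit 223)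 (nat_lit 5) (nat_lit 216) (nat_lit 5) (nat_lit 479) (nat_lit 432) (nat_lit 289)) (XT.nd (nat_lit 78) (nat_lit 456) (nat_lit 0) (XT.lf (nat_lit 0) (nat_lit 4787564061) (nat_lit 456) (nat_lit 5712979364) (nat_lit 532) (nat_lit 12721884982) (nat_lit 209) (nat_lit 5) (nat_lit 215) (nat_lit 5) (nat_lit 216) (nat_lit 5) (nat_lit 480) (nat_lit 432) (nat_lit 288)) (XT.lf (nat_lit 0) (nat_lit 2132517125) (nat_lit 456) (nat_lit 15763168926) (nat_lit 532) (nat_lit 5744820251) (nat_lit 203) (nat_lit 5) (nat_lit 209) (nat_lit 5) (nat_lit 210) (nat_lit 5) (nat_lit 481) (nat_lit 432) (nat_lit 287))))) (XT.nd (nat_lit 234) (nat_lit 1672) (nat_lit 0) (XT.nd (nat_lit 78) (nat_lit 912) (nat_lit 0) (XT.lf (nat_lit 0) (nat_lit 1575018206) (nat_lit 532) (nat_lit 564404181) (nat_lit 76) (nat_lit 21928470253) (nat_lit 202) (nat_lit 5) (nat_lit 209) (nat_lit 5) (nat_lit 203) (nat_lit 5) (nat_lit 482) (nat_lit 432) (nat_lit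 286)) (XT.nd (nat_lit 78) (nat_lit 456) (nat_lit 0) (XT.lf (nat_lit 0) (nat_lit 9241800665) (nat_lit 532) (nat_lit 3351788999) (nat_lit 76) (nat_lit 11909644107) (nat_lit 196) (nat_lit 5) (nat_lit 203) (nat_lit 5) (nat_lit 197) (nat_lit 5) (nat_lit 483) (nat_lit 432) (nat_lit 285)) (XT.lf (nat_lit 0) (nat_lit 17277582522) (nat_lit 532) (nat_lit 6167979153) (nat_lit 76) (nat_lit 1503294163) (nat_lit 190) (nat_lit 5) (nat_lit 197) (nat_lit 5) (nat_lit 191) (nat_lit 5) (nat_lit 484) (nat_lit 432) (nat_lit 284)))) (XT.nd (nat_lit 156) (nat_lit 760) (nat_lit 0) (XT.nd (nat_lit 78) (nat_lit 456) (nat_lit 0) (XT.lf (nat_lit 0) (nat_lit 348245518) (nat_lit 456) (nat_lit 9076294581) (nat_lit 76) (nat_lit 15979216487) (nat_lit 184) (nat_lit 5) (nat_lit 190) (nat_lit 5) (nat_lit 185) (nat_lit 5) (nat_lit 485) (nat_lit 432) (nat_lit 283)) (XT.lf (nat_lit 0) (nat_lit 8659581617) (nat_lit 532) (nat_lit 12078043725)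 (nat_lit 76) (nat_lit 5130556359) (nat_lit 178) (nat_lit 5) (nat_lit 185) (nat_lit 5) (nat_lit 179) (nat_lit 5) (nat_lit 486) (nat_lit 432) (nat_lit 282))) (XT.nd (nat_lit 78) (nat_lit 380) (nat_lit 0) (XT.lf (nat_lit 0) (nat_lit 11188991072) (nat_lit 380) (nat_lit 6218303151) (nat_lit 456) (nat_lit 8935505175) (nat_lit 173) (nat_lit 5) (nat_lit 178) (nat_lit 5) (nat_lit 179) (nat_lit 5) (nat_lit 487) (nat_lit 432) (nat_lit 281)) (XT.lf (nat_lit 0) (nat_lit 8528197490) (nat_lit 380) (nat_lit 18073347064) (nat_lit 456) (nat_lit 226429484) (nat_lit 168) (nat_lit 5) (nat_lit 173) (nat_lit 5) (nat_lit 174) (nat_lit 5) (nat_lit 488) (nat_lit 432) (nat_lit 280))))))))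
noncomputable def xc90 : XT := (XT.nd (nat_lit 59358) (nat_lit 0) (nat_lit 9956) (XT.nd (nat_lit 58344) (nat_lit 0) (nat_lit 26372) (XT.nd (nat_lit 468) (nat_lit 1064) (nat_lit 0) (XT.nd (nat_lit 234) (nat_lit 836) (nat_lit 0) (XT.nd (nat_lit 78) (nat_lit 760) (nat_lit 0) (XT.lf (nat_lit 0) (nat_lit 5763381592) (nat_lit 380) (nat_lit 3037989103) (nat_lit 456) (nat_lit 18521755704) (nat_lit 162) (nat_lit 5) (nat_lit 167) (nat_lit 5) (nat_lit 168) (nat_lit 5) (nat_lit 489) (nat_lit 432) (nat_lit 279)) (XT.nd (nat_lit 78) (nat_lit 380) (nat_lit 0) (XT.lf (nat_lit 0) (nat_lit 2907723001) (nat_lit 380) (nat_lit 15403674800) (nat_lit 456) (nat_lit 9517416711) (nat_lit 157) (nat_lit 5) (nat_lit 162) (nat_lit 5) (nat_lit 163) (nat_lit 5) (nat_lit 490) (nat_lit 432) (nat_lit 278)) (XT.lf (nat_lit 0) (nat_lit 21521101) (nat_lit 380) (nat_lit 28242424088) (nat_lit 456) (nat_lit 82584174) (nat_lit 152) (nat_lit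 5) (nat_lit 157) (nat_lit 5) (nat_lit 158) (nat_lit 5) (nat_lit 491) (nat_lit 432) (nat_lit 277)))) (XT.nd (nat_lit 78) (nat_lit 760) (nat_lit 0) (XT.lf (nat_lit 0) (nat_lit 9772135265) (nat_lit 456) (nat_lit 3004866841) (nat_lit 76) (nat_lit 16096258630) (nat_lit 151) (nat_lit 5) (nat_lit 157) (nat_lit 5) (nat_lit 152) (nat_lit 5) (nat_lit 492) (nat_lit 432) (nat_lit 276)) (XT.nd (nat_lit 78) (nat_lit 380) (nat_lit 0) (XT.lf (nat_lit 0) (nat_lit 20085021506) (nat_lit 456) (nat_lit 6068475933) (nat_lit 76) (nat_lit 3259013197) (nat_lit 146) (nat_lit 5) (nat_lit 152) (nat_lit 5) (nat_lit 147) (nat_lit 5) (nat_lit 493) (nat_lit 432) (nat_lit 275)) (XT.lf (nat_lit 0) (nat_lit 962355878) (nat_lit 380) (nat_lit 9241146602) (nat_lit 76) (nat_lit 19759686044) (nat_lit 141) (nat_lit 5) (nat_lit 146) (nat_lit 5) (nat_lit 142) (nat_lit 5) (nat_lit 494) (nat_lit 432) (nat_lit 274))))) (XT.nd (nat_lit 57642) (nat_lit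 0) (nat_lit 29184) (XT.nd (nat_lit 78) (nat_lit 684) (nat_lit 0) (XT.lf (nat_lit 0) (nat_lit 11625945962) (nat_lit 456) (nat_lit 12539083999) (nat_lit 76) (nat_lit 6360288632) (nat_lit 136) (nat_lit 5) (nat_lit 142) (nat_lit 5) (nat_lit 137) (nat_lit 5) (nat_lit 495) (nat_lit 432) (nat_lit 273)) (XT.nd (nat_lit 78) (nat_lit 380) (nat_lit 0) (XT.lf (nat_lit 0) (nat_lit 15169599439) (nat_lit 304) (nat_lit 7660504572) (nat_lit 380) (nat_lit 8269795749) (nat_lit 132) (nat_lit 5) (nat_lit 136) (nat_lit 5) (nat_lit 137) (nat_lit 5) (nat_lit 496) (nat_lit 432) (nat_lit 272)) (XT.lf (nat_lit 0) (nat_lit 2861883022) (nat_lit 380) (nat_lit 19429719037) (nat_lit 76) (nat_lit 9395401935) (nat_lit 127) (nat_lit 5) (nat_lit 132) (nat_lit 5) (nat_lit 128) (nat_lit 5) (nat_lit 497) (nat_lit 432) (nat_lit 271)))) (XT.nd (nat_lit 78) (nat_lit 0) (nat_lit 0) (XT.lf (nat_lit 0) (nat_lit 2181417460) (nat_lit 1748) (nat_lit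 1697961155) (nat_lit 1748) (nat_lit 1697961155) (nat_lit 511) (nat_lit 3) (nat_lit 534) (nat_lit 3) (nat_lit 534) (nat_lit 5) (nat_lit 433) (nat_lit 433) (nat_lit 334)) (XT.nd (nat_lit 78) (nat_lit 0) (nat_lit 76) (XT.lf (nat_lit 76) (nat_lit 4935143234) (nat_lit 0) (nat_lit 351876669) (nat_lit 1748) (nat_lit 6017724997) (nat_lit 512) (nat_lit 5) (nat_lit 511) (nat_lit 3) (nat_lit 534) (nat_lit 5) (nat_lit 434) (nat_lit 433) (nat_lit 333)) (XT.lf (nat_lit 76) (nat_lit 2066041039) (nat_lit 0) (nat_lit 4224446075) (nat_lit 1748) (nat_lit 5167797093) (nat_lit 513) (nat_lit 5) (nat_lit 512) (nat_lit 5) (nat_lit 535) (nat_lit 5) (nat_lit 435) (nat_lit 433) (nat_lit 332)))))) (XT.nd (nat_lit 468) (nat_lit 1368) (nat_lit 0) (XT.nd (nat_lit 234) (nat_lit 1596) (nat_lit 0) (XT.nd (nat_lit 78) (nat_lit 0) (nat_lit 0) (XT.lf (nat_lit 0) (nat_lit 7360739253) (nat_lit 1672) (nat_lit 816361732) (nat_lit 1748) (nat_lit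 3438598122) (nat_lit 513) (nat_lit 5) (nat_lit 535) (nat_lit 5) (nat_lit 536) (nat_lit 5) (nat_lit 436) (nat_lit 433) (nat_lit 331)) (XT.nd (nat_lit 78) (nat_lit 0) (nat_lit 76) (XT.lf (nat_lit 76) (nat_lit 8077129653) (nat_lit 0) (nat_lit 436226472) (nat_lit 1748) (nat_lit 3263478128) (nat_lit 514) (nat_lit 5) (nat_lit 513) (nat_lit 5) (nat_lit 536) (nat_lit 5) (nat_lit 437) (nat_lit 433) (nat_lit 330)) (XT.lf (nat_lit 76) (nat_lit 5308817414) (nat_lit 0) (nat_lit 4451127168) (nat_lit 1748) (nat_lit 2181673866) (nat_lit 515) (nat_lit 5) (nat_lit 514) (nat_lit 5) (nat_lit 537) (nat_lit 5) (nat_lit 438) (nat_lit 433) (nat_lit 329)))) (XT.nd (nat_lit 78) (nat_lit 1748) (nat_lit 0) (XT.lf (nat_lit 76) (nat_lit 2516249207) (nat_lit 0) (nat_lit 8566366663) (nat_lit 1748) (nat_lit 1027959368) (nat_lit 516) (nat_lit 5) (nat_lit 515) (nat_lit 5) (nat_lit 538) (nat_lit 5) (nat_lit 439) (nat_lit 433) (nat_lit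 328)) (XT.nd (nat_lit 78) (nat_lit 0) (nat_lit 76) (XT.lf (nat_lit 0) (nat_lit 205050931) (nat_lit 1748) (nat_lit 302439869) (nat_lit 1824) (nat_lit 11776155997) (nat_lit 492) (nat_lit 5) (nat_lit 515) (nat_lit 5) (nat_lit 516) (nat_lit 5) (nat_lit 440) (nat_lit 433) (nat_lit 327)) (XT.lf (nat_lit 0) (nat_lit 1545687929) (nat_lit 1748) (nat_lit 3145709604) (nat_lit 1824) (nat_lit 7768687589) (nat_lit 493) (nat_lit 5) (nat_lit 516) (nat_lit 5) (nat_lit 517) (nat_lit 5) (nat_lit 441) (nat_lit 433) (nat_lit 326))))) (XT.nd (nat_lit 234) (nat_lit 1520) (nat_lit 0) (XT.nd (nat_lit 78) (nat_lit 0) (nat_lit 0) (XT.lf (nat_lit 0) (nat_lit 2972527106) (nat_lit 1748) (nat_lit 6017533539) (nat_lit 1824) (nat_lit 3650838779) (nat_lit 494) (nat_lit 5) (nat_lit 517) (nat_lit 5) (nat_lit 518) (nat_lit 5) (nat_lit 442) (nat_lit 433) (nat_lit 325)) (XT.nd (nat_lit 78) (nat_lit 0) (nat_lit 76) (XT.lf (nat_lit 76) (nat_lit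 3903278526) (nat_lit 0) (nat_lit 591127265) (nat_lit 1824) (nat_lit 8331690092) (nat_lit 495) (nat_lit 5) (nat_lit 494) (nat_lit 5) (nat_lit 518) (nat_lit 5) (nat_lit 443) (nat_lit 433) (nat_lit 324)) (XT.lf (nat_lit 76) (nat_lit 1131775621) (nat_lit 0) (nat_lit 5005636843) (nat_lit 1824) (nat_lit 6877928687) (nat_lit 496) (nat_lit 5) (nat_lit 495) (nat_lit 5) (nat_lit 519) (nat_lit 5) (nat_lit 444) (nat_lit 433) (nat_lit 323)))) (XT.nd (nat_lit 156) (nat_lit 1672) (nat_lit 0) (XT.nd (nat_lit 78) (nat_lit 0) (nat_lit 0) (XT.lf (nat_lit 0) (nat_lit 7893607416) (nat_lit 1748) (nat_lit 1645695074) (nat_lit 1824) (nat_lit 3669685601) (nat_lit 496) (nat_lit 5) (nat_lit 519) (nat_lit 5) (nat_lit 520) (nat_lit 5) (nat_lit 445) (nat_lit 433) (nat_lit 322)) (XT.lf (nat_lit 76) (nat_lit 8965207409) (nat_lit 0) (nat_lit 805086240) (nat_lit 1824) (nat_lit 3636796893) (nat_lit 497) (nat_lit 5) (nat_lit 496) (nat_lit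 5) (nat_lit 520) (nat_lit 5) (nat_lit 446) (nat_lit 433) (nat_lit 321))) (XT.nd (nat_lit 78) (nat_lit 1748) (nat_lit 0) (XT.lf (nat_lit 76) (nat_lit 6317228659) (nat_lit 0) (nat_lit 5468212032) (nat_lit 1824) (nat_lit 1824054318) (nat_lit 498) (nat_lit 5) (nat_lit 497) (nat_lit 5) (nat_lit 521) (nat_lit 5) (nat_lit 447) (nat_lit 433) (nat_lit 320)) (XT.lf (nat_lit 0) (nat_lit 102427502) (nat_lit 1824) (nat_lit 10174182885) (nat_lit 1900) (nat_lit 3540159236) (nat_lit 474) (nat_lit 5) (nat_lit 498) (nat_lit 5) (nat_lit 499) (nat_lit 5) (nat_lit 448) (nat_lit 433) (nat_lit 319))))))) (XT.nd (nat_lit 936) (nat_lit 7524) (nat_lit 0) (XT.nd (nat_lit 468) (nat_lit 4256) (nat_lit 0) (XT.nd (nat_lit 234) (nat_lit 2888) (nat_lit 0) (XT.nd (nat_lit 78) (nat_lit 1748) (nat_lit 0) (XT.lf (nat_lit 76) (nat_lit 920405847) (nat_lit 0) (nat_lit 1211662908) (nat_lit 1900) (nat_lit 11896551630) (nat_lit 475) (nat_lit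 5) (nat_lit 474) (nat_lit 5) (nat_lit 499) (nat_lit 5) (nat_lit 449) (nat_lit 433) (nat_lit 318)) (XT.nd (nat_lit 78) (nat_lit 1824) (nat_lit 0) (XT.lf (nat_lit 0) (nat_lit 4323025531) (nat_lit 1824) (nat_lit 1830318800) (nat_lit 76) (nat_lit 8091475737) (nat_lit 475) (nat_lit 5) (nat_lit 499) (nat_lit 5) (nat_lit 476) (nat_lit 5) (nat_lit 450) (nat_lit 433) (nat_lit 317)) (XT.lf (nat_lit 0) (nat_lit 6652082029) (nat_lit 1900) (nat_lit 4598339735) (nat_lit 76) (nat_lit 3215638429) (nat_lit 451) (nat_lit 5) (nat_lit 476) (nat_lit 5) (nat_lit 452) (nat_lit 5) (nat_lit 451) (nat_lit 433) (nat_lit 316)))) (XT.nd (nat_lit 78) (nat_lit 1824) (nat_lit 0) (XT.lf (nat_lit 0) (nat_lit 7284016598) (nat_lit 1064) (nat_lit 1847341583) (nat_lit 1140) (nat_lit 5560974196) (nat_lit 437) (nat_lit 5) (nat_lit 451) (nat_lit 5) (nat_lit 452) (nat_lit 5) (nat_lit 452) (nat_lit 433) (nat_lit 315)) (XT.nd (nat_lit 78) (nat_lit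 912) (nat_lit 0) (XT.lf (nat_lit 0) (nat_lit 4652473383) (nat_lit 912) (nat_lit 7124916447) (nat_lit 988) (nat_lit 3146157116) (nat_lit 425) (nat_lit 5) (nat_lit 437) (nat_lit 5) (nat_lit 438) (nat_lit 5) (nat_lit 453) (nat_lit 433) (nat_lit 314)) (XT.lf (nat_lit 0) (nat_lit 1994237435) (nat_lit 912) (nat_lit 12581251333) (nat_lit 988) (nat_lit 584757168) (nat_lit 413) (nat_lit 5) (nat_lit 425) (nat_lit 5) (nat_lit 426) (nat_lit 5) (nat_lit 454) (nat_lit 433) (nat_lit 313))))) (XT.nd (nat_lit 234) (nat_lit 2508) (nat_lit 0) (XT.nd (nat_lit 78) (nat_lit 1672) (nat_lit 0) (XT.lf (nat_lit 0) (nat_lit 2124977537) (nat_lit 988) (nat_lit 714522302) (nat_lit 76) (nat_lit 12562312540) (nat_lit 412) (nat_lit 5) (nat_lit 425) (nat_lit 5) (nat_lit 413) (nat_lit 5) (nat_lit 455) (nat_lit 433) (nat_lit 312)) (XT.nd (nat_lit 78) (nat_lit 836) (nat_lit 0) (XT.lf (nat_lit 0) (nat_lit 5016182003) (nat_lit 912) (nat_lit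 3447340291) (nat_lit 76) (nat_lit 7184865354) (nat_lit 401) (nat_lit 5) (nat_lit 413) (nat_lit 5) (nat_lit 402) (nat_lit 5) (nat_lit 456) (nat_lit 433) (nat_lit 311)) (XT.lf (nat_lit 0) (nat_lit 8073329701) (nat_lit 912) (nat_lit 6209878908) (nat_lit 76) (nat_lit 1617568959) (nat_lit 390) (nat_lit 5) (nat_lit 402) (nat_lit 5) (nat_lit 391) (nat_lit 5) (nat_lit 457) (nat_lit 433) (nat_lit 310)))) (XT.nd (nat_lit 78) (nat_lit 1672) (nat_lit 0) (XT.lf (nat_lit 0) (nat_lit 7128808657) (nat_lit 836) (nat_lit 4201912398) (nat_lit 912) (nat_lit 4827849036) (nat_lit 379) (nat_lit 5) (nat_lit 390) (nat_lit 5) (nat_lit 391) (nat_lit 5) (nat_lit 458) (nat_lit 433) (nat_lit 309)) (XT.nd (nat_lit 78) (nat_lit 836) (nat_lit 0) (XT.lf (nat_lit 0) (nat_lit 4530215693) (nat_lit 836) (nat_lit 10250059103) (nat_lit 912) (nat_lit 1641934228) (nat_lit 368) (nat_lit 5) (nat_lit 379) (nat_lit 5) (nat_lit 380) (nat_lit 5)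 (nat_lit 459) (nat_lit 433) (nat_lit 308)) (XT.lf (nat_lit 0) (nat_lit 1704118532) (nat_lit 836) (nat_lit 14797452387) (nat_lit 76) (nat_lit 190253409) (nat_lit 357) (nat_lit 5) (nat_lit 368) (nat_lit 5) (nat_lit 358) (nat_lit 5) (nat_lit 460) (nat_lit 433) (nat_lit 307)))))) (XT.nd (nat_lit 468) (nat_lit 3876) (nat_lit 0) (XT.nd (nat_lit 234) (nat_lit 2204) (nat_lit 0) (XT.nd (nat_lit 78) (nat_lit 1444) (nat_lit 0) (XT.lf (nat_lit 0) (nat_lit 5261225458) (nat_lit 836) (nat_lit 809028569) (nat_lit 76) (nat_lit 10896398738) (nat_lit 357) (nat_lit 5) (nat_lit 368) (nat_lit 5) (nat_lit 358) (nat_lit 5) (nat_lit 461) (nat_lit 433) (nat_lit 306)) (XT.nd (nat_lit 78) (nat_lit 684) (nat_lit 0) (XT.lf (nat_lit 0) (nat_lit 9029005250) (nat_lit 836) (nat_lit 3517289069) (nat_lit 76) (nat_lit 4701353841) (nat_lit 347) (nat_lit 5) (nat_lit 358) (nat_lit 5) (nat_lit 348) (nat_lit 5) (nat_lit 462) (nat_lit 433)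 (nat_lit 305)) (XT.lf (nat_lit 0) (nat_lit 11269554546) (nat_lit 684) (nat_lit 1743578384) (nat_lit 760) (nat_lit 4521875457) (nat_lit 338) (nat_lit 5) (nat_lit 347) (nat_lit 5) (nat_lit 348) (nat_lit 5) (nat_lit 463) (nat_lit 433) (nat_lit 304)))) (XT.nd (nat_lit 78) (nat_lit 1444) (nat_lit 0) (XT.lf (nat_lit 0) (nat_lit 8753690914) (nat_lit 760) (nat_lit 8489215460) (nat_lit 836) (nat_lit 585561830) (nat_lit 328) (nat_lit 5) (nat_lit 338) (nat_lit 5) (nat_lit 339) (nat_lit 5) (nat_lit 464) (nat_lit 433) (nat_lit 303)) (XT.nd (nat_lit 78) (nat_lit 684) (nat_lit 0) (XT.lf (nat_lit 0) (nat_lit 3520237426) (nat_lit 760) (nat_lit 11937601195) (nat_lit 76) (nat_lit 2670506108) (nat_lit 318) (nat_lit 5) (nat_lit 328) (nat_lit 5) (nat_lit 319) (nat_lit 5) (nat_lit 465) (nat_lit 433) (nat_lit 302)) (XT.lf (nat_lit 0) (nat_lit 3570601643) (nat_lit 684) (nat_lit 4297487587) (nat_lit 760) (nat_lit 10566515358)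 (nat_lit 309) (nat_lit 5) (nat_lit 318) (nat_lit 5) (nat_lit 319) (nat_lit 5) (nat_lit 466) (nat_lit 433) (nat_lit 301))))) (XT.nd (nat_lit 234) (nat_lit 2508) (nat_lit 0) (XT.nd (nat_lit 78) (nat_lit 760) (nat_lit 0) (XT.lf (nat_lit 0) (nat_lit 906048925) (nat_lit 608) (nat_lit 11559614904) (nat_lit 684) (nat_lit 6282003766) (nat_lit 301) (nat_lit 5) (nat_lit 309) (nat_lit 5) (nat_lit 310) (nat_lit 5) (nat_lit 467) (nat_lit 433) (nat_lit 300)) (XT.nd (nat_lit 78) (nat_lit 760) (nat_lit 0) (XT.lf (nat_lit 0) (nat_lit 17306241119) (nat_lit 608) (nat_lit 9759143) (nat_lit 684) (nat_lit 1751826603) (nat_lit 301) (nat_lit 5) (nat_lit 309) (nat_lit 5) (nat_lit 310) (nat_lit 5) (nat_lit 468) (nat_lit 433) (nat_lit 299)) (XT.lf (nat_lit 0) (nat_lit 3036986220) (nat_lit 760) (nat_lit 4512318960) (nat_lit 76) (nat_lit 11844689297) (nat_lit 291) (nat_lit 5) (nat_lit 301) (nat_lit 5) (nat_lit 292) (nat_lit 5)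 (nat_lit 469) (nat_lit 433) (nat_lit 298)))) (XT.nd (nat_lit 156) (nat_lit 1292) (nat_lit 0) (XT.nd (nat_lit 78) (nat_lit 608) (nat_lit 0) (XT.lf (nat_lit 0) (nat_lit 8053656734) (nat_lit 684) (nat_lit 7303746332) (nat_lit 76) (nat_lit 4370153570) (nat_lit 283) (nat_lit 5) (nat_lit 292) (nat_lit 5) (nat_lit 284) (nat_lit 5) (nat_lit 470) (nat_lit 433) (nat_lit 297)) (XT.lf (nat_lit 0) (nat_lit 9921768220) (nat_lit 608) (nat_lit 3431188343) (nat_lit 684) (nat_lit 6715527468) (nat_lit 275) (nat_lit 5) (nat_lit 283) (nat_lit 5) (nat_lit 284) (nat_lit 5) (nat_lit 471) (nat_lit 433) (nat_lit 296))) (XT.nd (nat_lit 78) (nat_lit 684) (nat_lit 0) (XT.lf (nat_lit 0) (nat_lit 7367277238) (nat_lit 608) (nat_lit 11585800021) (nat_lit 684) (nat_lit 1463726080) (nat_lit 267) (nat_lit 5) (nat_lit 275) (nat_lit 5) (nat_lit 276) (nat_lit 5) (nat_lit 472) (nat_lit 433) (nat_lit 295)) (XT.lf (nat_lit 0) (nat_lit 4008861475)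 (nat_lit 684) (nat_lit 16009737745) (nat_lit 76) (nat_lit 754161943) (nat_lit 258) (nat_lit 5) (nat_lit 267) (nat_lit 5) (nat_lit 259) (nat_lit 5) (nat_lit 473) (nat_lit 433) (nat_lit 294))))))))
noncomputable def xc91 : XT := (XT.nd (nat_lit 59436) (nat_lit 0) (nat_lit 17936) (XT.nd (nat_lit 936) (nat_lit 4408) (nat_lit 0) (XT.nd (nat_lit 468) (nat_lit 2508) (nat_lit 0) (XT.nd (nat_lit 234) (nat_lit 1520) (nat_lit 0) (XT.nd (nat_lit 78) (nat_lit 608) (nat_lit 0) (XT.lf (nat_lit 0) (nat_lit 2073510685) (nat_lit 532) (nat_lit 7719450335) (nat_lit 608) (nat_lit 11342899642) (nat_lit 251) (nat_lit 5) (nat_lit 258) (nat_lit 5) (nat_lit 259) (nat_lit 5) (nat_lit 474) (nat_lit 433) (nat_lit 293)) (XT.nd (nat_lit 78) (nat_lit 608) (nat_lit 0) (XT.lf (nat_lit 0) (nat_lit 15879312720) (nat_lit 608) (nat_lit 638860821) (nat_lit 76) (nat_lit 4989105853) (nat_lit 251) (nat_lit 5) (nat_lit 259) (nat_lit 5) (nat_lit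 252) (nat_lit 5) (nat_lit 475) (nat_lit 433) (nat_lit 292)) (XT.lf (nat_lit 0) (nat_lit 415659174) (nat_lit 608) (nat_lit 3377125325) (nat_lit 76) (nat_lit 18093810747) (nat_lit 243) (nat_lit 5) (nat_lit 251) (nat_lit 5) (nat_lit 244) (nat_lit 5) (nat_lit 476) (nat_lit 433) (nat_lit 291)))) (XT.nd (nat_lit 78) (nat_lit 988) (nat_lit 0) (XT.lf (nat_lit 0) (nat_lit 6722949663) (nat_lit 608) (nat_lit 6214597508) (nat_lit 76) (nat_lit 9335823797) (nat_lit 236) (nat_lit 5) (nat_lit 244) (nat_lit 5) (nat_lit 237) (nat_lit 5) (nat_lit 477) (nat_lit 433) (nat_lit 290)) (XT.nd (nat_lit 78) (nat_lit 456) (nat_lit 0) (XT.lf (nat_lit 0) (nat_lit 13345836173) (nat_lit 608) (nat_lit 9081540466) (nat_lit 76) (nat_lit 241846524) (nat_lit 229) (nat_lit 5) (nat_lit 237) (nat_lit 5) (nat_lit 230) (nat_lit 5) (nat_lit 478) (nat_lit 433) (nat_lit 289)) (XT.lf (nat_lit 0) (nat_lit 11034882615) (nat_lit 456) (nat_lit 9321452683)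 (nat_lit 532) (nat_lit 2716837831) (nat_lit 223) (nat_lit 5) (nat_lit 229) (nat_lit 5) (nat_lit 230) (nat_lit 5) (nat_lit 479) (nat_lit 433) (nat_lit 288))))) (XT.nd (nat_lit 234) (nat_lit 988) (nat_lit 0) (XT.nd (nat_lit 78) (nat_lit 912) (nat_lit 0) (XT.lf (nat_lit 0) (nat_lit 4167738824) (nat_lit 608) (nat_lit 15055482545) (nat_lit 76) (nat_lit 4262821195) (nat_lit 215) (nat_lit 5) (nat_lit 223) (nat_lit 5) (nat_lit 216) (nat_lit 5) (nat_lit 480) (nat_lit 433) (nat_lit 287)) (XT.nd (nat_lit 78) (nat_lit 456) (nat_lit 0) (XT.lf (nat_lit 0) (nat_lit 5747055411) (nat_lit 456) (nat_lit 5645596394) (nat_lit 532) (nat_lit 12514873577) (nat_lit 209) (nat_lit 5) (nat_lit 215) (nat_lit 5) (nat_lit 216) (nat_lit 5) (nat_lit 481) (nat_lit 433) (nat_lit 286)) (XT.lf (nat_lit 0) (nat_lit 3008983591) (nat_lit 456) (nat_lit 15990636957) (nat_lit 532) (nat_lit 5338726620) (nat_lit 203) (nat_lit 5) (nat_lit 209)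 (nat_lit 5) (nat_lit 210) (nat_lit 5) (nat_lit 482) (nat_lit 433) (nat_lit 285)))) (XT.nd (nat_lit 78) (nat_lit 456) (nat_lit 0) (XT.lf (nat_lit 0) (nat_lit 217742404) (nat_lit 456) (nat_lit 1960165237) (nat_lit 532) (nat_lit 22600877547) (nat_lit 196) (nat_lit 5) (nat_lit 202) (nat_lit 5) (nat_lit 203) (nat_lit 5) (nat_lit 483) (nat_lit 433) (nat_lit 284)) (XT.nd (nat_lit 78) (nat_lit 456) (nat_lit 0) (XT.lf (nat_lit 0) (nat_lit 10063782230) (nat_lit 532) (nat_lit 2659702683) (nat_lit 76) (nat_lit 12503920784) (nat_lit 196) (nat_lit 5) (nat_lit 203) (nat_lit 5) (nat_lit 197) (nat_lit 5) (nat_lit 484) (nat_lit 433) (nat_lit 283)) (XT.lf (nat_lit 0) (nat_lit 18331430803) (nat_lit 532) (nat_lit 5564126304) (nat_lit 76) (nat_lit 1791024343) (nat_lit 190) (nat_lit 5) (nat_lit 197) (nat_lit 5) (nat_lit 191) (nat_lit 5) (nat_lit 485) (nat_lit 433) (nat_lit 282)))))) (XT.nd (nat_lit 468) (nat_lit 1900) (nat_lit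 0) (XT.nd (nat_lit 234) (nat_lit 1216) (nat_lit 0) (XT.nd (nat_lit 78) (nat_lit 836) (nat_lit 0) (XT.lf (nat_lit 0) (nat_lit 887159884) (nat_lit 456) (nat_lit 8565438767) (nat_lit 76) (nat_lit 16702673073) (nat_lit 184) (nat_lit 5) (nat_lit 190) (nat_lit 5) (nat_lit 185) (nat_lit 5) (nat_lit 486) (nat_lit 433) (nat_lit 281)) (XT.nd (nat_lit 78) (nat_lit 380) (nat_lit 0) (XT.lf (nat_lit 0) (nat_lit 9439084526) (nat_lit 532) (nat_lit 11661195543) (nat_lit 76) (nat_lit 5533525376) (nat_lit 178) (nat_lit 5) (nat_lit 185) (nat_lit 5) (nat_lit 179) (nat_lit 5) (nat_lit 487) (nat_lit 433) (nat_lit 280)) (XT.lf (nat_lit 0) (nat_lit 12291208874) (nat_lit 380) (nat_lit 6147859232) (nat_lit 456) (nat_lit 8683797574) (nat_lit 173) (nat_lit 5) (nat_lit 178) (nat_lit 5) (nat_lit 179) (nat_lit 5) (nat_lit 488) (nat_lit 433) (nat_lit 279)))) (XT.nd (nat_lit 78) (nat_lit 760) (nat_lit 0) (XT.lf (nat_lit 0) (nat_lit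 274466050) (nat_lit 456) (nat_lit 18078001860) (nat_lit 76) (nat_lit 9270257723) (nat_lit 167) (nat_lit 5) (nat_lit 173) (nat_lit 5) (nat_lit 168) (nat_lit 5) (nat_lit 489) (nat_lit 433) (nat_lit 278)) (XT.nd (nat_lit 78) (nat_lit 380) (nat_lit 0) (XT.lf (nat_lit 0) (nat_lit 6693056563) (nat_lit 380) (nat_lit 2867200444) (nat_lit 456) (nat_lit 18572641701) (nat_lit 162) (nat_lit 5) (nat_lit 167) (nat_lit 5) (nat_lit 168) (nat_lit 5) (nat_lit 490) (nat_lit 433) (nat_lit 277)) (XT.lf (nat_lit 0) (nat_lit 3747537961) (nat_lit 380) (nat_lit 15600171349) (nat_lit 456) (nat_lit 9306206382) (nat_lit 157) (nat_lit 5) (nat_lit 162) (nat_lit 5) (nat_lit 163) (nat_lit 5) (nat_lit 491) (nat_lit 433) (nat_lit 276))))) (XT.nd (nat_lit 234) (nat_lit 1064) (nat_lit 0) (XT.nd (nat_lit 78) (nat_lit 380) (nat_lit 0) (XT.lf (nat_lit 0) (nat_lit 398569707) (nat_lit 456) (nat_lit 28419489340) (nat_lit 76) (nat_lit 369204212)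 (nat_lit 151) (nat_lit 5) (nat_lit 157) (nat_lit 5) (nat_lit 152) (nat_lit 5) (nat_lit 492) (nat_lit 433) (nat_lit 275)) (XT.nd (nat_lit 78) (nat_lit 380) (nat_lit 0) (XT.lf (nat_lit 0) (nat_lit 10533761272) (nat_lit 456) (nat_lit 2362277998) (nat_lit 76) (nat_lit 16834027995) (nat_lit 151) (nat_lit 5) (nat_lit 157) (nat_lit 5) (nat_lit 152) (nat_lit 5) (nat_lit 493) (nat_lit 433) (nat_lit 274)) (XT.lf (nat_lit 0) (nat_lit 21148766649) (nat_lit 456) (nat_lit 5522168605) (nat_lit 76) (nat_lit 3614705400) (nat_lit 146) (nat_lit 5) (nat_lit 152) (nat_lit 5) (nat_lit 147) (nat_lit 5) (nat_lit 494) (nat_lit 433) (nat_lit 273)))) (XT.nd (nat_lit 156) (nat_lit 304) (nat_lit 0) (XT.nd (nat_lit 78) (nat_lit 380) (nat_lit 0) (XT.lf (nat_lit 0) (nat_lit 1446657121) (nat_lit 380) (nat_lit 8795763383) (nat_lit 76) (nat_lit 20610534684) (nat_lit 141) (nat_lit 5) (nat_lit 146) (nat_lit 5) (nat_lit 142) (nat_lit 5)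 (nat_lit 495) (nat_lit 433) (nat_lit 272)) (XT.lf (nat_lit 0) (nat_lit 12423220330) (nat_lit 456) (nat_lit 12197121899) (nat_lit 76) (nat_lit 6811746214) (nat_lit 136) (nat_lit 5) (nat_lit 142) (nat_lit 5) (nat_lit 137) (nat_lit 5) (nat_lit 496) (nat_lit 433) (nat_lit 271))) (XT.nd (nat_lit 57564) (nat_lit 0) (nat_lit 28804) (XT.lf (nat_lit 0) (nat_lit 16331171161) (nat_lit 304) (nat_lit 7623855931) (nat_lit 380) (nat_lit 8069050051) (nat_lit 132) (nat_lit 5) (nat_lit 136) (nat_lit 5) (nat_lit 137) (nat_lit 5) (nat_lit 497) (nat_lit 433) (nat_lit 270)) (XT.lf (nat_lit 0) (nat_lit 3065613472) (nat_lit 1748) (nat_lit 1331296103) (nat_lit 1748) (nat_lit 1331296103) (nat_lit 511) (nat_lit 3) (nat_lit 534) (nat_lit 3) (nat_lit 534) (nat_lit 5) (nat_lit 434) (nat_lit 434) (nat_lit 332))))))) (XT.nd (nat_lit 1014) (nat_lit 9424) (nat_lit 0) (XT.nd (nat_lit 468) (nat_lit 0) (nat_lit 0) (XT.nd (nat_lit 234)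 (nat_lit 1444) (nat_lit 0) (XT.nd (nat_lit 78) (nat_lit 0) (nat_lit 76) (XT.lf (nat_lit 76) (nat_lit 5904855051) (nat_lit 0) (nat_lit 1135922793) (nat_lit 1748) (nat_lit 4571052638) (nat_lit 512) (nat_lit 5) (nat_lit 511) (nat_lit 3) (nat_lit 534) (nat_lit 5) (nat_lit 435) (nat_lit 434) (nat_lit 331)) (XT.nd (nat_lit 78) (nat_lit 0) (nat_lit 76) (XT.lf (nat_lit 76) (nat_lit 2972826588) (nat_lit 0) (nat_lit 5055671175) (nat_lit 1748) (nat_lit 3742399713) (nat_lit 513) (nat_lit 5) (nat_lit 512) (nat_lit 5) (nat_lit 535) (nat_lit 5) (nat_lit 436) (nat_lit 434) (nat_lit 330)) (XT.lf (nat_lit 76) (nat_lit 14201243) (nat_lit 0) (nat_lit 9067182496) (nat_lit 1748) (nat_lit 2852644908) (nat_lit 514) (nat_lit 5) (nat_lit 513) (nat_lit 5) (nat_lit 536) (nat_lit 5) (nat_lit 437) (nat_lit 434) (nat_lit 329)))) (XT.nd (nat_lit 78) (nat_lit 1596) (nat_lit 0) (XT.lf (nat_lit 76) (nat_lit 9160441908) (nat_lit 0) (nat_lit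 1069823865) (nat_lit 1748) (nat_lit 1870502563) (nat_lit 514) (nat_lit 5) (nat_lit 513) (nat_lit 5) (nat_lit 536) (nat_lit 5) (nat_lit 438) (nat_lit 434) (nat_lit 328)) (XT.nd (nat_lit 78) (nat_lit 1672) (nat_lit 0) (XT.lf (nat_lit 76) (nat_lit 6328293943) (nat_lit 0) (nat_lit 5145063362) (nat_lit 1748) (nat_lit 797960744) (nat_lit 515) (nat_lit 5) (nat_lit 514) (nat_lit 5) (nat_lit 537) (nat_lit 5) (nat_lit 439) (nat_lit 434) (nat_lit 327)) (XT.lf (nat_lit 0) (nat_lit 345772286) (nat_lit 1748) (nat_lit 8978748508) (nat_lit 1824) (nat_lit 3121565425) (nat_lit 492) (nat_lit 5) (nat_lit 515) (nat_lit 5) (nat_lit 516) (nat_lit 5) (nat_lit 440) (nat_lit 434) (nat_lit 326))))) (XT.nd (nat_lit 234) (nat_lit 0) (nat_lit 152) (XT.nd (nat_lit 78) (nat_lit 0) (nat_lit 76) (XT.lf (nat_lit 76) (nat_lit 566334793) (nat_lit 0) (nat_lit 998723431) (nat_lit 1824) (nat_lit 11059894567) (nat_lit 493) (nat_lit 5) (nat_lit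 492) (nat_lit 5) (nat_lit 516) (nat_lit 5) (nat_lit 441) (nat_lit 434) (nat_lit 325)) (XT.nd (nat_lit 78) (nat_lit 0) (nat_lit 76) (XT.lf (nat_lit 0) (nat_lit 2905484011) (nat_lit 1748) (nat_lit 2354343913) (nat_lit 1824) (nat_lit 7547668627) (nat_lit 493) (nat_lit 5) (nat_lit 516) (nat_lit 5) (nat_lit 517) (nat_lit 5) (nat_lit 442) (nat_lit 434) (nat_lit 324)) (XT.lf (nat_lit 0) (nat_lit 4339872253) (nat_lit 1748) (nat_lit 5298298504) (nat_lit 1824) (nat_lit 3356273218) (nat_lit 494) (nat_lit 5) (nat_lit 517) (nat_lit 5) (nat_lit 518) (nat_lit 5) (nat_lit 443) (nat_lit 434) (nat_lit 323)))) (XT.nd (nat_lit 156) (nat_lit 0) (nat_lit 152) (XT.nd (nat_lit 78) (nat_lit 0) (nat_lit 76) (XT.lf (nat_lit 76) (nat_lit 4905540370) (nat_lit 0) (nat_lit 970385766) (nat_lit 1824) (nat_lit 7309903284) (nat_lit 495) (nat_lit 5) (nat_lit 494) (nat_lit 5) (nat_lit 518) (nat_lit 5) (nat_lit 444) (nat_lit 434) (nat_lit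 322)) (XT.lf (nat_lit 76) (nat_lit 2063483772) (nat_lit 0) (nat_lit 5471977859) (nat_lit 1824) (nat_lit 5845949009) (nat_lit 496) (nat_lit 5) (nat_lit 495) (nat_lit 5) (nat_lit 519) (nat_lit 5) (nat_lit 445) (nat_lit 434) (nat_lit 321))) (XT.nd (nat_lit 78) (nat_lit 0) (nat_lit 0) (XT.lf (nat_lit 0) (nat_lit 9306992333) (nat_lit 1748) (nat_lit 797785901) (nat_lit 1824) (nat_lit 3476839024) (nat_lit 496) (nat_lit 5) (nat_lit 519) (nat_lit 5) (nat_lit 520) (nat_lit 5) (nat_lit 446) (nat_lit 434) (nat_lit 320)) (XT.lf (nat_lit 76) (nat_lit 10116886355) (nat_lit 0) (nat_lit 1094554795) (nat_lit 1824) (nat_lit 2574795565) (nat_lit 497) (nat_lit 5) (nat_lit 496) (nat_lit 5) (nat_lit 520) (nat_lit 5) (nat_lit 447) (nat_lit 434) (nat_lit 319)))))) (XT.nd (nat_lit 468) (nat_lit 5244) (nat_lit 0) (XT.nd (nat_lit 234) (nat_lit 2812) (nat_lit 0) (XT.nd (nat_lit 78) (nat_lit 1748) (nat_lit 0) (XT.lf (nat_lit 76)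 (nat_lit 7399534090) (nat_lit 0) (nat_lit 5858194634) (nat_lit 1824) (nat_lit 737573950) (nat_lit 498) (nat_lit 5) (nat_lit 497) (nat_lit 5) (nat_lit 521) (nat_lit 5) (nat_lit 448) (nat_lit 434) (nat_lit 318)) (XT.nd (nat_lit 78) (nat_lit 0) (nat_lit 0) (XT.lf (nat_lit 0) (nat_lit 1203392913) (nat_lit 1824) (nat_lit 9562860428) (nat_lit 1900) (nat_lit 3442963776) (nat_lit 474) (nat_lit 5) (nat_lit 498) (nat_lit 5) (nat_lit 499) (nat_lit 5) (nat_lit 449) (nat_lit 434) (nat_lit 317)) (XT.lf (nat_lit 76) (nat_lit 1849696065) (nat_lit 0) (nat_lit 1418104176) (nat_lit 1900) (nat_lit 11160148471) (nat_lit 475) (nat_lit 5) (nat_lit 474) (nat_lit 5) (nat_lit 499) (nat_lit 5) (nat_lit 450) (nat_lit 434) (nat_lit 316)))) (XT.nd (nat_lit 78) (nat_lit 2888) (nat_lit 0) (XT.lf (nat_lit 0) (nat_lit 5492196955) (nat_lit 1824) (nat_lit 987837420) (nat_lit 76) (nat_lit 8171248551) (nat_lit 475) (nat_lit 5) (nat_lit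 499) (nat_lit 5) (nat_lit 476) (nat_lit 5) (nat_lit 451) (nat_lit 434) (nat_lit 315)) (XT.nd (nat_lit 78) (nat_lit 1064) (nat_lit 0) (XT.lf (nat_lit 0) (nat_lit 7865723231) (nat_lit 1900) (nat_lit 3832212196) (nat_lit 76) (nat_lit 3181735548) (nat_lit 451) (nat_lit 5) (nat_lit 476) (nat_lit 5) (nat_lit 452) (nat_lit 5) (nat_lit 452) (nat_lit 434) (nat_lit 314)) (XT.lf (nat_lit 0) (nat_lit 8391947240) (nat_lit 1064) (nat_lit 2003668795) (nat_lit 1140) (nat_lit 4717593129) (nat_lit 437) (nat_lit 5) (nat_lit 451) (nat_lit 5) (nat_lit 452) (nat_lit 5) (nat_lit 453) (nat_lit 434) (nat_lit 313))))) (XT.nd (nat_lit 234) (nat_lit 2508) (nat_lit 0) (XT.nd (nat_lit 78) (nat_lit 1824) (nat_lit 0) (XT.lf (nat_lit 0) (nat_lit 5687243073) (nat_lit 912) (nat_lit 7410117502) (nat_lit 988) (nat_lit 2254475484) (nat_lit 425) (nat_lit 5) (nat_lit 437) (nat_lit 5) (nat_lit 438) (nat_lit 5) (nat_lit 454) (nat_lit 434)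 (nat_lit 312)) (XT.nd (nat_lit 78) (nat_lit 836) (nat_lit 0) (XT.lf (nat_lit 0) (nat_lit 355819797) (nat_lit 988) (nat_lit 12644139368) (nat_lit 76) (nat_lit 2596087697) (nat_lit 412) (nat_lit 5) (nat_lit 425) (nat_lit 5) (nat_lit 413) (nat_lit 5) (nat_lit 455) (nat_lit 434) (nat_lit 311)) (XT.lf (nat_lit 0) (nat_lit 152389042) (nat_lit 836) (nat_lit 2959871319) (nat_lit 912) (nat_lit 12733057805) (nat_lit 401) (nat_lit 5) (nat_lit 412) (nat_lit 5) (nat_lit 413) (nat_lit 5) (nat_lit 456) (nat_lit 434) (nat_lit 310)))) (XT.nd (nat_lit 156) (nat_lit 1672) (nat_lit 0) (XT.nd (nat_lit 78) (nat_lit 836) (nat_lit 0) (XT.lf (nat_lit 0) (nat_lit 6067812063) (nat_lit 912) (nat_lit 2660499024) (nat_lit 76) (nat_lit 7371429652) (nat_lit 401) (nat_lit 5) (nat_lit 413) (nat_lit 5) (nat_lit 402) (nat_lit 5) (nat_lit 457) (nat_lit 434) (nat_lit 309)) (XT.lf (nat_lit 0) (nat_lit 9196082709) (nat_lit 912) (nat_lit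 5502641166) (nat_lit 76) (nat_lit 1661392514) (nat_lit 390) (nat_lit 5) (nat_lit 402) (nat_lit 5) (nat_lit 391) (nat_lit 5) (nat_lit 458) (nat_lit 434) (nat_lit 308))) (XT.nd (nat_lit 78) (nat_lit 836) (nat_lit 0) (XT.lf (nat_lit 0) (nat_lit 8221710496) (nat_lit 836) (nat_lit 4309545425) (nat_lit 912) (nat_lit 4094787704) (nat_lit 379) (nat_lit 5) (nat_lit 390) (nat_lit 5) (nat_lit 391) (nat_lit 5) (nat_lit 459) (nat_lit 434) (nat_lit 307)) (XT.lf (nat_lit 0) (nat_lit 5547783884) (nat_lit 836) (nat_lit 10517286457) (nat_lit 912) (nat_lit 832907981) (nat_lit 368) (nat_lit 5) (nat_lit 379) (nat_lit 5) (nat_lit 380) (nat_lit 5) (nat_lit 460) (nat_lit 434) (nat_lit 306))))))))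
noncomputable def xc92 : XT := (XT.nd (nat_lit 1950) (nat_lit 4560) (nat_lit 0) (XT.nd (nat_lit 936) (nat_lit 6004) (nat_lit 0) (XT.nd (nat_lit 468) (nat_lit 3268) (nat_lit 0) (XT.nd (nat_lit 234) (nat_lit 2204) (nat_lit 0) (XT.nd (nat_lit 78) (nat_lit 760) (nat_lit 0) (XT.lf (nat_lit 0) (nat_lit 2583630369) (nat_lit 836) (nat_lit 14346577822) (nat_lit 76) (nat_lit 245737209) (nat_lit 357) (nat_lit 5) (nat_lit 368) (nat_lit 5) (nat_lit 358) (nat_lit 5) (nat_lit 461) (nat_lit 434) (nat_lit 305)) (XT.nd (nat_lit 78) (nat_lit 0) (nat_lit 0) (XT.lf (nat_lit 0) (nat_lit 35907562) (nat_lit 760) (nat_lit 6187648261) (nat_lit 836) (nat_lit 11235942679) (nat_lit 347) (nat_lit 5) (nat_lit 357) (nat_lit 5) (nat_lit 358) (nat_lit 5) (nat_lit 462) (nat_lit 434) (nat_lit 304)) (XT.lf (nat_lit 0) (nat_lit 10086702887) (nat_lit 836) (nat_lit 2752819273) (nat_lit 76) (nat_lit 4909756784) (nat_lit 347) (nat_lit 5) (nat_lit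 358) (nat_lit 5) (nat_lit 348) (nat_lit 5) (nat_lit 463) (nat_lit 434) (nat_lit 303)))) (XT.nd (nat_lit 78) (nat_lit 1520) (nat_lit 0) (XT.lf (nat_lit 0) (nat_lit 12463515120) (nat_lit 684) (nat_lit 1709478872) (nat_lit 760) (nat_lit 3872615002) (nat_lit 338) (nat_lit 5) (nat_lit 347) (nat_lit 5) (nat_lit 348) (nat_lit 5) (nat_lit 464) (nat_lit 434) (nat_lit 302)) (XT.nd (nat_lit 78) (nat_lit 684) (nat_lit 0) (XT.lf (nat_lit 0) (nat_lit 162988989) (nat_lit 836) (nat_lit 8476335640) (nat_lit 76) (nat_lit 9708854393) (nat_lit 327) (nat_lit 5) (nat_lit 338) (nat_lit 5) (nat_lit 328) (nat_lit 5) (nat_lit 465) (nat_lit 434) (nat_lit 301)) (XT.lf (nat_lit 0) (nat_lit 4368225694) (nat_lit 760) (nat_lit 11428854530) (nat_lit 76) (nat_lit 2860211498) (nat_lit 318) (nat_lit 5) (nat_lit 328) (nat_lit 5) (nat_lit 319) (nat_lit 5) (nat_lit 466) (nat_lit 434) (nat_lit 300))))) (XT.nd (nat_lit 234) (nat_lit 1976)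 (nat_lit 0) (XT.nd (nat_lit 78) (nat_lit 608) (nat_lit 0) (XT.lf (nat_lit 0) (nat_lit 4530530380) (nat_lit 684) (nat_lit 4299896933) (nat_lit 760) (nat_lit 10142635402) (nat_lit 309) (nat_lit 5) (nat_lit 318) (nat_lit 5) (nat_lit 319) (nat_lit 5) (nat_lit 467) (nat_lit 434) (nat_lit 299)) (XT.nd (nat_lit 78) (nat_lit 0) (nat_lit 0) (XT.lf (nat_lit 0) (nat_lit 1785740613) (nat_lit 608) (nat_lit 11765366860) (nat_lit 684) (nat_lit 5744708148) (nat_lit 301) (nat_lit 5) (nat_lit 309) (nat_lit 5) (nat_lit 310) (nat_lit 5) (nat_lit 468) (nat_lit 434) (nat_lit 298)) (XT.lf (nat_lit 0) (nat_lit 18527055232) (nat_lit 684) (nat_lit 973711241) (nat_lit 76) (nat_lit 125212703) (nat_lit 301) (nat_lit 5) (nat_lit 310) (nat_lit 5) (nat_lit 302) (nat_lit 5) (nat_lit 469) (nat_lit 434) (nat_lit 297)))) (XT.nd (nat_lit 78) (nat_lit 1216) (nat_lit 0) (XT.lf (nat_lit 0) (nat_lit 3809492132) (nat_lit 760) (nat_lit 3811566434)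 (nat_lit 76) (nat_lit 12341079279) (nat_lit 291) (nat_lit 5) (nat_lit 301) (nat_lit 5) (nat_lit 292) (nat_lit 5) (nat_lit 470) (nat_lit 434) (nat_lit 296)) (XT.nd (nat_lit 78) (nat_lit 608) (nat_lit 0) (XT.lf (nat_lit 0) (nat_lit 8963167543) (nat_lit 684) (nat_lit 6687927470) (nat_lit 76) (nat_lit 4654883173) (nat_lit 283) (nat_lit 5) (nat_lit 292) (nat_lit 5) (nat_lit 284) (nat_lit 5) (nat_lit 471) (nat_lit 434) (nat_lit 295)) (XT.lf (nat_lit 0) (nat_lit 11040806751) (nat_lit 608) (nat_lit 3366519165) (nat_lit 684) (nat_lit 6250091270) (nat_lit 275) (nat_lit 5) (nat_lit 283) (nat_lit 5) (nat_lit 284) (nat_lit 5) (nat_lit 472) (nat_lit 434) (nat_lit 294)))))) (XT.nd (nat_lit 468) (nat_lit 3040) (nat_lit 0) (XT.nd (nat_lit 234) (nat_lit 1140) (nat_lit 0) (XT.nd (nat_lit 78) (nat_lit 1216) (nat_lit 0) (XT.lf (nat_lit 0) (nat_lit 8408192977) (nat_lit 608) (nat_lit 11754594925) (nat_lit 684) (nat_lit 853652750)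 (nat_lit 267) (nat_lit 5) (nat_lit 275) (nat_lit 5) (nat_lit 276) (nat_lit 5) (nat_lit 473) (nat_lit 434) (nat_lit 293)) (XT.nd (nat_lit 78) (nat_lit 532) (nat_lit 0) (XT.lf (nat_lit 0) (nat_lit 4762218317) (nat_lit 684) (nat_lit 15663462471) (nat_lit 76) (nat_lit 957559109) (nat_lit 258) (nat_lit 5) (nat_lit 267) (nat_lit 5) (nat_lit 259) (nat_lit 5) (nat_lit 474) (nat_lit 434) (nat_lit 292)) (XT.lf (nat_lit 0) (nat_lit 2948873338) (nat_lit 532) (nat_lit 7757807523) (nat_lit 608) (nat_lit 11050815949) (nat_lit 251) (nat_lit 5) (nat_lit 258) (nat_lit 5) (nat_lit 259) (nat_lit 5) (nat_lit 475) (nat_lit 434) (nat_lit 291)))) (XT.nd (nat_lit 78) (nat_lit 608) (nat_lit 0) (XT.lf (nat_lit 0) (nat_lit 144196998) (nat_lit 532) (nat_lit 16815524107) (nat_lit 608) (nat_lit 5180656236) (nat_lit 244) (nat_lit 5) (nat_lit 251) (nat_lit 5) (nat_lit 252) (nat_lit 5) (nat_lit 476) (nat_lit 434) (nat_lit 290)) (XT.nd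 (nat_lit 78) (nat_lit 532) (nat_lit 0) (XT.lf (nat_lit 0) (nat_lit 1022717609) (nat_lit 608) (nat_lit 2683151347) (nat_lit 76) (nat_lit 18825394439) (nat_lit 243) (nat_lit 5) (nat_lit 251) (nat_lit 5) (nat_lit 244) (nat_lit 5) (nat_lit 477) (nat_lit 434) (nat_lit 289)) (XT.lf (nat_lit 0) (nat_lit 7508287219) (nat_lit 608) (nat_lit 5608265217) (nat_lit 76) (nat_lit 9813309850) (nat_lit 236) (nat_lit 5) (nat_lit 244) (nat_lit 5) (nat_lit 237) (nat_lit 5) (nat_lit 478) (nat_lit 434) (nat_lit 288))))) (XT.nd (nat_lit 234) (nat_lit 1444) (nat_lit 0) (XT.nd (nat_lit 78) (nat_lit 1064) (nat_lit 0) (XT.lf (nat_lit 0) (nat_lit 14319276262) (nat_lit 608) (nat_lit 8563959937) (nat_lit 76) (nat_lit 454566602) (nat_lit 229) (nat_lit 5) (nat_lit 237) (nat_lit 5) (nat_lit 230) (nat_lit 5) (nat_lit 479) (nat_lit 434) (nat_lit 287)) (XT.nd (nat_lit 78) (nat_lit 608) (nat_lit 0) (XT.lf (nat_lit 0) (nat_lit 12143138592)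 (nat_lit 456) (nat_lit 9385306715) (nat_lit 532) (nat_lit 2225659902) (nat_lit 223) (nat_lit 5) (nat_lit 229) (nat_lit 5) (nat_lit 230) (nat_lit 5) (nat_lit 480) (nat_lit 434) (nat_lit 286)) (XT.lf (nat_lit 0) (nat_lit 4847911711) (nat_lit 608) (nat_lit 14725434187) (nat_lit 76) (nat_lit 4606142084) (nat_lit 215) (nat_lit 5) (nat_lit 223) (nat_lit 5) (nat_lit 216) (nat_lit 5) (nat_lit 481) (nat_lit 434) (nat_lit 285)))) (XT.nd (nat_lit 156) (nat_lit 532) (nat_lit 0) (XT.nd (nat_lit 78) (nat_lit 456) (nat_lit 0) (XT.lf (nat_lit 0) (nat_lit 6688497546) (nat_lit 456) (nat_lit 5589898444) (nat_lit 532) (nat_lit 12335443779) (nat_lit 209) (nat_lit 5) (nat_lit 215) (nat_lit 5) (nat_lit 216) (nat_lit 5) (nat_lit 482) (nat_lit 434) (nat_lit 284)) (XT.lf (nat_lit 0) (nat_lit 3865103747) (nat_lit 456) (nat_lit 16239017545) (nat_lit 532) (nat_lit 4953654902) (nat_lit 203) (nat_lit 5) (nat_lit 209) (nat_lit 5)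 (nat_lit 210) (nat_lit 5) (nat_lit 483) (nat_lit 434) (nat_lit 283))) (XT.nd (nat_lit 78) (nat_lit 0) (nat_lit 0) (XT.lf (nat_lit 0) (nat_lit 984765170) (nat_lit 456) (nat_lit 1785827679) (nat_lit 532) (nat_lit 22740979288) (nat_lit 196) (nat_lit 5) (nat_lit 202) (nat_lit 5) (nat_lit 203) (nat_lit 5) (nat_lit 484) (nat_lit 434) (nat_lit 282)) (XT.lf (nat_lit 0) (nat_lit 10879153653) (nat_lit 532) (nat_lit 1992354556) (nat_lit 76) (nat_lit 13102421717) (nat_lit 196) (nat_lit 5) (nat_lit 203) (nat_lit 5) (nat_lit 197) (nat_lit 5) (nat_lit 485) (nat_lit 434) (nat_lit 281))))))) (XT.nd (nat_lit 58500) (nat_lit 0) (nat_lit 26980) (XT.nd (nat_lit 468) (nat_lit 1976) (nat_lit 0) (XT.nd (nat_lit 234) (nat_lit 1216) (nat_lit 0) (XT.nd (nat_lit 78) (nat_lit 912) (nat_lit 0) (XT.lf (nat_lit 0) (nat_lit 19386153446) (nat_lit 532) (nat_lit 4987443512) (nat_lit 76) (nat_lit 2073458396) (nat_lit 190) (nat_lit 5)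 (nat_lit 197) (nat_lit 5) (nat_lit 191) (nat_lit 5) (nat_lit 486) (nat_lit 434) (nat_lit 280)) (XT.nd (nat_lit 78) (nat_lit 456) (nat_lit 0) (XT.lf (nat_lit 0) (nat_lit 1411905513) (nat_lit 456) (nat_lit 8084212985) (nat_lit 76) (nat_lit 17433822162) (nat_lit 184) (nat_lit 5) (nat_lit 190) (nat_lit 5) (nat_lit 185) (nat_lit 5) (nat_lit 487) (nat_lit 434) (nat_lit 279)) (XT.lf (nat_lit 0) (nat_lit 10212138729) (nat_lit 532) (nat_lit 11276570580) (nat_lit 76) (nat_lit 5934286842) (nat_lit 178) (nat_lit 5) (nat_lit 185) (nat_lit 5) (nat_lit 179) (nat_lit 5) (nat_lit 488) (nat_lit 434) (nat_lit 278)))) (XT.nd (nat_lit 78) (nat_lit 836) (nat_lit 0) (XT.lf (nat_lit 0) (nat_lit 13382490215) (nat_lit 380) (nat_lit 6090054445) (nat_lit 456) (nat_lit 8454375828) (nat_lit 173) (nat_lit 5) (nat_lit 178) (nat_lit 5) (nat_lit 179) (nat_lit 5) (nat_lit 489) (nat_lit 434) (nat_lit 277)) (XT.nd (nat_lit 78) (nat_lit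 380) (nat_lit 0) (XT.lf (nat_lit 0) (nat_lit 758361890) (nat_lit 456) (nat_lit 17895246477) (nat_lit 76) (nat_lit 9788261932) (nat_lit 167) (nat_lit 5) (nat_lit 173) (nat_lit 5) (nat_lit 168) (nat_lit 5) (nat_lit 490) (nat_lit 434) (nat_lit 276)) (XT.lf (nat_lit 0) (nat_lit 7607179886) (nat_lit 380) (nat_lit 2706323883) (nat_lit 456) (nat_lit 18654029949) (nat_lit 162) (nat_lit 5) (nat_lit 167) (nat_lit 5) (nat_lit 168) (nat_lit 5) (nat_lit 491) (nat_lit 434) (nat_lit 275))))) (XT.nd (nat_lit 234) (nat_lit 1140) (nat_lit 0) (XT.nd (nat_lit 78) (nat_lit 456) (nat_lit 0) (XT.lf (nat_lit 0) (nat_lit 4569346011) (nat_lit 380) (nat_lit 15817810106) (nat_lit 456) (nat_lit 9117174240) (nat_lit 157) (nat_lit 5) (nat_lit 162) (nat_lit 5) (nat_lit 163) (nat_lit 5) (nat_lit 492) (nat_lit 434) (nat_lit 274)) (XT.nd (nat_lit 78) (nat_lit 0) (nat_lit 0) (XT.lf (nat_lit 0) (nat_lit 865344225) (nat_lit 456) (nat_lit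 28560680964) (nat_lit 76) (nat_lit 627738208) (nat_lit 151) (nat_lit 5) (nat_lit 157) (nat_lit 5) (nat_lit 152) (nat_lit 5) (nat_lit 493) (nat_lit 434) (nat_lit 273)) (XT.lf (nat_lit 0) (nat_lit 11291344427) (nat_lit 456) (nat_lit 1742473468) (nat_lit 76) (nat_lit 17579299195) (nat_lit 151) (nat_lit 5) (nat_lit 157) (nat_lit 5) (nat_lit 152) (nat_lit 5) (nat_lit 494) (nat_lit 434) (nat_lit 272)))) (XT.nd (nat_lit 78) (nat_lit 760) (nat_lit 0) (XT.lf (nat_lit 0) (nat_lit 22217949696) (nat_lit 456) (nat_lit 5001282993) (nat_lit 76) (nat_lit 3966262601) (nat_lit 146) (nat_lit 5) (nat_lit 152) (nat_lit 5) (nat_lit 147) (nat_lit 5) (nat_lit 495) (nat_lit 434) (nat_lit 271)) (XT.nd (nat_lit 78) (nat_lit 380) (nat_lit 0) (XT.lf (nat_lit 0) (nat_lit 1919343823) (nat_lit 380) (nat_lit 8378499875) (nat_lit 76) (nat_lit 21472095195) (nat_lit 141) (nat_lit 5) (nat_lit 146) (nat_lit 5) (nat_lit 142) (nat_lit 5)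 (nat_lit 496) (nat_lit 434) (nat_lit 270)) (XT.lf (nat_lit 0) (nat_lit 13218667426) (nat_lit 456) (nat_lit 11886124802) (nat_lit 76) (nat_lit 7261785210) (nat_lit 136) (nat_lit 5) (nat_lit 142) (nat_lit 5) (nat_lit 137) (nat_lit 5) (nat_lit 497) (nat_lit 434) (nat_lit 269)))))) (XT.nd (nat_lit 468) (nat_lit 0) (nat_lit 76) (XT.nd (nat_lit 234) (nat_lit 1520) (nat_lit 0) (XT.nd (nat_lit 78) (nat_lit 0) (nat_lit 0) (XT.lf (nat_lit 0) (nat_lit 3929335564) (nat_lit 1748) (nat_lit 977603270) (nat_lit 1748) (nat_lit 977603270) (nat_lit 511) (nat_lit 3) (nat_lit 534) (nat_lit 3) (nat_lit 534) (nat_lit 5) (nat_lit 435) (nat_lit 435) (nat_lit 330)) (XT.nd (nat_lit 78) (nat_lit 0) (nat_lit 76) (XT.lf (nat_lit 76) (nat_lit 6856491720) (nat_lit 0) (nat_lit 1899088820) (nat_lit 1748) (nat_lit 3174388281) (nat_lit 512) (nat_lit 5) (nat_lit 511) (nat_lit 3) (nat_lit 534) (nat_lit 5) (nat_lit 436) (nat_lit 435) (nat_lit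 329)) (XT.lf (nat_lit 76) (nat_lit 3858320480) (nat_lit 0) (nat_lit 5871392321) (nat_lit 1748) (nat_lit 2364963633) (nat_lit 513) (nat_lit 5) (nat_lit 512) (nat_lit 5) (nat_lit 535) (nat_lit 5) (nat_lit 437) (nat_lit 435) (nat_lit 328)))) (XT.nd (nat_lit 78) (nat_lit 1672) (nat_lit 0) (XT.lf (nat_lit 76) (nat_lit 831130548) (nat_lit 0) (nat_lit 9941635445) (nat_lit 1748) (nat_lit 1490768033) (nat_lit 514) (nat_lit 5) (nat_lit 513) (nat_lit 5) (nat_lit 536) (nat_lit 5) (nat_lit 438) (nat_lit 435) (nat_lit 327)) (XT.nd (nat_lit 78) (nat_lit 1672) (nat_lit 0) (XT.lf (nat_lit 76) (nat_lit 10227976784) (nat_lit 0) (nat_lit 1686809333) (nat_lit 1748) (nat_lit 521320337) (nat_lit 514) (nat_lit 5) (nat_lit 513) (nat_lit 5) (nat_lit 536) (nat_lit 5) (nat_lit 439) (nat_lit 435) (nat_lit 326)) (XT.lf (nat_lit 0) (nat_lit 536940214) (nat_lit 1748) (nat_lit 5287104886) (nat_lit 1824) (nat_lit 6788431713) (nat_lit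 491) (nat_lit 5) (nat_lit 514) (nat_lit 5) (nat_lit 515) (nat_lit 5) (nat_lit 440) (nat_lit 435) (nat_lit 325))))) (XT.nd (nat_lit 234) (nat_lit 0) (nat_lit 152) (XT.nd (nat_lit 78) (nat_lit 0) (nat_lit 0) (XT.lf (nat_lit 0) (nat_lit 1666998604) (nat_lit 1748) (nat_lit 8403042734) (nat_lit 1824) (nat_lit 2723087789) (nat_lit 492) (nat_lit 5) (nat_lit 515) (nat_lit 5) (nat_lit 516) (nat_lit 5) (nat_lit 441) (nat_lit 435) (nat_lit 324)) (XT.nd (nat_lit 78) (nat_lit 0) (nat_lit 76) (XT.lf (nat_lit 76) (nat_lit 1414682838) (nat_lit 0) (nat_lit 1475397822) (nat_lit 1824) (nat_lit 10087940257) (nat_lit 493) (nat_lit 5) (nat_lit 492) (nat_lit 5) (nat_lit 516) (nat_lit 5) (nat_lit 442) (nat_lit 435) (nat_lit 323)) (XT.lf (nat_lit 0) (nat_lit 4230677982) (nat_lit 1748) (nat_lit 1590082177) (nat_lit 1824) (nat_lit 7346085122) (nat_lit 493) (nat_lit 5) (nat_lit 516) (nat_lit 5) (nat_lit 517) (nat_lit 5) (nat_lit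 443) (nat_lit 435) (nat_lit 322)))) (XT.nd (nat_lit 156) (nat_lit 0) (nat_lit 76) (XT.nd (nat_lit 78) (nat_lit 0) (nat_lit 0) (XT.lf (nat_lit 0) (nat_lit 5674865607) (nat_lit 1748) (nat_lit 4609136383) (nat_lit 1824) (nat_lit 3076067151) (nat_lit 494) (nat_lit 5) (nat_lit 517) (nat_lit 5) (nat_lit 518) (nat_lit 5) (nat_lit 444) (nat_lit 435) (nat_lit 321)) (XT.lf (nat_lit 76) (nat_lit 5887058063) (nat_lit 0) (nat_lit 1340269026) (nat_lit 1824) (nat_lit 6330465808) (nat_lit 495) (nat_lit 5) (nat_lit 494) (nat_lit 5) (nat_lit 518) (nat_lit 5) (nat_lit 445) (nat_lit 435) (nat_lit 320))) (XT.nd (nat_lit 78) (nat_lit 0) (nat_lit 76) (XT.lf (nat_lit 76) (nat_lit 2971608364) (nat_lit 0) (nat_lit 5934159544) (nat_lit 1824) (nat_lit 4854094432) (nat_lit 496) (nat_lit 5) (nat_lit 495) (nat_lit 5) (nat_lit 519) (nat_lit 5) (nat_lit 446) (nat_lit 435) (nat_lit 319)) (XT.lf (nat_lit 76) (nat_lit 24372655) (nat_lit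 0) (nat_lit 10671024070) (nat_lit 1824) (nat_lit 3271382470) (nat_lit 497) (nat_lit 5) (nat_lit 496) (nat_lit 5) (nat_lit 520) (nat_lit 5) (nat_lit 447) (nat_lit 435) (nat_lit 318))))))))
noncomputable def xc93 : XT := (XT.nd (nat_lit 1950) (nat_lit 10792) (nat_lit 0) (XT.nd (nat_lit 936) (nat_lit 8132) (nat_lit 0) (XT.nd (nat_lit 468) (nat_lit 4636) (nat_lit 0) (XT.nd (nat_lit 234) (nat_lit 1672) (nat_lit 0) (XT.nd (nat_lit 78) (nat_lit 1748) (nat_lit 0) (XT.lf (nat_lit 76) (nat_lit 11252443774) (nat_lit 0) (nat_lit 1377477185) (nat_lit 1824) (nat_lit 1548160429) (nat_lit 497) (nat_lit 5) (nat_lit 496) (nat_lit 5) (nat_lit 520) (nat_lit 5) (nat_lit 448) (nat_lit 435) (nat_lit 317)) (XT.nd (nat_lit 78) (nat_lit 0) (nat_lit 76) (XT.lf (nat_lit 0) (nat_lit 311846884) (nat_lit 1824) (nat_lit 5932967508) (nat_lit 1900) (nat_lit 8149119427) (nat_lit 473) (nat_lit 5) (nat_lit 497) (nat_lit 5) (nat_lit 498)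 (nat_lit 5) (nat_lit 449) (nat_lit 435) (nat_lit 316)) (XT.lf (nat_lit 0) (nat_lit 2274363760) (nat_lit 1824) (nat_lit 8985811899) (nat_lit 1900) (nat_lit 3354528459) (nat_lit 474) (nat_lit 5) (nat_lit 498) (nat_lit 5) (nat_lit 499) (nat_lit 5) (nat_lit 450) (nat_lit 435) (nat_lit 315)))) (XT.nd (nat_lit 78) (nat_lit 1748) (nat_lit 0) (XT.lf (nat_lit 76) (nat_lit 2755104980) (nat_lit 0) (nat_lit 1620974742) (nat_lit 1900) (nat_lit 10464413093) (nat_lit 475) (nat_lit 5) (nat_lit 474) (nat_lit 5) (nat_lit 499) (nat_lit 5) (nat_lit 451) (nat_lit 435) (nat_lit 314)) (XT.nd (nat_lit 78) (nat_lit 1824) (nat_lit 0) (XT.lf (nat_lit 0) (nat_lit 6636773079) (nat_lit 1824) (nat_lit 171595510) (nat_lit 76) (nat_lit 8262769777) (nat_lit 475) (nat_lit 5) (nat_lit 499) (nat_lit 5) (nat_lit 476) (nat_lit 5) (nat_lit 452) (nat_lit 435) (nat_lit 313)) (XT.lf (nat_lit 0) (nat_lit 9057561401) (nat_lit 1900) (nat_lit 3094998592)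 (nat_lit 76) (nat_lit 3154299469) (nat_lit 451) (nat_lit 5) (nat_lit 476) (nat_lit 5) (nat_lit 452) (nat_lit 5) (nat_lit 453) (nat_lit 435) (nat_lit 312))))) (XT.nd (nat_lit 234) (nat_lit 1672) (nat_lit 0) (XT.nd (nat_lit 78) (nat_lit 1900) (nat_lit 0) (XT.lf (nat_lit 0) (nat_lit 9482060020) (nat_lit 1064) (nat_lit 2158893350) (nat_lit 1140) (nat_lit 3906900833) (nat_lit 437) (nat_lit 5) (nat_lit 451) (nat_lit 5) (nat_lit 452) (nat_lit 5) (nat_lit 454) (nat_lit 435) (nat_lit 311)) (XT.nd (nat_lit 78) (nat_lit 988) (nat_lit 0) (XT.lf (nat_lit 0) (nat_lit 6701667970) (nat_lit 912) (nat_lit 7699772862) (nat_lit 988) (nat_lit 1392647646) (nat_lit 425) (nat_lit 5) (nat_lit 437) (nat_lit 5) (nat_lit 438) (nat_lit 5) (nat_lit 455) (nat_lit 435) (nat_lit 310)) (XT.lf (nat_lit 0) (nat_lit 1262168262) (nat_lit 988) (nat_lit 12162931118) (nat_lit 76) (nat_lit 2620839765) (nat_lit 412) (nat_lit 5) (nat_lit 425)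 (nat_lit 5) (nat_lit 413) (nat_lit 5) (nat_lit 456) (nat_lit 435) (nat_lit 309)))) (XT.nd (nat_lit 78) (nat_lit 836) (nat_lit 0) (XT.lf (nat_lit 0) (nat_lit 1003532029) (nat_lit 836) (nat_lit 3077178928) (nat_lit 912) (nat_lit 12222391655) (nat_lit 401) (nat_lit 5) (nat_lit 412) (nat_lit 5) (nat_lit 413) (nat_lit 5) (nat_lit 457) (nat_lit 435) (nat_lit 308)) (XT.nd (nat_lit 78) (nat_lit 836) (nat_lit 0) (XT.lf (nat_lit 0) (nat_lit 7099261638) (nat_lit 912) (nat_lit 1901157170) (nat_lit 76) (nat_lit 7565254545) (nat_lit 401) (nat_lit 5) (nat_lit 413) (nat_lit 5) (nat_lit 402) (nat_lit 5) (nat_lit 458) (nat_lit 435) (nat_lit 307)) (XT.lf (nat_lit 0) (nat_lit 10301970957) (nat_lit 912) (nat_lit 4825478805) (nat_lit 76) (nat_lit 1706800777) (nat_lit 390) (nat_lit 5) (nat_lit 402) (nat_lit 5) (nat_lit 391) (nat_lit 5) (nat_lit 459) (nat_lit 435) (nat_lit 306)))))) (XT.nd (nat_lit 468) (nat_lit 4180) (nat_lit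 0) (XT.nd (nat_lit 234) (nat_lit 1444) (nat_lit 0) (XT.nd (nat_lit 78) (nat_lit 1672) (nat_lit 0) (XT.lf (nat_lit 0) (nat_lit 9296939037) (nat_lit 836) (nat_lit 4421465075) (nat_lit 912) (nat_lit 3390129401) (nat_lit 379) (nat_lit 5) (nat_lit 390) (nat_lit 5) (nat_lit 391) (nat_lit 5) (nat_lit 460) (nat_lit 435) (nat_lit 305)) (XT.nd (nat_lit 78) (nat_lit 836) (nat_lit 0) (XT.lf (nat_lit 0) (nat_lit 6545268131) (nat_lit 836) (nat_lit 10794842547) (nat_lit 912) (nat_lit 48879975) (nat_lit 368) (nat_lit 5) (nat_lit 379) (nat_lit 5) (nat_lit 380) (nat_lit 5) (nat_lit 461) (nat_lit 435) (nat_lit 304)) (XT.lf (nat_lit 0) (nat_lit 3441974684) (nat_lit 836) (nat_lit 13933542093) (nat_lit 76) (nat_lit 300028166) (nat_lit 357) (nat_lit 5) (nat_lit 368) (nat_lit 5) (nat_lit 358) (nat_lit 5) (nat_lit 462) (nat_lit 435) (nat_lit 303)))) (XT.nd (nat_lit 78) (nat_lit 684) (nat_lit 0) (XT.lf (nat_lit 0) (nat_lit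 866734153) (nat_lit 760) (nat_lit 6307008254) (nat_lit 836) (nat_lit 10794211150) (nat_lit 347) (nat_lit 5) (nat_lit 357) (nat_lit 5) (nat_lit 358) (nat_lit 5) (nat_lit 463) (nat_lit 435) (nat_lit 302)) (XT.nd (nat_lit 78) (nat_lit 684) (nat_lit 0) (XT.lf (nat_lit 0) (nat_lit 11130964337) (nat_lit 836) (nat_lit 2015356281) (nat_lit 76) (nat_lit 5120544943) (nat_lit 347) (nat_lit 5) (nat_lit 358) (nat_lit 5) (nat_lit 348) (nat_lit 5) (nat_lit 464) (nat_lit 435) (nat_lit 301)) (XT.lf (nat_lit 0) (nat_lit 13644163847) (nat_lit 684) (nat_lit 1679316483) (nat_lit 760) (nat_lit 3248934165) (nat_lit 338) (nat_lit 5) (nat_lit 347) (nat_lit 5) (nat_lit 348) (nat_lit 5) (nat_lit 465) (nat_lit 435) (nat_lit 300))))) (XT.nd (nat_lit 234) (nat_lit 1976) (nat_lit 0) (XT.nd (nat_lit 78) (nat_lit 1368) (nat_lit 0) (XT.lf (nat_lit 0) (nat_lit 882561978) (nat_lit 836) (nat_lit 7913612740) (nat_lit 76) (nat_lit 10088101905)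 (nat_lit 327) (nat_lit 5) (nat_lit 338) (nat_lit 5) (nat_lit 328) (nat_lit 5) (nat_lit 466) (nat_lit 435) (nat_lit 299)) (XT.nd (nat_lit 78) (nat_lit 684) (nat_lit 0) (XT.lf (nat_lit 0) (nat_lit 5199037896) (nat_lit 760) (nat_lit 10954607620) (nat_lit 76) (nat_lit 3049317124) (nat_lit 318) (nat_lit 5) (nat_lit 328) (nat_lit 5) (nat_lit 319) (nat_lit 5) (nat_lit 467) (nat_lit 435) (nat_lit 298)) (XT.lf (nat_lit 0) (nat_lit 5470302158) (nat_lit 684) (nat_lit 4309641053) (nat_lit 760) (nat_lit 9748568327) (nat_lit 309) (nat_lit 5) (nat_lit 318) (nat_lit 5) (nat_lit 319) (nat_lit 5) (nat_lit 468) (nat_lit 435) (nat_lit 297)))) (XT.nd (nat_lit 156) (nat_lit 1368) (nat_lit 0) (XT.nd (nat_lit 78) (nat_lit 0) (nat_lit 0) (XT.lf (nat_lit 0) (nat_lit 2642885477) (nat_lit 608) (nat_lit 11985387446) (nat_lit 684) (nat_lit 5232955011) (nat_lit 301) (nat_lit 5) (nat_lit 309) (nat_lit 5) (nat_lit 310) (nat_lit 5)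 (nat_lit 469) (nat_lit 435) (nat_lit 296)) (XT.lf (nat_lit 0) (nat_lit 19734804136) (nat_lit 684) (nat_lit 210522904) (nat_lit 76) (nat_lit 256344698) (nat_lit 301) (nat_lit 5) (nat_lit 310) (nat_lit 5) (nat_lit 302) (nat_lit 5) (nat_lit 470) (nat_lit 435) (nat_lit 295))) (XT.nd (nat_lit 78) (nat_lit 608) (nat_lit 0) (XT.lf (nat_lit 0) (nat_lit 4566058284) (nat_lit 760) (nat_lit 3137788160) (nat_lit 76) (nat_lit 12844264153) (nat_lit 291) (nat_lit 5) (nat_lit 301) (nat_lit 5) (nat_lit 292) (nat_lit 5) (nat_lit 471) (nat_lit 435) (nat_lit 294)) (XT.lf (nat_lit 0) (nat_lit 9861623420) (nat_lit 684) (nat_lit 6101562512) (nat_lit 76) (nat_lit 4939335961) (nat_lit 283) (nat_lit 5) (nat_lit 292) (nat_lit 5) (nat_lit 284) (nat_lit 5) (nat_lit 472) (nat_lit 435) (nat_lit 293))))))) (XT.nd (nat_lit 1014) (nat_lit 4180) (nat_lit 0) (XT.nd (nat_lit 468) (nat_lit 3572) (nat_lit 0) (XT.nd (nat_lit 234) (nat_lit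 1140) (nat_lit 0) (XT.nd (nat_lit 78) (nat_lit 1292) (nat_lit 0) (XT.lf (nat_lit 0) (nat_lit 12146265550) (nat_lit 608) (nat_lit 3309531114) (nat_lit 684) (nat_lit 5808974889) (nat_lit 275) (nat_lit 5) (nat_lit 283) (nat_lit 5) (nat_lit 284) (nat_lit 5) (nat_lit 473) (nat_lit 435) (nat_lit 292)) (XT.nd (nat_lit 78) (nat_lit 684) (nat_lit 0) (XT.lf (nat_lit 0) (nat_lit 9433270722) (nat_lit 608) (nat_lit 11938716328) (nat_lit 684) (nat_lit 262818640) (nat_lit 267) (nat_lit 5) (nat_lit 275) (nat_lit 5) (nat_lit 276) (nat_lit 5) (nat_lit 474) (nat_lit 435) (nat_lit 291)) (XT.lf (nat_lit 0) (nat_lit 5501833851) (nat_lit 684) (nat_lit 15354247288) (nat_lit 76) (nat_lit 1156681119) (nat_lit 258) (nat_lit 5) (nat_lit 267) (nat_lit 5) (nat_lit 259) (nat_lit 5) (nat_lit 475) (nat_lit 435) (nat_lit 290)))) (XT.nd (nat_lit 78) (nat_lit 608) (nat_lit 0) (XT.lf (nat_lit 0) (nat_lit 3803818314) (nat_lit 532) (nat_lit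 7808407408) (nat_lit 608) (nat_lit 10786270410) (nat_lit 251) (nat_lit 5) (nat_lit 258) (nat_lit 5) (nat_lit 259) (nat_lit 5) (nat_lit 476) (nat_lit 435) (nat_lit 289)) (XT.nd (nat_lit 78) (nat_lit 76) (nat_lit 0) (XT.lf (nat_lit 0) (nat_lit 912938473) (nat_lit 532) (nat_lit 17129010146) (nat_lit 608) (nat_lit 4751133758) (nat_lit 244) (nat_lit 5) (nat_lit 251) (nat_lit 5) (nat_lit 252) (nat_lit 5) (nat_lit 477) (nat_lit 435) (nat_lit 288)) (XT.lf (nat_lit 0) (nat_lit 1613855976) (nat_lit 608) (nat_lit 2014010920) (nat_lit 76) (nat_lit 19568089507) (nat_lit 243) (nat_lit 5) (nat_lit 251) (nat_lit 5) (nat_lit 244) (nat_lit 5) (nat_lit 478) (nat_lit 435) (nat_lit 287))))) (XT.nd (nat_lit 234) (nat_lit 2052) (nat_lit 0) (XT.nd (nat_lit 78) (nat_lit 988) (nat_lit 0) (XT.lf (nat_lit 0) (nat_lit 8283681057) (nat_lit 608) (nat_lit 5029251211) (nat_lit 76) (nat_lit 10293788266) (nat_lit 236) (nat_lit 5) (nat_lit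 244) (nat_lit 5) (nat_lit 237) (nat_lit 5) (nat_lit 479) (nat_lit 435) (nat_lit 286)) (XT.nd (nat_lit 78) (nat_lit 456) (nat_lit 0) (XT.lf (nat_lit 0) (nat_lit 15289023277) (nat_lit 608) (nat_lit 8076202759) (nat_lit 76) (nat_lit 661873769) (nat_lit 229) (nat_lit 5) (nat_lit 237) (nat_lit 5) (nat_lit 230) (nat_lit 5) (nat_lit 480) (nat_lit 435) (nat_lit 285)) (XT.lf (nat_lit 0) (nat_lit 13240027242) (nat_lit 456) (nat_lit 9463463570) (nat_lit 532) (nat_lit 1752620986) (nat_lit 223) (nat_lit 5) (nat_lit 229) (nat_lit 5) (nat_lit 230) (nat_lit 5) (nat_lit 481) (nat_lit 435) (nat_lit 284)))) (XT.nd (nat_lit 156) (nat_lit 988) (nat_lit 0) (XT.nd (nat_lit 78) (nat_lit 456) (nat_lit 0) (XT.lf (nat_lit 0) (nat_lit 5516622437) (nat_lit 608) (nat_lit 14430357893) (nat_lit 76) (nat_lit 4947395678) (nat_lit 215) (nat_lit 5) (nat_lit 223) (nat_lit 5) (nat_lit 216) (nat_lit 5) (nat_lit 482) (nat_lit 435) (nat_lit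 283)) (XT.lf (nat_lit 0) (nat_lit 7614037450) (nat_lit 456) (nat_lit 5545449256) (nat_lit 532) (nat_lit 12182483240) (nat_lit 209) (nat_lit 5) (nat_lit 215) (nat_lit 5) (nat_lit 216) (nat_lit 5) (nat_lit 483) (nat_lit 435) (nat_lit 282))) (XT.nd (nat_lit 78) (nat_lit 532) (nat_lit 0) (XT.lf (nat_lit 0) (nat_lit 4702944547) (nat_lit 456) (nat_lit 16508129328) (nat_lit 532) (nat_lit 4588329667) (nat_lit 203) (nat_lit 5) (nat_lit 209) (nat_lit 5) (nat_lit 210) (nat_lit 5) (nat_lit 484) (nat_lit 435) (nat_lit 281)) (XT.lf (nat_lit 0) (nat_lit 1731143353) (nat_lit 456) (nat_lit 1619643328) (nat_lit 532) (nat_lit 22916163154) (nat_lit 196) (nat_lit 5) (nat_lit 202) (nat_lit 5) (nat_lit 203) (nat_lit 5) (nat_lit 485) (nat_lit 435) (nat_lit 280)))))) (XT.nd (nat_lit 468) (nat_lit 1976) (nat_lit 0) (XT.nd (nat_lit 234) (nat_lit 1292) (nat_lit 0) (XT.nd (nat_lit 78) (nat_lit 912) (nat_lit 0) (XT.lf (nat_lit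 0) (nat_lit 11689511631) (nat_lit 532) (nat_lit 1347874831) (nat_lit 76) (nat_lit 13706054562) (nat_lit 196) (nat_lit 5) (nat_lit 203) (nat_lit 5) (nat_lit 197) (nat_lit 5) (nat_lit 486) (nat_lit 435) (nat_lit 279)) (XT.nd (nat_lit 78) (nat_lit 456) (nat_lit 0) (XT.lf (nat_lit 0) (nat_lit 20443541349) (nat_lit 532) (nat_lit 4436146295) (nat_lit 76) (nat_lit 2351236965) (nat_lit 190) (nat_lit 5) (nat_lit 197) (nat_lit 5) (nat_lit 191) (nat_lit 5) (nat_lit 487) (nat_lit 435) (nat_lit 278)) (XT.lf (nat_lit 0) (nat_lit 1923798763) (nat_lit 456) (nat_lit 7630925496) (nat_lit 76) (nat_lit 18173698827) (nat_lit 184) (nat_lit 5) (nat_lit 190) (nat_lit 5) (nat_lit 185) (nat_lit 5) (nat_lit 488) (nat_lit 435) (nat_lit 277)))) (XT.nd (nat_lit 78) (nat_lit 836) (nat_lit 0) (XT.lf (nat_lit 0) (nat_lit 10980263347) (nat_lit 532) (nat_lit 10922567925) (nat_lit 76) (nat_lit 6333595213) (nat_lit 178) (nat_lit 5) (nat_lit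 185) (nat_lit 5) (nat_lit 179) (nat_lit 5) (nat_lit 489) (nat_lit 435) (nat_lit 276)) (XT.nd (nat_lit 78) (nat_lit 456) (nat_lit 0) (XT.lf (nat_lit 0) (nat_lit 14465032953) (nat_lit 380) (nat_lit 6044421113) (nat_lit 456) (nat_lit 8246195741) (nat_lit 173) (nat_lit 5) (nat_lit 178) (nat_lit 5) (nat_lit 179) (nat_lit 5) (nat_lit 490) (nat_lit 435) (nat_lit 275)) (XT.lf (nat_lit 0) (nat_lit 1229469670) (nat_lit 456) (nat_lit 17748631877) (nat_lit 76) (nat_lit 10308035229) (nat_lit 167) (nat_lit 5) (nat_lit 173) (nat_lit 5) (nat_lit 168) (nat_lit 5) (nat_lit 491) (nat_lit 435) (nat_lit 274))))) (XT.nd (nat_lit 234) (nat_lit 760) (nat_lit 0) (XT.nd (nat_lit 78) (nat_lit 836) (nat_lit 0) (XT.lf (nat_lit 0) (nat_lit 8507778756) (nat_lit 380) (nat_lit 2554793669) (nat_lit 456) (nat_lit 18765172194) (nat_lit 162) (nat_lit 5) (nat_lit 167) (nat_lit 5) (nat_lit 168) (nat_lit 5) (nat_lit 492) (nat_lit 435) (nat_lit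 273)) (XT.nd (nat_lit 78) (nat_lit 456) (nat_lit 0) (XT.lf (nat_lit 0) (nat_lit 5375086878) (nat_lit 380) (nat_lit 16056350081) (nat_lit 456) (nat_lit 8949348782) (nat_lit 157) (nat_lit 5) (nat_lit 162) (nat_lit 5) (nat_lit 163) (nat_lit 5) (nat_lit 493) (nat_lit 435) (nat_lit 272)) (XT.lf (nat_lit 0) (nat_lit 1320013597) (nat_lit 456) (nat_lit 28746945208) (nat_lit 76) (nat_lit 879823130) (nat_lit 151) (nat_lit 5) (nat_lit 157) (nat_lit 5) (nat_lit 152) (nat_lit 5) (nat_lit 494) (nat_lit 435) (nat_lit 271)))) (XT.nd (nat_lit 156) (nat_lit 380) (nat_lit 0) (XT.nd (nat_lit 78) (nat_lit 380) (nat_lit 0) (XT.lf (nat_lit 0) (nat_lit 12046307135) (nat_lit 456) (nat_lit 1143722250) (nat_lit 76) (nat_lit 18333137176) (nat_lit 151) (nat_lit 5) (nat_lit 157) (nat_lit 5) (nat_lit 152) (nat_lit 5) (nat_lit 495) (nat_lit 435) (nat_lit 270)) (XT.lf (nat_lit 0) (nat_lit 23294253525) (nat_lit 456) (nat_lit 4504181629)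 (nat_lit 76) (nat_lit 4314410664) (nat_lit 146) (nat_lit 5) (nat_lit 152) (nat_lit 5) (nat_lit 147) (nat_lit 5) (nat_lit 496) (nat_lit 435) (nat_lit 269))) (XT.nd (nat_lit 57720) (nat_lit 0) (nat_lit 28120) (XT.lf (nat_lit 0) (nat_lit 2381568298) (nat_lit 380) (nat_lit 7987818477) (nat_lit 76) (nat_lit 22345539294) (nat_lit 141) (nat_lit 5) (nat_lit 146) (nat_lit 5) (nat_lit 142) (nat_lit 5) (nat_lit 497) (nat_lit 435) (nat_lit 268)) (XT.lf (nat_lit 0) (nat_lit 4774667501) (nat_lit 1748) (nat_lit 635895723) (nat_lit 1748) (nat_lit 635895723) (nat_lit 511) (nat_lit 3) (nat_lit 534) (nat_lit 3) (nat_lit 534) (nat_lit 5) (nat_lit 436) (nat_lit 436) (nat_lit 328))))))))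
noncomputable def xc94 : XT := (XT.nd (nat_lit 1950) (nat_lit 13908) (nat_lit 0) (XT.nd (nat_lit 936) (nat_lit 8436) (nat_lit 0) (XT.nd (nat_lit 468) (nat_lit 0) (nat_lit 152) (XT.nd (nat_lit 234) (nat_lit 1596) (nat_lit 0) (XT.nd (nat_lit 78) (nat_lit 0) (nat_lit 76) (XT.lf (nat_lit 76) (nat_lit 7792218537) (nat_lit 0) (nat_lit 2643297175) (nat_lit 1748) (nat_lit 1823870155) (nat_lit 512) (nat_lit 5) (nat_lit 511) (nat_lit 3) (nat_lit 534) (nat_lit 5) (nat_lit 437) (nat_lit 436) (nat_lit 327)) (XT.nd (nat_lit 78) (nat_lit 0) (nat_lit 76) (XT.lf (nat_lit 76) (nat_lit 4724667788) (nat_lit 0) (nat_lit 6673465856) (nat_lit 1748) (nat_lit 1031719807) (nat_lit 513) (nat_lit 5) (nat_lit 512) (nat_lit 5) (nat_lit 535) (nat_lit 5) (nat_lit 438) (nat_lit 436) (nat_lit 326)) (XT.lf (nat_lit 76) (nat_lit 1625697104) (nat_lit 0) (nat_lit 10807739607) (nat_lit 1748) (nat_lit 171124761) (nat_lit 514) (nat_lit 5)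 (nat_lit 513) (nat_lit 5) (nat_lit 536) (nat_lit 5) (nat_lit 439) (nat_lit 436) (nat_lit 325)))) (XT.nd (nat_lit 78) (nat_lit 0) (nat_lit 76) (XT.lf (nat_lit 0) (nat_lit 777337139) (nat_lit 1748) (nat_lit 1506175762) (nat_lit 1824) (nat_lit 10499478762) (nat_lit 490) (nat_lit 5) (nat_lit 513) (nat_lit 5) (nat_lit 514) (nat_lit 5) (nat_lit 440) (nat_lit 436) (nat_lit 324)) (XT.nd (nat_lit 78) (nat_lit 0) (nat_lit 76) (XT.lf (nat_lit 0) (nat_lit 1823724658) (nat_lit 1748) (nat_lit 4664425144) (nat_lit 1824) (nat_lit 6477168747) (nat_lit 491) (nat_lit 5) (nat_lit 514) (nat_lit 5) (nat_lit 515) (nat_lit 5) (nat_lit 441) (nat_lit 436) (nat_lit 323)) (XT.lf (nat_lit 0) (nat_lit 2952613380) (nat_lit 1748) (nat_lit 7858576160) (nat_lit 1824) (nat_lit 2340905788) (nat_lit 492) (nat_lit 5) (nat_lit 515) (nat_lit 5) (nat_lit 516) (nat_lit 5) (nat_lit 442) (nat_lit 436) (nat_lit 322))))) (XT.nd (nat_lit 234) (nat_lit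 0) (nat_lit 152) (XT.nd (nat_lit 78) (nat_lit 0) (nat_lit 76) (XT.lf (nat_lit 76) (nat_lit 2240757974) (nat_lit 0) (nat_lit 1940729308) (nat_lit 1824) (nat_lit 9161667967) (nat_lit 493) (nat_lit 5) (nat_lit 492) (nat_lit 5) (nat_lit 516) (nat_lit 5) (nat_lit 443) (nat_lit 436) (nat_lit 321)) (XT.nd (nat_lit 78) (nat_lit 0) (nat_lit 76) (XT.lf (nat_lit 0) (nat_lit 5524559817) (nat_lit 1748) (nat_lit 850818809) (nat_lit 1824) (nat_lit 7163023842) (nat_lit 493) (nat_lit 5) (nat_lit 516) (nat_lit 5) (nat_lit 517) (nat_lit 5) (nat_lit 444) (nat_lit 436) (nat_lit 320)) (XT.lf (nat_lit 0) (nat_lit 6980748474) (nat_lit 1748) (nat_lit 3947984443) (nat_lit 1824) (nat_lit 2809319790) (nat_lit 494) (nat_lit 5) (nat_lit 517) (nat_lit 5) (nat_lit 518) (nat_lit 5) (nat_lit 445) (nat_lit 436) (nat_lit 319)))) (XT.nd (nat_lit 78) (nat_lit 0) (nat_lit 76) (XT.lf (nat_lit 76) (nat_lit 6850126098) (nat_lit 0) (nat_lit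 1701687095) (nat_lit 1824) (nat_lit 5390457476) (nat_lit 495) (nat_lit 5) (nat_lit 494) (nat_lit 5) (nat_lit 518) (nat_lit 5) (nat_lit 446) (nat_lit 436) (nat_lit 318)) (XT.nd (nat_lit 78) (nat_lit 0) (nat_lit 76) (XT.lf (nat_lit 76) (nat_lit 3858400200) (nat_lit 0) (nat_lit 6393098978) (nat_lit 1824) (nat_lit 3899488170) (nat_lit 496) (nat_lit 5) (nat_lit 495) (nat_lit 5) (nat_lit 519) (nat_lit 5) (nat_lit 447) (nat_lit 436) (nat_lit 317)) (XT.lf (nat_lit 76) (nat_lit 832920172) (nat_lit 0) (nat_lit 11233956487) (nat_lit 1824) (nat_lit 2297796756) (nat_lit 497) (nat_lit 5) (nat_lit 496) (nat_lit 5) (nat_lit 520) (nat_lit 5) (nat_lit 448) (nat_lit 436) (nat_lit 316)))))) (XT.nd (nat_lit 468) (nat_lit 5472) (nat_lit 0) (XT.nd (nat_lit 234) (nat_lit 1672) (nat_lit 0) (XT.nd (nat_lit 78) (nat_lit 1748) (nat_lit 0) (XT.lf (nat_lit 76) (nat_lit 12374304794) (nat_lit 0) (nat_lit 1654531302) (nat_lit 1824)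 (nat_lit 554093409) (nat_lit 497) (nat_lit 5) (nat_lit 496) (nat_lit 5) (nat_lit 520) (nat_lit 5) (nat_lit 449) (nat_lit 436) (nat_lit 315)) (XT.nd (nat_lit 78) (nat_lit 0) (nat_lit 76) (XT.lf (nat_lit 0) (nat_lit 1321847437) (nat_lit 1824) (nat_lit 5304337955) (nat_lit 1900) (nat_lit 8179464090) (nat_lit 473) (nat_lit 5) (nat_lit 497) (nat_lit 5) (nat_lit 498) (nat_lit 5) (nat_lit 450) (nat_lit 436) (nat_lit 314)) (XT.lf (nat_lit 0) (nat_lit 3318058015) (nat_lit 1824) (nat_lit 8441045279) (nat_lit 1900) (nat_lit 3274445837) (nat_lit 474) (nat_lit 5) (nat_lit 498) (nat_lit 5) (nat_lit 499) (nat_lit 5) (nat_lit 451) (nat_lit 436) (nat_lit 313)))) (XT.nd (nat_lit 78) (nat_lit 1748) (nat_lit 0) (XT.lf (nat_lit 76) (nat_lit 3638887392) (nat_lit 0) (nat_lit 1820727974) (nat_lit 1900) (nat_lit 9806962855) (nat_lit 475) (nat_lit 5) (nat_lit 474) (nat_lit 5) (nat_lit 499) (nat_lit 5) (nat_lit 452) (nat_lit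 436) (nat_lit 312)) (XT.nd (nat_lit 78) (nat_lit 0) (nat_lit 0) (XT.lf (nat_lit 0) (nat_lit 628823994) (nat_lit 1824) (nat_lit 7134700120) (nat_lit 1900) (nat_lit 7741113588) (nat_lit 451) (nat_lit 5) (nat_lit 475) (nat_lit 5) (nat_lit 476) (nat_lit 5) (nat_lit 453) (nat_lit 436) (nat_lit 311)) (XT.lf (nat_lit 0) (nat_lit 10230284070) (nat_lit 1900) (nat_lit 2384587196) (nat_lit 76) (nat_lit 3133094589) (nat_lit 451) (nat_lit 5) (nat_lit 476) (nat_lit 5) (nat_lit 452) (nat_lit 5) (nat_lit 454) (nat_lit 436) (nat_lit 310))))) (XT.nd (nat_lit 234) (nat_lit 2508) (nat_lit 0) (XT.nd (nat_lit 78) (nat_lit 1900) (nat_lit 0) (XT.lf (nat_lit 0) (nat_lit 10556751213) (nat_lit 1064) (nat_lit 2313314682) (nat_lit 1140) (nat_lit 3126549097) (nat_lit 437) (nat_lit 5) (nat_lit 451) (nat_lit 5) (nat_lit 452) (nat_lit 5) (nat_lit 455) (nat_lit 436) (nat_lit 309)) (XT.nd (nat_lit 78) (nat_lit 988) (nat_lit 0) (XT.lf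 (nat_lit 0) (nat_lit 7698087606) (nat_lit 912) (nat_lit 7994251612) (nat_lit 988) (nat_lit 558319899) (nat_lit 425) (nat_lit 5) (nat_lit 437) (nat_lit 5) (nat_lit 438) (nat_lit 5) (nat_lit 456) (nat_lit 436) (nat_lit 308)) (XT.lf (nat_lit 0) (nat_lit 2144291837) (nat_lit 988) (nat_lit 11716684701) (nat_lit 76) (nat_lit 2649384307) (nat_lit 412) (nat_lit 5) (nat_lit 425) (nat_lit 5) (nat_lit 413) (nat_lit 5) (nat_lit 457) (nat_lit 436) (nat_lit 307)))) (XT.nd (nat_lit 156) (nat_lit 1672) (nat_lit 0) (XT.nd (nat_lit 78) (nat_lit 0) (nat_lit 0) (XT.lf (nat_lit 0) (nat_lit 1831612648) (nat_lit 836) (nat_lit 3196369090) (nat_lit 912) (nat_lit 11747647735) (nat_lit 401) (nat_lit 5) (nat_lit 412) (nat_lit 5) (nat_lit 413) (nat_lit 5) (nat_lit 458) (nat_lit 436) (nat_lit 306)) (XT.lf (nat_lit 0) (nat_lit 8112894792) (nat_lit 912) (nat_lit 1167206095) (nat_lit 76) (nat_lit 7766462350) (nat_lit 401) (nat_lit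 5) (nat_lit 413) (nat_lit 5) (nat_lit 402) (nat_lit 5) (nat_lit 459) (nat_lit 436) (nat_lit 305))) (XT.nd (nat_lit 78) (nat_lit 836) (nat_lit 0) (XT.lf (nat_lit 0) (nat_lit 11393390125) (nat_lit 912) (nat_lit 4176349687) (nat_lit 76) (nat_lit 1753825790) (nat_lit 390) (nat_lit 5) (nat_lit 402) (nat_lit 5) (nat_lit 391) (nat_lit 5) (nat_lit 460) (nat_lit 436) (nat_lit 304)) (XT.lf (nat_lit 0) (nat_lit 10356860713) (nat_lit 836) (nat_lit 4537739235) (nat_lit 912) (nat_lit 2711833344) (nat_lit 379) (nat_lit 5) (nat_lit 390) (nat_lit 5) (nat_lit 391) (nat_lit 5) (nat_lit 461) (nat_lit 436) (nat_lit 303))))))) (XT.nd (nat_lit 936) (nat_lit 6612) (nat_lit 0) (XT.nd (nat_lit 468) (nat_lit 3344) (nat_lit 0) (XT.nd (nat_lit 234) (nat_lit 1520) (nat_lit 0) (XT.nd (nat_lit 78) (nat_lit 1520) (nat_lit 0) (XT.lf (nat_lit 0) (nat_lit 702887086) (nat_lit 912) (nat_lit 10375300695) (nat_lit 76) (nat_lit 6817367365)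 (nat_lit 367) (nat_lit 5) (nat_lit 379) (nat_lit 5) (nat_lit 368) (nat_lit 5) (nat_lit 462) (nat_lit 436) (nat_lit 302)) (XT.nd (nat_lit 78) (nat_lit 760) (nat_lit 0) (XT.lf (nat_lit 0) (nat_lit 4281246183) (nat_lit 836) (nat_lit 13556531801) (nat_lit 76) (nat_lit 353254518) (nat_lit 357) (nat_lit 5) (nat_lit 368) (nat_lit 5) (nat_lit 358) (nat_lit 5) (nat_lit 463) (nat_lit 436) (nat_lit 301)) (XT.lf (nat_lit 0) (nat_lit 1674854533) (nat_lit 760) (nat_lit 6433753185) (nat_lit 836) (nat_lit 10383934546) (nat_lit 347) (nat_lit 5) (nat_lit 357) (nat_lit 5) (nat_lit 358) (nat_lit 5) (nat_lit 464) (nat_lit 436) (nat_lit 300)))) (XT.nd (nat_lit 78) (nat_lit 1520) (nat_lit 0) (XT.lf (nat_lit 0) (nat_lit 12163979291) (nat_lit 836) (nat_lit 1302843483) (nat_lit 76) (nat_lit 5334011848) (nat_lit 347) (nat_lit 5) (nat_lit 358) (nat_lit 5) (nat_lit 348) (nat_lit 5) (nat_lit 465) (nat_lit 436) (nat_lit 299)) (XT.nd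 (nat_lit 78) (nat_lit 836) (nat_lit 0) (XT.lf (nat_lit 0) (nat_lit 14813921672) (nat_lit 684) (nat_lit 1652924599) (nat_lit 760) (nat_lit 2649013852) (nat_lit 338) (nat_lit 5) (nat_lit 347) (nat_lit 5) (nat_lit 348) (nat_lit 5) (nat_lit 466) (nat_lit 436) (nat_lit 298)) (XT.lf (nat_lit 0) (nat_lit 1582696411) (nat_lit 836) (nat_lit 7380908041) (nat_lit 76) (nat_lit 10473676323) (nat_lit 327) (nat_lit 5) (nat_lit 338) (nat_lit 5) (nat_lit 328) (nat_lit 5) (nat_lit 467) (nat_lit 436) (nat_lit 297))))) (XT.nd (nat_lit 234) (nat_lit 1368) (nat_lit 0) (XT.nd (nat_lit 78) (nat_lit 1292) (nat_lit 0) (XT.lf (nat_lit 0) (nat_lit 6014605065) (nat_lit 760) (nat_lit 10513038905) (nat_lit 76) (nat_lit 3238166117) (nat_lit 318) (nat_lit 5) (nat_lit 328) (nat_lit 5) (nat_lit 319) (nat_lit 5) (nat_lit 468) (nat_lit 436) (nat_lit 296)) (XT.nd (nat_lit 78) (nat_lit 608) (nat_lit 0) (XT.lf (nat_lit 0) (nat_lit 6392122473)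 (nat_lit 684) (nat_lit 4326523095) (nat_lit 760) (nat_lit 9382767165) (nat_lit 309) (nat_lit 5) (nat_lit 318) (nat_lit 5) (nat_lit 319) (nat_lit 5) (nat_lit 469) (nat_lit 436) (nat_lit 295)) (XT.lf (nat_lit 0) (nat_lit 3479616331) (nat_lit 608) (nat_lit 12219639973) (nat_lit 684) (nat_lit 4745119095) (nat_lit 301) (nat_lit 5) (nat_lit 309) (nat_lit 5) (nat_lit 310) (nat_lit 5) (nat_lit 470) (nat_lit 436) (nat_lit 294)))) (XT.nd (nat_lit 78) (nat_lit 608) (nat_lit 0) (XT.lf (nat_lit 0) (nat_lit 147571260) (nat_lit 760) (nat_lit 20259168924) (nat_lit 76) (nat_lit 388556964) (nat_lit 291) (nat_lit 5) (nat_lit 301) (nat_lit 5) (nat_lit 292) (nat_lit 5) (nat_lit 471) (nat_lit 436) (nat_lit 293)) (XT.nd (nat_lit 78) (nat_lit 608) (nat_lit 0) (XT.lf (nat_lit 0) (nat_lit 5308451842) (nat_lit 760) (nat_lit 2489038153) (nat_lit 76) (nat_lit 13354912557) (nat_lit 291) (nat_lit 5) (nat_lit 301) (nat_lit 5) (nat_lit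 292) (nat_lit 5) (nat_lit 472) (nat_lit 436) (nat_lit 292)) (XT.lf (nat_lit 0) (nat_lit 10750893605) (nat_lit 684) (nat_lit 5542783784) (nat_lit 76) (nat_lit 5224009859) (nat_lit 283) (nat_lit 5) (nat_lit 292) (nat_lit 5) (nat_lit 284) (nat_lit 5) (nat_lit 473) (nat_lit 436) (nat_lit 291)))))) (XT.nd (nat_lit 468) (nat_lit 3572) (nat_lit 0) (XT.nd (nat_lit 234) (nat_lit 1140) (nat_lit 0) (XT.nd (nat_lit 78) (nat_lit 1292) (nat_lit 0) (XT.lf (nat_lit 0) (nat_lit 13240443881) (nat_lit 608) (nat_lit 3259902329) (nat_lit 684) (nat_lit 5390710326) (nat_lit 275) (nat_lit 5) (nat_lit 283) (nat_lit 5) (nat_lit 284) (nat_lit 5) (nat_lit 474) (nat_lit 436) (nat_lit 290)) (XT.nd (nat_lit 78) (nat_lit 608) (nat_lit 0) (XT.lf (nat_lit 0) (nat_lit 306283752) (nat_lit 684) (nat_lit 11829695828) (nat_lit 76) (nat_lit 10136398006) (nat_lit 266) (nat_lit 5) (nat_lit 275) (nat_lit 5) (nat_lit 267) (nat_lit 5) (nat_lit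 475) (nat_lit 436) (nat_lit 289)) (XT.lf (nat_lit 0) (nat_lit 6229382018) (nat_lit 684) (nat_lit 15080480272) (nat_lit 76) (nat_lit 1351995407) (nat_lit 258) (nat_lit 5) (nat_lit 267) (nat_lit 5) (nat_lit 259) (nat_lit 5) (nat_lit 476) (nat_lit 436) (nat_lit 288)))) (XT.nd (nat_lit 78) (nat_lit 608) (nat_lit 0) (XT.lf (nat_lit 0) (nat_lit 4640412622) (nat_lit 532) (nat_lit 7870980546) (nat_lit 608) (nat_lit 10548005363) (nat_lit 251) (nat_lit 5) (nat_lit 258) (nat_lit 5) (nat_lit 259) (nat_lit 5) (nat_lit 477) (nat_lit 436) (nat_lit 287)) (XT.nd (nat_lit 78) (nat_lit 76) (nat_lit 0) (XT.lf (nat_lit 0) (nat_lit 1660861612) (nat_lit 532) (nat_lit 17462863782) (nat_lit 608) (nat_lit 4342303678) (nat_lit 244) (nat_lit 5) (nat_lit 251) (nat_lit 5) (nat_lit 252) (nat_lit 5) (nat_lit 478) (nat_lit 436) (nat_lit 286)) (XT.lf (nat_lit 0) (nat_lit 2190555979) (nat_lit 608) (nat_lit 1367828393) (nat_lit 76) (nat_lit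 20322851331) (nat_lit 243) (nat_lit 5) (nat_lit 251) (nat_lit 5) (nat_lit 244) (nat_lit 5) (nat_lit 479) (nat_lit 436) (nat_lit 285))))) (XT.nd (nat_lit 234) (nat_lit 2052) (nat_lit 0) (XT.nd (nat_lit 78) (nat_lit 988) (nat_lit 0) (XT.lf (nat_lit 0) (nat_lit 9050756125) (nat_lit 608) (nat_lit 4475762678) (nat_lit 76) (nat_lit 10777999331) (nat_lit 236) (nat_lit 5) (nat_lit 244) (nat_lit 5) (nat_lit 237) (nat_lit 5) (nat_lit 480) (nat_lit 436) (nat_lit 284)) (XT.nd (nat_lit 78) (nat_lit 456) (nat_lit 0) (XT.lf (nat_lit 0) (nat_lit 16256854808) (nat_lit 608) (nat_lit 7616560314) (nat_lit 76) (nat_lit 864282691) (nat_lit 229) (nat_lit 5) (nat_lit 237) (nat_lit 5) (nat_lit 230) (nat_lit 5) (nat_lit 481) (nat_lit 436) (nat_lit 283)) (XT.lf (nat_lit 0) (nat_lit 14327768632) (nat_lit 456) (nat_lit 9555641259) (nat_lit 532) (nat_lit 1296378131) (nat_lit 223) (nat_lit 5) (nat_lit 229) (nat_lit 5) (nat_lit 230)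 (nat_lit 5) (nat_lit 482) (nat_lit 436) (nat_lit 282)))) (XT.nd (nat_lit 156) (nat_lit 988) (nat_lit 0) (XT.nd (nat_lit 78) (nat_lit 456) (nat_lit 0) (XT.lf (nat_lit 0) (nat_lit 6175356452) (nat_lit 608) (nat_lit 14168726901) (nat_lit 76) (nat_lit 5287229869) (nat_lit 215) (nat_lit 5) (nat_lit 223) (nat_lit 5) (nat_lit 216) (nat_lit 5) (nat_lit 483) (nat_lit 436) (nat_lit 281)) (XT.lf (nat_lit 0) (nat_lit 8525732188) (nat_lit 456) (nat_lit 5511844649) (nat_lit 532) (nat_lit 12054957593) (nat_lit 209) (nat_lit 5) (nat_lit 215) (nat_lit 5) (nat_lit 216) (nat_lit 5) (nat_lit 484) (nat_lit 436) (nat_lit 280))) (XT.nd (nat_lit 78) (nat_lit 532) (nat_lit 0) (XT.lf (nat_lit 0) (nat_lit 5524481264) (nat_lit 456) (nat_lit 16797831928) (nat_lit 532) (nat_lit 4241546640) (nat_lit 203) (nat_lit 5) (nat_lit 209) (nat_lit 5) (nat_lit 210) (nat_lit 5) (nat_lit 485) (nat_lit 436) (nat_lit 279)) (XT.lf (nat_lit 0)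 (nat_lit 2458763608) (nat_lit 456) (nat_lit 1461088523) (nat_lit 532) (nat_lit 23125709022) (nat_lit 196) (nat_lit 5) (nat_lit 202) (nat_lit 5) (nat_lit 203) (nat_lit 5) (nat_lit 486) (nat_lit 436) (nat_lit 278))))))))
noncomputable def xc95 : XT := (XT.nd (nat_lit 59670) (nat_lit 0) (nat_lit 9120) (XT.nd (nat_lit 58656) (nat_lit 0) (nat_lit 24776) (XT.nd (nat_lit 468) (nat_lit 1596) (nat_lit 0) (XT.nd (nat_lit 234) (nat_lit 1292) (nat_lit 0) (XT.nd (nat_lit 78) (nat_lit 912) (nat_lit 0) (XT.lf (nat_lit 0) (nat_lit 12496397723) (nat_lit 532) (nat_lit 724487567) (nat_lit 76) (nat_lit 14315709377) (nat_lit 196) (nat_lit 5) (nat_lit 203) (nat_lit 5) (nat_lit 197) (nat_lit 5) (nat_lit 487) (nat_lit 436) (nat_lit 277)) (XT.nd (nat_lit 78) (nat_lit 456) (nat_lit 0) (XT.lf (nat_lit 0) (nat_lit 21505337832) (nat_lit 532) (nat_lit 3908545867) (nat_lit 76) (nat_lit 2624974014) (nat_lit 190) (nat_lit 5) (nat_lit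 197) (nat_lit 5) (nat_lit 191) (nat_lit 5) (nat_lit 488) (nat_lit 436) (nat_lit 276)) (XT.lf (nat_lit 0) (nat_lit 2424095518) (nat_lit 456) (nat_lit 7203981945) (nat_lit 76) (nat_lit 18923323027) (nat_lit 184) (nat_lit 5) (nat_lit 190) (nat_lit 5) (nat_lit 185) (nat_lit 5) (nat_lit 489) (nat_lit 436) (nat_lit 275)))) (XT.nd (nat_lit 78) (nat_lit 836) (nat_lit 0) (XT.lf (nat_lit 0) (nat_lit 11744924763) (nat_lit 532) (nat_lit 10597686028) (nat_lit 76) (nat_lit 6732180472) (nat_lit 178) (nat_lit 5) (nat_lit 185) (nat_lit 5) (nat_lit 179) (nat_lit 5) (nat_lit 490) (nat_lit 436) (nat_lit 274)) (XT.nd (nat_lit 78) (nat_lit 456) (nat_lit 0) (XT.lf (nat_lit 0) (nat_lit 15540955882) (nat_lit 380) (nat_lit 6010526143) (nat_lit 456) (nat_lit 8058280113) (nat_lit 173) (nat_lit 5) (nat_lit 178) (nat_lit 5) (nat_lit 179) (nat_lit 5) (nat_lit 491) (nat_lit 436) (nat_lit 273)) (XT.lf (nat_lit 0) (nat_lit 1688973161)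 (nat_lit 456) (nat_lit 17636852928) (nat_lit 76) (nat_lit 10830421199) (nat_lit 167) (nat_lit 5) (nat_lit 173) (nat_lit 5) (nat_lit 168) (nat_lit 5) (nat_lit 492) (nat_lit 436) (nat_lit 272))))) (XT.nd (nat_lit 234) (nat_lit 380) (nat_lit 0) (XT.nd (nat_lit 78) (nat_lit 836) (nat_lit 0) (XT.lf (nat_lit 0) (nat_lit 9396798029) (nat_lit 380) (nat_lit 2412076624) (nat_lit 456) (nat_lit 18905393217) (nat_lit 162) (nat_lit 5) (nat_lit 167) (nat_lit 5) (nat_lit 168) (nat_lit 5) (nat_lit 493) (nat_lit 436) (nat_lit 271)) (XT.nd (nat_lit 78) (nat_lit 456) (nat_lit 0) (XT.lf (nat_lit 0) (nat_lit 6166616125) (nat_lit 380) (nat_lit 16315593295) (nat_lit 456) (nat_lit 8801823321) (nat_lit 157) (nat_lit 5) (nat_lit 162) (nat_lit 5) (nat_lit 163) (nat_lit 5) (nat_lit 494) (nat_lit 436) (nat_lit 270)) (XT.lf (nat_lit 0) (nat_lit 1763713398) (nat_lit 456) (nat_lit 28977290047) (nat_lit 76) (nat_lit 1126080936) (nat_lit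 151) (nat_lit 5) (nat_lit 157) (nat_lit 5) (nat_lit 152) (nat_lit 5) (nat_lit 495) (nat_lit 436) (nat_lit 269)))) (XT.nd (nat_lit 78) (nat_lit 380) (nat_lit 0) (XT.lf (nat_lit 0) (nat_lit 12800025856) (nat_lit 456) (nat_lit 564380017) (nat_lit 76) (nat_lit 19096590624) (nat_lit 151) (nat_lit 5) (nat_lit 157) (nat_lit 5) (nat_lit 152) (nat_lit 5) (nat_lit 496) (nat_lit 436) (nat_lit 268)) (XT.nd (nat_lit 57798) (nat_lit 0) (nat_lit 27740) (XT.lf (nat_lit 0) (nat_lit 24379324262) (nat_lit 456) (nat_lit 4029315700) (nat_lit 76) (nat_lit 4659848437) (nat_lit 146) (nat_lit 5) (nat_lit 152) (nat_lit 5) (nat_lit 147) (nat_lit 5) (nat_lit 497) (nat_lit 436) (nat_lit 267)) (XT.lf (nat_lit 0) (nat_lit 5603600683) (nat_lit 1748) (nat_lit 305235914) (nat_lit 1748) (nat_lit 305235914) (nat_lit 511) (nat_lit 3) (nat_lit 534) (nat_lit 3) (nat_lit 534) (nat_lit 5) (nat_lit 437) (nat_lit 437) (nat_lit 326)))))) (XT.nd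 (nat_lit 468) (nat_lit 1292) (nat_lit 0) (XT.nd (nat_lit 234) (nat_lit 0) (nat_lit 76) (XT.nd (nat_lit 78) (nat_lit 1672) (nat_lit 0) (XT.lf (nat_lit 76) (nat_lit 8714110330) (nat_lit 0) (nat_lit 3370381641) (nat_lit 1748) (nat_lit 515828436) (nat_lit 512) (nat_lit 5) (nat_lit 511) (nat_lit 3) (nat_lit 534) (nat_lit 5) (nat_lit 438) (nat_lit 437) (nat_lit 325)) (XT.nd (nat_lit 78) (nat_lit 0) (nat_lit 76) (XT.lf (nat_lit 0) (nat_lit 257492978) (nat_lit 1748) (nat_lit 7204449662) (nat_lit 1824) (nat_lit 5314697246) (nat_lit 489) (nat_lit 5) (nat_lit 512) (nat_lit 5) (nat_lit 513) (nat_lit 5) (nat_lit 439) (nat_lit 437) (nat_lit 324)) (XT.lf (nat_lit 0) (nat_lit 1095232537) (nat_lit 1748) (nat_lit 10564647565) (nat_lit 1824) (nat_lit 1297338471) (nat_lit 490) (nat_lit 5) (nat_lit 513) (nat_lit 5) (nat_lit 514) (nat_lit 5) (nat_lit 440) (nat_lit 437) (nat_lit 323)))) (XT.nd (nat_lit 78) (nat_lit 0) (nat_lit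 76) (XT.lf (nat_lit 0) (nat_lit 2032870243) (nat_lit 1748) (nat_lit 830547105) (nat_lit 1824) (nat_lit 10278304228) (nat_lit 490) (nat_lit 5) (nat_lit 513) (nat_lit 5) (nat_lit 514) (nat_lit 5) (nat_lit 441) (nat_lit 437) (nat_lit 322)) (XT.nd (nat_lit 78) (nat_lit 0) (nat_lit 76) (XT.lf (nat_lit 0) (nat_lit 3076170621) (nat_lit 1748) (nat_lit 4067914418) (nat_lit 1824) (nat_lit 6186126171) (nat_lit 491) (nat_lit 5) (nat_lit 514) (nat_lit 5) (nat_lit 515) (nat_lit 5) (nat_lit 442) (nat_lit 437) (nat_lit 321)) (XT.lf (nat_lit 0) (nat_lit 4205867827) (nat_lit 1748) (nat_lit 7343501268) (nat_lit 1824) (nat_lit 1973886629) (nat_lit 492) (nat_lit 5) (nat_lit 515) (nat_lit 5) (nat_lit 516) (nat_lit 5) (nat_lit 443) (nat_lit 437) (nat_lit 320))))) (XT.nd (nat_lit 234) (nat_lit 1520) (nat_lit 0) (XT.nd (nat_lit 78) (nat_lit 0) (nat_lit 76) (XT.lf (nat_lit 76) (nat_lit 3046631530) (nat_lit 0) (nat_lit 2395849625)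 (nat_lit 1824) (nat_lit 8278151998) (nat_lit 493) (nat_lit 5) (nat_lit 492) (nat_lit 5) (nat_lit 516) (nat_lit 5) (nat_lit 444) (nat_lit 437) (nat_lit 319)) (XT.nd (nat_lit 78) (nat_lit 0) (nat_lit 76) (XT.lf (nat_lit 0) (nat_lit 6790269743) (nat_lit 1748) (nat_lit 134552598) (nat_lit 1824) (nat_lit 6997630050) (nat_lit 493) (nat_lit 5) (nat_lit 516) (nat_lit 5) (nat_lit 517) (nat_lit 5) (nat_lit 445) (nat_lit 437) (nat_lit 318)) (XT.lf (nat_lit 0) (nat_lit 8260617623) (nat_lit 1748) (nat_lit 3312888269) (nat_lit 1824) (nat_lit 2555179764) (nat_lit 494) (nat_lit 5) (nat_lit 517) (nat_lit 5) (nat_lit 518) (nat_lit 5) (nat_lit 446) (nat_lit 437) (nat_lit 317)))) (XT.nd (nat_lit 156) (nat_lit 1672) (nat_lit 0) (XT.nd (nat_lit 78) (nat_lit 0) (nat_lit 76) (XT.lf (nat_lit 76) (nat_lit 7796940366) (nat_lit 0) (nat_lit 2055508938) (nat_lit 1824) (nat_lit 4487111057) (nat_lit 495) (nat_lit 5) (nat_lit 494)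 (nat_lit 5) (nat_lit 518) (nat_lit 5) (nat_lit 447) (nat_lit 437) (nat_lit 316)) (XT.lf (nat_lit 76) (nat_lit 4726007787) (nat_lit 0) (nat_lit 6849680944) (nat_lit 1824) (nat_lit 2979401371) (nat_lit 496) (nat_lit 5) (nat_lit 495) (nat_lit 5) (nat_lit 519) (nat_lit 5) (nat_lit 448) (nat_lit 437) (nat_lit 315))) (XT.nd (nat_lit 78) (nat_lit 1824) (nat_lit 0) (XT.lf (nat_lit 76) (nat_lit 1619352153) (nat_lit 0) (nat_lit 11799839067) (nat_lit 1824) (nat_lit 1356524996) (nat_lit 497) (nat_lit 5) (nat_lit 496) (nat_lit 5) (nat_lit 520) (nat_lit 5) (nat_lit 449) (nat_lit 437) (nat_lit 314)) (XT.lf (nat_lit 0) (nat_lit 404687896) (nat_lit 1824) (nat_lit 1518961622) (nat_lit 1900) (nat_lit 13077396756) (nat_lit 472) (nat_lit 5) (nat_lit 496) (nat_lit 5) (nat_lit 497) (nat_lit 5) (nat_lit 450) (nat_lit 437) (nat_lit 313))))))) (XT.nd (nat_lit 1014) (nat_lit 7676) (nat_lit 0) (XT.nd (nat_lit 468) (nat_lit 5320)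 (nat_lit 0) (XT.nd (nat_lit 234) (nat_lit 2736) (nat_lit 0) (XT.nd (nat_lit 78) (nat_lit 0) (nat_lit 76) (XT.lf (nat_lit 0) (nat_lit 2304706882) (nat_lit 1824) (nat_lit 4703152721) (nat_lit 1900) (nat_lit 8223010969) (nat_lit 473) (nat_lit 5) (nat_lit 497) (nat_lit 5) (nat_lit 498) (nat_lit 5) (nat_lit 451) (nat_lit 437) (nat_lit 312)) (XT.nd (nat_lit 78) (nat_lit 0) (nat_lit 0) (XT.lf (nat_lit 0) (nat_lit 4337067511) (nat_lit 1824) (nat_lit 7926682165) (nat_lit 1900) (nat_lit 3202334716) (nat_lit 474) (nat_lit 5) (nat_lit 498) (nat_lit 5) (nat_lit 499) (nat_lit 5) (nat_lit 452) (nat_lit 437) (nat_lit 311)) (XT.lf (nat_lit 76) (nat_lit 4503195178) (nat_lit 0) (nat_lit 2017798667) (nat_lit 1900) (nat_lit 9185550448) (nat_lit 475) (nat_lit 5) (nat_lit 474) (nat_lit 5) (nat_lit 499) (nat_lit 5) (nat_lit 453) (nat_lit 437) (nat_lit 310)))) (XT.nd (nat_lit 78) (nat_lit 1064) (nat_lit 0) (XT.lf (nat_lit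 0) (nat_lit 1409227216) (nat_lit 1824) (nat_lit 7462695720) (nat_lit 1900) (nat_lit 7080266876) (nat_lit 451) (nat_lit 5) (nat_lit 475) (nat_lit 5) (nat_lit 476) (nat_lit 5) (nat_lit 454) (nat_lit 437) (nat_lit 309)) (XT.nd (nat_lit 78) (nat_lit 1064) (nat_lit 0) (XT.lf (nat_lit 0) (nat_lit 11386467573) (nat_lit 1900) (nat_lit 1698973946) (nat_lit 76) (nat_lit 3117902901) (nat_lit 451) (nat_lit 5) (nat_lit 476) (nat_lit 5) (nat_lit 452) (nat_lit 5) (nat_lit 455) (nat_lit 437) (nat_lit 308)) (XT.lf (nat_lit 0) (nat_lit 11618320743) (nat_lit 1064) (nat_lit 2467222116) (nat_lit 1140) (nat_lit 2374310354) (nat_lit 437) (nat_lit 5) (nat_lit 451) (nat_lit 5) (nat_lit 452) (nat_lit 5) (nat_lit 456) (nat_lit 437) (nat_lit 307))))) (XT.nd (nat_lit 234) (nat_lit 2584) (nat_lit 0) (XT.nd (nat_lit 78) (nat_lit 1748) (nat_lit 0) (XT.lf (nat_lit 0) (nat_lit 247456970) (nat_lit 988) (nat_lit 8044802857) (nat_lit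 76) (nat_lit 8429624826) (nat_lit 424) (nat_lit 5) (nat_lit 437) (nat_lit 5) (nat_lit 425) (nat_lit 5) (nat_lit 457) (nat_lit 437) (nat_lit 306)) (XT.nd (nat_lit 78) (nat_lit 836) (nat_lit 0) (XT.lf (nat_lit 0) (nat_lit 3004415225) (nat_lit 988) (nat_lit 11303613322) (nat_lit 76) (nat_lit 2681660019) (nat_lit 412) (nat_lit 5) (nat_lit 425) (nat_lit 5) (nat_lit 413) (nat_lit 5) (nat_lit 458) (nat_lit 437) (nat_lit 305)) (XT.lf (nat_lit 0) (nat_lit 2638728677) (nat_lit 836) (nat_lit 3317592234) (nat_lit 912) (nat_lit 11306962200) (nat_lit 401) (nat_lit 5) (nat_lit 412) (nat_lit 5) (nat_lit 413) (nat_lit 5) (nat_lit 459) (nat_lit 437) (nat_lit 304)))) (XT.nd (nat_lit 156) (nat_lit 1748) (nat_lit 0) (XT.nd (nat_lit 78) (nat_lit 836) (nat_lit 0) (XT.lf (nat_lit 0) (nat_lit 9110976051) (nat_lit 912) (nat_lit 456642308) (nat_lit 76) (nat_lit 7975184534) (nat_lit 401) (nat_lit 5) (nat_lit 413) (nat_lit 5)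 (nat_lit 402) (nat_lit 5) (nat_lit 460) (nat_lit 437) (nat_lit 303)) (XT.lf (nat_lit 0) (nat_lit 12472641201) (nat_lit 912) (nat_lit 3553319428) (nat_lit 76) (nat_lit 1802501445) (nat_lit 390) (nat_lit 5) (nat_lit 402) (nat_lit 5) (nat_lit 391) (nat_lit 5) (nat_lit 461) (nat_lit 437) (nat_lit 302))) (XT.nd (nat_lit 78) (nat_lit 912) (nat_lit 0) (XT.lf (nat_lit 0) (nat_lit 11403746668) (nat_lit 836) (nat_lit 4658441312) (nat_lit 912) (nat_lit 2057963594) (nat_lit 379) (nat_lit 5) (nat_lit 390) (nat_lit 5) (nat_lit 391) (nat_lit 5) (nat_lit 462) (nat_lit 437) (nat_lit 301)) (XT.lf (nat_lit 0) (nat_lit 1433346080) (nat_lit 912) (nat_lit 9938697881) (nat_lit 76) (nat_lit 7046133553) (nat_lit 367) (nat_lit 5) (nat_lit 379) (nat_lit 5) (nat_lit 368) (nat_lit 5) (nat_lit 463) (nat_lit 437) (nat_lit 300)))))) (XT.nd (nat_lit 468) (nat_lit 3952) (nat_lit 0) (XT.nd (nat_lit 234) (nat_lit 2204) (nat_lit 0) (XT.nd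 (nat_lit 78) (nat_lit 760) (nat_lit 0) (XT.lf (nat_lit 0) (nat_lit 5103445712) (nat_lit 836) (nat_lit 13213848402) (nat_lit 76) (nat_lit 405538935) (nat_lit 357) (nat_lit 5) (nat_lit 368) (nat_lit 5) (nat_lit 358) (nat_lit 5) (nat_lit 464) (nat_lit 437) (nat_lit 299)) (XT.nd (nat_lit 78) (nat_lit 0) (nat_lit 0) (XT.lf (nat_lit 0) (nat_lit 2462321732) (nat_lit 760) (nat_lit 6567886228) (nat_lit 836) (nat_lit 10003490154) (nat_lit 347) (nat_lit 5) (nat_lit 357) (nat_lit 5) (nat_lit 358) (nat_lit 5) (nat_lit 465) (nat_lit 437) (nat_lit 298)) (XT.lf (nat_lit 0) (nat_lit 13187854297) (nat_lit 836) (nat_lit 613327143) (nat_lit 76) (nat_lit 5550447093) (nat_lit 347) (nat_lit 5) (nat_lit 358) (nat_lit 5) (nat_lit 348) (nat_lit 5) (nat_lit 466) (nat_lit 437) (nat_lit 297)))) (XT.nd (nat_lit 78) (nat_lit 1520) (nat_lit 0) (XT.lf (nat_lit 0) (nat_lit 15975120271) (nat_lit 684) (nat_lit 1630147949) (nat_lit 760)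 (nat_lit 2071128873) (nat_lit 338) (nat_lit 5) (nat_lit 347) (nat_lit 5) (nat_lit 348) (nat_lit 5) (nat_lit 467) (nat_lit 437) (nat_lit 296)) (XT.nd (nat_lit 78) (nat_lit 684) (nat_lit 0) (XT.lf (nat_lit 0) (nat_lit 2265164176) (nat_lit 836) (nat_lit 6876429841) (nat_lit 76) (nat_lit 10866057374) (nat_lit 327) (nat_lit 5) (nat_lit 338) (nat_lit 5) (nat_lit 328) (nat_lit 5) (nat_lit 468) (nat_lit 437) (nat_lit 295)) (XT.lf (nat_lit 0) (nat_lit 6816775739) (nat_lit 760) (nat_lit 10102436158) (nat_lit 76) (nat_lit 3427091174) (nat_lit 318) (nat_lit 5) (nat_lit 328) (nat_lit 5) (nat_lit 319) (nat_lit 5) (nat_lit 469) (nat_lit 437) (nat_lit 294))))) (XT.nd (nat_lit 234) (nat_lit 1900) (nat_lit 0) (XT.nd (nat_lit 78) (nat_lit 1368) (nat_lit 0) (XT.lf (nat_lit 0) (nat_lit 7298101673) (nat_lit 684) (nat_lit 4350364231) (nat_lit 760) (nat_lit 9043778683) (nat_lit 309) (nat_lit 5) (nat_lit 318) (nat_lit 5) (nat_lit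 319) (nat_lit 5) (nat_lit 470) (nat_lit 437) (nat_lit 293)) (XT.nd (nat_lit 78) (nat_lit 760) (nat_lit 0) (XT.lf (nat_lit 0) (nat_lit 4297968709) (nat_lit 608) (nat_lit 12468113332) (nat_lit 684) (nat_lit 4279663670) (nat_lit 301) (nat_lit 5) (nat_lit 309) (nat_lit 5) (nat_lit 310) (nat_lit 5) (nat_lit 471) (nat_lit 437) (nat_lit 292)) (XT.lf (nat_lit 0) (nat_lit 739776853) (nat_lit 760) (nat_lit 20145697727) (nat_lit 76) (nat_lit 521884041) (nat_lit 291) (nat_lit 5) (nat_lit 301) (nat_lit 5) (nat_lit 292) (nat_lit 5) (nat_lit 472) (nat_lit 437) (nat_lit 291)))) (XT.nd (nat_lit 156) (nat_lit 1292) (nat_lit 0) (XT.nd (nat_lit 78) (nat_lit 608) (nat_lit 0) (XT.lf (nat_lit 0) (nat_lit 6038364093) (nat_lit 760) (nat_lit 1863470206) (nat_lit 76) (nat_lit 13873686504) (nat_lit 291) (nat_lit 5) (nat_lit 301) (nat_lit 5) (nat_lit 292) (nat_lit 5) (nat_lit 473) (nat_lit 437) (nat_lit 290)) (XT.lf (nat_lit 0)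 (nat_lit 11632777076) (nat_lit 684) (nat_lit 5009825519) (nat_lit 76) (nat_lit 5509388671) (nat_lit 283) (nat_lit 5) (nat_lit 292) (nat_lit 5) (nat_lit 284) (nat_lit 5) (nat_lit 474) (nat_lit 437) (nat_lit 289))) (XT.nd (nat_lit 78) (nat_lit 684) (nat_lit 0) (XT.lf (nat_lit 0) (nat_lit 14325554609) (nat_lit 608) (nat_lit 3217332994) (nat_lit 684) (nat_lit 4993911691) (nat_lit 275) (nat_lit 5) (nat_lit 283) (nat_lit 5) (nat_lit 284) (nat_lit 5) (nat_lit 475) (nat_lit 437) (nat_lit 288)) (XT.lf (nat_lit 0) (nat_lit 855991288) (nat_lit 684) (nat_lit 11490715834) (nat_lit 76) (nat_lit 10582994939) (nat_lit 266) (nat_lit 5) (nat_lit 275) (nat_lit 5) (nat_lit 267) (nat_lit 5) (nat_lit 476) (nat_lit 437) (nat_lit 287))))))))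
noncomputable def xc96 : XT := (XT.nd (nat_lit 59748) (nat_lit 0) (nat_lit 14896) (XT.nd (nat_lit 936) (nat_lit 3420) (nat_lit 0) (XT.nd (nat_lit 468) (nat_lit 2508) (nat_lit 0) (XT.nd (nat_lit 234) (nat_lit 1140) (nat_lit 0) (XT.nd (nat_lit 78) (nat_lit 1064) (nat_lit 0) (XT.lf (nat_lit 0) (nat_lit 6946467223) (nat_lit 684) (nat_lit 14840657489) (nat_lit 76) (nat_lit 1543949230) (nat_lit 258) (nat_lit 5) (nat_lit 267) (nat_lit 5) (nat_lit 259) (nat_lit 5) (nat_lit 477) (nat_lit 437) (nat_lit 286)) (XT.nd (nat_lit 78) (nat_lit 532) (nat_lit 0) (XT.lf (nat_lit 0) (nat_lit 5460631465) (nat_lit 532) (nat_lit 7945285960) (nat_lit 608) (nat_lit 10334845033) (nat_lit 251) (nat_lit 5) (nat_lit 258) (nat_lit 5) (nat_lit 259) (nat_lit 5) (nat_lit 478) (nat_lit 437) (nat_lit 285)) (XT.lf (nat_lit 0) (nat_lit 2389860790) (nat_lit 532) (nat_lit 17817066719) (nat_lit 608) (nat_lit 3952859251) (nat_lit 244) (nat_lit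 5) (nat_lit 251) (nat_lit 5) (nat_lit 252) (nat_lit 5) (nat_lit 479) (nat_lit 437) (nat_lit 284)))) (XT.nd (nat_lit 78) (nat_lit 1064) (nat_lit 0) (XT.lf (nat_lit 0) (nat_lit 2754231300) (nat_lit 608) (nat_lit 742822285) (nat_lit 76) (nat_lit 21090628246) (nat_lit 243) (nat_lit 5) (nat_lit 251) (nat_lit 5) (nat_lit 244) (nat_lit 5) (nat_lit 480) (nat_lit 437) (nat_lit 283)) (XT.nd (nat_lit 78) (nat_lit 532) (nat_lit 0) (XT.lf (nat_lit 0) (nat_lit 9811075713) (nat_lit 608) (nat_lit 3946102983) (nat_lit 76) (nat_lit 11266668200) (nat_lit 236) (nat_lit 5) (nat_lit 244) (nat_lit 5) (nat_lit 237) (nat_lit 5) (nat_lit 481) (nat_lit 437) (nat_lit 282)) (XT.lf (nat_lit 0) (nat_lit 17224493370) (nat_lit 608) (nat_lit 7183422163) (nat_lit 76) (nat_lit 1062284608) (nat_lit 229) (nat_lit 5) (nat_lit 237) (nat_lit 5) (nat_lit 230) (nat_lit 5) (nat_lit 482) (nat_lit 437) (nat_lit 281))))) (XT.nd (nat_lit 234) (nat_lit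 988) (nat_lit 0) (XT.nd (nat_lit 78) (nat_lit 1064) (nat_lit 0) (XT.lf (nat_lit 0) (nat_lit 15408502409) (nat_lit 456) (nat_lit 9661590147) (nat_lit 532) (nat_lit 855656424) (nat_lit 223) (nat_lit 5) (nat_lit 229) (nat_lit 5) (nat_lit 230) (nat_lit 5) (nat_lit 483) (nat_lit 437) (nat_lit 280)) (XT.nd (nat_lit 78) (nat_lit 456) (nat_lit 0) (XT.lf (nat_lit 0) (nat_lit 6825538761) (nat_lit 608) (nat_lit 13939116515) (nat_lit 76) (nat_lit 5626271236) (nat_lit 215) (nat_lit 5) (nat_lit 223) (nat_lit 5) (nat_lit 216) (nat_lit 5) (nat_lit 484) (nat_lit 437) (nat_lit 279)) (XT.lf (nat_lit 0) (nat_lit 9425555067) (nat_lit 456) (nat_lit 5488710890) (nat_lit 532) (nat_lit 11951906402) (nat_lit 209) (nat_lit 5) (nat_lit 215) (nat_lit 5) (nat_lit 216) (nat_lit 5) (nat_lit 485) (nat_lit 437) (nat_lit 278)))) (XT.nd (nat_lit 78) (nat_lit 532) (nat_lit 0) (XT.lf (nat_lit 0) (nat_lit 6331603563) (nat_lit 456) (nat_lit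 17108024517) (nat_lit 532) (nat_lit 3912168552) (nat_lit 203) (nat_lit 5) (nat_lit 209) (nat_lit 5) (nat_lit 210) (nat_lit 5) (nat_lit 486) (nat_lit 437) (nat_lit 277)) (XT.nd (nat_lit 78) (nat_lit 0) (nat_lit 0) (XT.lf (nat_lit 0) (nat_lit 3169425332) (nat_lit 456) (nat_lit 1309667993) (nat_lit 532) (nat_lit 23368976921) (nat_lit 196) (nat_lit 5) (nat_lit 202) (nat_lit 5) (nat_lit 203) (nat_lit 5) (nat_lit 487) (nat_lit 437) (nat_lit 276)) (XT.lf (nat_lit 0) (nat_lit 13301302609) (nat_lit 532) (nat_lit 120504869) (nat_lit 76) (nat_lit 14932260663) (nat_lit 196) (nat_lit 5) (nat_lit 203) (nat_lit 5) (nat_lit 197) (nat_lit 5) (nat_lit 488) (nat_lit 437) (nat_lit 275)))))) (XT.nd (nat_lit 468) (nat_lit 836) (nat_lit 0) (XT.nd (nat_lit 234) (nat_lit 1216) (nat_lit 0) (XT.nd (nat_lit 78) (nat_lit 912) (nat_lit 0) (XT.lf (nat_lit 0) (nat_lit 22573243035) (nat_lit 532) (nat_lit 3403043437) (nat_lit 76) (nat_lit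 2895258667) (nat_lit 190) (nat_lit 5) (nat_lit 197) (nat_lit 5) (nat_lit 191) (nat_lit 5) (nat_lit 489) (nat_lit 437) (nat_lit 274)) (XT.nd (nat_lit 78) (nat_lit 456) (nat_lit 0) (XT.lf (nat_lit 0) (nat_lit 2913995114) (nat_lit 456) (nat_lit 6801879784) (nat_lit 76) (nat_lit 19683701796) (nat_lit 184) (nat_lit 5) (nat_lit 190) (nat_lit 5) (nat_lit 185) (nat_lit 5) (nat_lit 490) (nat_lit 437) (nat_lit 273)) (XT.lf (nat_lit 0) (nat_lit 12507540690) (nat_lit 532) (nat_lit 10300517228) (nat_lit 76) (nat_lit 7130750093) (nat_lit 178) (nat_lit 5) (nat_lit 185) (nat_lit 5) (nat_lit 179) (nat_lit 5) (nat_lit 491) (nat_lit 437) (nat_lit 272)))) (XT.nd (nat_lit 78) (nat_lit 836) (nat_lit 0) (XT.lf (nat_lit 0) (nat_lit 16612304684) (nat_lit 380) (nat_lit 5987969269) (nat_lit 456) (nat_lit 7889715103) (nat_lit 173) (nat_lit 5) (nat_lit 178) (nat_lit 5) (nat_lit 179) (nat_lit 5) (nat_lit 492) (nat_lit 437) (nat_lit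 271)) (XT.nd (nat_lit 78) (nat_lit 380) (nat_lit 0) (XT.lf (nat_lit 0) (nat_lit 2138001674) (nat_lit 456) (nat_lit 17558702501) (nat_lit 76) (nat_lit 11356243358) (nat_lit 167) (nat_lit 5) (nat_lit 173) (nat_lit 5) (nat_lit 168) (nat_lit 5) (nat_lit 493) (nat_lit 437) (nat_lit 270)) (XT.lf (nat_lit 0) (nat_lit 10276105977) (nat_lit 380) (nat_lit 2277670279) (nat_lit 456) (nat_lit 19074087539) (nat_lit 162) (nat_lit 5) (nat_lit 167) (nat_lit 5) (nat_lit 168) (nat_lit 5) (nat_lit 494) (nat_lit 437) (nat_lit 269))))) (XT.nd (nat_lit 58032) (nat_lit 0) (nat_lit 25612) (XT.nd (nat_lit 78) (nat_lit 456) (nat_lit 0) (XT.lf (nat_lit 0) (nat_lit 6945710791) (nat_lit 380) (nat_lit 16595383189) (nat_lit 456) (nat_lit 8673752537) (nat_lit 157) (nat_lit 5) (nat_lit 162) (nat_lit 5) (nat_lit 163) (nat_lit 5) (nat_lit 495) (nat_lit 437) (nat_lit 268)) (XT.nd (nat_lit 78) (nat_lit 0) (nat_lit 0) (XT.lf (nat_lit 0)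 (nat_lit 2197527234) (nat_lit 456) (nat_lit 29250828263) (nat_lit 76) (nat_lit 1367105435) (nat_lit 151) (nat_lit 5) (nat_lit 157) (nat_lit 5) (nat_lit 152) (nat_lit 5) (nat_lit 496) (nat_lit 437) (nat_lit 267)) (XT.lf (nat_lit 0) (nat_lit 13553834821) (nat_lit 456) (nat_lit 2883762) (nat_lit 76) (nat_lit 19870694236) (nat_lit 151) (nat_lit 5) (nat_lit 157) (nat_lit 5) (nat_lit 152) (nat_lit 5) (nat_lit 497) (nat_lit 437) (nat_lit 266)))) (XT.nd (nat_lit 156) (nat_lit 0) (nat_lit 76) (XT.nd (nat_lit 78) (nat_lit 0) (nat_lit 0) (XT.lf (nat_lit 0) (nat_lit 15166929) (nat_lit 0) (nat_lit 15166929) (nat_lit 1748) (nat_lit 6357163707) (nat_lit 488) (nat_lit 5) (nat_lit 488) (nat_lit 3) (nat_lit 511) (nat_lit 3) (nat_lit 438) (nat_lit 438) (nat_lit 324)) (XT.lf (nat_lit 0) (nat_lit 743347957) (nat_lit 1748) (nat_lit 3333756886) (nat_lit 1824) (nat_lit 8875821461) (nat_lit 488) (nat_lit 5) (nat_lit 511) (nat_lit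 3) (nat_lit 512) (nat_lit 5) (nat_lit 439) (nat_lit 438) (nat_lit 323))) (XT.nd (nat_lit 78) (nat_lit 0) (nat_lit 76) (XT.lf (nat_lit 0) (nat_lit 1496462234) (nat_lit 1748) (nat_lit 6737208655) (nat_lit 1824) (nat_lit 4901527729) (nat_lit 489) (nat_lit 5) (nat_lit 512) (nat_lit 5) (nat_lit 513) (nat_lit 5) (nat_lit 440) (nat_lit 438) (nat_lit 322)) (XT.lf (nat_lit 0) (nat_lit 2324412804) (nat_lit 1748) (nat_lit 10181767642) (nat_lit 1824) (nat_lit 815716007) (nat_lit 490) (nat_lit 5) (nat_lit 513) (nat_lit 5) (nat_lit 514) (nat_lit 5) (nat_lit 441) (nat_lit 438) (nat_lit 321))))))) (XT.nd (nat_lit 936) (nat_lit 9500) (nat_lit 0) (XT.nd (nat_lit 468) (nat_lit 1368) (nat_lit 0) (XT.nd (nat_lit 234) (nat_lit 0) (nat_lit 152) (XT.nd (nat_lit 78) (nat_lit 0) (nat_lit 76) (XT.lf (nat_lit 0) (nat_lit 3255335274) (nat_lit 1748) (nat_lit 176027256) (nat_lit 1824) (nat_lit 10081272172) (nat_lit 490) (nat_lit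 5) (nat_lit 513) (nat_lit 5) (nat_lit 514) (nat_lit 5) (nat_lit 442) (nat_lit 438) (nat_lit 320)) (XT.nd (nat_lit 78) (nat_lit 0) (nat_lit 76) (XT.lf (nat_lit 0) (nat_lit 4297435119) (nat_lit 1748) (nat_lit 3495783238) (nat_lit 1824) (nat_lit 5914213832) (nat_lit 491) (nat_lit 5) (nat_lit 514) (nat_lit 5) (nat_lit 515) (nat_lit 5) (nat_lit 443) (nat_lit 438) (nat_lit 319)) (XT.lf (nat_lit 0) (nat_lit 5429862738) (nat_lit 1748) (nat_lit 6856074968) (nat_lit 1824) (nat_lit 1620956624) (nat_lit 492) (nat_lit 5) (nat_lit 515) (nat_lit 5) (nat_lit 516) (nat_lit 5) (nat_lit 444) (nat_lit 438) (nat_lit 318)))) (XT.nd (nat_lit 78) (nat_lit 0) (nat_lit 76) (XT.lf (nat_lit 76) (nat_lit 3834279714) (nat_lit 0) (nat_lit 2841839957) (nat_lit 1824) (nat_lit 7434625498) (nat_lit 493) (nat_lit 5) (nat_lit 492) (nat_lit 5) (nat_lit 516) (nat_lit 5) (nat_lit 445) (nat_lit 438) (nat_lit 317)) (XT.nd (nat_lit 78) (nat_lit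 0) (nat_lit 76) (XT.lf (nat_lit 76) (nat_lit 568070115) (nat_lit 0) (nat_lit 7466426181) (nat_lit 1824) (nat_lit 6284722502) (nat_lit 494) (nat_lit 5) (nat_lit 493) (nat_lit 5) (nat_lit 517) (nat_lit 5) (nat_lit 446) (nat_lit 438) (nat_lit 316)) (XT.lf (nat_lit 0) (nat_lit 9517434828) (nat_lit 1748) (nat_lit 2701995243) (nat_lit 1824) (nat_lit 2312842208) (nat_lit 494) (nat_lit 5) (nat_lit 517) (nat_lit 5) (nat_lit 518) (nat_lit 5) (nat_lit 447) (nat_lit 438) (nat_lit 315))))) (XT.nd (nat_lit 234) (nat_lit 1672) (nat_lit 0) (XT.nd (nat_lit 78) (nat_lit 0) (nat_lit 76) (XT.lf (nat_lit 76) (nat_lit 8729604808) (nat_lit 0) (nat_lit 2402565129) (nat_lit 1824) (nat_lit 3617803054) (nat_lit 495) (nat_lit 5) (nat_lit 494) (nat_lit 5) (nat_lit 518) (nat_lit 5) (nat_lit 448) (nat_lit 438) (nat_lit 314)) (XT.nd (nat_lit 78) (nat_lit 0) (nat_lit 76) (XT.lf (nat_lit 76) (nat_lit 5576484015) (nat_lit 0) (nat_lit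 7304760399) (nat_lit 1824) (nat_lit 2091244111) (nat_lit 496) (nat_lit 5) (nat_lit 495) (nat_lit 5) (nat_lit 519) (nat_lit 5) (nat_lit 449) (nat_lit 438) (nat_lit 313)) (XT.lf (nat_lit 76) (nat_lit 2385667071) (nat_lit 0) (nat_lit 12369560400) (nat_lit 1824) (nat_lit 445005020) (nat_lit 497) (nat_lit 5) (nat_lit 496) (nat_lit 5) (nat_lit 520) (nat_lit 5) (nat_lit 450) (nat_lit 438) (nat_lit 312)))) (XT.nd (nat_lit 78) (nat_lit 0) (nat_lit 76) (XT.lf (nat_lit 0) (nat_lit 1329185081) (nat_lit 1824) (nat_lit 855494405) (nat_lit 1900) (nat_lit 13248069187) (nat_lit 472) (nat_lit 5) (nat_lit 496) (nat_lit 5) (nat_lit 497) (nat_lit 5) (nat_lit 451) (nat_lit 438) (nat_lit 311)) (XT.nd (nat_lit 78) (nat_lit 0) (nat_lit 76) (XT.lf (nat_lit 0) (nat_lit 3262908341) (nat_lit 1824) (nat_lit 4127577143) (nat_lit 1900) (nat_lit 8279450527) (nat_lit 473) (nat_lit 5) (nat_lit 497) (nat_lit 5) (nat_lit 498) (nat_lit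 5) (nat_lit 452) (nat_lit 438) (nat_lit 310)) (XT.lf (nat_lit 0) (nat_lit 5333866082) (nat_lit 1824) (nat_lit 7440951219) (nat_lit 1900) (nat_lit 3137838732) (nat_lit 474) (nat_lit 5) (nat_lit 498) (nat_lit 5) (nat_lit 499) (nat_lit 5) (nat_lit 453) (nat_lit 438) (nat_lit 309)))))) (XT.nd (nat_lit 468) (nat_lit 4940) (nat_lit 0) (XT.nd (nat_lit 234) (nat_lit 2964) (nat_lit 0) (XT.nd (nat_lit 78) (nat_lit 1748) (nat_lit 0) (XT.lf (nat_lit 76) (nat_lit 5350084006) (nat_lit 0) (nat_lit 2212604334) (nat_lit 1900) (nat_lit 8598056076) (nat_lit 475) (nat_lit 5) (nat_lit 474) (nat_lit 5) (nat_lit 499) (nat_lit 5) (nat_lit 454) (nat_lit 438) (nat_lit 308)) (XT.nd (nat_lit 78) (nat_lit 0) (nat_lit 0) (XT.lf (nat_lit 0) (nat_lit 2169327110) (nat_lit 1824) (nat_lit 7793989729) (nat_lit 1900) (nat_lit 6450861214) (nat_lit 451) (nat_lit 5) (nat_lit 475) (nat_lit 5) (nat_lit 476) (nat_lit 5) (nat_lit 455) (nat_lit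 438) (nat_lit 307)) (XT.lf (nat_lit 0) (nat_lit 12528584723) (nat_lit 1900) (nat_lit 1036255855) (nat_lit 76) (nat_lit 3108523101) (nat_lit 451) (nat_lit 5) (nat_lit 476) (nat_lit 5) (nat_lit 452) (nat_lit 5) (nat_lit 456) (nat_lit 438) (nat_lit 306)))) (XT.nd (nat_lit 78) (nat_lit 1900) (nat_lit 0) (XT.lf (nat_lit 0) (nat_lit 12668978945) (nat_lit 1064) (nat_lit 2620895669) (nat_lit 1140) (nat_lit 1648070330) (nat_lit 437) (nat_lit 5) (nat_lit 451) (nat_lit 5) (nat_lit 452) (nat_lit 5) (nat_lit 457) (nat_lit 438) (nat_lit 305)) (XT.nd (nat_lit 78) (nat_lit 912) (nat_lit 0) (XT.lf (nat_lit 0) (nat_lit 1023081572) (nat_lit 988) (nat_lit 7569197119) (nat_lit 76) (nat_lit 8615833230) (nat_lit 424) (nat_lit 5) (nat_lit 437) (nat_lit 5) (nat_lit 425) (nat_lit 5) (nat_lit 458) (nat_lit 438) (nat_lit 304)) (XT.lf (nat_lit 0) (nat_lit 3844660448) (nat_lit 988) (nat_lit 10922039358) (nat_lit 76) (nat_lit 2717613810)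 (nat_lit 412) (nat_lit 5) (nat_lit 425) (nat_lit 5) (nat_lit 413) (nat_lit 5) (nat_lit 459) (nat_lit 438) (nat_lit 303))))) (XT.nd (nat_lit 234) (nat_lit 3268) (nat_lit 0) (XT.nd (nat_lit 78) (nat_lit 836) (nat_lit 0) (XT.lf (nat_lit 0) (nat_lit 3426880686) (nat_lit 836) (nat_lit 3440997908) (nat_lit 912) (nat_lit 10898584142) (nat_lit 401) (nat_lit 5) (nat_lit 412) (nat_lit 5) (nat_lit 413) (nat_lit 5) (nat_lit 460) (nat_lit 438) (nat_lit 302)) (XT.nd (nat_lit 78) (nat_lit 0) (nat_lit 0) (XT.lf (nat_lit 0) (nat_lit 235528044) (nat_lit 836) (nat_lit 9861678361) (nat_lit 912) (nat_lit 7957562838) (nat_lit 390) (nat_lit 5) (nat_lit 401) (nat_lit 5) (nat_lit 402) (nat_lit 5) (nat_lit 461) (nat_lit 438) (nat_lit 301)) (XT.lf (nat_lit 0) (nat_lit 13541937199) (nat_lit 912) (nat_lit 2954554934) (nat_lit 76) (nat_lit 1852863491) (nat_lit 390) (nat_lit 5) (nat_lit 402) (nat_lit 5) (nat_lit 391) (nat_lit 5)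 (nat_lit 462) (nat_lit 438) (nat_lit 300)))) (XT.nd (nat_lit 156) (nat_lit 1520) (nat_lit 0) (XT.nd (nat_lit 78) (nat_lit 912) (nat_lit 0) (XT.lf (nat_lit 0) (nat_lit 12439779451) (nat_lit 836) (nat_lit 4783650203) (nat_lit 912) (nat_lit 1426682659) (nat_lit 379) (nat_lit 5) (nat_lit 390) (nat_lit 5) (nat_lit 391) (nat_lit 5) (nat_lit 463) (nat_lit 438) (nat_lit 299)) (XT.lf (nat_lit 0) (nat_lit 2144997967) (nat_lit 912) (nat_lit 9531927311) (nat_lit 76) (nat_lit 7280370955) (nat_lit 367) (nat_lit 5) (nat_lit 379) (nat_lit 5) (nat_lit 368) (nat_lit 5) (nat_lit 464) (nat_lit 438) (nat_lit 298))) (XT.nd (nat_lit 78) (nat_lit 760) (nat_lit 0) (XT.lf (nat_lit 0) (nat_lit 5910486442) (nat_lit 836) (nat_lit 12903901942) (nat_lit 76) (nat_lit 456998894) (nat_lit 357) (nat_lit 5) (nat_lit 368) (nat_lit 5) (nat_lit 358) (nat_lit 5) (nat_lit 465) (nat_lit 438) (nat_lit 297)) (XT.lf (nat_lit 0) (nat_lit 3231093413)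 (nat_lit 760) (nat_lit 6709423190) (nat_lit 836) (nat_lit 9651353906) (nat_lit 347) (nat_lit 5) (nat_lit 357) (nat_lit 5) (nat_lit 358) (nat_lit 5) (nat_lit 466) (nat_lit 438) (nat_lit 296))))))))
noncomputable def xc97 : XT := (XT.nd (nat_lit 1950) (nat_lit 2508) (nat_lit 0) (XT.nd (nat_lit 936) (nat_lit 5624) (nat_lit 0) (XT.nd (nat_lit 468) (nat_lit 3268) (nat_lit 0) (XT.nd (nat_lit 234) (nat_lit 1976) (nat_lit 0) (XT.nd (nat_lit 78) (nat_lit 836) (nat_lit 0) (XT.lf (nat_lit 0) (nat_lit 55781558) (nat_lit 684) (nat_lit 14149199416) (nat_lit 760) (nat_lit 5714717563) (nat_lit 338) (nat_lit 5) (nat_lit 347) (nat_lit 5) (nat_lit 348) (nat_lit 5) (nat_lit 467) (nat_lit 438) (nat_lit 295)) (XT.nd (nat_lit 78) (nat_lit 836) (nat_lit 0) (XT.lf (nat_lit 0) (nat_lit 17130008670) (nat_lit 684) (nat_lit 1610842012) (nat_lit 760) (nat_lit 1513642234) (nat_lit 338) (nat_lit 5) (nat_lit 347) (nat_lit 5) (nat_lit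 348) (nat_lit 5) (nat_lit 468) (nat_lit 438) (nat_lit 294)) (XT.lf (nat_lit 0) (nat_lit 2931655130) (nat_lit 836) (nat_lit 6398487238) (nat_lit 76) (nat_lit 11265722535) (nat_lit 327) (nat_lit 5) (nat_lit 338) (nat_lit 5) (nat_lit 328) (nat_lit 5) (nat_lit 469) (nat_lit 438) (nat_lit 293)))) (XT.nd (nat_lit 78) (nat_lit 1292) (nat_lit 0) (XT.lf (nat_lit 0) (nat_lit 7607321542) (nat_lit 760) (nat_lit 9721190349) (nat_lit 76) (nat_lit 3616415430) (nat_lit 318) (nat_lit 5) (nat_lit 328) (nat_lit 5) (nat_lit 319) (nat_lit 5) (nat_lit 470) (nat_lit 438) (nat_lit 292)) (XT.nd (nat_lit 78) (nat_lit 608) (nat_lit 0) (XT.lf (nat_lit 0) (nat_lit 8190261356) (nat_lit 684) (nat_lit 4381002826) (nat_lit 760) (nat_lit 8730238148) (nat_lit 309) (nat_lit 5) (nat_lit 318) (nat_lit 5) (nat_lit 319) (nat_lit 5) (nat_lit 471) (nat_lit 438) (nat_lit 291)) (XT.lf (nat_lit 0) (nat_lit 5099887211) (nat_lit 608) (nat_lit 12730821223)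 (nat_lit 684) (nat_lit 3835135305) (nat_lit 301) (nat_lit 5) (nat_lit 309) (nat_lit 5) (nat_lit 310) (nat_lit 5) (nat_lit 472) (nat_lit 438) (nat_lit 290))))) (XT.nd (nat_lit 234) (nat_lit 1900) (nat_lit 0) (XT.nd (nat_lit 78) (nat_lit 608) (nat_lit 0) (XT.lf (nat_lit 0) (nat_lit 1316007727) (nat_lit 760) (nat_lit 20070224881) (nat_lit 76) (nat_lit 652226554) (nat_lit 291) (nat_lit 5) (nat_lit 301) (nat_lit 5) (nat_lit 292) (nat_lit 5) (nat_lit 473) (nat_lit 438) (nat_lit 289)) (XT.nd (nat_lit 78) (nat_lit 608) (nat_lit 0) (XT.lf (nat_lit 0) (nat_lit 6757415567) (nat_lit 760) (nat_lit 1259331810) (nat_lit 76) (nat_lit 14401242722) (nat_lit 291) (nat_lit 5) (nat_lit 301) (nat_lit 5) (nat_lit 292) (nat_lit 5) (nat_lit 474) (nat_lit 438) (nat_lit 288)) (XT.lf (nat_lit 0) (nat_lit 12509007689) (nat_lit 684) (nat_lit 4501017845) (nat_lit 76) (nat_lit 5795943322) (nat_lit 283) (nat_lit 5) (nat_lit 292) (nat_lit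 5) (nat_lit 284) (nat_lit 5) (nat_lit 475) (nat_lit 438) (nat_lit 287)))) (XT.nd (nat_lit 78) (nat_lit 1292) (nat_lit 0) (XT.lf (nat_lit 0) (nat_lit 15403730533) (nat_lit 608) (nat_lit 3181544185) (nat_lit 684) (nat_lit 4617270427) (nat_lit 275) (nat_lit 5) (nat_lit 283) (nat_lit 5) (nat_lit 284) (nat_lit 5) (nat_lit 476) (nat_lit 438) (nat_lit 286)) (XT.nd (nat_lit 78) (nat_lit 608) (nat_lit 0) (XT.lf (nat_lit 0) (nat_lit 1391162046) (nat_lit 684) (nat_lit 11181397466) (nat_lit 76) (nat_lit 11034809410) (nat_lit 266) (nat_lit 5) (nat_lit 275) (nat_lit 5) (nat_lit 267) (nat_lit 5) (nat_lit 477) (nat_lit 438) (nat_lit 285)) (XT.lf (nat_lit 0) (nat_lit 7654629119) (nat_lit 684) (nat_lit 14633377270) (nat_lit 76) (nat_lit 1732971036) (nat_lit 258) (nat_lit 5) (nat_lit 267) (nat_lit 5) (nat_lit 259) (nat_lit 5) (nat_lit 478) (nat_lit 438) (nat_lit 284)))))) (XT.nd (nat_lit 468) (nat_lit 2964) (nat_lit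 0) (XT.nd (nat_lit 234) (nat_lit 1520) (nat_lit 0) (XT.nd (nat_lit 78) (nat_lit 608) (nat_lit 0) (XT.lf (nat_lit 0) (nat_lit 6266364316) (nat_lit 532) (nat_lit 8031109896) (nat_lit 608) (nat_lit 10145691129) (nat_lit 251) (nat_lit 5) (nat_lit 258) (nat_lit 5) (nat_lit 259) (nat_lit 5) (nat_lit 479) (nat_lit 438) (nat_lit 283)) (XT.nd (nat_lit 78) (nat_lit 76) (nat_lit 0) (XT.lf (nat_lit 0) (nat_lit 3101742615) (nat_lit 532) (nat_lit 18191636242) (nat_lit 608) (nat_lit 3581565173) (nat_lit 244) (nat_lit 5) (nat_lit 251) (nat_lit 5) (nat_lit 252) (nat_lit 5) (nat_lit 480) (nat_lit 438) (nat_lit 282)) (XT.lf (nat_lit 0) (nat_lit 3306232018) (nat_lit 608) (nat_lit 137299470) (nat_lit 76) (nat_lit 21872363376) (nat_lit 243) (nat_lit 5) (nat_lit 251) (nat_lit 5) (nat_lit 244) (nat_lit 5) (nat_lit 481) (nat_lit 438) (nat_lit 281)))) (XT.nd (nat_lit 78) (nat_lit 988) (nat_lit 0) (XT.lf (nat_lit 0) (nat_lit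 10566145946) (nat_lit 608) (nat_lit 3438665943) (nat_lit 76) (nat_lit 11760506580) (nat_lit 236) (nat_lit 5) (nat_lit 244) (nat_lit 5) (nat_lit 237) (nat_lit 5) (nat_lit 482) (nat_lit 438) (nat_lit 280)) (XT.nd (nat_lit 78) (nat_lit 456) (nat_lit 0) (XT.lf (nat_lit 0) (nat_lit 18193610977) (nat_lit 608) (nat_lit 6775270422) (nat_lit 76) (nat_lit 1256348864) (nat_lit 229) (nat_lit 5) (nat_lit 237) (nat_lit 5) (nat_lit 230) (nat_lit 5) (nat_lit 483) (nat_lit 438) (nat_lit 279)) (XT.lf (nat_lit 0) (nat_lit 16484293836) (nat_lit 456) (nat_lit 9781091589) (nat_lit 532) (nat_lit 429244818) (nat_lit 223) (nat_lit 5) (nat_lit 229) (nat_lit 5) (nat_lit 230) (nat_lit 5) (nat_lit 484) (nat_lit 438) (nat_lit 278))))) (XT.nd (nat_lit 234) (nat_lit 1444) (nat_lit 0) (XT.nd (nat_lit 78) (nat_lit 912) (nat_lit 0) (XT.lf (nat_lit 0) (nat_lit 7468538136) (nat_lit 608) (nat_lit 13740198681) (nat_lit 76) (nat_lit 5965126741)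 (nat_lit 215) (nat_lit 5) (nat_lit 223) (nat_lit 5) (nat_lit 216) (nat_lit 5) (nat_lit 485) (nat_lit 438) (nat_lit 277)) (XT.nd (nat_lit 78) (nat_lit 456) (nat_lit 0) (XT.lf (nat_lit 0) (nat_lit 10315401476) (nat_lit 456) (nat_lit 5475703163) (nat_lit 532) (nat_lit 11872439351) (nat_lit 209) (nat_lit 5) (nat_lit 215) (nat_lit 5) (nat_lit 216) (nat_lit 5) (nat_lit 486) (nat_lit 438) (nat_lit 276)) (XT.lf (nat_lit 0) (nat_lit 7126121243) (nat_lit 456) (nat_lit 17438644488) (nat_lit 532) (nat_lit 3599121236) (nat_lit 203) (nat_lit 5) (nat_lit 209) (nat_lit 5) (nat_lit 210) (nat_lit 5) (nat_lit 487) (nat_lit 438) (nat_lit 275)))) (XT.nd (nat_lit 156) (nat_lit 456) (nat_lit 0) (XT.nd (nat_lit 78) (nat_lit 456) (nat_lit 0) (XT.lf (nat_lit 0) (nat_lit 3864846310) (nat_lit 456) (nat_lit 1164913178) (nat_lit 532) (nat_lit 23645403594) (nat_lit 196) (nat_lit 5) (nat_lit 202) (nat_lit 5) (nat_lit 203) (nat_lit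 5) (nat_lit 488) (nat_lit 438) (nat_lit 274)) (XT.lf (nat_lit 0) (nat_lit 471867197) (nat_lit 456) (nat_lit 13636866617) (nat_lit 532) (nat_lit 15087765808) (nat_lit 190) (nat_lit 5) (nat_lit 196) (nat_lit 5) (nat_lit 197) (nat_lit 5) (nat_lit 489) (nat_lit 438) (nat_lit 273))) (XT.nd (nat_lit 78) (nat_lit 456) (nat_lit 0) (XT.lf (nat_lit 0) (nat_lit 23648918098) (nat_lit 532) (nat_lit 2918124838) (nat_lit 76) (nat_lit 3162656942) (nat_lit 190) (nat_lit 5) (nat_lit 197) (nat_lit 5) (nat_lit 191) (nat_lit 5) (nat_lit 490) (nat_lit 438) (nat_lit 272)) (XT.lf (nat_lit 0) (nat_lit 3394644046) (nat_lit 456) (nat_lit 6423203008) (nat_lit 76) (nat_lit 20455831361) (nat_lit 184) (nat_lit 5) (nat_lit 190) (nat_lit 5) (nat_lit 185) (nat_lit 5) (nat_lit 491) (nat_lit 438) (nat_lit 271))))))) (XT.nd (nat_lit 58890) (nat_lit 0) (nat_lit 21736) (XT.nd (nat_lit 58344) (nat_lit 0) (nat_lit 25612) (XT.nd (nat_lit 234)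 (nat_lit 1216) (nat_lit 0) (XT.nd (nat_lit 78) (nat_lit 836) (nat_lit 0) (XT.lf (nat_lit 0) (nat_lit 13269484023) (nat_lit 532) (nat_lit 10029742583) (nat_lit 76) (nat_lit 7529990917) (nat_lit 178) (nat_lit 5) (nat_lit 185) (nat_lit 5) (nat_lit 179) (nat_lit 5) (nat_lit 492) (nat_lit 438) (nat_lit 270)) (XT.nd (nat_lit 78) (nat_lit 456) (nat_lit 0) (XT.lf (nat_lit 0) (nat_lit 17681057579) (nat_lit 380) (nat_lit 5976381409) (nat_lit 456) (nat_lit 7739646811) (nat_lit 173) (nat_lit 5) (nat_lit 178) (nat_lit 5) (nat_lit 179) (nat_lit 5) (nat_lit 493) (nat_lit 438) (nat_lit 269)) (XT.lf (nat_lit 0) (nat_lit 2577633588) (nat_lit 456) (nat_lit 17513066541) (nat_lit 76) (nat_lit 11886307153) (nat_lit 167) (nat_lit 5) (nat_lit 173) (nat_lit 5) (nat_lit 168) (nat_lit 5) (nat_lit 494) (nat_lit 438) (nat_lit 268)))) (XT.nd (nat_lit 78) (nat_lit 836) (nat_lit 0) (XT.lf (nat_lit 0) (nat_lit 11147499730) (nat_lit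 380) (nat_lit 2151101109) (nat_lit 456) (nat_lit 19270716353) (nat_lit 162) (nat_lit 5) (nat_lit 167) (nat_lit 5) (nat_lit 168) (nat_lit 5) (nat_lit 495) (nat_lit 438) (nat_lit 267)) (XT.nd (nat_lit 78) (nat_lit 456) (nat_lit 0) (XT.lf (nat_lit 0) (nat_lit 7714074746) (nat_lit 380) (nat_lit 16895603150) (nat_lit 456) (nat_lit 8564349238) (nat_lit 157) (nat_lit 5) (nat_lit 162) (nat_lit 5) (nat_lit 163) (nat_lit 5) (nat_lit 496) (nat_lit 438) (nat_lit 266)) (XT.lf (nat_lit 0) (nat_lit 2622490128) (nat_lit 456) (nat_lit 29566772863) (nat_lit 76) (nat_lit 1603464126) (nat_lit 151) (nat_lit 5) (nat_lit 157) (nat_lit 5) (nat_lit 152) (nat_lit 5) (nat_lit 497) (nat_lit 438) (nat_lit 265))))) (XT.nd (nat_lit 234) (nat_lit 0) (nat_lit 152) (XT.nd (nat_lit 78) (nat_lit 0) (nat_lit 0) (XT.lf (nat_lit 0) (nat_lit 324314129) (nat_lit 0) (nat_lit 324314129) (nat_lit 1748) (nat_lit 5918088758) (nat_lit 488) (nat_lit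 5) (nat_lit 488) (nat_lit 3) (nat_lit 511) (nat_lit 3) (nat_lit 439) (nat_lit 439) (nat_lit 322)) (XT.nd (nat_lit 78) (nat_lit 0) (nat_lit 76) (XT.lf (nat_lit 0) (nat_lit 1960561307) (nat_lit 1748) (nat_lit 2806387258) (nat_lit 1824) (nat_lit 8550555059) (nat_lit 488) (nat_lit 5) (nat_lit 511) (nat_lit 3) (nat_lit 512) (nat_lit 5) (nat_lit 440) (nat_lit 439) (nat_lit 321)) (XT.lf (nat_lit 0) (nat_lit 2701922098) (nat_lit 1748) (nat_lit 6295178909) (nat_lit 1824) (nat_lit 4508833307) (nat_lit 489) (nat_lit 5) (nat_lit 512) (nat_lit 5) (nat_lit 513) (nat_lit 5) (nat_lit 441) (nat_lit 439) (nat_lit 320)))) (XT.nd (nat_lit 156) (nat_lit 0) (nat_lit 76) (XT.nd (nat_lit 78) (nat_lit 0) (nat_lit 0) (XT.lf (nat_lit 0) (nat_lit 3521794629) (nat_lit 1748) (nat_lit 9827573815) (nat_lit 1824) (nat_lit 349526145) (nat_lit 490) (nat_lit 5) (nat_lit 513) (nat_lit 5) (nat_lit 514) (nat_lit 5) (nat_lit 442) (nat_lit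 439) (nat_lit 319)) (XT.lf (nat_lit 76) (nat_lit 465227306) (nat_lit 0) (nat_lit 3985593872) (nat_lit 1824) (nat_lit 9445133360) (nat_lit 491) (nat_lit 5) (nat_lit 490) (nat_lit 5) (nat_lit 514) (nat_lit 5) (nat_lit 443) (nat_lit 439) (nat_lit 318))) (XT.nd (nat_lit 78) (nat_lit 0) (nat_lit 76) (XT.lf (nat_lit 0) (nat_lit 5490529517) (nat_lit 1748) (nat_lit 2946336241) (nat_lit 1824) (nat_lit 5660406273) (nat_lit 491) (nat_lit 5) (nat_lit 514) (nat_lit 5) (nat_lit 515) (nat_lit 5) (nat_lit 444) (nat_lit 439) (nat_lit 317)) (XT.lf (nat_lit 0) (nat_lit 6627558201) (nat_lit 1748) (nat_lit 6394652553) (nat_lit 1824) (nat_lit 1281097619) (nat_lit 492) (nat_lit 5) (nat_lit 515) (nat_lit 5) (nat_lit 516) (nat_lit 5) (nat_lit 445) (nat_lit 439) (nat_lit 316)))))) (XT.nd (nat_lit 468) (nat_lit 2660) (nat_lit 0) (XT.nd (nat_lit 234) (nat_lit 1520) (nat_lit 0) (XT.nd (nat_lit 78) (nat_lit 0) (nat_lit 76) (XT.lf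 (nat_lit 76) (nat_lit 4605589788) (nat_lit 0) (nat_lit 3279734276) (nat_lit 1824) (nat_lit 6628471068) (nat_lit 493) (nat_lit 5) (nat_lit 492) (nat_lit 5) (nat_lit 516) (nat_lit 5) (nat_lit 446) (nat_lit 439) (nat_lit 315)) (XT.nd (nat_lit 78) (nat_lit 0) (nat_lit 76) (XT.lf (nat_lit 76) (nat_lit 1252942428) (nat_lit 0) (nat_lit 8004236634) (nat_lit 1824) (nat_lit 5471892105) (nat_lit 494) (nat_lit 5) (nat_lit 493) (nat_lit 5) (nat_lit 517) (nat_lit 5) (nat_lit 447) (nat_lit 439) (nat_lit 314)) (XT.lf (nat_lit 0) (nat_lit 10754035897) (nat_lit 1748) (nat_lit 2113548384) (nat_lit 1824) (nat_lit 2081546025) (nat_lit 494) (nat_lit 5) (nat_lit 517) (nat_lit 5) (nat_lit 518) (nat_lit 5) (nat_lit 448) (nat_lit 439) (nat_lit 313)))) (XT.nd (nat_lit 78) (nat_lit 1672) (nat_lit 0) (XT.lf (nat_lit 76) (nat_lit 9650137717) (nat_lit 0) (nat_lit 2743650400) (nat_lit 1824) (nat_lit 2780045003) (nat_lit 495) (nat_lit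 5) (nat_lit 494) (nat_lit 5) (nat_lit 518) (nat_lit 5) (nat_lit 449) (nat_lit 439) (nat_lit 312)) (XT.nd (nat_lit 78) (nat_lit 1748) (nat_lit 0) (XT.lf (nat_lit 76) (nat_lit 6411792480) (nat_lit 0) (nat_lit 7759164805) (nat_lit 1824) (nat_lit 1232556889) (nat_lit 496) (nat_lit 5) (nat_lit 495) (nat_lit 5) (nat_lit 519) (nat_lit 5) (nat_lit 450) (nat_lit 439) (nat_lit 311)) (XT.lf (nat_lit 0) (nat_lit 433439295) (nat_lit 1824) (nat_lit 12507641908) (nat_lit 1900) (nat_lit 2697422647) (nat_lit 472) (nat_lit 5) (nat_lit 496) (nat_lit 5) (nat_lit 497) (nat_lit 5) (nat_lit 451) (nat_lit 439) (nat_lit 310))))) (XT.nd (nat_lit 234) (nat_lit 2660) (nat_lit 0) (XT.nd (nat_lit 78) (nat_lit 0) (nat_lit 76) (XT.lf (nat_lit 0) (nat_lit 2229044184) (nat_lit 1824) (nat_lit 212824743) (nat_lit 1900) (nat_lit 13436585378) (nat_lit 472) (nat_lit 5) (nat_lit 496) (nat_lit 5) (nat_lit 497) (nat_lit 5) (nat_lit 452) (nat_lit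 439) (nat_lit 309)) (XT.nd (nat_lit 78) (nat_lit 0) (nat_lit 76) (XT.lf (nat_lit 0) (nat_lit 4198820148) (nat_lit 1824) (nat_lit 3575874097) (nat_lit 1900) (nat_lit 8348504443) (nat_lit 473) (nat_lit 5) (nat_lit 497) (nat_lit 5) (nat_lit 498) (nat_lit 5) (nat_lit 453) (nat_lit 439) (nat_lit 308)) (XT.lf (nat_lit 0) (nat_lit 6310817256) (nat_lit 1824) (nat_lit 6982182009) (nat_lit 1900) (nat_lit 3080625016) (nat_lit 474) (nat_lit 5) (nat_lit 498) (nat_lit 5) (nat_lit 499) (nat_lit 5) (nat_lit 454) (nat_lit 439) (nat_lit 307)))) (XT.nd (nat_lit 156) (nat_lit 1064) (nat_lit 0) (XT.nd (nat_lit 78) (nat_lit 1748) (nat_lit 0) (XT.lf (nat_lit 76) (nat_lit 6181519671) (nat_lit 0) (nat_lit 2405546426) (nat_lit 1900) (nat_lit 8042480099) (nat_lit 475) (nat_lit 5) (nat_lit 474) (nat_lit 5) (nat_lit 499) (nat_lit 5) (nat_lit 455) (nat_lit 439) (nat_lit 306)) (XT.lf (nat_lit 0) (nat_lit 2911024019) (nat_lit 1824)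 (nat_lit 8129056604) (nat_lit 1900) (nat_lit 5850896931) (nat_lit 451) (nat_lit 5) (nat_lit 475) (nat_lit 5) (nat_lit 476) (nat_lit 5) (nat_lit 456) (nat_lit 439) (nat_lit 305))) (XT.nd (nat_lit 78) (nat_lit 1064) (nat_lit 0) (XT.lf (nat_lit 0) (nat_lit 13659012085) (nat_lit 1900) (nat_lit 394624793) (nat_lit 76) (nat_lit 3104769756) (nat_lit 451) (nat_lit 5) (nat_lit 476) (nat_lit 5) (nat_lit 452) (nat_lit 5) (nat_lit 457) (nat_lit 439) (nat_lit 304)) (XT.lf (nat_lit 0) (nat_lit 13710852989) (nat_lit 1064) (nat_lit 2774606797) (nat_lit 1140) (nat_lit 945821108) (nat_lit 437) (nat_lit 5) (nat_lit 451) (nat_lit 5) (nat_lit 452) (nat_lit 5) (nat_lit 458) (nat_lit 439) (nat_lit 303))))))))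
noncomputable def xc98 : XT := (XT.nd (nat_lit 1950) (nat_lit 6004) (nat_lit 0) (XT.nd (nat_lit 936) (nat_lit 6916) (nat_lit 0) (XT.nd (nat_lit 468) (nat_lit 3952) (nat_lit 0) (XT.nd (nat_lit 234) (nat_lit 1672) (nat_lit 0) (XT.nd (nat_lit 78) (nat_lit 1748) (nat_lit 0) (XT.lf (nat_lit 0) (nat_lit 1777877038) (nat_lit 988) (nat_lit 7120479061) (nat_lit 76) (nat_lit 8811455612) (nat_lit 424) (nat_lit 5) (nat_lit 437) (nat_lit 5) (nat_lit 425) (nat_lit 5) (nat_lit 459) (nat_lit 439) (nat_lit 302)) (XT.nd (nat_lit 78) (nat_lit 836) (nat_lit 0) (XT.lf (nat_lit 0) (nat_lit 4667053486) (nat_lit 988) (nat_lit 10570388290) (nat_lit 76) (nat_lit 2757200468) (nat_lit 412) (nat_lit 5) (nat_lit 425) (nat_lit 5) (nat_lit 413) (nat_lit 5) (nat_lit 460) (nat_lit 439) (nat_lit 301)) (XT.lf (nat_lit 0) (nat_lit 4197978321) (nat_lit 836) (nat_lit 3566735062) (nat_lit 912) (nat_lit 10520869290) (nat_lit 401) (nat_lit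 5) (nat_lit 412) (nat_lit 5) (nat_lit 413) (nat_lit 5) (nat_lit 461) (nat_lit 439) (nat_lit 300)))) (XT.nd (nat_lit 78) (nat_lit 836) (nat_lit 0) (XT.lf (nat_lit 0) (nat_lit 913835486) (nat_lit 836) (nat_lit 10161181470) (nat_lit 912) (nat_lit 7507841189) (nat_lit 390) (nat_lit 5) (nat_lit 401) (nat_lit 5) (nat_lit 402) (nat_lit 5) (nat_lit 462) (nat_lit 439) (nat_lit 299)) (XT.nd (nat_lit 78) (nat_lit 836) (nat_lit 0) (XT.lf (nat_lit 0) (nat_lit 14603409531) (nat_lit 912) (nat_lit 2378318289) (nat_lit 76) (nat_lit 1904949540) (nat_lit 390) (nat_lit 5) (nat_lit 402) (nat_lit 5) (nat_lit 391) (nat_lit 5) (nat_lit 463) (nat_lit 439) (nat_lit 298)) (XT.lf (nat_lit 0) (nat_lit 13467059348) (nat_lit 836) (nat_lit 4913450266) (nat_lit 912) (nat_lit 816245470) (nat_lit 379) (nat_lit 5) (nat_lit 390) (nat_lit 5) (nat_lit 391) (nat_lit 5) (nat_lit 464) (nat_lit 439) (nat_lit 297))))) (XT.nd (nat_lit 234) (nat_lit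 1520) (nat_lit 0) (XT.nd (nat_lit 78) (nat_lit 1520) (nat_lit 0) (XT.lf (nat_lit 0) (nat_lit 2839616079) (nat_lit 912) (nat_lit 9153419576) (nat_lit 76) (nat_lit 7520323600) (nat_lit 367) (nat_lit 5) (nat_lit 379) (nat_lit 5) (nat_lit 368) (nat_lit 5) (nat_lit 465) (nat_lit 439) (nat_lit 296)) (XT.nd (nat_lit 78) (nat_lit 760) (nat_lit 0) (XT.lf (nat_lit 0) (nat_lit 6704199714) (nat_lit 836) (nat_lit 12625205152) (nat_lit 76) (nat_lit 507747026) (nat_lit 357) (nat_lit 5) (nat_lit 368) (nat_lit 5) (nat_lit 358) (nat_lit 5) (nat_lit 466) (nat_lit 439) (nat_lit 295)) (XT.lf (nat_lit 0) (nat_lit 3983038026) (nat_lit 760) (nat_lit 6858392166) (nat_lit 836) (nat_lit 9326094868) (nat_lit 347) (nat_lit 5) (nat_lit 357) (nat_lit 5) (nat_lit 358) (nat_lit 5) (nat_lit 467) (nat_lit 439) (nat_lit 294)))) (XT.nd (nat_lit 78) (nat_lit 836) (nat_lit 0) (XT.lf (nat_lit 0) (nat_lit 713411112) (nat_lit 684) (nat_lit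 14507451733) (nat_lit 760) (nat_lit 5284585783) (nat_lit 338) (nat_lit 5) (nat_lit 347) (nat_lit 5) (nat_lit 348) (nat_lit 5) (nat_lit 468) (nat_lit 439) (nat_lit 293)) (XT.nd (nat_lit 78) (nat_lit 836) (nat_lit 0) (XT.lf (nat_lit 0) (nat_lit 18280759520) (nat_lit 684) (nat_lit 1594872451) (nat_lit 760) (nat_lit 974999747) (nat_lit 338) (nat_lit 5) (nat_lit 347) (nat_lit 5) (nat_lit 348) (nat_lit 5) (nat_lit 469) (nat_lit 439) (nat_lit 292)) (XT.lf (nat_lit 0) (nat_lit 3583782397) (nat_lit 836) (nat_lit 5945484273) (nat_lit 76) (nat_lit 11673147920) (nat_lit 327) (nat_lit 5) (nat_lit 338) (nat_lit 5) (nat_lit 328) (nat_lit 5) (nat_lit 470) (nat_lit 439) (nat_lit 291)))))) (XT.nd (nat_lit 468) (nat_lit 3572) (nat_lit 0) (XT.nd (nat_lit 234) (nat_lit 1368) (nat_lit 0) (XT.nd (nat_lit 78) (nat_lit 1292) (nat_lit 0) (XT.lf (nat_lit 0) (nat_lit 8387942482) (nat_lit 760) (nat_lit 9367789870) (nat_lit 76)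 (nat_lit 3806453299) (nat_lit 318) (nat_lit 5) (nat_lit 328) (nat_lit 5) (nat_lit 319) (nat_lit 5) (nat_lit 471) (nat_lit 439) (nat_lit 290)) (XT.nd (nat_lit 78) (nat_lit 608) (nat_lit 0) (XT.lf (nat_lit 0) (nat_lit 9070540440) (nat_lit 684) (nat_lit 4418293659) (nat_lit 760) (nat_lit 8440864403) (nat_lit 309) (nat_lit 5) (nat_lit 318) (nat_lit 5) (nat_lit 319) (nat_lit 5) (nat_lit 472) (nat_lit 439) (nat_lit 289)) (XT.lf (nat_lit 0) (nat_lit 5887231495) (nat_lit 608) (nat_lit 13007801465) (nat_lit 684) (nat_lit 3410158941) (nat_lit 301) (nat_lit 5) (nat_lit 309) (nat_lit 5) (nat_lit 310) (nat_lit 5) (nat_lit 473) (nat_lit 439) (nat_lit 288)))) (XT.nd (nat_lit 78) (nat_lit 608) (nat_lit 0) (XT.lf (nat_lit 0) (nat_lit 1877721504) (nat_lit 760) (nat_lit 20031513664) (nat_lit 76) (nat_lit 779895896) (nat_lit 291) (nat_lit 5) (nat_lit 301) (nat_lit 5) (nat_lit 292) (nat_lit 5) (nat_lit 474) (nat_lit 439)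 (nat_lit 287)) (XT.nd (nat_lit 78) (nat_lit 608) (nat_lit 0) (XT.lf (nat_lit 0) (nat_lit 7467160893) (nat_lit 760) (nat_lit 674958401) (nat_lit 76) (nat_lit 14938233932) (nat_lit 291) (nat_lit 5) (nat_lit 301) (nat_lit 5) (nat_lit 292) (nat_lit 5) (nat_lit 475) (nat_lit 439) (nat_lit 286)) (XT.lf (nat_lit 0) (nat_lit 13381259069) (nat_lit 684) (nat_lit 4014781116) (nat_lit 76) (nat_lit 6084133046) (nat_lit 283) (nat_lit 5) (nat_lit 292) (nat_lit 5) (nat_lit 284) (nat_lit 5) (nat_lit 476) (nat_lit 439) (nat_lit 285))))) (XT.nd (nat_lit 234) (nat_lit 1672) (nat_lit 0) (XT.nd (nat_lit 78) (nat_lit 1292) (nat_lit 0) (XT.lf (nat_lit 0) (nat_lit 16477030389) (nat_lit 608) (nat_lit 3152276777) (nat_lit 684) (nat_lit 4259550802) (nat_lit 275) (nat_lit 5) (nat_lit 283) (nat_lit 5) (nat_lit 284) (nat_lit 5) (nat_lit 477) (nat_lit 439) (nat_lit 284)) (XT.nd (nat_lit 78) (nat_lit 608) (nat_lit 0) (XT.lf (nat_lit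 0) (nat_lit 1913141059) (nat_lit 684) (nat_lit 10900344111) (nat_lit 76) (nat_lit 11492467533) (nat_lit 266) (nat_lit 5) (nat_lit 275) (nat_lit 5) (nat_lit 267) (nat_lit 5) (nat_lit 478) (nat_lit 439) (nat_lit 283)) (XT.lf (nat_lit 0) (nat_lit 8355347152) (nat_lit 684) (nat_lit 14457334810) (nat_lit 76) (nat_lit 1919471741) (nat_lit 258) (nat_lit 5) (nat_lit 267) (nat_lit 5) (nat_lit 259) (nat_lit 5) (nat_lit 479) (nat_lit 439) (nat_lit 282)))) (XT.nd (nat_lit 156) (nat_lit 608) (nat_lit 0) (XT.nd (nat_lit 78) (nat_lit 532) (nat_lit 0) (XT.lf (nat_lit 0) (nat_lit 7059420669) (nat_lit 532) (nat_lit 8128264663) (nat_lit 608) (nat_lit 9979518686) (nat_lit 251) (nat_lit 5) (nat_lit 258) (nat_lit 5) (nat_lit 259) (nat_lit 5) (nat_lit 480) (nat_lit 439) (nat_lit 281)) (XT.lf (nat_lit 0) (nat_lit 3798231599) (nat_lit 532) (nat_lit 18586624204) (nat_lit 608) (nat_lit 3227253382) (nat_lit 244) (nat_lit 5) (nat_lit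 251) (nat_lit 5) (nat_lit 252) (nat_lit 5) (nat_lit 481) (nat_lit 439) (nat_lit 280))) (XT.nd (nat_lit 78) (nat_lit 0) (nat_lit 0) (XT.lf (nat_lit 0) (nat_lit 456335230) (nat_lit 532) (nat_lit 3394476383) (nat_lit 608) (nat_lit 22215624017) (nat_lit 236) (nat_lit 5) (nat_lit 243) (nat_lit 5) (nat_lit 244) (nat_lit 5) (nat_lit 482) (nat_lit 439) (nat_lit 279)) (XT.lf (nat_lit 0) (nat_lit 11317420043) (nat_lit 608) (nat_lit 2951930427) (nat_lit 76) (nat_lit 12260214353) (nat_lit 236) (nat_lit 5) (nat_lit 244) (nat_lit 5) (nat_lit 237) (nat_lit 5) (nat_lit 483) (nat_lit 439) (nat_lit 278))))))) (XT.nd (nat_lit 936) (nat_lit 760) (nat_lit 0) (XT.nd (nat_lit 468) (nat_lit 2204) (nat_lit 0) (XT.nd (nat_lit 234) (nat_lit 1444) (nat_lit 0) (XT.nd (nat_lit 78) (nat_lit 1064) (nat_lit 0) (XT.lf (nat_lit 0) (nat_lit 19165833488) (nat_lit 608) (nat_lit 6390674443) (nat_lit 76) (nat_lit 1446924350) (nat_lit 229)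 (nat_lit 5) (nat_lit 237) (nat_lit 5) (nat_lit 230) (nat_lit 5) (nat_lit 484) (nat_lit 439) (nat_lit 277)) (XT.nd (nat_lit 78) (nat_lit 608) (nat_lit 0) (XT.lf (nat_lit 0) (nat_lit 17557139509) (nat_lit 456) (nat_lit 9913956646) (nat_lit 532) (nat_lit 15992180) (nat_lit 223) (nat_lit 5) (nat_lit 229) (nat_lit 5) (nat_lit 230) (nat_lit 5) (nat_lit 485) (nat_lit 439) (nat_lit 276)) (XT.lf (nat_lit 0) (nat_lit 8105671114) (nat_lit 608) (nat_lit 13570736877) (nat_lit 76) (nat_lit 6304385349) (nat_lit 215) (nat_lit 5) (nat_lit 223) (nat_lit 5) (nat_lit 216) (nat_lit 5) (nat_lit 486) (nat_lit 439) (nat_lit 275)))) (XT.nd (nat_lit 78) (nat_lit 988) (nat_lit 0) (XT.lf (nat_lit 0) (nat_lit 11197094415) (nat_lit 456) (nat_lit 5472504135) (nat_lit 532) (nat_lit 11815732672) (nat_lit 209) (nat_lit 5) (nat_lit 215) (nat_lit 5) (nat_lit 216) (nat_lit 5) (nat_lit 487) (nat_lit 439) (nat_lit 274)) (XT.nd (nat_lit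 78) (nat_lit 532) (nat_lit 0) (XT.lf (nat_lit 0) (nat_lit 7909769687) (nat_lit 456) (nat_lit 17789666237) (nat_lit 532) (nat_lit 3301389931) (nat_lit 203) (nat_lit 5) (nat_lit 209) (nat_lit 5) (nat_lit 210) (nat_lit 5) (nat_lit 488) (nat_lit 439) (nat_lit 273)) (XT.lf (nat_lit 0) (nat_lit 4546668048) (nat_lit 456) (nat_lit 1026380647) (nat_lit 532) (nat_lit 23954499291) (nat_lit 196) (nat_lit 5) (nat_lit 202) (nat_lit 5) (nat_lit 203) (nat_lit 5) (nat_lit 489) (nat_lit 439) (nat_lit 272))))) (XT.nd (nat_lit 234) (nat_lit 1292) (nat_lit 0) (XT.nd (nat_lit 78) (nat_lit 456) (nat_lit 0) (XT.lf (nat_lit 0) (nat_lit 1049353124) (nat_lit 456) (nat_lit 13868361156) (nat_lit 532) (nat_lit 15146944544) (nat_lit 190) (nat_lit 5) (nat_lit 196) (nat_lit 5) (nat_lit 197) (nat_lit 5) (nat_lit 490) (nat_lit 439) (nat_lit 271)) (XT.nd (nat_lit 78) (nat_lit 456) (nat_lit 0) (XT.lf (nat_lit 0) (nat_lit 24733989159)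 (nat_lit 532) (nat_lit 2452355450) (nat_lit 76) (nat_lit 3427713401) (nat_lit 190) (nat_lit 5) (nat_lit 197) (nat_lit 5) (nat_lit 191) (nat_lit 5) (nat_lit 491) (nat_lit 439) (nat_lit 270)) (XT.lf (nat_lit 0) (nat_lit 3867139488) (nat_lit 456) (nat_lit 6066617196) (nat_lit 76) (nat_lit 21240699168) (nat_lit 184) (nat_lit 5) (nat_lit 190) (nat_lit 5) (nat_lit 185) (nat_lit 5) (nat_lit 492) (nat_lit 439) (nat_lit 269)))) (XT.nd (nat_lit 78) (nat_lit 836) (nat_lit 0) (XT.lf (nat_lit 0) (nat_lit 14032086511) (nat_lit 532) (nat_lit 9784127027) (nat_lit 76) (nat_lit 7930570935) (nat_lit 178) (nat_lit 5) (nat_lit 185) (nat_lit 5) (nat_lit 179) (nat_lit 5) (nat_lit 493) (nat_lit 439) (nat_lit 268)) (XT.nd (nat_lit 78) (nat_lit 456) (nat_lit 0) (XT.lf (nat_lit 0) (nat_lit 18749130700) (nat_lit 380) (nat_lit 5975423122) (nat_lit 456) (nat_lit 7607278062) (nat_lit 173) (nat_lit 5) (nat_lit 178) (nat_lit 5) (nat_lit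 179) (nat_lit 5) (nat_lit 494) (nat_lit 439) (nat_lit 267)) (XT.lf (nat_lit 0) (nat_lit 3008899690) (nat_lit 456) (nat_lit 17498919434) (nat_lit 76) (nat_lit 12421401877) (nat_lit 167) (nat_lit 5) (nat_lit 173) (nat_lit 5) (nat_lit 168) (nat_lit 5) (nat_lit 495) (nat_lit 439) (nat_lit 266)))))) (XT.nd (nat_lit 58422) (nat_lit 0) (nat_lit 25308) (XT.nd (nat_lit 58188) (nat_lit 0) (nat_lit 25156) (XT.nd (nat_lit 78) (nat_lit 380) (nat_lit 0) (XT.lf (nat_lit 0) (nat_lit 12012710444) (nat_lit 380) (nat_lit 2031922880) (nat_lit 456) (nat_lit 19494804654) (nat_lit 162) (nat_lit 5) (nat_lit 167) (nat_lit 5) (nat_lit 168) (nat_lit 5) (nat_lit 496) (nat_lit 439) (nat_lit 265)) (XT.nd (nat_lit 58032) (nat_lit 0) (nat_lit 25156) (XT.lf (nat_lit 0) (nat_lit 8473343752) (nat_lit 380) (nat_lit 17216175142) (nat_lit 456) (nat_lit 8472881302) (nat_lit 157) (nat_lit 5) (nat_lit 162) (nat_lit 5) (nat_lit 163) (nat_lit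 5) (nat_lit 497) (nat_lit 439) (nat_lit 264)) (XT.lf (nat_lit 0) (nat_lit 625015550) (nat_lit 0) (nat_lit 625015550) (nat_lit 1748) (nat_lit 5501994075) (nat_lit 488) (nat_lit 5) (nat_lit 488) (nat_lit 3) (nat_lit 511) (nat_lit 3) (nat_lit 440) (nat_lit 440) (nat_lit 320)))) (XT.nd (nat_lit 78) (nat_lit 0) (nat_lit 76) (XT.lf (nat_lit 0) (nat_lit 3145698169) (nat_lit 1748) (nat_lit 2299210853) (nat_lit 1824) (nat_lit 8249487542) (nat_lit 488) (nat_lit 5) (nat_lit 511) (nat_lit 3) (nat_lit 512) (nat_lit 5) (nat_lit 441) (nat_lit 440) (nat_lit 319)) (XT.nd (nat_lit 78) (nat_lit 0) (nat_lit 0) (XT.lf (nat_lit 0) (nat_lit 3876924522) (nat_lit 1748) (nat_lit 5876864886) (nat_lit 1824) (nat_lit 4135341351) (nat_lit 489) (nat_lit 5) (nat_lit 512) (nat_lit 5) (nat_lit 513) (nat_lit 5) (nat_lit 442) (nat_lit 440) (nat_lit 318)) (XT.lf (nat_lit 76) (nat_lit 4587195054) (nat_lit 0) (nat_lit 103845395) (nat_lit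 1824) (nat_lit 9397449439) (nat_lit 490) (nat_lit 5) (nat_lit 489) (nat_lit 5) (nat_lit 513) (nat_lit 5) (nat_lit 443) (nat_lit 440) (nat_lit 317))))) (XT.nd (nat_lit 234) (nat_lit 0) (nat_lit 152) (XT.nd (nat_lit 78) (nat_lit 0) (nat_lit 76) (XT.lf (nat_lit 76) (nat_lit 1090876904) (nat_lit 0) (nat_lit 4529399404) (nat_lit 1824) (nat_lit 8671741462) (nat_lit 491) (nat_lit 5) (nat_lit 490) (nat_lit 5) (nat_lit 514) (nat_lit 5) (nat_lit 444) (nat_lit 440) (nat_lit 316)) (XT.nd (nat_lit 78) (nat_lit 0) (nat_lit 76) (XT.lf (nat_lit 0) (nat_lit 6658328959) (nat_lit 1748) (nat_lit 2417966507) (nat_lit 1824) (nat_lit 5423739080) (nat_lit 491) (nat_lit 5) (nat_lit 514) (nat_lit 5) (nat_lit 515) (nat_lit 5) (nat_lit 445) (nat_lit 440) (nat_lit 315)) (XT.lf (nat_lit 0) (nat_lit 7801782800) (nat_lit 1748) (nat_lit 5957682003) (nat_lit 1824) (nat_lit 953343628) (nat_lit 492) (nat_lit 5) (nat_lit 515) (nat_lit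 5) (nat_lit 516) (nat_lit 5) (nat_lit 446) (nat_lit 440) (nat_lit 314)))) (XT.nd (nat_lit 156) (nat_lit 0) (nat_lit 152) (XT.nd (nat_lit 78) (nat_lit 0) (nat_lit 76) (XT.lf (nat_lit 76) (nat_lit 5362365912) (nat_lit 0) (nat_lit 3710522497) (nat_lit 1824) (nat_lit 5857211905) (nat_lit 493) (nat_lit 5) (nat_lit 492) (nat_lit 5) (nat_lit 516) (nat_lit 5) (nat_lit 447) (nat_lit 440) (nat_lit 313)) (XT.lf (nat_lit 76) (nat_lit 1920024725) (nat_lit 0) (nat_lit 8540166983) (nat_lit 1824) (nat_lit 4692159649) (nat_lit 494) (nat_lit 5) (nat_lit 493) (nat_lit 5) (nat_lit 517) (nat_lit 5) (nat_lit 448) (nat_lit 440) (nat_lit 312))) (XT.nd (nat_lit 78) (nat_lit 0) (nat_lit 0) (XT.lf (nat_lit 0) (nat_lit 11973139228) (nat_lit 1748) (nat_lit 1545880545) (nat_lit 1824) (nat_lit 1860571302) (nat_lit 494) (nat_lit 5) (nat_lit 517) (nat_lit 5) (nat_lit 518) (nat_lit 5) (nat_lit 449) (nat_lit 440) (nat_lit 311)) (XT.lf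 (nat_lit 76) (nat_lit 10560477709) (nat_lit 0) (nat_lit 3079526050) (nat_lit 1824) (nat_lit 1971475250) (nat_lit 495) (nat_lit 5) (nat_lit 494) (nat_lit 5) (nat_lit 518) (nat_lit 5) (nat_lit 450) (nat_lit 440) (nat_lit 310))))))))
noncomputable def xc99 : XT := (XT.nd (nat_lit 1950) (nat_lit 9804) (nat_lit 0) (XT.nd (nat_lit 936) (nat_lit 8360) (nat_lit 0) (XT.nd (nat_lit 468) (nat_lit 5396) (nat_lit 0) (XT.nd (nat_lit 234) (nat_lit 0) (nat_lit 76) (XT.nd (nat_lit 78) (nat_lit 1748) (nat_lit 0) (XT.lf (nat_lit 76) (nat_lit 7233813467) (nat_lit 0) (nat_lit 8213696366) (nat_lit 1824) (nat_lit 401002588) (nat_lit 496) (nat_lit 5) (nat_lit 495) (nat_lit 5) (nat_lit 519) (nat_lit 5) (nat_lit 451) (nat_lit 440) (nat_lit 309)) (XT.nd (nat_lit 78) (nat_lit 0) (nat_lit 0) (XT.lf (nat_lit 0) (nat_lit 1281377960) (nat_lit 1824) (nat_lit 12234002724) (nat_lit 1900) (nat_lit 2575504661) (nat_lit 472) (nat_lit 5)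 (nat_lit 496) (nat_lit 5) (nat_lit 497) (nat_lit 5) (nat_lit 452) (nat_lit 440) (nat_lit 308)) (XT.lf (nat_lit 76) (nat_lit 416218658) (nat_lit 0) (nat_lit 2693016195) (nat_lit 1900) (nat_lit 13229233964) (nat_lit 473) (nat_lit 5) (nat_lit 472) (nat_lit 5) (nat_lit 497) (nat_lit 5) (nat_lit 453) (nat_lit 440) (nat_lit 307)))) (XT.nd (nat_lit 78) (nat_lit 0) (nat_lit 76) (XT.lf (nat_lit 0) (nat_lit 5114703272) (nat_lit 1824) (nat_lit 3046398165) (nat_lit 1900) (nat_lit 8429924230) (nat_lit 473) (nat_lit 5) (nat_lit 497) (nat_lit 5) (nat_lit 498) (nat_lit 5) (nat_lit 454) (nat_lit 440) (nat_lit 306)) (XT.nd (nat_lit 78) (nat_lit 0) (nat_lit 0) (XT.lf (nat_lit 0) (nat_lit 7270181544) (nat_lit 1824) (nat_lit 6548799182) (nat_lit 1900) (nat_lit 3030382933) (nat_lit 474) (nat_lit 5) (nat_lit 498) (nat_lit 5) (nat_lit 499) (nat_lit 5) (nat_lit 455) (nat_lit 440) (nat_lit 305)) (XT.lf (nat_lit 76) (nat_lit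 6999384098) (nat_lit 0) (nat_lit 2597011492) (nat_lit 1900) (nat_lit 7516936084) (nat_lit 475) (nat_lit 5) (nat_lit 474) (nat_lit 5) (nat_lit 499) (nat_lit 5) (nat_lit 456) (nat_lit 440) (nat_lit 304))))) (XT.nd (nat_lit 234) (nat_lit 2736) (nat_lit 0) (XT.nd (nat_lit 78) (nat_lit 1064) (nat_lit 0) (XT.lf (nat_lit 0) (nat_lit 3636131246) (nat_lit 1824) (nat_lit 8468363483) (nat_lit 1900) (nat_lit 5278483299) (nat_lit 451) (nat_lit 5) (nat_lit 475) (nat_lit 5) (nat_lit 476) (nat_lit 5) (nat_lit 457) (nat_lit 440) (nat_lit 303)) (XT.nd (nat_lit 78) (nat_lit 0) (nat_lit 0) (XT.lf (nat_lit 0) (nat_lit 230663587) (nat_lit 1064) (nat_lit 14550870907) (nat_lit 1140) (nat_lit 2877306561) (nat_lit 437) (nat_lit 5) (nat_lit 451) (nat_lit 5) (nat_lit 452) (nat_lit 5) (nat_lit 458) (nat_lit 440) (nat_lit 302)) (XT.lf (nat_lit 0) (nat_lit 14745992959) (nat_lit 1064) (nat_lit 2928619115) (nat_lit 1140) (nat_lit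 265654567) (nat_lit 437) (nat_lit 5) (nat_lit 451) (nat_lit 5) (nat_lit 452) (nat_lit 5) (nat_lit 459) (nat_lit 440) (nat_lit 301)))) (XT.nd (nat_lit 78) (nat_lit 1748) (nat_lit 0) (XT.lf (nat_lit 0) (nat_lit 2513749893) (nat_lit 988) (nat_lit 6697092801) (nat_lit 76) (nat_lit 9016554661) (nat_lit 424) (nat_lit 5) (nat_lit 437) (nat_lit 5) (nat_lit 425) (nat_lit 5) (nat_lit 460) (nat_lit 440) (nat_lit 300)) (XT.nd (nat_lit 78) (nat_lit 836) (nat_lit 0) (XT.lf (nat_lit 0) (nat_lit 5473530568) (nat_lit 988) (nat_lit 10247182993) (nat_lit 76) (nat_lit 2800382353) (nat_lit 412) (nat_lit 5) (nat_lit 425) (nat_lit 5) (nat_lit 413) (nat_lit 5) (nat_lit 461) (nat_lit 440) (nat_lit 299)) (XT.lf (nat_lit 0) (nat_lit 4953846235) (nat_lit 836) (nat_lit 3694952325) (nat_lit 912) (nat_lit 10172274069) (nat_lit 401) (nat_lit 5) (nat_lit 412) (nat_lit 5) (nat_lit 413) (nat_lit 5) (nat_lit 462) (nat_lit 440) (nat_lit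 298)))))) (XT.nd (nat_lit 468) (nat_lit 4256) (nat_lit 0) (XT.nd (nat_lit 234) (nat_lit 2432) (nat_lit 0) (XT.nd (nat_lit 78) (nat_lit 836) (nat_lit 0) (XT.lf (nat_lit 0) (nat_lit 1573960138) (nat_lit 836) (nat_lit 10469459989) (nat_lit 912) (nat_lit 7084147653) (nat_lit 390) (nat_lit 5) (nat_lit 401) (nat_lit 5) (nat_lit 402) (nat_lit 5) (nat_lit 463) (nat_lit 440) (nat_lit 297)) (XT.nd (nat_lit 78) (nat_lit 836) (nat_lit 0) (XT.lf (nat_lit 0) (nat_lit 15659114057) (nat_lit 912) (nat_lit 1822960992) (nat_lit 76) (nat_lit 1958799077) (nat_lit 390) (nat_lit 5) (nat_lit 402) (nat_lit 5) (nat_lit 391) (nat_lit 5) (nat_lit 464) (nat_lit 440) (nat_lit 296)) (XT.lf (nat_lit 0) (nat_lit 14487610401) (nat_lit 836) (nat_lit 5047931308) (nat_lit 912) (nat_lit 224993680) (nat_lit 379) (nat_lit 5) (nat_lit 390) (nat_lit 5) (nat_lit 391) (nat_lit 5) (nat_lit 465) (nat_lit 440) (nat_lit 295)))) (XT.nd (nat_lit 78)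 (nat_lit 1520) (nat_lit 0) (XT.lf (nat_lit 0) (nat_lit 3518892763) (nat_lit 912) (nat_lit 8801699649) (nat_lit 76) (nat_lit 7766238253) (nat_lit 367) (nat_lit 5) (nat_lit 379) (nat_lit 5) (nat_lit 368) (nat_lit 5) (nat_lit 466) (nat_lit 440) (nat_lit 294)) (XT.nd (nat_lit 78) (nat_lit 760) (nat_lit 0) (XT.lf (nat_lit 0) (nat_lit 7486340578) (nat_lit 836) (nat_lit 12376367897) (nat_lit 76) (nat_lit 557891461) (nat_lit 357) (nat_lit 5) (nat_lit 368) (nat_lit 5) (nat_lit 358) (nat_lit 5) (nat_lit 467) (nat_lit 440) (nat_lit 293)) (XT.lf (nat_lit 0) (nat_lit 4719940619) (nat_lit 760) (nat_lit 7014833233) (nat_lit 836) (nat_lit 9026370075) (nat_lit 347) (nat_lit 5) (nat_lit 357) (nat_lit 5) (nat_lit 358) (nat_lit 5) (nat_lit 468) (nat_lit 440) (nat_lit 292))))) (XT.nd (nat_lit 234) (nat_lit 2736) (nat_lit 0) (XT.nd (nat_lit 78) (nat_lit 836) (nat_lit 0) (XT.lf (nat_lit 0) (nat_lit 1353114988) (nat_lit 684)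 (nat_lit 14880253129) (nat_lit 760) (nat_lit 4876082819) (nat_lit 338) (nat_lit 5) (nat_lit 347) (nat_lit 5) (nat_lit 348) (nat_lit 5) (nat_lit 469) (nat_lit 440) (nat_lit 291)) (XT.nd (nat_lit 78) (nat_lit 836) (nat_lit 0) (XT.lf (nat_lit 0) (nat_lit 19429475066) (nat_lit 684) (nat_lit 1582114590) (nat_lit 760) (nat_lit 453724945) (nat_lit 338) (nat_lit 5) (nat_lit 347) (nat_lit 5) (nat_lit 348) (nat_lit 5) (nat_lit 470) (nat_lit 440) (nat_lit 290)) (XT.lf (nat_lit 0) (nat_lit 4223087378) (nat_lit 836) (nat_lit 5515914422) (nat_lit 76) (nat_lit 12088809140) (nat_lit 327) (nat_lit 5) (nat_lit 338) (nat_lit 5) (nat_lit 328) (nat_lit 5) (nat_lit 471) (nat_lit 440) (nat_lit 289)))) (XT.nd (nat_lit 156) (nat_lit 1368) (nat_lit 0) (XT.nd (nat_lit 78) (nat_lit 684) (nat_lit 0) (XT.lf (nat_lit 0) (nat_lit 9160271955) (nat_lit 760) (nat_lit 9040815092) (nat_lit 76) (nat_lit 3997511265) (nat_lit 318) (nat_lit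 5) (nat_lit 328) (nat_lit 5) (nat_lit 319) (nat_lit 5) (nat_lit 472) (nat_lit 440) (nat_lit 288)) (XT.lf (nat_lit 0) (nat_lit 9940800912) (nat_lit 684) (nat_lit 4462107196) (nat_lit 760) (nat_lit 8174455225) (nat_lit 309) (nat_lit 5) (nat_lit 318) (nat_lit 5) (nat_lit 319) (nat_lit 5) (nat_lit 473) (nat_lit 440) (nat_lit 287))) (XT.nd (nat_lit 78) (nat_lit 760) (nat_lit 0) (XT.lf (nat_lit 0) (nat_lit 6661781956) (nat_lit 608) (nat_lit 13299115351) (nat_lit 684) (nat_lit 3003433242) (nat_lit 301) (nat_lit 5) (nat_lit 309) (nat_lit 5) (nat_lit 310) (nat_lit 5) (nat_lit 474) (nat_lit 440) (nat_lit 286)) (XT.lf (nat_lit 0) (nat_lit 2426308352) (nat_lit 760) (nat_lit 20028426682) (nat_lit 76) (nat_lit 905189791) (nat_lit 291) (nat_lit 5) (nat_lit 301) (nat_lit 5) (nat_lit 292) (nat_lit 5) (nat_lit 475) (nat_lit 440) (nat_lit 285))))))) (XT.nd (nat_lit 1014) (nat_lit 3572) (nat_lit 0) (XT.nd (nat_lit 468)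 (nat_lit 3192) (nat_lit 0) (XT.nd (nat_lit 234) (nat_lit 1824) (nat_lit 0) (XT.nd (nat_lit 78) (nat_lit 1216) (nat_lit 0) (XT.lf (nat_lit 0) (nat_lit 8169093393) (nat_lit 760) (nat_lit 108767938) (nat_lit 76) (nat_lit 15485310093) (nat_lit 291) (nat_lit 5) (nat_lit 301) (nat_lit 5) (nat_lit 292) (nat_lit 5) (nat_lit 476) (nat_lit 440) (nat_lit 284)) (XT.nd (nat_lit 78) (nat_lit 608) (nat_lit 0) (XT.lf (nat_lit 0) (nat_lit 14251149240) (nat_lit 684) (nat_lit 3549620568) (nat_lit 76) (nat_lit 6374406519) (nat_lit 283) (nat_lit 5) (nat_lit 292) (nat_lit 5) (nat_lit 284) (nat_lit 5) (nat_lit 477) (nat_lit 440) (nat_lit 283)) (XT.lf (nat_lit 0) (nat_lit 17547444553) (nat_lit 608) (nat_lit 3129290426) (nat_lit 684) (nat_lit 3919585666) (nat_lit 275) (nat_lit 5) (nat_lit 283) (nat_lit 5) (nat_lit 284) (nat_lit 5) (nat_lit 478) (nat_lit 440) (nat_lit 282)))) (XT.nd (nat_lit 78) (nat_lit 1140) (nat_lit 0) (XT.lf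 (nat_lit 0) (nat_lit 2423211463) (nat_lit 684) (nat_lit 10646248505) (nat_lit 76) (nat_lit 11956587247) (nat_lit 266) (nat_lit 5) (nat_lit 275) (nat_lit 5) (nat_lit 267) (nat_lit 5) (nat_lit 479) (nat_lit 440) (nat_lit 281)) (XT.nd (nat_lit 78) (nat_lit 532) (nat_lit 0) (XT.lf (nat_lit 0) (nat_lit 9050044855) (nat_lit 684) (nat_lit 14311317106) (nat_lit 76) (nat_lit 2103845952) (nat_lit 258) (nat_lit 5) (nat_lit 267) (nat_lit 5) (nat_lit 259) (nat_lit 5) (nat_lit 480) (nat_lit 440) (nat_lit 280)) (XT.lf (nat_lit 0) (nat_lit 7841535482) (nat_lit 532) (nat_lit 8236587548) (nat_lit 608) (nat_lit 9835372174) (nat_lit 251) (nat_lit 5) (nat_lit 258) (nat_lit 5) (nat_lit 259) (nat_lit 5) (nat_lit 481) (nat_lit 440) (nat_lit 279))))) (XT.nd (nat_lit 234) (nat_lit 2052) (nat_lit 0) (XT.nd (nat_lit 78) (nat_lit 608) (nat_lit 0) (XT.lf (nat_lit 0) (nat_lit 4480975517) (nat_lit 532) (nat_lit 19002116109) (nat_lit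 608) (nat_lit 2888819077) (nat_lit 244) (nat_lit 5) (nat_lit 251) (nat_lit 5) (nat_lit 252) (nat_lit 5) (nat_lit 482) (nat_lit 440) (nat_lit 278)) (XT.nd (nat_lit 78) (nat_lit 0) (nat_lit 0) (XT.lf (nat_lit 0) (nat_lit 1035236958) (nat_lit 532) (nat_lit 3351801257) (nat_lit 608) (nat_lit 22452949833) (nat_lit 236) (nat_lit 5) (nat_lit 243) (nat_lit 5) (nat_lit 244) (nat_lit 5) (nat_lit 483) (nat_lit 440) (nat_lit 277)) (XT.lf (nat_lit 0) (nat_lit 12066302357) (nat_lit 608) (nat_lit 2484455260) (nat_lit 76) (nat_lit 12766481125) (nat_lit 236) (nat_lit 5) (nat_lit 244) (nat_lit 5) (nat_lit 237) (nat_lit 5) (nat_lit 484) (nat_lit 440) (nat_lit 276)))) (XT.nd (nat_lit 156) (nat_lit 988) (nat_lit 0) (XT.nd (nat_lit 78) (nat_lit 532) (nat_lit 0) (XT.lf (nat_lit 0) (nat_lit 20142744755) (nat_lit 608) (nat_lit 6028285814) (nat_lit 76) (nat_lit 1634440875) (nat_lit 229) (nat_lit 5) (nat_lit 237) (nat_lit 5)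 (nat_lit 230) (nat_lit 5) (nat_lit 485) (nat_lit 440) (nat_lit 275)) (XT.lf (nat_lit 0) (nat_lit 380144512) (nat_lit 532) (nat_lit 9677329415) (nat_lit 76) (nat_lit 18246277316) (nat_lit 222) (nat_lit 5) (nat_lit 229) (nat_lit 5) (nat_lit 223) (nat_lit 5) (nat_lit 486) (nat_lit 440) (nat_lit 274))) (XT.nd (nat_lit 78) (nat_lit 456) (nat_lit 0) (XT.lf (nat_lit 0) (nat_lit 8738205781) (nat_lit 608) (nat_lit 13429581329) (nat_lit 76) (nat_lit 6644619563) (nat_lit 215) (nat_lit 5) (nat_lit 223) (nat_lit 5) (nat_lit 216) (nat_lit 5) (nat_lit 487) (nat_lit 440) (nat_lit 273)) (XT.lf (nat_lit 0) (nat_lit 12072389749) (nat_lit 456) (nat_lit 5478822606) (nat_lit 532) (nat_lit 11781025786) (nat_lit 209) (nat_lit 5) (nat_lit 215) (nat_lit 5) (nat_lit 216) (nat_lit 5) (nat_lit 488) (nat_lit 440) (nat_lit 272)))))) (XT.nd (nat_lit 468) (nat_lit 1216) (nat_lit 0) (XT.nd (nat_lit 234) (nat_lit 912) (nat_lit 0) (XT.nd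 (nat_lit 78) (nat_lit 988) (nat_lit 0) (XT.lf (nat_lit 0) (nat_lit 8684215013) (nat_lit 456) (nat_lit 18161100040) (nat_lit 532) (nat_lit 3018015811) (nat_lit 203) (nat_lit 5) (nat_lit 209) (nat_lit 5) (nat_lit 210) (nat_lit 5) (nat_lit 489) (nat_lit 440) (nat_lit 271)) (XT.nd (nat_lit 78) (nat_lit 456) (nat_lit 0) (XT.lf (nat_lit 0) (nat_lit 5216460821) (nat_lit 456) (nat_lit 893650597) (nat_lit 532) (nat_lit 24295844789) (nat_lit 196) (nat_lit 5) (nat_lit 202) (nat_lit 5) (nat_lit 203) (nat_lit 5) (nat_lit 490) (nat_lit 440) (nat_lit 270)) (XT.lf (nat_lit 0) (nat_lit 1611826188) (nat_lit 456) (nat_lit 14116996155) (nat_lit 532) (nat_lit 15230484524) (nat_lit 190) (nat_lit 5) (nat_lit 196) (nat_lit 5) (nat_lit 197) (nat_lit 5) (nat_lit 491) (nat_lit 440) (nat_lit 269)))) (XT.nd (nat_lit 78) (nat_lit 912) (nat_lit 0) (XT.lf (nat_lit 0) (nat_lit 25830051173) (nat_lit 532) (nat_lit 2004375418) (nat_lit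 76) (nat_lit 3690952712) (nat_lit 190) (nat_lit 5) (nat_lit 197) (nat_lit 5) (nat_lit 191) (nat_lit 5) (nat_lit 492) (nat_lit 440) (nat_lit 268)) (XT.nd (nat_lit 78) (nat_lit 456) (nat_lit 0) (XT.lf (nat_lit 0) (nat_lit 4332532617) (nat_lit 456) (nat_lit 5730864839) (nat_lit 76) (nat_lit 22039285838) (nat_lit 184) (nat_lit 5) (nat_lit 190) (nat_lit 5) (nat_lit 185) (nat_lit 5) (nat_lit 493) (nat_lit 440) (nat_lit 267)) (XT.lf (nat_lit 0) (nat_lit 14796642252) (nat_lit 532) (nat_lit 9562514790) (nat_lit 76) (nat_lit 8333140991) (nat_lit 178) (nat_lit 5) (nat_lit 185) (nat_lit 5) (nat_lit 179) (nat_lit 5) (nat_lit 494) (nat_lit 440) (nat_lit 266))))) (XT.nd (nat_lit 58266) (nat_lit 0) (nat_lit 24776) (XT.nd (nat_lit 78) (nat_lit 836) (nat_lit 0) (XT.lf (nat_lit 0) (nat_lit 19818383199) (nat_lit 380) (nat_lit 5984783158) (nat_lit 456) (nat_lit 7491865380) (nat_lit 173) (nat_lit 5) (nat_lit 178) (nat_lit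 5) (nat_lit 179) (nat_lit 5) (nat_lit 495) (nat_lit 440) (nat_lit 265)) (XT.nd (nat_lit 78) (nat_lit 380) (nat_lit 0) (XT.lf (nat_lit 0) (nat_lit 3432786339) (nat_lit 456) (nat_lit 17515319665) (nat_lit 76) (nat_lit 12962302496) (nat_lit 167) (nat_lit 5) (nat_lit 173) (nat_lit 5) (nat_lit 168) (nat_lit 5) (nat_lit 496) (nat_lit 440) (nat_lit 264)) (XT.lf (nat_lit 0) (nat_lit 12873408208) (nat_lit 380) (nat_lit 1919715082) (nat_lit 456) (nat_lit 19745938557) (nat_lit 162) (nat_lit 5) (nat_lit 167) (nat_lit 5) (nat_lit 168) (nat_lit 5) (nat_lit 497) (nat_lit 440) (nat_lit 263)))) (XT.nd (nat_lit 156) (nat_lit 0) (nat_lit 76) (XT.nd (nat_lit 78) (nat_lit 0) (nat_lit 0) (XT.lf (nat_lit 0) (nat_lit 918035031) (nat_lit 0) (nat_lit 918035031) (nat_lit 1748) (nat_lit 5107493763) (nat_lit 488) (nat_lit 5) (nat_lit 488) (nat_lit 3) (nat_lit 511) (nat_lit 3) (nat_lit 441) (nat_lit 441) (nat_lit 318)) (XT.lf (nat_lit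 0) (nat_lit 4301733760) (nat_lit 1748) (nat_lit 1810766099) (nat_lit 1824) (nat_lit 7971395611) (nat_lit 488) (nat_lit 5) (nat_lit 511) (nat_lit 3) (nat_lit 512) (nat_lit 5) (nat_lit 442) (nat_lit 441) (nat_lit 317))) (XT.nd (nat_lit 78) (nat_lit 0) (nat_lit 0) (XT.lf (nat_lit 0) (nat_lit 5024380114) (nat_lit 1748) (nat_lit 5480855449) (nat_lit 1824) (nat_lit 3779849367) (nat_lit 489) (nat_lit 5) (nat_lit 512) (nat_lit 5) (nat_lit 513) (nat_lit 5) (nat_lit 443) (nat_lit 441) (nat_lit 316)) (XT.lf (nat_lit 76) (nat_lit 5287841152) (nat_lit 0) (nat_lit 548700501) (nat_lit 1824) (nat_lit 8654413558) (nat_lit 490) (nat_lit 5) (nat_lit 489) (nat_lit 5) (nat_lit 513) (nat_lit 5) (nat_lit 444) (nat_lit 441) (nat_lit 315))))))))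
noncomputable def xc100 : XT := (XT.nd (nat_lit 1950) (nat_lit 12388) (nat_lit 0) (XT.nd (nat_lit 936) (nat_lit 9424) (nat_lit 0) (XT.nd (nat_lit 468) (nat_lit 1444) (nat_lit 0) (XT.nd (nat_lit 234) (nat_lit 0) (nat_lit 152) (XT.nd (nat_lit 78) (nat_lit 0) (nat_lit 76) (XT.lf (nat_lit 76) (nat_lit 1700182323) (nat_lit 0) (nat_lit 5065166122) (nat_lit 1824) (nat_lit 7935809345) (nat_lit 491) (nat_lit 5) (nat_lit 490) (nat_lit 5) (nat_lit 514) (nat_lit 5) (nat_lit 445) (nat_lit 441) (nat_lit 314)) (XT.nd (nat_lit 78) (nat_lit 0) (nat_lit 76) (XT.lf (nat_lit 0) (nat_lit 7803581284) (nat_lit 1748) (nat_lit 1909150218) (nat_lit 1824) (nat_lit 5203305451) (nat_lit 491) (nat_lit 5) (nat_lit 514) (nat_lit 5) (nat_lit 515) (nat_lit 5) (nat_lit 446) (nat_lit 441) (nat_lit 313)) (XT.lf (nat_lit 0) (nat_lit 8955242310) (nat_lit 1748) (nat_lit 5543698609) (nat_lit 1824) (nat_lit 636777644) (nat_lit 492) (nat_lit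 5) (nat_lit 515) (nat_lit 5) (nat_lit 516) (nat_lit 5) (nat_lit 447) (nat_lit 441) (nat_lit 312)))) (XT.nd (nat_lit 78) (nat_lit 0) (nat_lit 76) (XT.lf (nat_lit 76) (nat_lit 6106334665) (nat_lit 0) (nat_lit 4135153463) (nat_lit 1824) (nat_lit 5118503439) (nat_lit 493) (nat_lit 5) (nat_lit 492) (nat_lit 5) (nat_lit 516) (nat_lit 5) (nat_lit 448) (nat_lit 441) (nat_lit 311)) (XT.nd (nat_lit 78) (nat_lit 0) (nat_lit 76) (XT.lf (nat_lit 76) (nat_lit 2570983958) (nat_lit 0) (nat_lit 9075194926) (nat_lit 1824) (nat_lit 3943218323) (nat_lit 494) (nat_lit 5) (nat_lit 493) (nat_lit 5) (nat_lit 517) (nat_lit 5) (nat_lit 449) (nat_lit 441) (nat_lit 310)) (XT.lf (nat_lit 0) (nat_lit 13177353911) (nat_lit 1748) (nat_lit 997408916) (nat_lit 1824) (nat_lit 1649236868) (nat_lit 494) (nat_lit 5) (nat_lit 517) (nat_lit 5) (nat_lit 518) (nat_lit 5) (nat_lit 450) (nat_lit 441) (nat_lit 309))))) (XT.nd (nat_lit 234) (nat_lit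 0) (nat_lit 76) (XT.nd (nat_lit 78) (nat_lit 1748) (nat_lit 0) (XT.lf (nat_lit 76) (nat_lit 11462489383) (nat_lit 0) (nat_lit 3410922237) (nat_lit 1824) (nat_lit 1189851195) (nat_lit 495) (nat_lit 5) (nat_lit 494) (nat_lit 5) (nat_lit 518) (nat_lit 5) (nat_lit 451) (nat_lit 441) (nat_lit 308)) (XT.nd (nat_lit 78) (nat_lit 0) (nat_lit 76) (XT.lf (nat_lit 0) (nat_lit 400321052) (nat_lit 1824) (nat_lit 8266126720) (nat_lit 1900) (nat_lit 7641342191) (nat_lit 471) (nat_lit 5) (nat_lit 495) (nat_lit 5) (nat_lit 496) (nat_lit 5) (nat_lit 452) (nat_lit 441) (nat_lit 307)) (XT.lf (nat_lit 0) (nat_lit 2106826072) (nat_lit 1824) (nat_lit 11989402067) (nat_lit 1900) (nat_lit 2461573019) (nat_lit 472) (nat_lit 5) (nat_lit 496) (nat_lit 5) (nat_lit 497) (nat_lit 5) (nat_lit 453) (nat_lit 441) (nat_lit 306)))) (XT.nd (nat_lit 78) (nat_lit 0) (nat_lit 76) (XT.lf (nat_lit 76) (nat_lit 1030403136) (nat_lit 0) (nat_lit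 2940099630) (nat_lit 1900) (nat_lit 12842691743) (nat_lit 473) (nat_lit 5) (nat_lit 472) (nat_lit 5) (nat_lit 497) (nat_lit 5) (nat_lit 454) (nat_lit 441) (nat_lit 305)) (XT.nd (nat_lit 78) (nat_lit 0) (nat_lit 76) (XT.lf (nat_lit 0) (nat_lit 6012718335) (nat_lit 1824) (nat_lit 2537590134) (nat_lit 1900) (nat_lit 8523489931) (nat_lit 473) (nat_lit 5) (nat_lit 497) (nat_lit 5) (nat_lit 498) (nat_lit 5) (nat_lit 455) (nat_lit 441) (nat_lit 304)) (XT.lf (nat_lit 0) (nat_lit 8214123327) (nat_lit 1824) (nat_lit 6139316992) (nat_lit 1900) (nat_lit 2986822903) (nat_lit 474) (nat_lit 5) (nat_lit 498) (nat_lit 5) (nat_lit 499) (nat_lit 5) (nat_lit 456) (nat_lit 441) (nat_lit 303)))))) (XT.nd (nat_lit 468) (nat_lit 4940) (nat_lit 0) (XT.nd (nat_lit 234) (nat_lit 1900) (nat_lit 0) (XT.nd (nat_lit 78) (nat_lit 2812) (nat_lit 0) (XT.lf (nat_lit 76) (nat_lit 7805481029) (nat_lit 0) (nat_lit 2787372277) (nat_lit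 1900) (nat_lit 7019644262) (nat_lit 475) (nat_lit 5) (nat_lit 474) (nat_lit 5) (nat_lit 499) (nat_lit 5) (nat_lit 457) (nat_lit 441) (nat_lit 302)) (XT.nd (nat_lit 78) (nat_lit 1064) (nat_lit 0) (XT.lf (nat_lit 0) (nat_lit 4346380709) (nat_lit 1824) (nat_lit 8812371198) (nat_lit 1900) (nat_lit 4731832104) (nat_lit 451) (nat_lit 5) (nat_lit 475) (nat_lit 5) (nat_lit 476) (nat_lit 5) (nat_lit 458) (nat_lit 441) (nat_lit 301)) (XT.lf (nat_lit 0) (nat_lit 843228524) (nat_lit 1064) (nat_lit 15056109767) (nat_lit 1140) (nat_lit 2275721705) (nat_lit 437) (nat_lit 5) (nat_lit 451) (nat_lit 5) (nat_lit 452) (nat_lit 5) (nat_lit 459) (nat_lit 441) (nat_lit 300)))) (XT.nd (nat_lit 78) (nat_lit 1824) (nat_lit 0) (XT.lf (nat_lit 0) (nat_lit 389073229) (nat_lit 1140) (nat_lit 2691504964) (nat_lit 76) (nat_lit 15384693515) (nat_lit 436) (nat_lit 5) (nat_lit 451) (nat_lit 5) (nat_lit 437) (nat_lit 5) (nat_lit 460)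 (nat_lit 441) (nat_lit 299)) (XT.nd (nat_lit 78) (nat_lit 912) (nat_lit 0) (XT.lf (nat_lit 0) (nat_lit 3232518544) (nat_lit 988) (nat_lit 6297571395) (nat_lit 76) (nat_lit 9231207566) (nat_lit 424) (nat_lit 5) (nat_lit 437) (nat_lit 5) (nat_lit 425) (nat_lit 5) (nat_lit 461) (nat_lit 441) (nat_lit 298)) (XT.lf (nat_lit 0) (nat_lit 6265944117) (nat_lit 988) (nat_lit 9951038349) (nat_lit 76) (nat_lit 2847129116) (nat_lit 412) (nat_lit 5) (nat_lit 425) (nat_lit 5) (nat_lit 413) (nat_lit 5) (nat_lit 462) (nat_lit 441) (nat_lit 297))))) (XT.nd (nat_lit 234) (nat_lit 3268) (nat_lit 0) (XT.nd (nat_lit 78) (nat_lit 836) (nat_lit 0) (XT.lf (nat_lit 0) (nat_lit 5696229710) (nat_lit 836) (nat_lit 3825798266) (nat_lit 912) (nat_lit 9851350012) (nat_lit 401) (nat_lit 5) (nat_lit 412) (nat_lit 5) (nat_lit 413) (nat_lit 5) (nat_lit 463) (nat_lit 441) (nat_lit 296)) (XT.nd (nat_lit 78) (nat_lit 0) (nat_lit 0) (XT.lf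 (nat_lit 0) (nat_lit 2217568410) (nat_lit 836) (nat_lit 10786789217) (nat_lit 912) (nat_lit 6684994477) (nat_lit 390) (nat_lit 5) (nat_lit 401) (nat_lit 5) (nat_lit 402) (nat_lit 5) (nat_lit 464) (nat_lit 441) (nat_lit 295)) (XT.lf (nat_lit 0) (nat_lit 16711036824) (nat_lit 912) (nat_lit 1286918512) (nat_lit 76) (nat_lit 2014453473) (nat_lit 390) (nat_lit 5) (nat_lit 402) (nat_lit 5) (nat_lit 391) (nat_lit 5) (nat_lit 465) (nat_lit 441) (nat_lit 294)))) (XT.nd (nat_lit 156) (nat_lit 1520) (nat_lit 0) (XT.nd (nat_lit 78) (nat_lit 836) (nat_lit 0) (XT.lf (nat_lit 0) (nat_lit 344077112) (nat_lit 912) (nat_lit 4840802533) (nat_lit 76) (nat_lit 15157000057) (nat_lit 378) (nat_lit 5) (nat_lit 390) (nat_lit 5) (nat_lit 379) (nat_lit 5) (nat_lit 466) (nat_lit 441) (nat_lit 293)) (XT.lf (nat_lit 0) (nat_lit 4184444654) (nat_lit 912) (nat_lit 8475381600) (nat_lit 76) (nat_lit 8018364760) (nat_lit 367) (nat_lit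 5) (nat_lit 379) (nat_lit 5) (nat_lit 368) (nat_lit 5) (nat_lit 467) (nat_lit 441) (nat_lit 292))) (XT.nd (nat_lit 78) (nat_lit 760) (nat_lit 0) (XT.lf (nat_lit 0) (nat_lit 8258593038) (nat_lit 836) (nat_lit 12156091953) (nat_lit 76) (nat_lit 607536135) (nat_lit 357) (nat_lit 5) (nat_lit 368) (nat_lit 5) (nat_lit 358) (nat_lit 5) (nat_lit 468) (nat_lit 441) (nat_lit 291)) (XT.lf (nat_lit 0) (nat_lit 5443508347) (nat_lit 760) (nat_lit 7178798168) (nat_lit 836) (nat_lit 8750919647) (nat_lit 347) (nat_lit 5) (nat_lit 357) (nat_lit 5) (nat_lit 358) (nat_lit 5) (nat_lit 469) (nat_lit 441) (nat_lit 290))))))) (XT.nd (nat_lit 936) (nat_lit 5624) (nat_lit 0) (XT.nd (nat_lit 468) (nat_lit 3268) (nat_lit 0) (XT.nd (nat_lit 234) (nat_lit 1976) (nat_lit 0) (XT.nd (nat_lit 78) (nat_lit 836) (nat_lit 0) (XT.lf (nat_lit 0) (nat_lit 1976516944) (nat_lit 684) (nat_lit 15267821854) (nat_lit 760) (nat_lit 4487875212)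 (nat_lit 338) (nat_lit 5) (nat_lit 347) (nat_lit 5) (nat_lit 348) (nat_lit 5) (nat_lit 470) (nat_lit 441) (nat_lit 289)) (XT.nd (nat_lit 78) (nat_lit 760) (nat_lit 0) (XT.lf (nat_lit 0) (nat_lit 50909168) (nat_lit 760) (nat_lit 1521202116) (nat_lit 76) (nat_lit 20526942023) (nat_lit 337) (nat_lit 5) (nat_lit 347) (nat_lit 5) (nat_lit 338) (nat_lit 5) (nat_lit 471) (nat_lit 441) (nat_lit 288)) (XT.lf (nat_lit 0) (nat_lit 4851044500) (nat_lit 836) (nat_lit 5108355397) (nat_lit 76) (nat_lit 12513182135) (nat_lit 327) (nat_lit 5) (nat_lit 338) (nat_lit 5) (nat_lit 328) (nat_lit 5) (nat_lit 472) (nat_lit 441) (nat_lit 287)))) (XT.nd (nat_lit 78) (nat_lit 1292) (nat_lit 0) (XT.lf (nat_lit 0) (nat_lit 9925881507) (nat_lit 760) (nat_lit 8738933245) (nat_lit 76) (nat_lit 4189888640) (nat_lit 318) (nat_lit 5) (nat_lit 328) (nat_lit 5) (nat_lit 319) (nat_lit 5) (nat_lit 473) (nat_lit 441) (nat_lit 286)) (XT.nd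 (nat_lit 78) (nat_lit 608) (nat_lit 0) (XT.lf (nat_lit 0) (nat_lit 10802833270) (nat_lit 684) (nat_lit 4512328906) (nat_lit 760) (nat_lit 7929882952) (nat_lit 309) (nat_lit 5) (nat_lit 318) (nat_lit 5) (nat_lit 319) (nat_lit 5) (nat_lit 474) (nat_lit 441) (nat_lit 285)) (XT.lf (nat_lit 0) (nat_lit 7425245101) (nat_lit 608) (nat_lit 13604847076) (nat_lit 684) (nat_lit 2613726204) (nat_lit 301) (nat_lit 5) (nat_lit 309) (nat_lit 5) (nat_lit 310) (nat_lit 5) (nat_lit 475) (nat_lit 441) (nat_lit 284))))) (XT.nd (nat_lit 234) (nat_lit 1900) (nat_lit 0) (XT.nd (nat_lit 78) (nat_lit 608) (nat_lit 0) (XT.lf (nat_lit 0) (nat_lit 2963095343) (nat_lit 760) (nat_lit 20059921021) (nat_lit 76) (nat_lit 1028393197) (nat_lit 291) (nat_lit 5) (nat_lit 301) (nat_lit 5) (nat_lit 292) (nat_lit 5) (nat_lit 476) (nat_lit 441) (nat_lit 283)) (XT.nd (nat_lit 78) (nat_lit 0) (nat_lit 0) (XT.lf (nat_lit 0) (nat_lit 446601487)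 (nat_lit 608) (nat_lit 8420947584) (nat_lit 684) (nat_lit 15599417748) (nat_lit 283) (nat_lit 5) (nat_lit 291) (nat_lit 5) (nat_lit 292) (nat_lit 5) (nat_lit 477) (nat_lit 441) (nat_lit 282)) (XT.lf (nat_lit 0) (nat_lit 15120245031) (nat_lit 684) (nat_lit 3104121268) (nat_lit 76) (nat_lit 6667202935) (nat_lit 283) (nat_lit 5) (nat_lit 292) (nat_lit 5) (nat_lit 284) (nat_lit 5) (nat_lit 478) (nat_lit 441) (nat_lit 281)))) (XT.nd (nat_lit 78) (nat_lit 1292) (nat_lit 0) (XT.lf (nat_lit 0) (nat_lit 18616900459) (nat_lit 608) (nat_lit 3112362603) (nat_lit 684) (nat_lit 3596272434) (nat_lit 275) (nat_lit 5) (nat_lit 283) (nat_lit 5) (nat_lit 284) (nat_lit 5) (nat_lit 479) (nat_lit 441) (nat_lit 280)) (XT.nd (nat_lit 78) (nat_lit 608) (nat_lit 0) (XT.lf (nat_lit 0) (nat_lit 2922598515) (nat_lit 684) (nat_lit 10417887889) (nat_lit 76) (nat_lit 12427779622) (nat_lit 266) (nat_lit 5) (nat_lit 275) (nat_lit 5)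 (nat_lit 267) (nat_lit 5) (nat_lit 480) (nat_lit 441) (nat_lit 279)) (XT.lf (nat_lit 0) (nat_lit 9740093932) (nat_lit 684) (nat_lit 14194198188) (nat_lit 76) (nat_lit 2286473122) (nat_lit 258) (nat_lit 5) (nat_lit 267) (nat_lit 5) (nat_lit 259) (nat_lit 5) (nat_lit 481) (nat_lit 441) (nat_lit 278)))))) (XT.nd (nat_lit 468) (nat_lit 2888) (nat_lit 0) (XT.nd (nat_lit 234) (nat_lit 1064) (nat_lit 0) (XT.nd (nat_lit 78) (nat_lit 1140) (nat_lit 0) (XT.lf (nat_lit 0) (nat_lit 8614374338) (nat_lit 532) (nat_lit 8355939813) (nat_lit 608) (nat_lit 9712361822) (nat_lit 251) (nat_lit 5) (nat_lit 258) (nat_lit 5) (nat_lit 259) (nat_lit 5) (nat_lit 482) (nat_lit 441) (nat_lit 277)) (XT.nd (nat_lit 78) (nat_lit 608) (nat_lit 0) (XT.lf (nat_lit 0) (nat_lit 5151550480) (nat_lit 532) (nat_lit 19438230285) (nat_lit 608) (nat_lit 2565216983) (nat_lit 244) (nat_lit 5) (nat_lit 251) (nat_lit 5) (nat_lit 252) (nat_lit 5)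 (nat_lit 483) (nat_lit 441) (nat_lit 276)) (XT.lf (nat_lit 0) (nat_lit 1599060275) (nat_lit 532) (nat_lit 3316141308) (nat_lit 608) (nat_lit 22722029982) (nat_lit 236) (nat_lit 5) (nat_lit 243) (nat_lit 5) (nat_lit 244) (nat_lit 5) (nat_lit 484) (nat_lit 441) (nat_lit 275)))) (XT.nd (nat_lit 78) (nat_lit 1064) (nat_lit 0) (XT.lf (nat_lit 0) (nat_lit 12814152217) (nat_lit 608) (nat_lit 2034874412) (nat_lit 76) (nat_lit 13279987710) (nat_lit 236) (nat_lit 5) (nat_lit 244) (nat_lit 5) (nat_lit 237) (nat_lit 5) (nat_lit 485) (nat_lit 441) (nat_lit 274)) (XT.nd (nat_lit 78) (nat_lit 532) (nat_lit 0) (XT.lf (nat_lit 0) (nat_lit 21125890576) (nat_lit 608) (nat_lit 5686833641) (nat_lit 76) (nat_lit 1819310461) (nat_lit 229) (nat_lit 5) (nat_lit 237) (nat_lit 5) (nat_lit 230) (nat_lit 5) (nat_lit 486) (nat_lit 441) (nat_lit 273)) (XT.lf (nat_lit 0) (nat_lit 765194267) (nat_lit 532) (nat_lit 9448834208) (nat_lit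 76) (nat_lit 18931339896) (nat_lit 222) (nat_lit 5) (nat_lit 229) (nat_lit 5) (nat_lit 223) (nat_lit 5) (nat_lit 487) (nat_lit 441) (nat_lit 272))))) (XT.nd (nat_lit 234) (nat_lit 1444) (nat_lit 0) (XT.nd (nat_lit 78) (nat_lit 912) (nat_lit 0) (XT.lf (nat_lit 0) (nat_lit 9367365371) (nat_lit 608) (nat_lit 13315664495) (nat_lit 76) (nat_lit 6986386893) (nat_lit 215) (nat_lit 5) (nat_lit 223) (nat_lit 5) (nat_lit 216) (nat_lit 5) (nat_lit 488) (nat_lit 441) (nat_lit 271)) (XT.nd (nat_lit 78) (nat_lit 456) (nat_lit 0) (XT.lf (nat_lit 0) (nat_lit 12942981180) (nat_lit 456) (nat_lit 5494392249) (nat_lit 532) (nat_lit 11767618153) (nat_lit 209) (nat_lit 5) (nat_lit 215) (nat_lit 5) (nat_lit 216) (nat_lit 5) (nat_lit 489) (nat_lit 441) (nat_lit 270)) (XT.lf (nat_lit 0) (nat_lit 9451058963) (nat_lit 456) (nat_lit 18552991026) (nat_lit 532) (nat_lit 2748092699) (nat_lit 203) (nat_lit 5) (nat_lit 209) (nat_lit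 5) (nat_lit 210) (nat_lit 5) (nat_lit 490) (nat_lit 441) (nat_lit 269)))) (XT.nd (nat_lit 156) (nat_lit 456) (nat_lit 0) (XT.nd (nat_lit 78) (nat_lit 456) (nat_lit 0) (XT.lf (nat_lit 0) (nat_lit 5875728452) (nat_lit 456) (nat_lit 766325447) (nat_lit 532) (nat_lit 24669088611) (nat_lit 196) (nat_lit 5) (nat_lit 202) (nat_lit 5) (nat_lit 203) (nat_lit 5) (nat_lit 491) (nat_lit 441) (nat_lit 268)) (XT.lf (nat_lit 0) (nat_lit 2160692304) (nat_lit 456) (nat_lit 14382700558) (nat_lit 532) (nat_lit 15337820065) (nat_lit 190) (nat_lit 5) (nat_lit 196) (nat_lit 5) (nat_lit 197) (nat_lit 5) (nat_lit 492) (nat_lit 441) (nat_lit 267))) (XT.nd (nat_lit 78) (nat_lit 456) (nat_lit 0) (XT.lf (nat_lit 0) (nat_lit 26938671569) (nat_lit 532) (nat_lit 1572895129) (nat_lit 76) (nat_lit 3952881132) (nat_lit 190) (nat_lit 5) (nat_lit 197) (nat_lit 5) (nat_lit 191) (nat_lit 5) (nat_lit 493) (nat_lit 441) (nat_lit 266)) (XT.lf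 (nat_lit 0) (nat_lit 4791831758) (nat_lit 456) (nat_lit 5414760929) (nat_lit 76) (nat_lit 22852567057) (nat_lit 184) (nat_lit 5) (nat_lit 190) (nat_lit 5) (nat_lit 185) (nat_lit 5) (nat_lit 494) (nat_lit 441) (nat_lit 265))))))))
noncomputable def xc101 : XT := (XT.nd (nat_lit 60060) (nat_lit 0) (nat_lit 3648) (XT.nd (nat_lit 59046) (nat_lit 0) (nat_lit 18620) (XT.nd (nat_lit 58578) (nat_lit 0) (nat_lit 24472) (XT.nd (nat_lit 58344) (nat_lit 0) (nat_lit 24396) (XT.nd (nat_lit 78) (nat_lit 836) (nat_lit 0) (XT.lf (nat_lit 0) (nat_lit 15564411012) (nat_lit 532) (nat_lit 9363825101) (nat_lit 76) (nat_lit 8738336397) (nat_lit 178) (nat_lit 5) (nat_lit 185) (nat_lit 5) (nat_lit 179) (nat_lit 5) (nat_lit 495) (nat_lit 441) (nat_lit 264)) (XT.nd (nat_lit 78) (nat_lit 456) (nat_lit 0) (XT.lf (nat_lit 0) (nat_lit 20890622109) (nat_lit 380) (nat_lit 6004177103) (nat_lit 456) (nat_lit 7392716144) (nat_lit 173)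 (nat_lit 5) (nat_lit 178) (nat_lit 5) (nat_lit 179) (nat_lit 5) (nat_lit 496) (nat_lit 441) (nat_lit 263)) (XT.lf (nat_lit 0) (nat_lit 3850238454) (nat_lit 456) (nat_lit 17561405750) (nat_lit 76) (nat_lit 13509771404) (nat_lit 167) (nat_lit 5) (nat_lit 173) (nat_lit 5) (nat_lit 168) (nat_lit 5) (nat_lit 497) (nat_lit 441) (nat_lit 262)))) (XT.nd (nat_lit 78) (nat_lit 0) (nat_lit 0) (XT.lf (nat_lit 0) (nat_lit 1204100933) (nat_lit 0) (nat_lit 1204100933) (nat_lit 1748) (nat_lit 4733279483) (nat_lit 488) (nat_lit 5) (nat_lit 488) (nat_lit 3) (nat_lit 511) (nat_lit 3) (nat_lit 442) (nat_lit 442) (nat_lit 316)) (XT.nd (nat_lit 78) (nat_lit 0) (nat_lit 76) (XT.lf (nat_lit 0) (nat_lit 5431506524) (nat_lit 1748) (nat_lit 1339666254) (nat_lit 1824) (nat_lit 7715131166) (nat_lit 488) (nat_lit 5) (nat_lit 511) (nat_lit 3) (nat_lit 512) (nat_lit 5) (nat_lit 443) (nat_lit 442) (nat_lit 315)) (XT.lf (nat_lit 0)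 (nat_lit 6147067269) (nat_lit 1748) (nat_lit 5105818974) (nat_lit 1824) (nat_lit 3441220883) (nat_lit 489) (nat_lit 5) (nat_lit 512) (nat_lit 5) (nat_lit 513) (nat_lit 5) (nat_lit 444) (nat_lit 442) (nat_lit 314))))) (XT.nd (nat_lit 234) (nat_lit 0) (nat_lit 228) (XT.nd (nat_lit 78) (nat_lit 0) (nat_lit 76) (XT.lf (nat_lit 76) (nat_lit 5977186393) (nat_lit 0) (nat_lit 981543591) (nat_lit 1824) (nat_lit 7947923462) (nat_lit 490) (nat_lit 5) (nat_lit 489) (nat_lit 5) (nat_lit 513) (nat_lit 5) (nat_lit 445) (nat_lit 442) (nat_lit 313)) (XT.nd (nat_lit 78) (nat_lit 0) (nat_lit 76) (XT.lf (nat_lit 76) (nat_lit 2294668904) (nat_lit 0) (nat_lit 5594050821) (nat_lit 1824) (nat_lit 7234978581) (nat_lit 491) (nat_lit 5) (nat_lit 490) (nat_lit 5) (nat_lit 514) (nat_lit 5) (nat_lit 446) (nat_lit 442) (nat_lit 312)) (XT.lf (nat_lit 0) (nat_lit 8928915469) (nat_lit 1748) (nat_lit 1418441612) (nat_lit 1824) (nat_lit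 4998252950) (nat_lit 491) (nat_lit 5) (nat_lit 514) (nat_lit 5) (nat_lit 515) (nat_lit 5) (nat_lit 447) (nat_lit 442) (nat_lit 311)))) (XT.nd (nat_lit 78) (nat_lit 0) (nat_lit 0) (XT.lf (nat_lit 0) (nat_lit 10090527937) (nat_lit 1748) (nat_lit 5151319914) (nat_lit 1824) (nat_lit 330528638) (nat_lit 492) (nat_lit 5) (nat_lit 515) (nat_lit 5) (nat_lit 516) (nat_lit 5) (nat_lit 448) (nat_lit 442) (nat_lit 310)) (XT.nd (nat_lit 78) (nat_lit 0) (nat_lit 76) (XT.lf (nat_lit 76) (nat_lit 6839150283) (nat_lit 0) (nat_lit 4554537779) (nat_lit 1824) (nat_lit 4410125444) (nat_lit 493) (nat_lit 5) (nat_lit 492) (nat_lit 5) (nat_lit 516) (nat_lit 5) (nat_lit 449) (nat_lit 442) (nat_lit 309)) (XT.lf (nat_lit 76) (nat_lit 3207410763) (nat_lit 0) (nat_lit 9610268130) (nat_lit 1824) (nat_lit 3222881527) (nat_lit 494) (nat_lit 5) (nat_lit 493) (nat_lit 5) (nat_lit 517) (nat_lit 5) (nat_lit 450) (nat_lit 442) (nat_lit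 308)))))) (XT.nd (nat_lit 468) (nat_lit 4484) (nat_lit 0) (XT.nd (nat_lit 234) (nat_lit 0) (nat_lit 76) (XT.nd (nat_lit 78) (nat_lit 1748) (nat_lit 0) (XT.lf (nat_lit 0) (nat_lit 14369187400) (nat_lit 1748) (nat_lit 466629849) (nat_lit 1824) (nat_lit 1446897994) (nat_lit 494) (nat_lit 5) (nat_lit 517) (nat_lit 5) (nat_lit 518) (nat_lit 5) (nat_lit 451) (nat_lit 442) (nat_lit 307)) (XT.nd (nat_lit 78) (nat_lit 1748) (nat_lit 0) (XT.lf (nat_lit 76) (nat_lit 12357968685) (nat_lit 0) (nat_lit 3738540134) (nat_lit 1824) (nat_lit 433041959) (nat_lit 495) (nat_lit 5) (nat_lit 494) (nat_lit 5) (nat_lit 518) (nat_lit 5) (nat_lit 452) (nat_lit 442) (nat_lit 306)) (XT.lf (nat_lit 0) (nat_lit 1173888531) (nat_lit 1824) (nat_lit 7944470101) (nat_lit 1900) (nat_lit 7663365318) (nat_lit 471) (nat_lit 5) (nat_lit 495) (nat_lit 5) (nat_lit 496) (nat_lit 5) (nat_lit 453) (nat_lit 442) (nat_lit 305)))) (XT.nd (nat_lit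 78) (nat_lit 0) (nat_lit 0) (XT.lf (nat_lit 0) (nat_lit 2911860218) (nat_lit 1824) (nat_lit 11772572923) (nat_lit 1900) (nat_lit 2355198906) (nat_lit 472) (nat_lit 5) (nat_lit 496) (nat_lit 5) (nat_lit 497) (nat_lit 5) (nat_lit 454) (nat_lit 442) (nat_lit 304)) (XT.nd (nat_lit 78) (nat_lit 0) (nat_lit 76) (XT.lf (nat_lit 76) (nat_lit 1628473227) (nat_lit 0) (nat_lit 3185049672) (nat_lit 1900) (nat_lit 12489524724) (nat_lit 473) (nat_lit 5) (nat_lit 472) (nat_lit 5) (nat_lit 497) (nat_lit 5) (nat_lit 455) (nat_lit 442) (nat_lit 303)) (XT.lf (nat_lit 0) (nat_lit 6894932258) (nat_lit 1824) (nat_lit 2047971797) (nat_lit 1900) (nat_lit 8629008913) (nat_lit 473) (nat_lit 5) (nat_lit 497) (nat_lit 5) (nat_lit 498) (nat_lit 5) (nat_lit 456) (nat_lit 442) (nat_lit 302))))) (XT.nd (nat_lit 234) (nat_lit 2964) (nat_lit 0) (XT.nd (nat_lit 78) (nat_lit 1748) (nat_lit 0) (XT.lf (nat_lit 0) (nat_lit 9144717389) (nat_lit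 1824) (nat_lit 5752334125) (nat_lit 1900) (nat_lit 2949675287) (nat_lit 474) (nat_lit 5) (nat_lit 498) (nat_lit 5) (nat_lit 499) (nat_lit 5) (nat_lit 457) (nat_lit 442) (nat_lit 301)) (XT.nd (nat_lit 78) (nat_lit 1748) (nat_lit 0) (XT.lf (nat_lit 76) (nat_lit 8601541406) (nat_lit 0) (nat_lit 2976988771) (nat_lit 1900) (nat_lit 6548925357) (nat_lit 475) (nat_lit 5) (nat_lit 474) (nat_lit 5) (nat_lit 499) (nat_lit 5) (nat_lit 458) (nat_lit 442) (nat_lit 300)) (XT.lf (nat_lit 0) (nat_lit 5043428296) (nat_lit 1824) (nat_lit 9161535256) (nat_lit 1900) (nat_lit 4209251584) (nat_lit 451) (nat_lit 5) (nat_lit 475) (nat_lit 5) (nat_lit 476) (nat_lit 5) (nat_lit 459) (nat_lit 442) (nat_lit 299)))) (XT.nd (nat_lit 156) (nat_lit 1824) (nat_lit 0) (XT.nd (nat_lit 78) (nat_lit 76) (nat_lit 0) (XT.lf (nat_lit 0) (nat_lit 1439403906) (nat_lit 1064) (nat_lit 15572561400) (nat_lit 1140) (nat_lit 1695577810) (nat_lit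 437) (nat_lit 5) (nat_lit 451) (nat_lit 5) (nat_lit 452) (nat_lit 5) (nat_lit 460) (nat_lit 442) (nat_lit 298)) (XT.lf (nat_lit 0) (nat_lit 1022018687) (nat_lit 1140) (nat_lit 2209689665) (nat_lit 76) (nat_lit 15775042985) (nat_lit 436) (nat_lit 5) (nat_lit 451) (nat_lit 5) (nat_lit 437) (nat_lit 5) (nat_lit 461) (nat_lit 442) (nat_lit 297))) (XT.nd (nat_lit 78) (nat_lit 912) (nat_lit 0) (XT.lf (nat_lit 0) (nat_lit 3935918979) (nat_lit 988) (nat_lit 5920531725) (nat_lit 76) (nat_lit 9455505717) (nat_lit 424) (nat_lit 5) (nat_lit 437) (nat_lit 5) (nat_lit 425) (nat_lit 5) (nat_lit 462) (nat_lit 442) (nat_lit 296)) (XT.lf (nat_lit 0) (nat_lit 7046068385) (nat_lit 988) (nat_lit 9680656186) (nat_lit 76) (nat_lit 2897417429) (nat_lit 412) (nat_lit 5) (nat_lit 425) (nat_lit 5) (nat_lit 413) (nat_lit 5) (nat_lit 463) (nat_lit 442) (nat_lit 295))))))) (XT.nd (nat_lit 1014) (nat_lit 6536) (nat_lit 0) (XT.nd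 (nat_lit 468) (nat_lit 4256) (nat_lit 0) (XT.nd (nat_lit 234) (nat_lit 2508) (nat_lit 0) (XT.nd (nat_lit 78) (nat_lit 836) (nat_lit 0) (XT.lf (nat_lit 0) (nat_lit 6426799972) (nat_lit 836) (nat_lit 3959421654) (nat_lit 912) (nat_lit 9556738491) (nat_lit 401) (nat_lit 5) (nat_lit 412) (nat_lit 5) (nat_lit 413) (nat_lit 5) (nat_lit 464) (nat_lit 442) (nat_lit 294)) (XT.nd (nat_lit 78) (nat_lit 0) (nat_lit 0) (XT.lf (nat_lit 0) (nat_lit 2846249736) (nat_lit 836) (nat_lit 11113452020) (nat_lit 912) (nat_lit 6308979503) (nat_lit 390) (nat_lit 5) (nat_lit 401) (nat_lit 5) (nat_lit 402) (nat_lit 5) (nat_lit 465) (nat_lit 442) (nat_lit 293)) (XT.lf (nat_lit 0) (nat_lit 17761099519) (nat_lit 912) (nat_lit 768705152) (nat_lit 76) (nat_lit 2071956003) (nat_lit 390) (nat_lit 5) (nat_lit 402) (nat_lit 5) (nat_lit 391) (nat_lit 5) (nat_lit 466) (nat_lit 442) (nat_lit 292)))) (XT.nd (nat_lit 78) (nat_lit 1596) (nat_lit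 0) (XT.lf (nat_lit 0) (nat_lit 894300685) (nat_lit 912) (nat_lit 4431020885) (nat_lit 76) (nat_lit 15615972935) (nat_lit 378) (nat_lit 5) (nat_lit 390) (nat_lit 5) (nat_lit 379) (nat_lit 5) (nat_lit 467) (nat_lit 442) (nat_lit 291)) (XT.nd (nat_lit 78) (nat_lit 760) (nat_lit 0) (XT.lf (nat_lit 0) (nat_lit 4837817666) (nat_lit 912) (nat_lit 8173163607) (nat_lit 76) (nat_lit 8276956383) (nat_lit 367) (nat_lit 5) (nat_lit 379) (nat_lit 5) (nat_lit 368) (nat_lit 5) (nat_lit 468) (nat_lit 442) (nat_lit 290)) (XT.lf (nat_lit 0) (nat_lit 9022575019) (nat_lit 836) (nat_lit 11963166095) (nat_lit 76) (nat_lit 656781100) (nat_lit 357) (nat_lit 5) (nat_lit 368) (nat_lit 5) (nat_lit 358) (nat_lit 5) (nat_lit 469) (nat_lit 442) (nat_lit 289))))) (XT.nd (nat_lit 234) (nat_lit 2736) (nat_lit 0) (XT.nd (nat_lit 78) (nat_lit 760) (nat_lit 0) (XT.lf (nat_lit 0) (nat_lit 6155375676) (nat_lit 760) (nat_lit 7350350196)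 (nat_lit 836) (nat_lit 8498562205) (nat_lit 347) (nat_lit 5) (nat_lit 357) (nat_lit 5) (nat_lit 358) (nat_lit 5) (nat_lit 470) (nat_lit 442) (nat_lit 288)) (XT.nd (nat_lit 78) (nat_lit 76) (nat_lit 0) (XT.lf (nat_lit 0) (nat_lit 2585165365) (nat_lit 684) (nat_lit 15670395232) (nat_lit 760) (nat_lit 4118703295) (nat_lit 338) (nat_lit 5) (nat_lit 347) (nat_lit 5) (nat_lit 348) (nat_lit 5) (nat_lit 471) (nat_lit 442) (nat_lit 287)) (XT.lf (nat_lit 0) (nat_lit 535155509) (nat_lit 760) (nat_lit 1027033914) (nat_lit 76) (nat_lit 21190144261) (nat_lit 337) (nat_lit 5) (nat_lit 347) (nat_lit 5) (nat_lit 338) (nat_lit 5) (nat_lit 472) (nat_lit 442) (nat_lit 286)))) (XT.nd (nat_lit 156) (nat_lit 1292) (nat_lit 0) (XT.nd (nat_lit 78) (nat_lit 684) (nat_lit 0) (XT.lf (nat_lit 0) (nat_lit 5469065703) (nat_lit 836) (nat_lit 4721464238) (nat_lit 76) (nat_lit 12946743986) (nat_lit 327) (nat_lit 5) (nat_lit 338) (nat_lit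 5) (nat_lit 328) (nat_lit 5) (nat_lit 473) (nat_lit 442) (nat_lit 285)) (XT.lf (nat_lit 0) (nat_lit 10686285339) (nat_lit 760) (nat_lit 8460893589) (nat_lit 76) (nat_lit 4383878293) (nat_lit 318) (nat_lit 5) (nat_lit 328) (nat_lit 5) (nat_lit 319) (nat_lit 5) (nat_lit 474) (nat_lit 442) (nat_lit 284))) (XT.nd (nat_lit 78) (nat_lit 608) (nat_lit 0) (XT.lf (nat_lit 0) (nat_lit 11658361694) (nat_lit 684) (nat_lit 4568858632) (nat_lit 760) (nat_lit 7706090374) (nat_lit 309) (nat_lit 5) (nat_lit 318) (nat_lit 5) (nat_lit 319) (nat_lit 5) (nat_lit 475) (nat_lit 442) (nat_lit 283)) (XT.lf (nat_lit 0) (nat_lit 8179258638) (nat_lit 608) (nat_lit 13925103210) (nat_lit 684) (nat_lit 2239871013) (nat_lit 301) (nat_lit 5) (nat_lit 309) (nat_lit 5) (nat_lit 310) (nat_lit 5) (nat_lit 476) (nat_lit 442) (nat_lit 282)))))) (XT.nd (nat_lit 468) (nat_lit 3268) (nat_lit 0) (XT.nd (nat_lit 234) (nat_lit 1900) (nat_lit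 0) (XT.nd (nat_lit 78) (nat_lit 608) (nat_lit 0) (XT.lf (nat_lit 0) (nat_lit 3489350576) (nat_lit 760) (nat_lit 20125043696) (nat_lit 76) (nat_lit 1149779173) (nat_lit 291) (nat_lit 5) (nat_lit 301) (nat_lit 5) (nat_lit 292) (nat_lit 5) (nat_lit 477) (nat_lit 442) (nat_lit 281)) (XT.nd (nat_lit 78) (nat_lit 0) (nat_lit 0) (XT.lf (nat_lit 0) (nat_lit 987967574) (nat_lit 608) (nat_lit 8573659550) (nat_lit 684) (nat_lit 15630757419) (nat_lit 283) (nat_lit 5) (nat_lit 291) (nat_lit 5) (nat_lit 292) (nat_lit 5) (nat_lit 478) (nat_lit 442) (nat_lit 280)) (XT.lf (nat_lit 0) (nat_lit 15990066270) (nat_lit 684) (nat_lit 2676943354) (nat_lit 76) (nat_lit 6962953042) (nat_lit 283) (nat_lit 5) (nat_lit 292) (nat_lit 5) (nat_lit 284) (nat_lit 5) (nat_lit 479) (nat_lit 442) (nat_lit 279)))) (XT.nd (nat_lit 78) (nat_lit 1292) (nat_lit 0) (XT.lf (nat_lit 0) (nat_lit 19687267751) (nat_lit 608) (nat_lit 3101287693)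 (nat_lit 684) (nat_lit 3288569314) (nat_lit 275) (nat_lit 5) (nat_lit 283) (nat_lit 5) (nat_lit 284) (nat_lit 5) (nat_lit 480) (nat_lit 442) (nat_lit 278)) (XT.nd (nat_lit 78) (nat_lit 608) (nat_lit 0) (XT.lf (nat_lit 0) (nat_lit 3412473386) (nat_lit 684) (nat_lit 10214119434) (nat_lit 76) (nat_lit 12906650109) (nat_lit 266) (nat_lit 5) (nat_lit 275) (nat_lit 5) (nat_lit 267) (nat_lit 5) (nat_lit 481) (nat_lit 442) (nat_lit 277)) (XT.lf (nat_lit 0) (nat_lit 10426818130) (nat_lit 684) (nat_lit 14104934653) (nat_lit 76) (nat_lit 2467718641) (nat_lit 258) (nat_lit 5) (nat_lit 267) (nat_lit 5) (nat_lit 259) (nat_lit 5) (nat_lit 482) (nat_lit 442) (nat_lit 276))))) (XT.nd (nat_lit 234) (nat_lit 1596) (nat_lit 0) (XT.nd (nat_lit 78) (nat_lit 1140) (nat_lit 0) (XT.lf (nat_lit 0) (nat_lit 9379538334) (nat_lit 532) (nat_lit 8486205752) (nat_lit 608) (nat_lit 9609660175) (nat_lit 251) (nat_lit 5) (nat_lit 258)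 (nat_lit 5) (nat_lit 259) (nat_lit 5) (nat_lit 483) (nat_lit 442) (nat_lit 275)) (XT.nd (nat_lit 78) (nat_lit 608) (nat_lit 0) (XT.lf (nat_lit 0) (nat_lit 5811465736) (nat_lit 532) (nat_lit 19895117123) (nat_lit 608) (nat_lit 2255457812) (nat_lit 244) (nat_lit 5) (nat_lit 251) (nat_lit 5) (nat_lit 252) (nat_lit 5) (nat_lit 484) (nat_lit 442) (nat_lit 274)) (XT.lf (nat_lit 0) (nat_lit 2149215332) (nat_lit 532) (nat_lit 3287230800) (nat_lit 608) (nat_lit 23022402969) (nat_lit 236) (nat_lit 5) (nat_lit 243) (nat_lit 5) (nat_lit 244) (nat_lit 5) (nat_lit 485) (nat_lit 442) (nat_lit 273)))) (XT.nd (nat_lit 156) (nat_lit 1064) (nat_lit 0) (XT.nd (nat_lit 78) (nat_lit 532) (nat_lit 0) (XT.lf (nat_lit 0) (nat_lit 13562287586) (nat_lit 608) (nat_lit 1601892455) (nat_lit 76) (nat_lit 13801407561) (nat_lit 236) (nat_lit 5) (nat_lit 244) (nat_lit 5) (nat_lit 237) (nat_lit 5) (nat_lit 486) (nat_lit 442) (nat_lit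 272)) (XT.lf (nat_lit 0) (nat_lit 22116782457) (nat_lit 608) (nat_lit 5365120103) (nat_lit 76) (nat_lit 2001928572) (nat_lit 229) (nat_lit 5) (nat_lit 237) (nat_lit 5) (nat_lit 230) (nat_lit 5) (nat_lit 487) (nat_lit 442) (nat_lit 271))) (XT.nd (nat_lit 78) (nat_lit 532) (nat_lit 0) (XT.lf (nat_lit 0) (nat_lit 1140346739) (nat_lit 532) (nat_lit 9243266252) (nat_lit 76) (nat_lit 19629051288) (nat_lit 222) (nat_lit 5) (nat_lit 229) (nat_lit 5) (nat_lit 223) (nat_lit 5) (nat_lit 488) (nat_lit 442) (nat_lit 270)) (XT.lf (nat_lit 0) (nat_lit 9994331677) (nat_lit 608) (nat_lit 13227996836) (nat_lit 76) (nat_lit 7330231251) (nat_lit 215) (nat_lit 5) (nat_lit 223) (nat_lit 5) (nat_lit 216) (nat_lit 5) (nat_lit 489) (nat_lit 442) (nat_lit 269))))))))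
noncomputable def xc102 : XT := (XT.nd (nat_lit 60138) (nat_lit 0) (nat_lit 5928) (XT.nd (nat_lit 59124) (nat_lit 0) (nat_lit 22572) (XT.nd (nat_lit 468) (nat_lit 836) (nat_lit 0) (XT.nd (nat_lit 234) (nat_lit 912) (nat_lit 0) (XT.nd (nat_lit 78) (nat_lit 988) (nat_lit 0) (XT.lf (nat_lit 0) (nat_lit 13810504981) (nat_lit 456) (nat_lit 5518970425) (nat_lit 532) (nat_lit 11774866315) (nat_lit 209) (nat_lit 5) (nat_lit 215) (nat_lit 5) (nat_lit 216) (nat_lit 5) (nat_lit 490) (nat_lit 442) (nat_lit 268)) (XT.nd (nat_lit 78) (nat_lit 532) (nat_lit 0) (XT.lf (nat_lit 0) (nat_lit 10211843536) (nat_lit 456) (nat_lit 18965418239) (nat_lit 532) (nat_lit 2490763978) (nat_lit 203) (nat_lit 5) (nat_lit 209) (nat_lit 5) (nat_lit 210) (nat_lit 5) (nat_lit 491) (nat_lit 442) (nat_lit 267)) (XT.lf (nat_lit 0) (nat_lit 6525912839) (nat_lit 456) (nat_lit 644028503) (nat_lit 532) (nat_lit 25073944452) (nat_lit 196) (nat_lit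 5) (nat_lit 202) (nat_lit 5) (nat_lit 203) (nat_lit 5) (nat_lit 492) (nat_lit 442) (nat_lit 266)))) (XT.nd (nat_lit 78) (nat_lit 456) (nat_lit 0) (XT.lf (nat_lit 0) (nat_lit 2697293005) (nat_lit 456) (nat_lit 14665434774) (nat_lit 532) (nat_lit 15468442937) (nat_lit 190) (nat_lit 5) (nat_lit 196) (nat_lit 5) (nat_lit 197) (nat_lit 5) (nat_lit 493) (nat_lit 442) (nat_lit 265)) (XT.nd (nat_lit 78) (nat_lit 456) (nat_lit 0) (XT.lf (nat_lit 0) (nat_lit 28061393749) (nat_lit 532) (nat_lit 1156690945) (nat_lit 76) (nat_lit 4213987916) (nat_lit 190) (nat_lit 5) (nat_lit 197) (nat_lit 5) (nat_lit 191) (nat_lit 5) (nat_lit 494) (nat_lit 442) (nat_lit 264)) (XT.lf (nat_lit 0) (nat_lit 5246005377) (nat_lit 456) (nat_lit 5117188812) (nat_lit 76) (nat_lit 23681515398) (nat_lit 184) (nat_lit 5) (nat_lit 190) (nat_lit 5) (nat_lit 185) (nat_lit 5) (nat_lit 495) (nat_lit 442) (nat_lit 263))))) (XT.nd (nat_lit 58422)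 (nat_lit 0) (nat_lit 23940) (XT.nd (nat_lit 78) (nat_lit 380) (nat_lit 0) (XT.lf (nat_lit 0) (nat_lit 16336621402) (nat_lit 532) (nat_lit 9187048147) (nat_lit 76) (nat_lit 9146778482) (nat_lit 178) (nat_lit 5) (nat_lit 185) (nat_lit 5) (nat_lit 179) (nat_lit 5) (nat_lit 496) (nat_lit 442) (nat_lit 262)) (XT.nd (nat_lit 58266) (nat_lit 0) (nat_lit 23940) (XT.lf (nat_lit 0) (nat_lit 21967606975) (nat_lit 380) (nat_lit 6033346105) (nat_lit 456) (nat_lit 7309185914) (nat_lit 173) (nat_lit 5) (nat_lit 178) (nat_lit 5) (nat_lit 179) (nat_lit 5) (nat_lit 497) (nat_lit 442) (nat_lit 261)) (XT.lf (nat_lit 0) (nat_lit 1483908428) (nat_lit 0) (nat_lit 1483908428) (nat_lit 1748) (nat_lit 4378115936) (nat_lit 488) (nat_lit 5) (nat_lit 488) (nat_lit 3) (nat_lit 511) (nat_lit 3) (nat_lit 443) (nat_lit 443) (nat_lit 314)))) (XT.nd (nat_lit 78) (nat_lit 0) (nat_lit 76) (XT.lf (nat_lit 0) (nat_lit 6537727007) (nat_lit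 1748) (nat_lit 884594832) (nat_lit 1824) (nat_lit 7479617137) (nat_lit 488) (nat_lit 5) (nat_lit 511) (nat_lit 3) (nat_lit 512) (nat_lit 5) (nat_lit 444) (nat_lit 443) (nat_lit 313)) (XT.nd (nat_lit 78) (nat_lit 0) (nat_lit 0) (XT.lf (nat_lit 0) (nat_lit 7247640802) (nat_lit 1748) (nat_lit 4750498738) (nat_lit 1824) (nat_lit 3118381569) (nat_lit 489) (nat_lit 5) (nat_lit 512) (nat_lit 5) (nat_lit 513) (nat_lit 5) (nat_lit 445) (nat_lit 443) (nat_lit 312)) (XT.lf (nat_lit 76) (nat_lit 6656747066) (nat_lit 0) (nat_lit 1403469940) (nat_lit 1824) (nat_lit 7275698046) (nat_lit 490) (nat_lit 5) (nat_lit 489) (nat_lit 5) (nat_lit 513) (nat_lit 5) (nat_lit 446) (nat_lit 443) (nat_lit 311)))))) (XT.nd (nat_lit 468) (nat_lit 1520) (nat_lit 0) (XT.nd (nat_lit 234) (nat_lit 0) (nat_lit 152) (XT.nd (nat_lit 78) (nat_lit 0) (nat_lit 76) (XT.lf (nat_lit 76) (nat_lit 2875792044) (nat_lit 0) (nat_lit 6117164754) (nat_lit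 1824) (nat_lit 6567019885) (nat_lit 491) (nat_lit 5) (nat_lit 490) (nat_lit 5) (nat_lit 514) (nat_lit 5) (nat_lit 447) (nat_lit 443) (nat_lit 310)) (XT.nd (nat_lit 78) (nat_lit 0) (nat_lit 76) (XT.lf (nat_lit 0) (nat_lit 10036849620) (nat_lit 1748) (nat_lit 944468221) (nat_lit 1824) (nat_lit 4807780457) (nat_lit 491) (nat_lit 5) (nat_lit 514) (nat_lit 5) (nat_lit 515) (nat_lit 5) (nat_lit 448) (nat_lit 443) (nat_lit 309)) (XT.lf (nat_lit 0) (nat_lit 11210124121) (nat_lit 1748) (nat_lit 4779240929) (nat_lit 1824) (nat_lit 33768717) (nat_lit 492) (nat_lit 5) (nat_lit 515) (nat_lit 5) (nat_lit 516) (nat_lit 5) (nat_lit 449) (nat_lit 443) (nat_lit 308)))) (XT.nd (nat_lit 78) (nat_lit 0) (nat_lit 76) (XT.lf (nat_lit 76) (nat_lit 7562399612) (nat_lit 0) (nat_lit 4969550491) (nat_lit 1824) (nat_lit 3729974596) (nat_lit 493) (nat_lit 5) (nat_lit 492) (nat_lit 5) (nat_lit 516) (nat_lit 5) (nat_lit 450) (nat_lit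 443) (nat_lit 307)) (XT.nd (nat_lit 78) (nat_lit 0) (nat_lit 76) (XT.lf (nat_lit 76) (nat_lit 3830824421) (nat_lit 0) (nat_lit 10146306738) (nat_lit 1824) (nat_lit 2529075612) (nat_lit 494) (nat_lit 5) (nat_lit 493) (nat_lit 5) (nat_lit 517) (nat_lit 5) (nat_lit 451) (nat_lit 443) (nat_lit 306)) (XT.lf (nat_lit 76) (nat_lit 48522418) (nat_lit 0) (nat_lit 15502845418) (nat_lit 1824) (nat_lit 1204736843) (nat_lit 495) (nat_lit 5) (nat_lit 494) (nat_lit 5) (nat_lit 518) (nat_lit 5) (nat_lit 452) (nat_lit 443) (nat_lit 305))))) (XT.nd (nat_lit 234) (nat_lit 0) (nat_lit 152) (XT.nd (nat_lit 78) (nat_lit 0) (nat_lit 76) (XT.lf (nat_lit 0) (nat_lit 297031149) (nat_lit 1824) (nat_lit 3764029602) (nat_lit 1900) (nat_lit 12949623620) (nat_lit 470) (nat_lit 5) (nat_lit 494) (nat_lit 5) (nat_lit 495) (nat_lit 5) (nat_lit 453) (nat_lit 443) (nat_lit 304)) (XT.nd (nat_lit 78) (nat_lit 0) (nat_lit 76) (XT.lf (nat_lit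 0) (nat_lit 1926946499) (nat_lit 1824) (nat_lit 7645863475) (nat_lit 1900) (nat_lit 7697944249) (nat_lit 471) (nat_lit 5) (nat_lit 495) (nat_lit 5) (nat_lit 496) (nat_lit 5) (nat_lit 454) (nat_lit 443) (nat_lit 303)) (XT.lf (nat_lit 0) (nat_lit 3698461350) (nat_lit 1824) (nat_lit 11582333006) (nat_lit 1900) (nat_lit 2255979009) (nat_lit 472) (nat_lit 5) (nat_lit 496) (nat_lit 5) (nat_lit 497) (nat_lit 5) (nat_lit 455) (nat_lit 443) (nat_lit 302)))) (XT.nd (nat_lit 156) (nat_lit 0) (nat_lit 152) (XT.nd (nat_lit 78) (nat_lit 0) (nat_lit 76) (XT.lf (nat_lit 76) (nat_lit 2211928232) (nat_lit 0) (nat_lit 3428350293) (nat_lit 1900) (nat_lit 12168152618) (nat_lit 473) (nat_lit 5) (nat_lit 472) (nat_lit 5) (nat_lit 497) (nat_lit 5) (nat_lit 456) (nat_lit 443) (nat_lit 301)) (XT.lf (nat_lit 0) (nat_lit 7763324550) (nat_lit 1824) (nat_lit 1576141046) (nat_lit 1900) (nat_lit 8746314739) (nat_lit 473) (nat_lit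 5) (nat_lit 497) (nat_lit 5) (nat_lit 498) (nat_lit 5) (nat_lit 457) (nat_lit 443) (nat_lit 300))) (XT.nd (nat_lit 78) (nat_lit 0) (nat_lit 0) (XT.lf (nat_lit 0) (nat_lit 10063955095) (nat_lit 1824) (nat_lit 5386528830) (nat_lit 1900) (nat_lit 2918689344) (nat_lit 474) (nat_lit 5) (nat_lit 498) (nat_lit 5) (nat_lit 499) (nat_lit 5) (nat_lit 458) (nat_lit 443) (nat_lit 299)) (XT.lf (nat_lit 76) (nat_lit 9389228468) (nat_lit 0) (nat_lit 3166209195) (nat_lit 1900) (nat_lit 6103194765) (nat_lit 475) (nat_lit 5) (nat_lit 474) (nat_lit 5) (nat_lit 499) (nat_lit 5) (nat_lit 459) (nat_lit 443) (nat_lit 298))))))) (XT.nd (nat_lit 936) (nat_lit 7296) (nat_lit 0) (XT.nd (nat_lit 468) (nat_lit 4104) (nat_lit 0) (XT.nd (nat_lit 234) (nat_lit 2660) (nat_lit 0) (XT.nd (nat_lit 78) (nat_lit 1140) (nat_lit 0) (XT.lf (nat_lit 0) (nat_lit 5728858928) (nat_lit 1824) (nat_lit 9516306775) (nat_lit 1900) (nat_lit 3709140704)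 (nat_lit 451) (nat_lit 5) (nat_lit 475) (nat_lit 5) (nat_lit 476) (nat_lit 5) (nat_lit 460) (nat_lit 443) (nat_lit 297)) (XT.nd (nat_lit 78) (nat_lit 76) (nat_lit 0) (XT.lf (nat_lit 0) (nat_lit 2020693788) (nat_lit 1064) (nat_lit 16100788615) (nat_lit 1140) (nat_lit 1135251303) (nat_lit 437) (nat_lit 5) (nat_lit 451) (nat_lit 5) (nat_lit 452) (nat_lit 5) (nat_lit 461) (nat_lit 443) (nat_lit 296)) (XT.lf (nat_lit 0) (nat_lit 1638288883) (nat_lit 1140) (nat_lit 1745713178) (nat_lit 76) (nat_lit 16181189613) (nat_lit 436) (nat_lit 5) (nat_lit 451) (nat_lit 5) (nat_lit 437) (nat_lit 5) (nat_lit 462) (nat_lit 443) (nat_lit 295)))) (XT.nd (nat_lit 78) (nat_lit 1748) (nat_lit 0) (XT.lf (nat_lit 0) (nat_lit 4625610158) (nat_lit 988) (nat_lit 5564669676) (nat_lit 76) (nat_lit 9689554453) (nat_lit 424) (nat_lit 5) (nat_lit 437) (nat_lit 5) (nat_lit 425) (nat_lit 5) (nat_lit 463) (nat_lit 443) (nat_lit 294))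 (XT.nd (nat_lit 78) (nat_lit 836) (nat_lit 0) (XT.lf (nat_lit 0) (nat_lit 7815604782) (nat_lit 988) (nat_lit 9434820510) (nat_lit 76) (nat_lit 2951230741) (nat_lit 412) (nat_lit 5) (nat_lit 425) (nat_lit 5) (nat_lit 413) (nat_lit 5) (nat_lit 464) (nat_lit 443) (nat_lit 293)) (XT.lf (nat_lit 0) (nat_lit 7147159226) (nat_lit 836) (nat_lit 4095971709) (nat_lit 912) (nat_lit 9287165764) (nat_lit 401) (nat_lit 5) (nat_lit 412) (nat_lit 5) (nat_lit 413) (nat_lit 5) (nat_lit 465) (nat_lit 443) (nat_lit 292))))) (XT.nd (nat_lit 234) (nat_lit 2356) (nat_lit 0) (XT.nd (nat_lit 78) (nat_lit 912) (nat_lit 0) (XT.lf (nat_lit 0) (nat_lit 3461521546) (nat_lit 836) (nat_lit 11449739102) (nat_lit 912) (nat_lit 5954781258) (nat_lit 390) (nat_lit 5) (nat_lit 401) (nat_lit 5) (nat_lit 402) (nat_lit 5) (nat_lit 466) (nat_lit 443) (nat_lit 291)) (XT.nd (nat_lit 78) (nat_lit 912) (nat_lit 0) (XT.lf (nat_lit 0) (nat_lit 18811164657)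 (nat_lit 912) (nat_lit 266909189) (nat_lit 76) (nat_lit 2131351864) (nat_lit 390) (nat_lit 5) (nat_lit 402) (nat_lit 5) (nat_lit 391) (nat_lit 5) (nat_lit 467) (nat_lit 443) (nat_lit 290)) (XT.lf (nat_lit 0) (nat_lit 1430038425) (nat_lit 912) (nat_lit 4040805386) (nat_lit 76) (nat_lit 16088470294) (nat_lit 378) (nat_lit 5) (nat_lit 390) (nat_lit 5) (nat_lit 379) (nat_lit 5) (nat_lit 468) (nat_lit 443) (nat_lit 289)))) (XT.nd (nat_lit 78) (nat_lit 1520) (nat_lit 0) (XT.lf (nat_lit 0) (nat_lit 5480491712) (nat_lit 912) (nat_lit 7893823271) (nat_lit 76) (nat_lit 8542270147) (nat_lit 367) (nat_lit 5) (nat_lit 379) (nat_lit 5) (nat_lit 368) (nat_lit 5) (nat_lit 469) (nat_lit 443) (nat_lit 288)) (XT.nd (nat_lit 78) (nat_lit 760) (nat_lit 0) (XT.lf (nat_lit 0) (nat_lit 9779843078) (nat_lit 836) (nat_lit 11796461478) (nat_lit 76) (nat_lit 705722803) (nat_lit 357) (nat_lit 5) (nat_lit 368) (nat_lit 5) (nat_lit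 358) (nat_lit 5) (nat_lit 470) (nat_lit 443) (nat_lit 287)) (XT.lf (nat_lit 0) (nat_lit 6857109318) (nat_lit 760) (nat_lit 7529563769) (nat_lit 836) (nat_lit 8268190546) (nat_lit 347) (nat_lit 5) (nat_lit 357) (nat_lit 5) (nat_lit 358) (nat_lit 5) (nat_lit 471) (nat_lit 443) (nat_lit 286)))))) (XT.nd (nat_lit 468) (nat_lit 3800) (nat_lit 0) (XT.nd (nat_lit 234) (nat_lit 1976) (nat_lit 0) (XT.nd (nat_lit 78) (nat_lit 836) (nat_lit 0) (XT.lf (nat_lit 0) (nat_lit 3180538134) (nat_lit 684) (nat_lit 16088229516) (nat_lit 760) (nat_lit 3767376871) (nat_lit 338) (nat_lit 5) (nat_lit 347) (nat_lit 5) (nat_lit 348) (nat_lit 5) (nat_lit 472) (nat_lit 443) (nat_lit 285)) (XT.nd (nat_lit 78) (nat_lit 760) (nat_lit 0) (XT.lf (nat_lit 0) (nat_lit 1006219192) (nat_lit 760) (nat_lit 549027638) (nat_lit 76) (nat_lit 21870521957) (nat_lit 337) (nat_lit 5) (nat_lit 347) (nat_lit 5) (nat_lit 338) (nat_lit 5) (nat_lit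 473) (nat_lit 443) (nat_lit 284)) (XT.lf (nat_lit 0) (nat_lit 6078504691) (nat_lit 836) (nat_lit 4353972694) (nat_lit 76) (nat_lit 13389973705) (nat_lit 327) (nat_lit 5) (nat_lit 338) (nat_lit 5) (nat_lit 328) (nat_lit 5) (nat_lit 474) (nat_lit 443) (nat_lit 283)))) (XT.nd (nat_lit 78) (nat_lit 1292) (nat_lit 0) (XT.lf (nat_lit 0) (nat_lit 11442944580) (nat_lit 760) (nat_lit 8205522872) (nat_lit 76) (nat_lit 4579767338) (nat_lit 318) (nat_lit 5) (nat_lit 328) (nat_lit 5) (nat_lit 319) (nat_lit 5) (nat_lit 475) (nat_lit 443) (nat_lit 282)) (XT.nd (nat_lit 78) (nat_lit 608) (nat_lit 0) (XT.lf (nat_lit 0) (nat_lit 12509048945) (nat_lit 684) (nat_lit 4631609997) (nat_lit 760) (nat_lit 7502086861) (nat_lit 309) (nat_lit 5) (nat_lit 318) (nat_lit 5) (nat_lit 319) (nat_lit 5) (nat_lit 476) (nat_lit 443) (nat_lit 281)) (XT.lf (nat_lit 0) (nat_lit 8925396304) (nat_lit 608) (nat_lit 14260012232) (nat_lit 684)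 (nat_lit 1880762141) (nat_lit 301) (nat_lit 5) (nat_lit 309) (nat_lit 5) (nat_lit 310) (nat_lit 5) (nat_lit 477) (nat_lit 443) (nat_lit 280))))) (XT.nd (nat_lit 234) (nat_lit 2432) (nat_lit 0) (XT.nd (nat_lit 78) (nat_lit 608) (nat_lit 0) (XT.lf (nat_lit 0) (nat_lit 4006287076) (nat_lit 760) (nat_lit 20222927388) (nat_lit 76) (nat_lit 1269609696) (nat_lit 291) (nat_lit 5) (nat_lit 301) (nat_lit 5) (nat_lit 292) (nat_lit 5) (nat_lit 478) (nat_lit 443) (nat_lit 279)) (XT.nd (nat_lit 78) (nat_lit 0) (nat_lit 0) (XT.lf (nat_lit 0) (nat_lit 1515267119) (nat_lit 608) (nat_lit 8736688488) (nat_lit 684) (nat_lit 15688102366) (nat_lit 283) (nat_lit 5) (nat_lit 291) (nat_lit 5) (nat_lit 292) (nat_lit 5) (nat_lit 479) (nat_lit 443) (nat_lit 278)) (XT.lf (nat_lit 0) (nat_lit 16862089767) (nat_lit 684) (nat_lit 2266817540) (nat_lit 76) (nat_lit 7262080128) (nat_lit 283) (nat_lit 5) (nat_lit 292) (nat_lit 5) (nat_lit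 284) (nat_lit 5) (nat_lit 480) (nat_lit 443) (nat_lit 277)))) (XT.nd (nat_lit 156) (nat_lit 1140) (nat_lit 0) (XT.nd (nat_lit 78) (nat_lit 684) (nat_lit 0) (XT.lf (nat_lit 0) (nat_lit 20760363187) (nat_lit 608) (nat_lit 3095876152) (nat_lit 684) (nat_lit 2995491742) (nat_lit 275) (nat_lit 5) (nat_lit 283) (nat_lit 5) (nat_lit 284) (nat_lit 5) (nat_lit 481) (nat_lit 443) (nat_lit 276)) (XT.lf (nat_lit 0) (nat_lit 3893956755) (nat_lit 684) (nat_lit 10033875950) (nat_lit 76) (nat_lit 13393799747) (nat_lit 266) (nat_lit 5) (nat_lit 275) (nat_lit 5) (nat_lit 267) (nat_lit 5) (nat_lit 482) (nat_lit 443) (nat_lit 275))) (XT.nd (nat_lit 78) (nat_lit 532) (nat_lit 0) (XT.lf (nat_lit 0) (nat_lit 11111496912) (nat_lit 684) (nat_lit 14042561455) (nat_lit 76) (nat_lit 2647934879) (nat_lit 258) (nat_lit 5) (nat_lit 267) (nat_lit 5) (nat_lit 259) (nat_lit 5) (nat_lit 483) (nat_lit 443) (nat_lit 274)) (XT.lf (nat_lit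 0) (nat_lit 10138568717) (nat_lit 532) (nat_lit 8627291825) (nat_lit 608) (nat_lit 9526498851) (nat_lit 251) (nat_lit 5) (nat_lit 258) (nat_lit 5) (nat_lit 259) (nat_lit 5) (nat_lit 484) (nat_lit 443) (nat_lit 273))))))))
noncomputable def xc103 : XT := (XT.nd (nat_lit 60216) (nat_lit 0) (nat_lit 7980) (XT.nd (nat_lit 936) (nat_lit 456) (nat_lit 0) (XT.nd (nat_lit 468) (nat_lit 2356) (nat_lit 0) (XT.nd (nat_lit 234) (nat_lit 1596) (nat_lit 0) (XT.nd (nat_lit 78) (nat_lit 608) (nat_lit 0) (XT.lf (nat_lit 0) (nat_lit 6462168216) (nat_lit 532) (nat_lit 20372958412) (nat_lit 608) (nat_lit 1958604927) (nat_lit 244) (nat_lit 5) (nat_lit 251) (nat_lit 5) (nat_lit 252) (nat_lit 5) (nat_lit 485) (nat_lit 443) (nat_lit 272)) (XT.nd (nat_lit 78) (nat_lit 0) (nat_lit 0) (XT.lf (nat_lit 0) (nat_lit 2687047668) (nat_lit 532) (nat_lit 3264823361) (nat_lit 608) (nat_lit 23353674632) (nat_lit 236) (nat_lit 5) (nat_lit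 243) (nat_lit 5) (nat_lit 244) (nat_lit 5) (nat_lit 486) (nat_lit 443) (nat_lit 271)) (XT.lf (nat_lit 0) (nat_lit 14311988528) (nat_lit 608) (nat_lit 1184280279) (nat_lit 76) (nat_lit 14331408144) (nat_lit 236) (nat_lit 5) (nat_lit 244) (nat_lit 5) (nat_lit 237) (nat_lit 5) (nat_lit 487) (nat_lit 443) (nat_lit 270)))) (XT.nd (nat_lit 78) (nat_lit 1064) (nat_lit 0) (XT.lf (nat_lit 0) (nat_lit 23116901223) (nat_lit 608) (nat_lit 5062016258) (nat_lit 76) (nat_lit 2182675276) (nat_lit 229) (nat_lit 5) (nat_lit 237) (nat_lit 5) (nat_lit 230) (nat_lit 5) (nat_lit 488) (nat_lit 443) (nat_lit 269)) (XT.nd (nat_lit 78) (nat_lit 532) (nat_lit 0) (XT.lf (nat_lit 0) (nat_lit 1506536257) (nat_lit 532) (nat_lit 9059603752) (nat_lit 76) (nat_lit 20340244624) (nat_lit 222) (nat_lit 5) (nat_lit 229) (nat_lit 5) (nat_lit 223) (nat_lit 5) (nat_lit 489) (nat_lit 443) (nat_lit 268)) (XT.lf (nat_lit 0) (nat_lit 10620248295)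 (nat_lit 608) (nat_lit 13165662837) (nat_lit 76) (nat_lit 7676684282) (nat_lit 215) (nat_lit 5) (nat_lit 223) (nat_lit 5) (nat_lit 216) (nat_lit 5) (nat_lit 490) (nat_lit 443) (nat_lit 267))))) (XT.nd (nat_lit 234) (nat_lit 912) (nat_lit 0) (XT.nd (nat_lit 78) (nat_lit 988) (nat_lit 0) (XT.lf (nat_lit 0) (nat_lit 14676544483) (nat_lit 456) (nat_lit 5552337076) (nat_lit 532) (nat_lit 11802181131) (nat_lit 209) (nat_lit 5) (nat_lit 215) (nat_lit 5) (nat_lit 216) (nat_lit 5) (nat_lit 491) (nat_lit 443) (nat_lit 266)) (XT.nd (nat_lit 78) (nat_lit 532) (nat_lit 0) (XT.lf (nat_lit 0) (nat_lit 10968055383) (nat_lit 456) (nat_lit 19398493787) (nat_lit 532) (nat_lit 2245219670) (nat_lit 203) (nat_lit 5) (nat_lit 209) (nat_lit 5) (nat_lit 210) (nat_lit 5) (nat_lit 492) (nat_lit 443) (nat_lit 265)) (XT.lf (nat_lit 0) (nat_lit 7168398239) (nat_lit 456) (nat_lit 526402702) (nat_lit 532) (nat_lit 25510188785) (nat_lit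 196) (nat_lit 5) (nat_lit 202) (nat_lit 5) (nat_lit 203) (nat_lit 5) (nat_lit 493) (nat_lit 443) (nat_lit 264)))) (XT.nd (nat_lit 78) (nat_lit 456) (nat_lit 0) (XT.lf (nat_lit 0) (nat_lit 3222909629) (nat_lit 456) (nat_lit 14965189691) (nat_lit 532) (nat_lit 15621899816) (nat_lit 190) (nat_lit 5) (nat_lit 196) (nat_lit 5) (nat_lit 197) (nat_lit 5) (nat_lit 494) (nat_lit 443) (nat_lit 263)) (XT.nd (nat_lit 78) (nat_lit 456) (nat_lit 0) (XT.lf (nat_lit 0) (nat_lit 29199740447) (nat_lit 532) (nat_lit 754601177) (nat_lit 76) (nat_lit 4474746652) (nat_lit 190) (nat_lit 5) (nat_lit 197) (nat_lit 5) (nat_lit 191) (nat_lit 5) (nat_lit 495) (nat_lit 443) (nat_lit 262)) (XT.lf (nat_lit 0) (nat_lit 5695984903) (nat_lit 456) (nat_lit 4837096271) (nat_lit 76) (nat_lit 24527102089) (nat_lit 184) (nat_lit 5) (nat_lit 190) (nat_lit 5) (nat_lit 185) (nat_lit 5) (nat_lit 496) (nat_lit 443) (nat_lit 261)))))) (XT.nd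 (nat_lit 58734) (nat_lit 0) (nat_lit 22192) (XT.nd (nat_lit 58500) (nat_lit 0) (nat_lit 23636) (XT.nd (nat_lit 58344) (nat_lit 0) (nat_lit 23560) (XT.lf (nat_lit 0) (nat_lit 17114473894) (nat_lit 532) (nat_lit 9031241261) (nat_lit 76) (nat_lit 9559076072) (nat_lit 178) (nat_lit 5) (nat_lit 185) (nat_lit 5) (nat_lit 179) (nat_lit 5) (nat_lit 497) (nat_lit 443) (nat_lit 260)) (XT.nd (nat_lit 78) (nat_lit 0) (nat_lit 0) (XT.lf (nat_lit 0) (nat_lit 1758121662) (nat_lit 0) (nat_lit 1758121662) (nat_lit 1748) (nat_lit 4040836612) (nat_lit 488) (nat_lit 5) (nat_lit 488) (nat_lit 3) (nat_lit 511) (nat_lit 3) (nat_lit 444) (nat_lit 444) (nat_lit 312)) (XT.lf (nat_lit 0) (nat_lit 7622986244) (nat_lit 1748) (nat_lit 444301299) (nat_lit 1824) (nat_lit 7263843559) (nat_lit 488) (nat_lit 5) (nat_lit 511) (nat_lit 3) (nat_lit 512) (nat_lit 5) (nat_lit 445) (nat_lit 444) (nat_lit 311)))) (XT.nd (nat_lit 78) (nat_lit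 0) (nat_lit 0) (XT.lf (nat_lit 0) (nat_lit 8328640122) (nat_lit 1748) (nat_lit 4413708577) (nat_lit 1824) (nat_lit 2810315578) (nat_lit 489) (nat_lit 5) (nat_lit 512) (nat_lit 5) (nat_lit 513) (nat_lit 5) (nat_lit 446) (nat_lit 444) (nat_lit 310)) (XT.nd (nat_lit 78) (nat_lit 0) (nat_lit 76) (XT.lf (nat_lit 76) (nat_lit 7327978445) (nat_lit 0) (nat_lit 1815524119) (nat_lit 1824) (nat_lit 6635581656) (nat_lit 490) (nat_lit 5) (nat_lit 489) (nat_lit 5) (nat_lit 513) (nat_lit 5) (nat_lit 447) (nat_lit 444) (nat_lit 309)) (XT.lf (nat_lit 76) (nat_lit 3444941733) (nat_lit 0) (nat_lit 6635576867) (nat_lit 1824) (nat_lit 5929825510) (nat_lit 491) (nat_lit 5) (nat_lit 490) (nat_lit 5) (nat_lit 514) (nat_lit 5) (nat_lit 448) (nat_lit 444) (nat_lit 308))))) (XT.nd (nat_lit 234) (nat_lit 1596) (nat_lit 0) (XT.nd (nat_lit 78) (nat_lit 0) (nat_lit 0) (XT.lf (nat_lit 0) (nat_lit 11129798530) (nat_lit 1748) (nat_lit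 485926369) (nat_lit 1824) (nat_lit 4631135294) (nat_lit 491) (nat_lit 5) (nat_lit 514) (nat_lit 5) (nat_lit 515) (nat_lit 5) (nat_lit 449) (nat_lit 444) (nat_lit 307)) (XT.nd (nat_lit 78) (nat_lit 0) (nat_lit 76) (XT.lf (nat_lit 76) (nat_lit 12060419943) (nat_lit 0) (nat_lit 257668931) (nat_lit 1824) (nat_lit 4170233662) (nat_lit 492) (nat_lit 5) (nat_lit 491) (nat_lit 5) (nat_lit 515) (nat_lit 5) (nat_lit 450) (nat_lit 444) (nat_lit 306)) (XT.lf (nat_lit 76) (nat_lit 8277606808) (nat_lit 0) (nat_lit 5381033629) (nat_lit 1824) (nat_lit 3076057440) (nat_lit 493) (nat_lit 5) (nat_lit 492) (nat_lit 5) (nat_lit 516) (nat_lit 5) (nat_lit 451) (nat_lit 444) (nat_lit 305)))) (XT.nd (nat_lit 156) (nat_lit 1748) (nat_lit 0) (XT.nd (nat_lit 78) (nat_lit 0) (nat_lit 76) (XT.lf (nat_lit 76) (nat_lit 4442677548) (nat_lit 0) (nat_lit 10684205758) (nat_lit 1824) (nat_lit 1859833014) (nat_lit 494) (nat_lit 5) (nat_lit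 493) (nat_lit 5) (nat_lit 517) (nat_lit 5) (nat_lit 452) (nat_lit 444) (nat_lit 304)) (XT.lf (nat_lit 76) (nat_lit 554774459) (nat_lit 0) (nat_lit 16174103256) (nat_lit 1824) (nat_lit 515624816) (nat_lit 495) (nat_lit 5) (nat_lit 494) (nat_lit 5) (nat_lit 518) (nat_lit 5) (nat_lit 453) (nat_lit 444) (nat_lit 303))) (XT.nd (nat_lit 78) (nat_lit 0) (nat_lit 76) (XT.lf (nat_lit 0) (nat_lit 1000837514) (nat_lit 1824) (nat_lit 3377559397) (nat_lit 1900) (nat_lit 13128647346) (nat_lit 470) (nat_lit 5) (nat_lit 494) (nat_lit 5) (nat_lit 495) (nat_lit 5) (nat_lit 454) (nat_lit 444) (nat_lit 302)) (XT.lf (nat_lit 0) (nat_lit 2661389178) (nat_lit 1824) (nat_lit 7369121244) (nat_lit 1900) (nat_lit 7744772832) (nat_lit 471) (nat_lit 5) (nat_lit 495) (nat_lit 5) (nat_lit 496) (nat_lit 5) (nat_lit 455) (nat_lit 444) (nat_lit 301))))))) (XT.nd (nat_lit 1014) (nat_lit 7296) (nat_lit 0) (XT.nd (nat_lit 468) (nat_lit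 5472) (nat_lit 0) (XT.nd (nat_lit 234) (nat_lit 1596) (nat_lit 0) (XT.nd (nat_lit 78) (nat_lit 0) (nat_lit 0) (XT.lf (nat_lit 0) (nat_lit 4468520972) (nat_lit 1824) (nat_lit 11417580256) (nat_lit 1900) (nat_lit 2163534085) (nat_lit 472) (nat_lit 5) (nat_lit 496) (nat_lit 5) (nat_lit 497) (nat_lit 5) (nat_lit 456) (nat_lit 444) (nat_lit 300)) (XT.nd (nat_lit 78) (nat_lit 0) (nat_lit 76) (XT.lf (nat_lit 76) (nat_lit 2782198613) (nat_lit 0) (nat_lit 3670468529) (nat_lit 1900) (nat_lit 11877095917) (nat_lit 473) (nat_lit 5) (nat_lit 472) (nat_lit 5) (nat_lit 497) (nat_lit 5) (nat_lit 457) (nat_lit 444) (nat_lit 299)) (XT.lf (nat_lit 0) (nat_lit 8619793259) (nat_lit 1824) (nat_lit 1120767246) (nat_lit 1900) (nat_lit 8875266117) (nat_lit 473) (nat_lit 5) (nat_lit 497) (nat_lit 5) (nat_lit 498) (nat_lit 5) (nat_lit 458) (nat_lit 444) (nat_lit 298)))) (XT.nd (nat_lit 78) (nat_lit 1748) (nat_lit 0) (XT.lf (nat_lit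 0) (nat_lit 10973750253) (nat_lit 1824) (nat_lit 5040654321) (nat_lit 1900) (nat_lit 2893632245) (nat_lit 474) (nat_lit 5) (nat_lit 498) (nat_lit 5) (nat_lit 499) (nat_lit 5) (nat_lit 459) (nat_lit 444) (nat_lit 297)) (XT.nd (nat_lit 78) (nat_lit 1748) (nat_lit 0) (XT.lf (nat_lit 76) (nat_lit 10170142592) (nat_lit 0) (nat_lit 3355370945) (nat_lit 1900) (nat_lit 5680957068) (nat_lit 475) (nat_lit 5) (nat_lit 474) (nat_lit 5) (nat_lit 499) (nat_lit 5) (nat_lit 460) (nat_lit 444) (nat_lit 296)) (XT.lf (nat_lit 0) (nat_lit 6404191360) (nat_lit 1824) (nat_lit 9877133392) (nat_lit 1900) (nat_lit 3229983756) (nat_lit 451) (nat_lit 5) (nat_lit 475) (nat_lit 5) (nat_lit 476) (nat_lit 5) (nat_lit 461) (nat_lit 444) (nat_lit 295))))) (XT.nd (nat_lit 234) (nat_lit 3420) (nat_lit 0) (XT.nd (nat_lit 78) (nat_lit 988) (nat_lit 0) (XT.lf (nat_lit 0) (nat_lit 2588532778) (nat_lit 1064) (nat_lit 16641358105) (nat_lit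 1140) (nat_lit 593200028) (nat_lit 437) (nat_lit 5) (nat_lit 451) (nat_lit 5) (nat_lit 452) (nat_lit 5) (nat_lit 462) (nat_lit 444) (nat_lit 294)) (XT.nd (nat_lit 78) (nat_lit 912) (nat_lit 0) (XT.lf (nat_lit 0) (nat_lit 2239430795) (nat_lit 1140) (nat_lit 1298256901) (nat_lit 76) (nat_lit 16603372722) (nat_lit 436) (nat_lit 5) (nat_lit 451) (nat_lit 5) (nat_lit 437) (nat_lit 5) (nat_lit 463) (nat_lit 444) (nat_lit 293)) (XT.lf (nat_lit 0) (nat_lit 5303179113) (nat_lit 988) (nat_lit 5228755584) (nat_lit 76) (nat_lit 9933472838) (nat_lit 424) (nat_lit 5) (nat_lit 437) (nat_lit 5) (nat_lit 425) (nat_lit 5) (nat_lit 464) (nat_lit 444) (nat_lit 292)))) (XT.nd (nat_lit 156) (nat_lit 1672) (nat_lit 0) (XT.nd (nat_lit 78) (nat_lit 836) (nat_lit 0) (XT.lf (nat_lit 0) (nat_lit 8576186927) (nat_lit 988) (nat_lit 9212393015) (nat_lit 76) (nat_lit 3008559058) (nat_lit 412) (nat_lit 5) (nat_lit 425) (nat_lit 5)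 (nat_lit 413) (nat_lit 5) (nat_lit 465) (nat_lit 444) (nat_lit 291)) (XT.lf (nat_lit 0) (nat_lit 7858845429) (nat_lit 836) (nat_lit 4235598344) (nat_lit 912) (nat_lit 9041438310) (nat_lit 401) (nat_lit 5) (nat_lit 412) (nat_lit 5) (nat_lit 413) (nat_lit 5) (nat_lit 466) (nat_lit 444) (nat_lit 290))) (XT.nd (nat_lit 78) (nat_lit 836) (nat_lit 0) (XT.lf (nat_lit 0) (nat_lit 4064833983) (nat_lit 836) (nat_lit 11795949270) (nat_lit 912) (nat_lit 5621154331) (nat_lit 390) (nat_lit 5) (nat_lit 401) (nat_lit 5) (nat_lit 402) (nat_lit 5) (nat_lit 467) (nat_lit 444) (nat_lit 289)) (XT.lf (nat_lit 0) (nat_lit 222732888) (nat_lit 836) (nat_lit 19641753750) (nat_lit 912) (nat_lit 1971401440) (nat_lit 379) (nat_lit 5) (nat_lit 390) (nat_lit 5) (nat_lit 391) (nat_lit 5) (nat_lit 468) (nat_lit 444) (nat_lit 288)))))) (XT.nd (nat_lit 468) (nat_lit 4104) (nat_lit 0) (XT.nd (nat_lit 234) (nat_lit 1520) (nat_lit 0) (XT.nd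 (nat_lit 78) (nat_lit 1596) (nat_lit 0) (XT.lf (nat_lit 0) (nat_lit 1952634854) (nat_lit 912) (nat_lit 3668914150) (nat_lit 76) (nat_lit 16574911913) (nat_lit 378) (nat_lit 5) (nat_lit 390) (nat_lit 5) (nat_lit 379) (nat_lit 5) (nat_lit 469) (nat_lit 444) (nat_lit 287)) (XT.nd (nat_lit 78) (nat_lit 760) (nat_lit 0) (XT.lf (nat_lit 0) (nat_lit 6113885175) (nat_lit 912) (nat_lit 7636213193) (nat_lit 76) (nat_lit 8814567163) (nat_lit 367) (nat_lit 5) (nat_lit 379) (nat_lit 5) (nat_lit 368) (nat_lit 5) (nat_lit 470) (nat_lit 444) (nat_lit 286)) (XT.lf (nat_lit 0) (nat_lit 10531896877) (nat_lit 836) (nat_lit 11654927289) (nat_lit 76) (nat_lit 754454361) (nat_lit 357) (nat_lit 5) (nat_lit 368) (nat_lit 5) (nat_lit 358) (nat_lit 5) (nat_lit 471) (nat_lit 444) (nat_lit 285)))) (XT.nd (nat_lit 78) (nat_lit 760) (nat_lit 0) (XT.lf (nat_lit 0) (nat_lit 7550212899) (nat_lit 760) (nat_lit 7716524361) (nat_lit 836)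 (nat_lit 8058767581) (nat_lit 347) (nat_lit 5) (nat_lit 357) (nat_lit 5) (nat_lit 358) (nat_lit 5) (nat_lit 472) (nat_lit 444) (nat_lit 284)) (XT.nd (nat_lit 78) (nat_lit 76) (nat_lit 0) (XT.lf (nat_lit 0) (nat_lit 3764047226) (nat_lit 684) (nat_lit 16521599775) (nat_lit 760) (nat_lit 3432771141) (nat_lit 338) (nat_lit 5) (nat_lit 347) (nat_lit 5) (nat_lit 348) (nat_lit 5) (nat_lit 473) (nat_lit 444) (nat_lit 283)) (XT.lf (nat_lit 0) (nat_lit 1465295406) (nat_lit 760) (nat_lit 85889369) (nat_lit 76) (nat_lit 22568746551) (nat_lit 337) (nat_lit 5) (nat_lit 347) (nat_lit 5) (nat_lit 338) (nat_lit 5) (nat_lit 474) (nat_lit 444) (nat_lit 282))))) (XT.nd (nat_lit 234) (nat_lit 1976) (nat_lit 0) (XT.nd (nat_lit 78) (nat_lit 1368) (nat_lit 0) (XT.lf (nat_lit 0) (nat_lit 6680660960) (nat_lit 836) (nat_lit 4004682863) (nat_lit 76) (nat_lit 13843352998) (nat_lit 327) (nat_lit 5) (nat_lit 338) (nat_lit 5) (nat_lit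 328) (nat_lit 5) (nat_lit 475) (nat_lit 444) (nat_lit 281)) (XT.nd (nat_lit 78) (nat_lit 684) (nat_lit 0) (XT.lf (nat_lit 0) (nat_lit 12197271358) (nat_lit 760) (nat_lit 7971721055) (nat_lit 76) (nat_lit 4777837799) (nat_lit 318) (nat_lit 5) (nat_lit 328) (nat_lit 5) (nat_lit 319) (nat_lit 5) (nat_lit 476) (nat_lit 444) (nat_lit 280)) (XT.lf (nat_lit 0) (nat_lit 13356501014) (nat_lit 684) (nat_lit 4700509852) (nat_lit 760) (nat_lit 7316944712) (nat_lit 309) (nat_lit 5) (nat_lit 318) (nat_lit 5) (nat_lit 319) (nat_lit 5) (nat_lit 477) (nat_lit 444) (nat_lit 279)))) (XT.nd (nat_lit 156) (nat_lit 608) (nat_lit 0) (XT.nd (nat_lit 78) (nat_lit 760) (nat_lit 0) (XT.lf (nat_lit 0) (nat_lit 9665172432) (nat_lit 608) (nat_lit 14609724113) (nat_lit 684) (nat_lit 1535351654) (nat_lit 301) (nat_lit 5) (nat_lit 309) (nat_lit 5) (nat_lit 310) (nat_lit 5) (nat_lit 478) (nat_lit 444) (nat_lit 278)) (XT.lf (nat_lit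 0) (nat_lit 4515066491) (nat_lit 760) (nat_lit 20352786462) (nat_lit 76) (nat_lit 1388136434) (nat_lit 291) (nat_lit 5) (nat_lit 301) (nat_lit 5) (nat_lit 292) (nat_lit 5) (nat_lit 479) (nat_lit 444) (nat_lit 277))) (XT.nd (nat_lit 78) (nat_lit 0) (nat_lit 0) (XT.lf (nat_lit 0) (nat_lit 2029817900) (nat_lit 608) (nat_lit 8910014661) (nat_lit 684) (nat_lit 15770793910) (nat_lit 283) (nat_lit 5) (nat_lit 291) (nat_lit 5) (nat_lit 292) (nat_lit 5) (nat_lit 480) (nat_lit 444) (nat_lit 276)) (XT.lf (nat_lit 0) (nat_lit 17737753109) (nat_lit 684) (nat_lit 1872540875) (nat_lit 76) (nat_lit 7565000967) (nat_lit 283) (nat_lit 5) (nat_lit 292) (nat_lit 5) (nat_lit 284) (nat_lit 5) (nat_lit 481) (nat_lit 444) (nat_lit 275))))))))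
noncomputable def xc104 : XT := (XT.nd (nat_lit 60294) (nat_lit 0) (nat_lit 9500) (XT.nd (nat_lit 936) (nat_lit 1444) (nat_lit 0) (XT.nd (nat_lit 468) (nat_lit 2508) (nat_lit 0) (XT.nd (nat_lit 234) (nat_lit 1672) (nat_lit 0) (XT.nd (nat_lit 78) (nat_lit 1292) (nat_lit 0) (XT.lf (nat_lit 0) (nat_lit 21837955310) (nat_lit 608) (nat_lit 3095953707) (nat_lit 684) (nat_lit 2716109013) (nat_lit 275) (nat_lit 5) (nat_lit 283) (nat_lit 5) (nat_lit 284) (nat_lit 5) (nat_lit 482) (nat_lit 444) (nat_lit 274)) (XT.nd (nat_lit 78) (nat_lit 608) (nat_lit 0) (XT.lf (nat_lit 0) (nat_lit 4368122208) (nat_lit 684) (nat_lit 9876161842) (nat_lit 76) (nat_lit 13889826327) (nat_lit 266) (nat_lit 5) (nat_lit 275) (nat_lit 5) (nat_lit 267) (nat_lit 5) (nat_lit 483) (nat_lit 444) (nat_lit 273)) (XT.lf (nat_lit 0) (nat_lit 11795368955) (nat_lit 684) (nat_lit 14006187966) (nat_lit 76) (nat_lit 2827462169) (nat_lit 258) (nat_lit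 5) (nat_lit 267) (nat_lit 5) (nat_lit 259) (nat_lit 5) (nat_lit 484) (nat_lit 444) (nat_lit 272)))) (XT.nd (nat_lit 78) (nat_lit 1140) (nat_lit 0) (XT.lf (nat_lit 0) (nat_lit 10892951278) (nat_lit 532) (nat_lit 8779125850) (nat_lit 608) (nat_lit 9462165503) (nat_lit 251) (nat_lit 5) (nat_lit 258) (nat_lit 5) (nat_lit 259) (nat_lit 5) (nat_lit 485) (nat_lit 444) (nat_lit 271)) (XT.nd (nat_lit 78) (nat_lit 608) (nat_lit 0) (XT.lf (nat_lit 0) (nat_lit 7105046844) (nat_lit 532) (nat_lit 20871966728) (nat_lit 608) (nat_lit 1673771201) (nat_lit 244) (nat_lit 5) (nat_lit 251) (nat_lit 5) (nat_lit 252) (nat_lit 5) (nat_lit 486) (nat_lit 444) (nat_lit 270)) (XT.lf (nat_lit 0) (nat_lit 3213842411) (nat_lit 532) (nat_lit 3248690993) (nat_lit 608) (nat_lit 23715515500) (nat_lit 236) (nat_lit 5) (nat_lit 243) (nat_lit 5) (nat_lit 244) (nat_lit 5) (nat_lit 487) (nat_lit 444) (nat_lit 269))))) (XT.nd (nat_lit 234)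 (nat_lit 1444) (nat_lit 0) (XT.nd (nat_lit 78) (nat_lit 1064) (nat_lit 0) (XT.lf (nat_lit 0) (nat_lit 15064500520) (nat_lit 608) (nat_lit 780871040) (nat_lit 76) (nat_lit 14870652260) (nat_lit 236) (nat_lit 5) (nat_lit 244) (nat_lit 5) (nat_lit 237) (nat_lit 5) (nat_lit 488) (nat_lit 444) (nat_lit 268)) (XT.nd (nat_lit 78) (nat_lit 532) (nat_lit 0) (XT.lf (nat_lit 0) (nat_lit 24127700458) (nat_lit 608) (nat_lit 4776458093) (nat_lit 76) (nat_lit 2361916347) (nat_lit 229) (nat_lit 5) (nat_lit 237) (nat_lit 5) (nat_lit 230) (nat_lit 5) (nat_lit 489) (nat_lit 444) (nat_lit 267)) (XT.lf (nat_lit 0) (nat_lit 1864654502) (nat_lit 532) (nat_lit 8896892395) (nat_lit 76) (nat_lit 21065751988) (nat_lit 222) (nat_lit 5) (nat_lit 229) (nat_lit 5) (nat_lit 223) (nat_lit 5) (nat_lit 490) (nat_lit 444) (nat_lit 266)))) (XT.nd (nat_lit 78) (nat_lit 912) (nat_lit 0) (XT.lf (nat_lit 0) (nat_lit 11246223702) (nat_lit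 608) (nat_lit 13127817279) (nat_lit 76) (nat_lit 8026266640) (nat_lit 215) (nat_lit 5) (nat_lit 223) (nat_lit 5) (nat_lit 216) (nat_lit 5) (nat_lit 491) (nat_lit 444) (nat_lit 265)) (XT.nd (nat_lit 78) (nat_lit 456) (nat_lit 0) (XT.lf (nat_lit 0) (nat_lit 15542634345) (nat_lit 456) (nat_lit 5594293689) (nat_lit 532) (nat_lit 11849025174) (nat_lit 209) (nat_lit 5) (nat_lit 215) (nat_lit 5) (nat_lit 216) (nat_lit 5) (nat_lit 492) (nat_lit 444) (nat_lit 264)) (XT.lf (nat_lit 0) (nat_lit 11721129980) (nat_lit 456) (nat_lit 19852362070) (nat_lit 532) (nat_lit 2010693681) (nat_lit 203) (nat_lit 5) (nat_lit 209) (nat_lit 5) (nat_lit 210) (nat_lit 5) (nat_lit 493) (nat_lit 444) (nat_lit 263)))))) (XT.nd (nat_lit 58812) (nat_lit 0) (nat_lit 23180) (XT.nd (nat_lit 234) (nat_lit 456) (nat_lit 0) (XT.nd (nat_lit 78) (nat_lit 456) (nat_lit 0) (XT.lf (nat_lit 0) (nat_lit 7804515334) (nat_lit 456) (nat_lit 413109425)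 (nat_lit 532) (nat_lit 25977658648) (nat_lit 196) (nat_lit 5) (nat_lit 202) (nat_lit 5) (nat_lit 203) (nat_lit 5) (nat_lit 494) (nat_lit 444) (nat_lit 262)) (XT.nd (nat_lit 78) (nat_lit 0) (nat_lit 0) (XT.lf (nat_lit 0) (nat_lit 3738767277) (nat_lit 456) (nat_lit 15281985775) (nat_lit 532) (nat_lit 15797789905) (nat_lit 190) (nat_lit 5) (nat_lit 196) (nat_lit 5) (nat_lit 197) (nat_lit 5) (nat_lit 495) (nat_lit 444) (nat_lit 261)) (XT.lf (nat_lit 0) (nat_lit 30355216952) (nat_lit 532) (nat_lit 365522277) (nat_lit 76) (nat_lit 4735616536) (nat_lit 190) (nat_lit 5) (nat_lit 197) (nat_lit 5) (nat_lit 191) (nat_lit 5) (nat_lit 496) (nat_lit 444) (nat_lit 260)))) (XT.nd (nat_lit 58422) (nat_lit 0) (nat_lit 23104) (XT.lf (nat_lit 0) (nat_lit 6142667414) (nat_lit 456) (nat_lit 4573491838) (nat_lit 76) (nat_lit 25390298722) (nat_lit 184) (nat_lit 5) (nat_lit 190) (nat_lit 5) (nat_lit 185) (nat_lit 5) (nat_lit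 497) (nat_lit 444) (nat_lit 259)) (XT.nd (nat_lit 78) (nat_lit 0) (nat_lit 0) (XT.lf (nat_lit 0) (nat_lit 2027375805) (nat_lit 0) (nat_lit 2027375805) (nat_lit 1748) (nat_lit 3720339774) (nat_lit 488) (nat_lit 5) (nat_lit 488) (nat_lit 3) (nat_lit 511) (nat_lit 3) (nat_lit 445) (nat_lit 445) (nat_lit 310)) (XT.lf (nat_lit 0) (nat_lit 8689763706) (nat_lit 1748) (nat_lit 17596991) (nat_lit 1824) (nat_lit 7066863878) (nat_lit 488) (nat_lit 5) (nat_lit 511) (nat_lit 3) (nat_lit 512) (nat_lit 5) (nat_lit 446) (nat_lit 445) (nat_lit 309))))) (XT.nd (nat_lit 234) (nat_lit 0) (nat_lit 152) (XT.nd (nat_lit 78) (nat_lit 0) (nat_lit 0) (XT.lf (nat_lit 0) (nat_lit 9392496966) (nat_lit 1748) (nat_lit 4094328786) (nat_lit 1824) (nat_lit 2516062091) (nat_lit 489) (nat_lit 5) (nat_lit 512) (nat_lit 5) (nat_lit 513) (nat_lit 5) (nat_lit 447) (nat_lit 445) (nat_lit 308)) (XT.nd (nat_lit 78) (nat_lit 0) (nat_lit 76)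 (XT.lf (nat_lit 76) (nat_lit 7992279073) (nat_lit 0) (nat_lit 2218703275) (nat_lit 1824) (nat_lit 6025536719) (nat_lit 490) (nat_lit 5) (nat_lit 489) (nat_lit 5) (nat_lit 513) (nat_lit 5) (nat_lit 448) (nat_lit 445) (nat_lit 307)) (XT.lf (nat_lit 76) (nat_lit 4003446860) (nat_lit 0) (nat_lit 7150316876) (nat_lit 1824) (nat_lit 5321402083) (nat_lit 491) (nat_lit 5) (nat_lit 490) (nat_lit 5) (nat_lit 514) (nat_lit 5) (nat_lit 449) (nat_lit 445) (nat_lit 306)))) (XT.nd (nat_lit 156) (nat_lit 0) (nat_lit 76) (XT.nd (nat_lit 78) (nat_lit 0) (nat_lit 0) (XT.lf (nat_lit 0) (nat_lit 12210080856) (nat_lit 1748) (nat_lit 41576930) (nat_lit 1824) (nat_lit 4467610519) (nat_lit 491) (nat_lit 5) (nat_lit 514) (nat_lit 5) (nat_lit 515) (nat_lit 5) (nat_lit 450) (nat_lit 445) (nat_lit 305)) (XT.lf (nat_lit 76) (nat_lit 12873714222) (nat_lit 0) (nat_lit 541497540) (nat_lit 1824) (nat_lit 3553140957) (nat_lit 492) (nat_lit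 5) (nat_lit 491) (nat_lit 5) (nat_lit 515) (nat_lit 5) (nat_lit 451) (nat_lit 445) (nat_lit 304))) (XT.nd (nat_lit 78) (nat_lit 0) (nat_lit 76) (XT.lf (nat_lit 76) (nat_lit 8986237780) (nat_lit 0) (nat_lit 5789798622) (nat_lit 1824) (nat_lit 2446483764) (nat_lit 493) (nat_lit 5) (nat_lit 492) (nat_lit 5) (nat_lit 516) (nat_lit 5) (nat_lit 452) (nat_lit 445) (nat_lit 303)) (XT.lf (nat_lit 76) (nat_lit 5044360547) (nat_lit 0) (nat_lit 11224837328) (nat_lit 1824) (nat_lit 1213285781) (nat_lit 494) (nat_lit 5) (nat_lit 493) (nat_lit 5) (nat_lit 517) (nat_lit 5) (nat_lit 453) (nat_lit 445) (nat_lit 302))))))) (XT.nd (nat_lit 936) (nat_lit 8740) (nat_lit 0) (XT.nd (nat_lit 468) (nat_lit 3496) (nat_lit 0) (XT.nd (nat_lit 234) (nat_lit 0) (nat_lit 152) (XT.nd (nat_lit 78) (nat_lit 0) (nat_lit 0) (XT.lf (nat_lit 0) (nat_lit 150527584) (nat_lit 1824) (nat_lit 16702125981) (nat_lit 1900) (nat_lit 895698981) (nat_lit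 470) (nat_lit 5) (nat_lit 494) (nat_lit 5) (nat_lit 495) (nat_lit 5) (nat_lit 454) (nat_lit 445) (nat_lit 301)) (XT.nd (nat_lit 78) (nat_lit 0) (nat_lit 76) (XT.lf (nat_lit 0) (nat_lit 1685868230) (nat_lit 1824) (nat_lit 3008162178) (nat_lit 1900) (nat_lit 13325065930) (nat_lit 470) (nat_lit 5) (nat_lit 494) (nat_lit 5) (nat_lit 495) (nat_lit 5) (nat_lit 455) (nat_lit 445) (nat_lit 300)) (XT.lf (nat_lit 0) (nat_lit 3379023561) (nat_lit 1824) (nat_lit 7113129997) (nat_lit 1900) (nat_lit 7803574925) (nat_lit 471) (nat_lit 5) (nat_lit 495) (nat_lit 5) (nat_lit 496) (nat_lit 5) (nat_lit 456) (nat_lit 445) (nat_lit 299)))) (XT.nd (nat_lit 78) (nat_lit 0) (nat_lit 0) (XT.lf (nat_lit 0) (nat_lit 5223847016) (nat_lit 1824) (nat_lit 11277288605) (nat_lit 1900) (nat_lit 2077507603) (nat_lit 472) (nat_lit 5) (nat_lit 496) (nat_lit 5) (nat_lit 497) (nat_lit 5) (nat_lit 457) (nat_lit 445) (nat_lit 298)) (XT.nd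 (nat_lit 78) (nat_lit 0) (nat_lit 76) (XT.lf (nat_lit 76) (nat_lit 3340650465) (nat_lit 0) (nat_lit 3911855774) (nat_lit 1900) (nat_lit 11614970412) (nat_lit 473) (nat_lit 5) (nat_lit 472) (nat_lit 5) (nat_lit 497) (nat_lit 5) (nat_lit 458) (nat_lit 445) (nat_lit 297)) (XT.lf (nat_lit 0) (nat_lit 9466160621) (nat_lit 1824) (nat_lit 680586860) (nat_lit 1900) (nat_lit 9015745928) (nat_lit 473) (nat_lit 5) (nat_lit 497) (nat_lit 5) (nat_lit 498) (nat_lit 5) (nat_lit 459) (nat_lit 445) (nat_lit 296))))) (XT.nd (nat_lit 234) (nat_lit 2052) (nat_lit 0) (XT.nd (nat_lit 78) (nat_lit 1748) (nat_lit 0) (XT.lf (nat_lit 0) (nat_lit 11875944668) (nat_lit 1824) (nat_lit 4713534452) (nat_lit 1900) (nat_lit 2874288154) (nat_lit 474) (nat_lit 5) (nat_lit 498) (nat_lit 5) (nat_lit 499) (nat_lit 5) (nat_lit 460) (nat_lit 445) (nat_lit 295)) (XT.nd (nat_lit 78) (nat_lit 1748) (nat_lit 0) (XT.lf (nat_lit 76) (nat_lit 10945825878)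 (nat_lit 0) (nat_lit 3544801489) (nat_lit 1900) (nat_lit 5280800861) (nat_lit 475) (nat_lit 5) (nat_lit 474) (nat_lit 5) (nat_lit 499) (nat_lit 5) (nat_lit 461) (nat_lit 445) (nat_lit 294)) (XT.lf (nat_lit 0) (nat_lit 7070882718) (nat_lit 1824) (nat_lit 10244460131) (nat_lit 1900) (nat_lit 2770345264) (nat_lit 451) (nat_lit 5) (nat_lit 475) (nat_lit 5) (nat_lit 476) (nat_lit 5) (nat_lit 462) (nat_lit 445) (nat_lit 293)))) (XT.nd (nat_lit 78) (nat_lit 988) (nat_lit 0) (XT.lf (nat_lit 0) (nat_lit 3144290540) (nat_lit 1064) (nat_lit 17194841314) (nat_lit 1140) (nat_lit 67958217) (nat_lit 437) (nat_lit 5) (nat_lit 451) (nat_lit 5) (nat_lit 452) (nat_lit 5) (nat_lit 463) (nat_lit 445) (nat_lit 292)) (XT.nd (nat_lit 78) (nat_lit 912) (nat_lit 0) (XT.lf (nat_lit 0) (nat_lit 2826920295) (nat_lit 1140) (nat_lit 866069090) (nat_lit 76) (nat_lit 17041852281) (nat_lit 436) (nat_lit 5) (nat_lit 451) (nat_lit 5)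 (nat_lit 437) (nat_lit 5) (nat_lit 464) (nat_lit 445) (nat_lit 291)) (XT.lf (nat_lit 0) (nat_lit 5970145775) (nat_lit 988) (nat_lit 4911629958) (nat_lit 76) (nat_lit 10187393463) (nat_lit 424) (nat_lit 5) (nat_lit 437) (nat_lit 5) (nat_lit 425) (nat_lit 5) (nat_lit 465) (nat_lit 445) (nat_lit 290)))))) (XT.nd (nat_lit 468) (nat_lit 4408) (nat_lit 0) (XT.nd (nat_lit 234) (nat_lit 1748) (nat_lit 0) (XT.nd (nat_lit 78) (nat_lit 1672) (nat_lit 0) (XT.lf (nat_lit 0) (nat_lit 9329385441) (nat_lit 988) (nat_lit 9012308862) (nat_lit 76) (nat_lit 3069398725) (nat_lit 412) (nat_lit 5) (nat_lit 425) (nat_lit 5) (nat_lit 413) (nat_lit 5) (nat_lit 466) (nat_lit 445) (nat_lit 289)) (XT.nd (nat_lit 78) (nat_lit 836) (nat_lit 0) (XT.lf (nat_lit 0) (nat_lit 8563336803) (nat_lit 836) (nat_lit 4378452403) (nat_lit 912) (nat_lit 8818438432) (nat_lit 401) (nat_lit 5) (nat_lit 412) (nat_lit 5) (nat_lit 413) (nat_lit 5)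 (nat_lit 467) (nat_lit 445) (nat_lit 288)) (XT.lf (nat_lit 0) (nat_lit 4657574356) (nat_lit 836) (nat_lit 12152389719) (nat_lit 912) (nat_lit 5306925011) (nat_lit 390) (nat_lit 5) (nat_lit 401) (nat_lit 5) (nat_lit 402) (nat_lit 5) (nat_lit 468) (nat_lit 445) (nat_lit 287)))) (XT.nd (nat_lit 78) (nat_lit 912) (nat_lit 0) (XT.lf (nat_lit 0) (nat_lit 701940889) (nat_lit 836) (nat_lit 20221102368) (nat_lit 912) (nat_lit 1558630693) (nat_lit 379) (nat_lit 5) (nat_lit 390) (nat_lit 5) (nat_lit 391) (nat_lit 5) (nat_lit 469) (nat_lit 445) (nat_lit 286)) (XT.nd (nat_lit 78) (nat_lit 836) (nat_lit 0) (XT.lf (nat_lit 0) (nat_lit 2463372705) (nat_lit 912) (nat_lit 3314173018) (nat_lit 76) (nat_lit 17075729362) (nat_lit 378) (nat_lit 5) (nat_lit 390) (nat_lit 5) (nat_lit 379) (nat_lit 5) (nat_lit 470) (nat_lit 445) (nat_lit 285)) (XT.lf (nat_lit 0) (nat_lit 6739359146) (nat_lit 912) (nat_lit 7399256818) (nat_lit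 76) (nat_lit 9094112964) (nat_lit 367) (nat_lit 5) (nat_lit 379) (nat_lit 5) (nat_lit 368) (nat_lit 5) (nat_lit 471) (nat_lit 445) (nat_lit 284))))) (XT.nd (nat_lit 234) (nat_lit 2204) (nat_lit 0) (XT.nd (nat_lit 78) (nat_lit 1444) (nat_lit 0) (XT.lf (nat_lit 0) (nat_lit 11280183414) (nat_lit 836) (nat_lit 11537586670) (nat_lit 76) (nat_lit 803065816) (nat_lit 357) (nat_lit 5) (nat_lit 368) (nat_lit 5) (nat_lit 358) (nat_lit 5) (nat_lit 472) (nat_lit 445) (nat_lit 283)) (XT.nd (nat_lit 78) (nat_lit 684) (nat_lit 0) (XT.lf (nat_lit 0) (nat_lit 8236131391) (nat_lit 760) (nat_lit 7911328302) (nat_lit 836) (nat_lit 7869322500) (nat_lit 347) (nat_lit 5) (nat_lit 357) (nat_lit 5) (nat_lit 358) (nat_lit 5) (nat_lit 473) (nat_lit 445) (nat_lit 282)) (XT.lf (nat_lit 0) (nat_lit 4337043059) (nat_lit 684) (nat_lit 16970799821) (nat_lit 760) (nat_lit 3113822861) (nat_lit 338) (nat_lit 5) (nat_lit 347) (nat_lit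 5) (nat_lit 348) (nat_lit 5) (nat_lit 474) (nat_lit 445) (nat_lit 281)))) (XT.nd (nat_lit 156) (nat_lit 1368) (nat_lit 0) (XT.nd (nat_lit 78) (nat_lit 0) (nat_lit 0) (XT.lf (nat_lit 0) (nat_lit 368443729) (nat_lit 760) (nat_lit 1547472338) (nat_lit 836) (nat_lit 22919449108) (nat_lit 327) (nat_lit 5) (nat_lit 337) (nat_lit 5) (nat_lit 338) (nat_lit 5) (nat_lit 475) (nat_lit 445) (nat_lit 280)) (XT.lf (nat_lit 0) (nat_lit 7276783615) (nat_lit 836) (nat_lit 3672463077) (nat_lit 76) (nat_lit 14307367022) (nat_lit 327) (nat_lit 5) (nat_lit 338) (nat_lit 5) (nat_lit 328) (nat_lit 5) (nat_lit 476) (nat_lit 445) (nat_lit 279))) (XT.nd (nat_lit 78) (nat_lit 684) (nat_lit 0) (XT.lf (nat_lit 0) (nat_lit 12950632652) (nat_lit 760) (nat_lit 7758457281) (nat_lit 76) (nat_lit 4978367240) (nat_lit 318) (nat_lit 5) (nat_lit 328) (nat_lit 5) (nat_lit 319) (nat_lit 5) (nat_lit 477) (nat_lit 445) (nat_lit 278)) (XT.lf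 (nat_lit 0) (nat_lit 14202271548) (nat_lit 684) (nat_lit 4775497771) (nat_lit 760) (nat_lit 7149795729) (nat_lit 309) (nat_lit 5) (nat_lit 318) (nat_lit 5) (nat_lit 319) (nat_lit 5) (nat_lit 478) (nat_lit 445) (nat_lit 277))))))))
noncomputable def xc105 : XT := (XT.nd (nat_lit 60372) (nat_lit 0) (nat_lit 10792) (XT.nd (nat_lit 936) (nat_lit 3344) (nat_lit 0) (XT.nd (nat_lit 468) (nat_lit 2812) (nat_lit 0) (XT.nd (nat_lit 234) (nat_lit 1292) (nat_lit 0) (XT.nd (nat_lit 78) (nat_lit 1368) (nat_lit 0) (XT.lf (nat_lit 0) (nat_lit 10400046296) (nat_lit 608) (nat_lit 14974409949) (nat_lit 684) (nat_lit 1202645731) (nat_lit 301) (nat_lit 5) (nat_lit 309) (nat_lit 5) (nat_lit 310) (nat_lit 5) (nat_lit 479) (nat_lit 445) (nat_lit 276)) (XT.nd (nat_lit 78) (nat_lit 608) (nat_lit 0) (XT.lf (nat_lit 0) (nat_lit 5016802587) (nat_lit 760) (nat_lit 20513913229) (nat_lit 76) (nat_lit 1505601478) (nat_lit 291) (nat_lit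 5) (nat_lit 301) (nat_lit 5) (nat_lit 292) (nat_lit 5) (nat_lit 480) (nat_lit 445) (nat_lit 275)) (XT.lf (nat_lit 0) (nat_lit 2532877361) (nat_lit 608) (nat_lit 9093636637) (nat_lit 684) (nat_lit 15878236205) (nat_lit 283) (nat_lit 5) (nat_lit 291) (nat_lit 5) (nat_lit 292) (nat_lit 5) (nat_lit 481) (nat_lit 445) (nat_lit 274)))) (XT.nd (nat_lit 78) (nat_lit 1292) (nat_lit 0) (XT.lf (nat_lit 0) (nat_lit 18618458281) (nat_lit 684) (nat_lit 1492972743) (nat_lit 76) (nat_lit 7872126730) (nat_lit 283) (nat_lit 5) (nat_lit 292) (nat_lit 5) (nat_lit 284) (nat_lit 5) (nat_lit 482) (nat_lit 445) (nat_lit 273)) (XT.nd (nat_lit 78) (nat_lit 684) (nat_lit 0) (XT.lf (nat_lit 0) (nat_lit 22921768894) (nat_lit 608) (nat_lit 3101360615) (nat_lit 684) (nat_lit 2449541119) (nat_lit 275) (nat_lit 5) (nat_lit 283) (nat_lit 5) (nat_lit 284) (nat_lit 5) (nat_lit 483) (nat_lit 445) (nat_lit 272)) (XT.lf (nat_lit 0) (nat_lit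 4835999460) (nat_lit 684) (nat_lit 9740049312) (nat_lit 76) (nat_lit 14395325517) (nat_lit 266) (nat_lit 5) (nat_lit 275) (nat_lit 5) (nat_lit 267) (nat_lit 5) (nat_lit 484) (nat_lit 445) (nat_lit 271))))) (XT.nd (nat_lit 234) (nat_lit 1140) (nat_lit 0) (XT.nd (nat_lit 78) (nat_lit 1064) (nat_lit 0) (XT.lf (nat_lit 0) (nat_lit 12479635468) (nat_lit 684) (nat_lit 13994994274) (nat_lit 76) (nat_lit 3006629746) (nat_lit 258) (nat_lit 5) (nat_lit 267) (nat_lit 5) (nat_lit 259) (nat_lit 5) (nat_lit 485) (nat_lit 445) (nat_lit 270)) (XT.nd (nat_lit 78) (nat_lit 532) (nat_lit 0) (XT.lf (nat_lit 0) (nat_lit 11644120530) (nat_lit 532) (nat_lit 8941656258) (nat_lit 608) (nat_lit 9416000951) (nat_lit 251) (nat_lit 5) (nat_lit 258) (nat_lit 5) (nat_lit 259) (nat_lit 5) (nat_lit 486) (nat_lit 445) (nat_lit 269)) (XT.lf (nat_lit 0) (nat_lit 7741436613) (nat_lit 532) (nat_lit 21392384909) (nat_lit 608) (nat_lit 1400116042)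 (nat_lit 244) (nat_lit 5) (nat_lit 251) (nat_lit 5) (nat_lit 252) (nat_lit 5) (nat_lit 487) (nat_lit 445) (nat_lit 268)))) (XT.nd (nat_lit 78) (nat_lit 532) (nat_lit 0) (XT.lf (nat_lit 0) (nat_lit 3730828248) (nat_lit 532) (nat_lit 3238623144) (nat_lit 608) (nat_lit 24107658341) (nat_lit 236) (nat_lit 5) (nat_lit 243) (nat_lit 5) (nat_lit 244) (nat_lit 5) (nat_lit 488) (nat_lit 445) (nat_lit 267)) (XT.nd (nat_lit 78) (nat_lit 532) (nat_lit 0) (XT.lf (nat_lit 0) (nat_lit 15821037606) (nat_lit 608) (nat_lit 390556340) (nat_lit 76) (nat_lit 15419799325) (nat_lit 236) (nat_lit 5) (nat_lit 244) (nat_lit 5) (nat_lit 237) (nat_lit 5) (nat_lit 489) (nat_lit 445) (nat_lit 266)) (XT.lf (nat_lit 0) (nat_lit 25150609799) (nat_lit 608) (nat_lit 4507442803) (nat_lit 76) (nat_lit 2540004314) (nat_lit 229) (nat_lit 5) (nat_lit 237) (nat_lit 5) (nat_lit 230) (nat_lit 5) (nat_lit 490) (nat_lit 445) (nat_lit 265))))))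 (XT.nd (nat_lit 468) (nat_lit 380) (nat_lit 0) (XT.nd (nat_lit 234) (nat_lit 1444) (nat_lit 0) (XT.nd (nat_lit 78) (nat_lit 988) (nat_lit 0) (XT.lf (nat_lit 0) (nat_lit 2215553281) (nat_lit 532) (nat_lit 8754241744) (nat_lit 76) (nat_lit 21806405881) (nat_lit 222) (nat_lit 5) (nat_lit 229) (nat_lit 5) (nat_lit 223) (nat_lit 5) (nat_lit 491) (nat_lit 445) (nat_lit 264)) (XT.nd (nat_lit 78) (nat_lit 456) (nat_lit 0) (XT.lf (nat_lit 0) (nat_lit 11873334193) (nat_lit 608) (nat_lit 13113681731) (nat_lit 76) (nat_lit 8379489205) (nat_lit 215) (nat_lit 5) (nat_lit 223) (nat_lit 5) (nat_lit 216) (nat_lit 5) (nat_lit 492) (nat_lit 445) (nat_lit 263)) (XT.lf (nat_lit 0) (nat_lit 16410264612) (nat_lit 456) (nat_lit 5644662325) (nat_lit 532) (nat_lit 11914910303) (nat_lit 209) (nat_lit 5) (nat_lit 215) (nat_lit 5) (nat_lit 216) (nat_lit 5) (nat_lit 493) (nat_lit 445) (nat_lit 262)))) (XT.nd (nat_lit 78) (nat_lit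 988) (nat_lit 0) (XT.lf (nat_lit 0) (nat_lit 12472455589) (nat_lit 456) (nat_lit 20327199093) (nat_lit 532) (nat_lit 1786461208) (nat_lit 203) (nat_lit 5) (nat_lit 209) (nat_lit 5) (nat_lit 210) (nat_lit 5) (nat_lit 494) (nat_lit 445) (nat_lit 261)) (XT.nd (nat_lit 78) (nat_lit 456) (nat_lit 0) (XT.lf (nat_lit 0) (nat_lit 8435545079) (nat_lit 456) (nat_lit 303827378) (nat_lit 532) (nat_lit 26476249600) (nat_lit 196) (nat_lit 5) (nat_lit 202) (nat_lit 5) (nat_lit 203) (nat_lit 5) (nat_lit 495) (nat_lit 445) (nat_lit 260)) (XT.lf (nat_lit 0) (nat_lit 4246038562) (nat_lit 456) (nat_lit 15615872244) (nat_lit 532) (nat_lit 15995762716) (nat_lit 190) (nat_lit 5) (nat_lit 196) (nat_lit 5) (nat_lit 197) (nat_lit 5) (nat_lit 496) (nat_lit 445) (nat_lit 259))))) (XT.nd (nat_lit 58656) (nat_lit 0) (nat_lit 23104) (XT.nd (nat_lit 58500) (nat_lit 0) (nat_lit 23028) (XT.lf (nat_lit 0) (nat_lit 11748840) (nat_lit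 380) (nat_lit 31517641652) (nat_lit 456) (nat_lit 4985371022) (nat_lit 185) (nat_lit 5) (nat_lit 190) (nat_lit 5) (nat_lit 191) (nat_lit 5) (nat_lit 497) (nat_lit 445) (nat_lit 258)) (XT.nd (nat_lit 78) (nat_lit 0) (nat_lit 0) (XT.lf (nat_lit 0) (nat_lit 2292278984) (nat_lit 0) (nat_lit 2292278984) (nat_lit 1748) (nat_lit 3415584676) (nat_lit 488) (nat_lit 5) (nat_lit 488) (nat_lit 3) (nat_lit 511) (nat_lit 3) (nat_lit 446) (nat_lit 446) (nat_lit 308)) (XT.lf (nat_lit 76) (nat_lit 401919984) (nat_lit 0) (nat_lit 9341124366) (nat_lit 1824) (nat_lit 6488481023) (nat_lit 489) (nat_lit 5) (nat_lit 488) (nat_lit 5) (nat_lit 512) (nat_lit 5) (nat_lit 447) (nat_lit 446) (nat_lit 307)))) (XT.nd (nat_lit 156) (nat_lit 0) (nat_lit 76) (XT.nd (nat_lit 78) (nat_lit 0) (nat_lit 0) (XT.lf (nat_lit 0) (nat_lit 10441542720) (nat_lit 1748) (nat_lit 3791302256) (nat_lit 1824) (nat_lit 2234712062) (nat_lit 489) (nat_lit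 5) (nat_lit 512) (nat_lit 5) (nat_lit 513) (nat_lit 5) (nat_lit 448) (nat_lit 446) (nat_lit 306)) (XT.lf (nat_lit 76) (nat_lit 8650994826) (nat_lit 0) (nat_lit 2613960229) (nat_lit 1824) (nat_lit 5443636795) (nat_lit 490) (nat_lit 5) (nat_lit 489) (nat_lit 5) (nat_lit 513) (nat_lit 5) (nat_lit 449) (nat_lit 446) (nat_lit 305))) (XT.nd (nat_lit 78) (nat_lit 0) (nat_lit 76) (XT.lf (nat_lit 76) (nat_lit 4552579274) (nat_lit 0) (nat_lit 7662378181) (nat_lit 1824) (nat_lit 4739863833) (nat_lit 491) (nat_lit 5) (nat_lit 490) (nat_lit 5) (nat_lit 514) (nat_lit 5) (nat_lit 450) (nat_lit 446) (nat_lit 304)) (XT.lf (nat_lit 76) (nat_lit 394938378) (nat_lit 0) (nat_lit 12887551729) (nat_lit 1824) (nat_lit 3924168199) (nat_lit 492) (nat_lit 5) (nat_lit 491) (nat_lit 5) (nat_lit 515) (nat_lit 5) (nat_lit 451) (nat_lit 446) (nat_lit 303))))))) (XT.nd (nat_lit 1014) (nat_lit 8284) (nat_lit 0) (XT.nd (nat_lit 468)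 (nat_lit 2584) (nat_lit 0) (XT.nd (nat_lit 234) (nat_lit 1596) (nat_lit 0) (XT.nd (nat_lit 78) (nat_lit 0) (nat_lit 76) (XT.lf (nat_lit 76) (nat_lit 13685490434) (nat_lit 0) (nat_lit 817991821) (nat_lit 1824) (nat_lit 2960140771) (nat_lit 492) (nat_lit 5) (nat_lit 491) (nat_lit 5) (nat_lit 515) (nat_lit 5) (nat_lit 452) (nat_lit 446) (nat_lit 302)) (XT.nd (nat_lit 78) (nat_lit 0) (nat_lit 76) (XT.lf (nat_lit 76) (nat_lit 9689704420) (nat_lit 0) (nat_lit 6196628583) (nat_lit 1824) (nat_lit 1839460330) (nat_lit 493) (nat_lit 5) (nat_lit 492) (nat_lit 5) (nat_lit 516) (nat_lit 5) (nat_lit 453) (nat_lit 446) (nat_lit 301)) (XT.lf (nat_lit 76) (nat_lit 5637205806) (nat_lit 0) (nat_lit 11769052896) (nat_lit 1824) (nat_lit 587659447) (nat_lit 494) (nat_lit 5) (nat_lit 493) (nat_lit 5) (nat_lit 517) (nat_lit 5) (nat_lit 454) (nat_lit 446) (nat_lit 300)))) (XT.nd (nat_lit 78) (nat_lit 0) (nat_lit 0) (XT.lf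 (nat_lit 0) (nat_lit 790971169) (nat_lit 1824) (nat_lit 16746176167) (nat_lit 1900) (nat_lit 730879818) (nat_lit 470) (nat_lit 5) (nat_lit 494) (nat_lit 5) (nat_lit 495) (nat_lit 5) (nat_lit 455) (nat_lit 446) (nat_lit 299)) (XT.nd (nat_lit 78) (nat_lit 0) (nat_lit 76) (XT.lf (nat_lit 0) (nat_lit 2353849866) (nat_lit 1824) (nat_lit 2654704525) (nat_lit 1900) (nat_lit 13538710983) (nat_lit 470) (nat_lit 5) (nat_lit 494) (nat_lit 5) (nat_lit 495) (nat_lit 5) (nat_lit 456) (nat_lit 446) (nat_lit 298)) (XT.lf (nat_lit 0) (nat_lit 4081575066) (nat_lit 1824) (nat_lit 6876844489) (nat_lit 1900) (nat_lit 7874103049) (nat_lit 471) (nat_lit 5) (nat_lit 495) (nat_lit 5) (nat_lit 496) (nat_lit 5) (nat_lit 457) (nat_lit 446) (nat_lit 297))))) (XT.nd (nat_lit 234) (nat_lit 2736) (nat_lit 0) (XT.nd (nat_lit 78) (nat_lit 0) (nat_lit 0) (XT.lf (nat_lit 0) (nat_lit 5966169377) (nat_lit 1824) (nat_lit 11160503993) (nat_lit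 1900) (nat_lit 1997564470) (nat_lit 472) (nat_lit 5) (nat_lit 496) (nat_lit 5) (nat_lit 497) (nat_lit 5) (nat_lit 458) (nat_lit 446) (nat_lit 296)) (XT.nd (nat_lit 78) (nat_lit 0) (nat_lit 76) (XT.lf (nat_lit 76) (nat_lit 3888589739) (nat_lit 0) (nat_lit 4152949019) (nat_lit 1900) (nat_lit 11380482035) (nat_lit 473) (nat_lit 5) (nat_lit 472) (nat_lit 5) (nat_lit 497) (nat_lit 5) (nat_lit 459) (nat_lit 446) (nat_lit 295)) (XT.lf (nat_lit 0) (nat_lit 10304178395) (nat_lit 1824) (nat_lit 254399316) (nat_lit 1900) (nat_lit 9167660315) (nat_lit 473) (nat_lit 5) (nat_lit 497) (nat_lit 5) (nat_lit 498) (nat_lit 5) (nat_lit 460) (nat_lit 446) (nat_lit 294)))) (XT.nd (nat_lit 156) (nat_lit 2888) (nat_lit 0) (XT.nd (nat_lit 78) (nat_lit 0) (nat_lit 0) (XT.lf (nat_lit 0) (nat_lit 12772313410) (nat_lit 1824) (nat_lit 4404059631) (nat_lit 1900) (nat_lit 2860457360) (nat_lit 474) (nat_lit 5) (nat_lit 498) (nat_lit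 5) (nat_lit 499) (nat_lit 5) (nat_lit 461) (nat_lit 446) (nat_lit 293)) (XT.lf (nat_lit 76) (nat_lit 11717766502) (nat_lit 0) (nat_lit 3734819223) (nat_lit 1900) (nat_lit 4901393877) (nat_lit 475) (nat_lit 5) (nat_lit 474) (nat_lit 5) (nat_lit 499) (nat_lit 5) (nat_lit 462) (nat_lit 446) (nat_lit 292))) (XT.nd (nat_lit 78) (nat_lit 1140) (nat_lit 0) (XT.lf (nat_lit 0) (nat_lit 7730332809) (nat_lit 1824) (nat_lit 10618730250) (nat_lit 1900) (nat_lit 2328865175) (nat_lit 451) (nat_lit 5) (nat_lit 475) (nat_lit 5) (nat_lit 476) (nat_lit 5) (nat_lit 463) (nat_lit 446) (nat_lit 291)) (XT.lf (nat_lit 0) (nat_lit 436073073) (nat_lit 1140) (nat_lit 17322815926) (nat_lit 76) (nat_lit 3250276683) (nat_lit 436) (nat_lit 5) (nat_lit 451) (nat_lit 5) (nat_lit 437) (nat_lit 5) (nat_lit 464) (nat_lit 446) (nat_lit 290)))))) (XT.nd (nat_lit 468) (nat_lit 3952) (nat_lit 0) (XT.nd (nat_lit 234) (nat_lit 2508) (nat_lit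 0) (XT.nd (nat_lit 78) (nat_lit 1824) (nat_lit 0) (XT.lf (nat_lit 0) (nat_lit 3402166754) (nat_lit 1140) (nat_lit 447960750) (nat_lit 76) (nat_lit 17496908752) (nat_lit 436) (nat_lit 5) (nat_lit 451) (nat_lit 5) (nat_lit 437) (nat_lit 5) (nat_lit 465) (nat_lit 446) (nat_lit 289)) (XT.nd (nat_lit 78) (nat_lit 912) (nat_lit 0) (XT.lf (nat_lit 0) (nat_lit 6627967547) (nat_lit 988) (nat_lit 4612199429) (nat_lit 76) (nat_lit 10451462283) (nat_lit 424) (nat_lit 5) (nat_lit 437) (nat_lit 5) (nat_lit 425) (nat_lit 5) (nat_lit 466) (nat_lit 446) (nat_lit 288)) (XT.lf (nat_lit 0) (nat_lit 10076712481) (nat_lit 988) (nat_lit 8833572705) (nat_lit 76) (nat_lit 3133752245) (nat_lit 412) (nat_lit 5) (nat_lit 425) (nat_lit 5) (nat_lit 413) (nat_lit 5) (nat_lit 467) (nat_lit 446) (nat_lit 287)))) (XT.nd (nat_lit 78) (nat_lit 1672) (nat_lit 0) (XT.lf (nat_lit 0) (nat_lit 9262056128) (nat_lit 836) (nat_lit 4524685898)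 (nat_lit 912) (nat_lit 8617120130) (nat_lit 401) (nat_lit 5) (nat_lit 412) (nat_lit 5) (nat_lit 413) (nat_lit 5) (nat_lit 468) (nat_lit 446) (nat_lit 286)) (XT.nd (nat_lit 78) (nat_lit 836) (nat_lit 0) (XT.lf (nat_lit 0) (nat_lit 5241071361) (nat_lit 836) (nat_lit 12519376314) (nat_lit 912) (nat_lit 5010987177) (nat_lit 390) (nat_lit 5) (nat_lit 401) (nat_lit 5) (nat_lit 402) (nat_lit 5) (nat_lit 469) (nat_lit 446) (nat_lit 285)) (XT.lf (nat_lit 0) (nat_lit 1168400204) (nat_lit 836) (nat_lit 20818399976) (nat_lit 912) (nat_lit 1160566548) (nat_lit 379) (nat_lit 5) (nat_lit 390) (nat_lit 5) (nat_lit 391) (nat_lit 5) (nat_lit 470) (nat_lit 446) (nat_lit 284))))) (XT.nd (nat_lit 234) (nat_lit 2280) (nat_lit 0) (XT.nd (nat_lit 78) (nat_lit 1596) (nat_lit 0) (XT.lf (nat_lit 0) (nat_lit 2963476926) (nat_lit 912) (nat_lit 2975471565) (nat_lit 76) (nat_lit 17591366397) (nat_lit 378) (nat_lit 5) (nat_lit 390)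 (nat_lit 5) (nat_lit 379) (nat_lit 5) (nat_lit 471) (nat_lit 446) (nat_lit 283)) (XT.nd (nat_lit 78) (nat_lit 760) (nat_lit 0) (XT.lf (nat_lit 0) (nat_lit 7358221432) (nat_lit 912) (nat_lit 7181944513) (nat_lit 76) (nat_lit 9381177833) (nat_lit 367) (nat_lit 5) (nat_lit 379) (nat_lit 5) (nat_lit 368) (nat_lit 5) (nat_lit 472) (nat_lit 446) (nat_lit 282)) (XT.lf (nat_lit 0) (nat_lit 12026101059) (nat_lit 836) (nat_lit 11443532880) (nat_lit 76) (nat_lit 851644381) (nat_lit 357) (nat_lit 5) (nat_lit 368) (nat_lit 5) (nat_lit 358) (nat_lit 5) (nat_lit 473) (nat_lit 446) (nat_lit 281)))) (XT.nd (nat_lit 156) (nat_lit 836) (nat_lit 0) (XT.nd (nat_lit 78) (nat_lit 684) (nat_lit 0) (XT.lf (nat_lit 0) (nat_lit 8916255304) (nat_lit 760) (nat_lit 8114082619) (nat_lit 836) (nat_lit 7698947177) (nat_lit 347) (nat_lit 5) (nat_lit 357) (nat_lit 5) (nat_lit 358) (nat_lit 5) (nat_lit 474) (nat_lit 446) (nat_lit 280))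 (XT.lf (nat_lit 0) (nat_lit 4900818613) (nat_lit 684) (nat_lit 17436142171) (nat_lit 760) (nat_lit 2809526723) (nat_lit 338) (nat_lit 5) (nat_lit 347) (nat_lit 5) (nat_lit 348) (nat_lit 5) (nat_lit 475) (nat_lit 446) (nat_lit 279))) (XT.nd (nat_lit 78) (nat_lit 0) (nat_lit 0) (XT.lf (nat_lit 0) (nat_lit 811286510) (nat_lit 760) (nat_lit 1545973392) (nat_lit 836) (nat_lit 23215459819) (nat_lit 327) (nat_lit 5) (nat_lit 337) (nat_lit 5) (nat_lit 338) (nat_lit 5) (nat_lit 476) (nat_lit 446) (nat_lit 278)) (XT.lf (nat_lit 0) (nat_lit 7868074989) (nat_lit 836) (nat_lit 3356244028) (nat_lit 76) (nat_lit 14782505117) (nat_lit 327) (nat_lit 5) (nat_lit 338) (nat_lit 5) (nat_lit 328) (nat_lit 5) (nat_lit 477) (nat_lit 446) (nat_lit 277))))))))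
noncomputable def xc106 : XT := (XT.nd (nat_lit 60450) (nat_lit 0) (nat_lit 11248) (XT.nd (nat_lit 936) (nat_lit 3496) (nat_lit 0) (XT.nd (nat_lit 468) (nat_lit 3572) (nat_lit 0) (XT.nd (nat_lit 234) (nat_lit 1368) (nat_lit 0) (XT.nd (nat_lit 78) (nat_lit 1292) (nat_lit 0) (XT.lf (nat_lit 0) (nat_lit 13704353962) (nat_lit 760) (nat_lit 7564766089) (nat_lit 76) (nat_lit 5181629377) (nat_lit 318) (nat_lit 5) (nat_lit 328) (nat_lit 5) (nat_lit 319) (nat_lit 5) (nat_lit 478) (nat_lit 446) (nat_lit 276)) (XT.nd (nat_lit 78) (nat_lit 608) (nat_lit 0) (XT.lf (nat_lit 0) (nat_lit 15047866042) (nat_lit 684) (nat_lit 4856525569) (nat_lit 760) (nat_lit 6999827990) (nat_lit 309) (nat_lit 5) (nat_lit 318) (nat_lit 5) (nat_lit 319) (nat_lit 5) (nat_lit 479) (nat_lit 446) (nat_lit 275)) (XT.lf (nat_lit 0) (nat_lit 11131426223) (nat_lit 608) (nat_lit 15354261640) (nat_lit 684) (nat_lit 881701375) (nat_lit 301) (nat_lit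 5) (nat_lit 309) (nat_lit 5) (nat_lit 310) (nat_lit 5) (nat_lit 480) (nat_lit 446) (nat_lit 274)))) (XT.nd (nat_lit 78) (nat_lit 608) (nat_lit 0) (XT.lf (nat_lit 0) (nat_lit 5512564560) (nat_lit 760) (nat_lit 20705674460) (nat_lit 76) (nat_lit 1622238040) (nat_lit 291) (nat_lit 5) (nat_lit 301) (nat_lit 5) (nat_lit 292) (nat_lit 5) (nat_lit 481) (nat_lit 446) (nat_lit 273)) (XT.nd (nat_lit 78) (nat_lit 0) (nat_lit 0) (XT.lf (nat_lit 0) (nat_lit 3025646530) (nat_lit 608) (nat_lit 9287570759) (nat_lit 684) (nat_lit 16009893384) (nat_lit 283) (nat_lit 5) (nat_lit 291) (nat_lit 5) (nat_lit 292) (nat_lit 5) (nat_lit 482) (nat_lit 446) (nat_lit 272)) (XT.lf (nat_lit 0) (nat_lit 19505575117) (nat_lit 684) (nat_lit 1127031075) (nat_lit 76) (nat_lit 8183863850) (nat_lit 283) (nat_lit 5) (nat_lit 292) (nat_lit 5) (nat_lit 284) (nat_lit 5) (nat_lit 483) (nat_lit 446) (nat_lit 271))))) (XT.nd (nat_lit 234) (nat_lit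 1672) (nat_lit 0) (XT.nd (nat_lit 78) (nat_lit 1292) (nat_lit 0) (XT.lf (nat_lit 0) (nat_lit 24013489191) (nat_lit 608) (nat_lit 3111950964) (nat_lit 684) (nat_lit 2194955749) (nat_lit 275) (nat_lit 5) (nat_lit 283) (nat_lit 5) (nat_lit 284) (nat_lit 5) (nat_lit 484) (nat_lit 446) (nat_lit 270)) (XT.nd (nat_lit 78) (nat_lit 608) (nat_lit 0) (XT.lf (nat_lit 0) (nat_lit 5298577403) (nat_lit 684) (nat_lit 9624674785) (nat_lit 76) (nat_lit 14910891947) (nat_lit 266) (nat_lit 5) (nat_lit 275) (nat_lit 5) (nat_lit 267) (nat_lit 5) (nat_lit 485) (nat_lit 446) (nat_lit 269)) (XT.lf (nat_lit 0) (nat_lit 13165463352) (nat_lit 684) (nat_lit 14008227709) (nat_lit 76) (nat_lit 3185756635) (nat_lit 258) (nat_lit 5) (nat_lit 267) (nat_lit 5) (nat_lit 259) (nat_lit 5) (nat_lit 486) (nat_lit 446) (nat_lit 268)))) (XT.nd (nat_lit 78) (nat_lit 1140) (nat_lit 0) (XT.lf (nat_lit 0) (nat_lit 12393463671) (nat_lit 532) (nat_lit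 9114851399) (nat_lit 608) (nat_lit 9387396508) (nat_lit 251) (nat_lit 5) (nat_lit 258) (nat_lit 5) (nat_lit 259) (nat_lit 5) (nat_lit 487) (nat_lit 446) (nat_lit 267)) (XT.nd (nat_lit 78) (nat_lit 608) (nat_lit 0) (XT.lf (nat_lit 0) (nat_lit 8372622463) (nat_lit 532) (nat_lit 21934485592) (nat_lit 608) (nat_lit 1136842594) (nat_lit 244) (nat_lit 5) (nat_lit 251) (nat_lit 5) (nat_lit 252) (nat_lit 5) (nat_lit 488) (nat_lit 446) (nat_lit 266)) (XT.lf (nat_lit 0) (nat_lit 4239181189) (nat_lit 532) (nat_lit 3234425839) (nat_lit 608) (nat_lit 24529895892) (nat_lit 236) (nat_lit 5) (nat_lit 243) (nat_lit 5) (nat_lit 244) (nat_lit 5) (nat_lit 489) (nat_lit 446) (nat_lit 265)))))) (XT.nd (nat_lit 468) (nat_lit 988) (nat_lit 0) (XT.nd (nat_lit 234) (nat_lit 1444) (nat_lit 0) (XT.nd (nat_lit 78) (nat_lit 1064) (nat_lit 0) (XT.lf (nat_lit 0) (nat_lit 16582785400) (nat_lit 608) (nat_lit 12282615) (nat_lit 76)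 (nat_lit 15979506602) (nat_lit 236) (nat_lit 5) (nat_lit 244) (nat_lit 5) (nat_lit 237) (nat_lit 5) (nat_lit 490) (nat_lit 446) (nat_lit 264)) (XT.nd (nat_lit 78) (nat_lit 532) (nat_lit 0) (XT.lf (nat_lit 0) (nat_lit 26187038101) (nat_lit 608) (nat_lit 4254025280) (nat_lit 76) (nat_lit 2717279453) (nat_lit 229) (nat_lit 5) (nat_lit 237) (nat_lit 5) (nat_lit 230) (nat_lit 5) (nat_lit 491) (nat_lit 446) (nat_lit 263)) (XT.lf (nat_lit 0) (nat_lit 2560047163) (nat_lit 532) (nat_lit 8630821845) (nat_lit 76) (nat_lit 22563040637) (nat_lit 222) (nat_lit 5) (nat_lit 229) (nat_lit 5) (nat_lit 223) (nat_lit 5) (nat_lit 492) (nat_lit 446) (nat_lit 262)))) (XT.nd (nat_lit 78) (nat_lit 912) (nat_lit 0) (XT.lf (nat_lit 0) (nat_lit 12502626669) (nat_lit 608) (nat_lit 13122541267) (nat_lit 76) (nat_lit 8736854242) (nat_lit 215) (nat_lit 5) (nat_lit 223) (nat_lit 5) (nat_lit 216) (nat_lit 5) (nat_lit 493) (nat_lit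 446) (nat_lit 261)) (XT.nd (nat_lit 78) (nat_lit 456) (nat_lit 0) (XT.lf (nat_lit 0) (nat_lit 17280884584) (nat_lit 456) (nat_lit 5703284714) (nat_lit 532) (nat_lit 11999395386) (nat_lit 209) (nat_lit 5) (nat_lit 215) (nat_lit 5) (nat_lit 216) (nat_lit 5) (nat_lit 494) (nat_lit 446) (nat_lit 260)) (XT.lf (nat_lit 0) (nat_lit 13223377027) (nat_lit 456) (nat_lit 20823211843) (nat_lit 532) (nat_lit 1571836284) (nat_lit 203) (nat_lit 5) (nat_lit 209) (nat_lit 5) (nat_lit 210) (nat_lit 5) (nat_lit 495) (nat_lit 446) (nat_lit 259))))) (XT.nd (nat_lit 58734) (nat_lit 0) (nat_lit 22648) (XT.nd (nat_lit 78) (nat_lit 456) (nat_lit 0) (XT.lf (nat_lit 0) (nat_lit 9062722362) (nat_lit 456) (nat_lit 198251531) (nat_lit 532) (nat_lit 27005913837) (nat_lit 196) (nat_lit 5) (nat_lit 202) (nat_lit 5) (nat_lit 203) (nat_lit 5) (nat_lit 496) (nat_lit 446) (nat_lit 258)) (XT.nd (nat_lit 58578) (nat_lit 0) (nat_lit 22648)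 (XT.lf (nat_lit 0) (nat_lit 4745847153) (nat_lit 456) (nat_lit 15966926313) (nat_lit 532) (nat_lit 16215515995) (nat_lit 190) (nat_lit 5) (nat_lit 196) (nat_lit 5) (nat_lit 197) (nat_lit 5) (nat_lit 497) (nat_lit 446) (nat_lit 257)) (XT.lf (nat_lit 0) (nat_lit 2553414122) (nat_lit 0) (nat_lit 2553414122) (nat_lit 1748) (nat_lit 3125587997) (nat_lit 488) (nat_lit 5) (nat_lit 488) (nat_lit 3) (nat_lit 511) (nat_lit 3) (nat_lit 447) (nat_lit 447) (nat_lit 306)))) (XT.nd (nat_lit 156) (nat_lit 0) (nat_lit 76) (XT.nd (nat_lit 78) (nat_lit 0) (nat_lit 76) (XT.lf (nat_lit 76) (nat_lit 810137218) (nat_lit 0) (nat_lit 9972400816) (nat_lit 1824) (nat_lit 5920919128) (nat_lit 489) (nat_lit 5) (nat_lit 488) (nat_lit 5) (nat_lit 512) (nat_lit 5) (nat_lit 448) (nat_lit 447) (nat_lit 305)) (XT.lf (nat_lit 0) (nat_lit 11478015362) (nat_lit 1748) (nat_lit 3503630829) (nat_lit 1824) (nat_lit 1965405142) (nat_lit 489)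 (nat_lit 5) (nat_lit 512) (nat_lit 5) (nat_lit 513) (nat_lit 5) (nat_lit 449) (nat_lit 447) (nat_lit 304))) (XT.nd (nat_lit 78) (nat_lit 0) (nat_lit 76) (XT.lf (nat_lit 76) (nat_lit 9305422757) (nat_lit 0) (nat_lit 3002206404) (nat_lit 1824) (nat_lit 4888060022) (nat_lit 490) (nat_lit 5) (nat_lit 489) (nat_lit 5) (nat_lit 513) (nat_lit 5) (nat_lit 450) (nat_lit 447) (nat_lit 303)) (XT.lf (nat_lit 76) (nat_lit 5093557640) (nat_lit 0) (nat_lit 8172720634) (nat_lit 1824) (nat_lit 4183426218) (nat_lit 491) (nat_lit 5) (nat_lit 490) (nat_lit 5) (nat_lit 514) (nat_lit 5) (nat_lit 451) (nat_lit 447) (nat_lit 302))))))) (XT.nd (nat_lit 936) (nat_lit 9956) (nat_lit 0) (XT.nd (nat_lit 468) (nat_lit 0) (nat_lit 152) (XT.nd (nat_lit 234) (nat_lit 1672) (nat_lit 0) (XT.nd (nat_lit 78) (nat_lit 0) (nat_lit 0) (XT.lf (nat_lit 76) (nat_lit 819956224) (nat_lit 0) (nat_lit 13526847558) (nat_lit 1824) (nat_lit 3362675366)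 (nat_lit 492) (nat_lit 5) (nat_lit 491) (nat_lit 5) (nat_lit 515) (nat_lit 5) (nat_lit 452) (nat_lit 447) (nat_lit 301)) (XT.nd (nat_lit 78) (nat_lit 0) (nat_lit 76) (XT.lf (nat_lit 76) (nat_lit 14497190772) (nat_lit 0) (nat_lit 1087841553) (nat_lit 1824) (nat_lit 2389510160) (nat_lit 492) (nat_lit 5) (nat_lit 491) (nat_lit 5) (nat_lit 515) (nat_lit 5) (nat_lit 453) (nat_lit 447) (nat_lit 300)) (XT.lf (nat_lit 76) (nat_lit 10389368601) (nat_lit 0) (nat_lit 6602280482) (nat_lit 1824) (nat_lit 1253284967) (nat_lit 493) (nat_lit 5) (nat_lit 492) (nat_lit 5) (nat_lit 516) (nat_lit 5) (nat_lit 454) (nat_lit 447) (nat_lit 299)))) (XT.nd (nat_lit 78) (nat_lit 0) (nat_lit 76) (XT.lf (nat_lit 0) (nat_lit 18487055) (nat_lit 1824) (nat_lit 12299074165) (nat_lit 1900) (nat_lit 6203880575) (nat_lit 469) (nat_lit 5) (nat_lit 493) (nat_lit 5) (nat_lit 494) (nat_lit 5) (nat_lit 455) (nat_lit 447) (nat_lit 298)) (XT.nd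 (nat_lit 78) (nat_lit 0) (nat_lit 0) (XT.lf (nat_lit 0) (nat_lit 1414123207) (nat_lit 1824) (nat_lit 16817782308) (nat_lit 1900) (nat_lit 572119877) (nat_lit 470) (nat_lit 5) (nat_lit 494) (nat_lit 5) (nat_lit 495) (nat_lit 5) (nat_lit 456) (nat_lit 447) (nat_lit 297)) (XT.lf (nat_lit 0) (nat_lit 3006429346) (nat_lit 1824) (nat_lit 2316113482) (nat_lit 1900) (nat_lit 13769448686) (nat_lit 470) (nat_lit 5) (nat_lit 494) (nat_lit 5) (nat_lit 495) (nat_lit 5) (nat_lit 457) (nat_lit 447) (nat_lit 296))))) (XT.nd (nat_lit 234) (nat_lit 0) (nat_lit 152) (XT.nd (nat_lit 78) (nat_lit 0) (nat_lit 76) (XT.lf (nat_lit 0) (nat_lit 4770692878) (nat_lit 1824) (nat_lit 6659283854) (nat_lit 1900) (nat_lit 7956137128) (nat_lit 471) (nat_lit 5) (nat_lit 495) (nat_lit 5) (nat_lit 496) (nat_lit 5) (nat_lit 458) (nat_lit 447) (nat_lit 295)) (XT.nd (nat_lit 78) (nat_lit 0) (nat_lit 0) (XT.lf (nat_lit 0) (nat_lit 6697145175)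 (nat_lit 1824) (nat_lit 11066340632) (nat_lit 1900) (nat_lit 1923389828) (nat_lit 472) (nat_lit 5) (nat_lit 496) (nat_lit 5) (nat_lit 497) (nat_lit 5) (nat_lit 459) (nat_lit 447) (nat_lit 294)) (XT.lf (nat_lit 76) (nat_lit 4427266245) (nat_lit 0) (nat_lit 4394172018) (nat_lit 1900) (nat_lit 11172422004) (nat_lit 473) (nat_lit 5) (nat_lit 472) (nat_lit 5) (nat_lit 497) (nat_lit 5) (nat_lit 460) (nat_lit 447) (nat_lit 293)))) (XT.nd (nat_lit 78) (nat_lit 0) (nat_lit 76) (XT.lf (nat_lit 76) (nat_lit 161049078) (nat_lit 0) (nat_lit 10975529504) (nat_lit 1900) (nat_lit 9170934406) (nat_lit 474) (nat_lit 5) (nat_lit 473) (nat_lit 5) (nat_lit 498) (nat_lit 5) (nat_lit 461) (nat_lit 447) (nat_lit 292)) (XT.nd (nat_lit 78) (nat_lit 0) (nat_lit 0) (XT.lf (nat_lit 0) (nat_lit 13664569815) (nat_lit 1824) (nat_lit 4111182971) (nat_lit 1900) (nat_lit 2851955464) (nat_lit 474) (nat_lit 5) (nat_lit 498) (nat_lit 5)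 (nat_lit 499) (nat_lit 5) (nat_lit 462) (nat_lit 447) (nat_lit 291)) (XT.lf (nat_lit 76) (nat_lit 12487402851) (nat_lit 0) (nat_lit 3925734276) (nat_lit 1900) (nat_lit 4541478383) (nat_lit 475) (nat_lit 5) (nat_lit 474) (nat_lit 5) (nat_lit 499) (nat_lit 5) (nat_lit 463) (nat_lit 447) (nat_lit 290)))))) (XT.nd (nat_lit 468) (nat_lit 4788) (nat_lit 0) (XT.nd (nat_lit 234) (nat_lit 2660) (nat_lit 0) (XT.nd (nat_lit 78) (nat_lit 1140) (nat_lit 0) (XT.lf (nat_lit 0) (nat_lit 8383888198) (nat_lit 1824) (nat_lit 11000386055) (nat_lit 1900) (nat_lit 1904254321) (nat_lit 451) (nat_lit 5) (nat_lit 475) (nat_lit 5) (nat_lit 476) (nat_lit 5) (nat_lit 464) (nat_lit 447) (nat_lit 289)) (XT.nd (nat_lit 78) (nat_lit 0) (nat_lit 0) (XT.lf (nat_lit 0) (nat_lit 925309489) (nat_lit 1140) (nat_lit 17411344663) (nat_lit 76) (nat_lit 3293222753) (nat_lit 436) (nat_lit 5) (nat_lit 451) (nat_lit 5) (nat_lit 437) (nat_lit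 5) (nat_lit 465) (nat_lit 447) (nat_lit 288)) (XT.lf (nat_lit 0) (nat_lit 3966517410) (nat_lit 1140) (nat_lit 42801766) (nat_lit 76) (nat_lit 17968842975) (nat_lit 436) (nat_lit 5) (nat_lit 451) (nat_lit 5) (nat_lit 437) (nat_lit 5) (nat_lit 466) (nat_lit 447) (nat_lit 287)))) (XT.nd (nat_lit 78) (nat_lit 1748) (nat_lit 0) (XT.lf (nat_lit 0) (nat_lit 7278043636) (nat_lit 988) (nat_lit 4329432952) (nat_lit 76) (nat_lit 10725838480) (nat_lit 424) (nat_lit 5) (nat_lit 437) (nat_lit 5) (nat_lit 425) (nat_lit 5) (nat_lit 467) (nat_lit 447) (nat_lit 286)) (XT.nd (nat_lit 78) (nat_lit 836) (nat_lit 0) (XT.lf (nat_lit 0) (nat_lit 10819626049) (nat_lit 988) (nat_lit 8675254952) (nat_lit 76) (nat_lit 3201628096) (nat_lit 412) (nat_lit 5) (nat_lit 425) (nat_lit 5) (nat_lit 413) (nat_lit 5) (nat_lit 468) (nat_lit 447) (nat_lit 285)) (XT.lf (nat_lit 0) (nat_lit 9956374803) (nat_lit 836) (nat_lit 4674452228) (nat_lit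 912) (nat_lit 8436505206) (nat_lit 401) (nat_lit 5) (nat_lit 412) (nat_lit 5) (nat_lit 413) (nat_lit 5) (nat_lit 469) (nat_lit 447) (nat_lit 284))))) (XT.nd (nat_lit 234) (nat_lit 3040) (nat_lit 0) (XT.nd (nat_lit 78) (nat_lit 912) (nat_lit 0) (XT.lf (nat_lit 0) (nat_lit 5816599076) (nat_lit 836) (nat_lit 12897233881) (nat_lit 912) (nat_lit 4732298427) (nat_lit 390) (nat_lit 5) (nat_lit 401) (nat_lit 5) (nat_lit 402) (nat_lit 5) (nat_lit 470) (nat_lit 447) (nat_lit 283)) (XT.nd (nat_lit 78) (nat_lit 76) (nat_lit 0) (XT.lf (nat_lit 0) (nat_lit 1623285453) (nat_lit 836) (nat_lit 21434152405) (nat_lit 912) (nat_lit 776095143) (nat_lit 379) (nat_lit 5) (nat_lit 390) (nat_lit 5) (nat_lit 391) (nat_lit 5) (nat_lit 471) (nat_lit 447) (nat_lit 282)) (XT.lf (nat_lit 0) (nat_lit 3454118476) (nat_lit 912) (nat_lit 2651759330) (nat_lit 76) (nat_lit 18122279370) (nat_lit 378) (nat_lit 5) (nat_lit 390) (nat_lit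 5) (nat_lit 379) (nat_lit 5) (nat_lit 472) (nat_lit 447) (nat_lit 281)))) (XT.nd (nat_lit 156) (nat_lit 1444) (nat_lit 0) (XT.nd (nat_lit 78) (nat_lit 760) (nat_lit 0) (XT.lf (nat_lit 0) (nat_lit 7971730364) (nat_lit 912) (nat_lit 6983329883) (nat_lit 76) (nat_lit 9676037129) (nat_lit 367) (nat_lit 5) (nat_lit 379) (nat_lit 5) (nat_lit 368) (nat_lit 5) (nat_lit 473) (nat_lit 447) (nat_lit 280)) (XT.lf (nat_lit 0) (nat_lit 12771003369) (nat_lit 836) (nat_lit 11371925688) (nat_lit 76) (nat_lit 900274673) (nat_lit 357) (nat_lit 5) (nat_lit 368) (nat_lit 5) (nat_lit 358) (nat_lit 5) (nat_lit 474) (nat_lit 447) (nat_lit 279))) (XT.nd (nat_lit 78) (nat_lit 684) (nat_lit 0) (XT.lf (nat_lit 0) (nat_lit 9591924667) (nat_lit 760) (nat_lit 8324904918) (nat_lit 836) (nat_lit 7546792773) (nat_lit 347) (nat_lit 5) (nat_lit 357) (nat_lit 5) (nat_lit 358) (nat_lit 5) (nat_lit 475) (nat_lit 447) (nat_lit 278)) (XT.lf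 (nat_lit 0) (nat_lit 5456613331) (nat_lit 684) (nat_lit 17917958038) (nat_lit 760) (nat_lit 2518931928) (nat_lit 338) (nat_lit 5) (nat_lit 347) (nat_lit 5) (nat_lit 348) (nat_lit 5) (nat_lit 476) (nat_lit 447) (nat_lit 277))))))))
noncomputable def xc107 : XT := (XT.nd (nat_lit 60528) (nat_lit 0) (nat_lit 10792) (XT.nd (nat_lit 936) (nat_lit 4180) (nat_lit 0) (XT.nd (nat_lit 468) (nat_lit 3040) (nat_lit 0) (XT.nd (nat_lit 234) (nat_lit 2052) (nat_lit 0) (XT.nd (nat_lit 78) (nat_lit 684) (nat_lit 0) (XT.lf (nat_lit 0) (nat_lit 1242628092) (nat_lit 760) (nat_lit 1547180460) (nat_lit 836) (nat_lit 23542828730) (nat_lit 327) (nat_lit 5) (nat_lit 337) (nat_lit 5) (nat_lit 338) (nat_lit 5) (nat_lit 477) (nat_lit 447) (nat_lit 276)) (XT.nd (nat_lit 78) (nat_lit 684) (nat_lit 0) (XT.lf (nat_lit 0) (nat_lit 8455694074) (nat_lit 836) (nat_lit 3055015106) (nat_lit 76) (nat_lit 15269261525) (nat_lit 327) (nat_lit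 5) (nat_lit 338) (nat_lit 5) (nat_lit 328) (nat_lit 5) (nat_lit 478) (nat_lit 447) (nat_lit 275)) (XT.lf (nat_lit 0) (nat_lit 14459722804) (nat_lit 760) (nat_lit 7389743844) (nat_lit 76) (nat_lit 5387894660) (nat_lit 318) (nat_lit 5) (nat_lit 328) (nat_lit 5) (nat_lit 319) (nat_lit 5) (nat_lit 479) (nat_lit 447) (nat_lit 274)))) (XT.nd (nat_lit 78) (nat_lit 1368) (nat_lit 0) (XT.lf (nat_lit 0) (nat_lit 15894745843) (nat_lit 684) (nat_lit 4943556867) (nat_lit 760) (nat_lit 6866282805) (nat_lit 309) (nat_lit 5) (nat_lit 318) (nat_lit 5) (nat_lit 319) (nat_lit 5) (nat_lit 480) (nat_lit 447) (nat_lit 273)) (XT.nd (nat_lit 78) (nat_lit 760) (nat_lit 0) (XT.lf (nat_lit 0) (nat_lit 11860673504) (nat_lit 608) (nat_lit 15749491612) (nat_lit 684) (nat_lit 571623311) (nat_lit 301) (nat_lit 5) (nat_lit 309) (nat_lit 5) (nat_lit 310) (nat_lit 5) (nat_lit 481) (nat_lit 447) (nat_lit 272)) (XT.lf (nat_lit 0) (nat_lit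 6003380177) (nat_lit 760) (nat_lit 20927508124) (nat_lit 76) (nat_lit 1738271114) (nat_lit 291) (nat_lit 5) (nat_lit 301) (nat_lit 5) (nat_lit 292) (nat_lit 5) (nat_lit 482) (nat_lit 447) (nat_lit 271))))) (XT.nd (nat_lit 234) (nat_lit 1824) (nat_lit 0) (XT.nd (nat_lit 78) (nat_lit 608) (nat_lit 0) (XT.lf (nat_lit 0) (nat_lit 3509273734) (nat_lit 608) (nat_lit 9491850650) (nat_lit 684) (nat_lit 16165286890) (nat_lit 283) (nat_lit 5) (nat_lit 291) (nat_lit 5) (nat_lit 292) (nat_lit 5) (nat_lit 483) (nat_lit 447) (nat_lit 270)) (XT.nd (nat_lit 78) (nat_lit 608) (nat_lit 0) (XT.lf (nat_lit 0) (nat_lit 20400444592) (nat_lit 684) (nat_lit 773688788) (nat_lit 76) (nat_lit 8500614866) (nat_lit 283) (nat_lit 5) (nat_lit 292) (nat_lit 5) (nat_lit 284) (nat_lit 5) (nat_lit 484) (nat_lit 447) (nat_lit 269)) (XT.lf (nat_lit 0) (nat_lit 25114765985) (nat_lit 608) (nat_lit 3127592018) (nat_lit 684) (nat_lit 1951565470)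 (nat_lit 275) (nat_lit 5) (nat_lit 283) (nat_lit 5) (nat_lit 284) (nat_lit 5) (nat_lit 485) (nat_lit 447) (nat_lit 268)))) (XT.nd (nat_lit 78) (nat_lit 1140) (nat_lit 0) (XT.lf (nat_lit 0) (nat_lit 5756807002) (nat_lit 684) (nat_lit 9529235552) (nat_lit 76) (nat_lit 15437120265) (nat_lit 266) (nat_lit 5) (nat_lit 275) (nat_lit 5) (nat_lit 267) (nat_lit 5) (nat_lit 486) (nat_lit 447) (nat_lit 267)) (XT.nd (nat_lit 78) (nat_lit 532) (nat_lit 0) (XT.lf (nat_lit 0) (nat_lit 13853988210) (nat_lit 684) (nat_lit 14045199592) (nat_lit 76) (nat_lit 3365152500) (nat_lit 258) (nat_lit 5) (nat_lit 267) (nat_lit 5) (nat_lit 259) (nat_lit 5) (nat_lit 487) (nat_lit 447) (nat_lit 266)) (XT.lf (nat_lit 0) (nat_lit 13142324349) (nat_lit 532) (nat_lit 9298698914) (nat_lit 608) (nat_lit 9375791452) (nat_lit 251) (nat_lit 5) (nat_lit 258) (nat_lit 5) (nat_lit 259) (nat_lit 5) (nat_lit 488) (nat_lit 447) (nat_lit 265))))))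 (XT.nd (nat_lit 468) (nat_lit 1444) (nat_lit 0) (XT.nd (nat_lit 234) (nat_lit 1064) (nat_lit 0) (XT.nd (nat_lit 78) (nat_lit 1140) (nat_lit 0) (XT.lf (nat_lit 0) (nat_lit 8999842942) (nat_lit 532) (nat_lit 22498570810) (nat_lit 608) (nat_lit 883195087) (nat_lit 244) (nat_lit 5) (nat_lit 251) (nat_lit 5) (nat_lit 252) (nat_lit 5) (nat_lit 489) (nat_lit 447) (nat_lit 264)) (XT.nd (nat_lit 78) (nat_lit 532) (nat_lit 0) (XT.lf (nat_lit 0) (nat_lit 4740028125) (nat_lit 532) (nat_lit 3235920865) (nat_lit 608) (nat_lit 24982078754) (nat_lit 236) (nat_lit 5) (nat_lit 243) (nat_lit 5) (nat_lit 244) (nat_lit 5) (nat_lit 490) (nat_lit 447) (nat_lit 263)) (XT.lf (nat_lit 0) (nat_lit 359669403) (nat_lit 532) (nat_lit 16993569765) (nat_lit 608) (nat_lit 16193096206) (nat_lit 229) (nat_lit 5) (nat_lit 236) (nat_lit 5) (nat_lit 237) (nat_lit 5) (nat_lit 491) (nat_lit 447) (nat_lit 262)))) (XT.nd (nat_lit 78) (nat_lit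 1064) (nat_lit 0) (XT.lf (nat_lit 0) (nat_lit 27238376464) (nat_lit 608) (nat_lit 4015314803) (nat_lit 76) (nat_lit 2894070726) (nat_lit 229) (nat_lit 5) (nat_lit 237) (nat_lit 5) (nat_lit 230) (nat_lit 5) (nat_lit 492) (nat_lit 447) (nat_lit 261)) (XT.nd (nat_lit 78) (nat_lit 532) (nat_lit 0) (XT.lf (nat_lit 0) (nat_lit 2898915958) (nat_lit 532) (nat_lit 8525860034) (nat_lit 76) (nat_lit 23336493812) (nat_lit 222) (nat_lit 5) (nat_lit 229) (nat_lit 5) (nat_lit 223) (nat_lit 5) (nat_lit 493) (nat_lit 447) (nat_lit 260)) (XT.lf (nat_lit 0) (nat_lit 13135121295) (nat_lit 608) (nat_lit 13153741385) (nat_lit 76) (nat_lit 9098856524) (nat_lit 215) (nat_lit 5) (nat_lit 223) (nat_lit 5) (nat_lit 216) (nat_lit 5) (nat_lit 494) (nat_lit 447) (nat_lit 259))))) (XT.nd (nat_lit 58812) (nat_lit 0) (nat_lit 22192) (XT.nd (nat_lit 78) (nat_lit 988) (nat_lit 0) (XT.lf (nat_lit 0) (nat_lit 18155906497) (nat_lit 456)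 (nat_lit 5770021412) (nat_lit 532) (nat_lit 12102084169) (nat_lit 209) (nat_lit 5) (nat_lit 215) (nat_lit 5) (nat_lit 216) (nat_lit 5) (nat_lit 495) (nat_lit 447) (nat_lit 258)) (XT.nd (nat_lit 78) (nat_lit 532) (nat_lit 0) (XT.lf (nat_lit 0) (nat_lit 13975199245) (nat_lit 456) (nat_lit 21340637746) (nat_lit 532) (nat_lit 1366169465) (nat_lit 203) (nat_lit 5) (nat_lit 209) (nat_lit 5) (nat_lit 210) (nat_lit 5) (nat_lit 496) (nat_lit 447) (nat_lit 257)) (XT.lf (nat_lit 0) (nat_lit 9687239465) (nat_lit 456) (nat_lit 96092122) (nat_lit 532) (nat_lit 27566658459) (nat_lit 196) (nat_lit 5) (nat_lit 202) (nat_lit 5) (nat_lit 203) (nat_lit 5) (nat_lit 497) (nat_lit 447) (nat_lit 256)))) (XT.nd (nat_lit 156) (nat_lit 0) (nat_lit 76) (XT.nd (nat_lit 78) (nat_lit 0) (nat_lit 0) (XT.lf (nat_lit 0) (nat_lit 2811340675) (nat_lit 0) (nat_lit 2811340675) (nat_lit 1748) (nat_lit 2849420469) (nat_lit 488) (nat_lit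 5) (nat_lit 488) (nat_lit 3) (nat_lit 511) (nat_lit 3) (nat_lit 448) (nat_lit 448) (nat_lit 304)) (XT.lf (nat_lit 76) (nat_lit 1207859785) (nat_lit 0) (nat_lit 10602464271) (nat_lit 1824) (nat_lit 5380084711) (nat_lit 489) (nat_lit 5) (nat_lit 488) (nat_lit 5) (nat_lit 512) (nat_lit 5) (nat_lit 449) (nat_lit 448) (nat_lit 303))) (XT.nd (nat_lit 78) (nat_lit 0) (nat_lit 0) (XT.lf (nat_lit 0) (nat_lit 12504066031) (nat_lit 1748) (nat_lit 3230371863) (nat_lit 1824) (nat_lit 1707326782) (nat_lit 489) (nat_lit 5) (nat_lit 512) (nat_lit 5) (nat_lit 513) (nat_lit 5) (nat_lit 450) (nat_lit 448) (nat_lit 302)) (XT.lf (nat_lit 76) (nat_lit 9956814760) (nat_lit 0) (nat_lit 3384314607) (nat_lit 1824) (nat_lit 4357082937) (nat_lit 490) (nat_lit 5) (nat_lit 489) (nat_lit 5) (nat_lit 513) (nat_lit 5) (nat_lit 451) (nat_lit 448) (nat_lit 301))))))) (XT.nd (nat_lit 1014) (nat_lit 9956) (nat_lit 0) (XT.nd (nat_lit 468)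 (nat_lit 0) (nat_lit 76) (XT.nd (nat_lit 234) (nat_lit 1596) (nat_lit 0) (XT.nd (nat_lit 78) (nat_lit 0) (nat_lit 76) (XT.lf (nat_lit 76) (nat_lit 5627551087) (nat_lit 0) (nat_lit 8682273172) (nat_lit 1824) (nat_lit 3650399897) (nat_lit 491) (nat_lit 5) (nat_lit 490) (nat_lit 5) (nat_lit 514) (nat_lit 5) (nat_lit 452) (nat_lit 448) (nat_lit 300)) (XT.nd (nat_lit 78) (nat_lit 0) (nat_lit 0) (XT.lf (nat_lit 76) (nat_lit 1234006974) (nat_lit 0) (nat_lit 14170818011) (nat_lit 1824) (nat_lit 2823327633) (nat_lit 492) (nat_lit 5) (nat_lit 491) (nat_lit 5) (nat_lit 515) (nat_lit 5) (nat_lit 453) (nat_lit 448) (nat_lit 299)) (XT.lf (nat_lit 76) (nat_lit 15310215295) (nat_lit 0) (nat_lit 1351704981) (nat_lit 1824) (nat_lit 1839614888) (nat_lit 492) (nat_lit 5) (nat_lit 491) (nat_lit 5) (nat_lit 515) (nat_lit 5) (nat_lit 454) (nat_lit 448) (nat_lit 298)))) (XT.nd (nat_lit 78) (nat_lit 1748) (nat_lit 0) (XT.lf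 (nat_lit 76) (nat_lit 11086545980) (nat_lit 0) (nat_lit 7007487214) (nat_lit 1824) (nat_lit 686340983) (nat_lit 493) (nat_lit 5) (nat_lit 492) (nat_lit 5) (nat_lit 516) (nat_lit 5) (nat_lit 455) (nat_lit 448) (nat_lit 297)) (XT.nd (nat_lit 78) (nat_lit 0) (nat_lit 76) (XT.lf (nat_lit 0) (nat_lit 599527866) (nat_lit 1824) (nat_lit 12267999629) (nat_lit 1900) (nat_lit 6197895289) (nat_lit 469) (nat_lit 5) (nat_lit 493) (nat_lit 5) (nat_lit 494) (nat_lit 5) (nat_lit 456) (nat_lit 448) (nat_lit 296)) (XT.lf (nat_lit 0) (nat_lit 2021560479) (nat_lit 1824) (nat_lit 16916265118) (nat_lit 1900) (nat_lit 418969274) (nat_lit 470) (nat_lit 5) (nat_lit 494) (nat_lit 5) (nat_lit 495) (nat_lit 5) (nat_lit 457) (nat_lit 448) (nat_lit 295))))) (XT.nd (nat_lit 234) (nat_lit 0) (nat_lit 152) (XT.nd (nat_lit 78) (nat_lit 0) (nat_lit 76) (XT.lf (nat_lit 0) (nat_lit 3645179096) (nat_lit 1824) (nat_lit 1991372946) (nat_lit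 1900) (nat_lit 14017178555) (nat_lit 470) (nat_lit 5) (nat_lit 494) (nat_lit 5) (nat_lit 495) (nat_lit 5) (nat_lit 458) (nat_lit 448) (nat_lit 294)) (XT.nd (nat_lit 78) (nat_lit 0) (nat_lit 76) (XT.lf (nat_lit 0) (nat_lit 5447955017) (nat_lit 1824) (nat_lit 6459528040) (nat_lit 1900) (nat_lit 8049483309) (nat_lit 471) (nat_lit 5) (nat_lit 495) (nat_lit 5) (nat_lit 496) (nat_lit 5) (nat_lit 459) (nat_lit 448) (nat_lit 293)) (XT.lf (nat_lit 0) (nat_lit 7418363721) (nat_lit 1824) (nat_lit 10993977491) (nat_lit 1900) (nat_lit 1854687926) (nat_lit 472) (nat_lit 5) (nat_lit 496) (nat_lit 5) (nat_lit 497) (nat_lit 5) (nat_lit 460) (nat_lit 448) (nat_lit 292)))) (XT.nd (nat_lit 156) (nat_lit 0) (nat_lit 152) (XT.nd (nat_lit 78) (nat_lit 0) (nat_lit 76) (XT.lf (nat_lit 76) (nat_lit 4957877440) (nat_lit 0) (nat_lit 4635936408) (nat_lit 1900) (nat_lit 10989662255) (nat_lit 473) (nat_lit 5) (nat_lit 472) (nat_lit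 5) (nat_lit 497) (nat_lit 5) (nat_lit 461) (nat_lit 448) (nat_lit 291)) (XT.lf (nat_lit 76) (nat_lit 567956743) (nat_lit 0) (nat_lit 11397580848) (nat_lit 1900) (nat_lit 8941259551) (nat_lit 474) (nat_lit 5) (nat_lit 473) (nat_lit 5) (nat_lit 498) (nat_lit 5) (nat_lit 462) (nat_lit 448) (nat_lit 290))) (XT.nd (nat_lit 78) (nat_lit 0) (nat_lit 0) (XT.lf (nat_lit 0) (nat_lit 14554370237) (nat_lit 1824) (nat_lit 3833916661) (nat_lit 1900) (nat_lit 2848612613) (nat_lit 474) (nat_lit 5) (nat_lit 498) (nat_lit 5) (nat_lit 499) (nat_lit 5) (nat_lit 463) (nat_lit 448) (nat_lit 289)) (XT.lf (nat_lit 76) (nat_lit 13256127448) (nat_lit 0) (nat_lit 4117849293) (nat_lit 1900) (nat_lit 4199866848) (nat_lit 475) (nat_lit 5) (nat_lit 474) (nat_lit 5) (nat_lit 499) (nat_lit 5) (nat_lit 464) (nat_lit 448) (nat_lit 288)))))) (XT.nd (nat_lit 468) (nat_lit 4788) (nat_lit 0) (XT.nd (nat_lit 234) (nat_lit 1748) (nat_lit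 0) (XT.nd (nat_lit 78) (nat_lit 2052) (nat_lit 0) (XT.lf (nat_lit 0) (nat_lit 9032846078) (nat_lit 1824) (nat_lit 11389869686) (nat_lit 1900) (nat_lit 1495290133) (nat_lit 451) (nat_lit 5) (nat_lit 475) (nat_lit 5) (nat_lit 476) (nat_lit 5) (nat_lit 465) (nat_lit 448) (nat_lit 287)) (XT.nd (nat_lit 78) (nat_lit 912) (nat_lit 0) (XT.lf (nat_lit 0) (nat_lit 1401889796) (nat_lit 1140) (nat_lit 17527279366) (nat_lit 76) (nat_lit 3340589300) (nat_lit 436) (nat_lit 5) (nat_lit 451) (nat_lit 5) (nat_lit 437) (nat_lit 5) (nat_lit 466) (nat_lit 448) (nat_lit 286)) (XT.lf (nat_lit 0) (nat_lit 355140491) (nat_lit 912) (nat_lit 4168426814) (nat_lit 988) (nat_lit 18105141410) (nat_lit 424) (nat_lit 5) (nat_lit 436) (nat_lit 5) (nat_lit 437) (nat_lit 5) (nat_lit 467) (nat_lit 448) (nat_lit 285)))) (XT.nd (nat_lit 78) (nat_lit 1748) (nat_lit 0) (XT.lf (nat_lit 0) (nat_lit 7921719154) (nat_lit 988) (nat_lit 4062358206)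 (nat_lit 76) (nat_lit 11010694347) (nat_lit 424) (nat_lit 5) (nat_lit 437) (nat_lit 5) (nat_lit 425) (nat_lit 5) (nat_lit 468) (nat_lit 448) (nat_lit 284)) (XT.nd (nat_lit 78) (nat_lit 836) (nat_lit 0) (XT.lf (nat_lit 0) (nat_lit 11559534082) (nat_lit 988) (nat_lit 8536488249) (nat_lit 76) (nat_lit 3273040577) (nat_lit 412) (nat_lit 5) (nat_lit 425) (nat_lit 5) (nat_lit 413) (nat_lit 5) (nat_lit 469) (nat_lit 448) (nat_lit 283)) (XT.lf (nat_lit 0) (nat_lit 10647616702) (nat_lit 836) (nat_lit 4827906413) (nat_lit 912) (nat_lit 8275679608) (nat_lit 401) (nat_lit 5) (nat_lit 412) (nat_lit 5) (nat_lit 413) (nat_lit 5) (nat_lit 470) (nat_lit 448) (nat_lit 282))))) (XT.nd (nat_lit 234) (nat_lit 3040) (nat_lit 0) (XT.nd (nat_lit 78) (nat_lit 912) (nat_lit 0) (XT.lf (nat_lit 0) (nat_lit 6385380745) (nat_lit 836) (nat_lit 13286296508) (nat_lit 912) (nat_lit 4469876424) (nat_lit 390) (nat_lit 5) (nat_lit 401)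 (nat_lit 5) (nat_lit 402) (nat_lit 5) (nat_lit 471) (nat_lit 448) (nat_lit 281)) (XT.nd (nat_lit 78) (nat_lit 76) (nat_lit 0) (XT.lf (nat_lit 0) (nat_lit 2067717115) (nat_lit 836) (nat_lit 22068882538) (nat_lit 912) (nat_lit 404158464) (nat_lit 379) (nat_lit 5) (nat_lit 390) (nat_lit 5) (nat_lit 391) (nat_lit 5) (nat_lit 472) (nat_lit 448) (nat_lit 280)) (XT.lf (nat_lit 0) (nat_lit 3936417911) (nat_lit 912) (nat_lit 2342042261) (nat_lit 76) (nat_lit 18668937647) (nat_lit 378) (nat_lit 5) (nat_lit 390) (nat_lit 5) (nat_lit 379) (nat_lit 5) (nat_lit 473) (nat_lit 448) (nat_lit 279)))) (XT.nd (nat_lit 156) (nat_lit 1444) (nat_lit 0) (XT.nd (nat_lit 78) (nat_lit 760) (nat_lit 0) (XT.lf (nat_lit 0) (nat_lit 8581098401) (nat_lit 912) (nat_lit 6802526296) (nat_lit 76) (nat_lit 9978971614) (nat_lit 367) (nat_lit 5) (nat_lit 379) (nat_lit 5) (nat_lit 368) (nat_lit 5) (nat_lit 474) (nat_lit 448) (nat_lit 278))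 (XT.lf (nat_lit 0) (nat_lit 13516202730) (nat_lit 836) (nat_lit 11321987994) (nat_lit 76) (nat_lit 949038932) (nat_lit 357) (nat_lit 5) (nat_lit 368) (nat_lit 5) (nat_lit 358) (nat_lit 5) (nat_lit 475) (nat_lit 448) (nat_lit 277))) (XT.nd (nat_lit 78) (nat_lit 684) (nat_lit 0) (XT.lf (nat_lit 0) (nat_lit 10264432813) (nat_lit 760) (nat_lit 8543923268) (nat_lit 836) (nat_lit 7412066554) (nat_lit 347) (nat_lit 5) (nat_lit 357) (nat_lit 5) (nat_lit 358) (nat_lit 5) (nat_lit 476) (nat_lit 448) (nat_lit 276)) (XT.lf (nat_lit 0) (nat_lit 6005616811) (nat_lit 684) (nat_lit 18416597355) (nat_lit 760) (nat_lit 2241138970) (nat_lit 338) (nat_lit 5) (nat_lit 347) (nat_lit 5) (nat_lit 348) (nat_lit 5) (nat_lit 477) (nat_lit 448) (nat_lit 275))))))))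
noncomputable def xc108 : XT := (XT.nd (nat_lit 60606) (nat_lit 0) (nat_lit 10260) (XT.nd (nat_lit 936) (nat_lit 3648) (nat_lit 0) (XT.nd (nat_lit 468) (nat_lit 3040) (nat_lit 0) (XT.nd (nat_lit 234) (nat_lit 2052) (nat_lit 0) (XT.nd (nat_lit 78) (nat_lit 684) (nat_lit 0) (XT.lf (nat_lit 0) (nat_lit 1663546286) (nat_lit 760) (nat_lit 1551016806) (nat_lit 836) (nat_lit 23901206265) (nat_lit 327) (nat_lit 5) (nat_lit 337) (nat_lit 5) (nat_lit 338) (nat_lit 5) (nat_lit 478) (nat_lit 448) (nat_lit 274)) (XT.nd (nat_lit 78) (nat_lit 684) (nat_lit 0) (XT.lf (nat_lit 0) (nat_lit 9040759784) (nat_lit 836) (nat_lit 2767820954) (nat_lit 76) (nat_lit 15768136105) (nat_lit 327) (nat_lit 5) (nat_lit 338) (nat_lit 5) (nat_lit 328) (nat_lit 5) (nat_lit 479) (nat_lit 448) (nat_lit 273)) (XT.lf (nat_lit 0) (nat_lit 15217992029) (nat_lit 760) (nat_lit 7232545380) (nat_lit 76) (nat_lit 5597430831) (nat_lit 318) (nat_lit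 5) (nat_lit 328) (nat_lit 5) (nat_lit 319) (nat_lit 5) (nat_lit 480) (nat_lit 448) (nat_lit 272)))) (XT.nd (nat_lit 78) (nat_lit 1368) (nat_lit 0) (XT.lf (nat_lit 0) (nat_lit 16744331945) (nat_lit 684) (nat_lit 5036566684) (nat_lit 760) (nat_lit 6748451868) (nat_lit 309) (nat_lit 5) (nat_lit 318) (nat_lit 5) (nat_lit 319) (nat_lit 5) (nat_lit 481) (nat_lit 448) (nat_lit 271)) (XT.nd (nat_lit 78) (nat_lit 760) (nat_lit 0) (XT.lf (nat_lit 0) (nat_lit 12589106109) (nat_lit 608) (nat_lit 16160332588) (nat_lit 684) (nat_lit 271561052) (nat_lit 301) (nat_lit 5) (nat_lit 309) (nat_lit 5) (nat_lit 310) (nat_lit 5) (nat_lit 482) (nat_lit 448) (nat_lit 270)) (XT.lf (nat_lit 0) (nat_lit 6490238751) (nat_lit 760) (nat_lit 21178920352) (nat_lit 76) (nat_lit 1853918100) (nat_lit 291) (nat_lit 5) (nat_lit 301) (nat_lit 5) (nat_lit 292) (nat_lit 5) (nat_lit 483) (nat_lit 448) (nat_lit 269))))) (XT.nd (nat_lit 234)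 (nat_lit 1824) (nat_lit 0) (XT.nd (nat_lit 78) (nat_lit 608) (nat_lit 0) (XT.lf (nat_lit 0) (nat_lit 3984858109) (nat_lit 608) (nat_lit 9706526774) (nat_lit 684) (nat_lit 16343992979) (nat_lit 283) (nat_lit 5) (nat_lit 291) (nat_lit 5) (nat_lit 292) (nat_lit 5) (nat_lit 484) (nat_lit 448) (nat_lit 268)) (XT.nd (nat_lit 78) (nat_lit 608) (nat_lit 0) (XT.lf (nat_lit 0) (nat_lit 21304381977) (nat_lit 684) (nat_lit 431970411) (nat_lit 76) (nat_lit 8822779227) (nat_lit 283) (nat_lit 5) (nat_lit 292) (nat_lit 5) (nat_lit 284) (nat_lit 5) (nat_lit 485) (nat_lit 448) (nat_lit 267)) (XT.lf (nat_lit 0) (nat_lit 26227217465) (nat_lit 608) (nat_lit 3148163604) (nat_lit 684) (nat_lit 1718625063) (nat_lit 275) (nat_lit 5) (nat_lit 283) (nat_lit 5) (nat_lit 284) (nat_lit 5) (nat_lit 486) (nat_lit 448) (nat_lit 266)))) (XT.nd (nat_lit 78) (nat_lit 1140) (nat_lit 0) (XT.lf (nat_lit 0) (nat_lit 6211604037) (nat_lit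 684) (nat_lit 9452986615) (nat_lit 76) (nat_lit 15974606160) (nat_lit 266) (nat_lit 5) (nat_lit 275) (nat_lit 5) (nat_lit 267) (nat_lit 5) (nat_lit 487) (nat_lit 448) (nat_lit 265)) (XT.nd (nat_lit 78) (nat_lit 532) (nat_lit 0) (XT.lf (nat_lit 0) (nat_lit 14546317215) (nat_lit 684) (nat_lit 14105282181) (nat_lit 76) (nat_lit 3545118448) (nat_lit 258) (nat_lit 5) (nat_lit 267) (nat_lit 5) (nat_lit 259) (nat_lit 5) (nat_lit 488) (nat_lit 448) (nat_lit 264)) (XT.lf (nat_lit 0) (nat_lit 13892006247) (nat_lit 532) (nat_lit 9493205148) (nat_lit 608) (nat_lit 9380670672) (nat_lit 251) (nat_lit 5) (nat_lit 258) (nat_lit 5) (nat_lit 259) (nat_lit 5) (nat_lit 489) (nat_lit 448) (nat_lit 263)))))) (XT.nd (nat_lit 468) (nat_lit 912) (nat_lit 0) (XT.nd (nat_lit 234) (nat_lit 1064) (nat_lit 0) (XT.nd (nat_lit 78) (nat_lit 1140) (nat_lit 0) (XT.lf (nat_lit 0) (nat_lit 9624293697) (nat_lit 532) (nat_lit 23084971662)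 (nat_lit 608) (nat_lit 638456341) (nat_lit 244) (nat_lit 5) (nat_lit 251) (nat_lit 5) (nat_lit 252) (nat_lit 5) (nat_lit 490) (nat_lit 448) (nat_lit 262)) (XT.nd (nat_lit 78) (nat_lit 532) (nat_lit 0) (XT.lf (nat_lit 0) (nat_lit 5234450195) (nat_lit 532) (nat_lit 3242944999) (nat_lit 608) (nat_lit 25464113446) (nat_lit 236) (nat_lit 5) (nat_lit 243) (nat_lit 5) (nat_lit 244) (nat_lit 5) (nat_lit 491) (nat_lit 448) (nat_lit 261)) (XT.lf (nat_lit 0) (nat_lit 721565739) (nat_lit 532) (nat_lit 17409649658) (nat_lit 608) (nat_lit 16416346360) (nat_lit 229) (nat_lit 5) (nat_lit 236) (nat_lit 5) (nat_lit 237) (nat_lit 5) (nat_lit 492) (nat_lit 448) (nat_lit 260)))) (XT.nd (nat_lit 78) (nat_lit 1064) (nat_lit 0) (XT.lf (nat_lit 0) (nat_lit 28306001149) (nat_lit 608) (nat_lit 3790471923) (nat_lit 76) (nat_lit 3070696684) (nat_lit 229) (nat_lit 5) (nat_lit 237) (nat_lit 5) (nat_lit 230) (nat_lit 5) (nat_lit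 493) (nat_lit 448) (nat_lit 259)) (XT.nd (nat_lit 78) (nat_lit 532) (nat_lit 0) (XT.lf (nat_lit 0) (nat_lit 3232907076) (nat_lit 532) (nat_lit 8438637941) (nat_lit 76) (nat_lit 24127607532) (nat_lit 222) (nat_lit 5) (nat_lit 229) (nat_lit 5) (nat_lit 223) (nat_lit 5) (nat_lit 494) (nat_lit 448) (nat_lit 258)) (XT.lf (nat_lit 0) (nat_lit 13771814038) (nat_lit 608) (nat_lit 13206685119) (nat_lit 76) (nat_lit 9465984398) (nat_lit 215) (nat_lit 5) (nat_lit 223) (nat_lit 5) (nat_lit 216) (nat_lit 5) (nat_lit 495) (nat_lit 448) (nat_lit 257))))) (XT.nd (nat_lit 58890) (nat_lit 0) (nat_lit 21660) (XT.nd (nat_lit 78) (nat_lit 456) (nat_lit 0) (XT.lf (nat_lit 0) (nat_lit 19036709034) (nat_lit 456) (nat_lit 5844751007) (nat_lit 532) (nat_lit 12222623291) (nat_lit 209) (nat_lit 5) (nat_lit 215) (nat_lit 5) (nat_lit 216) (nat_lit 5) (nat_lit 496) (nat_lit 448) (nat_lit 256)) (XT.nd (nat_lit 58734) (nat_lit 0)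 (nat_lit 21660) (XT.lf (nat_lit 0) (nat_lit 14729190737) (nat_lit 456) (nat_lit 21879744189) (nat_lit 532) (nat_lit 1168845654) (nat_lit 203) (nat_lit 5) (nat_lit 209) (nat_lit 5) (nat_lit 210) (nat_lit 5) (nat_lit 497) (nat_lit 448) (nat_lit 255)) (XT.lf (nat_lit 0) (nat_lit 3066596277) (nat_lit 0) (nat_lit 3066596277) (nat_lit 1748) (nat_lit 2586203707) (nat_lit 488) (nat_lit 5) (nat_lit 488) (nat_lit 3) (nat_lit 511) (nat_lit 3) (nat_lit 449) (nat_lit 449) (nat_lit 302)))) (XT.nd (nat_lit 156) (nat_lit 0) (nat_lit 76) (XT.nd (nat_lit 78) (nat_lit 0) (nat_lit 76) (XT.lf (nat_lit 76) (nat_lit 1596078283) (nat_lit 0) (nat_lit 11232435108) (nat_lit 1824) (nat_lit 4864267919) (nat_lit 489) (nat_lit 5) (nat_lit 488) (nat_lit 5) (nat_lit 512) (nat_lit 5) (nat_lit 450) (nat_lit 449) (nat_lit 301)) (XT.lf (nat_lit 0) (nat_lit 13521765266) (nat_lit 1748) (nat_lit 2970634994) (nat_lit 1824) (nat_lit 1459705493)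 (nat_lit 489) (nat_lit 5) (nat_lit 512) (nat_lit 5) (nat_lit 513) (nat_lit 5) (nat_lit 451) (nat_lit 449) (nat_lit 300))) (XT.nd (nat_lit 78) (nat_lit 0) (nat_lit 76) (XT.lf (nat_lit 76) (nat_lit 10606381038) (nat_lit 0) (nat_lit 3761121649) (nat_lit 1824) (nat_lit 3849074636) (nat_lit 490) (nat_lit 5) (nat_lit 489) (nat_lit 5) (nat_lit 513) (nat_lit 5) (nat_lit 452) (nat_lit 449) (nat_lit 299)) (XT.lf (nat_lit 76) (nat_lit 6155682659) (nat_lit 0) (nat_lit 9191936314) (nat_lit 1824) (nat_lit 3139185052) (nat_lit 491) (nat_lit 5) (nat_lit 490) (nat_lit 5) (nat_lit 514) (nat_lit 5) (nat_lit 453) (nat_lit 449) (nat_lit 298))))))) (XT.nd (nat_lit 936) (nat_lit 9956) (nat_lit 0) (XT.nd (nat_lit 468) (nat_lit 0) (nat_lit 152) (XT.nd (nat_lit 234) (nat_lit 1672) (nat_lit 0) (XT.nd (nat_lit 78) (nat_lit 0) (nat_lit 0) (XT.lf (nat_lit 76) (nat_lit 1638123106) (nat_lit 0) (nat_lit 14820435932) (nat_lit 1824)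 (nat_lit 2304551174) (nat_lit 492) (nat_lit 5) (nat_lit 491) (nat_lit 5) (nat_lit 515) (nat_lit 5) (nat_lit 454) (nat_lit 449) (nat_lit 297)) (XT.nd (nat_lit 78) (nat_lit 0) (nat_lit 76) (XT.lf (nat_lit 76) (nat_lit 16125925562) (nat_lit 0) (nat_lit 1610210868) (nat_lit 1824) (nat_lit 1308904026) (nat_lit 492) (nat_lit 5) (nat_lit 491) (nat_lit 5) (nat_lit 515) (nat_lit 5) (nat_lit 455) (nat_lit 449) (nat_lit 296)) (XT.lf (nat_lit 76) (nat_lit 11782509616) (nat_lit 0) (nat_lit 7412959562) (nat_lit 1824) (nat_lit 137091894) (nat_lit 493) (nat_lit 5) (nat_lit 492) (nat_lit 5) (nat_lit 516) (nat_lit 5) (nat_lit 456) (nat_lit 449) (nat_lit 295)))) (XT.nd (nat_lit 78) (nat_lit 0) (nat_lit 76) (XT.lf (nat_lit 0) (nat_lit 1164677619) (nat_lit 1824) (nat_lit 12258957177) (nat_lit 1900) (nat_lit 6202757868) (nat_lit 469) (nat_lit 5) (nat_lit 493) (nat_lit 5) (nat_lit 494) (nat_lit 5) (nat_lit 457) (nat_lit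 449) (nat_lit 294)) (XT.nd (nat_lit 78) (nat_lit 0) (nat_lit 0) (XT.lf (nat_lit 0) (nat_lit 2614786779) (nat_lit 1824) (nat_lit 17041011382) (nat_lit 1900) (nat_lit 271000884) (nat_lit 470) (nat_lit 5) (nat_lit 494) (nat_lit 5) (nat_lit 495) (nat_lit 5) (nat_lit 458) (nat_lit 449) (nat_lit 293)) (XT.lf (nat_lit 0) (nat_lit 4271601930) (nat_lit 1824) (nat_lit 1679520260) (nat_lit 1900) (nat_lit 14281832292) (nat_lit 470) (nat_lit 5) (nat_lit 494) (nat_lit 5) (nat_lit 495) (nat_lit 5) (nat_lit 459) (nat_lit 449) (nat_lit 292))))) (XT.nd (nat_lit 234) (nat_lit 0) (nat_lit 152) (XT.nd (nat_lit 78) (nat_lit 0) (nat_lit 76) (XT.lf (nat_lit 0) (nat_lit 6114873121) (nat_lit 1824) (nat_lit 6276714456) (nat_lit 1900) (nat_lit 8153972868) (nat_lit 471) (nat_lit 5) (nat_lit 495) (nat_lit 5) (nat_lit 496) (nat_lit 5) (nat_lit 460) (nat_lit 449) (nat_lit 291)) (XT.nd (nat_lit 78) (nat_lit 0) (nat_lit 0) (XT.lf (nat_lit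 0) (nat_lit 8131351235) (nat_lit 1824) (nat_lit 10942654992) (nat_lit 1900) (nat_lit 1791181051) (nat_lit 472) (nat_lit 5) (nat_lit 496) (nat_lit 5) (nat_lit 497) (nat_lit 5) (nat_lit 461) (nat_lit 449) (nat_lit 290)) (XT.lf (nat_lit 76) (nat_lit 5481572014) (nat_lit 0) (nat_lit 4878642768) (nat_lit 1900) (nat_lit 10831151153) (nat_lit 473) (nat_lit 5) (nat_lit 472) (nat_lit 5) (nat_lit 497) (nat_lit 5) (nat_lit 462) (nat_lit 449) (nat_lit 289)))) (XT.nd (nat_lit 78) (nat_lit 0) (nat_lit 76) (XT.lf (nat_lit 76) (nat_lit 963990820) (nat_lit 0) (nat_lit 11826967467) (nat_lit 1900) (nat_lit 8733672202) (nat_lit 474) (nat_lit 5) (nat_lit 473) (nat_lit 5) (nat_lit 498) (nat_lit 5) (nat_lit 463) (nat_lit 449) (nat_lit 288)) (XT.nd (nat_lit 78) (nat_lit 0) (nat_lit 0) (XT.lf (nat_lit 0) (nat_lit 15443318552) (nat_lit 1824) (nat_lit 3571328544) (nat_lit 1900) (nat_lit 2850272787) (nat_lit 474) (nat_lit 5)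 (nat_lit 498) (nat_lit 5) (nat_lit 499) (nat_lit 5) (nat_lit 464) (nat_lit 449) (nat_lit 287)) (XT.lf (nat_lit 76) (nat_lit 14025290686) (nat_lit 0) (nat_lit 4311460169) (nat_lit 1900) (nat_lit 3875437850) (nat_lit 475) (nat_lit 5) (nat_lit 474) (nat_lit 5) (nat_lit 499) (nat_lit 5) (nat_lit 465) (nat_lit 449) (nat_lit 286)))))) (XT.nd (nat_lit 468) (nat_lit 4788) (nat_lit 0) (XT.nd (nat_lit 234) (nat_lit 1748) (nat_lit 0) (XT.nd (nat_lit 78) (nat_lit 2052) (nat_lit 0) (XT.lf (nat_lit 0) (nat_lit 9678457941) (nat_lit 1824) (nat_lit 11787623887) (nat_lit 1900) (nat_lit 1100812597) (nat_lit 451) (nat_lit 5) (nat_lit 475) (nat_lit 5) (nat_lit 476) (nat_lit 5) (nat_lit 466) (nat_lit 449) (nat_lit 285)) (XT.nd (nat_lit 78) (nat_lit 912) (nat_lit 0) (XT.lf (nat_lit 0) (nat_lit 1867003350) (nat_lit 1140) (nat_lit 17670021456) (nat_lit 76) (nat_lit 3392329144) (nat_lit 436) (nat_lit 5) (nat_lit 451) (nat_lit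 5) (nat_lit 437) (nat_lit 5) (nat_lit 467) (nat_lit 449) (nat_lit 284)) (XT.lf (nat_lit 0) (nat_lit 742656039) (nat_lit 912) (nat_lit 4329799934) (nat_lit 988) (nat_lit 18226815293) (nat_lit 424) (nat_lit 5) (nat_lit 436) (nat_lit 5) (nat_lit 437) (nat_lit 5) (nat_lit 468) (nat_lit 449) (nat_lit 283)))) (XT.nd (nat_lit 78) (nat_lit 1748) (nat_lit 0) (XT.lf (nat_lit 0) (nat_lit 8560289014) (nat_lit 988) (nat_lit 3810058215) (nat_lit 76) (nat_lit 11306215208) (nat_lit 424) (nat_lit 5) (nat_lit 437) (nat_lit 5) (nat_lit 425) (nat_lit 5) (nat_lit 469) (nat_lit 449) (nat_lit 282)) (XT.nd (nat_lit 78) (nat_lit 836) (nat_lit 0) (XT.lf (nat_lit 0) (nat_lit 12297798332) (nat_lit 988) (nat_lit 8416464175) (nat_lit 76) (nat_lit 3348009660) (nat_lit 412) (nat_lit 5) (nat_lit 425) (nat_lit 5) (nat_lit 413) (nat_lit 5) (nat_lit 470) (nat_lit 449) (nat_lit 281)) (XT.lf (nat_lit 0) (nat_lit 11337061845) (nat_lit 836)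 (nat_lit 4985205306) (nat_lit 912) (nat_lit 8133789987) (nat_lit 401) (nat_lit 5) (nat_lit 412) (nat_lit 5) (nat_lit 413) (nat_lit 5) (nat_lit 471) (nat_lit 449) (nat_lit 280))))) (XT.nd (nat_lit 234) (nat_lit 3040) (nat_lit 0) (XT.nd (nat_lit 78) (nat_lit 912) (nat_lit 0) (XT.lf (nat_lit 0) (nat_lit 6948592367) (nat_lit 836) (nat_lit 13686907847) (nat_lit 912) (nat_lit 4222795455) (nat_lit 390) (nat_lit 5) (nat_lit 401) (nat_lit 5) (nat_lit 402) (nat_lit 5) (nat_lit 472) (nat_lit 449) (nat_lit 279)) (XT.nd (nat_lit 78) (nat_lit 76) (nat_lit 0) (XT.lf (nat_lit 0) (nat_lit 2502765028) (nat_lit 836) (nat_lit 22723130710) (nat_lit 912) (nat_lit 43750904) (nat_lit 379) (nat_lit 5) (nat_lit 390) (nat_lit 5) (nat_lit 391) (nat_lit 5) (nat_lit 473) (nat_lit 449) (nat_lit 278)) (XT.lf (nat_lit 0) (nat_lit 4411448784) (nat_lit 912) (nat_lit 2045379362) (nat_lit 76) (nat_lit 19231824040) (nat_lit 378) (nat_lit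 5) (nat_lit 390) (nat_lit 5) (nat_lit 379) (nat_lit 5) (nat_lit 474) (nat_lit 449) (nat_lit 277)))) (XT.nd (nat_lit 156) (nat_lit 1444) (nat_lit 0) (XT.nd (nat_lit 78) (nat_lit 760) (nat_lit 0) (XT.lf (nat_lit 0) (nat_lit 9187495559) (nat_lit 912) (nat_lit 6638703618) (nat_lit 76) (nat_lit 10290267778) (nat_lit 367) (nat_lit 5) (nat_lit 379) (nat_lit 5) (nat_lit 368) (nat_lit 5) (nat_lit 475) (nat_lit 449) (nat_lit 276)) (XT.lf (nat_lit 0) (nat_lit 14262973815) (nat_lit 836) (nat_lit 11293002649) (nat_lit 76) (nat_lit 998017235) (nat_lit 357) (nat_lit 5) (nat_lit 368) (nat_lit 5) (nat_lit 358) (nat_lit 5) (nat_lit 476) (nat_lit 449) (nat_lit 275))) (XT.nd (nat_lit 78) (nat_lit 684) (nat_lit 0) (XT.lf (nat_lit 0) (nat_lit 10935029955) (nat_lit 760) (nat_lit 8771276128) (nat_lit 836) (nat_lit 7294028889) (nat_lit 347) (nat_lit 5) (nat_lit 357) (nat_lit 5) (nat_lit 358) (nat_lit 5) (nat_lit 477) (nat_lit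 449) (nat_lit 274)) (XT.lf (nat_lit 0) (nat_lit 6548972308) (nat_lit 684) (nat_lit 18932428837) (nat_lit 760) (nat_lit 1975296585) (nat_lit 338) (nat_lit 5) (nat_lit 347) (nat_lit 5) (nat_lit 348) (nat_lit 5) (nat_lit 478) (nat_lit 449) (nat_lit 273))))))))
noncomputable def xc109 : XT := (XT.nd (nat_lit 60684) (nat_lit 0) (nat_lit 8968) (XT.nd (nat_lit 936) (nat_lit 3192) (nat_lit 0) (XT.nd (nat_lit 468) (nat_lit 3040) (nat_lit 0) (XT.nd (nat_lit 234) (nat_lit 2052) (nat_lit 0) (XT.nd (nat_lit 78) (nat_lit 684) (nat_lit 0) (XT.lf (nat_lit 0) (nat_lit 2075069557) (nat_lit 760) (nat_lit 1557412455) (nat_lit 836) (nat_lit 24290306430) (nat_lit 327) (nat_lit 5) (nat_lit 337) (nat_lit 5) (nat_lit 338) (nat_lit 5) (nat_lit 479) (nat_lit 449) (nat_lit 272)) (XT.nd (nat_lit 78) (nat_lit 684) (nat_lit 0) (XT.lf (nat_lit 0) (nat_lit 9624354042) (nat_lit 836) (nat_lit 2493758206) (nat_lit 76) (nat_lit 16279635023)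 (nat_lit 327) (nat_lit 5) (nat_lit 338) (nat_lit 5) (nat_lit 328) (nat_lit 5) (nat_lit 480) (nat_lit 449) (nat_lit 271)) (XT.lf (nat_lit 0) (nat_lit 15980382992) (nat_lit 760) (nat_lit 7092380843) (nat_lit 76) (nat_lit 5810503470) (nat_lit 318) (nat_lit 5) (nat_lit 328) (nat_lit 5) (nat_lit 319) (nat_lit 5) (nat_lit 481) (nat_lit 449) (nat_lit 270)))) (XT.nd (nat_lit 78) (nat_lit 1368) (nat_lit 0) (XT.lf (nat_lit 0) (nat_lit 17598008616) (nat_lit 684) (nat_lit 5135541063) (nat_lit 760) (nat_lit 6645674562) (nat_lit 309) (nat_lit 5) (nat_lit 318) (nat_lit 5) (nat_lit 319) (nat_lit 5) (nat_lit 482) (nat_lit 449) (nat_lit 269)) (XT.nd (nat_lit 78) (nat_lit 684) (nat_lit 0) (XT.lf (nat_lit 0) (nat_lit 19040824) (nat_lit 684) (nat_lit 16567868800) (nat_lit 76) (nat_lit 13298833616) (nat_lit 300) (nat_lit 5) (nat_lit 309) (nat_lit 5) (nat_lit 301) (nat_lit 5) (nat_lit 483) (nat_lit 449) (nat_lit 268)) (XT.lf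 (nat_lit 0) (nat_lit 6974093965) (nat_lit 760) (nat_lit 21459482593) (nat_lit 76) (nat_lit 1969389402) (nat_lit 291) (nat_lit 5) (nat_lit 301) (nat_lit 5) (nat_lit 292) (nat_lit 5) (nat_lit 484) (nat_lit 449) (nat_lit 267))))) (XT.nd (nat_lit 234) (nat_lit 1824) (nat_lit 0) (XT.nd (nat_lit 78) (nat_lit 608) (nat_lit 0) (XT.lf (nat_lit 0) (nat_lit 4453452926) (nat_lit 608) (nat_lit 9931666025) (nat_lit 684) (nat_lit 16545640398) (nat_lit 283) (nat_lit 5) (nat_lit 291) (nat_lit 5) (nat_lit 292) (nat_lit 5) (nat_lit 485) (nat_lit 449) (nat_lit 266)) (XT.nd (nat_lit 78) (nat_lit 608) (nat_lit 0) (XT.lf (nat_lit 0) (nat_lit 22218679849) (nat_lit 684) (nat_lit 100948902) (nat_lit 76) (nat_lit 9150754068) (nat_lit 283) (nat_lit 5) (nat_lit 292) (nat_lit 5) (nat_lit 284) (nat_lit 5) (nat_lit 486) (nat_lit 449) (nat_lit 265)) (XT.lf (nat_lit 0) (nat_lit 27352433933) (nat_lit 608) (nat_lit 3173557542) (nat_lit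 684) (nat_lit 1495429011) (nat_lit 275) (nat_lit 5) (nat_lit 283) (nat_lit 5) (nat_lit 284) (nat_lit 5) (nat_lit 487) (nat_lit 449) (nat_lit 264)))) (XT.nd (nat_lit 78) (nat_lit 1140) (nat_lit 0) (XT.lf (nat_lit 0) (nat_lit 6663851701) (nat_lit 684) (nat_lit 9395237724) (nat_lit 76) (nat_lit 16523947359) (nat_lit 266) (nat_lit 5) (nat_lit 275) (nat_lit 5) (nat_lit 267) (nat_lit 5) (nat_lit 488) (nat_lit 449) (nat_lit 263)) (XT.nd (nat_lit 78) (nat_lit 532) (nat_lit 0) (XT.lf (nat_lit 0) (nat_lit 15243531840) (nat_lit 684) (nat_lit 14187905819) (nat_lit 76) (nat_lit 3725947798) (nat_lit 258) (nat_lit 5) (nat_lit 267) (nat_lit 5) (nat_lit 259) (nat_lit 5) (nat_lit 489) (nat_lit 449) (nat_lit 262)) (XT.lf (nat_lit 0) (nat_lit 14643776489) (nat_lit 532) (nat_lit 9698394617) (nat_lit 608) (nat_lit 9401562444) (nat_lit 251) (nat_lit 5) (nat_lit 258) (nat_lit 5) (nat_lit 259) (nat_lit 5) (nat_lit 490) (nat_lit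 449) (nat_lit 261)))))) (XT.nd (nat_lit 468) (nat_lit 456) (nat_lit 0) (XT.nd (nat_lit 234) (nat_lit 1064) (nat_lit 0) (XT.nd (nat_lit 78) (nat_lit 1140) (nat_lit 0) (XT.lf (nat_lit 0) (nat_lit 10247130781) (nat_lit 532) (nat_lit 23694048031) (nat_lit 608) (nat_lit 401945409) (nat_lit 244) (nat_lit 5) (nat_lit 251) (nat_lit 5) (nat_lit 252) (nat_lit 5) (nat_lit 491) (nat_lit 449) (nat_lit 260)) (XT.nd (nat_lit 78) (nat_lit 532) (nat_lit 0) (XT.lf (nat_lit 0) (nat_lit 5723485989) (nat_lit 532) (nat_lit 3255349296) (nat_lit 608) (nat_lit 25975960622) (nat_lit 236) (nat_lit 5) (nat_lit 243) (nat_lit 5) (nat_lit 244) (nat_lit 5) (nat_lit 492) (nat_lit 449) (nat_lit 259)) (XT.lf (nat_lit 0) (nat_lit 1074164030) (nat_lit 532) (nat_lit 17843592272) (nat_lit 608) (nat_lit 16661365045) (nat_lit 229) (nat_lit 5) (nat_lit 236) (nat_lit 5) (nat_lit 237) (nat_lit 5) (nat_lit 493) (nat_lit 449) (nat_lit 258))))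 (XT.nd (nat_lit 78) (nat_lit 1064) (nat_lit 0) (XT.lf (nat_lit 0) (nat_lit 29391276377) (nat_lit 608) (nat_lit 3578705523) (nat_lit 76) (nat_lit 3247466313) (nat_lit 229) (nat_lit 5) (nat_lit 237) (nat_lit 5) (nat_lit 230) (nat_lit 5) (nat_lit 494) (nat_lit 449) (nat_lit 257)) (XT.nd (nat_lit 78) (nat_lit 532) (nat_lit 0) (XT.lf (nat_lit 0) (nat_lit 3562737761) (nat_lit 532) (nat_lit 8368488668) (nat_lit 76) (nat_lit 24937229805) (nat_lit 222) (nat_lit 5) (nat_lit 229) (nat_lit 5) (nat_lit 223) (nat_lit 5) (nat_lit 495) (nat_lit 449) (nat_lit 256)) (XT.lf (nat_lit 0) (nat_lit 14413679087) (nat_lit 608) (nat_lit 13280830335) (nat_lit 76) (nat_lit 9838720814) (nat_lit 215) (nat_lit 5) (nat_lit 223) (nat_lit 5) (nat_lit 216) (nat_lit 5) (nat_lit 496) (nat_lit 449) (nat_lit 255))))) (XT.nd (nat_lit 58968) (nat_lit 0) (nat_lit 21280) (XT.nd (nat_lit 58812) (nat_lit 0) (nat_lit 21204) (XT.lf (nat_lit 0)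 (nat_lit 19924640677) (nat_lit 456) (nat_lit 5927369391) (nat_lit 532) (nat_lit 12360700423) (nat_lit 209) (nat_lit 5) (nat_lit 215) (nat_lit 5) (nat_lit 216) (nat_lit 5) (nat_lit 497) (nat_lit 449) (nat_lit 254)) (XT.nd (nat_lit 78) (nat_lit 0) (nat_lit 0) (XT.lf (nat_lit 0) (nat_lit 3319698305) (nat_lit 0) (nat_lit 3319698305) (nat_lit 1748) (nat_lit 2335107213) (nat_lit 488) (nat_lit 5) (nat_lit 488) (nat_lit 3) (nat_lit 511) (nat_lit 3) (nat_lit 450) (nat_lit 450) (nat_lit 300)) (XT.lf (nat_lit 76) (nat_lit 1975738089) (nat_lit 0) (nat_lit 11863400911) (nat_lit 1824) (nat_lit 4371851783) (nat_lit 489) (nat_lit 5) (nat_lit 488) (nat_lit 5) (nat_lit 512) (nat_lit 5) (nat_lit 451) (nat_lit 450) (nat_lit 299)))) (XT.nd (nat_lit 156) (nat_lit 0) (nat_lit 76) (XT.nd (nat_lit 78) (nat_lit 0) (nat_lit 0) (XT.lf (nat_lit 0) (nat_lit 14533108914) (nat_lit 1748) (nat_lit 2723579074) (nat_lit 1824) (nat_lit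 1221810267) (nat_lit 489) (nat_lit 5) (nat_lit 512) (nat_lit 5) (nat_lit 513) (nat_lit 5) (nat_lit 452) (nat_lit 450) (nat_lit 298)) (XT.lf (nat_lit 76) (nat_lit 11255293400) (nat_lit 0) (nat_lit 4133430842) (nat_lit 1824) (nat_lit 3362491271) (nat_lit 490) (nat_lit 5) (nat_lit 489) (nat_lit 5) (nat_lit 513) (nat_lit 5) (nat_lit 453) (nat_lit 450) (nat_lit 297))) (XT.nd (nat_lit 78) (nat_lit 0) (nat_lit 76) (XT.lf (nat_lit 76) (nat_lit 6679032600) (nat_lit 0) (nat_lit 9702584541) (nat_lit 1824) (nat_lit 2648266021) (nat_lit 491) (nat_lit 5) (nat_lit 490) (nat_lit 5) (nat_lit 514) (nat_lit 5) (nat_lit 454) (nat_lit 450) (nat_lit 296)) (XT.lf (nat_lit 76) (nat_lit 2033289913) (nat_lit 0) (nat_lit 15476655551) (nat_lit 1824) (nat_lit 1804853428) (nat_lit 492) (nat_lit 5) (nat_lit 491) (nat_lit 5) (nat_lit 515) (nat_lit 5) (nat_lit 455) (nat_lit 450) (nat_lit 295))))))) (XT.nd (nat_lit 1014) (nat_lit 8284)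 (nat_lit 0) (XT.nd (nat_lit 468) (nat_lit 2432) (nat_lit 0) (XT.nd (nat_lit 234) (nat_lit 0) (nat_lit 152) (XT.nd (nat_lit 78) (nat_lit 1748) (nat_lit 0) (XT.lf (nat_lit 76) (nat_lit 16945648100) (nat_lit 0) (nat_lit 1863960438) (nat_lit 1824) (nat_lit 795904855) (nat_lit 492) (nat_lit 5) (nat_lit 491) (nat_lit 5) (nat_lit 515) (nat_lit 5) (nat_lit 456) (nat_lit 450) (nat_lit 294)) (XT.nd (nat_lit 78) (nat_lit 0) (nat_lit 76) (XT.lf (nat_lit 0) (nat_lit 390730950) (nat_lit 1824) (nat_lit 7426035101) (nat_lit 1900) (nat_lit 12085140433) (nat_lit 468) (nat_lit 5) (nat_lit 492) (nat_lit 5) (nat_lit 493) (nat_lit 5) (nat_lit 457) (nat_lit 450) (nat_lit 293)) (XT.lf (nat_lit 0) (nat_lit 1715372417) (nat_lit 1824) (nat_lit 12271289526) (nat_lit 1900) (nat_lit 6218160728) (nat_lit 469) (nat_lit 5) (nat_lit 493) (nat_lit 5) (nat_lit 494) (nat_lit 5) (nat_lit 458) (nat_lit 450) (nat_lit 292)))) (XT.nd (nat_lit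 78) (nat_lit 0) (nat_lit 0) (XT.lf (nat_lit 0) (nat_lit 3195237626) (nat_lit 1824) (nat_lit 17191470972) (nat_lit 1900) (nat_lit 127808950) (nat_lit 470) (nat_lit 5) (nat_lit 494) (nat_lit 5) (nat_lit 495) (nat_lit 5) (nat_lit 459) (nat_lit 450) (nat_lit 291)) (XT.nd (nat_lit 78) (nat_lit 0) (nat_lit 76) (XT.lf (nat_lit 0) (nat_lit 4887135662) (nat_lit 1824) (nat_lit 1379643003) (nat_lit 1900) (nat_lit 14563372736) (nat_lit 470) (nat_lit 5) (nat_lit 494) (nat_lit 5) (nat_lit 495) (nat_lit 5) (nat_lit 460) (nat_lit 450) (nat_lit 290)) (XT.lf (nat_lit 0) (nat_lit 6772896987) (nat_lit 1824) (nat_lit 6110034813) (nat_lit 1900) (nat_lit 8269461183) (nat_lit 471) (nat_lit 5) (nat_lit 495) (nat_lit 5) (nat_lit 496) (nat_lit 5) (nat_lit 461) (nat_lit 450) (nat_lit 289))))) (XT.nd (nat_lit 234) (nat_lit 2736) (nat_lit 0) (XT.nd (nat_lit 78) (nat_lit 0) (nat_lit 0) (XT.lf (nat_lit 0) (nat_lit 8837575306) (nat_lit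 1824) (nat_lit 10911671918) (nat_lit 1900) (nat_lit 1732608524) (nat_lit 472) (nat_lit 5) (nat_lit 496) (nat_lit 5) (nat_lit 497) (nat_lit 5) (nat_lit 462) (nat_lit 450) (nat_lit 288)) (XT.nd (nat_lit 78) (nat_lit 0) (nat_lit 76) (XT.lf (nat_lit 76) (nat_lit 5999453287) (nat_lit 0) (nat_lit 5122681633) (nat_lit 1900) (nat_lit 10695909450) (nat_lit 473) (nat_lit 5) (nat_lit 472) (nat_lit 5) (nat_lit 497) (nat_lit 5) (nat_lit 463) (nat_lit 450) (nat_lit 287)) (XT.lf (nat_lit 76) (nat_lit 1350150034) (nat_lit 0) (nat_lit 12264215169) (nat_lit 1900) (nat_lit 8547171541) (nat_lit 474) (nat_lit 5) (nat_lit 473) (nat_lit 5) (nat_lit 498) (nat_lit 5) (nat_lit 464) (nat_lit 450) (nat_lit 286)))) (XT.nd (nat_lit 156) (nat_lit 2888) (nat_lit 0) (XT.nd (nat_lit 78) (nat_lit 0) (nat_lit 0) (XT.lf (nat_lit 0) (nat_lit 16332970459) (nat_lit 1824) (nat_lit 3322538890) (nat_lit 1900) (nat_lit 2856793126) (nat_lit 474)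 (nat_lit 5) (nat_lit 498) (nat_lit 5) (nat_lit 499) (nat_lit 5) (nat_lit 465) (nat_lit 450) (nat_lit 285)) (XT.lf (nat_lit 76) (nat_lit 14796204383) (nat_lit 0) (nat_lit 4506856757) (nat_lit 1900) (nat_lit 3567132219) (nat_lit 475) (nat_lit 5) (nat_lit 474) (nat_lit 5) (nat_lit 499) (nat_lit 5) (nat_lit 466) (nat_lit 450) (nat_lit 284))) (XT.nd (nat_lit 78) (nat_lit 1140) (nat_lit 0) (XT.lf (nat_lit 0) (nat_lit 10321933067) (nat_lit 1824) (nat_lit 12194092750) (nat_lit 1900) (nat_lit 719720432) (nat_lit 451) (nat_lit 5) (nat_lit 475) (nat_lit 5) (nat_lit 476) (nat_lit 5) (nat_lit 467) (nat_lit 450) (nat_lit 283)) (XT.lf (nat_lit 0) (nat_lit 2321785116) (nat_lit 1140) (nat_lit 17839035955) (nat_lit 76) (nat_lit 3448404009) (nat_lit 436) (nat_lit 5) (nat_lit 451) (nat_lit 5) (nat_lit 437) (nat_lit 5) (nat_lit 468) (nat_lit 450) (nat_lit 282)))))) (XT.nd (nat_lit 468) (nat_lit 3876) (nat_lit 0) (XT.nd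 (nat_lit 234) (nat_lit 2584) (nat_lit 0) (XT.nd (nat_lit 78) (nat_lit 912) (nat_lit 0) (XT.lf (nat_lit 0) (nat_lit 1120163671) (nat_lit 912) (nat_lit 4493929314) (nat_lit 988) (nat_lit 18376334090) (nat_lit 424) (nat_lit 5) (nat_lit 436) (nat_lit 5) (nat_lit 437) (nat_lit 5) (nat_lit 469) (nat_lit 450) (nat_lit 281)) (XT.nd (nat_lit 78) (nat_lit 912) (nat_lit 0) (XT.lf (nat_lit 0) (nat_lit 9195001619) (nat_lit 988) (nat_lit 3571668156) (nat_lit 76) (nat_lit 11612599355) (nat_lit 424) (nat_lit 5) (nat_lit 437) (nat_lit 5) (nat_lit 425) (nat_lit 5) (nat_lit 470) (nat_lit 450) (nat_lit 280)) (XT.lf (nat_lit 0) (nat_lit 13035738057) (nat_lit 988) (nat_lit 8314430133) (nat_lit 76) (nat_lit 3426560862) (nat_lit 412) (nat_lit 5) (nat_lit 425) (nat_lit 5) (nat_lit 413) (nat_lit 5) (nat_lit 471) (nat_lit 450) (nat_lit 279)))) (XT.nd (nat_lit 78) (nat_lit 1748) (nat_lit 0) (XT.lf (nat_lit 0) (nat_lit 12025949874)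 (nat_lit 836) (nat_lit 5146507813) (nat_lit 912) (nat_lit 8010040458) (nat_lit 401) (nat_lit 5) (nat_lit 412) (nat_lit 5) (nat_lit 413) (nat_lit 5) (nat_lit 472) (nat_lit 450) (nat_lit 278)) (XT.nd (nat_lit 78) (nat_lit 912) (nat_lit 0) (XT.lf (nat_lit 0) (nat_lit 7507366096) (nat_lit 836) (nat_lit 14099421429) (nat_lit 912) (nat_lit 3990183192) (nat_lit 390) (nat_lit 5) (nat_lit 401) (nat_lit 5) (nat_lit 402) (nat_lit 5) (nat_lit 473) (nat_lit 450) (nat_lit 277)) (XT.lf (nat_lit 0) (nat_lit 302069657) (nat_lit 912) (nat_lit 23093358426) (nat_lit 76) (nat_lit 2625355006) (nat_lit 378) (nat_lit 5) (nat_lit 390) (nat_lit 5) (nat_lit 379) (nat_lit 5) (nat_lit 474) (nat_lit 450) (nat_lit 276))))) (XT.nd (nat_lit 234) (nat_lit 2280) (nat_lit 0) (XT.nd (nat_lit 78) (nat_lit 1596) (nat_lit 0) (XT.lf (nat_lit 0) (nat_lit 4880240863) (nat_lit 912) (nat_lit 1760879525) (nat_lit 76) (nat_lit 19811435245) (nat_lit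 378) (nat_lit 5) (nat_lit 390) (nat_lit 5) (nat_lit 379) (nat_lit 5) (nat_lit 475) (nat_lit 450) (nat_lit 275)) (XT.nd (nat_lit 78) (nat_lit 760) (nat_lit 0) (XT.lf (nat_lit 0) (nat_lit 9792052659) (nat_lit 912) (nat_lit 6491085136) (nat_lit 76) (nat_lit 10610218167) (nat_lit 367) (nat_lit 5) (nat_lit 379) (nat_lit 5) (nat_lit 368) (nat_lit 5) (nat_lit 476) (nat_lit 450) (nat_lit 274)) (XT.lf (nat_lit 0) (nat_lit 15012556878) (nat_lit 836) (nat_lit 11284309474) (nat_lit 76) (nat_lit 1047287693) (nat_lit 357) (nat_lit 5) (nat_lit 368) (nat_lit 5) (nat_lit 358) (nat_lit 5) (nat_lit 477) (nat_lit 450) (nat_lit 273)))) (XT.nd (nat_lit 156) (nat_lit 836) (nat_lit 0) (XT.nd (nat_lit 78) (nat_lit 684) (nat_lit 0) (XT.lf (nat_lit 0) (nat_lit 11604926605) (nat_lit 760) (nat_lit 9007112274) (nat_lit 836) (nat_lit 7191990426) (nat_lit 347) (nat_lit 5) (nat_lit 357) (nat_lit 5) (nat_lit 358) (nat_lit 5) (nat_lit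 478) (nat_lit 450) (nat_lit 272)) (XT.lf (nat_lit 0) (nat_lit 7087780051) (nat_lit 684) (nat_lit 19465840068) (nat_lit 760) (nat_lit 1720598885) (nat_lit 338) (nat_lit 5) (nat_lit 347) (nat_lit 5) (nat_lit 348) (nat_lit 5) (nat_lit 479) (nat_lit 450) (nat_lit 271))) (XT.nd (nat_lit 78) (nat_lit 0) (nat_lit 0) (XT.lf (nat_lit 0) (nat_lit 2478180237) (nat_lit 760) (nat_lit 1566303878) (nat_lit 836) (nat_lit 24709904468) (nat_lit 327) (nat_lit 5) (nat_lit 337) (nat_lit 5) (nat_lit 338) (nat_lit 5) (nat_lit 480) (nat_lit 450) (nat_lit 270)) (XT.lf (nat_lit 0) (nat_lit 10207524728) (nat_lit 836) (nat_lit 2231972427) (nat_lit 76) (nat_lit 16804271444) (nat_lit 327) (nat_lit 5) (nat_lit 338) (nat_lit 5) (nat_lit 328) (nat_lit 5) (nat_lit 481) (nat_lit 450) (nat_lit 269))))))))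
noncomputable def xc110 : XT := (XT.nd (nat_lit 60840) (nat_lit 0) (nat_lit 5928) (XT.nd (nat_lit 936) (nat_lit 1064) (nat_lit 0) (XT.nd (nat_lit 468) (nat_lit 2964) (nat_lit 0) (XT.nd (nat_lit 234) (nat_lit 1900) (nat_lit 0) (XT.nd (nat_lit 78) (nat_lit 1368) (nat_lit 0) (XT.lf (nat_lit 0) (nat_lit 16748088574) (nat_lit 760) (nat_lit 6968512718) (nat_lit 76) (nat_lit 6027376510) (nat_lit 318) (nat_lit 5) (nat_lit 328) (nat_lit 5) (nat_lit 319) (nat_lit 5) (nat_lit 482) (nat_lit 450) (nat_lit 268)) (XT.nd (nat_lit 78) (nat_lit 684) (nat_lit 0) (XT.lf (nat_lit 0) (nat_lit 18457126848) (nat_lit 684) (nat_lit 5240476726) (nat_lit 760) (nat_lit 6557335436) (nat_lit 309) (nat_lit 5) (nat_lit 318) (nat_lit 5) (nat_lit 319) (nat_lit 5) (nat_lit 483) (nat_lit 450) (nat_lit 267)) (XT.lf (nat_lit 0) (nat_lit 297753523) (nat_lit 684) (nat_lit 16730127222) (nat_lit 76) (nat_lit 13748851966) (nat_lit 300) (nat_lit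 5) (nat_lit 309) (nat_lit 5) (nat_lit 301) (nat_lit 5) (nat_lit 484) (nat_lit 450) (nat_lit 266)))) (XT.nd (nat_lit 78) (nat_lit 1216) (nat_lit 0) (XT.lf (nat_lit 0) (nat_lit 7455866555) (nat_lit 760) (nat_lit 21768828980) (nat_lit 76) (nat_lit 2084888992) (nat_lit 291) (nat_lit 5) (nat_lit 301) (nat_lit 5) (nat_lit 292) (nat_lit 5) (nat_lit 485) (nat_lit 450) (nat_lit 265)) (XT.nd (nat_lit 78) (nat_lit 608) (nat_lit 0) (XT.lf (nat_lit 0) (nat_lit 4916068743) (nat_lit 608) (nat_lit 10167351371) (nat_lit 684) (nat_lit 16769908214) (nat_lit 283) (nat_lit 5) (nat_lit 291) (nat_lit 5) (nat_lit 292) (nat_lit 5) (nat_lit 486) (nat_lit 450) (nat_lit 264)) (XT.lf (nat_lit 0) (nat_lit 223184460) (nat_lit 608) (nat_lit 22922875580) (nat_lit 684) (nat_lit 9263199567) (nat_lit 275) (nat_lit 5) (nat_lit 283) (nat_lit 5) (nat_lit 284) (nat_lit 5) (nat_lit 487) (nat_lit 450) (nat_lit 263))))) (XT.nd (nat_lit 234)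 (nat_lit 1672) (nat_lit 0) (XT.nd (nat_lit 78) (nat_lit 1292) (nat_lit 0) (XT.lf (nat_lit 0) (nat_lit 28491981354) (nat_lit 608) (nat_lit 3203677107) (nat_lit 684) (nat_lit 1281309128) (nat_lit 275) (nat_lit 5) (nat_lit 283) (nat_lit 5) (nat_lit 284) (nat_lit 5) (nat_lit 488) (nat_lit 450) (nat_lit 262)) (XT.nd (nat_lit 78) (nat_lit 608) (nat_lit 0) (XT.lf (nat_lit 0) (nat_lit 7114403073) (nat_lit 684) (nat_lit 9355350593) (nat_lit 76) (nat_lit 17085744593) (nat_lit 266) (nat_lit 5) (nat_lit 275) (nat_lit 5) (nat_lit 267) (nat_lit 5) (nat_lit 489) (nat_lit 450) (nat_lit 261)) (XT.lf (nat_lit 0) (nat_lit 15946690475) (nat_lit 684) (nat_lit 14292556258) (nat_lit 76) (nat_lit 3907926814) (nat_lit 258) (nat_lit 5) (nat_lit 267) (nat_lit 5) (nat_lit 259) (nat_lit 5) (nat_lit 490) (nat_lit 450) (nat_lit 260)))) (XT.nd (nat_lit 78) (nat_lit 1140) (nat_lit 0) (XT.lf (nat_lit 0) (nat_lit 15398868890) (nat_lit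 532) (nat_lit 9914309518) (nat_lit 608) (nat_lit 9438036362) (nat_lit 251) (nat_lit 5) (nat_lit 258) (nat_lit 5) (nat_lit 259) (nat_lit 5) (nat_lit 491) (nat_lit 450) (nat_lit 259)) (XT.nd (nat_lit 78) (nat_lit 608) (nat_lit 0) (XT.lf (nat_lit 0) (nat_lit 10869473796) (nat_lit 532) (nat_lit 24326188371) (nat_lit 608) (nat_lit 173015344) (nat_lit 244) (nat_lit 5) (nat_lit 251) (nat_lit 5) (nat_lit 252) (nat_lit 5) (nat_lit 492) (nat_lit 450) (nat_lit 258)) (XT.lf (nat_lit 0) (nat_lit 6208134566) (nat_lit 532) (nat_lit 3272998413) (nat_lit 608) (nat_lit 26517633419) (nat_lit 236) (nat_lit 5) (nat_lit 243) (nat_lit 5) (nat_lit 244) (nat_lit 5) (nat_lit 493) (nat_lit 450) (nat_lit 257)))))) (XT.nd (nat_lit 59358) (nat_lit 0) (nat_lit 18696) (XT.nd (nat_lit 59124) (nat_lit 0) (nat_lit 20216) (XT.nd (nat_lit 78) (nat_lit 532) (nat_lit 0) (XT.lf (nat_lit 0) (nat_lit 1418342310) (nat_lit 532) (nat_lit 18295624637)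 (nat_lit 608) (nat_lit 16927940180) (nat_lit 229) (nat_lit 5) (nat_lit 236) (nat_lit 5) (nat_lit 237) (nat_lit 5) (nat_lit 494) (nat_lit 450) (nat_lit 256)) (XT.nd (nat_lit 78) (nat_lit 532) (nat_lit 0) (XT.lf (nat_lit 0) (nat_lit 30495557032) (nat_lit 608) (nat_lit 3379270047) (nat_lit 76) (nat_lit 3424679848) (nat_lit 229) (nat_lit 5) (nat_lit 237) (nat_lit 5) (nat_lit 230) (nat_lit 5) (nat_lit 495) (nat_lit 450) (nat_lit 255)) (XT.lf (nat_lit 0) (nat_lit 3889097199) (nat_lit 532) (nat_lit 8314794142) (nat_lit 76) (nat_lit 25766215818) (nat_lit 222) (nat_lit 5) (nat_lit 229) (nat_lit 5) (nat_lit 223) (nat_lit 5) (nat_lit 496) (nat_lit 450) (nat_lit 254)))) (XT.nd (nat_lit 78) (nat_lit 0) (nat_lit 0) (XT.lf (nat_lit 0) (nat_lit 3571145358) (nat_lit 0) (nat_lit 3571145358) (nat_lit 1748) (nat_lit 2095345551) (nat_lit 488) (nat_lit 5) (nat_lit 488) (nat_lit 3) (nat_lit 511) (nat_lit 3) (nat_lit 451)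 (nat_lit 451) (nat_lit 298)) (XT.nd (nat_lit 78) (nat_lit 0) (nat_lit 76) (XT.lf (nat_lit 76) (nat_lit 2347742305) (nat_lit 0) (nat_lit 12496419302) (nat_lit 1824) (nat_lit 3901306730) (nat_lit 489) (nat_lit 5) (nat_lit 488) (nat_lit 5) (nat_lit 512) (nat_lit 5) (nat_lit 452) (nat_lit 451) (nat_lit 297)) (XT.lf (nat_lit 0) (nat_lit 15540023749) (nat_lit 1748) (nat_lit 2488409294) (nat_lit 1824) (nat_lit 992948136) (nat_lit 489) (nat_lit 5) (nat_lit 512) (nat_lit 5) (nat_lit 513) (nat_lit 5) (nat_lit 453) (nat_lit 451) (nat_lit 296))))) (XT.nd (nat_lit 234) (nat_lit 1596) (nat_lit 0) (XT.nd (nat_lit 78) (nat_lit 0) (nat_lit 76) (XT.lf (nat_lit 76) (nat_lit 11904688398) (nat_lit 0) (nat_lit 4502014353) (nat_lit 1824) (nat_lit 2895870861) (nat_lit 490) (nat_lit 5) (nat_lit 489) (nat_lit 5) (nat_lit 513) (nat_lit 5) (nat_lit 454) (nat_lit 451) (nat_lit 295)) (XT.nd (nat_lit 78) (nat_lit 0) (nat_lit 76)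 (XT.lf (nat_lit 76) (nat_lit 7198641452) (nat_lit 0) (nat_lit 10215068560) (nat_lit 1824) (nat_lit 2176206241) (nat_lit 491) (nat_lit 5) (nat_lit 490) (nat_lit 5) (nat_lit 514) (nat_lit 5) (nat_lit 455) (nat_lit 451) (nat_lit 294)) (XT.lf (nat_lit 76) (nat_lit 2420448583) (nat_lit 0) (nat_lit 16140414678) (nat_lit 1824) (nat_lit 1322818165) (nat_lit 492) (nat_lit 5) (nat_lit 491) (nat_lit 5) (nat_lit 515) (nat_lit 5) (nat_lit 456) (nat_lit 451) (nat_lit 293)))) (XT.nd (nat_lit 156) (nat_lit 0) (nat_lit 76) (XT.nd (nat_lit 78) (nat_lit 1748) (nat_lit 0) (XT.lf (nat_lit 76) (nat_lit 17770677710) (nat_lit 0) (nat_lit 2113529213) (nat_lit 1824) (nat_lit 299218053) (nat_lit 492) (nat_lit 5) (nat_lit 491) (nat_lit 5) (nat_lit 515) (nat_lit 5) (nat_lit 457) (nat_lit 451) (nat_lit 292)) (XT.lf (nat_lit 0) (nat_lit 902107584) (nat_lit 1824) (nat_lit 7319283582) (nat_lit 1900) (nat_lit 12267534095) (nat_lit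 468) (nat_lit 5) (nat_lit 492) (nat_lit 5) (nat_lit 493) (nat_lit 5) (nat_lit 458) (nat_lit 451) (nat_lit 291))) (XT.nd (nat_lit 78) (nat_lit 0) (nat_lit 0) (XT.lf (nat_lit 0) (nat_lit 2252981643) (nat_lit 1824) (nat_lit 12304395347) (nat_lit 1900) (nat_lit 6243823398) (nat_lit 469) (nat_lit 5) (nat_lit 493) (nat_lit 5) (nat_lit 494) (nat_lit 5) (nat_lit 459) (nat_lit 451) (nat_lit 290)) (XT.lf (nat_lit 76) (nat_lit 3753218724) (nat_lit 0) (nat_lit 11138323) (nat_lit 1900) (nat_lit 17356088061) (nat_lit 470) (nat_lit 5) (nat_lit 469) (nat_lit 5) (nat_lit 494) (nat_lit 5) (nat_lit 460) (nat_lit 451) (nat_lit 289))))))) (XT.nd (nat_lit 936) (nat_lit 8512) (nat_lit 0) (XT.nd (nat_lit 468) (nat_lit 4408) (nat_lit 0) (XT.nd (nat_lit 234) (nat_lit 0) (nat_lit 152) (XT.nd (nat_lit 78) (nat_lit 0) (nat_lit 76) (XT.lf (nat_lit 0) (nat_lit 5493157474) (nat_lit 1824) (nat_lit 1090875949) (nat_lit 1900) (nat_lit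 14861792888) (nat_lit 470) (nat_lit 5) (nat_lit 494) (nat_lit 5) (nat_lit 495) (nat_lit 5) (nat_lit 461) (nat_lit 451) (nat_lit 288)) (XT.nd (nat_lit 78) (nat_lit 0) (nat_lit 76) (XT.lf (nat_lit 0) (nat_lit 7423418870) (nat_lit 1824) (nat_lit 5958732146) (nat_lit 1900) (nat_lit 8395826788) (nat_lit 471) (nat_lit 5) (nat_lit 495) (nat_lit 5) (nat_lit 496) (nat_lit 5) (nat_lit 462) (nat_lit 451) (nat_lit 287)) (XT.lf (nat_lit 0) (nat_lit 9538449134) (nat_lit 1824) (nat_lit 10900382501) (nat_lit 1900) (nat_lit 1678725758) (nat_lit 472) (nat_lit 5) (nat_lit 496) (nat_lit 5) (nat_lit 497) (nat_lit 5) (nat_lit 463) (nat_lit 451) (nat_lit 286)))) (XT.nd (nat_lit 78) (nat_lit 0) (nat_lit 76) (XT.lf (nat_lit 76) (nat_lit 6512582435) (nat_lit 0) (nat_lit 5368434456) (nat_lit 1900) (nat_lit 10583026495) (nat_lit 473) (nat_lit 5) (nat_lit 472) (nat_lit 5) (nat_lit 497) (nat_lit 5) (nat_lit 464) (nat_lit 451) (nat_lit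 285)) (XT.nd (nat_lit 78) (nat_lit 0) (nat_lit 76) (XT.lf (nat_lit 76) (nat_lit 1727387016) (nat_lit 0) (nat_lit 12709847985) (nat_lit 1900) (nat_lit 8380822217) (nat_lit 474) (nat_lit 5) (nat_lit 473) (nat_lit 5) (nat_lit 498) (nat_lit 5) (nat_lit 465) (nat_lit 451) (nat_lit 284)) (XT.lf (nat_lit 0) (nat_lit 17224837554) (nat_lit 1824) (nat_lit 3086717357) (nat_lit 1900) (nat_lit 2868043300) (nat_lit 474) (nat_lit 5) (nat_lit 498) (nat_lit 5) (nat_lit 499) (nat_lit 5) (nat_lit 466) (nat_lit 451) (nat_lit 283))))) (XT.nd (nat_lit 234) (nat_lit 1824) (nat_lit 0) (XT.nd (nat_lit 78) (nat_lit 2888) (nat_lit 0) (XT.lf (nat_lit 76) (nat_lit 15570145163) (nat_lit 0) (nat_lit 4704323542) (nat_lit 1900) (nat_lit 3273949404) (nat_lit 475) (nat_lit 5) (nat_lit 474) (nat_lit 5) (nat_lit 499) (nat_lit 5) (nat_lit 467) (nat_lit 451) (nat_lit 282)) (XT.nd (nat_lit 78) (nat_lit 1140) (nat_lit 0) (XT.lf (nat_lit 0)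 (nat_lit 10964441835) (nat_lit 1824) (nat_lit 12609722437) (nat_lit 1900) (nat_lit 350967486) (nat_lit 451) (nat_lit 5) (nat_lit 475) (nat_lit 5) (nat_lit 476) (nat_lit 5) (nat_lit 468) (nat_lit 451) (nat_lit 281)) (XT.lf (nat_lit 0) (nat_lit 2767319210) (nat_lit 1140) (nat_lit 18033848711) (nat_lit 76) (nat_lit 3508784201) (nat_lit 436) (nat_lit 5) (nat_lit 451) (nat_lit 5) (nat_lit 437) (nat_lit 5) (nat_lit 469) (nat_lit 451) (nat_lit 280)))) (XT.nd (nat_lit 78) (nat_lit 912) (nat_lit 0) (XT.lf (nat_lit 0) (nat_lit 1488604995) (nat_lit 912) (nat_lit 4661017324) (nat_lit 988) (nat_lit 18553144272) (nat_lit 424) (nat_lit 5) (nat_lit 436) (nat_lit 5) (nat_lit 437) (nat_lit 5) (nat_lit 470) (nat_lit 451) (nat_lit 279)) (XT.nd (nat_lit 78) (nat_lit 912) (nat_lit 0) (XT.lf (nat_lit 0) (nat_lit 9827062372) (nat_lit 988) (nat_lit 3346372348) (nat_lit 76) (nat_lit 11930058014) (nat_lit 424) (nat_lit 5) (nat_lit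 437) (nat_lit 5) (nat_lit 425) (nat_lit 5) (nat_lit 471) (nat_lit 451) (nat_lit 278)) (XT.lf (nat_lit 0) (nat_lit 13774633534) (nat_lit 988) (nat_lit 8229686424) (nat_lit 76) (nat_lit 3508725123) (nat_lit 412) (nat_lit 5) (nat_lit 425) (nat_lit 5) (nat_lit 413) (nat_lit 5) (nat_lit 472) (nat_lit 451) (nat_lit 277)))))) (XT.nd (nat_lit 468) (nat_lit 4332) (nat_lit 0) (XT.nd (nat_lit 234) (nat_lit 1596) (nat_lit 0) (XT.nd (nat_lit 78) (nat_lit 1748) (nat_lit 0) (XT.lf (nat_lit 0) (nat_lit 12715483364) (nat_lit 836) (nat_lit 5311975107) (nat_lit 912) (nat_lit 7903689557) (nat_lit 401) (nat_lit 5) (nat_lit 412) (nat_lit 5) (nat_lit 413) (nat_lit 5) (nat_lit 473) (nat_lit 451) (nat_lit 276)) (XT.nd (nat_lit 78) (nat_lit 912) (nat_lit 0) (XT.lf (nat_lit 0) (nat_lit 8062793467) (nat_lit 836) (nat_lit 14524200987) (nat_lit 912) (nat_lit 3771217628) (nat_lit 390) (nat_lit 5) (nat_lit 401) (nat_lit 5) (nat_lit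 402) (nat_lit 5) (nat_lit 474) (nat_lit 451) (nat_lit 275)) (XT.lf (nat_lit 0) (nat_lit 637780888) (nat_lit 912) (nat_lit 23450371588) (nat_lit 76) (nat_lit 2706694767) (nat_lit 378) (nat_lit 5) (nat_lit 390) (nat_lit 5) (nat_lit 379) (nat_lit 5) (nat_lit 475) (nat_lit 451) (nat_lit 274)))) (XT.nd (nat_lit 78) (nat_lit 1596) (nat_lit 0) (XT.lf (nat_lit 0) (nat_lit 5343783178) (nat_lit 912) (nat_lit 1487698541) (nat_lit 76) (nat_lit 20408282293) (nat_lit 378) (nat_lit 5) (nat_lit 390) (nat_lit 5) (nat_lit 379) (nat_lit 5) (nat_lit 476) (nat_lit 451) (nat_lit 273)) (XT.nd (nat_lit 78) (nat_lit 760) (nat_lit 0) (XT.lf (nat_lit 0) (nat_lit 10395864416) (nat_lit 912) (nat_lit 6358944668) (nat_lit 76) (nat_lit 10939121711) (nat_lit 367) (nat_lit 5) (nat_lit 379) (nat_lit 5) (nat_lit 368) (nat_lit 5) (nat_lit 477) (nat_lit 451) (nat_lit 272)) (XT.lf (nat_lit 0) (nat_lit 15766160889) (nat_lit 836) (nat_lit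 11295302464) (nat_lit 76) (nat_lit 1096926647) (nat_lit 357) (nat_lit 5) (nat_lit 368) (nat_lit 5) (nat_lit 358) (nat_lit 5) (nat_lit 478) (nat_lit 451) (nat_lit 271))))) (XT.nd (nat_lit 234) (nat_lit 2052) (nat_lit 0) (XT.nd (nat_lit 78) (nat_lit 1520) (nat_lit 0) (XT.lf (nat_lit 0) (nat_lit 12275296810) (nat_lit 760) (nat_lit 9251590759) (nat_lit 836) (nat_lit 7105309448) (nat_lit 347) (nat_lit 5) (nat_lit 357) (nat_lit 5) (nat_lit 358) (nat_lit 5) (nat_lit 479) (nat_lit 451) (nat_lit 270)) (XT.nd (nat_lit 78) (nat_lit 836) (nat_lit 0) (XT.lf (nat_lit 0) (nat_lit 7623100391) (nat_lit 684) (nat_lit 20017237615) (nat_lit 760) (nat_lit 1476282647) (nat_lit 338) (nat_lit 5) (nat_lit 347) (nat_lit 5) (nat_lit 348) (nat_lit 5) (nat_lit 480) (nat_lit 451) (nat_lit 269)) (XT.lf (nat_lit 0) (nat_lit 2873817561) (nat_lit 760) (nat_lit 1577633695) (nat_lit 836) (nat_lit 25159834693) (nat_lit 327) (nat_lit 5)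 (nat_lit 337) (nat_lit 5) (nat_lit 338) (nat_lit 5) (nat_lit 481) (nat_lit 451) (nat_lit 268)))) (XT.nd (nat_lit 156) (nat_lit 1368) (nat_lit 0) (XT.nd (nat_lit 78) (nat_lit 684) (nat_lit 0) (XT.lf (nat_lit 0) (nat_lit 10791288471) (nat_lit 836) (nat_lit 1981655207) (nat_lit 76) (nat_lit 17342566210) (nat_lit 327) (nat_lit 5) (nat_lit 338) (nat_lit 5) (nat_lit 328) (nat_lit 5) (nat_lit 482) (nat_lit 451) (nat_lit 267)) (XT.lf (nat_lit 0) (nat_lit 17522276063) (nat_lit 760) (nat_lit 6860253036) (nat_lit 76) (nat_lit 6248312742) (nat_lit 318) (nat_lit 5) (nat_lit 328) (nat_lit 5) (nat_lit 319) (nat_lit 5) (nat_lit 483) (nat_lit 451) (nat_lit 266))) (XT.nd (nat_lit 78) (nat_lit 684) (nat_lit 0) (XT.lf (nat_lit 0) (nat_lit 19323007656) (nat_lit 684) (nat_lit 5351380754) (nat_lit 760) (nat_lit 6482861832) (nat_lit 309) (nat_lit 5) (nat_lit 318) (nat_lit 5) (nat_lit 319) (nat_lit 5) (nat_lit 484) (nat_lit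 451) (nat_lit 265)) (XT.lf (nat_lit 0) (nat_lit 568861144) (nat_lit 684) (nat_lit 16916471002) (nat_lit 76) (nat_lit 14209440195) (nat_lit 300) (nat_lit 5) (nat_lit 309) (nat_lit 5) (nat_lit 301) (nat_lit 5) (nat_lit 485) (nat_lit 451) (nat_lit 264))))))))
noncomputable def xc111 : XT := (XT.nd (nat_lit 60840) (nat_lit 0) (nat_lit 4560) (XT.nd (nat_lit 59826) (nat_lit 0) (nat_lit 19152) (XT.nd (nat_lit 468) (nat_lit 3268) (nat_lit 0) (XT.nd (nat_lit 234) (nat_lit 1292) (nat_lit 0) (XT.nd (nat_lit 78) (nat_lit 1216) (nat_lit 0) (XT.lf (nat_lit 0) (nat_lit 7936446851) (nat_lit 760) (nat_lit 22106653874) (nat_lit 76) (nat_lit 2200614951) (nat_lit 291) (nat_lit 5) (nat_lit 301) (nat_lit 5) (nat_lit 292) (nat_lit 5) (nat_lit 486) (nat_lit 451) (nat_lit 263)) (XT.nd (nat_lit 78) (nat_lit 608) (nat_lit 0) (XT.lf (nat_lit 0) (nat_lit 5373676386) (nat_lit 608) (nat_lit 10413681521) (nat_lit 684) (nat_lit 17016523798)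 (nat_lit 283) (nat_lit 5) (nat_lit 291) (nat_lit 5) (nat_lit 292) (nat_lit 5) (nat_lit 487) (nat_lit 451) (nat_lit 262)) (XT.lf (nat_lit 0) (nat_lit 539563880) (nat_lit 608) (nat_lit 23547370428) (nat_lit 684) (nat_lit 9289655987) (nat_lit 275) (nat_lit 5) (nat_lit 283) (nat_lit 5) (nat_lit 284) (nat_lit 5) (nat_lit 488) (nat_lit 451) (nat_lit 261)))) (XT.nd (nat_lit 78) (nat_lit 1292) (nat_lit 0) (XT.lf (nat_lit 0) (nat_lit 29647404762) (nat_lit 608) (nat_lit 3238436527) (nat_lit 684) (nat_lit 1075632318) (nat_lit 275) (nat_lit 5) (nat_lit 283) (nat_lit 5) (nat_lit 284) (nat_lit 5) (nat_lit 489) (nat_lit 451) (nat_lit 260)) (XT.nd (nat_lit 78) (nat_lit 608) (nat_lit 0) (XT.lf (nat_lit 0) (nat_lit 7564083465) (nat_lit 684) (nat_lit 9332736284) (nat_lit 76) (nat_lit 17660602551) (nat_lit 266) (nat_lit 5) (nat_lit 275) (nat_lit 5) (nat_lit 267) (nat_lit 5) (nat_lit 490) (nat_lit 451) (nat_lit 259)) (XT.lf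 (nat_lit 0) (nat_lit 16656830921) (nat_lit 684) (nat_lit 14418772162) (nat_lit 76) (nat_lit 4091335399) (nat_lit 258) (nat_lit 5) (nat_lit 267) (nat_lit 5) (nat_lit 259) (nat_lit 5) (nat_lit 491) (nat_lit 451) (nat_lit 258))))) (XT.nd (nat_lit 234) (nat_lit 1596) (nat_lit 0) (XT.nd (nat_lit 78) (nat_lit 1140) (nat_lit 0) (XT.lf (nat_lit 0) (nat_lit 16158487051) (nat_lit 532) (nat_lit 10141009294) (nat_lit 608) (nat_lit 9489701390) (nat_lit 251) (nat_lit 5) (nat_lit 258) (nat_lit 5) (nat_lit 259) (nat_lit 5) (nat_lit 492) (nat_lit 451) (nat_lit 257)) (XT.nd (nat_lit 78) (nat_lit 532) (nat_lit 0) (XT.lf (nat_lit 0) (nat_lit 48306927) (nat_lit 608) (nat_lit 24933178446) (nat_lit 76) (nat_lit 11443777792) (nat_lit 243) (nat_lit 5) (nat_lit 251) (nat_lit 5) (nat_lit 244) (nat_lit 5) (nat_lit 493) (nat_lit 451) (nat_lit 256)) (XT.lf (nat_lit 0) (nat_lit 6689358336) (nat_lit 532) (nat_lit 3295769984) (nat_lit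 608) (nat_lit 27089195958) (nat_lit 236) (nat_lit 5) (nat_lit 243) (nat_lit 5) (nat_lit 244) (nat_lit 5) (nat_lit 494) (nat_lit 451) (nat_lit 255)))) (XT.nd (nat_lit 78) (nat_lit 1064) (nat_lit 0) (XT.lf (nat_lit 0) (nat_lit 1754938539) (nat_lit 532) (nat_lit 18765998321) (nat_lit 608) (nat_lit 17215902980) (nat_lit 229) (nat_lit 5) (nat_lit 236) (nat_lit 5) (nat_lit 237) (nat_lit 5) (nat_lit 495) (nat_lit 451) (nat_lit 254)) (XT.nd (nat_lit 156) (nat_lit 1064) (nat_lit 0) (XT.lf (nat_lit 0) (nat_lit 31620191265) (nat_lit 608) (nat_lit 3191462888) (nat_lit 76) (nat_lit 3602629543) (nat_lit 229) (nat_lit 5) (nat_lit 237) (nat_lit 5) (nat_lit 230) (nat_lit 5) (nat_lit 496) (nat_lit 451) (nat_lit 253)) (XT.lf (nat_lit 0) (nat_lit 15716727726) (nat_lit 608) (nat_lit 13490815821) (nat_lit 76) (nat_lit 10602929986) (nat_lit 215) (nat_lit 5) (nat_lit 223) (nat_lit 5) (nat_lit 216) (nat_lit 5) (nat_lit 498)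 (nat_lit 451) (nat_lit 251)))))) (XT.nd (nat_lit 468) (nat_lit 1596) (nat_lit 0) (XT.nd (nat_lit 234) (nat_lit 0) (nat_lit 76) (XT.nd (nat_lit 78) (nat_lit 0) (nat_lit 0) (XT.lf (nat_lit 0) (nat_lit 3821418661) (nat_lit 0) (nat_lit 3821418661) (nat_lit 1748) (nat_lit 1866175680) (nat_lit 488) (nat_lit 5) (nat_lit 488) (nat_lit 3) (nat_lit 511) (nat_lit 3) (nat_lit 452) (nat_lit 452) (nat_lit 296)) (XT.nd (nat_lit 78) (nat_lit 0) (nat_lit 76) (XT.lf (nat_lit 76) (nat_lit 2712954547) (nat_lit 0) (nat_lit 13132520632) (nat_lit 1824) (nat_lit 3451185402) (nat_lit 489) (nat_lit 5) (nat_lit 488) (nat_lit 5) (nat_lit 512) (nat_lit 5) (nat_lit 453) (nat_lit 452) (nat_lit 295)) (XT.lf (nat_lit 0) (nat_lit 16544372795) (nat_lit 1748) (nat_lit 2264374467) (nat_lit 1824) (nat_lit 772461870) (nat_lit 489) (nat_lit 5) (nat_lit 512) (nat_lit 5) (nat_lit 513) (nat_lit 5) (nat_lit 454) (nat_lit 452) (nat_lit 294))))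 (XT.nd (nat_lit 78) (nat_lit 0) (nat_lit 76) (XT.lf (nat_lit 76) (nat_lit 12555670313) (nat_lit 0) (nat_lit 4867615443) (nat_lit 1824) (nat_lit 2447828381) (nat_lit 490) (nat_lit 5) (nat_lit 489) (nat_lit 5) (nat_lit 513) (nat_lit 5) (nat_lit 455) (nat_lit 452) (nat_lit 293)) (XT.nd (nat_lit 78) (nat_lit 0) (nat_lit 76) (XT.lf (nat_lit 76) (nat_lit 7715513010) (nat_lit 0) (nat_lit 10730217461) (nat_lit 1824) (nat_lit 1721643470) (nat_lit 491) (nat_lit 5) (nat_lit 490) (nat_lit 5) (nat_lit 514) (nat_lit 5) (nat_lit 456) (nat_lit 452) (nat_lit 292)) (XT.lf (nat_lit 76) (nat_lit 2800499096) (nat_lit 0) (nat_lit 16812636790) (nat_lit 1824) (nat_lit 857100820) (nat_lit 492) (nat_lit 5) (nat_lit 491) (nat_lit 5) (nat_lit 515) (nat_lit 5) (nat_lit 457) (nat_lit 452) (nat_lit 291))))) (XT.nd (nat_lit 234) (nat_lit 0) (nat_lit 152) (XT.nd (nat_lit 78) (nat_lit 0) (nat_lit 76) (XT.lf (nat_lit 0) (nat_lit 180093504)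 (nat_lit 1824) (nat_lit 2178166724) (nat_lit 1900) (nat_lit 18420978593) (nat_lit 467) (nat_lit 5) (nat_lit 491) (nat_lit 5) (nat_lit 492) (nat_lit 5) (nat_lit 458) (nat_lit 452) (nat_lit 290)) (XT.nd (nat_lit 78) (nat_lit 0) (nat_lit 76) (XT.lf (nat_lit 0) (nat_lit 1400143293) (nat_lit 1824) (nat_lit 7228246036) (nat_lit 1900) (nat_lit 12465741519) (nat_lit 468) (nat_lit 5) (nat_lit 492) (nat_lit 5) (nat_lit 493) (nat_lit 5) (nat_lit 459) (nat_lit 452) (nat_lit 289)) (XT.lf (nat_lit 0) (nat_lit 2778812258) (nat_lit 1824) (nat_lit 12357726600) (nat_lit 1900) (nat_lit 6279491241) (nat_lit 469) (nat_lit 5) (nat_lit 493) (nat_lit 5) (nat_lit 494) (nat_lit 5) (nat_lit 460) (nat_lit 452) (nat_lit 288)))) (XT.nd (nat_lit 156) (nat_lit 0) (nat_lit 152) (XT.nd (nat_lit 78) (nat_lit 0) (nat_lit 76) (XT.lf (nat_lit 76) (nat_lit 4176492403) (nat_lit 0) (nat_lit 147706812) (nat_lit 1900) (nat_lit 17420880747)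 (nat_lit 470) (nat_lit 5) (nat_lit 469) (nat_lit 5) (nat_lit 494) (nat_lit 5) (nat_lit 461) (nat_lit 452) (nat_lit 287)) (XT.lf (nat_lit 0) (nat_lit 6090988057) (nat_lit 1824) (nat_lit 812398209) (nat_lit 1900) (nat_lit 15177115022) (nat_lit 470) (nat_lit 5) (nat_lit 494) (nat_lit 5) (nat_lit 495) (nat_lit 5) (nat_lit 462) (nat_lit 452) (nat_lit 286))) (XT.nd (nat_lit 78) (nat_lit 0) (nat_lit 76) (XT.lf (nat_lit 0) (nat_lit 8067777552) (nat_lit 1824) (nat_lit 5822098022) (nat_lit 1900) (nat_lit 8532970486) (nat_lit 471) (nat_lit 5) (nat_lit 495) (nat_lit 5) (nat_lit 496) (nat_lit 5) (nat_lit 463) (nat_lit 452) (nat_lit 285)) (XT.lf (nat_lit 0) (nat_lit 10235335541) (nat_lit 1824) (nat_lit 10908193700) (nat_lit 1900) (nat_lit 1629303364) (nat_lit 472) (nat_lit 5) (nat_lit 496) (nat_lit 5) (nat_lit 497) (nat_lit 5) (nat_lit 464) (nat_lit 452) (nat_lit 284))))))) (XT.nd (nat_lit 1014) (nat_lit 7828) (nat_lit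 0) (XT.nd (nat_lit 468) (nat_lit 4408) (nat_lit 0) (XT.nd (nat_lit 234) (nat_lit 2736) (nat_lit 0) (XT.nd (nat_lit 78) (nat_lit 0) (nat_lit 76) (XT.lf (nat_lit 76) (nat_lit 7021981540) (nat_lit 0) (nat_lit 5616274532) (nat_lit 1900) (nat_lit 10491656664) (nat_lit 473) (nat_lit 5) (nat_lit 472) (nat_lit 5) (nat_lit 497) (nat_lit 5) (nat_lit 465) (nat_lit 452) (nat_lit 283)) (XT.nd (nat_lit 78) (nat_lit 0) (nat_lit 76) (XT.lf (nat_lit 76) (nat_lit 2096611286) (nat_lit 0) (nat_lit 13164389122) (nat_lit 1900) (nat_lit 8233750823) (nat_lit 474) (nat_lit 5) (nat_lit 473) (nat_lit 5) (nat_lit 498) (nat_lit 5) (nat_lit 466) (nat_lit 452) (nat_lit 282)) (XT.lf (nat_lit 0) (nat_lit 18120391222) (nat_lit 1824) (nat_lit 2863080118) (nat_lit 1900) (nat_lit 2883904923) (nat_lit 474) (nat_lit 5) (nat_lit 498) (nat_lit 5) (nat_lit 499) (nat_lit 5) (nat_lit 467) (nat_lit 452) (nat_lit 281)))) (XT.nd (nat_lit 78) (nat_lit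 2888) (nat_lit 0) (XT.lf (nat_lit 76) (nat_lit 16348357679) (nat_lit 0) (nat_lit 4904140290) (nat_lit 1900) (nat_lit 2994944036) (nat_lit 475) (nat_lit 5) (nat_lit 474) (nat_lit 5) (nat_lit 499) (nat_lit 5) (nat_lit 468) (nat_lit 452) (nat_lit 280)) (XT.nd (nat_lit 78) (nat_lit 1064) (nat_lit 0) (XT.lf (nat_lit 0) (nat_lit 6356203) (nat_lit 1900) (nat_lit 13028563039) (nat_lit 76) (nat_lit 11600720013) (nat_lit 450) (nat_lit 5) (nat_lit 475) (nat_lit 5) (nat_lit 451) (nat_lit 5) (nat_lit 469) (nat_lit 452) (nat_lit 279)) (XT.lf (nat_lit 0) (nat_lit 3204642247) (nat_lit 1140) (nat_lit 18254043809) (nat_lit 76) (nat_lit 3573448303) (nat_lit 436) (nat_lit 5) (nat_lit 451) (nat_lit 5) (nat_lit 437) (nat_lit 5) (nat_lit 470) (nat_lit 452) (nat_lit 278))))) (XT.nd (nat_lit 234) (nat_lit 2584) (nat_lit 0) (XT.nd (nat_lit 78) (nat_lit 912) (nat_lit 0) (XT.lf (nat_lit 0) (nat_lit 1848878579) (nat_lit 912) (nat_lit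 4831265536) (nat_lit 988) (nat_lit 18756755435) (nat_lit 424) (nat_lit 5) (nat_lit 436) (nat_lit 5) (nat_lit 437) (nat_lit 5) (nat_lit 471) (nat_lit 452) (nat_lit 277)) (XT.nd (nat_lit 78) (nat_lit 912) (nat_lit 0) (XT.lf (nat_lit 0) (nat_lit 10457636995) (nat_lit 988) (nat_lit 3133401417) (nat_lit 76) (nat_lit 12258815327) (nat_lit 424) (nat_lit 5) (nat_lit 437) (nat_lit 5) (nat_lit 425) (nat_lit 5) (nat_lit 472) (nat_lit 452) (nat_lit 276)) (XT.lf (nat_lit 0) (nat_lit 14515729392) (nat_lit 988) (nat_lit 8161583509) (nat_lit 76) (nat_lit 3594538705) (nat_lit 412) (nat_lit 5) (nat_lit 425) (nat_lit 5) (nat_lit 413) (nat_lit 5) (nat_lit 473) (nat_lit 452) (nat_lit 275)))) (XT.nd (nat_lit 156) (nat_lit 912) (nat_lit 0) (XT.nd (nat_lit 78) (nat_lit 836) (nat_lit 0) (XT.lf (nat_lit 0) (nat_lit 13406830977) (nat_lit 836) (nat_lit 5481770838) (nat_lit 912) (nat_lit 7814047378) (nat_lit 401) (nat_lit 5) (nat_lit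 412) (nat_lit 5) (nat_lit 413) (nat_lit 5) (nat_lit 474) (nat_lit 452) (nat_lit 274)) (XT.lf (nat_lit 0) (nat_lit 8615928462) (nat_lit 836) (nat_lit 14961620781) (nat_lit 912) (nat_lit 3565124202) (nat_lit 390) (nat_lit 5) (nat_lit 401) (nat_lit 5) (nat_lit 402) (nat_lit 5) (nat_lit 475) (nat_lit 452) (nat_lit 273))) (XT.nd (nat_lit 78) (nat_lit 0) (nat_lit 0) (XT.lf (nat_lit 0) (nat_lit 964812459) (nat_lit 912) (nat_lit 23837370727) (nat_lit 76) (nat_lit 2790326669) (nat_lit 378) (nat_lit 5) (nat_lit 390) (nat_lit 5) (nat_lit 379) (nat_lit 5) (nat_lit 476) (nat_lit 452) (nat_lit 272)) (XT.lf (nat_lit 0) (nat_lit 5803026911) (nat_lit 912) (nat_lit 1225036284) (nat_lit 76) (nat_lit 21022891013) (nat_lit 378) (nat_lit 5) (nat_lit 390) (nat_lit 5) (nat_lit 379) (nat_lit 5) (nat_lit 477) (nat_lit 452) (nat_lit 271)))))) (XT.nd (nat_lit 468) (nat_lit 3952) (nat_lit 0) (XT.nd (nat_lit 234) (nat_lit 1520)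 (nat_lit 0) (XT.nd (nat_lit 78) (nat_lit 1520) (nat_lit 0) (XT.lf (nat_lit 0) (nat_lit 10999992377) (nat_lit 912) (nat_lit 6241603833) (nat_lit 76) (nat_lit 11277284050) (nat_lit 367) (nat_lit 5) (nat_lit 379) (nat_lit 5) (nat_lit 368) (nat_lit 5) (nat_lit 478) (nat_lit 452) (nat_lit 270)) (XT.nd (nat_lit 78) (nat_lit 760) (nat_lit 0) (XT.lf (nat_lit 0) (nat_lit 16524966533) (nat_lit 836) (nat_lit 11325427167) (nat_lit 76) (nat_lit 1147008848) (nat_lit 357) (nat_lit 5) (nat_lit 368) (nat_lit 5) (nat_lit 358) (nat_lit 5) (nat_lit 479) (nat_lit 452) (nat_lit 269)) (XT.lf (nat_lit 0) (nat_lit 12947281237) (nat_lit 760) (nat_lit 9504880886) (nat_lit 836) (nat_lit 7033389373) (nat_lit 347) (nat_lit 5) (nat_lit 357) (nat_lit 5) (nat_lit 358) (nat_lit 5) (nat_lit 480) (nat_lit 452) (nat_lit 268)))) (XT.nd (nat_lit 78) (nat_lit 836) (nat_lit 0) (XT.lf (nat_lit 0) (nat_lit 8155956791) (nat_lit 684) (nat_lit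 20587047179) (nat_lit 760) (nat_lit 1241624757) (nat_lit 338) (nat_lit 5) (nat_lit 347) (nat_lit 5) (nat_lit 348) (nat_lit 5) (nat_lit 481) (nat_lit 452) (nat_lit 267)) (XT.nd (nat_lit 78) (nat_lit 0) (nat_lit 0) (XT.lf (nat_lit 0) (nat_lit 3262880533) (nat_lit 760) (nat_lit 1591350396) (nat_lit 836) (nat_lit 25639988477) (nat_lit 327) (nat_lit 5) (nat_lit 337) (nat_lit 5) (nat_lit 338) (nat_lit 5) (nat_lit 482) (nat_lit 452) (nat_lit 266)) (XT.lf (nat_lit 0) (nat_lit 11376633309) (nat_lit 836) (nat_lit 1742041433) (nat_lit 76) (nat_lit 17895048514) (nat_lit 327) (nat_lit 5) (nat_lit 338) (nat_lit 5) (nat_lit 328) (nat_lit 5) (nat_lit 483) (nat_lit 452) (nat_lit 265))))) (XT.nd (nat_lit 234) (nat_lit 1900) (nat_lit 0) (XT.nd (nat_lit 78) (nat_lit 1368) (nat_lit 0) (XT.lf (nat_lit 0) (nat_lit 18304089912) (nat_lit 760) (nat_lit 6766960747) (nat_lit 76) (nat_lit 6473574299) (nat_lit 318) (nat_lit 5)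 (nat_lit 328) (nat_lit 5) (nat_lit 319) (nat_lit 5) (nat_lit 484) (nat_lit 452) (nat_lit 264)) (XT.nd (nat_lit 78) (nat_lit 684) (nat_lit 0) (XT.lf (nat_lit 0) (nat_lit 20196945226) (nat_lit 684) (nat_lit 5468270302) (nat_lit 760) (nat_lit 6421721645) (nat_lit 309) (nat_lit 5) (nat_lit 318) (nat_lit 5) (nat_lit 319) (nat_lit 5) (nat_lit 485) (nat_lit 452) (nat_lit 263)) (XT.lf (nat_lit 0) (nat_lit 833052076) (nat_lit 684) (nat_lit 17126519533) (nat_lit 76) (nat_lit 14681083633) (nat_lit 300) (nat_lit 5) (nat_lit 309) (nat_lit 5) (nat_lit 301) (nat_lit 5) (nat_lit 486) (nat_lit 452) (nat_lit 262)))) (XT.nd (nat_lit 156) (nat_lit 608) (nat_lit 0) (XT.nd (nat_lit 78) (nat_lit 608) (nat_lit 0) (XT.lf (nat_lit 0) (nat_lit 8416697197) (nat_lit 760) (nat_lit 22472709580) (nat_lit 76) (nat_lit 2316759980) (nat_lit 291) (nat_lit 5) (nat_lit 301) (nat_lit 5) (nat_lit 292) (nat_lit 5) (nat_lit 487) (nat_lit 452)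 (nat_lit 261)) (XT.lf (nat_lit 0) (nat_lit 5827209782) (nat_lit 608) (nat_lit 10670770644) (nat_lit 684) (nat_lit 17285260946) (nat_lit 283) (nat_lit 5) (nat_lit 291) (nat_lit 5) (nat_lit 292) (nat_lit 5) (nat_lit 488) (nat_lit 452) (nat_lit 260))) (XT.nd (nat_lit 78) (nat_lit 0) (nat_lit 0) (XT.lf (nat_lit 0) (nat_lit 847657561) (nat_lit 608) (nat_lit 24194227568) (nat_lit 684) (nat_lit 9331339760) (nat_lit 275) (nat_lit 5) (nat_lit 283) (nat_lit 5) (nat_lit 284) (nat_lit 5) (nat_lit 489) (nat_lit 452) (nat_lit 259)) (XT.lf (nat_lit 0) (nat_lit 30820231530) (nat_lit 608) (nat_lit 3277760523) (nat_lit 684) (nat_lit 877798465) (nat_lit 275) (nat_lit 5) (nat_lit 283) (nat_lit 5) (nat_lit 284) (nat_lit 5) (nat_lit 490) (nat_lit 452) (nat_lit 258))))))))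
noncomputable def xc112 : XT := (XT.nd (nat_lit 60918) (nat_lit 0) (nat_lit 1596) (XT.nd (nat_lit 59904) (nat_lit 0) (nat_lit 17328) (XT.nd (nat_lit 546) (nat_lit 532) (nat_lit 0) (XT.nd (nat_lit 234) (nat_lit 1672) (nat_lit 0) (XT.nd (nat_lit 78) (nat_lit 1140) (nat_lit 0) (XT.lf (nat_lit 0) (nat_lit 8013692649) (nat_lit 684) (nat_lit 9326852762) (nat_lit 76) (nat_lit 18249130797) (nat_lit 266) (nat_lit 5) (nat_lit 275) (nat_lit 5) (nat_lit 267) (nat_lit 5) (nat_lit 491) (nat_lit 452) (nat_lit 257)) (XT.nd (nat_lit 78) (nat_lit 532) (nat_lit 0) (XT.lf (nat_lit 0) (nat_lit 17374972770) (nat_lit 684) (nat_lit 14566142770) (nat_lit 76) (nat_lit 4276447769) (nat_lit 258) (nat_lit 5) (nat_lit 267) (nat_lit 5) (nat_lit 259) (nat_lit 5) (nat_lit 492) (nat_lit 452) (nat_lit 256)) (XT.lf (nat_lit 0) (nat_lit 16923807309) (nat_lit 532) (nat_lit 10378570227) (nat_lit 608) (nat_lit 9556204042) (nat_lit 251) (nat_lit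 5) (nat_lit 258) (nat_lit 5) (nat_lit 259) (nat_lit 5) (nat_lit 493) (nat_lit 452) (nat_lit 255)))) (XT.nd (nat_lit 78) (nat_lit 1064) (nat_lit 0) (XT.lf (nat_lit 0) (nat_lit 261063073) (nat_lit 608) (nat_lit 25398541741) (nat_lit 76) (nat_lit 11854176625) (nat_lit 243) (nat_lit 5) (nat_lit 251) (nat_lit 5) (nat_lit 244) (nat_lit 5) (nat_lit 494) (nat_lit 452) (nat_lit 254)) (XT.nd (nat_lit 78) (nat_lit 532) (nat_lit 0) (XT.lf (nat_lit 0) (nat_lit 7168085775) (nat_lit 532) (nat_lit 3323554025) (nat_lit 608) (nat_lit 27690761965) (nat_lit 236) (nat_lit 5) (nat_lit 243) (nat_lit 5) (nat_lit 244) (nat_lit 5) (nat_lit 495) (nat_lit 452) (nat_lit 253)) (XT.lf (nat_lit 0) (nat_lit 2084753215) (nat_lit 532) (nat_lit 19254989153) (nat_lit 608) (nat_lit 17525126412) (nat_lit 229) (nat_lit 5) (nat_lit 236) (nat_lit 5) (nat_lit 237) (nat_lit 5) (nat_lit 496) (nat_lit 452) (nat_lit 252))))) (XT.nd (nat_lit 59124)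 (nat_lit 0) (nat_lit 20292) (XT.nd (nat_lit 58968) (nat_lit 0) (nat_lit 20216) (XT.lf (nat_lit 0) (nat_lit 4534030722) (nat_lit 532) (nat_lit 8254526404) (nat_lit 76) (nat_lit 27485743232) (nat_lit 222) (nat_lit 5) (nat_lit 229) (nat_lit 5) (nat_lit 223) (nat_lit 5) (nat_lit 498) (nat_lit 452) (nat_lit 250)) (XT.nd (nat_lit 78) (nat_lit 0) (nat_lit 0) (XT.lf (nat_lit 0) (nat_lit 4070983402) (nat_lit 0) (nat_lit 4070983402) (nat_lit 1748) (nat_lit 1646894443) (nat_lit 488) (nat_lit 5) (nat_lit 488) (nat_lit 3) (nat_lit 511) (nat_lit 3) (nat_lit 453) (nat_lit 453) (nat_lit 294)) (XT.lf (nat_lit 76) (nat_lit 3072201581) (nat_lit 0) (nat_lit 13772710551) (nat_lit 1824) (nat_lit 3020117769) (nat_lit 489) (nat_lit 5) (nat_lit 488) (nat_lit 5) (nat_lit 512) (nat_lit 5) (nat_lit 454) (nat_lit 453) (nat_lit 293)))) (XT.nd (nat_lit 78) (nat_lit 0) (nat_lit 0) (XT.lf (nat_lit 0) (nat_lit 17547960396) (nat_lit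 1748) (nat_lit 2050764456) (nat_lit 1824) (nat_lit 559727809) (nat_lit 489) (nat_lit 5) (nat_lit 512) (nat_lit 5) (nat_lit 513) (nat_lit 5) (nat_lit 455) (nat_lit 453) (nat_lit 292)) (XT.nd (nat_lit 78) (nat_lit 0) (nat_lit 76) (XT.lf (nat_lit 76) (nat_lit 13209313995) (nat_lit 0) (nat_lit 5230950589) (nat_lit 1824) (nat_lit 2017051142) (nat_lit 490) (nat_lit 5) (nat_lit 489) (nat_lit 5) (nat_lit 513) (nat_lit 5) (nat_lit 456) (nat_lit 453) (nat_lit 291)) (XT.lf (nat_lit 76) (nat_lit 8230617117) (nat_lit 0) (nat_lit 11248840777) (nat_lit 1824) (nat_lit 1283285273) (nat_lit 491) (nat_lit 5) (nat_lit 490) (nat_lit 5) (nat_lit 514) (nat_lit 5) (nat_lit 457) (nat_lit 453) (nat_lit 290)))))) (XT.nd (nat_lit 468) (nat_lit 1292) (nat_lit 0) (XT.nd (nat_lit 234) (nat_lit 0) (nat_lit 152) (XT.nd (nat_lit 78) (nat_lit 1824) (nat_lit 0) (XT.lf (nat_lit 76) (nat_lit 3174302979) (nat_lit 0) (nat_lit 17494233040)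 (nat_lit 1824) (nat_lit 406424090) (nat_lit 492) (nat_lit 5) (nat_lit 491) (nat_lit 5) (nat_lit 515) (nat_lit 5) (nat_lit 458) (nat_lit 453) (nat_lit 289)) (XT.nd (nat_lit 78) (nat_lit 0) (nat_lit 76) (XT.lf (nat_lit 0) (nat_lit 641944675) (nat_lit 1824) (nat_lit 1956055833) (nat_lit 1900) (nat_lit 18795445033) (nat_lit 467) (nat_lit 5) (nat_lit 491) (nat_lit 5) (nat_lit 492) (nat_lit 5) (nat_lit 459) (nat_lit 453) (nat_lit 288)) (XT.lf (nat_lit 0) (nat_lit 1886084326) (nat_lit 1824) (nat_lit 7152307995) (nat_lit 1900) (nat_lit 12679643449) (nat_lit 468) (nat_lit 5) (nat_lit 492) (nat_lit 5) (nat_lit 493) (nat_lit 5) (nat_lit 460) (nat_lit 453) (nat_lit 287)))) (XT.nd (nat_lit 78) (nat_lit 0) (nat_lit 0) (XT.lf (nat_lit 0) (nat_lit 3294112875) (nat_lit 1824) (nat_lit 12430786037) (nat_lit 1900) (nat_lit 6324934270) (nat_lit 469) (nat_lit 5) (nat_lit 493) (nat_lit 5) (nat_lit 494) (nat_lit 5) (nat_lit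 461) (nat_lit 453) (nat_lit 286)) (XT.nd (nat_lit 78) (nat_lit 0) (nat_lit 76) (XT.lf (nat_lit 76) (nat_lit 4594630156) (nat_lit 0) (nat_lit 280551948) (nat_lit 1900) (nat_lit 17513787162) (nat_lit 470) (nat_lit 5) (nat_lit 469) (nat_lit 5) (nat_lit 494) (nat_lit 5) (nat_lit 462) (nat_lit 453) (nat_lit 285)) (XT.lf (nat_lit 0) (nat_lit 6681895528) (nat_lit 1824) (nat_lit 543430520) (nat_lit 1900) (nat_lit 15509389871) (nat_lit 470) (nat_lit 5) (nat_lit 494) (nat_lit 5) (nat_lit 495) (nat_lit 5) (nat_lit 463) (nat_lit 453) (nat_lit 284))))) (XT.nd (nat_lit 234) (nat_lit 1596) (nat_lit 0) (XT.nd (nat_lit 78) (nat_lit 0) (nat_lit 76) (XT.lf (nat_lit 0) (nat_lit 8707262209) (nat_lit 1824) (nat_lit 5699469899) (nat_lit 1900) (nat_lit 8680814529) (nat_lit 471) (nat_lit 5) (nat_lit 495) (nat_lit 5) (nat_lit 496) (nat_lit 5) (nat_lit 464) (nat_lit 453) (nat_lit 283)) (XT.nd (nat_lit 78) (nat_lit 0) (nat_lit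 0) (XT.lf (nat_lit 0) (nat_lit 10929550790) (nat_lit 1824) (nat_lit 10934562635) (nat_lit 1900) (nat_lit 1584126318) (nat_lit 472) (nat_lit 5) (nat_lit 496) (nat_lit 5) (nat_lit 497) (nat_lit 5) (nat_lit 465) (nat_lit 453) (nat_lit 282)) (XT.lf (nat_lit 76) (nat_lit 7528636491) (nat_lit 0) (nat_lit 5866567880) (nat_lit 1900) (nat_lit 10421016010) (nat_lit 473) (nat_lit 5) (nat_lit 472) (nat_lit 5) (nat_lit 497) (nat_lit 5) (nat_lit 466) (nat_lit 453) (nat_lit 281)))) (XT.nd (nat_lit 156) (nat_lit 1748) (nat_lit 0) (XT.nd (nat_lit 78) (nat_lit 0) (nat_lit 76) (XT.lf (nat_lit 76) (nat_lit 2458692073) (nat_lit 0) (nat_lit 13628361891) (nat_lit 1900) (nat_lit 8105142591) (nat_lit 474) (nat_lit 5) (nat_lit 473) (nat_lit 5) (nat_lit 498) (nat_lit 5) (nat_lit 467) (nat_lit 453) (nat_lit 280)) (XT.lf (nat_lit 0) (nat_lit 19021066340) (nat_lit 1824) (nat_lit 2650887160) (nat_lit 1900) (nat_lit 2904270994) (nat_lit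 474) (nat_lit 5) (nat_lit 498) (nat_lit 5) (nat_lit 499) (nat_lit 5) (nat_lit 468) (nat_lit 453) (nat_lit 279))) (XT.nd (nat_lit 78) (nat_lit 1824) (nat_lit 0) (XT.lf (nat_lit 76) (nat_lit 17132057690) (nat_lit 0) (nat_lit 5106582665) (nat_lit 1900) (nat_lit 2729222700) (nat_lit 475) (nat_lit 5) (nat_lit 474) (nat_lit 5) (nat_lit 499) (nat_lit 5) (nat_lit 469) (nat_lit 453) (nat_lit 278)) (XT.lf (nat_lit 0) (nat_lit 348814418) (nat_lit 1900) (nat_lit 13119108395) (nat_lit 76) (nat_lit 11899910892) (nat_lit 450) (nat_lit 5) (nat_lit 475) (nat_lit 5) (nat_lit 451) (nat_lit 5) (nat_lit 470) (nat_lit 453) (nat_lit 277))))))) (XT.nd (nat_lit 936) (nat_lit 7220) (nat_lit 0) (XT.nd (nat_lit 468) (nat_lit 3952) (nat_lit 0) (XT.nd (nat_lit 234) (nat_lit 2584) (nat_lit 0) (XT.nd (nat_lit 78) (nat_lit 912) (nat_lit 0) (XT.lf (nat_lit 0) (nat_lit 3634746506) (nat_lit 1140) (nat_lit 18499261162) (nat_lit 76) (nat_lit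 3642382901) (nat_lit 436) (nat_lit 5) (nat_lit 451) (nat_lit 5) (nat_lit 437) (nat_lit 5) (nat_lit 471) (nat_lit 453) (nat_lit 276)) (XT.nd (nat_lit 78) (nat_lit 0) (nat_lit 0) (XT.lf (nat_lit 0) (nat_lit 2201842753) (nat_lit 912) (nat_lit 5004875095) (nat_lit 988) (nat_lit 18986737611) (nat_lit 424) (nat_lit 5) (nat_lit 436) (nat_lit 5) (nat_lit 437) (nat_lit 5) (nat_lit 472) (nat_lit 453) (nat_lit 275)) (XT.lf (nat_lit 0) (nat_lit 11087854701) (nat_lit 988) (nat_lit 2932029625) (nat_lit 76) (nat_lit 12599108370) (nat_lit 424) (nat_lit 5) (nat_lit 437) (nat_lit 5) (nat_lit 425) (nat_lit 5) (nat_lit 473) (nat_lit 453) (nat_lit 274)))) (XT.nd (nat_lit 78) (nat_lit 1672) (nat_lit 0) (XT.lf (nat_lit 0) (nat_lit 15260237802) (nat_lit 988) (nat_lit 8109519423) (nat_lit 76) (nat_lit 3684043099) (nat_lit 412) (nat_lit 5) (nat_lit 425) (nat_lit 5) (nat_lit 413) (nat_lit 5) (nat_lit 474) (nat_lit 453) (nat_lit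 273)) (XT.nd (nat_lit 78) (nat_lit 836) (nat_lit 0) (XT.lf (nat_lit 0) (nat_lit 14101130460) (nat_lit 836) (nat_lit 5656061345) (nat_lit 912) (nat_lit 7740472885) (nat_lit 401) (nat_lit 5) (nat_lit 412) (nat_lit 5) (nat_lit 413) (nat_lit 5) (nat_lit 475) (nat_lit 453) (nat_lit 272)) (XT.lf (nat_lit 0) (nat_lit 9167790416) (nat_lit 836) (nat_lit 15412065940) (nat_lit 912) (nat_lit 3371173078) (nat_lit 390) (nat_lit 5) (nat_lit 401) (nat_lit 5) (nat_lit 402) (nat_lit 5) (nat_lit 476) (nat_lit 453) (nat_lit 271))))) (XT.nd (nat_lit 234) (nat_lit 2204) (nat_lit 0) (XT.nd (nat_lit 78) (nat_lit 836) (nat_lit 0) (XT.lf (nat_lit 0) (nat_lit 1283980364) (nat_lit 912) (nat_lit 24254148923) (nat_lit 76) (nat_lit 2876327975) (nat_lit 378) (nat_lit 5) (nat_lit 390) (nat_lit 5) (nat_lit 379) (nat_lit 5) (nat_lit 477) (nat_lit 453) (nat_lit 270)) (XT.nd (nat_lit 78) (nat_lit 836) (nat_lit 0) (XT.lf (nat_lit 0) (nat_lit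 6258888137) (nat_lit 912) (nat_lit 972134047) (nat_lit 76) (nat_lit 21655802507) (nat_lit 378) (nat_lit 5) (nat_lit 390) (nat_lit 5) (nat_lit 379) (nat_lit 5) (nat_lit 478) (nat_lit 453) (nat_lit 269)) (XT.lf (nat_lit 0) (nat_lit 11605467715) (nat_lit 912) (nat_lit 6138429501) (nat_lit 76) (nat_lit 11625017868) (nat_lit 367) (nat_lit 5) (nat_lit 379) (nat_lit 5) (nat_lit 368) (nat_lit 5) (nat_lit 479) (nat_lit 453) (nat_lit 268)))) (XT.nd (nat_lit 78) (nat_lit 1444) (nat_lit 0) (XT.lf (nat_lit 0) (nat_lit 17290129063) (nat_lit 836) (nat_lit 11374178227) (nat_lit 76) (nat_lit 1197607635) (nat_lit 357) (nat_lit 5) (nat_lit 368) (nat_lit 5) (nat_lit 358) (nat_lit 5) (nat_lit 480) (nat_lit 453) (nat_lit 267)) (XT.nd (nat_lit 78) (nat_lit 684) (nat_lit 0) (XT.lf (nat_lit 0) (nat_lit 13621990110) (nat_lit 760) (nat_lit 9767162202) (nat_lit 836) (nat_lit 6975676417) (nat_lit 347) (nat_lit 5) (nat_lit 357)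 (nat_lit 5) (nat_lit 358) (nat_lit 5) (nat_lit 481) (nat_lit 453) (nat_lit 266)) (XT.lf (nat_lit 0) (nat_lit 8687338661) (nat_lit 684) (nat_lit 21175713769) (nat_lit 760) (nat_lit 1015939792) (nat_lit 338) (nat_lit 5) (nat_lit 347) (nat_lit 5) (nat_lit 348) (nat_lit 5) (nat_lit 482) (nat_lit 453) (nat_lit 265)))))) (XT.nd (nat_lit 468) (nat_lit 3648) (nat_lit 0) (XT.nd (nat_lit 234) (nat_lit 2052) (nat_lit 0) (XT.nd (nat_lit 78) (nat_lit 684) (nat_lit 0) (XT.lf (nat_lit 0) (nat_lit 3646230655) (nat_lit 760) (nat_lit 1607408082) (nat_lit 836) (nat_lit 26150312406) (nat_lit 327) (nat_lit 5) (nat_lit 337) (nat_lit 5) (nat_lit 338) (nat_lit 5) (nat_lit 483) (nat_lit 453) (nat_lit 264)) (XT.nd (nat_lit 78) (nat_lit 684) (nat_lit 0) (XT.lf (nat_lit 0) (nat_lit 11964521227) (nat_lit 836) (nat_lit 1512406710) (nat_lit 76) (nat_lit 18462256571) (nat_lit 327) (nat_lit 5) (nat_lit 338) (nat_lit 5) (nat_lit 328)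 (nat_lit 5) (nat_lit 484) (nat_lit 453) (nat_lit 263)) (XT.lf (nat_lit 0) (nat_lit 19094654373) (nat_lit 760) (nat_lit 6688039246) (nat_lit 76) (nat_lit 6703423130) (nat_lit 318) (nat_lit 5) (nat_lit 328) (nat_lit 5) (nat_lit 319) (nat_lit 5) (nat_lit 485) (nat_lit 453) (nat_lit 262)))) (XT.nd (nat_lit 78) (nat_lit 1368) (nat_lit 0) (XT.lf (nat_lit 0) (nat_lit 21080209921) (nat_lit 684) (nat_lit 5591172333) (nat_lit 760) (nat_lit 6373421234) (nat_lit 309) (nat_lit 5) (nat_lit 318) (nat_lit 5) (nat_lit 319) (nat_lit 5) (nat_lit 486) (nat_lit 453) (nat_lit 261)) (XT.nd (nat_lit 78) (nat_lit 684) (nat_lit 0) (XT.lf (nat_lit 0) (nat_lit 1090982744) (nat_lit 684) (nat_lit 17359944114) (nat_lit 76) (nat_lit 15164272512) (nat_lit 300) (nat_lit 5) (nat_lit 309) (nat_lit 5) (nat_lit 301) (nat_lit 5) (nat_lit 487) (nat_lit 453) (nat_lit 260)) (XT.lf (nat_lit 0) (nat_lit 8897454256) (nat_lit 760) (nat_lit 22866804232)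 (nat_lit 76) (nat_lit 2433511890) (nat_lit 291) (nat_lit 5) (nat_lit 301) (nat_lit 5) (nat_lit 292) (nat_lit 5) (nat_lit 488) (nat_lit 453) (nat_lit 259))))) (XT.nd (nat_lit 234) (nat_lit 2432) (nat_lit 0) (XT.nd (nat_lit 78) (nat_lit 608) (nat_lit 0) (XT.lf (nat_lit 0) (nat_lit 6277568638) (nat_lit 608) (nat_lit 10938748112) (nat_lit 684) (nat_lit 17575938140) (nat_lit 283) (nat_lit 5) (nat_lit 291) (nat_lit 5) (nat_lit 292) (nat_lit 5) (nat_lit 489) (nat_lit 453) (nat_lit 258)) (XT.nd (nat_lit 78) (nat_lit 0) (nat_lit 0) (XT.lf (nat_lit 0) (nat_lit 1148237409) (nat_lit 608) (nat_lit 24863909637) (nat_lit 684) (nat_lit 9387879154) (nat_lit 275) (nat_lit 5) (nat_lit 283) (nat_lit 5) (nat_lit 284) (nat_lit 5) (nat_lit 490) (nat_lit 453) (nat_lit 257)) (XT.lf (nat_lit 0) (nat_lit 32011974517) (nat_lit 608) (nat_lit 3321583865) (nat_lit 684) (nat_lit 687238440) (nat_lit 275) (nat_lit 5) (nat_lit 283)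 (nat_lit 5) (nat_lit 284) (nat_lit 5) (nat_lit 491) (nat_lit 453) (nat_lit 256)))) (XT.nd (nat_lit 156) (nat_lit 1140) (nat_lit 0) (XT.nd (nat_lit 78) (nat_lit 608) (nat_lit 0) (XT.lf (nat_lit 0) (nat_lit 8464006983) (nat_lit 684) (nat_lit 9337202589) (nat_lit 76) (nat_lit 18851944688) (nat_lit 266) (nat_lit 5) (nat_lit 275) (nat_lit 5) (nat_lit 267) (nat_lit 5) (nat_lit 492) (nat_lit 453) (nat_lit 255)) (XT.lf (nat_lit 0) (nat_lit 18102119703) (nat_lit 684) (nat_lit 14734305716) (nat_lit 76) (nat_lit 4463533084) (nat_lit 258) (nat_lit 5) (nat_lit 267) (nat_lit 5) (nat_lit 259) (nat_lit 5) (nat_lit 493) (nat_lit 453) (nat_lit 254))) (XT.nd (nat_lit 78) (nat_lit 608) (nat_lit 0) (XT.lf (nat_lit 0) (nat_lit 17695981559) (nat_lit 532) (nat_lit 10627085081) (nat_lit 608) (nat_lit 9637226680) (nat_lit 251) (nat_lit 5) (nat_lit 258) (nat_lit 5) (nat_lit 259) (nat_lit 5) (nat_lit 494) (nat_lit 453) (nat_lit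 253)) (XT.lf (nat_lit 0) (nat_lit 468072021) (nat_lit 608) (nat_lit 25894090171) (nat_lit 76) (nat_lit 12273036442) (nat_lit 243) (nat_lit 5) (nat_lit 251) (nat_lit 5) (nat_lit 244) (nat_lit 5) (nat_lit 495) (nat_lit 453) (nat_lit 252))))))))
noncomputable def xc113 : XT := (XT.nd (nat_lit 61074) (nat_lit 0) (nat_lit 532) (XT.nd (nat_lit 60060) (nat_lit 0) (nat_lit 11704) (XT.nd (nat_lit 59592) (nat_lit 0) (nat_lit 17556) (XT.nd (nat_lit 59358) (nat_lit 0) (nat_lit 19228) (XT.nd (nat_lit 59202) (nat_lit 0) (nat_lit 19152) (XT.lf (nat_lit 0) (nat_lit 7645214020) (nat_lit 532) (nat_lit 3356252391) (nat_lit 608) (nat_lit 28322493522) (nat_lit 236) (nat_lit 5) (nat_lit 243) (nat_lit 5) (nat_lit 244) (nat_lit 5) (nat_lit 496) (nat_lit 453) (nat_lit 251)) (XT.nd (nat_lit 78) (nat_lit 0) (nat_lit 0) (XT.lf (nat_lit 0) (nat_lit 4320289999) (nat_lit 0) (nat_lit 4320289999) (nat_lit 1748) (nat_lit 1436836192)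 (nat_lit 488) (nat_lit 5) (nat_lit 488) (nat_lit 3) (nat_lit 511) (nat_lit 3) (nat_lit 454) (nat_lit 454) (nat_lit 292)) (XT.lf (nat_lit 76) (nat_lit 3426275817) (nat_lit 0) (nat_lit 14417972460) (nat_lit 1824) (nat_lit 2606806517) (nat_lit 489) (nat_lit 5) (nat_lit 488) (nat_lit 5) (nat_lit 512) (nat_lit 5) (nat_lit 455) (nat_lit 454) (nat_lit 291)))) (XT.nd (nat_lit 78) (nat_lit 0) (nat_lit 0) (XT.lf (nat_lit 0) (nat_lit 18552537033) (nat_lit 1748) (nat_lit 1846907764) (nat_lit 1824) (nat_lit 354153805) (nat_lit 489) (nat_lit 5) (nat_lit 512) (nat_lit 5) (nat_lit 513) (nat_lit 5) (nat_lit 456) (nat_lit 454) (nat_lit 290)) (XT.nd (nat_lit 78) (nat_lit 0) (nat_lit 76) (XT.lf (nat_lit 76) (nat_lit 13866667571) (nat_lit 0) (nat_lit 5592711497) (nat_lit 1824) (nat_lit 1602294424) (nat_lit 490) (nat_lit 5) (nat_lit 489) (nat_lit 5) (nat_lit 513) (nat_lit 5) (nat_lit 457) (nat_lit 454) (nat_lit 289)) (XT.lf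 (nat_lit 76) (nat_lit 8744892325) (nat_lit 0) (nat_lit 11771730444) (nat_lit 1824) (nat_lit 859904765) (nat_lit 491) (nat_lit 5) (nat_lit 490) (nat_lit 5) (nat_lit 514) (nat_lit 5) (nat_lit 458) (nat_lit 454) (nat_lit 288))))) (XT.nd (nat_lit 234) (nat_lit 0) (nat_lit 152) (XT.nd (nat_lit 78) (nat_lit 0) (nat_lit 0) (XT.lf (nat_lit 0) (nat_lit 30027175) (nat_lit 1824) (nat_lit 18155875516) (nat_lit 1900) (nat_lit 3512457237) (nat_lit 467) (nat_lit 5) (nat_lit 491) (nat_lit 5) (nat_lit 492) (nat_lit 5) (nat_lit 459) (nat_lit 454) (nat_lit 287)) (XT.nd (nat_lit 78) (nat_lit 0) (nat_lit 76) (XT.lf (nat_lit 0) (nat_lit 1091449378) (nat_lit 1824) (nat_lit 1743782760) (nat_lit 1900) (nat_lit 19191372747) (nat_lit 467) (nat_lit 5) (nat_lit 491) (nat_lit 5) (nat_lit 492) (nat_lit 5) (nat_lit 460) (nat_lit 454) (nat_lit 286)) (XT.lf (nat_lit 0) (nat_lit 2361119806) (nat_lit 1824) (nat_lit 7090898895) (nat_lit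 1900) (nat_lit 12909151127) (nat_lit 468) (nat_lit 5) (nat_lit 492) (nat_lit 5) (nat_lit 493) (nat_lit 5) (nat_lit 461) (nat_lit 454) (nat_lit 285)))) (XT.nd (nat_lit 78) (nat_lit 0) (nat_lit 0) (XT.lf (nat_lit 0) (nat_lit 3800077602) (nat_lit 1824) (nat_lit 12523124868) (nat_lit 1900) (nat_lit 6379946028) (nat_lit 469) (nat_lit 5) (nat_lit 493) (nat_lit 5) (nat_lit 494) (nat_lit 5) (nat_lit 462) (nat_lit 454) (nat_lit 284)) (XT.nd (nat_lit 78) (nat_lit 0) (nat_lit 76) (XT.lf (nat_lit 76) (nat_lit 5008501656) (nat_lit 0) (nat_lit 410010953) (nat_lit 1900) (nat_lit 17634148456) (nat_lit 470) (nat_lit 5) (nat_lit 469) (nat_lit 5) (nat_lit 494) (nat_lit 5) (nat_lit 463) (nat_lit 454) (nat_lit 283)) (XT.lf (nat_lit 0) (nat_lit 7267099145) (nat_lit 1824) (nat_lit 283232695) (nat_lit 1900) (nat_lit 15858695884) (nat_lit 470) (nat_lit 5) (nat_lit 494) (nat_lit 5) (nat_lit 495) (nat_lit 5) (nat_lit 464) (nat_lit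 454) (nat_lit 282)))))) (XT.nd (nat_lit 468) (nat_lit 6156) (nat_lit 0) (XT.nd (nat_lit 234) (nat_lit 0) (nat_lit 152) (XT.nd (nat_lit 78) (nat_lit 0) (nat_lit 76) (XT.lf (nat_lit 0) (nat_lit 9343116072) (nat_lit 1824) (nat_lit 5590228656) (nat_lit 1900) (nat_lit 8839301863) (nat_lit 471) (nat_lit 5) (nat_lit 495) (nat_lit 5) (nat_lit 496) (nat_lit 5) (nat_lit 465) (nat_lit 454) (nat_lit 281)) (XT.nd (nat_lit 78) (nat_lit 0) (nat_lit 0) (XT.lf (nat_lit 0) (nat_lit 11622368205) (nat_lit 1824) (nat_lit 10978994203) (nat_lit 1900) (nat_lit 1542993168) (nat_lit 472) (nat_lit 5) (nat_lit 496) (nat_lit 5) (nat_lit 497) (nat_lit 5) (nat_lit 466) (nat_lit 454) (nat_lit 280)) (XT.lf (nat_lit 76) (nat_lit 8033499738) (nat_lit 0) (nat_lit 6119674080) (nat_lit 1900) (nat_lit 10370379119) (nat_lit 473) (nat_lit 5) (nat_lit 472) (nat_lit 5) (nat_lit 497) (nat_lit 5) (nat_lit 467) (nat_lit 454) (nat_lit 279)))) (XT.nd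 (nat_lit 78) (nat_lit 0) (nat_lit 76) (XT.lf (nat_lit 76) (nat_lit 2814460987) (nat_lit 0) (nat_lit 14102290601) (nat_lit 1900) (nat_lit 7994238281) (nat_lit 474) (nat_lit 5) (nat_lit 473) (nat_lit 5) (nat_lit 498) (nat_lit 5) (nat_lit 468) (nat_lit 454) (nat_lit 278)) (XT.nd (nat_lit 78) (nat_lit 0) (nat_lit 0) (XT.lf (nat_lit 0) (nat_lit 19928264813) (nat_lit 1824) (nat_lit 2449439733) (nat_lit 1900) (nat_lit 2929045390) (nat_lit 474) (nat_lit 5) (nat_lit 498) (nat_lit 5) (nat_lit 499) (nat_lit 5) (nat_lit 469) (nat_lit 454) (nat_lit 277)) (XT.lf (nat_lit 76) (nat_lit 17922434993) (nat_lit 0) (nat_lit 5311922821) (nat_lit 1900) (nat_lit 2475940877) (nat_lit 475) (nat_lit 5) (nat_lit 474) (nat_lit 5) (nat_lit 499) (nat_lit 5) (nat_lit 470) (nat_lit 454) (nat_lit 276))))) (XT.nd (nat_lit 234) (nat_lit 2584) (nat_lit 0) (XT.nd (nat_lit 78) (nat_lit 1976) (nat_lit 0) (XT.lf (nat_lit 0) (nat_lit 681898824)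 (nat_lit 1900) (nat_lit 13229609223) (nat_lit 76) (nat_lit 12210880581) (nat_lit 450) (nat_lit 5) (nat_lit 475) (nat_lit 5) (nat_lit 451) (nat_lit 5) (nat_lit 471) (nat_lit 454) (nat_lit 275)) (XT.nd (nat_lit 78) (nat_lit 912) (nat_lit 0) (XT.lf (nat_lit 0) (nat_lit 4058582936) (nat_lit 1140) (nat_lit 18769194260) (nat_lit 76) (nat_lit 3715582326) (nat_lit 436) (nat_lit 5) (nat_lit 451) (nat_lit 5) (nat_lit 437) (nat_lit 5) (nat_lit 472) (nat_lit 454) (nat_lit 274)) (XT.lf (nat_lit 0) (nat_lit 2548318260) (nat_lit 912) (nat_lit 5182047074) (nat_lit 988) (nat_lit 19242718769) (nat_lit 424) (nat_lit 5) (nat_lit 436) (nat_lit 5) (nat_lit 437) (nat_lit 5) (nat_lit 473) (nat_lit 454) (nat_lit 273)))) (XT.nd (nat_lit 156) (nat_lit 1672) (nat_lit 0) (XT.nd (nat_lit 78) (nat_lit 912) (nat_lit 0) (XT.lf (nat_lit 0) (nat_lit 11718811199) (nat_lit 988) (nat_lit 2741572346) (nat_lit 76) (nat_lit 12951187176) (nat_lit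 424) (nat_lit 5) (nat_lit 437) (nat_lit 5) (nat_lit 425) (nat_lit 5) (nat_lit 474) (nat_lit 454) (nat_lit 272)) (XT.lf (nat_lit 0) (nat_lit 16009341502) (nat_lit 988) (nat_lit 8072937354) (nat_lit 76) (nat_lit 3777284944) (nat_lit 412) (nat_lit 5) (nat_lit 425) (nat_lit 5) (nat_lit 413) (nat_lit 5) (nat_lit 475) (nat_lit 454) (nat_lit 271))) (XT.nd (nat_lit 78) (nat_lit 836) (nat_lit 0) (XT.lf (nat_lit 0) (nat_lit 14799491506) (nat_lit 836) (nat_lit 5835015861) (nat_lit 912) (nat_lit 7682371382) (nat_lit 401) (nat_lit 5) (nat_lit 412) (nat_lit 5) (nat_lit 413) (nat_lit 5) (nat_lit 476) (nat_lit 454) (nat_lit 270)) (XT.lf (nat_lit 0) (nat_lit 9719366780) (nat_lit 836) (nat_lit 15875932806) (nat_lit 912) (nat_lit 3188676589) (nat_lit 390) (nat_lit 5) (nat_lit 401) (nat_lit 5) (nat_lit 402) (nat_lit 5) (nat_lit 477) (nat_lit 454) (nat_lit 269))))))) (XT.nd (nat_lit 1014) (nat_lit 3040) (nat_lit 0) (XT.nd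 (nat_lit 468) (nat_lit 4180) (nat_lit 0) (XT.nd (nat_lit 234) (nat_lit 2204) (nat_lit 0) (XT.nd (nat_lit 78) (nat_lit 836) (nat_lit 0) (XT.lf (nat_lit 0) (nat_lit 1596063288) (nat_lit 912) (nat_lit 24700556570) (nat_lit 76) (nat_lit 2964777779) (nat_lit 378) (nat_lit 5) (nat_lit 390) (nat_lit 5) (nat_lit 379) (nat_lit 5) (nat_lit 478) (nat_lit 454) (nat_lit 268)) (XT.nd (nat_lit 78) (nat_lit 836) (nat_lit 0) (XT.lf (nat_lit 0) (nat_lit 6712250425) (nat_lit 912) (nat_lit 728272029) (nat_lit 76) (nat_lit 22307573635) (nat_lit 378) (nat_lit 5) (nat_lit 390) (nat_lit 5) (nat_lit 379) (nat_lit 5) (nat_lit 479) (nat_lit 454) (nat_lit 267)) (XT.lf (nat_lit 0) (nat_lit 12213293888) (nat_lit 912) (nat_lit 6048831376) (nat_lit 76) (nat_lit 11982643224) (nat_lit 367) (nat_lit 5) (nat_lit 379) (nat_lit 5) (nat_lit 368) (nat_lit 5) (nat_lit 480) (nat_lit 454) (nat_lit 266)))) (XT.nd (nat_lit 78) (nat_lit 1444)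 (nat_lit 0) (XT.lf (nat_lit 0) (nat_lit 18062781029) (nat_lit 836) (nat_lit 11441097084) (nat_lit 76) (nat_lit 1248795098) (nat_lit 357) (nat_lit 5) (nat_lit 368) (nat_lit 5) (nat_lit 358) (nat_lit 5) (nat_lit 481) (nat_lit 454) (nat_lit 265)) (XT.nd (nat_lit 78) (nat_lit 684) (nat_lit 0) (XT.lf (nat_lit 0) (nat_lit 14300506006) (nat_lit 760) (nat_lit 10038624508) (nat_lit 836) (nat_lit 6931657392) (nat_lit 347) (nat_lit 5) (nat_lit 357) (nat_lit 5) (nat_lit 358) (nat_lit 5) (nat_lit 482) (nat_lit 454) (nat_lit 264)) (XT.lf (nat_lit 0) (nat_lit 9218204051) (nat_lit 684) (nat_lit 21783701909) (nat_lit 760) (nat_lit 798577748) (nat_lit 338) (nat_lit 5) (nat_lit 347) (nat_lit 5) (nat_lit 348) (nat_lit 5) (nat_lit 483) (nat_lit 454) (nat_lit 263))))) (XT.nd (nat_lit 234) (nat_lit 2660) (nat_lit 0) (XT.nd (nat_lit 78) (nat_lit 684) (nat_lit 0) (XT.lf (nat_lit 0) (nat_lit 4024694497) (nat_lit 760) (nat_lit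 1625766223) (nat_lit 836) (nat_lit 26690806579) (nat_lit 327) (nat_lit 5) (nat_lit 337) (nat_lit 5) (nat_lit 338) (nat_lit 5) (nat_lit 484) (nat_lit 454) (nat_lit 262)) (XT.nd (nat_lit 78) (nat_lit 684) (nat_lit 0) (XT.lf (nat_lit 0) (nat_lit 12555890570) (nat_lit 836) (nat_lit 1292064927) (nat_lit 76) (nat_lit 19044738277) (nat_lit 327) (nat_lit 5) (nat_lit 338) (nat_lit 5) (nat_lit 328) (nat_lit 5) (nat_lit 485) (nat_lit 454) (nat_lit 261)) (XT.lf (nat_lit 0) (nat_lit 19895076022) (nat_lit 760) (nat_lit 6622934054) (nat_lit 76) (nat_lit 6938121451) (nat_lit 318) (nat_lit 5) (nat_lit 328) (nat_lit 5) (nat_lit 319) (nat_lit 5) (nat_lit 486) (nat_lit 454) (nat_lit 260)))) (XT.nd (nat_lit 156) (nat_lit 1292) (nat_lit 0) (XT.nd (nat_lit 78) (nat_lit 684) (nat_lit 0) (XT.lf (nat_lit 0) (nat_lit 21974051169) (nat_lit 684) (nat_lit 5720123377) (nat_lit 760) (nat_lit 6337503444) (nat_lit 309) (nat_lit 5)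 (nat_lit 318) (nat_lit 5) (nat_lit 319) (nat_lit 5) (nat_lit 487) (nat_lit 454) (nat_lit 259)) (XT.lf (nat_lit 0) (nat_lit 1343279674) (nat_lit 684) (nat_lit 17616465875) (nat_lit 76) (nat_lit 15659502666) (nat_lit 300) (nat_lit 5) (nat_lit 309) (nat_lit 5) (nat_lit 301) (nat_lit 5) (nat_lit 488) (nat_lit 454) (nat_lit 258))) (XT.nd (nat_lit 78) (nat_lit 608) (nat_lit 0) (XT.lf (nat_lit 0) (nat_lit 9379531189) (nat_lit 760) (nat_lit 23288799842) (nat_lit 76) (nat_lit 2551054064) (nat_lit 291) (nat_lit 5) (nat_lit 301) (nat_lit 5) (nat_lit 292) (nat_lit 5) (nat_lit 489) (nat_lit 454) (nat_lit 257)) (XT.lf (nat_lit 0) (nat_lit 6725620989) (nat_lit 608) (nat_lit 11217758277) (nat_lit 684) (nat_lit 17888416930) (nat_lit 283) (nat_lit 5) (nat_lit 291) (nat_lit 5) (nat_lit 292) (nat_lit 5) (nat_lit 490) (nat_lit 454) (nat_lit 256)))))) (XT.nd (nat_lit 59670) (nat_lit 0) (nat_lit 17024) (XT.nd (nat_lit 234)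 (nat_lit 1748) (nat_lit 0) (XT.nd (nat_lit 78) (nat_lit 684) (nat_lit 0) (XT.lf (nat_lit 0) (nat_lit 1442039911) (nat_lit 608) (nat_lit 25556905108) (nat_lit 684) (nat_lit 9458938850) (nat_lit 275) (nat_lit 5) (nat_lit 283) (nat_lit 5) (nat_lit 284) (nat_lit 5) (nat_lit 491) (nat_lit 454) (nat_lit 255)) (XT.nd (nat_lit 78) (nat_lit 684) (nat_lit 0) (XT.lf (nat_lit 0) (nat_lit 33224135091) (nat_lit 608) (nat_lit 3369850975) (nat_lit 684) (nat_lit 503412216) (nat_lit 275) (nat_lit 5) (nat_lit 283) (nat_lit 5) (nat_lit 284) (nat_lit 5) (nat_lit 492) (nat_lit 454) (nat_lit 254)) (XT.lf (nat_lit 0) (nat_lit 8915781424) (nat_lit 684) (nat_lit 9363330774) (nat_lit 76) (nat_lit 19469666254) (nat_lit 266) (nat_lit 5) (nat_lit 275) (nat_lit 5) (nat_lit 267) (nat_lit 5) (nat_lit 493) (nat_lit 454) (nat_lit 253)))) (XT.nd (nat_lit 78) (nat_lit 1140) (nat_lit 0) (XT.lf (nat_lit 0) (nat_lit 18839261670) (nat_lit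 684) (nat_lit 14922944994) (nat_lit 76) (nat_lit 4652856064) (nat_lit 258) (nat_lit 5) (nat_lit 267) (nat_lit 5) (nat_lit 259) (nat_lit 5) (nat_lit 494) (nat_lit 454) (nat_lit 252)) (XT.nd (nat_lit 78) (nat_lit 608) (nat_lit 0) (XT.lf (nat_lit 0) (nat_lit 18476139949) (nat_lit 532) (nat_lit 10886662782) (nat_lit 608) (nat_lit 9732485922) (nat_lit 251) (nat_lit 5) (nat_lit 258) (nat_lit 5) (nat_lit 259) (nat_lit 5) (nat_lit 495) (nat_lit 454) (nat_lit 251)) (XT.lf (nat_lit 0) (nat_lit 669857659) (nat_lit 608) (nat_lit 26419797953) (nat_lit 76) (nat_lit 12700832132) (nat_lit 243) (nat_lit 5) (nat_lit 251) (nat_lit 5) (nat_lit 244) (nat_lit 5) (nat_lit 496) (nat_lit 454) (nat_lit 250))))) (XT.nd (nat_lit 234) (nat_lit 1596) (nat_lit 0) (XT.nd (nat_lit 78) (nat_lit 0) (nat_lit 0) (XT.lf (nat_lit 0) (nat_lit 4569775310) (nat_lit 0) (nat_lit 4569775310) (nat_lit 1748) (nat_lit 1235370552) (nat_lit 488) (nat_lit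 5) (nat_lit 488) (nat_lit 3) (nat_lit 511) (nat_lit 3) (nat_lit 455) (nat_lit 455) (nat_lit 290)) (XT.nd (nat_lit 78) (nat_lit 0) (nat_lit 76) (XT.lf (nat_lit 76) (nat_lit 3775937678) (nat_lit 0) (nat_lit 15069269850) (nat_lit 1824) (nat_lit 2210022697) (nat_lit 489) (nat_lit 5) (nat_lit 488) (nat_lit 5) (nat_lit 512) (nat_lit 5) (nat_lit 456) (nat_lit 455) (nat_lit 289)) (XT.lf (nat_lit 0) (nat_lit 19559803901) (nat_lit 1748) (nat_lit 1652169248) (nat_lit 1824) (nat_lit 155177290) (nat_lit 489) (nat_lit 5) (nat_lit 512) (nat_lit 5) (nat_lit 513) (nat_lit 5) (nat_lit 457) (nat_lit 455) (nat_lit 288)))) (XT.nd (nat_lit 156) (nat_lit 1672) (nat_lit 0) (XT.nd (nat_lit 78) (nat_lit 0) (nat_lit 76) (XT.lf (nat_lit 76) (nat_lit 14528755030) (nat_lit 0) (nat_lit 5953567014) (nat_lit 1824) (nat_lit 1202377345) (nat_lit 490) (nat_lit 5) (nat_lit 489) (nat_lit 5) (nat_lit 513) (nat_lit 5) (nat_lit 458) (nat_lit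 455) (nat_lit 287)) (XT.lf (nat_lit 76) (nat_lit 9259248420) (nat_lit 0) (nat_lit 12299662679) (nat_lit 1824) (nat_lit 450336589) (nat_lit 491) (nat_lit 5) (nat_lit 490) (nat_lit 5) (nat_lit 514) (nat_lit 5) (nat_lit 459) (nat_lit 455) (nat_lit 286))) (XT.nd (nat_lit 78) (nat_lit 0) (nat_lit 0) (XT.lf (nat_lit 0) (nat_lit 448642905) (nat_lit 1824) (nat_lit 18437488919) (nat_lit 1900) (nat_lit 3454786646) (nat_lit 467) (nat_lit 5) (nat_lit 491) (nat_lit 5) (nat_lit 492) (nat_lit 5) (nat_lit 460) (nat_lit 455) (nat_lit 285)) (XT.lf (nat_lit 0) (nat_lit 1529741321) (nat_lit 1824) (nat_lit 1540695405) (nat_lit 1900) (nat_lit 19608818484) (nat_lit 467) (nat_lit 5) (nat_lit 491) (nat_lit 5) (nat_lit 492) (nat_lit 5) (nat_lit 461) (nat_lit 455) (nat_lit 284))))))))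
noncomputable def xc114 : XT := (XT.nd (nat_lit 1950) (nat_lit 6384) (nat_lit 0) (XT.nd (nat_lit 936) (nat_lit 8284) (nat_lit 0) (XT.nd (nat_lit 468) (nat_lit 2432) (nat_lit 0) (XT.nd (nat_lit 234) (nat_lit 0) (nat_lit 152) (XT.nd (nat_lit 78) (nat_lit 0) (nat_lit 76) (XT.lf (nat_lit 0) (nat_lit 2826385438) (nat_lit 1824) (nat_lit 7043489807) (nat_lit 1900) (nat_lit 13154205258) (nat_lit 468) (nat_lit 5) (nat_lit 492) (nat_lit 5) (nat_lit 493) (nat_lit 5) (nat_lit 462) (nat_lit 455) (nat_lit 283)) (XT.nd (nat_lit 78) (nat_lit 0) (nat_lit 0) (XT.lf (nat_lit 0) (nat_lit 4297849692) (nat_lit 1824) (nat_lit 12634340577) (nat_lit 1900) (nat_lit 6444342553) (nat_lit 469) (nat_lit 5) (nat_lit 493) (nat_lit 5) (nat_lit 494) (nat_lit 5) (nat_lit 463) (nat_lit 455) (nat_lit 282)) (XT.lf (nat_lit 76) (nat_lit 5418943901) (nat_lit 0) (nat_lit 536405397) (nat_lit 1900) (nat_lit 17781372248) (nat_lit 470) (nat_lit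 5) (nat_lit 469) (nat_lit 5) (nat_lit 494) (nat_lit 5) (nat_lit 464) (nat_lit 455) (nat_lit 281)))) (XT.nd (nat_lit 78) (nat_lit 0) (nat_lit 76) (XT.lf (nat_lit 0) (nat_lit 7847772833) (nat_lit 1824) (nat_lit 31101209) (nat_lit 1900) (nat_lit 16225138557) (nat_lit 470) (nat_lit 5) (nat_lit 494) (nat_lit 5) (nat_lit 495) (nat_lit 5) (nat_lit 465) (nat_lit 455) (nat_lit 280)) (XT.nd (nat_lit 78) (nat_lit 0) (nat_lit 76) (XT.lf (nat_lit 0) (nat_lit 9976539913) (nat_lit 1824) (nat_lit 5493796256) (nat_lit 1900) (nat_lit 9008395424) (nat_lit 471) (nat_lit 5) (nat_lit 495) (nat_lit 5) (nat_lit 496) (nat_lit 5) (nat_lit 466) (nat_lit 455) (nat_lit 279)) (XT.lf (nat_lit 0) (nat_lit 12315021616) (nat_lit 1824) (nat_lit 11041038822) (nat_lit 1900) (nat_lit 1505715295) (nat_lit 472) (nat_lit 5) (nat_lit 496) (nat_lit 5) (nat_lit 497) (nat_lit 5) (nat_lit 467) (nat_lit 455) (nat_lit 278))))) (XT.nd (nat_lit 234)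 (nat_lit 2736) (nat_lit 0) (XT.nd (nat_lit 78) (nat_lit 0) (nat_lit 76) (XT.lf (nat_lit 76) (nat_lit 8537492903) (nat_lit 0) (nat_lit 6375947085) (nat_lit 1900) (nat_lit 10339076155) (nat_lit 473) (nat_lit 5) (nat_lit 472) (nat_lit 5) (nat_lit 497) (nat_lit 5) (nat_lit 468) (nat_lit 455) (nat_lit 277)) (XT.nd (nat_lit 78) (nat_lit 0) (nat_lit 76) (XT.lf (nat_lit 76) (nat_lit 3164714547) (nat_lit 0) (nat_lit 14586701438) (nat_lit 1900) (nat_lit 7900331252) (nat_lit 474) (nat_lit 5) (nat_lit 473) (nat_lit 5) (nat_lit 498) (nat_lit 5) (nat_lit 469) (nat_lit 455) (nat_lit 276)) (XT.lf (nat_lit 0) (nat_lit 20843358947) (nat_lit 1824) (nat_lit 2258077943) (nat_lit 1900) (nat_lit 2958142377) (nat_lit 474) (nat_lit 5) (nat_lit 498) (nat_lit 5) (nat_lit 499) (nat_lit 5) (nat_lit 470) (nat_lit 455) (nat_lit 275)))) (XT.nd (nat_lit 78) (nat_lit 2888) (nat_lit 0) (XT.lf (nat_lit 76) (nat_lit 18720656230) (nat_lit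 0) (nat_lit 5520429979) (nat_lit 1900) (nat_lit 2234300068) (nat_lit 475) (nat_lit 5) (nat_lit 474) (nat_lit 5) (nat_lit 499) (nat_lit 5) (nat_lit 471) (nat_lit 455) (nat_lit 274)) (XT.nd (nat_lit 78) (nat_lit 1064) (nat_lit 0) (XT.lf (nat_lit 0) (nat_lit 1006456056) (nat_lit 1900) (nat_lit 13359674590) (nat_lit 76) (nat_lit 12533821534) (nat_lit 450) (nat_lit 5) (nat_lit 475) (nat_lit 5) (nat_lit 451) (nat_lit 5) (nat_lit 472) (nat_lit 455) (nat_lit 273)) (XT.lf (nat_lit 0) (nat_lit 4477063994) (nat_lit 1140) (nat_lit 19063588084) (nat_lit 76) (nat_lit 3793048418) (nat_lit 436) (nat_lit 5) (nat_lit 451) (nat_lit 5) (nat_lit 437) (nat_lit 5) (nat_lit 473) (nat_lit 455) (nat_lit 272)))))) (XT.nd (nat_lit 468) (nat_lit 3876) (nat_lit 0) (XT.nd (nat_lit 234) (nat_lit 2584) (nat_lit 0) (XT.nd (nat_lit 78) (nat_lit 912) (nat_lit 0) (XT.lf (nat_lit 0) (nat_lit 2889090765) (nat_lit 912) (nat_lit 5362982825)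 (nat_lit 988) (nat_lit 19524382488) (nat_lit 424) (nat_lit 5) (nat_lit 436) (nat_lit 5) (nat_lit 437) (nat_lit 5) (nat_lit 474) (nat_lit 455) (nat_lit 271)) (XT.nd (nat_lit 78) (nat_lit 912) (nat_lit 0) (XT.lf (nat_lit 0) (nat_lit 12351571554) (nat_lit 988) (nat_lit 2561383690) (nat_lit 76) (nat_lit 13315314793) (nat_lit 424) (nat_lit 5) (nat_lit 437) (nat_lit 5) (nat_lit 425) (nat_lit 5) (nat_lit 475) (nat_lit 455) (nat_lit 270)) (XT.lf (nat_lit 0) (nat_lit 16764196700) (nat_lit 988) (nat_lit 8051323370) (nat_lit 76) (nat_lit 3874315954) (nat_lit 412) (nat_lit 5) (nat_lit 425) (nat_lit 5) (nat_lit 413) (nat_lit 5) (nat_lit 476) (nat_lit 455) (nat_lit 269)))) (XT.nd (nat_lit 78) (nat_lit 1748) (nat_lit 0) (XT.lf (nat_lit 0) (nat_lit 15502998479) (nat_lit 836) (nat_lit 6018806723) (nat_lit 912) (nat_lit 7639192143) (nat_lit 401) (nat_lit 5) (nat_lit 412) (nat_lit 5) (nat_lit 413) (nat_lit 5) (nat_lit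 477) (nat_lit 455) (nat_lit 268)) (XT.nd (nat_lit 78) (nat_lit 912) (nat_lit 0) (XT.lf (nat_lit 0) (nat_lit 10271615756) (nat_lit 836) (nat_lit 16353629292) (nat_lit 912) (nat_lit 3016986825) (nat_lit 390) (nat_lit 5) (nat_lit 401) (nat_lit 5) (nat_lit 402) (nat_lit 5) (nat_lit 478) (nat_lit 455) (nat_lit 267)) (XT.lf (nat_lit 0) (nat_lit 1901805035) (nat_lit 912) (nat_lit 25176499442) (nat_lit 76) (nat_lit 3055757086) (nat_lit 378) (nat_lit 5) (nat_lit 390) (nat_lit 5) (nat_lit 379) (nat_lit 5) (nat_lit 479) (nat_lit 455) (nat_lit 266))))) (XT.nd (nat_lit 234) (nat_lit 2280) (nat_lit 0) (XT.nd (nat_lit 78) (nat_lit 1596) (nat_lit 0) (XT.lf (nat_lit 0) (nat_lit 7163967305) (nat_lit 912) (nat_lit 492766961) (nat_lit 76) (nat_lit 22978777517) (nat_lit 378) (nat_lit 5) (nat_lit 390) (nat_lit 5) (nat_lit 379) (nat_lit 5) (nat_lit 480) (nat_lit 455) (nat_lit 265)) (XT.nd (nat_lit 78) (nat_lit 760) (nat_lit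 0) (XT.lf (nat_lit 0) (nat_lit 12824449178) (nat_lit 912) (nat_lit 5972259734) (nat_lit 76) (nat_lit 12350487889) (nat_lit 367) (nat_lit 5) (nat_lit 379) (nat_lit 5) (nat_lit 368) (nat_lit 5) (nat_lit 481) (nat_lit 455) (nat_lit 264)) (XT.lf (nat_lit 0) (nat_lit 18844034894) (nat_lit 836) (nat_lit 11525769821) (nat_lit 76) (nat_lit 1300642242) (nat_lit 357) (nat_lit 5) (nat_lit 368) (nat_lit 5) (nat_lit 358) (nat_lit 5) (nat_lit 482) (nat_lit 455) (nat_lit 263)))) (XT.nd (nat_lit 156) (nat_lit 836) (nat_lit 0) (XT.nd (nat_lit 78) (nat_lit 684) (nat_lit 0) (XT.lf (nat_lit 0) (nat_lit 14983886530) (nat_lit 760) (nat_lit 10319467888) (nat_lit 836) (nat_lit 6900857640) (nat_lit 347) (nat_lit 5) (nat_lit 357) (nat_lit 5) (nat_lit 358) (nat_lit 5) (nat_lit 483) (nat_lit 455) (nat_lit 262)) (XT.lf (nat_lit 0) (nat_lit 9749482222) (nat_lit 684) (nat_lit 22411495864) (nat_lit 760) (nat_lit 588921887) (nat_lit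 338) (nat_lit 5) (nat_lit 347) (nat_lit 5) (nat_lit 348) (nat_lit 5) (nat_lit 484) (nat_lit 455) (nat_lit 261))) (XT.nd (nat_lit 78) (nat_lit 0) (nat_lit 0) (XT.lf (nat_lit 0) (nat_lit 4399066137) (nat_lit 760) (nat_lit 1646389429) (nat_lit 836) (nat_lit 27261523047) (nat_lit 327) (nat_lit 5) (nat_lit 337) (nat_lit 5) (nat_lit 338) (nat_lit 5) (nat_lit 485) (nat_lit 455) (nat_lit 260)) (XT.lf (nat_lit 0) (nat_lit 13151658348) (nat_lit 836) (nat_lit 1080365960) (nat_lit 76) (nat_lit 19643051873) (nat_lit 327) (nat_lit 5) (nat_lit 338) (nat_lit 5) (nat_lit 328) (nat_lit 5) (nat_lit 486) (nat_lit 455) (nat_lit 259))))))) (XT.nd (nat_lit 60138) (nat_lit 0) (nat_lit 17024) (XT.nd (nat_lit 468) (nat_lit 2432) (nat_lit 0) (XT.nd (nat_lit 234) (nat_lit 1900) (nat_lit 0) (XT.nd (nat_lit 78) (nat_lit 1368) (nat_lit 0) (XT.lf (nat_lit 0) (nat_lit 20706446183) (nat_lit 760) (nat_lit 6571130635) (nat_lit 76) (nat_lit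 7177932196) (nat_lit 318) (nat_lit 5) (nat_lit 328) (nat_lit 5) (nat_lit 319) (nat_lit 5) (nat_lit 487) (nat_lit 455) (nat_lit 258)) (XT.nd (nat_lit 78) (nat_lit 684) (nat_lit 0) (XT.lf (nat_lit 0) (nat_lit 22879700219) (nat_lit 684) (nat_lit 5855169321) (nat_lit 760) (nat_lit 6313545761) (nat_lit 309) (nat_lit 5) (nat_lit 318) (nat_lit 5) (nat_lit 319) (nat_lit 5) (nat_lit 488) (nat_lit 455) (nat_lit 257)) (XT.lf (nat_lit 0) (nat_lit 1590541442) (nat_lit 684) (nat_lit 17895853845) (nat_lit 76) (nat_lit 16167276226) (nat_lit 300) (nat_lit 5) (nat_lit 309) (nat_lit 5) (nat_lit 301) (nat_lit 5) (nat_lit 489) (nat_lit 455) (nat_lit 256)))) (XT.nd (nat_lit 78) (nat_lit 1216) (nat_lit 0) (XT.lf (nat_lit 0) (nat_lit 9863719751) (nat_lit 760) (nat_lit 23738610490) (nat_lit 76) (nat_lit 2669565908) (nat_lit 291) (nat_lit 5) (nat_lit 301) (nat_lit 5) (nat_lit 292) (nat_lit 5) (nat_lit 490) (nat_lit 455) (nat_lit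 255)) (XT.nd (nat_lit 78) (nat_lit 608) (nat_lit 0) (XT.lf (nat_lit 0) (nat_lit 7172205616) (nat_lit 608) (nat_lit 11507960289) (nat_lit 684) (nat_lit 18222600445) (nat_lit 283) (nat_lit 5) (nat_lit 291) (nat_lit 5) (nat_lit 292) (nat_lit 5) (nat_lit 491) (nat_lit 455) (nat_lit 254)) (XT.lf (nat_lit 0) (nat_lit 1729768428) (nat_lit 608) (nat_lit 26273728371) (nat_lit 684) (nat_lit 9544218300) (nat_lit 275) (nat_lit 5) (nat_lit 283) (nat_lit 5) (nat_lit 284) (nat_lit 5) (nat_lit 492) (nat_lit 455) (nat_lit 253))))) (XT.nd (nat_lit 234) (nat_lit 1140) (nat_lit 0) (XT.nd (nat_lit 78) (nat_lit 1292) (nat_lit 0) (XT.lf (nat_lit 0) (nat_lit 34458206056) (nat_lit 608) (nat_lit 3422515543) (nat_lit 684) (nat_lit 325807092) (nat_lit 275) (nat_lit 5) (nat_lit 283) (nat_lit 5) (nat_lit 284) (nat_lit 5) (nat_lit 493) (nat_lit 455) (nat_lit 252)) (XT.nd (nat_lit 78) (nat_lit 608) (nat_lit 0) (XT.lf (nat_lit 0)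 (nat_lit 9369751456) (nat_lit 684) (nat_lit 9404822749) (nat_lit 76) (nat_lit 20102925085) (nat_lit 266) (nat_lit 5) (nat_lit 275) (nat_lit 5) (nat_lit 267) (nat_lit 5) (nat_lit 494) (nat_lit 455) (nat_lit 251)) (XT.lf (nat_lit 0) (nat_lit 19587377004) (nat_lit 684) (nat_lit 15131789068) (nat_lit 76) (nat_lit 4844677572) (nat_lit 258) (nat_lit 5) (nat_lit 267) (nat_lit 5) (nat_lit 259) (nat_lit 5) (nat_lit 495) (nat_lit 455) (nat_lit 250)))) (XT.nd (nat_lit 78) (nat_lit 608) (nat_lit 0) (XT.lf (nat_lit 0) (nat_lit 19265393459) (nat_lit 532) (nat_lit 11157428138) (nat_lit 608) (nat_lit 9841731158) (nat_lit 251) (nat_lit 5) (nat_lit 258) (nat_lit 5) (nat_lit 259) (nat_lit 5) (nat_lit 496) (nat_lit 455) (nat_lit 249)) (XT.nd (nat_lit 59280) (nat_lit 0) (nat_lit 18620) (XT.lf (nat_lit 0) (nat_lit 866919623) (nat_lit 608) (nat_lit 26975691993) (nat_lit 76) (nat_lit 13138040146) (nat_lit 243) (nat_lit 5)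 (nat_lit 251) (nat_lit 5) (nat_lit 244) (nat_lit 5) (nat_lit 497) (nat_lit 455) (nat_lit 248)) (XT.lf (nat_lit 0) (nat_lit 4819863772) (nat_lit 0) (nat_lit 4819863772) (nat_lit 1748) (nat_lit 1041900302) (nat_lit 488) (nat_lit 5) (nat_lit 488) (nat_lit 3) (nat_lit 511) (nat_lit 3) (nat_lit 456) (nat_lit 456) (nat_lit 288)))))) (XT.nd (nat_lit 468) (nat_lit 0) (nat_lit 76) (XT.nd (nat_lit 234) (nat_lit 1596) (nat_lit 0) (XT.nd (nat_lit 78) (nat_lit 0) (nat_lit 0) (XT.lf (nat_lit 76) (nat_lit 4121917841) (nat_lit 0) (nat_lit 15727548545) (nat_lit 1824) (nat_lit 1828601618) (nat_lit 489) (nat_lit 5) (nat_lit 488) (nat_lit 5) (nat_lit 512) (nat_lit 5) (nat_lit 457) (nat_lit 456) (nat_lit 287)) (XT.nd (nat_lit 78) (nat_lit 0) (nat_lit 76) (XT.lf (nat_lit 76) (nat_lit 20533427492) (nat_lit 0) (nat_lit 38238056) (nat_lit 1824) (nat_lit 1427958175) (nat_lit 489) (nat_lit 5) (nat_lit 488) (nat_lit 5) (nat_lit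 512) (nat_lit 5) (nat_lit 458) (nat_lit 456) (nat_lit 286)) (XT.lf (nat_lit 76) (nat_lit 15196578687) (nat_lit 0) (nat_lit 6314164951) (nat_lit 1824) (nat_lit 816178979) (nat_lit 490) (nat_lit 5) (nat_lit 489) (nat_lit 5) (nat_lit 513) (nat_lit 5) (nat_lit 459) (nat_lit 456) (nat_lit 285)))) (XT.nd (nat_lit 78) (nat_lit 1748) (nat_lit 0) (XT.lf (nat_lit 76) (nat_lit 9774568833) (nat_lit 0) (nat_lit 12833399776) (nat_lit 1824) (nat_lit 53473118) (nat_lit 491) (nat_lit 5) (nat_lit 490) (nat_lit 5) (nat_lit 514) (nat_lit 5) (nat_lit 460) (nat_lit 456) (nat_lit 284)) (XT.nd (nat_lit 78) (nat_lit 0) (nat_lit 0) (XT.lf (nat_lit 0) (nat_lit 855838563) (nat_lit 1824) (nat_lit 18742651609) (nat_lit 1900) (nat_lit 3404745347) (nat_lit 467) (nat_lit 5) (nat_lit 491) (nat_lit 5) (nat_lit 492) (nat_lit 5) (nat_lit 461) (nat_lit 456) (nat_lit 283)) (XT.lf (nat_lit 0) (nat_lit 1957901881) (nat_lit 1824) (nat_lit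 1346176483) (nat_lit 1900) (nat_lit 20047874400) (nat_lit 467) (nat_lit 5) (nat_lit 491) (nat_lit 5) (nat_lit 492) (nat_lit 5) (nat_lit 462) (nat_lit 456) (nat_lit 282))))) (XT.nd (nat_lit 234) (nat_lit 0) (nat_lit 152) (XT.nd (nat_lit 78) (nat_lit 0) (nat_lit 76) (XT.lf (nat_lit 0) (nat_lit 3282967028) (nat_lit 1824) (nat_lit 7009591320) (nat_lit 1900) (nat_lit 13414775046) (nat_lit 468) (nat_lit 5) (nat_lit 492) (nat_lit 5) (nat_lit 493) (nat_lit 5) (nat_lit 463) (nat_lit 456) (nat_lit 281)) (XT.nd (nat_lit 78) (nat_lit 0) (nat_lit 0) (XT.lf (nat_lit 0) (nat_lit 4788524991) (nat_lit 1824) (nat_lit 12764074878) (nat_lit 1900) (nat_lit 6517961399) (nat_lit 469) (nat_lit 5) (nat_lit 493) (nat_lit 5) (nat_lit 494) (nat_lit 5) (nat_lit 464) (nat_lit 456) (nat_lit 280)) (XT.lf (nat_lit 76) (nat_lit 5826763604) (nat_lit 0) (nat_lit 660042205) (nat_lit 1900) (nat_lit 17954929675) (nat_lit 470) (nat_lit 5)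 (nat_lit 469) (nat_lit 5) (nat_lit 494) (nat_lit 5) (nat_lit 465) (nat_lit 456) (nat_lit 279)))) (XT.nd (nat_lit 156) (nat_lit 0) (nat_lit 152) (XT.nd (nat_lit 78) (nat_lit 0) (nat_lit 76) (XT.lf (nat_lit 76) (nat_lit 216472151) (nat_lit 0) (nat_lit 8209981853) (nat_lit 1900) (nat_lit 16393783151) (nat_lit 471) (nat_lit 5) (nat_lit 470) (nat_lit 5) (nat_lit 495) (nat_lit 5) (nat_lit 466) (nat_lit 456) (nat_lit 278)) (XT.lf (nat_lit 0) (nat_lit 10608695342) (nat_lit 1824) (nat_lit 5409633558) (nat_lit 1900) (nat_lit 9188077493) (nat_lit 471) (nat_lit 5) (nat_lit 495) (nat_lit 5) (nat_lit 496) (nat_lit 5) (nat_lit 467) (nat_lit 456) (nat_lit 277))) (XT.nd (nat_lit 78) (nat_lit 0) (nat_lit 0) (XT.lf (nat_lit 0) (nat_lit 13008708635) (nat_lit 1824) (nat_lit 11120290341) (nat_lit 1900) (nat_lit 1472116212) (nat_lit 472) (nat_lit 5) (nat_lit 496) (nat_lit 5) (nat_lit 497) (nat_lit 5) (nat_lit 468) (nat_lit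 456) (nat_lit 276)) (XT.lf (nat_lit 76) (nat_lit 9041509266) (nat_lit 0) (nat_lit 6635735990) (nat_lit 1900) (nat_lit 10326490086) (nat_lit 473) (nat_lit 5) (nat_lit 472) (nat_lit 5) (nat_lit 497) (nat_lit 5) (nat_lit 469) (nat_lit 456) (nat_lit 275))))))))
noncomputable def xc115 : XT := (XT.nd (nat_lit 1950) (nat_lit 1824) (nat_lit 0) (XT.nd (nat_lit 936) (nat_lit 7828) (nat_lit 0) (XT.nd (nat_lit 468) (nat_lit 3496) (nat_lit 0) (XT.nd (nat_lit 234) (nat_lit 3724) (nat_lit 0) (XT.nd (nat_lit 78) (nat_lit 0) (nat_lit 76) (XT.lf (nat_lit 76) (nat_lit 3510216574) (nat_lit 0) (nat_lit 15082123311) (nat_lit 1900) (nat_lit 7822764720) (nat_lit 474) (nat_lit 5) (nat_lit 473) (nat_lit 5) (nat_lit 498) (nat_lit 5) (nat_lit 470) (nat_lit 456) (nat_lit 274)) (XT.nd (nat_lit 78) (nat_lit 0) (nat_lit 0) (XT.lf (nat_lit 0) (nat_lit 21767694676) (nat_lit 1824) (nat_lit 2076178484) (nat_lit 1900) (nat_lit 2991486163)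 (nat_lit 474) (nat_lit 5) (nat_lit 498) (nat_lit 5) (nat_lit 499) (nat_lit 5) (nat_lit 471) (nat_lit 456) (nat_lit 273)) (XT.lf (nat_lit 76) (nat_lit 19527867572) (nat_lit 0) (nat_lit 5732370972) (nat_lit 1900) (nat_lit 2003545080) (nat_lit 475) (nat_lit 5) (nat_lit 474) (nat_lit 5) (nat_lit 499) (nat_lit 5) (nat_lit 472) (nat_lit 456) (nat_lit 272)))) (XT.nd (nat_lit 78) (nat_lit 1976) (nat_lit 0) (XT.lf (nat_lit 0) (nat_lit 1323293406) (nat_lit 1900) (nat_lit 13508958646) (nat_lit 76) (nat_lit 12868941220) (nat_lit 450) (nat_lit 5) (nat_lit 475) (nat_lit 5) (nat_lit 451) (nat_lit 5) (nat_lit 473) (nat_lit 456) (nat_lit 271)) (XT.nd (nat_lit 78) (nat_lit 912) (nat_lit 0) (XT.lf (nat_lit 0) (nat_lit 4891066337) (nat_lit 1140) (nat_lit 19382237170) (nat_lit 76) (nat_lit 3874790310) (nat_lit 436) (nat_lit 5) (nat_lit 451) (nat_lit 5) (nat_lit 437) (nat_lit 5) (nat_lit 474) (nat_lit 456) (nat_lit 270))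 (XT.lf (nat_lit 0) (nat_lit 3224913225) (nat_lit 912) (nat_lit 5547884318) (nat_lit 988) (nat_lit 19831465793) (nat_lit 424) (nat_lit 5) (nat_lit 436) (nat_lit 5) (nat_lit 437) (nat_lit 5) (nat_lit 475) (nat_lit 456) (nat_lit 269))))) (XT.nd (nat_lit 234) (nat_lit 1748) (nat_lit 0) (XT.nd (nat_lit 78) (nat_lit 1748) (nat_lit 0) (XT.lf (nat_lit 0) (nat_lit 12987172917) (nat_lit 988) (nat_lit 2390854264) (nat_lit 76) (nat_lit 13691767357) (nat_lit 424) (nat_lit 5) (nat_lit 437) (nat_lit 5) (nat_lit 425) (nat_lit 5) (nat_lit 476) (nat_lit 456) (nat_lit 268)) (XT.nd (nat_lit 78) (nat_lit 836) (nat_lit 0) (XT.lf (nat_lit 0) (nat_lit 17525935828) (nat_lit 988) (nat_lit 8044204288) (nat_lit 76) (nat_lit 3975192867) (nat_lit 412) (nat_lit 5) (nat_lit 425) (nat_lit 5) (nat_lit 413) (nat_lit 5) (nat_lit 477) (nat_lit 456) (nat_lit 267)) (XT.lf (nat_lit 0) (nat_lit 16212713024) (nat_lit 836) (nat_lit 6207609576)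 (nat_lit 912) (nat_lit 7610426178) (nat_lit 401) (nat_lit 5) (nat_lit 412) (nat_lit 5) (nat_lit 413) (nat_lit 5) (nat_lit 478) (nat_lit 456) (nat_lit 266)))) (XT.nd (nat_lit 78) (nat_lit 912) (nat_lit 0) (XT.lf (nat_lit 0) (nat_lit 10825468793) (nat_lit 836) (nat_lit 16845575244) (nat_lit 912) (nat_lit 2855493356) (nat_lit 390) (nat_lit 5) (nat_lit 401) (nat_lit 5) (nat_lit 402) (nat_lit 5) (nat_lit 479) (nat_lit 456) (nat_lit 265)) (XT.nd (nat_lit 78) (nat_lit 0) (nat_lit 0) (XT.lf (nat_lit 0) (nat_lit 2201916825) (nat_lit 912) (nat_lit 25681936922) (nat_lit 76) (nat_lit 3149348899) (nat_lit 378) (nat_lit 5) (nat_lit 390) (nat_lit 5) (nat_lit 379) (nat_lit 5) (nat_lit 480) (nat_lit 456) (nat_lit 264)) (XT.lf (nat_lit 0) (nat_lit 7614864614) (nat_lit 912) (nat_lit 264969870) (nat_lit 76) (nat_lit 23670004047) (nat_lit 378) (nat_lit 5) (nat_lit 390) (nat_lit 5) (nat_lit 379) (nat_lit 5) (nat_lit 481)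 (nat_lit 456) (nat_lit 263)))))) (XT.nd (nat_lit 468) (nat_lit 3952) (nat_lit 0) (XT.nd (nat_lit 234) (nat_lit 1520) (nat_lit 0) (XT.nd (nat_lit 78) (nat_lit 1520) (nat_lit 0) (XT.lf (nat_lit 0) (nat_lit 13439889104) (nat_lit 912) (nat_lit 5908203299) (nat_lit 76) (nat_lit 12728887688) (nat_lit 367) (nat_lit 5) (nat_lit 379) (nat_lit 5) (nat_lit 368) (nat_lit 5) (nat_lit 482) (nat_lit 456) (nat_lit 262)) (XT.nd (nat_lit 78) (nat_lit 760) (nat_lit 0) (XT.lf (nat_lit 0) (nat_lit 19634985534) (nat_lit 836) (nat_lit 11627825152) (nat_lit 76) (nat_lit 1353219141) (nat_lit 357) (nat_lit 5) (nat_lit 368) (nat_lit 5) (nat_lit 358) (nat_lit 5) (nat_lit 483) (nat_lit 456) (nat_lit 261)) (XT.lf (nat_lit 0) (nat_lit 15673166858) (nat_lit 760) (nat_lit 10609902755) (nat_lit 836) (nat_lit 6882839091) (nat_lit 347) (nat_lit 5) (nat_lit 357) (nat_lit 5) (nat_lit 358) (nat_lit 5) (nat_lit 484) (nat_lit 456) (nat_lit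 260)))) (XT.nd (nat_lit 78) (nat_lit 836) (nat_lit 0) (XT.lf (nat_lit 0) (nat_lit 10282076076) (nat_lit 684) (nat_lit 23059599905) (nat_lit 760) (nat_lit 386386703) (nat_lit 338) (nat_lit 5) (nat_lit 347) (nat_lit 5) (nat_lit 348) (nat_lit 5) (nat_lit 485) (nat_lit 456) (nat_lit 259)) (XT.nd (nat_lit 78) (nat_lit 0) (nat_lit 0) (XT.lf (nat_lit 0) (nat_lit 4770109481) (nat_lit 760) (nat_lit 1669247245) (nat_lit 836) (nat_lit 27862564394) (nat_lit 327) (nat_lit 5) (nat_lit 337) (nat_lit 5) (nat_lit 338) (nat_lit 5) (nat_lit 486) (nat_lit 456) (nat_lit 258)) (XT.lf (nat_lit 0) (nat_lit 13752722436) (nat_lit 836) (nat_lit 876693506) (nat_lit 76) (nat_lit 20257766605) (nat_lit 327) (nat_lit 5) (nat_lit 338) (nat_lit 5) (nat_lit 328) (nat_lit 5) (nat_lit 487) (nat_lit 456) (nat_lit 257))))) (XT.nd (nat_lit 234) (nat_lit 1900) (nat_lit 0) (XT.nd (nat_lit 78) (nat_lit 1368) (nat_lit 0) (XT.lf (nat_lit 0) (nat_lit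 21529843244) (nat_lit 760) (nat_lit 6532152347) (nat_lit 76) (nat_lit 7423119442) (nat_lit 318) (nat_lit 5) (nat_lit 328) (nat_lit 5) (nat_lit 319) (nat_lit 5) (nat_lit 488) (nat_lit 456) (nat_lit 256)) (XT.nd (nat_lit 78) (nat_lit 684) (nat_lit 0) (XT.lf (nat_lit 0) (nat_lit 23798372793) (nat_lit 684) (nat_lit 5996365208) (nat_lit 760) (nat_lit 6301158577) (nat_lit 309) (nat_lit 5) (nat_lit 318) (nat_lit 5) (nat_lit 319) (nat_lit 5) (nat_lit 489) (nat_lit 456) (nat_lit 255)) (XT.lf (nat_lit 0) (nat_lit 1833340519) (nat_lit 684) (nat_lit 18197923158) (nat_lit 76) (nat_lit 16688102299) (nat_lit 300) (nat_lit 5) (nat_lit 309) (nat_lit 5) (nat_lit 301) (nat_lit 5) (nat_lit 490) (nat_lit 456) (nat_lit 254)))) (XT.nd (nat_lit 156) (nat_lit 608) (nat_lit 0) (XT.nd (nat_lit 78) (nat_lit 608) (nat_lit 0) (XT.lf (nat_lit 0) (nat_lit 10350792269) (nat_lit 760) (nat_lit 24216200657) (nat_lit 76) (nat_lit 2789223271)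 (nat_lit 291) (nat_lit 5) (nat_lit 301) (nat_lit 5) (nat_lit 292) (nat_lit 5) (nat_lit 491) (nat_lit 456) (nat_lit 253)) (XT.lf (nat_lit 0) (nat_lit 7618134343) (nat_lit 608) (nat_lit 11809527935) (nat_lit 684) (nat_lit 18578432014) (nat_lit 283) (nat_lit 5) (nat_lit 291) (nat_lit 5) (nat_lit 292) (nat_lit 5) (nat_lit 492) (nat_lit 456) (nat_lit 252))) (XT.nd (nat_lit 78) (nat_lit 0) (nat_lit 0) (XT.lf (nat_lit 0) (nat_lit 2012095376) (nat_lit 608) (nat_lit 27014919872) (nat_lit 684) (nat_lit 9643450198) (nat_lit 275) (nat_lit 5) (nat_lit 283) (nat_lit 5) (nat_lit 284) (nat_lit 5) (nat_lit 493) (nat_lit 456) (nat_lit 251)) (XT.lf (nat_lit 0) (nat_lit 35715674466) (nat_lit 608) (nat_lit 3479540183) (nat_lit 684) (nat_lit 153936012) (nat_lit 275) (nat_lit 5) (nat_lit 283) (nat_lit 5) (nat_lit 284) (nat_lit 5) (nat_lit 494) (nat_lit 456) (nat_lit 250))))))) (XT.nd (nat_lit 60372) (nat_lit 0) (nat_lit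 10564) (XT.nd (nat_lit 59826) (nat_lit 0) (nat_lit 16340) (XT.nd (nat_lit 59592) (nat_lit 0) (nat_lit 18012) (XT.nd (nat_lit 156) (nat_lit 1140) (nat_lit 0) (XT.lf (nat_lit 0) (nat_lit 9826634922) (nat_lit 684) (nat_lit 9461302478) (nat_lit 76) (nat_lit 20752359188) (nat_lit 266) (nat_lit 5) (nat_lit 275) (nat_lit 5) (nat_lit 267) (nat_lit 5) (nat_lit 495) (nat_lit 456) (nat_lit 249)) (XT.nd (nat_lit 59358) (nat_lit 0) (nat_lit 18012) (XT.lf (nat_lit 0) (nat_lit 20064836375) (nat_lit 532) (nat_lit 11439521584) (nat_lit 608) (nat_lit 9964743163) (nat_lit 251) (nat_lit 5) (nat_lit 258) (nat_lit 5) (nat_lit 259) (nat_lit 5) (nat_lit 497) (nat_lit 456) (nat_lit 247)) (XT.lf (nat_lit 0) (nat_lit 5070968500) (nat_lit 0) (nat_lit 5070968500) (nat_lit 1748) (nat_lit 855859388) (nat_lit 488) (nat_lit 5) (nat_lit 488) (nat_lit 3) (nat_lit 511) (nat_lit 3) (nat_lit 457) (nat_lit 457) (nat_lit 286)))) (XT.nd (nat_lit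 78) (nat_lit 0) (nat_lit 0) (XT.lf (nat_lit 76) (nat_lit 4464919361) (nat_lit 0) (nat_lit 16393738844) (nat_lit 1824) (nat_lit 1461438968) (nat_lit 489) (nat_lit 5) (nat_lit 488) (nat_lit 5) (nat_lit 512) (nat_lit 5) (nat_lit 458) (nat_lit 457) (nat_lit 285)) (XT.nd (nat_lit 78) (nat_lit 0) (nat_lit 76) (XT.lf (nat_lit 76) (nat_lit 21362385641) (nat_lit 0) (nat_lit 228087957) (nat_lit 1824) (nat_lit 1061068086) (nat_lit 489) (nat_lit 5) (nat_lit 488) (nat_lit 5) (nat_lit 512) (nat_lit 5) (nat_lit 459) (nat_lit 457) (nat_lit 284)) (XT.lf (nat_lit 76) (nat_lit 15871121544) (nat_lit 0) (nat_lit 6675133801) (nat_lit 1824) (nat_lit 442634669) (nat_lit 490) (nat_lit 5) (nat_lit 489) (nat_lit 5) (nat_lit 513) (nat_lit 5) (nat_lit 460) (nat_lit 457) (nat_lit 283))))) (XT.nd (nat_lit 234) (nat_lit 0) (nat_lit 152) (XT.nd (nat_lit 78) (nat_lit 0) (nat_lit 76) (XT.lf (nat_lit 0) (nat_lit 327388315) (nat_lit 1824)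 (nat_lit 13044106558) (nat_lit 1900) (nat_lit 9962127656) (nat_lit 466) (nat_lit 5) (nat_lit 490) (nat_lit 5) (nat_lit 491) (nat_lit 5) (nat_lit 461) (nat_lit 457) (nat_lit 282)) (XT.nd (nat_lit 78) (nat_lit 0) (nat_lit 0) (XT.lf (nat_lit 0) (nat_lit 1252648012) (nat_lit 1824) (nat_lit 19071203211) (nat_lit 1900) (nat_lit 3362024951) (nat_lit 467) (nat_lit 5) (nat_lit 491) (nat_lit 5) (nat_lit 492) (nat_lit 5) (nat_lit 462) (nat_lit 457) (nat_lit 281)) (XT.lf (nat_lit 0) (nat_lit 2376963493) (nat_lit 1824) (nat_lit 1159641442) (nat_lit 1900) (nat_lit 20508667179) (nat_lit 467) (nat_lit 5) (nat_lit 491) (nat_lit 5) (nat_lit 492) (nat_lit 5) (nat_lit 463) (nat_lit 457) (nat_lit 280)))) (XT.nd (nat_lit 156) (nat_lit 0) (nat_lit 76) (XT.nd (nat_lit 78) (nat_lit 0) (nat_lit 76) (XT.lf (nat_lit 0) (nat_lit 3731903796) (nat_lit 1824) (nat_lit 6988751544) (nat_lit 1900) (nat_lit 13690857311) (nat_lit 468)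 (nat_lit 5) (nat_lit 492) (nat_lit 5) (nat_lit 493) (nat_lit 5) (nat_lit 464) (nat_lit 457) (nat_lit 279)) (XT.lf (nat_lit 0) (nat_lit 5273155204) (nat_lit 1824) (nat_lit 12912011814) (nat_lit 1900) (nat_lit 6600660736) (nat_lit 469) (nat_lit 5) (nat_lit 493) (nat_lit 5) (nat_lit 494) (nat_lit 5) (nat_lit 465) (nat_lit 457) (nat_lit 278))) (XT.nd (nat_lit 78) (nat_lit 0) (nat_lit 76) (XT.lf (nat_lit 76) (nat_lit 6232739465) (nat_lit 0) (nat_lit 781214614) (nat_lit 1900) (nat_lit 18154352623) (nat_lit 470) (nat_lit 5) (nat_lit 469) (nat_lit 5) (nat_lit 494) (nat_lit 5) (nat_lit 466) (nat_lit 457) (nat_lit 277)) (XT.lf (nat_lit 76) (nat_lit 457608710) (nat_lit 0) (nat_lit 8545381716) (nat_lit 1900) (nat_lit 16555349897) (nat_lit 471) (nat_lit 5) (nat_lit 470) (nat_lit 5) (nat_lit 495) (nat_lit 5) (nat_lit 467) (nat_lit 457) (nat_lit 276)))))) (XT.nd (nat_lit 468) (nat_lit 6156) (nat_lit 0) (XT.nd (nat_lit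 234) (nat_lit 0) (nat_lit 152) (XT.nd (nat_lit 78) (nat_lit 0) (nat_lit 76) (XT.lf (nat_lit 0) (nat_lit 11240707952) (nat_lit 1824) (nat_lit 5337238254) (nat_lit 1900) (nat_lit 9378349099) (nat_lit 471) (nat_lit 5) (nat_lit 495) (nat_lit 5) (nat_lit 496) (nat_lit 5) (nat_lit 468) (nat_lit 457) (nat_lit 275)) (XT.nd (nat_lit 78) (nat_lit 0) (nat_lit 0) (XT.lf (nat_lit 0) (nat_lit 13704593770) (nat_lit 1824) (nat_lit 11216384067) (nat_lit 1900) (nat_lit 1442030907) (nat_lit 472) (nat_lit 5) (nat_lit 496) (nat_lit 5) (nat_lit 497) (nat_lit 5) (nat_lit 469) (nat_lit 457) (nat_lit 274)) (XT.lf (nat_lit 76) (nat_lit 9546416130) (nat_lit 0) (nat_lit 6899385781) (nat_lit 1900) (nat_lit 10332054084) (nat_lit 473) (nat_lit 5) (nat_lit 472) (nat_lit 5) (nat_lit 497) (nat_lit 5) (nat_lit 470) (nat_lit 457) (nat_lit 273)))) (XT.nd (nat_lit 78) (nat_lit 0) (nat_lit 76) (XT.lf (nat_lit 76) (nat_lit 3851700459) (nat_lit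 0) (nat_lit 15589088688) (nat_lit 1900) (nat_lit 7760929168) (nat_lit 474) (nat_lit 5) (nat_lit 473) (nat_lit 5) (nat_lit 498) (nat_lit 5) (nat_lit 471) (nat_lit 457) (nat_lit 272)) (XT.nd (nat_lit 78) (nat_lit 0) (nat_lit 0) (XT.lf (nat_lit 0) (nat_lit 22702594647) (nat_lit 1824) (nat_lit 1903152502) (nat_lit 1900) (nat_lit 3029010478) (nat_lit 474) (nat_lit 5) (nat_lit 498) (nat_lit 5) (nat_lit 499) (nat_lit 5) (nat_lit 472) (nat_lit 457) (nat_lit 271)) (XT.lf (nat_lit 76) (nat_lit 20345197289) (nat_lit 0) (nat_lit 5948010771) (nat_lit 1900) (nat_lit 1782961461) (nat_lit 475) (nat_lit 5) (nat_lit 474) (nat_lit 5) (nat_lit 499) (nat_lit 5) (nat_lit 473) (nat_lit 457) (nat_lit 270))))) (XT.nd (nat_lit 234) (nat_lit 2584) (nat_lit 0) (XT.nd (nat_lit 78) (nat_lit 1976) (nat_lit 0) (XT.lf (nat_lit 0) (nat_lit 1633181356) (nat_lit 1900) (nat_lit 13677158706) (nat_lit 76) (nat_lit 13216462034) (nat_lit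 450) (nat_lit 5) (nat_lit 475) (nat_lit 5) (nat_lit 451) (nat_lit 5) (nat_lit 474) (nat_lit 457) (nat_lit 269)) (XT.nd (nat_lit 78) (nat_lit 912) (nat_lit 0) (XT.lf (nat_lit 0) (nat_lit 5301433376) (nat_lit 1140) (nat_lit 19724983805) (nat_lit 76) (nat_lit 3960824235) (nat_lit 436) (nat_lit 5) (nat_lit 451) (nat_lit 5) (nat_lit 437) (nat_lit 5) (nat_lit 475) (nat_lit 457) (nat_lit 268)) (XT.lf (nat_lit 0) (nat_lit 3556508146) (nat_lit 912) (nat_lit 5736954467) (nat_lit 988) (nat_lit 20163757141) (nat_lit 424) (nat_lit 5) (nat_lit 436) (nat_lit 5) (nat_lit 437) (nat_lit 5) (nat_lit 476) (nat_lit 457) (nat_lit 267)))) (XT.nd (nat_lit 156) (nat_lit 1672) (nat_lit 0) (XT.nd (nat_lit 78) (nat_lit 912) (nat_lit 0) (XT.lf (nat_lit 0) (nat_lit 13626627125) (nat_lit 988) (nat_lit 2229409060) (nat_lit 76) (nat_lit 14080834187) (nat_lit 424) (nat_lit 5) (nat_lit 437) (nat_lit 5) (nat_lit 425) (nat_lit 5) (nat_lit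 477) (nat_lit 457) (nat_lit 266)) (XT.lf (nat_lit 0) (nat_lit 18295670191) (nat_lit 988) (nat_lit 8051145664) (nat_lit 76) (nat_lit 4079977387) (nat_lit 412) (nat_lit 5) (nat_lit 425) (nat_lit 5) (nat_lit 413) (nat_lit 5) (nat_lit 478) (nat_lit 457) (nat_lit 265))) (XT.nd (nat_lit 78) (nat_lit 836) (nat_lit 0) (XT.lf (nat_lit 0) (nat_lit 16929676553) (nat_lit 836) (nat_lit 6401603584) (nat_lit 912) (nat_lit 7595604145) (nat_lit 401) (nat_lit 5) (nat_lit 412) (nat_lit 5) (nat_lit 413) (nat_lit 5) (nat_lit 479) (nat_lit 457) (nat_lit 264)) (XT.lf (nat_lit 0) (nat_lit 11381832974) (nat_lit 836) (nat_lit 17352202821) (nat_lit 912) (nat_lit 2703621089) (nat_lit 390) (nat_lit 5) (nat_lit 401) (nat_lit 5) (nat_lit 402) (nat_lit 5) (nat_lit 480) (nat_lit 457) (nat_lit 263))))))))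
noncomputable def xc116 : XT := (XT.nd (nat_lit 61386) (nat_lit 0) (nat_lit 3876) (XT.nd (nat_lit 936) (nat_lit 2508) (nat_lit 0) (XT.nd (nat_lit 468) (nat_lit 3572) (nat_lit 0) (XT.nd (nat_lit 234) (nat_lit 2204) (nat_lit 0) (XT.nd (nat_lit 78) (nat_lit 836) (nat_lit 0) (XT.lf (nat_lit 0) (nat_lit 2497079465) (nat_lit 912) (nat_lit 26216880370) (nat_lit 76) (nat_lit 3245638302) (nat_lit 378) (nat_lit 5) (nat_lit 390) (nat_lit 5) (nat_lit 379) (nat_lit 5) (nat_lit 481) (nat_lit 457) (nat_lit 262)) (XT.nd (nat_lit 78) (nat_lit 836) (nat_lit 0) (XT.lf (nat_lit 0) (nat_lit 8065742722) (nat_lit 912) (nat_lit 44263956) (nat_lit 76) (nat_lit 24381860417) (nat_lit 378) (nat_lit 5) (nat_lit 390) (nat_lit 5) (nat_lit 379) (nat_lit 5) (nat_lit 482) (nat_lit 457) (nat_lit 261)) (XT.lf (nat_lit 0) (nat_lit 14060548733) (nat_lit 912) (nat_lit 5856187237) (nat_lit 76) (nat_lit 13118186840) (nat_lit 367) (nat_lit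 5) (nat_lit 379) (nat_lit 5) (nat_lit 368) (nat_lit 5) (nat_lit 483) (nat_lit 457) (nat_lit 260)))) (XT.nd (nat_lit 78) (nat_lit 1444) (nat_lit 0) (XT.lf (nat_lit 0) (nat_lit 20436712631) (nat_lit 836) (nat_lit 11746932540) (nat_lit 76) (nat_lit 1406595084) (nat_lit 357) (nat_lit 5) (nat_lit 368) (nat_lit 5) (nat_lit 358) (nat_lit 5) (nat_lit 484) (nat_lit 457) (nat_lit 259)) (XT.nd (nat_lit 78) (nat_lit 684) (nat_lit 0) (XT.lf (nat_lit 0) (nat_lit 16369362177) (nat_lit 760) (nat_lit 10910149908) (nat_lit 836) (nat_lit 6877198448) (nat_lit 347) (nat_lit 5) (nat_lit 357) (nat_lit 5) (nat_lit 358) (nat_lit 5) (nat_lit 485) (nat_lit 457) (nat_lit 258)) (XT.lf (nat_lit 0) (nat_lit 10816864485) (nat_lit 684) (nat_lit 23728538590) (nat_lit 760) (nat_lit 190416007) (nat_lit 338) (nat_lit 5) (nat_lit 347) (nat_lit 5) (nat_lit 348) (nat_lit 5) (nat_lit 486) (nat_lit 457) (nat_lit 257))))) (XT.nd (nat_lit 234)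 (nat_lit 2052) (nat_lit 0) (XT.nd (nat_lit 78) (nat_lit 684) (nat_lit 0) (XT.lf (nat_lit 0) (nat_lit 5138560451) (nat_lit 760) (nat_lit 1694313947) (nat_lit 836) (nat_lit 28494082438) (nat_lit 327) (nat_lit 5) (nat_lit 337) (nat_lit 5) (nat_lit 338) (nat_lit 5) (nat_lit 487) (nat_lit 457) (nat_lit 256)) (XT.nd (nat_lit 78) (nat_lit 684) (nat_lit 0) (XT.lf (nat_lit 0) (nat_lit 14359963679) (nat_lit 836) (nat_lit 680463032) (nat_lit 76) (nat_lit 20889463385) (nat_lit 327) (nat_lit 5) (nat_lit 338) (nat_lit 5) (nat_lit 328) (nat_lit 5) (nat_lit 488) (nat_lit 457) (nat_lit 255)) (XT.lf (nat_lit 0) (nat_lit 22366334899) (nat_lit 760) (nat_lit 6505558517) (nat_lit 76) (nat_lit 7673948834) (nat_lit 318) (nat_lit 5) (nat_lit 328) (nat_lit 5) (nat_lit 319) (nat_lit 5) (nat_lit 489) (nat_lit 457) (nat_lit 254)))) (XT.nd (nat_lit 78) (nat_lit 1368) (nat_lit 0) (XT.lf (nat_lit 0) (nat_lit 24731271632) (nat_lit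 684) (nat_lit 6143775070) (nat_lit 760) (nat_lit 6299983552) (nat_lit 309) (nat_lit 5) (nat_lit 318) (nat_lit 5) (nat_lit 319) (nat_lit 5) (nat_lit 490) (nat_lit 457) (nat_lit 253)) (XT.nd (nat_lit 78) (nat_lit 684) (nat_lit 0) (XT.lf (nat_lit 0) (nat_lit 2072225016) (nat_lit 684) (nat_lit 18522533392) (nat_lit 76) (nat_lit 17222497641) (nat_lit 300) (nat_lit 5) (nat_lit 309) (nat_lit 5) (nat_lit 301) (nat_lit 5) (nat_lit 491) (nat_lit 457) (nat_lit 252)) (XT.lf (nat_lit 0) (nat_lit 10841503544) (nat_lit 760) (nat_lit 24721583701) (nat_lit 76) (nat_lit 2910198853) (nat_lit 291) (nat_lit 5) (nat_lit 301) (nat_lit 5) (nat_lit 292) (nat_lit 5) (nat_lit 492) (nat_lit 457) (nat_lit 251)))))) (XT.nd (nat_lit 59904) (nat_lit 0) (nat_lit 15808) (XT.nd (nat_lit 312) (nat_lit 1216) (nat_lit 0) (XT.nd (nat_lit 78) (nat_lit 684) (nat_lit 0) (XT.lf (nat_lit 0) (nat_lit 8064194216) (nat_lit 608) (nat_lit 12122649514)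 (nat_lit 684) (nat_lit 18955893897) (nat_lit 283) (nat_lit 5) (nat_lit 291) (nat_lit 5) (nat_lit 292) (nat_lit 5) (nat_lit 493) (nat_lit 457) (nat_lit 250)) (XT.nd (nat_lit 78) (nat_lit 76) (nat_lit 0) (XT.lf (nat_lit 0) (nat_lit 2289664284) (nat_lit 608) (nat_lit 27781046278) (nat_lit 684) (nat_lit 9756399050) (nat_lit 275) (nat_lit 5) (nat_lit 283) (nat_lit 5) (nat_lit 284) (nat_lit 5) (nat_lit 494) (nat_lit 457) (nat_lit 249)) (XT.lf (nat_lit 0) (nat_lit 12497926) (nat_lit 684) (nat_lit 3528314313) (nat_lit 76) (nat_lit 36985442563) (nat_lit 274) (nat_lit 5) (nat_lit 283) (nat_lit 5) (nat_lit 275) (nat_lit 5) (nat_lit 495) (nat_lit 457) (nat_lit 248)))) (XT.nd (nat_lit 59436) (nat_lit 0) (nat_lit 17480) (XT.lf (nat_lit 0) (nat_lit 21120395056) (nat_lit 684) (nat_lit 15609217329) (nat_lit 76) (nat_lit 5236843684) (nat_lit 258) (nat_lit 5) (nat_lit 267) (nat_lit 5) (nat_lit 259) (nat_lit 5) (nat_lit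 497) (nat_lit 457) (nat_lit 246)) (XT.nd (nat_lit 78) (nat_lit 0) (nat_lit 0) (XT.lf (nat_lit 0) (nat_lit 5323492329) (nat_lit 0) (nat_lit 5323492329) (nat_lit 1748) (nat_lit 676711037) (nat_lit 488) (nat_lit 5) (nat_lit 488) (nat_lit 3) (nat_lit 511) (nat_lit 3) (nat_lit 458) (nat_lit 458) (nat_lit 284)) (XT.lf (nat_lit 76) (nat_lit 4805619684) (nat_lit 0) (nat_lit 17068757571) (nat_lit 1824) (nat_lit 1107487152) (nat_lit 489) (nat_lit 5) (nat_lit 488) (nat_lit 5) (nat_lit 512) (nat_lit 5) (nat_lit 459) (nat_lit 458) (nat_lit 283))))) (XT.nd (nat_lit 234) (nat_lit 0) (nat_lit 76) (XT.nd (nat_lit 78) (nat_lit 1672) (nat_lit 0) (XT.lf (nat_lit 76) (nat_lit 22203988028) (nat_lit 0) (nat_lit 412801045) (nat_lit 1824) (nat_lit 706691406) (nat_lit 489) (nat_lit 5) (nat_lit 488) (nat_lit 5) (nat_lit 512) (nat_lit 5) (nat_lit 460) (nat_lit 458) (nat_lit 282)) (XT.nd (nat_lit 78) (nat_lit 1748) (nat_lit 0)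 (XT.lf (nat_lit 76) (nat_lit 16553349540) (nat_lit 0) (nat_lit 7037084395) (nat_lit 1824) (nat_lit 80732561) (nat_lit 490) (nat_lit 5) (nat_lit 489) (nat_lit 5) (nat_lit 513) (nat_lit 5) (nat_lit 461) (nat_lit 458) (nat_lit 281)) (XT.lf (nat_lit 0) (nat_lit 697039618) (nat_lit 1824) (nat_lit 13219561222) (nat_lit 1900) (nat_lit 10109801029) (nat_lit 466) (nat_lit 5) (nat_lit 490) (nat_lit 5) (nat_lit 491) (nat_lit 5) (nat_lit 462) (nat_lit 458) (nat_lit 280)))) (XT.nd (nat_lit 156) (nat_lit 0) (nat_lit 76) (XT.nd (nat_lit 78) (nat_lit 0) (nat_lit 0) (XT.lf (nat_lit 0) (nat_lit 1640057118) (nat_lit 1824) (nat_lit 19423028301) (nat_lit 1900) (nat_lit 3326338659) (nat_lit 467) (nat_lit 5) (nat_lit 491) (nat_lit 5) (nat_lit 492) (nat_lit 5) (nat_lit 463) (nat_lit 458) (nat_lit 279)) (XT.lf (nat_lit 0) (nat_lit 2787912850) (nat_lit 1824) (nat_lit 980536505) (nat_lit 1900) (nat_lit 20991357251) (nat_lit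 467) (nat_lit 5) (nat_lit 491) (nat_lit 5) (nat_lit 492) (nat_lit 5) (nat_lit 464) (nat_lit 458) (nat_lit 278))) (XT.nd (nat_lit 78) (nat_lit 0) (nat_lit 76) (XT.lf (nat_lit 0) (nat_lit 4174191533) (nat_lit 1824) (nat_lit 6980554239) (nat_lit 1900) (nat_lit 13982475683) (nat_lit 468) (nat_lit 5) (nat_lit 492) (nat_lit 5) (nat_lit 493) (nat_lit 5) (nat_lit 465) (nat_lit 458) (nat_lit 277)) (XT.lf (nat_lit 0) (nat_lit 5752750995) (nat_lit 1824) (nat_lit 13077875976) (nat_lit 1900) (nat_lit 6692318502) (nat_lit 469) (nat_lit 5) (nat_lit 493) (nat_lit 5) (nat_lit 494) (nat_lit 5) (nat_lit 466) (nat_lit 458) (nat_lit 276))))))) (XT.nd (nat_lit 936) (nat_lit 8740) (nat_lit 0) (XT.nd (nat_lit 468) (nat_lit 3420) (nat_lit 0) (XT.nd (nat_lit 234) (nat_lit 0) (nat_lit 228) (XT.nd (nat_lit 78) (nat_lit 0) (nat_lit 76) (XT.lf (nat_lit 76) (nat_lit 6637624329) (nat_lit 0) (nat_lit 900203078) (nat_lit 1900) (nat_lit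 18379231159) (nat_lit 470) (nat_lit 5) (nat_lit 469) (nat_lit 5) (nat_lit 494) (nat_lit 5) (nat_lit 467) (nat_lit 458) (nat_lit 275)) (XT.nd (nat_lit 78) (nat_lit 0) (nat_lit 76) (XT.lf (nat_lit 76) (nat_lit 692509932) (nat_lit 0) (nat_lit 8885728847) (nat_lit 1900) (nat_lit 16740721160) (nat_lit 471) (nat_lit 5) (nat_lit 470) (nat_lit 5) (nat_lit 495) (nat_lit 5) (nat_lit 468) (nat_lit 458) (nat_lit 274)) (XT.lf (nat_lit 0) (nat_lit 11873670307) (nat_lit 1824) (nat_lit 5276142931) (nat_lit 1900) (nat_lit 9579229483) (nat_lit 471) (nat_lit 5) (nat_lit 495) (nat_lit 5) (nat_lit 496) (nat_lit 5) (nat_lit 469) (nat_lit 458) (nat_lit 273)))) (XT.nd (nat_lit 78) (nat_lit 0) (nat_lit 0) (XT.lf (nat_lit 0) (nat_lit 14403811398) (nat_lit 1824) (nat_lit 11328994937) (nat_lit 1900) (nat_lit 1415305227) (nat_lit 472) (nat_lit 5) (nat_lit 496) (nat_lit 5) (nat_lit 497) (nat_lit 5) (nat_lit 470) (nat_lit 458) (nat_lit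 272)) (XT.nd (nat_lit 78) (nat_lit 0) (nat_lit 76) (XT.lf (nat_lit 76) (nat_lit 10053057068) (nat_lit 0) (nat_lit 7167238040) (nat_lit 1900) (nat_lit 10355249090) (nat_lit 473) (nat_lit 5) (nat_lit 472) (nat_lit 5) (nat_lit 497) (nat_lit 5) (nat_lit 471) (nat_lit 458) (nat_lit 271)) (XT.lf (nat_lit 76) (nat_lit 4189871312) (nat_lit 0) (nat_lit 16108134408) (nat_lit 1900) (nat_lit 7714259924) (nat_lit 474) (nat_lit 5) (nat_lit 473) (nat_lit 5) (nat_lit 498) (nat_lit 5) (nat_lit 472) (nat_lit 458) (nat_lit 270))))) (XT.nd (nat_lit 234) (nat_lit 1976) (nat_lit 0) (XT.nd (nat_lit 78) (nat_lit 1824) (nat_lit 0) (XT.lf (nat_lit 0) (nat_lit 23649361175) (nat_lit 1824) (nat_lit 1738443573) (nat_lit 1900) (nat_lit 3070658179) (nat_lit 474) (nat_lit 5) (nat_lit 498) (nat_lit 5) (nat_lit 499) (nat_lit 5) (nat_lit 473) (nat_lit 458) (nat_lit 269)) (XT.nd (nat_lit 78) (nat_lit 1824) (nat_lit 0) (XT.lf (nat_lit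 76) (nat_lit 21173758213) (nat_lit 0) (nat_lit 6167613005) (nat_lit 1900) (nat_lit 1571873086) (nat_lit 475) (nat_lit 5) (nat_lit 474) (nat_lit 5) (nat_lit 499) (nat_lit 5) (nat_lit 474) (nat_lit 458) (nat_lit 268)) (XT.lf (nat_lit 0) (nat_lit 1936855983) (nat_lit 1900) (nat_lit 13864013482) (nat_lit 76) (nat_lit 13576621252) (nat_lit 450) (nat_lit 5) (nat_lit 475) (nat_lit 5) (nat_lit 451) (nat_lit 5) (nat_lit 475) (nat_lit 458) (nat_lit 267)))) (XT.nd (nat_lit 78) (nat_lit 912) (nat_lit 0) (XT.lf (nat_lit 0) (nat_lit 5708977695) (nat_lit 1140) (nat_lit 20091716372) (nat_lit 76) (nat_lit 4051173344) (nat_lit 436) (nat_lit 5) (nat_lit 451) (nat_lit 5) (nat_lit 437) (nat_lit 5) (nat_lit 476) (nat_lit 458) (nat_lit 266)) (XT.nd (nat_lit 78) (nat_lit 0) (nat_lit 0) (XT.lf (nat_lit 0) (nat_lit 3884569705) (nat_lit 912) (nat_lit 5930397459) (nat_lit 988) (nat_lit 20521094565) (nat_lit 424) (nat_lit 5) (nat_lit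 436) (nat_lit 5) (nat_lit 437) (nat_lit 5) (nat_lit 477) (nat_lit 458) (nat_lit 265)) (XT.lf (nat_lit 0) (nat_lit 14270923178) (nat_lit 988) (nat_lit 2076505458) (nat_lit 76) (nat_lit 14482817898) (nat_lit 424) (nat_lit 5) (nat_lit 437) (nat_lit 5) (nat_lit 425) (nat_lit 5) (nat_lit 478) (nat_lit 458) (nat_lit 264)))))) (XT.nd (nat_lit 468) (nat_lit 4408) (nat_lit 0) (XT.nd (nat_lit 234) (nat_lit 1748) (nat_lit 0) (XT.nd (nat_lit 78) (nat_lit 1672) (nat_lit 0) (XT.lf (nat_lit 0) (nat_lit 19074492497) (nat_lit 988) (nat_lit 8071749925) (nat_lit 76) (nat_lit 4188736152) (nat_lit 412) (nat_lit 5) (nat_lit 425) (nat_lit 5) (nat_lit 413) (nat_lit 5) (nat_lit 479) (nat_lit 458) (nat_lit 263)) (XT.nd (nat_lit 78) (nat_lit 836) (nat_lit 0) (XT.lf (nat_lit 0) (nat_lit 17654912629) (nat_lit 836) (nat_lit 6600971627) (nat_lit 912) (nat_lit 7594294383) (nat_lit 401) (nat_lit 5) (nat_lit 412) (nat_lit 5) (nat_lit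 413) (nat_lit 5) (nat_lit 480) (nat_lit 458) (nat_lit 262)) (XT.lf (nat_lit 0) (nat_lit 11941593287) (nat_lit 836) (nat_lit 17873956878) (nat_lit 912) (nat_lit 2560828254) (nat_lit 390) (nat_lit 5) (nat_lit 401) (nat_lit 5) (nat_lit 402) (nat_lit 5) (nat_lit 481) (nat_lit 458) (nat_lit 261)))) (XT.nd (nat_lit 78) (nat_lit 836) (nat_lit 0) (XT.lf (nat_lit 0) (nat_lit 2787945413) (nat_lit 912) (nat_lit 26781391626) (nat_lit 76) (nat_lit 3344712547) (nat_lit 378) (nat_lit 5) (nat_lit 390) (nat_lit 5) (nat_lit 379) (nat_lit 5) (nat_lit 482) (nat_lit 458) (nat_lit 260)) (XT.nd (nat_lit 78) (nat_lit 0) (nat_lit 0) (XT.lf (nat_lit 0) (nat_lit 172195779) (nat_lit 836) (nat_lit 8346300887) (nat_lit 912) (nat_lit 24943893892) (nat_lit 367) (nat_lit 5) (nat_lit 378) (nat_lit 5) (nat_lit 379) (nat_lit 5) (nat_lit 483) (nat_lit 458) (nat_lit 259)) (XT.lf (nat_lit 0) (nat_lit 14687344888) (nat_lit 912) (nat_lit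 5815771278) (nat_lit 76) (nat_lit 13518738310) (nat_lit 367) (nat_lit 5) (nat_lit 379) (nat_lit 5) (nat_lit 368) (nat_lit 5) (nat_lit 484) (nat_lit 458) (nat_lit 258))))) (XT.nd (nat_lit 234) (nat_lit 2204) (nat_lit 0) (XT.nd (nat_lit 78) (nat_lit 1444) (nat_lit 0) (XT.lf (nat_lit 0) (nat_lit 21250282980) (nat_lit 836) (nat_lit 11882800440) (nat_lit 76) (nat_lit 1460838717) (nat_lit 357) (nat_lit 5) (nat_lit 368) (nat_lit 5) (nat_lit 358) (nat_lit 5) (nat_lit 485) (nat_lit 458) (nat_lit 257)) (XT.nd (nat_lit 78) (nat_lit 684) (nat_lit 0) (XT.lf (nat_lit 0) (nat_lit 17073470013) (nat_lit 760) (nat_lit 11220440616) (nat_lit 836) (nat_lit 6883565475) (nat_lit 347) (nat_lit 5) (nat_lit 357) (nat_lit 5) (nat_lit 358) (nat_lit 5) (nat_lit 486) (nat_lit 458) (nat_lit 256)) (XT.lf (nat_lit 0) (nat_lit 11354704501) (nat_lit 684) (nat_lit 24418857080) (nat_lit 760) (nat_lit 481116) (nat_lit 338) (nat_lit 5)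 (nat_lit 347) (nat_lit 5) (nat_lit 348) (nat_lit 5) (nat_lit 487) (nat_lit 458) (nat_lit 255)))) (XT.nd (nat_lit 156) (nat_lit 1368) (nat_lit 0) (XT.nd (nat_lit 78) (nat_lit 0) (nat_lit 0) (XT.lf (nat_lit 0) (nat_lit 5505129072) (nat_lit 760) (nat_lit 1721568367) (nat_lit 836) (nat_lit 29156277059) (nat_lit 327) (nat_lit 5) (nat_lit 337) (nat_lit 5) (nat_lit 338) (nat_lit 5) (nat_lit 488) (nat_lit 458) (nat_lit 254)) (XT.lf (nat_lit 0) (nat_lit 14974247903) (nat_lit 836) (nat_lit 491119850) (nat_lit 76) (nat_lit 21538735449) (nat_lit 327) (nat_lit 5) (nat_lit 338) (nat_lit 5) (nat_lit 328) (nat_lit 5) (nat_lit 489) (nat_lit 458) (nat_lit 253))) (XT.nd (nat_lit 78) (nat_lit 684) (nat_lit 0) (XT.lf (nat_lit 0) (nat_lit 23216980293) (nat_lit 760) (nat_lit 6490942634) (nat_lit 76) (nat_lit 7930687998) (nat_lit 318) (nat_lit 5) (nat_lit 328) (nat_lit 5) (nat_lit 319) (nat_lit 5) (nat_lit 490) (nat_lit 458)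 (nat_lit 252)) (XT.lf (nat_lit 0) (nat_lit 25679588945) (nat_lit 684) (nat_lit 6297471775) (nat_lit 760) (nat_lit 6309692096) (nat_lit 309) (nat_lit 5) (nat_lit 318) (nat_lit 5) (nat_lit 319) (nat_lit 5) (nat_lit 491) (nat_lit 458) (nat_lit 251))))))))
noncomputable def xc117 : XT := (XT.nd (nat_lit 61542) (nat_lit 0) (nat_lit 0) (XT.nd (nat_lit 60528) (nat_lit 0) (nat_lit 11324) (XT.nd (nat_lit 60060) (nat_lit 0) (nat_lit 14440) (XT.nd (nat_lit 234) (nat_lit 608) (nat_lit 0) (XT.nd (nat_lit 78) (nat_lit 1292) (nat_lit 0) (XT.lf (nat_lit 0) (nat_lit 2307720337) (nat_lit 684) (nat_lit 18869587035) (nat_lit 76) (nat_lit 17770987324) (nat_lit 300) (nat_lit 5) (nat_lit 309) (nat_lit 5) (nat_lit 301) (nat_lit 5) (nat_lit 492) (nat_lit 458) (nat_lit 250)) (XT.nd (nat_lit 78) (nat_lit 608) (nat_lit 0) (XT.lf (nat_lit 0) (nat_lit 11336592657) (nat_lit 760) (nat_lit 25254820451) (nat_lit 76) (nat_lit 3032662593)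 (nat_lit 291) (nat_lit 5) (nat_lit 301) (nat_lit 5) (nat_lit 292) (nat_lit 5) (nat_lit 493) (nat_lit 458) (nat_lit 249)) (XT.lf (nat_lit 0) (nat_lit 8511149587) (nat_lit 608) (nat_lit 12447527737) (nat_lit 684) (nat_lit 19355006120) (nat_lit 283) (nat_lit 5) (nat_lit 291) (nat_lit 5) (nat_lit 292) (nat_lit 5) (nat_lit 494) (nat_lit 458) (nat_lit 248)))) (XT.nd (nat_lit 59670) (nat_lit 0) (nat_lit 16188) (XT.lf (nat_lit 0) (nat_lit 2563091744) (nat_lit 608) (nat_lit 28572700694) (nat_lit 684) (nat_lit 9882859847) (nat_lit 275) (nat_lit 5) (nat_lit 283) (nat_lit 5) (nat_lit 284) (nat_lit 5) (nat_lit 495) (nat_lit 458) (nat_lit 247)) (XT.nd (nat_lit 78) (nat_lit 0) (nat_lit 0) (XT.lf (nat_lit 0) (nat_lit 5577828802) (nat_lit 0) (nat_lit 5577828802) (nat_lit 1748) (nat_lit 503945978) (nat_lit 488) (nat_lit 5) (nat_lit 488) (nat_lit 3) (nat_lit 511) (nat_lit 3) (nat_lit 459) (nat_lit 459) (nat_lit 282))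 (XT.lf (nat_lit 76) (nat_lit 5144672564) (nat_lit 0) (nat_lit 17753510055) (nat_lit 1824) (nat_lit 765751841) (nat_lit 489) (nat_lit 5) (nat_lit 488) (nat_lit 5) (nat_lit 512) (nat_lit 5) (nat_lit 460) (nat_lit 459) (nat_lit 281))))) (XT.nd (nat_lit 234) (nat_lit 0) (nat_lit 152) (XT.nd (nat_lit 78) (nat_lit 1748) (nat_lit 0) (XT.lf (nat_lit 76) (nat_lit 23059315717) (nat_lit 0) (nat_lit 592845034) (nat_lit 1824) (nat_lit 363853386) (nat_lit 489) (nat_lit 5) (nat_lit 488) (nat_lit 5) (nat_lit 512) (nat_lit 5) (nat_lit 461) (nat_lit 459) (nat_lit 280)) (XT.nd (nat_lit 78) (nat_lit 0) (nat_lit 76) (XT.lf (nat_lit 0) (nat_lit 266942155) (nat_lit 1824) (nat_lit 7131877984) (nat_lit 1900) (nat_lit 16975480239) (nat_lit 465) (nat_lit 5) (nat_lit 489) (nat_lit 5) (nat_lit 490) (nat_lit 5) (nat_lit 462) (nat_lit 459) (nat_lit 279)) (XT.lf (nat_lit 0) (nat_lit 1057124766) (nat_lit 1824) (nat_lit 13412671264)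 (nat_lit 1900) (nat_lit 10270583554) (nat_lit 466) (nat_lit 5) (nat_lit 490) (nat_lit 5) (nat_lit 491) (nat_lit 5) (nat_lit 463) (nat_lit 459) (nat_lit 278)))) (XT.nd (nat_lit 78) (nat_lit 0) (nat_lit 0) (XT.lf (nat_lit 0) (nat_lit 2019006842) (nat_lit 1824) (nat_lit 19798054898) (nat_lit 1900) (nat_lit 3297420136) (nat_lit 467) (nat_lit 5) (nat_lit 491) (nat_lit 5) (nat_lit 492) (nat_lit 5) (nat_lit 464) (nat_lit 459) (nat_lit 277)) (XT.nd (nat_lit 78) (nat_lit 0) (nat_lit 76) (XT.lf (nat_lit 0) (nat_lit 3191693936) (nat_lit 1824) (nat_lit 808336820) (nat_lit 1900) (nat_lit 21496138083) (nat_lit 467) (nat_lit 5) (nat_lit 491) (nat_lit 5) (nat_lit 492) (nat_lit 5) (nat_lit 465) (nat_lit 459) (nat_lit 276)) (XT.lf (nat_lit 0) (nat_lit 4610785572) (nat_lit 1824) (nat_lit 6984617063) (nat_lit 1900) (nat_lit 14289679854) (nat_lit 468) (nat_lit 5) (nat_lit 492) (nat_lit 5) (nat_lit 493) (nat_lit 5) (nat_lit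 466) (nat_lit 459) (nat_lit 275)))))) (XT.nd (nat_lit 468) (nat_lit 3420) (nat_lit 0) (XT.nd (nat_lit 234) (nat_lit 0) (nat_lit 152) (XT.nd (nat_lit 78) (nat_lit 0) (nat_lit 0) (XT.lf (nat_lit 0) (nat_lit 6228284919) (nat_lit 1824) (nat_lit 13261430851) (nat_lit 1900) (nat_lit 6792831619) (nat_lit 469) (nat_lit 5) (nat_lit 493) (nat_lit 5) (nat_lit 494) (nat_lit 5) (nat_lit 467) (nat_lit 459) (nat_lit 274)) (XT.nd (nat_lit 78) (nat_lit 0) (nat_lit 76) (XT.lf (nat_lit 76) (nat_lit 7042147234) (nat_lit 0) (nat_lit 1017276118) (nat_lit 1900) (nat_lit 18629211126) (nat_lit 470) (nat_lit 5) (nat_lit 469) (nat_lit 5) (nat_lit 494) (nat_lit 5) (nat_lit 468) (nat_lit 459) (nat_lit 273)) (XT.lf (nat_lit 76) (nat_lit 921761958) (nat_lit 0) (nat_lit 9231465270) (nat_lit 1900) (nat_lit 16949522836) (nat_lit 471) (nat_lit 5) (nat_lit 470) (nat_lit 5) (nat_lit 495) (nat_lit 5) (nat_lit 469) (nat_lit 459) (nat_lit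 272)))) (XT.nd (nat_lit 78) (nat_lit 0) (nat_lit 76) (XT.lf (nat_lit 0) (nat_lit 12508644782) (nat_lit 1824) (nat_lit 5225913248) (nat_lit 1900) (nat_lit 9790755590) (nat_lit 471) (nat_lit 5) (nat_lit 495) (nat_lit 5) (nat_lit 496) (nat_lit 5) (nat_lit 470) (nat_lit 459) (nat_lit 271)) (XT.nd (nat_lit 78) (nat_lit 0) (nat_lit 0) (XT.lf (nat_lit 0) (nat_lit 15107468596) (nat_lit 1824) (nat_lit 11457835799) (nat_lit 1900) (nat_lit 1391795295) (nat_lit 472) (nat_lit 5) (nat_lit 496) (nat_lit 5) (nat_lit 497) (nat_lit 5) (nat_lit 471) (nat_lit 459) (nat_lit 270)) (XT.lf (nat_lit 76) (nat_lit 10562254072) (nat_lit 0) (nat_lit 7439631640) (nat_lit 1900) (nat_lit 10395601522) (nat_lit 473) (nat_lit 5) (nat_lit 472) (nat_lit 5) (nat_lit 497) (nat_lit 5) (nat_lit 472) (nat_lit 459) (nat_lit 269))))) (XT.nd (nat_lit 234) (nat_lit 3724) (nat_lit 0) (XT.nd (nat_lit 78) (nat_lit 0) (nat_lit 76) (XT.lf (nat_lit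 76) (nat_lit 4525408001) (nat_lit 0) (nat_lit 16639802475) (nat_lit 1900) (nat_lit 7682234880) (nat_lit 474) (nat_lit 5) (nat_lit 473) (nat_lit 5) (nat_lit 498) (nat_lit 5) (nat_lit 473) (nat_lit 459) (nat_lit 268)) (XT.nd (nat_lit 78) (nat_lit 0) (nat_lit 0) (XT.lf (nat_lit 0) (nat_lit 24609279082) (nat_lit 1824) (nat_lit 1581525806) (nat_lit 1900) (nat_lit 3116380890) (nat_lit 474) (nat_lit 5) (nat_lit 498) (nat_lit 5) (nat_lit 499) (nat_lit 5) (nat_lit 474) (nat_lit 459) (nat_lit 267)) (XT.lf (nat_lit 76) (nat_lit 22014650104) (nat_lit 0) (nat_lit 6391440443) (nat_lit 1900) (nat_lit 1369639875) (nat_lit 475) (nat_lit 5) (nat_lit 474) (nat_lit 5) (nat_lit 499) (nat_lit 5) (nat_lit 475) (nat_lit 459) (nat_lit 266)))) (XT.nd (nat_lit 156) (nat_lit 912) (nat_lit 0) (XT.nd (nat_lit 78) (nat_lit 1064) (nat_lit 0) (XT.lf (nat_lit 0) (nat_lit 2235021222) (nat_lit 1900) (nat_lit 14069301418) (nat_lit 76)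 (nat_lit 13949671004) (nat_lit 450) (nat_lit 5) (nat_lit 475) (nat_lit 5) (nat_lit 451) (nat_lit 5) (nat_lit 476) (nat_lit 459) (nat_lit 265)) (XT.lf (nat_lit 0) (nat_lit 6114483352) (nat_lit 1140) (nat_lit 20482367809) (nat_lit 76) (nat_lit 4145867542) (nat_lit 436) (nat_lit 5) (nat_lit 451) (nat_lit 5) (nat_lit 437) (nat_lit 5) (nat_lit 477) (nat_lit 459) (nat_lit 264))) (XT.nd (nat_lit 78) (nat_lit 0) (nat_lit 0) (XT.lf (nat_lit 0) (nat_lit 4209765779) (nat_lit 912) (nat_lit 6128419061) (nat_lit 988) (nat_lit 20903363947) (nat_lit 424) (nat_lit 5) (nat_lit 436) (nat_lit 5) (nat_lit 437) (nat_lit 5) (nat_lit 478) (nat_lit 459) (nat_lit 263)) (XT.lf (nat_lit 0) (nat_lit 14921029607) (nat_lit 988) (nat_lit 1931631357) (nat_lit 76) (nat_lit 14898034536) (nat_lit 424) (nat_lit 5) (nat_lit 437) (nat_lit 5) (nat_lit 425) (nat_lit 5) (nat_lit 479) (nat_lit 459) (nat_lit 262))))))) (XT.nd (nat_lit 1014)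 (nat_lit 2584) (nat_lit 0) (XT.nd (nat_lit 468) (nat_lit 4408) (nat_lit 0) (XT.nd (nat_lit 234) (nat_lit 1748) (nat_lit 0) (XT.nd (nat_lit 78) (nat_lit 1672) (nat_lit 0) (XT.lf (nat_lit 0) (nat_lit 19863479274) (nat_lit 988) (nat_lit 8105654606) (nat_lit 76) (nat_lit 4301540704) (nat_lit 412) (nat_lit 5) (nat_lit 425) (nat_lit 5) (nat_lit 413) (nat_lit 5) (nat_lit 480) (nat_lit 459) (nat_lit 261)) (XT.nd (nat_lit 78) (nat_lit 836) (nat_lit 0) (XT.lf (nat_lit 0) (nat_lit 18389429251) (nat_lit 836) (nat_lit 6805900517) (nat_lit 912) (nat_lit 7606101077) (nat_lit 401) (nat_lit 5) (nat_lit 412) (nat_lit 5) (nat_lit 413) (nat_lit 5) (nat_lit 481) (nat_lit 459) (nat_lit 260)) (XT.lf (nat_lit 0) (nat_lit 12505614790) (nat_lit 836) (nat_lit 18411295363) (nat_lit 912) (nat_lit 2426604494) (nat_lit 390) (nat_lit 5) (nat_lit 401) (nat_lit 5) (nat_lit 402) (nat_lit 5) (nat_lit 482) (nat_lit 459) (nat_lit 259))))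 (XT.nd (nat_lit 78) (nat_lit 836) (nat_lit 0) (XT.lf (nat_lit 0) (nat_lit 3075140721) (nat_lit 912) (nat_lit 27375581649) (nat_lit 76) (nat_lit 3446661140) (nat_lit 378) (nat_lit 5) (nat_lit 390) (nat_lit 5) (nat_lit 379) (nat_lit 5) (nat_lit 483) (nat_lit 459) (nat_lit 258)) (XT.nd (nat_lit 78) (nat_lit 0) (nat_lit 0) (XT.lf (nat_lit 0) (nat_lit 383218517) (nat_lit 836) (nat_lit 8589797711) (nat_lit 912) (nat_lit 25489250807) (nat_lit 367) (nat_lit 5) (nat_lit 378) (nat_lit 5) (nat_lit 379) (nat_lit 5) (nat_lit 484) (nat_lit 459) (nat_lit 257)) (XT.lf (nat_lit 0) (nat_lit 15321178254) (nat_lit 912) (nat_lit 5786547955) (nat_lit 76) (nat_lit 13930904159) (nat_lit 367) (nat_lit 5) (nat_lit 379) (nat_lit 5) (nat_lit 368) (nat_lit 5) (nat_lit 485) (nat_lit 459) (nat_lit 256))))) (XT.nd (nat_lit 234) (nat_lit 2128) (nat_lit 0) (XT.nd (nat_lit 78) (nat_lit 1520) (nat_lit 0) (XT.lf (nat_lit 0) (nat_lit 22076752701)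 (nat_lit 836) (nat_lit 12035174663) (nat_lit 76) (nat_lit 1516018181) (nat_lit 357) (nat_lit 5) (nat_lit 368) (nat_lit 5) (nat_lit 358) (nat_lit 5) (nat_lit 486) (nat_lit 459) (nat_lit 255)) (XT.nd (nat_lit 78) (nat_lit 760) (nat_lit 0) (XT.lf (nat_lit 0) (nat_lit 17786472465) (nat_lit 760) (nat_lit 11541016705) (nat_lit 836) (nat_lit 6901601400) (nat_lit 347) (nat_lit 5) (nat_lit 357) (nat_lit 5) (nat_lit 358) (nat_lit 5) (nat_lit 487) (nat_lit 459) (nat_lit 254)) (XT.lf (nat_lit 0) (nat_lit 181508707) (nat_lit 760) (nat_lit 24948394749) (nat_lit 76) (nat_lit 11713706741) (nat_lit 337) (nat_lit 5) (nat_lit 347) (nat_lit 5) (nat_lit 338) (nat_lit 5) (nat_lit 488) (nat_lit 459) (nat_lit 253)))) (XT.nd (nat_lit 156) (nat_lit 1368) (nat_lit 0) (XT.nd (nat_lit 78) (nat_lit 0) (nat_lit 0) (XT.lf (nat_lit 0) (nat_lit 5870501444) (nat_lit 760) (nat_lit 1750993722) (nat_lit 836) (nat_lit 29849395146) (nat_lit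 327) (nat_lit 5) (nat_lit 337) (nat_lit 5) (nat_lit 338) (nat_lit 5) (nat_lit 489) (nat_lit 459) (nat_lit 252)) (XT.lf (nat_lit 0) (nat_lit 15596427847) (nat_lit 836) (nat_lit 308137287) (nat_lit 76) (nat_lit 22206189022) (nat_lit 327) (nat_lit 5) (nat_lit 338) (nat_lit 5) (nat_lit 328) (nat_lit 5) (nat_lit 490) (nat_lit 459) (nat_lit 251))) (XT.nd (nat_lit 78) (nat_lit 684) (nat_lit 0) (XT.lf (nat_lit 0) (nat_lit 24082832097) (nat_lit 760) (nat_lit 6487930657) (nat_lit 76) (nat_lit 8193606940) (nat_lit 318) (nat_lit 5) (nat_lit 328) (nat_lit 5) (nat_lit 319) (nat_lit 5) (nat_lit 491) (nat_lit 459) (nat_lit 250)) (XT.lf (nat_lit 0) (nat_lit 26644508769) (nat_lit 684) (nat_lit 6457536897) (nat_lit 760) (nat_lit 6329983931) (nat_lit 309) (nat_lit 5) (nat_lit 318) (nat_lit 5) (nat_lit 319) (nat_lit 5) (nat_lit 492) (nat_lit 459) (nat_lit 249)))))) (XT.nd (nat_lit 60060) (nat_lit 0) (nat_lit 14440) (XT.nd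 (nat_lit 234) (nat_lit 608) (nat_lit 0) (XT.nd (nat_lit 78) (nat_lit 1292) (nat_lit 0) (XT.lf (nat_lit 0) (nat_lit 2540330749) (nat_lit 684) (nat_lit 19239028064) (nat_lit 76) (nat_lit 18334105401) (nat_lit 300) (nat_lit 5) (nat_lit 309) (nat_lit 5) (nat_lit 301) (nat_lit 5) (nat_lit 493) (nat_lit 459) (nat_lit 248)) (XT.nd (nat_lit 78) (nat_lit 608) (nat_lit 0) (XT.lf (nat_lit 0) (nat_lit 11836784702) (nat_lit 760) (nat_lit 25816017934) (nat_lit 76) (nat_lit 3156782046) (nat_lit 291) (nat_lit 5) (nat_lit 301) (nat_lit 5) (nat_lit 292) (nat_lit 5) (nat_lit 494) (nat_lit 459) (nat_lit 247)) (XT.lf (nat_lit 0) (nat_lit 8959744083) (nat_lit 608) (nat_lit 12784379658) (nat_lit 684) (nat_lit 19775825411) (nat_lit 283) (nat_lit 5) (nat_lit 291) (nat_lit 5) (nat_lit 292) (nat_lit 5) (nat_lit 495) (nat_lit 459) (nat_lit 246)))) (XT.nd (nat_lit 59670) (nat_lit 0) (nat_lit 16188) (XT.lf (nat_lit 0) (nat_lit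 2832969256) (nat_lit 608) (nat_lit 29390502911) (nat_lit 684) (nat_lit 10022656818) (nat_lit 275) (nat_lit 5) (nat_lit 283) (nat_lit 5) (nat_lit 284) (nat_lit 5) (nat_lit 496) (nat_lit 459) (nat_lit 245)) (XT.nd (nat_lit 78) (nat_lit 0) (nat_lit 0) (XT.lf (nat_lit 0) (nat_lit 5834363123) (nat_lit 0) (nat_lit 5834363123) (nat_lit 1748) (nat_lit 337080768) (nat_lit 488) (nat_lit 5) (nat_lit 488) (nat_lit 3) (nat_lit 511) (nat_lit 3) (nat_lit 460) (nat_lit 460) (nat_lit 280)) (XT.lf (nat_lit 76) (nat_lit 5482709875) (nat_lit 0) (nat_lit 18448892014) (nat_lit 1824) (nat_lit 435288705) (nat_lit 489) (nat_lit 5) (nat_lit 488) (nat_lit 5) (nat_lit 512) (nat_lit 5) (nat_lit 461) (nat_lit 460) (nat_lit 279))))) (XT.nd (nat_lit 234) (nat_lit 0) (nat_lit 152) (XT.nd (nat_lit 78) (nat_lit 1748) (nat_lit 0) (XT.lf (nat_lit 76) (nat_lit 23929441920) (nat_lit 0) (nat_lit 768665975) (nat_lit 1824) (nat_lit 31627539)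 (nat_lit 489) (nat_lit 5) (nat_lit 488) (nat_lit 5) (nat_lit 512) (nat_lit 5) (nat_lit 462) (nat_lit 460) (nat_lit 278)) (XT.nd (nat_lit 78) (nat_lit 0) (nat_lit 76) (XT.lf (nat_lit 0) (nat_lit 603922149) (nat_lit 1824) (nat_lit 7158320338) (nat_lit 1900) (nat_lit 17336677504) (nat_lit 465) (nat_lit 5) (nat_lit 489) (nat_lit 5) (nat_lit 490) (nat_lit 5) (nat_lit 463) (nat_lit 460) (nat_lit 277)) (XT.lf (nat_lit 0) (nat_lit 1408542496) (nat_lit 1824) (nat_lit 13623255007) (nat_lit 1900) (nat_lit 10444370297) (nat_lit 466) (nat_lit 5) (nat_lit 490) (nat_lit 5) (nat_lit 491) (nat_lit 5) (nat_lit 464) (nat_lit 460) (nat_lit 276)))) (XT.nd (nat_lit 156) (nat_lit 0) (nat_lit 76) (XT.nd (nat_lit 78) (nat_lit 0) (nat_lit 0) (XT.lf (nat_lit 0) (nat_lit 2390396174) (nat_lit 1824) (nat_lit 20196253069) (nat_lit 1900) (nat_lit 3275022462) (nat_lit 467) (nat_lit 5) (nat_lit 491) (nat_lit 5) (nat_lit 492) (nat_lit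 5) (nat_lit 465) (nat_lit 460) (nat_lit 275)) (XT.lf (nat_lit 0) (nat_lit 3589210896) (nat_lit 1824) (nat_lit 642544716) (nat_lit 1900) (nat_lit 22023235548) (nat_lit 467) (nat_lit 5) (nat_lit 491) (nat_lit 5) (nat_lit 492) (nat_lit 5) (nat_lit 466) (nat_lit 460) (nat_lit 274))) (XT.nd (nat_lit 78) (nat_lit 0) (nat_lit 76) (XT.lf (nat_lit 0) (nat_lit 5042603619) (nat_lit 1824) (nat_lit 7000589919) (nat_lit 1900) (nat_lit 14612544913) (nat_lit 468) (nat_lit 5) (nat_lit 492) (nat_lit 5) (nat_lit 493) (nat_lit 5) (nat_lit 467) (nat_lit 460) (nat_lit 273)) (XT.lf (nat_lit 0) (nat_lit 6700694211) (nat_lit 1824) (nat_lit 13462477278) (nat_lit 1900) (nat_lit 6902115259) (nat_lit 469) (nat_lit 5) (nat_lit 493) (nat_lit 5) (nat_lit 494) (nat_lit 5) (nat_lit 468) (nat_lit 460) (nat_lit 272))))))))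
noncomputable def xc118 : XT := (XT.nd (nat_lit 1950) (nat_lit 1976) (nat_lit 0) (XT.nd (nat_lit 936) (nat_lit 8740) (nat_lit 0) (XT.nd (nat_lit 468) (nat_lit 3420) (nat_lit 0) (XT.nd (nat_lit 234) (nat_lit 0) (nat_lit 228) (XT.nd (nat_lit 78) (nat_lit 0) (nat_lit 76) (XT.lf (nat_lit 76) (nat_lit 7447015359) (nat_lit 0) (nat_lit 1132691139) (nat_lit 1900) (nat_lit 18903991912) (nat_lit 470) (nat_lit 5) (nat_lit 469) (nat_lit 5) (nat_lit 494) (nat_lit 5) (nat_lit 469) (nat_lit 460) (nat_lit 271)) (XT.nd (nat_lit 78) (nat_lit 0) (nat_lit 76) (XT.lf (nat_lit 76) (nat_lit 1145924128) (nat_lit 0) (nat_lit 9583029417) (nat_lit 1900) (nat_lit 17181432069) (nat_lit 471) (nat_lit 5) (nat_lit 470) (nat_lit 5) (nat_lit 495) (nat_lit 5) (nat_lit 470) (nat_lit 460) (nat_lit 270)) (XT.lf (nat_lit 0) (nat_lit 13146666277) (nat_lit 1824) (nat_lit 5186146230) (nat_lit 1900) (nat_lit 10012981626) (nat_lit 471) (nat_lit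 5) (nat_lit 495) (nat_lit 5) (nat_lit 496) (nat_lit 5) (nat_lit 471) (nat_lit 460) (nat_lit 269)))) (XT.nd (nat_lit 78) (nat_lit 0) (nat_lit 0) (XT.lf (nat_lit 0) (nat_lit 15816647838) (nat_lit 1824) (nat_lit 11602655813) (nat_lit 1900) (nat_lit 1371366960) (nat_lit 472) (nat_lit 5) (nat_lit 496) (nat_lit 5) (nat_lit 497) (nat_lit 5) (nat_lit 472) (nat_lit 460) (nat_lit 268)) (XT.nd (nat_lit 78) (nat_lit 0) (nat_lit 76) (XT.lf (nat_lit 76) (nat_lit 11074809593) (nat_lit 0) (nat_lit 7716903406) (nat_lit 1900) (nat_lit 10452681143) (nat_lit 473) (nat_lit 5) (nat_lit 472) (nat_lit 5) (nat_lit 497) (nat_lit 5) (nat_lit 473) (nat_lit 460) (nat_lit 267)) (XT.lf (nat_lit 76) (nat_lit 4858965084) (nat_lit 0) (nat_lit 17184640846) (nat_lit 1900) (nat_lit 7664372356) (nat_lit 474) (nat_lit 5) (nat_lit 473) (nat_lit 5) (nat_lit 498) (nat_lit 5) (nat_lit 474) (nat_lit 460) (nat_lit 266))))) (XT.nd (nat_lit 234)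 (nat_lit 1976) (nat_lit 0) (XT.nd (nat_lit 78) (nat_lit 1824) (nat_lit 0) (XT.lf (nat_lit 0) (nat_lit 25583618414) (nat_lit 1824) (nat_lit 1431902040) (nat_lit 1900) (nat_lit 3166138662) (nat_lit 474) (nat_lit 5) (nat_lit 498) (nat_lit 5) (nat_lit 499) (nat_lit 5) (nat_lit 475) (nat_lit 460) (nat_lit 265)) (XT.nd (nat_lit 78) (nat_lit 1824) (nat_lit 0) (XT.lf (nat_lit 76) (nat_lit 22868961928) (nat_lit 0) (nat_lit 6619755481) (nat_lit 1900) (nat_lit 1175655640) (nat_lit 475) (nat_lit 5) (nat_lit 474) (nat_lit 5) (nat_lit 499) (nat_lit 5) (nat_lit 476) (nat_lit 460) (nat_lit 264)) (XT.lf (nat_lit 0) (nat_lit 2528351017) (nat_lit 1900) (nat_lit 14292839157) (nat_lit 76) (nat_lit 14335878274) (nat_lit 450) (nat_lit 5) (nat_lit 475) (nat_lit 5) (nat_lit 451) (nat_lit 5) (nat_lit 477) (nat_lit 460) (nat_lit 263)))) (XT.nd (nat_lit 78) (nat_lit 912) (nat_lit 0) (XT.lf (nat_lit 0) (nat_lit 6518708056) (nat_lit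 1140) (nat_lit 20896914199) (nat_lit 76) (nat_lit 4244943349) (nat_lit 436) (nat_lit 5) (nat_lit 451) (nat_lit 5) (nat_lit 437) (nat_lit 5) (nat_lit 478) (nat_lit 460) (nat_lit 262)) (XT.nd (nat_lit 78) (nat_lit 0) (nat_lit 0) (XT.lf (nat_lit 0) (nat_lit 4532739856) (nat_lit 912) (nat_lit 6331226934) (nat_lit 988) (nat_lit 21310497427) (nat_lit 424) (nat_lit 5) (nat_lit 436) (nat_lit 5) (nat_lit 437) (nat_lit 5) (nat_lit 479) (nat_lit 460) (nat_lit 261)) (XT.lf (nat_lit 0) (nat_lit 15577896742) (nat_lit 988) (nat_lit 1794303397) (nat_lit 76) (nat_lit 15326813729) (nat_lit 424) (nat_lit 5) (nat_lit 437) (nat_lit 5) (nat_lit 425) (nat_lit 5) (nat_lit 480) (nat_lit 460) (nat_lit 260)))))) (XT.nd (nat_lit 468) (nat_lit 4408) (nat_lit 0) (XT.nd (nat_lit 234) (nat_lit 1748) (nat_lit 0) (XT.nd (nat_lit 78) (nat_lit 1672) (nat_lit 0) (XT.lf (nat_lit 0) (nat_lit 20663693204) (nat_lit 988) (nat_lit 8152530705)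 (nat_lit 76) (nat_lit 4418467468) (nat_lit 412) (nat_lit 5) (nat_lit 425) (nat_lit 5) (nat_lit 413) (nat_lit 5) (nat_lit 481) (nat_lit 460) (nat_lit 259)) (XT.nd (nat_lit 78) (nat_lit 836) (nat_lit 0) (XT.lf (nat_lit 0) (nat_lit 19134221040) (nat_lit 836) (nat_lit 7016581201) (nat_lit 912) (nat_lit 7630662527) (nat_lit 401) (nat_lit 5) (nat_lit 412) (nat_lit 5) (nat_lit 413) (nat_lit 5) (nat_lit 482) (nat_lit 460) (nat_lit 258)) (XT.lf (nat_lit 0) (nat_lit 13074744686) (nat_lit 836) (nat_lit 18964689722) (nat_lit 912) (nat_lit 2300469075) (nat_lit 390) (nat_lit 5) (nat_lit 401) (nat_lit 5) (nat_lit 402) (nat_lit 5) (nat_lit 483) (nat_lit 460) (nat_lit 257)))) (XT.nd (nat_lit 78) (nat_lit 836) (nat_lit 0) (XT.lf (nat_lit 0) (nat_lit 3359266886) (nat_lit 912) (nat_lit 27999609279) (nat_lit 76) (nat_lit 3551575929) (nat_lit 378) (nat_lit 5) (nat_lit 390) (nat_lit 5) (nat_lit 379) (nat_lit 5) (nat_lit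 484) (nat_lit 460) (nat_lit 256)) (XT.nd (nat_lit 78) (nat_lit 0) (nat_lit 0) (XT.lf (nat_lit 0) (nat_lit 588754911) (nat_lit 836) (nat_lit 8840995080) (nat_lit 912) (nat_lit 26062619159) (nat_lit 367) (nat_lit 5) (nat_lit 378) (nat_lit 5) (nat_lit 379) (nat_lit 5) (nat_lit 485) (nat_lit 460) (nat_lit 255)) (XT.lf (nat_lit 0) (nat_lit 15962935404) (nat_lit 912) (nat_lit 5768140943) (nat_lit 76) (nat_lit 14355055903) (nat_lit 367) (nat_lit 5) (nat_lit 379) (nat_lit 5) (nat_lit 368) (nat_lit 5) (nat_lit 486) (nat_lit 460) (nat_lit 254))))) (XT.nd (nat_lit 234) (nat_lit 2128) (nat_lit 0) (XT.nd (nat_lit 78) (nat_lit 1520) (nat_lit 0) (XT.lf (nat_lit 0) (nat_lit 22917169366) (nat_lit 836) (nat_lit 12203836850) (nat_lit 76) (nat_lit 1572201246) (nat_lit 357) (nat_lit 5) (nat_lit 368) (nat_lit 5) (nat_lit 358) (nat_lit 5) (nat_lit 487) (nat_lit 460) (nat_lit 253)) (XT.nd (nat_lit 78) (nat_lit 760) (nat_lit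 0) (XT.lf (nat_lit 0) (nat_lit 18509338343) (nat_lit 760) (nat_lit 11872130675) (nat_lit 836) (nat_lit 6930997411) (nat_lit 347) (nat_lit 5) (nat_lit 357) (nat_lit 5) (nat_lit 358) (nat_lit 5) (nat_lit 488) (nat_lit 460) (nat_lit 252)) (XT.lf (nat_lit 0) (nat_lit 358504310) (nat_lit 760) (nat_lit 25505009117) (nat_lit 76) (nat_lit 12081960976) (nat_lit 337) (nat_lit 5) (nat_lit 347) (nat_lit 5) (nat_lit 338) (nat_lit 5) (nat_lit 489) (nat_lit 460) (nat_lit 251)))) (XT.nd (nat_lit 156) (nat_lit 1368) (nat_lit 0) (XT.nd (nat_lit 78) (nat_lit 0) (nat_lit 0) (XT.lf (nat_lit 0) (nat_lit 6235341626) (nat_lit 760) (nat_lit 1782577454) (nat_lit 836) (nat_lit 30573729649) (nat_lit 327) (nat_lit 5) (nat_lit 337) (nat_lit 5) (nat_lit 338) (nat_lit 5) (nat_lit 490) (nat_lit 460) (nat_lit 250)) (XT.lf (nat_lit 0) (nat_lit 16227345007) (nat_lit 836) (nat_lit 131014963) (nat_lit 76) (nat_lit 22892443982) (nat_lit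 327) (nat_lit 5) (nat_lit 338) (nat_lit 5) (nat_lit 328) (nat_lit 5) (nat_lit 491) (nat_lit 460) (nat_lit 249))) (XT.nd (nat_lit 78) (nat_lit 684) (nat_lit 0) (XT.lf (nat_lit 0) (nat_lit 24964938509) (nat_lit 760) (nat_lit 6496179419) (nat_lit 76) (nat_lit 8462978445) (nat_lit 318) (nat_lit 5) (nat_lit 328) (nat_lit 5) (nat_lit 319) (nat_lit 5) (nat_lit 492) (nat_lit 460) (nat_lit 248)) (XT.lf (nat_lit 0) (nat_lit 27627209246) (nat_lit 684) (nat_lit 6624060599) (nat_lit 760) (nat_lit 6360585751) (nat_lit 309) (nat_lit 5) (nat_lit 318) (nat_lit 5) (nat_lit 319) (nat_lit 5) (nat_lit 493) (nat_lit 460) (nat_lit 247))))))) (XT.nd (nat_lit 60606) (nat_lit 0) (nat_lit 9804) (XT.nd (nat_lit 60138) (nat_lit 0) (nat_lit 13832) (XT.nd (nat_lit 59904) (nat_lit 0) (nat_lit 13756) (XT.nd (nat_lit 78) (nat_lit 1292) (nat_lit 0) (XT.lf (nat_lit 0) (nat_lit 2770540862) (nat_lit 684) (nat_lit 19630840643) (nat_lit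 76) (nat_lit 18912395560) (nat_lit 300) (nat_lit 5) (nat_lit 309) (nat_lit 5) (nat_lit 301) (nat_lit 5) (nat_lit 494) (nat_lit 460) (nat_lit 246)) (XT.nd (nat_lit 78) (nat_lit 608) (nat_lit 0) (XT.lf (nat_lit 0) (nat_lit 12342792443) (nat_lit 760) (nat_lit 26405328210) (nat_lit 76) (nat_lit 3282722735) (nat_lit 291) (nat_lit 5) (nat_lit 301) (nat_lit 5) (nat_lit 292) (nat_lit 5) (nat_lit 495) (nat_lit 460) (nat_lit 245)) (XT.lf (nat_lit 0) (nat_lit 9410702500) (nat_lit 608) (nat_lit 13133436628) (nat_lit 684) (nat_lit 20218444228) (nat_lit 283) (nat_lit 5) (nat_lit 291) (nat_lit 5) (nat_lit 292) (nat_lit 5) (nat_lit 496) (nat_lit 460) (nat_lit 244)))) (XT.nd (nat_lit 78) (nat_lit 1824) (nat_lit 0) (XT.lf (nat_lit 0) (nat_lit 6093473059) (nat_lit 0) (nat_lit 6093473059) (nat_lit 1748) (nat_lit 175656204) (nat_lit 488) (nat_lit 5) (nat_lit 488) (nat_lit 3) (nat_lit 511) (nat_lit 3) (nat_lit 461) (nat_lit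 461) (nat_lit 278)) (XT.nd (nat_lit 78) (nat_lit 1824) (nat_lit 0) (XT.lf (nat_lit 76) (nat_lit 5820343338) (nat_lit 0) (nat_lit 19155791386) (nat_lit 1824) (nat_lit 115200329) (nat_lit 489) (nat_lit 5) (nat_lit 488) (nat_lit 5) (nat_lit 512) (nat_lit 5) (nat_lit 462) (nat_lit 461) (nat_lit 277)) (XT.lf (nat_lit 0) (nat_lit 287052581) (nat_lit 1824) (nat_lit 651710799) (nat_lit 1900) (nat_lit 24526455222) (nat_lit 464) (nat_lit 5) (nat_lit 488) (nat_lit 5) (nat_lit 489) (nat_lit 5) (nat_lit 463) (nat_lit 461) (nat_lit 276))))) (XT.nd (nat_lit 234) (nat_lit 0) (nat_lit 152) (XT.nd (nat_lit 78) (nat_lit 0) (nat_lit 76) (XT.lf (nat_lit 0) (nat_lit 932127220) (nat_lit 1824) (nat_lit 7196320033) (nat_lit 1900) (nat_lit 17717210347) (nat_lit 465) (nat_lit 5) (nat_lit 489) (nat_lit 5) (nat_lit 490) (nat_lit 5) (nat_lit 464) (nat_lit 461) (nat_lit 275)) (XT.nd (nat_lit 78) (nat_lit 0) (nat_lit 76) (XT.lf (nat_lit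 0) (nat_lit 1752150440) (nat_lit 1824) (nat_lit 13851166161) (nat_lit 1900) (nat_lit 10631081779) (nat_lit 466) (nat_lit 5) (nat_lit 490) (nat_lit 5) (nat_lit 491) (nat_lit 5) (nat_lit 465) (nat_lit 461) (nat_lit 274)) (XT.lf (nat_lit 0) (nat_lit 2755084897) (nat_lit 1824) (nat_lit 20617633663) (nat_lit 1900) (nat_lit 3258917138) (nat_lit 467) (nat_lit 5) (nat_lit 491) (nat_lit 5) (nat_lit 492) (nat_lit 5) (nat_lit 466) (nat_lit 461) (nat_lit 273)))) (XT.nd (nat_lit 78) (nat_lit 0) (nat_lit 76) (XT.lf (nat_lit 0) (nat_lit 3981330754) (nat_lit 1824) (nat_lit 482688049) (nat_lit 1900) (nat_lit 22572907374) (nat_lit 467) (nat_lit 5) (nat_lit 491) (nat_lit 5) (nat_lit 492) (nat_lit 5) (nat_lit 467) (nat_lit 461) (nat_lit 272)) (XT.nd (nat_lit 78) (nat_lit 0) (nat_lit 76) (XT.lf (nat_lit 0) (nat_lit 5470528424) (nat_lit 1824) (nat_lit 7028153422) (nat_lit 1900) (nat_lit 14951170732) (nat_lit 468) (nat_lit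 5) (nat_lit 492) (nat_lit 5) (nat_lit 493) (nat_lit 5) (nat_lit 468) (nat_lit 461) (nat_lit 271)) (XT.lf (nat_lit 0) (nat_lit 7170883428) (nat_lit 1824) (nat_lit 13680852022) (nat_lit 1900) (nat_lit 7020102170) (nat_lit 469) (nat_lit 5) (nat_lit 493) (nat_lit 5) (nat_lit 494) (nat_lit 5) (nat_lit 469) (nat_lit 461) (nat_lit 270)))))) (XT.nd (nat_lit 468) (nat_lit 4332) (nat_lit 0) (XT.nd (nat_lit 234) (nat_lit 0) (nat_lit 228) (XT.nd (nat_lit 78) (nat_lit 0) (nat_lit 76) (XT.lf (nat_lit 76) (nat_lit 7852915884) (nat_lit 0) (nat_lit 1246695189) (nat_lit 1900) (nat_lit 19203324367) (nat_lit 470) (nat_lit 5) (nat_lit 469) (nat_lit 5) (nat_lit 494) (nat_lit 5) (nat_lit 470) (nat_lit 461) (nat_lit 269)) (XT.nd (nat_lit 78) (nat_lit 0) (nat_lit 76) (XT.lf (nat_lit 76) (nat_lit 1365530724) (nat_lit 0) (nat_lit 9940856983) (nat_lit 1900) (nat_lit 17436175198) (nat_lit 471) (nat_lit 5) (nat_lit 470) (nat_lit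 5) (nat_lit 495) (nat_lit 5) (nat_lit 471) (nat_lit 461) (nat_lit 268)) (XT.lf (nat_lit 0) (nat_lit 13788744794) (nat_lit 1824) (nat_lit 5156468655) (nat_lit 1900) (nat_lit 10245978642) (nat_lit 471) (nat_lit 5) (nat_lit 495) (nat_lit 5) (nat_lit 496) (nat_lit 5) (nat_lit 472) (nat_lit 461) (nat_lit 267)))) (XT.nd (nat_lit 78) (nat_lit 0) (nat_lit 0) (XT.lf (nat_lit 0) (nat_lit 16532409583) (nat_lit 1824) (nat_lit 11763238966) (nat_lit 1900) (nat_lit 1353895288) (nat_lit 472) (nat_lit 5) (nat_lit 496) (nat_lit 5) (nat_lit 497) (nat_lit 5) (nat_lit 473) (nat_lit 461) (nat_lit 266)) (XT.nd (nat_lit 78) (nat_lit 0) (nat_lit 76) (XT.lf (nat_lit 76) (nat_lit 11591508494) (nat_lit 0) (nat_lit 7999388749) (nat_lit 1900) (nat_lit 10526099050) (nat_lit 473) (nat_lit 5) (nat_lit 472) (nat_lit 5) (nat_lit 497) (nat_lit 5) (nat_lit 474) (nat_lit 461) (nat_lit 265)) (XT.lf (nat_lit 76) (nat_lit 5191174648) (nat_lit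 0) (nat_lit 17743204200) (nat_lit 1900) (nat_lit 7660229090) (nat_lit 474) (nat_lit 5) (nat_lit 473) (nat_lit 5) (nat_lit 498) (nat_lit 5) (nat_lit 475) (nat_lit 461) (nat_lit 264))))) (XT.nd (nat_lit 234) (nat_lit 2888) (nat_lit 0) (XT.nd (nat_lit 78) (nat_lit 1824) (nat_lit 0) (XT.lf (nat_lit 0) (nat_lit 26573637061) (nat_lit 1824) (nat_lit 1289102159) (nat_lit 1900) (nat_lit 3219899658) (nat_lit 474) (nat_lit 5) (nat_lit 498) (nat_lit 5) (nat_lit 499) (nat_lit 5) (nat_lit 476) (nat_lit 461) (nat_lit 263)) (XT.nd (nat_lit 78) (nat_lit 1824) (nat_lit 0) (XT.lf (nat_lit 76) (nat_lit 23737774043) (nat_lit 0) (nat_lit 6852820597) (nat_lit 1900) (nat_lit 989346054) (nat_lit 475) (nat_lit 5) (nat_lit 474) (nat_lit 5) (nat_lit 499) (nat_lit 5) (nat_lit 477) (nat_lit 461) (nat_lit 262)) (XT.lf (nat_lit 0) (nat_lit 2817491356) (nat_lit 1900) (nat_lit 14534480112) (nat_lit 76) (nat_lit 14735524931) (nat_lit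 450) (nat_lit 5) (nat_lit 475) (nat_lit 5) (nat_lit 451) (nat_lit 5) (nat_lit 478) (nat_lit 461) (nat_lit 261)))) (XT.nd (nat_lit 156) (nat_lit 912) (nat_lit 0) (XT.nd (nat_lit 78) (nat_lit 912) (nat_lit 0) (XT.lf (nat_lit 0) (nat_lit 6922385239) (nat_lit 1140) (nat_lit 21335373474) (nat_lit 76) (nat_lit 4348443767) (nat_lit 436) (nat_lit 5) (nat_lit 451) (nat_lit 5) (nat_lit 437) (nat_lit 5) (nat_lit 479) (nat_lit 461) (nat_lit 260)) (XT.lf (nat_lit 0) (nat_lit 4854112856) (nat_lit 912) (nat_lit 6539030930) (nat_lit 988) (nat_lit 21742471942) (nat_lit 424) (nat_lit 5) (nat_lit 436) (nat_lit 5) (nat_lit 437) (nat_lit 5) (nat_lit 480) (nat_lit 461) (nat_lit 259))) (XT.nd (nat_lit 78) (nat_lit 912) (nat_lit 0) (XT.lf (nat_lit 0) (nat_lit 16242458874) (nat_lit 988) (nat_lit 1664065290) (nat_lit 76) (nat_lit 15769498862) (nat_lit 424) (nat_lit 5) (nat_lit 437) (nat_lit 5) (nat_lit 425) (nat_lit 5) (nat_lit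 481) (nat_lit 461) (nat_lit 258)) (XT.lf (nat_lit 0) (nat_lit 21476185347) (nat_lit 988) (nat_lit 8212081138) (nat_lit 76) (nat_lit 4539597741) (nat_lit 412) (nat_lit 5) (nat_lit 425) (nat_lit 5) (nat_lit 413) (nat_lit 5) (nat_lit 482) (nat_lit 461) (nat_lit 257))))))))
noncomputable def xc119 : XT := (XT.nd (nat_lit 61698) (nat_lit 0) (nat_lit 684) (XT.nd (nat_lit 936) (nat_lit 1368) (nat_lit 0) (XT.nd (nat_lit 468) (nat_lit 3648) (nat_lit 0) (XT.nd (nat_lit 234) (nat_lit 1596) (nat_lit 0) (XT.nd (nat_lit 78) (nat_lit 1748) (nat_lit 0) (XT.lf (nat_lit 0) (nat_lit 19890271340) (nat_lit 836) (nat_lit 7233208967) (nat_lit 912) (nat_lit 7667649531) (nat_lit 401) (nat_lit 5) (nat_lit 412) (nat_lit 5) (nat_lit 413) (nat_lit 5) (nat_lit 483) (nat_lit 461) (nat_lit 256)) (XT.nd (nat_lit 78) (nat_lit 912) (nat_lit 0) (XT.lf (nat_lit 0) (nat_lit 13649814297) (nat_lit 836) (nat_lit 19534625322) (nat_lit 912)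 (nat_lit 2181969193) (nat_lit 390) (nat_lit 5) (nat_lit 401) (nat_lit 5) (nat_lit 402) (nat_lit 5) (nat_lit 484) (nat_lit 461) (nat_lit 255)) (XT.lf (nat_lit 0) (nat_lit 3640902603) (nat_lit 912) (nat_lit 28653680110) (nat_lit 76) (nat_lit 3659551198) (nat_lit 378) (nat_lit 5) (nat_lit 390) (nat_lit 5) (nat_lit 379) (nat_lit 5) (nat_lit 485) (nat_lit 461) (nat_lit 254)))) (XT.nd (nat_lit 78) (nat_lit 760) (nat_lit 0) (XT.lf (nat_lit 0) (nat_lit 789318717) (nat_lit 836) (nat_lit 9100101300) (nat_lit 912) (nat_lit 26664170491) (nat_lit 367) (nat_lit 5) (nat_lit 378) (nat_lit 5) (nat_lit 379) (nat_lit 5) (nat_lit 486) (nat_lit 461) (nat_lit 253)) (XT.nd (nat_lit 78) (nat_lit 760) (nat_lit 0) (XT.lf (nat_lit 0) (nat_lit 16613490732) (nat_lit 912) (nat_lit 5760203504) (nat_lit 76) (nat_lit 14791574882) (nat_lit 367) (nat_lit 5) (nat_lit 379) (nat_lit 5) (nat_lit 368) (nat_lit 5) (nat_lit 487) (nat_lit 461)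 (nat_lit 252)) (XT.lf (nat_lit 0) (nat_lit 23772574054) (nat_lit 836) (nat_lit 12388603051) (nat_lit 76) (nat_lit 1629455435) (nat_lit 357) (nat_lit 5) (nat_lit 368) (nat_lit 5) (nat_lit 358) (nat_lit 5) (nat_lit 488) (nat_lit 461) (nat_lit 251))))) (XT.nd (nat_lit 234) (nat_lit 1368) (nat_lit 0) (XT.nd (nat_lit 78) (nat_lit 1520) (nat_lit 0) (XT.lf (nat_lit 0) (nat_lit 19243025227) (nat_lit 760) (nat_lit 12214045814) (nat_lit 836) (nat_lit 6971473255) (nat_lit 347) (nat_lit 5) (nat_lit 357) (nat_lit 5) (nat_lit 358) (nat_lit 5) (nat_lit 489) (nat_lit 461) (nat_lit 250)) (XT.nd (nat_lit 78) (nat_lit 760) (nat_lit 0) (XT.lf (nat_lit 0) (nat_lit 530962090) (nat_lit 760) (nat_lit 26089334172) (nat_lit 76) (nat_lit 12460295979) (nat_lit 337) (nat_lit 5) (nat_lit 347) (nat_lit 5) (nat_lit 338) (nat_lit 5) (nat_lit 490) (nat_lit 461) (nat_lit 249)) (XT.lf (nat_lit 0) (nat_lit 6600293419) (nat_lit 760) (nat_lit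 1816311088) (nat_lit 836) (nat_lit 31329618745) (nat_lit 327) (nat_lit 5) (nat_lit 337) (nat_lit 5) (nat_lit 338) (nat_lit 5) (nat_lit 491) (nat_lit 461) (nat_lit 248)))) (XT.nd (nat_lit 78) (nat_lit 684) (nat_lit 0) (XT.lf (nat_lit 0) (nat_lit 41264018) (nat_lit 684) (nat_lit 16826835314) (nat_lit 760) (nat_lit 23557138427) (nat_lit 318) (nat_lit 5) (nat_lit 327) (nat_lit 5) (nat_lit 328) (nat_lit 5) (nat_lit 492) (nat_lit 461) (nat_lit 247)) (XT.nd (nat_lit 78) (nat_lit 684) (nat_lit 0) (XT.lf (nat_lit 0) (nat_lit 25864345189) (nat_lit 760) (nat_lit 6515375145) (nat_lit 76) (nat_lit 8739078466) (nat_lit 318) (nat_lit 5) (nat_lit 328) (nat_lit 5) (nat_lit 319) (nat_lit 5) (nat_lit 493) (nat_lit 461) (nat_lit 246)) (XT.lf (nat_lit 0) (nat_lit 28628864824) (nat_lit 684) (nat_lit 6797141541) (nat_lit 760) (nat_lit 6401249965) (nat_lit 309) (nat_lit 5) (nat_lit 318) (nat_lit 5) (nat_lit 319) (nat_lit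 5) (nat_lit 494) (nat_lit 461) (nat_lit 245)))))) (XT.nd (nat_lit 60216) (nat_lit 0) (nat_lit 13300) (XT.nd (nat_lit 59982) (nat_lit 0) (nat_lit 13148) (XT.nd (nat_lit 78) (nat_lit 684) (nat_lit 0) (XT.lf (nat_lit 0) (nat_lit 2998817037) (nat_lit 684) (nat_lit 20045047921) (nat_lit 76) (nat_lit 19506411783) (nat_lit 300) (nat_lit 5) (nat_lit 309) (nat_lit 5) (nat_lit 301) (nat_lit 5) (nat_lit 495) (nat_lit 461) (nat_lit 244)) (XT.nd (nat_lit 59826) (nat_lit 0) (nat_lit 14972) (XT.lf (nat_lit 0) (nat_lit 12855317898) (nat_lit 760) (nat_lit 27022947326) (nat_lit 76) (nat_lit 3410648501) (nat_lit 291) (nat_lit 5) (nat_lit 301) (nat_lit 5) (nat_lit 292) (nat_lit 5) (nat_lit 496) (nat_lit 461) (nat_lit 243)) (XT.lf (nat_lit 0) (nat_lit 6355529812) (nat_lit 0) (nat_lit 6355529812) (nat_lit 1748) (nat_lit 19235828) (nat_lit 488) (nat_lit 5) (nat_lit 488) (nat_lit 3) (nat_lit 511) (nat_lit 3) (nat_lit 462)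 (nat_lit 462) (nat_lit 276)))) (XT.nd (nat_lit 78) (nat_lit 0) (nat_lit 0) (XT.lf (nat_lit 0) (nat_lit 192804425) (nat_lit 1824) (nat_lit 19680991835) (nat_lit 1900) (nat_lit 5964067917) (nat_lit 464) (nat_lit 5) (nat_lit 488) (nat_lit 5) (nat_lit 489) (nat_lit 5) (nat_lit 463) (nat_lit 462) (nat_lit 275)) (XT.nd (nat_lit 78) (nat_lit 0) (nat_lit 76) (XT.lf (nat_lit 0) (nat_lit 596542378) (nat_lit 1824) (nat_lit 508777427) (nat_lit 1900) (nat_lit 25117810369) (nat_lit 464) (nat_lit 5) (nat_lit 488) (nat_lit 5) (nat_lit 489) (nat_lit 5) (nat_lit 464) (nat_lit 462) (nat_lit 274)) (XT.lf (nat_lit 0) (nat_lit 1252378157) (nat_lit 1824) (nat_lit 7245605886) (nat_lit 1900) (nat_lit 18117170919) (nat_lit 465) (nat_lit 5) (nat_lit 489) (nat_lit 5) (nat_lit 490) (nat_lit 5) (nat_lit 465) (nat_lit 462) (nat_lit 273))))) (XT.nd (nat_lit 234) (nat_lit 0) (nat_lit 152) (XT.nd (nat_lit 78) (nat_lit 0) (nat_lit 76)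 (XT.lf (nat_lit 0) (nat_lit 2088767805) (nat_lit 1824) (nat_lit 14096292533) (nat_lit 1900) (nat_lit 10830663090) (nat_lit 466) (nat_lit 5) (nat_lit 490) (nat_lit 5) (nat_lit 491) (nat_lit 5) (nat_lit 466) (nat_lit 462) (nat_lit 272)) (XT.nd (nat_lit 78) (nat_lit 0) (nat_lit 0) (XT.lf (nat_lit 0) (nat_lit 3113896212) (nat_lit 1824) (nat_lit 21062247130) (nat_lit 1900) (nat_lit 3248893157) (nat_lit 467) (nat_lit 5) (nat_lit 491) (nat_lit 5) (nat_lit 492) (nat_lit 5) (nat_lit 467) (nat_lit 462) (nat_lit 271)) (XT.lf (nat_lit 0) (nat_lit 4368885986) (nat_lit 1824) (nat_lit 328318649) (nat_lit 1900) (nat_lit 23145442658) (nat_lit 467) (nat_lit 5) (nat_lit 491) (nat_lit 5) (nat_lit 492) (nat_lit 5) (nat_lit 468) (nat_lit 462) (nat_lit 270)))) (XT.nd (nat_lit 156) (nat_lit 0) (nat_lit 76) (XT.nd (nat_lit 78) (nat_lit 0) (nat_lit 76) (XT.lf (nat_lit 0) (nat_lit 5895410320) (nat_lit 1824) (nat_lit 7067017446)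 (nat_lit 1900) (nat_lit 15305681413) (nat_lit 468) (nat_lit 5) (nat_lit 492) (nat_lit 5) (nat_lit 493) (nat_lit 5) (nat_lit 469) (nat_lit 462) (nat_lit 269)) (XT.lf (nat_lit 0) (nat_lit 7639726954) (nat_lit 1824) (nat_lit 13916426443) (nat_lit 1900) (nat_lit 7146742046) (nat_lit 469) (nat_lit 5) (nat_lit 493) (nat_lit 5) (nat_lit 494) (nat_lit 5) (nat_lit 470) (nat_lit 462) (nat_lit 268))) (XT.nd (nat_lit 78) (nat_lit 0) (nat_lit 76) (XT.lf (nat_lit 76) (nat_lit 8260517748) (nat_lit 0) (nat_lit 1359525696) (nat_lit 1900) (nat_lit 19527008883) (nat_lit 470) (nat_lit 5) (nat_lit 469) (nat_lit 5) (nat_lit 494) (nat_lit 5) (nat_lit 471) (nat_lit 462) (nat_lit 267)) (XT.lf (nat_lit 76) (nat_lit 1581092624) (nat_lit 0) (nat_lit 10305381764) (nat_lit 1900) (nat_lit 17713525858) (nat_lit 471) (nat_lit 5) (nat_lit 470) (nat_lit 5) (nat_lit 495) (nat_lit 5) (nat_lit 472) (nat_lit 462) (nat_lit 266))))))) (XT.nd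 (nat_lit 1014) (nat_lit 6840) (nat_lit 0) (XT.nd (nat_lit 468) (nat_lit 6156) (nat_lit 0) (XT.nd (nat_lit 234) (nat_lit 0) (nat_lit 152) (XT.nd (nat_lit 78) (nat_lit 0) (nat_lit 76) (XT.lf (nat_lit 0) (nat_lit 14435867905) (nat_lit 1824) (nat_lit 5136535547) (nat_lit 1900) (nat_lit 10489834169) (nat_lit 471) (nat_lit 5) (nat_lit 495) (nat_lit 5) (nat_lit 496) (nat_lit 5) (nat_lit 473) (nat_lit 462) (nat_lit 265)) (XT.nd (nat_lit 78) (nat_lit 0) (nat_lit 0) (XT.lf (nat_lit 0) (nat_lit 17255794737) (nat_lit 1824) (nat_lit 11939402681) (nat_lit 1900) (nat_lit 1339264073) (nat_lit 472) (nat_lit 5) (nat_lit 496) (nat_lit 5) (nat_lit 497) (nat_lit 5) (nat_lit 474) (nat_lit 462) (nat_lit 264)) (XT.lf (nat_lit 76) (nat_lit 12113119913) (nat_lit 0) (nat_lit 8287422293) (nat_lit 1900) (nat_lit 10615505806) (nat_lit 473) (nat_lit 5) (nat_lit 472) (nat_lit 5) (nat_lit 497) (nat_lit 5) (nat_lit 475) (nat_lit 462)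 (nat_lit 263)))) (XT.nd (nat_lit 78) (nat_lit 0) (nat_lit 76) (XT.lf (nat_lit 76) (nat_lit 5522648044) (nat_lit 0) (nat_lit 18316054693) (nat_lit 1900) (nat_lit 7669398356) (nat_lit 474) (nat_lit 5) (nat_lit 473) (nat_lit 5) (nat_lit 498) (nat_lit 5) (nat_lit 476) (nat_lit 462) (nat_lit 262)) (XT.nd (nat_lit 78) (nat_lit 0) (nat_lit 0) (XT.lf (nat_lit 0) (nat_lit 27580583277) (nat_lit 1824) (nat_lit 1152681490) (nat_lit 1900) (nat_lit 3277639863) (nat_lit 474) (nat_lit 5) (nat_lit 498) (nat_lit 5) (nat_lit 499) (nat_lit 5) (nat_lit 477) (nat_lit 462) (nat_lit 261)) (XT.lf (nat_lit 76) (nat_lit 24622160310) (nat_lit 0) (nat_lit 7090898807) (nat_lit 1900) (nat_lit 810166736) (nat_lit 475) (nat_lit 5) (nat_lit 474) (nat_lit 5) (nat_lit 499) (nat_lit 5) (nat_lit 478) (nat_lit 462) (nat_lit 260))))) (XT.nd (nat_lit 234) (nat_lit 2584) (nat_lit 0) (XT.nd (nat_lit 78) (nat_lit 1976) (nat_lit 0) (XT.lf (nat_lit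 0) (nat_lit 3103062198) (nat_lit 1900) (nat_lit 14794113139) (nat_lit 76) (nat_lit 15148907776) (nat_lit 450) (nat_lit 5) (nat_lit 475) (nat_lit 5) (nat_lit 451) (nat_lit 5) (nat_lit 479) (nat_lit 462) (nat_lit 259)) (XT.nd (nat_lit 78) (nat_lit 912) (nat_lit 0) (XT.lf (nat_lit 0) (nat_lit 7326226032) (nat_lit 1140) (nat_lit 21797804222) (nat_lit 76) (nat_lit 4456418164) (nat_lit 436) (nat_lit 5) (nat_lit 451) (nat_lit 5) (nat_lit 437) (nat_lit 5) (nat_lit 480) (nat_lit 462) (nat_lit 258)) (XT.lf (nat_lit 0) (nat_lit 5174484855) (nat_lit 912) (nat_lit 6752043397) (nat_lit 988) (nat_lit 22199307880) (nat_lit 424) (nat_lit 5) (nat_lit 436) (nat_lit 5) (nat_lit 437) (nat_lit 5) (nat_lit 481) (nat_lit 462) (nat_lit 257)))) (XT.nd (nat_lit 156) (nat_lit 1672) (nat_lit 0) (XT.nd (nat_lit 78) (nat_lit 912) (nat_lit 0) (XT.lf (nat_lit 0) (nat_lit 16915636335) (nat_lit 988) (nat_lit 1540486251) (nat_lit 76)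 (nat_lit 16226447266) (nat_lit 424) (nat_lit 5) (nat_lit 437) (nat_lit 5) (nat_lit 425) (nat_lit 5) (nat_lit 482) (nat_lit 462) (nat_lit 256)) (XT.lf (nat_lit 0) (nat_lit 22301997297) (nat_lit 988) (nat_lit 8284039304) (nat_lit 76) (nat_lit 4665017692) (nat_lit 412) (nat_lit 5) (nat_lit 425) (nat_lit 5) (nat_lit 413) (nat_lit 5) (nat_lit 483) (nat_lit 462) (nat_lit 255))) (XT.nd (nat_lit 78) (nat_lit 836) (nat_lit 0) (XT.lf (nat_lit 0) (nat_lit 20658554246) (nat_lit 836) (nat_lit 7455983661) (nat_lit 912) (nat_lit 7716763878) (nat_lit 401) (nat_lit 5) (nat_lit 412) (nat_lit 5) (nat_lit 413) (nat_lit 5) (nat_lit 484) (nat_lit 462) (nat_lit 254)) (XT.lf (nat_lit 0) (nat_lit 14231640964) (nat_lit 836) (nat_lit 20121601878) (nat_lit 912) (nat_lit 2070678382) (nat_lit 390) (nat_lit 5) (nat_lit 401) (nat_lit 5) (nat_lit 402) (nat_lit 5) (nat_lit 485) (nat_lit 462) (nat_lit 253)))))) (XT.nd (nat_lit 468)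 (nat_lit 2812) (nat_lit 0) (XT.nd (nat_lit 234) (nat_lit 2280) (nat_lit 0) (XT.nd (nat_lit 78) (nat_lit 836) (nat_lit 0) (XT.lf (nat_lit 0) (nat_lit 3920605418) (nat_lit 912) (nat_lit 29338045487) (nat_lit 76) (nat_lit 3770683753) (nat_lit 378) (nat_lit 5) (nat_lit 390) (nat_lit 5) (nat_lit 379) (nat_lit 5) (nat_lit 486) (nat_lit 462) (nat_lit 252)) (XT.nd (nat_lit 78) (nat_lit 0) (nat_lit 0) (XT.lf (nat_lit 0) (nat_lit 985400161) (nat_lit 836) (nat_lit 9367332228) (nat_lit 912) (nat_lit 27294119884) (nat_lit 367) (nat_lit 5) (nat_lit 378) (nat_lit 5) (nat_lit 379) (nat_lit 5) (nat_lit 487) (nat_lit 462) (nat_lit 251)) (XT.lf (nat_lit 0) (nat_lit 17273708316) (nat_lit 912) (nat_lit 5762417030) (nat_lit 76) (nat_lit 15240852623) (nat_lit 367) (nat_lit 5) (nat_lit 379) (nat_lit 5) (nat_lit 368) (nat_lit 5) (nat_lit 488) (nat_lit 462) (nat_lit 250)))) (XT.nd (nat_lit 78) (nat_lit 1520) (nat_lit 0) (XT.lf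 (nat_lit 0) (nat_lit 24644003333) (nat_lit 836) (nat_lit 12589322406) (nat_lit 76) (nat_lit 1687848148) (nat_lit 357) (nat_lit 5) (nat_lit 368) (nat_lit 5) (nat_lit 358) (nat_lit 5) (nat_lit 489) (nat_lit 462) (nat_lit 249)) (XT.nd (nat_lit 78) (nat_lit 760) (nat_lit 0) (XT.lf (nat_lit 0) (nat_lit 19988481442) (nat_lit 760) (nat_lit 12567036346) (nat_lit 836) (nat_lit 7022775924) (nat_lit 347) (nat_lit 5) (nat_lit 357) (nat_lit 5) (nat_lit 358) (nat_lit 5) (nat_lit 490) (nat_lit 462) (nat_lit 248)) (XT.lf (nat_lit 0) (nat_lit 699311210) (nat_lit 760) (nat_lit 26701569086) (nat_lit 76) (nat_lit 12849069675) (nat_lit 337) (nat_lit 5) (nat_lit 347) (nat_lit 5) (nat_lit 338) (nat_lit 5) (nat_lit 491) (nat_lit 462) (nat_lit 247))))) (XT.nd (nat_lit 234) (nat_lit 1368) (nat_lit 0) (XT.nd (nat_lit 78) (nat_lit 684) (nat_lit 0) (XT.lf (nat_lit 0) (nat_lit 6965982063) (nat_lit 760) (nat_lit 1852190100) (nat_lit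 836) (nat_lit 32117445102) (nat_lit 327) (nat_lit 5) (nat_lit 337) (nat_lit 5) (nat_lit 338) (nat_lit 5) (nat_lit 492) (nat_lit 462) (nat_lit 246)) (XT.nd (nat_lit 78) (nat_lit 0) (nat_lit 0) (XT.lf (nat_lit 0) (nat_lit 210286635) (nat_lit 684) (nat_lit 17309790048) (nat_lit 760) (nat_lit 24114988557) (nat_lit 318) (nat_lit 5) (nat_lit 327) (nat_lit 5) (nat_lit 328) (nat_lit 5) (nat_lit 493) (nat_lit 462) (nat_lit 245)) (XT.lf (nat_lit 0) (nat_lit 26782097135) (nat_lit 760) (nat_lit 6545232048) (nat_lit 76) (nat_lit 9022186505) (nat_lit 318) (nat_lit 5) (nat_lit 328) (nat_lit 5) (nat_lit 319) (nat_lit 5) (nat_lit 494) (nat_lit 462) (nat_lit 244)))) (XT.nd (nat_lit 59982) (nat_lit 0) (nat_lit 12388) (XT.nd (nat_lit 78) (nat_lit 684) (nat_lit 0) (XT.lf (nat_lit 0) (nat_lit 29650648387) (nat_lit 684) (nat_lit 6976886803) (nat_lit 760) (nat_lit 6451753523) (nat_lit 309) (nat_lit 5) (nat_lit 318) (nat_lit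 5) (nat_lit 319) (nat_lit 5) (nat_lit 495) (nat_lit 462) (nat_lit 243)) (XT.lf (nat_lit 0) (nat_lit 3225608723) (nat_lit 684) (nat_lit 20481710942) (nat_lit 76) (nat_lit 20116718997) (nat_lit 300) (nat_lit 5) (nat_lit 309) (nat_lit 5) (nat_lit 301) (nat_lit 5) (nat_lit 496) (nat_lit 462) (nat_lit 242))) (XT.nd (nat_lit 78) (nat_lit 0) (nat_lit 76) (XT.lf (nat_lit 0) (nat_lit 130856473) (nat_lit 1900) (nat_lit 6489164258) (nat_lit 1900) (nat_lit 6489164258) (nat_lit 463) (nat_lit 3) (nat_lit 488) (nat_lit 3) (nat_lit 488) (nat_lit 5) (nat_lit 463) (nat_lit 463) (nat_lit 274)) (XT.lf (nat_lit 0) (nat_lit 490703333) (nat_lit 1824) (nat_lit 20113669459) (nat_lit 1900) (nat_lit 6002758393) (nat_lit 464) (nat_lit 5) (nat_lit 488) (nat_lit 5) (nat_lit 489) (nat_lit 5) (nat_lit 464) (nat_lit 463) (nat_lit 273))))))))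
noncomputable def xc120 : XT := (XT.nd (nat_lit 1950) (nat_lit 3724) (nat_lit 0) (XT.nd (nat_lit 936) (nat_lit 7372) (nat_lit 0) (XT.nd (nat_lit 468) (nat_lit 0) (nat_lit 380) (XT.nd (nat_lit 234) (nat_lit 0) (nat_lit 228) (XT.nd (nat_lit 78) (nat_lit 0) (nat_lit 76) (XT.lf (nat_lit 0) (nat_lit 898045228) (nat_lit 1824) (nat_lit 370883341) (nat_lit 1900) (nat_lit 25735197533) (nat_lit 464) (nat_lit 5) (nat_lit 488) (nat_lit 5) (nat_lit 489) (nat_lit 5) (nat_lit 465) (nat_lit 463) (nat_lit 272)) (XT.nd (nat_lit 78) (nat_lit 0) (nat_lit 76) (XT.lf (nat_lit 0) (nat_lit 1565458146) (nat_lit 1824) (nat_lit 7305934052) (nat_lit 1900) (nat_lit 18536682147) (nat_lit 465) (nat_lit 5) (nat_lit 489) (nat_lit 5) (nat_lit 490) (nat_lit 5) (nat_lit 466) (nat_lit 463) (nat_lit 271)) (XT.lf (nat_lit 0) (nat_lit 2419177895) (nat_lit 1824) (nat_lit 14358554848) (nat_lit 1900) (nat_lit 11043083083) (nat_lit 466) (nat_lit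 5) (nat_lit 490) (nat_lit 5) (nat_lit 491) (nat_lit 5) (nat_lit 467) (nat_lit 463) (nat_lit 270)))) (XT.nd (nat_lit 78) (nat_lit 0) (nat_lit 0) (XT.lf (nat_lit 0) (nat_lit 3467619224) (nat_lit 1824) (nat_lit 21530182465) (nat_lit 1900) (nat_lit 3244756129) (nat_lit 467) (nat_lit 5) (nat_lit 491) (nat_lit 5) (nat_lit 492) (nat_lit 5) (nat_lit 468) (nat_lit 463) (nat_lit 269)) (XT.nd (nat_lit 78) (nat_lit 0) (nat_lit 76) (XT.lf (nat_lit 0) (nat_lit 4752676959) (nat_lit 1824) (nat_lit 179010851) (nat_lit 1900) (nat_lit 23741161450) (nat_lit 467) (nat_lit 5) (nat_lit 491) (nat_lit 5) (nat_lit 492) (nat_lit 5) (nat_lit 469) (nat_lit 463) (nat_lit 268)) (XT.lf (nat_lit 0) (nat_lit 6318069636) (nat_lit 1824) (nat_lit 7116919781) (nat_lit 1900) (nat_lit 15676224802) (nat_lit 468) (nat_lit 5) (nat_lit 492) (nat_lit 5) (nat_lit 493) (nat_lit 5) (nat_lit 470) (nat_lit 463) (nat_lit 267))))) (XT.nd (nat_lit 234)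 (nat_lit 0) (nat_lit 152) (XT.nd (nat_lit 78) (nat_lit 0) (nat_lit 0) (XT.lf (nat_lit 0) (nat_lit 8108071391) (nat_lit 1824) (nat_lit 14169105268) (nat_lit 1900) (nat_lit 7282000949) (nat_lit 469) (nat_lit 5) (nat_lit 493) (nat_lit 5) (nat_lit 494) (nat_lit 5) (nat_lit 471) (nat_lit 463) (nat_lit 266)) (XT.nd (nat_lit 78) (nat_lit 0) (nat_lit 76) (XT.lf (nat_lit 76) (nat_lit 8670473339) (nat_lit 0) (nat_lit 1471411147) (nat_lit 1900) (nat_lit 19874893600) (nat_lit 470) (nat_lit 5) (nat_lit 469) (nat_lit 5) (nat_lit 494) (nat_lit 5) (nat_lit 472) (nat_lit 463) (nat_lit 265)) (XT.lf (nat_lit 76) (nat_lit 1793098857) (nat_lit 0) (nat_lit 10677036450) (nat_lit 1900) (nat_lit 18013303209) (nat_lit 471) (nat_lit 5) (nat_lit 470) (nat_lit 5) (nat_lit 495) (nat_lit 5) (nat_lit 473) (nat_lit 463) (nat_lit 264)))) (XT.nd (nat_lit 78) (nat_lit 0) (nat_lit 76) (XT.lf (nat_lit 0) (nat_lit 15089003107) (nat_lit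 1824) (nat_lit 5126028760) (nat_lit 1900) (nat_lit 10744651891) (nat_lit 471) (nat_lit 5) (nat_lit 495) (nat_lit 5) (nat_lit 496) (nat_lit 5) (nat_lit 474) (nat_lit 463) (nat_lit 263)) (XT.nd (nat_lit 78) (nat_lit 0) (nat_lit 0) (XT.lf (nat_lit 0) (nat_lit 17987827017) (nat_lit 1824) (nat_lit 12130996531) (nat_lit 1900) (nat_lit 1327365387) (nat_lit 472) (nat_lit 5) (nat_lit 496) (nat_lit 5) (nat_lit 497) (nat_lit 5) (nat_lit 475) (nat_lit 463) (nat_lit 262)) (XT.lf (nat_lit 76) (nat_lit 12640399045) (nat_lit 0) (nat_lit 8581338468) (nat_lit 1900) (nat_lit 10720589685) (nat_lit 473) (nat_lit 5) (nat_lit 472) (nat_lit 5) (nat_lit 497) (nat_lit 5) (nat_lit 476) (nat_lit 463) (nat_lit 261)))))) (XT.nd (nat_lit 468) (nat_lit 4332) (nat_lit 0) (XT.nd (nat_lit 234) (nat_lit 3724) (nat_lit 0) (XT.nd (nat_lit 78) (nat_lit 0) (nat_lit 76) (XT.lf (nat_lit 76) (nat_lit 5853977553) (nat_lit 0) (nat_lit 18903762714)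 (nat_lit 1900) (nat_lit 7691508201) (nat_lit 474) (nat_lit 5) (nat_lit 473) (nat_lit 5) (nat_lit 498) (nat_lit 5) (nat_lit 477) (nat_lit 463) (nat_lit 260)) (XT.nd (nat_lit 78) (nat_lit 0) (nat_lit 0) (XT.lf (nat_lit 0) (nat_lit 28605698112) (nat_lit 1824) (nat_lit 1022219298) (nat_lit 1900) (nat_lit 3339342812) (nat_lit 474) (nat_lit 5) (nat_lit 498) (nat_lit 5) (nat_lit 499) (nat_lit 5) (nat_lit 478) (nat_lit 463) (nat_lit 259)) (XT.lf (nat_lit 76) (nat_lit 25523190135) (nat_lit 0) (nat_lit 7334254099) (nat_lit 1900) (nat_lit 637601440) (nat_lit 475) (nat_lit 5) (nat_lit 474) (nat_lit 5) (nat_lit 499) (nat_lit 5) (nat_lit 479) (nat_lit 463) (nat_lit 258)))) (XT.nd (nat_lit 78) (nat_lit 1976) (nat_lit 0) (XT.lf (nat_lit 0) (nat_lit 3385659297) (nat_lit 1900) (nat_lit 15071661318) (nat_lit 76) (nat_lit 15576338623) (nat_lit 450) (nat_lit 5) (nat_lit 475) (nat_lit 5) (nat_lit 451) (nat_lit 5) (nat_lit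 480) (nat_lit 463) (nat_lit 257)) (XT.nd (nat_lit 78) (nat_lit 912) (nat_lit 0) (XT.lf (nat_lit 0) (nat_lit 7730921131) (nat_lit 1140) (nat_lit 22284304607) (nat_lit 76) (nat_lit 4568922174) (nat_lit 436) (nat_lit 5) (nat_lit 451) (nat_lit 5) (nat_lit 437) (nat_lit 5) (nat_lit 481) (nat_lit 463) (nat_lit 256)) (XT.lf (nat_lit 0) (nat_lit 5494436728) (nat_lit 912) (nat_lit 6970479465) (nat_lit 988) (nat_lit 22681067849) (nat_lit 424) (nat_lit 5) (nat_lit 436) (nat_lit 5) (nat_lit 437) (nat_lit 5) (nat_lit 482) (nat_lit 463) (nat_lit 255))))) (XT.nd (nat_lit 234) (nat_lit 2584) (nat_lit 0) (XT.nd (nat_lit 78) (nat_lit 1748) (nat_lit 0) (XT.lf (nat_lit 0) (nat_lit 17598337488) (nat_lit 988) (nat_lit 1423159508) (nat_lit 76) (nat_lit 16698030426) (nat_lit 424) (nat_lit 5) (nat_lit 437) (nat_lit 5) (nat_lit 425) (nat_lit 5) (nat_lit 483) (nat_lit 463) (nat_lit 254)) (XT.nd (nat_lit 78) (nat_lit 836) (nat_lit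 0) (XT.lf (nat_lit 0) (nat_lit 23142163249) (nat_lit 988) (nat_lit 8368167734) (nat_lit 76) (nat_lit 4794818368) (nat_lit 412) (nat_lit 5) (nat_lit 425) (nat_lit 5) (nat_lit 413) (nat_lit 5) (nat_lit 484) (nat_lit 463) (nat_lit 253)) (XT.lf (nat_lit 0) (nat_lit 21440036546) (nat_lit 836) (nat_lit 7685109891) (nat_lit 912) (nat_lit 7777736924) (nat_lit 401) (nat_lit 5) (nat_lit 412) (nat_lit 5) (nat_lit 413) (nat_lit 5) (nat_lit 485) (nat_lit 463) (nat_lit 252)))) (XT.nd (nat_lit 156) (nat_lit 836) (nat_lit 0) (XT.nd (nat_lit 78) (nat_lit 912) (nat_lit 0) (XT.lf (nat_lit 0) (nat_lit 14821029856) (nat_lit 836) (nat_lit 20726133897) (nat_lit 912) (nat_lit 1966195014) (nat_lit 390) (nat_lit 5) (nat_lit 401) (nat_lit 5) (nat_lit 402) (nat_lit 5) (nat_lit 486) (nat_lit 463) (nat_lit 251)) (XT.lf (nat_lit 0) (nat_lit 4198913313) (nat_lit 912) (nat_lit 30053001608) (nat_lit 76) (nat_lit 3885073017) (nat_lit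 378) (nat_lit 5) (nat_lit 390) (nat_lit 5) (nat_lit 379) (nat_lit 5) (nat_lit 487) (nat_lit 463) (nat_lit 250))) (XT.nd (nat_lit 78) (nat_lit 0) (nat_lit 0) (XT.lf (nat_lit 0) (nat_lit 1177467476) (nat_lit 836) (nat_lit 9642911426) (nat_lit 912) (nat_lit 27952725060) (nat_lit 367) (nat_lit 5) (nat_lit 378) (nat_lit 5) (nat_lit 379) (nat_lit 5) (nat_lit 488) (nat_lit 463) (nat_lit 249)) (XT.lf (nat_lit 0) (nat_lit 17944443708) (nat_lit 912) (nat_lit 5774489673) (nat_lit 76) (nat_lit 15703291222) (nat_lit 367) (nat_lit 5) (nat_lit 379) (nat_lit 5) (nat_lit 368) (nat_lit 5) (nat_lit 489) (nat_lit 463) (nat_lit 248))))))) (XT.nd (nat_lit 60918) (nat_lit 0) (nat_lit 8968) (XT.nd (nat_lit 60450) (nat_lit 0) (nat_lit 11020) (XT.nd (nat_lit 234) (nat_lit 1444) (nat_lit 0) (XT.nd (nat_lit 78) (nat_lit 1520) (nat_lit 0) (XT.lf (nat_lit 0) (nat_lit 25532491174) (nat_lit 836) (nat_lit 12805875926) (nat_lit 76)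 (nat_lit 1747446784) (nat_lit 357) (nat_lit 5) (nat_lit 368) (nat_lit 5) (nat_lit 358) (nat_lit 5) (nat_lit 490) (nat_lit 463) (nat_lit 247)) (XT.nd (nat_lit 78) (nat_lit 760) (nat_lit 0) (XT.lf (nat_lit 0) (nat_lit 20746647958) (nat_lit 760) (nat_lit 12931387579) (nat_lit 836) (nat_lit 7084678423) (nat_lit 347) (nat_lit 5) (nat_lit 357) (nat_lit 5) (nat_lit 358) (nat_lit 5) (nat_lit 491) (nat_lit 463) (nat_lit 246)) (XT.lf (nat_lit 0) (nat_lit 863961257) (nat_lit 760) (nat_lit 27341955294) (nat_lit 76) (nat_lit 13248647540) (nat_lit 337) (nat_lit 5) (nat_lit 347) (nat_lit 5) (nat_lit 338) (nat_lit 5) (nat_lit 492) (nat_lit 463) (nat_lit 245)))) (XT.nd (nat_lit 78) (nat_lit 684) (nat_lit 0) (XT.lf (nat_lit 0) (nat_lit 7333015858) (nat_lit 760) (nat_lit 1890213790) (nat_lit 836) (nat_lit 32937635243) (nat_lit 327) (nat_lit 5) (nat_lit 337) (nat_lit 5) (nat_lit 338) (nat_lit 5) (nat_lit 493) (nat_lit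 463) (nat_lit 244)) (XT.nd (nat_lit 78) (nat_lit 0) (nat_lit 0) (XT.lf (nat_lit 0) (nat_lit 374748403) (nat_lit 684) (nat_lit 17808487722) (nat_lit 760) (nat_lit 24698119594) (nat_lit 318) (nat_lit 5) (nat_lit 327) (nat_lit 5) (nat_lit 328) (nat_lit 5) (nat_lit 494) (nat_lit 463) (nat_lit 243)) (XT.lf (nat_lit 0) (nat_lit 27719240499) (nat_lit 760) (nat_lit 6585491025) (nat_lit 76) (nat_lit 9312585990) (nat_lit 318) (nat_lit 5) (nat_lit 328) (nat_lit 5) (nat_lit 319) (nat_lit 5) (nat_lit 495) (nat_lit 463) (nat_lit 242))))) (XT.nd (nat_lit 234) (nat_lit 0) (nat_lit 152) (XT.nd (nat_lit 78) (nat_lit 0) (nat_lit 76) (XT.lf (nat_lit 0) (nat_lit 276557573) (nat_lit 1900) (nat_lit 6611527267) (nat_lit 1900) (nat_lit 6611527267) (nat_lit 463) (nat_lit 3) (nat_lit 488) (nat_lit 3) (nat_lit 488) (nat_lit 5) (nat_lit 464) (nat_lit 464) (nat_lit 272)) (XT.nd (nat_lit 78) (nat_lit 0) (nat_lit 0) (XT.lf (nat_lit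 0) (nat_lit 780770626) (nat_lit 1824) (nat_lit 20568383029) (nat_lit 1900) (nat_lit 6050659448) (nat_lit 464) (nat_lit 5) (nat_lit 488) (nat_lit 5) (nat_lit 489) (nat_lit 5) (nat_lit 465) (nat_lit 464) (nat_lit 271)) (XT.lf (nat_lit 0) (nat_lit 1192312985) (nat_lit 1824) (nat_lit 237644294) (nat_lit 1900) (nat_lit 26378921714) (nat_lit 464) (nat_lit 5) (nat_lit 488) (nat_lit 5) (nat_lit 489) (nat_lit 5) (nat_lit 466) (nat_lit 464) (nat_lit 270)))) (XT.nd (nat_lit 78) (nat_lit 0) (nat_lit 76) (XT.lf (nat_lit 0) (nat_lit 1872115211) (nat_lit 1824) (nat_lit 7377086802) (nat_lit 1900) (nat_lit 18975897042) (nat_lit 465) (nat_lit 5) (nat_lit 489) (nat_lit 5) (nat_lit 490) (nat_lit 5) (nat_lit 467) (nat_lit 464) (nat_lit 269)) (XT.nd (nat_lit 78) (nat_lit 0) (nat_lit 76) (XT.lf (nat_lit 0) (nat_lit 2744130511) (nat_lit 1824) (nat_lit 14637905648) (nat_lit 1900) (nat_lit 11268333632) (nat_lit 466) (nat_lit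 5) (nat_lit 490) (nat_lit 5) (nat_lit 491) (nat_lit 5) (nat_lit 468) (nat_lit 464) (nat_lit 268)) (XT.lf (nat_lit 0) (nat_lit 3817011289) (nat_lit 1824) (nat_lit 22021566232) (nat_lit 1900) (nat_lit 3246327466) (nat_lit 467) (nat_lit 5) (nat_lit 491) (nat_lit 5) (nat_lit 492) (nat_lit 5) (nat_lit 469) (nat_lit 464) (nat_lit 267)))))) (XT.nd (nat_lit 468) (nat_lit 2356) (nat_lit 0) (XT.nd (nat_lit 234) (nat_lit 0) (nat_lit 152) (XT.nd (nat_lit 78) (nat_lit 0) (nat_lit 76) (XT.lf (nat_lit 0) (nat_lit 5133474247) (nat_lit 1824) (nat_lit 34360102) (nat_lit 1900) (nat_lit 24360414402) (nat_lit 467) (nat_lit 5) (nat_lit 491) (nat_lit 5) (nat_lit 492) (nat_lit 5) (nat_lit 470) (nat_lit 464) (nat_lit 266)) (XT.nd (nat_lit 78) (nat_lit 0) (nat_lit 76) (XT.lf (nat_lit 0) (nat_lit 6739298978) (nat_lit 1824) (nat_lit 7177624858) (nat_lit 1900) (nat_lit 16062972049) (nat_lit 468) (nat_lit 5) (nat_lit 492) (nat_lit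 5) (nat_lit 493) (nat_lit 5) (nat_lit 471) (nat_lit 464) (nat_lit 265)) (XT.lf (nat_lit 0) (nat_lit 8576737822) (nat_lit 1824) (nat_lit 14438825453) (nat_lit 1900) (nat_lit 7425860772) (nat_lit 469) (nat_lit 5) (nat_lit 493) (nat_lit 5) (nat_lit 494) (nat_lit 5) (nat_lit 472) (nat_lit 464) (nat_lit 264)))) (XT.nd (nat_lit 78) (nat_lit 0) (nat_lit 76) (XT.lf (nat_lit 76) (nat_lit 9083420095) (nat_lit 0) (nat_lit 1582571750) (nat_lit 1900) (nat_lit 20246872759) (nat_lit 470) (nat_lit 5) (nat_lit 469) (nat_lit 5) (nat_lit 494) (nat_lit 5) (nat_lit 473) (nat_lit 464) (nat_lit 263)) (XT.nd (nat_lit 78) (nat_lit 0) (nat_lit 76) (XT.lf (nat_lit 76) (nat_lit 2002018087) (nat_lit 0) (nat_lit 11056253409) (nat_lit 1900) (nat_lit 18335370300) (nat_lit 471) (nat_lit 5) (nat_lit 470) (nat_lit 5) (nat_lit 495) (nat_lit 5) (nat_lit 474) (nat_lit 464) (nat_lit 262)) (XT.lf (nat_lit 0) (nat_lit 15749100069) (nat_lit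 1824) (nat_lit 5124655646) (nat_lit 1900) (nat_lit 11010551346) (nat_lit 471) (nat_lit 5) (nat_lit 495) (nat_lit 5) (nat_lit 496) (nat_lit 5) (nat_lit 475) (nat_lit 464) (nat_lit 261))))) (XT.nd (nat_lit 234) (nat_lit 2736) (nat_lit 0) (XT.nd (nat_lit 78) (nat_lit 0) (nat_lit 0) (XT.lf (nat_lit 0) (nat_lit 18729515214) (nat_lit 1824) (nat_lit 12337901042) (nat_lit 1900) (nat_lit 1318099151) (nat_lit 472) (nat_lit 5) (nat_lit 496) (nat_lit 5) (nat_lit 497) (nat_lit 5) (nat_lit 476) (nat_lit 464) (nat_lit 260)) (XT.nd (nat_lit 78) (nat_lit 0) (nat_lit 76) (XT.lf (nat_lit 76) (nat_lit 13174088851) (nat_lit 0) (nat_lit 8881472097) (nat_lit 1900) (nat_lit 10841075040) (nat_lit 473) (nat_lit 5) (nat_lit 472) (nat_lit 5) (nat_lit 497) (nat_lit 5) (nat_lit 477) (nat_lit 464) (nat_lit 259)) (XT.lf (nat_lit 76) (nat_lit 6185737956) (nat_lit 0) (nat_lit 19506907625) (nat_lit 1900) (nat_lit 7726219791) (nat_lit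 474) (nat_lit 5) (nat_lit 473) (nat_lit 5) (nat_lit 498) (nat_lit 5) (nat_lit 478) (nat_lit 464) (nat_lit 258)))) (XT.nd (nat_lit 156) (nat_lit 2888) (nat_lit 0) (XT.nd (nat_lit 78) (nat_lit 0) (nat_lit 0) (XT.lf (nat_lit 0) (nat_lit 29650217757) (nat_lit 1824) (nat_lit 897317362) (nat_lit 1900) (nat_lit 3404999345) (nat_lit 474) (nat_lit 5) (nat_lit 498) (nat_lit 5) (nat_lit 499) (nat_lit 5) (nat_lit 479) (nat_lit 464) (nat_lit 257)) (XT.lf (nat_lit 76) (nat_lit 26441930440) (nat_lit 0) (nat_lit 7583151857) (nat_lit 1900) (nat_lit 471160346) (nat_lit 475) (nat_lit 5) (nat_lit 474) (nat_lit 5) (nat_lit 499) (nat_lit 5) (nat_lit 480) (nat_lit 464) (nat_lit 256))) (XT.nd (nat_lit 78) (nat_lit 1064) (nat_lit 0) (XT.lf (nat_lit 0) (nat_lit 3665855933) (nat_lit 1900) (nat_lit 15367080819) (nat_lit 76) (nat_lit 16018144394) (nat_lit 450) (nat_lit 5) (nat_lit 475) (nat_lit 5) (nat_lit 451) (nat_lit 5) (nat_lit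 481) (nat_lit 464) (nat_lit 255)) (XT.lf (nat_lit 0) (nat_lit 8137142590) (nat_lit 1140) (nat_lit 22795011386) (nat_lit 76) (nat_lit 4686017613) (nat_lit 436) (nat_lit 5) (nat_lit 451) (nat_lit 5) (nat_lit 437) (nat_lit 5) (nat_lit 482) (nat_lit 464) (nat_lit 254))))))))
noncomputable def xc121 : XT := (XT.nd (nat_lit 62010) (nat_lit 0) (nat_lit 684) (XT.nd (nat_lit 936) (nat_lit 684) (nat_lit 0) (XT.nd (nat_lit 468) (nat_lit 3876) (nat_lit 0) (XT.nd (nat_lit 234) (nat_lit 2584) (nat_lit 0) (XT.nd (nat_lit 78) (nat_lit 912) (nat_lit 0) (XT.lf (nat_lit 0) (nat_lit 5814531710) (nat_lit 912) (nat_lit 7194557338) (nat_lit 988) (nat_lit 23187855557) (nat_lit 424) (nat_lit 5) (nat_lit 436) (nat_lit 5) (nat_lit 437) (nat_lit 5) (nat_lit 483) (nat_lit 464) (nat_lit 253)) (XT.nd (nat_lit 78) (nat_lit 912) (nat_lit 0) (XT.lf (nat_lit 0) (nat_lit 18291460638) (nat_lit 988) (nat_lit 1311700904) (nat_lit 76) (nat_lit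 17184634212) (nat_lit 424) (nat_lit 5) (nat_lit 437) (nat_lit 5) (nat_lit 425) (nat_lit 5) (nat_lit 484) (nat_lit 464) (nat_lit 252)) (XT.lf (nat_lit 0) (nat_lit 23997711993) (nat_lit 988) (nat_lit 8464256832) (nat_lit 76) (nat_lit 4929095708) (nat_lit 412) (nat_lit 5) (nat_lit 425) (nat_lit 5) (nat_lit 413) (nat_lit 5) (nat_lit 485) (nat_lit 464) (nat_lit 251)))) (XT.nd (nat_lit 78) (nat_lit 1748) (nat_lit 0) (XT.lf (nat_lit 0) (nat_lit 22235679600) (nat_lit 836) (nat_lit 7920797243) (nat_lit 912) (nat_lit 7850328274) (nat_lit 401) (nat_lit 5) (nat_lit 412) (nat_lit 5) (nat_lit 413) (nat_lit 5) (nat_lit 486) (nat_lit 464) (nat_lit 250)) (XT.nd (nat_lit 78) (nat_lit 912) (nat_lit 0) (XT.lf (nat_lit 0) (nat_lit 15418775713) (nat_lit 836) (nat_lit 21348751134) (nat_lit 912) (nat_lit 1868140880) (nat_lit 390) (nat_lit 5) (nat_lit 401) (nat_lit 5) (nat_lit 402) (nat_lit 5) (nat_lit 487) (nat_lit 464) (nat_lit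 249)) (XT.lf (nat_lit 0) (nat_lit 4476346197) (nat_lit 912) (nat_lit 30798888721) (nat_lit 76) (nat_lit 4002821127) (nat_lit 378) (nat_lit 5) (nat_lit 390) (nat_lit 5) (nat_lit 379) (nat_lit 5) (nat_lit 488) (nat_lit 464) (nat_lit 248))))) (XT.nd (nat_lit 234) (nat_lit 2280) (nat_lit 0) (XT.nd (nat_lit 78) (nat_lit 760) (nat_lit 0) (XT.lf (nat_lit 0) (nat_lit 1365968340) (nat_lit 836) (nat_lit 9927070323) (nat_lit 912) (nat_lit 28640285585) (nat_lit 367) (nat_lit 5) (nat_lit 378) (nat_lit 5) (nat_lit 379) (nat_lit 5) (nat_lit 489) (nat_lit 464) (nat_lit 247)) (XT.nd (nat_lit 78) (nat_lit 760) (nat_lit 0) (XT.lf (nat_lit 0) (nat_lit 18626545652) (nat_lit 912) (nat_lit 5796155066) (nat_lit 76) (nat_lit 16179303732) (nat_lit 367) (nat_lit 5) (nat_lit 379) (nat_lit 5) (nat_lit 368) (nat_lit 5) (nat_lit 490) (nat_lit 464) (nat_lit 246)) (XT.lf (nat_lit 0) (nat_lit 26439070812) (nat_lit 836) (nat_lit 13038175351)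 (nat_lit 76) (nat_lit 1808318856) (nat_lit 357) (nat_lit 5) (nat_lit 368) (nat_lit 5) (nat_lit 358) (nat_lit 5) (nat_lit 491) (nat_lit 464) (nat_lit 245)))) (XT.nd (nat_lit 78) (nat_lit 1520) (nat_lit 0) (XT.lf (nat_lit 0) (nat_lit 21518460228) (nat_lit 760) (nat_lit 13307396076) (nat_lit 836) (nat_lit 7156978622) (nat_lit 347) (nat_lit 5) (nat_lit 357) (nat_lit 5) (nat_lit 358) (nat_lit 5) (nat_lit 492) (nat_lit 464) (nat_lit 244)) (XT.nd (nat_lit 78) (nat_lit 760) (nat_lit 0) (XT.lf (nat_lit 0) (nat_lit 1025303519) (nat_lit 760) (nat_lit 28010775680) (nat_lit 76) (nat_lit 13659403012) (nat_lit 337) (nat_lit 5) (nat_lit 347) (nat_lit 5) (nat_lit 338) (nat_lit 5) (nat_lit 493) (nat_lit 464) (nat_lit 243)) (XT.lf (nat_lit 0) (nat_lit 7701987701) (nat_lit 760) (nat_lit 1930385175) (nat_lit 836) (nat_lit 33790659001) (nat_lit 327) (nat_lit 5) (nat_lit 337) (nat_lit 5) (nat_lit 338) (nat_lit 5) (nat_lit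 494) (nat_lit 464) (nat_lit 242)))))) (XT.nd (nat_lit 60528) (nat_lit 0) (nat_lit 11324) (XT.nd (nat_lit 60294) (nat_lit 0) (nat_lit 11096) (XT.nd (nat_lit 60138) (nat_lit 0) (nat_lit 11020) (XT.lf (nat_lit 0) (nat_lit 535065385) (nat_lit 684) (nat_lit 18323328622) (nat_lit 760) (nat_lit 25306799426) (nat_lit 318) (nat_lit 5) (nat_lit 327) (nat_lit 5) (nat_lit 328) (nat_lit 5) (nat_lit 495) (nat_lit 464) (nat_lit 241)) (XT.nd (nat_lit 78) (nat_lit 0) (nat_lit 76) (XT.lf (nat_lit 0) (nat_lit 418491217) (nat_lit 1900) (nat_lit 6741712166) (nat_lit 1900) (nat_lit 6741712166) (nat_lit 463) (nat_lit 3) (nat_lit 488) (nat_lit 3) (nat_lit 488) (nat_lit 5) (nat_lit 465) (nat_lit 465) (nat_lit 270)) (XT.lf (nat_lit 0) (nat_lit 1063733940) (nat_lit 1824) (nat_lit 21045273794) (nat_lit 1900) (nat_lit 6107585304) (nat_lit 464) (nat_lit 5) (nat_lit 488) (nat_lit 5) (nat_lit 489) (nat_lit 5) (nat_lit 466) (nat_lit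 465) (nat_lit 269)))) (XT.nd (nat_lit 78) (nat_lit 0) (nat_lit 76) (XT.lf (nat_lit 0) (nat_lit 1480063146) (nat_lit 1824) (nat_lit 108695248) (nat_lit 1900) (nat_lit 27049324388) (nat_lit 464) (nat_lit 5) (nat_lit 488) (nat_lit 5) (nat_lit 489) (nat_lit 5) (nat_lit 467) (nat_lit 465) (nat_lit 268)) (XT.nd (nat_lit 78) (nat_lit 0) (nat_lit 76) (XT.lf (nat_lit 0) (nat_lit 2173064529) (nat_lit 1824) (nat_lit 7458871391) (nat_lit 1900) (nat_lit 19434998094) (nat_lit 465) (nat_lit 5) (nat_lit 489) (nat_lit 5) (nat_lit 490) (nat_lit 5) (nat_lit 468) (nat_lit 465) (nat_lit 267)) (XT.lf (nat_lit 0) (nat_lit 3064344217) (nat_lit 1824) (nat_lit 14934328288) (nat_lit 1900) (nat_lit 11506428937) (nat_lit 466) (nat_lit 5) (nat_lit 490) (nat_lit 5) (nat_lit 491) (nat_lit 5) (nat_lit 469) (nat_lit 465) (nat_lit 266))))) (XT.nd (nat_lit 234) (nat_lit 0) (nat_lit 152) (XT.nd (nat_lit 78) (nat_lit 0) (nat_lit 0) (XT.lf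 (nat_lit 0) (nat_lit 4162800249) (nat_lit 1824) (nat_lit 22536561691) (nat_lit 1900) (nat_lit 3253443609) (nat_lit 467) (nat_lit 5) (nat_lit 491) (nat_lit 5) (nat_lit 492) (nat_lit 5) (nat_lit 470) (nat_lit 465) (nat_lit 265)) (XT.nd (nat_lit 78) (nat_lit 0) (nat_lit 76) (XT.lf (nat_lit 76) (nat_lit 107427273) (nat_lit 0) (nat_lit 5405291040) (nat_lit 1900) (nat_lit 24896852700) (nat_lit 468) (nat_lit 5) (nat_lit 467) (nat_lit 5) (nat_lit 492) (nat_lit 5) (nat_lit 471) (nat_lit 465) (nat_lit 264)) (XT.lf (nat_lit 0) (nat_lit 7159865404) (nat_lit 1824) (nat_lit 7248922577) (nat_lit 1900) (nat_lit 16466117221) (nat_lit 468) (nat_lit 5) (nat_lit 492) (nat_lit 5) (nat_lit 493) (nat_lit 5) (nat_lit 472) (nat_lit 465) (nat_lit 263)))) (XT.nd (nat_lit 156) (nat_lit 0) (nat_lit 76) (XT.nd (nat_lit 78) (nat_lit 0) (nat_lit 0) (XT.lf (nat_lit 0) (nat_lit 9046523969) (nat_lit 1824) (nat_lit 14725555140) (nat_lit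 1900) (nat_lit 7578318746) (nat_lit 469) (nat_lit 5) (nat_lit 493) (nat_lit 5) (nat_lit 494) (nat_lit 5) (nat_lit 473) (nat_lit 465) (nat_lit 262)) (XT.lf (nat_lit 76) (nat_lit 9499982039) (nat_lit 0) (nat_lit 1693220047) (nat_lit 1900) (nat_lit 20642885173) (nat_lit 470) (nat_lit 5) (nat_lit 469) (nat_lit 5) (nat_lit 494) (nat_lit 5) (nat_lit 474) (nat_lit 465) (nat_lit 261))) (XT.nd (nat_lit 78) (nat_lit 0) (nat_lit 76) (XT.lf (nat_lit 76) (nat_lit 2208300012) (nat_lit 0) (nat_lit 11443465439) (nat_lit 1900) (nat_lit 18679632553) (nat_lit 471) (nat_lit 5) (nat_lit 470) (nat_lit 5) (nat_lit 495) (nat_lit 5) (nat_lit 475) (nat_lit 465) (nat_lit 260)) (XT.lf (nat_lit 0) (nat_lit 16417092789) (nat_lit 1824) (nat_lit 5132147812) (nat_lit 1900) (nat_lit 11287667677) (nat_lit 471) (nat_lit 5) (nat_lit 495) (nat_lit 5) (nat_lit 496) (nat_lit 5) (nat_lit 476) (nat_lit 465) (nat_lit 259))))))) (XT.nd (nat_lit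 1014) (nat_lit 3876) (nat_lit 0) (XT.nd (nat_lit 468) (nat_lit 5472) (nat_lit 0) (XT.nd (nat_lit 234) (nat_lit 1672) (nat_lit 0) (XT.nd (nat_lit 78) (nat_lit 0) (nat_lit 0) (XT.lf (nat_lit 0) (nat_lit 19481855366) (nat_lit 1824) (nat_lit 12560026588) (nat_lit 1900) (nat_lit 1311372734) (nat_lit 472) (nat_lit 5) (nat_lit 496) (nat_lit 5) (nat_lit 497) (nat_lit 5) (nat_lit 477) (nat_lit 465) (nat_lit 258)) (XT.nd (nat_lit 78) (nat_lit 0) (nat_lit 76) (XT.lf (nat_lit 76) (nat_lit 13714921691) (nat_lit 0) (nat_lit 9188158954) (nat_lit 1900) (nat_lit 10976720775) (nat_lit 473) (nat_lit 5) (nat_lit 472) (nat_lit 5) (nat_lit 497) (nat_lit 5) (nat_lit 478) (nat_lit 465) (nat_lit 257)) (XT.lf (nat_lit 76) (nat_lit 6518488034) (nat_lit 0) (nat_lit 20126078497) (nat_lit 1900) (nat_lit 7773225863) (nat_lit 474) (nat_lit 5) (nat_lit 473) (nat_lit 5) (nat_lit 498) (nat_lit 5) (nat_lit 479) (nat_lit 465) (nat_lit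 256)))) (XT.nd (nat_lit 78) (nat_lit 1824) (nat_lit 0) (XT.lf (nat_lit 0) (nat_lit 30715375813) (nat_lit 1824) (nat_lit 777598638) (nat_lit 1900) (nat_lit 3474607379) (nat_lit 474) (nat_lit 5) (nat_lit 498) (nat_lit 5) (nat_lit 499) (nat_lit 5) (nat_lit 480) (nat_lit 465) (nat_lit 255)) (XT.nd (nat_lit 78) (nat_lit 1824) (nat_lit 0) (XT.lf (nat_lit 76) (nat_lit 27379447567) (nat_lit 0) (nat_lit 7837859285) (nat_lit 1900) (nat_lit 310378446) (nat_lit 475) (nat_lit 5) (nat_lit 474) (nat_lit 5) (nat_lit 499) (nat_lit 5) (nat_lit 481) (nat_lit 465) (nat_lit 254)) (XT.lf (nat_lit 0) (nat_lit 3944204556) (nat_lit 1900) (nat_lit 15680359869) (nat_lit 76) (nat_lit 16474667247) (nat_lit 450) (nat_lit 5) (nat_lit 475) (nat_lit 5) (nat_lit 451) (nat_lit 5) (nat_lit 482) (nat_lit 465) (nat_lit 253))))) (XT.nd (nat_lit 234) (nat_lit 3496) (nat_lit 0) (XT.nd (nat_lit 78) (nat_lit 912) (nat_lit 0) (XT.lf (nat_lit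 0) (nat_lit 8545545514) (nat_lit 1140) (nat_lit 23330099017) (nat_lit 76) (nat_lit 4807772402) (nat_lit 436) (nat_lit 5) (nat_lit 451) (nat_lit 5) (nat_lit 437) (nat_lit 5) (nat_lit 483) (nat_lit 465) (nat_lit 252)) (XT.nd (nat_lit 78) (nat_lit 0) (nat_lit 0) (XT.lf (nat_lit 0) (nat_lit 6135316874) (nat_lit 912) (nat_lit 7424498582) (nat_lit 988) (nat_lit 23719814791) (nat_lit 424) (nat_lit 5) (nat_lit 436) (nat_lit 5) (nat_lit 437) (nat_lit 5) (nat_lit 484) (nat_lit 465) (nat_lit 251)) (XT.lf (nat_lit 0) (nat_lit 18995895875) (nat_lit 988) (nat_lit 1205747577) (nat_lit 76) (nat_lit 17686659122) (nat_lit 424) (nat_lit 5) (nat_lit 437) (nat_lit 5) (nat_lit 425) (nat_lit 5) (nat_lit 485) (nat_lit 465) (nat_lit 250)))) (XT.nd (nat_lit 156) (nat_lit 1748) (nat_lit 0) (XT.nd (nat_lit 78) (nat_lit 836) (nat_lit 0) (XT.lf (nat_lit 0) (nat_lit 24869668846) (nat_lit 988) (nat_lit 8572123709) (nat_lit 76) (nat_lit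 5067950564) (nat_lit 412) (nat_lit 5) (nat_lit 425) (nat_lit 5) (nat_lit 413) (nat_lit 5) (nat_lit 486) (nat_lit 465) (nat_lit 249)) (XT.lf (nat_lit 0) (nat_lit 23046441153) (nat_lit 836) (nat_lit 8163260500) (nat_lit 912) (nat_lit 7934324541) (nat_lit 401) (nat_lit 5) (nat_lit 412) (nat_lit 5) (nat_lit 413) (nat_lit 5) (nat_lit 487) (nat_lit 465) (nat_lit 248))) (XT.nd (nat_lit 78) (nat_lit 912) (nat_lit 0) (XT.lf (nat_lit 0) (nat_lit 16025664521) (nat_lit 836) (nat_lit 21989999058) (nat_lit 912) (nat_lit 1776159859) (nat_lit 390) (nat_lit 5) (nat_lit 401) (nat_lit 5) (nat_lit 402) (nat_lit 5) (nat_lit 488) (nat_lit 465) (nat_lit 247)) (XT.lf (nat_lit 0) (nat_lit 4753407329) (nat_lit 912) (nat_lit 31576090432) (nat_lit 76) (nat_lit 4124033030) (nat_lit 378) (nat_lit 5) (nat_lit 390) (nat_lit 5) (nat_lit 379) (nat_lit 5) (nat_lit 489) (nat_lit 465) (nat_lit 246)))))) (XT.nd (nat_lit 60606) (nat_lit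 0) (nat_lit 10336) (XT.nd (nat_lit 234) (nat_lit 2280) (nat_lit 0) (XT.nd (nat_lit 78) (nat_lit 760) (nat_lit 0) (XT.lf (nat_lit 0) (nat_lit 1551331254) (nat_lit 836) (nat_lit 10220048380) (nat_lit 912) (nat_lit 29357142161) (nat_lit 367) (nat_lit 5) (nat_lit 378) (nat_lit 5) (nat_lit 379) (nat_lit 5) (nat_lit 490) (nat_lit 465) (nat_lit 245)) (XT.nd (nat_lit 78) (nat_lit 760) (nat_lit 0) (XT.lf (nat_lit 0) (nat_lit 19320857746) (nat_lit 912) (nat_lit 5827171118) (nat_lit 76) (nat_lit 16669314545) (nat_lit 367) (nat_lit 5) (nat_lit 379) (nat_lit 5) (nat_lit 368) (nat_lit 5) (nat_lit 491) (nat_lit 465) (nat_lit 244)) (XT.lf (nat_lit 0) (nat_lit 27364776542) (nat_lit 836) (nat_lit 13286162111) (nat_lit 76) (nat_lit 1870532101) (nat_lit 357) (nat_lit 5) (nat_lit 368) (nat_lit 5) (nat_lit 358) (nat_lit 5) (nat_lit 492) (nat_lit 465) (nat_lit 243)))) (XT.nd (nat_lit 78) (nat_lit 1520) (nat_lit 0) (XT.lf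 (nat_lit 0) (nat_lit 22304849958) (nat_lit 760) (nat_lit 13695369839) (nat_lit 836) (nat_lit 7239498185) (nat_lit 347) (nat_lit 5) (nat_lit 357) (nat_lit 5) (nat_lit 358) (nat_lit 5) (nat_lit 493) (nat_lit 465) (nat_lit 242)) (XT.nd (nat_lit 78) (nat_lit 760) (nat_lit 0) (XT.lf (nat_lit 0) (nat_lit 1183712190) (nat_lit 760) (nat_lit 28708353853) (nat_lit 76) (nat_lit 14081717900) (nat_lit 337) (nat_lit 5) (nat_lit 347) (nat_lit 5) (nat_lit 338) (nat_lit 5) (nat_lit 494) (nat_lit 465) (nat_lit 241)) (XT.lf (nat_lit 0) (nat_lit 8073476560) (nat_lit 760) (nat_lit 1972710879) (nat_lit 836) (nat_lit 34677029068) (nat_lit 327) (nat_lit 5) (nat_lit 337) (nat_lit 5) (nat_lit 338) (nat_lit 5) (nat_lit 495) (nat_lit 465) (nat_lit 240))))) (XT.nd (nat_lit 234) (nat_lit 0) (nat_lit 152) (XT.nd (nat_lit 78) (nat_lit 0) (nat_lit 76) (XT.lf (nat_lit 0) (nat_lit 557011565) (nat_lit 1900) (nat_lit 6879715328) (nat_lit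 1900) (nat_lit 6879715328) (nat_lit 463) (nat_lit 3) (nat_lit 488) (nat_lit 3) (nat_lit 488) (nat_lit 5) (nat_lit 466) (nat_lit 466) (nat_lit 268)) (XT.nd (nat_lit 78) (nat_lit 0) (nat_lit 0) (XT.lf (nat_lit 0) (nat_lit 1340287484) (nat_lit 1824) (nat_lit 21544517082) (nat_lit 1900) (nat_lit 6173371138) (nat_lit 464) (nat_lit 5) (nat_lit 488) (nat_lit 5) (nat_lit 489) (nat_lit 5) (nat_lit 467) (nat_lit 466) (nat_lit 267)) (XT.lf (nat_lit 76) (nat_lit 16527574) (nat_lit 0) (nat_lit 1745560819) (nat_lit 1900) (nat_lit 27730362760) (nat_lit 465) (nat_lit 5) (nat_lit 464) (nat_lit 5) (nat_lit 489) (nat_lit 5) (nat_lit 468) (nat_lit 466) (nat_lit 266)))) (XT.nd (nat_lit 156) (nat_lit 0) (nat_lit 152) (XT.nd (nat_lit 78) (nat_lit 0) (nat_lit 76) (XT.lf (nat_lit 0) (nat_lit 2468990617) (nat_lit 1824) (nat_lit 7551118996) (nat_lit 1900) (nat_lit 19914196722) (nat_lit 465) (nat_lit 5) (nat_lit 489) (nat_lit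 5) (nat_lit 490) (nat_lit 5) (nat_lit 469) (nat_lit 466) (nat_lit 265)) (XT.lf (nat_lit 0) (nat_lit 3380508487) (nat_lit 1824) (nat_lit 15247836004) (nat_lit 1900) (nat_lit 11757404911) (nat_lit 466) (nat_lit 5) (nat_lit 490) (nat_lit 5) (nat_lit 491) (nat_lit 5) (nat_lit 470) (nat_lit 466) (nat_lit 264))) (XT.nd (nat_lit 78) (nat_lit 0) (nat_lit 0) (XT.lf (nat_lit 0) (nat_lit 4505686538) (nat_lit 1824) (nat_lit 23075368006) (nat_lit 1900) (nat_lit 3265955316) (nat_lit 467) (nat_lit 5) (nat_lit 491) (nat_lit 5) (nat_lit 492) (nat_lit 5) (nat_lit 471) (nat_lit 466) (nat_lit 263)) (XT.lf (nat_lit 76) (nat_lit 245713251) (nat_lit 0) (nat_lit 5644916232) (nat_lit 1900) (nat_lit 25426958835) (nat_lit 468) (nat_lit 5) (nat_lit 467) (nat_lit 5) (nat_lit 492) (nat_lit 5) (nat_lit 472) (nat_lit 466) (nat_lit 262))))))))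
noncomputable def xc122 : XT := (XT.nd (nat_lit 62244) (nat_lit 0) (nat_lit 760) (XT.nd (nat_lit 936) (nat_lit 6764) (nat_lit 0) (XT.nd (nat_lit 468) (nat_lit 2432) (nat_lit 0) (XT.nd (nat_lit 234) (nat_lit 0) (nat_lit 152) (XT.nd (nat_lit 78) (nat_lit 0) (nat_lit 76) (XT.lf (nat_lit 0) (nat_lit 7580512489) (nat_lit 1824) (nat_lit 7330627199) (nat_lit 1900) (nat_lit 16885876976) (nat_lit 468) (nat_lit 5) (nat_lit 492) (nat_lit 5) (nat_lit 493) (nat_lit 5) (nat_lit 473) (nat_lit 466) (nat_lit 261)) (XT.nd (nat_lit 78) (nat_lit 0) (nat_lit 0) (XT.lf (nat_lit 0) (nat_lit 9518206249) (nat_lit 1824) (nat_lit 15029292690) (nat_lit 1900) (nat_lit 7739386992) (nat_lit 469) (nat_lit 5) (nat_lit 493) (nat_lit 5) (nat_lit 494) (nat_lit 5) (nat_lit 474) (nat_lit 466) (nat_lit 260)) (XT.lf (nat_lit 76) (nat_lit 9920771246) (nat_lit 0) (nat_lit 1803561512) (nat_lit 1900) (nat_lit 21062912827) (nat_lit 470) (nat_lit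 5) (nat_lit 469) (nat_lit 5) (nat_lit 494) (nat_lit 5) (nat_lit 475) (nat_lit 466) (nat_lit 259)))) (XT.nd (nat_lit 78) (nat_lit 0) (nat_lit 76) (XT.lf (nat_lit 76) (nat_lit 2412376690) (nat_lit 0) (nat_lit 11839106501) (nat_lit 1900) (nat_lit 19046036371) (nat_lit 471) (nat_lit 5) (nat_lit 470) (nat_lit 5) (nat_lit 495) (nat_lit 5) (nat_lit 476) (nat_lit 466) (nat_lit 258)) (XT.nd (nat_lit 78) (nat_lit 0) (nat_lit 76) (XT.lf (nat_lit 0) (nat_lit 17093901659) (nat_lit 1824) (nat_lit 5148259948) (nat_lit 1900) (nat_lit 11576151408) (nat_lit 471) (nat_lit 5) (nat_lit 495) (nat_lit 5) (nat_lit 496) (nat_lit 5) (nat_lit 477) (nat_lit 466) (nat_lit 257)) (XT.lf (nat_lit 0) (nat_lit 20245832844) (nat_lit 1824) (nat_lit 12797312365) (nat_lit 1900) (nat_lit 1307100576) (nat_lit 472) (nat_lit 5) (nat_lit 496) (nat_lit 5) (nat_lit 497) (nat_lit 5) (nat_lit 478) (nat_lit 466) (nat_lit 256))))) (XT.nd (nat_lit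 234) (nat_lit 2736) (nat_lit 0) (XT.nd (nat_lit 78) (nat_lit 0) (nat_lit 76) (XT.lf (nat_lit 76) (nat_lit 14263620897) (nat_lit 0) (nat_lit 9501736322) (nat_lit 1900) (nat_lit 11127318923) (nat_lit 473) (nat_lit 5) (nat_lit 472) (nat_lit 5) (nat_lit 497) (nat_lit 5) (nat_lit 479) (nat_lit 466) (nat_lit 255)) (XT.nd (nat_lit 78) (nat_lit 0) (nat_lit 76) (XT.lf (nat_lit 76) (nat_lit 6852771999) (nat_lit 0) (nat_lit 20761874844) (nat_lit 1900) (nat_lit 7832249274) (nat_lit 474) (nat_lit 5) (nat_lit 473) (nat_lit 5) (nat_lit 498) (nat_lit 5) (nat_lit 480) (nat_lit 466) (nat_lit 254)) (XT.lf (nat_lit 0) (nat_lit 31802405494) (nat_lit 1824) (nat_lit 662705987) (nat_lit 1900) (nat_lit 3548171696) (nat_lit 474) (nat_lit 5) (nat_lit 498) (nat_lit 5) (nat_lit 499) (nat_lit 5) (nat_lit 481) (nat_lit 466) (nat_lit 253)))) (XT.nd (nat_lit 78) (nat_lit 2888) (nat_lit 0) (XT.lf (nat_lit 76) (nat_lit 28336809139)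 (nat_lit 0) (nat_lit 8098645805) (nat_lit 1900) (nat_lit 154814024) (nat_lit 475) (nat_lit 5) (nat_lit 474) (nat_lit 5) (nat_lit 499) (nat_lit 5) (nat_lit 482) (nat_lit 466) (nat_lit 252)) (XT.nd (nat_lit 78) (nat_lit 1064) (nat_lit 0) (XT.lf (nat_lit 0) (nat_lit 4221238341) (nat_lit 1900) (nat_lit 16011517789) (nat_lit 76) (nat_lit 16946264716) (nat_lit 450) (nat_lit 5) (nat_lit 475) (nat_lit 5) (nat_lit 451) (nat_lit 5) (nat_lit 483) (nat_lit 466) (nat_lit 251)) (XT.lf (nat_lit 0) (nat_lit 8956769686) (nat_lit 1140) (nat_lit 23889778865) (nat_lit 76) (nat_lit 4934260510) (nat_lit 436) (nat_lit 5) (nat_lit 451) (nat_lit 5) (nat_lit 437) (nat_lit 5) (nat_lit 484) (nat_lit 466) (nat_lit 250)))))) (XT.nd (nat_lit 468) (nat_lit 2356) (nat_lit 0) (XT.nd (nat_lit 234) (nat_lit 2584) (nat_lit 0) (XT.nd (nat_lit 78) (nat_lit 912) (nat_lit 0) (XT.lf (nat_lit 0) (nat_lit 6457324549) (nat_lit 912) (nat_lit 7660528406)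 (nat_lit 988) (nat_lit 24277128499) (nat_lit 424) (nat_lit 5) (nat_lit 436) (nat_lit 5) (nat_lit 437) (nat_lit 5) (nat_lit 485) (nat_lit 466) (nat_lit 249)) (XT.nd (nat_lit 78) (nat_lit 912) (nat_lit 0) (XT.lf (nat_lit 0) (nat_lit 19712526844) (nat_lit 988) (nat_lit 1104956715) (nat_lit 76) (nat_lit 18204520544) (nat_lit 424) (nat_lit 5) (nat_lit 437) (nat_lit 5) (nat_lit 425) (nat_lit 5) (nat_lit 486) (nat_lit 466) (nat_lit 248)) (XT.lf (nat_lit 0) (nat_lit 25759057520) (nat_lit 988) (nat_lit 8691611080) (nat_lit 76) (nat_lit 5211488738) (nat_lit 412) (nat_lit 5) (nat_lit 425) (nat_lit 5) (nat_lit 413) (nat_lit 5) (nat_lit 487) (nat_lit 466) (nat_lit 247)))) (XT.nd (nat_lit 78) (nat_lit 1748) (nat_lit 0) (XT.lf (nat_lit 0) (nat_lit 23873277092) (nat_lit 836) (nat_lit 8412719857) (nat_lit 912) (nat_lit 8029538196) (nat_lit 401) (nat_lit 5) (nat_lit 412) (nat_lit 5) (nat_lit 413) (nat_lit 5) (nat_lit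 488) (nat_lit 466) (nat_lit 246)) (XT.nd (nat_lit 78) (nat_lit 912) (nat_lit 0) (XT.lf (nat_lit 0) (nat_lit 16642475116) (nat_lit 836) (nat_lit 22650439335) (nat_lit 912) (nat_lit 1689916663) (nat_lit 390) (nat_lit 5) (nat_lit 401) (nat_lit 5) (nat_lit 402) (nat_lit 5) (nat_lit 489) (nat_lit 466) (nat_lit 245)) (XT.lf (nat_lit 0) (nat_lit 5030584670) (nat_lit 912) (nat_lit 32385033104) (nat_lit 76) (nat_lit 4248816580) (nat_lit 378) (nat_lit 5) (nat_lit 390) (nat_lit 5) (nat_lit 379) (nat_lit 5) (nat_lit 490) (nat_lit 466) (nat_lit 244))))) (XT.nd (nat_lit 234) (nat_lit 760) (nat_lit 0) (XT.nd (nat_lit 78) (nat_lit 760) (nat_lit 0) (XT.lf (nat_lit 0) (nat_lit 1733966830) (nat_lit 836) (nat_lit 10522093274) (nat_lit 912) (nat_lit 30103676022) (nat_lit 367) (nat_lit 5) (nat_lit 378) (nat_lit 5) (nat_lit 379) (nat_lit 5) (nat_lit 491) (nat_lit 466) (nat_lit 243)) (XT.nd (nat_lit 78) (nat_lit 760) (nat_lit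 0) (XT.lf (nat_lit 0) (nat_lit 20028220046) (nat_lit 912) (nat_lit 5867318895) (nat_lit 76) (nat_lit 17173759805) (nat_lit 367) (nat_lit 5) (nat_lit 379) (nat_lit 5) (nat_lit 368) (nat_lit 5) (nat_lit 492) (nat_lit 466) (nat_lit 242)) (XT.lf (nat_lit 0) (nat_lit 28310645473) (nat_lit 836) (nat_lit 13549806358) (nat_lit 76) (nat_lit 1934154596) (nat_lit 357) (nat_lit 5) (nat_lit 368) (nat_lit 5) (nat_lit 358) (nat_lit 5) (nat_lit 493) (nat_lit 466) (nat_lit 241)))) (XT.nd (nat_lit 60450) (nat_lit 0) (nat_lit 8892) (XT.nd (nat_lit 60372) (nat_lit 0) (nat_lit 8816) (XT.lf (nat_lit 0) (nat_lit 23106746822) (nat_lit 760) (nat_lit 14095628503) (nat_lit 836) (nat_lit 7332081570) (nat_lit 347) (nat_lit 5) (nat_lit 357) (nat_lit 5) (nat_lit 358) (nat_lit 5) (nat_lit 494) (nat_lit 466) (nat_lit 240)) (XT.lf (nat_lit 0) (nat_lit 692456582) (nat_lit 1900) (nat_lit 7025546695) (nat_lit 1900) (nat_lit 7025546695)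 (nat_lit 463) (nat_lit 3) (nat_lit 488) (nat_lit 3) (nat_lit 488) (nat_lit 5) (nat_lit 467) (nat_lit 467) (nat_lit 266))) (XT.nd (nat_lit 78) (nat_lit 0) (nat_lit 0) (XT.lf (nat_lit 0) (nat_lit 1611094210) (nat_lit 1824) (nat_lit 22066321605) (nat_lit 1900) (nat_lit 6247872182) (nat_lit 464) (nat_lit 5) (nat_lit 488) (nat_lit 5) (nat_lit 489) (nat_lit 5) (nat_lit 468) (nat_lit 467) (nat_lit 265)) (XT.lf (nat_lit 76) (nat_lit 139534024) (nat_lit 0) (nat_lit 1900094093) (nat_lit 1900) (nat_lit 28333082626) (nat_lit 465) (nat_lit 5) (nat_lit 464) (nat_lit 5) (nat_lit 489) (nat_lit 5) (nat_lit 469) (nat_lit 467) (nat_lit 264))))))) (XT.nd (nat_lit 936) (nat_lit 8208) (nat_lit 0) (XT.nd (nat_lit 468) (nat_lit 0) (nat_lit 304) (XT.nd (nat_lit 234) (nat_lit 0) (nat_lit 152) (XT.nd (nat_lit 78) (nat_lit 0) (nat_lit 76) (XT.lf (nat_lit 0) (nat_lit 2760549404) (nat_lit 1824) (nat_lit 7653683731) (nat_lit 1900)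 (nat_lit 20413732800) (nat_lit 465) (nat_lit 5) (nat_lit 489) (nat_lit 5) (nat_lit 490) (nat_lit 5) (nat_lit 470) (nat_lit 467) (nat_lit 263)) (XT.nd (nat_lit 78) (nat_lit 0) (nat_lit 76) (XT.lf (nat_lit 0) (nat_lit 3693285740) (nat_lit 1824) (nat_lit 15578471073) (nat_lit 1900) (nat_lit 12021318600) (nat_lit 466) (nat_lit 5) (nat_lit 490) (nat_lit 5) (nat_lit 491) (nat_lit 5) (nat_lit 471) (nat_lit 467) (nat_lit 262)) (XT.lf (nat_lit 0) (nat_lit 4846345193) (nat_lit 1824) (nat_lit 23638219550) (nat_lit 1900) (nat_lit 3283726979) (nat_lit 467) (nat_lit 5) (nat_lit 491) (nat_lit 5) (nat_lit 492) (nat_lit 5) (nat_lit 472) (nat_lit 467) (nat_lit 261)))) (XT.nd (nat_lit 78) (nat_lit 0) (nat_lit 76) (XT.lf (nat_lit 76) (nat_lit 380394630) (nat_lit 0) (nat_lit 5887283289) (nat_lit 1900) (nat_lit 25985413330) (nat_lit 468) (nat_lit 5) (nat_lit 467) (nat_lit 5) (nat_lit 492) (nat_lit 5) (nat_lit 473) (nat_lit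 467) (nat_lit 260)) (XT.nd (nat_lit 78) (nat_lit 0) (nat_lit 76) (XT.lf (nat_lit 0) (nat_lit 8001962290) (nat_lit 1824) (nat_lit 7422576313) (nat_lit 1900) (nat_lit 17322490272) (nat_lit 468) (nat_lit 5) (nat_lit 492) (nat_lit 5) (nat_lit 493) (nat_lit 5) (nat_lit 474) (nat_lit 467) (nat_lit 259)) (XT.lf (nat_lit 0) (nat_lit 9992541730) (nat_lit 1824) (nat_lit 15350065802) (nat_lit 1900) (nat_lit 7909092104) (nat_lit 469) (nat_lit 5) (nat_lit 493) (nat_lit 5) (nat_lit 494) (nat_lit 5) (nat_lit 475) (nat_lit 467) (nat_lit 258))))) (XT.nd (nat_lit 234) (nat_lit 0) (nat_lit 228) (XT.nd (nat_lit 78) (nat_lit 0) (nat_lit 76) (XT.lf (nat_lit 76) (nat_lit 10346389243) (nat_lit 0) (nat_lit 1913795101) (nat_lit 1900) (nat_lit 21506979586) (nat_lit 470) (nat_lit 5) (nat_lit 469) (nat_lit 5) (nat_lit 494) (nat_lit 5) (nat_lit 476) (nat_lit 467) (nat_lit 257)) (XT.nd (nat_lit 78) (nat_lit 0) (nat_lit 76) (XT.lf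 (nat_lit 76) (nat_lit 2614663795) (nat_lit 0) (nat_lit 12243612431) (nat_lit 1900) (nat_lit 19434567844) (nat_lit 471) (nat_lit 5) (nat_lit 470) (nat_lit 5) (nat_lit 495) (nat_lit 5) (nat_lit 477) (nat_lit 467) (nat_lit 256)) (XT.lf (nat_lit 0) (nat_lit 17780435445) (nat_lit 1824) (nat_lit 5172768733) (nat_lit 1900) (nat_lit 11876168254) (nat_lit 471) (nat_lit 5) (nat_lit 495) (nat_lit 5) (nat_lit 496) (nat_lit 5) (nat_lit 478) (nat_lit 467) (nat_lit 255)))) (XT.nd (nat_lit 78) (nat_lit 0) (nat_lit 0) (XT.lf (nat_lit 0) (nat_lit 21022424359) (nat_lit 1824) (nat_lit 13049725448) (nat_lit 1900) (nat_lit 1305203838) (nat_lit 472) (nat_lit 5) (nat_lit 496) (nat_lit 5) (nat_lit 497) (nat_lit 5) (nat_lit 479) (nat_lit 467) (nat_lit 254)) (XT.nd (nat_lit 78) (nat_lit 0) (nat_lit 76) (XT.lf (nat_lit 76) (nat_lit 14820902278) (nat_lit 0) (nat_lit 9822543524) (nat_lit 1900) (nat_lit 11292693326) (nat_lit 473)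 (nat_lit 5) (nat_lit 472) (nat_lit 5) (nat_lit 497) (nat_lit 5) (nat_lit 480) (nat_lit 467) (nat_lit 253)) (XT.lf (nat_lit 76) (nat_lit 7189120852) (nat_lit 0) (nat_lit 21414907347) (nat_lit 1900) (nat_lit 7903041652) (nat_lit 474) (nat_lit 5) (nat_lit 473) (nat_lit 5) (nat_lit 498) (nat_lit 5) (nat_lit 481) (nat_lit 467) (nat_lit 252)))))) (XT.nd (nat_lit 468) (nat_lit 5092) (nat_lit 0) (XT.nd (nat_lit 234) (nat_lit 1976) (nat_lit 0) (XT.nd (nat_lit 78) (nat_lit 1824) (nat_lit 0) (XT.lf (nat_lit 0) (nat_lit 32912541763) (nat_lit 1824) (nat_lit 552300984) (nat_lit 1900) (nat_lit 3625703749) (nat_lit 474) (nat_lit 5) (nat_lit 498) (nat_lit 5) (nat_lit 499) (nat_lit 5) (nat_lit 482) (nat_lit 467) (nat_lit 251)) (XT.nd (nat_lit 78) (nat_lit 1824) (nat_lit 0) (XT.lf (nat_lit 76) (nat_lit 29315085857) (nat_lit 0) (nat_lit 8365783464) (nat_lit 1900) (nat_lit 4047213) (nat_lit 475) (nat_lit 5) (nat_lit 474)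 (nat_lit 5) (nat_lit 499) (nat_lit 5) (nat_lit 483) (nat_lit 467) (nat_lit 250)) (XT.lf (nat_lit 0) (nat_lit 4497472672) (nat_lit 1900) (nat_lit 16360604132) (nat_lit 76) (nat_lit 17433309884) (nat_lit 450) (nat_lit 5) (nat_lit 475) (nat_lit 5) (nat_lit 451) (nat_lit 5) (nat_lit 484) (nat_lit 467) (nat_lit 249)))) (XT.nd (nat_lit 78) (nat_lit 912) (nat_lit 0) (XT.lf (nat_lit 0) (nat_lit 9371441111) (nat_lit 1140) (nat_lit 24474298489) (nat_lit 76) (nat_lit 5065561900) (nat_lit 436) (nat_lit 5) (nat_lit 451) (nat_lit 5) (nat_lit 437) (nat_lit 5) (nat_lit 485) (nat_lit 467) (nat_lit 248)) (XT.nd (nat_lit 78) (nat_lit 0) (nat_lit 0) (XT.lf (nat_lit 0) (nat_lit 6781073665) (nat_lit 912) (nat_lit 7902875945) (nat_lit 988) (nat_lit 24860017964) (nat_lit 424) (nat_lit 5) (nat_lit 436) (nat_lit 5) (nat_lit 437) (nat_lit 5) (nat_lit 486) (nat_lit 467) (nat_lit 247)) (XT.lf (nat_lit 0) (nat_lit 20442232458)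 (nat_lit 988) (nat_lit 1009004380) (nat_lit 76) (nat_lit 18738649042) (nat_lit 424) (nat_lit 5) (nat_lit 437) (nat_lit 5) (nat_lit 425) (nat_lit 5) (nat_lit 487) (nat_lit 467) (nat_lit 246))))) (XT.nd (nat_lit 234) (nat_lit 2508) (nat_lit 0) (XT.nd (nat_lit 78) (nat_lit 1672) (nat_lit 0) (XT.lf (nat_lit 0) (nat_lit 26666901928) (nat_lit 988) (nat_lit 8822586258) (nat_lit 76) (nat_lit 5359821011) (nat_lit 412) (nat_lit 5) (nat_lit 425) (nat_lit 5) (nat_lit 413) (nat_lit 5) (nat_lit 488) (nat_lit 467) (nat_lit 245)) (XT.nd (nat_lit 78) (nat_lit 836) (nat_lit 0) (XT.lf (nat_lit 0) (nat_lit 24717143144) (nat_lit 836) (nat_lit 8669401144) (nat_lit 912) (nat_lit 8135806488) (nat_lit 401) (nat_lit 5) (nat_lit 412) (nat_lit 5) (nat_lit 413) (nat_lit 5) (nat_lit 489) (nat_lit 467) (nat_lit 244)) (XT.lf (nat_lit 0) (nat_lit 17269980739) (nat_lit 836) (nat_lit 23330650323) (nat_lit 912) (nat_lit 1609095648) (nat_lit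 390) (nat_lit 5) (nat_lit 401) (nat_lit 5) (nat_lit 402) (nat_lit 5) (nat_lit 490) (nat_lit 467) (nat_lit 243)))) (XT.nd (nat_lit 156) (nat_lit 760) (nat_lit 0) (XT.nd (nat_lit 78) (nat_lit 836) (nat_lit 0) (XT.lf (nat_lit 0) (nat_lit 5308352169) (nat_lit 912) (nat_lit 33226185340) (nat_lit 76) (nat_lit 4377282642) (nat_lit 378) (nat_lit 5) (nat_lit 390) (nat_lit 5) (nat_lit 379) (nat_lit 5) (nat_lit 491) (nat_lit 467) (nat_lit 242)) (XT.lf (nat_lit 0) (nat_lit 1914269027) (nat_lit 836) (nat_lit 10833461079) (nat_lit 912) (nat_lit 30880308402) (nat_lit 367) (nat_lit 5) (nat_lit 378) (nat_lit 5) (nat_lit 379) (nat_lit 5) (nat_lit 492) (nat_lit 467) (nat_lit 241))) (XT.nd (nat_lit 78) (nat_lit 760) (nat_lit 0) (XT.lf (nat_lit 0) (nat_lit 20749470614) (nat_lit 912) (nat_lit 5916401561) (nat_lit 76) (nat_lit 17693087806) (nat_lit 367) (nat_lit 5) (nat_lit 379) (nat_lit 5) (nat_lit 368) (nat_lit 5) (nat_lit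 493) (nat_lit 467) (nat_lit 240)) (XT.lf (nat_lit 0) (nat_lit 29277719230) (nat_lit 836) (nat_lit 13829106076) (nat_lit 76) (nat_lit 1999254860) (nat_lit 357) (nat_lit 5) (nat_lit 368) (nat_lit 5) (nat_lit 358) (nat_lit 5) (nat_lit 494) (nat_lit 467) (nat_lit 239))))))))
noncomputable def xc123 : XT := (XT.nd (nat_lit 1950) (nat_lit 836) (nat_lit 0) (XT.nd (nat_lit 936) (nat_lit 6460) (nat_lit 0) (XT.nd (nat_lit 468) (nat_lit 0) (nat_lit 304) (XT.nd (nat_lit 234) (nat_lit 0) (nat_lit 152) (XT.nd (nat_lit 78) (nat_lit 0) (nat_lit 76) (XT.lf (nat_lit 0) (nat_lit 825149094) (nat_lit 1900) (nat_lit 7179229399) (nat_lit 1900) (nat_lit 7179229399) (nat_lit 463) (nat_lit 3) (nat_lit 488) (nat_lit 3) (nat_lit 488) (nat_lit 5) (nat_lit 468) (nat_lit 468) (nat_lit 264)) (XT.nd (nat_lit 78) (nat_lit 0) (nat_lit 0) (XT.lf (nat_lit 0) (nat_lit 1876787863) (nat_lit 1824) (nat_lit 22610928852) (nat_lit 1900) (nat_lit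 6330962895) (nat_lit 464) (nat_lit 5) (nat_lit 488) (nat_lit 5) (nat_lit 489) (nat_lit 5) (nat_lit 469) (nat_lit 468) (nat_lit 263)) (XT.lf (nat_lit 76) (nat_lit 259198055) (nat_lit 0) (nat_lit 2053398594) (nat_lit 1900) (nat_lit 28967040589) (nat_lit 465) (nat_lit 5) (nat_lit 464) (nat_lit 5) (nat_lit 489) (nat_lit 5) (nat_lit 470) (nat_lit 468) (nat_lit 262)))) (XT.nd (nat_lit 78) (nat_lit 0) (nat_lit 76) (XT.lf (nat_lit 0) (nat_lit 3048370191) (nat_lit 1824) (nat_lit 7766441726) (nat_lit 1900) (nat_lit 20933874236) (nat_lit 465) (nat_lit 5) (nat_lit 489) (nat_lit 5) (nat_lit 490) (nat_lit 5) (nat_lit 471) (nat_lit 468) (nat_lit 261)) (XT.nd (nat_lit 78) (nat_lit 0) (nat_lit 76) (XT.lf (nat_lit 0) (nat_lit 4003313267) (nat_lit 1824) (nat_lit 15926304033) (nat_lit 1900) (nat_lit 12298247667) (nat_lit 466) (nat_lit 5) (nat_lit 490) (nat_lit 5) (nat_lit 491) (nat_lit 5) (nat_lit 472) (nat_lit 468) (nat_lit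 260)) (XT.lf (nat_lit 0) (nat_lit 5185427753) (nat_lit 1824) (nat_lit 24225385274) (nat_lit 1900) (nat_lit 3306636003) (nat_lit 467) (nat_lit 5) (nat_lit 491) (nat_lit 5) (nat_lit 492) (nat_lit 5) (nat_lit 473) (nat_lit 468) (nat_lit 259))))) (XT.nd (nat_lit 234) (nat_lit 0) (nat_lit 152) (XT.nd (nat_lit 78) (nat_lit 0) (nat_lit 76) (XT.lf (nat_lit 76) (nat_lit 511808337) (nat_lit 0) (nat_lit 6132729735) (nat_lit 1900) (nat_lit 26572352231) (nat_lit 468) (nat_lit 5) (nat_lit 467) (nat_lit 5) (nat_lit 492) (nat_lit 5) (nat_lit 474) (nat_lit 468) (nat_lit 258)) (XT.nd (nat_lit 78) (nat_lit 0) (nat_lit 76) (XT.lf (nat_lit 0) (nat_lit 8424917215) (nat_lit 1824) (nat_lit 7524629885) (nat_lit 1900) (nat_lit 17776218129) (nat_lit 468) (nat_lit 5) (nat_lit 492) (nat_lit 5) (nat_lit 493) (nat_lit 5) (nat_lit 475) (nat_lit 468) (nat_lit 257)) (XT.lf (nat_lit 0) (nat_lit 10470269997) (nat_lit 1824) (nat_lit 15687930704)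 (nat_lit 1900) (nat_lit 8087474776) (nat_lit 469) (nat_lit 5) (nat_lit 493) (nat_lit 5) (nat_lit 494) (nat_lit 5) (nat_lit 476) (nat_lit 468) (nat_lit 256)))) (XT.nd (nat_lit 78) (nat_lit 0) (nat_lit 76) (XT.lf (nat_lit 76) (nat_lit 10777428351) (nat_lit 0) (nat_lit 2024113794) (nat_lit 1900) (nat_lit 21975150020) (nat_lit 470) (nat_lit 5) (nat_lit 469) (nat_lit 5) (nat_lit 494) (nat_lit 5) (nat_lit 477) (nat_lit 468) (nat_lit 255)) (XT.nd (nat_lit 78) (nat_lit 0) (nat_lit 76) (XT.lf (nat_lit 76) (nat_lit 2815561815) (nat_lit 0) (nat_lit 12657421639) (nat_lit 1900) (nat_lit 19845251578) (nat_lit 471) (nat_lit 5) (nat_lit 470) (nat_lit 5) (nat_lit 495) (nat_lit 5) (nat_lit 478) (nat_lit 468) (nat_lit 254)) (XT.lf (nat_lit 0) (nat_lit 18477593194) (nat_lit 1824) (nat_lit 5205471813) (nat_lit 1900) (nat_lit 12187898964) (nat_lit 471) (nat_lit 5) (nat_lit 495) (nat_lit 5) (nat_lit 496) (nat_lit 5) (nat_lit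 479) (nat_lit 468) (nat_lit 253)))))) (XT.nd (nat_lit 468) (nat_lit 5396) (nat_lit 0) (XT.nd (nat_lit 234) (nat_lit 1748) (nat_lit 0) (XT.nd (nat_lit 78) (nat_lit 0) (nat_lit 0) (XT.lf (nat_lit 0) (nat_lit 21812599899) (nat_lit 1824) (nat_lit 13317259923) (nat_lit 1900) (nat_lit 1305610066) (nat_lit 472) (nat_lit 5) (nat_lit 496) (nat_lit 5) (nat_lit 497) (nat_lit 5) (nat_lit 480) (nat_lit 468) (nat_lit 252)) (XT.nd (nat_lit 78) (nat_lit 0) (nat_lit 76) (XT.lf (nat_lit 76) (nat_lit 15387475576) (nat_lit 0) (nat_lit 10150922452) (nat_lit 1900) (nat_lit 11472698403) (nat_lit 473) (nat_lit 5) (nat_lit 472) (nat_lit 5) (nat_lit 497) (nat_lit 5) (nat_lit 481) (nat_lit 468) (nat_lit 251)) (XT.lf (nat_lit 76) (nat_lit 7528053685) (nat_lit 0) (nat_lit 22085798585) (nat_lit 1900) (nat_lit 7985382123) (nat_lit 474) (nat_lit 5) (nat_lit 473) (nat_lit 5) (nat_lit 498) (nat_lit 5) (nat_lit 482) (nat_lit 468) (nat_lit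 250)))) (XT.nd (nat_lit 78) (nat_lit 1900) (nat_lit 0) (XT.lf (nat_lit 0) (nat_lit 34047023401) (nat_lit 1824) (nat_lit 446062792) (nat_lit 1900) (nat_lit 3707221494) (nat_lit 474) (nat_lit 5) (nat_lit 498) (nat_lit 5) (nat_lit 499) (nat_lit 5) (nat_lit 483) (nat_lit 468) (nat_lit 249)) (XT.nd (nat_lit 78) (nat_lit 0) (nat_lit 76) (XT.lf (nat_lit 0) (nat_lit 140454790) (nat_lit 1900) (nat_lit 8498150003) (nat_lit 1976) (nat_lit 30173955937) (nat_lit 449) (nat_lit 5) (nat_lit 474) (nat_lit 5) (nat_lit 475) (nat_lit 5) (nat_lit 484) (nat_lit 468) (nat_lit 248)) (XT.lf (nat_lit 0) (nat_lit 4773406543) (nat_lit 1900) (nat_lit 16727697880) (nat_lit 76) (nat_lit 17936191570) (nat_lit 450) (nat_lit 5) (nat_lit 475) (nat_lit 5) (nat_lit 451) (nat_lit 5) (nat_lit 485) (nat_lit 468) (nat_lit 247))))) (XT.nd (nat_lit 234) (nat_lit 3496) (nat_lit 0) (XT.nd (nat_lit 78) (nat_lit 912) (nat_lit 0) (XT.lf (nat_lit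 0) (nat_lit 9790173499) (nat_lit 1140) (nat_lit 25083941015) (nat_lit 76) (nat_lit 5201762498) (nat_lit 436) (nat_lit 5) (nat_lit 451) (nat_lit 5) (nat_lit 437) (nat_lit 5) (nat_lit 486) (nat_lit 468) (nat_lit 246)) (XT.nd (nat_lit 78) (nat_lit 0) (nat_lit 0) (XT.lf (nat_lit 0) (nat_lit 7107071036) (nat_lit 912) (nat_lit 8151774540) (nat_lit 988) (nat_lit 25468742068) (nat_lit 424) (nat_lit 5) (nat_lit 436) (nat_lit 5) (nat_lit 437) (nat_lit 5) (nat_lit 487) (nat_lit 468) (nat_lit 245)) (XT.lf (nat_lit 0) (nat_lit 21185888543) (nat_lit 988) (nat_lit 917584402) (nat_lit 76) (nat_lit 19289490653) (nat_lit 424) (nat_lit 5) (nat_lit 437) (nat_lit 5) (nat_lit 425) (nat_lit 5) (nat_lit 488) (nat_lit 468) (nat_lit 244)))) (XT.nd (nat_lit 156) (nat_lit 1748) (nat_lit 0) (XT.nd (nat_lit 78) (nat_lit 836) (nat_lit 0) (XT.lf (nat_lit 0) (nat_lit 27594227944) (nat_lit 988) (nat_lit 8964940201) (nat_lit 76) (nat_lit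 5513063196) (nat_lit 412) (nat_lit 5) (nat_lit 425) (nat_lit 5) (nat_lit 413) (nat_lit 5) (nat_lit 489) (nat_lit 468) (nat_lit 243)) (XT.lf (nat_lit 0) (nat_lit 25578996527) (nat_lit 836) (nat_lit 8933536049) (nat_lit 912) (nat_lit 8252990444) (nat_lit 401) (nat_lit 5) (nat_lit 412) (nat_lit 5) (nat_lit 413) (nat_lit 5) (nat_lit 490) (nat_lit 468) (nat_lit 242))) (XT.nd (nat_lit 78) (nat_lit 912) (nat_lit 0) (XT.lf (nat_lit 0) (nat_lit 17908950526) (nat_lit 836) (nat_lit 24031227584) (nat_lit 912) (nat_lit 1533399703) (nat_lit 390) (nat_lit 5) (nat_lit 401) (nat_lit 5) (nat_lit 402) (nat_lit 5) (nat_lit 491) (nat_lit 468) (nat_lit 241)) (XT.lf (nat_lit 0) (nat_lit 5587170986) (nat_lit 912) (nat_lit 34100057565) (nat_lit 76) (nat_lit 4509545191) (nat_lit 378) (nat_lit 5) (nat_lit 390) (nat_lit 5) (nat_lit 379) (nat_lit 5) (nat_lit 492) (nat_lit 468) (nat_lit 240))))))) (XT.nd (nat_lit 61464) (nat_lit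 0) (nat_lit 1748) (XT.nd (nat_lit 60918) (nat_lit 0) (nat_lit 7524) (XT.nd (nat_lit 60684) (nat_lit 0) (nat_lit 7372) (XT.nd (nat_lit 78) (nat_lit 0) (nat_lit 0) (XT.lf (nat_lit 0) (nat_lit 2092616310) (nat_lit 836) (nat_lit 11154416469) (nat_lit 912) (nat_lit 31687500103) (nat_lit 367) (nat_lit 5) (nat_lit 378) (nat_lit 5) (nat_lit 379) (nat_lit 5) (nat_lit 493) (nat_lit 468) (nat_lit 239)) (XT.nd (nat_lit 60528) (nat_lit 0) (nat_lit 7296) (XT.lf (nat_lit 0) (nat_lit 21485447018) (nat_lit 912) (nat_lit 5974243405) (nat_lit 76) (nat_lit 18227759418) (nat_lit 367) (nat_lit 5) (nat_lit 379) (nat_lit 5) (nat_lit 368) (nat_lit 5) (nat_lit 494) (nat_lit 468) (nat_lit 238)) (XT.lf (nat_lit 0) (nat_lit 955397783) (nat_lit 1900) (nat_lit 7340799423) (nat_lit 1900) (nat_lit 7340799423) (nat_lit 463) (nat_lit 3) (nat_lit 488) (nat_lit 3) (nat_lit 488) (nat_lit 5) (nat_lit 469) (nat_lit 469) (nat_lit 262))))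 (XT.nd (nat_lit 78) (nat_lit 0) (nat_lit 0) (XT.lf (nat_lit 0) (nat_lit 2137974926) (nat_lit 1824) (nat_lit 23178612546) (nat_lit 1900) (nat_lit 6422536186) (nat_lit 464) (nat_lit 5) (nat_lit 488) (nat_lit 5) (nat_lit 489) (nat_lit 5) (nat_lit 470) (nat_lit 469) (nat_lit 261)) (XT.nd (nat_lit 78) (nat_lit 0) (nat_lit 76) (XT.lf (nat_lit 76) (nat_lit 375823098) (nat_lit 0) (nat_lit 2205774120) (nat_lit 1900) (nat_lit 29632418556) (nat_lit 465) (nat_lit 5) (nat_lit 464) (nat_lit 5) (nat_lit 489) (nat_lit 5) (nat_lit 471) (nat_lit 469) (nat_lit 260)) (XT.lf (nat_lit 0) (nat_lit 3333057517) (nat_lit 1824) (nat_lit 7889290274) (nat_lit 1900) (nat_lit 21474916622) (nat_lit 465) (nat_lit 5) (nat_lit 489) (nat_lit 5) (nat_lit 490) (nat_lit 5) (nat_lit 472) (nat_lit 469) (nat_lit 259))))) (XT.nd (nat_lit 234) (nat_lit 0) (nat_lit 152) (XT.nd (nat_lit 78) (nat_lit 0) (nat_lit 76) (XT.lf (nat_lit 0) (nat_lit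 4311205063) (nat_lit 1824) (nat_lit 16291432986) (nat_lit 1900) (nat_lit 12588289932) (nat_lit 466) (nat_lit 5) (nat_lit 490) (nat_lit 5) (nat_lit 491) (nat_lit 5) (nat_lit 473) (nat_lit 469) (nat_lit 258)) (XT.nd (nat_lit 78) (nat_lit 0) (nat_lit 0) (XT.lf (nat_lit 0) (nat_lit 5523564064) (nat_lit 1824) (nat_lit 24837168170) (nat_lit 1900) (nat_lit 3334572206) (nat_lit 467) (nat_lit 5) (nat_lit 491) (nat_lit 5) (nat_lit 492) (nat_lit 5) (nat_lit 474) (nat_lit 469) (nat_lit 257)) (XT.lf (nat_lit 76) (nat_lit 640275856) (nat_lit 0) (nat_lit 6381588568) (nat_lit 1900) (nat_lit 27187956675) (nat_lit 468) (nat_lit 5) (nat_lit 467) (nat_lit 5) (nat_lit 492) (nat_lit 5) (nat_lit 475) (nat_lit 469) (nat_lit 256)))) (XT.nd (nat_lit 156) (nat_lit 0) (nat_lit 76) (XT.nd (nat_lit 78) (nat_lit 0) (nat_lit 76) (XT.lf (nat_lit 0) (nat_lit 8850061806) (nat_lit 1824) (nat_lit 7636669360) (nat_lit 1900) (nat_lit 18247343441)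 (nat_lit 468) (nat_lit 5) (nat_lit 492) (nat_lit 5) (nat_lit 493) (nat_lit 5) (nat_lit 476) (nat_lit 469) (nat_lit 255)) (XT.lf (nat_lit 0) (nat_lit 10952114939) (nat_lit 1824) (nat_lit 16042971424) (nat_lit 1900) (nat_lit 8274589460) (nat_lit 469) (nat_lit 5) (nat_lit 493) (nat_lit 5) (nat_lit 494) (nat_lit 5) (nat_lit 477) (nat_lit 469) (nat_lit 254))) (XT.nd (nat_lit 78) (nat_lit 0) (nat_lit 76) (XT.lf (nat_lit 76) (nat_lit 11214472976) (nat_lit 0) (nat_lit 2134705093) (nat_lit 1900) (nat_lit 22467528327) (nat_lit 470) (nat_lit 5) (nat_lit 469) (nat_lit 5) (nat_lit 494) (nat_lit 5) (nat_lit 478) (nat_lit 469) (nat_lit 253)) (XT.lf (nat_lit 76) (nat_lit 3015457179) (nat_lit 0) (nat_lit 13080975784) (nat_lit 1900) (nat_lit 20278149609) (nat_lit 471) (nat_lit 5) (nat_lit 470) (nat_lit 5) (nat_lit 495) (nat_lit 5) (nat_lit 479) (nat_lit 469) (nat_lit 252)))))) (XT.nd (nat_lit 468) (nat_lit 4484) (nat_lit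 0) (XT.nd (nat_lit 234) (nat_lit 1672) (nat_lit 0) (XT.nd (nat_lit 78) (nat_lit 0) (nat_lit 76) (XT.lf (nat_lit 0) (nat_lit 19186266060) (nat_lit 1824) (nat_lit 5246186838) (nat_lit 1900) (nat_lit 12511539197) (nat_lit 471) (nat_lit 5) (nat_lit 495) (nat_lit 5) (nat_lit 496) (nat_lit 5) (nat_lit 480) (nat_lit 469) (nat_lit 251)) (XT.nd (nat_lit 78) (nat_lit 0) (nat_lit 0) (XT.lf (nat_lit 0) (nat_lit 22617324591) (nat_lit 1824) (nat_lit 13599936087) (nat_lit 1900) (nat_lit 1308252883) (nat_lit 472) (nat_lit 5) (nat_lit 496) (nat_lit 5) (nat_lit 497) (nat_lit 5) (nat_lit 481) (nat_lit 469) (nat_lit 250)) (XT.lf (nat_lit 76) (nat_lit 15964045860) (nat_lit 0) (nat_lit 10487218080) (nat_lit 1900) (nat_lit 11667218008) (nat_lit 473) (nat_lit 5) (nat_lit 472) (nat_lit 5) (nat_lit 497) (nat_lit 5) (nat_lit 482) (nat_lit 469) (nat_lit 249)))) (XT.nd (nat_lit 78) (nat_lit 1824) (nat_lit 0) (XT.lf (nat_lit 76)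 (nat_lit 7870078920) (nat_lit 0) (nat_lit 22775183756) (nat_lit 1900) (nat_lit 8079076137) (nat_lit 474) (nat_lit 5) (nat_lit 473) (nat_lit 5) (nat_lit 498) (nat_lit 5) (nat_lit 483) (nat_lit 469) (nat_lit 248)) (XT.nd (nat_lit 78) (nat_lit 1900) (nat_lit 0) (XT.lf (nat_lit 0) (nat_lit 35207095038) (nat_lit 1824) (nat_lit 343687091) (nat_lit 1900) (nat_lit 3792749226) (nat_lit 474) (nat_lit 5) (nat_lit 498) (nat_lit 5) (nat_lit 499) (nat_lit 5) (nat_lit 484) (nat_lit 469) (nat_lit 247)) (XT.lf (nat_lit 0) (nat_lit 280938344) (nat_lit 1900) (nat_lit 8637392242) (nat_lit 1976) (nat_lit 31055869817) (nat_lit 449) (nat_lit 5) (nat_lit 474) (nat_lit 5) (nat_lit 475) (nat_lit 5) (nat_lit 485) (nat_lit 469) (nat_lit 246))))) (XT.nd (nat_lit 234) (nat_lit 2584) (nat_lit 0) (XT.nd (nat_lit 78) (nat_lit 1976) (nat_lit 0) (XT.lf (nat_lit 0) (nat_lit 5049523896) (nat_lit 1900) (nat_lit 17112906726) (nat_lit 76)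 (nat_lit 18455314540) (nat_lit 450) (nat_lit 5) (nat_lit 475) (nat_lit 5) (nat_lit 451) (nat_lit 5) (nat_lit 486) (nat_lit 469) (nat_lit 245)) (XT.nd (nat_lit 78) (nat_lit 912) (nat_lit 0) (XT.lf (nat_lit 0) (nat_lit 10213569678) (nat_lit 1140) (nat_lit 25719024588) (nat_lit 76) (nat_lit 5342954161) (nat_lit 436) (nat_lit 5) (nat_lit 451) (nat_lit 5) (nat_lit 437) (nat_lit 5) (nat_lit 487) (nat_lit 469) (nat_lit 244)) (XT.lf (nat_lit 0) (nat_lit 7435812587) (nat_lit 912) (nat_lit 8407462018) (nat_lit 988) (nat_lit 26103596642) (nat_lit 424) (nat_lit 5) (nat_lit 436) (nat_lit 5) (nat_lit 437) (nat_lit 5) (nat_lit 488) (nat_lit 469) (nat_lit 243)))) (XT.nd (nat_lit 156) (nat_lit 1672) (nat_lit 0) (XT.nd (nat_lit 78) (nat_lit 912) (nat_lit 0) (XT.lf (nat_lit 0) (nat_lit 21944369442) (nat_lit 988) (nat_lit 830407335) (nat_lit 76) (nat_lit 19857507204) (nat_lit 424) (nat_lit 5) (nat_lit 437) (nat_lit 5)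 (nat_lit 425) (nat_lit 5) (nat_lit 489) (nat_lit 469) (nat_lit 242)) (XT.lf (nat_lit 0) (nat_lit 28542065110) (nat_lit 988) (nat_lit 9118586640) (nat_lit 76) (nat_lit 5671336188) (nat_lit 412) (nat_lit 5) (nat_lit 425) (nat_lit 5) (nat_lit 413) (nat_lit 5) (nat_lit 490) (nat_lit 469) (nat_lit 241))) (XT.nd (nat_lit 78) (nat_lit 836) (nat_lit 0) (XT.lf (nat_lit 0) (nat_lit 26459797556) (nat_lit 836) (nat_lit 9205362350) (nat_lit 912) (nat_lit 8380973937) (nat_lit 401) (nat_lit 5) (nat_lit 412) (nat_lit 5) (nat_lit 413) (nat_lit 5) (nat_lit 491) (nat_lit 469) (nat_lit 240)) (XT.lf (nat_lit 0) (nat_lit 18560150953) (nat_lit 836) (nat_lit 24752784406) (nat_lit 912) (nat_lit 1462549197) (nat_lit 390) (nat_lit 5) (nat_lit 401) (nat_lit 5) (nat_lit 402) (nat_lit 5) (nat_lit 492) (nat_lit 469) (nat_lit 239))))))))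
noncomputable def xc124 : XT := (XT.nd (nat_lit 123240) (nat_lit 0) (nat_lit 1748) (XT.nd (nat_lit 61542) (nat_lit 0) (nat_lit 912) (XT.nd (nat_lit 61074) (nat_lit 0) (nat_lit 6764) (XT.nd (nat_lit 60840) (nat_lit 0) (nat_lit 6536) (XT.nd (nat_lit 60684) (nat_lit 0) (nat_lit 6460) (XT.lf (nat_lit 0) (nat_lit 5867490661) (nat_lit 912) (nat_lit 35007201685) (nat_lit 76) (nat_lit 4645721424) (nat_lit 378) (nat_lit 5) (nat_lit 390) (nat_lit 5) (nat_lit 379) (nat_lit 5) (nat_lit 493) (nat_lit 469) (nat_lit 238)) (XT.nd (nat_lit 78) (nat_lit 0) (nat_lit 76) (XT.lf (nat_lit 0) (nat_lit 1083498133) (nat_lit 1900) (nat_lit 7510305281) (nat_lit 1900) (nat_lit 7510305281) (nat_lit 463) (nat_lit 3) (nat_lit 488) (nat_lit 3) (nat_lit 488) (nat_lit 5) (nat_lit 470) (nat_lit 470) (nat_lit 260)) (XT.lf (nat_lit 0) (nat_lit 2395236453) (nat_lit 1824) (nat_lit 23769678179) (nat_lit 1900) (nat_lit 6522502688) (nat_lit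 464) (nat_lit 5) (nat_lit 488) (nat_lit 5) (nat_lit 489) (nat_lit 5) (nat_lit 471) (nat_lit 470) (nat_lit 259)))) (XT.nd (nat_lit 78) (nat_lit 0) (nat_lit 76) (XT.lf (nat_lit 76) (nat_lit 489698508) (nat_lit 0) (nat_lit 2357510137) (nat_lit 1900) (nat_lit 30329447244) (nat_lit 465) (nat_lit 5) (nat_lit 464) (nat_lit 5) (nat_lit 489) (nat_lit 5) (nat_lit 472) (nat_lit 470) (nat_lit 258)) (XT.nd (nat_lit 78) (nat_lit 0) (nat_lit 76) (XT.lf (nat_lit 0) (nat_lit 3615192913) (nat_lit 1824) (nat_lit 8022147035) (nat_lit 1900) (nat_lit 22037182934) (nat_lit 465) (nat_lit 5) (nat_lit 489) (nat_lit 5) (nat_lit 490) (nat_lit 5) (nat_lit 473) (nat_lit 470) (nat_lit 257)) (XT.lf (nat_lit 0) (nat_lit 4617553561) (nat_lit 1824) (nat_lit 16673982962) (nat_lit 1900) (nat_lit 12891562943) (nat_lit 466) (nat_lit 5) (nat_lit 490) (nat_lit 5) (nat_lit 491) (nat_lit 5) (nat_lit 474) (nat_lit 470) (nat_lit 256))))) (XT.nd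 (nat_lit 234) (nat_lit 0) (nat_lit 152) (XT.nd (nat_lit 78) (nat_lit 0) (nat_lit 0) (XT.lf (nat_lit 0) (nat_lit 5861364001) (nat_lit 1824) (nat_lit 25473904799) (nat_lit 1900) (nat_lit 3367437276) (nat_lit 467) (nat_lit 5) (nat_lit 491) (nat_lit 5) (nat_lit 492) (nat_lit 5) (nat_lit 475) (nat_lit 470) (nat_lit 255)) (XT.nd (nat_lit 78) (nat_lit 0) (nat_lit 76) (XT.lf (nat_lit 76) (nat_lit 766104237) (nat_lit 0) (nat_lit 6634188965) (nat_lit 1900) (nat_lit 27832451892) (nat_lit 468) (nat_lit 5) (nat_lit 467) (nat_lit 5) (nat_lit 492) (nat_lit 5) (nat_lit 476) (nat_lit 470) (nat_lit 254)) (XT.lf (nat_lit 0) (nat_lit 9278064438) (nat_lit 1824) (nat_lit 7758596830) (nat_lit 1900) (nat_lit 18736170821) (nat_lit 468) (nat_lit 5) (nat_lit 492) (nat_lit 5) (nat_lit 493) (nat_lit 5) (nat_lit 477) (nat_lit 470) (nat_lit 253)))) (XT.nd (nat_lit 78) (nat_lit 0) (nat_lit 0) (XT.lf (nat_lit 0) (nat_lit 11438786448)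 (nat_lit 1824) (nat_lit 16415299117) (nat_lit 1900) (nat_lit 8470504060) (nat_lit 469) (nat_lit 5) (nat_lit 493) (nat_lit 5) (nat_lit 494) (nat_lit 5) (nat_lit 478) (nat_lit 470) (nat_lit 252)) (XT.nd (nat_lit 78) (nat_lit 0) (nat_lit 76) (XT.lf (nat_lit 76) (nat_lit 11658100844) (nat_lit 0) (nat_lit 2245751511) (nat_lit 1900) (nat_lit 22984257360) (nat_lit 470) (nat_lit 5) (nat_lit 469) (nat_lit 5) (nat_lit 494) (nat_lit 5) (nat_lit 479) (nat_lit 470) (nat_lit 251)) (XT.lf (nat_lit 76) (nat_lit 3214723335) (nat_lit 0) (nat_lit 13514720447) (nat_lit 1900) (nat_lit 20733360421) (nat_lit 471) (nat_lit 5) (nat_lit 470) (nat_lit 5) (nat_lit 495) (nat_lit 5) (nat_lit 480) (nat_lit 470) (nat_lit 250)))))) (XT.nd (nat_lit 468) (nat_lit 4484) (nat_lit 0) (XT.nd (nat_lit 234) (nat_lit 1672) (nat_lit 0) (XT.nd (nat_lit 78) (nat_lit 0) (nat_lit 76) (XT.lf (nat_lit 0) (nat_lit 19907339074) (nat_lit 1824) (nat_lit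 5294750566) (nat_lit 1900) (nat_lit 12847299421) (nat_lit 471) (nat_lit 5) (nat_lit 495) (nat_lit 5) (nat_lit 496) (nat_lit 5) (nat_lit 481) (nat_lit 470) (nat_lit 249)) (XT.nd (nat_lit 78) (nat_lit 0) (nat_lit 0) (XT.lf (nat_lit 0) (nat_lit 23437560509) (nat_lit 1824) (nat_lit 13897799724) (nat_lit 1900) (nat_lit 1313071697) (nat_lit 472) (nat_lit 5) (nat_lit 496) (nat_lit 5) (nat_lit 497) (nat_lit 5) (nat_lit 482) (nat_lit 470) (nat_lit 248)) (XT.lf (nat_lit 76) (nat_lit 16551314881) (nat_lit 0) (nat_lit 10831778967) (nat_lit 1900) (nat_lit 11876164375) (nat_lit 473) (nat_lit 5) (nat_lit 472) (nat_lit 5) (nat_lit 497) (nat_lit 5) (nat_lit 483) (nat_lit 470) (nat_lit 247)))) (XT.nd (nat_lit 78) (nat_lit 1824) (nat_lit 0) (XT.lf (nat_lit 76) (nat_lit 8215695497) (nat_lit 0) (nat_lit 23483711410) (nat_lit 1900) (nat_lit 8183954359) (nat_lit 474) (nat_lit 5) (nat_lit 473) (nat_lit 5) (nat_lit 498) (nat_lit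 5) (nat_lit 484) (nat_lit 470) (nat_lit 246)) (XT.nd (nat_lit 78) (nat_lit 1900) (nat_lit 0) (XT.lf (nat_lit 0) (nat_lit 36394009118) (nat_lit 1824) (nat_lit 244885077) (nat_lit 1900) (nat_lit 3882317438) (nat_lit 474) (nat_lit 5) (nat_lit 498) (nat_lit 5) (nat_lit 499) (nat_lit 5) (nat_lit 485) (nat_lit 470) (nat_lit 245)) (XT.lf (nat_lit 0) (nat_lit 417813955) (nat_lit 1900) (nat_lit 8787453531) (nat_lit 1976) (nat_lit 31965578905) (nat_lit 449) (nat_lit 5) (nat_lit 474) (nat_lit 5) (nat_lit 475) (nat_lit 5) (nat_lit 486) (nat_lit 470) (nat_lit 244))))) (XT.nd (nat_lit 234) (nat_lit 2584) (nat_lit 0) (XT.nd (nat_lit 78) (nat_lit 1976) (nat_lit 0) (XT.lf (nat_lit 0) (nat_lit 5326294897) (nat_lit 1900) (nat_lit 17516366422) (nat_lit 76) (nat_lit 18991099739) (nat_lit 450) (nat_lit 5) (nat_lit 475) (nat_lit 5) (nat_lit 451) (nat_lit 5) (nat_lit 487) (nat_lit 470) (nat_lit 243)) (XT.nd (nat_lit 78) (nat_lit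 912) (nat_lit 0) (XT.lf (nat_lit 0) (nat_lit 10642222951) (nat_lit 1140) (nat_lit 26379901898) (nat_lit 76) (nat_lit 5489234668) (nat_lit 436) (nat_lit 5) (nat_lit 451) (nat_lit 5) (nat_lit 437) (nat_lit 5) (nat_lit 488) (nat_lit 470) (nat_lit 242)) (XT.lf (nat_lit 0) (nat_lit 7767784523) (nat_lit 912) (nat_lit 8670180968) (nat_lit 988) (nat_lit 26764913904) (nat_lit 424) (nat_lit 5) (nat_lit 436) (nat_lit 5) (nat_lit 437) (nat_lit 5) (nat_lit 489) (nat_lit 470) (nat_lit 241)))) (XT.nd (nat_lit 156) (nat_lit 1672) (nat_lit 0) (XT.nd (nat_lit 78) (nat_lit 912) (nat_lit 0) (XT.lf (nat_lit 0) (nat_lit 22718549562) (nat_lit 988) (nat_lit 747199470) (nat_lit 76) (nat_lit 20443176648) (nat_lit 424) (nat_lit 5) (nat_lit 437) (nat_lit 5) (nat_lit 425) (nat_lit 5) (nat_lit 490) (nat_lit 470) (nat_lit 240)) (XT.lf (nat_lit 0) (nat_lit 29511448309) (nat_lit 988) (nat_lit 9283461266) (nat_lit 76) (nat_lit 5834766024)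 (nat_lit 412) (nat_lit 5) (nat_lit 425) (nat_lit 5) (nat_lit 413) (nat_lit 5) (nat_lit 491) (nat_lit 470) (nat_lit 239))) (XT.nd (nat_lit 78) (nat_lit 836) (nat_lit 0) (XT.lf (nat_lit 0) (nat_lit 27360511204) (nat_lit 836) (nat_lit 9485124144) (nat_lit 912) (nat_lit 8519662822) (nat_lit 401) (nat_lit 5) (nat_lit 412) (nat_lit 5) (nat_lit 413) (nat_lit 5) (nat_lit 492) (nat_lit 470) (nat_lit 238)) (XT.lf (nat_lit 0) (nat_lit 19224347235) (nat_lit 836) (nat_lit 25495952342) (nat_lit 912) (nat_lit 1396280988) (nat_lit 390) (nat_lit 5) (nat_lit 401) (nat_lit 5) (nat_lit 402) (nat_lit 5) (nat_lit 493) (nat_lit 470) (nat_lit 237))))))) (XT.nd (nat_lit 936) (nat_lit 4712) (nat_lit 0) (XT.nd (nat_lit 468) (nat_lit 0) (nat_lit 304) (XT.nd (nat_lit 234) (nat_lit 0) (nat_lit 152) (XT.nd (nat_lit 78) (nat_lit 0) (nat_lit 76) (XT.lf (nat_lit 0) (nat_lit 1209733322) (nat_lit 1900) (nat_lit 7687807742) (nat_lit 1900)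 (nat_lit 7687807742) (nat_lit 463) (nat_lit 3) (nat_lit 488) (nat_lit 3) (nat_lit 488) (nat_lit 5) (nat_lit 471) (nat_lit 471) (nat_lit 258)) (XT.nd (nat_lit 78) (nat_lit 0) (nat_lit 0) (XT.lf (nat_lit 0) (nat_lit 2649129817) (nat_lit 1824) (nat_lit 24384462612) (nat_lit 1900) (nat_lit 6630790096) (nat_lit 464) (nat_lit 5) (nat_lit 488) (nat_lit 5) (nat_lit 489) (nat_lit 5) (nat_lit 472) (nat_lit 471) (nat_lit 257)) (XT.lf (nat_lit 76) (nat_lit 601100480) (nat_lit 0) (nat_lit 2508886580) (nat_lit 1900) (nat_lit 31058405156) (nat_lit 465) (nat_lit 5) (nat_lit 464) (nat_lit 5) (nat_lit 489) (nat_lit 5) (nat_lit 473) (nat_lit 471) (nat_lit 256)))) (XT.nd (nat_lit 78) (nat_lit 0) (nat_lit 76) (XT.lf (nat_lit 0) (nat_lit 3895336578) (nat_lit 1824) (nat_lit 8164949304) (nat_lit 1900) (nat_lit 22621023291) (nat_lit 465) (nat_lit 5) (nat_lit 489) (nat_lit 5) (nat_lit 490) (nat_lit 5) (nat_lit 474) (nat_lit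 471) (nat_lit 255)) (XT.nd (nat_lit 78) (nat_lit 0) (nat_lit 76) (XT.lf (nat_lit 0) (nat_lit 4922931281) (nat_lit 1824) (nat_lit 17074105351) (nat_lit 1900) (nat_lit 13208203614) (nat_lit 466) (nat_lit 5) (nat_lit 490) (nat_lit 5) (nat_lit 491) (nat_lit 5) (nat_lit 475) (nat_lit 471) (nat_lit 254)) (XT.lf (nat_lit 0) (nat_lit 6199419092) (nat_lit 1824) (nat_lit 26135964891) (nat_lit 1900) (nat_lit 3405144251) (nat_lit 467) (nat_lit 5) (nat_lit 491) (nat_lit 5) (nat_lit 492) (nat_lit 5) (nat_lit 476) (nat_lit 471) (nat_lit 253))))) (XT.nd (nat_lit 234) (nat_lit 0) (nat_lit 152) (XT.nd (nat_lit 78) (nat_lit 0) (nat_lit 76) (XT.lf (nat_lit 76) (nat_lit 889587039) (nat_lit 0) (nat_lit 6890856956) (nat_lit 1900) (nat_lit 28506106300) (nat_lit 468) (nat_lit 5) (nat_lit 467) (nat_lit 5) (nat_lit 492) (nat_lit 5) (nat_lit 477) (nat_lit 471) (nat_lit 252)) (XT.nd (nat_lit 78) (nat_lit 0) (nat_lit 76) (XT.lf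 (nat_lit 0) (nat_lit 9709578939) (nat_lit 1824) (nat_lit 7890334271) (nat_lit 1900) (nat_lit 19243026497) (nat_lit 468) (nat_lit 5) (nat_lit 492) (nat_lit 5) (nat_lit 493) (nat_lit 5) (nat_lit 478) (nat_lit 471) (nat_lit 251)) (XT.lf (nat_lit 0) (nat_lit 11930982053) (nat_lit 1824) (nat_lit 16805051474) (nat_lit 1900) (nat_lit 8675299658) (nat_lit 469) (nat_lit 5) (nat_lit 493) (nat_lit 5) (nat_lit 494) (nat_lit 5) (nat_lit 479) (nat_lit 471) (nat_lit 250)))) (XT.nd (nat_lit 78) (nat_lit 0) (nat_lit 76) (XT.lf (nat_lit 76) (nat_lit 12108884194) (nat_lit 0) (nat_lit 2357431026) (nat_lit 1900) (nat_lit 23525517745) (nat_lit 470) (nat_lit 5) (nat_lit 469) (nat_lit 5) (nat_lit 494) (nat_lit 5) (nat_lit 480) (nat_lit 471) (nat_lit 249)) (XT.nd (nat_lit 78) (nat_lit 0) (nat_lit 76) (XT.lf (nat_lit 76) (nat_lit 3413721771) (nat_lit 0) (nat_lit 13959105777) (nat_lit 1900) (nat_lit 21211018057) (nat_lit 471)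 (nat_lit 5) (nat_lit 470) (nat_lit 5) (nat_lit 495) (nat_lit 5) (nat_lit 481) (nat_lit 471) (nat_lit 248)) (XT.lf (nat_lit 0) (nat_lit 20641692843) (nat_lit 1824) (nat_lit 5351018026) (nat_lit 1900) (nat_lit 13195404847) (nat_lit 471) (nat_lit 5) (nat_lit 495) (nat_lit 5) (nat_lit 496) (nat_lit 5) (nat_lit 482) (nat_lit 471) (nat_lit 247)))))) (XT.nd (nat_lit 468) (nat_lit 3648) (nat_lit 0) (XT.nd (nat_lit 234) (nat_lit 1748) (nat_lit 0) (XT.nd (nat_lit 78) (nat_lit 0) (nat_lit 0) (XT.lf (nat_lit 0) (nat_lit 24274268416) (nat_lit 1824) (nat_lit 14210921438) (nat_lit 1900) (nat_lit 1320011427) (nat_lit 472) (nat_lit 5) (nat_lit 496) (nat_lit 5) (nat_lit 497) (nat_lit 5) (nat_lit 483) (nat_lit 471) (nat_lit 246)) (XT.nd (nat_lit 78) (nat_lit 0) (nat_lit 76) (XT.lf (nat_lit 76) (nat_lit 17149982374) (nat_lit 0) (nat_lit 11184957752) (nat_lit 1900) (nat_lit 12099477138) (nat_lit 473) (nat_lit 5) (nat_lit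 472) (nat_lit 5) (nat_lit 497) (nat_lit 5) (nat_lit 484) (nat_lit 471) (nat_lit 245)) (XT.lf (nat_lit 76) (nat_lit 8565394008) (nat_lit 0) (nat_lit 24212044168) (nat_lit 1900) (nat_lit 8299871649) (nat_lit 474) (nat_lit 5) (nat_lit 473) (nat_lit 5) (nat_lit 498) (nat_lit 5) (nat_lit 485) (nat_lit 471) (nat_lit 244)))) (XT.nd (nat_lit 78) (nat_lit 1900) (nat_lit 0) (XT.lf (nat_lit 0) (nat_lit 37609027836) (nat_lit 1824) (nat_lit 149382515) (nat_lit 1900) (nat_lit 3975962695) (nat_lit 474) (nat_lit 5) (nat_lit 498) (nat_lit 5) (nat_lit 499) (nat_lit 5) (nat_lit 486) (nat_lit 471) (nat_lit 243)) (XT.nd (nat_lit 78) (nat_lit 0) (nat_lit 76) (XT.lf (nat_lit 0) (nat_lit 551422425) (nat_lit 1900) (nat_lit 8948277177) (nat_lit 1976) (nat_lit 32903840261) (nat_lit 449) (nat_lit 5) (nat_lit 474) (nat_lit 5) (nat_lit 475) (nat_lit 5) (nat_lit 487) (nat_lit 471) (nat_lit 242)) (XT.lf (nat_lit 0) (nat_lit 5604177140)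 (nat_lit 1900) (nat_lit 17938240198) (nat_lit 76) (nat_lit 19543984549) (nat_lit 450) (nat_lit 5) (nat_lit 475) (nat_lit 5) (nat_lit 451) (nat_lit 5) (nat_lit 488) (nat_lit 471) (nat_lit 241))))) (XT.nd (nat_lit 234) (nat_lit 1748) (nat_lit 0) (XT.nd (nat_lit 78) (nat_lit 912) (nat_lit 0) (XT.lf (nat_lit 0) (nat_lit 11076718390) (nat_lit 1140) (nat_lit 27066959783) (nat_lit 76) (nat_lit 5640707713) (nat_lit 436) (nat_lit 5) (nat_lit 451) (nat_lit 5) (nat_lit 437) (nat_lit 5) (nat_lit 489) (nat_lit 471) (nat_lit 240)) (XT.nd (nat_lit 78) (nat_lit 0) (nat_lit 0) (XT.lf (nat_lit 0) (nat_lit 8103464452) (nat_lit 912) (nat_lit 8940179027) (nat_lit 988) (nat_lit 27453061965) (nat_lit 424) (nat_lit 5) (nat_lit 436) (nat_lit 5) (nat_lit 437) (nat_lit 5) (nat_lit 490) (nat_lit 471) (nat_lit 239)) (XT.lf (nat_lit 0) (nat_lit 23509304877) (nat_lit 988) (nat_lit 667701903) (nat_lit 76) (nat_lit 21046993418) (nat_lit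 424) (nat_lit 5) (nat_lit 437) (nat_lit 5) (nat_lit 425) (nat_lit 5) (nat_lit 491) (nat_lit 471) (nat_lit 238)))) (XT.nd (nat_lit 60918) (nat_lit 0) (nat_lit 4712) (XT.nd (nat_lit 78) (nat_lit 836) (nat_lit 0) (XT.lf (nat_lit 0) (nat_lit 30503419380) (nat_lit 988) (nat_lit 9459520977) (nat_lit 76) (nat_lit 6003483950) (nat_lit 412) (nat_lit 5) (nat_lit 425) (nat_lit 5) (nat_lit 413) (nat_lit 5) (nat_lit 492) (nat_lit 471) (nat_lit 237)) (XT.lf (nat_lit 0) (nat_lit 28282108633) (nat_lit 836) (nat_lit 9773072084) (nat_lit 912) (nat_lit 8668984129) (nat_lit 401) (nat_lit 5) (nat_lit 412) (nat_lit 5) (nat_lit 413) (nat_lit 5) (nat_lit 493) (nat_lit 471) (nat_lit 236))) (XT.nd (nat_lit 78) (nat_lit 0) (nat_lit 76) (XT.lf (nat_lit 0) (nat_lit 1334375067) (nat_lit 1900) (nat_lit 7873379578) (nat_lit 1900) (nat_lit 7873379578) (nat_lit 463) (nat_lit 3) (nat_lit 488) (nat_lit 3) (nat_lit 488) (nat_lit 5) (nat_lit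 472) (nat_lit 472) (nat_lit 256)) (XT.lf (nat_lit 0) (nat_lit 2900190356) (nat_lit 1824) (nat_lit 25023333739) (nat_lit 1900) (nat_lit 6747342535) (nat_lit 464) (nat_lit 5) (nat_lit 488) (nat_lit 5) (nat_lit 489) (nat_lit 5) (nat_lit 473) (nat_lit 472) (nat_lit 255))))))))
noncomputable def xc125 : XT := (XT.nd (nat_lit 62868) (nat_lit 0) (nat_lit 0) (XT.nd (nat_lit 936) (nat_lit 3040) (nat_lit 0) (XT.nd (nat_lit 468) (nat_lit 0) (nat_lit 380) (XT.nd (nat_lit 234) (nat_lit 0) (nat_lit 228) (XT.nd (nat_lit 78) (nat_lit 0) (nat_lit 76) (XT.lf (nat_lit 76) (nat_lit 710292902) (nat_lit 0) (nat_lit 2660174612) (nat_lit 1900) (nat_lit 31819617669) (nat_lit 465) (nat_lit 5) (nat_lit 464) (nat_lit 5) (nat_lit 489) (nat_lit 5) (nat_lit 474) (nat_lit 472) (nat_lit 254)) (XT.nd (nat_lit 78) (nat_lit 0) (nat_lit 76) (XT.lf (nat_lit 0) (nat_lit 4174028968) (nat_lit 1824) (nat_lit 8317653327) (nat_lit 1900) (nat_lit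 23226814768) (nat_lit 465) (nat_lit 5) (nat_lit 489) (nat_lit 5) (nat_lit 490) (nat_lit 5) (nat_lit 475) (nat_lit 472) (nat_lit 253)) (XT.lf (nat_lit 0) (nat_lit 5227892396) (nat_lit 1824) (nat_lit 17491977394) (nat_lit 1900) (nat_lit 13538367889) (nat_lit 466) (nat_lit 5) (nat_lit 490) (nat_lit 5) (nat_lit 491) (nat_lit 5) (nat_lit 476) (nat_lit 472) (nat_lit 252)))) (XT.nd (nat_lit 78) (nat_lit 0) (nat_lit 0) (XT.lf (nat_lit 0) (nat_lit 6538304079) (nat_lit 1824) (nat_lit 26823751019) (nat_lit 1900) (nat_lit 3447617041) (nat_lit 467) (nat_lit 5) (nat_lit 491) (nat_lit 5) (nat_lit 492) (nat_lit 5) (nat_lit 477) (nat_lit 472) (nat_lit 251)) (XT.nd (nat_lit 78) (nat_lit 0) (nat_lit 76) (XT.lf (nat_lit 76) (nat_lit 1011005233) (nat_lit 0) (nat_lit 7151916082) (nat_lit 1900) (nat_lit 29209230720) (nat_lit 468) (nat_lit 5) (nat_lit 467) (nat_lit 5) (nat_lit 492) (nat_lit 5) (nat_lit 478) (nat_lit 472)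 (nat_lit 250)) (XT.lf (nat_lit 0) (nat_lit 10145246144) (nat_lit 1824) (nat_lit 8031822823) (nat_lit 1900) (nat_lit 19768258239) (nat_lit 468) (nat_lit 5) (nat_lit 492) (nat_lit 5) (nat_lit 493) (nat_lit 5) (nat_lit 479) (nat_lit 472) (nat_lit 249))))) (XT.nd (nat_lit 234) (nat_lit 0) (nat_lit 152) (XT.nd (nat_lit 78) (nat_lit 0) (nat_lit 0) (XT.lf (nat_lit 0) (nat_lit 12429388478) (nat_lit 1824) (nat_lit 17212392181) (nat_lit 1900) (nat_lit 8889070266) (nat_lit 469) (nat_lit 5) (nat_lit 493) (nat_lit 5) (nat_lit 494) (nat_lit 5) (nat_lit 480) (nat_lit 472) (nat_lit 248)) (XT.nd (nat_lit 78) (nat_lit 0) (nat_lit 76) (XT.lf (nat_lit 76) (nat_lit 12567390915) (nat_lit 0) (nat_lit 2469917526) (nat_lit 1900) (nat_lit 24091527092) (nat_lit 470) (nat_lit 5) (nat_lit 469) (nat_lit 5) (nat_lit 494) (nat_lit 5) (nat_lit 481) (nat_lit 472) (nat_lit 247)) (XT.lf (nat_lit 76) (nat_lit 3612802984) (nat_lit 0) (nat_lit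 14414587138) (nat_lit 1900) (nat_lit 21711291311) (nat_lit 471) (nat_lit 5) (nat_lit 470) (nat_lit 5) (nat_lit 495) (nat_lit 5) (nat_lit 482) (nat_lit 472) (nat_lit 246)))) (XT.nd (nat_lit 78) (nat_lit 0) (nat_lit 76) (XT.lf (nat_lit 0) (nat_lit 21390205195) (nat_lit 1824) (nat_lit 5414861738) (nat_lit 1900) (nat_lit 13556095387) (nat_lit 471) (nat_lit 5) (nat_lit 495) (nat_lit 5) (nat_lit 496) (nat_lit 5) (nat_lit 483) (nat_lit 472) (nat_lit 245)) (XT.nd (nat_lit 78) (nat_lit 0) (nat_lit 0) (XT.lf (nat_lit 0) (nat_lit 25128409459) (nat_lit 1824) (nat_lit 14539396052) (nat_lit 1900) (nat_lit 1329022251) (nat_lit 472) (nat_lit 5) (nat_lit 496) (nat_lit 5) (nat_lit 497) (nat_lit 5) (nat_lit 484) (nat_lit 472) (nat_lit 244)) (XT.lf (nat_lit 76) (nat_lit 17760747325) (nat_lit 0) (nat_lit 11547111646) (nat_lit 1900) (nat_lit 12337122430) (nat_lit 473) (nat_lit 5) (nat_lit 472) (nat_lit 5) (nat_lit 497)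 (nat_lit 5) (nat_lit 485) (nat_lit 472) (nat_lit 243)))))) (XT.nd (nat_lit 468) (nat_lit 0) (nat_lit 0) (XT.nd (nat_lit 234) (nat_lit 1900) (nat_lit 0) (XT.nd (nat_lit 78) (nat_lit 1824) (nat_lit 0) (XT.lf (nat_lit 76) (nat_lit 8919657785) (nat_lit 0) (nat_lit 24960859463) (nat_lit 1900) (nat_lit 8426706105) (nat_lit 474) (nat_lit 5) (nat_lit 473) (nat_lit 5) (nat_lit 498) (nat_lit 5) (nat_lit 486) (nat_lit 472) (nat_lit 242)) (XT.nd (nat_lit 78) (nat_lit 1900) (nat_lit 0) (XT.lf (nat_lit 0) (nat_lit 38853425021) (nat_lit 1824) (nat_lit 56918835) (nat_lit 1900) (nat_lit 4073727516) (nat_lit 474) (nat_lit 5) (nat_lit 498) (nat_lit 5) (nat_lit 499) (nat_lit 5) (nat_lit 487) (nat_lit 472) (nat_lit 241)) (XT.lf (nat_lit 0) (nat_lit 682089002) (nat_lit 1900) (nat_lit 9119826670) (nat_lit 1976) (nat_lit 33871438068) (nat_lit 449) (nat_lit 5) (nat_lit 474) (nat_lit 5) (nat_lit 475) (nat_lit 5) (nat_lit 488)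 (nat_lit 472) (nat_lit 240)))) (XT.nd (nat_lit 78) (nat_lit 1976) (nat_lit 0) (XT.lf (nat_lit 0) (nat_lit 5883616806) (nat_lit 1900) (nat_lit 18378718238) (nat_lit 76) (nat_lit 20114423058) (nat_lit 450) (nat_lit 5) (nat_lit 475) (nat_lit 5) (nat_lit 451) (nat_lit 5) (nat_lit 489) (nat_lit 472) (nat_lit 239)) (XT.nd (nat_lit 78) (nat_lit 912) (nat_lit 0) (XT.lf (nat_lit 0) (nat_lit 11517634091) (nat_lit 1140) (nat_lit 27780618900) (nat_lit 76) (nat_lit 5797482914) (nat_lit 436) (nat_lit 5) (nat_lit 451) (nat_lit 5) (nat_lit 437) (nat_lit 5) (nat_lit 490) (nat_lit 472) (nat_lit 238)) (XT.lf (nat_lit 0) (nat_lit 8443322456) (nat_lit 912) (nat_lit 9217709149) (nat_lit 988) (nat_lit 28168444419) (nat_lit 424) (nat_lit 5) (nat_lit 436) (nat_lit 5) (nat_lit 437) (nat_lit 5) (nat_lit 491) (nat_lit 472) (nat_lit 237))))) (XT.nd (nat_lit 61152) (nat_lit 0) (nat_lit 3040) (XT.nd (nat_lit 60996) (nat_lit 0) (nat_lit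 2964) (XT.lf (nat_lit 0) (nat_lit 24317514392) (nat_lit 988) (nat_lit 591669665) (nat_lit 76) (nat_lit 21669468797) (nat_lit 424) (nat_lit 5) (nat_lit 437) (nat_lit 5) (nat_lit 425) (nat_lit 5) (nat_lit 492) (nat_lit 472) (nat_lit 236)) (XT.nd (nat_lit 78) (nat_lit 0) (nat_lit 76) (XT.lf (nat_lit 0) (nat_lit 1457684428) (nat_lit 1900) (nat_lit 8067105334) (nat_lit 1900) (nat_lit 8067105334) (nat_lit 463) (nat_lit 3) (nat_lit 488) (nat_lit 3) (nat_lit 488) (nat_lit 5) (nat_lit 473) (nat_lit 473) (nat_lit 254)) (XT.lf (nat_lit 0) (nat_lit 3148932936) (nat_lit 1824) (nat_lit 25686690221) (nat_lit 1900) (nat_lit 6872119995) (nat_lit 464) (nat_lit 5) (nat_lit 488) (nat_lit 5) (nat_lit 489) (nat_lit 5) (nat_lit 474) (nat_lit 473) (nat_lit 253)))) (XT.nd (nat_lit 156) (nat_lit 0) (nat_lit 152) (XT.nd (nat_lit 78) (nat_lit 0) (nat_lit 76) (XT.lf (nat_lit 76) (nat_lit 817528175) (nat_lit 0) (nat_lit 2811637342)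 (nat_lit 1900) (nat_lit 32613456230) (nat_lit 465) (nat_lit 5) (nat_lit 464) (nat_lit 5) (nat_lit 489) (nat_lit 5) (nat_lit 475) (nat_lit 473) (nat_lit 252)) (XT.lf (nat_lit 0) (nat_lit 4451792293) (nat_lit 1824) (nat_lit 8480233681) (nat_lit 1900) (nat_lit 23854961258) (nat_lit 465) (nat_lit 5) (nat_lit 489) (nat_lit 5) (nat_lit 490) (nat_lit 5) (nat_lit 476) (nat_lit 473) (nat_lit 251))) (XT.nd (nat_lit 78) (nat_lit 0) (nat_lit 76) (XT.lf (nat_lit 0) (nat_lit 5532974220) (nat_lit 1824) (nat_lit 17927801739) (nat_lit 1900) (nat_lit 13882230459) (nat_lit 466) (nat_lit 5) (nat_lit 490) (nat_lit 5) (nat_lit 491) (nat_lit 5) (nat_lit 477) (nat_lit 473) (nat_lit 250)) (XT.lf (nat_lit 0) (nat_lit 6878578392) (nat_lit 1824) (nat_lit 27537698332) (nat_lit 1900) (nat_lit 3494789979) (nat_lit 467) (nat_lit 5) (nat_lit 491) (nat_lit 5) (nat_lit 492) (nat_lit 5) (nat_lit 478) (nat_lit 473) (nat_lit 249)))))))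 (XT.nd (nat_lit 1014) (nat_lit 912) (nat_lit 0) (XT.nd (nat_lit 468) (nat_lit 2356) (nat_lit 0) (XT.nd (nat_lit 234) (nat_lit 0) (nat_lit 152) (XT.nd (nat_lit 78) (nat_lit 0) (nat_lit 76) (XT.lf (nat_lit 76) (nat_lit 1130628050) (nat_lit 0) (nat_lit 7417688021) (nat_lit 1900) (nat_lit 29942177668) (nat_lit 468) (nat_lit 5) (nat_lit 467) (nat_lit 5) (nat_lit 492) (nat_lit 5) (nat_lit 479) (nat_lit 473) (nat_lit 248)) (XT.nd (nat_lit 78) (nat_lit 0) (nat_lit 76) (XT.lf (nat_lit 0) (nat_lit 10585695371) (nat_lit 1824) (nat_lit 8183022134) (nat_lit 1900) (nat_lit 20312235335) (nat_lit 468) (nat_lit 5) (nat_lit 492) (nat_lit 5) (nat_lit 493) (nat_lit 5) (nat_lit 480) (nat_lit 473) (nat_lit 247)) (XT.lf (nat_lit 0) (nat_lit 12934683144) (nat_lit 1824) (nat_lit 17637510448) (nat_lit 1900) (nat_lit 9111922615) (nat_lit 469) (nat_lit 5) (nat_lit 493) (nat_lit 5) (nat_lit 494) (nat_lit 5) (nat_lit 481) (nat_lit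 473) (nat_lit 246)))) (XT.nd (nat_lit 78) (nat_lit 0) (nat_lit 76) (XT.lf (nat_lit 76) (nat_lit 13034185662) (nat_lit 0) (nat_lit 2583381221) (nat_lit 1900) (nat_lit 24682539297) (nat_lit 470) (nat_lit 5) (nat_lit 469) (nat_lit 5) (nat_lit 494) (nat_lit 5) (nat_lit 482) (nat_lit 473) (nat_lit 245)) (XT.nd (nat_lit 78) (nat_lit 0) (nat_lit 76) (XT.lf (nat_lit 76) (nat_lit 3812307405) (nat_lit 0) (nat_lit 14881625740) (nat_lit 1900) (nat_lit 22234383008) (nat_lit 471) (nat_lit 5) (nat_lit 470) (nat_lit 5) (nat_lit 495) (nat_lit 5) (nat_lit 483) (nat_lit 473) (nat_lit 244)) (XT.lf (nat_lit 0) (nat_lit 22153752775) (nat_lit 1824) (nat_lit 5486170981) (nat_lit 1900) (nat_lit 13929625638) (nat_lit 471) (nat_lit 5) (nat_lit 495) (nat_lit 5) (nat_lit 496) (nat_lit 5) (nat_lit 484) (nat_lit 473) (nat_lit 243))))) (XT.nd (nat_lit 234) (nat_lit 2736) (nat_lit 0) (XT.nd (nat_lit 78) (nat_lit 0) (nat_lit 0) (XT.lf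 (nat_lit 0) (nat_lit 26000946812) (nat_lit 1824) (nat_lit 14883342070) (nat_lit 1900) (nat_lit 1340059363) (nat_lit 472) (nat_lit 5) (nat_lit 496) (nat_lit 5) (nat_lit 497) (nat_lit 5) (nat_lit 485) (nat_lit 473) (nat_lit 242)) (XT.nd (nat_lit 78) (nat_lit 0) (nat_lit 76) (XT.lf (nat_lit 76) (nat_lit 18384309191) (nat_lit 0) (nat_lit 11918602912) (nat_lit 1900) (nat_lit 12589092053) (nat_lit 473) (nat_lit 5) (nat_lit 472) (nat_lit 5) (nat_lit 497) (nat_lit 5) (nat_lit 486) (nat_lit 473) (nat_lit 241)) (XT.lf (nat_lit 76) (nat_lit 9278963944) (nat_lit 0) (nat_lit 25730850267) (nat_lit 1900) (nat_lit 8564358176) (nat_lit 474) (nat_lit 5) (nat_lit 473) (nat_lit 5) (nat_lit 498) (nat_lit 5) (nat_lit 487) (nat_lit 473) (nat_lit 240)))) (XT.nd (nat_lit 156) (nat_lit 988) (nat_lit 0) (XT.nd (nat_lit 78) (nat_lit 1900) (nat_lit 0) (XT.lf (nat_lit 76) (nat_lit 33188985) (nat_lit 0) (nat_lit 40095514493) (nat_lit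 1900) (nat_lit 4142686776) (nat_lit 475) (nat_lit 5) (nat_lit 474) (nat_lit 5) (nat_lit 499) (nat_lit 5) (nat_lit 488) (nat_lit 473) (nat_lit 239)) (XT.lf (nat_lit 0) (nat_lit 810124398) (nat_lit 1900) (nat_lit 9302085036) (nat_lit 1976) (nat_lit 34869184187) (nat_lit 449) (nat_lit 5) (nat_lit 474) (nat_lit 5) (nat_lit 475) (nat_lit 5) (nat_lit 489) (nat_lit 473) (nat_lit 238))) (XT.nd (nat_lit 78) (nat_lit 1064) (nat_lit 0) (XT.lf (nat_lit 0) (nat_lit 6165049762) (nat_lit 1900) (nat_lit 18838017230) (nat_lit 76) (nat_lit 20702886358) (nat_lit 450) (nat_lit 5) (nat_lit 475) (nat_lit 5) (nat_lit 451) (nat_lit 5) (nat_lit 490) (nat_lit 473) (nat_lit 237)) (XT.lf (nat_lit 0) (nat_lit 11965542367) (nat_lit 1140) (nat_lit 28521333463) (nat_lit 76) (nat_lit 5959675823) (nat_lit 436) (nat_lit 5) (nat_lit 451) (nat_lit 5) (nat_lit 437) (nat_lit 5) (nat_lit 491) (nat_lit 473) (nat_lit 236)))))) (XT.nd (nat_lit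 61464) (nat_lit 0) (nat_lit 3268) (XT.nd (nat_lit 61230) (nat_lit 0) (nat_lit 3040) (XT.nd (nat_lit 61074) (nat_lit 0) (nat_lit 2964) (XT.lf (nat_lit 0) (nat_lit 8787822120) (nat_lit 912) (nat_lit 9503029897) (nat_lit 988) (nat_lit 28911500011) (nat_lit 424) (nat_lit 5) (nat_lit 436) (nat_lit 5) (nat_lit 437) (nat_lit 5) (nat_lit 492) (nat_lit 473) (nat_lit 235)) (XT.nd (nat_lit 78) (nat_lit 0) (nat_lit 76) (XT.lf (nat_lit 0) (nat_lit 1579912565) (nat_lit 1900) (nat_lit 8269081138) (nat_lit 1900) (nat_lit 8269081138) (nat_lit 463) (nat_lit 3) (nat_lit 488) (nat_lit 3) (nat_lit 488) (nat_lit 5) (nat_lit 474) (nat_lit 474) (nat_lit 252)) (XT.lf (nat_lit 0) (nat_lit 3395853435) (nat_lit 1824) (nat_lit 26374961273) (nat_lit 1900) (nat_lit 7005097794) (nat_lit 464) (nat_lit 5) (nat_lit 488) (nat_lit 5) (nat_lit 489) (nat_lit 5) (nat_lit 475) (nat_lit 474) (nat_lit 251)))) (XT.nd (nat_lit 78) (nat_lit 0)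 (nat_lit 76) (XT.lf (nat_lit 76) (nat_lit 923047974) (nat_lit 0) (nat_lit 2963530522) (nat_lit 1900) (nat_lit 33440337655) (nat_lit 465) (nat_lit 5) (nat_lit 464) (nat_lit 5) (nat_lit 489) (nat_lit 5) (nat_lit 476) (nat_lit 474) (nat_lit 250)) (XT.nd (nat_lit 78) (nat_lit 0) (nat_lit 76) (XT.lf (nat_lit 0) (nat_lit 4729131957) (nat_lit 1824) (nat_lit 8652682687) (nat_lit 1900) (nat_lit 24505893390) (nat_lit 465) (nat_lit 5) (nat_lit 489) (nat_lit 5) (nat_lit 490) (nat_lit 5) (nat_lit 477) (nat_lit 474) (nat_lit 249)) (XT.lf (nat_lit 0) (nat_lit 5838698627) (nat_lit 1824) (nat_lit 18381806046) (nat_lit 1900) (nat_lit 14239984519) (nat_lit 466) (nat_lit 5) (nat_lit 490) (nat_lit 5) (nat_lit 491) (nat_lit 5) (nat_lit 478) (nat_lit 474) (nat_lit 248))))) (XT.nd (nat_lit 234) (nat_lit 0) (nat_lit 152) (XT.nd (nat_lit 78) (nat_lit 0) (nat_lit 0) (XT.lf (nat_lit 0) (nat_lit 7220787558) (nat_lit 1824) (nat_lit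 28278274360) (nat_lit 1900) (nat_lit 3546607405) (nat_lit 467) (nat_lit 5) (nat_lit 491) (nat_lit 5) (nat_lit 492) (nat_lit 5) (nat_lit 479) (nat_lit 474) (nat_lit 247)) (XT.nd (nat_lit 78) (nat_lit 0) (nat_lit 76) (XT.lf (nat_lit 76) (nat_lit 1248713787) (nat_lit 0) (nat_lit 7688493199) (nat_lit 1900) (nat_lit 30705340751) (nat_lit 468) (nat_lit 5) (nat_lit 467) (nat_lit 5) (nat_lit 492) (nat_lit 5) (nat_lit 480) (nat_lit 474) (nat_lit 246)) (XT.lf (nat_lit 0) (nat_lit 11031545846) (nat_lit 1824) (nat_lit 8343909750) (nat_lit 1900) (nat_lit 20875348601) (nat_lit 468) (nat_lit 5) (nat_lit 492) (nat_lit 5) (nat_lit 493) (nat_lit 5) (nat_lit 481) (nat_lit 474) (nat_lit 245)))) (XT.nd (nat_lit 156) (nat_lit 0) (nat_lit 76) (XT.nd (nat_lit 78) (nat_lit 0) (nat_lit 0) (XT.lf (nat_lit 0) (nat_lit 13447535602) (nat_lit 1824) (nat_lit 18080620587) (nat_lit 1900) (nat_lit 9343975968) (nat_lit 469) (nat_lit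 5) (nat_lit 493) (nat_lit 5) (nat_lit 494) (nat_lit 5) (nat_lit 482) (nat_lit 474) (nat_lit 244)) (XT.lf (nat_lit 76) (nat_lit 13509830912) (nat_lit 0) (nat_lit 2697989047) (nat_lit 1900) (nat_lit 25298843916) (nat_lit 470) (nat_lit 5) (nat_lit 469) (nat_lit 5) (nat_lit 494) (nat_lit 5) (nat_lit 483) (nat_lit 474) (nat_lit 243))) (XT.nd (nat_lit 78) (nat_lit 0) (nat_lit 76) (XT.lf (nat_lit 76) (nat_lit 4012566278) (nat_lit 0) (nat_lit 15360689262) (nat_lit 1900) (nat_lit 22780529360) (nat_lit 471) (nat_lit 5) (nat_lit 470) (nat_lit 5) (nat_lit 495) (nat_lit 5) (nat_lit 484) (nat_lit 474) (nat_lit 242)) (XT.lf (nat_lit 0) (nat_lit 22933212586) (nat_lit 1824) (nat_lit 5564851116) (nat_lit 1900) (nat_lit 14316264891) (nat_lit 471) (nat_lit 5) (nat_lit 495) (nat_lit 5) (nat_lit 496) (nat_lit 5) (nat_lit 485) (nat_lit 474) (nat_lit 241))))))))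
noncomputable def xc126 : XT := (XT.nd (nat_lit 124332) (nat_lit 0) (nat_lit 1064) (XT.nd (nat_lit 62088) (nat_lit 0) (nat_lit 0) (XT.nd (nat_lit 61620) (nat_lit 0) (nat_lit 1064) (XT.nd (nat_lit 234) (nat_lit 1748) (nat_lit 0) (XT.nd (nat_lit 78) (nat_lit 0) (nat_lit 0) (XT.lf (nat_lit 0) (nat_lit 26892847277) (nat_lit 1824) (nat_lit 15242901183) (nat_lit 1900) (nat_lit 1353082753) (nat_lit 472) (nat_lit 5) (nat_lit 496) (nat_lit 5) (nat_lit 497) (nat_lit 5) (nat_lit 486) (nat_lit 474) (nat_lit 240)) (XT.nd (nat_lit 78) (nat_lit 0) (nat_lit 76) (XT.lf (nat_lit 76) (nat_lit 19021369099) (nat_lit 0) (nat_lit 12299799341) (nat_lit 1900) (nat_lit 12855402717) (nat_lit 473) (nat_lit 5) (nat_lit 472) (nat_lit 5) (nat_lit 497) (nat_lit 5) (nat_lit 487) (nat_lit 474) (nat_lit 239)) (XT.lf (nat_lit 76) (nat_lit 9643784391) (nat_lit 0) (nat_lit 26522725836) (nat_lit 1900) (nat_lit 8712749839) (nat_lit 474)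 (nat_lit 5) (nat_lit 473) (nat_lit 5) (nat_lit 498) (nat_lit 5) (nat_lit 488) (nat_lit 474) (nat_lit 238)))) (XT.nd (nat_lit 78) (nat_lit 1900) (nat_lit 0) (XT.lf (nat_lit 76) (nat_lit 121463852) (nat_lit 0) (nat_lit 41314844163) (nat_lit 1900) (nat_lit 4161139893) (nat_lit 475) (nat_lit 5) (nat_lit 474) (nat_lit 5) (nat_lit 499) (nat_lit 5) (nat_lit 489) (nat_lit 474) (nat_lit 237)) (XT.nd (nat_lit 78) (nat_lit 0) (nat_lit 76) (XT.lf (nat_lit 0) (nat_lit 935825742) (nat_lit 1900) (nat_lit 9495054239) (nat_lit 1976) (nat_lit 35897918754) (nat_lit 449) (nat_lit 5) (nat_lit 474) (nat_lit 5) (nat_lit 475) (nat_lit 5) (nat_lit 490) (nat_lit 474) (nat_lit 236)) (XT.lf (nat_lit 0) (nat_lit 6448902615) (nat_lit 1900) (nat_lit 19316379959) (nat_lit 76) (nat_lit 21309862861) (nat_lit 450) (nat_lit 5) (nat_lit 475) (nat_lit 5) (nat_lit 451) (nat_lit 5) (nat_lit 491) (nat_lit 474) (nat_lit 235))))) (XT.nd (nat_lit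 234) (nat_lit 0) (nat_lit 152) (XT.nd (nat_lit 78) (nat_lit 0) (nat_lit 76) (XT.lf (nat_lit 0) (nat_lit 1701301463) (nat_lit 1900) (nat_lit 8479414524) (nat_lit 1900) (nat_lit 8479414524) (nat_lit 463) (nat_lit 3) (nat_lit 488) (nat_lit 3) (nat_lit 488) (nat_lit 5) (nat_lit 475) (nat_lit 475) (nat_lit 250)) (XT.nd (nat_lit 78) (nat_lit 0) (nat_lit 0) (XT.lf (nat_lit 0) (nat_lit 3641430151) (nat_lit 1824) (nat_lit 27088606516) (nat_lit 1900) (nat_lit 7146266092) (nat_lit 464) (nat_lit 5) (nat_lit 488) (nat_lit 5) (nat_lit 489) (nat_lit 5) (nat_lit 476) (nat_lit 475) (nat_lit 249)) (XT.lf (nat_lit 76) (nat_lit 1027083982) (nat_lit 0) (nat_lit 3116103192) (nat_lit 1900) (nat_lit 34300723520) (nat_lit 465) (nat_lit 5) (nat_lit 464) (nat_lit 5) (nat_lit 489) (nat_lit 5) (nat_lit 477) (nat_lit 475) (nat_lit 248)))) (XT.nd (nat_lit 78) (nat_lit 0) (nat_lit 76) (XT.lf (nat_lit 0) (nat_lit 5006537913) (nat_lit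 1824) (nat_lit 8835009889) (nat_lit 1900) (nat_lit 25180068489) (nat_lit 465) (nat_lit 5) (nat_lit 489) (nat_lit 5) (nat_lit 490) (nat_lit 5) (nat_lit 478) (nat_lit 475) (nat_lit 247)) (XT.nd (nat_lit 78) (nat_lit 0) (nat_lit 76) (XT.lf (nat_lit 0) (nat_lit 6145573396) (nat_lit 1824) (nat_lit 18854242652) (nat_lit 1900) (nat_lit 14611841559) (nat_lit 466) (nat_lit 5) (nat_lit 490) (nat_lit 5) (nat_lit 491) (nat_lit 5) (nat_lit 479) (nat_lit 475) (nat_lit 246)) (XT.lf (nat_lit 0) (nat_lit 7565464550) (nat_lit 1824) (nat_lit 29045978870) (nat_lit 1900) (nat_lit 3603023280) (nat_lit 467) (nat_lit 5) (nat_lit 491) (nat_lit 5) (nat_lit 492) (nat_lit 5) (nat_lit 480) (nat_lit 475) (nat_lit 245)))))) (XT.nd (nat_lit 468) (nat_lit 1368) (nat_lit 0) (XT.nd (nat_lit 234) (nat_lit 0) (nat_lit 152) (XT.nd (nat_lit 78) (nat_lit 0) (nat_lit 76) (XT.lf (nat_lit 76) (nat_lit 1365510572) (nat_lit 0) (nat_lit 7964651377)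 (nat_lit 1900) (nat_lit 31499154149) (nat_lit 468) (nat_lit 5) (nat_lit 467) (nat_lit 5) (nat_lit 492) (nat_lit 5) (nat_lit 481) (nat_lit 475) (nat_lit 244)) (XT.nd (nat_lit 78) (nat_lit 0) (nat_lit 76) (XT.lf (nat_lit 0) (nat_lit 11483408061) (nat_lit 1824) (nat_lit 8514480555) (nat_lit 1900) (nat_lit 21458010422) (nat_lit 468) (nat_lit 5) (nat_lit 492) (nat_lit 5) (nat_lit 493) (nat_lit 5) (nat_lit 482) (nat_lit 475) (nat_lit 243)) (XT.lf (nat_lit 0) (nat_lit 13968608916) (nat_lit 1824) (nat_lit 18541961653) (nat_lit 1900) (nat_lit 9585361960) (nat_lit 469) (nat_lit 5) (nat_lit 493) (nat_lit 5) (nat_lit 494) (nat_lit 5) (nat_lit 483) (nat_lit 475) (nat_lit 242)))) (XT.nd (nat_lit 78) (nat_lit 0) (nat_lit 76) (XT.lf (nat_lit 76) (nat_lit 13994888004) (nat_lit 0) (nat_lit 2813905050) (nat_lit 1900) (nat_lit 25940765629) (nat_lit 470) (nat_lit 5) (nat_lit 469) (nat_lit 5) (nat_lit 494) (nat_lit 5) (nat_lit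 484) (nat_lit 475) (nat_lit 241)) (XT.nd (nat_lit 78) (nat_lit 0) (nat_lit 76) (XT.lf (nat_lit 76) (nat_lit 4213902501) (nat_lit 0) (nat_lit 15852252470) (nat_lit 1900) (nat_lit 23349999404) (nat_lit 471) (nat_lit 5) (nat_lit 470) (nat_lit 5) (nat_lit 495) (nat_lit 5) (nat_lit 485) (nat_lit 475) (nat_lit 240)) (XT.lf (nat_lit 0) (nat_lit 23729463490) (nat_lit 1824) (nat_lit 5650822952) (nat_lit 1900) (nat_lit 14716297172) (nat_lit 471) (nat_lit 5) (nat_lit 495) (nat_lit 5) (nat_lit 496) (nat_lit 5) (nat_lit 486) (nat_lit 475) (nat_lit 239))))) (XT.nd (nat_lit 234) (nat_lit 1748) (nat_lit 0) (XT.nd (nat_lit 78) (nat_lit 0) (nat_lit 0) (XT.lf (nat_lit 0) (nat_lit 27805082843) (nat_lit 1824) (nat_lit 15618237848) (nat_lit 1900) (nat_lit 1368056995) (nat_lit 472) (nat_lit 5) (nat_lit 496) (nat_lit 5) (nat_lit 497) (nat_lit 5) (nat_lit 487) (nat_lit 475) (nat_lit 238)) (XT.nd (nat_lit 78) (nat_lit 0) (nat_lit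 76) (XT.lf (nat_lit 76) (nat_lit 19672630995) (nat_lit 0) (nat_lit 12691074725) (nat_lit 1900) (nat_lit 13136095341) (nat_lit 473) (nat_lit 5) (nat_lit 472) (nat_lit 5) (nat_lit 497) (nat_lit 5) (nat_lit 488) (nat_lit 475) (nat_lit 237)) (XT.lf (nat_lit 76) (nat_lit 10014586779) (nat_lit 0) (nat_lit 27337212457) (nat_lit 1900) (nat_lit 8871823839) (nat_lit 474) (nat_lit 5) (nat_lit 473) (nat_lit 5) (nat_lit 498) (nat_lit 5) (nat_lit 489) (nat_lit 475) (nat_lit 236)))) (XT.nd (nat_lit 61386) (nat_lit 0) (nat_lit 1064) (XT.nd (nat_lit 78) (nat_lit 1900) (nat_lit 0) (XT.lf (nat_lit 76) (nat_lit 207376781) (nat_lit 0) (nat_lit 42569808608) (nat_lit 1900) (nat_lit 4186221534) (nat_lit 475) (nat_lit 5) (nat_lit 474) (nat_lit 5) (nat_lit 499) (nat_lit 5) (nat_lit 490) (nat_lit 475) (nat_lit 235)) (XT.lf (nat_lit 0) (nat_lit 1059477488) (nat_lit 1900) (nat_lit 9698754628) (nat_lit 1976) (nat_lit 36958510801)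 (nat_lit 449) (nat_lit 5) (nat_lit 474) (nat_lit 5) (nat_lit 475) (nat_lit 5) (nat_lit 491) (nat_lit 475) (nat_lit 234))) (XT.nd (nat_lit 78) (nat_lit 0) (nat_lit 76) (XT.lf (nat_lit 0) (nat_lit 1822084612) (nat_lit 1900) (nat_lit 8698224288) (nat_lit 1900) (nat_lit 8698224288) (nat_lit 463) (nat_lit 3) (nat_lit 488) (nat_lit 3) (nat_lit 488) (nat_lit 5) (nat_lit 476) (nat_lit 476) (nat_lit 248)) (XT.lf (nat_lit 0) (nat_lit 3886125137) (nat_lit 1824) (nat_lit 27828115879) (nat_lit 1900) (nat_lit 7295629439) (nat_lit 464) (nat_lit 5) (nat_lit 488) (nat_lit 5) (nat_lit 489) (nat_lit 5) (nat_lit 477) (nat_lit 476) (nat_lit 247))))))) (XT.nd (nat_lit 936) (nat_lit 76) (nat_lit 0) (XT.nd (nat_lit 468) (nat_lit 0) (nat_lit 380) (XT.nd (nat_lit 234) (nat_lit 0) (nat_lit 228) (XT.nd (nat_lit 78) (nat_lit 0) (nat_lit 76) (XT.lf (nat_lit 76) (nat_lit 1129858581) (nat_lit 0) (nat_lit 3269598310) (nat_lit 1900)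 (nat_lit 35195119657) (nat_lit 465) (nat_lit 5) (nat_lit 464) (nat_lit 5) (nat_lit 489) (nat_lit 5) (nat_lit 478) (nat_lit 476) (nat_lit 246)) (XT.nd (nat_lit 78) (nat_lit 0) (nat_lit 76) (XT.lf (nat_lit 0) (nat_lit 5284485956) (nat_lit 1824) (nat_lit 9027241560) (nat_lit 1900) (nat_lit 25877970589) (nat_lit 465) (nat_lit 5) (nat_lit 489) (nat_lit 5) (nat_lit 490) (nat_lit 5) (nat_lit 479) (nat_lit 476) (nat_lit 245)) (XT.lf (nat_lit 0) (nat_lit 6454093496) (nat_lit 1824) (nat_lit 19345388288) (nat_lit 1900) (nat_lit 14998031196) (nat_lit 466) (nat_lit 5) (nat_lit 490) (nat_lit 5) (nat_lit 491) (nat_lit 5) (nat_lit 480) (nat_lit 476) (nat_lit 244)))) (XT.nd (nat_lit 78) (nat_lit 0) (nat_lit 0) (XT.lf (nat_lit 0) (nat_lit 7913131064) (nat_lit 1824) (nat_lit 29841343796) (nat_lit 1900) (nat_lit 3664000821) (nat_lit 467) (nat_lit 5) (nat_lit 491) (nat_lit 5) (nat_lit 492) (nat_lit 5) (nat_lit 481) (nat_lit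 476) (nat_lit 243)) (XT.nd (nat_lit 78) (nat_lit 0) (nat_lit 76) (XT.lf (nat_lit 76) (nat_lit 1481257085) (nat_lit 0) (nat_lit 8246482220) (nat_lit 1900) (nat_lit 32324092177) (nat_lit 468) (nat_lit 5) (nat_lit 467) (nat_lit 5) (nat_lit 492) (nat_lit 5) (nat_lit 482) (nat_lit 476) (nat_lit 242)) (XT.lf (nat_lit 0) (nat_lit 11941885079) (nat_lit 1824) (nat_lit 8694746259) (nat_lit 1900) (nat_lit 22060654837) (nat_lit 468) (nat_lit 5) (nat_lit 492) (nat_lit 5) (nat_lit 493) (nat_lit 5) (nat_lit 483) (nat_lit 476) (nat_lit 241))))) (XT.nd (nat_lit 234) (nat_lit 0) (nat_lit 152) (XT.nd (nat_lit 78) (nat_lit 0) (nat_lit 0) (XT.lf (nat_lit 0) (nat_lit 14498560996) (nat_lit 1824) (nat_lit 19021797134) (nat_lit 1900) (nat_lit 9836224460) (nat_lit 469) (nat_lit 5) (nat_lit 493) (nat_lit 5) (nat_lit 494) (nat_lit 5) (nat_lit 484) (nat_lit 476) (nat_lit 240)) (XT.nd (nat_lit 78) (nat_lit 0) (nat_lit 76) (XT.lf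 (nat_lit 76) (nat_lit 14489918134) (nat_lit 0) (nat_lit 2931290749) (nat_lit 1900) (nat_lit 26608663775) (nat_lit 470) (nat_lit 5) (nat_lit 469) (nat_lit 5) (nat_lit 494) (nat_lit 5) (nat_lit 485) (nat_lit 476) (nat_lit 239)) (XT.lf (nat_lit 76) (nat_lit 4416631419) (nat_lit 0) (nat_lit 16356797827) (nat_lit 1900) (nat_lit 23943094507) (nat_lit 471) (nat_lit 5) (nat_lit 470) (nat_lit 5) (nat_lit 495) (nat_lit 5) (nat_lit 486) (nat_lit 476) (nat_lit 238)))) (XT.nd (nat_lit 78) (nat_lit 0) (nat_lit 76) (XT.lf (nat_lit 0) (nat_lit 24543387670) (nat_lit 1824) (nat_lit 5744022165) (nat_lit 1900) (nat_lit 15130021297) (nat_lit 471) (nat_lit 5) (nat_lit 495) (nat_lit 5) (nat_lit 496) (nat_lit 5) (nat_lit 487) (nat_lit 476) (nat_lit 237)) (XT.nd (nat_lit 78) (nat_lit 0) (nat_lit 0) (XT.lf (nat_lit 0) (nat_lit 28738632206) (nat_lit 1824) (nat_lit 16009538899) (nat_lit 1900) (nat_lit 1384951056) (nat_lit 472)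 (nat_lit 5) (nat_lit 496) (nat_lit 5) (nat_lit 497) (nat_lit 5) (nat_lit 488) (nat_lit 476) (nat_lit 236)) (XT.lf (nat_lit 76) (nat_lit 20338802783) (nat_lit 0) (nat_lit 13092809328) (nat_lit 1900) (nat_lit 13431234420) (nat_lit 473) (nat_lit 5) (nat_lit 472) (nat_lit 5) (nat_lit 497) (nat_lit 5) (nat_lit 489) (nat_lit 476) (nat_lit 235)))))) (XT.nd (nat_lit 61854) (nat_lit 0) (nat_lit 304) (XT.nd (nat_lit 61620) (nat_lit 0) (nat_lit 76) (XT.nd (nat_lit 61464) (nat_lit 760) (nat_lit 0) (XT.lf (nat_lit 76) (nat_lit 10391835446) (nat_lit 0) (nat_lit 28175054202) (nat_lit 1900) (nat_lit 9041542985) (nat_lit 474) (nat_lit 5) (nat_lit 473) (nat_lit 5) (nat_lit 498) (nat_lit 5) (nat_lit 490) (nat_lit 476) (nat_lit 234)) (XT.nd (nat_lit 78) (nat_lit 0) (nat_lit 76) (XT.lf (nat_lit 0) (nat_lit 1942487658) (nat_lit 1900) (nat_lit 8925640361) (nat_lit 1900) (nat_lit 8925640361) (nat_lit 463) (nat_lit 3) (nat_lit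 488) (nat_lit 3) (nat_lit 488) (nat_lit 5) (nat_lit 477) (nat_lit 477) (nat_lit 246)) (XT.lf (nat_lit 0) (nat_lit 4130385469) (nat_lit 1824) (nat_lit 28594009566) (nat_lit 1900) (nat_lit 7453206366) (nat_lit 464) (nat_lit 5) (nat_lit 488) (nat_lit 5) (nat_lit 489) (nat_lit 5) (nat_lit 478) (nat_lit 477) (nat_lit 245)))) (XT.nd (nat_lit 78) (nat_lit 0) (nat_lit 76) (XT.lf (nat_lit 76) (nat_lit 1231585499) (nat_lit 0) (nat_lit 3424253345) (nat_lit 1900) (nat_lit 36124075738) (nat_lit 465) (nat_lit 5) (nat_lit 464) (nat_lit 5) (nat_lit 489) (nat_lit 5) (nat_lit 479) (nat_lit 477) (nat_lit 244)) (XT.nd (nat_lit 78) (nat_lit 0) (nat_lit 76) (XT.lf (nat_lit 0) (nat_lit 5563438958) (nat_lit 1824) (nat_lit 9229420269) (nat_lit 1900) (nat_lit 26600110485) (nat_lit 465) (nat_lit 5) (nat_lit 489) (nat_lit 5) (nat_lit 490) (nat_lit 5) (nat_lit 480) (nat_lit 477) (nat_lit 243)) (XT.lf (nat_lit 0) (nat_lit 6764742314)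 (nat_lit 1824) (nat_lit 19855543845) (nat_lit 1900) (nat_lit 15398801041) (nat_lit 466) (nat_lit 5) (nat_lit 490) (nat_lit 5) (nat_lit 491) (nat_lit 5) (nat_lit 481) (nat_lit 477) (nat_lit 242))))) (XT.nd (nat_lit 234) (nat_lit 0) (nat_lit 152) (XT.nd (nat_lit 78) (nat_lit 0) (nat_lit 0) (XT.lf (nat_lit 0) (nat_lit 8264298752) (nat_lit 1824) (nat_lit 30664933209) (nat_lit 1900) (nat_lit 3729512177) (nat_lit 467) (nat_lit 5) (nat_lit 491) (nat_lit 5) (nat_lit 492) (nat_lit 5) (nat_lit 482) (nat_lit 477) (nat_lit 241)) (XT.nd (nat_lit 78) (nat_lit 0) (nat_lit 76) (XT.lf (nat_lit 76) (nat_lit 1596183248) (nat_lit 0) (nat_lit 8534305851) (nat_lit 1900) (nat_lit 33180668937) (nat_lit 468) (nat_lit 5) (nat_lit 467) (nat_lit 5) (nat_lit 492) (nat_lit 5) (nat_lit 483) (nat_lit 477) (nat_lit 240)) (XT.lf (nat_lit 0) (nat_lit 12407573789) (nat_lit 1824) (nat_lit 8884734926) (nat_lit 1900) (nat_lit 22683737658)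 (nat_lit 468) (nat_lit 5) (nat_lit 492) (nat_lit 5) (nat_lit 493) (nat_lit 5) (nat_lit 484) (nat_lit 477) (nat_lit 239)))) (XT.nd (nat_lit 156) (nat_lit 0) (nat_lit 76) (XT.nd (nat_lit 78) (nat_lit 0) (nat_lit 0) (XT.lf (nat_lit 0) (nat_lit 15038045881) (nat_lit 1824) (nat_lit 19520414694) (nat_lit 1900) (nat_lit 10096719472) (nat_lit 469) (nat_lit 5) (nat_lit 493) (nat_lit 5) (nat_lit 494) (nat_lit 5) (nat_lit 485) (nat_lit 477) (nat_lit 238)) (XT.lf (nat_lit 76) (nat_lit 14995483328) (nat_lit 0) (nat_lit 3050305489) (nat_lit 1900) (nat_lit 27302931962) (nat_lit 470) (nat_lit 5) (nat_lit 469) (nat_lit 5) (nat_lit 494) (nat_lit 5) (nat_lit 486) (nat_lit 477) (nat_lit 237))) (XT.nd (nat_lit 78) (nat_lit 0) (nat_lit 76) (XT.lf (nat_lit 76) (nat_lit 4621061593) (nat_lit 0) (nat_lit 16874816101) (nat_lit 1900) (nat_lit 24560147942) (nat_lit 471) (nat_lit 5) (nat_lit 470) (nat_lit 5) (nat_lit 495) (nat_lit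 5) (nat_lit 487) (nat_lit 477) (nat_lit 236)) (XT.lf (nat_lit 0) (nat_lit 25375872045) (nat_lit 1824) (nat_lit 5844398750) (nat_lit 1900) (nat_lit 15557750958) (nat_lit 471) (nat_lit 5) (nat_lit 495) (nat_lit 5) (nat_lit 496) (nat_lit 5) (nat_lit 488) (nat_lit 477) (nat_lit 235))))))))
noncomputable def xc127 : XT := (XT.nd (nat_lit 186732) (nat_lit 0) (nat_lit 0) (XT.nd (nat_lit 62400) (nat_lit 0) (nat_lit 0) (XT.nd (nat_lit 61932) (nat_lit 0) (nat_lit 228) (XT.nd (nat_lit 61698) (nat_lit 0) (nat_lit 76) (XT.nd (nat_lit 78) (nat_lit 684) (nat_lit 0) (XT.lf (nat_lit 0) (nat_lit 29694482262) (nat_lit 1824) (nat_lit 16417013223) (nat_lit 1900) (nat_lit 1403738113) (nat_lit 472) (nat_lit 5) (nat_lit 496) (nat_lit 5) (nat_lit 497) (nat_lit 5) (nat_lit 489) (nat_lit 477) (nat_lit 234)) (XT.nd (nat_lit 61542) (nat_lit 684) (nat_lit 0) (XT.lf (nat_lit 76) (nat_lit 21020597424) (nat_lit 0) (nat_lit 13505390346)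 (nat_lit 1900) (nat_lit 13740907449) (nat_lit 473) (nat_lit 5) (nat_lit 472) (nat_lit 5) (nat_lit 497) (nat_lit 5) (nat_lit 490) (nat_lit 477) (nat_lit 233)) (XT.lf (nat_lit 0) (nat_lit 2062729022) (nat_lit 1900) (nat_lit 9161803714) (nat_lit 1900) (nat_lit 9161803714) (nat_lit 463) (nat_lit 3) (nat_lit 488) (nat_lit 3) (nat_lit 488) (nat_lit 5) (nat_lit 478) (nat_lit 478) (nat_lit 244)))) (XT.nd (nat_lit 78) (nat_lit 0) (nat_lit 0) (XT.lf (nat_lit 0) (nat_lit 4374644453) (nat_lit 1824) (nat_lit 29386838064) (nat_lit 1900) (nat_lit 7619029010) (nat_lit 464) (nat_lit 5) (nat_lit 488) (nat_lit 5) (nat_lit 489) (nat_lit 5) (nat_lit 479) (nat_lit 478) (nat_lit 243)) (XT.nd (nat_lit 78) (nat_lit 0) (nat_lit 76) (XT.lf (nat_lit 76) (nat_lit 1332470439) (nat_lit 0) (nat_lit 3580300850) (nat_lit 1900) (nat_lit 37088184937) (nat_lit 465) (nat_lit 5) (nat_lit 464) (nat_lit 5) (nat_lit 489) (nat_lit 5) (nat_lit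 480) (nat_lit 478) (nat_lit 242)) (XT.lf (nat_lit 0) (nat_lit 5843848040) (nat_lit 1824) (nat_lit 9441604472) (nat_lit 1900) (nat_lit 27347025834) (nat_lit 465) (nat_lit 5) (nat_lit 489) (nat_lit 5) (nat_lit 490) (nat_lit 5) (nat_lit 481) (nat_lit 478) (nat_lit 241))))) (XT.nd (nat_lit 234) (nat_lit 0) (nat_lit 152) (XT.nd (nat_lit 78) (nat_lit 0) (nat_lit 76) (XT.lf (nat_lit 0) (nat_lit 7077992825) (nat_lit 1824) (nat_lit 20385034185) (nat_lit 1900) (nat_lit 15814416604) (nat_lit 466) (nat_lit 5) (nat_lit 490) (nat_lit 5) (nat_lit 491) (nat_lit 5) (nat_lit 482) (nat_lit 478) (nat_lit 240)) (XT.nd (nat_lit 78) (nat_lit 0) (nat_lit 0) (XT.lf (nat_lit 0) (nat_lit 8619470391) (nat_lit 1824) (nat_lit 31517343360) (nat_lit 1900) (nat_lit 3799538113) (nat_lit 467) (nat_lit 5) (nat_lit 491) (nat_lit 5) (nat_lit 492) (nat_lit 5) (nat_lit 483) (nat_lit 478) (nat_lit 239)) (XT.lf (nat_lit 76) (nat_lit 1710510870)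 (nat_lit 0) (nat_lit 8828443392) (nat_lit 1900) (nat_lit 34069438044) (nat_lit 468) (nat_lit 5) (nat_lit 467) (nat_lit 5) (nat_lit 492) (nat_lit 5) (nat_lit 484) (nat_lit 478) (nat_lit 238)))) (XT.nd (nat_lit 78) (nat_lit 0) (nat_lit 76) (XT.lf (nat_lit 0) (nat_lit 12881066114) (nat_lit 1824) (nat_lit 9084490546) (nat_lit 1900) (nat_lit 23327736615) (nat_lit 468) (nat_lit 5) (nat_lit 492) (nat_lit 5) (nat_lit 493) (nat_lit 5) (nat_lit 485) (nat_lit 478) (nat_lit 237)) (XT.nd (nat_lit 78) (nat_lit 0) (nat_lit 0) (XT.lf (nat_lit 0) (nat_lit 15587714973) (nat_lit 1824) (nat_lit 20038125962) (nat_lit 1900) (nat_lit 10367015041) (nat_lit 469) (nat_lit 5) (nat_lit 493) (nat_lit 5) (nat_lit 494) (nat_lit 5) (nat_lit 486) (nat_lit 478) (nat_lit 236)) (XT.lf (nat_lit 76) (nat_lit 15512147385) (nat_lit 0) (nat_lit 3171106780) (nat_lit 1900) (nat_lit 28023997745) (nat_lit 470) (nat_lit 5) (nat_lit 469) (nat_lit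 5) (nat_lit 494) (nat_lit 5) (nat_lit 487) (nat_lit 478) (nat_lit 235)))))) (XT.nd (nat_lit 62088) (nat_lit 0) (nat_lit 228) (XT.nd (nat_lit 61854) (nat_lit 0) (nat_lit 76) (XT.nd (nat_lit 78) (nat_lit 532) (nat_lit 0) (XT.lf (nat_lit 76) (nat_lit 4827495525) (nat_lit 0) (nat_lit 17406806968) (nat_lit 1900) (nat_lit 25201524537) (nat_lit 471) (nat_lit 5) (nat_lit 470) (nat_lit 5) (nat_lit 495) (nat_lit 5) (nat_lit 488) (nat_lit 478) (nat_lit 234)) (XT.nd (nat_lit 61698) (nat_lit 608) (nat_lit 0) (XT.lf (nat_lit 0) (nat_lit 26227809669) (nat_lit 1824) (nat_lit 5951916516) (nat_lit 1900) (nat_lit 15999814831) (nat_lit 471) (nat_lit 5) (nat_lit 495) (nat_lit 5) (nat_lit 496) (nat_lit 5) (nat_lit 489) (nat_lit 478) (nat_lit 233)) (XT.lf (nat_lit 0) (nat_lit 2183020483) (nat_lit 1900) (nat_lit 9406866272) (nat_lit 1900) (nat_lit 9406866272) (nat_lit 463) (nat_lit 3) (nat_lit 488) (nat_lit 3) (nat_lit 488)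 (nat_lit 5) (nat_lit 479) (nat_lit 479) (nat_lit 242)))) (XT.nd (nat_lit 78) (nat_lit 0) (nat_lit 0) (XT.lf (nat_lit 0) (nat_lit 4619322772) (nat_lit 1824) (nat_lit 30207182211) (nat_lit 1900) (nat_lit 7793142771) (nat_lit 464) (nat_lit 5) (nat_lit 488) (nat_lit 5) (nat_lit 489) (nat_lit 5) (nat_lit 480) (nat_lit 479) (nat_lit 241)) (XT.nd (nat_lit 78) (nat_lit 0) (nat_lit 76) (XT.lf (nat_lit 76) (nat_lit 1432711660) (nat_lit 0) (nat_lit 3737968999) (nat_lit 1900) (nat_lit 38088083691) (nat_lit 465) (nat_lit 5) (nat_lit 464) (nat_lit 5) (nat_lit 489) (nat_lit 5) (nat_lit 481) (nat_lit 479) (nat_lit 240)) (XT.lf (nat_lit 0) (nat_lit 6126153691) (nat_lit 1824) (nat_lit 9663868154) (nat_lit 1900) (nat_lit 28119281302) (nat_lit 465) (nat_lit 5) (nat_lit 489) (nat_lit 5) (nat_lit 490) (nat_lit 5) (nat_lit 482) (nat_lit 479) (nat_lit 239))))) (XT.nd (nat_lit 234) (nat_lit 0) (nat_lit 152) (XT.nd (nat_lit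 78) (nat_lit 0) (nat_lit 76) (XT.lf (nat_lit 0) (nat_lit 7394308708) (nat_lit 1824) (nat_lit 20934208007) (nat_lit 1900) (nat_lit 16245161225) (nat_lit 466) (nat_lit 5) (nat_lit 490) (nat_lit 5) (nat_lit 491) (nat_lit 5) (nat_lit 483) (nat_lit 479) (nat_lit 238)) (XT.nd (nat_lit 78) (nat_lit 0) (nat_lit 0) (XT.lf (nat_lit 0) (nat_lit 8979141012) (nat_lit 1824) (nat_lit 32399202763) (nat_lit 1900) (nat_lit 3874067729) (nat_lit 467) (nat_lit 5) (nat_lit 491) (nat_lit 5) (nat_lit 492) (nat_lit 5) (nat_lit 484) (nat_lit 479) (nat_lit 237)) (XT.lf (nat_lit 76) (nat_lit 1824454271) (nat_lit 0) (nat_lit 9129217484) (nat_lit 1900) (nat_lit 34990992426) (nat_lit 468) (nat_lit 5) (nat_lit 467) (nat_lit 5) (nat_lit 492) (nat_lit 5) (nat_lit 485) (nat_lit 479) (nat_lit 236)))) (XT.nd (nat_lit 156) (nat_lit 0) (nat_lit 76) (XT.nd (nat_lit 78) (nat_lit 0) (nat_lit 76) (XT.lf (nat_lit 0) (nat_lit 13362950178) (nat_lit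 1824) (nat_lit 9294072649) (nat_lit 1900) (nat_lit 23993151547) (nat_lit 468) (nat_lit 5) (nat_lit 492) (nat_lit 5) (nat_lit 493) (nat_lit 5) (nat_lit 486) (nat_lit 479) (nat_lit 235)) (XT.lf (nat_lit 0) (nat_lit 16148218245) (nat_lit 1824) (nat_lit 20575266373) (nat_lit 1900) (nat_lit 10647291195) (nat_lit 469) (nat_lit 5) (nat_lit 493) (nat_lit 5) (nat_lit 494) (nat_lit 5) (nat_lit 487) (nat_lit 479) (nat_lit 234))) (XT.nd (nat_lit 78) (nat_lit 0) (nat_lit 76) (XT.lf (nat_lit 76) (nat_lit 16040476796) (nat_lit 0) (nat_lit 3293850623) (nat_lit 1900) (nat_lit 28772322375) (nat_lit 470) (nat_lit 5) (nat_lit 469) (nat_lit 5) (nat_lit 494) (nat_lit 5) (nat_lit 488) (nat_lit 479) (nat_lit 233)) (XT.lf (nat_lit 76) (nat_lit 5036230357) (nat_lit 0) (nat_lit 17953279614) (nat_lit 1900) (nat_lit 25867620377) (nat_lit 471) (nat_lit 5) (nat_lit 470) (nat_lit 5) (nat_lit 495) (nat_lit 5) (nat_lit 489) (nat_lit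 479) (nat_lit 232))))))) (XT.nd (nat_lit 62868) (nat_lit 0) (nat_lit 0) (XT.nd (nat_lit 468) (nat_lit 0) (nat_lit 0) (XT.nd (nat_lit 234) (nat_lit 0) (nat_lit 152) (XT.nd (nat_lit 78) (nat_lit 0) (nat_lit 76) (XT.lf (nat_lit 0) (nat_lit 2303567737) (nat_lit 1900) (nat_lit 9660990864) (nat_lit 1900) (nat_lit 9660990864) (nat_lit 463) (nat_lit 3) (nat_lit 488) (nat_lit 3) (nat_lit 488) (nat_lit 5) (nat_lit 480) (nat_lit 480) (nat_lit 240)) (XT.nd (nat_lit 78) (nat_lit 0) (nat_lit 0) (XT.lf (nat_lit 0) (nat_lit 4864829579) (nat_lit 1824) (nat_lit 31055653314) (nat_lit 1900) (nat_lit 7975606006) (nat_lit 464) (nat_lit 5) (nat_lit 488) (nat_lit 5) (nat_lit 489) (nat_lit 5) (nat_lit 481) (nat_lit 480) (nat_lit 239)) (XT.lf (nat_lit 76) (nat_lit 1532500539) (nat_lit 0) (nat_lit 3897482113) (nat_lit 1900) (nat_lit 39124451536) (nat_lit 465) (nat_lit 5) (nat_lit 464) (nat_lit 5) (nat_lit 489) (nat_lit 5) (nat_lit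 482) (nat_lit 480) (nat_lit 238)))) (XT.nd (nat_lit 78) (nat_lit 0) (nat_lit 76) (XT.lf (nat_lit 0) (nat_lit 6410786836) (nat_lit 1824) (nat_lit 9896300504) (nat_lit 1900) (nat_lit 28917468746) (nat_lit 465) (nat_lit 5) (nat_lit 489) (nat_lit 5) (nat_lit 490) (nat_lit 5) (nat_lit 483) (nat_lit 480) (nat_lit 237)) (XT.nd (nat_lit 78) (nat_lit 0) (nat_lit 76) (XT.lf (nat_lit 0) (nat_lit 7714145413) (nat_lit 1824) (nat_lit 21503437751) (nat_lit 1900) (nat_lit 16691336047) (nat_lit 466) (nat_lit 5) (nat_lit 490) (nat_lit 5) (nat_lit 491) (nat_lit 5) (nat_lit 484) (nat_lit 480) (nat_lit 236)) (XT.lf (nat_lit 0) (nat_lit 9343798972) (nat_lit 1824) (nat_lit 33311172345) (nat_lit 1900) (nat_lit 3953098200) (nat_lit 467) (nat_lit 5) (nat_lit 491) (nat_lit 5) (nat_lit 492) (nat_lit 5) (nat_lit 485) (nat_lit 480) (nat_lit 235))))) (XT.nd (nat_lit 62088) (nat_lit 304) (nat_lit 0) (XT.nd (nat_lit 78) (nat_lit 0)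 (nat_lit 76) (XT.lf (nat_lit 76) (nat_lit 1938220866) (nat_lit 0) (nat_lit 9436952798) (nat_lit 1900) (nat_lit 35945964201) (nat_lit 468) (nat_lit 5) (nat_lit 467) (nat_lit 5) (nat_lit 492) (nat_lit 5) (nat_lit 486) (nat_lit 480) (nat_lit 234)) (XT.nd (nat_lit 78) (nat_lit 0) (nat_lit 76) (XT.lf (nat_lit 0) (nat_lit 13853811424) (nat_lit 1824) (nat_lit 9513555953) (nat_lit 1900) (nat_lit 24680504612) (nat_lit 468) (nat_lit 5) (nat_lit 492) (nat_lit 5) (nat_lit 493) (nat_lit 5) (nat_lit 487) (nat_lit 480) (nat_lit 233)) (XT.lf (nat_lit 0) (nat_lit 16720205392) (nat_lit 1824) (nat_lit 21132195051) (nat_lit 1900) (nat_lit 10937739908) (nat_lit 469) (nat_lit 5) (nat_lit 493) (nat_lit 5) (nat_lit 494) (nat_lit 5) (nat_lit 488) (nat_lit 480) (nat_lit 232)))) (XT.nd (nat_lit 156) (nat_lit 0) (nat_lit 76) (XT.nd (nat_lit 78) (nat_lit 0) (nat_lit 76) (XT.lf (nat_lit 0) (nat_lit 2424570934) (nat_lit 1900) (nat_lit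 9924351181) (nat_lit 1900) (nat_lit 9924351181) (nat_lit 463) (nat_lit 3) (nat_lit 488) (nat_lit 3) (nat_lit 488) (nat_lit 5) (nat_lit 481) (nat_lit 481) (nat_lit 238)) (XT.lf (nat_lit 0) (nat_lit 5111563536) (nat_lit 1824) (nat_lit 31932893313) (nat_lit 1900) (nat_lit 8166489751) (nat_lit 464) (nat_lit 5) (nat_lit 488) (nat_lit 5) (nat_lit 489) (nat_lit 5) (nat_lit 482) (nat_lit 481) (nat_lit 237))) (XT.nd (nat_lit 78) (nat_lit 0) (nat_lit 76) (XT.lf (nat_lit 76) (nat_lit 1632022100) (nat_lit 0) (nat_lit 4059061157) (nat_lit 1900) (nat_lit 40198011016) (nat_lit 465) (nat_lit 5) (nat_lit 464) (nat_lit 5) (nat_lit 489) (nat_lit 5) (nat_lit 483) (nat_lit 481) (nat_lit 236)) (XT.lf (nat_lit 0) (nat_lit 6698169856) (nat_lit 1824) (nat_lit 10139005623) (nat_lit 1900) (nat_lit 29742207442) (nat_lit 465) (nat_lit 5) (nat_lit 489) (nat_lit 5) (nat_lit 490) (nat_lit 5) (nat_lit 484) (nat_lit 481) (nat_lit 235))))))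 (XT.nd (nat_lit 62478) (nat_lit 0) (nat_lit 76) (XT.nd (nat_lit 62244) (nat_lit 228) (nat_lit 0) (XT.nd (nat_lit 78) (nat_lit 0) (nat_lit 76) (XT.lf (nat_lit 0) (nat_lit 8037951191) (nat_lit 1824) (nat_lit 22093119546) (nat_lit 1900) (nat_lit 17153260016) (nat_lit 466) (nat_lit 5) (nat_lit 490) (nat_lit 5) (nat_lit 491) (nat_lit 5) (nat_lit 485) (nat_lit 481) (nat_lit 234)) (XT.nd (nat_lit 78) (nat_lit 0) (nat_lit 0) (XT.lf (nat_lit 0) (nat_lit 9713926995) (nat_lit 1824) (nat_lit 34253945632) (nat_lit 1900) (nat_lit 4036634532) (nat_lit 467) (nat_lit 5) (nat_lit 491) (nat_lit 5) (nat_lit 492) (nat_lit 5) (nat_lit 486) (nat_lit 481) (nat_lit 233)) (XT.lf (nat_lit 76) (nat_lit 2052011726) (nat_lit 0) (nat_lit 9751976538) (nat_lit 1900) (nat_lit 36935024626) (nat_lit 468) (nat_lit 5) (nat_lit 467) (nat_lit 5) (nat_lit 492) (nat_lit 5) (nat_lit 487) (nat_lit 481) (nat_lit 232)))) (XT.nd (nat_lit 78) (nat_lit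 0) (nat_lit 76) (XT.lf (nat_lit 0) (nat_lit 2546225174) (nat_lit 1900) (nat_lit 10197131760) (nat_lit 1900) (nat_lit 10197131760) (nat_lit 463) (nat_lit 3) (nat_lit 488) (nat_lit 3) (nat_lit 488) (nat_lit 5) (nat_lit 482) (nat_lit 482) (nat_lit 236)) (XT.nd (nat_lit 78) (nat_lit 0) (nat_lit 0) (XT.lf (nat_lit 0) (nat_lit 5359913806) (nat_lit 1824) (nat_lit 32839574994) (nat_lit 1900) (nat_lit 8365877472) (nat_lit 464) (nat_lit 5) (nat_lit 488) (nat_lit 5) (nat_lit 489) (nat_lit 5) (nat_lit 483) (nat_lit 482) (nat_lit 235)) (XT.lf (nat_lit 76) (nat_lit 1731455518) (nat_lit 0) (nat_lit 4222924216) (nat_lit 1900) (nat_lit 41309527682) (nat_lit 465) (nat_lit 5) (nat_lit 464) (nat_lit 5) (nat_lit 489) (nat_lit 5) (nat_lit 484) (nat_lit 482) (nat_lit 234))))) (XT.nd (nat_lit 62400) (nat_lit 76) (nat_lit 0) (XT.nd (nat_lit 78) (nat_lit 0) (nat_lit 76) (XT.lf (nat_lit 0) (nat_lit 6988717568) (nat_lit 1824)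 (nat_lit 10392102274) (nat_lit 1900) (nat_lit 30594144354) (nat_lit 465) (nat_lit 5) (nat_lit 489) (nat_lit 5) (nat_lit 490) (nat_lit 5) (nat_lit 485) (nat_lit 482) (nat_lit 233)) (XT.nd (nat_lit 78) (nat_lit 0) (nat_lit 76) (XT.lf (nat_lit 0) (nat_lit 8366168072) (nat_lit 1824) (nat_lit 22703673206) (nat_lit 1900) (nat_lit 17631269907) (nat_lit 466) (nat_lit 5) (nat_lit 490) (nat_lit 5) (nat_lit 491) (nat_lit 5) (nat_lit 486) (nat_lit 482) (nat_lit 232)) (XT.lf (nat_lit 0) (nat_lit 10090003164) (nat_lit 1824) (nat_lit 35228249002) (nat_lit 1900) (nat_lit 4124689348) (nat_lit 467) (nat_lit 5) (nat_lit 491) (nat_lit 5) (nat_lit 492) (nat_lit 5) (nat_lit 487) (nat_lit 482) (nat_lit 231)))) (XT.nd (nat_lit 156) (nat_lit 0) (nat_lit 0) (XT.nd (nat_lit 78) (nat_lit 0) (nat_lit 0) (XT.lf (nat_lit 0) (nat_lit 5610261003) (nat_lit 1824) (nat_lit 33776402249) (nat_lit 1900) (nat_lit 8573864851) (nat_lit 464)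 (nat_lit 5) (nat_lit 488) (nat_lit 5) (nat_lit 489) (nat_lit 5) (nat_lit 484) (nat_lit 483) (nat_lit 233)) (XT.lf (nat_lit 76) (nat_lit 1830974595) (nat_lit 0) (nat_lit 4389286959) (nat_lit 1900) (nat_lit 42459810152) (nat_lit 465) (nat_lit 5) (nat_lit 464) (nat_lit 5) (nat_lit 489) (nat_lit 5) (nat_lit 485) (nat_lit 483) (nat_lit 232))) (XT.nd (nat_lit 62400) (nat_lit 76) (nat_lit 0) (XT.lf (nat_lit 0) (nat_lit 7282838155) (nat_lit 1824) (nat_lit 10655723652) (nat_lit 1900) (nat_lit 31473954440) (nat_lit 465) (nat_lit 5) (nat_lit 489) (nat_lit 5) (nat_lit 490) (nat_lit 5) (nat_lit 486) (nat_lit 483) (nat_lit 231)) (XT.lf (nat_lit 0) (nat_lit 5862978092) (nat_lit 1824) (nat_lit 34744110383) (nat_lit 1900) (nat_lit 8790559593) (nat_lit 464) (nat_lit 5) (nat_lit 488) (nat_lit 5) (nat_lit 489) (nat_lit 5) (nat_lit 485) (nat_lit 484) (nat_lit 231))))))))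

set_option maxRecDepth 10000000 in
noncomputable def Tp : PT := (PT.nd (nat_lit 12824604) (PT.nd (nat_lit 11823942) (PT.nd (nat_lit 10825074) (PT.nd (nat_lit 9888918) (PT.nd (nat_lit 9139650) pc0 (PT.nd (nat_lit 436878) pc1 pc2)) (PT.nd (nat_lit 499590) pc3 (PT.nd (nat_lit 249210) pc4 pc5))) (PT.nd (nat_lit 562146) (PT.nd (nat_lit 312078) pc6 (PT.nd (nat_lit 125112) pc7 pc8)) (PT.nd (nat_lit 249132) (PT.nd (nat_lit 124566) pc9 pc10) (PT.nd (nat_lit 63414) pc11 pc12)))) (PT.nd (nat_lit 563472) (PT.nd (nat_lit 312702) (PT.nd (nat_lit 186810) pc13 (PT.nd (nat_lit 62946) pc14 pc15)) (PT.nd (nat_lit 125502) pc16 (PT.nd (nat_lit 62634) pc17 pc18))) (PT.nd (nat_lit 248976) (PT.nd (nat_lit 124644) pc19 (PT.nd (nat_lit 62166) pc20 pc21)) (PT.nd (nat_lit 123942) (PT.nd (nat_lit 62010) pc22 pc23) (PT.nd (nat_lit 61698) pc24 pc25))))) (PT.nd (nat_lit 625092) (PT.nd (nat_lit 372762) (PT.nd (nat_lit 186966) (PT.nd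 (nat_lit 123084) pc26 (PT.nd (nat_lit 61308) pc27 pc28)) (PT.nd (nat_lit 122304) pc29 (PT.nd (nat_lit 2496) pc30 pc31))) (PT.nd (nat_lit 126438) (PT.nd (nat_lit 63258) pc32 (PT.nd (nat_lit 60606) pc33 pc34)) (PT.nd (nat_lit 63024) (PT.nd (nat_lit 60450) pc35 pc36) (PT.nd (nat_lit 60294) pc37 pc38)))) (PT.nd (nat_lit 375258) (PT.nd (nat_lit 183456) (PT.nd (nat_lit 62634) pc39 (PT.nd (nat_lit 60996) pc40 pc41)) (PT.nd (nat_lit 66534) pc42 (PT.nd (nat_lit 62478) pc43 pc44))) (PT.nd (nat_lit 369174) (PT.nd (nat_lit 182208) pc45 (PT.nd (nat_lit 67782) pc46 pc47)) (PT.nd (nat_lit 249288) (PT.nd (nat_lit 124488) pc48 pc49) (PT.nd (nat_lit 186654) pc50 pc51))))))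

set_option maxRecDepth 10000000 in
noncomputable def Tx : XT := (XT.nd (nat_lit 22280232) (nat_lit 0) (nat_lit 836) XT.nil (XT.nd (nat_lit 7997028) (nat_lit 0) (nat_lit 0) (XT.nd (nat_lit 3624192) (nat_lit 0) (nat_lit 5016) (XT.nd (nat_lit 2435940) (nat_lit 0) (nat_lit 2888) (XT.nd (nat_lit 1686828) (nat_lit 0) (nat_lit 1444) (XT.nd (nat_lit 1185990) (nat_lit 0) (nat_lit 760) (XT.nd (nat_lit 811746) (nat_lit 0) (nat_lit 304) (XT.nd (nat_lit 561756) (nat_lit 0) (nat_lit 152) (XT.nd (nat_lit 374556) (nat_lit 0) (nat_lit 152) xc0 xc1) (XT.nd (nat_lit 125268) (nat_lit 0) (nat_lit 76) xc2 xc3)) (XT.nd (nat_lit 187824) (nat_lit 0) (nat_lit 152) (XT.nd (nat_lit 124020) (nat_lit 0) (nat_lit 152) xc4 xc5) (XT.nd (nat_lit 123084) (nat_lit 0) (nat_lit 76) xc6 xc7))) (XT.nd (nat_lit 310206) (nat_lit 0) (nat_lit 304) (XT.nd (nat_lit 126126) (nat_lit 0) (nat_lit 76) (XT.nd (nat_lit 63102) (nat_lit 0) (nat_lit 0)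 xc8 xc9) (XT.nd (nat_lit 121524) (nat_lit 0) (nat_lit 152) xc10 xc11)) (XT.nd (nat_lit 124566) (nat_lit 0) (nat_lit 304) (XT.nd (nat_lit 62322) (nat_lit 0) (nat_lit 76) xc12 xc13) (XT.nd (nat_lit 62088) (nat_lit 0) (nat_lit 456) xc14 xc15)))) (XT.nd (nat_lit 434460) (nat_lit 0) (nat_lit 760) (XT.nd (nat_lit 246948) (nat_lit 0) (nat_lit 380) (XT.nd (nat_lit 123786) (nat_lit 0) (nat_lit 152) (XT.nd (nat_lit 61932) (nat_lit 0) (nat_lit 0) xc16 xc17) (XT.nd (nat_lit 61620) (nat_lit 0) (nat_lit 228) xc18 xc19)) (XT.nd (nat_lit 65286) (nat_lit 0) (nat_lit 152) (XT.nd (nat_lit 61308) (nat_lit 0) (nat_lit 912) xc20 xc21) (XT.nd (nat_lit 61152) (nat_lit 0) (nat_lit 152) xc22 xc23))) (XT.nd (nat_lit 186108) (nat_lit 0) (nat_lit 380) (XT.nd (nat_lit 64818) (nat_lit 0) (nat_lit 152) (XT.nd (nat_lit 60840) (nat_lit 0) (nat_lit 2052) xc24 xc25) (XT.nd (nat_lit 60684) (nat_lit 0) (nat_lit 152) xc26 xc27)) (XT.nd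 (nat_lit 64350) (nat_lit 0) (nat_lit 152) (XT.nd (nat_lit 3900) (nat_lit 1216) (nat_lit 0) xc28 xc29) (XT.nd (nat_lit 60216) (nat_lit 0) (nat_lit 2584) xc30 xc31))))) (XT.nd (nat_lit 621036) (nat_lit 0) (nat_lit 1216) (XT.nd (nat_lit 310752) (nat_lit 0) (nat_lit 760) (XT.nd (nat_lit 183768) (nat_lit 0) (nat_lit 456) (XT.nd (nat_lit 120042) (nat_lit 0) (nat_lit 304) (XT.nd (nat_lit 60060) (nat_lit 0) (nat_lit 76) xc32 xc33) (XT.nd (nat_lit 3900) (nat_lit 6384) (nat_lit 0) xc34 xc35)) (XT.nd (nat_lit 63570) (nat_lit 0) (nat_lit 304) (XT.nd (nat_lit 3900) (nat_lit 1672) (nat_lit 0) xc36 xc37) (XT.nd (nat_lit 59436) (nat_lit 0) (nat_lit 10032) xc38 xc39))) (XT.nd (nat_lit 127062) (nat_lit 0) (nat_lit 380) (XT.nd (nat_lit 63492) (nat_lit 0) (nat_lit 152) (XT.nd (nat_lit 59514) (nat_lit 0) (nat_lit 5244) xc40 xc41) (XT.nd (nat_lit 59592) (nat_lit 0) (nat_lit 1216) xc42 xc43)) (XT.nd (nat_lit 119496) (nat_lit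 0) (nat_lit 0) (XT.nd (nat_lit 59670) (nat_lit 0) (nat_lit 228) xc44 xc45) (XT.nd (nat_lit 3900) (nat_lit 7904) (nat_lit 0) xc46 xc47)))) (XT.nd (nat_lit 311142) (nat_lit 0) (nat_lit 684) (XT.nd (nat_lit 127452) (nat_lit 0) (nat_lit 152) (XT.nd (nat_lit 63726) (nat_lit 152) (nat_lit 0) (XT.nd (nat_lit 3900) (nat_lit 2432) (nat_lit 0) xc48 xc49) (XT.nd (nat_lit 59748) (nat_lit 0) (nat_lit 9576) xc50 xc51)) (XT.nd (nat_lit 63804) (nat_lit 0) (nat_lit 228) (XT.nd (nat_lit 59826) (nat_lit 0) (nat_lit 3268) xc52 xc53) (XT.nd (nat_lit 59904) (nat_lit 0) (nat_lit 0) xc54 xc55))) (XT.nd (nat_lit 127920) (nat_lit 0) (nat_lit 228) (XT.nd (nat_lit 63960) (nat_lit 0) (nat_lit 0) (XT.nd (nat_lit 3900) (nat_lit 8892) (nat_lit 0) xc56 xc57) (XT.nd (nat_lit 3900) (nat_lit 2508) (nat_lit 0) xc58 xc59)) (XT.nd (nat_lit 64038) (nat_lit 0) (nat_lit 0) (XT.nd (nat_lit 60060) (nat_lit 0) (nat_lit 6460) xc60 xc61) (XT.nd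 (nat_lit 60138) (nat_lit 0) (nat_lit 304) xc62 xc63)))))) (XT.nd (nat_lit 1435668) (nat_lit 0) (nat_lit 5624) (XT.nd (nat_lit 684996) (nat_lit 0) (nat_lit 2204) (XT.nd (nat_lit 369876) (nat_lit 0) (nat_lit 1064) (XT.nd (nat_lit 184704) (nat_lit 0) (nat_lit 532) (XT.nd (nat_lit 120432) (nat_lit 0) (nat_lit 532) (XT.nd (nat_lit 60138) (nat_lit 0) (nat_lit 304) xc64 xc65) (XT.nd (nat_lit 3900) (nat_lit 2280) (nat_lit 0) xc66 xc67)) (XT.nd (nat_lit 64272) (nat_lit 0) (nat_lit 228) (XT.nd (nat_lit 60294) (nat_lit 0) (nat_lit 4408) xc68 xc69) (XT.nd (nat_lit 60372) (nat_lit 0) (nat_lit 304) xc70 xc71))) (XT.nd (nat_lit 129012) (nat_lit 0) (nat_lit 228) (XT.nd (nat_lit 64506) (nat_lit 0) (nat_lit 0) (XT.nd (nat_lit 3900) (nat_lit 5016) (nat_lit 0) xc72 xc73) (XT.nd (nat_lit 60528) (nat_lit 0) (nat_lit 5016) xc74 xc75)) (XT.nd (nat_lit 121368) (nat_lit 0) (nat_lit 608) (XT.nd (nat_lit 60606) (nat_lit 0) (nat_lit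 380) xc76 xc77) (XT.nd (nat_lit 3900) (nat_lit 3344) (nat_lit 0) xc78 xc79)))) (XT.nd (nat_lit 374010) (nat_lit 0) (nat_lit 1292) (XT.nd (nat_lit 186732) (nat_lit 0) (nat_lit 608) (XT.nd (nat_lit 64818) (nat_lit 0) (nat_lit 304) (XT.nd (nat_lit 60840) (nat_lit 0) (nat_lit 912) xc80 xc81) (XT.nd (nat_lit 60918) (nat_lit 0) (nat_lit 0) xc82 xc83)) (XT.nd (nat_lit 64974) (nat_lit 0) (nat_lit 0) (XT.nd (nat_lit 60996) (nat_lit 0) (nat_lit 3268) xc84 xc85) (XT.nd (nat_lit 61074) (nat_lit 0) (nat_lit 380) xc86 xc87))) (XT.nd (nat_lit 187980) (nat_lit 0) (nat_lit 988) (XT.nd (nat_lit 65208) (nat_lit 0) (nat_lit 304) (XT.nd (nat_lit 61230) (nat_lit 0) (nat_lit 3420) xc88 xc89) (XT.nd (nat_lit 61308) (nat_lit 0) (nat_lit 380) xc90 xc91)) (XT.nd (nat_lit 123084) (nat_lit 0) (nat_lit 760) (XT.nd (nat_lit 61464) (nat_lit 0) (nat_lit 380) xc92 xc93) (XT.nd (nat_lit 3900) (nat_lit 3800) (nat_lit 0) xc94 xc95)))))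 (XT.nd (nat_lit 938262) (nat_lit 0) (nat_lit 5396) (XT.nd (nat_lit 437736) (nat_lit 0) (nat_lit 2508) (XT.nd (nat_lit 247416) (nat_lit 0) (nat_lit 1216) (XT.nd (nat_lit 123552) (nat_lit 0) (nat_lit 456) (XT.nd (nat_lit 61698) (nat_lit 0) (nat_lit 0) xc96 xc97) (XT.nd (nat_lit 61854) (nat_lit 0) (nat_lit 380) xc98 xc99)) (XT.nd (nat_lit 65988) (nat_lit 0) (nat_lit 456) (XT.nd (nat_lit 3900) (nat_lit 1292) (nat_lit 0) xc100 xc101) (XT.nd (nat_lit 62088) (nat_lit 0) (nat_lit 380) xc102 xc103))) (XT.nd (nat_lit 249600) (nat_lit 0) (nat_lit 1444) (XT.nd (nat_lit 124644) (nat_lit 0) (nat_lit 456) (XT.nd (nat_lit 62244) (nat_lit 0) (nat_lit 76) xc104 xc105) (XT.nd (nat_lit 62400) (nat_lit 0) (nat_lit 456) xc106 xc107)) (XT.nd (nat_lit 125268) (nat_lit 0) (nat_lit 912) (XT.nd (nat_lit 62556) (nat_lit 0) (nat_lit 456) xc108 xc109) (XT.nd (nat_lit 62790) (nat_lit 532) (nat_lit 0) xc110 xc111)))) (XT.nd (nat_lit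 685230) (nat_lit 0) (nat_lit 7296) (XT.nd (nat_lit 311610) (nat_lit 0) (nat_lit 2736) (XT.nd (nat_lit 185172) (nat_lit 0) (nat_lit 1596) (XT.nd (nat_lit 62868) (nat_lit 0) (nat_lit 1064) xc112 xc113) (XT.nd (nat_lit 63102) (nat_lit 0) (nat_lit 608) xc114 xc115)) (XT.nd (nat_lit 186498) (nat_lit 0) (nat_lit 1900) (XT.nd (nat_lit 63336) (nat_lit 0) (nat_lit 1292) xc116 xc117) (XT.nd (nat_lit 63570) (nat_lit 0) (nat_lit 608) xc118 xc119))) (XT.nd (nat_lit 377052) (nat_lit 0) (nat_lit 4560) (XT.nd (nat_lit 188058) (nat_lit 0) (nat_lit 2204) (XT.nd (nat_lit 63882) (nat_lit 0) (nat_lit 0) xc120 xc121) (XT.nd (nat_lit 124566) (nat_lit 0) (nat_lit 1520) xc122 xc123)) (XT.nd (nat_lit 311844) (nat_lit 0) (nat_lit 5396) (XT.nd (nat_lit 185952) (nat_lit 0) (nat_lit 3496) xc124 xc125) (XT.nd (nat_lit 187668) (nat_lit 0) (nat_lit 1064) xc126 xc127))))))) XT.nil))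

set_option maxRecDepth 10000000 in
noncomputable def Te : XT := XT.nil

set_option maxRecDepth 10000000 in
noncomputable def Tz : ZL := (ZL.cons (nat_lit 76) (nat_lit 3) (nat_lit 205482471746731260537) (ZL.cons (nat_lit 152) (nat_lit 6) (nat_lit 405033326939270559012) (ZL.cons (nat_lit 4712) (nat_lit 6) (nat_lit 218340699059386766422) (ZL.cons (nat_lit 4788) (nat_lit 3) (nat_lit 109123633589194412662) (ZL.cons (nat_lit 4940) (nat_lit 6) (nat_lit 215264633331950497876) (ZL.cons (nat_lit 5016) (nat_lit 6) (nat_lit 212376662915192632678) (ZL.cons (nat_lit 5092) (nat_lit 3) (nat_lit 106142976175558480853) (ZL.cons (nat_lit 5244) (nat_lit 6) (nat_lit 209402053385932031522) (ZL.cons (nat_lit 5320) (nat_lit 6) (nat_lit 206610416524678555442) (ZL.cons (nat_lit 5396) (nat_lit 3) (nat_lit 103261174007933612202) (ZL.cons (nat_lit 5548) (nat_lit 6) (nat_lit 203735030557587475082) (ZL.cons (nat_lit 5624) (nat_lit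 6) (nat_lit 201037665490983607078) (ZL.cons (nat_lit 5700) (nat_lit 3) (nat_lit 100476081042185332159) (ZL.cons (nat_lit 5852) (nat_lit 6) (nat_lit 198259379472381623032) (ZL.cons (nat_lit 5928) (nat_lit 6) (nat_lit 195654329804774923902) (ZL.cons (nat_lit 6004) (nat_lit 3) (nat_lit 97785658394322926633) (ZL.cons (nat_lit 6080) (nat_lit 6) (nat_lit 193134736824559454276) (ZL.cons (nat_lit 6156) (nat_lit 6) (nat_lit 192971128647140023798) (ZL.cons (nat_lit 6232) (nat_lit 6) (nat_lit 190456543038808449926) (ZL.cons (nat_lit 6308) (nat_lit 3) (nat_lit 95187973938759045042) (ZL.cons (nat_lit 6384) (nat_lit 6) (nat_lit 188025362752925405034) (ZL.cons (nat_lit 6460) (nat_lit 6) (nat_lit 187866519862226928838) (ZL.cons (nat_lit 6612) (nat_lit 6) (nat_lit 185440651897175508952) (ZL.cons (nat_lit 6688) (nat_lit 3) (nat_lit 92681202083883696299) (ZL.cons (nat_lit 6764) (nat_lit 6) (nat_lit 183096224291908931122)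 (ZL.cons (nat_lit 6840) (nat_lit 6) (nat_lit 182942007893172546468) (ZL.cons (nat_lit 6992) (nat_lit 6) (nat_lit 180603216129076239606) (ZL.cons (nat_lit 7068) (nat_lit 3) (nat_lit 90263623729873985653) (ZL.cons (nat_lit 7144) (nat_lit 6) (nat_lit 178343985271024407282) (ZL.cons (nat_lit 7220) (nat_lit 6) (nat_lit 178194260612057043540) (ZL.cons (nat_lit 7296) (nat_lit 6) (nat_lit 176162341233801276052) (ZL.cons (nat_lit 7372) (nat_lit 6) (nat_lit 175941008817902751688) (ZL.cons (nat_lit 7448) (nat_lit 3) (nat_lit 87933626414131828123) (ZL.cons (nat_lit 7524) (nat_lit 6) (nat_lit 173765523216494087140) (ZL.cons (nat_lit 7600) (nat_lit 6) (nat_lit 173620159469923831076) (ZL.cons (nat_lit 7676) (nat_lit 6) (nat_lit 171665902898082246210) (ZL.cons (nat_lit 7752) (nat_lit 6) (nat_lit 171451017057404067214) (ZL.cons (nat_lit 7828) (nat_lit 3) (nat_lit 85689704650236453296) (ZL.cons (nat_lit 7904) (nat_lit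 6) (nat_lit 169357930223547793990) (ZL.cons (nat_lit 7980) (nat_lit 6) (nat_lit 169216800372508710436) (ZL.cons (nat_lit 8056) (nat_lit 6) (nat_lit 167339070057529311744) (ZL.cons (nat_lit 8132) (nat_lit 6) (nat_lit 167130443027744671946) (ZL.cons (nat_lit 8208) (nat_lit 3) (nat_lit 83530460466818374507) (ZL.cons (nat_lit 8360) (nat_lit 6) (nat_lit 165118514235491191480) (ZL.cons (nat_lit 8436) (nat_lit 6) (nat_lit 164981494962637712304) (ZL.cons (nat_lit 8512) (nat_lit 6) (nat_lit 163179255999716202892) (ZL.cons (nat_lit 8588) (nat_lit 6) (nat_lit 162976705485362183670) (ZL.cons (nat_lit 8664) (nat_lit 3) (nat_lit 81454604153308313713) (ZL.cons (nat_lit 8740) (nat_lit 6) (nat_lit 161310973822932135802) (ZL.cons (nat_lit 8816) (nat_lit 6) (nat_lit 161044800744014485468) (ZL.cons (nat_lit 8892) (nat_lit 6) (nat_lit 160911772323768389178) (ZL.cons (nat_lit 8968) (nat_lit 6) (nat_lit 159184092666490527478)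 (ZL.cons (nat_lit 9044) (nat_lit 6) (nat_lit 158987441681680800076) (ZL.cons (nat_lit 9120) (nat_lit 3) (nat_lit 79460955220090130015) (ZL.cons (nat_lit 9196) (nat_lit 6) (nat_lit 157392955391363347014) (ZL.cons (nat_lit 9272) (nat_lit 6) (nat_lit 157134534926394754456) (ZL.cons (nat_lit 9348) (nat_lit 6) (nat_lit 157005381120330583298) (ZL.cons (nat_lit 9500) (nat_lit 6) (nat_lit 155351433013172623734) (ZL.cons (nat_lit 9576) (nat_lit 6) (nat_lit 155160509726949587420) (ZL.cons (nat_lit 9652) (nat_lit 3) (nat_lit 77548443581192978154) (ZL.cons (nat_lit 9728) (nat_lit 6) (nat_lit 153636577891798971098) (ZL.cons (nat_lit 9804) (nat_lit 6) (nat_lit 153385684236489657934) (ZL.cons (nat_lit 9880) (nat_lit 6) (nat_lit 153260292191767161666) (ZL.cons (nat_lit 9956) (nat_lit 6) (nat_lit 151988471145177450636) (ZL.cons (nat_lit 10032) (nat_lit 6) (nat_lit 151679353830561072568) (ZL.cons (nat_lit 10108) (nat_lit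 6) (nat_lit 151493991416752299450) (ZL.cons (nat_lit 10184) (nat_lit 3) (nat_lit 75716110968296717147) (ZL.cons (nat_lit 10260) (nat_lit 6) (nat_lit 150040027540847971398) (ZL.cons (nat_lit 10336) (nat_lit 6) (nat_lit 149796441467732133376) (ZL.cons (nat_lit 10412) (nat_lit 6) (nat_lit 149674701618486991370) (ZL.cons (nat_lit 10488) (nat_lit 6) (nat_lit 148466272946320508022) (ZL.cons (nat_lit 10564) (nat_lit 6) (nat_lit 148166159048634704074) (ZL.cons (nat_lit 10640) (nat_lit 6) (nat_lit 147986195540082497164) (ZL.cons (nat_lit 10716) (nat_lit 3) (nat_lit 73963112585498110157) (ZL.cons (nat_lit 10792) (nat_lit 6) (nat_lit 146956714921604823492) (ZL.cons (nat_lit 10868) (nat_lit 6) (nat_lit 146601719640841382722) (ZL.cons (nat_lit 10944) (nat_lit 6) (nat_lit 146365228307719209886) (ZL.cons (nat_lit 11020) (nat_lit 6) (nat_lit 146247034279325868132) (ZL.cons (nat_lit 11096) (nat_lit 6) (nat_lit 145101756258461864478)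 (ZL.cons (nat_lit 11172) (nat_lit 6) (nat_lit 144810383542262054820) (ZL.cons (nat_lit 11248) (nat_lit 6) (nat_lit 144635661689298747140) (ZL.cons (nat_lit 11324) (nat_lit 3) (nat_lit 72288719014995841118) (ZL.cons (nat_lit 11400) (nat_lit 6) (nat_lit 143664958253880477918) (ZL.cons (nat_lit 11476) (nat_lit 6) (nat_lit 143320302641488787850) (ZL.cons (nat_lit 11552) (nat_lit 6) (nat_lit 143090699405447843348) (ZL.cons (nat_lit 11628) (nat_lit 6) (nat_lit 142975947921570812518) (ZL.cons (nat_lit 11780) (nat_lit 6) (nat_lit 141893683592961840102) (ZL.cons (nat_lit 11856) (nat_lit 6) (nat_lit 141610797460729015190) (ZL.cons (nat_lit 11932) (nat_lit 6) (nat_lit 141441164593774347538) (ZL.cons (nat_lit 12008) (nat_lit 3) (nat_lit 70692318384602190806) (ZL.cons (nat_lit 12084) (nat_lit 6) (nat_lit 140529279836347547252) (ZL.cons (nat_lit 12160) (nat_lit 6) (nat_lit 140194662736938139420) (ZL.cons (nat_lit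 12236) (nat_lit 6) (nat_lit 139971746973791591358) (ZL.cons (nat_lit 12312) (nat_lit 6) (nat_lit 139860337766143988610) (ZL.cons (nat_lit 12388) (nat_lit 6) (nat_lit 139225899174188673508) (ZL.cons (nat_lit 12464) (nat_lit 6) (nat_lit 138841057834802000704) (ZL.cons (nat_lit 12540) (nat_lit 6) (nat_lit 138566411104478869722) (ZL.cons (nat_lit 12616) (nat_lit 6) (nat_lit 138401719000639386564) (ZL.cons (nat_lit 12692) (nat_lit 3) (nat_lit 69173418808780874871) (ZL.cons (nat_lit 12768) (nat_lit 6) (nat_lit 137548799992755625720) (ZL.cons (nat_lit 12844) (nat_lit 6) (nat_lit 137223929022455229766) (ZL.cons (nat_lit 12920) (nat_lit 6) (nat_lit 137007505951439163688) (ZL.cons (nat_lit 12996) (nat_lit 6) (nat_lit 136899341672169646456) (ZL.cons (nat_lit 13072) (nat_lit 6) (nat_lit 136316760053461304044) (ZL.cons (nat_lit 13148) (nat_lit 6) (nat_lit 135943127685124728506) (ZL.cons (nat_lit 13224) (nat_lit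 6) (nat_lit 135676480374131397456) (ZL.cons (nat_lit 13300) (nat_lit 6) (nat_lit 135516585127685297304) (ZL.cons (nat_lit 13376) (nat_lit 3) (nat_lit 67731651115746708447) (ZL.cons (nat_lit 13452) (nat_lit 6) (nat_lit 135143861477166254230) (ZL.cons (nat_lit 13528) (nat_lit 6) (nat_lit 134722887945687756764) (ZL.cons (nat_lit 13604) (nat_lit 6) (nat_lit 134407479236658246130) (ZL.cons (nat_lit 13680) (nat_lit 6) (nat_lit 134197359750234881006) (ZL.cons (nat_lit 13756) (nat_lit 6) (nat_lit 134092345886866417676) (ZL.cons (nat_lit 13832) (nat_lit 6) (nat_lit 133562143575245777382) (ZL.cons (nat_lit 13908) (nat_lit 6) (nat_lit 133199393703074344820) (ZL.cons (nat_lit 13984) (nat_lit 6) (nat_lit 132940512818614800112) (ZL.cons (nat_lit 14060) (nat_lit 6) (nat_lit 132785274715269071810) (ZL.cons (nat_lit 14136) (nat_lit 3) (nat_lit 66366771874046244445) (ZL.cons (nat_lit 14212) (nat_lit 6) (nat_lit 132459880331145006108)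 (ZL.cons (nat_lit 14288) (nat_lit 6) (nat_lit 132051168164661027984) (ZL.cons (nat_lit 14364) (nat_lit 6) (nat_lit 131744946117059561348) (ZL.cons (nat_lit 14440) (nat_lit 6) (nat_lit 131540946615677653462) (ZL.cons (nat_lit 14516) (nat_lit 6) (nat_lit 131438991408523805570) (ZL.cons (nat_lit 14592) (nat_lit 6) (nat_lit 131415135070744966534) (ZL.cons (nat_lit 14668) (nat_lit 6) (nat_lit 130961799317549779132) (ZL.cons (nat_lit 14744) (nat_lit 6) (nat_lit 130609614975635766934) (ZL.cons (nat_lit 14820) (nat_lit 6) (nat_lit 130358274311111937120) (ZL.cons (nat_lit 14896) (nat_lit 6) (nat_lit 130207557705921909644) (ZL.cons (nat_lit 14972) (nat_lit 3) (nat_lit 65078666732972322336) (ZL.cons (nat_lit 15124) (nat_lit 6) (nat_lit 129930335286048947652) (ZL.cons (nat_lit 15200) (nat_lit 6) (nat_lit 129533527357423726176) (ZL.cons (nat_lit 15276) (nat_lit 6) (nat_lit 129236224398587350800) (ZL.cons (nat_lit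 15352) (nat_lit 6) (nat_lit 129038166630255401396) (ZL.cons (nat_lit 15428) (nat_lit 6) (nat_lit 128939180992241956840) (ZL.cons (nat_lit 15504) (nat_lit 6) (nat_lit 128955874790907707582) (ZL.cons (nat_lit 15580) (nat_lit 6) (nat_lit 128515742991689079034) (ZL.cons (nat_lit 15656) (nat_lit 6) (nat_lit 128173816446141494380) (ZL.cons (nat_lit 15732) (nat_lit 6) (nat_lit 127929796383496999414) (ZL.cons (nat_lit 15808) (nat_lit 6) (nat_lit 127783469582341632930) (ZL.cons (nat_lit 15884) (nat_lit 3) (nat_lit 63867354092152726673) (ZL.cons (nat_lit 15960) (nat_lit 6) (nat_lit 128037566361790498612) (ZL.cons (nat_lit 16036) (nat_lit 6) (nat_lit 127555372552287008832) (ZL.cons (nat_lit 16112) (nat_lit 6) (nat_lit 127170122136146017106) (ZL.cons (nat_lit 16188) (nat_lit 6) (nat_lit 126881478486790312862) (ZL.cons (nat_lit 16264) (nat_lit 6) (nat_lit 126689189391322400816) (ZL.cons (nat_lit 16340) (nat_lit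 6) (nat_lit 126593086830144299304) (ZL.cons (nat_lit 16416) (nat_lit 6) (nat_lit 127174607593273820266) (ZL.cons (nat_lit 16492) (nat_lit 6) (nat_lit 126651576880581144824) (ZL.cons (nat_lit 16568) (nat_lit 6) (nat_lit 126224264454155291866) (ZL.cons (nat_lit 16644) (nat_lit 6) (nat_lit 125892296934206180550) (ZL.cons (nat_lit 16720) (nat_lit 6) (nat_lit 125655384252027059226) (ZL.cons (nat_lit 16796) (nat_lit 6) (nat_lit 125513319396536412152) (ZL.cons (nat_lit 16872) (nat_lit 3) (nat_lit 62732989116697245112) (ZL.cons (nat_lit 16948) (nat_lit 6) (nat_lit 125803566252198151792) (ZL.cons (nat_lit 17024) (nat_lit 6) (nat_lit 125335416922583113172) (ZL.cons (nat_lit 17100) (nat_lit 6) (nat_lit 124961387392349140624) (ZL.cons (nat_lit 17176) (nat_lit 6) (nat_lit 124681150839576612228) (ZL.cons (nat_lit 17252) (nat_lit 6) (nat_lit 124494462397374755876) (ZL.cons (nat_lit 17328) (nat_lit 6) (nat_lit 124401158939920288386)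 (ZL.cons (nat_lit 17404) (nat_lit 6) (nat_lit 125010599686977306732) (ZL.cons (nat_lit 17480) (nat_lit 6) (nat_lit 124502802878537816010) (ZL.cons (nat_lit 17556) (nat_lit 6) (nat_lit 124087936445114657800) (ZL.cons (nat_lit 17632) (nat_lit 6) (nat_lit 123765637882057268172) (ZL.cons (nat_lit 17708) (nat_lit 6) (nat_lit 123535625569262004748) (ZL.cons (nat_lit 17784) (nat_lit 6) (nat_lit 123397698525096327980) (ZL.cons (nat_lit 17860) (nat_lit 3) (nat_lit 61675868115391891209) (ZL.cons (nat_lit 17936) (nat_lit 6) (nat_lit 124271984301512105990) (ZL.cons (nat_lit 18012) (nat_lit 6) (nat_lit 123725694795184797698) (ZL.cons (nat_lit 18088) (nat_lit 6) (nat_lit 123271180882937187386) (ZL.cons (nat_lit 18164) (nat_lit 6) (nat_lit 122908045416690612096) (ZL.cons (nat_lit 18240) (nat_lit 6) (nat_lit 122635971093610487440) (ZL.cons (nat_lit 18316) (nat_lit 6) (nat_lit 122454720178851403600) (ZL.cons (nat_lit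 18392) (nat_lit 6) (nat_lit 122364134297827648760) (ZL.cons (nat_lit 18468) (nat_lit 6) (nat_lit 123587074703718162502) (ZL.cons (nat_lit 18544) (nat_lit 6) (nat_lit 123003413646043458508) (ZL.cons (nat_lit 18620) (nat_lit 6) (nat_lit 122510407035908030626) (ZL.cons (nat_lit 18696) (nat_lit 6) (nat_lit 122107624090837003234) (ZL.cons (nat_lit 18772) (nat_lit 6) (nat_lit 121794712864567692916) (ZL.cons (nat_lit 18848) (nat_lit 6) (nat_lit 121571399939523747844) (ZL.cons (nat_lit 18924) (nat_lit 6) (nat_lit 121437490187906585932) (ZL.cons (nat_lit 19000) (nat_lit 3) (nat_lit 60696433300597688327) (ZL.cons (nat_lit 19076) (nat_lit 6) (nat_lit 122335328311663092414) (ZL.cons (nat_lit 19152) (nat_lit 6) (nat_lit 121804950150180268830) (ZL.cons (nat_lit 19228) (nat_lit 6) (nat_lit 121363674507221423868) (ZL.cons (nat_lit 19304) (nat_lit 6) (nat_lit 121011115802127661448) (ZL.cons (nat_lit 19380) (nat_lit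 6) (nat_lit 120746965973894530714) (ZL.cons (nat_lit 19456) (nat_lit 6) (nat_lit 120570994211992507570) (ZL.cons (nat_lit 19532) (nat_lit 6) (nat_lit 120483046754687891220) (ZL.cons (nat_lit 19608) (nat_lit 6) (nat_lit 121720855028159289394) (ZL.cons (nat_lit 19684) (nat_lit 6) (nat_lit 121154193807115887458) (ZL.cons (nat_lit 19760) (nat_lit 6) (nat_lit 120675546612809646794) (ZL.cons (nat_lit 19836) (nat_lit 6) (nat_lit 120284495209828066804) (ZL.cons (nat_lit 19912) (nat_lit 6) (nat_lit 119980697902770483968) (ZL.cons (nat_lit 19988) (nat_lit 6) (nat_lit 119763889237679275162) (ZL.cons (nat_lit 20064) (nat_lit 6) (nat_lit 119633879770089797580) (ZL.cons (nat_lit 20140) (nat_lit 3) (nat_lit 59795277949748195254) (ZL.cons (nat_lit 20216) (nat_lit 6) (nat_lit 121159456877128987866) (ZL.cons (nat_lit 20292) (nat_lit 6) (nat_lit 120557569384667548696) (ZL.cons (nat_lit 20368) (nat_lit 6) (nat_lit 120042639130800729680)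 (ZL.cons (nat_lit 20444) (nat_lit 6) (nat_lit 119614216176471753988) (ZL.cons (nat_lit 20520) (nat_lit 6) (nat_lit 119271926171526353582) (ZL.cons (nat_lit 20596) (nat_lit 6) (nat_lit 119015470027610692674) (ZL.cons (nat_lit 20672) (nat_lit 6) (nat_lit 118844623656832029430) (ZL.cons (nat_lit 20748) (nat_lit 6) (nat_lit 118759237775953761126) (ZL.cons (nat_lit 20824) (nat_lit 6) (nat_lit 120650643316498472036) (ZL.cons (nat_lit 20900) (nat_lit 6) (nat_lit 120014555560524375358) (ZL.cons (nat_lit 20976) (nat_lit 6) (nat_lit 119464399035239519108) (ZL.cons (nat_lit 21052) (nat_lit 6) (nat_lit 118999693021349965064) (ZL.cons (nat_lit 21128) (nat_lit 6) (nat_lit 118620031465057168956) (ZL.cons (nat_lit 21204) (nat_lit 6) (nat_lit 118325082623253690478) (ZL.cons (nat_lit 21280) (nat_lit 6) (nat_lit 118114588773650575132) (ZL.cons (nat_lit 21356) (nat_lit 6) (nat_lit 117988365989583121166) (ZL.cons (nat_lit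 21432) (nat_lit 3) (nat_lit 58973151989649129967) (ZL.cons (nat_lit 21508) (nat_lit 6) (nat_lit 119789037148163160494) (ZL.cons (nat_lit 21584) (nat_lit 6) (nat_lit 120193969751894375432) (ZL.cons (nat_lit 21660) (nat_lit 6) (nat_lit 119524677856587601560) (ZL.cons (nat_lit 21736) (nat_lit 6) (nat_lit 118940321067790087802) (ZL.cons (nat_lit 21812) (nat_lit 6) (nat_lit 118440388782482496524) (ZL.cons (nat_lit 21888) (nat_lit 6) (nat_lit 118024444166629122064) (ZL.cons (nat_lit 21964) (nat_lit 6) (nat_lit 117692123773478247884) (ZL.cons (nat_lit 22040) (nat_lit 6) (nat_lit 117443137225987314968) (ZL.cons (nat_lit 22116) (nat_lit 6) (nat_lit 117277266963095408900) (ZL.cons (nat_lit 22192) (nat_lit 6) (nat_lit 117194368049621362006) (ZL.cons (nat_lit 22268) (nat_lit 3) (nat_lit 58725669225113491530) (ZL.cons (nat_lit 22344) (nat_lit 6) (nat_lit 117476786658194616008) (ZL.cons (nat_lit 22420) (nat_lit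 6) (nat_lit 117553153518395739002) (ZL.cons (nat_lit 22496) (nat_lit 6) (nat_lit 117680505759154799622) (ZL.cons (nat_lit 22572) (nat_lit 6) (nat_lit 117858954659128771804) (ZL.cons (nat_lit 22648) (nat_lit 6) (nat_lit 118088656144540933782) (ZL.cons (nat_lit 22724) (nat_lit 6) (nat_lit 118369810925427082586) (ZL.cons (nat_lit 22800) (nat_lit 6) (nat_lit 118702664671013235236) (ZL.cons (nat_lit 22876) (nat_lit 6) (nat_lit 119087508224378059252) (ZL.cons (nat_lit 22952) (nat_lit 6) (nat_lit 118469947296247868300) (ZL.cons (nat_lit 23028) (nat_lit 6) (nat_lit 117935814747427619514) (ZL.cons (nat_lit 23104) (nat_lit 6) (nat_lit 117484643860156207820) (ZL.cons (nat_lit 23180) (nat_lit 6) (nat_lit 117116040407444755288) (ZL.cons (nat_lit 23256) (nat_lit 6) (nat_lit 116829682308606426670) (ZL.cons (nat_lit 23332) (nat_lit 6) (nat_lit 116625319347826703032) (ZL.cons (nat_lit 23408) (nat_lit 6) (nat_lit 116502772955528204036)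 (ZL.cons (nat_lit 23484) (nat_lit 3) (nat_lit 58230968026169509187) (ZL.cons (nat_lit 23560) (nat_lit 6) (nat_lit 116600694684562950272) (ZL.cons (nat_lit 23636) (nat_lit 6) (nat_lit 116652354546737245160) (ZL.cons (nat_lit 23712) (nat_lit 6) (nat_lit 116755719410771229948) (ZL.cons (nat_lit 23788) (nat_lit 6) (nat_lit 116910879595478138218) (ZL.cons (nat_lit 23864) (nat_lit 6) (nat_lit 117117970677718393482) (ZL.cons (nat_lit 23940) (nat_lit 6) (nat_lit 117377173610864827030) (ZL.cons (nat_lit 24016) (nat_lit 6) (nat_lit 117688714882917275552) (ZL.cons (nat_lit 24092) (nat_lit 6) (nat_lit 118052866714404716914) (ZL.cons (nat_lit 24168) (nat_lit 6) (nat_lit 117485530026251790934) (ZL.cons (nat_lit 24244) (nat_lit 6) (nat_lit 117000158875467721732) (ZL.cons (nat_lit 24320) (nat_lit 6) (nat_lit 116596329151338231966) (ZL.cons (nat_lit 24396) (nat_lit 6) (nat_lit 116273687992939324996) (ZL.cons (nat_lit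 24472) (nat_lit 6) (nat_lit 116031953480812205656) (ZL.cons (nat_lit 24548) (nat_lit 6) (nat_lit 115870914390625889090) (ZL.cons (nat_lit 24624) (nat_lit 6) (nat_lit 115790430008612251326) (ZL.cons (nat_lit 24700) (nat_lit 3) (nat_lit 57900137579438091228) (ZL.cons (nat_lit 24776) (nat_lit 6) (nat_lit 115826486813082844396) (ZL.cons (nat_lit 24852) (nat_lit 6) (nat_lit 115905144679090001078) (ZL.cons (nat_lit 24928) (nat_lit 6) (nat_lit 116036317487071833516) (ZL.cons (nat_lit 25004) (nat_lit 6) (nat_lit 116220119854045024868) (ZL.cons (nat_lit 25080) (nat_lit 6) (nat_lit 116456712384019551702) (ZL.cons (nat_lit 25156) (nat_lit 6) (nat_lit 116746301808332284968) (ZL.cons (nat_lit 25232) (nat_lit 6) (nat_lit 117089141166286022202) (ZL.cons (nat_lit 25308) (nat_lit 6) (nat_lit 116570565876169275806) (ZL.cons (nat_lit 25384) (nat_lit 6) (nat_lit 116132535888527128532) (ZL.cons (nat_lit 25460) (nat_lit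 6) (nat_lit 115774668458710184328) (ZL.cons (nat_lit 25536) (nat_lit 6) (nat_lit 115496650887022486636) (ZL.cons (nat_lit 25612) (nat_lit 6) (nat_lit 115298240245488774368) (ZL.cons (nat_lit 25688) (nat_lit 6) (nat_lit 115179263165587319034) (ZL.cons (nat_lit 25764) (nat_lit 3) (nat_lit 57569807843381433466) (ZL.cons (nat_lit 25840) (nat_lit 6) (nat_lit 115074828685432256164) (ZL.cons (nat_lit 25916) (nat_lit 6) (nat_lit 115128038343471779898) (ZL.cons (nat_lit 25992) (nat_lit 6) (nat_lit 115234504153426784230) (ZL.cons (nat_lit 26068) (nat_lit 6) (nat_lit 115394319143674899750) (ZL.cons (nat_lit 26144) (nat_lit 6) (nat_lit 115607622958382362672) (ZL.cons (nat_lit 26220) (nat_lit 6) (nat_lit 115874601979523189224) (ZL.cons (nat_lit 26296) (nat_lit 6) (nat_lit 116195489489737211202) (ZL.cons (nat_lit 26372) (nat_lit 6) (nat_lit 115724255362762386734) (ZL.cons (nat_lit 26448) (nat_lit 6) (nat_lit 115332187669432785022)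 (ZL.cons (nat_lit 26524) (nat_lit 6) (nat_lit 115018943826327050096) (ZL.cons (nat_lit 26600) (nat_lit 6) (nat_lit 114784250125232759476) (ZL.cons (nat_lit 26676) (nat_lit 6) (nat_lit 114627901493983908440) (ZL.cons (nat_lit 26752) (nat_lit 6) (nat_lit 114549761317271638768) (ZL.cons (nat_lit 26828) (nat_lit 3) (nat_lit 57198361687565125900) (ZL.cons (nat_lit 26904) (nat_lit 6) (nat_lit 114423721378963113594) (ZL.cons (nat_lit 26980) (nat_lit 6) (nat_lit 114504738980950484978) (ZL.cons (nat_lit 27056) (nat_lit 6) (nat_lit 114639846973171772392) (ZL.cons (nat_lit 27132) (nat_lit 6) (nat_lit 114829163411154159482) (ZL.cons (nat_lit 27208) (nat_lit 6) (nat_lit 115072853717027922122) (ZL.cons (nat_lit 27284) (nat_lit 6) (nat_lit 115371130824070037386) (ZL.cons (nat_lit 27360) (nat_lit 6) (nat_lit 114945858991407758480) (ZL.cons (nat_lit 27436) (nat_lit 6) (nat_lit 114598414884789366046) (ZL.cons (nat_lit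 27512) (nat_lit 6) (nat_lit 114328494912277038192) (ZL.cons (nat_lit 27588) (nat_lit 6) (nat_lit 114135863221467608804) (ZL.cons (nat_lit 27664) (nat_lit 6) (nat_lit 114020351493407943430) (ZL.cons (nat_lit 27740) (nat_lit 3) (nat_lit 56990929397760062930) (ZL.cons (nat_lit 27816) (nat_lit 6) (nat_lit 113791578362973654792) (ZL.cons (nat_lit 27892) (nat_lit 6) (nat_lit 113846384310754364236) (ZL.cons (nat_lit 27968) (nat_lit 6) (nat_lit 113956044095008018702) (ZL.cons (nat_lit 28044) (nat_lit 6) (nat_lit 114120653534963577686) (ZL.cons (nat_lit 28120) (nat_lit 6) (nat_lit 114340356464112264494) (ZL.cons (nat_lit 28196) (nat_lit 6) (nat_lit 114615344855887315846) (ZL.cons (nat_lit 28272) (nat_lit 6) (nat_lit 114234696609936246218) (ZL.cons (nat_lit 28348) (nat_lit 6) (nat_lit 113930576373911260856) (ZL.cons (nat_lit 28424) (nat_lit 6) (nat_lit 113702718411683794234) (ZL.cons (nat_lit 28500) (nat_lit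 6) (nat_lit 113550923624063550508) (ZL.cons (nat_lit 28576) (nat_lit 6) (nat_lit 113475059374828337236) (ZL.cons (nat_lit 28652) (nat_lit 3) (nat_lit 56615528468764133531) (ZL.cons (nat_lit 28728) (nat_lit 6) (nat_lit 113258864881476114712) (ZL.cons (nat_lit 28804) (nat_lit 6) (nat_lit 113342313011523107238) (ZL.cons (nat_lit 28880) (nat_lit 6) (nat_lit 113481474243511033274) (ZL.cons (nat_lit 28956) (nat_lit 6) (nat_lit 113676470174632891976) (ZL.cons (nat_lit 29032) (nat_lit 6) (nat_lit 113927471189682867496) (ZL.cons (nat_lit 29108) (nat_lit 6) (nat_lit 113590146814325204940) (ZL.cons (nat_lit 29184) (nat_lit 6) (nat_lit 113328088588585080810) (ZL.cons (nat_lit 29260) (nat_lit 6) (nat_lit 113141067529546799850) (ZL.cons (nat_lit 29336) (nat_lit 6) (nat_lit 113028920220751008226) (ZL.cons (nat_lit 29412) (nat_lit 3) (nat_lit 56495774334701806262) (ZL.cons (nat_lit 29488) (nat_lit 6) (nat_lit 112741667326624134054)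 (ZL.cons (nat_lit 29564) (nat_lit 6) (nat_lit 112798117452838264786) (ZL.cons (nat_lit 29640) (nat_lit 6) (nat_lit 112911067030619528882) (ZL.cons (nat_lit 29716) (nat_lit 6) (nat_lit 113080614753773754636) (ZL.cons (nat_lit 29792) (nat_lit 6) (nat_lit 113306908770796902050) (ZL.cons (nat_lit 29868) (nat_lit 6) (nat_lit 113011646405724100726) (ZL.cons (nat_lit 29944) (nat_lit 6) (nat_lit 112790425083173162258) (ZL.cons (nat_lit 30020) (nat_lit 6) (nat_lit 112643051502959333400) (ZL.cons (nat_lit 30096) (nat_lit 6) (nat_lit 112569396892051359346) (ZL.cons (nat_lit 30172) (nat_lit 3) (nat_lit 56147169863002431139) (ZL.cons (nat_lit 30248) (nat_lit 6) (nat_lit 112322981908271145360) (ZL.cons (nat_lit 30324) (nat_lit 6) (nat_lit 112408933482219547662) (ZL.cons (nat_lit 30400) (nat_lit 6) (nat_lit 112552269551167111476) (ZL.cons (nat_lit 30476) (nat_lit 6) (nat_lit 112753115360222625942) (ZL.cons (nat_lit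 30552) (nat_lit 6) (nat_lit 112498689898339010280) (ZL.cons (nat_lit 30628) (nat_lit 6) (nat_lit 112317116054612523914) (ZL.cons (nat_lit 30704) (nat_lit 6) (nat_lit 112208235172286512626) (ZL.cons (nat_lit 30780) (nat_lit 3) (nat_lit 56085976056362967137) (ZL.cons (nat_lit 30856) (nat_lit 6) (nat_lit 111916491210841059246) (ZL.cons (nat_lit 30932) (nat_lit 6) (nat_lit 111974634840841613898) (ZL.cons (nat_lit 31008) (nat_lit 6) (nat_lit 112090972905956315918) (ZL.cons (nat_lit 31084) (nat_lit 6) (nat_lit 112265607060805168444) (ZL.cons (nat_lit 31160) (nat_lit 6) (nat_lit 112050829077746004884) (ZL.cons (nat_lit 31236) (nat_lit 6) (nat_lit 111907747931907336088) (ZL.cons (nat_lit 31312) (nat_lit 6) (nat_lit 111836238600928720502) (ZL.cons (nat_lit 31388) (nat_lit 3) (nat_lit 55789145087250854158) (ZL.cons (nat_lit 31464) (nat_lit 6) (nat_lit 111607791622235979886) (ZL.cons (nat_lit 31540) (nat_lit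 6) (nat_lit 111696321743402834256) (ZL.cons (nat_lit 31616) (nat_lit 6) (nat_lit 111843957894418824988) (ZL.cons (nat_lit 31692) (nat_lit 6) (nat_lit 111667672609247478998) (ZL.cons (nat_lit 31768) (nat_lit 6) (nat_lit 111561963014756205904) (ZL.cons (nat_lit 31844) (nat_lit 3) (nat_lit 55763368371669084335) (ZL.cons (nat_lit 31920) (nat_lit 6) (nat_lit 111308083283784446526) (ZL.cons (nat_lit 31996) (nat_lit 6) (nat_lit 111367971222685017814) (ZL.cons (nat_lit 32072) (nat_lit 6) (nat_lit 111487799429753160896) (ZL.cons (nat_lit 32148) (nat_lit 6) (nat_lit 111348885695929210608) (ZL.cons (nat_lit 32224) (nat_lit 6) (nat_lit 111279459160998515866) (ZL.cons (nat_lit 32300) (nat_lit 3) (nat_lit 55537623972207290219) (ZL.cons (nat_lit 32376) (nat_lit 6) (nat_lit 111105634435580880156) (ZL.cons (nat_lit 32452) (nat_lit 6) (nat_lit 111196820460382740156) (ZL.cons (nat_lit 32528) (nat_lit 6) (nat_lit 111094189786119368220)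 (ZL.cons (nat_lit 32604) (nat_lit 3) (nat_lit 55529994761303355356) (ZL.cons (nat_lit 32680) (nat_lit 6) (nat_lit 110909082155771592420) (ZL.cons (nat_lit 32756) (nat_lit 6) (nat_lit 110970766732839180850) (ZL.cons (nat_lit 32832) (nat_lit 6) (nat_lit 110903362329993846148) (ZL.cons (nat_lit 32908) (nat_lit 3) (nat_lit 55389071319273320818) (ZL.cons (nat_lit 32984) (nat_lit 6) (nat_lit 110809440724447930348) (ZL.cons (nat_lit 33060) (nat_lit 3) (nat_lit 55388118292557626577) (ZL.cons (nat_lit 33136) (nat_lit 6) (nat_lit 110712701470735637072) (ZL.cons (nat_lit 33212) (nat_lit 1) (nat_lit 18446744073709551617) ZL.nil))))))))))))))))))))))))))))))))))))))))))))))))))))))))))))))))))))))))))))))))))))))))))))))))))))))))))))))))))))))))))))))))))))))))))))))))))))))))))))))))))))))))))))))))))))))))))))))))))))))))))))))))))))))))))))))))))))))))))))))))))))))))))))))))))))))))))))))))))))))))))))))))))))))))))))))))))))))))))))))))))))))))))))))))))))))))))))))))))))))))))))))))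

noncomputable def vl : XL := ⟨(nat_lit 0), (nat_lit 76), (nat_lit 19290609), (nat_lit 152), (nat_lit 253496363), (nat_lit 76), (nat_lit 19290609), (nat_lit 1), (nat_lit 5), (nat_lit 2), (nat_lit 4), (nat_lit 1), (nat_lit 4), (nat_lit 0), (nat_lit 0), (nat_lit 0)⟩

noncomputable def cp0 : Nat := (nat_lit 4700075386512632738165149588967997545620482466429132624959302113168630803852231973934541638481849391668351022720064307357079108600754007767587960870975126509376048872333180603571021104663899121433122191966108083825430204954977882505034855566822172553787040491219774787827159784031370443020270385469014977644880723159749477384870344788199327524630728717628596140422412304340918407004764747012217569770630564935213435239055762551444998668340401075902807366105334792748323107454162275976258673875971611919894570947124342897799304474295813735307670751208688151580494065681928767149904965087752423772175339922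11488193377681114339785569448808712579287057239219786206562004723399805098068240742501855030690848497499227575437385810635624296149797553556596405945245672535312567776981790694581170522664941215735532006967322071449862772757993906681934052559704302945187591165576709422537001414024895487541353065625505858678591414235247780964444269154151539365813921029473925695929137938274501373821401298244182182631051202172082118619446822620506670577909515731474605307626835802902223540847607562368022185061772388962279420467313958675775610311944133695354432795974004228862751113840825813460401695017014607203432966585979244226126746464266842636794801552220695601696030380106250597657390329583337020060872252776405026224960624251026695699860084539844763405768929653574933896994697154476054574863863623844356121718974430019202322771864874576613310713982581692817155538735215483000309574771335561023626706761891081349277284808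90799419693171820277471650202068338571282226079567615653569046314063122592200856055712754857351326610253501210529737134638825316146011708954043003364276649865152320949511277962995518203136919238966118215216531123205912401865273418149521085488456508386418559205007366964007872524526335739744506458516764867261863431914293560982951865973948259658462237984934771908153714020129371476539855747381603162568659591621545440079395302718431876527642537702547200827257909310684010744469292551004688238296653352455746572571710513796064328978181976280618437066074537243252062719183376972828803000133787767380056724745654677908737360909152132208958308913943283904828942529455178278254193898354871332488308266454472610992058125408350805052890108863832872278784571946811135057102104833116662728113369957040200719581107008858182665486190580411962620974516503315933382314466393123049186918107447797185514023170893902986522451044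88283116779084554144189563269669393781405587512826452006320347605133878090439455514131520564387615559336049912159009676413043713012267973603200394725131556124007977970666457602509789976614422336804902669707955495374614391466256512859697924107156029554677266702676196323461163356762515766720375406172554211700414654662341955436939036737222426900419909558110447119136726112501526494881045112821093869749153373892425944328020489948962818104514805388707688908827552115737051833043182881056876915684408668208368165136053539353568506840460218755979839446245653568642653758424756750950445948363888482770280687417603368145097604068095523015424129563477894522161100809008399079057419545208739601657989520517488120142296770486769861518214301233415334409476124058564421719848864433120615722666552246648833503308470186583750573563891346442443345893326190966265795095389561228241535161827506705339426574253763488872381297101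72445726595934834939049251806197959605609750616587225408996810686626871180329923121709353491803724476626436855780136958082108679452340919077539146508341598528201508298592908772638384813329308805398026289962701002049380524573309316129115604560324034678309270165758826721572275771201755450821852002355678333207206706303462522692098887943967072314094556993666697076134143150134751190859496623282581018106424417647809750435100954236519246860945199382297180898292531912458319947896345586766901943386918567406323024827258687701298932522558228672995782916402226922693474497298087336427197977389420343921664465710379773094590771520588348340326487001793117343223823480501992775007623560704214027228574915357335484573302062490241488601890602059834548121920707865921306454327202521346892746107097993105114993511054606652391726599870278224437793328505145560234301553831361923944121965084002646543660847906419437928203232099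21107199292529769235941294124896434850074970453075027913258518699509161085204984299085056400559964251845510595389900603615157227327112384168737105838903803627717637949574835818894612344088580089008627281738937078298788771927274549498882117412773003054947356269936573860369041102511704818673241781274086763125308253266445113951752466414108130531307665481374134921657793806839261212369910928997880631631459231003530523355110634134890471138824077216275802303671304159228224023577986541831186577528981340835886246102953953463540366478066757549082881951082655884966958678641313353503596393543139029140766648801595549646444756571611186907917447767712726260962324849026894576828841818218460131671659463023959942396771416447028983184308927398919971322766556136125493326118067911064669942163505160306296358399177910287002274065540519112659285251831813212718686326152973492942890996364390980968268350623113203826551606065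72180226911439396617259072345712782239255595727758873313557052117465497463102260787649469150178167869984537336620783405121964399790538091274913257893313810720664950308981128565522141334727846236887478067695063828830849504299735684013826502042840566041150306751261183226000971117991050868286992075138054594898990838639597401248769394148575648887368210032776510973859571220297305907992558636680284671275666416541315098432220605225137948012408316813743887355030717075276614738387104104874792335258489527164692527357377004185167301831507752918804483883267946529317718754975171815962727181876531973221546204673128935746484575453865117185679414232477836854448464194706381994007390906264482591312075705690489749181231325254537635436853732896763169935163785760831147461081241287904138426514348599007467165290483863671641015020344279887336793954435649431474123032788005433656101190240730194370764637712276821893562718213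06350852970478319704694554689130700799218300253168828586789580925877071997114855378756719090358815831604586331354847607492135712070386352944217940849400175949927446399399310185999103096201104407736322248403685928019329698491706931358928966915618332932660219992580906213335835818240269169749182103345122179282137933168664990813688153483257938909552010369609529779787208639451647800917389313270698166554966298788322477006726303088710347956272986865960771897629105930758109603237578651749779925696770051661652156092310401122583704254575130092230232520463598482126081670813252954265309009713496485676112629991399379265182102834343178808032515716040865602988629481751885255855932180799920502175098106935420502347706099460991726394529849455789130595936010648914459530970459077218689956294088501660296608544934031537249188258668730232081595885023111083934269591932597819773690291871968403946084050605223805169302754222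43421591992190663531492874523310272083834600946399237014177067320297603315018595184936260268454293270459831260264101069545018474132398128583703185456777632769151365830604926159806049614227150133427955722998806137883499916263220426340990188880258018485210815676661470953024408039548416585389850575126597968166168389927025824981209243004298918289198778632433074081815171079805029249903833311467135565276815985043475278273826372917048355036939382157221039136875467611179938730453176093051364547628953226941645359107348471692070680297175304575488001456976147034269929276169196974392903781090589042665019976771908107127395340984750789205563927457767971423709863386768619398866895910366871276353556872989984431879623000060403679048866640068714582445855829130979255998887488234187763898058756886452736403938255191086122138200075617501961238123428198475179754746715858307306971161176786697755107483454037600619854419046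06500962438260514838508674147355453844919562638476379138049431672256192211372114048583263311481495221813511279057345500860798062120298499825361287769875987078225968505180879279851772923617937711676333275546529037560701429787423401888000381312488000185560904625516860552899758292994248024408269254929324205720564339208847589501688931665887439015938128328003575590042595866900026476615454464250277786777752595831136687096176905550627513813256441767441243075235767782197496192023093192520024558406058757275772960215775457290061856797258497537293677599352832648389986158246804655160629246738263452934866992491852168979116357003488558871049574681274782776987347266803767411393012035814550109963290901123967157368612811155759042656720569830599195775017211605080948712403553553451682562514928375134548349481018169680574335483254788521012793863462758668816873199796811655274189442576724126380696059309509607366288987308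51242472399983213376520846984586124095584756860686400715507213599460720593899924824839328578999455742315409274689563203239006603445815614962979776329697260993463032408554714862133483155103175694543912117267617597336701813852719966749719148084575761217171711451730414142781358018516713456085544820307154273793084466486428110910994645120718957255829477003388684327861393976727546710801486630184278782983131948668305909408780433187026271116303262315266095505871756400240718225646749484941539160349094556140784931534982833497526759351205428382649345201682553818407857573289355033323622001127290814362843800825660190840968778257881498634417857624879238487709963459051253480269987590683443074272170420472918964270395813443170345422755459471176339247264330465182726828105107677692659873739070657312336947140463259315049534445572273581490334715719740673694615375503847306989390945466638113111414276996113230065592928964639036072304870926223355623160285663633105057693275129480487209525021111449102000163355723417299191788321614385079707316434749702924433542131173063719818038204333341583359978361558169626845821356757128793091596411071160003310311682021897198212509723995952534090250032565153383023448437352793161448030208)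

noncomputable def cp1 : Nat := (nat_lit 30439883840386946295884028236977345582170568439895077918603689286373644384162549175238996264586355075010760729017343733553441507419572419479591665503034078154904632115493926044072890583771687216506525488278805438998159031796903403162824315830733280150411155289752212534447246714934858144704529806719673180483363439878692676072947085264701259519365420076471529626958705591477775930471703036468614439947818816299225906227016443303750003508630134787716156681409024333721737983918138195770067307836551447803878429567458839170610522189194870708530133207687487723752065954323690275539157076084089162635057981330291232724999214572288712637720692868197253765386389965842416858120238656563445709288584220151313201802845091496486011907885028996728357496878149848095574496623761428326143982348304594420328762482485119881293235570582020800423823290181757921934996999906248218081421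18307698093994749198203218602329982803662235418541633105764439000935450833926843100623274869779024952244128936779966396884529191011186475057457839520349204024691380853866049870776321821993380955682835389371275702796722673308117155713569617543167264192342415483125428367685557262544805235911792391303229470596751865857606557979993755295170860965437789152012182963835111345016783233725450524841010102363560669598242586955358572319652378609068961625009220666041797852002036473762455042473927336420291990460680310435009079122937176466528040661987553325038111876695216225312098782337881800611010655384454817028924586665717880405280322908088252387459487660888969725974863701078572183075461333314999196199818725054099856854451864533983182889314136134613270055425296926495616862582985561526283054178829636347505250029602963705696512926337840471163975588825685308171213399253628386492833258786766580041267017676602206595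47942902312330614371620295248462809091124598693669127779104406010896723119296301592900750499620900081834211230803128388469039251947626515454596432096533679782779292283824915016666919383357637242867985184800147079632392230406522356911609237762775787611516342892026176441090580894463408213035874561564643522062994430625562684060402882328870016791577228387851771571319520307878219130573898968653142995586956955132471815769098100881272510256222874662497141433512026026434113624324848712499861278444722871951366041548068118006643846777874238850312165762462288921054556475705430393247431058162863343200498923851197919734150119119761280426274072973126304212184953171664824278840410150221643868293294192798427568237718783476131867640441707778565082517398507335411222936655923862541964193223892158867901009662276447870317461993599899490027733954378646012480770211666844200253456475372686486619271354674449724345286820319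68261472619493121090904344252732815748570475271074691603637849183691567902478514854592768502543580235457665034382914633716649772089878112428120302178258599168020399998673840360043568030136534969475686181174450760252788785373351813455639182759672032934701599650712043747661041093989015996109661555125861403131456543147091242011469439281051835804183050293049479093718362775733526021271305851359226500937979725796561361751317518166234226924911998151205644404217964498746423353401226246429873225246474138746211796628474173436682366024932604351643596185174608298644475058597140326941584569961881983542197562543025126031654529969044897644102049114299381941653062847875706227173004440795927065890025715569594962770688393116101402224827923977395603645965907391397899359797315634193465457899177095350597558487928792164727006973106335215498998709524423873465314282390150821364115003124960774787557227942825560028218318209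98283842593746931259962648493630851117643058391590059358719732868476951235336654335636183125341182964009424287285024896432737439500916765402341392746242278880081012772623437940477711451741613709779551225352586097115423473449697757913656284578321866926000882070379173778156889837388165199261492089202239002154014933405075834350461262409437817929310974886975165269997666924228159292362934611237671303163392788544729119997456891708194185989458005573853215246000177450750966098956257182501614498846614608246124963888901089897265370497249558643724781626817005113166546899704293702028288359777118587025962388403840468661977622924574925192680396671458805123214999036944222762373296538162198236700638099559641392112832497622392068811862275366325909254601590408948011846475610235573039847227488672532530299701925752734818219144509949915127869473462775230989762720771994765011117574796046880795252731293923192760694737497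22190631208537015607701938769266346133362713878959641738480588042215057569558749618733955742506465148617265023735005374180191620665619155526479464865699575662511030556979784063862533495405271850442867286551894034704134619307569878834237847579791338676235870761528479326578774471416492995455539401514777027596699892726294978853904714434123183912195577575954467858512764402087112886112337300705801775967591141581737410664498667590966403194126463850418751530041107406127360222186654376341449703270634871094873846902084003012655760926780672220131564990388302496409516207664675883861987656776817162262200031393620223307522476677028150463878980579839308335385950892529241812920923869804894447973673836953925944224705052306466473113746896292598181556897708387896124847689402687236791872078495255386223407666916588708973920623742869838010447371986573252606822567880455069556819546118911985655628995799425699845951854847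05641292314268288722704430044981577519136859387934464070674896756999688747663668342451846010085851053762388241811071300917150871302914364941379390235602451426480287807219203336587842153761926895581205166923651968570596628362038545880260084042880798151804732429252123801782507018340322623453862065612324124122771945834351104033703279618476202292127284107542264323059400455924095971376955455169589154983569010593263576103382269231774654876765129986961635270592162022649722222149665612493621495983183606725113424285611332497972055412139758816724939684914971573418884143450442297124907116747524454157461946392291848777690036712671847703482045805453300585363784928661714546194138295816231401163605531540342514782315512900873045117022237064396719623574840460782092282461737138801725170240143897378366360927864273580854073440892991903347944869991472843890549888172669464374597434445666304149384094852864297679365112818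01197506885645171822980358348559869448536182029440237452845430502535072151347513123262641739235677360673448186981317354549506829173888299018581927189382559999479595648918440753708792756622757219086472494555274838370031147228680691792548103294872206844829898491590824859768794894254156147470282296364836450475243161169643959028338523980188173966332446608015381376571446143455447655424493766774178944689460182176321278527281911387034452844684367763045585128181285742164804409228062221072641345657094583512176434415994037959835345508776150453608273877356156851742852138584191531308591746854909846912622858027286543287363831701696243637452277004015653654244111021276338889778880494340601760283450976919343340807688646075363433373940963409616138267943180516435257498776247953241553657916594034604398136265232630097588497744813798040117387736302696030570124368775586510016312859309521534806514782875693996936487563882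63273527950091095210121514444687056303830278018673505503060105231462532696538298792999526497319699316387012342805019463199834310116300601010323699366936864218435259666074398193089095510858418232163564142110854081555671972106954483051411230787237313233081780136696799594391672420768926239245657902641346712156989628115513317986386868522226132136962143691928335798884860531172282705030268686547758858482438314142385302766991348477086968672450164327662132343633218603434085678883407049565947070236671579743754816469925980294232585687845052492435579069789202694026937428474093579241762611758182491970112796803718032546531732897306209478074109409566090651721627410943147800294204543636798484476438900131159499208871087013214661828994154194339909587737420421705886210601727602233968784840733903619089085058920250199391163964367976722282012509516696274897557954361214902652536423312169031994567759665167643261602120977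45364888782838459205111073109643113211969345056732108905190374380983849666022429869969930809081291002821209991488349208057319420887944577409029880464555926802472099802188561802843113374625530874464606438754051599318884155897621907795411414560753876508816579324926376451303944964800486145793433416726513600359292181213117299992573378487672563272561096136190978066884528907984652798711634297617711477233374053805636599612812095929291089774597552048895872400998502153549944529932735931941011183752636754152119331895535243303245677290768971700880112390978876115792119820001903115230609149661155017334871465277534155784548810373470587375916993632900631118934601679526314343074965193363751479610876618967260393758370619830840875792195980200958619110821671414604928680932541314175380861610744312586279908325289206568694126182961721863741032374609872787062773387937394299505012034169507099412607966096692584214159275662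12996682669398064776300988164958213119190245585488397980185584663660699029088689085176571510744972714614176963276045150868233213120464973619967395461657984044191502216517666280057919445990082411534075959915601488414685370842044897547162751141591452659620076067434812804102802675876627309104740601524474247453296408244582672455318908661862779210621268823747211508707090061762804966550162991960872689276272043768231882109096310815899799962544925596116593220764575427628909522434113728566216607321041053056985414969536855954618807145591721300076378143659869459697641149150761166101445711206837447323095960298530487042406673827880067927748201566754822269226109280625651053884177642056473782977126376360902386388296492729664066555542847179175503990434712520675111890600350287934919592705311632259223208317984342691754160760793136985440680797112863471365837563662496263422967000934159379953940720002344228455570575984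03696612535995173539494767203275246448604388937536136819720682236490267181733968172548871575727306135087621154643031809248395256719771984934806263883546812883615425157591580021624319139610458781926843217525036545031571702523577281181856726110210154930909634248451697036574844248447418654476743705874490003170231627990370462555557269685272957735045501577754647398661134524219681986207410630003597526594860625166008761088479520435558536930748648692566085185626264981933918963584384314141073694328203254473048601570335547589056071714297295631694339283613723156859035098735670977805989692562562974636236946785743169781079949449382143400309309596273195375436318422901088448557024660432880397398823220856896553041463220329272926528872109232214444371544174349167737018272387583023776554157471708120484552408281051183892885011998812100840615929435115796618091350340406232630351580399249308826351261949842324688315316346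08002161267437406197292889319186780568161888973491340554338612797555672453240788417421951125606460021557832889255644832939271787776109267037433128486748513929974581263808057849074389096302027586684109847031261625778439539458267983301091955293700665877525204103881556825926002279952608841002410997010779454991264616907761431880263414780983425641545249452228199187473368240585714393806433413303522131005984335874890040252682288875268884291248710342521180111037820135757786916801386320368543574938360743058747183574518785061484345181664365215147916034316757512265974537255540505478047865953474947651214719620912566130863369913033178221439347896190386975354530131039190199612568796850359633034802195726052532839043125507711148491591547809251797144579878277962577732259270013041845735689765082718926784611555576089552431416040093363495608891623532959770409059264740807050375885654104444601976150486914646823723712534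95497609571671662768130127416699307518996813819348304102179563833151576944889485384360155640230303769184141323528937605416862312258562823659974871318609380428436096284362754310219495379539718237564567267579967397111489282979148611421932464080703505638945726936847545410174865549110966718021133748487617005467709793503410009880364085778838536247362173176679569649160927503268492930807827839368222140591778799665920895804058092676162916395828321204411214623167019173631699429450644664748783772867266244864494637213761843215642390364978484882025511730958916169539465398437146660853324437239191042192842675968207961414292223568968473115071354522178615780829802799930885134478069553475495126173461085316299101588846975779349062305683470835398234265357972193133358516270608537505691019567574705144713123497270451629465887346837835345220689148877782379729247145150646543280802071925841687662193919102913791194040260751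33271001724549870710314361817402814758950307874627500784213655898278676950508765500273864424289993388492168588920868502606505370362894534325813141529311168611943089393846273859617247812778380810278987512588151582697072477151793794011600888694026121296289381979569477672731169904024741433746591164599196718291656284408371826348264708264672328258531055955790596816068659318079607036634399975708588199290052930169831797126722046552548188121155696005799550021813353179471353945504573544185423732646225899477236064526284440481431253335930404142016507306963881693119225639198522748872376929297984726055461134867497896045734346766508404222246671462889472419607951124749493329137036737257194802284945353145289109160677041304192570520814738635417196772944984575794590765525230633139066406281934069943877253805015350039558936128917078815364532624347196330719731081468716022601998878848159333703639168185108659592821226145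71551812528208726037166360752500725457266791645491865302720249718925400032911546512759208133024095493555320450683096545529453842763223611319359700604395676074817786611054260679628697278894365514211718994217540518746889298791518704476928351909799250261684698539676732654250873893373808104351691939664458566373895485439269610609924734722074607270451950038340914448353725391720561924410278794238160602600186307515660835131639285411980965775868578142378952745948286789368125727373240421154911146020338969111121603749025746474523338742643842900000816187392762358383379718426704120409226333406132456026236846856482087341776334989297768526188435145847939298457770557727029589866348002760556452000615290145386151102384516131367672738252328268762586057998461568472790828528809148698392140978189538368848354822491753620250842724848945401933153085206714487179959408093635561380148311592588095562594300859124166092928538746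47007634395954564954670747777053665741426291157117609201479589434221236364344041137166674431461776031805392531920728458909715357065493741966125932745613888126482146194698779736387997887014408309001553963415594197517136340755066753740185396295909400999085908637397771977059368679809699113753541619981488944748170609193290237187696310711349662116523968415311684942911666903654879420255707557874049337737424214093243159858189996650138789778142521031151079596201351617708504179437499258794351048763401449899789671868061059107344168435674692026549909942771691121940619320444784748415412222654662693286344799071540094256000806754675732869778305211345789032501164883109766091930889609607046865052498974862255596512903633121421178360615832441215997143501619837668819217369081806712332076596318364517651960976558616890423884177996194175407719166234103290819085793717117609218929146208006288057702924212319569268069321611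67143595091977464035960311850466706694088393240683527032337512874837425200415531129670591839404629856372788592197946989097794766345604092370616404066702467921934823627211840884054842706828793756198703654923990143407085923162539081264279475302596568415239041773719493030155684106865040553161336931239635262800452606931602087306608108600289094040675220246087302900271279136710012741862945584993918867509475312440769676064123996532532569247935730903630093696596300077979716135361489372215431466708171438910073466916401390628661139156382637863072841505654912660240919358726014319808580287054294955055389440122983293706972432819860574491486000039432344504877892790435955448072867391010047897643953418064123323734160986132727401129631628706539026006616936180266731005227245921409179193435818117116240343848347636824051843819871777587757662153594374280311875816953930339468805759078387495727211248208552890857056701985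23143750288905890059334303077368647017707265142411997128352368805934238050394832918928428959204955088706594614238302999079107279483838835138906439304071852399951202496789828136331228518287234598853821037698006401860760318227091524805309768850858951055998929787888471023382057968735252554021224199326562366738494115045535436097768019532523485808833495413586401678692856584975054350352310988263650375385148119648202850542088268991707253798430620642802289838147556475732187731453506951827550433168703838112847306241191753859653094284562639932984851480472903288347576168577994328066855427820767383762025726606958342554585802307842145579788019052813576102761624101988859003819223125365943839336109948226016503045512341459504528916291955646402558075612713797945965949672668883621822744708956392873745991829224216793625466281074054085574237982330953721975911263869663859078437221693491879464384362389254614128478330758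808006263584697664139859651088541785318556241629476505226609486925190205697860911815375221683622810948137538180149302094533954308483584705293342349222695743439748476416599222709856827121955933229162628440643528568790333908282808296924829922625114382577685937952398818708405069808083131426945112945015419391499604906327706338193721106353003418308696845595119695534346759197554016742281260554590658558650893381533546845214202217884604288924448716962494475853652880605200517971237142528)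

noncomputable def rc0 : Nat := (nat_lit 30439883840386946295884028236977345582170568439895077918603689286373644384162549175238996264586355075010760729017343733553441507419572419479591665503034078154904632115493926044072890583771687216506525488278805438998159031796903403162824315830733280150411155289752212534447246714934858144704529806719673180483363439878692676072947085264701259519365420076471529626958705591477775930471703036468614439947818816299225906227016443303750003508630134787716156681409024333721737983918138195770067307836551447803878429567458839170610522189194870708530133207687487723752065954323690275539157076084089162635057981330291232724999214572288712637720692868197253765386389965842416858120238656563445709288584220151313201802845091496486011907885028996728357496878149848095574496623761428326143982348304594420328762482485119881293235570582020800423823290181757921934996999906248218081421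18307698093994749198203218602329982803662235418541633105764439000935450833926843100623274869779024952244128936779966396884529191011186475057457839520349204024691380853866049870776321821993380955682835389371275702796722673308117155713569617543167264192342415483125428367685557262544805235911792391303229470596751865857606557979993755295170860965437789152012182963835111345016783233725450524841010102363560669598242586955358572319652378609068961625009220666041797852002036473762455042473927336420291990460680310435009079122937176466528040661987553325038111876695216225312098782337881800611010655384454817028924586665717880405280322908088252387459487660888969725974863701078572183075461333314999196199818725054099856854451864533983182889314136134613270055425296926495616862582985561526283054178829636347505250029602963705696512926337840471163975588825685308171213399253628386492833258786766580041267017676602206595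47942902312330614371620295248462809091124598693669127779104406010896723119296301592900750499620900081834211230803128388469039251947626515454596432096533679782779292283824915016666919383357637242867985184800147079632392230406522356911609237762775787611516342892026176441090580894463408213035874561564643522062994430625562684060402882328870016791577228387851771571319520307878219130573898968653142995586956955132471815769098100881272510256222874662497141433512026026434113624324848712499861278444722871951366041548068118006643846777874238850312165762462288921054556475705430393247431058162863343200498923851197919734150119119761280426274072973126304212184953171664824278840410150221643868293294192798427568237718783476131867640441707778565082517398507335411222936655923862541964193223892158867901009662276447870317461993599899490027733954378646012480770211666844200253456475372686486619271354674449724345286820319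68261472619493121090904344252732815748570475271074691603637849183691567902478514854592768502543580235457665034382914633716649772089878112428120302178258599168020399998673840360043568030136534969475686181174450760252788785373351813455639182759672032934701599650712043747661041093989015996109661555125861403131456543147091242011469439281051835804183050293049479093718362775733526021271305851359226500937979725796561361751317518166234226924911998151205644404217964498746423353401226246429873225246474138746211796628474173436682366024932604351643596185174608298644475058597140326941584569961881983542197562543025126031654529969044897644102049114299381941653062847875706227173004440795927065890025715569594962770688393116101402224827923977395603645965907391397899359797315634193465457899177095350597558487928792164727006973106335215498998709524423873465314282390150821364115003124960774787557227942825560028218318209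98283842593746931259962648493630851117643058391590059358719732868476951235336654335636183125341182964009424287285024896432737439500916765402341392746242278880081012772623437940477711451741613709779551225352586097115423473449697757913656284578321866926000882070379173778156889837388165199261492089202239002154014933405075834350461262409437817929310974886975165269997666924228159292362934611237671303163392788544729119997456891708194185989458005573853215246000177450750966098956257182501614498846614608246124963888901089897265370497249558643724781626817005113166546899704293702028288359777118587025962388403840468661977622924574925192680396671458805123214999036944222762373296538162198236700638099559641392112832497622392068811862275366325909254601590408948011846475610235573039847227488672532530299701925752734818219144509949915127869473462775230989762720771994765011117574796046880795252731293923192760694737497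22190631208537015607701938769266346133362713878959641738480588042215057569558749618733955742506465148617265023735005374180191620665619155526479464865699575662511030556979784063862533495405271850442867286551894034704134619307569878834237847579791338676235870761528479326578774471416492995455539401514777027596699892726294978853904714434123183912195577575954467858512764402087112886112337300705801775967591141581737410664498667590966403194126463850418751530041107406127360222186654376341449703270634871094873846902084003012655760926780672220131564990388302496409516207664675883861987656776817162262200031393620223307522476677028150463878980579839308335385950892529241812920923869804894447973673836953925944224705052306466473113746896292598181556897708387896124847689402687236791872078495255386223407666916588708973920623742869838010447371986573252606822567880455069556819546118911985655628995799425699845951854847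05641292314268288722704430044981577519136859387934464070674896756999688747663668342451846010085851053762388241811071300917150871302914364941379390235602451426480287807219203336587842153761926895581205166923651968570596628362038545880260084042880798151804732429252123801782507018340322623453862065612324124122771945834351104033703279618476202292127284107542264323059400455924095971376955455169589154983569010593263576103382269231774654876765129986961635270592162022649722222149665612493621495983183606725113424285611332497972055412139758816724939684914971573418884143450442297124907116747524454157461946392291848777690036712671847703482045805453300585363784928661714546194138295816231401163605531540342514782315512900873045117022237064396719623574840460782092282461737138801725170240143897378366360927864273580854073440892991903347944869991472843890549888172669464374597434445666304149384094852864297679365112818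01197506885645171822980358348559869448536182029440237452845430502535072151347513123262641739235677360673448186981317354549506829173888299018581927189382559999479595648918440753708792756622757219086472494555274838370031147228680691792548103294872206844829898491590824859768794894254156147470282296364836450475243161169643959028338523980188173966332446608015381376571446143455447655424493766774178944689460182176321278527281911387034452844684367763045585128181285742164804409228062221072641345657094583512176434415994037959835345508776150453608273877356156851742852138584191531308591746854909846912622858027286543287363831701696243637452277004015653654244111021276338889778880494340601760283450976919343340807688646075363433373940963409616138267943180516435257498776247953241553657916594034604398136265232630097588497744813798040117387736302696030570124368775586510016312859309521534806514782875693996936487563882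63273527950091095210121514444687056303830278018673505503060105231462532696538298792999526497319699316387012342805019463199834310116300601010323699366936864218435259666074398193089095510858418232163564142110854081555671972106954483051411230787237313233081780136696799594391672420768926239245657902641346712156989628115513317986386868522226132136962143691928335798884860531172282705030268686547758858482438314142385302766991348477086968672450164327662132343633218603434085678883407049565947070236671579743754816469925980294232585687845052492435579069789202694026937428474093579241762611758182491970112796803718032546531732897306209478074109409566090651721627410943147800294204543636798484476438900131159499208871087013214661828994154194339909587737420421705886210601727602233968784840733903619089085058920250199391163964367976722282012509516696274897557954361214902652536423312169031994567759665167643261602120977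45364888782838459205111073109643113211969345056732108905190374380983849666022429869969930809081291002821209991488349208057319420887944577409029880464555926802472099802188561802843113374625530874464606438754051599318884155897621907795411414560753876508816579324926376451303944964800486145793433416726513600359292181213117299992573378487672563272561096136190978066884528907984652798711634297617711477233374053805636599612812095929291089774597552048895872400998502153549944529932735931941011183752636754152119331895535243303245677290768971700880112390978876115792119820001903115230609149661155017334871465277534155784548810373470587375916993632900631118934601679526314343074965193363751479610876618967260393758370619830840875792195980200958619110821671414604928680932541314175380861610744312586279908325289206568694126182961721863741032374609872787062773387937394299505012034169507099412607966096692584214159275662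12996682669398064776300988164958213119190245585488397980185584663660699029088689085176571510744972714614176963276045150868233213120464973619967395461657984044191502216517666280057919445990082411534075959915601488414685370842044897547162751141591452659620076067434812804102802675876627309104740601524474247453296408244582672455318908661862779210621268823747211508707090061762804966550162991960872689276272043768231882109096310815899799962544925596116593220764575427628909522434113728566216607321041053056985414969536855954618807145591721300076378143659869459697641149150761166101445711206837447323095960298530487042406673827880067927748201566754822269226109280625651053884177642056473782977126376360902386388296492729664066555542847179175503990434712520675111890600350287934919592705311632259223208317984342691754160760793136985440680797112863471365837563662496263422967000934159379953940720002344228455570575984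03696612535995173539494767203275246448604388937536136819720682236490267181733968172548871575727306135087621154643031809248395256719771984934806263883546812883615425157591580021624319139610458781926843217525036545031571702523577281181856726110210154930909634248451697036574844248447418654476743705874490003170231627990370462555557269685272957735045501577754647398661134524219681986207410630003597526594860625166008761088479520435558536930748648692566085185626264981933918963584384314141073694328203254473048601570335547589056071714297295631694339283613723156859035098735670977805989692562562974636236946785743169781079949449382143400309309596273195375436318422901088448557024660432880397398823220856896553041463220329272926528872109232214444371544174349167737018272387583023776554157471708120484552408281051183892885011998812100840615929435115796618091350340406232630351580399249308826351261949842324688315316346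08002161267437406197292889319186780568161888973491340554338612797555672453240788417421951125606460021557832889255644832939271787776109267037433128486748513929974581263808057849074389096302027586684109847031261625778439539458267983301091955293700665877525204103881556825926002279952608841002410997010779454991264616907761431880263414780983425641545249452228199187473368240585714393806433413303522131005984335874890040252682288875268884291248710342521180111037820135757786916801386320368543574938360743058747183574518785061484345181664365215147916034316757512265974537255540505478047865953474947651214719620912566130863369913033178221439347896190386975354530131039190199612568796850359633034802195726052532839043125507711148491591547809251797144579878277962577732259270013041845735689765082718926784611555576089552431416040093363495608891623532959770409059264740807050375885654104444601976150486914646823723712534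95497609571671662768130127416699307518996813819348304102179563833151576944889485384360155640230303769184141323528937605416862312258562823659974871318609380428436096284362754310219495379539718237564567267579967397111489282979148611421932464080703505638945726936847545410174865549110966718021133748487617005467709793503410009880364085778838536247362173176679569649160927503268492930807827839368222140591778799665920895804058092676162916395828321204411214623167019173631699429450644664748783772867266244864494637213761843215642390364978484882025511730958916169539465398437146660853324437239191042192842675968207961414292223568968473115071354522178615780829802799930885134478069553475495126173461085316299101588846975779349062305683470835398234265357972193133358516270608537505691019567574705144713123497270451629465887346837835345220689148877782379729247145150646543280802071925841687662193919102913791194040260751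33271001724549870710314361817402814758950307874627500784213655898278676950508765500273864424289993388492168588920868502606505370362894534325813141529311168611943089393846273859617247812778380810278987512588151582697072477151793794011600888694026121296289381979569477672731169904024741433746591164599196718291656284408371826348264708264672328258531055955790596816068659318079607036634399975708588199290052930169831797126722046552548188121155696005799550021813353179471353945504573544185423732646225899477236064526284440481431253335930404142016507306963881693119225639198522748872376929297984726055461134867497896045734346766508404222246671462889472419607951124749493329137036737257194802284945353145289109160677041304192570520814738635417196772944984575794590765525230633139066406281934069943877253805015350039558936128917078815364532624347196330719731081468716022601998878848159333703639168185108659592821226145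71551812528208726037166360752500725457266791645491865302720249718925400032911546512759208133024095493555320450683096545529453842763223611319359700604395676074817786611054260679628697278894365514211718994217540518746889298791518704476928351909799250261684698539676732654250873893373808104351691939664458566373895485439269610609924734722074607270451950038340914448353725391720561924410278794238160602600186307515660835131639285411980965775868578142378952745948286789368125727373240421154911146020338969111121603749025746474523338742643842900000816187392762358383379718426704120409226333406132456026236846856482087341776334989297768526188435145847939298457770557727029589866348002760556452000615290145386151102384516131367672738252328268762586057998461568472790828528809148698392140978189538368848354822491753620250842724848945401933153085206714487179959408093635561380148311592588095562594300859124166092928538746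47007634395954564954670747777053665741426291157117609201479589434221236364344041137166674431461776031805392531920728458909715357065493741966125932745613888126482146194698779736387997887014408309001553963415594197517136340755066753740185396295909400999085908637397771977059368679809699113753541619981488944748170609193290237187696310711349662116523968415311684942911666903654879420255707557874049337737424214093243159858189996650138789778142521031151079596201351617708504179437499258794351048763401449899789671868061059107344168435674692026549909942771691121940619320444784748415412222654662693286344799071540094256000806754675732869778305211345789032501164883109766091930889609607046865052498974862255596512903633121421178360615832441215997143501619837668819217369081806712332076596318364517651960976558616890423884177996194175407719166234103290819085793717117609218929146208006288057702924212319569268069321611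67143595091977464035960311850466706694088393240683527032337512874837425200415531129670591839404629856372788592197946989097794766345604092370616404066702467921934823627211840884054842706828793756198703654923990143407085923162539081264279475302596568415239041773719493030155684106865040553161336931239635262800452606931602087306608108600289094040675220246087302900271279136710012741862945584993918867509475312440769676064123996532532569247935730903630093696596300077979716135361489372215431466708171438910073466916401390628661139156382637863072841505654912660240919358726014319808580287054294955055389440122983293706972432819860574491486000039432344504877892790435955448072867391010047897643953418064123323734160986132727401129631628706539026006616936180266731005227245921409179193435818117116240343848347636824051843819871777587757662153594374280311875816953930339468805759078387495727211248208552890857056701985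23143750288905890059334303077368647017707265142411997128352368805934238050394832918928428959204955088706594614238302999079107279483838835138906439304071852399951202496789828136331228518287234598853821037698006401860760318227091524805309768850858951055998929787888471023382057968735252554021224199326562366738494115045535436097768019532523485808833495413586401678692856584975054350352310988263650375385148119648202850542088268991707253798430620642802289838147556475732187731453506951827550433168703838112847306241191753859653094284562639932984851480472903288347576168577994328066855427820767383762025726606958342554585802307842145579788019052813576102761624101988859003819223125365943839336109948226016503045512341459504528916291955646402558075612713797945965949672668883621822744708956392873745991829224216793625466281074054085574237982330953721975911263869663859078437221693491879464384362389254614128478330758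808006263584697664139859651088541785318556241629476505226609486925190205697860911815375221683622810948137538180149302094533954308483584705293342349222695743439748476416599222709856827121955933229162628440643528568790333908282808296924829922625114382577685937952398818708405069808083131426945112945015419391499604906327706338193721106353003418308696845595119695534346759197554016742281260554590658558650893381533546845214202217884604288924448716962494475853652880605200517971237142528)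

end Vale.Agent.Lib.P154.PChain.BD.S7
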